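import Mathlib

-- ▼ part R096/Ac1_117
section

/-!
# R096 (row 96), (ARCS), part 1: two involutions, classes, pairs of fixed points (helper117)

`cls s t d` = the smallest set containing `d` and closed under `s` and `t`.
`pair`: if `s` has no fixed point and `t d = d`, the class of `d` contains exactly one further fixed
point of `t`.
-/

set_option autoImplicit false

open Set

namespace Crest.Agent.R096.Ac_117

section Pair

variable {D : Type*}

/-- the class of `d` under `s`, `t` -/
def cls (s t : D → D) (d : D) : Set D :=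
  {f | ∀ X : Set D, (∀ a ∈ X, s a ∈ X) → (∀ a ∈ X, t a ∈ X) → d ∈ X → f ∈ X}

lemma mem_cls (s t : D → D) (d : D) : d ∈ cls s t d := fun _ _ _ h => h

lemma cls_s {s t : D → D} {d a : D} (h : a ∈ cls s t d) : s a ∈ cls s t d :=
  fun X hs ht hd => hs a (h X hs ht hd)

lemma cls_t {s t : D → D} {d a : D} (h : a ∈ cls s t d) : t a ∈ cls s t d :=
  fun X hs ht hd => ht a (h X hs ht hd)

/-- induction along a class -/
lemma cls_ind {s t : D → D} {d : D} {P : D → Prop} (hd : P d)
    (hs : ∀ a ∈ cls s t d, P a → P (s a)) (ht : ∀ a ∈ cls s t d, P a → P (t a)) :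
    ∀ a ∈ cls s t d, P a := by
  intro a ha
  have := ha {b | b ∈ cls s t d ∧ P b} (fun b hb => ⟨cls_s hb.1, hs b hb.1 hb.2⟩)
    (fun b hb => ⟨cls_t hb.1, ht b hb.1 hb.2⟩) ⟨mem_cls s t d, hd⟩
  exact this.2

lemma cls_symm {s t : D → D} (hs : Function.Involutive s) (ht : Function.Involutive t) {d a : D}
    (h : a ∈ cls s t d) : d ∈ cls s t a := by
  refine cls_ind (P := fun b => d ∈ cls s t b) (mem_cls s t d) ?_ ?_ a h
  · intro b _ hb X h1 h2 h3
    refine hb X h1 h2 ?_
    have := h1 _ h3
    rwa [hs b] at this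
  · intro b _ hb X h1 h2 h3
    refine hb X h1 h2 ?_
    have := h2 _ h3
    rwa [ht b] at this

lemma cls_trans {s t : D → D} {d a b : D} (h : a ∈ cls s t d) (h' : b ∈ cls s t a) :
    b ∈ cls s t d := fun X h1 h2 h3 => h' X h1 h2 (h X h1 h2 h3)

theorem pair [Finite D] {s t : D → D} (hs : Function.Involutive s) (ht : Function.Involutive t)
    (hsf : ∀ d, s d ≠ d) {d : D} (hd : t d = d) :
    ∃ e ∈ cls s t d, t e = e ∧ e ≠ d ∧ ∀ f ∈ cls s t d, t f = f → f = d ∨ f = e := by
  classical
  let S : Equiv.Perm D := hs.toPerm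
  let T : Equiv.Perm D := ht.toPerm
  have hSS : S * S = 1 := by
    ext x; exact hs x
  have hTT : T * T = 1 := by
    ext x; exact ht x
  have hSi : S⁻¹ = S := inv_eq_of_mul_eq_one_left hSS
  have hTi : T⁻¹ = T := inv_eq_of_mul_eq_one_left hTT
  let g : Equiv.Perm D := T * S
  have hgi : g⁻¹ = S * T := by
    show (T * S)⁻¹ = S * T
    rw [mul_inv_rev, hSi, hTi]
  have hS : ∀ n : ℤ, S * g ^ n * S⁻¹ = g ^ (-n) := by
    intro n
    rw [← conj_zpow]
    have : S * g * S⁻¹ = g⁻¹ := by
      rw [hSi, hgi]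
      show S * (T * S) * S = S * T
      rw [mul_assoc, mul_assoc, hSS, mul_one]
    rw [this, inv_zpow']
  have hT : ∀ n : ℤ, T * g ^ n * T⁻¹ = g ^ (-n) := by
    intro n
    rw [← conj_zpow]
    have : T * g * T⁻¹ = g⁻¹ := by
      rw [hTi, hgi]
      show T * (T * S) * T = S * T
      rw [← mul_assoc, hTT, one_mul]
    rw [this, inv_zpow']
  have tpow : ∀ n : ℤ, t ((g ^ n) d) = (g ^ (-n)) d := by
    intro n
    have h1 := congrArg (fun e : Equiv.Perm D => e d) (hT n)
    have h2 : (T * g ^ n * T⁻¹) d = t ((g ^ n) d) := by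
      rw [hTi]
      show t ((g ^ n) (t d)) = _
      rw [hd]
    rw [← h2]
    exact h1
  have sd : s d = (g ^ (-1 : ℤ)) d := by
    rw [zpow_neg_one, hgi]
    show s d = s (t d)
    rw [hd]
  have spow : ∀ n : ℤ, s ((g ^ n) d) = (g ^ (-n - 1)) d := by
    intro n
    have h1 := congrArg (fun e : Equiv.Perm D => e (s d)) (hS n)
    have h2 : (S * g ^ n * S⁻¹) (s d) = s ((g ^ n) d) := by
      rw [hSi]
      show s ((g ^ n) (s (s d))) = _
      rw [hs d]
    rw [← h2]
    refine h1.trans ?_
    show (g ^ (-n)) (s d) = _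
    rw [sd, ← Equiv.Perm.mul_apply, ← zpow_add]
    rfl
  -- the class is the orbit
  have horb : ∀ f ∈ cls s t d, ∃ n : ℤ, f = (g ^ n) d := by
    intro f hf
    refine hf {f | ∃ n : ℤ, f = (g ^ n) d} ?_ ?_ ⟨0, by simp⟩
    · rintro a ⟨n, rfl⟩
      exact ⟨_, spow n⟩
    · rintro a ⟨n, rfl⟩
      exact ⟨_, tpow n⟩
  have hgc : ∀ a ∈ cls s t d, g a ∈ cls s t d := fun a ha => cls_t (cls_s ha)
  have hnat : ∀ n : ℕ, (g ^ n) d ∈ cls s t d := by
    intro n
    induction n with
    | zero => simpa using mem_cls s t d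
    | succ n ih =>
      rw [pow_succ', Equiv.Perm.mul_apply]
      exact hgc _ ih
  let N : ℕ := Function.minimalPeriod (fun x => g • x) d
  have hN : ∀ n : ℤ, (g ^ n) d = d ↔ (N : ℤ) ∣ n := by
    intro n
    exact MulAction.zpow_smul_eq_iff_minimalPeriod_dvd (a := g) (b := d) (n := n)
  have hNpos : 0 < N := by
    apply Function.minimalPeriod_pos_of_mem_periodicPts
    have : IsOfFinOrder g := isOfFinOrder_of_finite g
    obtain ⟨m, hm, hgm⟩ := isOfFinOrder_iff_pow_eq_one.1 this
    refine ⟨m, hm, ?_⟩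
    show (fun x => g • x)^[m] d = d
    rw [smul_iterate]
    show (g ^ m) d = d
    rw [hgm]; rfl
  have heven : Even N := by
    rw [← Nat.not_odd_iff_even]
    rintro ⟨m, hm⟩
    apply hsf ((g ^ (m : ℤ)) d)
    rw [spow]
    have h1 : (g ^ (-(m : ℤ) - 1)) d = (g ^ (m : ℤ)) ((g ^ (-(2 * m + 1 : ℤ))) d) := by
      rw [← Equiv.Perm.mul_apply, ← zpow_add]
      congr 2
      ring
    rw [h1]
    congr 1
    rw [hN]
    refine ⟨-1, ?_⟩
    rw [hm]; push_cast; ring
  obtain ⟨m, hm⟩ := heven
  have hm0 : 0 < m := by omega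
  refine ⟨(g ^ m) d, hnat m, ?_, ?_, ?_⟩
  · have h1 := tpow m
    rw [zpow_natCast] at h1
    rw [h1]
    have h2 : (g ^ (-(m : ℤ))) d = (g ^ m) ((g ^ (-(m + m : ℤ))) d) := by
      rw [← zpow_natCast, ← Equiv.Perm.mul_apply, ← zpow_add]
      congr 2
      ring
    rw [h2]
    congr 1
    rw [hN]
    refine ⟨-1, ?_⟩
    rw [hm]; push_cast; ring
  · intro h
    have h1 := (hN m).1 (by rw [zpow_natCast]; exact h)
    have h2 := Int.le_of_dvd (by exact_mod_cast hm0) h1
    have h3 : N ≤ m := by exact_mod_cast h2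
    omega
  · intro f hf htf
    obtain ⟨n, rfl⟩ := horb f hf
    rw [tpow] at htf
    have h1 : (g ^ (2 * n)) d = d := by
      have h2 : (g ^ n) ((g ^ (-n)) d) = (g ^ n) ((g ^ n) d) := by rw [htf]
      rw [← Equiv.Perm.mul_apply, ← Equiv.Perm.mul_apply, ← zpow_add, ← zpow_add] at h2
      have e1 : n + -n = 0 := by ring
      have e2 : n + n = 2 * n := by ring
      rw [e1, e2, zpow_zero] at h2
      exact h2.symm
    obtain ⟨r, hr⟩ := (hN _).1 h1
    have hmr : n = m * r := by
      rw [hm] at hr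
      push_cast at hr
      have : (2 : ℤ) * n = 2 * (m * r) := by rw [hr]; ring
      exact mul_left_cancel₀ (by norm_num) this
    rcases Int.even_or_odd r with ⟨r', hr'⟩ | ⟨r', hr'⟩
    · left
      rw [hN]
      refine ⟨r', ?_⟩
      rw [hmr, hr', hm]; push_cast; ring
    · right
      have h3 : (g ^ n) d = (g ^ m) ((g ^ (n - m)) d) := by
        rw [← zpow_natCast, ← Equiv.Perm.mul_apply, ← zpow_add]
        congr 2
        ring
      rw [h3]
      congr 1
      rw [hN]
      refine ⟨r', ?_⟩
      rw [hmr, hr', hm]; push_cast; ring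

end Pair

end Crest.Agent.R096.Ac_117
end

-- ▼ part R096/Ac2_117
section

/-!
# R096 (row 96), (ARCS), part 2: the arrangement on the boundary of a cell, abstractly (helper117)

`Arr Q Z L`: pieces `Q` (sub-chords of both colours), double points `Z`, link points `L` (points of
the state on the mesh edges).  `pc z c j` = the piece of colour `c` at `z` on side `j` of the other
chord.  `Colr u t`: `t p i` = colour on side `i` of the piece `p`, jump `u p` across `p`.
`SIDE`: every closed mod 2 chain has a colouring.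
`Dep`: ranks `k` of the closed cycles (smaller = deeper) and inside functions `I`.
-/

set_option autoImplicit false

open Set

namespace Crest.Agent.R096.Ac_117

/-- ends of pieces: at a double point (`(z, c, j)`) or at a link point (`(l, i)`) -/
abbrev Drt (Z L : Type*) := (Z × Bool × Bool) ⊕ (L × Bool)

/-- pieces, double points and link points on the boundary of a cell -/
structure Arr (Q Z L : Type*) where
  col : Q → Bool
  pc : Z → Bool → Bool → Q
  lp : L → Bool → Q
  tw : L → Bool
  flip : Drt Z L → Drt Z L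
  pc_col : ∀ z c j, col (pc z c j) = c
  lp_col : ∀ l, col (lp l false) = col (lp l true)
  flip_flip : ∀ d, flip (flip d) = d
  flip_ne : ∀ d, flip d ≠ d
  /-- the two ends belong to the same piece -/
  pce_flip : ∀ d, Sum.elim (fun a : Z × Bool × Bool => pc a.1 a.2.1 a.2.2)
    (fun b : L × Bool => lp b.1 b.2) (flip d) =
    Sum.elim (fun a : Z × Bool × Bool => pc a.1 a.2.1 a.2.2) (fun b : L × Bool => lp b.1 b.2) d
  /-- a piece has only two ends -/
  pce_inj : ∀ d e, Sum.elim (fun a : Z × Bool × Bool => pc a.1 a.2.1 a.2.2)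
    (fun b : L × Bool => lp b.1 b.2) e =
    Sum.elim (fun a : Z × Bool × Bool => pc a.1 a.2.1 a.2.2) (fun b : L × Bool => lp b.1 b.2) d →
    e = d ∨ e = flip d

variable {Q Z L : Type*}

namespace Arr

/-- the piece of an end -/
def pce (A : Arr Q Z L) (d : Drt Z L) : Q :=
  Sum.elim (fun a : Z × Bool × Bool => A.pc a.1 a.2.1 a.2.2) (fun b : L × Bool => A.lp b.1 b.2) d

@[simp] lemma pce_inl (A : Arr Q Z L) (z : Z) (c j : Bool) :
    A.pce (Sum.inl (z, c, j)) = A.pc z c j := rfl

@[simp] lemma pce_inr (A : Arr Q Z L) (l : L) (i : Bool) : A.pce (Sum.inr (l, i)) = A.lp l i := rfl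

lemma pce_flip' (A : Arr Q Z L) (d : Drt Z L) : A.pce (A.flip d) = A.pce d := A.pce_flip d

lemma pce_inj' (A : Arr Q Z L) {d e : Drt Z L} (h : A.pce e = A.pce d) : e = d ∨ e = A.flip d :=
  A.pce_inj d e h

/-- the adjacent end on the same curve -/
def nx : Drt Z L → Drt Z L
  | Sum.inl (z, c, j) => Sum.inl (z, c, !j)
  | Sum.inr (l, i) => Sum.inr (l, !i)



lemma col_nx (A : Arr Q Z L) (d : Drt Z L) : A.col (A.pce (nx d)) = A.col (A.pce d) := by
  rcases d with ⟨z, c, j⟩ | ⟨l, i⟩
  · show A.col (A.pc z c (!j)) = A.col (A.pc z c j)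
    rw [A.pc_col, A.pc_col]
  · show A.col (A.lp l (!i)) = A.col (A.lp l i)
    cases i
    · exact (A.lp_col l).symm
    · exact A.lp_col l

/-- closed chain -/
structure Cl (A : Arr Q Z L) (u : Q → ZMod 2) : Prop where
  ev : ∀ z, u (A.pc z true false) + u (A.pc z true true) + u (A.pc z false false)
    + u (A.pc z false true) = 0
  lk : ∀ l, u (A.lp l false) = u (A.lp l true)

/-- colouring of the two sides of the pieces with jump `u` -/
structure Colr (A : Arr Q Z L) (u : Q → ZMod 2) (t : Q → Bool → ZMod 2) : Prop where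
  jump : ∀ p, t p false + t p true = u p
  quad : ∀ z i j, t (A.pc z true j) i = t (A.pc z false i) j
  lk : ∀ l i, t (A.lp l false) i = t (A.lp l true) (xor i (A.tw l))

/-- `H¹ = 0` -/
def SIDE (A : Arr Q Z L) : Prop := ∀ u, A.Cl u → ∃ t, A.Colr u t

/-- quadrant rule for an arbitrary colour `c` -/
lemma Colr.quad' {A : Arr Q Z L} {u : Q → ZMod 2} {t : Q → Bool → ZMod 2} (h : A.Colr u t)
    (z : Z) (c i j : Bool) : t (A.pc z c j) i = t (A.pc z (!c) i) j := by
  cases c
  · exact (h.quad z j i).symm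
  · exact h.quad z i j

/-- two sides of a piece with zero jump -/
lemma Colr.side_eq {A : Arr Q Z L} {u : Q → ZMod 2} {t : Q → Bool → ZMod 2} (h : A.Colr u t)
    {p : Q} (hp : u p = 0) (i j : Bool) : t p i = t p j := by
  have h1 := h.jump p
  rw [hp] at h1
  have h2 : t p false = t p true := by
    have : t p false = - t p true := eq_neg_of_add_eq_zero_left h1
    rw [this, ZMod.neg_eq_self_mod_two]
  cases i <;> cases j
  · rfl
  · exact h2
  · exact h2.symm
  · rfl

lemma Colr.ne {A : Arr Q Z L} {u : Q → ZMod 2} {t : Q → Bool → ZMod 2} (h : A.Colr u t)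
    {p : Q} (hp : u p = 1) (i : Bool) : t p (!i) = t p i + 1 := by
  have h1 := h.jump p
  rw [hp] at h1
  cases i
  · show t p true = t p false + 1
    have h2 : t p true = 1 - t p false := by rw [← h1]; ring
    rw [h2]
    generalize t p false = a
    revert a; decide
  · show t p false = t p true + 1
    have h2 : t p false = 1 - t p true := by rw [← h1]; ring
    rw [h2]
    generalize t p true = a
    revert a; decide

/-- a colouring does not change along a link of two pieces with zero jump -/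
lemma Colr.link {A : Arr Q Z L} {u : Q → ZMod 2} {t : Q → Bool → ZMod 2} (h : A.Colr u t) (l : L)
    (h0 : u (A.lp l false) = 0) (h1 : u (A.lp l true) = 0) (i i' j j' : Bool) :
    t (A.lp l i) j = t (A.lp l i') j' := by
  have h2 := h.lk l false
  have e0 : ∀ a b, t (A.lp l false) a = t (A.lp l false) b := fun a b => h.side_eq h0 a b
  have e1 : ∀ a b, t (A.lp l true) a = t (A.lp l true) b := fun a b => h.side_eq h1 a b
  cases i <;> cases i'
  · exact e0 _ _
  · exact (e0 j false).trans (h2.trans (e1 _ _))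
  · exact ((e0 j' false).trans (h2.trans (e1 _ _))).symm
  · exact e1 _ _

/-- at a double point where the crossing chord has zero jump, the colour is the same on both pieces
of a chord (seen from the same side) -/
lemma Colr.cross {A : Arr Q Z L} {u : Q → ZMod 2} {t : Q → Bool → ZMod 2} (h : A.Colr u t) (z : Z)
    (c i : Bool) (h0 : u (A.pc z (!c) i) = 0) (j j' : Bool) :
    t (A.pc z c j) i = t (A.pc z c j') i := by
  rw [h.quad' z c i j, h.quad' z c i j']
  exact h.side_eq h0 j j'

end Arr

/-- ranks (small = deep) and inside functions -/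
structure Dep (A : Arr Q Z L) where
  k : Q → ℕ
  I : ℕ → Q → Bool → ZMod 2
  k_nx : ∀ d, k (A.pce (Arr.nx d)) = k (A.pce d)
  conn : ∀ X : Set Q, (∀ d, A.pce d ∈ X → A.pce (Arr.nx d) ∈ X) →
    ∀ p p', k p = k p' → p ∈ X → p' ∈ X
  inside : ∀ p, A.Colr (fun r => if k r = k p then 1 else 0) (I (k p))
  lam : ∀ p p', A.col p = A.col p' → k p ≠ k p' → I (k p) p' true = 1 →
    k p < k p' ∧ ∀ r i, I (k p') r i = 1 → I (k p) r i = 1

namespace Dep

variable {A : Arr Q Z L} (E : Dep A)

lemma k_pc (z : Z) (c j j' : Bool) : E.k (A.pc z c j) = E.k (A.pc z c j') := by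
  have h := E.k_nx (Sum.inl (z, c, false))
  have h' : E.k (A.pc z c true) = E.k (A.pc z c false) := h
  cases j <;> cases j'
  · rfl
  · exact h'.symm
  · exact h'
  · rfl

lemma k_lp (l : L) (i i' : Bool) : E.k (A.lp l i) = E.k (A.lp l i') := by
  have h := E.k_nx (Sum.inr (l, false))
  have h' : E.k (A.lp l true) = E.k (A.lp l false) := h
  cases i <;> cases i'
  · rfl
  · exact h'.symm
  · exact h'
  · rfl

/-- a tile has one colour -/
lemma col_eq {p p' : Q} (h : E.k p = E.k p') : A.col p = A.col p' := by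
  have := E.conn {r | A.col r = A.col p} (fun d hd => by
    show A.col (A.pce (Arr.nx d)) = A.col p
    rw [A.col_nx]; exact hd) p p' h rfl
  exact Eq.symm this

lemma k_ne {p p' : Q} (h : A.col p ≠ A.col p') : E.k p ≠ E.k p' :=
  fun h' => h (E.col_eq h')

lemma k_ne_pc (z : Z) (c j j' : Bool) : E.k (A.pc z c j) ≠ E.k (A.pc z (!c) j') := by
  apply E.k_ne
  rw [A.pc_col, A.pc_col]
  cases c <;> simp

/-- the number of the tile of colour `c` at `z` -/
def kz (z : Z) (c : Bool) : ℕ := E.k (A.pc z c false)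

lemma k_pc' (z : Z) (c j : Bool) : E.k (A.pc z c j) = E.kz z c := E.k_pc z c j false

lemma kz_ne (z : Z) (c : Bool) : E.kz z c ≠ E.kz z (!c) := E.k_ne_pc z c false false


/-- jump function of a tile -/
def ind (x : ℕ) (r : Q) : ZMod 2 := if E.k r = x then 1 else 0

lemma inside' {x : ℕ} (hx : ∃ p, E.k p = x) : A.Colr (E.ind x) (E.I x) := by
  obtain ⟨p, rfl⟩ := hx
  exact E.inside p

/-- `I x` is constant along a tile of the colour of `x`, different from `x` -/
lemma I_const {x : ℕ} {p0 p p' : Q} (hx : E.k p0 = x) (hc : A.col p = A.col p0) (hne : E.k p ≠ x)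
    (hk : E.k p = E.k p') (i i' : Bool) : E.I x p i = E.I x p' i' := by
  have hI := E.inside' ⟨p0, hx⟩
  have h0 : ∀ r, E.k r = E.k p → E.ind x r = 0 := by
    intro r hr
    unfold ind
    rw [if_neg]
    rw [hr]; exact hne
  have hcol : ∀ r, E.k r = E.k p → A.col r = A.col p0 := fun r hr => (E.col_eq hr).trans hc
  have key := E.conn {r | E.k r = E.k p ∧ ∀ a b, E.I x r a = E.I x p b} ?_ p p' hk
    ⟨rfl, fun a b => hI.side_eq (h0 p rfl) a b⟩
  · exact (key.2 i' i).symm
  · rintro d ⟨hd1, hd2⟩
    have hd3 : E.k (A.pce (Arr.nx d)) = E.k p := (E.k_nx d).trans hd1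
    refine ⟨hd3, fun a b => ?_⟩
    rw [← hd2 false b]
    rcases d with ⟨z, c, j⟩ | ⟨l, i⟩
    · -- crossing: the other colour is not the colour of `x`
      have hc' : c = A.col p0 := by
        rw [← hcol _ hd1]
        exact (A.pc_col z c j).symm
      have h1 : E.ind x (A.pc z (!c) false) = 0 := by
        unfold ind
        rw [if_neg]
        intro h
        have := E.col_eq (h.trans hx.symm)
        rw [A.pc_col, ← hc'] at this
        cases c <;> simp at this
      have h2 : E.I x (A.pc z c (!j)) a = E.I x (A.pc z c (!j)) false :=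
        hI.side_eq (h0 _ hd3) a false
      exact h2.trans (hI.cross z c false h1 _ _)
    · exact hI.link l (h0 _ (by
        have : E.k (A.lp l i) = E.k p := hd1
        rw [E.k_lp l false i]; exact this)) (h0 _ (by
        have : E.k (A.lp l i) = E.k p := hd1
        rw [E.k_lp l true i]; exact this)) _ _ _ _

/-- at a double point off the tile `x` all four pieces have the same side of `x` -/
lemma I_four {x : ℕ} (hx : ∃ p, E.k p = x) {z : Z} {c : Bool} (h1 : E.kz z c ≠ x)
    (h2 : E.kz z (!c) ≠ x) (j j' i i' : Bool) :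
    E.I x (A.pc z c j) i = E.I x (A.pc z (!c) j') i' := by
  have hI := E.inside' hx
  have u1 : ∀ j, E.ind x (A.pc z c j) = 0 := by
    intro j
    unfold ind
    rw [if_neg]
    rw [E.k_pc']; exact h1
  have u2 : ∀ j, E.ind x (A.pc z (!c) j) = 0 := by
    intro j
    unfold ind
    rw [if_neg]
    rw [E.k_pc']; exact h2
  -- pc z c j at i = pc z (!c) i at j
  calc E.I x (A.pc z c j) i = E.I x (A.pc z c j) j' := hI.side_eq (u1 j) _ _
    _ = E.I x (A.pc z (!c) j') j := hI.quad' z c j' j
    _ = E.I x (A.pc z (!c) j') i' := hI.side_eq (u2 j') _ _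

/-- colour of the deeper chord at `z` -/
def dc (z : Z) : Bool := decide (E.kz z true < E.kz z false)

lemma dc_lt (z : Z) : E.kz z (E.dc z) < E.kz z (!E.dc z) := by
  unfold dc
  by_cases h : E.kz z true < E.kz z false
  · rw [decide_eq_true h]; exact h
  · rw [decide_eq_false h]
    show E.kz z false < E.kz z true
    have := E.kz_ne z true
    have h' : E.kz z true ≠ E.kz z false := this
    omega

lemma dc_eq {z : Z} {c : Bool} (h : E.kz z c < E.kz z (!c)) : E.dc z = c := by
  have := E.dc_lt z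
  by_contra hc
  have hc' : E.dc z = !c := by
    cases c <;> cases hd : E.dc z <;> simp_all
  rw [hc', Bool.not_not] at this
  omega

/-- links of a run: straight on, except at the double points with the tile `x` -/
noncomputable def nxx (x : ℕ) (c : Bool) (d : Drt Z L) : Drt Z L :=
  match d with
  | Sum.inl (z, c', j) => if c' = c ∧ E.kz z (!c) = x then Sum.inl (z, c', j)
      else Sum.inl (z, c', !j)
  | Sum.inr (l, i) => Sum.inr (l, !i)

lemma nxx_fix {x : ℕ} {c : Bool} {z : Z} (h : E.kz z (!c) = x) (j : Bool) :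
    E.nxx x c (Sum.inl (z, c, j)) = (Sum.inl (z, c, j) : Drt Z L) := by
  show (if c = c ∧ E.kz z (!c) = x then _ else _) = _
  rw [if_pos ⟨rfl, h⟩]

lemma nxx_move {x : ℕ} {c : Bool} {z : Z} {c' : Bool} (h : ¬ (c' = c ∧ E.kz z (!c) = x))
    (j : Bool) : E.nxx x c (Sum.inl (z, c', j)) = (Sum.inl (z, c', !j) : Drt Z L) := by
  show (if c' = c ∧ E.kz z (!c) = x then _ else _) = _
  rw [if_neg h]

lemma nxx_inv (x : ℕ) (c : Bool) : Function.Involutive (E.nxx x c : Drt Z L → Drt Z L) := by
  rintro (⟨z, c', j⟩ | ⟨l, i⟩)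
  · by_cases h : c' = c ∧ E.kz z (!c) = x
    · obtain ⟨rfl, h⟩ := h
      rw [E.nxx_fix h, E.nxx_fix h]
    · rw [E.nxx_move h, E.nxx_move h, Bool.not_not]
  · show (Sum.inr (l, !!i) : Drt Z L) = _
    rw [Bool.not_not]

lemma nxx_fixed_iff {x : ℕ} {c : Bool} {d : Drt Z L} (h : E.nxx x c d = d) :
    ∃ z j, d = Sum.inl (z, c, j) ∧ E.kz z (!c) = x := by
  rcases d with ⟨z, c', j⟩ | ⟨l, i⟩
  · by_cases h' : c' = c ∧ E.kz z (!c) = x
    · exact ⟨z, j, by rw [h'.1], h'.2⟩
    · rw [E.nxx_move h'] at h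
      simp at h
  · have : (Sum.inr (l, !i) : Drt Z L) = Sum.inr (l, i) := h
    simp at this

lemma nxx_eq_or (x : ℕ) (c : Bool) (d : Drt Z L) : E.nxx x c d = d ∨ E.nxx x c d = Arr.nx d := by
  rcases d with ⟨z, c', j⟩ | ⟨l, i⟩
  · by_cases h' : c' = c ∧ E.kz z (!c) = x
    · obtain ⟨rfl, h'⟩ := h'
      left; exact E.nxx_fix h' j
    · right
      rw [E.nxx_move h']
      rfl
  · right; rfl

end Dep

end Crest.Agent.R096.Ac_117
private theorem rz_12b6b2ad6d : type_of% @_root_.Crest.Agent.R096.Ac_117.Arr.nx.eq_1 := @_root_.Crest.Agent.R096.Ac_117.Arr.nx.eq_1 -- L62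
end

-- ▼ part R096/Ac3_117
section

/-!
# R096 (row 96), (ARCS), part 3: the arcs (helper117)

`arc z` = the other end of the run of the deeper curve inside the shallower disc.
-/

set_option autoImplicit false
set_option linter.unusedSectionVars false

open Set

namespace Crest.Agent.R096.Ac_117

variable {Q Z L : Type*} {A : Arr Q Z L}

lemma z2_or (a : ZMod 2) : a = 0 ∨ a = 1 := by
  revert a; decide

lemma z2_add_one {a : ZMod 2} (h : a ≠ 1) : a + 1 = 1 := by
  revert a; decide

namespace Dep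

variable (E : Dep A)

/-- number of the shallower tile at `z` -/
def sx (z : Z) : ℕ := E.kz z (!E.dc z)

/-- number of the deeper tile at `z` -/
def dy (z : Z) : ℕ := E.kz z (E.dc z)

lemma dy_lt (z : Z) : E.dy z < E.sx z := E.dc_lt z

lemma sx_mem (z : Z) : ∃ p, E.k p = E.sx z := ⟨_, rfl⟩

lemma ind_same {z : Z} {c : Bool} {x : ℕ} (h : E.kz z c = x) (j : Bool) :
    E.ind x (A.pc z c j) = 1 := by
  unfold ind
  rw [if_pos]
  rw [E.k_pc']; exact h

lemma ind_ne {p : Q} {x : ℕ} (h : E.k p ≠ x) : E.ind x p = 0 := by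
  unfold ind
  rw [if_neg h]

/-- the sides of the crossing tile `x` along the other chord at `z` -/
lemma I_flip {z : Z} {c : Bool} {x : ℕ} (h : E.kz z (!c) = x) (j i i' : Bool) :
    E.I x (A.pc z c (!j)) i = E.I x (A.pc z c j) i' + 1 := by
  have hI := E.inside' (x := x) ⟨A.pc z (!c) false, h⟩
  have h0 : ∀ j, E.ind x (A.pc z c j) = 0 := fun j => E.ind_ne (by
    rw [E.k_pc']
    rw [← h]
    exact E.kz_ne z c)
  calc E.I x (A.pc z c (!j)) i = E.I x (A.pc z c (!j)) i' := hI.side_eq (h0 _) _ _
    _ = E.I x (A.pc z (!c) i') (!j) := hI.quad' z c i' (!j)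
    _ = E.I x (A.pc z (!c) i') j + 1 := hI.ne (E.ind_same h i') j
    _ = E.I x (A.pc z c j) i' + 1 := by rw [hI.quad' z c i' j]

/-- the side of the inner piece of the deeper chord -/
noncomputable def jin (z : Z) : Bool :=
  open Classical in if E.I (E.sx z) (A.pc z (E.dc z) true) true = 1 then true else false

lemma I_jin (z : Z) (i : Bool) : E.I (E.sx z) (A.pc z (E.dc z) (E.jin z)) i = 1 := by
  have hI := E.inside' (E.sx_mem z)
  have h0 : ∀ j, E.ind (E.sx z) (A.pc z (E.dc z) j) = 0 := fun j => E.ind_ne (by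
    rw [E.k_pc']; exact (E.dy_lt z).ne)
  unfold jin
  split_ifs with h
  · rw [← h]; exact hI.side_eq (h0 _) _ _
  · have h1 := E.I_flip (z := z) (c := E.dc z) (x := E.sx z) rfl true i true
    have h2 : E.I (E.sx z) (A.pc z (E.dc z) false) i =
      E.I (E.sx z) (A.pc z (E.dc z) true) true + 1 := h1
    rw [h2]
    exact z2_add_one h

lemma I_jin' (z : Z) (i : Bool) : E.I (E.sx z) (A.pc z (E.dc z) (!E.jin z)) i = 0 := by
  rw [E.I_flip (z := z) (c := E.dc z) (x := E.sx z) rfl (E.jin z) i true, E.I_jin]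
  decide

/-- inner piece characterised by its side -/
lemma eq_jin {z : Z} {j i : Bool} (h : E.I (E.sx z) (A.pc z (E.dc z) j) i = 1) : j = E.jin z := by
  by_contra hne
  have : j = !E.jin z := by
    cases j <;> cases hj : E.jin z <;> simp_all
  rw [this, E.I_jin'] at h
  exact absurd h (by decide)

/-- the first end of the run -/
noncomputable def rd (z : Z) : Drt Z L := Sum.inl (z, E.dc z, E.jin z)

/-- the ends of the pieces of the run of the deeper curve at `z` -/
def run (z : Z) : Set (Drt Z L) := cls A.flip (E.nxx (E.sx z) (E.dc z)) (E.rd z)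

lemma rd_mem (z : Z) : E.rd z ∈ E.run z := mem_cls _ _ _

lemma run_flip {z : Z} {d : Drt Z L} (h : d ∈ E.run z) : A.flip d ∈ E.run z := cls_s h

lemma run_nxx {z : Z} {d : Drt Z L} (h : d ∈ E.run z) :
    E.nxx (E.sx z) (E.dc z) d ∈ E.run z := cls_t h

lemma run_pce {z : Z} {d e : Drt Z L} (h : d ∈ E.run z) (he : A.pce e = A.pce d) :
    e ∈ E.run z := by
  rcases A.pce_inj' he with rfl | rfl
  · exact h
  · exact E.run_flip h

/-- pieces of the run: in the deeper tile, inside the shallower one -/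
lemma run_prop {z : Z} : ∀ d ∈ E.run z, E.k (A.pce d) = E.dy z ∧
    ∀ i, E.I (E.sx z) (A.pce d) i = 1 := by
  refine cls_ind (P := fun d => E.k (A.pce d) = E.dy z ∧
    ∀ i, E.I (E.sx z) (A.pce d) i = 1) ⟨E.k_pc' z (E.dc z) (E.jin z), E.I_jin z⟩ ?_ ?_
  · rintro d - ⟨h1, h2⟩
    rw [A.pce_flip']
    exact ⟨h1, h2⟩
  · rintro d - ⟨h1, h2⟩
    have hI := E.inside' (E.sx_mem z)
    have hcol : A.col (A.pce d) = E.dc z := by
      have h3 : E.k (A.pce d) = E.k (A.pc z (E.dc z) false) := h1
      rw [E.col_eq h3, A.pc_col]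
    have hne : ∀ p, E.k p = E.dy z → E.ind (E.sx z) p = 0 := fun p hp =>
      E.ind_ne (by rw [hp]; exact (E.dy_lt z).ne)
    rcases d with ⟨u, c', j⟩ | ⟨l, i⟩
    · have hc' : c' = E.dc z := by
        rw [← hcol]; exact (A.pc_col u c' j).symm
      by_cases hf : c' = E.dc z ∧ E.kz u (!E.dc z) = E.sx z
      · subst hc'
        rw [E.nxx_fix hf.2]
        exact ⟨h1, h2⟩
      · rw [E.nxx_move hf]
        have h4 : E.k (A.pc u c' (!j)) = E.dy z := by
          rw [E.k_pc u c' (!j) j]; exact h1
        refine ⟨h4, fun i => ?_⟩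
        show E.I (E.sx z) (A.pc u c' (!j)) i = 1
        have h5 : E.kz u (!c') ≠ E.sx z := by
          intro h; exact hf ⟨hc', by rw [← hc']; exact h⟩
        rw [hI.cross u c' i (E.ind_ne (by rw [E.k_pc']; exact h5)) (!j) j]
        exact h2 i
    · have h4 : ∀ b, E.k (A.lp l b) = E.dy z := fun b => by
        rw [E.k_lp l b i]; exact h1
      refine ⟨h4 (!i), fun i' => ?_⟩
      show E.I (E.sx z) (A.lp l (!i)) i' = 1
      rw [hI.link l (hne _ (h4 _)) (hne _ (h4 _)) (!i) i i' i']
      exact h2 i'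

/-- a fixed end of the run is the first end of the run of some double point -/
lemma run_fixed {z : Z} {d : Drt Z L} (hd : d ∈ E.run z)
    (hf : E.nxx (E.sx z) (E.dc z) d = d) :
    ∃ z', d = E.rd z' ∧ E.dc z' = E.dc z ∧ E.sx z' = E.sx z ∧ E.dy z' = E.dy z := by
  obtain ⟨z', j, rfl, h1⟩ := E.nxx_fixed_iff hf
  obtain ⟨h2, h3⟩ := E.run_prop _ hd
  have h2' : E.kz z' (E.dc z) = E.dy z := by
    rw [← E.k_pc' z' (E.dc z) j]; exact h2
  have hdc : E.dc z' = E.dc z := E.dc_eq (by rw [h2', h1]; exact E.dy_lt z)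
  have hsx : E.sx z' = E.sx z := by
    show E.kz z' (!E.dc z') = _
    rw [hdc]; exact h1
  have hdy : E.dy z' = E.dy z := by
    show E.kz z' (E.dc z') = _
    rw [hdc]; exact h2'
  refine ⟨z', ?_, hdc, hsx, hdy⟩
  have : j = E.jin z' := E.eq_jin (i := true) (by
    rw [hsx, hdc]; exact h3 true)
  show _ = Sum.inl (z', E.dc z', E.jin z')
  rw [hdc, this]

lemma rd_fixed {z z' : Z} (h1 : E.dc z' = E.dc z) (h2 : E.sx z' = E.sx z) :
    E.nxx (E.sx z) (E.dc z) (E.rd z') = E.rd z' := by
  show E.nxx (E.sx z) (E.dc z) (Sum.inl (z', E.dc z', E.jin z')) = _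
  rw [h1]
  rw [E.nxx_fix (by rw [← h2, ← h1]; rfl)]
  show (Sum.inl (z', E.dc z, E.jin z') : Drt Z L) = Sum.inl (z', E.dc z', E.jin z')
  rw [h1]

lemma rd_inj {z z' : Z} (h : E.rd z = E.rd z') : z = z' := by
  have := Sum.inl.inj h
  exact congrArg Prod.fst this

theorem exists_arc [Finite Z] [Finite L] (z : Z) :
    ∃ z', E.rd z' ∈ E.run z ∧ z' ≠ z ∧ E.dc z' = E.dc z ∧ E.sx z' = E.sx z ∧ E.dy z' = E.dy z ∧
      ∀ f ∈ E.run z, E.nxx (E.sx z) (E.dc z) f = f → f = E.rd z ∨ f = E.rd z' := by
  obtain ⟨e, he, hef, hne, huniq⟩ := pair (D := Drt Z L) (s := A.flip)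
    (t := E.nxx (E.sx z) (E.dc z)) A.flip_flip (E.nxx_inv _ _) A.flip_ne
    (d := E.rd z) (E.rd_fixed rfl rfl)
  obtain ⟨z', rfl, h1, h2, h3⟩ := E.run_fixed he hef
  exact ⟨z', he, fun h => hne (by rw [h]), h1, h2, h3, huniq⟩

section Arc

variable [Finite Z] [Finite L]

/-- the other end of the arc -/
noncomputable def arc (z : Z) : Z := (E.exists_arc z).choose

lemma arc_spec (z : Z) : E.rd (E.arc z) ∈ E.run z ∧ E.arc z ≠ z ∧ E.dc (E.arc z) = E.dc z ∧
    E.sx (E.arc z) = E.sx z ∧ E.dy (E.arc z) = E.dy z ∧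
      ∀ f ∈ E.run z, E.nxx (E.sx z) (E.dc z) f = f → f = E.rd z ∨ f = E.rd (E.arc z) :=
  (E.exists_arc z).choose_spec

lemma arc_ne (z : Z) : E.arc z ≠ z := (E.arc_spec z).2.1

lemma dc_arc (z : Z) : E.dc (E.arc z) = E.dc z := (E.arc_spec z).2.2.1

lemma sx_arc (z : Z) : E.sx (E.arc z) = E.sx z := (E.arc_spec z).2.2.2.1

lemma dy_arc (z : Z) : E.dy (E.arc z) = E.dy z := (E.arc_spec z).2.2.2.2.1

/-- both ends lie on the same tiles -/
lemma kz_arc (z : Z) (c : Bool) : E.kz (E.arc z) c = E.kz z c := by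
  by_cases h : c = E.dc z
  · subst h
    have h1 := E.dy_arc z
    unfold dy at h1
    rw [E.dc_arc] at h1
    exact h1
  · have hc : c = !E.dc z := by
      cases c <;> cases hd : E.dc z <;> simp_all
    subst hc
    have h1 := E.sx_arc z
    unfold sx at h1
    rw [E.dc_arc] at h1
    exact h1

lemma run_arc (z : Z) : E.run (E.arc z) = E.run z := by
  have h1 : E.rd (E.arc z) ∈ E.run z := (E.arc_spec z).1
  have h2 : E.run (E.arc z) = cls A.flip (E.nxx (E.sx z) (E.dc z)) (E.rd (E.arc z)) := by
    unfold run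
    rw [E.sx_arc, E.dc_arc]
  rw [h2]
  ext f
  constructor
  · intro hf
    exact cls_trans h1 hf
  · intro hf
    have h3 : E.rd z ∈ cls A.flip (E.nxx (E.sx z) (E.dc z)) (E.rd (E.arc z)) :=
      cls_symm A.flip_flip (E.nxx_inv _ _) h1
    exact cls_trans h3 hf

lemma arc_arc (z : Z) : E.arc (E.arc z) = z := by
  have h1 := (E.arc_spec (E.arc z)).2.2.2.2.2
  rw [E.run_arc, E.sx_arc, E.dc_arc] at h1
  rcases h1 (E.rd z) (E.rd_mem z) (E.rd_fixed rfl rfl) with h | h
  · exact absurd (E.rd_inj h).symm (E.arc_ne z)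
  · exact (E.rd_inj h).symm

/-- a fixed end of colour `dc z` at a double point `u` in the run of `z` -/
lemma mem_run_fixed {z u : Z} {j : Bool} (hu : E.kz u (!E.dc z) = E.sx z)
    (h : (Sum.inl (u, E.dc z, j) : Drt Z L) ∈ E.run z) :
    (u = z ∧ j = E.jin z) ∨ (u = E.arc z ∧ j = E.jin (E.arc z)) := by
  rcases (E.arc_spec z).2.2.2.2.2 _ h (E.nxx_fix hu j) with h1 | h1
  · left
    have := Sum.inl.inj h1
    simp only [Prod.mk.injEq] at this
    exact ⟨this.1, this.2.2⟩
  · right
    have := Sum.inl.inj h1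
    simp only [Prod.mk.injEq] at this
    exact ⟨this.1, this.2.2⟩

/-- indicator of the run of `z` -/
noncomputable def phi (z : Z) (p : Q) : ZMod 2 :=
  open Classical in if ∃ d ∈ E.run z, A.pce d = p then 1 else 0

lemma phi_one {z : Z} {p : Q} : E.phi z p = 1 ↔ ∃ d ∈ E.run z, A.pce d = p := by
  unfold phi
  split_ifs with h
  · simp [h]
  · simp [h]

lemma phi_pce {z : Z} {d : Drt Z L} : E.phi z (A.pce d) = 1 ↔ d ∈ E.run z := by
  rw [phi_one]
  constructor
  · rintro ⟨e, he, h⟩
    exact E.run_pce he h.symm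
  · intro h
    exact ⟨d, h, rfl⟩

lemma z2_ext {a b : ZMod 2} (h : a = 1 ↔ b = 1) : a = b := by
  revert a b; decide


lemma phi_lp (z : Z) (l : L) : E.phi z (A.lp l false) = E.phi z (A.lp l true) := by
  apply z2_ext
  have h1 := E.phi_pce (z := z) (d := Sum.inr (l, false))
  have h2 := E.phi_pce (z := z) (d := Sum.inr (l, true))
  rw [A.pce_inr] at h1 h2
  rw [h1, h2]
  constructor
  · intro h
    exact E.run_nxx h
  · intro h
    exact E.run_nxx h

/-- no jump at the double points which are not on the tile `sx z` -/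
lemma phi_move {z u : Z} (hu : E.kz u (!E.dc z) ≠ E.sx z) (j j' : Bool) :
    E.phi z (A.pc u (E.dc z) j) = E.phi z (A.pc u (E.dc z) j') := by
  have key : ∀ j, (Sum.inl (u, E.dc z, j) : Drt Z L) ∈ E.run z →
      (Sum.inl (u, E.dc z, !j) : Drt Z L) ∈ E.run z := by
    intro j h
    have := E.run_nxx h
    rwa [E.nxx_move (by rintro ⟨-, h'⟩; exact hu h')] at this
  apply z2_ext
  have h1 := E.phi_pce (z := z) (d := Sum.inl (u, E.dc z, j))
  have h2 := E.phi_pce (z := z) (d := Sum.inl (u, E.dc z, j'))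
  rw [A.pce_inl] at h1 h2
  rw [h1, h2]
  by_cases hj : j' = j
  · rw [hj]
  · have hj' : j' = !j := by
      cases j <;> cases j' <;> simp_all
    rw [hj']
    constructor
    · exact key j
    · intro h
      have := key _ h
      rwa [Bool.not_not] at this

/-- values at the double points of the tile `sx z` -/
lemma phi_on {z u : Z} (hu : E.kz u (!E.dc z) = E.sx z) (j : Bool) :
    E.phi z (A.pc u (E.dc z) j) = 1 ↔
      (u = z ∧ j = E.jin z) ∨ (u = E.arc z ∧ j = E.jin (E.arc z)) := by
  have h1 := E.phi_pce (z := z) (d := Sum.inl (u, E.dc z, j))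
  rw [A.pce_inl] at h1
  rw [h1]
  constructor
  · exact E.mem_run_fixed hu
  · rintro (⟨rfl, rfl⟩ | ⟨rfl, rfl⟩)
    · exact E.rd_mem _
    · have := (E.arc_spec z).1
      have h2 : E.rd (E.arc z) = (Sum.inl (E.arc z, E.dc z, E.jin (E.arc z)) : Drt Z L) := by
        show Sum.inl (E.arc z, E.dc (E.arc z), E.jin (E.arc z)) = _
        rw [E.dc_arc]
      rwa [h2] at this

/-- off the other tile of colour `!dc z` the value at both pieces at `u` is 0 -/
lemma phi_zero {z u : Z} {j : Bool} (h : E.I (E.sx z) (A.pc u (E.dc z) j) true = 0) :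
    E.phi z (A.pc u (E.dc z) j) = 0 := by
  by_contra hne
  have h1 : E.phi z (A.pc u (E.dc z) j) = 1 := (z2_or _).resolve_left hne
  obtain ⟨d, hd, hp⟩ := E.phi_one.1 h1
  have := (E.run_prop d hd).2 true
  rw [hp, h] at this
  exact absurd this (by decide)

lemma phi_zero_tile {z : Z} {p : Q} (h : E.k p ≠ E.dy z) : E.phi z p = 0 := by
  by_contra hne
  have h1 : E.phi z p = 1 := (z2_or _).resolve_left hne
  obtain ⟨d, hd, hp⟩ := E.phi_one.1 h1
  exact h (by rw [← hp]; exact (E.run_prop d hd).1)

end Arc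

end Dep

end Crest.Agent.R096.Ac_117
end

-- ▼ part R096/Ac4_117
section

/-!
# R096 (row 96), (ARCS), part 4: side functions (helper117)

Deep colour: `phi z` (indicator of the run).  Shallow colour: `psi z` (indicator of one of the two
parts of the shallow tile cut at `z`, `arc z`).
-/

set_option autoImplicit false
set_option linter.unusedSectionVars false

open Set

namespace Crest.Agent.R096.Ac_117

variable {Q Z L : Type*} {A : Arr Q Z L}

lemma bool_or_not (a b : Bool) : a = b ∨ a = !b := by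
  cases a <;> cases b <;> simp

namespace Dep

variable (E : Dep A)

section Arc

variable [Finite Z] [Finite L]

/-- no jump of the deep side function away from the two ends -/
lemma phi_same {z u : Z} (h1 : u ≠ z) (h2 : u ≠ E.arc z) (j j' : Bool) :
    E.phi z (A.pc u (E.dc z) j) = E.phi z (A.pc u (E.dc z) j') := by
  by_cases hu : E.kz u (!E.dc z) = E.sx z
  · have h0 : ∀ j, E.phi z (A.pc u (E.dc z) j) = 0 := by
      intro j
      refine (z2_or _).resolve_right fun h => ?_
      rcases (E.phi_on hu j).1 h with h | h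
      · exact h1 h.1
      · exact h2 h.1
    rw [h0, h0]
  · exact E.phi_move hu j j'

/-- jumps of the deep side function -/
lemma phi_jump {z u : Z} (j : Bool) :
    E.phi z (A.pc u (E.dc z) j) ≠ E.phi z (A.pc u (E.dc z) (!j)) ↔ (u = z ∨ u = E.arc z) := by
  constructor
  · intro h
    by_contra hne
    rw [not_or] at hne
    exact h (E.phi_same hne.1 hne.2 _ _)
  · intro h
    have hne : z ≠ E.arc z := (E.arc_ne z).symm
    have hu : E.kz u (!E.dc z) = E.sx z := by
      rcases h with rfl | rfl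
      · rfl
      · rw [E.kz_arc]; rfl
    intro heq
    rcases bool_or_not j (E.jin u) with hj | hj
    · have ha : E.phi z (A.pc u (E.dc z) j) = 1 := by
        rw [E.phi_on hu]
        rcases h with rfl | rfl
        · exact Or.inl ⟨rfl, hj⟩
        · exact Or.inr ⟨rfl, hj⟩
      rw [heq, E.phi_on hu] at ha
      rcases ha with ⟨rfl, hb⟩ | ⟨rfl, hb⟩
      · rw [hj] at hb; simp at hb
      · rw [hj] at hb; simp at hb
    · have hj' : (!j) = E.jin u := by rw [hj]; simp
      have ha : E.phi z (A.pc u (E.dc z) (!j)) = 1 := by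
        rw [E.phi_on hu]
        rcases h with rfl | rfl
        · exact Or.inl ⟨rfl, hj'⟩
        · exact Or.inr ⟨rfl, hj'⟩
      rw [← heq, E.phi_on hu] at ha
      rcases ha with ⟨rfl, hb⟩ | ⟨rfl, hb⟩
      · rw [hb] at hj; simp at hj
      · rw [hb] at hj; simp at hj



lemma arc_ne_of {z u : Z} (h1 : u ≠ z) (h2 : u ≠ E.arc z) : E.arc u ≠ z ∧ E.arc u ≠ E.arc z := by
  constructor
  · intro h
    apply h2
    rw [← h, E.arc_arc]
  · intro h
    apply h1
    rw [← E.arc_arc u, h, E.arc_arc]

/-- deep side function: the same value at both ends of every other arc -/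
theorem phi_other {z u : Z} (h1 : u ≠ z) (h2 : u ≠ E.arc z) (j j' : Bool) :
    E.phi z (A.pc u (E.dc z) j) = E.phi z (A.pc (E.arc u) (E.dc z) j') := by
  obtain ⟨h3, h4⟩ := E.arc_ne_of h1 h2
  by_cases hy : E.kz u (E.dc z) = E.dy z
  swap
  · rw [E.phi_zero_tile (by rw [E.k_pc']; exact hy),
      E.phi_zero_tile (by rw [E.k_pc', E.kz_arc]; exact hy)]
  by_cases hx : E.kz u (!E.dc z) = E.sx z
  · have e0 : ∀ v, E.kz v (!E.dc z) = E.sx z → v ≠ z → v ≠ E.arc z → ∀ j,
        E.phi z (A.pc v (E.dc z) j) = 0 := by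
      intro v hv a1 a2 j
      refine (z2_or _).resolve_right fun h => ?_
      rcases (E.phi_on hv j).1 h with h | h
      · exact a1 h.1
      · exact a2 h.1
    rw [e0 u hx h1 h2, e0 _ (by rw [E.kz_arc]; exact hx) h3 h4]
  -- the crossing tile `x' ≠ x`
  have hyx := E.dy_lt z
  have hx' : ∀ j i, E.I (E.sx z) (A.pc u (!E.dc z) j) i =
      E.I (E.sx z) (A.pc (E.arc u) (!E.dc z) j) i := by
    intro j i
    refine E.I_const (p0 := A.pc z (!E.dc z) false) rfl ?_ ?_ ?_ _ _
    · rw [A.pc_col, A.pc_col]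
    · rw [E.k_pc']; exact hx
    · rw [E.k_pc', E.k_pc', E.kz_arc]
  have hy' : E.kz u (E.dc z) ≠ E.sx z := by rw [hy]; exact hyx.ne
  -- if the crossing tile is outside `x`, both values are zero
  have hzero : E.I (E.sx z) (A.pc u (!E.dc z) true) true ≠ 1 →
      E.phi z (A.pc u (E.dc z) j) = E.phi z (A.pc (E.arc u) (E.dc z) j') := by
    intro hne
    have h0 : E.I (E.sx z) (A.pc u (!E.dc z) true) true = 0 := (z2_or _).resolve_right hne
    rw [E.phi_zero, E.phi_zero]
    · rw [E.I_four (E.sx_mem z) (by rw [E.kz_arc]; exact hy') (by rw [E.kz_arc]; exact hx)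
        j' true true true, ← hx']
      exact h0
    · rw [E.I_four (E.sx_mem z) hy' hx j true true true]
      exact h0
  by_cases hI : E.I (E.sx z) (A.pc u (!E.dc z) true) true = 1
  swap
  · exact hzero hI
  -- the crossing tile is inside `x`
  obtain ⟨h5, h6⟩ := E.lam (A.pc z (!E.dc z) false) (A.pc u (!E.dc z) true)
    (by rw [A.pc_col, A.pc_col]) (by rw [E.k_pc' u]; exact fun h => hx h.symm) hI
  have h5' : E.sx z < E.kz u (!E.dc z) := by
    rw [E.k_pc' u] at h5; exact h5
  have hdc : E.dc u = E.dc z := E.dc_eq (by rw [hy]; omega)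
  have hsx : E.sx u = E.kz u (!E.dc z) := by unfold sx; rw [hdc]
  have h6' : ∀ r i, E.I (E.sx u) r i = 1 → E.I (E.sx z) r i = 1 := by
    intro r i h
    apply h6
    rw [E.k_pc', ← hsx]
    exact h
  -- `phi z` does not change along the run of `u`
  have key : ∀ d ∈ E.run u, E.phi z (A.pce d) = E.phi z (A.pce (E.rd u)) := by
    refine cls_ind (P := fun d => E.phi z (A.pce d) = E.phi z (A.pce (E.rd u))) rfl ?_ ?_
    · intro d _ hd
      rw [A.pce_flip', hd]
    · intro d hdr hd
      rcases d with ⟨v, c', j⟩ | ⟨l, i⟩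
      · have hc' : c' = E.dc z := by
          have a1 := (E.run_prop _ hdr).1
          have a2 : E.k (A.pc v c' j) = E.k (A.pc u (E.dc u) false) := a1
          have a3 := E.col_eq a2
          rw [A.pc_col, A.pc_col, hdc] at a3
          exact a3
        subst hc'
        by_cases hf : E.kz v (!E.dc z) = E.sx u
        · rw [hdc, E.nxx_fix hf]; exact hd
        · rw [hdc, E.nxx_move (by rintro ⟨-, h⟩; exact hf h), ← hd]
          by_cases hv : E.kz v (!E.dc z) = E.sx z
          · exfalso
            -- both pieces at `v` are inside `x'`, hence inside `x`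
            have hmv : (Sum.inl (v, E.dc z, !j) : Drt Z L) ∈ E.run u := by
              have := E.run_nxx hdr
              rwa [hdc, E.nxx_move (by rintro ⟨-, h⟩; exact hf h)] at this
            have a1 := h6' _ _ ((E.run_prop _ hdr).2 true)
            have a2 := h6' _ _ ((E.run_prop _ hmv).2 true)
            have a3 : E.I (E.sx z) (A.pc v (E.dc z) (!j)) true =
              E.I (E.sx z) (A.pc v (E.dc z) j) true + 1 := E.I_flip hv j true true
            have a1' : E.I (E.sx z) (A.pc v (E.dc z) j) true = 1 := a1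
            have a2' : E.I (E.sx z) (A.pc v (E.dc z) (!j)) true = 1 := a2
            rw [a2', a1'] at a3
            exact absurd a3 (by decide)
          · exact E.phi_move hv _ _
      · rw [← hd]
        show E.phi z (A.lp l (!i)) = E.phi z (A.lp l i)
        cases i
        · exact (E.phi_lp z l).symm
        · exact E.phi_lp z l
  have a1 := key _ (E.arc_spec u).1
  have a2 : E.phi z (A.pc (E.arc u) (E.dc z) (E.jin (E.arc u))) =
      E.phi z (A.pc u (E.dc z) (E.jin u)) := by
    have b1 : A.pce (E.rd (E.arc u)) = A.pc (E.arc u) (E.dc z) (E.jin (E.arc u)) := by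
      show A.pc (E.arc u) (E.dc (E.arc u)) _ = _
      rw [E.dc_arc, hdc]
    have b2 : A.pce (E.rd u) = A.pc u (E.dc z) (E.jin u) := by
      show A.pc u (E.dc u) _ = _
      rw [hdc]
    rw [← b1, ← b2]
    exact a1
  rw [E.phi_same h1 h2 j (E.jin u), E.phi_same h3 h4 j' (E.jin (E.arc u)), a2]

/-! ### the shallow colour -/

/-- links of the shallow colour, cut at `z` and `arc z` -/
noncomputable def cutx (z : Z) (d : Drt Z L) : Drt Z L :=
  open Classical in
  match d with
  | Sum.inl (u, c', j) => if c' = (!E.dc z) ∧ (u = z ∨ u = E.arc z) then Sum.inl (u, c', j)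
      else Sum.inl (u, c', !j)
  | Sum.inr (l, i) => Sum.inr (l, !i)

lemma cutx_fix {z u : Z} (h : u = z ∨ u = E.arc z) (j : Bool) :
    E.cutx z (Sum.inl (u, !E.dc z, j)) = (Sum.inl (u, !E.dc z, j) : Drt Z L) := by
  unfold cutx
  exact if_pos ⟨rfl, h⟩

lemma cutx_move {z u : Z} {c' : Bool} (h : ¬ (c' = (!E.dc z) ∧ (u = z ∨ u = E.arc z)))
    (j : Bool) : E.cutx z (Sum.inl (u, c', j)) = (Sum.inl (u, c', !j) : Drt Z L) := by
  unfold cutx
  exact if_neg h

lemma cutx_inv (z : Z) : Function.Involutive (E.cutx z : Drt Z L → Drt Z L) := by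
  rintro (⟨u, c', j⟩ | ⟨l, i⟩)
  · by_cases h : c' = (!E.dc z) ∧ (u = z ∨ u = E.arc z)
    · obtain ⟨rfl, h⟩ := h
      rw [E.cutx_fix h, E.cutx_fix h]
    · rw [E.cutx_move h, E.cutx_move h, Bool.not_not]
  · show (Sum.inr (l, !!i) : Drt Z L) = _
    rw [Bool.not_not]

lemma cutx_fixed {z : Z} {d : Drt Z L} (h : E.cutx z d = d) :
    ∃ u j, d = Sum.inl (u, !E.dc z, j) ∧ (u = z ∨ u = E.arc z) := by
  rcases d with ⟨u, c', j⟩ | ⟨l, i⟩
  · by_cases h' : c' = (!E.dc z) ∧ (u = z ∨ u = E.arc z)
    · exact ⟨u, j, by rw [h'.1], h'.2⟩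
    · rw [E.cutx_move h'] at h
      simp at h
  · have : (Sum.inr (l, !i) : Drt Z L) = Sum.inr (l, i) := h
    simp at this

/-- the part of the shallow tile -/
def prt (z : Z) : Set (Drt Z L) := cls A.flip (E.cutx z) (Sum.inl (z, !E.dc z, true))

lemma prt_tile {z : Z} : ∀ d ∈ E.prt z, E.k (A.pce d) = E.sx z := by
  refine cls_ind (P := fun d => E.k (A.pce d) = E.sx z) ?_ ?_ ?_
  · exact E.k_pc' z (!E.dc z) true
  · intro d _ h
    rw [A.pce_flip', h]
  · intro d _ h
    rcases d with ⟨u, c', j⟩ | ⟨l, i⟩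
    · by_cases h' : c' = (!E.dc z) ∧ (u = z ∨ u = E.arc z)
      · obtain ⟨rfl, h'⟩ := h'
        rw [E.cutx_fix h']
        exact h
      · rw [E.cutx_move h']
        rw [← h]
        exact E.k_pc u c' _ _
    · rw [← h]
      exact E.k_lp l _ _

lemma prt_pce {z : Z} {d e : Drt Z L} (h : d ∈ E.prt z) (he : A.pce e = A.pce d) :
    e ∈ E.prt z := by
  rcases A.pce_inj' he with rfl | rfl
  · exact h
  · exact cls_s h

theorem exists_prt (z : Z) : ∃ j₀ : Bool,
    (Sum.inl (E.arc z, !E.dc z, j₀) : Drt Z L) ∈ E.prt z ∧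
      ∀ f ∈ E.prt z, E.cutx z f = f →
        f = Sum.inl (z, !E.dc z, true) ∨ f = Sum.inl (E.arc z, !E.dc z, j₀) := by
  obtain ⟨e, he, hef, hne, huniq⟩ := pair (D := Drt Z L) (s := A.flip)
    (t := E.cutx z) A.flip_flip (E.cutx_inv z) A.flip_ne
    (d := Sum.inl (z, !E.dc z, true)) (E.cutx_fix (Or.inl rfl) true)
  obtain ⟨u, j, rfl, hu⟩ := E.cutx_fixed hef
  rcases hu with rfl | rfl
  swap
  · exact ⟨j, he, huniq⟩
  · exfalso
    have hj : j = false := by
      cases j
      · rfl
      · exact absurd rfl hne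
    subst hj
    -- the class is closed under all links
    have hcl : ∀ d ∈ E.prt u, Arr.nx d ∈ E.prt u := by
      intro d hd
      by_cases hf : E.cutx u d = d
      · rcases huniq d hd hf with rfl | rfl
        · exact he
        · exact mem_cls _ _ _
      · have h1 : E.cutx u d ∈ E.prt u := cls_t hd
        have h2 : E.cutx u d = Arr.nx d := by
          rcases d with ⟨v, c', j⟩ | ⟨l, i⟩
          · by_cases h' : c' = (!E.dc u) ∧ (v = u ∨ v = E.arc u)
            · obtain ⟨rfl, h'⟩ := h'
              exact absurd (E.cutx_fix h' j) hf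
            · exact E.cutx_move h' j
          · rfl
        rwa [h2] at h1
    have h3 := E.conn {p | ∃ d ∈ E.prt u, A.pce d = p} (by
      rintro d ⟨e', he', hp⟩
      have : d ∈ E.prt u := E.prt_pce he' hp.symm
      exact ⟨_, hcl d this, rfl⟩) (A.pc u (!E.dc u) true) (A.pc (E.arc u) (!E.dc u) true)
      (by rw [E.k_pc', E.k_pc', E.kz_arc]) ⟨_, mem_cls _ _ _, rfl⟩
    obtain ⟨e', he', hp⟩ := h3
    have h4 : (Sum.inl (E.arc u, !E.dc u, true) : Drt Z L) ∈ E.prt u :=
      E.prt_pce he' (e := Sum.inl (E.arc u, !E.dc u, true)) hp.symm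
    have hne' : E.arc u ≠ u := E.arc_ne u
    rcases huniq _ h4 (E.cutx_fix (Or.inr rfl) true) with h | h
    · have := Sum.inl.inj h
      exact hne' (congrArg Prod.fst this)
    · have := Sum.inl.inj h
      exact hne' (congrArg Prod.fst this)

/-- indicator of the part -/
noncomputable def psi (z : Z) (p : Q) : ZMod 2 :=
  open Classical in if ∃ d ∈ E.prt z, A.pce d = p then 1 else 0

lemma psi_one {z : Z} {p : Q} : E.psi z p = 1 ↔ ∃ d ∈ E.prt z, A.pce d = p := by
  unfold psi
  split_ifs with h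
  · simp [h]
  · simp [h]

lemma psi_pce {z : Z} {d : Drt Z L} : E.psi z (A.pce d) = 1 ↔ d ∈ E.prt z := by
  rw [psi_one]
  constructor
  · rintro ⟨e, he, h⟩
    exact E.prt_pce he h.symm
  · intro h
    exact ⟨d, h, rfl⟩

lemma psi_zero_tile {z : Z} {p : Q} (h : E.k p ≠ E.sx z) : E.psi z p = 0 := by
  by_contra hne
  have h1 : E.psi z p = 1 := (z2_or _).resolve_left hne
  obtain ⟨d, hd, hp⟩ := E.psi_one.1 h1
  exact h (by rw [← hp]; exact E.prt_tile d hd)

lemma psi_cutx {z : Z} (d : Drt Z L) : E.psi z (A.pce (E.cutx z d)) = E.psi z (A.pce d) := by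
  apply z2_ext
  rw [psi_pce, psi_pce]
  constructor
  · intro h
    have := cls_t (t := E.cutx z) h
    rwa [E.cutx_inv z d] at this
  · intro h
    exact cls_t h

lemma psi_lp (z : Z) (l : L) (i i' : Bool) : E.psi z (A.lp l i) = E.psi z (A.lp l i') := by
  have h : E.psi z (A.lp l true) = E.psi z (A.lp l false) := E.psi_cutx (Sum.inr (l, false))
  cases i <;> cases i'
  · rfl
  · exact h.symm
  · exact h
  · rfl

/-- no jump away from the two ends -/
lemma psi_same {z u : Z} (h1 : u ≠ z) (h2 : u ≠ E.arc z) (c' j j' : Bool) :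
    E.psi z (A.pc u c' j) = E.psi z (A.pc u c' j') := by
  have key : ∀ j, E.psi z (A.pc u c' (!j)) = E.psi z (A.pc u c' j) := by
    intro j
    have := E.psi_cutx (z := z) (Sum.inl (u, c', j))
    rw [E.cutx_move (by rintro ⟨-, h | h⟩ <;> contradiction)] at this
    exact this
  rcases bool_or_not j j' with rfl | rfl
  · rfl
  · exact key _

/-- jumps of the shallow side function -/
lemma psi_jump {z u : Z} (j : Bool) :
    E.psi z (A.pc u (!E.dc z) j) ≠ E.psi z (A.pc u (!E.dc z) (!j)) ↔ (u = z ∨ u = E.arc z) := by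
  constructor
  · intro h
    by_contra hne
    rw [not_or] at hne
    exact h (E.psi_same hne.1 hne.2 _ _ _)
  · obtain ⟨j₀, hj₀, huniq⟩ := E.exists_prt z
    have main : ∀ (v : Z) (i : Bool), (v = z ∨ v = E.arc z) →
        (Sum.inl (v, !E.dc z, i) : Drt Z L) ∈ E.prt z →
        (Sum.inl (v, !E.dc z, !i) : Drt Z L) ∉ E.prt z := by
      intro v i hv h1 h2
      have hne : E.arc z ≠ z := E.arc_ne z
      rcases huniq _ h1 (E.cutx_fix hv i) with a1 | a1 <;>
      rcases huniq _ h2 (E.cutx_fix hv (!i)) with a2 | a2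
      · have b1 := Sum.inl.inj a1
        have b2 := Sum.inl.inj a2
        simp only [Prod.mk.injEq] at b1 b2
        rw [b1.2.2] at b2; simp at b2
      · have b1 := congrArg Prod.fst (Sum.inl.inj a1)
        have b2 := congrArg Prod.fst (Sum.inl.inj a2)
        exact hne (b2.symm.trans b1)
      · have b1 := congrArg Prod.fst (Sum.inl.inj a1)
        have b2 := congrArg Prod.fst (Sum.inl.inj a2)
        exact hne (b1.symm.trans b2)
      · have b1 := Sum.inl.inj a1
        have b2 := Sum.inl.inj a2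
        simp only [Prod.mk.injEq] at b1 b2
        have c1 := b1.2.2
        have c2 := b2.2.2
        rw [c1] at c2; simp at c2
    have hex : ∀ v : Z, (v = z ∨ v = E.arc z) → ∃ i,
        (Sum.inl (v, !E.dc z, i) : Drt Z L) ∈ E.prt z := by
      rintro v (rfl | rfl)
      · exact ⟨true, mem_cls _ _ _⟩
      · exact ⟨j₀, hj₀⟩
    intro hu heq
    obtain ⟨i, hi⟩ := hex u hu
    have h1 : E.psi z (A.pc u (!E.dc z) i) = 1 := E.psi_pce.2 hi
    have h2 : E.psi z (A.pc u (!E.dc z) (!i)) ≠ 1 := fun h => main u i hu hi (E.psi_pce.1 h)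
    rcases bool_or_not j i with rfl | rfl
    · exact h2 (by rw [← heq]; exact h1)
    · rw [Bool.not_not] at heq
      exact h2 (by rw [heq]; exact h1)

end Arc

end Dep

end Crest.Agent.R096.Ac_117
end

-- ▼ part R096/Ac5_117

/-!
# R096 (row 96), (ARCS), part 5: the arcs of a cell (helper117)

`psi_other`: the shallow side function has the same value at both ends of every other arc
(uses `SIDE`).  **`exists_arcs`**: all clauses of `St_147.St.Arcs` at one cell.
-/

set_option autoImplicit false
set_option linter.unusedSectionVars false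

open Set

namespace Crest.Agent.R096.Ac_117

variable {Q Z L : Type*} {A : Arr Q Z L}

namespace Dep

variable (E : Dep A)

section Arc

variable [Finite Z] [Finite L]

/-- the closed curve: part of the shallow tile and the run of the deep tile -/
noncomputable def wz (z : Z) (p : Q) : ZMod 2 := E.psi z p + E.phi z p

lemma tile_of_col_deep {z : Z} {p : Q} (h : A.col p = E.dc z) : E.k p ≠ E.sx z := by
  intro h'
  have := E.col_eq (p' := A.pc z (!E.dc z) false) h'
  rw [h, A.pc_col] at this
  cases hd : E.dc z <;> simp [hd] at this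

lemma tile_of_col_shallow {z : Z} {p : Q} (h : A.col p = !E.dc z) : E.k p ≠ E.dy z := by
  intro h'
  have := E.col_eq (p' := A.pc z (E.dc z) false) h'
  rw [h, A.pc_col] at this
  cases hd : E.dc z <;> simp [hd] at this

lemma wz_deep {z : Z} {p : Q} (h : A.col p = E.dc z) : E.wz z p = E.phi z p := by
  unfold wz
  rw [E.psi_zero_tile (E.tile_of_col_deep h), zero_add]

lemma wz_shallow {z : Z} {p : Q} (h : A.col p = !E.dc z) : E.wz z p = E.psi z p := by
  unfold wz
  rw [E.phi_zero_tile (E.tile_of_col_shallow h), add_zero]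

lemma sum_iff_ne {a b : ZMod 2} (h : a ≠ b) : a + b = 1 := by
  revert a b; decide

lemma sum_eq {a b : ZMod 2} (h : a = b) : a + b = 0 := by
  revert a b; decide

lemma wz_cl (z : Z) : A.Cl (E.wz z) where
  ev := by
    intro u
    -- sums over the two colours
    have hd : E.wz z (A.pc u (E.dc z) false) + E.wz z (A.pc u (E.dc z) true) =
        E.phi z (A.pc u (E.dc z) false) + E.phi z (A.pc u (E.dc z) (!false)) := by
      rw [E.wz_deep (A.pc_col _ _ _), E.wz_deep (A.pc_col _ _ _)]
      rfl
    have hs : E.wz z (A.pc u (!E.dc z) false) + E.wz z (A.pc u (!E.dc z) true) =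
        E.psi z (A.pc u (!E.dc z) false) + E.psi z (A.pc u (!E.dc z) (!false)) := by
      rw [E.wz_shallow (A.pc_col _ _ _), E.wz_shallow (A.pc_col _ _ _)]
      rfl
    have htot : (E.wz z (A.pc u (E.dc z) false) + E.wz z (A.pc u (E.dc z) true)) +
        (E.wz z (A.pc u (!E.dc z) false) + E.wz z (A.pc u (!E.dc z) true)) = 0 := by
      rw [hd, hs]
      by_cases hu : u = z ∨ u = E.arc z
      · rw [sum_iff_ne ((E.phi_jump false).2 hu), sum_iff_ne ((E.psi_jump false).2 hu)]
        decide
      · have h1 : ¬ (E.phi z (A.pc u (E.dc z) false) ≠ E.phi z (A.pc u (E.dc z) (!false))) :=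
          fun h => hu ((E.phi_jump false).1 h)
        have h2 : ¬ (E.psi z (A.pc u (!E.dc z) false) ≠ E.psi z (A.pc u (!E.dc z) (!false))) :=
          fun h => hu ((E.psi_jump false).1 h)
        rw [not_not] at h1 h2
        rw [sum_eq h1, sum_eq h2]
        decide
    rw [← htot]
    cases E.dc z
    · show _ = (E.wz z (A.pc u false false) + E.wz z (A.pc u false true)) +
        (E.wz z (A.pc u true false) + E.wz z (A.pc u true true))
      ring
    · show _ = (E.wz z (A.pc u true false) + E.wz z (A.pc u true true)) +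
        (E.wz z (A.pc u false false) + E.wz z (A.pc u false true))
      ring
  lk := by
    intro l
    unfold wz
    rw [E.psi_lp z l false true, E.phi_lp]

/-- outer side of the pieces of the tile `x` -/
lemma I_side {x : ℕ} {p : Q} (h : E.k p = x) (i : Bool) : E.I x p (!i) = E.I x p i + 1 := by
  subst h
  exact (E.inside p).ne (by rw [if_pos rfl]) i

/-- the colouring is constant on the outer side of the shallow tile -/
lemma outer_const {z : Z} {t : Q → Bool → ZMod 2} (ht : A.Colr (E.wz z) t) {p p' : Q}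
    (hp : E.k p = E.sx z) (hp' : E.k p' = E.sx z) {o o' : Bool} (ho : E.I (E.sx z) p o = 0)
    (ho' : E.I (E.sx z) p' o' = 0) : t p o = t p' o' := by
  have hI := E.inside' (E.sx_mem z)
  -- uniqueness of the outer side
  have huniq : ∀ r, E.k r = E.sx z → ∀ a b, E.I (E.sx z) r a = 0 → E.I (E.sx z) r b = 0 →
      a = b := by
    intro r hr a b ha hb
    rcases bool_or_not b a with h | h
    · exact h.symm
    · exfalso
      rw [h, E.I_side hr, ha] at hb
      exact absurd hb (by decide)
  have key := E.conn {r | E.k r = E.sx z ∧ ∀ a, E.I (E.sx z) r a = 0 → t r a = t p o} ?_ p p'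
    (hp.trans hp'.symm) ⟨hp, fun a ha => by rw [huniq p hp a o ha ho]⟩
  · exact (key.2 o' ho').symm
  · rintro d ⟨hd1, hd2⟩
    have hd3 : E.k (A.pce (Arr.nx d)) = E.sx z := (E.k_nx d).trans hd1
    refine ⟨hd3, fun a ha => ?_⟩
    rcases d with ⟨v, c', j⟩ | ⟨l, i⟩
    · have hc' : c' = !E.dc z := by
        have a2 : E.k (A.pc v c' j) = E.k (A.pc z (!E.dc z) false) := hd1
        have a3 := E.col_eq a2
        rwa [A.pc_col, A.pc_col] at a3
      subst hc'
      have ha' : E.I (E.sx z) (A.pc v (!E.dc z) (!j)) a = 0 := ha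
      have hnn : (!!E.dc z) = E.dc z := Bool.not_not _
      -- the outer piece of the deep colour
      have h1 : ∀ b, E.I (E.sx z) (A.pc v (E.dc z) a) b = 0 := by
        intro b
        have e1 : E.I (E.sx z) (A.pc v (!E.dc z) (!j)) a =
            E.I (E.sx z) (A.pc v (E.dc z) a) (!j) := by
          rw [hI.quad' v (!E.dc z) a (!j), hnn]
        rw [e1] at ha'
        rw [← ha']
        exact hI.side_eq (E.ind_ne (E.tile_of_col_deep (A.pc_col _ _ _))) _ _
      have h2 : E.I (E.sx z) (A.pc v (!E.dc z) j) a = 0 := by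
        rw [hI.quad' v (!E.dc z) a j, hnn]
        exact h1 j
      have h3 : E.wz z (A.pc v (!(!E.dc z)) a) = 0 := by
        rw [hnn, E.wz_deep (A.pc_col _ _ _)]
        exact E.phi_zero (h1 true)
      rw [← hd2 a h2]
      exact ht.cross v (!E.dc z) a h3 (!j) j
    · -- a link point
      have hk : ∀ b, E.k (A.lp l b) = E.sx z := fun b => by
        rw [E.k_lp l b i]; exact hd1
      have ha' : E.I (E.sx z) (A.lp l (!i)) a = 0 := ha
      show t (A.lp l (!i)) a = t p o
      cases i
      · -- nx = (l, true)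
        have e1 : E.I (E.sx z) (A.lp l false) (xor a (A.tw l)) = E.I (E.sx z) (A.lp l true) a := by
          rw [hI.lk l (xor a (A.tw l))]
          congr 1
          cases a <;> cases A.tw l <;> rfl
        have e2 : t (A.lp l false) (xor a (A.tw l)) = t (A.lp l true) a := by
          rw [ht.lk l (xor a (A.tw l))]
          congr 1
          cases a <;> cases A.tw l <;> rfl
        have e3 : E.I (E.sx z) (A.lp l false) (xor a (A.tw l)) = 0 := by
          rw [e1]; exact ha'
        have e4 := hd2 _ e3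
        show t (A.lp l true) a = t p o
        rw [← e2]
        exact e4
      · have e1 : E.I (E.sx z) (A.lp l true) (xor a (A.tw l)) = E.I (E.sx z) (A.lp l false) a :=
          (hI.lk l a).symm
        have e2 : t (A.lp l true) (xor a (A.tw l)) = t (A.lp l false) a := (ht.lk l a).symm
        have e3 : E.I (E.sx z) (A.lp l true) (xor a (A.tw l)) = 0 := by
          rw [e1]; exact ha'
        have e4 := hd2 _ e3
        show t (A.lp l false) a = t p o
        rw [← e2]
        exact e4

/-- runs of different arcs on the same pair of tiles are disjoint -/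
lemma run_disj {z u : Z} (h1 : u ≠ z) (h2 : u ≠ E.arc z) (hd : E.dc u = E.dc z)
    (hs : E.sx u = E.sx z) : ∀ d ∈ E.run u, d ∉ E.run z := by
  intro d hdu hdz
  have h3 : E.rd u ∈ E.run z := by
    have h4 : E.rd u ∈ cls A.flip (E.nxx (E.sx z) (E.dc z)) d := by
      have h5 : d ∈ cls A.flip (E.nxx (E.sx z) (E.dc z)) (E.rd u) := by
        have : d ∈ cls A.flip (E.nxx (E.sx u) (E.dc u)) (E.rd u) := hdu
        rwa [hs, hd] at this
      exact cls_symm A.flip_flip (E.nxx_inv _ _) h5
    exact cls_trans hdz h4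
  rcases (E.arc_spec z).2.2.2.2.2 _ h3 (E.rd_fixed hd hs) with h | h
  · exact h1 (E.rd_inj h)
  · exact h2 (E.rd_inj h)

/-- shallow side function: the same value at both ends of every other arc -/
theorem psi_other (hS : A.SIDE) {z u : Z} (h1 : u ≠ z) (h2 : u ≠ E.arc z) (j j' : Bool) :
    E.psi z (A.pc u (!E.dc z) j) = E.psi z (A.pc (E.arc u) (!E.dc z) j') := by
  obtain ⟨h3, h4⟩ := E.arc_ne_of h1 h2
  by_cases hx : E.kz u (!E.dc z) = E.sx z
  swap
  · rw [E.psi_zero_tile (by rw [E.k_pc']; exact hx),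
      E.psi_zero_tile (by rw [E.k_pc', E.kz_arc]; exact hx)]
  have hyx := E.dy_lt z
  have hne0 : E.kz u (E.dc z) ≠ E.kz u (!E.dc z) := E.kz_ne u (E.dc z)
  by_cases hlt : E.sx z < E.kz u (E.dc z)
  · -- the other tile at `u` is shallower than `x`
    have hdc : E.dc u = !E.dc z := E.dc_eq (by rw [Bool.not_not, hx]; exact hlt)
    have hsx : E.sx u = E.kz u (E.dc z) := by unfold sx; rw [hdc, Bool.not_not]
    have key : ∀ d ∈ E.run u, E.psi z (A.pce d) = E.psi z (A.pce (E.rd u)) := by
      refine cls_ind (P := fun d => E.psi z (A.pce d) = E.psi z (A.pce (E.rd u))) rfl ?_ ?_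
      · intro d _ hd
        rw [A.pce_flip', hd]
      · intro d hdr hd
        rcases d with ⟨v, c', j⟩ | ⟨l, i⟩
        · have hc' : c' = !E.dc z := by
            have a1 := (E.run_prop _ hdr).1
            have a2 : E.k (A.pc v c' j) = E.k (A.pc u (E.dc u) false) := a1
            have a3 := E.col_eq a2
            rw [A.pc_col, A.pc_col, hdc] at a3
            exact a3
          subst hc'
          rw [hdc]
          by_cases hf : E.kz v (!(!E.dc z)) = E.sx u
          · rw [E.nxx_fix hf]; exact hd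
          · rw [E.nxx_move (by rintro ⟨-, h⟩; exact hf h), ← hd]
            rw [Bool.not_not] at hf
            by_cases hv : v = z ∨ v = E.arc z
            · exfalso
              have hkv : E.kz v (E.dc z) = E.dy z := by
                rcases hv with rfl | rfl
                · rfl
                · rw [E.kz_arc]; rfl
              have hkv' : E.kz v (!E.dc z) = E.sx z := by
                rcases hv with rfl | rfl
                · rfl
                · rw [E.kz_arc]; rfl
              have a1 : E.I (E.sx u) (A.pc v (!E.dc z) j) true = 1 := (E.run_prop _ hdr).2 true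
              have a2 : E.I (E.sx u) (A.pc v (E.dc z) true) true = 1 := by
                rw [E.I_four (E.sx_mem u) (c := E.dc z) hf (by rw [hkv', hsx]; omega)
                  true j true true]
                exact a1
              have a3 : A.col (A.pc u (!E.dc u) false) = A.col (A.pc v (E.dc z) true) := by
                rw [A.pc_col, A.pc_col, hdc, Bool.not_not]
              have a4 := E.lam _ _ a3 (by
                rw [E.k_pc' v, hkv]
                show E.sx u ≠ _
                rw [hsx]; omega) a2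
              have a5 : E.sx u < E.kz v (E.dc z) := by
                have := a4.1
                rwa [E.k_pc' v] at this
              rw [hkv, hsx] at a5
              omega
            · have := E.psi_cutx (z := z) (Sum.inl (v, !E.dc z, j))
              rw [E.cutx_move (by rintro ⟨-, h⟩; exact hv h)] at this
              exact this
        · rw [← hd]
          exact E.psi_lp z l _ _
    have a1 := key _ (E.arc_spec u).1
    have a2 : E.psi z (A.pc (E.arc u) (!E.dc z) (E.jin (E.arc u))) =
        E.psi z (A.pc u (!E.dc z) (E.jin u)) := by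
      have b1 : A.pce (E.rd (E.arc u)) = A.pc (E.arc u) (!E.dc z) (E.jin (E.arc u)) := by
        show A.pc (E.arc u) (E.dc (E.arc u)) _ = _
        rw [E.dc_arc, hdc]
      have b2 : A.pce (E.rd u) = A.pc u (!E.dc z) (E.jin u) := by
        show A.pc u (E.dc u) _ = _
        rw [hdc]
      rw [← b1, ← b2]
      exact a1
    rw [E.psi_same h1 h2 _ j (E.jin u), E.psi_same h3 h4 _ j' (E.jin (E.arc u)), a2]
  · -- the other tile is deeper than `x`: the colouring of `wz`
    have hlt' : E.kz u (E.dc z) < E.sx z := by omega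
    have hdc : E.dc u = E.dc z := E.dc_eq (by rw [hx]; exact hlt')
    have hsx : E.sx u = E.sx z := by unfold sx; rw [hdc]; exact hx
    obtain ⟨t, ht⟩ := hS _ (E.wz_cl z)
    have hI := E.inside' (E.sx_mem z)
    have hnn : (!!E.dc z) = E.dc z := Bool.not_not _
    -- `t` is constant along the run of `u`
    have hw : ∀ d ∈ E.run u, E.wz z (A.pce d) = 0 := by
      intro d hd
      have hcol : A.col (A.pce d) = E.dc z := by
        have a1 : E.k (A.pce d) = E.k (A.pc u (E.dc u) false) := (E.run_prop _ hd).1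
        rw [E.col_eq a1, A.pc_col, hdc]
      rw [E.wz_deep hcol]
      refine (z2_or _).resolve_right fun h => ?_
      exact E.run_disj h1 h2 hdc hsx d hd (E.phi_pce.1 h)
    have key : ∀ d ∈ E.run u, ∀ i, t (A.pce d) i = t (A.pce (E.rd u)) true := by
      refine cls_ind (P := fun d => ∀ i, t (A.pce d) i = t (A.pce (E.rd u)) true)
        (fun i => ht.side_eq (hw _ (E.rd_mem u)) _ _) ?_ ?_
      · intro d _ hd i
        rw [A.pce_flip', hd]
      · intro d hdr hd i
        rcases d with ⟨v, c', j⟩ | ⟨l, i'⟩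
        · have hc' : c' = E.dc z := by
            have a1 := (E.run_prop _ hdr).1
            have a2 : E.k (A.pc v c' j) = E.k (A.pc u (E.dc u) false) := a1
            have a3 := E.col_eq a2
            rw [A.pc_col, A.pc_col, hdc] at a3
            exact a3
          subst hc'
          by_cases hf : E.kz v (!E.dc z) = E.sx u
          · rw [hdc, E.nxx_fix hf]; exact hd i
          · have hmv : (Sum.inl (v, E.dc z, !j) : Drt Z L) ∈ E.run u := by
              have := E.run_nxx hdr
              rwa [hdc, E.nxx_move (by rintro ⟨-, h⟩; exact hf h)] at this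
            rw [hdc, E.nxx_move (by rintro ⟨-, h⟩; exact hf h), ← hd i]
            have hw0 : E.wz z (A.pc v (!E.dc z) i) = 0 := by
              rw [E.wz_shallow (A.pc_col _ _ _)]
              apply E.psi_zero_tile
              rw [E.k_pc', ← hsx]
              exact hf
            exact ht.cross v (E.dc z) i hw0 (!j) j
        · have hmv : (Sum.inr (l, !i') : Drt Z L) ∈ E.run u := E.run_nxx hdr
          rw [← hd i]
          have w1 := hw _ hdr
          have w2 := hw _ hmv
          have w3 : ∀ b, E.wz z (A.lp l b) = 0 := by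
            intro b
            rcases bool_or_not b i' with rfl | rfl
            · exact w1
            · exact w2
          exact ht.link l (w3 _) (w3 _) (!i') i' i i
    -- value at the inner piece
    have inner : ∀ v : Z, E.dc v = E.dc z → E.sx v = E.sx z → ∀ j,
        t (A.pc v (E.dc z) (E.jin v)) j =
          t (A.pc v (!E.dc z) j) (!E.jin v) + E.psi z (A.pc v (!E.dc z) j) ∧
        E.I (E.sx z) (A.pc v (!E.dc z) j) (!E.jin v) = 0 := by
      intro v hv1 hv2 j
      constructor
      · rw [ht.quad' v (E.dc z) (E.jin v) |> fun h => ht.quad' v (E.dc z) j (E.jin v) ]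
        have e1 := ht.jump (A.pc v (!E.dc z) j)
        rw [E.wz_shallow (A.pc_col _ _ _)] at e1
        rw [← e1]
        cases E.jin v
        · show t (A.pc v (!E.dc z) j) false = t (A.pc v (!E.dc z) j) true + _
          generalize t (A.pc v (!E.dc z) j) false = a
          generalize t (A.pc v (!E.dc z) j) true = b
          revert a b; decide
        · show t (A.pc v (!E.dc z) j) true = t (A.pc v (!E.dc z) j) false + _
          generalize t (A.pc v (!E.dc z) j) false = a
          generalize t (A.pc v (!E.dc z) j) true = b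
          revert a b; decide
      · have e1 := E.I_jin' v j
        rw [hv1, hv2] at e1
        rw [hI.quad' v (!E.dc z) (!E.jin v) j, hnn]
        exact e1
    have hdc' : E.dc (E.arc u) = E.dc z := by rw [E.dc_arc, hdc]
    have hsx' : E.sx (E.arc u) = E.sx z := by rw [E.sx_arc, hsx]
    obtain ⟨i1, i2⟩ := inner u hdc hsx j
    obtain ⟨i3, i4⟩ := inner (E.arc u) hdc' hsx' j'
    have hO := E.outer_const ht (p := A.pc u (!E.dc z) j) (p' := A.pc (E.arc u) (!E.dc z) j')
      (by rw [E.k_pc']; exact hx) (by rw [E.k_pc', E.kz_arc]; exact hx) i2 i4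
    have b1 : A.pce (E.rd (E.arc u)) = A.pc (E.arc u) (E.dc z) (E.jin (E.arc u)) := by
      show A.pc (E.arc u) (E.dc (E.arc u)) _ = _
      rw [hdc']
    have b2 : A.pce (E.rd u) = A.pc u (E.dc z) (E.jin u) := by
      show A.pc u (E.dc u) _ = _
      rw [hdc]
    have k1 := key _ (E.arc_spec u).1 j'
    have k2 := key _ (E.rd_mem u) j
    rw [b1] at k1
    rw [b2] at k2
    rw [i3] at k1
    rw [i1] at k2
    have k3 : t (A.pc u (!E.dc z) j) (!E.jin u) + E.psi z (A.pc u (!E.dc z) j) =
        t (A.pc (E.arc u) (!E.dc z) j') (!E.jin (E.arc u)) +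
          E.psi z (A.pc (E.arc u) (!E.dc z) j') := by
      rw [k2, k1, b2]
    rw [hO] at k3
    exact add_left_cancel k3

/-- **(ARCS) at one cell** -/
theorem exists_arcs (hS : A.SIDE) :
    (∀ z, E.arc z ≠ z) ∧ (∀ z, E.arc (E.arc z) = z) ∧
    (∀ z c, E.k (A.pc (E.arc z) c false) = E.k (A.pc z c false)) ∧
    (∀ z c, ∃ φ : Q → ZMod 2,
      (∀ l, φ (A.lp l false) = φ (A.lp l true)) ∧
      (∀ u j, φ (A.pc u c j) ≠ φ (A.pc u c (!j)) ↔ (u = z ∨ u = E.arc z)) ∧
      (∀ u, u ≠ z → u ≠ E.arc z → ∀ j j', φ (A.pc u c j) = φ (A.pc (E.arc u) c j'))) := by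
  refine ⟨E.arc_ne, E.arc_arc, fun z c => E.kz_arc z c, fun z c => ?_⟩
  rcases bool_or_not c (E.dc z) with rfl | rfl
  · exact ⟨E.phi z, E.phi_lp z, fun u j => E.phi_jump j, fun u h1 h2 j j' => E.phi_other h1 h2 j j'⟩
  · exact ⟨E.psi z, fun l => E.psi_lp z l _ _, fun u j => E.psi_jump j,
      fun u h1 h2 j j' => E.psi_other hS h1 h2 j j'⟩

end Arc

end Dep

end Crest.Agent.R096.Ac_117
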