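import Crest.Agent.R096.Wk4_689

-- ▼ part R096/Wk5_689
section

/-!
# R096 / P3 / FACE (5): the labelling of a face by the orbits, parity law
-/

set_option autoImplicit false

namespace Crest.Agent.R096.Wk_689
open St_147 Fx_689

variable {ι Φ W I : Type} {M : MeshC ι Φ W} {col : I → Bool} {s : St M col}

/-- the double point of two crossing chords -/
def mkD {F : Φ} (a b : Ch s F) (ha : (dg s F).fam a = false) (h : (dg s F).X a b) : s.Dbl where
  F := F
  e x := match x with
    | true => b.1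
    | false => a.1
  at_ x := by cases x; exacts [a.2.1, b.2.1]
  low x := by cases x; exacts [a.2.2, b.2.2]
  colr x := by
    have hf := (dg s F).X_fam h
    cases x
    · exact ha
    · show (dg s F).fam b = true
      cases hb : (dg s F).fam b
      · exact absurd (ha.trans hb.symm) hf
      · rfl
  lace := (X_iff s b a (Ne.symm ((dg s F).X_ne h))).1 ((dg s F).X_symm h)

/-- rank of the start of a piece -/
lemma rk_start_inr {F : Φ} (a : Ch s F) (x : Bool) (z : s.Dbl) (hF : z.F = F) (hz : z.e x = a.1) :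
    ∃ y : Ch s F, (dg s F).X a y ∧ (dg s F).e a y = rk s F (z.key x) ∧ y.1 = z.e (!x) := by
  subst hF
  have ha : a = cz z x := Subtype.ext hz.symm
  subst ha
  exact ⟨cz z (!x), cz_X z x, (rk_key z x).symm, rfl⟩

lemma exists_pc {F : Φ} (a : Ch s F) (k : ℕ) (hk : (dg s F).lo a ≤ k) :
    ∃ p : s.Sub (col (s.lab a.1)), chd p = (F, a.1) ∧ rk s F (start p) ≤ k ∧
      ∀ p' : s.Sub (col (s.lab a.1)), chd p' = (F, a.1) → rk s F (start p') ≤ k →
        start p' ≤ start p := by
  obtain ⟨p, hp, hmax⟩ := Set.exists_max_image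
    {p : s.Sub (col (s.lab a.1)) | chd p = (F, a.1) ∧ rk s F (start p) ≤ k} (fun p => start p)
    (Set.toFinite _) ⟨Sum.inl ⟨(F, a.1), a.2.1, a.2.2, rfl⟩, rfl, hk⟩
  exact ⟨p, hp.1, hp.2, fun p' h1 h2 => hmax p' ⟨h1, h2⟩⟩

/-- the first piece of a chord -/
def ini {F : Φ} (a : Ch s F) : s.Sub (col (s.lab a.1)) :=
  (Sum.inl ⟨(F, a.1), a.2.1, a.2.2, rfl⟩ : s.Sub (col (s.lab a.1)))

open Classical in
/-- the piece of the chord `a` over `(k,k+1)` -/
noncomputable def pc {F : Φ} (a : Ch s F) (k : ℕ) : s.Sub (col (s.lab a.1)) :=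
  if hk : (dg s F).lo a ≤ k then (exists_pc a k hk).choose else ini a

lemma pc_eq {F : Φ} (a : Ch s F) {k : ℕ} (hk : (dg s F).lo a ≤ k) :
    pc a k = (exists_pc a k hk).choose := dif_pos hk

lemma pc_eq' {F : Φ} (a : Ch s F) {k : ℕ} (hk : ¬ (dg s F).lo a ≤ k) :
    pc a k = ini a := dif_neg hk

lemma pc_chd {F : Φ} (a : Ch s F) (k : ℕ) : chd (pc a k) = (F, a.1) := by
  by_cases hk : (dg s F).lo a ≤ k
  · rw [pc_eq a hk]
    exact (exists_pc a k hk).choose_spec.1
  · rw [pc_eq' a hk]
    rfl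

lemma pc_rk {F : Φ} (a : Ch s F) {k : ℕ} (hk : (dg s F).lo a ≤ k) :
    rk s F (start (pc a k)) ≤ k := by
  rw [pc_eq a hk]
  exact (exists_pc a k hk).choose_spec.2.1

lemma pc_max {F : Φ} (a : Ch s F) {k : ℕ} (hk : (dg s F).lo a ≤ k)
    (p' : s.Sub (col (s.lab a.1))) (h1 : chd p' = (F, a.1)) (h2 : rk s F (start p') ≤ k) :
    start p' ≤ start (pc a k) := by
  rw [pc_eq a hk]
  exact (exists_pc a k hk).choose_spec.2.2 p' h1 h2

/-- characterisation of the piece -/
lemma eq_pc {F : Φ} (a : Ch s F) {k : ℕ} (hk : (dg s F).lo a ≤ k)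
    (p : s.Sub (col (s.lab a.1))) (h1 : chd p = (F, a.1)) (h2 : rk s F (start p) ≤ k)
    (h3 : ∀ p' : s.Sub (col (s.lab a.1)), chd p' = (F, a.1) → rk s F (start p') ≤ k →
      start p' ≤ start p) : p = pc a k := by
  apply start_inj (h1.trans (pc_chd a k).symm)
  exact le_antisymm (pc_max a hk p h1 h2) (h3 _ (pc_chd a k) (pc_rk a hk))

lemma pc_lo {F : Φ} (a : Ch s F) :
    pc a ((dg s F).lo a) = ini a := by
  symm
  apply eq_pc a le_rfl _ rfl
  · exact le_rfl
  · intro p' h1 h2
    by_contra hcon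
    rw [not_le] at hcon
    cases p' with
    | inl b =>
      have : start (Sum.inl b : s.Sub (col (s.lab a.1))) = M.pos F a.1 := by
        have hb : b.1 = (F, a.1) := h1
        show M.pos b.1.1 b.1.2 = _
        rw [hb]
      rw [this] at hcon
      exact lt_irrefl _ hcon
    | inr z =>
      have hz : (z.F, z.e (col (s.lab a.1))) = (F, a.1) := h1
      simp only [Prod.mk.injEq] at hz
      obtain ⟨y, hX, he, -⟩ := rk_start_inr a _ z hz.1 hz.2
      have h3 := ((dg s F).e_mem hX).1
      have h4 : rk s F (start (Sum.inr z : s.Sub (col (s.lab a.1)))) =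
        rk s F (z.key (col (s.lab a.1))) := rfl
      rw [h4, ← he] at h2
      omega

lemma pc_step {F : Φ} (a : Ch s F) (j : ℕ) (h1 : (dg s F).lo a < j)
    (h3 : ∀ y, (dg s F).X a y → (dg s F).e a y ≠ j) : pc a (j - 1) = pc a j := by
  apply eq_pc a h1.le _ (pc_chd a _)
  · exact (pc_rk a (by omega)).trans (by omega)
  · intro p' hp' hr
    apply pc_max a (by omega) p' hp'
    by_contra hcon
    have hj : rk s F (start p') = j := by omega
    cases p' with
    | inl b =>
      have hb : b.1 = (F, a.1) := hp'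
      have : start (Sum.inl b : s.Sub (col (s.lab a.1))) = M.pos F a.1 := by
        show M.pos b.1.1 b.1.2 = _
        rw [hb]
      rw [this] at hj
      have : (dg s F).lo a = rk s F (M.pos F a.1) := rfl
      omega
    | inr z =>
      have hz : (z.F, z.e (col (s.lab a.1))) = (F, a.1) := hp'
      simp only [Prod.mk.injEq] at hz
      obtain ⟨y, hX, he, -⟩ := rk_start_inr a _ z hz.1 hz.2
      exact h3 y hX (he.trans hj)

lemma key_lt_of_rk {F : Φ} {t t' : ℝ} (h : rk s F t < rk s F t') : t < t' := by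
  by_contra hcon
  exact absurd h (not_lt.2 (rk_mono s F (not_lt.1 hcon)))

/-- at a double point, colour-wise: transport of colours -/
lemma pc_at {F : Φ} (a : Ch s F) (z : s.Dbl) (hF : z.F = F)
    (hz : z.e (col (s.lab a.1)) = a.1) :
    pc a (rk s F (z.key (col (s.lab a.1)))) = abv z (col (s.lab a.1)) := by
  subst hF
  have ha : a = cz z (col (s.lab a.1)) := Subtype.ext hz.symm
  have hk := (dg s z.F).e_mem (cz_X z (col (s.lab a.1)))
  rw [← rk_key, ← ha] at hk
  symm
  apply eq_pc a hk.1.le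
  · exact Prod.ext rfl hz
  · exact le_rfl
  · intro p' hp' hr
    by_contra hcon
    rw [not_le] at hcon
    cases p' with
    | inl b =>
      have h1 : start (Sum.inl b : s.Sub (col (s.lab a.1))) ≤ start (abv z (col (s.lab a.1))) :=
        start_inl_le (hp'.trans (Prod.ext rfl hz.symm))
      exact absurd hcon (not_lt.2 h1)
    | inr u =>
      have hu : (u.F, u.e (col (s.lab a.1))) = (z.F, a.1) := hp'
      simp only [Prod.mk.injEq] at hu
      have h5 : z.key (col (s.lab a.1)) < u.key (col (s.lab a.1)) := hcon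
      have h6 : rk s z.F (z.key (col (s.lab a.1))) < rk s z.F (u.key (col (s.lab a.1))) := by
        rw [key_eq z] at h5 ⊢
        exact rk_lt s (kp_at z _) le_rfl h5
      exact absurd hr (not_le.2 h6)

lemma pc_before {F : Φ} (a : Ch s F) (z : s.Dbl) (hF : z.F = F)
    (hz : z.e (col (s.lab a.1)) = a.1) :
    pc a (rk s F (z.key (col (s.lab a.1))) - 1) = bel z (col (s.lab a.1)) := by
  subst hF
  have ha : a = cz z (col (s.lab a.1)) := Subtype.ext hz.symm
  have hk := (dg s z.F).e_mem (cz_X z (col (s.lab a.1)))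
  rw [← rk_key, ← ha] at hk
  have hb := bel_spec z (col (s.lab a.1))
  have hbs := below_start hb
  have hbc := below_chd hb
  have hstart : ∀ p' : s.Sub (col (s.lab a.1)), chd p' = (z.F, a.1) →
      (rk s z.F (start p') ≤ rk s z.F (z.key (col (s.lab a.1))) - 1 ↔
        start p' < z.key (col (s.lab a.1))) := by
    intro p' hp'
    constructor
    · intro h
      apply key_lt_of_rk (s := s) (F := z.F)
      omega
    · intro h
      have : rk s z.F (start p') < rk s z.F (z.key (col (s.lab a.1))) := by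
        cases p' with
        | inl b =>
          have hb : b.1 = (z.F, a.1) := hp'
          have h1 : start (Sum.inl b : s.Sub (col (s.lab a.1))) = M.pos z.F a.1 := by
            show M.pos b.1.1 b.1.2 = _
            rw [hb]
          rw [h1]
          exact hk.1
        | inr u =>
          have hu : (u.F, u.e (col (s.lab a.1))) = (z.F, a.1) := hp'
          simp only [Prod.mk.injEq] at hu
          have h5 : u.key (col (s.lab a.1)) < z.key (col (s.lab a.1)) := h
          show rk s z.F (u.key (col (s.lab a.1))) < _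
          rw [key_eq u] at h5 ⊢
          have hka := kp_at u (col (s.lab a.1))
          rw [hu.1] at hka h5 ⊢
          exact rk_lt s hka le_rfl h5
      omega
  symm
  apply eq_pc a (by omega)
  · rw [hbc, hz]
  · rw [hstart _ (by rw [hbc, hz])]
    exact hbs.1
  · intro p' hp' hr
    rw [hstart p' hp'] at hr
    by_contra hcon
    rw [not_le] at hcon
    exact hbs.2 p' (by rw [hp', hbc, hz]) ⟨hcon, hr⟩

/-- the last piece -/
lemma pc_hi {F : Φ} (a : Ch s F) : IsTop (pc a ((dg s F).hi a - 1)) := by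
  have hlt := (dg s F).lt a
  rw [top_iff]
  intro p' hp'
  apply pc_max a (by omega) p' (hp'.trans (pc_chd a _))
  rw [pc_chd] at hp'
  have : rk s F (start p') < (dg s F).hi a := by
    have h1 := start_lt p'
    rw [hp'] at h1
    cases p' with
    | inl b =>
      have hb : b.1 = (F, a.1) := hp'
      have h2 : start (Sum.inl b : s.Sub (col (s.lab a.1))) = M.pos F a.1 := by
        show M.pos b.1.1 b.1.2 = _
        rw [hb]
      rw [h2]
      exact hlt
    | inr z =>
      have hz : (z.F, z.e (col (s.lab a.1))) = (F, a.1) := hp'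
      simp only [Prod.mk.injEq] at hz
      obtain ⟨y, hX, he, -⟩ := rk_start_inr a _ z hz.1 hz.2
      show rk s F (z.key _) < _
      rw [← he]
      exact ((dg s F).e_mem hX).2
  omega

variable (G : Set s.Dbl) (inn : s.Dbl → Bool → Bool)


variable {G inn}

lemma lb_straight {z : s.Dbl} (hz : z ∉ G) (x : Bool) :
    lb G inn (bel z x) = lb G inn (abv z x) := by
  have h1 : orb G inn (dz z x true) = lb G inn (bel z x) := orb_eq_lb _
  have h2 : orb G inn (dz z x false) = lb G inn (abv z x) := orb_eq_lb _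
  rw [← h1, ← h2, ← orb_tt (dz z x true), tt_dz_out hz]
  rfl

lemma lb_turn {z : s.Dbl} (hz : z ∈ G) :
    (lb G inn (bel z false) = lb G inn (bel z true) ∧
      lb G inn (abv z false) = lb G inn (abv z true)) ∨
    (lb G inn (bel z false) = lb G inn (abv z true) ∧
      lb G inn (abv z false) = lb G inn (bel z true)) := by
  have h1 : ∀ x, orb G inn (dz z x true) = lb G inn (bel z x) := fun x => orb_eq_lb _
  have h2 : ∀ x, orb G inn (dz z x false) = lb G inn (abv z x) := fun x => orb_eq_lb _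
  have e1 := orb_tt (G := G) (inn := inn) (dz z false true)
  have e2 := orb_tt (G := G) (inn := inn) (dz z false false)
  rw [tt_dz_in hz] at e1 e2
  cases h3 : inn z false <;> cases h4 : inn z true <;>
    simp only [h3, h4, Bool.not_false, Bool.not_true, Bool.xor_false, Bool.xor_true] at e1 e2
  · right; rw [← h1, ← h1, ← h2, ← h2]; exact ⟨e1.symm, e2.symm⟩
  · left; rw [← h1, ← h1, ← h2, ← h2]; exact ⟨e1.symm, e2.symm⟩
  · left; rw [← h1, ← h1, ← h2, ← h2]; exact ⟨e1.symm, e2.symm⟩
  · right; rw [← h1, ← h1, ← h2, ← h2]; exact ⟨e1.symm, e2.symm⟩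

end Crest.Agent.R096.Wk_689
end

-- ▼ part R096/Wk6_689

/-!
# R096 / P3 / FACE (6): FACE in `St_147` language, the new state `newSt`
-/

set_option autoImplicit false

namespace Crest.Agent.R096.Wk_689
open St_147 Fx_689

variable {ι Φ W I : Type} {M : MeshC ι Φ W} {col : I → Bool} {s : St M col}

lemma lb_pc_at (G : Set s.Dbl) (inn : s.Dbl → Bool → Bool) {F : Φ} (a : Ch s F) {x : Bool}
    (hx : col (s.lab a.1) = x) (z : s.Dbl) (hF : z.F = F) (hz : z.e x = a.1) :
    lb G inn (pc a (rk s F (z.key x))) = lb G inn (abv z x) ∧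
      lb G inn (pc a (rk s F (z.key x) - 1)) = lb G inn (bel z x) := by
  subst hx
  rw [pc_at a z hF hz, pc_before a z hF hz]
  exact ⟨rfl, rfl⟩

lemma e_mkD {F : Φ} (a b : Ch s F) (ha : (dg s F).fam a = false) (h : (dg s F).X a b) :
    (dg s F).e a b = rk s F ((mkD a b ha h).key false) ∧
      (dg s F).e b a = rk s F ((mkD a b ha h).key true) :=
  ⟨(rk_key (mkD a b ha h) false).symm, (rk_key (mkD a b ha h) true).symm⟩

/-- the labelling of a face by the orbits of the walk -/
noncomputable def labF (G : Set s.Dbl) (inn : s.Dbl → Bool → Bool) (F : Φ) :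
    (dg s F).Lab (Orb G inn) where
  cl a k := lb G inn (pc a k)
  st a j h1 _ h3 := by rw [pc_step a j h1 h3]
  vx a b hX ha := by
    obtain ⟨e1, e2⟩ := e_mkD a b ha hX
    have hb : (dg s F).fam b = true := (mkD a b ha hX).colr true
    have k1 := lb_pc_at G inn a ha (mkD a b ha hX) rfl rfl
    have k2 := lb_pc_at G inn b hb (mkD a b ha hX) rfl rfl
    rw [e1, e2, k1.1, k1.2, k2.1, k2.2]
    by_cases hz : mkD a b ha hX ∈ G
    · rcases lb_turn (inn := inn) hz with h | h
      · right; left; exact h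
      · right; right; exact h
    · left
      exact ⟨lb_straight hz false, lb_straight hz true⟩

/-- the point of an end of a chord -/
def ptt {F : Φ} (t : Ch s F × Bool) : W := if t.2 then s.mu F t.1.1 else t.1.1

lemma ptt_at {F : Φ} (t : Ch s F × Bool) : s.At F (ptt t) := by
  unfold ptt
  split_ifs
  · exact At.mu s t.1.2.1
  · exact t.1.2.1

lemma pos_ptt {F : Φ} (t : Ch s F × Bool) : (dg s F).pos t = rk s F (M.pos F (ptt t)) := by
  unfold ptt Dg.pos
  split_ifs <;> rfl

lemma ptt_inj {F : Φ} {t t' : Ch s F × Bool} (h : ptt t = ptt t') : t = t' := by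
  apply Dg.Lab.pos_inj (D := dg s F)
  rw [pos_ptt, pos_ptt, h]

lemma exists_ptt {F : Φ} {w : W} (h : s.At F w) : ∃ t : Ch s F × Bool, ptt t = w := by
  rcases lt_or_gt_of_ne (pos_ne s h (At.mu s h) (fun h' => s.mu_ne h.1 h.2 h'.symm)) with hl | hl
  · exact ⟨(⟨w, h, hl⟩, false), rfl⟩
  · refine ⟨(⟨s.mu F w, At.mu s h, by rw [s.mu_mu h.1 h.2]; exact hl⟩, true), ?_⟩
    exact s.mu_mu h.1 h.2

lemma clp_ptt (G : Set s.Dbl) (inn : s.Dbl → Bool → Bool) {F : Φ} (t : Ch s F × Bool) :
    (labF G inn F).clp t = orb G inn (ed (ptt_at t)) := by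
  obtain ⟨a, b⟩ := t
  cases b
  · have h1 : (⟨col (s.lab a.1), ini a, false⟩ : Dart s) = ed (ptt_at (a, false)) :=
      eq_ed rfl rfl rfl _
    rw [← h1, orb_eq_lb]
    show lb G inn (pc a ((dg s F).lo a)) = _
    rw [pc_lo]
  · have hf : fc (⟨col (s.lab a.1), pc a ((dg s F).hi a - 1), true⟩ : Dart s) = F := by
      show (chd (pc a ((dg s F).hi a - 1))).1 = F
      rw [pc_chd]
    have hp : pt (⟨col (s.lab a.1), pc a ((dg s F).hi a - 1), true⟩ : Dart s) = ptt (a, true) := by
      show s.mu (chd (pc a ((dg s F).hi a - 1))).1 (chd (pc a ((dg s F).hi a - 1))).2 = _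
      rw [pc_chd]
      rfl
    have hn : node (⟨col (s.lab a.1), pc a ((dg s F).hi a - 1), true⟩ : Dart s) = none := by
      show nxt (pc a ((dg s F).hi a - 1)) = none
      exact nxt_none.2 (pc_hi a)
    have h1 : (⟨col (s.lab a.1), pc a ((dg s F).hi a - 1), true⟩ : Dart s)
        = ed (ptt_at (a, true)) := eq_ed hn hf hp _
    rw [← h1, orb_eq_lb]
    rfl

lemma lace_symm1 {F : Φ} {u v x y : W} : M.Lace F u v x y ↔ M.Lace F v u x y := by
  unfold MeshC.Lace MeshC.Btw; tauto

lemma lace_symm2 {F : Φ} {u v x y : W} : M.Lace F u v x y ↔ M.Lace F u v y x := by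
  unfold MeshC.Lace; tauto

variable {G : Set s.Dbl} {inn : s.Dbl → Bool → Bool}

/-- FACE, ordered form -/
lemma face_aux {F : Φ} {u u' v v' : W} (hu : s.At F u) (hu' : s.At F u') (hv : s.At F v)
    (hv' : s.At F v') (huu : M.pos F u < M.pos F u') (hvv : M.pos F v < M.pos F v')
    (κ κ' : Orb G inn) (hk : κ ≠ κ')
    (h1 : ∀ w (h : s.At F w), orb G inn (ed h) = κ ↔ w = u ∨ w = u')
    (h2 : ∀ w (h : s.At F w), orb G inn (ed h) = κ' ↔ w = v ∨ w = v')
    (hl : M.Lace F u u' v v') :
    ∃ z : s.Dbl, z ∉ G ∧ z.F = F ∧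
      ((lb G inn (abv z false) = κ ∧ lb G inn (abv z true) = κ') ∨
        (lb G inn (abv z false) = κ' ∧ lb G inn (abv z true) = κ)) := by
  classical
  obtain ⟨r1, hr1⟩ := exists_ptt hu
  obtain ⟨r2, hr2⟩ := exists_ptt hu'
  obtain ⟨t1, ht1⟩ := exists_ptt hv
  obtain ⟨t2, ht2⟩ := exists_ptt hv'
  have hr : ∀ t, (labF G inn F).clp t = κ ↔ t = r1 ∨ t = r2 := by
    intro t
    rw [clp_ptt, h1]
    constructor
    · rintro (h | h)
      · left; exact ptt_inj (h.trans hr1.symm)
      · right; exact ptt_inj (h.trans hr2.symm)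
    · rintro (rfl | rfl)
      · left; exact hr1
      · right; exact hr2
  have ht : ∀ t, (labF G inn F).clp t = κ' ↔ t = t1 ∨ t = t2 := by
    intro t
    rw [clp_ptt, h2]
    constructor
    · rintro (h | h)
      · left; exact ptt_inj (h.trans ht1.symm)
      · right; exact ptt_inj (h.trans ht2.symm)
    · rintro (rfl | rfl)
      · left; exact ht1
      · right; exact ht2
  have p1 : (dg s F).pos r1 = rk s F (M.pos F u) := by rw [pos_ptt, hr1]
  have p2 : (dg s F).pos r2 = rk s F (M.pos F u') := by rw [pos_ptt, hr2]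
  have p3 : (dg s F).pos t1 = rk s F (M.pos F v) := by rw [pos_ptt, ht1]
  have p4 : (dg s F).pos t2 = rk s F (M.pos F v') := by rw [pos_ptt, ht2]
  have l1 : (dg s F).pos r1 < (dg s F).pos r2 := by
    rw [p1, p2]; exact (rk_lt_iff s hu).2 huu
  have l2 : (dg s F).pos t1 < (dg s F).pos t2 := by
    rw [p3, p4]; exact (rk_lt_iff s hv).2 hvv
  have hpar := Dg.Lab.parity_two (labF G inn F) hk hr ht l1 l2
  rw [p1, p2, p3, p4, rk_lt_iff s hu, rk_lt_iff s hv, rk_lt_iff s hu', rk_lt_iff s hv,
    rk_lt_iff s hu, rk_lt_iff s hv'] at hpar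
  -- the ends are different
  have hne : ∀ {w w' : W}, s.At F w → s.At F w' → (w = u ∨ w = u') → (w' = v ∨ w' = v') →
      M.pos F w < M.pos F w' ∨ M.pos F w' < M.pos F w := by
    intro w w' hw hw' h3 h4
    apply lt_or_gt_of_ne
    apply pos_ne s hw hw'
    rintro rfl
    exact hk (((h1 w hw).2 h3).symm.trans ((h2 w hw').2 h4))
  have d1 := hne hu hv (Or.inl rfl) (Or.inl rfl)
  have d2 := hne hu hv' (Or.inl rfl) (Or.inr rfl)
  have d3 := hne hu' hv (Or.inr rfl) (Or.inl rfl)
  have d4 := hne hu' hv' (Or.inr rfl) (Or.inr rfl)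
  have hodd : Odd ((Finset.univ.filter fun z : Ch s F × Ch s F =>
        (labF G inn F).St κ κ' z.1 z.2).card
      + (Finset.univ.filter fun z : Ch s F × Ch s F => (labF G inn F).St κ' κ z.1 z.2).card) := by
    apply hpar.1
    unfold MeshC.Lace MeshC.Btw at hl
    generalize M.pos F u = A at *
    generalize M.pos F u' = A' at *
    generalize M.pos F v = B at *
    generalize M.pos F v' = B' at *
    rcases d1 with d1 | d1 <;> rcases d2 with d2 | d2 <;> rcases d3 with d3 | d3 <;>
      rcases d4 with d4 | d4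
    all_goals
      first
      | (exfalso; linarith)
      | (left; exact ⟨d1, d3, d4⟩)
      | (right; exact ⟨d1, d2, d4⟩)
      | (exfalso; apply hl; constructor
         · intro h; rcases h with h | h
           · first
             | (exfalso; linarith [h.1, h.2])
             | (left; exact ⟨by linarith, by linarith⟩)
           · exfalso; linarith [h.1, h.2]
         · intro h; rcases h with h | h
           · first
             | (exfalso; linarith [h.1, h.2])
             | (left; exact ⟨by linarith, by linarith⟩)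
           · exfalso; linarith [h.1, h.2])
  have hfin : ∀ (κ κ' : Orb G inn), κ ≠ κ' → ∀ a b : Ch s F, (labF G inn F).St κ κ' a b →
      ∃ z : s.Dbl, z ∉ G ∧ z.F = F ∧ lb G inn (abv z false) = κ ∧ lb G inn (abv z true) = κ' := by
    rintro κ κ' hk a b ⟨ha, hX, c1, c2, c3, c4⟩
    obtain ⟨e1, e2⟩ := e_mkD a b ha hX
    have hb : (dg s F).fam b = true := (mkD a b ha hX).colr true
    have k1 := lb_pc_at G inn a ha (mkD a b ha hX) rfl rfl
    have k2 := lb_pc_at G inn b hb (mkD a b ha hX) rfl rfl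
    rw [e1] at c1 c2
    rw [e2] at c3 c4
    have c1' : lb G inn (bel (mkD a b ha hX) false) = κ := k1.2.symm.trans c1
    have c2' : lb G inn (abv (mkD a b ha hX) false) = κ := k1.1.symm.trans c2
    have c3' : lb G inn (bel (mkD a b ha hX) true) = κ' := k2.2.symm.trans c3
    have c4' : lb G inn (abv (mkD a b ha hX) true) = κ' := k2.1.symm.trans c4
    refine ⟨mkD a b ha hX, ?_, rfl, c2', c4'⟩
    intro hz
    rcases lb_turn (inn := inn) hz with h | h
    · exact hk (c1'.symm.trans (h.1.trans c3'))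
    · exact hk (c1'.symm.trans (h.1.trans c4'))
  by_cases hc : (Finset.univ.filter fun z : Ch s F × Ch s F =>
      (labF G inn F).St κ κ' z.1 z.2) = ∅
  · by_cases hc' : (Finset.univ.filter fun z : Ch s F × Ch s F =>
        (labF G inn F).St κ' κ z.1 z.2) = ∅
    · rw [hc, hc'] at hodd
      simp at hodd
    · obtain ⟨z, hz⟩ := Finset.nonempty_iff_ne_empty.2 hc'
      rw [Finset.mem_filter] at hz
      obtain ⟨w, hw1, hw2, hw3, hw4⟩ := hfin κ' κ hk.symm _ _ hz.2
      exact ⟨w, hw1, hw2, Or.inr ⟨hw3, hw4⟩⟩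
  · obtain ⟨z, hz⟩ := Finset.nonempty_iff_ne_empty.2 hc
    rw [Finset.mem_filter] at hz
    obtain ⟨w, hw1, hw2, hw3, hw4⟩ := hfin κ κ' hk _ _ hz.2
    exact ⟨w, hw1, hw2, Or.inl ⟨hw3, hw4⟩⟩

/-- **FACE**: two re-glued chords which are interlaced meet in an unresolved double point -/
theorem face {F : Φ} {w x : W} (hw : s.At F w) (hx : s.At F x)
    (hne : orb G inn (ed hw) ≠ orb G inn (ed hx))
    (hl : M.Lace F w (mu' G inn F w) x (mu' G inn F x)) :
    ∃ z : s.Dbl, z ∉ G ∧ z.F = F ∧
      ((lb G inn (abv z false) = orb G inn (ed hw) ∧ lb G inn (abv z true) = orb G inn (ed hx)) ∨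
        (lb G inn (abv z false) = orb G inn (ed hx) ∧
          lb G inn (abv z true) = orb G inn (ed hw))) := by
  have hw' := mu'_at G inn hw
  have hx' := mu'_at G inn hx
  have h1 : ∀ u (h : s.At F u), orb G inn (ed h) = orb G inn (ed hw) ↔
      u = w ∨ u = mu' G inn F w := fun u h => by
    rw [orb_ed_iff hw h]; simp
  have h2 : ∀ u (h : s.At F u), orb G inn (ed h) = orb G inn (ed hx) ↔
      u = x ∨ u = mu' G inn F x := fun u h => by
    rw [orb_ed_iff hx h]; simp
  have h1' : ∀ u (h : s.At F u), orb G inn (ed h) = orb G inn (ed hw) ↔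
      u = mu' G inn F w ∨ u = w := fun u h => by rw [h1 u h]; tauto
  have h2' : ∀ u (h : s.At F u), orb G inn (ed h) = orb G inn (ed hx) ↔
      u = mu' G inn F x ∨ u = x := fun u h => by rw [h2 u h]; tauto
  rcases lt_or_gt_of_ne (pos_ne s hw hw' (mu'_ne hw).symm) with a | a <;>
    rcases lt_or_gt_of_ne (pos_ne s hx hx' (mu'_ne hx).symm) with b | b
  · exact face_aux hw hw' hx hx' a b _ _ hne h1 h2 hl
  · exact face_aux hw hw' hx' hx a b _ _ hne h1 h2' (lace_symm2.1 hl)
  · exact face_aux hw' hw hx hx' a b _ _ hne h1' h2 (lace_symm1.1 hl)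
  · exact face_aux hw' hw hx' hx a b _ _ hne h1' h2' (lace_symm1.1 (lace_symm2.1 hl))

end Crest.Agent.R096.Wk_689
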