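import Crest.Agent.R096.Ac6_117
import Crest.Agent.R096.Wk6_689

-- ▼ part R096/Ac7_117
section

/-!
# R096 (row 96), (ARCS), part 7: `SIDE` on the boundary of a cell (helper117)

`FaceSide s` (owner of the proof: 689) and `SphM M q` imply `SIDE (arr S s)`.
-/

set_option autoImplicit false
set_option linter.unusedSectionVars false

open Set

namespace Crest.Agent.R096.Ac_117

open St_147 Wk_689

variable {ι Φ W I : Type} {M : MeshC ι Φ W} {col : I → Bool}

/-- the value of a function on the sub-chords at a dart -/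
def vD {s : St M col} (u : (x : Bool) → s.Sub x → ZMod 2) (d : Dart s) : ZMod 2 := u d.x d.p

open Classical in
/-- sum of the values at the ends of the chords of `F` below the position `t` -/
noncomputable def sumB {s : St M col} (u : (x : Bool) → s.Sub x → ZMod 2) (F : Φ) (t : ℝ) : ZMod 2 :=
  ∑ v ∈ s.P, if h : s.At F v then (if M.pos F v < t then vD u (ed h) else 0) else 0

/-- **side functions of a face** (689) -/
def FaceSide (s : St M col) : Prop :=
  ∀ (F : Φ) (u : (x : Bool) → s.Sub x → ZMod 2),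
    (∀ z : s.Dbl, z.F = F → u true (bel z true) + u true (abv z true) +
      u false (bel z false) + u false (abv z false) = 0) →
    ∃ t : (x : Bool) → s.Sub x → Bool → ZMod 2,
      (∀ x p, (chd p).1 = F → t x p false + t x p true = u x p) ∧
      (∀ z : s.Dbl, z.F = F → ∀ i j, t (dj z true j).x (dj z true j).p i =
        t (dj z false i).x (dj z false i).p j) ∧
      (∀ w (h : s.At F w), t (ed h).x (ed h).p (ed h).b = sumB u F (M.pos F w))

variable {s : St M col}

instance finite_at : Finite {a : Φ × W // s.At a.1 a.2} := by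
  have h1 : Set.Finite {a : Φ × W | s.At a.1 a.2} := by
    have : {a : Φ × W | s.At a.1 a.2} ⊆ ⋃ w ∈ s.P, (fun F => (F, w)) '' {F | w ∈ M.On F} := by
      rintro ⟨F, w⟩ ⟨hw, hF⟩
      rw [Set.mem_iUnion₂]
      exact ⟨w, hw, F, hF, rfl⟩
    exact (s.P.finite_toSet.biUnion (fun w _ => (M.fin w).image _)).subset this
  exact h1.to_subtype

/-- all darts: at the double points and at the ends of the chords -/
noncomputable def allD (s : St M col) : (s.Dbl × Bool × Bool) ⊕ {a : Φ × W // s.At a.1 a.2} → Dart s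
  | Sum.inl (z, c, j) => dz z c j
  | Sum.inr a => ed a.2

lemma allD_bij : Function.Bijective (allD s) := by
  constructor
  · rintro (⟨z, c, j⟩ | a) (⟨z', c', j'⟩ | a') h
    · obtain ⟨rfl, rfl, rfl⟩ := dz_inj (show dz z c j = dz z' c' j' from h)
      rfl
    · exfalso
      have h2 : node (dz z c j) = node (ed a'.2) := congrArg node h
      rw [node_dz, node_ed] at h2
      exact absurd h2 (by simp)
    · exfalso
      have h2 : node (ed a.2) = node (dz z' c' j') := congrArg node h
      rw [node_dz, node_ed] at h2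
      exact absurd h2 (by simp)
    · have h0 : ed a.2 = ed a'.2 := h
      have : a = a' := by
        apply Subtype.ext
        apply Prod.ext
        · rw [← fc_ed a.2, ← fc_ed a'.2, h0]
        · rw [← pt_ed a.2, ← pt_ed a'.2, h0]
      rw [this]
  · intro d
    rcases hn : node d with _ | z
    · exact ⟨Sum.inr ⟨(fc d, pt d), pt_at d⟩, (eq_ed hn rfl rfl (pt_at d)).symm⟩
    · exact ⟨Sum.inl (z, d.x, d.b), (eq_dz hn).symm⟩

/-- handshake: the values at the ends of the chords of a face have an even sum -/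
lemma handshake {F : Φ} {u : (x : Bool) → s.Sub x → ZMod 2}
    (hu : ∀ z : s.Dbl, z.F = F → u true (bel z true) + u true (abv z true) +
      u false (bel z false) + u false (abv z false) = 0) :
    (open Classical in ∑ v ∈ s.P, (if h : s.At F v then vD u (ed h) else 0)) = 0 := by
  classical
  have : Fintype s.Dbl := Fintype.ofFinite _
  have : Fintype {a : Φ × W // s.At a.1 a.2} := Fintype.ofFinite _
  let e := Equiv.ofBijective (allD s) allD_bij
  have : Fintype (Dart s) := Fintype.ofEquiv _ e
  -- the sum over all darts of the face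
  let f : Dart s → ZMod 2 := fun d => if fc d = F then vD u d else 0
  have h0 : ∑ d, f d = 0 := by
    refine Finset.sum_involution (fun d _ => Wk_689.flip d) ?_ ?_ ?_ ?_
    · intro d _
      have : f (Wk_689.flip d) = f d := rfl
      rw [this]
      generalize f d = a
      revert a; decide
    · intro d _ _
      exact Wk_689.flip_ne d
    · intro d _; exact Finset.mem_univ _
    · intro d _; exact Wk_689.flip_flip d
  have h1 : ∑ d, f d = ∑ a, f (allD s a) := (Equiv.sum_comp e f).symm
  rw [h1, Fintype.sum_sum_type] at h0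
  have h2 : ∑ a : s.Dbl × Bool × Bool, f (allD s (Sum.inl a)) = 0 := by
    rw [Fintype.sum_prod_type]
    apply Finset.sum_eq_zero
    intro z _
    rw [Fintype.sum_prod_type]
    simp only [Fintype.sum_bool]
    show f (dz z true true) + f (dz z true false) + (f (dz z false true) + f (dz z false false)) = 0
    by_cases hz : z.F = F
    · have e1 : ∀ x b, f (dz z x b) = vD u (dz z x b) := fun x b => by
        show (if fc (dz z x b) = F then _ else _) = _
        rw [if_pos (by rw [fc_dz]; exact hz)]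
      rw [e1, e1, e1, e1, ← add_assoc]
      exact hu z hz
    · have e1 : ∀ x b, f (dz z x b) = 0 := fun x b => by
        show (if fc (dz z x b) = F then _ else _) = _
        rw [if_neg (by rw [fc_dz]; exact hz)]
      rw [e1, e1, e1, e1]; decide
  rw [h2, zero_add] at h0
  refine Eq.trans ?_ h0
  -- compare the two sums
  have h3 : ∑ a : {a : Φ × W // s.At a.1 a.2}, f (allD s (Sum.inr a)) =
      ∑ a : {a : Φ × W // s.At a.1 a.2}, if a.1.1 = F then vD u (ed a.2) else 0 := by
    apply Finset.sum_congr rfl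
    intro a _
    show (if fc (ed a.2) = F then vD u (ed a.2) else 0) = _
    rw [fc_ed]
  rw [h3, ← Finset.sum_filter]
  have h4 : ∑ v ∈ s.P, (if h : s.At F v then vD u (ed h) else 0) =
      ∑ v ∈ s.P.filter (fun v => s.At F v), (if h : s.At F v then vD u (ed h) else 0) := by
    rw [Finset.sum_filter]
    apply Finset.sum_congr rfl
    intro v _
    by_cases h : s.At F v
    · rw [if_pos h]
    · rw [dif_neg h, if_neg h]
  rw [h4]
  refine Finset.sum_bij' (i := fun v hv => (⟨(F, v), (Finset.mem_filter.1 hv).2⟩ :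
    {a : Φ × W // s.At a.1 a.2})) (j := fun a _ => a.1.2) ?_ ?_ ?_ ?_ ?_
  · intro v hv
    exact Finset.mem_filter.2 ⟨Finset.mem_univ _, rfl⟩
  · intro a ha
    have h5 := (Finset.mem_filter.1 ha).2
    have h6 := a.2
    rw [h5] at h6
    exact Finset.mem_filter.2 ⟨h6.1, h6⟩
  · intro v _; rfl
  · intro a ha
    have h5 := (Finset.mem_filter.1 ha).2
    apply Subtype.ext
    exact Prod.ext h5.symm rfl
  · intro v hv
    rw [dif_pos (Finset.mem_filter.1 hv).2]

open Classical in
lemma dart_b (d : Dart s) :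
    d.b = decide (M.pos (fc d) (s.mu (fc d) (pt d)) < M.pos (fc d) (pt d)) := by
  obtain ⟨x, p, b⟩ := d
  have h1 := chd_low p
  cases b
  · symm
    rw [decide_eq_false_iff_not]
    exact not_lt.2 h1.le
  · symm
    rw [decide_eq_true_eq]
    show M.pos (chd p).1 (s.mu (chd p).1 (s.mu (chd p).1 (chd p).2)) <
      M.pos (chd p).1 (s.mu (chd p).1 (chd p).2)
    rw [s.mu_mu (chd_at p).1 (chd_at p).2]
    exact h1

open Classical in
lemma ed_b {F : Φ} {w : W} (h : s.At F w) :
    (ed h).b = decide (M.pos F (s.mu F w) < M.pos F w) := by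
  rw [dart_b, fc_ed, pt_ed]

section Cell

variable {q : ι}

open Classical in
/-- extension by 0 of a function on the sub-chords of `∂q` -/
noncomputable def ext0 (u : Qq s q → ZMod 2) (x : Bool) (p : s.Sub x) : ZMod 2 :=
  if h : q ∈ M.side (chd p).1 then u ⟨⟨x, p⟩, h⟩ else 0

lemma vD_ext0 (u : Qq s q → ZMod 2) (d : Drt (Zq s q) (Lq s q)) :
    vD (ext0 u) (toD d) = u (pcQ d) := by
  exact dif_pos (toD_side d)

lemma z2_four {a b c d : ZMod 2} (h : a + b + c + d = 0) (a' b' c' d' : ZMod 2)
    (h1 : (a' = a ∧ b' = b) ∨ (a' = b ∧ b' = a)) (h2 : (c' = c ∧ d' = d) ∨ (c' = d ∧ d' = c)) :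
    a' + b' + c' + d' = 0 := by
  rcases h1 with ⟨rfl, rfl⟩ | ⟨rfl, rfl⟩ <;> rcases h2 with ⟨rfl, rfl⟩ | ⟨rfl, rfl⟩ <;>
    rw [← h] <;> ring

lemma dj_pair (z : s.Dbl) (c : Bool) (f : Dart s → ZMod 2) :
    (f (dz z c true) = f (dj z c false) ∧ f (dz z c false) = f (dj z c true)) ∨
    (f (dz z c true) = f (dj z c true) ∧ f (dz z c false) = f (dj z c false)) := by
  unfold dj
  cases lowIn z c
  · left; exact ⟨rfl, rfl⟩
  · right; exact ⟨rfl, rfl⟩

/-- **`SIDE` on the boundary of a cell** -/
theorem side_arr (hF : FaceSide s) (S : SphM M q) : (arr S s).SIDE := by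
  classical
  intro u hu
  -- even at the double points
  have hev : ∀ F, q ∈ M.side F → ∀ z : s.Dbl, z.F = F →
      ext0 u true (bel z true) + ext0 u true (abv z true) +
        ext0 u false (bel z false) + ext0 u false (abv z false) = 0 := by
    rintro F hq z rfl
    have h1 := hu.ev ⟨z, hq⟩
    have e1 : ∀ c j, u ((arr S s).pc ⟨z, hq⟩ c j) = vD (ext0 u) (dj z c j) := fun c j =>
      (vD_ext0 u (Sum.inl (⟨z, hq⟩, c, j))).symm
    rw [e1, e1, e1, e1] at h1
    refine z2_four h1 _ _ _ _ ?_ ?_
    · exact (dj_pair z true (vD (ext0 u)))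
    · exact (dj_pair z false (vD (ext0 u)))
  -- side functions of the faces
  have hex : ∀ F, ∃ t : (x : Bool) → s.Sub x → Bool → ZMod 2, q ∈ M.side F →
      (∀ x p, (chd p).1 = F → t x p false + t x p true = ext0 u x p) ∧
      (∀ z : s.Dbl, z.F = F → ∀ i j, t (dj z true j).x (dj z true j).p i =
        t (dj z false i).x (dj z false i).p j) ∧
      (∀ w (h : s.At F w), t (ed h).x (ed h).p (ed h).b = sumB (ext0 u) F (M.pos F w)) := by
    intro F
    by_cases hq : q ∈ M.side F
    · obtain ⟨t, ht⟩ := hF F (ext0 u) (hev F hq)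
      exact ⟨t, fun _ => ht⟩
    · exact ⟨fun _ _ _ => 0, fun h => absurd h hq⟩
  choose t ht using hex
  -- the points where the chain crosses the mesh edges
  let uw : W → ZMod 2 := fun w =>
    if h : w ∈ s.P ∧ ∃ F, q ∈ M.side F ∧ w ∈ M.On F then u ((arr S s).lp ⟨w, h⟩ false) else 0
  have huw : ∀ (w : Lq s q) (i : Bool), u ((arr S s).lp w i) = uw w.1 := by
    intro w i
    have h1 : uw w.1 = u ((arr S s).lp w false) := by
      show (if h : w.1 ∈ s.P ∧ ∃ F, q ∈ M.side F ∧ w.1 ∈ M.On F then
        u ((arr S s).lp ⟨w.1, h⟩ false) else 0) = _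
      rw [dif_pos w.2]
    rw [h1]
    cases i
    · rfl
    · exact (hu.lk w).symm
  have hed : ∀ (F : Φ) (w : W) (h : s.At F w), q ∈ M.side F → vD (ext0 u) (ed h) = uw w := by
    intro F w h hq
    let l : Lq s q := ⟨w, h.1, F, hq, h.2⟩
    obtain ⟨i, hi⟩ := exists_fa l hq h.2
    have h1 := huw l i
    have h2 : u ((arr S s).lp l i) = vD (ext0 u) (ed (fa_at l i)) :=
      (vD_ext0 u (Sum.inr (l, i))).symm
    have h3 : vD (ext0 u) (ed (fa_at l i)) = vD (ext0 u) (ed h) := by
      congr 1
      apply ed_unique (node_ed _) (node_ed _)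
      · rw [fc_ed, fc_ed]; exact hi.symm
      · rw [pt_ed, pt_ed]
    rw [← h3, ← h2, h1]
  let y : Finset W := s.P.filter (fun w => uw w = 1)
  have hsumB : ∀ F, q ∈ M.side F → ∀ r, sumB (ext0 u) F r = cntP M y F r := by
    intro F hq r
    unfold sumB cntP
    rw [Finset.filter_filter, Finset.card_filter, Nat.cast_sum]
    apply Finset.sum_congr rfl
    intro v hv
    by_cases h : s.At F v
    · rw [dif_pos h, hed F v h hq]
      by_cases h2 : M.pos F v < r
      · rw [if_pos h2]
        rcases z2_or (uw v) with h3 | h3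
        · rw [h3, if_neg (by rintro ⟨h4, -⟩; exact absurd h4 (by decide))]
          rfl
        · rw [h3, if_pos ⟨rfl, h.2, h2⟩]
          rfl
      · rw [if_neg h2, if_neg (by rintro ⟨-, -, h4⟩; exact h2 h4)]
        rfl
    · rw [dif_neg h, if_neg (by rintro ⟨-, h4, -⟩; exact h ⟨hv, h4⟩)]
      rfl
  have heven : ∀ F, q ∈ M.side F → Even (y.filter (fun v => v ∈ M.On F)).card := by
    intro F hq
    have h1 := handshake (hev F hq)
    have h2 : ((y.filter (fun v => v ∈ M.On F)).card : ZMod 2) = 0 := by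
      rw [← h1, Finset.filter_filter, Finset.card_filter, Nat.cast_sum]
      apply Finset.sum_congr rfl
      intro v hv
      by_cases h : s.At F v
      · rw [dif_pos h, hed F v h hq]
        rcases z2_or (uw v) with h3 | h3
        · rw [h3, if_neg (by rintro ⟨h4, -⟩; exact absurd h4 (by decide))]
          rfl
        · rw [h3, if_pos ⟨rfl, h.2⟩]
          rfl
      · rw [dif_neg h, if_neg (by rintro ⟨-, h4⟩; exact h ⟨hv, h4⟩)]
        rfl
    rwa [ZMod.natCast_eq_zero_iff_even] at h2
  obtain ⟨κ, hκ⟩ := S.sph y heven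
  refine ⟨fun p i => κ (chd p.1.2).1 + t (chd p.1.2).1 p.1.1 p.1.2 i, ?_, ?_, ?_⟩
  · intro p
    have h1 := (ht _ p.2).1 p.1.1 p.1.2 rfl
    have h2 : ext0 u p.1.1 p.1.2 = u p := dif_pos p.2
    show κ _ + t _ _ _ false + (κ _ + t _ _ _ true) = u p
    rw [← h2, ← h1]
    generalize κ (chd p.1.2).1 = k
    generalize t (chd p.1.2).1 p.1.1 p.1.2 false = a
    generalize t (chd p.1.2).1 p.1.1 p.1.2 true = b
    revert k a b; decide
  · intro z i j
    have h1 := (ht _ z.2).2.1 z.1 rfl i j
    have e1 : ∀ c j, (chd (dj z.1 c j).p).1 = z.1.F := fun c j => dj_fc z.1 c j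
    show κ (chd (dj z.1 true j).p).1 + t (chd (dj z.1 true j).p).1 (dj z.1 true j).x
        (dj z.1 true j).p i = κ (chd (dj z.1 false i).p).1 + t (chd (dj z.1 false i).p).1
        (dj z.1 false i).x (dj z.1 false i).p j
    rw [e1, e1, h1]
  · intro w i
    -- sides at a link point
    have hup : ∀ b, (ed (fa_at w b)).b = upb w b := fun b => ed_b (fa_at w b)
    have hval : ∀ b i, κ (fa w b) + t (fa w b) (ed (fa_at w b)).x (ed (fa_at w b)).p i =
        κ (fa w b) + cntP M y (fa w b) (M.pos (fa w b) w.1) +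
          (if xor i (upb w b) = true then uw w.1 else 0) := by
      intro b i
      have hq := (fa_side w b).1
      have h1 := (ht _ hq).2.2 w.1 (fa_at w b)
      have h2 := (ht _ hq).1 (ed (fa_at w b)).x (ed (fa_at w b)).p (fc_ed (fa_at w b))
      have h3 : ext0 u (ed (fa_at w b)).x (ed (fa_at w b)).p = uw w.1 := hed _ _ (fa_at w b) hq
      rw [h3] at h2
      rw [hsumB _ hq, hup b] at h1
      rw [add_assoc, ← h1]
      congr 1
      rcases hub : upb w b
      · rw [hub] at h1
        cases i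
        · simp
        · simp only [Bool.xor_false]
          rw [if_pos trivial, ← h2]
          generalize t (fa w b) (ed (fa_at w b)).x (ed (fa_at w b)).p false = a
          generalize t (fa w b) (ed (fa_at w b)).x (ed (fa_at w b)).p true = c
          revert a c; decide
      · rw [hub] at h1
        cases i
        · simp only [Bool.false_xor]
          rw [if_pos trivial, ← h2]
          generalize t (fa w b) (ed (fa_at w b)).x (ed (fa_at w b)).p false = a
          generalize t (fa w b) (ed (fa_at w b)).x (ed (fa_at w b)).p true = c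
          revert a c; decide
        · simp
    have e1 : ∀ b, (chd (ed (fa_at w b)).p).1 = fa w b := fun b => fc_ed (fa_at w b)
    have goal1 : ∀ b i, κ (chd (ed (fa_at w b)).p).1 + t (chd (ed (fa_at w b)).p).1
        (ed (fa_at w b)).x (ed (fa_at w b)).p i = κ (fa w b) +
          cntP M y (fa w b) (M.pos (fa w b) w.1) +
          (if xor i (upb w b) = true then uw w.1 else 0) := by
      intro b i
      rw [e1 b]
      exact hval b i
    show κ (chd (ed (fa_at w false)).p).1 + t (chd (ed (fa_at w false)).p).1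
        (ed (fa_at w false)).x (ed (fa_at w false)).p i =
      κ (chd (ed (fa_at w true)).p).1 + t (chd (ed (fa_at w true)).p).1
        (ed (fa_at w true)).x (ed (fa_at w true)).p
          (xor i (xor (S.opp w.1) (xor (upb w false) (upb w true))))
    rw [goal1, goal1]
    have hk := hκ (fa w false) (fa w true) w.1 (fa_side w false).1 (fa_side w true).1 (fa_ne w)
      (fa_side w false).2 (fa_side w true).2
    rw [hk]
    have hy : w.1 ∈ y ↔ uw w.1 = 1 := by
      show w.1 ∈ s.P.filter (fun w => uw w = 1) ↔ _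
      rw [Finset.mem_filter]
      exact ⟨fun h => h.2, fun h => ⟨w.2.1, h⟩⟩
    clear_value uw
    rcases z2_or (uw w.1) with h3 | h3
    · have hny : ¬ (w.1 ∈ y ∧ S.opp w.1 = true) := by
        rw [hy, h3]; rintro ⟨h4, -⟩; exact absurd h4 (by decide)
      rw [if_neg hny, h3]; simp
    · have hyy : w.1 ∈ y := hy.2 h3
      rw [h3]
      cases i <;> cases S.opp w.1 <;> cases upb w false <;> cases upb w true <;> simp [hyy] <;>
        (generalize κ (fa w true) + cntP M y (fa w true) (M.pos (fa w true) w.1) = a; revert a;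
          decide)

end Cell

end Crest.Agent.R096.Ac_117
end

-- ▼ part R096/Ac8_117
section

/-!
# R096 (row 96), (ARCS), part 8: `St_147.St.Arcs` from ranks and inside functions (helper117)
-/

set_option autoImplicit false
set_option linter.unusedSectionVars false

open Set

namespace Crest.Agent.R096.Ac_117

open St_147 Wk_689

variable {ι Φ W I : Type} {M : MeshC ι Φ W} {col : I → Bool} {s : St M col}

section Cell

variable {q : ι}


/-- the pieces above and below `z` are the two pieces `pc z x _` -/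
lemma bel_abv (z : s.Dbl) (x : Bool) : ∃ j, dz z x true = dj z x j ∧ dz z x false = dj z x (!j) := by
  refine ⟨lowIn z x, ?_, ?_⟩
  · unfold dj; simp
  · unfold dj; cases lowIn z x <;> rfl

/-- the piece of an end point -/
lemma end_ed {x : Bool} {p : s.Sub x} {F : Φ} {w : W} (h : p.End F w) :
    ∃ hat : s.At F w, (⟨(ed hat).x, (ed hat).p⟩ : Σ x : Bool, s.Sub x) = ⟨x, p⟩ := by
  obtain ⟨hat, h⟩ := h
  refine ⟨hat, ?_⟩
  rcases h with ⟨hlt, a, rfl, ha⟩ | ⟨hlt, h⟩
  · have h1 : (⟨x, Sum.inl a, false⟩ : Dart s) = ed hat := by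
      refine eq_ed rfl ?_ ?_ hat
      · show a.1.1 = F
        rw [ha]
      · show a.1.2 = w
        rw [ha]
    rw [← h1]
  · have htop : IsTop p ∧ chd p = (F, s.mu F w) := by
      cases p with
      | inl a =>
        obtain ⟨h1, h2⟩ := h
        refine ⟨?_, h1⟩
        intro z hz
        have h3 := below_chd hz
        have h4 : a.1 = (z.F, z.e x) := h3
        rw [h1] at h4
        simp only [Prod.mk.injEq] at h4
        exact h2 z h4.1.symm h4.2.symm
      | inr y =>
        obtain ⟨h1, h2, h3⟩ := h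
        refine ⟨?_, Prod.ext h1 h2⟩
        intro z hz
        have h4 := hz.1
        have h5 := hz.2.1
        exact h3 z (h4.trans h1) (h5.trans h2) hz.2.2.1
    have h1 : (⟨x, p, true⟩ : Dart s) = ed hat := by
      refine eq_ed (d := ⟨x, p, true⟩) (show node _ = none from nxt_none.2 htop.1) ?_ ?_ hat
      · show (chd p).1 = F
        rw [htop.2]
      · show s.mu (chd p).1 (chd p).2 = w
        rw [htop.2]
        exact s.mu_mu hat.1 hat.2
    rw [← h1]

lemma end_of_none {d : Dart s} (h : node d = none) : d.p.End (fc d) (pt d) := by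
  refine ⟨pt_at d, ?_⟩
  obtain ⟨x, p, b⟩ := d
  cases b
  · left
    cases p with
    | inl a => exact ⟨a.2.2.1, a, rfl, rfl⟩
    | inr z => exact absurd h (by simp [node, prv])
  · right
    have htop : IsTop p := nxt_none.1 h
    have hlow := chd_low p
    have hmm : s.mu (chd p).1 (s.mu (chd p).1 (chd p).2) = (chd p).2 :=
      s.mu_mu (chd_at p).1 (chd_at p).2
    refine ⟨?_, ?_⟩
    · show M.pos (chd p).1 (s.mu (chd p).1 (s.mu (chd p).1 (chd p).2)) <
        M.pos (chd p).1 (s.mu (chd p).1 (chd p).2)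
      rw [hmm]; exact hlow
    · have h1 := top_iff.1 htop
      cases p with
      | inl a =>
        constructor
        · show a.1 = (a.1.1, s.mu a.1.1 (s.mu a.1.1 a.1.2))
          have : s.mu a.1.1 (s.mu a.1.1 a.1.2) = a.1.2 := hmm
          rw [this]
        · intro u hu he
          have he' : u.e x = a.1.2 := by
            have : s.mu a.1.1 (s.mu a.1.1 a.1.2) = a.1.2 := hmm
            exact he.trans this
          have hc : chd (Sum.inr u : s.Sub x) = chd (Sum.inl a : s.Sub x) := Prod.ext hu he'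
          have h2 := h1 (Sum.inr u) hc
          have h3 : start (Sum.inl a : s.Sub x) < start (Sum.inr u : s.Sub x) := by
            have h4 := (key_mem u x).1
            show M.pos a.1.1 a.1.2 < u.key x
            have e1 : u.F = a.1.1 := hu
            rw [← e1, ← he']
            exact h4
          exact absurd h2 (not_le.2 h3)
      | inr z =>
        refine ⟨rfl, hmm.symm, ?_⟩
        intro u hu he
        have he' : u.e x = z.e x := he.trans hmm
        have hc : chd (Sum.inr u : s.Sub x) = chd (Sum.inr z : s.Sub x) := Prod.ext hu he'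
        exact not_lt.2 (h1 (Sum.inr u) hc)

variable {S : SphM M q}

/-- continuity at the points of `P` -/
lemma link_end {φ : Qq s q → ZMod 2}
    (h : ∀ l, φ ((arr S s).lp l false) = φ ((arr S s).lp l true)) {x : Bool} {F F' : Φ} {w : W}
    {p p' : s.Sub x} (hF : q ∈ M.side F) (hF' : q ∈ M.side F') (hp : p.End F w)
    (hp' : p'.End F' w) (hq : q ∈ M.side (chd p).1) (hq' : q ∈ M.side (chd p').1) :
    φ ⟨⟨x, p⟩, hq⟩ = φ ⟨⟨x, p'⟩, hq'⟩ := by
  obtain ⟨hat, h1⟩ := end_ed hp
  obtain ⟨hat', h1'⟩ := end_ed hp'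
  let l : Lq s q := ⟨w, hat.1, F, hF, hat.2⟩
  obtain ⟨i, hi⟩ := exists_fa l hF hat.2
  obtain ⟨i', hi'⟩ := exists_fa l hF' hat'.2
  have f1 : ed hat = ed (fa_at l i) := ed_unique (node_ed _) (node_ed _)
    (by rw [fc_ed, fc_ed]; exact hi) (by rw [pt_ed, pt_ed])
  have f2 : ed hat' = ed (fa_at l i') := ed_unique (node_ed _) (node_ed _)
    (by rw [fc_ed, fc_ed]; exact hi') (by rw [pt_ed, pt_ed])
  have e1 : (⟨⟨x, p⟩, hq⟩ : Qq s q) = (arr S s).lp l i := by
    apply Subtype.ext
    show (⟨x, p⟩ : Σ x : Bool, s.Sub x) = ⟨(ed (fa_at l i)).x, (ed (fa_at l i)).p⟩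
    rw [← f1]
    exact h1.symm
  have e2 : (⟨⟨x, p'⟩, hq'⟩ : Qq s q) = (arr S s).lp l i' := by
    apply Subtype.ext
    show (⟨x, p'⟩ : Σ x : Bool, s.Sub x) = ⟨(ed (fa_at l i')).x, (ed (fa_at l i')).p⟩
    rw [← f2]
    exact h1'.symm
  rw [e1, e2]
  cases i <;> cases i'
  · rfl
  · exact h l
  · exact (h l).symm
  · rfl

end Cell

/-- **the arcs of the active cells** -/
theorem arcs_of_dep (Act : Set ι) (hF : FaceSide s) (S : ∀ q ∈ Act, SphM M q)
    (E : ∀ q, ∀ hq : q ∈ Act, Dep (arr (S q hq) s)) :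
    ∃ A : s.Arcs Act, ∀ (q : ι) (hq : q ∈ Act) (z : s.Dbl) (hz : q ∈ M.side z.F),
      A.arc q z = ((E q hq).arc ⟨z, hz⟩).1 := by
  classical
  let arc : ι → s.Dbl → s.Dbl := fun q z =>
    if h : ∃ (hq : q ∈ Act), q ∈ M.side z.F then ((E q h.choose).arc ⟨z, h.choose_spec⟩).1 else z
  have harc : ∀ (q : ι) (hq : q ∈ Act) (z : s.Dbl) (hz : q ∈ M.side z.F),
      arc q z = ((E q hq).arc ⟨z, hz⟩).1 := by
    intro q hq z hz
    show (if h : ∃ (hq : q ∈ Act), q ∈ M.side z.F then
      ((E q h.choose).arc ⟨z, h.choose_spec⟩).1 else z) = _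
    rw [dif_pos ⟨hq, hz⟩]
  have hext : ∀ (q : ι) (hq : q ∈ Act) (x : Bool) (φ : Qq s q → ZMod 2) (p : s.Sub x)
      (hp : q ∈ M.side (chd p).1), (if h : q ∈ M.side (chd p).1 then φ ⟨⟨x, p⟩, h⟩ else 0) =
        φ ⟨⟨x, p⟩, hp⟩ := by
    intro q hq x φ p hp
    exact dif_pos hp
  refine ⟨⟨arc, ?_, ?_, ?_, ?_, ?_⟩, harc⟩
  · intro q z hq hz
    rw [harc q hq z hz]
    exact ((E q hq).arc ⟨z, hz⟩).2
  · intro q z hq hz
    rw [harc q hq z hz]
    intro h
    exact (E q hq).arc_ne ⟨z, hz⟩ (Subtype.ext h)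
  · intro q z hq hz
    rw [harc q hq z hz, harc q hq _ ((E q hq).arc ⟨z, hz⟩).2]
    have h := (E q hq).arc_arc ⟨z, hz⟩
    exact congrArg Subtype.val h
  · intro q z x hq hz
    obtain ⟨-, -, -, h4⟩ := (E q hq).exists_arcs (side_arr hF (S q hq))
    obtain ⟨φ, hl, hj, ho⟩ := h4 ⟨z, hz⟩ x
    refine ⟨fun p => if h : q ∈ M.side (chd p).1 then φ ⟨⟨x, p⟩, h⟩ else 0, ?_, ?_, ?_⟩
    · intro F F' w p p' h1 h2 h3 h4
      obtain ⟨hat, e1⟩ := end_ed h3
      obtain ⟨hat', e1'⟩ := end_ed h4
      have hq1 : q ∈ M.side (chd p).1 := by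
        have : (chd (ed hat).p).1 = F := fc_ed hat
        cases e1
        rw [this]; exact h1
      have hq2 : q ∈ M.side (chd p').1 := by
        have : (chd (ed hat').p).1 = F' := fc_ed hat'
        cases e1'
        rw [this]; exact h2
      show (if h : q ∈ M.side (chd p).1 then _ else _) = (if h : q ∈ M.side (chd p').1 then _ else _)
      rw [hext q hq x φ p hq1, hext q hq x φ p' hq2]
      exact link_end hl h1 h2 h3 h4 _ _
    · intro u p p' hu hb ha
      obtain ⟨j, h5, h6⟩ := bel_abv u x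
      have hp : p = bel u x := below_iff.1 hb
      have hp' : p' = abv u x := ha
      subst hp
      subst hp'
      have hq1 : q ∈ M.side (chd (bel u x)).1 := by
        have : (chd (bel u x)).1 = u.F := fc_dz u x true
        rw [this]; exact hu
      have hq2 : q ∈ M.side (chd (abv u x)).1 := hu
      show (if h : q ∈ M.side (chd (bel u x)).1 then _ else _) ≠
        (if h : q ∈ M.side (chd (abv u x)).1 then _ else _) ↔ _
      rw [hext q hq x φ _ hq1, hext q hq x φ _ hq2]
      have e1 : (⟨⟨x, bel u x⟩, hq1⟩ : Qq s q) = (arr (S q hq) s).pc ⟨u, hu⟩ x j := by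
        apply Subtype.ext
        show (⟨x, bel u x⟩ : Σ x : Bool, s.Sub x) = ⟨(dj u x j).x, (dj u x j).p⟩
        rw [← h5]
        rfl
      have e2 : (⟨⟨x, abv u x⟩, hq2⟩ : Qq s q) = (arr (S q hq) s).pc ⟨u, hu⟩ x (!j) := by
        apply Subtype.ext
        show (⟨x, abv u x⟩ : Σ x : Bool, s.Sub x) = ⟨(dj u x (!j)).x, (dj u x (!j)).p⟩
        rw [← h6]
        rfl
      rw [e1, e2, hj ⟨u, hu⟩ j, harc q hq z hz]
      constructor
      · rintro (h | h)
        · exact Or.inl (congrArg Subtype.val h)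
        · exact Or.inr (congrArg Subtype.val h)
      · rintro (h | h)
        · exact Or.inl (Subtype.ext h)
        · exact Or.inr (Subtype.ext h)
    · intro u hu h1 h2
      rw [harc q hq z hz] at h2
      have h3 : (⟨u, hu⟩ : Zq s q) ≠ ⟨z, hz⟩ := fun h => h1 (congrArg Subtype.val h)
      have h4 : (⟨u, hu⟩ : Zq s q) ≠ (E q hq).arc ⟨z, hz⟩ := fun h => h2 (congrArg Subtype.val h)
      have ha := harc q hq u hu
      obtain ⟨j, -, h6⟩ := bel_abv u x
      obtain ⟨j', -, h6'⟩ := bel_abv (arc q u) x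
      have hq2 : q ∈ M.side (arc q u).F := by
        rw [ha]; exact ((E q hq).arc ⟨u, hu⟩).2
      show (if h : q ∈ M.side (chd (abv u x)).1 then φ ⟨⟨x, abv u x⟩, h⟩ else 0) =
        (if h : q ∈ M.side (chd (abv (arc q u) x)).1 then φ ⟨⟨x, abv (arc q u) x⟩, h⟩ else 0)
      rw [hext q hq x φ (abv u x) hu, hext q hq x φ (abv (arc q u) x) hq2]
      have e1 : (⟨⟨x, abv u x⟩, hu⟩ : Qq s q) = (arr (S q hq) s).pc ⟨u, hu⟩ x (!j) := by
        apply Subtype.ext
        show (⟨x, abv u x⟩ : Σ x : Bool, s.Sub x) = ⟨(dj u x (!j)).x, (dj u x (!j)).p⟩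
        rw [← h6]
        rfl
      have e2 : (⟨⟨x, abv (arc q u) x⟩, hq2⟩ : Qq s q) =
          (arr (S q hq) s).pc ((E q hq).arc ⟨u, hu⟩) x (!j') := by
        apply Subtype.ext
        show (⟨x, abv (arc q u) x⟩ : Σ x : Bool, s.Sub x) =
          ⟨(dj ((E q hq).arc ⟨u, hu⟩).1 x (!j')).x, (dj ((E q hq).arc ⟨u, hu⟩).1 x (!j')).p⟩
        rw [← ha, ← h6']
        rfl
      rw [e1, e2]
      exact ho ⟨u, hu⟩ h3 h4 _ _
  · intro q z x hq hz φ h1 h2
    -- pieces of colour `x` with the value of `φ` at `z`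
    have hk := (E q hq).kz_arc ⟨z, hz⟩ x
    let φ' : (Σ y : Bool, s.Sub y) → ZMod 2 := fun a => if h : a.1 = x then φ (h ▸ a.2) else 0
    have hφ' : ∀ p : s.Sub x, φ' ⟨x, p⟩ = φ p := fun p => dif_pos rfl
    -- no jump at the double points
    have hjmp : ∀ (u : s.Dbl), q ∈ M.side u.F → φ (bel u x) = φ (abv u x) := fun u hu =>
      h2 u _ _ hu (bel_spec u x) rfl
    have hdj : ∀ (u : s.Dbl), q ∈ M.side u.F → ∀ j j', φ' ⟨(dj u x j).x, (dj u x j).p⟩ =
        φ' ⟨(dj u x j').x, (dj u x j').p⟩ := by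
      intro u hu
      have h3 : ∀ b b', φ' ⟨(dz u x b).x, (dz u x b).p⟩ = φ' ⟨(dz u x b').x, (dz u x b').p⟩ := by
        intro b b'
        have e1 : φ' ⟨(dz u x true).x, (dz u x true).p⟩ = φ (bel u x) := hφ' _
        have e2 : φ' ⟨(dz u x false).x, (dz u x false).p⟩ = φ (abv u x) := hφ' _
        cases b <;> cases b'
        · rfl
        · rw [e1, e2, hjmp u hu]
        · rw [e1, e2, hjmp u hu]
        · rfl
      intro j j'
      exact h3 _ _
    have hval : ∀ u (hu : q ∈ M.side u.F) j, φ' ((arr (S q hq) s).pc ⟨u, hu⟩ x j).1 =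
        φ (Sum.inr u) := by
      intro u hu j
      obtain ⟨j', -, h6⟩ := bel_abv u x
      have e1 : φ' ((arr (S q hq) s).pc ⟨u, hu⟩ x j).1 = φ' ⟨(dj u x (!j')).x, (dj u x (!j')).p⟩ :=
        hdj u hu _ _
      rw [e1, ← h6]
      exact hφ' _
    have key := (E q hq).conn {p | p.1.1 = x ∧ φ' p.1 = φ (Sum.inr z)} ?_
      ((arr (S q hq) s).pc ⟨z, hz⟩ x false) ((arr (S q hq) s).pc ((E q hq).arc ⟨z, hz⟩) x false)
      hk.symm ⟨(arr (S q hq) s).pc_col _ _ _, hval z hz false⟩
    · have h3 := key.2
      rw [harc q hq z hz]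
      rw [← h3]
      exact hval _ _ _
    · rintro d ⟨hd1, hd2⟩
      refine ⟨?_, ?_⟩
      · rw [← hd1]
        exact (arr (S q hq) s).col_nx d
      · rw [← hd2]
        rcases d with ⟨u, c, j⟩ | ⟨l, i⟩
        · have hc : c = x := ((arr (S q hq) s).pc_col u c j).symm.trans hd1
          subst hc
          exact hdj u.1 u.2 _ _
        · have hcol : ∀ b, (ed (fa_at l b)).x = x := by
            intro b
            have e0 : ((arr (S q hq) s).pce (Sum.inr (l, i))).1.1 = (ed (fa_at l i)).x := rfl
            have e1 : (ed (fa_at l i)).x = x := e0.symm.trans hd1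
            rw [← e1, x_ed, x_ed]
          have main : ∀ b b', φ' ⟨(ed (fa_at l b)).x, (ed (fa_at l b)).p⟩ =
              φ' ⟨(ed (fa_at l b')).x, (ed (fa_at l b')).p⟩ := by
            intro b b'
            have g1 := end_of_none (node_ed (fa_at l b))
            have g2 := end_of_none (node_ed (fa_at l b'))
            rw [fc_ed, pt_ed] at g1 g2
            have c1 := hcol b
            have c2 := hcol b'
            generalize ed (fa_at l b) = d1 at *
            generalize ed (fa_at l b') = d2 at *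
            obtain ⟨x1, p1, b1⟩ := d1
            obtain ⟨x2, p2, b2⟩ := d2
            simp only at c1 c2 g1 g2
            subst c1
            subst c2
            refine (hφ' p1).trans (Eq.trans ?_ (hφ' p2).symm)
            exact h1 _ _ _ _ _ (fa_side l b).1 (fa_side l b').1 g1 g2
          exact main _ _

end Crest.Agent.R096.Ac_117
end

-- ▼ part R096/Wk8_689
section

/-!
# R096 / P3, P4 / FACE (8): the two sides of the pieces of a face (FACE-SIDE, 117 #8543 (A1))

`u` = a function on the sub-chords which is even at the double points of the face.  `sd u p i` = the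
colour seen from the piece `p` on its outer (`i = false`, side of the base point of `∂F`) / inner
(`i = true`) side; `gF u F r` = the colour of the boundary point of `∂F` at position `r`.
-/

set_option autoImplicit false

namespace Crest.Agent.R096.Wk_689
open St_147 Fx_689

variable {ι Φ W I : Type} {M : MeshC ι Φ W} {col : I → Bool} {s : St M col}

/-! ### ends -/

lemma exists_dart_of_end {F : Φ} {w : W} {x : Bool} {p : s.Sub x} (h : p.End F w) :
    ∃ b : Bool, (⟨x, p, b⟩ : Dart s) = ed h.1 ∧ (b = false ↔ M.pos F w < M.pos F (s.mu F w)) := by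
  obtain ⟨hat, h1 | h1⟩ := h
  · obtain ⟨hl, a, hp, ha⟩ := h1
    refine ⟨false, ?_, ⟨fun _ => hl, fun _ => rfl⟩⟩
    subst hp
    apply eq_ed
    · rfl
    · show a.1.1 = F
      rw [ha]
    · show a.1.2 = w
      rw [ha]
  · obtain ⟨hl, h2⟩ := h1
    refine ⟨true, ?_, ⟨fun h => absurd h (by decide), fun h => absurd h (not_lt.2 hl.le)⟩⟩
    have hc : chd p = (F, s.mu F w) ∧ IsTop p := by
      cases p with
      | inl a =>
        refine ⟨h2.1, ?_⟩
        intro z hz
        have e1 : (z.F, z.e x) = a.1 := (below_chd hz).symm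
        rw [h2.1] at e1
        simp only [Prod.mk.injEq] at e1
        exact h2.2 z e1.1 e1.2
      | inr y =>
        obtain ⟨g1, g2, g3⟩ := h2
        refine ⟨Prod.ext g1 g2, ?_⟩
        intro z hz
        have e1 : (z.F, z.e x) = (y.F, y.e x) := (below_chd hz).symm
        simp only [Prod.mk.injEq] at e1
        exact g3 z (e1.1.trans g1) (e1.2.trans g2) hz.2.2.1
    apply eq_ed
    · exact nxt_none.2 hc.2
    · show (chd p).1 = F
      rw [hc.1]
    · show s.mu (chd p).1 (chd p).2 = w
      rw [hc.1]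
      exact s.mu_mu hat.1 hat.2

/-- the end piece of `w` on `F` -/
lemma end_ed {F : Φ} {w : W} (h : s.At F w) : (ed h).p.End F w := by
  refine ⟨h, ?_⟩
  have hn := node_ed h
  have hf := fc_ed h
  have hp := pt_ed h
  generalize ed h = d at hn hf hp
  obtain ⟨x, p, b⟩ := d
  have hf' : (chd p).1 = F := hf
  cases b
  · left
    have hp' : (chd p).2 = w := hp
    have hl := chd_low p
    rw [hf', hp'] at hl
    refine ⟨hl, ?_⟩
    cases p with
    | inl a => exact ⟨a, rfl, Prod.ext hf' hp'⟩
    | inr z => exact absurd hn (by simp [node, prv])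
  · right
    have hp' : s.mu (chd p).1 (chd p).2 = w := hp
    have hm : s.mu F w = (chd p).2 := by
      rw [← hp', ← hf', s.mu_mu (chd_at p).1 (chd_at p).2]
    have hl := chd_low p
    rw [hp', ← hm, hf'] at hl
    refine ⟨hl, ?_⟩
    have ht : IsTop p := nxt_none.1 hn
    cases p with
    | inl a =>
      refine ⟨Prod.ext hf' hm.symm, ?_⟩
      intro u h1 h2
      obtain ⟨v, hv, hmin⟩ := Set.exists_min_image
        {v : s.Dbl | v.F = F ∧ v.e x = s.mu F w} (fun v => v.key x) (Set.toFinite _) ⟨u, h1, h2⟩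
      apply ht v
      refine ⟨hf'.trans hv.1.symm, hm.symm.trans hv.2.symm, ?_⟩
      intro v' h3 h4
      exact not_lt.2 (hmin v' ⟨h3.trans hv.1, h4.trans hv.2⟩)
    | inr z =>
      refine ⟨hf', hm.symm, ?_⟩
      intro u h1 h2 h3
      have := top_iff.1 ht (Sum.inr u) (Prod.ext (h1.trans hf'.symm) (h2.trans hm))
      exact absurd h3 (not_lt.2 this)

/-! ### functions on pieces on one face -/

/-- a function on the sub-chords as a function on the diagram of the face -/
noncomputable def uu (u : (c : Bool) → s.Sub c → ZMod 2) (F : Φ) : Ch s F → ℕ → ZMod 2 :=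
  fun a k => u _ (pc a k)

/-- `u` is even at the double points of the face `F` -/
def EvD (u : (c : Bool) → s.Sub c → ZMod 2) (F : Φ) : Prop :=
  ∀ z : s.Dbl, z.F = F →
    (u true (bel z true) + u true (abv z true)) +
      (u false (bel z false) + u false (abv z false)) = 0

variable {u : (c : Bool) → s.Sub c → ZMod 2}

lemma uu_at {F : Φ} (a : Ch s F) {x : Bool}
    (hx : col (s.lab a.1) = x) (z : s.Dbl) (hF : z.F = F) (hz : z.e x = a.1) :
    uu u F a (rk s F (z.key x)) = u x (abv z x) ∧
      uu u F a (rk s F (z.key x) - 1) = u x (bel z x) := by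
  subst hx
  unfold uu
  rw [pc_at a z hF hz, pc_before a z hF hz]
  exact ⟨rfl, rfl⟩

lemma eq_of_add_zero {a b : ZMod 2} (h : a + b = 0) : a = b := by
  revert a b; decide

lemma EvD.rc {F : Φ} (hu : EvD u F) : (dg s F).RC (uu u F) where
  st a j h1 _ h3 := by
    unfold uu
    rw [pc_step a j h1 h3]
  ev a b hX := by
    have key : ∀ (a b : Ch s F) (ha : (dg s F).fam a = false) (hX : (dg s F).X a b),
        uu u F a ((dg s F).e a b - 1) + uu u F a ((dg s F).e a b) =
          uu u F b ((dg s F).e b a - 1) + uu u F b ((dg s F).e b a) := by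
      intro a b ha hX
      obtain ⟨e1, e2⟩ := e_mkD a b ha hX
      have hb : (dg s F).fam b = true := (mkD a b ha hX).colr true
      have k1 := uu_at (u := u) a ha (mkD a b ha hX) rfl rfl
      have k2 := uu_at (u := u) b hb (mkD a b ha hX) rfl rfl
      rw [e1, e2, k1.1, k1.2, k2.1, k2.2]
      exact (eq_of_add_zero (hu (mkD a b ha hX) rfl)).symm
    cases ha : (dg s F).fam a
    · exact key a b ha hX
    · have hb : (dg s F).fam b = false := by
        have := (dg s F).X_fam hX
        cases hb : (dg s F).fam b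
        · rfl
        · exact absurd (ha.trans hb.symm) this
      exact (key b a hb ((dg s F).X_symm hX)).symm

/-- the chord of a piece -/
def pch {c : Bool} (p : s.Sub c) : Ch s (chd p).1 := ⟨(chd p).2, chd_at p, chd_low p⟩

/-- **the colour on the outer (`false`) / inner (`true`) side of a piece** -/
noncomputable def sd (u : (c : Bool) → s.Sub c → ZMod 2) {c : Bool} (p : s.Sub c) (i : Bool) :
    ZMod 2 :=
  (dg s (chd p).1).S (uu u (chd p).1) (fun y => if y = pch p then (if i then 1 else 0)
    else (dg s (chd p).1).ep y (pch p) (rk s (chd p).1 (start p)))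

/-- **the colour of the boundary point of `∂F` at the position `r`** (left continuous) -/
noncomputable def gF (u : (c : Bool) → s.Sub c → ZMod 2) (F : Φ) (r : ℝ) : ZMod 2 :=
  (dg s F).G (uu u F) (rk s F r)

lemma sd_eq {F : Φ} (a : Ch s F) {c : Bool} (p : s.Sub c) (hp : chd p = (F, a.1)) (i : Bool) :
    sd u p i = (dg s F).S (uu u F) (fun y => if y = a then (if i then 1 else 0)
      else (dg s F).ep y a (rk s F (start p))) := by
  have h1 : (chd p).1 = F := by rw [hp]
  subst h1
  have h2 : a = pch p := Subtype.ext (congrArg Prod.snd hp).symm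
  subst h2
  rfl

lemma pc_start {F : Φ} (a : Ch s F) (p : s.Sub (col (s.lab a.1))) (hp : chd p = (F, a.1)) :
    pc a (rk s F (start p)) = p := by
  cases p with
  | inl b =>
    have hb : b.1 = (F, a.1) := hp
    have h1 : rk s F (start (Sum.inl b : s.Sub (col (s.lab a.1)))) = (dg s F).lo a := by
      show rk s F (M.pos b.1.1 b.1.2) = rk s F (M.pos F a.1)
      rw [hb]
    rw [h1, pc_lo]
    unfold ini
    congr 1
    exact Subtype.ext hb.symm
  | inr z =>
    have hz : (z.F, z.e (col (s.lab a.1))) = (F, a.1) := hp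
    simp only [Prod.mk.injEq] at hz
    exact pc_at a z hz.1 hz.2

/-- start of a piece, as a rank -/
lemma lo_le_start {F : Φ} (a : Ch s F) {c : Bool} (p : s.Sub c) (hp : chd p = (F, a.1)) :
    (dg s F).lo a ≤ rk s F (start p) := by
  have h := start_ge p
  rw [hp] at h
  exact rk_mono s F h

lemma e_le_of_pc {F : Φ} (a y : Ch s F) {k k' : ℕ} (h : (dg s F).lo a ≤ k)
    (h' : (dg s F).lo a ≤ k') (hpc : pc a k = pc a k') (hX : (dg s F).X a y)
    (he : (dg s F).e a y ≤ k) : (dg s F).e a y ≤ k' := by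
  -- the double point
  have hz : ∃ z : s.Dbl, z.F = F ∧ z.e (col (s.lab a.1)) = a.1 ∧
      rk s F (z.key (col (s.lab a.1))) = (dg s F).e a y := by
    cases ha : (dg s F).fam a
    · have ha' : col (s.lab a.1) = false := ha
      refine ⟨mkD a y ha hX, rfl, ?_, ?_⟩
      · rw [ha']; rfl
      · rw [ha']; exact (e_mkD a y ha hX).1.symm
    · have ha' : col (s.lab a.1) = true := ha
      have hy : (dg s F).fam y = false := by
        have := (dg s F).X_fam hX
        cases hb : (dg s F).fam y
        · rfl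
        · exact absurd (ha.trans hb.symm) this
      refine ⟨mkD y a hy ((dg s F).X_symm hX), rfl, ?_, ?_⟩
      · rw [ha']; rfl
      · rw [ha']; exact (e_mkD y a hy ((dg s F).X_symm hX)).2.symm
  obtain ⟨z, hF, hz, hk⟩ := hz
  have h1 : start (Sum.inr z : s.Sub (col (s.lab a.1))) ≤ start (pc a k) := by
    apply pc_max a h (Sum.inr z : s.Sub (col (s.lab a.1)))
      (show (z.F, z.e (col (s.lab a.1))) = (F, a.1) from Prod.ext hF hz)
    show rk s F (z.key _) ≤ k
    rw [hk]; exact he
  rw [hpc] at h1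
  have h2 := rk_mono s F h1
  have h3 := pc_rk a h'
  rw [← hk]
  exact h2.trans h3

lemma ep_pc {F : Φ} (a y : Ch s F) {k k' : ℕ} (h : (dg s F).lo a ≤ k)
    (h' : (dg s F).lo a ≤ k') (hpc : pc a k = pc a k') :
    (dg s F).ep y a k = (dg s F).ep y a k' := by
  have hiff : ((dg s F).X a y ∧ (dg s F).e a y ≤ k) ↔ ((dg s F).X a y ∧ (dg s F).e a y ≤ k') :=
    ⟨fun ⟨hX, he⟩ => ⟨hX, e_le_of_pc a y h h' hpc hX he⟩,
      fun ⟨hX, he⟩ => ⟨hX, e_le_of_pc a y h' h hpc.symm hX he⟩⟩
  unfold Dg.ep
  by_cases h1 : (dg s F).X a y ∧ (dg s F).e a y ≤ k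
  · rw [if_pos h1, if_pos (hiff.1 h1)]
  · rw [if_neg h1, if_neg (fun h2 => h1 (hiff.2 h2))]

lemma sd_pc {F : Φ} (a : Ch s F) {k : ℕ} (hk : (dg s F).lo a ≤ k) (i : Bool) :
    sd u (pc a k) i = (dg s F).S (uu u F) (fun y => if y = a then (if i then 1 else 0)
      else (dg s F).ep y a k) := by
  rw [sd_eq a (pc a k) (pc_chd a k)]
  congr 1
  funext y
  split_ifs
  · rfl
  · rfl
  · exact ep_pc a y (lo_le_start a _ (pc_chd a k)) hk (pc_start a _ (pc_chd a k))

lemma sd_at {F : Φ} (a : Ch s F) {x : Bool}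
    (hx : col (s.lab a.1) = x) (z : s.Dbl) (hF : z.F = F) (hz : z.e x = a.1) (i : Bool) :
    (sd u (abv z x) i = (dg s F).S (uu u F) (fun y => if y = a then (if i then 1 else 0)
      else (dg s F).ep y a (rk s F (z.key x)))) ∧
    (sd u (bel z x) i = (dg s F).S (uu u F) (fun y => if y = a then (if i then 1 else 0)
      else (dg s F).ep y a (rk s F (z.key x) - 1))) := by
  subst hx
  obtain ⟨y, hX, he, -⟩ := rk_start_inr a _ z hF hz
  have h1 := ((dg s F).e_mem hX).1
  constructor
  · rw [← pc_at a z hF hz]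
    exact sd_pc a (by omega) i
  · rw [← pc_before a z hF hz]
    exact sd_pc a (by omega) i

lemma u_pch {c : Bool} (p : s.Sub c) :
    uu u (chd p).1 (pch p) (rk s (chd p).1 (start p)) = u c p := by
  have key : ∀ {F : Φ} (a : Ch s F) {c : Bool} (hc : col (s.lab a.1) = c) (p : s.Sub c)
      (hp : chd p = (F, a.1)), uu u F a (rk s F (start p)) = u c p := by
    intro F a c hc p hp
    subst hc
    unfold uu
    rw [pc_start a p hp]
  exact key (pch p) (chd_col p) p rfl

/-- (i) **the two sides of a piece differ by `u`** -/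
theorem sd_add {c : Bool} (p : s.Sub c) (hu : EvD u (chd p).1) :
    sd u p false + sd u p true = u c p := by
  set F := (chd p).1 with hF
  have hk := lo_le_start (pch p) p rfl
  have hlt : rk s F (start p) < (dg s F).hi (pch p) := by
    have h1 := start_lt p
    show rk s F (start p) < rk s F (M.pos F (s.mu F (chd p).2))
    cases p with
    | inl a => exact (rk_lt_iff s a.2.1).2 h1
    | inr z =>
      have hat := kp_at z c
      show rk s z.F (z.key c) < _
      have h2 : z.key c < M.pos z.F (s.mu z.F (z.e c)) := h1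
      rw [key_eq] at h2 ⊢
      exact (rk_lt_iff s hat).2 h2
  have h1 := (dg s F).S_add hu.rc
    (fun y => if y = pch p then (if false then 1 else 0) else
      (dg s F).ep y (pch p) (rk s F (start p)))
    (fun y => if y = pch p then (if true then 1 else 0) else
      (dg s F).ep y (pch p) (rk s F (start p))) (pch p) (by
      intro y
      by_cases h : y = pch p <;> simp [h])
  have h2 := (dg s F).u_eq hu.rc (pch p) (rk s F (start p)) hk hlt
    (fun y => if y = pch p then (if false then 1 else 0) else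
      (dg s F).ep y (pch p) (rk s F (start p))) (by
      intro y hy
      have hne : y ≠ pch p := fun h => (dg s F).X_ne hy h.symm
      simp [hne])
  have h3 : sd u p true = sd u p false + u c p := by
    rw [← u_pch (u := u) p]
    show (dg s F).S _ _ = (dg s F).S _ _ + _
    rw [h2]
    exact h1
  rw [h3, ← add_assoc, Dg.add_self', zero_add]

/-- the piece above the double point is on the inner side of the other chord -/
noncomputable def abvIn (z : s.Dbl) (c : Bool) : Bool := by
  classical
  exact decide (M.pos z.F (z.e c) < M.pos z.F (z.e (!c)))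

/-- the half of the chord of colour `c` at `z` which lies on the side `j` (`true` = inner) of the
other chord -/
noncomputable def qd (z : s.Dbl) (c j : Bool) : s.Sub c :=
  if abvIn z c = j then abv z c else bel z c


/-- `qd z c false` and `qd z c true` are the two halves -/
lemma qd_cases (z : s.Dbl) (c : Bool) :
    (qd z c false = bel z c ∧ qd z c true = abv z c ∧
      M.pos z.F (z.e c) < M.pos z.F (z.e (!c))) ∨
    (qd z c false = abv z c ∧ qd z c true = bel z c ∧
      M.pos z.F (z.e (!c)) < M.pos z.F (z.e c)) := by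
  classical
  unfold qd abvIn
  have hne : z.e c ≠ z.e (!c) := by
    intro h
    have h1 := z.colr c
    have h2 := z.colr (!c)
    rw [h, h2] at h1
    cases c <;> simp at h1
  rcases lt_or_gt_of_ne (pos_ne s (z.at_ c) (z.at_ (!c)) hne) with h | h
  · left; simp [h]
  · right; simp [not_lt.2 h.le, h]

/-- side of the other chord on which the two halves lie -/
lemma sd_qd (z : s.Dbl) (c i j : Bool) :
    ∃ k, (k = (dg s z.F).e (cz z c) (cz z (!c)) ∨ k = (dg s z.F).e (cz z c) (cz z (!c)) - 1) ∧
      (dg s z.F).ep (cz z (!c)) (cz z c) k = (if j then 1 else 0) ∧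
      sd u (qd z c j) i = (dg s z.F).S (uu u z.F) (fun y => if y = cz z c then
        (if i then 1 else 0) else (dg s z.F).ep y (cz z c) k) := by
  have hX := cz_X z c
  have hk := rk_key z c
  obtain ⟨h1, h2⟩ := sd_at (u := u) (cz z c) (z.colr c) z rfl rfl i
  have e1 := (dg s z.F).ep_e hX
  have e2 := (dg s z.F).ep_e1 hX
  have hfl := (dg s z.F).inn_flip hX
  have a1 : (dg s z.F).lo (cz z c) = rk s z.F (M.pos z.F (z.e c)) := rfl
  have a2 : (dg s z.F).lo (cz z (!c)) = rk s z.F (M.pos z.F (z.e (!c))) := rfl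
  rcases qd_cases z c with ⟨q1, q2, q3⟩ | ⟨q1, q2, q3⟩
  · -- above is inner
    have hlt : (dg s z.F).lo (cz z c) < (dg s z.F).lo (cz z (!c)) := by
      rw [a1, a2]; exact (rk_lt_iff s (z.at_ _)).2 q3
    have hin : (dg s z.F).inn (cz z (!c)) ((dg s z.F).lo (cz z c)) = 0 := by
      unfold Dg.inn
      rw [if_neg (by omega)]
    rw [hin, zero_add] at hfl
    cases j
    · refine ⟨_, Or.inr rfl, ?_, ?_⟩
      · rw [e2, hin]; rfl
      · rw [q1, h2, hk]
    · refine ⟨_, Or.inl rfl, ?_, ?_⟩
      · rw [e1, hfl]; rfl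
      · rw [q2, h1, hk]
  · -- below is inner
    have hlt : (dg s z.F).lo (cz z (!c)) < (dg s z.F).lo (cz z c) := by
      rw [a1, a2]; exact (rk_lt_iff s (z.at_ _)).2 q3
    have hin : (dg s z.F).inn (cz z (!c)) ((dg s z.F).lo (cz z c)) = 1 := by
      unfold Dg.inn
      have hX' := hX
      unfold Dg.X at hX'
      rw [if_pos ⟨hlt, by omega⟩]
    have hin2 : (dg s z.F).inn (cz z (!c)) ((dg s z.F).hi (cz z c)) = 0 := by
      rw [hfl, hin]; decide
    cases j
    · refine ⟨_, Or.inl rfl, ?_, ?_⟩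
      · rw [e1, hin2]; rfl
      · rw [q1, h1, hk]
    · refine ⟨_, Or.inr rfl, ?_, ?_⟩
      · rw [e2, hin]; rfl
      · rw [q2, h2, hk]

/-- (ii) **the four quadrants of a double point see one colour each** -/
theorem sd_quad (z : s.Dbl) (i j : Bool) : sd u (qd z true j) i = sd u (qd z false i) j := by
  obtain ⟨k, hk, he, h1⟩ := sd_qd (u := u) z true i j
  obtain ⟨k', hk', he', h2⟩ := sd_qd (u := u) z false j i
  rw [h1, h2]
  congr 1
  funext y
  have hX := cz_X z true
  have hne : cz z true ≠ cz z false := cz_ne z (by decide)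
  by_cases y1 : y = cz z true
  · subst y1
    rw [if_pos rfl, if_neg hne]
    exact he'.symm
  · rw [if_neg y1]
    by_cases y2 : y = cz z false
    · subst y2
      rw [if_pos rfl]
      exact he
    · rw [if_neg y2]
      exact (dg s z.F).side_third hX y1 y2 k k' hk hk'

end Crest.Agent.R096.Wk_689
end

-- ▼ part R096/Wk9_689
section

/-!
# R096 / P3, P4 / FACE (9): side functions at the boundary of the face; FACE-SIDE
-/

set_option autoImplicit false

namespace Crest.Agent.R096.Wk_689
open St_147 Fx_689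

variable {ι Φ W I : Type} {M : MeshC ι Φ W} {col : I → Bool} {s : St M col}
variable {u : (c : Bool) → s.Sub c → ZMod 2}

/-- the outer side of the first piece -/
lemma sd_ini {F : Φ} (a : Ch s F) : sd u (ini a) false = gF u F (M.pos F a.1) := by
  rw [← pc_lo a, sd_pc a le_rfl]
  unfold gF Dg.G
  congr 1
  funext y
  have e0 : rk s F (M.pos F a.1) = (dg s F).lo a := rfl
  rw [e0]
  have hl := (dg s F).lt a
  by_cases hy : y = a
  · subst hy
    rw [if_pos rfl]
    have h0 : ¬ ((dg s F).lo y < (dg s F).lo y ∧ (dg s F).lo y ≤ (dg s F).hi y) := by omega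
    rw [if_neg h0]
    rfl
  · rw [if_neg hy]
    have h1 : (dg s F).lo y ≠ (dg s F).lo a := fun h => hy ((dg s F).lo_inj _ _ h)
    have h2 := (dg s F).ne a y
    have h3 := (dg s F).lt y
    have h4 : (dg s F).ep y a ((dg s F).lo a) = (dg s F).inn y ((dg s F).lo a) := by
      unfold Dg.ep
      by_cases hX : (dg s F).X a y
      · have := ((dg s F).e_mem hX).1
        rw [if_neg (by rintro ⟨-, h⟩; omega)]
      · rw [if_neg (by tauto)]
    rw [h4]
    unfold Dg.inn
    split_ifs <;> first | rfl | (exfalso; omega)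

/-- the inner side of the last piece -/
lemma sd_fin {F : Φ} (a : Ch s F) :
    sd u (pc a ((dg s F).hi a - 1)) true = gF u F (M.pos F (s.mu F a.1)) := by
  have hl := (dg s F).lt a
  rw [sd_pc a (by omega)]
  unfold gF Dg.G
  congr 1
  funext y
  have e0 : rk s F (M.pos F (s.mu F a.1)) = (dg s F).hi a := rfl
  rw [e0]
  by_cases hy : y = a
  · subst hy
    rw [if_pos rfl]
    have h0 : (dg s F).lo y < (dg s F).hi y ∧ (dg s F).hi y ≤ (dg s F).hi y := ⟨hl, le_rfl⟩
    rw [if_pos h0]
    rfl
  · rw [if_neg hy]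
    have h1 : (dg s F).hi y ≠ (dg s F).hi a := fun h => hy ((dg s F).hi_inj _ _ h)
    have h1' : (dg s F).lo y ≠ (dg s F).lo a := fun h => hy ((dg s F).lo_inj _ _ h)
    have h2 := (dg s F).ne y a
    have h2' := (dg s F).ne a y
    have h3 := (dg s F).lt y
    by_cases hX : (dg s F).X a y
    · have := ((dg s F).e_mem hX).2
      have h4 : (dg s F).ep y a ((dg s F).hi a - 1) = (dg s F).inn y ((dg s F).hi a) := by
        unfold Dg.ep
        rw [if_pos ⟨hX, by omega⟩]
      rw [h4]
      unfold Dg.inn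
      split_ifs <;> first | rfl | (exfalso; omega)
    · have h4 : (dg s F).ep y a ((dg s F).hi a - 1) = (dg s F).inn y ((dg s F).lo a) := by
        unfold Dg.ep
        rw [if_neg (by tauto)]
      rw [h4]
      unfold Dg.X at hX
      unfold Dg.inn
      split_ifs <;> first | rfl | (exfalso; omega)

/-- (iii) lower end: outer side = just below, inner side = just above -/
theorem sd_end_low {F : Φ} {w : W} {c : Bool} {p : s.Sub c} (h : p.End F w)
    (hl : M.pos F w < M.pos F (s.mu F w)) : sd u p false = gF u F (M.pos F w) := by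
  obtain ⟨hat, h1 | h1⟩ := h
  · obtain ⟨-, a, hp, ha⟩ := h1
    subst hp
    obtain ⟨⟨F', w'⟩, a1, a2, a3⟩ := a
    simp only [Prod.mk.injEq] at ha
    obtain ⟨rfl, rfl⟩ := ha
    subst a3
    exact sd_ini (u := u) (⟨w', a1, a2⟩ : Ch s F')
  · exact absurd hl (not_lt.2 h1.1.le)

/-- (iii) upper end: inner side = just below -/
theorem sd_end_up {F : Φ} {w : W} {c : Bool} {p : s.Sub c} (h : p.End F w)
    (hl : M.pos F (s.mu F w) < M.pos F w) : sd u p true = gF u F (M.pos F w) := by
  obtain ⟨b, hb, hbl⟩ := exists_dart_of_end h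
  have hat := h.1
  have hb' : b = true := by
    cases b
    · exact absurd (hbl.1 rfl) (not_lt.2 hl.le)
    · rfl
  subst hb'
  have hn : IsTop p := nxt_none.1 (show node (⟨c, p, true⟩ : Dart s) = none by
    rw [hb]; exact node_ed _)
  have hF : (chd p).1 = F := (congrArg fc hb).trans (fc_ed _)
  have hw : s.mu (chd p).1 (chd p).2 = w := (congrArg pt hb).trans (pt_ed _)
  subst hF
  have hc := chd_col p
  have key : ∀ {F : Φ} (a : Ch s F) {c : Bool} (_ : col (s.lab a.1) = c) (p : s.Sub c)
      (_ : chd p = (F, a.1)) (_ : IsTop p), sd u p true = gF u F (M.pos F (s.mu F a.1)) := by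
    intro F a c hc p hp ht
    subst hc
    have : p = pc a ((dg s F).hi a - 1) :=
      top_unique ht (pc_hi a) (hp.trans (pc_chd a _).symm)
    rw [this]
    exact sd_fin a
  have := key (pch p) hc p rfl hn
  rw [this]
  show gF u _ (M.pos _ (s.mu _ (chd p).2)) = _
  rw [hw]

theorem sd_end_low' {F : Φ} {w : W} {c : Bool} {p : s.Sub c} (hu : EvD u F) (h : p.End F w)
    (hl : M.pos F w < M.pos F (s.mu F w)) : sd u p true = gF u F (M.pos F w) + u c p := by
  have hF : (chd p).1 = F := by
    obtain ⟨b, hb, -⟩ := exists_dart_of_end h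
    exact (congrArg fc hb).trans (fc_ed _)
  subst hF
  rw [← sd_end_low h hl, ← sd_add p hu, ← add_assoc, Dg.add_self', zero_add]

theorem sd_end_up' {F : Φ} {w : W} {c : Bool} {p : s.Sub c} (hu : EvD u F) (h : p.End F w)
    (hl : M.pos F (s.mu F w) < M.pos F w) : sd u p false = gF u F (M.pos F w) + u c p := by
  have hF : (chd p).1 = F := by
    obtain ⟨b, hb, -⟩ := exists_dart_of_end h
    exact (congrArg fc hb).trans (fc_ed _)
  subst hF
  rw [← sd_end_up h hl, ← sd_add p hu, add_comm (sd u p false), ← add_assoc, Dg.add_self',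
    zero_add]

open Classical in
/-- the value of `u` on the end piece of `w` on `F` (0 if `w` is not a point of the state) -/
noncomputable def ue (u : (c : Bool) → s.Sub c → ZMod 2) (F : Φ) (w : W) : ZMod 2 :=
  if h : s.At F w then u (ed h).x (ed h).p else 0

lemma ue_ed {F : Φ} {w : W} (h : s.At F w) : ue u F w = u (ed h).x (ed h).p := by
  unfold ue
  rw [dif_pos h]


lemma val_ue {F : Φ} (t : Ch s F × Bool) : (dg s F).val (uu u F) t = ue u F (ptt t) := by
  rw [ue_ed (ptt_at t)]
  obtain ⟨a, b⟩ := t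
  cases b
  · have h1 : (⟨col (s.lab a.1), ini a, false⟩ : Dart s) = ed (ptt_at (a, false)) :=
      eq_ed rfl rfl rfl _
    rw [← h1]
    show uu u F a ((dg s F).lo a) = _
    unfold uu
    rw [pc_lo]
  · have hf : fc (⟨col (s.lab a.1), pc a ((dg s F).hi a - 1), true⟩ : Dart s) = F := by
      show (chd (pc a ((dg s F).hi a - 1))).1 = F
      rw [pc_chd]
    have hp : pt (⟨col (s.lab a.1), pc a ((dg s F).hi a - 1), true⟩ : Dart s) = ptt (a, true) := by
      show s.mu (chd (pc a ((dg s F).hi a - 1))).1 (chd (pc a ((dg s F).hi a - 1))).2 = _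
      rw [pc_chd]
      rfl
    have hn : node (⟨col (s.lab a.1), pc a ((dg s F).hi a - 1), true⟩ : Dart s) = none := by
      show nxt (pc a ((dg s F).hi a - 1)) = none
      exact nxt_none.2 (pc_hi a)
    have h1 : (⟨col (s.lab a.1), pc a ((dg s F).hi a - 1), true⟩ : Dart s)
        = ed (ptt_at (a, true)) := eq_ed hn hf hp _
    rw [← h1]
    rfl

lemma rk_lt_pos {F : Φ} {w : W} (h : s.At F w) (r : ℝ) :
    rk s F (M.pos F w) < rk s F r ↔ M.pos F w < r := by
  constructor
  · intro h1
    by_contra h2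
    exact absurd h1 (not_lt.2 (rk_mono s F (not_lt.1 h2)))
  · intro h1
    exact rk_lt s h le_rfl h1

open Classical in
/-- (iv) **the boundary colour counts the end pieces below** -/
theorem gF_eq {F : Φ} (hu : EvD u F) (r : ℝ) :
    gF u F r = ∑ w ∈ s.P.filter (fun w => w ∈ M.On F ∧ M.pos F w < r), ue u F w := by
  unfold gF
  rw [(dg s F).G_eq hu.rc, ← Finset.sum_filter]
  apply Finset.sum_bij (fun t _ => ptt t)
  · intro t ht
    rw [Finset.mem_filter] at ht ⊢
    have hat := ptt_at t
    rw [pos_ptt] at ht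
    exact ⟨hat.1, hat.2, (rk_lt_pos hat r).1 ht.2⟩
  · intro t _ t' _ h
    exact ptt_inj h
  · intro w hw
    rw [Finset.mem_filter] at hw
    obtain ⟨t, ht⟩ := exists_ptt (F := F) (w := w) ⟨hw.1, hw.2.1⟩
    refine ⟨t, ?_, ht⟩
    rw [Finset.mem_filter, pos_ptt, ht]
    exact ⟨Finset.mem_univ _, (rk_lt_pos ⟨hw.1, hw.2.1⟩ r).2 hw.2.2⟩
  · intro t _
    exact val_ue t





/-- **FACE-SIDE** (117 #8543 (A1)), bundled -/
theorem face_side (u : (c : Bool) → s.Sub c → ZMod 2) (F : Φ) (hu : EvD u F) :
    (∀ (c : Bool) (p : s.Sub c), (chd p).1 = F → sd u p false + sd u p true = u c p) ∧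
    (∀ z : s.Dbl, z.F = F → ∀ i j, sd u (qd z true j) i = sd u (qd z false i) j) ∧
    (∀ (c : Bool) (p : s.Sub c) (w : W), p.End F w →
      (M.pos F w < M.pos F (s.mu F w) → sd u p false = gF u F (M.pos F w) ∧
        sd u p true = gF u F (M.pos F w) + u c p) ∧
      (M.pos F (s.mu F w) < M.pos F w → sd u p true = gF u F (M.pos F w) ∧
        sd u p false = gF u F (M.pos F w) + u c p)) :=
  ⟨fun _ p hp => sd_add p (hp ▸ hu), fun z _ i j => sd_quad z i j,
    fun _ _ _ h => ⟨fun hl => ⟨sd_end_low h hl, sd_end_low' hu h hl⟩,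
      fun hl => ⟨sd_end_up h hl, sd_end_up' hu h hl⟩⟩⟩

end Crest.Agent.R096.Wk_689
end

-- ▼ part R096/Ac9_117

/-!
# R096 (row 96), (ARCS), part 9: `FaceSide` from 689's `face_side` (helper117)
-/

set_option autoImplicit false

namespace Crest.Agent.R096.Ac_117

open St_147 Wk_689 Fx_689

variable {ι Φ W I : Type} {M : MeshC ι Φ W} {col : I → Bool} {s : St M col}

lemma lowIn_abvIn (z : s.Dbl) (c : Bool) : lowIn z c = !abvIn z c := by
  classical
  have hX := cz_X z c
  have a1 : (dg s z.F).lo (cz z c) = rk s z.F (M.pos z.F (z.e c)) := rfl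
  have a2 : (dg s z.F).lo (cz z (!c)) = rk s z.F (M.pos z.F (z.e (!c))) := rfl
  have a3 : (dg s z.F).hi (cz z (!c)) = rk s z.F (M.pos z.F (s.mu z.F (z.e (!c)))) := rfl
  unfold lowIn abvIn
  rcases hX with ⟨h1, h2, h3⟩ | ⟨h1, h2, h3⟩
  · rw [a1, a2, rk_lt_iff s (z.at_ _)] at h1
    rw [decide_eq_true h1, decide_eq_false]
    · rfl
    · rintro (h | h)
      · exact lt_asymm h1 h.1
      · exact absurd (h.1.trans h.2) (not_lt.2 (z.low _).le)
  · rw [a1, a2, rk_lt_iff s (z.at_ _)] at h1
    rw [a1, a3, rk_lt_iff s (z.at_ _)] at h2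
    rw [decide_eq_false (not_lt.2 h1.le), decide_eq_true]
    · rfl
    · exact Or.inl ⟨h1, h2⟩

lemma dj_qd (z : s.Dbl) (c j : Bool) : dj z c j = ⟨c, qd z c j, (dj z c j).b⟩ := by
  unfold dj qd
  rw [lowIn_abvIn]
  cases hj : j <;> cases ha : abvIn z c <;> rfl

/-- **FACE-SIDE** (689) -/
theorem faceSide (s : St M col) : FaceSide s := by
  classical
  intro F u hu
  have hE : EvD u F := by
    intro z hz
    rw [← hu z hz]; ring
  obtain ⟨h1, h2, h3⟩ := face_side u F hE
  refine ⟨fun x p i => sd u p i, h1, ?_, ?_⟩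
  · intro z hz i j
    rw [dj_qd z true j, dj_qd z false i]
    exact h2 z hz i j
  · intro w h
    have hs : gF u F (M.pos F w) = sumB u F (M.pos F w) := by
      rw [gF_eq hE]
      unfold sumB
      rw [Finset.sum_filter]
      apply Finset.sum_congr rfl
      intro v hv
      by_cases hat : s.At F v
      · rw [dif_pos hat]
        by_cases hlt : M.pos F v < M.pos F w
        · rw [if_pos ⟨hat.2, hlt⟩, if_pos hlt, ue_ed hat]
          rfl
        · rw [if_neg (fun h' => hlt h'.2), if_neg hlt]
      · rw [dif_neg hat, if_neg (fun h' => hat ⟨hv, h'.1⟩)]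
    have hend : (ed h).p.End F w := Wk_689.end_ed h
    obtain ⟨g1, g2⟩ := h3 _ _ _ hend
    rw [ed_b h, ← hs]
    by_cases hlt : M.pos F (s.mu F w) < M.pos F w
    · rw [decide_eq_true hlt]
      exact (g2 hlt).1
    · rw [decide_eq_false hlt]
      refine (g1 ?_).1
      have hne : M.pos F w ≠ M.pos F (s.mu F w) :=
        pos_ne s h (At.mu s h) (fun h' => s.mu_ne h.1 h.2 h'.symm)
      exact lt_of_le_of_ne (not_lt.1 hlt) hne

end Crest.Agent.R096.Ac_117
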