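import Crest.Agent.R096.Acc2_365

-- ▼ part R096/Acc3_365
section

/-!
Row 96 (S0127), helper365.  **EA-ACC**, part 3: the two integral inequalities of `EaX_766.EA` from the
energy of the coarse part, the core inequality (713's `core_ea`) and the a.e. bound in the zones.
-/

set_option autoImplicit false
set_option linter.style.longLine false
set_option linter.unusedSectionVars false
set_option linter.unusedVariables false

open MeasureTheory Set Filter Topology Metric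
open scoped ENNReal NNReal

namespace Crest.Agent.R096.Acc_365

open Crest.AnalysisR.VecCalc3 Crest.AnalysisR.Sobolev
open Crest.Agent.R096.SkC1_961 (E3 Hom3)
open Crest.Agent.R096.Er_594 (SH3)
open Crest.Agent.R096.Bsp_628 Crest.Agent.R096.Brk5_582
open Crest.Agent.R096.Bxs_627 (ctr)
open Crest.Agent.R096.EaX_766 (lin cbx ExIn Kor)
open Crest.Agent.R096.Exa_365

noncomputable section

variable {p : ℝ} {Om La : Set E3} {f : E3 → E3} {D : E3 → E3 →L[ℝ] E3}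

/-- the constants of `ea_acc` -/
def Cacc (p C1 : ℝ) : ℝ := C1 ^ p * 2 ^ (p - 1)

def Eacc (p C1 κ0 κ1 c0 τ e1 : ℝ) : ℝ :=
  C1 ^ p * 2 ^ (p - 1) * (κ1 * κ0 ^ 3) + 2 ^ (p - 1) * (e1 + (1 / c0) ^ p * (3 * κ0 * τ))

/-- the data of the accounting -/
structure AccD (p : ℝ) (Om : Set E3) (f : E3 → E3) (D : E3 → E3 →L[ℝ] E3) (o : E3)
    (u κ0 κ1 κ2 c0 τ C1 e1 : ℝ) (F : Set (Bx (Fin 3))) (X : Set F) (A : F → E3 ≃ᵃ[ℝ] E3)
    (lam : F → ℝ) (v : F → E3) (W : F → Set E3) (g : E3 → E3 →L[ℝ] E3) : Prop where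
  cnt : F.Countable
  pos : ∀ c ∈ X, c.1.Pos
  asp : ∀ c ∈ X, ∀ k, c.1.sz ≤ κ0 * c.1.side k
  hc0 : 0 < c0
  hκ0 : 0 ≤ κ0
  hκ1 : 0 ≤ κ1
  hτ : 0 ≤ τ
  hC1 : 0 ≤ C1
  he1 : 0 ≤ e1
  hlam : ∀ c ∈ X, c0 ≤ lam c
  ex : ∀ c ∈ X, ExIn p Om f D o u κ1 κ2 c.1 (A c) (lam c)
  shift : ∀ c ∈ X, ∀ k, |lin (A c) (v c) k| ≤ τ * (lam c * c.1.sz)
  Wm : ∀ c ∈ X, MeasurableSet (W c)
  Wdis : X.PairwiseDisjoint W
  W1 : ∀ c ∈ X, K1 (A c) c.1 (lam c) ⊆ W c
  W2 : ∀ c ∈ X, W c ⊆ A c ⁻¹' cbx c.1 ((1 + 2 * κ2) * lam c)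
  core : ∀ c ∈ X, ∫⁻ x in K2 (A c) c.1 (lam c) (v c), ‖g x - (lam c)⁻¹ • lin (A c)‖ₑ ^ p ≤
    ENNReal.ofReal e1 * (‖lin (A c)‖ₑ ^ p * volume (K2 (A c) c.1 (lam c) (v c)))
  inn : ∀ c ∈ X, ∀ᵐ x ∂(volume.restrict (W c \ K2 (A c) c.1 (lam c) (v c))),
    ‖g x‖ₑ ≤ ENNReal.ofReal C1 * ‖lin (A c)‖ₑ

variable {o : E3} {u κ0 κ1 κ2 c0 τ C1 e1 : ℝ} {F : Set (Bx (Fin 3))} {X : Set F}
  {A : F → E3 ≃ᵃ[ℝ] E3} {lam : F → ℝ} {v : F → E3} {W : F → Set E3} {g : E3 → E3 →L[ℝ] E3}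

/-- the core inequality of `EA` -/
theorem AccD.core1 (hp : 1 ≤ p) (H : AccD p Om f D o u κ0 κ1 κ2 c0 τ C1 e1 F X A lam v W g)
    {c : F} (hc : c ∈ X) :
    ∫⁻ x in Kor F A lam c, ‖g x - (lam c)⁻¹ • lin (A c)‖ₑ ^ p ≤
      ENNReal.ofReal (e1 + (C1 + 1 / c0) ^ p * (3 * κ0 * τ)) *
        (‖lin (A c)‖ₑ ^ p * volume (Kor F A lam c)) := by
  have hl : 0 < lam c := H.hc0.trans_le (H.hlam c hc)
  have h1 := core_shift hp (H.pos c hc) hl H.hκ0 (H.asp c hc) H.hτ (H.shift c hc) H.hC1 H.he1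
    (H.Wm c hc) (H.W1 c hc) (H.core c hc) (H.inn c hc)
  refine h1.trans ?_
  change _ ≤ ENNReal.ofReal (e1 + (C1 + 1 / c0) ^ p * (3 * κ0 * τ)) *
    (‖lin (A c)‖ₑ ^ p * volume (K1 (A c) c.1 (lam c)))
  have h2 : 1 / lam c ≤ 1 / c0 := one_div_le_one_div_of_le H.hc0 (H.hlam c hc)
  have h3 : (C1 + 1 / lam c) ^ p ≤ (C1 + 1 / c0) ^ p := by
    refine Real.rpow_le_rpow ?_ (by linarith) (zero_le_one.trans hp)
    have := H.hC1
    have : 0 < 1 / lam c := by positivity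
    linarith
  have h4 : 0 ≤ 3 * κ0 * τ := mul_nonneg (mul_nonneg (by norm_num) H.hκ0) H.hτ
  gcongr

/-- the energy in one zone -/
theorem AccD.zone (hp : 1 ≤ p) (h : SH3 p Om La f D)
    (H : AccD p Om f D o u κ0 κ1 κ2 c0 τ C1 e1 F X A lam v W g) {c : F} (hc : c ∈ X) :
    ∫⁻ x in W c \ Kor F A lam c, ‖g x‖ₑ ^ p ≤
      ENNReal.ofReal (Cacc p C1) * (∫⁻ x in W c \ Kor F A lam c, ‖D x‖ₑ ^ p) +
      ENNReal.ofReal (Eacc p C1 κ0 κ1 c0 τ e1) * (‖lin (A c)‖ₑ ^ p * volume (Kor F A lam c)) := by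
  have hp0 : 0 ≤ p := zero_le_one.trans hp
  have hl : 0 < lam c := H.hc0.trans_le (H.hlam c hc)
  have h4 : 0 ≤ 3 * κ0 * τ := mul_nonneg (mul_nonneg (by norm_num) H.hκ0) H.hτ
  have hC1p : 0 ≤ C1 ^ p := Real.rpow_nonneg H.hC1 _
  have hκκ : 0 ≤ κ1 * κ0 ^ 3 := mul_nonneg H.hκ1 (pow_nonneg H.hκ0 3)
  have hc0p : 0 ≤ (1 / c0) ^ p := Real.rpow_nonneg (by have := H.hc0; positivity) _
  have hm : MeasurableSet (W c \ K1 (A c) c.1 (lam c)) :=
    (H.Wm c hc).diff (measurableSet_K1 _ _ _)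
  have h1 := zone_energy hp (H.pos c hc) hl H.hκ0 (H.asp c hc) H.hτ (H.shift c hc) H.hC1 H.he1
    (H.Wm c hc) (H.core c hc) (H.inn c hc)
  have h2 := exin_mass hp h H.hκ1 (H.pos c hc) hl.le (H.asp c hc) (Bx.sz_pos (H.pos c hc)).le
    (H.ex c hc) hm (diff_subset.trans (H.W2 c hc))
  have h3 : (1 / lam c) ^ p ≤ (1 / c0) ^ p := by
    refine Real.rpow_le_rpow (by positivity) (one_div_le_one_div_of_le H.hc0 (H.hlam c hc)) hp0
  have h2' : (2:ℝ≥0∞) ^ (p - 1) = ENNReal.ofReal (2 ^ (p - 1)) := by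
    rw [← ENNReal.ofReal_rpow_of_nonneg (by norm_num) (by linarith)]
    norm_num
  rw [h2'] at h2
  change ∫⁻ x in W c \ K1 (A c) c.1 (lam c), ‖g x‖ₑ ^ p ≤
      ENNReal.ofReal (Cacc p C1) * (∫⁻ x in W c \ K1 (A c) c.1 (lam c), ‖D x‖ₑ ^ p) +
      ENNReal.ofReal (Eacc p C1 κ0 κ1 c0 τ e1) *
        (‖lin (A c)‖ₑ ^ p * volume (K1 (A c) c.1 (lam c)))
  have h5 : ENNReal.ofReal (2 ^ (p - 1) * (e1 + (1 / lam c) ^ p * (3 * κ0 * τ))) ≤
      ENNReal.ofReal (2 ^ (p - 1) * (e1 + (1 / c0) ^ p * (3 * κ0 * τ))) := by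
    gcongr
  calc ∫⁻ x in W c \ K1 (A c) c.1 (lam c), ‖g x‖ₑ ^ p
      ≤ ENNReal.ofReal (C1 ^ p) * (‖lin (A c)‖ₑ ^ p * volume (W c \ K1 (A c) c.1 (lam c))) +
        ENNReal.ofReal (2 ^ (p - 1) * (e1 + (1 / lam c) ^ p * (3 * κ0 * τ))) *
        (‖lin (A c)‖ₑ ^ p * volume (K1 (A c) c.1 (lam c))) := h1
    _ ≤ ENNReal.ofReal (C1 ^ p) * (ENNReal.ofReal (2 ^ (p - 1)) *
          ((∫⁻ x in W c \ K1 (A c) c.1 (lam c), ‖D x‖ₑ ^ p) +
            ENNReal.ofReal (κ1 * κ0 ^ 3) * (‖lin (A c)‖ₑ ^ p * volume (K1 (A c) c.1 (lam c))))) +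
        ENNReal.ofReal (2 ^ (p - 1) * (e1 + (1 / c0) ^ p * (3 * κ0 * τ))) *
        (‖lin (A c)‖ₑ ^ p * volume (K1 (A c) c.1 (lam c))) := by gcongr
    _ = _ := by
        unfold Cacc Eacc
        have h6 : 0 ≤ 2 ^ (p - 1) * (e1 + (1 / c0) ^ p * (3 * κ0 * τ)) := by
          have := H.he1
          positivity
        rw [ENNReal.ofReal_add (by positivity) h6,
          ENNReal.ofReal_mul (p := C1 ^ p * 2 ^ (p - 1)) (q := κ1 * κ0 ^ 3) (by positivity),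
          ENNReal.ofReal_mul (p := C1 ^ p) (q := 2 ^ (p - 1)) hC1p]
        ring



end

end Crest.Agent.R096.Acc_365
end

-- ▼ part R096/Acc4_365
section

/-!
Row 96 (S0127), helper365.  **EA-ACC**, part 4, "GROW": the exact core hypothesis `ExIn` for a slightly
larger ratio; the shifted larger core contains the core.
-/

set_option autoImplicit false
set_option linter.style.longLine false
set_option linter.unusedSectionVars false
set_option linter.unusedVariables false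

open MeasureTheory Set Filter Topology Metric
open scoped ENNReal NNReal

namespace Crest.Agent.R096.Acc_365

open Crest.AnalysisR.VecCalc3 Crest.AnalysisR.Sobolev
open Crest.Agent.R096.SkC1_961 (E3 Hom3)
open Crest.Agent.R096.Er_594 (SH3)
open Crest.Agent.R096.Bsp_628 Crest.Agent.R096.Brk5_582
open Crest.Agent.R096.Bxs_627 (ctr)
open Crest.Agent.R096.EaX_766 (lin cbx ExIn Kor)
open Crest.Agent.R096.Exa_365

noncomputable section

variable {p : ℝ} {Om La : Set E3} {f : E3 → E3} {D : E3 → E3 →L[ℝ] E3} {A : E3 ≃ᵃ[ℝ] E3}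

theorem cbx_eq_Icc (Q : Bx (Fin 3)) (lam : ℝ) : cbx Q lam =
    Icc (fun k => ctr Q k - lam * Q.side k / 2) (fun k => ctr Q k + lam * Q.side k / 2) := by
  ext y
  simp only [cbx, mem_Icc, Pi.le_def, abs_le]
  constructor
  · intro h
    exact ⟨fun k => by linarith [(h k).1], fun k => by linarith [(h k).2]⟩
  · intro h k
    exact ⟨by linarith [h.1 k], by linarith [h.2 k]⟩

theorem cbx_mono {Q : Bx (Fin 3)} (hQ : Q.Pos) {a b : ℝ} (h : a ≤ b) : cbx Q a ⊆ cbx Q b := by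
  intro y hy k
  have := Bx.side_pos hQ k
  have h2 : a * Q.side k ≤ b * Q.side k := mul_le_mul_of_nonneg_right h this.le
  have h3 := hy k
  linarith

theorem isCompact_preimage (Q : Bx (Fin 3)) (r : ℝ) (A : E3 ≃ᵃ[ℝ] E3) : IsCompact (A ⁻¹' cbx Q r) := by
  have h1 : A ⁻¹' cbx Q r = A.symm '' cbx Q r := by
    ext x
    constructor
    · intro hx
      exact ⟨A x, hx, A.symm_apply_apply x⟩
    · rintro ⟨y, hy, rfl⟩
      change A (A.symm y) ∈ cbx Q r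
      rwa [A.apply_symm_apply]
  rw [h1, cbx_eq_Icc]
  exact isCompact_Icc.image (continuous_aff A.symm)

/-- a homeomorphism close to `A` over a box covers a smaller box -/
theorem cover_box (hLa : IsOpen La) (hf : Hom3 f Om La) {Q : Bx (Fin 3)} (hQ : Q.Pos) {r s η : ℝ}
    (hη : 0 ≤ η) (hs : 0 < s) (hηs : ∀ k, η ≤ s * Q.side k / 2)
    (hrs : ∀ k, s * Q.side k / 2 + η < r * Q.side k / 2)
    (hc : ∀ x, A x ∈ cbx Q r → x ∈ Om ∧ ‖f x - A x‖ ≤ η) {x : E3} (hx : x ∈ Om) (hfx : f x ∈ cbx Q s) :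
    A x ∈ cbx Q r := by
  obtain ⟨fi, hf1, hf2, hf3, hf4, hf5, hf6⟩ := hf
  set V : Set E3 := A ⁻¹' cbx Q r with hV
  set U : Set E3 := A ⁻¹' {y | ∀ k, |y k - ctr Q k| < r * Q.side k / 2} with hU
  have hUV : U ⊆ V := fun y hy k => (hy k).le
  have hVO : V ⊆ Om := fun y hy => (hc y hy).1
  have hUo : IsOpen U := by
    refine IsOpen.preimage (continuous_aff A) ?_
    have h1 : {y : E3 | ∀ k, |y k - ctr Q k| < r * Q.side k / 2} =
        ⋂ k : Fin 3, {y : E3 | |y k - ctr Q k| < r * Q.side k / 2} := by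
      ext y; simp
    rw [h1]
    refine isOpen_iInter_of_finite fun k => ?_
    exact isOpen_lt (by fun_prop) continuous_const
  have hfU : IsOpen (f '' U) := by
    have h1 : f '' U = La ∩ fi ⁻¹' U := by
      ext y
      constructor
      · rintro ⟨z, hz, rfl⟩
        refine ⟨hf1 (hVO (hUV hz)), ?_⟩
        rw [mem_preimage, hf3 z (hVO (hUV hz))]; exact hz
      · rintro ⟨h1, h2⟩
        exact ⟨fi y, h2, hf4 y h1⟩
    rw [h1]
    exact hf6.isOpen_inter_preimage hLa hUo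
  have hfV : IsClosed (f '' V) :=
    ((isCompact_preimage Q r A).image_of_continuousOn (hf5.mono hVO)).isClosed
  have hconn : IsPreconnected (cbx Q s) := by
    rw [cbx_eq_Icc]
    exact (convex_Icc _ _).isPreconnected
  have hnear : ∀ z ∈ V, ∀ k, |f z k - A z k| ≤ η := fun z hz k =>
    (norm_le_pi_norm (f z - A z) k).trans (hc z hz).2
  have hcov : cbx Q s ⊆ f '' U := by
    refine IsPreconnected.subset_left_of_subset_union hfU hfV.isOpen_compl ?_ ?_ ?_ hconn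
    · exact disjoint_compl_right.mono_left (image_mono hUV)
    · intro y hy
      by_cases hyV : y ∈ f '' V
      · obtain ⟨z, hz, rfl⟩ := hyV
        refine Or.inl ⟨z, fun k => ?_, rfl⟩
        have h1 := hnear z hz k
        have h2 := hy k
        have h3 := hrs k
        calc |A z k - ctr Q k| = |(f z k - ctr Q k) - (f z k - A z k)| := by congr 1; ring
          _ ≤ |f z k - ctr Q k| + |f z k - A z k| := abs_sub _ _
          _ < r * Q.side k / 2 := by linarith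
      · exact Or.inr hyV
    · have h0 : A (A.symm (ctr Q)) = ctr Q := A.apply_symm_apply _
      have hU0 : A.symm (ctr Q) ∈ U := by
        intro k
        rw [h0, sub_self, abs_zero]
        have := hηs k
        have := hrs k
        have := Bx.side_pos hQ k
        have : 0 < s * Q.side k := mul_pos hs this
        linarith
      refine ⟨f (A.symm (ctr Q)), fun k => ?_, ⟨_, hU0, rfl⟩⟩
      have h1 := hnear _ (hUV hU0) k
      rw [h0] at h1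
      exact h1.trans (hηs k)
  obtain ⟨z, hz, hzx⟩ := hcov hfx
  have h1 : z = x := by
    rw [← hf3 z (hVO (hUV hz)), hzx, hf3 x hx]
  rw [← h1]
  exact hUV hz

/-- **(1) GROW**: the exact core hypothesis for the larger ratio `(1 + θ) lam`. -/
theorem exIn_grow (hLa : IsOpen La) (hf : Hom3 f Om La) {o : E3} {u κ0 κ1 κ2 κ2' θ : ℝ}
    {Q : Bx (Fin 3)} {lam : ℝ} (hQ : Q.Pos) (hl : 0 < lam) (hκ0 : 0 ≤ κ0)
    (hκ : ∀ k, Q.sz ≤ κ0 * Q.side k) (hκ1 : 0 ≤ κ1) (hE : ExIn p Om f D o u κ1 κ2 Q A lam)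
    (hθ : 0 ≤ θ) (h1 : θ + 2 * (κ1 * κ0) < 2 * κ2) (h2 : κ1 * κ0 ≤ 1 / 2)
    (h3 : (1 + 2 * κ2') * (1 + θ) ≤ 1 + 2 * κ2) :
    ExIn p Om f D o u κ1 κ2' Q A ((1 + θ) * lam) := by
  have hsz := Bx.sz_pos hQ
  have hll : lam ≤ (1 + θ) * lam := by nlinarith
  have hsub : cbx Q ((1 + 2 * κ2') * ((1 + θ) * lam)) ⊆ cbx Q ((1 + 2 * κ2) * lam) := by
    refine cbx_mono hQ ?_
    rw [← mul_assoc]
    exact mul_le_mul_of_nonneg_right h3 hl.le
  have hmono : κ1 * (lam * Q.sz) ≤ κ1 * ((1 + θ) * lam * Q.sz) := by gcongr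
  refine ⟨hE.rat, ?_, ?_⟩
  · rintro x (⟨hx, hfx⟩ | hx)
    · have h4 : A x ∈ cbx Q ((1 + 2 * κ2) * lam) := by
        refine cover_box hLa hf hQ (r := (1 + 2 * κ2) * lam) (s := (1 + θ) * lam)
          (η := κ1 * (lam * Q.sz)) (by positivity) (by positivity) ?_ ?_
          (fun z hz => hE.cor z (Or.inr hz)) hx hfx
        · intro k
          have hk := Bx.side_pos hQ k
          calc κ1 * (lam * Q.sz) ≤ κ1 * (lam * (κ0 * Q.side k)) := by gcongr; exact hκ k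
            _ = (κ1 * κ0) * (lam * Q.side k) := by ring
            _ ≤ (1 / 2) * (lam * Q.side k) := by gcongr
            _ ≤ (1 + θ) * lam * Q.side k / 2 := by
                have : 0 ≤ θ * (lam * Q.side k) := by positivity
                nlinarith
        · intro k
          have hk := Bx.side_pos hQ k
          have h5 : κ1 * (lam * Q.sz) ≤ (κ1 * κ0) * (lam * Q.side k) := by
            calc κ1 * (lam * Q.sz) ≤ κ1 * (lam * (κ0 * Q.side k)) := by gcongr; exact hκ k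
              _ = _ := by ring
          have h6 : 0 < lam * Q.side k := by positivity
          nlinarith
      have h5 := hE.cor x (Or.inr h4)
      exact ⟨h5.1, h5.2.trans hmono⟩
    · have h5 := hE.cor x (Or.inr (hsub hx))
      exact ⟨h5.1, h5.2.trans hmono⟩
  · refine le_trans ?_ (hE.lp.trans ?_)
    · gcongr
    · apply ENNReal.ofReal_le_ofReal
      gcongr

/-- the shifted larger core contains the core -/
theorem K1_subset_K2 {Q : Bx (Fin 3)} {lam θ : ℝ} {v : E3}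
    (hv : ∀ k, |lin A v k| ≤ θ * (lam * Q.side k) / 2) :
    K1 A Q lam ⊆ K2 A Q ((1 + θ) * lam) v := by
  intro x hx k
  have h2 : A (x - v) = A x - lin A v := by
    rw [sub_eq_add_neg x v, aff_add A x (-v), map_neg, ← sub_eq_add_neg]
  rw [h2]
  have h3 := hx k
  have h4 := hv k
  calc |(A x - lin A v) k - ctr Q k| = |(A x k - ctr Q k) - lin A v k| := by
        congr 1; simp only [Pi.sub_apply]; ring
    _ ≤ |A x k - ctr Q k| + |lin A v k| := abs_sub _ _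
    _ ≤ lam * Q.side k / 2 + θ * (lam * Q.side k) / 2 := add_le_add h3 h4
    _ = (1 + θ) * lam * Q.side k / 2 := by ring

theorem volume_K2_grow {Q : Bx (Fin 3)} (hQ : Q.Pos) {lam θ : ℝ} (hl : 0 ≤ lam) (hθ : 0 ≤ θ) (v : E3) :
    volume (K2 A Q ((1 + θ) * lam) v) = ENNReal.ofReal ((1 + θ) ^ 3) * volume (K1 A Q lam) := by
  rw [volume_K2, volume_K1 hQ (by positivity), volume_K1 hQ hl, ← ENNReal.ofReal_mul (by positivity)]
  congr 1
  simp only [Fin.prod_univ_three]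
  ring

theorem volume_grow_diff {Q : Bx (Fin 3)} (hQ : Q.Pos) {lam θ : ℝ} (hl : 0 ≤ lam) (hθ : 0 ≤ θ)
    (hθ1 : θ ≤ 1) {v : E3} (hv : ∀ k, |lin A v k| ≤ θ * (lam * Q.side k) / 2) :
    volume (K2 A Q ((1 + θ) * lam) v \ K1 A Q lam) ≤ ENNReal.ofReal (7 * θ) * volume (K1 A Q lam) := by
  have hfin := volume_K1_ne_top (A := A) hQ hl
  rw [measure_diff (K1_subset_K2 hv) (measurableSet_K1 A Q lam).nullMeasurableSet hfin,
    volume_K2_grow hQ hl hθ v, tsub_le_iff_right]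
  calc ENNReal.ofReal ((1 + θ) ^ 3) * volume (K1 A Q lam)
      ≤ ENNReal.ofReal (7 * θ + 1) * volume (K1 A Q lam) := by
        gcongr
        nlinarith [mul_nonneg hθ hθ, mul_nonneg (mul_nonneg hθ hθ) hθ,
          mul_le_mul_of_nonneg_left hθ1 hθ, mul_le_mul_of_nonneg_left hθ1 (mul_nonneg hθ hθ)]
    _ = _ := by rw [ENNReal.ofReal_add (by positivity) zero_le_one, add_mul, ENNReal.ofReal_one, one_mul]

end

end Crest.Agent.R096.Acc_365
end

-- ▼ part R096/Acc5_365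

/-!
Row 96 (S0127), helper365.  **EA-ACC**, part 5, "GROW": the core and energy clauses of `EaX_766.EA` from
the energies off the shifted larger cores and the core inequality there; the sum of the inner layers.
-/

set_option autoImplicit false
set_option linter.style.longLine false
set_option linter.unusedSectionVars false
set_option linter.unusedVariables false

open MeasureTheory Set Filter Topology Metric
open scoped ENNReal NNReal

namespace Crest.Agent.R096.Acc_365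

open Crest.AnalysisR.VecCalc3 Crest.AnalysisR.Sobolev
open Crest.Agent.R096.SkC1_961 (E3 Hom3)
open Crest.Agent.R096.Er_594 (SH3)
open Crest.Agent.R096.Bsp_628 Crest.Agent.R096.Brk5_582
open Crest.Agent.R096.Bxs_627 (ctr)
open Crest.Agent.R096.EaX_766 (lin cbx ExIn Kor)
open Crest.Agent.R096.Exa_365

noncomputable section

variable {p : ℝ} {Om La : Set E3} {f : E3 → E3} {D : E3 → E3 →L[ℝ] E3} {A : E3 ≃ᵃ[ℝ] E3}

theorem two_rpow {p : ℝ} (hp : 1 ≤ p) : (2:ℝ≥0∞) ^ (p - 1) = ENNReal.ofReal (2 ^ (p - 1)) := by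
  rw [← ENNReal.ofReal_rpow_of_nonneg (by norm_num) (by linarith)]
  norm_num

/-- the energy of `h - b` on `S` from the energy of `h - a` -/
theorem energy_shift (hp : 1 ≤ p) {h : E3 → E3 →L[ℝ] E3} {a b : E3 →L[ℝ] E3} {S T : Set E3}
    (hST : S ⊆ T) : ∫⁻ x in S, ‖h x - b‖ₑ ^ p ≤
      ENNReal.ofReal (2 ^ (p - 1)) * ((∫⁻ x in T, ‖h x - a‖ₑ ^ p) + ‖a - b‖ₑ ^ p * volume S) := by
  have hp0 : 0 ≤ p := zero_le_one.trans hp
  have h2p : (2:ℝ≥0∞) ^ (p - 1) ≠ ∞ := ENNReal.rpow_ne_top_of_nonneg (by linarith) (by norm_num)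
  rw [← two_rpow hp]
  calc ∫⁻ x in S, ‖h x - b‖ₑ ^ p
      ≤ ∫⁻ x in S, (2:ℝ≥0∞) ^ (p - 1) * (‖h x - a‖ₑ ^ p + ‖a - b‖ₑ ^ p) := by
        refine lintegral_mono fun x => ?_
        have h4 : ‖h x - b‖ₑ ≤ ‖h x - a‖ₑ + ‖a - b‖ₑ := by
          have h5 := enorm_add_le (h x - a) (a - b)
          rwa [sub_add_sub_cancel] at h5
        exact (ENNReal.rpow_le_rpow h4 hp0).trans (ENNReal.rpow_add_le_mul_rpow_add_rpow _ _ hp)
    _ = (2:ℝ≥0∞) ^ (p - 1) * ((∫⁻ x in S, ‖h x - a‖ₑ ^ p) + ‖a - b‖ₑ ^ p * volume S) := by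
        rw [lintegral_const_mul' _ _ h2p, lintegral_add_right _ measurable_const, setLIntegral_const]
    _ ≤ _ := by
        gcongr

section one

variable {Q : Bx (Fin 3)} {lam θ e1 : ℝ} {v : E3} {h : E3 → E3 →L[ℝ] E3}

/-- **(2) core clause on the core from the core clause on the shifted larger core** -/
theorem core_grow (hp : 1 ≤ p) (hQ : Q.Pos) (hl : 0 < lam) (hθ : 0 ≤ θ) (hθ1 : θ ≤ 1)
    (hv : ∀ k, |lin A v k| ≤ θ * (lam * Q.side k) / 2) (he1 : 0 ≤ e1)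
    (hcore : ∫⁻ x in K2 A Q ((1 + θ) * lam) v, ‖h x - ((1 + θ) * lam)⁻¹ • lin A‖ₑ ^ p ≤
      ENNReal.ofReal e1 * (‖lin A‖ₑ ^ p * volume (K2 A Q ((1 + θ) * lam) v))) :
    ∫⁻ x in K1 A Q lam, ‖h x - lam⁻¹ • lin A‖ₑ ^ p ≤
      ENNReal.ofReal (2 ^ (p - 1) * (8 * e1 + (θ / lam) ^ p)) * (‖lin A‖ₑ ^ p * volume (K1 A Q lam)) := by
  have hp0 : 0 ≤ p := zero_le_one.trans hp
  have h1 := energy_shift hp (h := h) (a := ((1 + θ) * lam)⁻¹ • lin A) (b := lam⁻¹ • lin A)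
    (K1_subset_K2 hv)
  have h2 : ‖((1 + θ) * lam)⁻¹ • lin A - lam⁻¹ • lin A‖ₑ ^ p ≤
      ENNReal.ofReal ((θ / lam) ^ p) * ‖lin A‖ₑ ^ p := by
    have h3 : ‖((1 + θ) * lam)⁻¹ • lin A - lam⁻¹ • lin A‖ₑ ≤ ENNReal.ofReal (θ / lam) * ‖lin A‖ₑ := by
      rw [show ((1 + θ) * lam)⁻¹ • lin A - lam⁻¹ • lin A = (((1 + θ) * lam)⁻¹ - lam⁻¹) • lin A from
        (sub_smul _ _ _).symm, enorm_smul]
      gcongr
      rw [Real.enorm_eq_ofReal_abs]
      apply ENNReal.ofReal_le_ofReal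
      have h4 : ((1 + θ) * lam)⁻¹ - lam⁻¹ = -(θ / ((1 + θ) * lam)) := by
        field_simp
        ring
      rw [h4, abs_neg, abs_of_nonneg (by positivity)]
      apply div_le_div_of_nonneg_left hθ hl
      nlinarith
    calc _ ≤ (ENNReal.ofReal (θ / lam) * ‖lin A‖ₑ) ^ p := ENNReal.rpow_le_rpow h3 hp0
      _ = _ := by
        rw [ENNReal.mul_rpow_of_nonneg _ _ hp0, ENNReal.ofReal_rpow_of_nonneg (by positivity) hp0]
  calc ∫⁻ x in K1 A Q lam, ‖h x - lam⁻¹ • lin A‖ₑ ^ p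
      ≤ ENNReal.ofReal (2 ^ (p - 1)) * ((∫⁻ x in K2 A Q ((1 + θ) * lam) v,
          ‖h x - ((1 + θ) * lam)⁻¹ • lin A‖ₑ ^ p) +
          ‖((1 + θ) * lam)⁻¹ • lin A - lam⁻¹ • lin A‖ₑ ^ p * volume (K1 A Q lam)) := h1
    _ ≤ ENNReal.ofReal (2 ^ (p - 1)) * (ENNReal.ofReal e1 * (‖lin A‖ₑ ^ p *
          (ENNReal.ofReal 8 * volume (K1 A Q lam))) +
          ENNReal.ofReal ((θ / lam) ^ p) * ‖lin A‖ₑ ^ p * volume (K1 A Q lam)) := by
        gcongr
        refine hcore.trans ?_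
        rw [volume_K2_grow hQ hl.le hθ v]
        gcongr
        nlinarith [mul_nonneg hθ hθ, mul_nonneg (mul_nonneg hθ hθ) hθ,
          mul_le_mul_of_nonneg_left hθ1 hθ, mul_le_mul_of_nonneg_left hθ1 (mul_nonneg hθ hθ)]
    _ = _ := by
        have hq : 0 ≤ (θ / lam) ^ p := Real.rpow_nonneg (by positivity) _
        rw [ENNReal.ofReal_mul (p := 2 ^ (p - 1)) (q := 8 * e1 + (θ / lam) ^ p) (by positivity),
          ENNReal.ofReal_add (p := 8 * e1) (q := (θ / lam) ^ p) (by positivity) hq,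
          ENNReal.ofReal_mul (p := 8) (q := e1) (by norm_num)]
        ring

/-- the energy of the shifted larger core outside the core -/
theorem zone_grow (hp : 1 ≤ p) (hQ : Q.Pos) (hl : 0 < lam) (hθ : 0 ≤ θ) (hθ1 : θ ≤ 1)
    (hv : ∀ k, |lin A v k| ≤ θ * (lam * Q.side k) / 2) (he1 : 0 ≤ e1)
    (hcore : ∫⁻ x in K2 A Q ((1 + θ) * lam) v, ‖h x - ((1 + θ) * lam)⁻¹ • lin A‖ₑ ^ p ≤
      ENNReal.ofReal e1 * (‖lin A‖ₑ ^ p * volume (K2 A Q ((1 + θ) * lam) v))) :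
    ∫⁻ x in K2 A Q ((1 + θ) * lam) v \ K1 A Q lam, ‖h x‖ₑ ^ p ≤
      ENNReal.ofReal (2 ^ (p - 1) * (8 * e1 + (1 / lam) ^ p * (7 * θ))) *
        (‖lin A‖ₑ ^ p * volume (K1 A Q lam)) := by
  have hp0 : 0 ≤ p := zero_le_one.trans hp
  have h1 := energy_shift hp (h := h) (a := ((1 + θ) * lam)⁻¹ • lin A) (b := 0)
    (S := K2 A Q ((1 + θ) * lam) v \ K1 A Q lam) (T := K2 A Q ((1 + θ) * lam) v) diff_subset
  simp only [sub_zero] at h1
  have h2 : ‖((1 + θ) * lam)⁻¹ • lin A‖ₑ ^ p ≤ ENNReal.ofReal ((1 / lam) ^ p) * ‖lin A‖ₑ ^ p := by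
    have h3 : ‖((1 + θ) * lam)⁻¹ • lin A‖ₑ ≤ ENNReal.ofReal (1 / lam) * ‖lin A‖ₑ := by
      rw [enorm_smul]
      gcongr
      rw [Real.enorm_eq_ofReal_abs]
      apply ENNReal.ofReal_le_ofReal
      rw [abs_of_nonneg (by positivity), one_div]
      apply inv_anti₀ hl
      nlinarith
    calc _ ≤ (ENNReal.ofReal (1 / lam) * ‖lin A‖ₑ) ^ p := ENNReal.rpow_le_rpow h3 hp0
      _ = _ := by
        rw [ENNReal.mul_rpow_of_nonneg _ _ hp0, ENNReal.ofReal_rpow_of_nonneg (by positivity) hp0]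
  calc ∫⁻ x in K2 A Q ((1 + θ) * lam) v \ K1 A Q lam, ‖h x‖ₑ ^ p
      ≤ ENNReal.ofReal (2 ^ (p - 1)) * ((∫⁻ x in K2 A Q ((1 + θ) * lam) v,
          ‖h x - ((1 + θ) * lam)⁻¹ • lin A‖ₑ ^ p) +
          ‖((1 + θ) * lam)⁻¹ • lin A‖ₑ ^ p * volume (K2 A Q ((1 + θ) * lam) v \ K1 A Q lam)) := h1
    _ ≤ ENNReal.ofReal (2 ^ (p - 1)) * (ENNReal.ofReal e1 * (‖lin A‖ₑ ^ p *
          (ENNReal.ofReal 8 * volume (K1 A Q lam))) +
          ENNReal.ofReal ((1 / lam) ^ p) * ‖lin A‖ₑ ^ p *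
            (ENNReal.ofReal (7 * θ) * volume (K1 A Q lam))) := by
        gcongr
        · refine hcore.trans ?_
          rw [volume_K2_grow hQ hl.le hθ v]
          gcongr
          nlinarith [mul_nonneg hθ hθ, mul_nonneg (mul_nonneg hθ hθ) hθ,
            mul_le_mul_of_nonneg_left hθ1 hθ, mul_le_mul_of_nonneg_left hθ1 (mul_nonneg hθ hθ)]
        · exact volume_grow_diff hQ hl.le hθ hθ1 hv
    _ = _ := by
        have hq : 0 ≤ (1 / lam) ^ p := Real.rpow_nonneg (by positivity) _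
        rw [ENNReal.ofReal_mul (p := 2 ^ (p - 1)) (q := 8 * e1 + (1 / lam) ^ p * (7 * θ)) (by positivity),
          ENNReal.ofReal_add (p := 8 * e1) (q := (1 / lam) ^ p * (7 * θ)) (by positivity) (by positivity),
          ENNReal.ofReal_mul (p := 8) (q := e1) (by norm_num),
          ENNReal.ofReal_mul (p := (1 / lam) ^ p) (q := 7 * θ) hq]
        ring

end one

/-- the data of the accounting with larger shifted cores -/
structure GrowD (p c0 θ e1 : ℝ) (F : Set (Bx (Fin 3))) (X : Set F) (A : F → E3 ≃ᵃ[ℝ] E3)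
    (lam : F → ℝ) (v : F → E3) (g : E3 → E3 →L[ℝ] E3) : Prop where
  cnt : F.Countable
  pos : ∀ c ∈ X, c.1.Pos
  hc0 : 0 < c0
  hθ : 0 ≤ θ
  hθ1 : θ ≤ 1
  he1 : 0 ≤ e1
  hlam : ∀ c ∈ X, c0 ≤ lam c
  shift : ∀ c ∈ X, ∀ k, |lin (A c) (v c) k| ≤ θ * (lam c * c.1.side k) / 2
  core : ∀ c ∈ X, ∫⁻ x in K2 (A c) c.1 ((1 + θ) * lam c) (v c),
      ‖g x - ((1 + θ) * lam c)⁻¹ • lin (A c)‖ₑ ^ p ≤
    ENNReal.ofReal e1 * (‖lin (A c)‖ₑ ^ p * volume (K2 (A c) c.1 ((1 + θ) * lam c) (v c)))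

/-- the constants of `GROW` -/
def Ecore (p c0 θ e1 : ℝ) : ℝ := 2 ^ (p - 1) * (8 * e1 + (θ / c0) ^ p)

def Ezone (p c0 θ e1 : ℝ) : ℝ := 2 ^ (p - 1) * (8 * e1 + (1 / c0) ^ p * (7 * θ))

variable {c0 θ e1 : ℝ} {F : Set (Bx (Fin 3))} {X : Set F}
  {A : F → E3 ≃ᵃ[ℝ] E3} {lam : F → ℝ} {v : F → E3} {g : E3 → E3 →L[ℝ] E3}

theorem GrowD.core1 (hp : 1 ≤ p) (H : GrowD p c0 θ e1 F X A lam v g) {c : F} (hc : c ∈ X) :
    ∫⁻ x in Kor F A lam c, ‖g x - (lam c)⁻¹ • lin (A c)‖ₑ ^ p ≤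
      ENNReal.ofReal (Ecore p c0 θ e1) * (‖lin (A c)‖ₑ ^ p * volume (Kor F A lam c)) := by
  have hl : 0 < lam c := H.hc0.trans_le (H.hlam c hc)
  refine (core_grow hp (H.pos c hc) hl H.hθ H.hθ1 (H.shift c hc) H.he1 (H.core c hc)).trans ?_
  change _ ≤ ENNReal.ofReal (Ecore p c0 θ e1) * (‖lin (A c)‖ₑ ^ p * volume (K1 (A c) c.1 (lam c)))
  have h2 : (θ / lam c) ^ p ≤ (θ / c0) ^ p :=
    Real.rpow_le_rpow (div_nonneg H.hθ hl.le)
      (div_le_div_of_nonneg_left H.hθ H.hc0 (H.hlam c hc)) (zero_le_one.trans hp)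
  unfold Ecore
  gcongr

theorem GrowD.zone1 (hp : 1 ≤ p) (H : GrowD p c0 θ e1 F X A lam v g) {c : F} (hc : c ∈ X) :
    ∫⁻ x in K2 (A c) c.1 ((1 + θ) * lam c) (v c) \ Kor F A lam c, ‖g x‖ₑ ^ p ≤
      ENNReal.ofReal (Ezone p c0 θ e1) * (‖lin (A c)‖ₑ ^ p * volume (Kor F A lam c)) := by
  have hl : 0 < lam c := H.hc0.trans_le (H.hlam c hc)
  refine (zone_grow hp (H.pos c hc) hl H.hθ H.hθ1 (H.shift c hc) H.he1 (H.core c hc)).trans ?_
  change _ ≤ ENNReal.ofReal (Ezone p c0 θ e1) * (‖lin (A c)‖ₑ ^ p * volume (K1 (A c) c.1 (lam c)))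
  have h2 : (1 / lam c) ^ p ≤ (1 / c0) ^ p :=
    Real.rpow_le_rpow (by positivity) (one_div_le_one_div_of_le H.hc0 (H.hlam c hc))
      (zero_le_one.trans hp)
  have hθ := H.hθ
  unfold Ezone
  gcongr

/-- **(3) the accounting with larger shifted cores** -/
theorem GrowD.acc (hp : 1 ≤ p) (H : GrowD p c0 θ e1 F X A lam v g) {C2 e2 J : ℝ≥0∞} {E2 : ℝ}
    (hE2 : 0 ≤ E2)
    (hout : ∫⁻ x in Om \ ⋃ c ∈ X, K2 (A c) c.1 ((1 + θ) * lam c) (v c), ‖g x‖ₑ ^ p ≤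
      C2 * J + ENNReal.ofReal E2 * (∑' c : X, (1 + ‖lin (A c)‖ₑ ^ p) * volume (Kor F A lam c)) + e2) :
    ∫⁻ x in Om \ ⋃ c ∈ X, Kor F A lam c, ‖g x‖ₑ ^ p ≤
      C2 * J + ENNReal.ofReal (E2 + Ezone p c0 θ e1) *
        (∑' c : X, (1 + ‖lin (A c)‖ₑ ^ p) * volume (Kor F A lam c)) + e2 := by
  classical
  have : Countable F := H.cnt.to_subtype
  set Z : X → Set E3 := fun c => K2 (A c) c.1.1 ((1 + θ) * lam c) (v c) \ Kor F A lam c with hZ
  have hEz : 0 ≤ Ezone p c0 θ e1 := by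
    have h1 := H.hθ
    have h2 := H.he1
    have h3 := H.hc0
    have h4 : 0 ≤ (1 / c0) ^ p := Real.rpow_nonneg (by positivity) _
    unfold Ezone
    positivity
  have hsub : Om \ ⋃ c ∈ X, Kor F A lam c ⊆
      (Om \ ⋃ c ∈ X, K2 (A c) c.1 ((1 + θ) * lam c) (v c)) ∪ ⋃ c : X, Z c := by
    rintro x ⟨hx1, hx2⟩
    by_cases hx3 : x ∈ ⋃ c ∈ X, K2 (A c) c.1 ((1 + θ) * lam c) (v c)
    · simp only [mem_iUnion] at hx3
      obtain ⟨c, hc, hxc⟩ := hx3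
      refine Or.inr (mem_iUnion.2 ⟨⟨c, hc⟩, hxc, fun h => hx2 ?_⟩)
      exact mem_iUnion₂.2 ⟨c, hc, h⟩
    · exact Or.inl ⟨hx1, hx3⟩
  calc ∫⁻ x in Om \ ⋃ c ∈ X, Kor F A lam c, ‖g x‖ₑ ^ p
      ≤ ∫⁻ x in (Om \ ⋃ c ∈ X, K2 (A c) c.1 ((1 + θ) * lam c) (v c)) ∪ ⋃ c : X, Z c, ‖g x‖ₑ ^ p :=
        lintegral_mono_set hsub
    _ ≤ (∫⁻ x in Om \ ⋃ c ∈ X, K2 (A c) c.1 ((1 + θ) * lam c) (v c), ‖g x‖ₑ ^ p) +
          ∫⁻ x in ⋃ c : X, Z c, ‖g x‖ₑ ^ p := lintegral_union_le _ _ _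
    _ ≤ (C2 * J + ENNReal.ofReal E2 *
          (∑' c : X, (1 + ‖lin (A c)‖ₑ ^ p) * volume (Kor F A lam c)) + e2) +
          ∑' c : X, ∫⁻ x in Z c, ‖g x‖ₑ ^ p := add_le_add hout (lintegral_iUnion_le _ _)
    _ ≤ (C2 * J + ENNReal.ofReal E2 *
          (∑' c : X, (1 + ‖lin (A c)‖ₑ ^ p) * volume (Kor F A lam c)) + e2) +
          ∑' c : X, ENNReal.ofReal (Ezone p c0 θ e1) *
            ((1 + ‖lin (A c)‖ₑ ^ p) * volume (Kor F A lam c)) := by
        gcongr with c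
        refine (H.zone1 hp c.2).trans ?_
        gcongr
        exact le_add_self
    _ = _ := by
        rw [ENNReal.tsum_mul_left, ENNReal.ofReal_add hE2 hEz]
        ring

/-- the `L^p` norm of the defect over a part of the collar -/
theorem gd_lp {o : E3} {u κ1 κ2 κ0 : ℝ} (hκ1 : 0 ≤ κ1)
    {A : E3 ≃ᵃ[ℝ] E3} {Q : Bx (Fin 3)} (hQ : Q.Pos) {lam : ℝ} (hl : 0 ≤ lam)
    (hκ : ∀ k, Q.sz ≤ κ0 * Q.side k) (hE : ExIn p Om f D o u κ1 κ2 Q A lam) {S : Set E3}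
    (hSV : S ⊆ A ⁻¹' cbx Q ((1 + 2 * κ2) * lam)) :
    ∫⁻ x in S, Gd A D x ^ p ≤ ENNReal.ofReal (κ1 * κ0 ^ 3) * volume (K1 A Q lam) := by
  have hd : 0 < |(lin A).det| := abs_pos.2 (det_lin_ne A)
  have h1 := hE.lp
  have h2 : ENNReal.ofReal |(lin A).det|⁻¹ * ENNReal.ofReal |(lin A).det| = 1 := by
    rw [← ENNReal.ofReal_mul (by positivity), inv_mul_cancel₀ hd.ne', ENNReal.ofReal_one]
  calc ∫⁻ x in S, Gd A D x ^ p ≤ ∫⁻ x in A ⁻¹' cbx Q ((1 + 2 * κ2) * lam), Gd A D x ^ p :=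
        lintegral_mono_set hSV
    _ = ENNReal.ofReal |(lin A).det|⁻¹ * (ENNReal.ofReal |(lin A).det| *
          ∫⁻ x in A ⁻¹' cbx Q ((1 + 2 * κ2) * lam), Gd A D x ^ p) := by
        rw [← mul_assoc, h2, one_mul]
    _ ≤ ENNReal.ofReal |(lin A).det|⁻¹ * ENNReal.ofReal (κ1 * (lam * Q.sz) ^ 3) := by
        gcongr; exact h1
    _ = ENNReal.ofReal κ1 * ENNReal.ofReal (|(lin A).det|⁻¹ * (lam * Q.sz) ^ 3) := by
        rw [ENNReal.ofReal_mul hκ1, ENNReal.ofReal_mul (by positivity : (0:ℝ) ≤ |(lin A).det|⁻¹)]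
        ring
    _ ≤ ENNReal.ofReal κ1 * (ENNReal.ofReal (κ0 ^ 3) * volume (K1 A Q lam)) := by
        gcongr; exact cube_le_vol hQ hl hκ (Bx.sz_pos hQ).le
    _ = _ := by rw [ENNReal.ofReal_mul hκ1, mul_assoc]

/-- **(4) the inner layers**, one brick: the mean energies of the inner tiles, as given by `act_avg`
with `c_j = ‖lin A v_j‖` and `H = ‖D o (lin A)⁻¹‖`. -/
theorem inner_one (hp : 1 ≤ p) (h : SH3 p Om La f D) {o : E3} {u κ1 κ2 κ0 : ℝ} (hκ1 : 0 ≤ κ1)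
    {A : E3 ≃ᵃ[ℝ] E3} {Q : Bx (Fin 3)} (hQ : Q.Pos) {lam : ℝ} (hl : 0 ≤ lam)
    (hκ : ∀ k, Q.sz ≤ κ0 * Q.side k) (hE : ExIn p Om f D o u κ1 κ2 Q A lam) {S : Set E3}
    (hS : MeasurableSet S) (hSV : S ⊆ A ⁻¹' cbx Q ((1 + 2 * κ2) * lam)) :
    ‖lin A‖ₑ ^ p * (∫⁻ x in S, ‖(D x).comp (lin A.symm)‖ₑ ^ p) ≤
      ENNReal.ofReal (4 ^ p) * ((∫⁻ x in S, ‖D x‖ₑ ^ p) +
      ENNReal.ofReal (κ1 * κ0 ^ 3) * (‖lin A‖ₑ ^ p * volume (K1 A Q lam))) := by
  have hp0 : 0 ≤ p := zero_le_one.trans hp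
  have h2p : (2:ℝ≥0∞) ^ (p - 1) ≠ ∞ := ENNReal.rpow_ne_top_of_nonneg (by linarith) (by norm_num)
  have hm := exin_mass hp h hκ1 hQ hl hκ (Bx.sz_pos hQ).le hE hS hSV
  have hg := gd_lp (p := p) (Om := Om) (f := f) (D := D) hκ1 hQ hl hκ hE hSV
  set J := ∫⁻ x in S, ‖D x‖ₑ ^ p with hJ
  set T := ‖lin A‖ₑ ^ p * volume (K1 A Q lam) with hT
  set k := ENNReal.ofReal (κ1 * κ0 ^ 3) with hk
  set P := (2:ℝ≥0∞) ^ (p - 1) with hP
  have hP1 : 1 ≤ P := by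
    rw [hP]
    calc (1:ℝ≥0∞) = 1 ^ (p - 1) := (ENNReal.one_rpow _).symm
      _ ≤ 2 ^ (p - 1) := ENNReal.rpow_le_rpow (by norm_num) (by linarith)
  have hPP : P * P + P ≤ ENNReal.ofReal (4 ^ p) := by
    have h3 : P * P + P ≤ 2 * (P * P) := by
      rw [two_mul]
      gcongr
      exact le_mul_of_one_le_left' hP1
    refine h3.trans ?_
    rw [hP, two_rpow hp]
    have h4 : (2:ℝ≥0∞) = ENNReal.ofReal 2 := by norm_num
    rw [h4, ← ENNReal.ofReal_mul (by positivity), ← ENNReal.ofReal_mul (by norm_num)]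
    apply ENNReal.ofReal_le_ofReal
    have h5 : (4:ℝ) ^ p = 2 ^ p * 2 ^ p := by
      rw [← Real.mul_rpow (by norm_num) (by norm_num)]; norm_num
    have h6 : (2:ℝ) ^ p = 2 * 2 ^ (p - 1) := by
      rw [Real.rpow_sub_one (by norm_num)]
      field_simp
    rw [h5, h6]
    have h7 : (0:ℝ) < 2 ^ (p - 1) := by positivity
    nlinarith [mul_pos h7 h7]
  have hb : ∫⁻ x in S, ‖(D x).comp (lin A.symm)‖ₑ ^ p ≤ P * (volume S + ∫⁻ x in S, Gd A D x ^ p) := by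
    calc ∫⁻ x in S, ‖(D x).comp (lin A.symm)‖ₑ ^ p
        ≤ ∫⁻ x in S, P * (1 + Gd A D x ^ p) := by
          refine lintegral_mono fun x => ?_
          have h3 : ‖(D x).comp (lin A.symm)‖ₑ ≤ 1 + Gd A D x := by
            have h5 := enorm_add_le (ContinuousLinearMap.id ℝ E3)
              ((D x).comp (lin A.symm) - ContinuousLinearMap.id ℝ E3)
            have h6 : ContinuousLinearMap.id ℝ E3 +
                ((D x).comp (lin A.symm) - ContinuousLinearMap.id ℝ E3) =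
                (D x).comp (lin A.symm) := by abel
            rw [h6] at h5
            refine h5.trans (add_le_add ?_ le_rfl)
            rw [← ofReal_norm_eq_enorm, ← ENNReal.ofReal_one]
            exact ENNReal.ofReal_le_ofReal ContinuousLinearMap.norm_id_le
          calc ‖(D x).comp (lin A.symm)‖ₑ ^ p ≤ (1 + Gd A D x) ^ p := ENNReal.rpow_le_rpow h3 hp0
            _ ≤ P * ((1:ℝ≥0∞) ^ p + Gd A D x ^ p) := ENNReal.rpow_add_le_mul_rpow_add_rpow _ _ hp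
            _ = _ := by rw [ENNReal.one_rpow]
      _ = P * (volume S + ∫⁻ x in S, Gd A D x ^ p) := by
          rw [lintegral_const_mul' _ _ h2p, lintegral_add_left measurable_const, setLIntegral_const,
            one_mul]
  calc ‖lin A‖ₑ ^ p * (∫⁻ x in S, ‖(D x).comp (lin A.symm)‖ₑ ^ p)
      ≤ ‖lin A‖ₑ ^ p * (P * (volume S + k * volume (K1 A Q lam))) := by
        gcongr
        refine hb.trans ?_
        gcongr
    _ = P * (‖lin A‖ₑ ^ p * volume S) + P * (k * T) := by rw [hT]; ring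
    _ ≤ P * (P * (J + k * T)) + P * (J + k * T) := by
        gcongr
        exact le_add_self
    _ = (P * P + P) * (J + k * T) := by ring
    _ ≤ ENNReal.ofReal (4 ^ p) * (J + k * T) := by gcongr


/-- **(5) choice of `e1` and `θ`** -/
theorem grow_choice (p : ℝ) (hp : 1 ≤ p) {c0 e : ℝ} (hc0 : 0 < c0) (he : 0 < e) :
    ∃ e1 θ0 : ℝ, 0 < e1 ∧ 0 < θ0 ∧ θ0 ≤ 1 ∧ ∀ θ, 0 ≤ θ → θ ≤ θ0 →
      Ecore p c0 θ e1 ≤ e ∧ Ezone p c0 θ e1 ≤ e := by
  set P : ℝ := 2 ^ (p - 1) with hP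
  have hPp : 0 < P := Real.rpow_pos_of_pos (by norm_num) _
  have hc1 : 0 < (1 / c0) ^ p := Real.rpow_pos_of_pos (by positivity) _
  have ht : Tendsto (fun θ : ℝ => P * (1 / c0) ^ p * 7 * θ + P * (θ / c0) ^ p) (𝓝 0) (𝓝 0) := by
    have h1 : Tendsto (fun θ : ℝ => P * (1 / c0) ^ p * 7 * θ) (𝓝 0) (𝓝 0) := by
      have : Continuous fun θ : ℝ => P * (1 / c0) ^ p * 7 * θ := by fun_prop
      have := this.tendsto 0
      simpa using this
    have h2 : Tendsto (fun θ : ℝ => P * (θ / c0) ^ p) (𝓝 0) (𝓝 0) := by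
      have h3 : Continuous fun θ : ℝ => P * (θ / c0) ^ p := by
        have : Continuous fun θ : ℝ => θ / c0 := by fun_prop
        exact continuous_const.mul (this.rpow_const fun _ => Or.inr (by linarith))
      have := h3.tendsto 0
      simpa [Real.zero_rpow (by linarith : p ≠ 0)] using this
    simpa using h1.add h2
  have he2 : 0 < e / 2 := by positivity
  obtain ⟨r, hr, h1⟩ := Metric.tendsto_nhds_nhds.1 ht (e / 2) he2
  refine ⟨e / (16 * P), min 1 (r / 2), by positivity, by positivity, min_le_left _ _, ?_⟩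
  intro θ h0 h2
  have h3 := h1 (x := θ) (by
    rw [Real.dist_eq, sub_zero, abs_of_nonneg h0]
    have := h2.trans (min_le_right _ _)
    linarith)
  rw [Real.dist_eq, sub_zero] at h3
  have h4 : 0 ≤ P * (1 / c0) ^ p * 7 * θ := by positivity
  have h5 : 0 ≤ P * (θ / c0) ^ p := by positivity
  have h6 := (abs_lt.1 h3).2
  have h7 : P * (8 * (e / (16 * P))) = e / 2 := by field_simp; ring
  constructor
  · unfold Ecore
    rw [← hP, mul_add, h7]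
    linarith
  · unfold Ezone
    rw [← hP, mul_add, h7]
    have : P * ((1 / c0) ^ p * (7 * θ)) = P * (1 / c0) ^ p * 7 * θ := by ring
    linarith

end

end Crest.Agent.R096.Acc_365
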