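import Mathlib
import Crest.Agent.R202.Miranda

-- ▼ part R096/Pat2_543
section

/-! # Parity of level sets in a disc (row 96, helper543)

`D` = closed unit disc of `ℂ`.  If `{u = c} ∩ D = A ⊔ B` with `A`, `B` closed, then `A` does not
meet the unit circle in exactly one point at which `u - c` changes sign. -/

set_option autoImplicit false

open Set Complex Filter Topology Metric

namespace Crest.Agent.R096.Pat2_543

/-- every continuous map `ℂ → Circle` has a continuous argument -/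
theorem exists_arg (φ : C(ℂ, Circle)) : ∃ θ : C(ℂ, ℝ), ∀ x, Circle.exp (θ x) = φ x := by
  obtain ⟨e₀, he₀⟩ : ∃ e₀ : ℝ, Circle.exp e₀ = φ 0 := Circle.exp_surjective (φ 0)
  obtain ⟨F, ⟨-, hF⟩, -⟩ := Circle.isCoveringMap_exp.existsUnique_continuousMap_lifts φ 0 e₀ he₀
  exact ⟨F, fun x => congrFun hF x⟩

/-- radial retraction onto the closed unit disc -/
noncomputable def retr (x : ℂ) : ℂ := ((max 1 ‖x‖)⁻¹ : ℝ) * x

theorem continuous_retr : Continuous retr := by
  unfold retr
  have h : Continuous fun x : ℂ => (max 1 ‖x‖)⁻¹ :=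
    (continuous_const.max continuous_norm).inv₀ fun x => by positivity
  fun_prop

theorem retr_mem (x : ℂ) : retr x ∈ closedBall (0 : ℂ) 1 := by
  rw [mem_closedBall_zero_iff]
  unfold retr
  have h : (0 : ℝ) < max 1 ‖x‖ := by positivity
  rw [norm_mul, Complex.norm_real, Real.norm_eq_abs, abs_of_pos (inv_pos.2 h),
    inv_mul_le_iff₀ h, mul_one]
  exact le_max_right _ _

theorem retr_eq {x : ℂ} (hx : x ∈ closedBall (0 : ℂ) 1) : retr x = x := by
  rw [mem_closedBall_zero_iff] at hx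
  unfold retr
  rw [max_eq_left hx]; simp

/-- **Parity lemma.**  No relatively clopen part of a level set in the disc meets the circle in
exactly one sign change. -/
theorem no_single {u : ℂ → ℝ} (hu : ContinuousOn u (closedBall 0 1)) {c : ℝ} {A B : Set ℂ}
    (hA : IsClosed A) (hB : IsClosed B) (hAB : Disjoint A B)
    (hZ : ∀ x ∈ closedBall (0 : ℂ) 1, u x = c → x ∈ A ∪ B)
    {z : ℂ} (hz : ‖z‖ = 1) (hzA : z ∈ A) (hAs : ∀ x ∈ A, ‖x‖ = 1 → x = z)
    (hAu : ∀ x ∈ A, x ∈ closedBall (0 : ℂ) 1 → u x = c)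
    {δ : ℝ} (hδ : 0 < δ)
    (hpos : ∀ t : ℝ, 0 < t → t < δ → c < u (z * exp ((t : ℝ) * I)))
    (hneg : ∀ t : ℝ, 0 < t → t < δ → u (z * exp (((-t : ℝ) : ℂ) * I)) < c) : False := by
  classical
  -- Urysohn function
  obtain ⟨φ, hφA, hφB, hφ01⟩ := exists_continuous_zero_one_of_isClosed hA hB hAB
  set Ψ : ℂ → ℂ := fun x => ((φ x - 1 / 2 : ℝ) : ℂ) + ((c - u x : ℝ) : ℂ) * I with hΨ
  have hre : ∀ x, (Ψ x).re = φ x - 1 / 2 := fun x => by simp [hΨ]
  have him : ∀ x, (Ψ x).im = c - u x := fun x => by simp [hΨ]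
  have hΨc : ContinuousOn Ψ (closedBall 0 1) := by
    have h1 : ContinuousOn (fun x => (φ x - 1 / 2 : ℝ)) (closedBall (0 : ℂ) 1) :=
      (φ.continuous.sub continuous_const).continuousOn
    have h2 : ContinuousOn (fun x => (c - u x : ℝ)) (closedBall (0 : ℂ) 1) :=
      continuousOn_const.sub hu
    exact (Complex.continuous_ofReal.comp_continuousOn h1).add
      ((Complex.continuous_ofReal.comp_continuousOn h2).mul continuousOn_const)
  have hΨ0 : ∀ x ∈ closedBall (0 : ℂ) 1, Ψ x ≠ 0 := by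
    intro x hx h0
    have h1 : u x = c := by
      have := him x; rw [h0] at this; simp at this; linarith
    have h2 : φ x = 1 / 2 := by
      have := hre x; rw [h0] at this; simp at this; linarith
    rcases hZ x hx h1 with h | h
    · have := hφA h; simp at this; rw [this] at h2; norm_num at h2
    · have := hφB h; simp at this; rw [this] at h2; norm_num at h2
  -- the continuous argument
  set N : ℂ → ℂ := fun x => Ψ (retr x) / (‖Ψ (retr x)‖ : ℂ) with hN
  have hNc : Continuous fun x => Ψ (retr x) :=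
    hΨc.comp_continuous continuous_retr retr_mem
  have hN0 : ∀ x, Ψ (retr x) ≠ 0 := fun x => hΨ0 _ (retr_mem x)
  have hNn : ∀ x, ‖N x‖ = 1 := fun x => by
    simp only [hN, norm_div, Complex.norm_real, norm_norm]
    exact div_self (norm_ne_zero_iff.2 (hN0 x))
  have hNcont : Continuous N := by
    refine hNc.div (Complex.continuous_ofReal.comp (continuous_norm.comp hNc)) fun x => ?_
    exact_mod_cast norm_ne_zero_iff.2 (hN0 x)
  obtain ⟨θ, hθ⟩ := exists_arg
    ⟨fun x => (⟨N x, mem_sphere_zero_iff_norm.2 (hNn x)⟩ : Circle), by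
      exact Continuous.subtype_mk hNcont _⟩
  have hθ' : ∀ x ∈ closedBall (0 : ℂ) 1, exp ((θ x : ℝ) * I) = Ψ x / (‖Ψ x‖ : ℂ) := by
    intro x hx
    have h1 := congrArg (fun w : Circle => (w : ℂ)) (hθ x)
    simp only [Circle.coe_exp] at h1
    rw [h1]
    change N x = _
    simp only [hN, retr_eq hx]
  -- the loop
  set γ : ℝ → ℂ := fun t => z * exp ((t : ℝ) * I) with hγ
  have hγc : Continuous γ := by simp only [hγ]; fun_prop
  have hγn : ∀ t, ‖γ t‖ = 1 := fun t => by
    simp only [hγ, norm_mul, hz, Complex.norm_exp_ofReal_mul_I, mul_one]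
  have hγD : ∀ t, γ t ∈ closedBall (0 : ℂ) 1 := fun t => by
    rw [mem_closedBall_zero_iff, hγn]
  have hγ0 : γ 0 = z := by simp [hγ]
  have hγ1 : γ (2 * Real.pi) = z := by
    simp only [hγ]; push_cast; rw [Complex.exp_two_pi_mul_I, mul_one]
  have hz0 : z ≠ 0 := by intro h; rw [h, norm_zero] at hz; norm_num at hz
  have hγz : ∀ t, 0 < t → t < 2 * Real.pi → γ t ≠ z := by
    intro t h0 h1 h
    simp only [hγ] at h
    have h2 : exp ((t : ℝ) * I) = 1 := by
      have : z * exp ((t : ℝ) * I) = z * 1 := by rw [h, mul_one]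
      exact mul_left_cancel₀ hz0 this
    rw [Complex.exp_eq_one_iff] at h2
    obtain ⟨n, hn⟩ := h2
    have h3 : (t : ℂ) * I = ((n * (2 * Real.pi) : ℝ) : ℂ) * I := by rw [hn]; push_cast; ring
    have h4 : t = n * (2 * Real.pi) := by exact_mod_cast mul_right_cancel₀ I_ne_zero h3
    have hp := Real.pi_pos
    have h5 : (0 : ℝ) < n := by
      by_contra hc; push Not at hc
      have := mul_nonpos_of_nonpos_of_nonneg hc (by positivity : (0 : ℝ) ≤ 2 * Real.pi)
      linarith
    have h6 : (n : ℝ) < 1 := by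
      by_contra hc; push Not at hc
      have : 1 * (2 * Real.pi) ≤ n * (2 * Real.pi) :=
        mul_le_mul_of_nonneg_right hc (by positivity)
      linarith
    have h7 : (0 : ℤ) < n := by exact_mod_cast h5
    have h8 : n < (1 : ℤ) := by exact_mod_cast h6
    omega
  have hslit : ∀ t, 0 < t → t < 2 * Real.pi → Ψ (γ t) ∈ slitPlane := by
    intro t h0 h1
    rw [Complex.mem_slitPlane_iff]
    by_contra hcon
    push Not at hcon
    obtain ⟨h2, h3⟩ := hcon
    rw [hre] at h2
    rw [him] at h3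
    have h4 : u (γ t) = c := by linarith
    rcases hZ _ (hγD t) h4 with h | h
    · exact hγz t h0 h1 (hAs _ h (hγn t))
    · have := hφB h; simp at this; rw [this] at h2; norm_num at h2
  -- `θ ∘ γ - arg ∘ Ψ ∘ γ` is constant on `(0, 2π)`
  set q : ℝ → ℝ := fun t => θ (γ t) - arg (Ψ (γ t)) with hq
  have hqc : ContinuousOn q (Ioo 0 (2 * Real.pi)) := by
    intro t ht
    refine ContinuousAt.continuousWithinAt ?_
    have h1 : ContinuousAt (fun t => arg (Ψ (γ t))) t := by
      have h2 : ContinuousAt (fun t => Ψ (γ t)) t :=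
        (hΨc.comp_continuous hγc hγD).continuousAt
      exact ContinuousAt.comp (f := fun t => Ψ (γ t)) (g := arg)
        (continuousAt_arg (hslit t ht.1 ht.2)) h2
    exact (θ.continuous.comp hγc).continuousAt.sub h1
  have hqint : ∀ t, ∃ n : ℤ, q t = n * (2 * Real.pi) := by
    intro t
    have h1 := hθ' _ (hγD t)
    have h2 : exp ((arg (Ψ (γ t)) : ℝ) * I) = Ψ (γ t) / (‖Ψ (γ t)‖ : ℂ) := by
      have h3 := Complex.norm_mul_exp_arg_mul_I (Ψ (γ t))
      have h4 : (‖Ψ (γ t)‖ : ℂ) ≠ 0 := by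
        exact_mod_cast norm_ne_zero_iff.2 (hΨ0 _ (hγD t))
      rw [eq_div_iff h4, mul_comm]; exact h3
    have h3 : exp ((θ (γ t) : ℝ) * I) = exp ((arg (Ψ (γ t)) : ℝ) * I) := by rw [h1, h2]
    rw [Complex.exp_eq_exp_iff_exists_int] at h3
    obtain ⟨n, hn⟩ := h3
    refine ⟨n, ?_⟩
    have h5 : ((θ (γ t) : ℝ) : ℂ) * I
        = ((arg (Ψ (γ t)) + n * (2 * Real.pi) : ℝ) : ℂ) * I := by
      rw [hn]; push_cast; ring
    have h6 : θ (γ t) = arg (Ψ (γ t)) + n * (2 * Real.pi) := by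
      exact_mod_cast mul_right_cancel₀ I_ne_zero h5
    simp only [hq]; linarith
  have hp := Real.pi_pos
  obtain ⟨k, hk⟩ : ∃ k : ℝ, ∀ t ∈ Ioo (0 : ℝ) (2 * Real.pi), q t = k := by
    refine ⟨q Real.pi, fun t ht => ?_⟩
    have hpre : IsPreconnected (Ioo (0 : ℝ) (2 * Real.pi)) := isPreconnected_Ioo
    have hpi : Real.pi ∈ Ioo (0 : ℝ) (2 * Real.pi) := ⟨hp, by linarith⟩
    have hdisc : ∀ t ∈ Ioo (0 : ℝ) (2 * Real.pi),
        q t / (2 * Real.pi) ∈ range ((↑) : ℤ → ℝ) := by
      intro t _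
      obtain ⟨n, hn⟩ := hqint t
      exact ⟨n, by rw [hn]; field_simp⟩
    have hcc : ContinuousOn (fun t => q t / (2 * Real.pi)) (Ioo 0 (2 * Real.pi)) :=
      hqc.div_const _
    have hT : IsDiscrete (range ((↑) : ℤ → ℝ)) :=
      Int.isClosedEmbedding_coe_real.isInducing.isDiscrete_range
    have h1 := hpre.constant_of_mapsTo hT hcc hdisc ht hpi
    have h2 : q t / (2 * Real.pi) = q Real.pi / (2 * Real.pi) := h1
    have h3 : (2 * Real.pi) ≠ 0 := by positivity
    exact (div_left_inj' h3).1 h2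
  -- limits at the two ends
  have hΨγc : Continuous fun t => Ψ (γ t) := hΨc.comp_continuous hγc hγD
  have hθγc : Continuous fun t => θ (γ t) := θ.continuous.comp hγc
  have hφz : φ z = 0 := by have := hφA hzA; simpa using this
  have hzD : z ∈ closedBall (0 : ℂ) 1 := by rw [mem_closedBall_zero_iff, hz]
  have huz : u z = c := hAu z hzA hzD
  have hΨz_re : (Ψ z).re < 0 := by rw [hre, hφz]; norm_num
  have hΨz_im : (Ψ z).im = 0 := by rw [him, huz]; ring
  have lim0 : Tendsto (fun t => arg (Ψ (γ t))) (𝓝[>] 0) (𝓝 (-Real.pi)) := by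
    refine (tendsto_arg_nhdsWithin_im_neg_of_re_neg_of_im_zero hΨz_re hΨz_im).comp ?_
    refine tendsto_nhdsWithin_iff.2 ⟨?_, ?_⟩
    · have := hΨγc.tendsto 0
      simp only [hγ0] at this
      exact this.mono_left nhdsWithin_le_nhds
    · filter_upwards [Ioo_mem_nhdsGT hδ] with t ht
      change (Ψ (γ t)).im < 0
      rw [him]
      have := hpos t ht.1 ht.2
      simp only [hγ]; linarith
  have lim1 : Tendsto (fun t => arg (Ψ (γ t))) (𝓝[<] (2 * Real.pi)) (𝓝 Real.pi) := by
    refine (tendsto_arg_nhdsWithin_im_nonneg_of_re_neg_of_im_zero hΨz_re hΨz_im).comp ?_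
    refine tendsto_nhdsWithin_iff.2 ⟨?_, ?_⟩
    · have := hΨγc.tendsto (2 * Real.pi)
      simp only [hγ1] at this
      exact this.mono_left nhdsWithin_le_nhds
    · have hm : Ioo (2 * Real.pi - δ) (2 * Real.pi) ∈ 𝓝[<] (2 * Real.pi) :=
        Ioo_mem_nhdsLT (by linarith)
      filter_upwards [hm] with t ht
      change 0 ≤ (Ψ (γ t)).im
      rw [him]
      have h1 := hneg (2 * Real.pi - t) (by linarith [ht.2]) (by linarith [ht.1])
      have h2 : z * exp (((-(2 * Real.pi - t) : ℝ) : ℂ) * I) = γ t := by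
        simp only [hγ]
        have : (((-(2 * Real.pi - t) : ℝ) : ℂ) * I) = (t : ℂ) * I - 2 * Real.pi * I := by
          push_cast; ring
        rw [this, Complex.exp_sub, Complex.exp_two_pi_mul_I, div_one]
      rw [h2] at h1; linarith
  have hI0 : Ioo 0 (2 * Real.pi) ∈ 𝓝[>] (0 : ℝ) := Ioo_mem_nhdsGT (by linarith)
  have hI1 : Ioo 0 (2 * Real.pi) ∈ 𝓝[<] (2 * Real.pi) := Ioo_mem_nhdsLT (by linarith)
  have q0 : Tendsto q (𝓝[>] 0) (𝓝 (θ z - (-Real.pi))) := by
    have h1 := (hθγc.tendsto 0).mono_left (nhdsWithin_le_nhds (s := Ioi 0))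
    simp only [hγ0] at h1
    exact h1.sub lim0
  have q1 : Tendsto q (𝓝[<] (2 * Real.pi)) (𝓝 (θ z - Real.pi)) := by
    have h1 := (hθγc.tendsto (2 * Real.pi)).mono_left
      (nhdsWithin_le_nhds (s := Iio (2 * Real.pi)))
    simp only [hγ1] at h1
    exact h1.sub lim1
  have q0' : Tendsto q (𝓝[>] 0) (𝓝 k) :=
    tendsto_const_nhds.congr' (by filter_upwards [hI0] with t ht using (hk t ht).symm)
  have q1' : Tendsto q (𝓝[<] (2 * Real.pi)) (𝓝 k) :=
    tendsto_const_nhds.congr' (by filter_upwards [hI1] with t ht using (hk t ht).symm)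
  have e0 := tendsto_nhds_unique q0 q0'
  have e1 := tendsto_nhds_unique q1 q1'
  linarith

end Crest.Agent.R096.Pat2_543
end

-- ▼ part R096/Pat1_543
section

/-! # Crossing lemma (row 96, helper543)

Two interlaced paths in a region of the plane meet: radial version around the origin.  The four
end points `p_j = r_j e^{i θ_j}` are radially exposed (`t e^{i θ_j}` is outside both sets for
`t > r_j`), `θ_a < θ_b < θ_c < θ_d < θ_a + 2π`. -/

set_option autoImplicit false

open Set Complex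

namespace Crest.Agent.R096.Pat1_543

/-- angle of the exterior arc at radius `ρ` -/
noncomputable def ph (R θ θ' ρ : ℝ) : ℝ := θ + max 0 (ρ / R - 1) * (θ' - θ)

/-- exterior arc -/
noncomputable def arc (R θ θ' ρ : ℝ) : ℂ := (ρ : ℂ) * exp ((ph R θ θ' ρ : ℝ) * I)

theorem continuous_ph (R θ θ' : ℝ) : Continuous (ph R θ θ') := by
  unfold ph; fun_prop

theorem continuous_arc (R θ θ' : ℝ) : Continuous (arc R θ θ') := by
  unfold arc
  have := continuous_ph R θ θ'
  fun_prop

theorem ph_le {R θ θ' ρ : ℝ} (hR : 0 < R) (h : ρ ≤ R) : ph R θ θ' ρ = θ := by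
  unfold ph
  have : ρ / R - 1 ≤ 0 := by
    have : ρ / R ≤ 1 := by rw [div_le_one hR]; exact h
    linarith
  rw [max_eq_left this]; ring

theorem ph_two {R θ θ' : ℝ} (hR : 0 < R) : ph R θ θ' (2 * R) = θ' := by
  unfold ph
  have : 2 * R / R - 1 = 1 := by field_simp; norm_num
  rw [this]; norm_num

theorem arc_le {R θ θ' ρ : ℝ} (hR : 0 < R) (h : ρ ≤ R) :
    arc R θ θ' ρ = (ρ : ℂ) * exp ((θ : ℝ) * I) := by
  unfold arc; rw [ph_le hR h]

theorem arc_two {R θ θ' : ℝ} (hR : 0 < R) :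
    arc R θ θ' (2 * R) = ((2 * R : ℝ) : ℂ) * exp ((θ' : ℝ) * I) := by
  unfold arc; rw [ph_two hR]

theorem norm_arc {R θ θ' ρ : ℝ} (h : 0 ≤ ρ) : ‖arc R θ θ' ρ‖ = ρ := by
  unfold arc
  rw [norm_mul, Complex.norm_exp_ofReal_mul_I, mul_one, Complex.norm_real, Real.norm_eq_abs,
    abs_of_nonneg h]

theorem arc_inj {R θ₁ θ₁' θ₂ θ₂' ρ₁ ρ₂ : ℝ} (hR : 0 < R) (h1 : 0 < ρ₁) (h2 : 0 < ρ₂)
    (h1R : ρ₁ ≤ 2 * R)
    (hθ : θ₁ < θ₂) (hθ2 : θ₂ < θ₁ + 2 * Real.pi) (hθ' : θ₁' < θ₂')
    (hθ2' : θ₂' < θ₁' + 2 * Real.pi) : arc R θ₁ θ₁' ρ₁ ≠ arc R θ₂ θ₂' ρ₂ := by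
  intro h
  have hρ : ρ₁ = ρ₂ := by
    have := congrArg norm h
    rwa [norm_arc h1.le, norm_arc h2.le] at this
  subst hρ
  unfold arc at h
  have hne : (ρ₁ : ℂ) ≠ 0 := by exact_mod_cast h1.ne'
  have h3 := mul_left_cancel₀ hne h
  rw [Complex.exp_eq_exp_iff_exists_int] at h3
  obtain ⟨n, hn⟩ := h3
  have h4 : ph R θ₁ θ₁' ρ₁ = ph R θ₂ θ₂' ρ₁ + n * (2 * Real.pi) := by
    have h5 : ((ph R θ₁ θ₁' ρ₁ : ℝ) : ℂ) * I
        = ((ph R θ₂ θ₂' ρ₁ + n * (2 * Real.pi) : ℝ) : ℂ) * I := by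
      rw [hn]; push_cast; ring
    have h6 := mul_right_cancel₀ I_ne_zero h5
    exact_mod_cast h6
  set s : ℝ := max 0 (ρ₁ / R - 1) with hs
  have hs0 : 0 ≤ s := le_max_left _ _
  have hs1 : s ≤ 1 := by
    refine max_le zero_le_one ?_
    have : ρ₁ / R ≤ 2 := by rw [div_le_iff₀ hR]; exact h1R
    linarith
  have h7 : ph R θ₂ θ₂' ρ₁ - ph R θ₁ θ₁' ρ₁ = (1 - s) * (θ₂ - θ₁) + s * (θ₂' - θ₁') := by
    unfold ph; rw [← hs]; ring
  have hpos : 0 < ph R θ₂ θ₂' ρ₁ - ph R θ₁ θ₁' ρ₁ := by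
    rw [h7]
    rcases hs1.lt_or_eq with h8 | h8
    · have := mul_pos (sub_pos.2 h8) (sub_pos.2 hθ)
      have := mul_nonneg hs0 (sub_pos.2 hθ').le
      linarith
    · rw [h8]; linarith
  have hlt : ph R θ₂ θ₂' ρ₁ - ph R θ₁ θ₁' ρ₁ < 2 * Real.pi := by
    rw [h7]
    have hp := Real.pi_pos
    rcases hs1.lt_or_eq with h8 | h8
    · have e1 : (1 - s) * (θ₂ - θ₁) < (1 - s) * (2 * Real.pi) :=
        mul_lt_mul_of_pos_left (by linarith) (sub_pos.2 h8)
      have e2 : s * (θ₂' - θ₁') ≤ s * (2 * Real.pi) :=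
        mul_le_mul_of_nonneg_left (by linarith) hs0
      nlinarith
    · rw [h8]; linarith
  have h9 : ((-n : ℤ) : ℝ) * (2 * Real.pi) = ph R θ₂ θ₂' ρ₁ - ph R θ₁ θ₁' ρ₁ := by
    push_cast; linarith
  have hp := Real.pi_pos
  have h10 : (0 : ℝ) < ((-n : ℤ) : ℝ) := by
    by_contra hc
    push Not at hc
    have := mul_nonpos_of_nonpos_of_nonneg hc (by positivity : (0 : ℝ) ≤ 2 * Real.pi)
    linarith
  have h11 : ((-n : ℤ) : ℝ) < 1 := by
    by_contra hc
    push Not at hc
    have : 1 * (2 * Real.pi) ≤ ((-n : ℤ) : ℝ) * (2 * Real.pi) :=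
      mul_le_mul_of_nonneg_right hc (by positivity)
    linarith
  have h12 : (0 : ℤ) < -n := by exact_mod_cast h10
  have h13 : (-n : ℤ) < 1 := by exact_mod_cast h11
  omega

/-- exterior path from radius `r` to radius `2R` -/
noncomputable def arcPath (R θ θ' r : ℝ) : Path (arc R θ θ' r) (arc R θ θ' (2 * R)) where
  toFun t := arc R θ θ' (r + (t : ℝ) * (2 * R - r))
  continuous_toFun := (continuous_arc R θ θ').comp (by fun_prop)
  source' := by simp
  target' := by simp

theorem mem_range_arcPath {R θ θ' r : ℝ} (hr : r ≤ 2 * R) {z : ℂ}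
    (hz : z ∈ range (arcPath R θ θ' r)) : ∃ ρ, r ≤ ρ ∧ ρ ≤ 2 * R ∧ z = arc R θ θ' ρ := by
  obtain ⟨t, rfl⟩ := hz
  have h0 := t.2.1
  have h1 := t.2.2
  refine ⟨r + (t : ℝ) * (2 * R - r), ?_, ?_, rfl⟩
  · have := mul_nonneg h0 (sub_nonneg.2 hr)
    linarith
  · have := mul_le_mul_of_nonneg_right h1 (sub_nonneg.2 hr)
    linarith

/-- Two paths in the square of half side `L` joining opposite sides meet. -/
theorem meet_of_opposite {L : ℝ} {z₁ z₂ w₁ w₂ : ℂ} (A : Path z₁ z₂) (B : Path w₁ w₂)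
    (hA : ∀ t, |(A t).re| ≤ L ∧ |(A t).im| ≤ L) (hB : ∀ t, |(B t).re| ≤ L ∧ |(B t).im| ≤ L)
    (hz1 : z₁.re = -L) (hz2 : z₂.re = L) (hw1 : w₁.im = -L) (hw2 : w₂.im = L) :
    (range A ∩ range B).Nonempty := by
  classical
  set f : (Fin 2 → ℝ) → Fin 2 → ℝ := fun x =>
    ![(A.extend ((x 0 + 1) / 2) - B.extend ((x 1 + 1) / 2)).re,
      (B.extend ((x 1 + 1) / 2) - A.extend ((x 0 + 1) / 2)).im] with hf
  have hAr : ∀ s : ℝ, A.extend s ∈ range A := fun s => by
    rw [← A.extend_range]; exact mem_range_self s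
  have hBr : ∀ s : ℝ, B.extend s ∈ range B := fun s => by
    rw [← B.extend_range]; exact mem_range_self s
  have hA' : ∀ s : ℝ, |(A.extend s).re| ≤ L ∧ |(A.extend s).im| ≤ L := fun s => by
    obtain ⟨t, ht⟩ := hAr s
    rw [← ht]; exact hA t
  have hB' : ∀ s : ℝ, |(B.extend s).re| ≤ L ∧ |(B.extend s).im| ≤ L := fun s => by
    obtain ⟨t, ht⟩ := hBr s
    rw [← ht]; exact hB t
  have hcont : Continuous f := by
    have h1 : Continuous fun x : Fin 2 → ℝ => A.extend ((x 0 + 1) / 2) :=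
      A.continuous_extend.comp (by fun_prop)
    have h2 : Continuous fun x : Fin 2 → ℝ => B.extend ((x 1 + 1) / 2) :=
      B.continuous_extend.comp (by fun_prop)
    refine continuous_pi fun i => ?_
    fin_cases i
    · exact Complex.continuous_re.comp (h1.sub h2)
    · exact Complex.continuous_im.comp (h2.sub h1)
  obtain ⟨x, hx, hx0⟩ := Crest.Agent.R202.poincare_miranda f hcont.continuousOn
    (by
      intro x hx i hi
      fin_cases i
      · have h0 : x 0 = 1 := hi
        have : A.extend ((x 0 + 1) / 2) = z₂ := by rw [h0]; norm_num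
        change 0 ≤ (A.extend ((x 0 + 1) / 2) - B.extend ((x 1 + 1) / 2)).re
        rw [this, Complex.sub_re, hz2]
        have := (abs_le.1 (hB' ((x 1 + 1) / 2)).1).2
        linarith
      · have h0 : x 1 = 1 := hi
        have : B.extend ((x 1 + 1) / 2) = w₂ := by rw [h0]; norm_num
        change 0 ≤ (B.extend ((x 1 + 1) / 2) - A.extend ((x 0 + 1) / 2)).im
        rw [this, Complex.sub_im, hw2]
        have := (abs_le.1 (hA' ((x 0 + 1) / 2)).2).2
        linarith)
    (by
      intro x hx i hi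
      fin_cases i
      · have h0 : x 0 = -1 := hi
        have : A.extend ((x 0 + 1) / 2) = z₁ := by rw [h0]; norm_num
        change (A.extend ((x 0 + 1) / 2) - B.extend ((x 1 + 1) / 2)).re ≤ 0
        rw [this, Complex.sub_re, hz1]
        have := (abs_le.1 (hB' ((x 1 + 1) / 2)).1).1
        linarith
      · have h0 : x 1 = -1 := hi
        have : B.extend ((x 1 + 1) / 2) = w₁ := by rw [h0]; norm_num
        change (B.extend ((x 1 + 1) / 2) - A.extend ((x 0 + 1) / 2)).im ≤ 0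
        rw [this, Complex.sub_im, hw1]
        have := (abs_le.1 (hA' ((x 0 + 1) / 2)).2).1
        linarith)
  refine ⟨A.extend ((x 0 + 1) / 2), hAr _, ?_⟩
  have h1 := hx0 0
  have h2 := hx0 1
  have h3 : A.extend ((x 0 + 1) / 2) = B.extend ((x 1 + 1) / 2) := by
    apply Complex.ext
    · have : (A.extend ((x 0 + 1) / 2) - B.extend ((x 1 + 1) / 2)).re = 0 := h1
      rw [Complex.sub_re] at this; linarith
    · have : (B.extend ((x 1 + 1) / 2) - A.extend ((x 0 + 1) / 2)).im = 0 := h2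
      rw [Complex.sub_im] at this; linarith
  rw [h3]; exact hBr _

/-- radial exposure of the end point `r e^{iθ}` with respect to a set -/
def Exposed (S : Set ℂ) (r θ : ℝ) : Prop :=
  ∀ t : ℝ, r < t → (t : ℂ) * exp ((θ : ℝ) * I) ∉ S

/-- **Crossing lemma**, path version. -/
theorem crossing_path {S S' : Set ℂ} {a b c d ra rb rc rd : ℝ} (hab : a < b) (hbc : b < c)
    (hcd : c < d) (hda : d < a + 2 * Real.pi) (ha0 : 0 < ra) (hb0 : 0 < rb) (hc0 : 0 < rc)
    (hd0 : 0 < rd)
    (ha : Exposed (S ∪ S') ra a) (hb : Exposed (S ∪ S') rb b) (hc : Exposed (S ∪ S') rc c)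
    (hd : Exposed (S ∪ S') rd d)
    (hS : JoinedIn S ((ra : ℂ) * exp ((a : ℝ) * I)) ((rc : ℂ) * exp ((c : ℝ) * I)))
    (hS' : JoinedIn S' ((rb : ℂ) * exp ((b : ℝ) * I)) ((rd : ℂ) * exp ((d : ℝ) * I))) :
    (S ∩ S').Nonempty := by
  obtain ⟨α, hα⟩ := hS
  obtain ⟨β, hβ⟩ := hS'
  -- a large radius
  obtain ⟨Rα, hRα⟩ := (isCompact_range α.continuous).isBounded.exists_norm_le
  obtain ⟨Rβ, hRβ⟩ := (isCompact_range β.continuous).isBounded.exists_norm_le
  set R : ℝ := max (max Rα Rβ) (max (max ra rb) (max rc rd)) with hR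
  have hRa : ra ≤ R := (le_max_left _ _).trans ((le_max_left _ _).trans (le_max_right _ _))
  have hRb : rb ≤ R := (le_max_right _ _).trans ((le_max_left _ _).trans (le_max_right _ _))
  have hRc : rc ≤ R := (le_max_left _ _).trans ((le_max_right _ _).trans (le_max_right _ _))
  have hRd : rd ≤ R := (le_max_right _ _).trans ((le_max_right _ _).trans (le_max_right _ _))
  have hRα' : ∀ t, ‖α t‖ ≤ R := fun t =>
    (hRα _ (mem_range_self t)).trans ((le_max_left _ _).trans (le_max_left _ _))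
  have hRβ' : ∀ t, ‖β t‖ ≤ R := fun t =>
    (hRβ _ (mem_range_self t)).trans ((le_max_right _ _).trans (le_max_left _ _))
  have hR0 : 0 < R := ha0.trans_le hRa
  have hp := Real.pi_pos
  set a' : ℝ := -Real.pi
  set b' : ℝ := -(Real.pi / 2)
  set c' : ℝ := 0
  set d' : ℝ := Real.pi / 2
  -- the two long paths
  have ea := arc_le (θ := a) (θ' := a') hR0 hRa
  have eb := arc_le (θ := b) (θ' := b') hR0 hRb
  have ec := arc_le (θ := c) (θ' := c') hR0 hRc
  have ed := arc_le (θ := d) (θ' := d') hR0 hRd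
  let A := ((arcPath R a a' ra).symm.trans (α.cast ea ec)).trans (arcPath R c c' rc)
  let B := ((arcPath R b b' rb).symm.trans (β.cast eb ed)).trans (arcPath R d d' rd)
  have hAr : range A = (range (arcPath R a a' ra) ∪ range α) ∪ range (arcPath R c c' rc) := by
    simp only [A, Path.trans_range, Path.symm_range]
    rfl
  have hBr : range B = (range (arcPath R b b' rb) ∪ range β) ∪ range (arcPath R d d' rd) := by
    simp only [B, Path.trans_range, Path.symm_range]
    rfl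
  have hle : ∀ r : ℝ, r ≤ R → r ≤ 2 * R := fun r hr => by linarith
  have narc : ∀ {θ θ' r : ℝ} (_ : 0 < r) (_ : r ≤ R) {z : ℂ}, z ∈ range (arcPath R θ θ' r) →
      ‖z‖ ≤ 2 * R := by
    intro θ θ' r h0 hr z hz
    obtain ⟨ρ, h1, h2, rfl⟩ := mem_range_arcPath (hle r hr) hz
    rw [norm_arc (h0.le.trans h1)]; exact h2
  have hAn : ∀ t, ‖A t‖ ≤ 2 * R := by
    intro t
    have : A t ∈ range A := mem_range_self t
    rw [hAr] at this
    rcases this with (h | h) | h
    · exact narc ha0 hRa h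
    · obtain ⟨u, hu⟩ := h
      rw [← hu]; linarith [hRα' u]
    · exact narc hc0 hRc h
  have hBn : ∀ t, ‖B t‖ ≤ 2 * R := by
    intro t
    have : B t ∈ range B := mem_range_self t
    rw [hBr] at this
    rcases this with (h | h) | h
    · exact narc hb0 hRb h
    · obtain ⟨u, hu⟩ := h
      rw [← hu]; linarith [hRβ' u]
    · exact narc hd0 hRd h
  have hmeet : (range A ∩ range B).Nonempty := by
    refine meet_of_opposite (L := 2 * R) A B (fun t => ⟨?_, ?_⟩) (fun t => ⟨?_, ?_⟩) ?_ ?_ ?_ ?_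
    · exact (Complex.abs_re_le_norm _).trans (hAn t)
    · exact (Complex.abs_im_le_norm _).trans (hAn t)
    · exact (Complex.abs_re_le_norm _).trans (hBn t)
    · exact (Complex.abs_im_le_norm _).trans (hBn t)
    · rw [arc_two hR0, Complex.re_ofReal_mul, Complex.exp_ofReal_mul_I_re]
      simp [a']
    · rw [arc_two hR0, Complex.re_ofReal_mul, Complex.exp_ofReal_mul_I_re]
      simp [c']
    · rw [arc_two hR0, Complex.im_ofReal_mul, Complex.exp_ofReal_mul_I_im]
      simp [b']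
    · rw [arc_two hR0, Complex.im_ofReal_mul, Complex.exp_ofReal_mul_I_im]
      simp [d']
  obtain ⟨z, hzA, hzB⟩ := hmeet
  rw [hAr] at hzA
  rw [hBr] at hzB
  -- an exterior arc meets `S ∪ S'` at its end point only
  have key : ∀ {θ θ' r : ℝ}, 0 < r → r ≤ R → Exposed (S ∪ S') r θ → ∀ {w : ℂ},
      w ∈ range (arcPath R θ θ' r) → w ∈ S ∪ S' → ‖w‖ ≤ R → w = (r : ℂ) * exp ((θ : ℝ) * I) := by
    intro θ θ' r h0 hr hexp w hw hwS hwR
    obtain ⟨ρ, h1, h2, rfl⟩ := mem_range_arcPath (hle r hr) hw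
    rw [norm_arc (h0.le.trans h1)] at hwR
    rw [arc_le hR0 hwR] at hwS ⊢
    rcases h1.lt_or_eq with h3 | h3
    · exact absurd hwS (hexp ρ h3)
    · rw [h3]
  have hαS : ∀ {w}, w ∈ range α → w ∈ S ∧ ‖w‖ ≤ R := by
    rintro w ⟨t, rfl⟩; exact ⟨hα t, hRα' t⟩
  have hβS : ∀ {w}, w ∈ range β → w ∈ S' ∧ ‖w‖ ≤ R := by
    rintro w ⟨t, rfl⟩; exact ⟨hβ t, hRβ' t⟩
  have pa : (ra : ℂ) * exp ((a : ℝ) * I) ∈ S := by have := hα 0; rwa [α.source] at this
  have pc : (rc : ℂ) * exp ((c : ℝ) * I) ∈ S := by have := hα 1; rwa [α.target] at this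
  have pb : (rb : ℂ) * exp ((b : ℝ) * I) ∈ S' := by have := hβ 0; rwa [β.source] at this
  have pd : (rd : ℂ) * exp ((d : ℝ) * I) ∈ S' := by have := hβ 1; rwa [β.target] at this
  have noarc : ∀ {θ₁ θ₁' r₁ θ₂ θ₂' r₂ : ℝ}, 0 < r₁ → r₁ ≤ R → 0 < r₂ → r₂ ≤ R →
      θ₁ < θ₂ → θ₂ < θ₁ + 2 * Real.pi → θ₁' < θ₂' → θ₂' < θ₁' + 2 * Real.pi → ∀ {w : ℂ},
      w ∈ range (arcPath R θ₁ θ₁' r₁) → w ∈ range (arcPath R θ₂ θ₂' r₂) → False := by
    intro θ₁ θ₁' r₁ θ₂ θ₂' r₂ h1 h1R h2 h2R h3 h4 h5 h6 w hw1 hw2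
    obtain ⟨ρ₁, g1, g2, rfl⟩ := mem_range_arcPath (hle _ h1R) hw1
    obtain ⟨ρ₂, g3, g4, g5⟩ := mem_range_arcPath (hle _ h2R) hw2
    exact arc_inj hR0 (h1.trans_le g1) (h2.trans_le g3) g2 h3 h4 h5 h6 g5
  rcases hzA with (hz | hz) | hz <;> rcases hzB with (hz' | hz') | hz'
  · exact (noarc ha0 hRa hb0 hRb hab (by linarith) (by simp only [a', b']; linarith)
      (by simp only [a', b']; linarith) hz hz').elim
  · obtain ⟨h1, h2⟩ := hβS hz'
    have := key ha0 hRa ha hz (Or.inr h1) h2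
    exact ⟨z, by rw [this]; exact pa, h1⟩
  · exact (noarc ha0 hRa hd0 hRd (by linarith) hda (by simp only [a', d']; linarith)
      (by simp only [a', d']; linarith) hz hz').elim
  · obtain ⟨h1, h2⟩ := hαS hz
    have := key hb0 hRb hb hz' (Or.inl h1) h2
    exact ⟨z, h1, by rw [this]; exact pb⟩
  · exact ⟨z, (hαS hz).1, (hβS hz').1⟩
  · obtain ⟨h1, h2⟩ := hαS hz
    have := key hd0 hRd hd hz' (Or.inl h1) h2
    exact ⟨z, h1, by rw [this]; exact pd⟩
  · exact (noarc hb0 hRb hc0 hRc hbc (by linarith) (by simp only [c', b']; linarith)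
      (by simp only [c', b']; linarith) hz' hz).elim
  · obtain ⟨h1, h2⟩ := hβS hz'
    have := key hc0 hRc hc hz (Or.inr h1) h2
    exact ⟨z, by rw [this]; exact pc, h1⟩
  · exact (noarc hc0 hRc hd0 hRd hcd (by linarith) (by simp only [c', d']; linarith)
      (by simp only [c', d']; linarith) hz hz').elim

end Crest.Agent.R096.Pat1_543
end

-- ▼ part R096/Pat3_543
section

/-! # Moore triods: levels with a three point component are countable (row 96, helper543) -/

set_option autoImplicit false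

open Set Complex Filter Topology Metric

namespace Crest.Agent.R096.Pat3_543

open Crest.Agent.R096.Pat1_543

theorem joinedIn_thickening {K : Set ℂ} (hK : IsPreconnected K) {D : Set ℂ} (hD : Convex ℝ D)
    (hKD : K ⊆ D) {δ : ℝ} (hδ : 0 < δ) {x y : ℂ} (hx : x ∈ K) (hy : y ∈ K) :
    JoinedIn (D ∩ thickening δ K) x y := by
  refine hK.induction₂ (fun x y => JoinedIn (D ∩ thickening δ K) x y) ?_ ?_ ?_ hx hy
  · intro z hz
    have h1 : K ∩ ball z δ ∈ 𝓝[K] z := inter_mem_nhdsWithin K (ball_mem_nhds z hδ)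
    filter_upwards [h1] with w hw
    have hcv : Convex ℝ (D ∩ ball z δ) := hD.inter (convex_ball _ _)
    have hz' : z ∈ D ∩ ball z δ := ⟨hKD hz, mem_ball_self hδ⟩
    have hw' : w ∈ D ∩ ball z δ := ⟨hKD hw.1, hw.2⟩
    refine JoinedIn.of_segment_subset ((hcv.segment_subset hz' hw').trans ?_)
    exact inter_subset_inter_right _ (ball_subset_thickening hz δ)
  · intro a b c _ _ _ h1 h2
    exact h1.trans h2
  · intro a b _ _ h
    exact h.symm

theorem exposed_disc {S : Set ℂ} (hS : S ⊆ closedBall 0 1) (θ : ℝ) : Exposed S 1 θ := by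
  intro t ht h
  have h1 := hS h
  rw [mem_closedBall_zero_iff, norm_mul, Complex.norm_exp_ofReal_mul_I, mul_one,
    Complex.norm_real, Real.norm_eq_abs, abs_of_pos (by linarith)] at h1
  linarith

/-- **Crossing lemma**, continua in the closed unit disc. -/
theorem crossing_disc {K K' : Set ℂ} (hK : IsPreconnected K) (hK' : IsPreconnected K')
    (hKc : IsCompact K) (hKc' : IsCompact K') (hKD : K ⊆ closedBall 0 1)
    (hKD' : K' ⊆ closedBall 0 1) {a b c d : ℝ} (hab : a < b) (hbc : b < c) (hcd : c < d)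
    (hda : d < a + 2 * Real.pi) (ha : exp ((a : ℝ) * I) ∈ K) (hc : exp ((c : ℝ) * I) ∈ K)
    (hb : exp ((b : ℝ) * I) ∈ K') (hd : exp ((d : ℝ) * I) ∈ K') : (K ∩ K').Nonempty := by
  by_contra hcon
  have hdisj : Disjoint K K' := by
    rw [Set.disjoint_iff_inter_eq_empty]
    exact not_nonempty_iff_eq_empty.1 hcon
  obtain ⟨δ, hδ, hth⟩ := hdisj.exists_thickenings hKc hKc'.isClosed
  have hconv : Convex ℝ (closedBall (0 : ℂ) 1) := convex_closedBall _ _
  have j1 := joinedIn_thickening hK hconv hKD hδ ha hc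
  have j2 := joinedIn_thickening hK' hconv hKD' hδ hb hd
  have hsub : (closedBall (0 : ℂ) 1 ∩ thickening δ K) ∪ (closedBall (0 : ℂ) 1 ∩ thickening δ K')
      ⊆ closedBall 0 1 := by
    rintro x (hx | hx) <;> exact hx.1
  obtain ⟨x, hx1, hx2⟩ := crossing_path (ra := 1) (rb := 1) (rc := 1) (rd := 1) hab hbc hcd hda
    one_pos one_pos one_pos one_pos (exposed_disc hsub a) (exposed_disc hsub b)
    (exposed_disc hsub c) (exposed_disc hsub d) (by simpa using j1) (by simpa using j2)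
  exact Set.disjoint_left.1 hth hx1.2 hx2.2

/-- the angles of three distinct points of the circle in increasing order -/
theorem exists_angles {x₁ x₂ x₃ : ℂ} (h1 : ‖x₁‖ = 1) (h2 : ‖x₂‖ = 1) (h3 : ‖x₃‖ = 1)
    (h12 : x₁ ≠ x₂) (h13 : x₁ ≠ x₃) (h23 : x₂ ≠ x₃) (K : Set ℂ) (k1 : x₁ ∈ K) (k2 : x₂ ∈ K)
    (k3 : x₃ ∈ K) : ∃ a b c : ℝ, a < b ∧ b < c ∧ c < a + 2 * Real.pi ∧
      exp ((a : ℝ) * I) ∈ K ∧ exp ((b : ℝ) * I) ∈ K ∧ exp ((c : ℝ) * I) ∈ K := by
  have e : ∀ {x : ℂ}, ‖x‖ = 1 → exp ((arg x : ℝ) * I) = x := by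
    intro x hx
    have := Complex.norm_mul_exp_arg_mul_I x
    rwa [hx, Complex.ofReal_one, one_mul] at this
  have i : ∀ {x y : ℂ}, ‖x‖ = 1 → ‖y‖ = 1 → x ≠ y → arg x ≠ arg y := by
    intro x y hx hy hxy h
    exact hxy (by rw [← e hx, ← e hy, h])
  have b : ∀ x y : ℂ, arg x < arg y + 2 * Real.pi := by
    intro x y
    have := arg_le_pi x
    have := neg_pi_lt_arg y
    linarith
  have i12 := i h1 h2 h12
  have i13 := i h1 h3 h13
  have i23 := i h2 h3 h23
  have m1 : exp ((arg x₁ : ℝ) * I) ∈ K := by rw [e h1]; exact k1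
  have m2 : exp ((arg x₂ : ℝ) * I) ∈ K := by rw [e h2]; exact k2
  have m3 : exp ((arg x₃ : ℝ) * I) ∈ K := by rw [e h3]; exact k3
  rcases lt_or_gt_of_ne i12 with g12 | g12 <;> rcases lt_or_gt_of_ne i13 with g13 | g13 <;>
    rcases lt_or_gt_of_ne i23 with g23 | g23
  · exact ⟨_, _, _, g12, g23, b _ _, m1, m2, m3⟩
  · exact ⟨_, _, _, g13, g23, b _ _, m1, m3, m2⟩
  · exact absurd (g12.trans g23) (not_lt.2 g13.le)
  · exact ⟨_, _, _, g13, g12, b _ _, m3, m1, m2⟩
  · exact ⟨_, _, _, g12, g13, b _ _, m2, m1, m3⟩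
  · exact absurd (g23.trans g12) (not_lt.2 g13.le)
  · exact ⟨_, _, _, g23, g13, b _ _, m2, m3, m1⟩
  · exact ⟨_, _, _, g23, g12, b _ _, m3, m2, m1⟩

/-- level set in the disc -/
def Z (u : ℂ → ℝ) (c : ℝ) : Set ℂ := {x | x ∈ closedBall (0 : ℂ) 1 ∧ u x = c}

theorem isCompact_Z {u : ℂ → ℝ} (hu : ContinuousOn u (closedBall 0 1)) (c : ℝ) :
    IsCompact (Z u c) := by
  have h1 : IsClosed (Z u c) := by
    have := hu.preimage_isClosed_of_isClosed isClosed_closedBall (isClosed_singleton (x := c))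
    exact this
  exact (isCompact_closedBall (0 : ℂ) 1).of_isClosed_subset h1 fun x hx => hx.1

/-- bad levels: some component of the level set meets the circle in three points -/
def Bad (u : ℂ → ℝ) : Set ℝ :=
  {c | ∃ x₁ ∈ Z u c, ∃ x₂ ∈ connectedComponentIn (Z u c) x₁,
    ∃ x₃ ∈ connectedComponentIn (Z u c) x₁,
      ‖x₁‖ = 1 ∧ ‖x₂‖ = 1 ∧ ‖x₃‖ = 1 ∧ x₁ ≠ x₂ ∧ x₁ ≠ x₃ ∧ x₂ ≠ x₃}

theorem isCompact_connectedComponentIn {F : Set ℂ} (hF : IsCompact F) (x : ℂ) :
    IsCompact (connectedComponentIn F x) := by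
  by_cases hx : x ∈ F
  · rw [connectedComponentIn_eq_image hx]
    have : CompactSpace F := isCompact_iff_compactSpace.1 hF
    exact (isClosed_connectedComponent.isCompact).image continuous_subtype_val
  · rw [connectedComponentIn_eq_empty hx]; exact isCompact_empty

/-- **Moore's triod theorem** in the form needed: the bad levels are countable. -/
theorem countable_bad {u : ℂ → ℝ} (hu : ContinuousOn u (closedBall 0 1)) :
    (Bad u).Countable := by
  classical
  -- data
  have key : ∀ c : Bad u, ∃ K : Set ℂ, ∃ a b d : ℝ, ∃ r : ℚ × ℚ × ℚ, IsPreconnected K ∧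
      IsCompact K ∧ K ⊆ Z u c ∧ exp ((a : ℝ) * I) ∈ K ∧ exp ((b : ℝ) * I) ∈ K ∧
      exp ((d : ℝ) * I) ∈ K ∧ ((r.1 : ℝ) < a ∧ a < r.2.1 ∧ (r.2.1 : ℝ) < b ∧ b < r.2.2 ∧
        (r.2.2 : ℝ) < d ∧ d < r.1 + 2 * Real.pi) := by
    rintro ⟨c, x₁, hx1, x₂, hx2, x₃, hx3, n1, n2, n3, h12, h13, h23⟩
    obtain ⟨a, b, d, hab, hbd, hda, ma, mb, md⟩ := exists_angles n1 n2 n3 h12 h13 h23
      (connectedComponentIn (Z u c) x₁) (mem_connectedComponentIn hx1) hx2 hx3
    obtain ⟨r0, hr0, hr0'⟩ := exists_rat_btwn (show d - 2 * Real.pi < a by linarith)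
    obtain ⟨r1, hr1, hr1'⟩ := exists_rat_btwn hab
    obtain ⟨r2, hr2, hr2'⟩ := exists_rat_btwn hbd
    exact ⟨connectedComponentIn (Z u c) x₁, a, b, d, (r0, r1, r2),
      isPreconnected_connectedComponentIn, isCompact_connectedComponentIn (isCompact_Z hu c) _,
      connectedComponentIn_subset _ _, ma, mb, md, hr0', hr1, hr1', hr2, hr2', by linarith⟩
  choose K a b d r hK hKc hKZ ha hb hd hr using key
  have hinj : Function.Injective r := by
    intro c c' hcc
    by_contra hne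
    have hne' : (c : ℝ) ≠ c' := fun h => hne (Subtype.ext h)
    have hdis : ¬ (K c ∩ K c').Nonempty := by
      rintro ⟨x, hx, hx'⟩
      exact hne' ((hKZ c hx).2.symm.trans (hKZ c' hx').2)
    have hD : ∀ c, K c ⊆ closedBall 0 1 := fun c x hx => (hKZ c hx).1
    obtain ⟨p0, p1, p2, p3, p4, p5⟩ := hr c
    obtain ⟨q0, q1, q2, q3, q4, q5⟩ := hr c'
    rw [← hcc] at q0 q1 q2 q3 q4 q5
    rcases lt_trichotomy (a c) (a c') with h | h | h
    · -- `a < a' < b < d'`
      exact hdis (crossing_disc (hK c) (hK c') (hKc c) (hKc c') (hD c) (hD c') h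
        (by linarith) (by linarith) (by linarith) (ha c) (hb c) (ha c') (hd c'))
    · apply hdis
      exact ⟨_, ha c, by rw [h]; exact ha c'⟩
    · -- `a' < a < b' < d`
      have := crossing_disc (hK c') (hK c) (hKc c') (hKc c) (hD c') (hD c) h
        (by linarith) (by linarith) (by linarith) (ha c') (hb c') (ha c) (hd c)
      rw [inter_comm] at this
      exact hdis this
  have : Countable (Bad u) := hinj.countable
  exact this.to_set

end Crest.Agent.R096.Pat3_543
end

-- ▼ part R096/Pat4_543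
section

/-! # Components of a regular level in a face meet the boundary in 0 or 2 points
(row 96, helper543) -/

set_option autoImplicit false

open Set Complex Filter Topology Metric

namespace Crest.Agent.R096.Pat4_543

open Crest.Agent.R096.Pat1_543 Crest.Agent.R096.Pat2_543 Crest.Agent.R096.Pat3_543

/-- `c` is a regular level of `u` on the loop `C` (a subset of a topological space): finitely
many points, each of them a limit of both strict sides (on `C`). -/
structure RegOn {X : Type*} [TopologicalSpace X] (u : X → ℝ) (C : Set X) (c : ℝ) : Prop where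
  fin : {x | x ∈ C ∧ u x = c}.Finite
  up : ∀ x ∈ C, u x = c → x ∈ closure {y | y ∈ C ∧ c < u y}
  down : ∀ x ∈ C, u x = c → x ∈ closure {y | y ∈ C ∧ u y < c}

theorem RegOn.neg {X : Type*} [TopologicalSpace X] {u : X → ℝ} {C : Set X} {c : ℝ}
    (h : RegOn u C c) : RegOn (fun x => - u x) C (-c) where
  fin := by
    refine h.fin.subset ?_
    rintro x ⟨hx, h1⟩
    exact ⟨hx, by have : -u x = -c := h1; linarith⟩
  up := by
    intro x hx h1
    have h2 : u x = c := by have : -u x = -c := h1; linarith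
    refine closure_mono ?_ (h.down x hx h2)
    rintro y ⟨hy, h3⟩
    exact ⟨hy, by linarith⟩
  down := by
    intro x hx h1
    have h2 : u x = c := by have : -u x = -c := h1; linarith
    refine closure_mono ?_ (h.up x hx h2)
    rintro y ⟨hy, h3⟩
    exact ⟨hy, by linarith⟩

theorem arcz_ne {z : ℂ} (hz : ‖z‖ = 1) {t : ℝ} (h0 : t ≠ 0) (h1 : |t| < 2 * Real.pi) :
    z * exp ((t : ℝ) * I) ≠ z := by
  intro h
  have hz0 : z ≠ 0 := by intro h; rw [h, norm_zero] at hz; norm_num at hz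
  have h2 : exp ((t : ℝ) * I) = 1 := by
    have : z * exp ((t : ℝ) * I) = z * 1 := by rw [h, mul_one]
    exact mul_left_cancel₀ hz0 this
  rw [Complex.exp_eq_one_iff] at h2
  obtain ⟨n, hn⟩ := h2
  have h3 : (t : ℂ) * I = ((n * (2 * Real.pi) : ℝ) : ℂ) * I := by rw [hn]; push_cast; ring
  have h4 : t = n * (2 * Real.pi) := by exact_mod_cast mul_right_cancel₀ I_ne_zero h3
  have hp := Real.pi_pos
  rw [h4, abs_mul, abs_of_pos (by positivity : (0 : ℝ) < 2 * Real.pi)] at h1
  have h6 : |(n : ℝ)| < 1 := by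
    by_contra hc; push Not at hc
    have : 1 * (2 * Real.pi) ≤ |(n : ℝ)| * (2 * Real.pi) :=
      mul_le_mul_of_nonneg_right hc (by positivity)
    linarith
  have h7 : |n| < 1 := by exact_mod_cast h6
  have h8 : n = 0 := Int.abs_lt_one_iff.1 h7
  rw [h8] at h4
  exact h0 (by rw [h4]; simp)

theorem norm_arcz {z : ℂ} (hz : ‖z‖ = 1) (t : ℝ) : ‖z * exp ((t : ℝ) * I)‖ = 1 := by
  rw [norm_mul, hz, Complex.norm_exp_ofReal_mul_I, mul_one]

/-- near `z`, the circle is the arc -/
theorem eventually_arc {z : ℂ} (hz : ‖z‖ = 1) {δ : ℝ} (hδ : 0 < δ) :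
    ∀ᶠ y in 𝓝 z, ‖y‖ = 1 → ∃ t : ℝ, |t| < δ ∧ y = z * exp ((t : ℝ) * I) := by
  have hz0 : z ≠ 0 := by intro h; rw [h, norm_zero] at hz; norm_num at hz
  have h1 : ContinuousAt (fun y : ℂ => arg (y / z)) z := by
    refine ContinuousAt.comp (f := fun y : ℂ => y / z) (g := arg) ?_ (by fun_prop)
    rw [div_self hz0]
    exact continuousAt_arg (by simp)
  have h2 : ∀ᶠ y in 𝓝 z, |arg (y / z)| < δ := by
    have h3 : Tendsto (fun y : ℂ => |arg (y / z)|) (𝓝 z) (𝓝 |arg (z / z)|) := h1.abs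
    rw [div_self hz0] at h3
    simp at h3
    exact h3.eventually (gt_mem_nhds hδ)
  filter_upwards [h2] with y hy hy1
  refine ⟨arg (y / z), hy, ?_⟩
  have h4 := Complex.norm_mul_exp_arg_mul_I (y / z)
  rw [norm_div, hz, hy1, div_one, Complex.ofReal_one, one_mul] at h4
  rw [h4, mul_div_cancel₀ _ hz0]

/-- sign of a continuous nonvanishing function on an interval -/
theorem const_sign {f : ℝ → ℝ} {a b : ℝ} (hf : ContinuousOn f (Ioo a b))
    (h0 : ∀ t ∈ Ioo a b, f t ≠ 0) : (∀ t ∈ Ioo a b, 0 < f t) ∨ (∀ t ∈ Ioo a b, f t < 0) := by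
  by_contra hcon
  push Not at hcon
  obtain ⟨⟨s, hs, hs1⟩, ⟨t, ht, ht1⟩⟩ := hcon
  have h2 : IsPreconnected (f '' Ioo a b) := isPreconnected_Ioo.image _ hf
  have h3 := h2.Icc_subset (mem_image_of_mem f hs) (mem_image_of_mem f ht)
  obtain ⟨r, hr, hr1⟩ := h3 ⟨hs1, ht1⟩
  exact h0 r hr hr1

/-- sign change at a regular boundary point, in the two orientations -/
theorem RegOn.signs {u : ℂ → ℝ} (hu : ContinuousOn u (closedBall 0 1)) {c : ℝ}
    (h : RegOn u (sphere 0 1) c) {z : ℂ} (hz : ‖z‖ = 1) (hzc : u z = c) :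
    ∃ δ > 0, (∀ t : ℝ, 0 < t → t < δ →
        c < u (z * exp ((t : ℝ) * I)) ∧ u (z * exp (((-t : ℝ) : ℂ) * I)) < c) ∨
      (∀ t : ℝ, 0 < t → t < δ →
        u (z * exp ((t : ℝ) * I)) < c ∧ c < u (z * exp (((-t : ℝ) : ℂ) * I))) := by
  have hp := Real.pi_pos
  -- no other zero near `z`
  set γ : ℝ → ℂ := fun t => z * exp ((t : ℝ) * I) with hγ
  have hγc : Continuous γ := by simp only [hγ]; fun_prop
  have hγD : ∀ t, γ t ∈ closedBall (0 : ℂ) 1 := fun t => by
    rw [mem_closedBall_zero_iff]; exact (norm_arcz hz t).le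
  have hγS : ∀ t, γ t ∈ sphere (0 : ℂ) 1 := fun t => by
    rw [mem_sphere_zero_iff_norm]; exact norm_arcz hz t
  have hγ0 : γ 0 = z := by simp [hγ]
  have hfin : ({x | x ∈ sphere (0 : ℂ) 1 ∧ u x = c} \ {z}).Finite := h.fin.subset sdiff_subset
  have hnb : ({x | x ∈ sphere (0 : ℂ) 1 ∧ u x = c} \ {z})ᶜ ∈ 𝓝 z :=
    hfin.isClosed.isOpen_compl.mem_nhds (by simp)
  have hnb' : γ ⁻¹' ({x | x ∈ sphere (0 : ℂ) 1 ∧ u x = c} \ {z})ᶜ ∈ 𝓝 (0 : ℝ) :=
    hγc.continuousAt.preimage_mem_nhds (by rw [hγ0]; exact hnb)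
  obtain ⟨δ₀, hδ₀, hb⟩ := Metric.mem_nhds_iff.1 hnb'
  set δ := min δ₀ Real.pi with hδ
  have hδpos : 0 < δ := lt_min hδ₀ hp
  have hne : ∀ t : ℝ, t ≠ 0 → |t| < δ → u (γ t) ≠ c := by
    intro t ht0 ht h1
    have h2 : t ∈ ball (0 : ℝ) δ₀ := by
      rw [mem_ball_zero_iff, Real.norm_eq_abs]; exact ht.trans_le (min_le_left _ _)
    have h3 := hb h2
    have h4 : γ t = z := by
      by_contra h5
      exact h3 ⟨⟨hγS t, h1⟩, h5⟩
    exact arcz_ne hz ht0 (by linarith [min_le_right δ₀ Real.pi]) h4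
  have hcont : Continuous fun t => u (γ t) - c :=
    (hu.comp_continuous hγc hγD).sub continuous_const
  have s1 := const_sign (f := fun t => u (γ t) - c) (a := 0) (b := δ) hcont.continuousOn
    (by
      intro t ht h1
      exact hne t ht.1.ne' (by rw [abs_of_pos ht.1]; exact ht.2) (by linarith))
  have s2 := const_sign (f := fun t => u (γ t) - c) (a := -δ) (b := 0) hcont.continuousOn
    (by
      intro t ht h1
      exact hne t ht.2.ne (by rw [abs_of_neg ht.2]; linarith [ht.1]) (by linarith))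
  have hup := h.up z (mem_sphere_zero_iff_norm.2 hz) hzc
  have hdown := h.down z (mem_sphere_zero_iff_norm.2 hz) hzc
  have hev := eventually_arc hz hδpos
  refine ⟨δ, hδpos, ?_⟩
  rcases s1 with s1 | s1 <;> rcases s2 with s2 | s2
  · -- both positive
    exfalso
    rw [mem_closure_iff_frequently] at hdown
    obtain ⟨y, ⟨hy, hyc⟩, hy2⟩ := (hdown.and_eventually hev).exists
    obtain ⟨t, ht, rfl⟩ := hy2 (mem_sphere_zero_iff_norm.1 hy)
    have hyc' : u (γ t) < c := hyc
    rcases lt_trichotomy t 0 with h0 | h0 | h0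
    · have := s2 t ⟨by linarith [(abs_lt.1 ht).1], h0⟩
      linarith
    · rw [h0, hγ0, hzc] at hyc'
      exact lt_irrefl _ hyc'
    · have := s1 t ⟨h0, by linarith [(abs_lt.1 ht).2]⟩
      linarith
  · left
    intro t ht0 ht1
    have h1 := s1 t ⟨ht0, ht1⟩
    have h2 := s2 (-t) ⟨by linarith, by linarith⟩
    exact ⟨by simp only [hγ] at h1; linarith, by simp only [hγ] at h2; linarith⟩
  · right
    intro t ht0 ht1
    have h1 := s1 t ⟨ht0, ht1⟩
    have h2 := s2 (-t) ⟨by linarith, by linarith⟩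
    exact ⟨by simp only [hγ] at h1; linarith, by simp only [hγ] at h2; linarith⟩
  · exfalso
    rw [mem_closure_iff_frequently] at hup
    obtain ⟨y, ⟨hy, hyc⟩, hy2⟩ := (hup.and_eventually hev).exists
    obtain ⟨t, ht, rfl⟩ := hy2 (mem_sphere_zero_iff_norm.1 hy)
    have hyc' : c < u (γ t) := hyc
    rcases lt_trichotomy t 0 with h0 | h0 | h0
    · have := s2 t ⟨by linarith [(abs_lt.1 ht).1], h0⟩
      linarith
    · rw [h0, hγ0, hzc] at hyc'
      exact lt_irrefl _ hyc'
    · have := s1 t ⟨h0, by linarith [(abs_lt.1 ht).2]⟩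
      linarith

/-- a component of a regular level through a boundary point has another boundary point -/
theorem exists_partner {u : ℂ → ℝ} (hu : ContinuousOn u (closedBall 0 1)) {c : ℝ}
    (h : RegOn u (sphere 0 1) c) {z : ℂ} (hz : ‖z‖ = 1) (hzc : u z = c) :
    ∃ w, w ≠ z ∧ ‖w‖ = 1 ∧ w ∈ connectedComponentIn (Z u c) z := by
  classical
  by_contra hcon
  push Not at hcon
  have hzZ : z ∈ Z u c := ⟨by rw [mem_closedBall_zero_iff, hz], hzc⟩
  have : CompactSpace (Z u c) := isCompact_iff_compactSpace.1 (isCompact_Z hu c)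
  set z' : Z u c := ⟨z, hzZ⟩
  -- the other boundary points
  set W : Set (Z u c) := {w | ‖(w : ℂ)‖ = 1 ∧ (w : ℂ) ≠ z} with hW
  have hWfin : W.Finite := by
    have h1 : (Subtype.val '' W).Finite := by
      refine h.fin.subset ?_
      rintro x ⟨w, ⟨hw1, hw2⟩, rfl⟩
      exact ⟨mem_sphere_zero_iff_norm.2 hw1, w.2.2⟩
    exact h1.of_finite_image Subtype.val_injective.injOn
  have hclop : ∀ w ∈ W, ∃ s : Set (Z u c), IsClopen s ∧ z' ∈ s ∧ w ∉ s := by
    intro w hw
    have h1 : w ∉ connectedComponent z' := by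
      intro h2
      apply hcon w hw.2 hw.1
      rw [connectedComponentIn_eq_image hzZ]
      exact ⟨w, h2, rfl⟩
    rw [connectedComponent_eq_iInter_isClopen] at h1
    simp only [mem_iInter, not_forall] at h1
    obtain ⟨s, hs⟩ := h1
    exact ⟨s, s.2.1, s.2.2, hs⟩
  choose! s hs1 hs2 hs3 using hclop
  set A0 : Set (Z u c) := ⋂ w ∈ W, s w with hA0
  have hA0c : IsClopen A0 := by
    constructor
    · exact isClosed_biInter fun w hw => (hs1 w hw).1
    · exact hWfin.isOpen_biInter fun w hw => (hs1 w hw).2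
  have hz'A : z' ∈ A0 := mem_iInter₂.2 fun w hw => hs2 w hw
  set A : Set ℂ := Subtype.val '' A0
  set B : Set ℂ := Subtype.val '' A0ᶜ
  have hA : IsClosed A := (hA0c.1.isCompact.image continuous_subtype_val).isClosed
  have hB : IsClosed B := (hA0c.compl.1.isCompact.image continuous_subtype_val).isClosed
  have hAB : Disjoint A B := by
    rw [Set.disjoint_left]
    rintro x ⟨a, ha, rfl⟩ ⟨b, hb, hb2⟩
    have : b = a := Subtype.ext hb2
    rw [this] at hb
    exact hb ha
  have hZ : ∀ x ∈ closedBall (0 : ℂ) 1, u x = c → x ∈ A ∪ B := by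
    intro x hx hxc
    by_cases hxa : (⟨x, hx, hxc⟩ : Z u c) ∈ A0
    · exact Or.inl ⟨_, hxa, rfl⟩
    · exact Or.inr ⟨_, hxa, rfl⟩
  have hzA : z ∈ A := ⟨z', hz'A, rfl⟩
  have hAs : ∀ x ∈ A, ‖x‖ = 1 → x = z := by
    rintro x ⟨a, ha, rfl⟩ hx1
    by_contra hne
    have haW : a ∈ W := ⟨hx1, hne⟩
    exact hs3 a haW (mem_iInter₂.1 ha a haW)
  have hAu : ∀ x ∈ A, x ∈ closedBall (0 : ℂ) 1 → u x = c := by
    rintro x ⟨a, ha, rfl⟩ _
    exact a.2.2
  obtain ⟨δ, hδ, hsg⟩ := h.signs hu hz hzc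
  rcases hsg with hsg | hsg
  · exact no_single hu hA hB hAB hZ hz hzA hAs hAu hδ (fun t h0 h1 => (hsg t h0 h1).1)
      (fun t h0 h1 => (hsg t h0 h1).2)
  · refine no_single (u := fun x => - u x) (c := -c) hu.neg hA hB hAB ?_ hz hzA hAs ?_ hδ
      (fun t h0 h1 => ?_) (fun t h0 h1 => ?_)
    · intro x hx hxc
      exact hZ x hx (by have : -u x = -c := hxc; linarith)
    · intro x hx hxD
      have := hAu x hx hxD
      change -u x = -c; linarith
    · have := (hsg t h0 h1).1
      change -c < -u _; linarith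
    · have := (hsg t h0 h1).2
      change -u _ < -c; linarith

/-- **(D), disc form.** -/
theorem existsUnique_partner {u : ℂ → ℝ} (hu : ContinuousOn u (closedBall 0 1)) {c : ℝ}
    (hc : c ∉ Bad u) (h : RegOn u (sphere 0 1) c) {z : ℂ} (hz : ‖z‖ = 1) (hzc : u z = c) :
    ∃! w, w ≠ z ∧ ‖w‖ = 1 ∧ w ∈ connectedComponentIn (Z u c) z := by
  obtain ⟨w, h1, h2, h3⟩ := exists_partner hu h hz hzc
  refine ⟨w, ⟨h1, h2, h3⟩, ?_⟩
  rintro w' ⟨h4, h5, h6⟩
  by_contra hne
  exact hc ⟨z, ⟨by rw [mem_closedBall_zero_iff, hz], hzc⟩, w, h3, w', h6, hz, h2, h5, h1.symm,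
    h4.symm, fun h => hne h.symm⟩

/-- components through interlaced pairs of boundary points coincide (levels `c`, `c'`) -/
theorem noncross {u : ℂ → ℝ} (hu : ContinuousOn u (closedBall 0 1)) {c c' : ℝ} {x y : ℂ}
    {a b d e : ℝ} (hab : a < b) (hbd : b < d) (hde : d < e) (hea : e < a + 2 * Real.pi)
    (h1 : exp ((a : ℝ) * I) ∈ connectedComponentIn (Z u c) x)
    (h2 : exp ((d : ℝ) * I) ∈ connectedComponentIn (Z u c) x)
    (h3 : exp ((b : ℝ) * I) ∈ connectedComponentIn (Z u c') y)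
    (h4 : exp ((e : ℝ) * I) ∈ connectedComponentIn (Z u c') y) :
    c = c' ∧ connectedComponentIn (Z u c) x = connectedComponentIn (Z u c') y := by
  have hD : ∀ c x, connectedComponentIn (Z u c) x ⊆ closedBall 0 1 := fun c x w hw =>
    (connectedComponentIn_subset _ _ hw).1
  obtain ⟨w, hw, hw'⟩ := crossing_disc isPreconnected_connectedComponentIn
    isPreconnected_connectedComponentIn
    (isCompact_connectedComponentIn (isCompact_Z hu c) x)
    (isCompact_connectedComponentIn (isCompact_Z hu c') y) (hD c x) (hD c' y)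
    hab hbd hde hea h1 h2 h3 h4
  have e1 := (connectedComponentIn_subset _ _ hw).2
  have e2 := (connectedComponentIn_subset _ _ hw').2
  have hcc : c = c' := e1.symm.trans e2
  subst hcc
  exact ⟨rfl, (connectedComponentIn_eq hw).trans (connectedComponentIn_eq hw').symm⟩

end Crest.Agent.R096.Pat4_543
end

-- ▼ part R096/Pat5_543

/-! # Faces: components of a regular level in a topological disc (row 96, helper543) -/

set_option autoImplicit false

open Set Complex Filter Topology Metric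

namespace Crest.Agent.R096.Pat5_543

open Crest.Agent.R096.Pat3_543 Crest.Agent.R096.Pat4_543

variable {X : Type*} [TopologicalSpace X] [T2Space X]

/-- `F` is a closed topological disc with boundary loop `C`, parametrised by `e`. -/
structure IsDisc (e : ℂ → X) (F C : Set X) : Prop where
  cont : ContinuousOn e (closedBall 0 1)
  inj : InjOn e (closedBall 0 1)
  img : e '' closedBall 0 1 = F
  bd : e '' sphere 0 1 = C

/-- bad levels of `u` on a disc `F`: some component of the level has three boundary points -/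
def BadF (u : X → ℝ) (F C : Set X) : Set ℝ :=
  {c | ∃ x₁ ∈ C, ∃ x₂ ∈ C, ∃ x₃ ∈ C, x₁ ≠ x₂ ∧ x₁ ≠ x₃ ∧ x₂ ≠ x₃ ∧ u x₁ = c ∧
    x₂ ∈ connectedComponentIn {x | x ∈ F ∧ u x = c} x₁ ∧
    x₃ ∈ connectedComponentIn {x | x ∈ F ∧ u x = c} x₁}

namespace IsDisc

variable {e : ℂ → X} {F C : Set X} (h : IsDisc e F C)
include h

theorem bd_subset : C ⊆ F := by
  rw [← h.bd, ← h.img]; exact image_mono sphere_subset_closedBall

theorem contComp {u : X → ℝ} (hu : ContinuousOn u F) :
    ContinuousOn (fun z => u (e z)) (closedBall 0 1) := by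
  refine hu.comp h.cont ?_
  intro z hz
  rw [← h.img]; exact mem_image_of_mem e hz

/-- preconnected subsets of `F` pull back -/
theorem preconn {K : Set X} (hK : IsPreconnected K) (hKF : K ⊆ F) :
    IsPreconnected {z | z ∈ closedBall (0 : ℂ) 1 ∧ e z ∈ K} := by
  have hcomp : CompactSpace (closedBall (0 : ℂ) 1) :=
    isCompact_iff_compactSpace.1 (isCompact_closedBall _ _)
  set eD : closedBall (0 : ℂ) 1 → X := fun z => e z with heD
  have hc : Continuous eD := continuousOn_iff_continuous_restrict.1 h.cont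
  have hi : Function.Injective eD := by
    intro a b hab
    exact Subtype.ext (h.inj a.2 b.2 hab)
  have hemb : IsClosedEmbedding eD := hc.isClosedEmbedding hi
  have h1 : eD '' (eD ⁻¹' K) = K := by
    rw [image_preimage_eq_inter_range]
    have : range eD = F := by
      rw [← h.img]
      ext y
      constructor
      · rintro ⟨z, rfl⟩; exact ⟨z, z.2, rfl⟩
      · rintro ⟨z, hz, rfl⟩; exact ⟨⟨z, hz⟩, rfl⟩
    rw [this]
    exact inter_eq_left.2 hKF
  have h2 : IsPreconnected (eD ⁻¹' K) := by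
    rw [← hemb.isInducing.isPreconnected_image, h1]; exact hK
  have h3 := h2.image (Subtype.val) continuous_subtype_val.continuousOn
  have h4 : Subtype.val '' (eD ⁻¹' K) = {z | z ∈ closedBall (0 : ℂ) 1 ∧ e z ∈ K} := by
    ext z
    constructor
    · rintro ⟨w, hw, rfl⟩; exact ⟨w.2, hw⟩
    · rintro ⟨hz, hw⟩; exact ⟨⟨z, hz⟩, hw, rfl⟩
  rwa [h4] at h3

theorem image_Z (u : X → ℝ) (c : ℝ) :
    e '' Z (fun z => u (e z)) c = {x | x ∈ F ∧ u x = c} := by
  ext x
  constructor
  · rintro ⟨z, ⟨hz, hc⟩, rfl⟩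
    exact ⟨by rw [← h.img]; exact mem_image_of_mem e hz, hc⟩
  · rintro ⟨hx, hc⟩
    rw [← h.img] at hx
    obtain ⟨z, hz, rfl⟩ := hx
    exact ⟨z, ⟨hz, hc⟩, rfl⟩

/-- components correspond -/
theorem mem_component_iff (u : X → ℝ) (c : ℝ) {z w : ℂ} (hz : z ∈ closedBall (0 : ℂ) 1)
    (hzc : u (e z) = c) (hw : w ∈ closedBall (0 : ℂ) 1) :
    e w ∈ connectedComponentIn {x | x ∈ F ∧ u x = c} (e z) ↔
      w ∈ connectedComponentIn (Z (fun z => u (e z)) c) z := by
  have hzZ : z ∈ Z (fun z => u (e z)) c := ⟨hz, hzc⟩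
  have hezF : e z ∈ F := by rw [← h.img]; exact mem_image_of_mem e hz
  constructor
  · intro h1
    have hK := h.preconn (isPreconnected_connectedComponentIn
      (F := {x | x ∈ F ∧ u x = c}) (x := e z))
      (fun x hx => (connectedComponentIn_subset _ _ hx).1)
    have hsub := hK.subset_connectedComponentIn (F := Z (fun z => u (e z)) c) (x := z)
      ⟨hz, mem_connectedComponentIn ⟨hezF, hzc⟩⟩
      (fun y hy => ⟨hy.1, (connectedComponentIn_subset _ _ hy.2).2⟩)
    exact hsub ⟨hw, h1⟩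
  · intro h1
    have hcont : ContinuousOn e (connectedComponentIn (Z (fun z => u (e z)) c) z) :=
      h.cont.mono fun y hy => (connectedComponentIn_subset _ _ hy).1
    have h2 := isPreconnected_connectedComponentIn.image e hcont
    have hsub := h2.subset_connectedComponentIn (F := {x | x ∈ F ∧ u x = c}) (x := e z)
      (mem_image_of_mem e (mem_connectedComponentIn hzZ))
      (by
        rintro _ ⟨y, hy, rfl⟩
        have := connectedComponentIn_subset _ _ hy
        exact ⟨by rw [← h.img]; exact mem_image_of_mem e this.1, this.2⟩)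
    exact hsub (mem_image_of_mem e h1)

theorem badF_subset (u : X → ℝ) : BadF u F C ⊆ Bad (fun z => u (e z)) := by
  rintro c ⟨x₁, h1, x₂, h2, x₃, h3, h12, h13, h23, hc, m2, m3⟩
  rw [← h.bd] at h1 h2 h3
  obtain ⟨z₁, hz1, rfl⟩ := h1
  obtain ⟨z₂, hz2, rfl⟩ := h2
  obtain ⟨z₃, hz3, rfl⟩ := h3
  have d1 := sphere_subset_closedBall hz1
  have d2 := sphere_subset_closedBall hz2
  have d3 := sphere_subset_closedBall hz3
  exact ⟨z₁, ⟨d1, hc⟩, z₂, (h.mem_component_iff u c d1 hc d2).1 m2, z₃,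
    (h.mem_component_iff u c d1 hc d3).1 m3, mem_sphere_zero_iff_norm.1 hz1,
    mem_sphere_zero_iff_norm.1 hz2, mem_sphere_zero_iff_norm.1 hz3,
    fun g => h12 (by rw [g]), fun g => h13 (by rw [g]), fun g => h23 (by rw [g])⟩

/-- **(C), face form**: the bad levels are countable. -/
theorem countable_badF {u : X → ℝ} (hu : ContinuousOn u F) : (BadF u F C).Countable :=
  (countable_bad (h.contComp hu)).mono (h.badF_subset u)

/-- regular levels transport to the circle -/
theorem reg {u : X → ℝ} {c : ℝ} (hr : RegOn u C c) :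
    RegOn (fun z => u (e z)) (sphere 0 1) c := by
  have hinjS : InjOn e (sphere (0 : ℂ) 1) := h.inj.mono sphere_subset_closedBall
  -- closures transport
  have key : ∀ (P : X → Prop) (z : ℂ), z ∈ sphere (0 : ℂ) 1 →
      e z ∈ closure {y | y ∈ C ∧ P y} → z ∈ closure {w | w ∈ sphere (0 : ℂ) 1 ∧ P (e w)} := by
    intro P z hz hcl
    have hcomp : IsCompact (closure {w | w ∈ sphere (0 : ℂ) 1 ∧ P (e w)}) := by
      refine (isCompact_sphere (0 : ℂ) 1).of_isClosed_subset isClosed_closure ?_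
      exact closure_minimal (fun w hw => hw.1) isClosed_sphere
    have hsubS : closure {w | w ∈ sphere (0 : ℂ) 1 ∧ P (e w)} ⊆ sphere (0 : ℂ) 1 :=
      closure_minimal (fun w hw => hw.1) isClosed_sphere
    have himg : IsClosed (e '' closure {w | w ∈ sphere (0 : ℂ) 1 ∧ P (e w)}) := by
      refine (hcomp.image_of_continuousOn (h.cont.mono ?_)).isClosed
      exact hsubS.trans sphere_subset_closedBall
    have hsub : {y | y ∈ C ∧ P y} ⊆ e '' closure {w | w ∈ sphere (0 : ℂ) 1 ∧ P (e w)} := by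
      rintro y ⟨hy, hP⟩
      rw [← h.bd] at hy
      obtain ⟨w, hw, rfl⟩ := hy
      exact ⟨w, subset_closure ⟨hw, hP⟩, rfl⟩
    obtain ⟨w, hw, hwz⟩ := closure_minimal hsub himg hcl
    have : w = z := hinjS (hsubS hw) hz hwz
    rwa [this] at hw
  constructor
  · have h1 : (e '' {x | x ∈ sphere (0 : ℂ) 1 ∧ u (e x) = c}).Finite := by
      refine hr.fin.subset ?_
      rintro _ ⟨x, ⟨hx, hc⟩, rfl⟩
      exact ⟨by rw [← h.bd]; exact mem_image_of_mem e hx, hc⟩
    exact h1.of_finite_image (hinjS.mono fun x hx => hx.1)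
  · intro x hx hc
    exact key (fun y => c < u y) x hx
      (hr.up (e x) (by rw [← h.bd]; exact mem_image_of_mem e hx) hc)
  · intro x hx hc
    exact key (fun y => u y < c) x hx
      (hr.down (e x) (by rw [← h.bd]; exact mem_image_of_mem e hx) hc)

/-- **(D), face form**: at a regular level outside the countable set `BadF` every boundary point
of the level has exactly one partner: the other boundary point of its component. -/
theorem existsUnique_partner {u : X → ℝ} (hu : ContinuousOn u F) {c : ℝ}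
    (hc : c ∉ BadF u F C) (hr : RegOn u C c) {p : X} (hp : p ∈ C) (hpc : u p = c) :
    ∃! q, q ≠ p ∧ q ∈ C ∧ q ∈ connectedComponentIn {x | x ∈ F ∧ u x = c} p := by
  have hp' := hp
  rw [← h.bd] at hp'
  obtain ⟨z, hz, rfl⟩ := hp'
  have hzD := sphere_subset_closedBall hz
  obtain ⟨w, h1, h2, h3⟩ := exists_partner (h.contComp hu) (h.reg hr)
    (mem_sphere_zero_iff_norm.1 hz) hpc
  have hwS : w ∈ sphere (0 : ℂ) 1 := mem_sphere_zero_iff_norm.2 h2
  have hwD := sphere_subset_closedBall hwS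
  have hm := (h.mem_component_iff u c hzD hpc hwD).2 h3
  have hwC : e w ∈ C := by rw [← h.bd]; exact mem_image_of_mem e hwS
  have hne : e w ≠ e z := fun g => h1 (h.inj hwD hzD g)
  refine ⟨e w, ⟨hne, hwC, hm⟩, ?_⟩
  rintro q ⟨g1, g2, g3⟩
  by_contra hne2
  exact hc ⟨e z, hp, e w, hwC, q, g2, hne.symm, g1.symm, fun g => hne2 g.symm, hpc, hm, g3⟩

/-- two points of the boundary joined in the level: the relation is symmetric, and the number of
boundary points of a component is 0 or 2 -/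
theorem ncard_component {u : X → ℝ} (hu : ContinuousOn u F) {c : ℝ}
    (hc : c ∉ BadF u F C) (hr : RegOn u C c) {x : X} :
    (connectedComponentIn {x | x ∈ F ∧ u x = c} x ∩ C).ncard = 0 ∨
      (connectedComponentIn {x | x ∈ F ∧ u x = c} x ∩ C).ncard = 2 := by
  rcases (connectedComponentIn {x | x ∈ F ∧ u x = c} x ∩ C).eq_empty_or_nonempty with he | he
  · left; rw [he]; simp
  · right
    obtain ⟨p, hp, hpC⟩ := he
    have hpc : u p = c := (connectedComponentIn_subset _ _ hp).2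
    rw [connectedComponentIn_eq hp]
    obtain ⟨q, ⟨h1, h2, h3⟩, huniq⟩ := h.existsUnique_partner hu hc hr hpC hpc
    have hpp : p ∈ connectedComponentIn {x | x ∈ F ∧ u x = c} p :=
      mem_connectedComponentIn ⟨h.bd_subset hpC, hpc⟩
    have : connectedComponentIn {x | x ∈ F ∧ u x = c} p ∩ C = {p, q} := by
      ext y
      constructor
      · rintro ⟨hy, hyC⟩
        by_cases hyp : y = p
        · exact Or.inl hyp
        · exact Or.inr (huniq y ⟨hyp, hyC, hy⟩)
      · rintro (rfl | hy)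
        · exact ⟨hpp, hpC⟩
        · rw [mem_singleton_iff] at hy
          rw [hy]; exact ⟨h3, h2⟩
    rw [this, ncard_pair h1.symm]

end IsDisc

/-- every compact convex set with nonempty interior of a plane is a disc -/
theorem exists_isDisc {V : Type*} [NormedAddCommGroup V] [NormedSpace ℝ V]
    [FiniteDimensional ℝ V] (hV : Module.finrank ℝ V = 2) {S : Set V} (hS : Convex ℝ S)
    (hc : IsCompact S) (hne : (interior S).Nonempty) :
    ∃ e : ℂ ≃ₜ V, e '' closedBall 0 1 = S ∧ e '' sphere 0 1 = frontier S ∧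
      IsDisc e S (frontier S) := by
  have hfr : Module.finrank ℝ ℂ = Module.finrank ℝ V := by
    rw [hV, Complex.finrank_real_complex]
  let L : ℂ ≃L[ℝ] V := ContinuousLinearEquiv.ofFinrankEq hfr
  set T : Set V := L '' closedBall 0 1 with hT
  have hTc : Convex ℝ T := (convex_closedBall (0 : ℂ) 1).linear_image (L : ℂ →ₗ[ℝ] V)
  have hTi : interior T = L '' ball 0 1 := by
    have := L.toHomeomorph.image_interior (closedBall (0 : ℂ) 1)
    rw [interior_closedBall (0 : ℂ) one_ne_zero] at this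
    exact this.symm
  have hTne : (interior T).Nonempty := by
    rw [hTi]; exact ⟨L 0, 0, by simp, rfl⟩
  have hTcl : IsClosed T :=
    ((isCompact_closedBall (0 : ℂ) 1).image L.continuous).isClosed
  have hTb : Bornology.IsVonNBounded ℝ T := by
    refine NormedSpace.isVonNBounded_of_isBounded _ ?_
    exact ((isCompact_closedBall (0 : ℂ) 1).image L.continuous).isBounded
  have hTf : frontier T = L '' sphere 0 1 := by
    have := L.toHomeomorph.image_frontier (closedBall (0 : ℂ) 1)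
    rw [frontier_closedBall (0 : ℂ) one_ne_zero] at this
    exact this.symm
  obtain ⟨g, -, g2, g3⟩ := exists_homeomorph_image_eq hTc hTne hTb hS hne
    (NormedSpace.isVonNBounded_of_isBounded _ hc.isBounded)
  rw [hTcl.closure_eq, hc.isClosed.closure_eq] at g2
  rw [hTf] at g3
  let e : ℂ ≃ₜ V := L.toHomeomorph.trans g
  have e1 : e '' closedBall 0 1 = S := by
    rw [← g2, hT, image_image]; rfl
  have e2 : e '' sphere 0 1 = frontier S := by
    rw [← g3, image_image]; rfl
  exact ⟨e, e1, e2, ⟨e.continuous.continuousOn, e.injective.injOn, e1, e2⟩⟩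

/-- images of discs under maps that are continuous and injective on them -/
theorem IsDisc.map {Y : Type*} [TopologicalSpace Y] [T2Space Y] {e : ℂ → X} {F C : Set X}
    (h : IsDisc e F C) {g : X → Y} (hg : ContinuousOn g F) (hgi : InjOn g F) :
    IsDisc (fun z => g (e z)) (g '' F) (g '' C) where
  cont := hg.comp h.cont (by intro z hz; rw [← h.img]; exact mem_image_of_mem e hz)
  inj := by
    intro z hz w hw hzw
    refine h.inj hz hw (hgi ?_ ?_ hzw)
    · rw [← h.img]; exact mem_image_of_mem e hz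
    · rw [← h.img]; exact mem_image_of_mem e hw
  img := by rw [← h.img, image_image]
  bd := by rw [← h.bd, image_image]

end Crest.Agent.R096.Pat5_543
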