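import Crest.Agent.R096.Xp8_537
import Crest.Agent.R096.Pb1_715
import Crest.Agent.R096.Ar1_241

-- ▼ part R096/Ar2_241
section

/-!
# R096 (row 96), ARR part 2 (helper241): the conic decomposition at a barycentre

For a convex cell complex `C : CC Λ Q` of an open set `Λ`: `dirW C q` = span of `cell q - b q`
(every direction of it is absorbed by the cell), and every vector `w` is uniquely
`u + ∑ l r • (b r - b q)`, `u ∈ dirW`, `l ≥ 0` supported on a chain of cells `r > q`
(`exists_rep`, `rep_uniq`).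
-/

set_option autoImplicit false
set_option linter.unusedSectionVars false
set_option linter.unusedVariables false

open Set Metric Topology

namespace Crest.Agent.R096.Ar_241

open Crest.Agent.R096.Xp_537

variable {E : Type*} [NormedAddCommGroup E] [NormedSpace ℝ E]
  {Q : Type*} [PartialOrder Q] {Λ : Set E}

lemma segA {a b c : E} {w : ℝ} : (1 - w) • (a + b) + w • (a + c) = a + ((1 - w) • b + w • c) := by
  module

/-- near the barycentre all cells are above `q` -/
lemma exists_near (C : CC Λ Q) (hΛ : IsOpen Λ) (q : Q) :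
    ∃ r > (0:ℝ), ball (C.b q) r ⊆ Λ ∧ ∀ y ∈ ball (C.b q) r, ∀ ρ, y ∈ C.cell ρ → q ≤ ρ := by
  have hb : C.b q ∈ Λ := C.sub q (C.bmem q)
  obtain ⟨r0, hr0, h0⟩ := Metric.isOpen_iff.1 hΛ _ hb
  obtain ⟨r1, hr1, hf⟩ := C.lf _ hb
  set S : Set Q := {ρ | (C.cell ρ ∩ ball (C.b q) r1).Nonempty} with hS
  have hfin : (S ∩ {ρ | ¬ q ≤ ρ}).Finite := hf.subset inter_subset_left
  have hcl : IsClosed (⋃ ρ ∈ S ∩ {ρ | ¬ q ≤ ρ}, C.cell ρ) :=
    hfin.isClosed_biUnion fun ρ _ => (C.cpt ρ).isClosed
  have hnot : C.b q ∉ ⋃ ρ ∈ S ∩ {ρ | ¬ q ≤ ρ}, C.cell ρ := by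
    intro h
    obtain ⟨ρ, hρ, hx⟩ := mem_iUnion₂.1 h
    exact hρ.2 (C.le_of_b hx)
  obtain ⟨r2, hr2, h2⟩ := Metric.isOpen_iff.1 hcl.isOpen_compl _ hnot
  refine ⟨min r0 (min r1 r2), lt_min hr0 (lt_min hr1 hr2),
    (ball_subset_ball (min_le_left _ _)).trans h0, fun y hy ρ hρ => ?_⟩
  by_contra hq
  have hy1 : y ∈ ball (C.b q) r1 :=
    ball_subset_ball ((min_le_right _ _).trans (min_le_left _ _)) hy
  have hy2 : y ∈ ball (C.b q) r2 :=
    ball_subset_ball ((min_le_right _ _).trans (min_le_right _ _)) hy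
  exact h2 hy2 (mem_biUnion (show ρ ∈ S ∩ {ρ | ¬ q ≤ ρ} from ⟨⟨y, hρ, hy1⟩, hq⟩) hρ)

/-- a proper face does not meet the open segments from an open cell to the cell -/
lemma face_seg (C : CC Λ Q) {ρ : Q} {z y : E} (hz : z ∈ C.cell ρ) (hzo : ∀ p < ρ, z ∉ C.cell p)
    (hy : y ∈ C.cell ρ) {s : ℝ} (hs0 : 0 ≤ s) (hs1 : s < 1) :
    ∀ p < ρ, (1 - s) • z + s • y ∉ C.cell p := by
  intro p hp hx
  -- `z = (1 - w) z' + w b`, `w > 0`
  obtain ⟨z', hz', w, hw0, hw1, hzw⟩ : ∃ z' ∈ C.cell ρ, ∃ w : ℝ, 0 < w ∧ w ≤ 1 ∧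
      z = (1 - w) • z' + w • C.b ρ := by
    rcases C.rad ρ z hz with h | ⟨p', hp', y', hy', w, hw, h⟩
    · exact ⟨z, hz, 1, one_pos, le_rfl, by rw [h]; simp⟩
    · refine ⟨y', C.mono hp' hy', w, lt_of_le_of_ne hw.1 ?_, hw.2.le, h⟩
      rintro rfl
      apply hzo p' hp'
      rw [h]
      simpa using hy'
  set c : ℝ := (1 - s) * w with hc
  have hc0 : 0 < c := mul_pos (by linarith) hw0
  have hc1 : c ≤ 1 := by
    have : (1 - s) * w ≤ 1 * 1 := mul_le_mul (by linarith) hw1 hw0.le zero_le_one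
    simpa using this
  -- the point is `(1 - c) y1 + c b`
  obtain ⟨y1, hy1, h1⟩ : ∃ y1 ∈ C.cell ρ, (1 - s) • z + s • y = (1 - c) • y1 + c • C.b ρ := by
    rcases hc1.lt_or_eq with hlt | heq
    · refine ⟨(1 - c)⁻¹ • (((1 - s) * (1 - w)) • z' + s • y), ?_, ?_⟩
      · have h2 : (1 - c)⁻¹ • (((1 - s) * (1 - w)) • z' + s • y) =
            ((1 - c)⁻¹ * ((1 - s) * (1 - w))) • z' + ((1 - c)⁻¹ * s) • y := by module
        rw [h2]
        have h3 : 0 < 1 - c := by linarith
        refine C.conv ρ hz' hy ?_ ?_ ?_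
        · exact mul_nonneg (inv_nonneg.2 h3.le) (mul_nonneg (by linarith) (by linarith))
        · exact mul_nonneg (inv_nonneg.2 h3.le) hs0
        · rw [← mul_add, inv_mul_eq_div, div_eq_one_iff_eq h3.ne']
          rw [hc]; ring
      · have h3 : (1 - c) ≠ 0 := by linarith
        rw [smul_smul, mul_inv_cancel₀ h3, one_smul, hzw, hc]
        module
    · have hs : s = 0 := by
        by_contra hne
        have : 0 < s := lt_of_le_of_ne hs0 (Ne.symm hne)
        have : (1 - s) * w < 1 := by nlinarith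
        linarith
      have hw : w = 1 := by rw [hs] at hc; linarith
      refine ⟨y, hy, ?_⟩
      rw [hzw, heq, hs, hw]
      module
  -- contradiction with radial uniqueness
  obtain ⟨y2, p2, hp2, hy2, c2, hc2, h2⟩ : ∃ y2 : E, ∃ p2, p2 < ρ ∧ y2 ∈ C.cell p2 ∧
      ∃ c2 : ℝ, c2 ∈ Ioo (0:ℝ) 1 ∧ (1 - s) • z + s • y = (1 - c2) • y2 + c2 • C.b ρ := by
    rcases C.rad ρ y1 hy1 with h | ⟨p', hp', y', hy', w', hw', h⟩
    · exfalso
      rw [h1, h] at hx
      have : (1 - c) • C.b ρ + c • C.b ρ = C.b ρ := by module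
      rw [this] at hx
      exact C.b_notMem hp hx
    · rcases hc1.lt_or_eq with hlt | heq
      · refine ⟨y', p', hp', hy', c + (1 - c) * w', ⟨?_, ?_⟩, ?_⟩
        · have := mul_nonneg (sub_nonneg.2 hc1) hw'.1
          linarith
        · have : (1 - c) * w' < (1 - c) * 1 := mul_lt_mul_of_pos_left hw'.2 (by linarith)
          linarith
        · rw [h1, h]; module
      · exfalso
        rw [h1, heq] at hx
        have : (1 - (1:ℝ)) • y1 + (1:ℝ) • C.b ρ = C.b ρ := by module
        rw [this] at hx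
        exact C.b_notMem hp hx
  have h3 : (1 - (0:ℝ)) • ((1 - s) • z + s • y) + (0:ℝ) • C.b ρ = (1 - c2) • y2 + c2 • C.b ρ := by
    rw [← h2]; module
  have h4 := (C.rad_uniq hp hp2 hx hy2 ⟨le_rfl, one_pos⟩ ⟨hc2.1.le, hc2.2⟩ h3).2
  exact hc2.1.ne h4

/-- the direction space of a cell -/
def dirW (C : CC Λ Q) (q : Q) : Submodule ℝ E :=
  Submodule.span ℝ ((fun y => y - C.b q) '' C.cell q)

lemma abs_mono (C : CC Λ Q) {q : Q} {v : E} {τ τ' : ℝ} (h : C.b q + τ • v ∈ C.cell q)
    (h0 : 0 < τ) (h1 : 0 ≤ τ') (h2 : τ' ≤ τ) : C.b q + τ' • v ∈ C.cell q := by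
  have h3 := C.conv q (C.bmem q) h (a := 1 - τ' / τ) (b := τ' / τ)
    (sub_nonneg.2 ((div_le_one h0).2 h2)) (div_nonneg h1 h0.le) (by ring)
  have h4 : (1 - τ' / τ) • C.b q + (τ' / τ) • (C.b q + τ • v) = C.b q + τ' • v := by
    have : (τ' / τ) * τ = τ' := div_mul_cancel₀ _ h0.ne'
    calc _ = C.b q + ((τ' / τ) * τ) • v := by module
      _ = _ := by rw [this]
  rwa [h4] at h3

lemma exists_smul_near {x v : E} {r : ℝ} (hr : 0 < r) : ∃ τ0 > (0:ℝ), ∀ τ, 0 ≤ τ → τ ≤ τ0 →
    x + τ • v ∈ ball x r := by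
  refine ⟨r / (2 * (‖v‖ + 1)), by positivity, fun τ h0 h1 => ?_⟩
  rw [mem_ball, dist_eq_norm, add_sub_cancel_left, norm_smul, Real.norm_eq_abs, abs_of_nonneg h0]
  have h2 : 0 < ‖v‖ + 1 := by positivity
  have h3 : τ * (2 * (‖v‖ + 1)) ≤ r := by rwa [le_div_iff₀ (by positivity)] at h1
  nlinarith [norm_nonneg v]

/-- the opposite direction is absorbed as well -/
lemma abs_neg (C : CC Λ Q) (hΛ : IsOpen Λ) {q : Q} {v : E} {τ : ℝ} (h0 : 0 < τ)
    (h : C.b q + τ • v ∈ C.cell q) : ∃ τ' > (0:ℝ), C.b q + τ' • (-v) ∈ C.cell q := by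
  obtain ⟨r, hr, hsub, hup⟩ := exists_near C hΛ q
  obtain ⟨t, ht, hball⟩ := exists_smul_near (x := C.b q) (v := -v) hr
  have h1 := hball t ht.le le_rfl
  obtain ⟨ρ0, hρ0⟩ := C.cover _ (hsub h1)
  obtain ⟨ρ, -, hρ, hρo⟩ := C.exists_opn hρ0
  have hle := hup _ h1 ρ hρ
  rcases hle.eq_or_lt with rfl | hlt
  · exact ⟨t, ht, hρ⟩
  · exfalso
    -- `b q` is between `b q - t v` (open cell `ρ`) and `b q + τ v`
    have hy : C.b q + τ • v ∈ C.cell ρ := C.mono hlt h
    have hs : t / (t + τ) < 1 := by rw [div_lt_one (by positivity)]; linarith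
    have h2 := face_seg C hρ hρo hy (s := t / (t + τ)) (by positivity) hs q hlt
    apply h2
    have h3 : (1 - t / (t + τ)) • (C.b q + t • -v) + (t / (t + τ)) • (C.b q + τ • v) = C.b q := by
      have e1 : (1 - t / (t + τ)) * t = (t / (t + τ)) * τ := by field_simp; ring
      calc _ = C.b q + (((t / (t + τ)) * τ) - ((1 - t / (t + τ)) * t)) • v := by module
        _ = _ := by rw [e1]; simp
    rw [h3]
    exact C.bmem q

/-- every direction of the cell is absorbed -/
lemma absorb (C : CC Λ Q) (hΛ : IsOpen Λ) {q : Q} {v : E} (hv : v ∈ dirW C q) :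
    ∃ τ0 > (0:ℝ), ∀ τ, 0 ≤ τ → τ ≤ τ0 → C.b q + τ • v ∈ C.cell q := by
  have key : ∃ τ > (0:ℝ), C.b q + τ • v ∈ C.cell q := by
    unfold dirW at hv
    induction hv using Submodule.span_induction with
    | mem x hx =>
      obtain ⟨y, hy, rfl⟩ := hx
      exact ⟨1, one_pos, by simpa using hy⟩
    | zero => exact ⟨1, one_pos, by simpa using C.bmem q⟩
    | add x y _ _ ihx ihy =>
      obtain ⟨τ1, h1, m1⟩ := ihx
      obtain ⟨τ2, h2, m2⟩ := ihy
      have hm : 0 < min τ1 τ2 := lt_min h1 h2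
      have n1 := abs_mono C m1 h1 hm.le (min_le_left _ _)
      have n2 := abs_mono C m2 h2 hm.le (min_le_right _ _)
      refine ⟨min τ1 τ2 / 2, by positivity, ?_⟩
      have h3 := C.conv q n1 n2 (a := 1 / 2) (b := 1 / 2) (by norm_num) (by norm_num) (by norm_num)
      convert h3 using 1
      module
    | smul a x _ ih =>
      obtain ⟨τ, h, m⟩ := ih
      rcases lt_trichotomy a 0 with ha | ha | ha
      · obtain ⟨τ', h', m'⟩ := abs_neg C hΛ h m
        refine ⟨τ' / (-a), div_pos h' (by linarith), ?_⟩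
        convert m' using 2
        rw [smul_smul, smul_neg]
        have : τ' / -a * a = -τ' := by rw [div_neg, neg_mul, div_mul_cancel₀ _ ha.ne]
        rw [this]; module
      · exact ⟨1, one_pos, by simpa [ha] using C.bmem q⟩
      · refine ⟨τ / a, div_pos h ha, ?_⟩
        convert m using 2
        rw [smul_smul, div_mul_cancel₀ _ ha.ne']
  obtain ⟨τ, h, m⟩ := key
  exact ⟨τ, h, fun τ' h0 h1 => abs_mono C m h h0 h1⟩

lemma sub_mem_dirW (C : CC Λ Q) {q : Q} {y : E} (hy : y ∈ C.cell q) : y - C.b q ∈ dirW C q :=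
  Submodule.subset_span ⟨y, hy, rfl⟩

/-- the cells above `q` -/
abbrev Up (q : Q) : Type _ := {r : Q // q < r}

lemma finite_up (C : CC Λ Q) (q : Q) : Finite (Up q) := by
  have h := C.finite_meet (T := {C.b q}) isCompact_singleton
    (by simpa using C.sub q (C.bmem q))
  refine (h.subset ?_ : {r : Q | q < r}.Finite).to_subtype
  intro r hr
  exact ⟨C.b q, C.mono hr (C.bmem q), rfl⟩

/-- weights on chains -/
structure Chn {I : Type*} [PartialOrder I] (l : I → ℝ) : Prop where
  nn : ∀ i, 0 ≤ l i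
  ch : ∀ i j, l i ≠ 0 → l j ≠ 0 → i ≤ j ∨ j ≤ i

lemma chn_zero {I : Type*} [PartialOrder I] : Chn (0 : I → ℝ) :=
  ⟨fun _ => le_rfl, fun _ _ h => absurd rfl h⟩

section rep

variable (C : CC Λ Q) (hΛ : IsOpen Λ) (q : Q)

/-- the directions -/
def β (i : Up q) : E := C.b i.1 - C.b q

open Classical in
/-- **existence of the conic representation** -/
lemma exists_rep_cell [Fintype (Up q)] : ∀ {ρ : Q}, q ≤ ρ → ∀ y ∈ C.cell ρ, ∃ u ∈ dirW C q,
    ∃ l : Up q → ℝ, Chn l ∧ (∀ i, l i ≠ 0 → i.1 ≤ ρ) ∧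
      y - C.b q = u + ∑ i, l i • β C q i := by
  intro ρ
  induction hd : C.dim ρ using Nat.strong_induction_on generalizing ρ with
  | _ d ih =>
    intro hle y hy
    rcases hle.eq_or_lt with rfl | hlt
    · exact ⟨y - C.b q, sub_mem_dirW C hy, 0, chn_zero, by simp, by simp⟩
    -- radius
    obtain ⟨r, hr, hrad⟩ : ∃ r > (0:ℝ), ∀ p < ρ, ¬ q ≤ p → ∀ y' ∈ C.cell p, ∀ w ∈ Ico (0:ℝ) 1,
        (1 - w) • y' + w • C.b ρ ∉ ball (C.b q) r := by
      have hfin : {p | p ≤ ρ}.Finite := C.finite_le ρ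
      have hfin2 : ({p | p < ρ ∧ ¬ q ≤ p} : Set Q).Finite := hfin.subset fun p hp => hp.1.le
      have hcomp : ∀ p, IsCompact ((fun z : E × ℝ => (1 - z.2) • z.1 + z.2 • C.b ρ) ''
          (C.cell p ×ˢ Icc (0:ℝ) 1)) := fun p =>
        ((C.cpt p).prod isCompact_Icc).image (by fun_prop)
      have hcl : IsClosed (⋃ p ∈ {p | p < ρ ∧ ¬ q ≤ p},
          ((fun z : E × ℝ => (1 - z.2) • z.1 + z.2 • C.b ρ) '' (C.cell p ×ˢ Icc (0:ℝ) 1))) :=
        hfin2.isClosed_biUnion fun p _ => (hcomp p).isClosed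
      have hnot : C.b q ∉ ⋃ p ∈ {p | p < ρ ∧ ¬ q ≤ p},
          ((fun z : E × ℝ => (1 - z.2) • z.1 + z.2 • C.b ρ) '' (C.cell p ×ˢ Icc (0:ℝ) 1)) := by
        intro h
        obtain ⟨p, hp, ⟨⟨y', w⟩, ⟨hy', hw⟩, he⟩⟩ := mem_iUnion₂.1 h
        simp only at hy' hw he
        rcases hw.2.lt_or_eq with hw1 | hw1
        · have h1 : (1 - w) • y' + w • C.b ρ = (1 - (0:ℝ)) • C.b q + (0:ℝ) • C.b ρ := by
            rw [he]; module
          have h2 := (C.rad_uniq hp.1 hlt hy' (C.bmem q) ⟨hw.1, hw1⟩ ⟨le_rfl, one_pos⟩ h1).1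
          exact hp.2 (C.le_of_b (h2 ▸ hy'))
        · rw [hw1] at he
          have h1 : C.b ρ = C.b q := by rw [← he]; module
          exact C.b_notMem hlt (h1 ▸ C.bmem q)
      obtain ⟨r, hr, h⟩ := Metric.isOpen_iff.1 hcl.isOpen_compl _ hnot
      refine ⟨r, hr, fun p hp hq y' hy' w hw hmem => ?_⟩
      exact h hmem (mem_biUnion (show p ∈ {p | p < ρ ∧ ¬ q ≤ p} from ⟨hp, hq⟩)
        ⟨(y', w), ⟨hy', hw.1, hw.2.le⟩, rfl⟩)
    -- scale
    obtain ⟨τ0, hτ0, hball⟩ := exists_smul_near (x := C.b q) (v := y - C.b q) hr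
    set τ := min τ0 1 with hτ
    have hτp : 0 < τ := lt_min hτ0 one_pos
    have hz : C.b q + τ • (y - C.b q) ∈ C.cell ρ := by
      have h1 := C.conv ρ (C.mono hlt (C.bmem q)) hy (a := 1 - τ) (b := τ)
        (sub_nonneg.2 (min_le_right _ _)) hτp.le (by ring)
      convert h1 using 1
      module
    have hzr := hball τ hτp.le (min_le_left _ _)
    rcases C.rad ρ _ hz with h | ⟨p, hp, y', hy', w, hw, h⟩
    · refine ⟨0, Submodule.zero_mem _, Pi.single ⟨ρ, hlt⟩ τ⁻¹, ⟨fun i => ?_, ?_⟩, ?_, ?_⟩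
      · by_cases hi : i = ⟨ρ, hlt⟩
        · subst hi; simp [hτp.le]
        · simp [hi]
      · intro i j hi hj
        have hi' : i = ⟨ρ, hlt⟩ := by
          by_contra hne
          exact hi (Pi.single_eq_of_ne hne _)
        have hj' : j = ⟨ρ, hlt⟩ := by
          by_contra hne
          exact hj (Pi.single_eq_of_ne hne _)
        rw [hi', hj']; exact Or.inl le_rfl
      · intro i hi
        have hi' : i = ⟨ρ, hlt⟩ := by
          by_contra hne
          exact hi (Pi.single_eq_of_ne hne _)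
        rw [hi']
      · rw [Finset.sum_eq_single ⟨ρ, hlt⟩]
        · rw [Pi.single_eq_same, zero_add, β, ← h, add_sub_cancel_left, smul_smul,
            inv_mul_cancel₀ hτp.ne', one_smul]
        · intro j _ hj
          rw [Pi.single_eq_of_ne hj, zero_smul]
        · intro h'; exact absurd (Finset.mem_univ _) h'
    · have hqp : q ≤ p := by
        by_contra hq
        exact hrad p hp hq y' hy' w hw (h ▸ hzr)
      obtain ⟨u, hu, l, hl, hlp, he⟩ := ih (C.dim p) (hd ▸ C.dim_lt hp) rfl hqp y' hy'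
      have hρ0 : l ⟨ρ, hlt⟩ = 0 := by
        by_contra hne
        exact absurd (hlp _ hne) (not_le_of_gt hp)
      refine ⟨(τ⁻¹ * (1 - w)) • u, Submodule.smul_mem _ _ hu,
        fun i => (τ⁻¹ * (1 - w)) * l i + (τ⁻¹ * w) * (if i = ⟨ρ, hlt⟩ then 1 else 0),
        ⟨fun i => ?_, fun i j hi hj => ?_⟩, fun i hi => ?_, ?_⟩
      · have h1 : 0 ≤ τ⁻¹ := inv_nonneg.2 hτp.le
        have h2 : 0 ≤ 1 - w := by linarith [hw.2]
        have h3 : (0:ℝ) ≤ if i = ⟨ρ, hlt⟩ then 1 else 0 := by split_ifs <;> norm_num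
        exact add_nonneg (mul_nonneg (mul_nonneg h1 h2) (hl.nn i))
          (mul_nonneg (mul_nonneg h1 hw.1) h3)
      · have haux : ∀ i : Up q, (τ⁻¹ * (1 - w)) * l i +
            (τ⁻¹ * w) * (if i = ⟨ρ, hlt⟩ then 1 else 0) ≠ 0 → i = ⟨ρ, hlt⟩ ∨ l i ≠ 0 := by
          intro i hi
          by_contra hcon
          push Not at hcon
          apply hi
          simp [hcon.1, hcon.2]
        rcases haux i hi with h1 | h1 <;> rcases haux j hj with h2 | h2
        · rw [h1, h2]; exact Or.inl le_rfl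
        · right; rw [h1]; exact ((hlp j h2).trans_lt hp).le
        · left; rw [h2]; exact ((hlp i h1).trans_lt hp).le
        · exact hl.ch i j h1 h2
      · by_cases h1 : i = ⟨ρ, hlt⟩
        · rw [h1]
        · have h2 : l i ≠ 0 := by
            intro h0
            apply hi
            show (τ⁻¹ * (1 - w)) * l i + (τ⁻¹ * w) * (if i = ⟨ρ, hlt⟩ then 1 else 0) = 0
            rw [if_neg h1, h0]; ring
          exact ((hlp i h2).trans_lt hp).le
      · have e1 : τ • (y - C.b q) = (1 - w) • (y' - C.b q) + w • (C.b ρ - C.b q) := by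
          have h5 : τ • (y - C.b q) = (1 - w) • y' + w • C.b ρ - C.b q := by
            rw [← h]; abel
          rw [h5]; module
        have e2 : y - C.b q = (τ⁻¹ * (1 - w)) • (y' - C.b q) + (τ⁻¹ * w) • (C.b ρ - C.b q) := by
          have h6 : y - C.b q = τ⁻¹ • (τ • (y - C.b q)) := by
            rw [smul_smul, inv_mul_cancel₀ hτp.ne', one_smul]
          rw [h6, e1, smul_add, smul_smul, smul_smul]
        rw [e2, he]
        simp only [add_smul, Finset.sum_add_distrib, smul_add, Finset.smul_sum, mul_smul]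
        have h7 : ∑ i : Up q, τ⁻¹ • w • (if i = ⟨ρ, hlt⟩ then (1:ℝ) else 0) • β C q i =
            τ⁻¹ • w • (C.b ρ - C.b q) := by
          rw [Finset.sum_eq_single ⟨ρ, hlt⟩]
          · simp [β]
          · intro j _ hj; simp [hj]
          · intro h'; exact absurd (Finset.mem_univ _) h'
        rw [h7]
        simp only [smul_smul]
        abel

/-- **every vector has a conic representation** -/
theorem exists_rep (hΛ : IsOpen Λ) [Fintype (Up q)] (w : E) : ∃ u ∈ dirW C q,
    ∃ l : Up q → ℝ, Chn l ∧ w = u + ∑ i, l i • β C q i := by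
  obtain ⟨r, hr, hsub, hup⟩ := exists_near C hΛ q
  obtain ⟨t, ht, hball⟩ := exists_smul_near (x := C.b q) (v := w) hr
  have h1 := hball t ht.le le_rfl
  obtain ⟨ρ, hρ⟩ := C.cover _ (hsub h1)
  obtain ⟨u, hu, l, hl, -, he⟩ := exists_rep_cell C q (hup _ h1 ρ hρ) _ hρ
  rw [add_sub_cancel_left] at he
  refine ⟨t⁻¹ • u, Submodule.smul_mem _ _ hu, fun i => t⁻¹ * l i, ⟨fun i => ?_, fun i j hi hj => ?_⟩,
    ?_⟩
  · exact mul_nonneg (inv_nonneg.2 ht.le) (hl.nn i)
  · exact hl.ch i j (right_ne_zero_of_mul hi) (right_ne_zero_of_mul hj)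
  · have h2 : w = t⁻¹ • (t • w) := by rw [smul_smul, inv_mul_cancel₀ ht.ne', one_smul]
    rw [h2, he, smul_add, Finset.smul_sum]
    simp only [smul_smul]

open Classical in
/-- restriction of a weight off one index -/
noncomputable def off (l : Up q → ℝ) (i : Up q) : Up q → ℝ := fun j => if j = i then 0 else l j

lemma off_self (l : Up q → ℝ) (i : Up q) : off q l i i = 0 := if_pos rfl

lemma off_of_ne {l : Up q → ℝ} {i j : Up q} (h : j ≠ i) : off q l i j = l j := if_neg h

lemma off_ne {l : Up q → ℝ} {i j : Up q} (h : off q l i j ≠ 0) : j ≠ i ∧ l j ≠ 0 := by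
  have hj : j ≠ i := by
    rintro rfl
    exact h (off_self q l j)
  refine ⟨hj, ?_⟩
  rwa [off_of_ne q hj] at h

lemma off_chn {l : Up q → ℝ} (hl : Chn l) (i : Up q) : Chn (off q l i) where
  nn j := by
    by_cases hj : j = i
    · subst hj; rw [off_self]
    · rw [off_of_ne q hj]; exact hl.nn j
  ch j k hj hk := hl.ch j k (off_ne q hj).2 (off_ne q hk).2

lemma off_sum [Fintype (Up q)] (l : Up q → ℝ) (i : Up q) :
    ∑ j, l j • β C q j = ∑ j, off q l i j • β C q j + l i • β C q i := by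
  classical
  rw [← Finset.add_sum_erase Finset.univ (fun j => l j • β C q j) (Finset.mem_univ i),
    ← Finset.add_sum_erase Finset.univ (fun j => off q l i j • β C q j) (Finset.mem_univ i)]
  have h2 : ∑ j ∈ Finset.univ.erase i, off q l i j • β C q j =
      ∑ j ∈ Finset.univ.erase i, l j • β C q j := by
    refine Finset.sum_congr rfl fun j hj => ?_
    rw [off_of_ne q (Finset.ne_of_mem_erase hj)]
  simp only [h2, off_self, zero_smul, zero_add]
  rw [add_comm]

/-- the top of the support -/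
structure Top (l : Up q → ℝ) (t : Q) : Prop where
  ge : q ≤ t
  le : ∀ i, l i ≠ 0 → i.1 ≤ t
  att : t = q ∨ ∃ i, l i ≠ 0 ∧ i.1 = t

lemma exists_top [Fintype (Up q)] {l : Up q → ℝ} (hl : Chn l) : ∃ t, Top q l t := by
  classical
  by_cases h : ∃ i, l i ≠ 0
  · obtain ⟨i, hi⟩ := h
    obtain ⟨m, hm, hmax⟩ := (Finset.univ.filter fun i => l i ≠ 0).exists_maximal ⟨i, by simp [hi]⟩
    have hm' : l m ≠ 0 := by simpa using hm
    refine ⟨m.1, m.2.le, fun j hj => ?_, Or.inr ⟨m, hm', rfl⟩⟩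
    rcases hl.ch j m hj hm' with h1 | h1
    · exact h1
    · exact hmax (by simpa using hj) h1
  · push Not at h
    exact ⟨q, le_rfl, fun i hi => absurd (h i) hi, Or.inl rfl⟩

lemma cone_step {x v u : E} {τ c : ℝ} (h : τ * c ≠ 1) :
    (1 - τ * c) • (x + (τ / (1 - τ * c)) • u) + (τ * c) • (x + v) = x + τ • (u + c • v) := by
  have h1 : (1 - τ * c) * (τ / (1 - τ * c)) = τ := by
    have : 1 - τ * c ≠ 0 := fun h' => h (by linarith)
    field_simp
  calc _ = x + ((1 - τ * c) * (τ / (1 - τ * c))) • u + (τ * c) • v := by module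
    _ = _ := by rw [h1]; module

/-- small multiples of a represented vector lie in the open cell of the top -/
lemma top_opn (hΛ : IsOpen Λ) [Fintype (Up q)] {u : E} (hu : u ∈ dirW C q) :
    ∀ (n : ℕ) (l : Up q → ℝ), {i | l i ≠ 0}.ncard ≤ n → Chn l → ∀ t, Top q l t →
      ∃ τ0 > (0:ℝ), ∀ τ, 0 < τ → τ ≤ τ0 →
        C.b q + τ • (u + ∑ i, l i • β C q i) ∈ C.cell t ∧
        ∀ p < t, C.b q + τ • (u + ∑ i, l i • β C q i) ∉ C.cell p := by
  classical
  obtain ⟨r, hr, hsub, hup⟩ := exists_near C hΛ q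
  intro n
  induction n with
  | zero =>
    intro l hn hl t ht
    have hl0 : l = 0 := by
      ext i
      by_contra hne
      have : {i | l i ≠ 0}.ncard = 0 := Nat.le_zero.1 hn
      rw [Set.ncard_eq_zero] at this
      exact absurd (show i ∈ {i | l i ≠ 0} from hne) (by rw [this]; simp)
    subst hl0
    have htq : t = q := by
      rcases ht.att with h | ⟨i, hi, -⟩
      · exact h
      · exact absurd rfl hi
    subst htq
    obtain ⟨τ1, h1, m1⟩ := absorb C hΛ hu
    obtain ⟨τ2, h2, m2⟩ := exists_smul_near (x := C.b t) (v := u) hr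
    refine ⟨min τ1 τ2, lt_min h1 h2, fun τ h0 hle => ?_⟩
    simp only [Pi.zero_apply, zero_smul, Finset.sum_const_zero, add_zero]
    refine ⟨m1 τ h0.le (hle.trans (min_le_left _ _)), fun p hp hmem => ?_⟩
    have := hup _ (m2 τ h0.le (hle.trans (min_le_right _ _))) p hmem
    exact absurd hp (not_lt_of_ge this)
  | succ n ih =>
    intro l hn hl t ht
    rcases ht.att with h | ⟨i, hi, hit⟩
    · -- no support
      have hl0 : l = 0 := by
        ext i
        by_contra hne
        exact absurd (ht.le i hne) (not_le_of_gt (h ▸ i.2))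
      exact ih l (by rw [hl0]; simp) hl t ht
    · subst hit
      have hcard : {j | off q l i j ≠ 0}.ncard ≤ n := by
        have h1 : {j | off q l i j ≠ 0} ⊆ {j | l j ≠ 0} \ {i} := fun j hj =>
          ⟨(off_ne q hj).2, (off_ne q hj).1⟩
        have h2 := Set.ncard_le_ncard h1 (Set.toFinite _)
        have h3 : ({j | l j ≠ 0} \ {i}).ncard + 1 = {j | l j ≠ 0}.ncard :=
          Set.ncard_diff_singleton_add_one hi (Set.toFinite _)
        omega
      obtain ⟨t', ht'⟩ := exists_top q (off_chn q hl i)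
      have htlt : t' < i.1 := by
        rcases ht'.att with h | ⟨j, hj, hjt⟩
        · rw [h]; exact i.2
        · rw [← hjt]
          have h1 := off_ne q hj
          exact lt_of_le_of_ne (ht.le j h1.2) fun h => h1.1 (Subtype.ext h)
      obtain ⟨τ1, h1, m1⟩ := ih _ hcard (off_chn q hl i) t' ht'
      have hli : 0 < l i := lt_of_le_of_ne (hl.nn i) (Ne.symm hi)
      set c := l i with hc
      refine ⟨min (τ1 / 2) (1 / (2 * c)), lt_min (by positivity) (by positivity), fun τ h0 hle => ?_⟩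
      have hτc : τ * c ≤ 1 / 2 := by
        have := hle.trans (min_le_right _ _)
        rw [le_div_iff₀ (by positivity)] at this
        linarith
      have hτc0 : 0 < τ * c := mul_pos h0 hli
      have hτ' : τ / (1 - τ * c) ≤ τ1 := by
        rw [div_le_iff₀ (by linarith)]
        have h2 := hle.trans (min_le_left _ _)
        have h3 : τ1 * (1 / 2) ≤ τ1 * (1 - τ * c) :=
          mul_le_mul_of_nonneg_left (by linarith) h1.le
        linarith
      obtain ⟨hy, -⟩ := m1 (τ / (1 - τ * c)) (div_pos h0 (by linarith)) hτ'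
      have e1 : C.b q + τ • (u + ∑ j, l j • β C q j) =
          (1 - τ * c) • (C.b q + (τ / (1 - τ * c)) • (u + ∑ j, off q l i j • β C q j)) +
            (τ * c) • C.b i.1 := by
        have h4 : C.b i.1 = C.b q + β C q i := by simp [β]
        rw [h4, cone_step (by linarith), off_sum C q l i]
        rw [add_assoc]
      rw [e1]
      refine ⟨C.conv i.1 (C.mono htlt hy) (C.bmem i.1) (by linarith) hτc0.le (by ring),
        fun p hp hmem => ?_⟩
      have h5 := (C.rad_uniq (y := _) (y' := _) (w := 0) (w' := τ * c) hp htlt hmem hy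
        ⟨le_rfl, one_pos⟩ ⟨hτc0.le, by linarith⟩ (by module)).2
      exact hτc0.ne h5

/-- **uniqueness of the conic representation** -/
theorem rep_uniq (hΛ : IsOpen Λ) [Fintype (Up q)] :
    ∀ (n : ℕ) (l l' : Up q → ℝ), {i | l i ≠ 0}.ncard ≤ n → Chn l → Chn l' →
      ∀ u ∈ dirW C q, ∀ u' ∈ dirW C q,
      u + ∑ i, l i • β C q i = u' + ∑ i, l' i • β C q i → l = l' := by
  classical
  intro n
  induction n with
  | zero =>
    intro l l' hn hl hl' u hu u' hu' he
    have hl0 : l = 0 := by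
      ext i
      by_contra hne
      have : {i | l i ≠ 0}.ncard = 0 := Nat.le_zero.1 hn
      rw [Set.ncard_eq_zero] at this
      exact absurd (show i ∈ {i | l i ≠ 0} from hne) (by rw [this]; simp)
    obtain ⟨t', ht'⟩ := exists_top q hl'
    obtain ⟨τ1, h1, m1⟩ := top_opn C q hΛ hu _ l le_rfl hl q
      ⟨le_rfl, fun i hi => absurd (by rw [hl0]; rfl) hi, Or.inl rfl⟩
    obtain ⟨τ2, h2, m2⟩ := top_opn C q hΛ hu' _ l' le_rfl hl' t' ht'
    have hm : 0 < min τ1 τ2 := lt_min h1 h2
    have a1 := m1 _ hm (min_le_left _ _)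
    have a2 := m2 _ hm (min_le_right _ _)
    rw [← he] at a2
    have h3 := C.disj a1.1 a1.2 a2.1 a2.2
    ext i
    rw [hl0]
    by_contra hne
    exact absurd (ht'.le i (Ne.symm hne)) (not_le_of_gt (h3 ▸ i.2))
  | succ n ih =>
    intro l l' hn hl hl' u hu u' hu' he
    obtain ⟨t, ht⟩ := exists_top q hl
    obtain ⟨t', ht'⟩ := exists_top q hl'
    obtain ⟨τ1, h1, m1⟩ := top_opn C q hΛ hu _ l le_rfl hl t ht
    obtain ⟨τ2, h2, m2⟩ := top_opn C q hΛ hu' _ l' le_rfl hl' t' ht'
    have htt : t = t' := by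
      have hm : 0 < min τ1 τ2 := lt_min h1 h2
      have a1 := m1 _ hm (min_le_left _ _)
      have a2 := m2 _ hm (min_le_right _ _)
      rw [← he] at a2
      exact C.disj a1.1 a1.2 a2.1 a2.2
    subst htt
    rcases ht.att with h | ⟨i, hi, hit⟩
    · ext j
      have e1 : l j = 0 := by
        by_contra hne
        exact absurd (ht.le j hne) (not_le_of_gt (h ▸ j.2))
      have e2 : l' j = 0 := by
        by_contra hne
        exact absurd (ht'.le j hne) (not_le_of_gt (h ▸ j.2))
      rw [e1, e2]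
    · have hi' : l' i ≠ 0 := by
        rcases ht'.att with h | ⟨j, hj, hjt⟩
        · exact absurd i.2 (by rw [hit, h]; exact lt_irrefl _)
        · have : j = i := Subtype.ext (hjt.trans hit.symm)
          exact this ▸ hj
      subst hit
      have hlt : ∀ {l : Up q → ℝ}, Top q l i.1 → ∀ t', Top q (off q l i) t' → t' < i.1 := by
        intro l ht t' ht'
        rcases ht'.att with h | ⟨j, hj, hjt⟩
        · rw [h]; exact i.2
        · rw [← hjt]
          have h1 := off_ne q hj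
          exact lt_of_le_of_ne (ht.le j h1.2) fun h => h1.1 (Subtype.ext h)
      obtain ⟨s, hs⟩ := exists_top q (off_chn q hl i)
      obtain ⟨s', hs'⟩ := exists_top q (off_chn q hl' i)
      have hslt := hlt ht s hs
      have hslt' := hlt ht' s' hs'
      obtain ⟨σ1, g1, k1⟩ := top_opn C q hΛ hu _ _ le_rfl (off_chn q hl i) s hs
      obtain ⟨σ2, g2, k2⟩ := top_opn C q hΛ hu' _ _ le_rfl (off_chn q hl' i) s' hs'
      have hli : 0 < l i := lt_of_le_of_ne (hl.nn i) (Ne.symm hi)
      have hli' : 0 < l' i := lt_of_le_of_ne (hl'.nn i) (Ne.symm hi')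
      set c := l i with hc
      set c' := l' i with hc'
      set τ := min (min (σ1 / 2) (σ2 / 2)) (min (1 / (2 * c)) (1 / (2 * c'))) with hτ
      have hτ0 : 0 < τ := lt_min (lt_min (by positivity) (by positivity))
        (lt_min (by positivity) (by positivity))
      have hτc : τ * c ≤ 1 / 2 := by
        have : τ ≤ 1 / (2 * c) := (min_le_right _ _).trans (min_le_left _ _)
        rw [le_div_iff₀ (by positivity)] at this
        linarith
      have hτc' : τ * c' ≤ 1 / 2 := by
        have : τ ≤ 1 / (2 * c') := (min_le_right _ _).trans (min_le_right _ _)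
        rw [le_div_iff₀ (by positivity)] at this
        linarith
      have hp1 : 0 < τ * c := mul_pos hτ0 hli
      have hp2 : 0 < τ * c' := mul_pos hτ0 hli'
      have b1 : τ / (1 - τ * c) ≤ σ1 := by
        rw [div_le_iff₀ (by linarith)]
        have h2 : τ ≤ σ1 / 2 := (min_le_left _ _).trans (min_le_left _ _)
        have h3 : σ1 * (1 / 2) ≤ σ1 * (1 - τ * c) :=
          mul_le_mul_of_nonneg_left (by linarith) g1.le
        linarith
      have b2 : τ / (1 - τ * c') ≤ σ2 := by
        rw [div_le_iff₀ (by linarith)]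
        have h2 : τ ≤ σ2 / 2 := (min_le_left _ _).trans (min_le_right _ _)
        have h3 : σ2 * (1 / 2) ≤ σ2 * (1 - τ * c') :=
          mul_le_mul_of_nonneg_left (by linarith) g2.le
        linarith
      have y1 := (k1 _ (div_pos hτ0 (by linarith)) b1).1
      have y2 := (k2 _ (div_pos hτ0 (by linarith)) b2).1
      have h4 : C.b i.1 = C.b q + β C q i := by simp [β]
      have e1 : C.b q + τ • (u + ∑ j, l j • β C q j) =
          (1 - τ * c) • (C.b q + (τ / (1 - τ * c)) • (u + ∑ j, off q l i j • β C q j)) +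
            (τ * c) • C.b i.1 := by
        rw [h4, cone_step (by linarith), off_sum C q l i]
        rw [add_assoc]
      have e2 : C.b q + τ • (u' + ∑ j, l' j • β C q j) =
          (1 - τ * c') • (C.b q + (τ / (1 - τ * c')) • (u' + ∑ j, off q l' i j • β C q j)) +
            (τ * c') • C.b i.1 := by
        rw [h4, cone_step (by linarith), off_sum C q l' i]
        rw [add_assoc]
      have e3 := C.rad_uniq hslt hslt' y1 y2 ⟨hp1.le, by linarith⟩ ⟨hp2.le, by linarith⟩
        (by rw [← e1, ← e2, he])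
      have hcc : c = c' := mul_left_cancel₀ hτ0.ne' e3.2
      have hrest : u + ∑ j, off q l i j • β C q j = u' + ∑ j, off q l' i j • β C q j := by
        have h5 := e3.1
        rw [hcc] at h5
        have h6 := add_left_cancel h5
        have h7 : τ / (1 - τ * c') ≠ 0 := (div_pos hτ0 (by linarith)).ne'
        exact smul_right_injective E h7 h6
      have hcard : {j | off q l i j ≠ 0}.ncard ≤ n := by
        have h1 : {j | off q l i j ≠ 0} ⊆ {j | l j ≠ 0} \ {i} := fun j hj =>
          ⟨(off_ne q hj).2, (off_ne q hj).1⟩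
        have h2 := Set.ncard_le_ncard h1 (Set.toFinite _)
        have h3 : ({j | l j ≠ 0} \ {i}).ncard + 1 = {j | l j ≠ 0}.ncard :=
          Set.ncard_diff_singleton_add_one hi (Set.toFinite _)
        omega
      have h8 := ih _ _ hcard (off_chn q hl i) (off_chn q hl' i) u hu u' hu' hrest
      ext j
      by_cases hj : j = i
      · rw [hj]; exact hcc
      · have h9 := congrFun h8 j
        rwa [off_of_ne q hj, off_of_ne q hj] at h9

end rep

end Crest.Agent.R096.Ar_241
end

-- ▼ part R096/Ar3_241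
section

/-!
# R096 (row 96), ARR part 3 (helper241): chain cones over a linear model are balls

`ball_of_model`: `L : (I → ℝ) → ℝ^m` linear such that every vector is the image of exactly one chain
weight.  Then `{l chain weight, ∑ l ≤ 1}` is a PL `m`-ball with boundary `{∑ l = 1}`.
`link`: for a convex cell complex of an open set: the order complex of the cells above `q` is a PL
sphere of dimension `n - dim q - 1` (`finrank E - finrank (dirW C q)`).
-/

set_option autoImplicit false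
set_option linter.unusedSectionVars false
set_option linter.unusedVariables false

open Set Metric Topology Module
open scoped Classical

namespace Crest.Agent.R096.Ar_241

open Crest.Agent.R096.Xp_537
open Crest.Agent.R096.Ce_537 (PLOn PLEquiv cube sph IsBall plOn_affine plOn_biUnion)

section model

variable {I : Type*} [PartialOrder I] [Fintype I]

lemma chn_iff (l : I → ℝ) : Chn l ↔ (∀ i, 0 ≤ l i) ∧ ∀ i j, ¬ (i ≤ j ∨ j ≤ i) → l i * l j = 0 := by
  constructor
  · intro h
    refine ⟨h.nn, fun i j hij => ?_⟩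
    by_contra hne
    exact hij (h.ch i j (left_ne_zero_of_mul hne) (right_ne_zero_of_mul hne))
  · rintro ⟨h1, h2⟩
    refine ⟨h1, fun i j hi hj => ?_⟩
    by_contra hne
    exact mul_ne_zero hi hj (h2 i j hne)

lemma isClosed_chn : IsClosed {l : I → ℝ | Chn l} := by
  have : {l : I → ℝ | Chn l} = (⋂ i, {l | 0 ≤ l i}) ∩
      ⋂ i, ⋂ j, ⋂ (_ : ¬ (i ≤ j ∨ j ≤ i)), {l | l i * l j = 0} := by
    ext l
    simp only [mem_setOf_eq, chn_iff, mem_inter_iff, mem_iInter]
  rw [this]
  refine (isClosed_iInter fun i => isClosed_le continuous_const (continuous_apply i)).inter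
    (isClosed_iInter fun i => isClosed_iInter fun j => isClosed_iInter fun _ =>
      isClosed_eq (by fun_prop) continuous_const)

lemma Chn.smul {l : I → ℝ} (h : Chn l) {t : ℝ} (ht : 0 ≤ t) : Chn (t • l) where
  nn i := mul_nonneg ht (h.nn i)
  ch i j hi hj := h.ch i j (right_ne_zero_of_mul hi) (right_ne_zero_of_mul hj)

lemma Chn.eq_zero {l : I → ℝ} (h : Chn l) (hs : ∑ i, l i = 0) : l = 0 := by
  funext i
  exact (Finset.sum_eq_zero_iff_of_nonneg fun i _ => h.nn i).1 hs i (Finset.mem_univ i)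

variable {m : ℕ} (L : (I → ℝ) →ₗ[ℝ] (Fin m → ℝ))
  (hL : ∀ a, ∃ l, Chn l ∧ L l = a) (hU : ∀ l l', Chn l → Chn l' → L l = L l' → l = l')

include hU in
/-- linear left inverses on the chains -/
lemma exists_inv (c : Finset I) (hc : ∀ i ∈ c, ∀ j ∈ c, i ≤ j ∨ j ≤ i) :
    ∃ A : (Fin m → ℝ) →L[ℝ] (I → ℝ), ∀ l : I → ℝ, (∀ i, i ∉ c → l i = 0) → A (L l) = l := by
  set S : Submodule ℝ (I → ℝ) :=
    { carrier := {l | ∀ i, i ∉ c → l i = 0}
      add_mem' := fun {a b} ha hb i hi => by simp [ha i hi, hb i hi]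
      zero_mem' := fun i _ => rfl
      smul_mem' := fun t a ha i hi => by simp [ha i hi] } with hS
  have hmem : ∀ l : I → ℝ, l ∈ S ↔ ∀ i, i ∉ c → l i = 0 := fun l => Iff.rfl
  have hinj : LinearMap.ker (L.comp S.subtype) = ⊥ := by
    rw [LinearMap.ker_eq_bot']
    rintro ⟨l, hl⟩ h0
    have h0' : L l = 0 := h0
    have hp : Chn (fun i => max (l i) 0) := by
      refine ⟨fun i => le_max_right _ _, fun i j hi hj => ?_⟩
      refine hc i ?_ j ?_
      · by_contra h; exact hi (by simp [hl i h])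
      · by_contra h; exact hj (by simp [hl j h])
    have hn : Chn (fun i => max (-l i) 0) := by
      refine ⟨fun i => le_max_right _ _, fun i j hi hj => ?_⟩
      refine hc i ?_ j ?_
      · by_contra h; exact hi (by simp [hl i h])
      · by_contra h; exact hj (by simp [hl j h])
    have hd : (fun i => max (l i) 0) - (fun i => max (-l i) 0) = l := by
      funext i
      simp only [Pi.sub_apply]
      rcases le_total (l i) 0 with h | h
      · rw [max_eq_right h, max_eq_left (by linarith)]; ring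
      · rw [max_eq_left h, max_eq_right (by linarith)]; ring
    have h1 : L (fun i => max (l i) 0) = L (fun i => max (-l i) 0) := by
      rw [← sub_eq_zero, ← map_sub, hd, h0']
    have h2 := hU _ _ hp hn h1
    apply Subtype.ext
    funext i
    have h3 : max (l i) 0 = max (-l i) 0 := congrFun h2 i
    show l i = 0
    rcases le_total (l i) 0 with h | h
    · rw [max_eq_right h, max_eq_left (by linarith)] at h3; linarith
    · rw [max_eq_left h, max_eq_right (by linarith)] at h3; linarith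
  obtain ⟨g, hg⟩ := LinearMap.exists_leftInverse_of_injective _ hinj
  refine ⟨LinearMap.toContinuousLinearMap (S.subtype.comp g), fun l hl => ?_⟩
  have h1 := LinearMap.congr_fun hg ⟨l, hl⟩
  have h2 : g (L l) = ⟨l, hl⟩ := h1
  show S.subtype (g (L l)) = l
  rw [h2]; rfl

include hL hU in
/-- the conic inverse -/
lemma exists_lam : ∃ lam : (Fin m → ℝ) → (I → ℝ), ∃ S : Finset ((Fin m → ℝ) →L[ℝ] (I → ℝ)),
    (∀ a, Chn (lam a)) ∧ (∀ a, L (lam a) = a) ∧ (∀ l, Chn l → lam (L l) = l) ∧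
    (∀ K, PLOn lam K) ∧ Str_696.Conic lam S := by
  choose lam h1 h2 using hL
  have h3 : ∀ l, Chn l → lam (L l) = l := fun l hl => hU _ _ (h1 _) hl (h2 _)
  have hA : ∀ c : Finset I, ∃ A : (Fin m → ℝ) →L[ℝ] (I → ℝ),
      (∀ i ∈ c, ∀ j ∈ c, i ≤ j ∨ j ≤ i) → ∀ l : I → ℝ, (∀ i, i ∉ c → l i = 0) → A (L l) = l := by
    intro c
    by_cases hc : ∀ i ∈ c, ∀ j ∈ c, i ≤ j ∨ j ≤ i
    · obtain ⟨A, hA⟩ := exists_inv L hU c hc
      exact ⟨A, fun _ => hA⟩
    · exact ⟨0, fun h => absurd h hc⟩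
  choose A hA using hA
  have hsel : ∀ a, lam a = A (Finset.univ.filter fun i => lam a i ≠ 0) a := by
    intro a
    have h4 := hA (Finset.univ.filter fun i => lam a i ≠ 0)
      (fun i hi j hj => (h1 a).ch i j (by simpa using hi) (by simpa using hj)) (lam a)
      (fun i hi => by simpa using hi)
    rw [h2] at h4
    exact h4.symm
  have hLc : Continuous L := LinearMap.continuous_of_finiteDimensional L
  set R : Finset I → Set (Fin m → ℝ) := fun c => {a | Chn (A c a) ∧ L (A c a) = a} with hR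
  have hRc : ∀ c, IsClosed (R c) := fun c =>
    (isClosed_chn.preimage (A c).continuous).inter
      (isClosed_eq (hLc.comp (A c).continuous) continuous_id)
  have hRe : ∀ c, ∀ a ∈ R c, lam a = A c a := fun c a ha => by
    have := h3 _ ha.1
    rwa [ha.2] at this
  have hpl : ∀ c, PLOn lam (R c) := fun c =>
    (plOn_affine ((A c : (Fin m → ℝ) →ₗ[ℝ] (I → ℝ)).toAffineMap) (R c)).congr (hRe c)
  have hcov : ∀ a, a ∈ ⋃ c ∈ (univ : Set (Finset I)), R c := by
    intro a
    refine mem_biUnion (mem_univ (Finset.univ.filter fun i => lam a i ≠ 0)) ?_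
    show Chn _ ∧ _
    rw [← hsel a]
    exact ⟨h1 a, h2 a⟩
  have hall : ∀ K, PLOn lam K := fun K =>
    (plOn_biUnion (univ : Set (Finset I)) (Set.toFinite _) (fun c _ => hpl c)
      fun c _ => hRc c).mono fun a _ => hcov a
  refine ⟨lam, Finset.univ.image A, h1, h2, h3, hall, ⟨?_, ?_, ?_⟩⟩
  · exact continuousOn_univ.1 (hall univ).1
  · intro t v ht
    apply hU _ _ (h1 _) ((h1 v).smul ht)
    rw [h2, map_smul, h2]
  · intro v
    exact ⟨_, Finset.mem_image_of_mem _ (Finset.mem_univ _), hsel v⟩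

include hL hU in
/-- **the chain cone over a linear model is a ball** -/
theorem ball_of_model :
    IsBall m {l : I → ℝ | Chn l ∧ ∑ i, l i ≤ 1} {l : I → ℝ | Chn l ∧ ∑ i, l i = 1} := by
  obtain ⟨lam, S, h1, h2, h3, hpl, hcon⟩ := exists_lam L hL hU
  -- the conic map `(lam, norm)`
  set H : (Fin m → ℝ) → (I → ℝ) × ℝ := fun a => (lam a, ‖a‖) with hH
  set N : Finset ((Fin m → ℝ) →L[ℝ] ℝ) :=
    insert 0 ((Finset.univ.image fun i : Fin m => ContinuousLinearMap.proj i) ∪
      (Finset.univ.image fun i : Fin m => -ContinuousLinearMap.proj i)) with hN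
  have hnorm : ∀ v : Fin m → ℝ, ∃ B ∈ N, ‖v‖ = B v := by
    intro v
    by_cases hv : v = 0
    · exact ⟨0, Finset.mem_insert_self _ _, by simp [hv]⟩
    · obtain ⟨i, hi⟩ := Ce_537.exists_coord hv
      rcases le_total 0 (v i) with h | h
      · refine ⟨ContinuousLinearMap.proj i, ?_, by rw [hi, abs_of_nonneg h]; rfl⟩
        exact Finset.mem_insert_of_mem (Finset.mem_union_left _
          (Finset.mem_image_of_mem _ (Finset.mem_univ i)))
      · refine ⟨-ContinuousLinearMap.proj i, ?_, by rw [hi, abs_of_nonpos h]; rfl⟩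
        exact Finset.mem_insert_of_mem (Finset.mem_union_right _
          (Finset.mem_image_of_mem _ (Finset.mem_univ i)))
  have hHc : Str_696.Conic H ((S ×ˢ N).image fun r => r.1.prod r.2) := by
    refine ⟨hcon.1.prodMk continuous_norm, fun t v ht => ?_, fun v => ?_⟩
    · have e1 := hcon.2 t v ht
      simp only [hH]
      rw [e1, norm_smul, Real.norm_eq_abs, abs_of_nonneg ht]
      rfl
    · obtain ⟨A, hA, eA⟩ := hcon.3 v
      obtain ⟨B, hB, eB⟩ := hnorm v
      refine ⟨A.prod B, Finset.mem_image.2 ⟨(A, B), Finset.mem_product.2 ⟨hA, hB⟩, rfl⟩, ?_⟩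
      show (lam v, ‖v‖) = (A v, B v)
      rw [eA, eB]
  obtain ⟨V, hV, F, hlin, -, hv, -⟩ := Fan_696.exists_Fan hHc ∅
  -- the two gauges
  have hp : ∀ c ∈ F.T, ∃ B : (Fin m → ℝ) →L[ℝ] ℝ, ∀ x ∈ F.cone c, (∑ i, lam x i) = B x := by
    intro c hc
    obtain ⟨A, -, hA⟩ := hlin c hc
    refine ⟨∑ i, (ContinuousLinearMap.proj i).comp ((ContinuousLinearMap.fst ℝ _ _).comp A), ?_⟩
    rintro x ⟨a, ha⟩
    have h5 := hA a x ha
    have h6 : lam x = (A x).1 := congrArg Prod.fst h5
    rw [h6]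
    simp [ContinuousLinearMap.sum_apply]
  have hq : ∀ c ∈ F.T, ∃ B : (Fin m → ℝ) →L[ℝ] ℝ, ∀ x ∈ F.cone c, ‖x‖ = B x := by
    intro c hc
    obtain ⟨A, -, hA⟩ := hlin c hc
    refine ⟨(ContinuousLinearMap.snd ℝ _ _).comp A, ?_⟩
    rintro x ⟨a, ha⟩
    exact congrArg Prod.snd (hA a x ha)
  have hp0 : ∀ x : Fin m → ℝ, x ≠ 0 → 0 < ∑ i, lam x i := by
    intro x hx
    refine lt_of_le_of_ne (Finset.sum_nonneg fun i _ => (h1 x).nn i) fun h => hx ?_
    have := (h1 x).eq_zero h.symm
    rw [← h2 x, this, map_zero]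
  obtain ⟨f, g, pf, pg, gf, fg, hfg⟩ := Pb_715.exists_rescale F hv hp hq hp0
    (fun x hx => norm_pos_iff.2 hx)
  have hgn : ∀ y, ‖g y‖ = ∑ i, lam y i := fun y => by rw [← hfg (g y), fg]
  refine ⟨⟨fun x => lam (f x), fun l => g (L l), ?_, ?_, ?_, ?_, ?_, ?_⟩, ?_⟩
  · exact (hpl univ).comp (pf _) (mapsTo_univ _ _)
  · exact (pg univ).comp (plOn_affine L.toAffineMap _) (mapsTo_univ _ _)
  · intro x hx
    refine ⟨h1 _, ?_⟩
    rw [hfg]
    simpa [cube] using hx
  · rintro l ⟨hl, hs⟩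
    simp only [cube, mem_closedBall_zero_iff]
    rw [hgn, h3 l hl]
    exact hs
  · intro x _
    show g (L (lam (f x))) = x
    rw [h2, gf]
  · rintro l ⟨hl, -⟩
    show lam (f (g (L l))) = l
    rw [fg, h3 l hl]
  · ext l
    constructor
    · rintro ⟨x, hx, rfl⟩
      refine ⟨h1 _, ?_⟩
      rw [hfg]
      simpa [sph] using hx
    · rintro ⟨hl, hs⟩
      refine ⟨g (L l), ?_, ?_⟩
      · simp only [sph, mem_sphere_zero_iff_norm]
        rw [hgn, h3 l hl]
        exact hs
      · show lam (f (g (L l))) = l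
        rw [fg, h3 l hl]

end model

section link

variable {E : Type*} [NormedAddCommGroup E] [NormedSpace ℝ E] [FiniteDimensional ℝ E]
  {Q : Type*} [PartialOrder Q] {Λ : Set E}

/-- the codimension of a cell -/
noncomputable def cod (C : CC Λ Q) (q : Q) : ℕ := finrank ℝ E - finrank ℝ (dirW C q)

/-- **LINK.** The order complex of the cells above `q` -/
theorem link (C : CC Λ Q) (hΛ : IsOpen Λ) (q : Q) [Fintype (Up q)] :
    IsBall (cod C q) {l : Up q → ℝ | Chn l ∧ ∑ i, l i ≤ 1}
      {l : Up q → ℝ | Chn l ∧ ∑ i, l i = 1} := by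
  have hdim : finrank ℝ (E ⧸ dirW C q) = cod C q := by
    have := Submodule.finrank_quotient_add_finrank (dirW C q)
    unfold cod; omega
  have hdim' : finrank ℝ (E ⧸ dirW C q) = finrank ℝ (Fin (cod C q) → ℝ) := by
    rw [hdim, finrank_fin_fun]
  let φ : (E ⧸ dirW C q) ≃ₗ[ℝ] (Fin (cod C q) → ℝ) := LinearEquiv.ofFinrankEq _ _ hdim'
  let π : E →ₗ[ℝ] (Fin (cod C q) → ℝ) := φ.toLinearMap.comp (dirW C q).mkQ
  have hker : ∀ x, π x = 0 ↔ x ∈ dirW C q := by
    intro x
    show φ ((dirW C q).mkQ x) = 0 ↔ _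
    rw [LinearEquiv.map_eq_zero_iff, Submodule.mkQ_apply, Submodule.Quotient.mk_eq_zero]
  have hsurj : ∀ a, ∃ x, π x = a := by
    intro a
    obtain ⟨x, hx⟩ := Submodule.mkQ_surjective (dirW C q) (φ.symm a)
    exact ⟨x, by show φ ((dirW C q).mkQ x) = a; rw [hx, LinearEquiv.apply_symm_apply]⟩
  let L : (Up q → ℝ) →ₗ[ℝ] (Fin (cod C q) → ℝ) :=
    π.comp (∑ i, (LinearMap.proj i : (Up q → ℝ) →ₗ[ℝ] ℝ).smulRight (β C q i))
  have hLe : ∀ l, L l = π (∑ i, l i • β C q i) := by
    intro l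
    show π ((∑ i, (LinearMap.proj i : (Up q → ℝ) →ₗ[ℝ] ℝ).smulRight (β C q i)) l) = _
    congr 1
    simp [LinearMap.sum_apply]
  refine ball_of_model L (fun a => ?_) (fun l l' hl hl' he => ?_)
  · obtain ⟨x, rfl⟩ := hsurj a
    obtain ⟨u, hu, l, hl, e⟩ := exists_rep C q hΛ x
    refine ⟨l, hl, ?_⟩
    rw [hLe, e, map_add, (hker u).2 hu, zero_add]
  · rw [hLe, hLe, ← sub_eq_zero, ← map_sub, hker] at he
    refine rep_uniq C q hΛ _ l l' le_rfl hl hl' 0 (Submodule.zero_mem _) _ he ?_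
    abel

end link

end Crest.Agent.R096.Ar_241
end

-- ▼ part R096/Ar4_241

/-!
# R096 (row 96), ARR part 4 (helper241): the boundary of the exploded cell is a PL sphere

`cplx_oc`: the order complex `OC C q` of the cells above `q` is a complex with the dual cells
`D q r` (`r > q`), poset reversed, dimensions `cod`.
`bdry_sphere` (ARR-GEN): if `T r`, `r > q`, are PL balls of dimension `cod r` with boundary
`⋃_{r' > r} T r'` which form a decomposition of `S` (`x ∈ S` has a largest `r` with `x ∈ T r`),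
then `S` is PL equivalent to `sph (cod q)`.
-/

set_option autoImplicit false
set_option linter.unusedSectionVars false
set_option linter.unusedVariables false

open Set Metric Topology Module
open scoped Classical

namespace Crest.Agent.R096.Ar_241

open Crest.Agent.R096.Xp_537
open Crest.Agent.R096.Ce_537 (PLOn PLEquiv cube sph IsBall plOn_affine plOn_biUnion Cplx Opn)

variable {E : Type*} [NormedAddCommGroup E] [NormedSpace ℝ E] [FiniteDimensional ℝ E]
  {Q : Type*} [PartialOrder Q] {Λ : Set E}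

/-- strict monotonicity of the direction spaces -/
lemma dirW_le (C : CC Λ Q) {q r : Q} (h : q ≤ r) : dirW C q ≤ dirW C r := by
  unfold dirW
  rw [Submodule.span_le]
  rintro _ ⟨y, hy, rfl⟩
  have h1 := sub_mem_dirW C (C.mono_le h hy)
  have h2 := sub_mem_dirW C (C.mono_le h (C.bmem q))
  have h3 : y - C.b q = (y - C.b r) - (C.b q - C.b r) := by abel
  show y - C.b q ∈ dirW C r
  rw [h3]
  exact Submodule.sub_mem _ h1 h2

lemma finrank_dirW_lt (C : CC Λ Q) (hΛ : IsOpen Λ) {q r : Q} (h : q < r) :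
    finrank ℝ (dirW C q) < finrank ℝ (dirW C r) := by
  refine Submodule.finrank_lt_finrank_of_lt (lt_of_le_of_ne (dirW_le C h.le) fun he => ?_)
  -- otherwise `b q - τ (b r - b q)` is in `cell q`
  have hv : C.b q - C.b r ∈ dirW C q := by
    rw [he]
    exact sub_mem_dirW C (C.mono h (C.bmem q))
  obtain ⟨τ, hτ, ha⟩ := absorb C hΛ hv
  have hy := ha τ hτ.le le_rfl
  have hs : (1:ℝ) / (1 + τ) < 1 := by rw [div_lt_one (by positivity)]; linarith
  have h2 := face_seg C (C.bmem r) (fun p hp => C.b_notMem hp) (C.mono h hy)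
    (s := 1 / (1 + τ)) (by positivity) hs q h
  apply h2
  have h3 : (1 - 1 / (1 + τ)) • C.b r + (1 / (1 + τ)) • (C.b q + τ • (C.b q - C.b r)) = C.b q := by
    have e1 : (1:ℝ) - 1 / (1 + τ) = τ * (1 / (1 + τ)) := by field_simp; ring
    have e2 : (1 / (1 + τ)) * (1 + τ) = (1:ℝ) := by field_simp
    rw [e1]
    calc _ = ((1 / (1 + τ)) * (1 + τ)) • C.b q := by module
      _ = _ := by rw [e2, one_smul]
  rw [h3]
  exact C.bmem q

lemma cod_lt (C : CC Λ Q) (hΛ : IsOpen Λ) {q r : Q} (h : q < r) : cod C r < cod C q := by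
  have h1 := finrank_dirW_lt C hΛ h
  have h2 : finrank ℝ (dirW C r) ≤ finrank ℝ E := Submodule.finrank_le _
  unfold cod
  omega

/-- the order complex above `q` -/
def OC (q : Q) [Fintype (Up q)] : Set (Up q → ℝ) := {l | Chn l ∧ ∑ i, l i = 1}

/-- the dual cell of `r > q` in it -/
def DC (q : Q) [Fintype (Up q)] (r : Up q) : Set (Up q → ℝ) :=
  {l | Chn l ∧ ∑ i, l i = 1 ∧ ∀ i, l i ≠ 0 → r ≤ i}

/-- re-indexing -/
def up' {q : Q} (r : Up q) (i : Up r.1) : Up q := ⟨i.1, r.2.trans i.2⟩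

lemma up'_inj {q : Q} (r : Up q) : Function.Injective (up' r) := fun i j h =>
  Subtype.ext (congrArg (fun x : Up q => x.1) h)

/-- cone coordinates to the dual cell -/
noncomputable def toDC {q : Q} (r : Up q) [Fintype (Up r.1)] (l : Up r.1 → ℝ) : Up q → ℝ := fun i =>
  if h : r.1 < i.1 then l ⟨i.1, h⟩ else if i = r then 1 - ∑ j, l j else 0

lemma toDC_up {q : Q} (r : Up q) [Fintype (Up r.1)] (l : Up r.1 → ℝ) (j : Up r.1) :
    toDC r l (up' r j) = l j := by
  unfold toDC
  have h : r.1 < (up' r j).1 := j.2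
  rw [dif_pos h]
  rfl

lemma toDC_self {q : Q} (r : Up q) [Fintype (Up r.1)] (l : Up r.1 → ℝ) :
    toDC r l r = 1 - ∑ j, l j := by
  unfold toDC
  rw [dif_neg (lt_irrefl _), if_pos rfl]

lemma toDC_off {q : Q} (r : Up q) [Fintype (Up r.1)] (l : Up r.1 → ℝ) {i : Up q}
    (h1 : ¬ r.1 < i.1) (h2 : i ≠ r) : toDC r l i = 0 := by
  unfold toDC
  rw [dif_neg h1, if_neg h2]

lemma sum_up {q : Q} [Fintype (Up q)] (r : Up q) [Fintype (Up r.1)] (l : Up q → ℝ)
    (h : ∀ i, l i ≠ 0 → r ≤ i) : ∑ i, l i = l r + ∑ j, l (up' r j) := by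
  have h1 : ∑ j, l (up' r j) = ∑ i ∈ Finset.univ.image (up' r), l i := by
    rw [Finset.sum_image fun i _ j _ hij => up'_inj r hij]
  have h2 : r ∉ Finset.univ.image (up' r) := by
    intro hr
    obtain ⟨j, -, hj⟩ := Finset.mem_image.1 hr
    have : j.1 = r.1 := congrArg (fun x : Up q => x.1) hj
    exact absurd j.2 (by rw [this]; exact lt_irrefl _)
  rw [h1, ← Finset.sum_insert h2]
  symm
  refine Finset.sum_subset (Finset.subset_univ _) fun i _ hi => ?_
  by_contra hne
  apply hi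
  rcases (h i hne).eq_or_lt with he | hlt
  · exact Finset.mem_insert.2 (Or.inl he.symm)
  · exact Finset.mem_insert_of_mem (Finset.mem_image.2 ⟨⟨i.1, hlt⟩, Finset.mem_univ _, rfl⟩)

lemma toDC_ne {q : Q} (r : Up q) [Fintype (Up r.1)] {l : Up r.1 → ℝ} {i : Up q}
    (h : toDC r l i ≠ 0) : i = r ∨ ∃ j, i = up' r j ∧ l j ≠ 0 := by
  by_cases h1 : i = r
  · exact Or.inl h1
  · by_cases h2 : r.1 < i.1
    · refine Or.inr ⟨⟨i.1, h2⟩, rfl, ?_⟩
      have h3 : i = up' r ⟨i.1, h2⟩ := rfl
      rw [h3, toDC_up] at h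
      exact h
    · exact absurd (toDC_off r l h2 h1) h

/-- the affine map -/
lemma plOn_toDC {q : Q} [Fintype (Up q)] (r : Up q) [Fintype (Up r.1)]
    (K : Set (Up r.1 → ℝ)) : PLOn (toDC r) K := by
  let A : (Up r.1 → ℝ) →ₗ[ℝ] (Up q → ℝ) := LinearMap.pi fun i =>
    if h : r.1 < i.1 then LinearMap.proj ⟨i.1, h⟩ else
      if i = r then -∑ j, LinearMap.proj j else 0
  let B : (Up r.1 → ℝ) →ᵃ[ℝ] (Up q → ℝ) :=
    A.toAffineMap + AffineMap.const ℝ _ (fun i => if i = r then (1:ℝ) else 0)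
  refine (plOn_affine B K).congr fun l _ => ?_
  funext i
  show toDC r l i = A l i + if i = r then (1:ℝ) else 0
  have hA : A l i = (if h : r.1 < i.1 then LinearMap.proj ⟨i.1, h⟩ else
      if i = r then -∑ j, LinearMap.proj j else 0 : (Up r.1 → ℝ) →ₗ[ℝ] ℝ) l := rfl
  rw [hA]
  unfold toDC
  by_cases h : r.1 < i.1
  · have hne : i ≠ r := by rintro rfl; exact lt_irrefl _ h
    simp [h, hne]
  · by_cases h2 : i = r
    · subst h2
      simp [LinearMap.sum_apply]
      ring
    · simp [h, h2]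

/-- **the dual cells are balls** -/
theorem isBall_DC (C : CC Λ Q) (hΛ : IsOpen Λ) (q : Q) [Fintype (Up q)] (r : Up q) :
    IsBall (cod C r.1) (DC q r) (⋃ r' ∈ {r' | r < r'}, DC q r') := by
  have : Finite (Up r.1) := finite_up C r.1
  let _ : Fintype (Up r.1) := Fintype.ofFinite _
  have hb := link C hΛ r.1
  have hto : ∀ l : Up r.1 → ℝ, Chn l → ∑ i, l i ≤ 1 → toDC r l ∈ DC q r := by
    intro l hl hs
    have hsup : ∀ i, toDC r l i ≠ 0 → r ≤ i := by
      intro i hi
      rcases toDC_ne r hi with h | ⟨j, h, -⟩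
      · rw [h]
      · rw [h]; exact j.2.le
    refine ⟨⟨fun i => ?_, fun i j hi hj => ?_⟩, ?_, hsup⟩
    · by_cases h : toDC r l i = 0
      · rw [h]
      · rcases toDC_ne r h with h | ⟨j, h, -⟩
        · rw [h, toDC_self]; linarith
        · rw [h, toDC_up]; exact hl.nn j
    · rcases toDC_ne r hi with h | ⟨a, h, ha⟩
      · left; rw [h]; exact hsup j hj
      · rcases toDC_ne r hj with h' | ⟨b, h', hb'⟩
        · right; rw [h']; exact hsup i hi
        · rw [h, h']; exact hl.ch a b ha hb'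
    · rw [sum_up r _ hsup, toDC_self]
      simp only [toDC_up]
      ring
  have hback : ∀ l ∈ DC q r, Chn (fun j => l (up' r j)) ∧ ∑ j, l (up' r j) ≤ 1 ∧
      toDC r (fun j => l (up' r j)) = l := by
    rintro l ⟨hl, hs, hsup⟩
    have h1 := sum_up r l hsup
    refine ⟨⟨fun j => hl.nn _, fun i j hi hj => hl.ch _ _ hi hj⟩, ?_, ?_⟩
    · have := hl.nn r; linarith
    · funext i
      by_cases h2 : r.1 < i.1
      · have h3 : i = up' r ⟨i.1, h2⟩ := rfl
        conv_lhs => rw [h3, toDC_up]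
        rfl
      · by_cases h4 : i = r
        · rw [h4, toDC_self]; linarith
        · rw [toDC_off r _ h2 h4]
          by_contra hne
          exact h2 (lt_of_le_of_ne (hsup i (Ne.symm hne)) fun h => h4 (Subtype.ext h.symm))
  let R : (Up q → ℝ) →ₗ[ℝ] (Up r.1 → ℝ) := LinearMap.pi fun j => LinearMap.proj (up' r j)
  let e : PLEquiv {l : Up r.1 → ℝ | Chn l ∧ ∑ i, l i ≤ 1} (DC q r) :=
    { f := toDC r
      g := fun l j => l (up' r j)
      pf := plOn_toDC r _
      pg := plOn_affine R.toAffineMap _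
      mf := fun l hl => hto l hl.1 hl.2
      mg := fun l hl => ⟨(hback l hl).1, (hback l hl).2.1⟩
      li := fun l _ => by funext j; exact toDC_up r l j
      ri := fun l hl => (hback l hl).2.2 }
  have h1 := hb.map e
  have h2 : e.f '' {l : Up r.1 → ℝ | Chn l ∧ ∑ i, l i = 1} = ⋃ r' ∈ {r' | r < r'}, DC q r' := by
    ext l
    simp only [mem_image, mem_iUnion, mem_setOf_eq, exists_prop]
    constructor
    · rintro ⟨k, ⟨hk, hks⟩, rfl⟩
      have h3 := hto k hk hks.le
      -- the support has a least element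
      have hne : ∃ i, toDC r k i ≠ 0 := by
        by_contra hcon
        push Not at hcon
        have := h3.2.1
        simp [hcon] at this
      obtain ⟨i, hi⟩ := hne
      obtain ⟨m, hm, hmin⟩ :=
        (Finset.univ.filter fun i => toDC r k i ≠ 0).exists_minimal ⟨i, by simpa using hi⟩
      have hm' : toDC r k m ≠ 0 := by simpa using hm
      refine ⟨m, lt_of_le_of_ne (h3.2.2 m hm') ?_, h3.1, h3.2.1, fun j hj => ?_⟩
      · rintro rfl
        apply hm'
        rw [toDC_self, hks]; ring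
      · rcases h3.1.ch j m hj hm' with h | h
        · exact hmin (by simpa using hj) h
        · exact h
    · rintro ⟨r', hr', hl⟩
      have h3 : l ∈ DC q r := ⟨hl.1, hl.2.1, fun i hi => hr'.le.trans (hl.2.2 i hi)⟩
      obtain ⟨a, b, c⟩ := hback l h3
      refine ⟨fun j => l (up' r j), ⟨a, ?_⟩, c⟩
      have h4 := sum_up r l h3.2.2
      have h5 : l r = 0 := by
        by_contra hne
        exact absurd hr' (not_lt_of_ge (hl.2.2 r hne))
      rw [h5, zero_add] at h4
      rw [← h4]; exact h3.2.1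
  rwa [h2] at h1

/-- the complex of the dual cells -/
theorem cplx_oc (C : CC Λ Q) (hΛ : IsOpen Λ) (q : Q) [Fintype (Up q)] :
    Cplx (OC q) (Up q)ᵒᵈ (fun r => cod C (OrderDual.ofDual r).1)
      (fun r => DC q (OrderDual.ofDual r)) where
  isBall r := by
    have h := isBall_DC C hΛ q (OrderDual.ofDual r)
    convert h using 1
    ext x
    simp only [mem_iUnion, exists_prop]
    constructor
    · rintro ⟨j, hj, hx⟩; exact ⟨OrderDual.ofDual j, hj, hx⟩
    · rintro ⟨j, hj, hx⟩; exact ⟨OrderDual.toDual j, hj, hx⟩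
  mono i j hij := cod_lt C hΛ (show (OrderDual.ofDual i).1 < (OrderDual.ofDual j).1 from hij)
  disj i j x hi hj := by
    have key : ∀ i j : (Up q)ᵒᵈ, Opn (fun r : (Up q)ᵒᵈ => DC q (OrderDual.ofDual r)) i x →
        Opn (fun r : (Up q)ᵒᵈ => DC q (OrderDual.ofDual r)) j x →
        OrderDual.ofDual i ≤ OrderDual.ofDual j := by
      intro i j hi hj
      have h1 : x (OrderDual.ofDual j) ≠ 0 := by
        intro h0
        -- then all of the support is above `j`, so `x` is in a smaller dual cell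
        have hne : ∃ i, x i ≠ 0 := by
          by_contra hcon
          push Not at hcon
          have := hj.1.2.1
          simp [hcon] at this
        obtain ⟨a, ha⟩ := hne
        obtain ⟨m, hm, hmin⟩ :=
          (Finset.univ.filter fun i => x i ≠ 0).exists_minimal ⟨a, by simpa using ha⟩
        have hm' : x m ≠ 0 := by simpa using hm
        have h2 : OrderDual.ofDual j < m :=
          lt_of_le_of_ne (hj.1.2.2 m hm') (by rintro h; exact hm' (h ▸ h0))
        refine hj.2 (OrderDual.toDual m) h2 ⟨hj.1.1, hj.1.2.1, fun b hb => ?_⟩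
        rcases hj.1.1.ch b m hb hm' with h | h
        · exact hmin (by simpa using hb) h
        · exact h
      exact hi.1.2.2 _ h1
    exact le_antisymm (key j i hj hi) (key i j hi hj)
  sub r l hl := ⟨hl.1, hl.2.1⟩
  cover l hl := by
    have hne : ∃ i, l i ≠ 0 := by
      by_contra hcon
      push Not at hcon
      have := hl.2
      simp [hcon] at this
    obtain ⟨a, ha⟩ := hne
    obtain ⟨m, hm, hmin⟩ :=
      (Finset.univ.filter fun i => l i ≠ 0).exists_minimal ⟨a, by simpa using ha⟩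
    have hm' : l m ≠ 0 := by simpa using hm
    refine ⟨OrderDual.toDual m, hl.1, hl.2, fun b hb => ?_⟩
    rcases hl.1.ch b m hb hm' with h | h
    · exact hmin (by simpa using hb) h
    · exact h
  lf x _ := ⟨1, one_pos, Set.toFinite _⟩

section gen

variable {E' : Type*} [NormedAddCommGroup E'] [NormedSpace ℝ E']

/-- **ARR-GEN.** -/
theorem bdry_sphere' (C : CC Λ Q) (hΛ : IsOpen Λ) (q : Q) {S : Set E'} {T : Up q → Set E'}
    (hball : ∀ r, IsBall (cod C r.1) (T r) (⋃ r' ∈ {r' | r < r'}, T r'))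
    (hsub : ∀ r, T r ⊆ S) (htop : ∀ x ∈ S, ∃ t : Up q, ∀ r, x ∈ T r ↔ r ≤ t) :
    Nonempty (PLEquiv (sph (cod C q)) S) := by
  have : Finite (Up q) := finite_up C q
  let _ : Fintype (Up q) := Fintype.ofFinite _
  have hC : Cplx S (Up q)ᵒᵈ (fun r => cod C (OrderDual.ofDual r).1)
      (fun r => T (OrderDual.ofDual r)) :=
    { isBall := fun r => by
        have h := hball (OrderDual.ofDual r)
        convert h using 1
        ext x
        simp only [mem_iUnion, exists_prop]
        constructor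
        · rintro ⟨j, hj, hx⟩; exact ⟨OrderDual.ofDual j, hj, hx⟩
        · rintro ⟨j, hj, hx⟩; exact ⟨OrderDual.toDual j, hj, hx⟩
      mono := fun i j hij =>
        cod_lt C hΛ (show (OrderDual.ofDual i).1 < (OrderDual.ofDual j).1 from hij)
      disj := fun i j x hi hj => by
        obtain ⟨t, ht⟩ := htop x (hsub _ hi.1)
        have key : ∀ i : (Up q)ᵒᵈ, Opn (fun r : (Up q)ᵒᵈ => T (OrderDual.ofDual r)) i x →
            OrderDual.ofDual i = t := by
          intro i hi
          have h1 := (ht _).1 hi.1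
          by_contra hne
          have h2 : OrderDual.ofDual i < t := lt_of_le_of_ne h1 hne
          exact hi.2 (OrderDual.toDual t) h2 ((ht _).2 le_rfl)
        have h1 := key i hi
        have h2 := key j hj
        exact OrderDual.ofDual.injective (h1.trans h2.symm)
      sub := fun r => hsub _
      cover := fun x hx => by
        obtain ⟨t, ht⟩ := htop x hx
        exact ⟨OrderDual.toDual t, (ht _).2 le_rfl⟩
      lf := fun x _ => ⟨1, one_pos, Set.toFinite _⟩ }
  have : Finite (Up q)ᵒᵈ := inferInstanceAs (Finite (Up q))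
  obtain ⟨e, -⟩ := Cplx.exists_equiv (cplx_oc C hΛ q) hC
  obtain ⟨a, ha⟩ := link C hΛ q
  have h1 : a.f '' sph (cod C q) = OC q := ha
  have b : PLEquiv (sph (cod C q)) (a.f '' sph (cod C q)) :=
    a.restrImage sphere_subset_closedBall
  rw [h1] at b
  exact ⟨b.trans e⟩

/-- **ARR-GEN**, with a top function -/
theorem bdry_sphere (C : CC Λ Q) (hΛ : IsOpen Λ) (q : Q) {S : Set E'} {T : Up q → Set E'}
    (hball : ∀ r, IsBall (cod C r.1) (T r) (⋃ r' ∈ {r' | r < r'}, T r'))
    (hsub : ∀ r, T r ⊆ S) (top : E' → Up q) (htop : ∀ x ∈ S, ∀ r, x ∈ T r ↔ r ≤ top x) :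
    Nonempty (PLEquiv (sph (cod C q)) S) :=
  bdry_sphere' C hΛ q hball hsub fun x hx => ⟨top x, htop x hx⟩

end gen

end Crest.Agent.R096.Ar_241
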