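import Crest.Agent.R096.PlCurve_296
import Crest.Agent.R096.PlCan2_458

-- ▼ part R096/PlOct_296
section

/-!
# Pushing closed subsets of the octahedral sphere into the lower half (helper296, row 96, P2-Y)
-/

namespace Crest.Agent.R096.Pl

open Set Metric Topology

set_option linter.unusedSectionVars false

/-! ### lifting PL homeos of the disc to the sphere -/

section lift

variable {F : Type*} [NormedAddCommGroup F] [NormedSpace ℝ F]

/-- transfer of a self map `f` of the unit ball of `F` to the upper half of the sphere -/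
noncomputable def onUpF (f : F → F) (p : F × ℝ) : F × ℝ :=
  if 0 ≤ p.2 then (f p.1, 1 - ‖f p.1‖) else p

theorem onUpF_mapsTo {f : F → F} (hf : ∀ x, ‖x‖ ≤ 1 → ‖f x‖ ≤ 1) :
    MapsTo (onUpF f) (S1 F) (S1 F) := by
  intro p hp
  have hp' : ‖p.1‖ + |p.2| = 1 := hp
  unfold onUpF
  split_ifs with h
  · have : ‖f p.1‖ ≤ 1 := hf _ (by have := abs_nonneg p.2; linarith)
    show ‖f p.1‖ + abs (1 - ‖f p.1‖) = 1
    rw [abs_of_nonneg (by linarith : 0 ≤ 1 - ‖f p.1‖)]; ring
  · exact hp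

theorem isClosed_Kp : IsClosed (Kp F) := by
  have : Kp F = {p : F × ℝ | 0 ≤ p.2} ∩ {p | N1 p = 1} := rfl
  rw [this]
  exact (isClosed_le continuous_const continuous_snd).inter
    (isClosed_eq N1_continuous continuous_const)

theorem isClosed_Km : IsClosed (Km F) := by
  have : Km F = {p : F × ℝ | p.2 ≤ 0} ∩ {p | N1 p = 1} := rfl
  rw [this]
  exact (isClosed_le continuous_snd continuous_const).inter
    (isClosed_eq N1_continuous continuous_const)

theorem onUpF_on_Km {f : F → F} (hb : ∀ x, 1 ≤ ‖x‖ → f x = x) :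
    ∀ p ∈ Km F, onUpF f p = p := by
  intro p hp
  unfold onUpF
  split_ifs with h
  · have h0 : p.2 = 0 := le_antisymm hp.1 h
    have hN : ‖p.1‖ + |p.2| = 1 := hp.2
    rw [h0, abs_zero, add_zero] at hN
    rw [hb _ hN.ge]; ext
    · rfl
    · simp [hN, h0]
  · rfl

theorem onUpF_continuousOn {f : F → F} (hf : Continuous f) (hb : ∀ x, 1 ≤ ‖x‖ → f x = x) :
    ContinuousOn (onUpF f) (S1 F) := by
  have hup : ContinuousOn (onUpF f) (Kp F) := by
    have : Continuous fun p : F × ℝ => (f p.1, 1 - ‖f p.1‖) := by fun_prop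
    refine this.continuousOn.congr fun p hp => ?_
    unfold onUpF; rw [if_pos hp.1]
  have hlo : ContinuousOn (onUpF f) (Km F) := continuousOn_id.congr (onUpF_on_Km hb)
  rw [← Kp_union_Km]
  exact hup.union_of_isClosed hlo isClosed_Kp isClosed_Km

theorem onUpF_sel (hF : PolyNorm F) {f : F → F} (hf : PLMap f) : SelOn (onUpF f) (S1 F) := by
  have h1 : PLMap fun p : F × ℝ => (f p.1, 1 - ‖f p.1‖) :=
    (hf.comp PLMap.id.fst).prodMk ((PLMap.const 1).sub (hF.pl.comp (hf.comp PLMap.id.fst)))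
  obtain ⟨G, hG, hG'⟩ := h1.selOn univ
  refine ⟨insert (AffineMap.id ℝ _) G, hG.insert _, fun p _ => ?_⟩
  unfold onUpF
  split_ifs
  · obtain ⟨a, ha, h⟩ := hG' p (mem_univ _)
    exact ⟨a, Or.inr ha, h⟩
  · exact ⟨_, Or.inl rfl, rfl⟩

theorem onUpF_leftInv {f f' : F → F} (hf : ∀ x, ‖x‖ ≤ 1 → ‖f x‖ ≤ 1)
    (h : ∀ x, f' (f x) = x) : ∀ p ∈ S1 F, onUpF f' (onUpF f p) = p := by
  intro p hp
  have hp' : ‖p.1‖ + |p.2| = 1 := hp
  by_cases h0 : 0 ≤ p.2
  · have h1 : ‖f p.1‖ ≤ 1 := hf _ (by have := abs_nonneg p.2; linarith)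
    have e : onUpF f p = (f p.1, 1 - ‖f p.1‖) := by unfold onUpF; rw [if_pos h0]
    rw [e]
    unfold onUpF
    rw [if_pos (by simpa using h1)]
    simp only [h]
    rw [abs_of_nonneg h0] at hp'
    ext
    · rfl
    · simp only; linarith
  · unfold onUpF
    rw [if_neg h0, if_neg h0]

/-- a PL homeo of `F` supported in the unit ball lifts to the upper half of the sphere -/
theorem exists_lift (hF : PolyNorm F) [FiniteDimensional ℝ F] {f : F ≃ₜ F} (hf : PLH f)
    (hb : ∀ x, 1 ≤ ‖x‖ → f x = x) :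
    ∃ H : (F × ℝ) ≃ₜ (F × ℝ), PLH H ∧ H '' S1 F = S1 F ∧ (∀ p ∈ Km F, H p = p) ∧
      (∀ p ∈ Kp F, H p = (f p.1, 1 - ‖f p.1‖)) := by
  have hb' : ∀ x, 1 ≤ ‖x‖ → f.symm x = x := fun x hx => by
    rw [Homeomorph.symm_apply_eq, hb x hx]
  have hle : ∀ x, ‖x‖ ≤ 1 → ‖f x‖ ≤ 1 := by
    intro x hx
    by_contra hlt
    push Not at hlt
    have := hb' (f x) hlt.le
    rw [f.symm_apply_apply] at this
    rw [← this] at hlt; linarith
  have hle' : ∀ x, ‖x‖ ≤ 1 → ‖f.symm x‖ ≤ 1 := by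
    intro x hx
    by_contra hlt
    push Not at hlt
    have := hb (f.symm x) hlt.le
    rw [f.apply_symm_apply] at this
    rw [← this] at hlt; linarith
  obtain ⟨H, hH, hHg, -, hHS⟩ := exists_cone hF (g := onUpF f) (g' := onUpF f.symm)
    (onUpF_continuousOn hf.1.continuous hb) (onUpF_sel hF hf.1)
    (onUpF_continuousOn hf.2.continuous hb') (onUpF_sel hF hf.2)
    (onUpF_mapsTo hle) (onUpF_mapsTo hle')
    (onUpF_leftInv hle f.symm_apply_apply) (onUpF_leftInv hle' f.apply_symm_apply)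
  refine ⟨H, hH, hHS, fun p hp => ?_, fun p hp => ?_⟩
  · rw [hHg p (by rw [← Kp_union_Km]; exact Or.inr hp), onUpF_on_Km hb p hp]
  · rw [hHg p (by rw [← Kp_union_Km]; exact Or.inl hp)]
    unfold onUpF; rw [if_pos hp.1]

end lift

/-! ### the plane with the sup norm -/

theorem norm_plane (x : ℝ × ℝ) : ‖x‖ = max |x.1| |x.2| := rfl

/-- the four sides of the unit square -/
noncomputable def sides : Fin 4 → (ℝ × ℝ) →ᵃ[ℝ] ℝ := ![
  AffineMap.const ℝ _ 1 - (LinearMap.fst ℝ ℝ ℝ).toAffineMap,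
  AffineMap.const ℝ _ 1 + (LinearMap.fst ℝ ℝ ℝ).toAffineMap,
  AffineMap.const ℝ _ 1 - (LinearMap.snd ℝ ℝ ℝ).toAffineMap,
  AffineMap.const ℝ _ 1 + (LinearMap.snd ℝ ℝ ℝ).toAffineMap]

theorem sides_pos {x : ℝ × ℝ} (hx : ‖x‖ < 1) : ∀ i, 0 < sides i x := by
  rw [norm_plane, max_lt_iff, abs_lt, abs_lt] at hx
  intro i
  fin_cases i <;> simp [sides] <;> linarith [hx.1.1, hx.1.2, hx.2.1, hx.2.2]

theorem sides_nonpos {x : ℝ × ℝ} (hx : 1 ≤ ‖x‖) : ∃ i, sides i x ≤ 0 := by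
  rw [norm_plane, le_max_iff, le_abs, le_abs] at hx
  rcases hx with (h | h) | (h | h)
  · exact ⟨0, by simp [sides]; linarith⟩
  · exact ⟨1, by simp [sides]; linarith⟩
  · exact ⟨2, by simp [sides]; linarith⟩
  · exact ⟨3, by simp [sides]; linarith⟩

/-- a point of the open upper half of the octahedral sphere can be moved to the top -/
theorem move_to_top {q : (ℝ × ℝ) × ℝ} (hq : q ∈ S1 (ℝ × ℝ)) (hpos : 0 < q.2) :
    ∃ H : ((ℝ × ℝ) × ℝ) ≃ₜ ((ℝ × ℝ) × ℝ), PLH H ∧ H '' S1 (ℝ × ℝ) = S1 (ℝ × ℝ) ∧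
      H q = (0, 1) := by
  have hq' : ‖q.1‖ + |q.2| = 1 := hq
  rw [abs_of_pos hpos] at hq'
  obtain ⟨f, hf, hf1, hf2, -⟩ := exists_coneMove sides (v := q.1) (v' := 0)
    (sides_pos (by linarith)) (sides_pos (by simp))
  obtain ⟨H, hH, hHS, -, hup⟩ := exists_lift polyNorm_plane hf
    (fun x hx => hf2 x (sides_nonpos hx))
  refine ⟨H, hH, hHS, ?_⟩
  rw [hup q ⟨hpos.le, hq⟩, hf1]; simp

/-! ### the upward moves -/

/-- rotated coordinates: `((u,w),z) ↦ ((u+w,u-w),z)`, `‖·‖_∞ ↔ ℓ¹` -/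
noncomputable def rotH : (ℝ × ℝ) ≃ₜ (ℝ × ℝ) :=
  mkH (fun p => (p.1 + p.2, p.1 - p.2)) (fun p => ((p.1 + p.2) / 2, (p.1 - p.2) / 2))
    ((PLMap.id.fst.add PLMap.id.snd).prodMk (PLMap.id.fst.sub PLMap.id.snd))
    (((PLMap.id.fst.add PLMap.id.snd).div_const 2).prodMk
      ((PLMap.id.fst.sub PLMap.id.snd).div_const 2))
    (fun p => by ext <;> simp) (fun p => by ext <;> simp <;> ring)

theorem rotH_apply (p : ℝ × ℝ) : rotH p = (p.1 + p.2, p.1 - p.2) := rfl

theorem rotH_symm_apply (p : ℝ × ℝ) : rotH.symm p = ((p.1 + p.2) / 2, (p.1 - p.2) / 2) := rfl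

theorem PLH_rotH : PLH rotH := PLH_mkH _ _ _ _ _ _

theorem norm_rotH (p : ℝ × ℝ) : ‖rotH p‖ = |p.1| + |p.2| := by
  rw [rotH_apply, norm_plane]
  apply le_antisymm
  · exact max_le (abs_add_le _ _) (by simpa using abs_sub p.1 p.2)
  · rcases le_total 0 p.1 with h | h <;> rcases le_total 0 p.2 with h' | h'
    · rw [abs_of_nonneg h, abs_of_nonneg h']; exact le_trans (le_abs_self _) (le_max_left _ _)
    · rw [abs_of_nonneg h, abs_of_nonpos h']
      exact le_trans (by rw [← sub_eq_add_neg]; exact le_abs_self _) (le_max_right _ _)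
    · rw [abs_of_nonpos h, abs_of_nonneg h']
      exact le_trans (by rw [show -p.1 + p.2 = -(p.1 - p.2) by ring]; exact neg_le_abs _)
        (le_max_right _ _)
    · rw [abs_of_nonpos h, abs_of_nonpos h']
      exact le_trans (by rw [show -p.1 + -p.2 = -(p.1 + p.2) by ring]; exact neg_le_abs _)
        (le_max_left _ _)

theorem norm_rotH' (p : ℝ × ℝ) : ‖rotH p‖ = N1 p := norm_rotH p

/-- product of homeos with the identity of the vertical axis -/
def timesId {F G : Type*} [TopologicalSpace F] [TopologicalSpace G] (h : F ≃ₜ G) :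
    (F × ℝ) ≃ₜ (G × ℝ) := h.prodCongr (Homeomorph.refl ℝ)

theorem timesId_apply {F G : Type*} [TopologicalSpace F] [TopologicalSpace G] (h : F ≃ₜ G)
    (p : F × ℝ) : timesId h p = (h p.1, p.2) := rfl

theorem PLH_timesId {F G : Type*} [NormedAddCommGroup F] [NormedSpace ℝ F]
    [NormedAddCommGroup G] [NormedSpace ℝ G] {h : F ≃ₜ G} (hh : PLH h) : PLH (timesId h) :=
  ⟨(hh.1.comp PLMap.id.fst).prodMk PLMap.id.snd, (hh.2.comp PLMap.id.fst).prodMk PLMap.id.snd⟩

/-- the upward move `G`, rotated coordinates -/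
noncomputable def gup (p : (ℝ × ℝ) × ℝ) : (ℝ × ℝ) × ℝ :=
  ((p.1.1 + |p.2| - |p.2 + max 0 p.1.1 / 2|, p.1.2), p.2 + max 0 p.1.1 / 2)

/-- its inverse -/
noncomputable def gdn (p : (ℝ × ℝ) × ℝ) : (ℝ × ℝ) × ℝ :=
  ((p.1.1 + |p.2| - abs (max (2 * p.2 - max 0 p.1.1 - |p.2|) ((2 * p.2 - max 0 p.1.1 - |p.2|) / 3)),
    p.1.2), max (2 * p.2 - max 0 p.1.1 - |p.2|) ((2 * p.2 - max 0 p.1.1 - |p.2|) / 3))

theorem gup_pl : PLMap gup :=
  (((PLMap.id.fst.fst.add PLMap.id.snd.abs).sub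
    ((PLMap.id.snd.add (((PLMap.const 0).max PLMap.id.fst.fst).div_const 2)).abs)).prodMk
      PLMap.id.fst.snd).prodMk (PLMap.id.snd.add (((PLMap.const 0).max PLMap.id.fst.fst).div_const 2))

theorem gdn_aux : PLMap (fun p : (ℝ × ℝ) × ℝ => max (2 * p.2 - max 0 p.1.1 - |p.2|)
    ((2 * p.2 - max 0 p.1.1 - |p.2|) / 3)) := by
  have h1 : PLMap (fun p : (ℝ × ℝ) × ℝ => 2 * p.2 - max 0 p.1.1 - |p.2|) :=
    ((PLMap.id.snd.const_mul 2).sub ((PLMap.const 0).max PLMap.id.fst.fst)).sub PLMap.id.snd.abs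
  exact h1.max (h1.div_const 3)

theorem gdn_pl : PLMap gdn :=
  (((PLMap.id.fst.fst.add PLMap.id.snd.abs).sub gdn_aux.abs).prodMk PLMap.id.fst.snd).prodMk gdn_aux

theorem gdn_gup (p : (ℝ × ℝ) × ℝ) : gdn (gup p) = p := by
  obtain ⟨⟨u, w⟩, z⟩ := p
  -- it suffices to compute the third coordinate
  have key : max (2 * (z + max 0 u / 2) - max 0 (u + |z| - |z + max 0 u / 2|) -
      |z + max 0 u / 2|) ((2 * (z + max 0 u / 2) - max 0 (u + |z| - |z + max 0 u / 2|) -
      |z + max 0 u / 2|) / 3) = z := by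
    rcases le_total u 0 with hu | hu
    · rw [max_eq_left hu]
      have e1 : max 0 (u + |z| - |z + 0 / 2|) = 0 := by
        rw [zero_div, add_zero]; exact max_eq_left (by linarith)
      rw [e1, zero_div, add_zero, sub_zero]
      rcases le_total z 0 with hz | hz
      · rw [abs_of_nonpos hz, max_eq_right (by linarith)]; ring
      · rw [abs_of_nonneg hz, max_eq_left (by linarith)]; ring
    · rw [max_eq_right hu]
      rcases le_total z 0 with hz | hz
      · rw [abs_of_nonpos hz]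
        rcases le_total (z + u / 2) 0 with h | h
        · rw [abs_of_nonpos h, max_eq_right (by linarith : 0 ≤ u + -z - -(z + u / 2)),
            max_eq_right (by linarith)]; ring
        · rw [abs_of_nonneg h, max_eq_right (by linarith : 0 ≤ u + -z - (z + u / 2)),
            max_eq_right (by linarith)]; ring
      · rw [abs_of_nonneg hz, abs_of_nonneg (by linarith),
          max_eq_right (by linarith : 0 ≤ u + z - (z + u / 2)), max_eq_left (by linarith)]; ring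
  unfold gdn gup
  simp only
  rw [key]
  ext
  · simp
  · simp
  · simp

theorem gup_gdn (p : (ℝ × ℝ) × ℝ) : gup (gdn p) = p := by
  obtain ⟨⟨u, w⟩, z⟩ := p
  set s := 2 * z - max 0 u - |z| with hs
  have key : max s (s / 3) + max 0 (u + |z| - abs (max s (s / 3))) / 2 = z := by
    rcases le_total u 0 with hu | hu
    · rw [max_eq_left hu] at hs
      have e : max s (s / 3) = z := by
        rcases le_total z 0 with hz | hz
        · rw [abs_of_nonpos hz] at hs
          rw [max_eq_right (by linarith)]; linarith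
        · rw [abs_of_nonneg hz] at hs
          rw [max_eq_left (by linarith)]; linarith
      rw [e, max_eq_left (by linarith)]; ring
    · rw [max_eq_right hu] at hs
      rcases le_total s 0 with h | h
      · rw [max_eq_right (by linarith : s ≤ s / 3), abs_of_nonpos (by linarith : s / 3 ≤ 0)]
        rcases le_total z 0 with hz | hz
        · rw [abs_of_nonpos hz] at hs ⊢
          rw [max_eq_right (by linarith)]; linarith
        · rw [abs_of_nonneg hz] at hs ⊢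
          rw [max_eq_right (by linarith)]; linarith
      · rw [max_eq_left (by linarith : s / 3 ≤ s), abs_of_nonneg h]
        rcases le_total z 0 with hz | hz
        · rw [abs_of_nonpos hz] at hs ⊢
          rw [max_eq_right (by linarith)]; linarith
        · rw [abs_of_nonneg hz] at hs ⊢
          rw [max_eq_right (by linarith)]; linarith
  unfold gup gdn
  simp only
  rw [← hs, key]
  ext
  · simp
  · simp
  · simp

/-- the octahedral gauge in rotated coordinates -/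
def oct (p : (ℝ × ℝ) × ℝ) : ℝ := |p.1.1| + |p.1.2| + |p.2|

theorem oct_gup (p : (ℝ × ℝ) × ℝ) : oct (gup p) = oct p := by
  obtain ⟨⟨u, w⟩, z⟩ := p
  unfold oct gup
  simp only
  rcases le_total u 0 with hu | hu
  · rw [max_eq_left hu, zero_div, add_zero]
    rw [show u + |z| - |z| = u by ring]
  · rw [max_eq_right hu]
    have h1 : |z + u / 2| ≤ |z| + u / 2 := by
      have := abs_add_le z (u / 2); rwa [abs_of_nonneg (by linarith : 0 ≤ u / 2)] at this
    rw [abs_of_nonneg (by linarith : 0 ≤ u + |z| - |z + u / 2|), abs_of_nonneg hu]; ring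

theorem gup_snd (p : (ℝ × ℝ) × ℝ) : p.2 ≤ (gup p).2 := by
  have h := le_max_left 0 p.1.1
  show p.2 ≤ p.2 + max 0 p.1.1 / 2
  linarith

theorem gup_snd_eq {p : (ℝ × ℝ) × ℝ} (h : (gup p).2 = p.2) : gup p = p ∧ p.1.1 ≤ 0 := by
  have h1 : max 0 p.1.1 = 0 := by
    unfold gup at h
    simp only at h; linarith
  refine ⟨?_, by rw [← h1]; exact le_max_right _ _⟩
  unfold gup
  rw [h1]; ext <;> simp

/-- `gup` as a homeo -/
noncomputable def gH : ((ℝ × ℝ) × ℝ) ≃ₜ ((ℝ × ℝ) × ℝ) := mkH gup gdn gup_pl gdn_pl gdn_gup gup_gdn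

theorem PLH_gH : PLH gH := PLH_mkH _ _ _ _ _ _

theorem gH_apply (p : (ℝ × ℝ) × ℝ) : gH p = gup p := rfl

/-- "good upward moves" in rotated coordinates -/
structure Upw (H : ((ℝ × ℝ) × ℝ) ≃ₜ ((ℝ × ℝ) × ℝ)) (P : (ℝ × ℝ) × ℝ → Prop) : Prop where
  pl : PLH H
  oct : ∀ p, oct (H p) = oct p
  up : ∀ p, p.2 ≤ (H p).2
  eq : ∀ p, (H p).2 = p.2 → H p = p ∧ P p

theorem Upw.trans {H K : ((ℝ × ℝ) × ℝ) ≃ₜ ((ℝ × ℝ) × ℝ)} {P Q : (ℝ × ℝ) × ℝ → Prop}
    (h : Upw H P) (k : Upw K Q) : Upw (H.trans K) (fun p => P p ∧ Q p) where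
  pl := h.pl.trans k.pl
  oct := fun p => by
    show Pl.oct (K (H p)) = Pl.oct p
    rw [k.oct, h.oct]
  up := fun p => (h.up p).trans (k.up (H p))
  eq := fun p hp => by
    have hp' : (K (H p)).2 = p.2 := hp
    have h1 := h.up p
    have h2 := k.up (H p)
    have e1 : (H p).2 = p.2 := by linarith
    have e2 : (K (H p)).2 = (H p).2 := by linarith
    obtain ⟨h3, h4⟩ := h.eq p e1
    obtain ⟨h5, h6⟩ := k.eq (H p) e2
    refine ⟨?_, h4, ?_⟩
    · show K (H p) = p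
      rw [h5, h3]
    · rw [h3] at h6; exact h6

/-- conjugation by a symmetry fixing the vertical coordinate -/
theorem Upw.conj {H σ : ((ℝ × ℝ) × ℝ) ≃ₜ ((ℝ × ℝ) × ℝ)} {P : (ℝ × ℝ) × ℝ → Prop}
    (h : Upw H P) (hσ : PLH σ) (ho : ∀ p, Pl.oct (σ p) = Pl.oct p) (hz : ∀ p, (σ p).2 = p.2)
    (hi : ∀ p, σ (σ p) = p) : Upw (σ.trans (H.trans σ)) (fun p => P (σ p)) where
  pl := hσ.trans (h.pl.trans hσ)
  oct := fun p => by
    show Pl.oct (σ (H (σ p))) = Pl.oct p
    rw [ho, h.oct, ho]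
  up := fun p => by
    show p.2 ≤ (σ (H (σ p))).2
    rw [hz, ← hz p]; exact h.up _
  eq := fun p hp => by
    have hp' : (σ (H (σ p))).2 = p.2 := hp
    rw [hz, ← hz p] at hp'
    obtain ⟨h1, h2⟩ := h.eq (σ p) hp'
    refine ⟨?_, h2⟩
    show σ (H (σ p)) = p
    rw [h1, hi]

theorem upw_g : Upw gH (fun p => p.1.1 ≤ 0) :=
  ⟨PLH_gH, oct_gup, gup_snd, fun _ h => gup_snd_eq h⟩

/-- `u ↦ -u` -/
noncomputable def sgH : ((ℝ × ℝ) × ℝ) ≃ₜ ((ℝ × ℝ) × ℝ) :=
  mkH (fun p => ((-p.1.1, p.1.2), p.2)) (fun p => ((-p.1.1, p.1.2), p.2))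
    ((PLMap.id.fst.fst.neg.prodMk PLMap.id.fst.snd).prodMk PLMap.id.snd)
    ((PLMap.id.fst.fst.neg.prodMk PLMap.id.fst.snd).prodMk PLMap.id.snd)
    (fun p => by ext <;> simp) (fun p => by ext <;> simp)

/-- `u ↔ w` -/
noncomputable def swH : ((ℝ × ℝ) × ℝ) ≃ₜ ((ℝ × ℝ) × ℝ) :=
  mkH (fun p => ((p.1.2, p.1.1), p.2)) (fun p => ((p.1.2, p.1.1), p.2))
    ((PLMap.id.fst.snd.prodMk PLMap.id.fst.fst).prodMk PLMap.id.snd)
    ((PLMap.id.fst.snd.prodMk PLMap.id.fst.fst).prodMk PLMap.id.snd)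
    (fun p => rfl) (fun p => rfl)

theorem exists_upw : ∃ H : ((ℝ × ℝ) × ℝ) ≃ₜ ((ℝ × ℝ) × ℝ), Upw H (fun p => p.1 = 0) := by
  have h1 := upw_g
  have h2 := h1.conj (σ := sgH) (PLH_mkH _ _ _ _ _ _)
    (fun p => by show |-p.1.1| + |p.1.2| + |p.2| = |p.1.1| + |p.1.2| + |p.2|; rw [abs_neg])
    (fun p => rfl) (fun p => by show ((- -p.1.1, p.1.2), p.2) = p; rw [neg_neg])
  have h12 := h1.trans h2
  have h34 := h12.conj (σ := swH) (PLH_mkH _ _ _ _ _ _)
    (fun p => by show |p.1.2| + |p.1.1| + |p.2| = |p.1.1| + |p.1.2| + |p.2|; ring)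
    (fun p => rfl) (fun p => rfl)
  have h := h12.trans h34
  refine ⟨_, h.pl, h.oct, h.up, fun p hp => ?_⟩
  obtain ⟨h5, ⟨h6, h7⟩, h8, h9⟩ := h.eq p hp
  refine ⟨h5, ?_⟩
  have e6 : p.1.1 ≤ 0 := h6
  have e7 : -p.1.1 ≤ 0 := h7
  have e8 : p.1.2 ≤ 0 := h8
  have e9 : -p.1.2 ≤ 0 := h9
  ext
  · show p.1.1 = 0; linarith
  · show p.1.2 = 0; linarith

/-! ### dynamics -/

/-- an upward move of the octahedral sphere in the original coordinates -/
theorem exists_up : ∃ M : ((ℝ × ℝ) × ℝ) ≃ₜ ((ℝ × ℝ) × ℝ), PLH M ∧ M '' S1 (ℝ × ℝ) = S1 (ℝ × ℝ) ∧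
    (∀ p, p.2 ≤ (M p).2) ∧ ∀ p, (M p).2 = p.2 → p.1 = 0 := by
  obtain ⟨H, hH⟩ := exists_upw
  have hN : ∀ p : (ℝ × ℝ) × ℝ, N1 (timesId rotH p) = oct p := by
    intro p
    show ‖rotH p.1‖ + |p.2| = |p.1.1| + |p.1.2| + |p.2|
    rw [norm_rotH]
  let K := timesId rotH
  have hK : PLH K := PLH_timesId PLH_rotH
  refine ⟨K.symm.trans (H.trans K), hK.symm.trans (hH.pl.trans hK), ?_, ?_, ?_⟩
  · have hsub : ∀ p, N1 ((K.symm.trans (H.trans K)) p) = N1 p := by
      intro p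
      show N1 (K (H (K.symm p))) = N1 p
      rw [hN, hH.oct, ← hN]
      show N1 (K (K.symm p)) = N1 p
      rw [K.apply_symm_apply]
    apply Subset.antisymm
    · rintro _ ⟨p, hp, rfl⟩
      show N1 _ = 1
      rw [hsub]; exact hp
    · intro p hp
      refine ⟨(K.symm.trans (H.trans K)).symm p, ?_, Homeomorph.apply_symm_apply _ _⟩
      show N1 _ = 1
      rw [← hsub, Homeomorph.apply_symm_apply]; exact hp
  · intro p
    show p.2 ≤ (H (K.symm p)).2
    exact hH.up (K.symm p)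
  · intro p hp
    have hp' : (H (K.symm p)).2 = (K.symm p).2 := hp
    have := (hH.eq _ hp').2
    have h2 : rotH.symm p.1 = 0 := this
    rw [Homeomorph.symm_apply_eq] at h2
    rw [h2, rotH_apply]; simp

/-- composition powers of a homeo preserving the sphere -/
theorem exists_iter {M : ((ℝ × ℝ) × ℝ) ≃ₜ ((ℝ × ℝ) × ℝ)} (hM : PLH M)
    (hMS : M '' S1 (ℝ × ℝ) = S1 (ℝ × ℝ)) (n : ℕ) :
    ∃ K : ((ℝ × ℝ) × ℝ) ≃ₜ ((ℝ × ℝ) × ℝ), PLH K ∧ K '' S1 (ℝ × ℝ) = S1 (ℝ × ℝ) ∧
      ∀ p, K p = M^[n] p := by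
  induction n with
  | zero => exact ⟨Homeomorph.refl _, PLH.refl, by simp, fun p => rfl⟩
  | succ n ih =>
    obtain ⟨K, hK, hKS, h⟩ := ih
    refine ⟨M.trans K, hM.trans hK, by rw [trans_image, hMS, hKS], fun p => ?_⟩
    rw [Function.iterate_succ_apply, ← h]; rfl

theorem isCompact_S1 {F : Type*} [NormedAddCommGroup F] [NormedSpace ℝ F]
    [FiniteDimensional ℝ F] : IsCompact (S1 F) :=
  isCompact_le.of_isClosed_subset (isClosed_eq N1_continuous continuous_const) S1_subset_le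

/-- closed subsets missing the bottom are moved into the open upper half -/
theorem push_up {A : Set ((ℝ × ℝ) × ℝ)} (hA : IsClosed A) (hAS : A ⊆ S1 (ℝ × ℝ))
    (hB : ((0 : ℝ × ℝ), (-1 : ℝ)) ∉ A) :
    ∃ K : ((ℝ × ℝ) × ℝ) ≃ₜ ((ℝ × ℝ) × ℝ), PLH K ∧ K '' S1 (ℝ × ℝ) = S1 (ℝ × ℝ) ∧
      ∀ p ∈ A, 0 < (K p).2 := by
  obtain ⟨M, hM, hMS, hup, hstrict⟩ := exists_up
  rcases A.eq_empty_or_nonempty with rfl | hne
  · exact ⟨Homeomorph.refl _, PLH.refl, by simp, by simp⟩
  have hAc : IsCompact A := isCompact_S1.of_isClosed_subset hA hAS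
  obtain ⟨a, ha, hamin⟩ := hAc.exists_isMinOn hne continuous_snd.continuousOn
  have hbot : ∀ p ∈ S1 (ℝ × ℝ), p.1 = 0 → p.2 = 1 ∨ p.2 = -1 := by
    intro p hp h0
    have : ‖p.1‖ + |p.2| = 1 := hp
    rw [h0, norm_zero, zero_add] at this
    exact eq_or_eq_neg_of_abs_eq this
  have hge : ∀ p ∈ S1 (ℝ × ℝ), -1 ≤ p.2 := by
    intro p hp
    have h1 : ‖p.1‖ + |p.2| = 1 := hp
    have := neg_abs_le p.2
    have := norm_nonneg p.1
    linarith
  have hac : -1 < a.2 := by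
    rcases (hge a (hAS ha)).eq_or_lt with h | h
    · exfalso
      have h1 : ‖a.1‖ + |a.2| = 1 := hAS ha
      rw [← h] at h1
      norm_num at h1
      exact hB (by rw [show ((0 : ℝ × ℝ), (-1 : ℝ)) = a from Prod.ext h1.symm h]; exact ha)
    · exact h
  -- the compact set where progress is uniform
  let C : Set ((ℝ × ℝ) × ℝ) := S1 (ℝ × ℝ) ∩ {p | a.2 ≤ p.2 ∧ p.2 ≤ 0}
  have hCc : IsCompact C := isCompact_S1.inter_right
    ((isClosed_le continuous_const continuous_snd).inter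
      (isClosed_le continuous_snd continuous_const))
  have hκ : ∃ κ > 0, ∀ p ∈ C, p.2 + κ ≤ (M p).2 := by
    rcases C.eq_empty_or_nonempty with hCe | hCn
    · exact ⟨1, one_pos, by rw [hCe]; simp⟩
    · have hcont : Continuous fun p : (ℝ × ℝ) × ℝ => (M p).2 - p.2 :=
        (continuous_snd.comp M.continuous).sub continuous_snd
      obtain ⟨b, hb, hbmin⟩ := hCc.exists_isMinOn hCn hcont.continuousOn
      refine ⟨(M b).2 - b.2, ?_, fun p hp => ?_⟩
      · rcases (hup b).eq_or_lt with h | h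
        · exfalso
          rcases hbot b hb.1 (hstrict b h.symm) with h' | h'
          · have := hb.2.2; linarith
          · have := hb.2.1; linarith
        · linarith
      · have := hbmin hp
        simp only [mem_ofPred_eq] at this
        linarith
  obtain ⟨κ, hκ0, hκ⟩ := hκ
  have key : ∀ n : ℕ, ∀ p ∈ A, M^[n] p ∈ S1 (ℝ × ℝ) ∧ a.2 ≤ (M^[n] p).2 ∧
      (0 < (M^[n] p).2 ∨ a.2 + n * κ ≤ (M^[n] p).2) := by
    intro n
    induction n with
    | zero =>
      intro p hp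
      refine ⟨hAS hp, hamin hp, Or.inr ?_⟩
      have := hamin hp
      simpa using this
    | succ n ih =>
      intro p hp
      obtain ⟨h1, h2, h3⟩ := ih p hp
      rw [Function.iterate_succ_apply']
      have h4 := hup (M^[n] p)
      refine ⟨by rw [← hMS]; exact mem_image_of_mem _ h1, h2.trans h4, ?_⟩
      rcases lt_or_ge 0 (M^[n] p).2 with h5 | h5
      · exact Or.inl (lt_of_lt_of_le h5 h4)
      · right
        have h6 := hκ (M^[n] p) ⟨h1, h2, h5⟩
        rcases h3 with h3 | h3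
        · linarith
        · push_cast; linarith
  obtain ⟨n, hn⟩ := exists_nat_gt (-a.2 / κ)
  obtain ⟨K, hK, hKS, hKe⟩ := exists_iter hM hMS n
  refine ⟨K, hK, hKS, fun p hp => ?_⟩
  rw [hKe]
  rcases (key n p hp).2.2 with h | h
  · exact h
  · rw [div_lt_iff₀ hκ0] at hn
    linarith

/-- **push-off lemma**: every closed proper subset of the octahedral sphere is moved into the open
lower half by a PL homeo preserving the sphere -/
theorem push_off {A : Set ((ℝ × ℝ) × ℝ)} (hA : IsClosed A) (hAS : A ⊆ S1 (ℝ × ℝ))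
    (hne : A ≠ S1 (ℝ × ℝ)) :
    ∃ K : ((ℝ × ℝ) × ℝ) ≃ₜ ((ℝ × ℝ) × ℝ), PLH K ∧ K '' S1 (ℝ × ℝ) = S1 (ℝ × ℝ) ∧
      ∀ p ∈ A, (K p).2 < 0 := by
  -- a point of the complement which is not the bottom
  obtain ⟨q, hqS, hqA, hqB⟩ : ∃ q ∈ S1 (ℝ × ℝ), q ∉ A ∧ q ≠ ((0 : ℝ × ℝ), (-1 : ℝ)) := by
    obtain ⟨q, hqS, hqA⟩ : ∃ q ∈ S1 (ℝ × ℝ), q ∉ A := by
      by_contra hcon
      push Not at hcon
      exact hne (Subset.antisymm hAS hcon)
    by_cases hq : q = ((0 : ℝ × ℝ), (-1 : ℝ))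
    · -- move a little
      let γ : ℝ → (ℝ × ℝ) × ℝ := fun t => ((t, 0), -1 + |t|)
      have hγ : Continuous γ := by fun_prop
      have hγ0 : γ 0 ∈ Aᶜ := by
        have : γ 0 = q := by rw [hq]; simp [γ]
        rw [this]; exact hqA
      have := (hγ.tendsto 0).eventually (hA.isOpen_compl.mem_nhds hγ0)
      obtain ⟨ε, hε, hball⟩ := Metric.eventually_nhds_iff.1 this
      set δ := min (ε / 2) (1 / 2) with hδ
      have hδ0 : 0 < δ := lt_min (by linarith) (by norm_num)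
      have hδ1 : δ ≤ 1 / 2 := min_le_right _ _
      have h1 := hball (y := δ) (by
        rw [Real.dist_eq, sub_zero, abs_of_pos hδ0]
        exact lt_of_le_of_lt (min_le_left _ _) (by linarith))
      refine ⟨γ δ, ?_, h1, ?_⟩
      · show ‖((δ, 0) : ℝ × ℝ)‖ + abs (-1 + |δ|) = 1
        rw [norm_plane, abs_of_pos hδ0, abs_zero, max_eq_left hδ0.le,
          abs_of_nonpos (by linarith)]; ring
      · intro h
        have := congrArg (fun p => p.1.1) h
        simp only [γ, Prod.fst_zero] at this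
        linarith
    · exact ⟨q, hqS, hqA, hq⟩
  -- move `q` to the top
  obtain ⟨K1, hK1, hK1S, hK1q⟩ := push_up (A := {q}) isClosed_singleton (by simpa using hqS)
    (by simpa using hqB.symm)
  have hq1 : K1 q ∈ S1 (ℝ × ℝ) := by rw [← hK1S]; exact mem_image_of_mem _ hqS
  obtain ⟨K2, hK2, hK2S, hK2q⟩ := move_to_top hq1 (hK1q q rfl)
  -- reflect and push up
  let R := refl (ℝ × ℝ)
  have hRS : R '' S1 (ℝ × ℝ) = S1 (ℝ × ℝ) := by
    rw [← Kp_union_Km, image_union, refl_image_Kp, refl_image_Km, union_comm]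
  let L := (K1.trans K2).trans R
  have hLS : L '' S1 (ℝ × ℝ) = S1 (ℝ × ℝ) := by
    rw [trans_image, trans_image, hK1S, hK2S, hRS]
  have hLA : IsClosed (L '' A) := L.isClosedMap _ hA
  have hLq : L q = ((0 : ℝ × ℝ), (-1 : ℝ)) := by
    show R (K2 (K1 q)) = _
    rw [hK2q]; rfl
  obtain ⟨K3, hK3, hK3S, hK3A⟩ := push_up hLA (by rw [← hLS]; exact image_mono hAS) (by
    rintro ⟨p, hp, hp'⟩
    rw [← hLq] at hp'
    exact hqA (L.injective hp' ▸ hp))
  refine ⟨(L.trans K3).trans R, (((hK1.trans hK2).trans PLH_refl).trans hK3).trans PLH_refl, ?_, ?_⟩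
  · rw [trans_image, trans_image, hLS, hK3S, hRS]
  · intro p hp
    show (R (K3 (L p))).2 < 0
    have := hK3A (L p) (mem_image_of_mem _ hp)
    show -(K3 (L p)).2 < 0
    linarith

end Crest.Agent.R096.Pl
end

-- ▼ part R096/PlSph_296

/-!
# The PL Schoenflies theorem on the octahedral sphere and the 3-dimensional set cut lemma
(helper296, row 96, P2-Y)
-/

namespace Crest.Agent.R096.Pl

open Set Metric Topology

set_option linter.unusedSectionVars false

/-! ### generalities on finite selections and inverses -/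

section gen

variable {V W U : Type*}
  [NormedAddCommGroup V] [NormedSpace ℝ V]
  [NormedAddCommGroup W] [NormedSpace ℝ W]
  [NormedAddCommGroup U] [NormedSpace ℝ U]

theorem SelOn.comp {f : W → U} {g : V → W} {S : Set V} {T : Set W} (hf : SelOn f T)
    (hg : SelOn g S) (h : MapsTo g S T) : SelOn (fun x => f (g x)) S := by
  obtain ⟨F, hF, hf⟩ := hf
  obtain ⟨G, hG, hg⟩ := hg
  refine ⟨image2 (fun a b => a.comp b) F G, hF.image2 _ hG, fun x hx => ?_⟩
  obtain ⟨b, hb, hb'⟩ := hg x hx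
  obtain ⟨a, ha, ha'⟩ := hf (g x) (h hx)
  refine ⟨a.comp b, mem_image2_of_mem ha hb, ?_⟩
  beta_reduce; rw [ha', hb']; rfl

theorem SelOn.congr {f g : V → W} {S : Set V} (hf : SelOn f S) (h : ∀ x ∈ S, g x = f x) :
    SelOn g S := by
  obtain ⟨F, hF, hf⟩ := hf
  refine ⟨F, hF, fun x hx => ?_⟩
  rw [h x hx]; exact hf x hx

theorem continuousOn_leftInv {X Y : Type*} [TopologicalSpace X] [TopologicalSpace Y] [T2Space Y]
    {b : X → Y} {K : Set X} (hK : IsCompact K) (hb : ContinuousOn b K) {g : Y → X}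
    (hg : ∀ x ∈ K, g (b x) = x) : ContinuousOn g (b '' K) := by
  rw [continuousOn_iff_isClosed]
  intro C hC
  refine ⟨b '' (K ∩ C), ((hK.inter_right hC).image_of_continuousOn
    (hb.mono inter_subset_left)).isClosed, ?_⟩
  ext y
  constructor
  · rintro ⟨hy1, x, hx, rfl⟩
    have : g (b x) ∈ C := hy1
    rw [hg x hx] at this
    exact ⟨mem_image_of_mem _ ⟨hx, this⟩, mem_image_of_mem _ hx⟩
  · rintro ⟨⟨x, ⟨hx, hxC⟩, rfl⟩, -⟩
    refine ⟨?_, mem_image_of_mem _ hx⟩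
    show g (b x) ∈ C
    rw [hg x hx]; exact hxC

end gen

section glue

variable {F : Type*} [NormedAddCommGroup F] [NormedSpace ℝ F]

/-- **gluing two PL discs to a homeo of the sphere.** -/
theorem exists_glue (hF : PolyNorm F) [FiniteDimensional ℝ F] {gp gm : F → F × ℝ}
    (hgp : PLMap gp) (hgm : PLMap gm) (hag : ∀ x, ‖x‖ = 1 → gp x = gm x)
    (hip : InjOn gp (closedBall 0 1)) (him : InjOn gm (closedBall 0 1)) {D E : Set (F × ℝ)}
    (hD : gp '' closedBall 0 1 = D) (hE : gm '' closedBall 0 1 = E) (hDE : D ∪ E = S1 F)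
    (hint : D ∩ E = gp '' sphere 0 1) :
    ∃ H : (F × ℝ) ≃ₜ (F × ℝ), PLH H ∧ H '' S1 F = S1 F ∧ H '' Kp F = D ∧ H '' Km F = E ∧
      (∀ x ∈ closedBall (0 : F) 1, H (ep x) = gp x) ∧
      (∀ x ∈ closedBall (0 : F) 1, H (em x) = gm x) := by
  classical
  have hprop : ProperSpace F := FiniteDimensional.proper ℝ F
  have hQ : IsCompact (closedBall (0 : F) 1) := isCompact_closedBall 0 1
  let ip : F × ℝ → F := Function.invFunOn gp (closedBall 0 1)
  let im : F × ℝ → F := Function.invFunOn gm (closedBall 0 1)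
  have hipg : ∀ x ∈ closedBall (0 : F) 1, ip (gp x) = x := fun x hx =>
    hip.leftInvOn_invFunOn hx
  have himg : ∀ x ∈ closedBall (0 : F) 1, im (gm x) = x := fun x hx =>
    him.leftInvOn_invFunOn hx
  have hgmS : gm '' sphere 0 1 = gp '' sphere 0 1 :=
    image_congr fun x hx => (hag x (by simpa using hx)).symm
  have hDc : IsClosed D := by rw [← hD]; exact (hQ.image hgp.continuous).isClosed
  have hEc : IsClosed E := by rw [← hE]; exact (hQ.image hgm.continuous).isClosed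
  -- on the interface the two inverses agree
  have hinv : ∀ q ∈ D ∩ E, ∃ x, ‖x‖ = 1 ∧ ip q = x ∧ im q = x ∧ q = gp x := by
    intro q hq
    rw [hint] at hq
    obtain ⟨x, hx, rfl⟩ := hq
    have hx1 : ‖x‖ = 1 := by simpa using hx
    have hxQ : x ∈ closedBall (0 : F) 1 := by simp [hx1]
    exact ⟨x, hx1, hipg x hxQ, by rw [hag x hx1, himg x hxQ], rfl⟩
  let g : F × ℝ → F × ℝ := fun p => if 0 ≤ p.2 then gp p.1 else gm p.1
  let g' : F × ℝ → F × ℝ := fun q => if q ∈ D then ep (ip q) else em (im q)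
  have hfstQ : ∀ p ∈ S1 F, p.1 ∈ closedBall (0 : F) 1 := by
    intro p hp
    have : ‖p.1‖ + |p.2| = 1 := hp
    have := abs_nonneg p.2
    rw [mem_closedBall, dist_zero_right]; linarith
  have hgKp : ∀ p ∈ Kp F, g p = gp p.1 := fun p hp => if_pos hp.1
  have hgKm : ∀ p ∈ Km F, g p = gm p.1 := by
    intro p hp
    show (if 0 ≤ p.2 then gp p.1 else gm p.1) = gm p.1
    split_ifs with h
    · have h0 : p.2 = 0 := le_antisymm hp.1 h
      have hN : ‖p.1‖ + |p.2| = 1 := hp.2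
      rw [h0, abs_zero, add_zero] at hN
      exact hag _ hN
    · rfl
  have hg'D : ∀ q ∈ D, g' q = ep (ip q) := fun q hq => if_pos hq
  have hg'E : ∀ q ∈ E, g' q = em (im q) := by
    intro q hq
    show (if q ∈ D then ep (ip q) else em (im q)) = em (im q)
    split_ifs with h
    · obtain ⟨x, hx1, e1, e2, -⟩ := hinv q ⟨h, hq⟩
      rw [e1, e2]
      simp [ep, em, hx1]
    · rfl
  have hep : ∀ p ∈ Kp F, ep p.1 = p := by
    intro p hp
    have hN : ‖p.1‖ + |p.2| = 1 := hp.2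
    rw [abs_of_nonneg hp.1] at hN
    unfold ep; ext
    · rfl
    · simp only; linarith
  have hem : ∀ p ∈ Km F, em p.1 = p := by
    intro p hp
    have hN : ‖p.1‖ + |p.2| = 1 := hp.2
    rw [abs_of_nonpos hp.1] at hN
    unfold em; ext
    · rfl
    · simp only; linarith
  have hS : S1 F = Kp F ∪ Km F := Kp_union_Km.symm
  have hc : ContinuousOn g (S1 F) := by
    rw [hS]
    refine ContinuousOn.union_of_isClosed ?_ ?_ isClosed_Kp isClosed_Km
    · exact (hgp.continuous.comp continuous_fst).continuousOn.congr fun p hp => hgKp p hp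
    · exact (hgm.continuous.comp continuous_fst).continuousOn.congr fun p hp => hgKm p hp
  have hsel : SelOn g (S1 F) := by
    rw [hS]
    refine SelOn.union ?_ ?_
    · exact ((hgp.comp PLMap.id.fst).selOn _).congr fun p hp => hgKp p hp
    · exact ((hgm.comp PLMap.id.fst).selOn _).congr fun p hp => hgKm p hp
  have hipc : ContinuousOn ip D := by
    rw [← hD]; exact continuousOn_leftInv hQ hgp.continuous.continuousOn hipg
  have himc : ContinuousOn im E := by
    rw [← hE]; exact continuousOn_leftInv hQ hgm.continuous.continuousOn himg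
  have hc' : ContinuousOn g' (S1 F) := by
    rw [← hDE]
    refine ContinuousOn.union_of_isClosed ?_ ?_ hDc hEc
    · exact ((ep_pl hF).continuous.comp_continuousOn hipc).congr fun q hq => hg'D q hq
    · exact ((em_pl hF).continuous.comp_continuousOn himc).congr fun q hq => hg'E q hq
  have hipsel : SelOn ip D := by rw [← hD]; exact hgp.selOn_inverse hF.vp hip hipg
  have himsel : SelOn im E := by rw [← hE]; exact hgm.selOn_inverse hF.vp him himg
  have hsel' : SelOn g' (S1 F) := by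
    rw [← hDE]
    refine SelOn.union ?_ ?_
    · exact (((ep_pl hF).selOn univ).comp hipsel (mapsTo_univ _ _)).congr fun q hq => hg'D q hq
    · exact (((em_pl hF).selOn univ).comp himsel (mapsTo_univ _ _)).congr fun q hq => hg'E q hq
  have hm : MapsTo g (S1 F) (S1 F) := by
    intro p hp
    rw [← hDE]
    have hpS := hp
    rw [hS] at hp
    rcases hp with hp | hp
    · rw [hgKp p hp]; left; rw [← hD]; exact mem_image_of_mem _ (hfstQ p hpS)
    · rw [hgKm p hp]; right; rw [← hE]; exact mem_image_of_mem _ (hfstQ p hpS)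
  have hepK : ∀ x ∈ closedBall (0 : F) 1, ep x ∈ Kp F := fun x hx => by
    rw [← ep_image]; exact mem_image_of_mem _ hx
  have hemK : ∀ x ∈ closedBall (0 : F) 1, em x ∈ Km F := fun x hx => by
    rw [← em_image]; exact mem_image_of_mem _ hx
  have hm' : MapsTo g' (S1 F) (S1 F) := by
    intro q hq
    rw [← hDE] at hq
    rw [hS]
    rcases hq with hq | hq
    · rw [hg'D q hq]; left
      rw [← hD] at hq
      obtain ⟨x, hx, rfl⟩ := hq
      rw [hipg x hx]; exact hepK x hx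
    · rw [hg'E q hq]; right
      rw [← hE] at hq
      obtain ⟨x, hx, rfl⟩ := hq
      rw [himg x hx]; exact hemK x hx
  have hl : ∀ p ∈ S1 F, g' (g p) = p := by
    intro p hp
    have hpQ := hfstQ p hp
    rw [hS] at hp
    rcases hp with hp | hp
    · rw [hgKp p hp, hg'D _ (by rw [← hD]; exact mem_image_of_mem _ hpQ), hipg _ hpQ, hep p hp]
    · rw [hgKm p hp, hg'E _ (by rw [← hE]; exact mem_image_of_mem _ hpQ), himg _ hpQ, hem p hp]
  have hr : ∀ q ∈ S1 F, g (g' q) = q := by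
    intro q hq
    rw [← hDE] at hq
    rcases hq with hq | hq
    · rw [hg'D q hq]
      rw [← hD] at hq
      obtain ⟨x, hx, rfl⟩ := hq
      rw [hipg x hx, hgKp _ (hepK x hx)]; rfl
    · rw [hg'E q hq]
      rw [← hE] at hq
      obtain ⟨x, hx, rfl⟩ := hq
      rw [himg x hx, hgKm _ (hemK x hx)]; rfl
  obtain ⟨H, hH, hHg, -, hHS⟩ := exists_cone hF hc hsel hc' hsel' hm hm' hl hr
  have h1 : ∀ x ∈ closedBall (0 : F) 1, H (ep x) = gp x := fun x hx => by
    rw [hHg _ (by rw [hS]; exact Or.inl (hepK x hx)), hgKp _ (hepK x hx)]; rfl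
  have h2 : ∀ x ∈ closedBall (0 : F) 1, H (em x) = gm x := fun x hx => by
    rw [hHg _ (by rw [hS]; exact Or.inr (hemK x hx)), hgKm _ (hemK x hx)]; rfl
  refine ⟨H, hH, hHS, ?_, ?_, h1, h2⟩
  · rw [← ep_image, ← image_comp, ← hD]
    exact image_congr fun x hx => h1 x hx
  · rw [← em_image, ← image_comp, ← hE]
    exact image_congr fun x hx => h2 x hx

end glue

/-! ### bounded regions of a standard curve complement -/

/-- a bounded closed set `E ⊇ γ` whose part off the standard sphere `γ = H '' S1` is open and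
nonempty is the closed inside of `γ` -/
theorem eq_inside {F : Type*} [NormedAddCommGroup F] [NormedSpace ℝ F] [FiniteDimensional ℝ F]
    [Nontrivial F] {H : (F × ℝ) ≃ₜ (F × ℝ)} {E : Set (F × ℝ)}
    (hEc : IsCompact E) (hγ : H '' S1 F ⊆ E) (hop : IsOpen (E \ H '' S1 F))
    (hne : (E \ H '' S1 F).Nonempty) : E = H '' {p | N1 p ≤ 1} := by
  have hcompl : (H '' S1 F)ᶜ = H '' U1 F ∪ H '' X1 F := by
    rw [← image_union, ← univ_diff_S1, H.image_compl]
  have hopU : IsOpen (H '' U1 F) := H.isOpenMap _ isOpen_U1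
  have hopX : IsOpen (H '' X1 F) := H.isOpenMap _ isOpen_X1
  have hXc : IsPreconnected (H '' X1 F) :=
    (isConnected_X1.isPreconnected).image _ H.continuous.continuousOn
  have hUc : IsPreconnected (H '' U1 F) := by
    refine IsPreconnected.image ?_ _ H.continuous.continuousOn
    -- star-shaped about the origin
    refine isPreconnected_of_forall (0 : F × ℝ) fun p hp => ?_
    refine ⟨(fun t : ℝ => t • p) '' Icc 0 1, ?_, ⟨0, by simp, by simp⟩, ⟨1, by simp, by simp⟩, ?_⟩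
    · rintro _ ⟨t, ht, rfl⟩
      show N1 _ < 1
      simp only [N1_smul]
      rw [abs_of_nonneg ht.1]
      have hp' : N1 p < 1 := hp
      have := N1_nonneg p
      have := mul_le_mul_of_nonneg_right ht.2 this
      linarith
    · exact isPreconnected_Icc.image _ (by fun_prop)
  have hdUX : Disjoint (H '' U1 F) (H '' X1 F) := by
    rw [disjoint_image_iff H.injective, disjoint_left]
    intro p hp hp'
    exact absurd (show N1 p < 1 from hp) (not_lt.2 (le_of_lt hp'))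
  have hopE' : IsOpen Eᶜ := hEc.isClosed.isOpen_compl
  have hdE : Disjoint (E \ H '' S1 F) Eᶜ := disjoint_left.2 fun p hp hp' => hp' hp.1
  have hcov : ∀ X : Set (F × ℝ), X ⊆ (H '' S1 F)ᶜ → X ⊆ (E \ H '' S1 F) ∪ Eᶜ := by
    intro X hX p hp
    by_cases h : p ∈ E
    · exact Or.inl ⟨h, hX hp⟩
    · exact Or.inr h
  have hXE : H '' X1 F ⊆ Eᶜ := by
    rcases hXc.subset_or_subset hop hopE' hdE
      (hcov _ (by rw [hcompl]; exact subset_union_right)) with h | h
    · exfalso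
      refine X1_unbounded (F := F) ⟨H.symm '' E, hEc.image H.symm.continuous, ?_⟩
      intro p hp
      exact ⟨H p, (h (mem_image_of_mem H hp)).1, H.symm_apply_apply p⟩
    · exact h
  have hUE : H '' U1 F ⊆ E \ H '' S1 F := by
    rcases hUc.subset_or_subset hop hopE' hdE
      (hcov _ (by rw [hcompl]; exact subset_union_left)) with h | h
    · exact h
    · exfalso
      obtain ⟨p, hp⟩ := hne
      have : p ∈ (H '' S1 F)ᶜ := hp.2
      rw [hcompl] at this
      rcases this with h' | h'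
      · exact h h' hp.1
      · exact hXE h' hp.1
  have hle : {p : F × ℝ | N1 p ≤ 1} = U1 F ∪ S1 F := by
    ext p
    show N1 p ≤ 1 ↔ N1 p < 1 ∨ N1 p = 1
    exact le_iff_lt_or_eq
  rw [hle, image_union]
  apply Subset.antisymm
  · intro p hp
    by_cases h : p ∈ H '' S1 F
    · exact Or.inr h
    · have : p ∈ (H '' S1 F)ᶜ := h
      rw [hcompl] at this
      rcases this with h' | h'
      · exact Or.inl h'
      · exact absurd hp (hXE h')
  · exact union_subset (fun p hp => (hUE hp).1) hγ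

/-! ### each side of a PL curve on the octahedral sphere is a PL disc -/

/-- the closed unit ball of `N1` on the plane -/
theorem vp_ball_real : VP {p : ℝ × ℝ | N1 p ≤ 1} := by
  have h : {p : ℝ × ℝ | N1 p ≤ 1} = rotH.symm '' closedBall (0 : ℝ × ℝ) 1 := by
    ext p
    constructor
    · intro hp
      refine ⟨rotH p, ?_, rotH.symm_apply_apply p⟩
      rw [mem_closedBall, dist_zero_right, norm_rotH']; exact hp
    · rintro ⟨x, hx, rfl⟩
      show N1 _ ≤ 1
      rw [← norm_rotH', rotH.apply_symm_apply]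
      simpa using hx
  obtain ⟨s, hs, hs'⟩ := polyNorm_plane.vp
  let L : (ℝ × ℝ) →ₗ[ℝ] (ℝ × ℝ) :=
    { toFun := fun p => ((p.1 + p.2) / 2, (p.1 - p.2) / 2)
      map_add' := fun p q => by ext <;> simp <;> ring
      map_smul' := fun c p => by ext <;> simp <;> ring }
  refine ⟨L '' s, hs.image _, ?_⟩
  rw [h, ← LinearMap.image_convexHull, ← hs']
  rfl

theorem image_rotH_ball : rotH '' {p : ℝ × ℝ | N1 p ≤ 1} = closedBall (0 : ℝ × ℝ) 1 := by
  ext x
  constructor
  · rintro ⟨p, hp, rfl⟩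
    rw [mem_closedBall, dist_zero_right, norm_rotH']; exact hp
  · intro hx
    refine ⟨rotH.symm x, ?_, rotH.apply_symm_apply x⟩
    show N1 _ ≤ 1
    rw [← norm_rotH', rotH.apply_symm_apply]
    simpa using hx

theorem image_rotH_S1 : rotH '' S1 ℝ = sphere (0 : ℝ × ℝ) 1 := by
  ext x
  constructor
  · rintro ⟨p, hp, rfl⟩
    rw [mem_sphere, dist_zero_right, norm_rotH']; exact hp
  · intro hx
    refine ⟨rotH.symm x, ?_, rotH.apply_symm_apply x⟩
    show N1 _ = 1
    rw [← norm_rotH', rotH.apply_symm_apply]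
    simpa using hx

theorem em_of_mem_Km {F : Type*} [NormedAddCommGroup F] [NormedSpace ℝ F] {p : F × ℝ}
    (hp : p ∈ Km F) : em p.1 = p := by
  have hN : ‖p.1‖ + |p.2| = 1 := hp.2
  rw [abs_of_nonpos hp.1] at hN
  unfold em; ext
  · rfl
  · simp only; linarith

/-- one side of a PL curve on the octahedral sphere is a PL disc -/
theorem exists_disc {φ : ℝ × ℝ → (ℝ × ℝ) × ℝ} (hφ : PLMap φ) (hinj : InjOn φ (S1 ℝ))
    {D E : Set ((ℝ × ℝ) × ℝ)} (hDc : IsClosed D) (hEc : IsClosed E)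
    (hDE : D ∪ E = S1 (ℝ × ℝ)) (hi : D ∩ E = φ '' S1 ℝ)
    (hDn : (D \ φ '' S1 ℝ).Nonempty) (hEn : (E \ φ '' S1 ℝ).Nonempty) :
    ∃ ψ : ℝ × ℝ → (ℝ × ℝ) × ℝ, PLMap ψ ∧ Function.Injective ψ ∧
      ψ '' {p | N1 p ≤ 1} = D ∧ ψ '' S1 ℝ = φ '' S1 ℝ := by
  have hDS : D ⊆ S1 (ℝ × ℝ) := by rw [← hDE]; exact subset_union_left
  have hES : E ⊆ S1 (ℝ × ℝ) := by rw [← hDE]; exact subset_union_right
  have hΓD : φ '' S1 ℝ ⊆ D := by rw [← hi]; exact inter_subset_left
  have hΓE : φ '' S1 ℝ ⊆ E := by rw [← hi]; exact inter_subset_right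
  have hne : D ≠ S1 (ℝ × ℝ) := by
    intro h
    obtain ⟨x, hx, hxΓ⟩ := hEn
    exact hxΓ (hi ▸ ⟨h ▸ hES hx, hx⟩)
  obtain ⟨K, hK, hKS, hKD⟩ := push_off hDc hDS hne
  have hKS' : ∀ p ∈ S1 (ℝ × ℝ), K p ∈ S1 (ℝ × ℝ) := fun p hp => by
    rw [← hKS]; exact mem_image_of_mem _ hp
  -- points of `K '' D` are on the lower disc
  have hDm : ∀ p ∈ D, K p ∈ Km (ℝ × ℝ) := fun p hp => ⟨(hKD p hp).le, hKS' p (hDS hp)⟩
  have hD1 : ∀ p ∈ D, ‖(K p).1‖ < 1 := by
    intro p hp
    have h1 : ‖(K p).1‖ + |(K p).2| = 1 := hKS' p (hDS hp)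
    have h2 := abs_pos_of_neg (hKD p hp)
    linarith
  have hemD : ∀ p ∈ D, em (K p).1 = K p := fun p hp => em_of_mem_Km (hDm p hp)
  -- the planar curve
  let c : ℝ × ℝ → ℝ × ℝ := fun y => (K (φ y)).1
  have hc : PLMap c := (hK.1.comp hφ).fst
  have hcD : ∀ y ∈ S1 ℝ, φ y ∈ D := fun y hy => hΓD (mem_image_of_mem _ hy)
  have hcinj : InjOn c (S1 ℝ) := by
    intro y hy y' hy' h
    apply hinj hy hy'
    apply K.injective
    rw [← hemD _ (hcD y hy), ← hemD _ (hcD y' hy')]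
    exact congrArg em h
  obtain ⟨H, hH, hHS⟩ := stdC_of_injOn hc hcinj
  -- the planar region
  let E' : Set (ℝ × ℝ) := (fun p => (K p).1) '' D
  have hDcomp : IsCompact D := isCompact_S1.of_isClosed_subset hDc hDS
  have hE'c : IsCompact E' := hDcomp.image (continuous_fst.comp K.continuous)
  have hγE : H '' S1 ℝ ⊆ E' := by
    rw [hHS]
    rintro _ ⟨y, hy, rfl⟩
    exact ⟨φ y, hcD y hy, rfl⟩
  have hdiff : E' \ H '' S1 ℝ = {x | ‖x‖ < 1 ∧ em x ∉ K '' E} := by
    rw [hHS]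
    ext x
    constructor
    · rintro ⟨⟨p, hp, rfl⟩, hx⟩
      refine ⟨hD1 p hp, ?_⟩
      show em (K p).1 ∉ K '' E
      rw [hemD p hp]
      rintro ⟨q, hq, hqp⟩
      rw [K.injective hqp] at hq
      have : p ∈ φ '' S1 ℝ := hi ▸ ⟨hp, hq⟩
      obtain ⟨y, hy, rfl⟩ := this
      exact hx ⟨y, hy, rfl⟩
    · rintro ⟨hx1, hx2⟩
      have hemS : em x ∈ S1 (ℝ × ℝ) := by
        have : em x ∈ Km (ℝ × ℝ) := by
          rw [← em_image]; exact mem_image_of_mem _ (by simpa using hx1.le)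
        exact this.2
      rw [← hKS, ← hDE, image_union] at hemS
      rcases hemS with h | h
      · obtain ⟨p, hp, hp'⟩ := h
        have hxe : (K p).1 = x := by rw [hp']; rfl
        refine ⟨⟨p, hp, hxe⟩, ?_⟩
        rintro ⟨y, hy, hyx⟩
        apply hx2
        refine ⟨φ y, hΓE (mem_image_of_mem _ hy), ?_⟩
        rw [← hemD _ (hcD y hy)]
        exact congrArg em hyx
      · exact absurd h hx2
  have hop : IsOpen (E' \ H '' S1 ℝ) := by
    rw [hdiff]
    refine (isOpen_lt continuous_norm continuous_const).inter ?_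
    exact ((K.isClosedMap _ hEc).isOpen_compl).preimage (em_pl polyNorm_plane).continuous
  have hnonempty : (E' \ H '' S1 ℝ).Nonempty := by
    obtain ⟨p, hp, hpΓ⟩ := hDn
    refine ⟨(K p).1, ⟨p, hp, rfl⟩, ?_⟩
    rw [hHS]
    rintro ⟨y, hy, hyp⟩
    apply hpΓ
    refine ⟨y, hy, ?_⟩
    apply K.injective
    rw [← hemD _ (hcD y hy), ← hemD _ hp]
    exact congrArg em hyp
  have hE' := eq_inside hE'c hγE hop hnonempty
  have heminj : Function.Injective (em : ℝ × ℝ → (ℝ × ℝ) × ℝ) := fun x y h => congrArg Prod.fst h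
  refine ⟨fun y => K.symm (em (H y)), hK.2.comp ((em_pl polyNorm_plane).comp hH.1), ?_, ?_, ?_⟩
  · intro y y' h
    exact H.injective (heminj (K.symm.injective h))
  · have e1 : (fun y => K.symm (em (H y))) '' {p | N1 p ≤ 1} = (fun x => K.symm (em x)) '' E' := by
      rw [hE', ← image_comp]; rfl
    rw [e1, ← image_comp]
    conv_rhs => rw [← image_id D]
    refine image_congr fun p hp => ?_
    show K.symm (em (K p).1) = p
    rw [hemD p hp, K.symm_apply_apply]
  · have e1 : (fun y => K.symm (em (H y))) '' S1 ℝ = (fun x => K.symm (em x)) '' (c '' S1 ℝ) := by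
      rw [← hHS, ← image_comp]; rfl
    rw [e1, ← image_comp]
    refine image_congr fun y hy => ?_
    show K.symm (em (K (φ y)).1) = φ y
    rw [hemD _ (hcD y hy), K.symm_apply_apply]

/-- **PL Schoenflies theorem on the octahedral sphere**: two closed sets covering the sphere and
meeting in a PL circle form a standard pair -/
theorem StdS_of_curve {φ : ℝ × ℝ → (ℝ × ℝ) × ℝ} (hφ : PLMap φ) (hinj : InjOn φ (S1 ℝ))
    {D E : Set ((ℝ × ℝ) × ℝ)} (hDc : IsClosed D) (hEc : IsClosed E)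
    (hDE : D ∪ E = S1 (ℝ × ℝ)) (hi : D ∩ E = φ '' S1 ℝ)
    (hDn : (D \ φ '' S1 ℝ).Nonempty) (hEn : (E \ φ '' S1 ℝ).Nonempty) :
    ∃ H : ((ℝ × ℝ) × ℝ) ≃ₜ ((ℝ × ℝ) × ℝ), PLH H ∧ H '' S1 (ℝ × ℝ) = S1 (ℝ × ℝ) ∧
      H '' Kp (ℝ × ℝ) = D ∧ H '' Km (ℝ × ℝ) = E := by
  classical
  obtain ⟨a, ha, hainj, haD, haS⟩ := exists_disc hφ hinj hDc hEc hDE hi hDn hEn
  obtain ⟨b, hb, hbinj, hbE, hbS⟩ := exists_disc hφ hinj hEc hDc
    (by rw [union_comm]; exact hDE) (by rw [inter_comm]; exact hi) hEn hDn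
  -- the change of parametrisation on `S1 ℝ`
  have hSB : S1 ℝ ⊆ {p : ℝ × ℝ | N1 p ≤ 1} := S1_subset_le
  have hBc : IsCompact {p : ℝ × ℝ | N1 p ≤ 1} := isCompact_le
  let ia : (ℝ × ℝ) × ℝ → ℝ × ℝ := Function.invFun a
  let ib : (ℝ × ℝ) × ℝ → ℝ × ℝ := Function.invFun b
  have hia : ∀ y, ia (a y) = y := Function.leftInverse_invFun hainj
  have hib : ∀ y, ib (b y) = y := Function.leftInverse_invFun hbinj
  have key : ∀ (f g : ℝ × ℝ → (ℝ × ℝ) × ℝ) (g' : (ℝ × ℝ) × ℝ → ℝ × ℝ), PLMap f → PLMap g →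
      Function.Injective g → (∀ y, g' (g y) = y) → f '' S1 ℝ = g '' S1 ℝ →
      ContinuousOn (fun y => g' (f y)) (S1 ℝ) ∧ SelOn (fun y => g' (f y)) (S1 ℝ) ∧
        MapsTo (fun y => g' (f y)) (S1 ℝ) (S1 ℝ) ∧ ∀ y ∈ S1 ℝ, g (g' (f y)) = f y := by
    intro f g g' hf hg hginj hg' hfg
    have hmap : ∀ y ∈ S1 ℝ, f y ∈ g '' S1 ℝ := fun y hy => by
      rw [← hfg]; exact mem_image_of_mem _ hy
    refine ⟨?_, ?_, ?_, ?_⟩
    · have h1 : ContinuousOn g' (g '' S1 ℝ) :=
        continuousOn_leftInv isCompact_S1 hg.continuous.continuousOn fun x _ => hg' x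
      exact h1.comp hf.continuous.continuousOn hmap
    · have h1 : SelOn g' (g '' {p : ℝ × ℝ | N1 p ≤ 1}) :=
        hg.selOn_inverse vp_ball_real hginj.injOn fun x _ => hg' x
      exact h1.comp (hf.selOn _) fun y hy => image_mono hSB (hmap y hy)
    · intro y hy
      obtain ⟨y', hy', h⟩ := hmap y hy
      show g' (f y) ∈ S1 ℝ
      rw [← h, hg']; exact hy'
    · intro y hy
      obtain ⟨y', hy', h⟩ := hmap y hy
      rw [← h, hg']
  have hab : a '' S1 ℝ = b '' S1 ℝ := haS.trans hbS.symm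
  obtain ⟨k1, k2, k3, k4⟩ := key a b ib ha hb hbinj hib hab
  obtain ⟨l1, l2, l3, l4⟩ := key b a ia hb ha hainj hia hab.symm
  obtain ⟨C, hC, hCg, hCN, hCS⟩ := exists_cone polyNorm_real k1 k2 l1 l2 k3 l3
    (fun y hy => by show ia (b (ib (a y))) = y; rw [k4 y hy, hia])
    (fun y hy => by show ib (a (ia (b y))) = y; rw [l4 y hy, hib])
  have hCB : C '' {p : ℝ × ℝ | N1 p ≤ 1} = {p : ℝ × ℝ | N1 p ≤ 1} := by
    apply Subset.antisymm
    · rintro _ ⟨p, hp, rfl⟩
      show N1 (C p) ≤ 1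
      rw [hCN]; exact hp
    · intro p hp
      refine ⟨C.symm p, ?_, C.apply_symm_apply p⟩
      show N1 (C.symm p) ≤ 1
      rw [← hCN, C.apply_symm_apply]; exact hp
  -- the two discs in terms of the unit square
  let gp : ℝ × ℝ → (ℝ × ℝ) × ℝ := fun x => a (rotH.symm x)
  let gm : ℝ × ℝ → (ℝ × ℝ) × ℝ := fun x => b (C (rotH.symm x))
  have hsym : rotH.symm '' closedBall (0 : ℝ × ℝ) 1 = {p : ℝ × ℝ | N1 p ≤ 1} := by
    rw [← image_rotH_ball, symm_image_image']
  have hsymS : rotH.symm '' sphere (0 : ℝ × ℝ) 1 = S1 ℝ := by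
    rw [← image_rotH_S1, symm_image_image']
  obtain ⟨H, hH, hHS, hHp, hHm, -, -⟩ := exists_glue polyNorm_plane (gp := gp) (gm := gm)
    (D := D) (E := E) (ha.comp PLH_rotH.2) (hb.comp (hC.1.comp PLH_rotH.2)) (by
      intro x hx
      have hx' : rotH.symm x ∈ S1 ℝ := by
        rw [← hsymS]; exact mem_image_of_mem _ (by simpa using hx)
      show a (rotH.symm x) = b (C (rotH.symm x))
      rw [hCg _ hx', k4 _ hx'])
    (fun x _ y _ h => rotH.symm.injective (hainj h))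
    (fun x _ y _ h => rotH.symm.injective (C.injective (hbinj h)))
    (by
      have : gp '' closedBall 0 1 = a '' (rotH.symm '' closedBall 0 1) := by
        rw [← image_comp]; rfl
      rw [this, hsym, haD])
    (by
      have : gm '' closedBall 0 1 = b '' (C '' (rotH.symm '' closedBall 0 1)) := by
        rw [← image_comp, ← image_comp]; rfl
      rw [this, hsym, hCB, hbE])
    hDE
    (by
      have : gp '' sphere 0 1 = a '' (rotH.symm '' sphere 0 1) := by
        rw [← image_comp]; rfl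
      rw [this, hsymS, haS, hi])
  exact ⟨H, hH, hHS, hHp, hHm⟩

/-- a standard sphere in space, decomposed into two closed pieces meeting in a PL circle -/
theorem StdC.pair_plane {S E D : Set ((ℝ × ℝ) × ℝ)} (hS : StdC S)
    {φ : ℝ × ℝ → (ℝ × ℝ) × ℝ} (hφ : PLMap φ) (hinj : InjOn φ (S1 ℝ))
    (hEc : IsClosed E) (hDc : IsClosed D) (hED : E ∪ D = S) (hi : E ∩ D = φ '' S1 ℝ)
    (hEn : (E \ φ '' S1 ℝ).Nonempty) (hDn : (D \ φ '' S1 ℝ).Nonempty) : StdS E D := by
  obtain ⟨H, hH, hHS⟩ := hS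
  let φ' : ℝ × ℝ → (ℝ × ℝ) × ℝ := fun y => H.symm (φ y)
  have hφ' : φ' '' S1 ℝ = H.symm '' (φ '' S1 ℝ) := by rw [← image_comp]; rfl
  obtain ⟨G, hG, hGS, hGE, hGD⟩ := StdS_of_curve (φ := φ') (hH.2.comp hφ)
    (fun x hx y hy h => hinj hx hy (H.symm.injective h))
    (D := H.symm '' E) (E := H.symm '' D) (H.symm.isClosedMap _ hEc) (H.symm.isClosedMap _ hDc)
    (by rw [← image_union, hED, ← hHS, symm_image_image'])
    (by rw [← image_inter H.symm.injective, hi, hφ'])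
    (by rw [hφ', ← image_sdiff H.symm.injective]; exact hEn.image _)
    (by rw [hφ', ← image_sdiff H.symm.injective]; exact hDn.image _)
  refine ⟨G.trans H, hG.trans hH, ?_, ?_⟩
  · rw [trans_image, hGE, image_symm_image']
  · rw [trans_image, hGD, image_symm_image']

/-- **3-DIMENSIONAL CUT LEMMA, SET VERSION.** -/
theorem StdC.cut_plane {E₁ E₂ D : Set ((ℝ × ℝ) × ℝ)} {φ : ℝ × ℝ → (ℝ × ℝ) × ℝ} (hφ : PLMap φ)
    (hinj : InjOn φ (S1 ℝ)) (hc1 : IsClosed E₁) (hc2 : IsClosed E₂) (hcD : IsClosed D)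
    (h12 : E₁ ∩ E₂ = φ '' S1 ℝ) (h1D : E₁ ∩ D = φ '' S1 ℝ) (h2D : E₂ ∩ D = φ '' S1 ℝ)
    (hn1 : (E₁ \ φ '' S1 ℝ).Nonempty) (hn2 : (E₂ \ φ '' S1 ℝ).Nonempty)
    (hnD : (D \ φ '' S1 ℝ).Nonempty)
    (hA : StdC (E₁ ∪ D)) (hB : StdC (E₂ ∪ D)) : StdC (E₁ ∪ E₂) :=
  ((hA.pair_plane hφ hinj hc1 hcD rfl h1D hn1 hnD).cut polyNorm_plane
    (hB.pair_plane hφ hinj hc2 hcD rfl h2D hn2 hnD) (by rw [h12, h1D]) (by rw [h2D, h1D])).stdC

end Crest.Agent.R096.Pl
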