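import Crest.Agent.R096.Cb4_609
import Crest.Agent.R096.PlCurve_296
import Crest.Agent.R096.PlSet_296
import Crest.Agent.R096.PlSph_296

-- ▼ part R096/Cb5_609
section

/-!
# R096 (row 96), CE3 ball calculus, part 5: theta spheres; cutting a 2-ball by an arc
(helper609)

* `theta_split`: three spheres `E₁ ∪ E₂`, `E₁ ∪ D`, `E₂ ∪ D` (standard), `D` inside `E₁ ∪ E₂`:
  the inside of `E₁ ∪ E₂` is the union of the insides of the other two, which meet in `D`.
* `exists_equiv_union`: the union of two balls with the same boundary is a sphere.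
* `stdC_of_plOn`: a PL circle in the plane is standard.
* `cut_disc`: an arc with end points on the boundary cuts a 2-ball (in any space) into two 2-balls.
-/

set_option autoImplicit false
set_option linter.unusedSectionVars false

open Set Metric

namespace Crest.Agent.R096.Cb_609

open Ce_537 Pl

section Theta

variable {F : Type*} [NormedAddCommGroup F] [NormedSpace ℝ F] [FiniteDimensional ℝ F] {n : ℕ}

theorem image_le_eq (H : (F × ℝ) ≃ₜ (F × ℝ)) :
    H '' {p : F × ℝ | N1 p ≤ 1} = H '' U1 F ∪ H '' S1 F := by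
  rw [← image_union]
  congr 1
  ext p
  simp only [U1, S1, mem_union, mem_ofPred_eq]
  exact le_iff_lt_or_eq

theorem disjoint_U1_S1 (H : (F × ℝ) ≃ₜ (F × ℝ)) : Disjoint (H '' U1 F) (H '' S1 F) := by
  rw [disjoint_image_iff H.injective, disjoint_left]
  intro p hp hp'
  have h1 : N1 p < 1 := hp
  have h2 : N1 p = 1 := hp'
  linarith

theorem isPreconnected_U1 : IsPreconnected (U1 F) := by
  refine Convex.isPreconnected ?_
  intro p hp q hq s t hs ht hst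
  show N1 (s • p + t • q) < 1
  have hp' : N1 p < 1 := hp
  have hq' : N1 q < 1 := hq
  have h1 : N1 (s • p + t • q) ≤ s * N1 p + t * N1 q := by
    simp only [N1, Prod.fst_add, Prod.snd_add, Prod.smul_fst, Prod.smul_snd, smul_eq_mul]
    have h2 := norm_add_le (s • p.1) (t • q.1)
    rw [norm_smul, norm_smul, Real.norm_eq_abs, Real.norm_eq_abs, abs_of_nonneg hs,
      abs_of_nonneg ht] at h2
    have h3 := abs_add_le (s * p.2) (t * q.2)
    rw [abs_mul, abs_mul, abs_of_nonneg hs, abs_of_nonneg ht] at h3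
    linarith
  rcases hs.lt_or_eq with h | h
  · nlinarith
  · have : t = 1 := by linarith
    rw [this, ← h] at h1 ⊢
    linarith

/-- **theta spheres** -/
theorem theta_split [Nontrivial F] (hB : IsBall n (closedBall (0:F) 1) (sphere (0:F) 1))
    {H H₁ H₂ : (F × ℝ) ≃ₜ (F × ℝ)} (hH : PLH H) (hH₁ : PLH H₁) (hH₂ : PLH H₂)
    {E₁ E₂ D Γ : Set (F × ℝ)} (e : H '' S1 F = E₁ ∪ E₂)
    (e1 : H₁ '' Kp F = E₁) (e2 : H₁ '' Km F = D) (e3 : H₂ '' Kp F = E₂) (e4 : H₂ '' Km F = D)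
    (hE : E₁ ∩ E₂ = Γ) (hE1 : E₁ ∩ D = Γ) (hE2 : E₂ ∩ D = Γ) (hD : D ⊆ H '' {p | N1 p ≤ 1}) :
    H₁ '' {p | N1 p ≤ 1} ∪ H₂ '' {p | N1 p ≤ 1} = H '' {p | N1 p ≤ 1} ∧
      H₁ '' {p | N1 p ≤ 1} ∩ H₂ '' {p | N1 p ≤ 1} = D := by
  have hS1 : H₁ '' S1 F = E₁ ∪ D := by rw [← Kp_union_Km, image_union, e1, e2]
  have hS2 : H₂ '' S1 F = E₂ ∪ D := by rw [← Kp_union_Km, image_union, e3, e4]
  have hK := image_le_eq H
  have hK1 := image_le_eq H₁
  have hK2 := image_le_eq H₂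
  have hE1K : E₁ ⊆ H '' {p | N1 p ≤ 1} := by
    rw [hK, e]; exact subset_union_left.trans subset_union_right
  have hE2K : E₂ ⊆ H '' {p | N1 p ≤ 1} := by
    rw [hK, e]; exact subset_union_right.trans subset_union_right
  have hU1 : H₁ '' U1 F ⊆ H '' U1 F := inside_subset (by rw [hS1]; exact union_subset hE1K hD)
  have hU2 : H₂ '' U1 F ⊆ H '' U1 F := inside_subset (by rw [hS2]; exact union_subset hE2K hD)
  have d0 := disjoint_U1_S1 H
  rw [e] at d0
  have d1 := disjoint_U1_S1 H₁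
  rw [hS1] at d1
  have d2 := disjoint_U1_S1 H₂
  rw [hS2] at d2
  -- the ball pairs
  have P1 := (ballPair_model hB).plh hH₁
  rw [e1, e2, StdS.inter e1 e2, hE1] at P1
  have P2 := (ballPair_model hB).plh hH₂
  rw [e3, e4, StdS.inter e3 e4, hE2] at P2
  have hΓD : Γ ⊆ D := P1.ball₂.subset
  have hU12 : Disjoint (H₁ '' U1 F) (H₂ '' S1 F) := by
    rw [hS2, disjoint_left]
    rintro x hx (h | h)
    · exact disjoint_left.1 d0 (hU1 hx) (Or.inr h)
    · exact disjoint_left.1 d1 hx (Or.inr h)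
  have hU21 : Disjoint (H₂ '' U1 F) (H₁ '' S1 F) := by
    rw [hS1, disjoint_left]
    rintro x hx (h | h)
    · exact disjoint_left.1 d0 (hU2 hx) (Or.inl h)
    · exact disjoint_left.1 d2 hx (Or.inr h)
  have hc : ∀ G : (F × ℝ) ≃ₜ (F × ℝ), IsPreconnected (G '' U1 F) := fun G =>
    isPreconnected_U1.image _ G.continuous.continuousOn
  have hdis : Disjoint (H₁ '' U1 F) (H₂ '' U1 F) := by
    by_contra hcon
    have hne := not_disjoint_iff_nonempty_inter.1 hcon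
    have s1 : H₁ '' U1 F ⊆ H₂ '' U1 F := subset_inside (hc H₁) hU12 hne
    have hcl : H₁ '' {p | N1 p ≤ 1} ⊆ H₂ '' {p | N1 p ≤ 1} := by
      have h1 : closure (H₁ '' U1 F) = H₁ '' {p | N1 p ≤ 1} := by
        have h2 := P1.ball.closure_diff
        have h3 : H₁ '' {p | N1 p ≤ 1} \ (E₁ ∪ D) = H₁ '' U1 F := by
          rw [hK1, hS1, union_sdiff_right, d1.sdiff_eq_left]
        rwa [h3] at h2
      rw [← h1]
      refine closure_minimal ?_ P2.ball.isClosed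
      exact s1.trans (by rw [hK2]; exact subset_union_left)
    obtain ⟨x, hx, hxΓ⟩ := P1.ball₁.nonempty_diff
    have hx2 : x ∈ H₂ '' {p | N1 p ≤ 1} := hcl (by rw [hK1, hS1]; exact Or.inr (Or.inl hx))
    rw [hK2, hS2] at hx2
    rcases hx2 with h | h | h
    · exact disjoint_left.1 d0 (hU2 h) (Or.inl hx)
    · exact hxΓ (hE ▸ ⟨hx, h⟩)
    · exact hxΓ (hE1 ▸ ⟨hx, h⟩)
  have hinter : H₁ '' {p | N1 p ≤ 1} ∩ H₂ '' {p | N1 p ≤ 1} = D := by
    apply Subset.antisymm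
    · rw [hK1, hK2, hS1, hS2]
      rintro x ⟨h1 | h1, h2 | h2⟩
      · exact absurd h2 (disjoint_left.1 hdis h1)
      · rw [hS2] at hU12
        exact absurd h2 (disjoint_left.1 hU12 h1)
      · rw [hS1] at hU21
        exact absurd h1 (disjoint_left.1 hU21 h2)
      · rcases h1 with h1 | h1
        · rcases h2 with h2 | h2
          · exact hΓD (hE ▸ ⟨h1, h2⟩)
          · exact h2
        · exact h1
    · intro x hx
      rw [hK1, hK2, hS1, hS2]
      exact ⟨Or.inr (Or.inr hx), Or.inr (Or.inr hx)⟩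
  refine ⟨?_, hinter⟩
  have P := P1.symm.glue P2.symm hinter
  have Q := isBall_of_stdC hB hH e
  refine ball_eq_of_subset P.ball Q ?_
  rw [hK, hK1, hK2]
  refine union_subset (union_subset (hU1.trans subset_union_left) ?_)
    (union_subset (hU2.trans subset_union_left) ?_)
  · rw [hS1, ← hK]; exact union_subset hE1K hD
  · rw [hS2, ← hK]; exact union_subset hE2K hD

end Theta

/-! ### spheres as unions of two balls -/

section Double

variable {E E' : Type*} [NormedAddCommGroup E] [NormedSpace ℝ E]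
  [NormedAddCommGroup E'] [NormedSpace ℝ E'] {k : ℕ}

/-- the union of two balls with a common boundary is a sphere: it is PL equivalent to the boundary
of any ball pair -/
theorem exists_equiv_union {X M T Q : Set E} {A A' Q' : Set E'} (h : BallPair k X M T Q)
    (hA : IsBall k A Q') (hA' : IsBall k A' Q') (hi : A ∩ A' = Q') :
    ∃ e : PLEquiv (M ∪ T) (A ∪ A'), e.f '' M = A ∧ e.f '' T = A' ∧ e.f '' Q = Q' := by
  obtain ⟨a, ha1, ha2⟩ := h.ball₁.exists_equiv hA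
  let r : PLEquiv Q Q' := a.restr h.ball₁.subset hA.subset
    (fun x hx => by rw [← ha1]; exact ⟨x, hx, rfl⟩) (fun x hx => by rw [← ha2]; exact ⟨x, hx, rfl⟩)
  obtain ⟨b, hb1, hb2⟩ := h.ball₂.extend hA' r
  have c1 := h.ball₁.isClosed
  have c2 := h.ball₂.isClosed
  have c1' := hA.isClosed
  have c2' := hA'.isClosed
  have hf : EqOn a.f b.f (M ∩ T) := by
    intro x hx; rw [h.inter] at hx; exact (hb1 hx).symm
  have hg : EqOn a.g b.g (A ∩ A') := by
    intro x hx; rw [hi] at hx; exact (hb2 hx).symm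
  refine ⟨glue a b c1 c2 c1' c2' hf hg, ?_, ?_, ?_⟩
  · rw [image_congr (glue_f₁ a b c1 c2 c1' c2' hf hg), a.image_eq]
  · rw [image_congr (glue_f₂ a b c1 c2 c1' c2' hf hg), b.image_eq]
  · rw [← ha1]
    exact image_congr fun x hx => glue_f₁ a b c1 c2 c1' c2' hf hg (h.ball₁.subset hx)

end Double

/-! ### PL circles in the plane -/

section Plane

theorem stdC_of_plOn {φ : ℝ × ℝ → ℝ × ℝ} (hφ : PLOn φ (S1 ℝ)) (hinj : InjOn φ (S1 ℝ)) :
    StdC (φ '' S1 ℝ) := by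
  obtain ⟨hc, S, hS⟩ := hφ
  have h1 : PLMap (coneExt φ) := PLMap_coneExt polyNorm_real hc
    ⟨(S : Set _), S.finite_toSet, fun x hx => hS x hx⟩
  have h2 : coneExt φ '' S1 ℝ = φ '' S1 ℝ := image_congr fun x hx => coneExt_of_mem hx
  rw [← h2]
  refine stdC_of_injOn h1 ?_
  intro x hx y hy e
  rw [coneExt_of_mem hx, coneExt_of_mem hy] at e
  exact hinj hx hy e

/-- two arcs of the plane with the same end points and otherwise disjoint form a standard pair -/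
theorem stdS_of_arcs {A A' : Set (ℝ × ℝ)} {p q : ℝ × ℝ} (hA : IsBall 1 A {p, q})
    (hA' : IsBall 1 A' {p, q}) (hi : A ∩ A' = {p, q}) : StdS A A' := by
  obtain ⟨e, e1, e2, e3⟩ := exists_equiv_union ballPair_real hA hA' hi
  have h1 : e.f '' S1 ℝ = A ∪ A' := by
    rw [← Kp_union_Km]; exact e.image_eq
  have h2 : StdC (A ∪ A') := by
    rw [← h1]
    have hsub : S1 ℝ ⊆ Kp ℝ ∪ Km ℝ := by rw [Kp_union_Km]
    exact stdC_of_plOn (e.pf.mono hsub) (e.injOn.mono hsub)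
  exact h2.pair_real' (arc_ne hA) rfl hi hA.isClosed hA'.isClosed hA.nonempty_diff
    hA'.nonempty_diff

theorem isBall_plane : IsBall 2 {p : ℝ × ℝ | N1 p ≤ 1} (S1 ℝ) := by
  have := ballPair_real.ball
  rwa [Kp_union_Km] at this

/-- cutting the model disc by an arc -/
theorem cut_plane {A : Set (ℝ × ℝ)} {p q : ℝ × ℝ} (hA : IsBall 1 A {p, q})
    (hAB : A ⊆ {p : ℝ × ℝ | N1 p ≤ 1}) (hAS : A ∩ S1 ℝ = {p, q}) :
    ∃ K₁ K₂ S₁ S₂, BallPair 1 {p : ℝ × ℝ | N1 p ≤ 1} S₁ S₂ {p, q} ∧ S₁ ∪ S₂ = S1 ℝ ∧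
      BallPair 1 K₁ A S₁ {p, q} ∧ BallPair 1 K₂ A S₂ {p, q} ∧
      K₁ ∪ K₂ = {p : ℝ × ℝ | N1 p ≤ 1} ∧ K₁ ∩ K₂ = A := by
  have hp : p ∈ A ∩ S1 ℝ := by rw [hAS]; simp
  have hq : q ∈ A ∩ S1 ℝ := by rw [hAS]; simp
  obtain ⟨S₁, S₂, h1, h2⟩ := two_marks isBall_plane hp.2 hq.2 (arc_ne hA)
  have i1 : S₁ ∩ A = {p, q} := by
    apply Subset.antisymm
    · rintro x ⟨hx, hx'⟩
      rw [← hAS, ← h2]; exact ⟨hx', Or.inl hx⟩
    · intro x hx
      exact ⟨h1.ball₁.subset hx, hA.subset hx⟩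
  have i2 : S₂ ∩ A = {p, q} := by
    apply Subset.antisymm
    · rintro x ⟨hx, hx'⟩
      rw [← hAS, ← h2]; exact ⟨hx', Or.inr hx⟩
    · intro x hx
      exact ⟨h1.ball₂.subset hx, hA.subset hx⟩
  obtain ⟨H₁, hH₁, a1, a2⟩ := stdS_of_arcs h1.ball₁ hA i1
  obtain ⟨H₂, hH₂, b1, b2⟩ := stdS_of_arcs h1.ball₂ hA i2
  have hid : (Homeomorph.refl (ℝ × ℝ)) '' {p : ℝ × ℝ | N1 p ≤ 1} = {p : ℝ × ℝ | N1 p ≤ 1} := by
    simp
  obtain ⟨t1, t2⟩ := theta_split (F := ℝ) isBall_real (H := Homeomorph.refl _) PLH.refl hH₁ hH₂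
    (E₁ := S₁) (E₂ := S₂) (D := A) (Γ := {p, q}) (by simpa using h2.symm) a1 a2 b1 b2
    h1.inter i1 i2 (by rw [hid]; exact hAB)
  rw [hid] at t1
  have P1 := (ballPair_model isBall_real).plh hH₁
  rw [a1, a2, StdS.inter a1 a2, i1] at P1
  have P2 := (ballPair_model isBall_real).plh hH₂
  rw [b1, b2, StdS.inter b1 b2, i2] at P2
  exact ⟨_, _, S₁, S₂, h1, h2, P1.symm, P2.symm, t1, t2⟩

/-- **cutting a 2-ball by an arc** (any ambient space) -/
theorem cut_disc {E : Type*} [NormedAddCommGroup E] [NormedSpace ℝ E] {K S A : Set E} {p q : E}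
    (hK : IsBall 2 K S) (hA : IsBall 1 A {p, q}) (hAK : A ⊆ K) (hAS : A ∩ S = {p, q}) :
    ∃ K₁ K₂ S₁ S₂, BallPair 1 K S₁ S₂ {p, q} ∧ S₁ ∪ S₂ = S ∧
      BallPair 1 K₁ A S₁ {p, q} ∧ BallPair 1 K₂ A S₂ {p, q} ∧ K₁ ∪ K₂ = K ∧ K₁ ∩ K₂ = A := by
  obtain ⟨e, he, he'⟩ := isBall_plane.exists_equiv hK
  have hSK : S ⊆ K := hK.subset
  have hA' : IsBall 1 (e.g '' A) {e.g p, e.g q} := by
    have := hA.map (e.symm.restrImage hAK)
    rw [← image_pair]
    exact this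
  have c1 : e.g '' A ⊆ {p : ℝ × ℝ | N1 p ≤ 1} := by
    rintro _ ⟨x, hx, rfl⟩; exact e.mg (hAK hx)
  have c2 : e.g '' A ∩ S1 ℝ = {e.g p, e.g q} := by
    have hgi : InjOn e.g K := e.symm.injOn
    rw [← he', ← hgi.image_inter hAK hSK, hAS]
    exact image_pair _ _ _
  obtain ⟨K₁, K₂, S₁, S₂, d1, d2, d3, d4, d5, d6⟩ := cut_plane hA' c1 c2
  have hK1 : K₁ ⊆ {p : ℝ × ℝ | N1 p ≤ 1} := by rw [← d5]; exact subset_union_left
  have hK2 : K₂ ⊆ {p : ℝ × ℝ | N1 p ≤ 1} := by rw [← d5]; exact subset_union_right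
  have hpq : e.f '' {e.g p, e.g q} = {p, q} := by
    have hpA : p ∈ A := hA.subset (by simp)
    have hqA : q ∈ A := hA.subset (by simp)
    rw [image_pair, e.ri _ (hAK hpA), e.ri _ (hAK hqA)]
  have hAe : e.f '' (e.g '' A) = A := by
    rw [image_image]
    exact (image_congr fun x hx => e.ri x (hAK hx)).trans (image_id' _)
  refine ⟨e.f '' K₁, e.f '' K₂, e.f '' S₁, e.f '' S₂, ?_, ?_, ?_, ?_, ?_, ?_⟩
  · have := d1.map e
    rwa [hpq] at this
  · rw [← image_union, d2, he]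
  · have := d3.map (e.restrImage hK1)
    have h : BallPair 1 (e.f '' K₁) (e.f '' (e.g '' A)) (e.f '' S₁) (e.f '' {e.g p, e.g q}) := this
    rwa [hpq, hAe] at h
  · have := d4.map (e.restrImage hK2)
    have h : BallPair 1 (e.f '' K₂) (e.f '' (e.g '' A)) (e.f '' S₂) (e.f '' {e.g p, e.g q}) := this
    rwa [hpq, hAe] at h
  · rw [← image_union, d5, e.image_eq]
  · rw [← e.injOn.image_inter hK1 hK2, d6, hAe]

end Plane

end Crest.Agent.R096.Cb_609
end

-- ▼ part R096/Cb6_609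

/-!
# R096 (row 96), CE3 ball calculus, part 6: closed curves on a 2-sphere (helper609)

* `exists_sides`: a PL circle on the octahedral sphere is the common boundary of two discs.
* `sphere_sides`: a PL circle on the boundary of a 3-ball (any ambient space).
* `exists_compl_disc`: the complementary disc of a disc in the boundary of a 3-ball.
* `glue_ball3`: gluing of two 3-balls along a disc, no hypothesis on the complements.
-/

set_option autoImplicit false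
set_option linter.unusedSectionVars false

open Set Metric MeasureTheory

namespace Crest.Agent.R096.Cb_609

open Ce_537 Pl
open scoped Pointwise

/-! ### extension of a PL map from the circle to the plane -/

/-- a norm preserving linear identification -/
noncomputable def fin2 : (ℝ × ℝ) ≃ₗ[ℝ] (Fin 2 → ℝ) := (LinearEquiv.finTwoArrow ℝ ℝ).symm

theorem norm_fin2 (p : ℝ × ℝ) : ‖fin2 p‖ = ‖p‖ := by
  have h0 : fin2 p 0 = p.1 := rfl
  have h1 : fin2 p 1 = p.2 := rfl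
  apply le_antisymm
  · rw [pi_norm_le_iff_of_nonneg (norm_nonneg _)]
    intro i
    fin_cases i
    · show ‖fin2 p 0‖ ≤ _
      rw [h0]; exact norm_fst_le p
    · show ‖fin2 p 1‖ ≤ _
      rw [h1]; exact norm_snd_le p
  · rw [Prod.norm_def]
    refine max_le ?_ ?_
    · have := norm_le_pi_norm (fin2 p) 0
      rwa [h0] at this
    · have := norm_le_pi_norm (fin2 p) 1
      rwa [h1] at this

theorem plMap_of_plOn {V W : Type*} [NormedAddCommGroup V] [NormedSpace ℝ V]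
    [NormedAddCommGroup W] [NormedSpace ℝ W] {f : V → W} (h : PLOn f univ) : PLMap f := by
  obtain ⟨h1, S, h2⟩ := h
  exact ⟨continuousOn_univ.1 h1, (S : Set _), S.finite_toSet, fun x => h2 x (mem_univ x)⟩

theorem extend_circle {V : Type*} [NormedAddCommGroup V] [NormedSpace ℝ V]
    [FiniteDimensional ℝ V] {φ : ℝ × ℝ → V}
    (h : PLOn φ (S1 ℝ)) : ∃ ψ : ℝ × ℝ → V, PLMap ψ ∧ EqOn ψ φ (S1 ℝ) := by
  have hm : ∀ x ∈ sphere (0 : Fin 2 → ℝ) 1, rotH.symm (fin2.symm x) ∈ S1 ℝ := by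
    intro x hx
    show N1 _ = 1
    rw [← norm_rotH', rotH.apply_symm_apply, ← norm_fin2, LinearEquiv.apply_symm_apply]
    simpa using hx
  have hL : PLMap (fun x => rotH.symm (fin2.symm x)) :=
    PLH_rotH.2.comp (PLMap.of_affine (fin2.symm : (Fin 2 → ℝ) →ₗ[ℝ] ℝ × ℝ).toAffineMap)
  have h1 : PLOn (fun x => φ (rotH.symm (fin2.symm x))) (sphere (0 : Fin 2 → ℝ) 1) :=
    h.comp (hL.plOn _) hm
  have h2 : PLMap (Cx_609.cone fun x => φ (rotH.symm (fin2.symm x))) :=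
    plMap_of_plOn (Cx_609.plOn_iff.1 (Cx_609.PLOn.cone (Cx_609.plOn_iff.2 h1)))
  have hR : PLMap (fun x => fin2 (rotH x)) :=
    (PLMap.of_affine (fin2 : ℝ × ℝ →ₗ[ℝ] (Fin 2 → ℝ)).toAffineMap).comp PLH_rotH.1
  refine ⟨_, h2.comp hR, fun x hx => ?_⟩
  have hx' : fin2 (rotH x) ∈ sphere (0 : Fin 2 → ℝ) 1 := by
    rw [mem_sphere, dist_zero_right, norm_fin2, norm_rotH']; exact hx
  show Cx_609.cone (fun x => φ (rotH.symm (fin2.symm x))) (fin2 (rotH x)) = φ x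
  rw [Cx_609.cone_of_sphere _ hx', LinearEquiv.symm_apply_apply, rotH.symm_apply_apply]

/-! ### a circle does not cover the sphere -/

theorem range_affine_null (g : ℝ →ᵃ[ℝ] ℝ × ℝ) : volume (range g) = 0 := by
  have h1 : (((⊤ : AffineSubspace ℝ ℝ).map g : AffineSubspace ℝ (ℝ × ℝ)) : Set (ℝ × ℝ)) =
      range g := by
    rw [AffineSubspace.coe_map, AffineSubspace.top_coe, image_univ]
  rw [← h1]
  refine Measure.addHaar_affineSubspace _ _ ?_
  intro htop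
  have hsurj : Function.Surjective g := by
    rw [← range_eq_univ, ← h1, htop, AffineSubspace.top_coe]
  have h2 : Function.Surjective g.linear := g.linear_surjective_iff.2 hsurj
  have h3 := LinearMap.finrank_le_finrank_of_surjective (f := g.linear) h2
  rw [Module.finrank_prod, Module.finrank_self] at h3
  omega

theorem circle_ne_sphere {φ : ℝ × ℝ → (ℝ × ℝ) × ℝ} (h : PLOn φ (S1 ℝ)) :
    φ '' S1 ℝ ≠ S1 (ℝ × ℝ) := by
  intro heq
  have h1 : PLOn (fun t : ℝ => (φ (th t)).1) (Icc 0 4) := by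
    have h2 := h.comp (th_pl.plOn (Icc 0 4)) (fun t ht => by
      rw [← th_image]; exact mem_image_of_mem _ ht)
    have h3 : PLMap (fun p : (ℝ × ℝ) × ℝ => p.1) := PLMap.id.fst
    exact (h3.plOn univ).comp h2 (fun _ _ => mem_univ _)
  obtain ⟨-, S, hS⟩ := h1
  have hcov : closedBall (0 : ℝ × ℝ) 1 ⊆ ⋃ g ∈ S, range g := by
    intro x hx
    rw [mem_closedBall, dist_zero_right] at hx
    have h2 : ep x ∈ S1 (ℝ × ℝ) := by
      rw [← Kp_union_Km, ← ep_image]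
      left
      exact mem_image_of_mem _ (by simpa using hx)
    rw [← heq, ← th_image] at h2
    obtain ⟨_, ⟨t, ht, rfl⟩, e⟩ := h2
    obtain ⟨g, hg, e'⟩ := hS t ht
    refine mem_biUnion hg ⟨t, ?_⟩
    have e2 : (φ (th t)).1 = g t := e'
    rw [← e2, e]; rfl
  have h0 : volume (⋃ g ∈ S, range g) = 0 :=
    (measure_biUnion_null_iff S.countable_toSet).2 fun g _ => range_affine_null g
  have h4 := measure_mono_null hcov h0
  exact (measure_closedBall_pos volume (0 : ℝ × ℝ) one_pos).ne' h4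

/-! ### the sides of a circle -/

theorem em_mem {x : ℝ × ℝ} (hx : ‖x‖ ≤ 1) : em x ∈ S1 (ℝ × ℝ) := by
  rw [← Kp_union_Km, ← em_image]
  right
  exact mem_image_of_mem _ (by simpa using hx)

/-- scaled rotation: the double cone disc onto the square of radius `r` -/
noncomputable def rotR (r : ℝ) (hr : r ≠ 0) : (ℝ × ℝ) ≃ₜ (ℝ × ℝ) :=
  rotH.trans (Homeomorph.smulOfNeZero r hr)

theorem rotR_ball (r : ℝ) (hr : 0 < r) :
    rotR r hr.ne' '' {p : ℝ × ℝ | N1 p ≤ 1} = closedBall 0 r := by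
  have : rotR r hr.ne' '' {p : ℝ × ℝ | N1 p ≤ 1} = r • (rotH '' {p : ℝ × ℝ | N1 p ≤ 1}) := by
    unfold rotR
    rw [trans_image]; rfl
  rw [this, image_rotH_ball, _root_.smul_closedBall _ _ zero_le_one, smul_zero, Real.norm_eq_abs,
    abs_of_pos hr, mul_one]

/-- **the two sides of a circle on the octahedral sphere** -/
theorem exists_sides {φ : ℝ × ℝ → (ℝ × ℝ) × ℝ} (hφ : PLOn φ (S1 ℝ)) (hinj : InjOn φ (S1 ℝ))
    (hS : φ '' S1 ℝ ⊆ S1 (ℝ × ℝ)) :
    ∃ D E, StdS D E ∧ D ∪ E = S1 (ℝ × ℝ) ∧ D ∩ E = φ '' S1 ℝ := by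
  classical
  have hcpt : IsCompact (S1 ℝ) := isCompact_S1
  have hΓc : IsCompact (φ '' S1 ℝ) := hcpt.image_of_continuousOn hφ.1
  obtain ⟨K, hK, hKS, hKneg⟩ := push_off hΓc.isClosed hS (circle_ne_sphere hφ)
  have hKmem : ∀ x ∈ S1 ℝ, K (φ x) ∈ S1 (ℝ × ℝ) := fun x hx => by
    rw [← hKS]; exact mem_image_of_mem _ (hS (mem_image_of_mem _ hx))
  have hKm : ∀ x ∈ S1 ℝ, K (φ x) ∈ Km (ℝ × ℝ) := fun x hx =>
    ⟨(hKneg _ (mem_image_of_mem _ hx)).le, hKmem x hx⟩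
  -- the plane curve
  let γ : ℝ × ℝ → ℝ × ℝ := fun x => (K (φ x)).1
  have hem : ∀ x ∈ S1 ℝ, em (γ x) = K (φ x) := fun x hx => em_of_mem_Km (hKm x hx)
  have hγ : PLOn γ (S1 ℝ) := by
    have h1 : PLMap (fun p : (ℝ × ℝ) × ℝ => (K p).1) := PLMap.fst hK.1
    exact (h1.plOn univ).comp hφ (fun _ _ => mem_univ _)
  have hγi : InjOn γ (S1 ℝ) := by
    intro x hx y hy e
    apply hinj hx hy
    apply K.injective
    rw [← hem x hx, ← hem y hy, e]
  have hγn : ∀ x ∈ S1 ℝ, ‖γ x‖ < 1 := by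
    intro x hx
    have h1 : ‖(K (φ x)).1‖ + |(K (φ x)).2| = 1 := hKmem x hx
    have h2 := hKneg _ (mem_image_of_mem _ hx)
    rw [abs_of_neg h2] at h1
    show ‖(K (φ x)).1‖ < 1
    linarith
  obtain ⟨H, hH, hHS⟩ := stdC_of_plOn hγ hγi
  -- the inside lies in the open square
  have hne : (S1 ℝ).Nonempty := ⟨(1, 0), by show |(1:ℝ)| + |(0:ℝ)| = 1; norm_num⟩
  obtain ⟨x0, hx0, hmax⟩ := hcpt.exists_isMaxOn hne (hγ.1.norm)
  set r : ℝ := (1 + ‖γ x0‖) / 2 with hr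
  have hr0 : 0 < r := by have := norm_nonneg (γ x0); linarith
  have hr1 : r < 1 := by have := hγn x0 hx0; linarith
  have hcurve : H '' S1 ℝ ⊆ rotR r hr0.ne' '' {p : ℝ × ℝ | N1 p ≤ 1} := by
    rw [rotR_ball r hr0, hHS]
    rintro _ ⟨x, hx, rfl⟩
    have h1 : ‖γ x‖ ≤ ‖γ x0‖ := hmax hx
    have h2 := hγn x0 hx0
    rw [mem_closedBall, dist_zero_right]
    linarith
  have hU := inside_subset hcurve
  have hin : H '' {p : ℝ × ℝ | N1 p ≤ 1} ⊆ closedBall 0 r := by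
    rw [image_le_eq, ← rotR_ball r hr0]
    refine union_subset (hU.trans (image_mono U1_subset_le)) hcurve
  have hlt : ∀ y ∈ H '' {p : ℝ × ℝ | N1 p ≤ 1}, ‖y‖ < 1 := by
    intro y hy
    have := hin hy
    rw [mem_closedBall, dist_zero_right] at this
    linarith
  -- the two sides
  let D : Set ((ℝ × ℝ) × ℝ) := em '' (H '' {p : ℝ × ℝ | N1 p ≤ 1})
  let W : Set ((ℝ × ℝ) × ℝ) := {p | p.2 < 0} ∩ Prod.fst ⁻¹' (H '' U1 ℝ)
  let E : Set ((ℝ × ℝ) × ℝ) := S1 (ℝ × ℝ) \ W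
  have hemc : Continuous (em : ℝ × ℝ → (ℝ × ℝ) × ℝ) := (em_pl polyNorm_plane).continuous
  have hDc : IsClosed D := ((isCompact_le.image H.continuous).image hemc).isClosed
  have hWo : IsOpen W := (isOpen_lt continuous_snd continuous_const).inter
    ((H.isOpenMap _ isOpen_U1).preimage continuous_fst)
  have hEc : IsClosed E := isCompact_S1.isClosed.sdiff hWo
  have hDS : D ⊆ S1 (ℝ × ℝ) := by
    rintro _ ⟨y, hy, rfl⟩; exact em_mem (hlt y hy).le
  have hWD : ∀ p ∈ S1 (ℝ × ℝ), p ∈ W → p ∈ em '' (H '' U1 ℝ) := by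
    intro p hp hpW
    exact ⟨p.1, hpW.2, em_of_mem_Km ⟨(show p.2 < 0 from hpW.1).le, hp⟩⟩
  have hemW : ∀ y, ‖y‖ < 1 → y ∈ H '' U1 ℝ → em y ∈ W := by
    intro y hy1 hy
    refine ⟨?_, hy⟩
    show -(1 - ‖y‖) < 0
    linarith
  have hDE : D ∪ E = S1 (ℝ × ℝ) := by
    apply Subset.antisymm (union_subset hDS sdiff_subset)
    intro p hp
    by_cases h : p ∈ W
    · left
      obtain ⟨y, hy, e⟩ := hWD p hp h
      exact ⟨y, image_mono U1_subset_le hy, e⟩
    · exact Or.inr ⟨hp, h⟩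
  have hΓ : K '' (φ '' S1 ℝ) = em '' (H '' S1 ℝ) := by
    rw [hHS, image_image, image_image]
    exact image_congr fun x hx => (hem x hx).symm
  have hi : D ∩ E = K '' (φ '' S1 ℝ) := by
    rw [hΓ]
    apply Subset.antisymm
    · rintro _ ⟨⟨y, hy, rfl⟩, -, hnW⟩
      have h1 := hy
      rw [image_le_eq] at h1
      rcases h1 with h1 | h1
      · exact absurd (hemW y (hlt y hy) h1) hnW
      · exact ⟨y, h1, rfl⟩
    · rintro _ ⟨y, hy, rfl⟩
      have hy' : y ∈ H '' {p : ℝ × ℝ | N1 p ≤ 1} := image_mono S1_subset_le hy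
      refine ⟨⟨y, hy', rfl⟩, em_mem (hlt y hy').le, ?_⟩
      rintro ⟨-, h2⟩
      exact disjoint_left.1 (disjoint_U1_S1 H) h2 hy
  -- pull back
  have hpull : ∀ A : Set ((ℝ × ℝ) × ℝ), K.symm '' (K '' A) = A := fun A => symm_image_image' K A
  have hKsS : K.symm '' S1 (ℝ × ℝ) = S1 (ℝ × ℝ) := by
    nth_rewrite 1 [← hKS]
    exact hpull _
  have hi' : K.symm '' D ∩ K.symm '' E = φ '' S1 ℝ := by
    rw [← image_inter K.symm.injective, hi, hpull]
  obtain ⟨ψ, hψ, hψe⟩ := extend_circle hφ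
  have hψi : ψ '' S1 ℝ = φ '' S1 ℝ := image_congr hψe
  have hψinj : InjOn ψ (S1 ℝ) := fun x hx y hy e => hinj hx hy (by rw [← hψe hx, ← hψe hy, e])
  refine ⟨K.symm '' D, K.symm '' E, ?_, by rw [← image_union, hDE, hKsS], hi'⟩
  have hstd : StdC (S1 (ℝ × ℝ)) := ⟨Homeomorph.refl _, PLH.refl, by simp⟩
  refine hstd.pair_plane hψ hψinj (K.symm.isClosedMap _ hDc) (K.symm.isClosedMap _ hEc)
    (by rw [← image_union, hDE, hKsS]) (by rw [hi', hψi]) ?_ ?_
  · rw [hψi, ← hpull (φ '' S1 ℝ), ← image_sdiff K.symm.injective]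
    refine Set.Nonempty.image _ ?_
    refine ⟨em (H 0), ⟨H 0, ⟨0, by simp [N1], rfl⟩, rfl⟩, ?_⟩
    rw [hΓ]
    rintro ⟨y, hy, e⟩
    have e1 : y = H 0 := congrArg Prod.fst e
    rw [e1] at hy
    obtain ⟨z, hz, e2⟩ := hy
    rw [H.injective e2] at hz
    have : N1 (0 : ℝ × ℝ) = 1 := hz
    rw [N1_zero] at this
    exact zero_ne_one this
  · rw [hψi, ← hpull (φ '' S1 ℝ), ← image_sdiff K.symm.injective]
    refine Set.Nonempty.image _ ?_
    refine ⟨(0, 1), ⟨by simp [S1, N1], ?_⟩, ?_⟩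
    · rintro ⟨h1, -⟩
      have : (1:ℝ) < 0 := h1
      linarith
    · rintro ⟨_, ⟨x, hx, rfl⟩, e⟩
      have h1 := hKneg _ (mem_image_of_mem _ hx)
      rw [e] at h1
      have : (1:ℝ) < 0 := h1
      linarith

/-! ### the boundary of an abstract 3-ball -/

section Abstract

variable {E : Type*} [NormedAddCommGroup E] [NormedSpace ℝ E]

theorem isBall_space : IsBall 3 {p : (ℝ × ℝ) × ℝ | N1 p ≤ 1} (S1 (ℝ × ℝ)) := by
  have := ballPair_real2.ball
  rwa [Kp_union_Km] at this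

/-- the boundary of a 2-ball is a circle -/
theorem circle_of_disc {A Γ : Set E} (h : IsBall 2 A Γ) : Nonempty (PLEquiv (S1 ℝ) Γ) := by
  obtain ⟨e, he, he'⟩ := isBall_plane.exists_equiv h
  exact ⟨e.restr isBall_plane.subset h.subset (fun x hx => by rw [← he]; exact ⟨x, hx, rfl⟩)
    (fun x hx => by rw [← he']; exact ⟨x, hx, rfl⟩)⟩

/-- **a circle on the boundary of a 3-ball bounds two complementary discs** -/
theorem sphere_sides {K S Γ : Set E} (hK : IsBall 3 K S) (hΓ : Nonempty (PLEquiv (S1 ℝ) Γ))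
    (hΓS : Γ ⊆ S) : ∃ A B, BallPair 2 K A B Γ ∧ A ∪ B = S := by
  obtain ⟨c⟩ := hΓ
  obtain ⟨e, he, he'⟩ := isBall_space.exists_equiv hK
  have hSK : S ⊆ K := hK.subset
  let φ : ℝ × ℝ → (ℝ × ℝ) × ℝ := fun x => e.g (c.f x)
  have hφ : PLOn φ (S1 ℝ) := (e.pg.mono (hΓS.trans hSK)).comp c.pf c.mf
  have hgi : InjOn e.g K := e.symm.injOn
  have hφi : InjOn φ (S1 ℝ) := by
    intro x hx y hy h
    exact c.injOn hx hy (hgi (hSK (hΓS (c.mf hx))) (hSK (hΓS (c.mf hy))) h)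
  have himg : φ '' S1 ℝ = e.g '' Γ := by
    rw [← c.image_eq, image_image]
  have hφS : φ '' S1 ℝ ⊆ S1 (ℝ × ℝ) := by
    rw [himg, ← he']; exact image_mono hΓS
  obtain ⟨D, E', hDE, h1, h2⟩ := exists_sides hφ hφi hφS
  obtain ⟨H, hH, a1, a2⟩ := hDE
  have a3 := StdS.inter a1 a2
  have P := ballPair_real2.plh hH
  rw [a1, a2, a3, h2] at P
  have P' : BallPair 2 {p : (ℝ × ℝ) × ℝ | N1 p ≤ 1} D E' (φ '' S1 ℝ) :=
    ⟨by rw [h1]; exact isBall_space, P.ball₁, P.ball₂, P.inter⟩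
  have Q := P'.map e
  have hΓ' : e.f '' (φ '' S1 ℝ) = Γ := by
    rw [himg, image_image]
    exact (image_congr fun x hx => e.ri x (hSK (hΓS hx))).trans (image_id' _)
  rw [hΓ'] at Q
  exact ⟨_, _, Q, by rw [← image_union, h1, he]⟩

/-- **the complementary disc** -/
theorem exists_compl_disc {K S A Γ : Set E} (hK : IsBall 3 K S) (hA : IsBall 2 A Γ)
    (hAS : A ⊆ S) : ∃ B, BallPair 2 K A B Γ ∧ A ∪ B = S := by
  obtain ⟨A₁, B₁, h1, h2⟩ := sphere_sides hK (circle_of_disc hA) (hA.subset.trans hAS)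
  have key : ∀ {A₁ B₁ : Set E}, BallPair 2 K A₁ B₁ Γ → A \ Γ ⊆ A₁ → A = A₁ := by
    intro A₁ B₁ h1 h3
    refine ball_eq_of_subset hA h1.ball₁ ?_
    intro x hx
    by_cases hx' : x ∈ Γ
    · exact h1.ball₁.subset hx'
    · exact h3 ⟨hx, hx'⟩
  have hcov : A \ Γ ⊆ A₁ ∪ B₁ := by rw [h2]; exact sdiff_subset.trans hAS
  have hpre := hA.isPreconnected_diff
  have hdis : (A \ Γ) ∩ (A₁ ∩ B₁) = ∅ := by
    rw [h1.inter]
    ext x
    constructor
    · rintro ⟨⟨-, h3⟩, h4⟩; exact h3 h4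
    · simp
  have h3 := isPreconnected_closed_iff.1 hpre A₁ B₁ h1.ball₁.isClosed h1.ball₂.isClosed hcov
  by_cases c1 : ((A \ Γ) ∩ A₁).Nonempty
  · by_cases c2 : ((A \ Γ) ∩ B₁).Nonempty
    · have := h3 c1 c2
      rw [hdis] at this
      exact absurd this (by simp)
    · have h4 : A \ Γ ⊆ A₁ := by
        intro x hx
        rcases hcov hx with h5 | h5
        · exact h5
        · exact absurd ⟨x, hx, h5⟩ c2
      have e := key h1 h4
      rw [e]
      exact ⟨B₁, h1, h2⟩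
  · have h4 : A \ Γ ⊆ B₁ := by
      intro x hx
      rcases hcov hx with h5 | h5
      · exact absurd ⟨x, hx, h5⟩ c1
      · exact h5
    have e := key h1.symm h4
    rw [e]
    exact ⟨A₁, h1.symm, by rw [union_comm]; exact h2⟩

/-- **gluing of two 3-balls along a disc** -/
theorem glue_ball3 {K₁ K₂ S₁ S₂ D Γ : Set E} (h₁ : IsBall 3 K₁ S₁) (h₂ : IsBall 3 K₂ S₂)
    (hD : IsBall 2 D Γ) (hD1 : D ⊆ S₁) (hD2 : D ⊆ S₂) (hK : K₁ ∩ K₂ = D) :
    ∃ D₁ D₂, BallPair 2 (K₁ ∪ K₂) D₁ D₂ Γ ∧ D ∪ D₁ = S₁ ∧ D ∪ D₂ = S₂ ∧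
      D ∩ D₁ = Γ ∧ D ∩ D₂ = Γ := by
  obtain ⟨D₁, a1, a2⟩ := exists_compl_disc h₁ hD hD1
  obtain ⟨D₂, b1, b2⟩ := exists_compl_disc h₂ hD hD2
  exact ⟨D₁, D₂, a1.glue b1 hK, a2, b2, a1.inter, b1.inter⟩

end Abstract

end Crest.Agent.R096.Cb_609
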