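import Crest.Agent.R096.Xp8_537
import Crest.Agent.R096.Pb1_715
import Crest.Agent.R096.Ar4_241
import Crest.Agent.R096.Xq2_537
import Crest.Agent.R096.Cb2_609

-- ▼ part R096/Dl1_609
section

/-!
# R096 (row 96), (R1) DUAL BALLS, part 1 (helper609)

`isBall_conic`: the general ball lemma.  A conic map `H : E → (ι → ℝ)` with nonnegative
coordinates which is invariant under a subspace `V` and recovers every vector modulo `V`
(`v - ∑ H v i • a i ∈ V`) realises `{c + ∑ H v i • a i | ∑ H v i ≤ 1}` as a PL ball of dimension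
`finrank E - finrank V`, with boundary `∑ H v i = 1`.
-/

set_option autoImplicit false
set_option linter.unusedSectionVars false
set_option linter.unusedVariables false
set_option linter.deprecated false

open Set Metric Module
open scoped Classical

namespace Crest.Agent.R096.Dl_609

open Ce_537

section Model

variable {E F : Type*} [NormedAddCommGroup E] [NormedSpace ℝ E]
  [NormedAddCommGroup F] [NormedSpace ℝ F]

/-- conic selections are PL on every set -/
theorem plOn_conic {H : E → F} {S : Finset (E →L[ℝ] F)} (hH : Str_696.Conic H S) (K : Set E) :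
    PLOn H K := by
  refine ⟨hH.cont.continuousOn,
    S.image (fun A : E →L[ℝ] F => (A : E →ₗ[ℝ] F).toAffineMap), fun x _ => ?_⟩
  obtain ⟨A, hA, e⟩ := hH.sel x
  exact ⟨_, Finset.mem_image_of_mem _ hA, e⟩

/-- a positive conic function on `Fin k → ℝ` is transported to the cube norm by a PL bijection -/
theorem exists_rescale_conic {k : ℕ} {P : (Fin k → ℝ) → ℝ} {S : Finset ((Fin k → ℝ) →L[ℝ] ℝ)}
    (hP : Str_696.Conic P S) (hpos : ∀ x, x ≠ 0 → 0 < P x) :
    ∃ f g : (Fin k → ℝ) → (Fin k → ℝ), (∀ K, PLOn f K) ∧ (∀ K, PLOn g K) ∧ (∀ x, g (f x) = x) ∧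
      (∀ x, f (g x) = x) ∧ ∀ x, P (f x) = ‖x‖ := by
  let M : Finset ((Fin k → ℝ) →L[ℝ] ℝ) :=
    insert 0 ((Finset.univ : Finset (Fin k × Bool)).image fun r =>
      (if r.2 then (1 : ℝ) else -1) • ContinuousLinearMap.proj (R := ℝ) (φ := fun _ : Fin k => ℝ) r.1)
  have hq : ∀ x : Fin k → ℝ, ∀ l ∈ M, l x ≤ ‖x‖ := by
    intro x l hl
    rcases Finset.mem_insert.1 hl with rfl | hl
    · simp
    · obtain ⟨⟨i, b⟩, -, rfl⟩ := Finset.mem_image.1 hl
      have h1 : |x i| ≤ ‖x‖ := by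
        rw [← Real.norm_eq_abs]; exact norm_le_pi_norm x i
      cases b
      · have : -x i ≤ |x i| := neg_le_abs _
        simpa using this.trans h1
      · have : x i ≤ |x i| := le_abs_self _
        simpa using this.trans h1
  have hq' : ∀ x : Fin k → ℝ, ∃ l ∈ M, ‖x‖ = l x := by
    intro x
    by_cases hx : x = 0
    · exact ⟨0, Finset.mem_insert_self _ _, by simp [hx]⟩
    · obtain ⟨i, hi⟩ := exists_coord hx
      refine ⟨(if decide (0 ≤ x i) then (1 : ℝ) else -1) •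
        ContinuousLinearMap.proj (R := ℝ) (φ := fun _ : Fin k => ℝ) i,
        Finset.mem_insert_of_mem (Finset.mem_image.2 ⟨(i, decide (0 ≤ x i)), Finset.mem_univ _,
          rfl⟩), ?_⟩
      rw [hi]
      by_cases h0 : 0 ≤ x i
      · simp [h0, abs_of_nonneg h0]
      · simp [h0, abs_of_neg (not_le.1 h0)]
  obtain ⟨V, hV, F, hF, -, hv, hsign⟩ := Fan_696.exists_Fan hP
    ((M ×ˢ M).image fun r => r.1 - r.2)
  have hlin1 : ∀ c ∈ F.T, ∃ L : (Fin k → ℝ) →L[ℝ] ℝ, ∀ x ∈ F.cone c, P x = L x := by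
    intro c hc
    obtain ⟨A, -, hA⟩ := hF c hc
    exact ⟨A, fun x hx => hA hx.choose x hx.choose_spec⟩
  have hlin2 : ∀ c ∈ F.T, ∃ L : (Fin k → ℝ) →L[ℝ] ℝ, ∀ x ∈ F.cone c, ‖x‖ = L x := by
    intro c hc
    have hNe : M.Nonempty := ⟨0, Finset.mem_insert_self _ _⟩
    obtain ⟨m, hm, hmm⟩ := Pb_715.exists_max F hNe (c := c) (fun l hl l' hl' =>
      hsign c hc (l - l') (Finset.mem_image.2 ⟨(l, l'), Finset.mem_product.2 ⟨hl, hl'⟩, rfl⟩))
    refine ⟨m, fun x hx => le_antisymm ?_ (hq x m hm)⟩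
    obtain ⟨l, hl, e⟩ := hq' x
    rw [e]
    exact hmm l hl x hx
  exact Pb_715.exists_rescale F hv hlin1 hlin2 hpos (fun x hx => norm_pos_iff.2 hx)

/-- **the general ball lemma** -/
theorem isBall_conic [FiniteDimensional ℝ E] {ι : Type*} [Fintype ι] (a : ι → E) (c : E)
    (V : Submodule ℝ E) {H : E → (ι → ℝ)} {S : Finset (E →L[ℝ] (ι → ℝ))}
    (hH : Str_696.Conic H S) (h0 : ∀ v i, 0 ≤ H v i)
    (hb : ∀ v, v - ∑ i, H v i • a i ∈ V) (hu : ∀ v, ∀ u ∈ V, H (v + u) = H v) :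
    IsBall (finrank ℝ E - finrank ℝ V) {y | ∃ v, ∑ i, H v i ≤ 1 ∧ y = c + ∑ i, H v i • a i}
      {y | ∃ v, ∑ i, H v i = 1 ∧ y = c + ∑ i, H v i • a i} := by
  obtain ⟨W, hVW⟩ := V.exists_isCompl
  have hk : finrank ℝ W = finrank ℝ E - finrank ℝ V := by
    have := Submodule.finrank_add_eq_of_isCompl hVW
    omega
  rw [← hk]
  set k := finrank ℝ W with hkdef
  let b : W ≃L[ℝ] (Fin k → ℝ) :=
    ((finBasis ℝ W).equivFun : W ≃ₗ[ℝ] (Fin k → ℝ)).toContinuousLinearEquiv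
  let j : (Fin k → ℝ) →L[ℝ] E := W.subtypeL.comp b.symm.toContinuousLinearMap
  let pr : E →ₗ[ℝ] W := W.linearProjOfIsCompl V hVW.symm
  let π : E →L[ℝ] (Fin k → ℝ) := b.toContinuousLinearMap.comp (LinearMap.toContinuousLinearMap pr)
  have hpr : ∀ w : W, pr (w : E) = w := fun w => Submodule.linearProjOfIsCompl_apply_left _ _
  have hπj : ∀ x, π (j x) = x := by
    intro x
    show b (pr ((b.symm x : W) : E)) = x
    rw [hpr, b.apply_symm_apply]
  have hπV : ∀ u ∈ V, π u = 0 := by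
    intro u hu
    show b (pr u) = 0
    have : pr u = 0 := by
      have := Submodule.linearProjOfIsCompl_apply_right hVW.symm ⟨u, hu⟩
      exact this
    rw [this, map_zero]
  have hjπ : ∀ v, j (π v) - v ∈ V := by
    intro v
    have h1 : ((b.symm (b (pr v)) : W) : E) = (pr v : E) := by rw [b.symm_apply_apply]
    have h2 : j (π v) = (pr v : E) := h1
    rw [h2]
    have h3 : pr ((pr v : E) - v) = 0 := by
      rw [map_sub, hpr, sub_self]
    exact (Submodule.linearProjOfIsCompl_apply_eq_zero_iff hVW.symm).1 h3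
  -- the conic function
  let sm : (ι → ℝ) →L[ℝ] ℝ := ∑ i, ContinuousLinearMap.proj (R := ℝ) (φ := fun _ : ι => ℝ) i
  have hsm : ∀ x, sm x = ∑ i, x i := fun x => by simp [sm]
  let P : (Fin k → ℝ) → ℝ := fun x => ∑ i, H (j x) i
  have hP : Str_696.Conic P (S.image fun A => (sm.comp A).comp j) := by
    refine ⟨?_, fun t v ht => ?_, fun v => ?_⟩
    · have h1 : P = fun x => sm (H (j x)) := by
        funext x; rw [hsm]
      rw [h1]
      exact sm.continuous.comp (hH.cont.comp j.continuous)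
    · show ∑ i, H (j (t • v)) i = t • ∑ i, H (j v) i
      rw [map_smul, hH.homog t _ ht, Finset.smul_sum]
      rfl
    · obtain ⟨A, hA, e⟩ := hH.sel (j v)
      refine ⟨_, Finset.mem_image_of_mem _ hA, ?_⟩
      show ∑ i, H (j v) i = sm (A (j v))
      rw [hsm, e]
  have hpos : ∀ x, x ≠ 0 → 0 < P x := by
    intro x hx
    refine lt_of_le_of_ne (Finset.sum_nonneg fun i _ => h0 _ i) fun h => hx ?_
    have h1 := (Finset.sum_eq_zero_iff_of_nonneg fun i _ => h0 (j x) i).1 h.symm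
    have h2 : j x ∈ V := by
      have h3 := hb (j x)
      rw [Finset.sum_eq_zero fun i hi => by rw [h1 i hi, zero_smul], sub_zero] at h3
      exact h3
    rw [← hπj x, hπV _ h2]
  obtain ⟨f, g, hf, hg, hgf, hfg, hPf⟩ := exists_rescale_conic hP hpos
  have hPg : ∀ x, ‖g x‖ = P x := fun x => by rw [← hPf, hfg]
  let Ψ : (Fin k → ℝ) → E := fun x => c + ∑ i, H (j x) i • a i
  have hΨ : ∀ K, PLOn Ψ K := by
    intro K
    let T : (ι → ℝ) →L[ℝ] E := ∑ i, (ContinuousLinearMap.proj (R := ℝ)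
      (φ := fun _ : ι => ℝ) i).smulRight (a i)
    have hT : ∀ x, T x = ∑ i, x i • a i := fun x => by simp [T]
    have h1 : PLOn (fun x => H (j x)) K := by
      refine (plOn_conic hH univ).comp (plOn_affine (j : (Fin k → ℝ) →ₗ[ℝ] E).toAffineMap K) ?_
      exact fun x _ => mem_univ _
    have h2 := h1
    have h3 : PLOn (fun x => T (H (j x)) + c) K := Bd_416.pl_add_const (Bd_416.pl_clm h1 T) c
    refine h3.congr fun x _ => ?_
    show c + ∑ i, H (j x) i • a i = T (H (j x)) + c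
    rw [hT, add_comm]
  have hπΨ : ∀ x, π (Ψ x - c) = x := by
    intro x
    show π (c + ∑ i, H (j x) i • a i - c) = x
    rw [add_sub_cancel_left]
    have h1 := hπV _ (hb (j x))
    rw [map_sub, sub_eq_zero] at h1
    rw [← h1, hπj]
  have hHπ : ∀ v, H (j (π v)) = H v := by
    intro v
    have := hu v _ (hjπ v)
    rwa [add_sub_cancel] at this
  have hπy : ∀ v, π (c + ∑ i, H v i • a i - c) = π v := by
    intro v
    rw [add_sub_cancel_left]
    have h1 := hπV _ (hb v)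
    rw [map_sub, sub_eq_zero] at h1
    exact h1.symm
  have hΨπ : ∀ v, Ψ (π (c + ∑ i, H v i • a i - c)) = c + ∑ i, H v i • a i := by
    intro v
    rw [hπy]
    show c + ∑ i, H (j (π v)) i • a i = _
    rw [hHπ]
  have hPπ : ∀ v, P (π (c + ∑ i, H v i • a i - c)) = ∑ i, H v i := by
    intro v
    rw [hπy]
    show ∑ i, H (j (π v)) i = _
    rw [hHπ]
  have hg' : ∀ K, PLOn (fun y => g (π (y - c))) K := by
    intro K
    have h1 : PLOn (fun y : E => π (y - c)) K :=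
      Bd_416.pl_clm (Bd_416.pl_sub_const (plOn_id K) c) π
    exact (hg univ).comp h1 fun x _ => mem_univ _
  refine ⟨⟨fun x => Ψ (f x), fun y => g (π (y - c)), ?_, hg' _, ?_, ?_, ?_, ?_⟩, ?_⟩
  · exact (hΨ univ).comp (hf _) fun x _ => mem_univ _
  · intro x hx
    refine ⟨j (f x), ?_, rfl⟩
    have h1 : P (f x) ≤ 1 := by
      rw [hPf]; simpa using hx
    exact h1
  · rintro y ⟨v, hv, rfl⟩
    rw [cube, mem_closedBall_zero_iff, hPg, hPπ]
    exact hv
  · intro x _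
    show g (π (Ψ (f x) - c)) = x
    rw [hπΨ, hgf]
  · rintro y ⟨v, hv, rfl⟩
    show Ψ (f (g (π (c + ∑ i, H v i • a i - c)))) = _
    rw [hfg, hΨπ]
  · ext y
    constructor
    · rintro ⟨x, hx, rfl⟩
      refine ⟨j (f x), ?_, rfl⟩
      have h1 : P (f x) = 1 := by
        rw [hPf]; simpa using hx
      exact h1
    · rintro ⟨v, hv, rfl⟩
      refine ⟨g (π (c + ∑ i, H v i • a i - c)), ?_, ?_⟩
      · rw [sph, mem_sphere_zero_iff_norm, hPg, hPπ]
        exact hv
      · show Ψ (f (g (π (c + ∑ i, H v i • a i - c)))) = _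
        rw [hfg, hΨπ]

end Model

end Crest.Agent.R096.Dl_609
end

-- ▼ part R096/Dl2_609
section

/-!
# R096 (row 96), (R1) DUAL BALLS, part 2 (helper609): the local structure of the barycentric
subdivision of a convex cell complex `CC Λ Q`, `Λ` open, at the points of an open simplex
-/

set_option autoImplicit false
set_option linter.unusedSectionVars false
set_option linter.unusedVariables false
set_option linter.deprecated false

open Set Metric Module Filter Topology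
open scoped Classical

namespace Crest.Agent.R096.Dl_609

open Ce_537 Xp_537

variable {E : Type*} [NormedAddCommGroup E] [NormedSpace ℝ E]
variable {Q : Type*}

section Lc

/-- linear combinations -/
noncomputable def lc (a : Q → E) : (Q →₀ ℝ) →ₗ[ℝ] E := Finsupp.linearCombination ℝ a

/-- the total mass -/
noncomputable def tot : (Q →₀ ℝ) →ₗ[ℝ] ℝ := Finsupp.linearCombination ℝ (fun _ : Q => (1 : ℝ))

lemma tot_eq (l : Q →₀ ℝ) : tot l = ∑ ρ ∈ l.support, l ρ := by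
  simp [tot, Finsupp.linearCombination_apply, Finsupp.sum]

@[simp] lemma lc_single (a : Q → E) (q : Q) (s : ℝ) : lc a (Finsupp.single q s) = s • a q := by
  simp [lc]

@[simp] lemma tot_single (q : Q) (s : ℝ) : tot (Finsupp.single q s) = s := by
  simp [tot]

lemma lc_sub (b : Q → E) (x : E) (l : Q →₀ ℝ) :
    lc (fun ρ => b ρ - x) l = lc b l - tot l • x := by
  simp only [lc, tot, Finsupp.linearCombination_apply, Finsupp.sum, smul_sub,
    Finset.sum_sub_distrib, smul_eq_mul, mul_one, Finset.sum_smul]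

lemma lc_mem {V : Submodule ℝ E} {a : Q → E} {l : Q →₀ ℝ} (h : ∀ ρ ∈ l.support, a ρ ∈ V) :
    lc a l ∈ V := by
  rw [lc, Finsupp.linearCombination_apply]
  exact Submodule.sum_mem _ fun ρ hρ => V.smul_mem _ (h ρ hρ)

lemma lc_erase {a : Q → E} {q : Q} (h : a q = 0) (l : Q →₀ ℝ) : lc a (l.erase q) = lc a l := by
  have h1 : l = l.erase q + Finsupp.single q (l q) := (Finsupp.erase_add_single q l).symm
  conv_rhs => rw [h1, map_add, lc_single, h, smul_zero, add_zero]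

end Lc

variable [PartialOrder Q] {Λ : Set E} (C : CC Λ Q)

lemma lc_eq_bs (b : Q → E) (l : Q →₀ ℝ) : lc b l = bs b l := by
  simp [lc, Finsupp.linearCombination_apply, Finsupp.sum, bs]

lemma tot_wt {l : Q →₀ ℝ} (h : Wt l) : tot l = 1 := by rw [tot_eq, h.sum]

/-- the open cell absorbs convex combinations -/
theorem opn_combo {σ : Q} {y z : E} (hy : y ∈ C.cell σ) (ho : ∀ p < σ, y ∉ C.cell p)
    (hz : z ∈ C.cell σ) {c : ℝ} (hc0 : 0 < c) (hc1 : c ≤ 1) {p : Q} (hp : p < σ) :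
    c • y + (1 - c) • z ∉ C.cell p := by
  -- representation of `y`
  obtain ⟨y', hy', w, hw0, hw1, rfl⟩ : ∃ y' ∈ C.cell σ, ∃ w : ℝ, 0 < w ∧ w ≤ 1 ∧
      y = (1 - w) • y' + w • C.b σ := by
    rcases C.rad σ y hy with rfl | ⟨r, hr, y', hy', w, hw, rfl⟩
    · exact ⟨C.b σ, C.bmem σ, 1, one_pos, le_rfl, by simp⟩
    · refine ⟨y', C.mono hr hy', w, ?_, hw.2.le, rfl⟩
      rcases hw.1.eq_or_lt with h0 | h0
      · exfalso
        apply ho r hr
        rw [← h0]; simpa using hy'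
      · exact h0
  have hcw0 : 0 < c * w := mul_pos hc0 hw0
  have hcw1 : c * w ≤ 1 := by nlinarith
  intro hmem
  -- total representation
  have key : ∀ (W : ℝ) (r : Q) (y'' : E), r < σ → y'' ∈ C.cell r → 0 < W → W < 1 →
      c • ((1 - w) • y' + w • C.b σ) + (1 - c) • z = (1 - W) • y'' + W • C.b σ → False := by
    intro W r y'' hr hy'' h0 h1 he
    have h2 : (1 - 0 : ℝ) • (c • ((1 - w) • y' + w • C.b σ) + (1 - c) • z) + (0 : ℝ) • C.b σ =
        (1 - W) • y'' + W • C.b σ := by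
      rw [he]; module
    have h3 := (C.rad_uniq hp hr hmem hy'' (by simp) ⟨h0.le, h1⟩ h2).2
    linarith
  have keyb : c • ((1 - w) • y' + w • C.b σ) + (1 - c) • z = C.b σ → False := by
    intro he
    rw [he] at hmem
    exact C.b_notMem hp hmem
  rcases hcw1.eq_or_lt with h1 | h1
  · -- `c w = 1`
    have hc : c = 1 := by nlinarith
    have hw : w = 1 := by nlinarith
    apply keyb
    rw [hc, hw]; simp
  · have hpos : 0 < 1 - c * w := by linarith
    set z' : E := (c * (1 - w) / (1 - c * w)) • y' + ((1 - c) / (1 - c * w)) • z with hz'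
    have hz'm : z' ∈ C.cell σ := by
      refine C.conv σ hy' hz (div_nonneg (mul_nonneg hc0.le (by linarith)) hpos.le)
        (div_nonneg (by linarith) hpos.le) ?_
      rw [← add_div, div_eq_one_iff_eq hpos.ne']
      ring
    have he : c • ((1 - w) • y' + w • C.b σ) + (1 - c) • z =
        (1 - c * w) • z' + (c * w) • C.b σ := by
      have e1 : (1 - c * w) • z' = (c * (1 - w)) • y' + (1 - c) • z := by
        rw [hz', smul_add, smul_smul, smul_smul, mul_div_cancel₀ _ hpos.ne',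
          mul_div_cancel₀ _ hpos.ne']
      rw [e1]
      module
    rcases C.rad σ z' hz'm with h2 | ⟨r, hr, y'', hy'', w'', hw'', h2⟩
    · apply keyb
      rw [he, h2, ← add_smul]; simp
    · refine key (1 - (1 - c * w) * (1 - w'')) r y'' hr hy'' ?_ ?_ ?_
      · nlinarith [hw''.1, hw''.2]
      · have : 0 < (1 - c * w) * (1 - w'') := mul_pos hpos (by linarith [hw''.2])
        linarith
      · rw [he, h2]
        module

include C in
/-- finitely many cells above `q` -/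
lemma finite_ge (q : Q) : {ρ | q ≤ ρ}.Finite := by
  obtain ⟨r, hr, hf⟩ := C.lf (C.b q) (C.sub q (C.bmem q))
  exact hf.subset fun ρ hρ => ⟨C.b q, C.mono_le hρ (C.bmem q), mem_ball_self hr⟩

lemma wt_mem_top {l : Q →₀ ℝ} (h : Wt l) {σ : Q} (hσ : σ ∈ l.support)
    (hm : ∀ ρ ∈ l.support, ρ ≤ σ) :
    bs C.b l ∈ C.cell σ ∧ ∀ p < σ, bs C.b l ∉ C.cell p := by
  obtain ⟨t, hst⟩ := h.st C hm
  obtain ⟨y, hy, hyo, he⟩ := bs_img C σ one_pos hst hσ
  rw [one_smul] at he
  rw [he]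
  exact ⟨hy, hyo⟩

lemma wt_mem {l : Q →₀ ℝ} (h : Wt l) : bs C.b l ∈ Λ := by
  obtain ⟨σ, hσ, hm⟩ := h.exists_max
  exact C.sub σ (wt_mem_top C h hσ hm).1

lemma spec_of_mem {y : E} (hy : y ∈ Λ) : Wt (bc C y) ∧ bs C.b (bc C y) = y := by
  obtain ⟨q, hq⟩ := C.cover y hy
  exact ⟨(bc_spec C hq).1, (bc_spec C hq).2.1⟩

section Loc

variable [FiniteDimensional ℝ E]

lemma locPL_bc (hΛ : IsOpen Λ) (ρ : Q) : LocPL (fun y => bc C y ρ) Λ :=
  Expl.locPL_of_pieces hΛ (fun i => (C.cpt i).isClosed) C.cover C.lf (fun i => plOn_bc C i ρ)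

/-- near an open simplex all its vertices have positive weight -/
lemma near (hΛ : IsOpen Λ) {l0 : Q →₀ ℝ} (h0 : Wt l0) :
    ∃ r > 0, ∀ v : E, ‖v‖ < r → bs C.b l0 + v ∈ Λ ∧ ∀ c ∈ l0.support,
      0 < bc C (bs C.b l0 + v) c := by
  have h1 : ∀ᶠ y in 𝓝 (bs C.b l0), y ∈ Λ := hΛ.mem_nhds (wt_mem C h0)
  have h2 : ∀ᶠ y in 𝓝 (bs C.b l0), ∀ c ∈ l0.support, 0 < bc C y c := by
    rw [Filter.eventually_all_finset]
    intro c hc
    have hcont : ContinuousAt (fun y => bc C y c) (bs C.b l0) :=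
      ((locPL_continuousOn (locPL_bc C hΛ c)) _ (wt_mem C h0)).continuousAt
        (hΛ.mem_nhds (wt_mem C h0))
    have hv : 0 < bc C (bs C.b l0) c := by
      rw [bc_bs C h0]
      exact lt_of_le_of_ne (h0.nn c) (Ne.symm (Finsupp.mem_support_iff.1 hc))
    exact hcont.eventually_const_lt hv
  obtain ⟨r, hr, hball⟩ := Metric.eventually_nhds_iff_ball.1 (h1.and h2)
  refine ⟨r, hr, fun v hv => ?_⟩
  have hm : bs C.b l0 + v ∈ ball (bs C.b l0) r := by
    rw [mem_ball_iff_norm, add_sub_cancel_left]; exact hv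
  exact hball _ hm

/-- the direction space of a cell -/
def V0 (q : Q) : Submodule ℝ E := Submodule.span ℝ ((fun x => x - C.b q) '' C.cell q)

lemma sub_mem_V0 {q : Q} {x : E} (hx : x ∈ C.cell q) : x - C.b q ∈ V0 C q :=
  Submodule.subset_span ⟨x, hx, rfl⟩

/-- the barycentre is a relative interior point -/
theorem small_mem (hΛ : IsOpen Λ) {q : Q} {u : E} (hu : u ∈ V0 C q) :
    ∀ᶠ t in 𝓝 (0 : ℝ), C.b q + t • u ∈ C.cell q := by
  have hb : bs C.b (Finsupp.single q (1 : ℝ)) = C.b q := by rw [bs_single _ one_pos, one_smul]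
  induction hu using Submodule.span_induction with
  | mem x hx =>
    obtain ⟨x, hx, rfl⟩ := hx
    obtain ⟨r, hr, hnear⟩ := near C hΛ (Expl.wt_single q)
    have h1 : Tendsto (fun t : ℝ => t • (x - C.b q)) (𝓝 0) (𝓝 ((0 : ℝ) • (x - C.b q))) :=
      (continuous_id.smul continuous_const).continuousAt
    rw [zero_smul] at h1
    have h2 : ∀ᶠ t in 𝓝 (0 : ℝ), ‖t • (x - C.b q)‖ < r := by
      have := h1.norm
      rw [norm_zero] at this
      exact this.eventually_lt_const hr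
    have h3 : ∀ᶠ t in 𝓝 (0 : ℝ), t < 1 := eventually_lt_nhds one_pos
    filter_upwards [h2, h3] with t ht ht1
    rcases le_or_gt 0 t with h0 | h0
    · have : C.b q + t • (x - C.b q) = (1 - t) • C.b q + t • x := by module
      rw [this]
      exact C.conv q (C.bmem q) hx (by linarith) h0 (by ring)
    · obtain ⟨hm, hpos⟩ := hnear _ ht
      rw [hb] at hm hpos
      have hq := hpos q (by simp)
      obtain ⟨hw, he⟩ := spec_of_mem C hm
      obtain ⟨σ, hσ, hmax⟩ := hw.exists_max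
      obtain ⟨h4, h5⟩ := wt_mem_top C hw hσ hmax
      rw [he] at h4 h5
      have hqσ : q ≤ σ := hmax q (Finsupp.mem_support_iff.2 hq.ne')
      rcases hqσ.eq_or_lt with rfl | hlt
      · exact h4
      · exfalso
        have h6 : 0 < 1 - t := by linarith
        refine opn_combo C h4 h5 (C.mono hlt hx) (c := (1 - t)⁻¹) (by positivity)
          (inv_le_one_of_one_le₀ (by linarith)) hlt ?_
        have h7 : (1 - t)⁻¹ • (C.b q + t • (x - C.b q)) + (1 - (1 - t)⁻¹) • x = C.b q := by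
          have e1 : (1 - (1 - t)⁻¹) = (1 - t)⁻¹ * (-t) := by field_simp; ring
          have e2 : C.b q + t • (x - C.b q) = (1 - t) • C.b q + t • x := by module
          rw [e1, e2, smul_add, smul_smul, inv_mul_cancel₀ h6.ne', one_smul]
          module
        rw [h7]
        exact C.bmem q
  | zero =>
    refine Eventually.of_forall fun t => ?_
    rw [smul_zero, add_zero]
    exact C.bmem q
  | add u u' _ _ hu hu' =>
    have h2 : Tendsto (fun t : ℝ => 2 * t) (𝓝 0) (𝓝 0) := by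
      have : Tendsto (fun t : ℝ => 2 * t) (𝓝 0) (𝓝 (2 * 0)) :=
        (continuous_const.mul continuous_id).continuousAt
      simpa using this
    filter_upwards [h2.eventually hu, h2.eventually hu'] with t h h'
    have : C.b q + t • (u + u') = (1 / 2 : ℝ) • (C.b q + (2 * t) • u) +
        (1 / 2 : ℝ) • (C.b q + (2 * t) • u') := by module
    rw [this]
    exact C.conv q h h' (by norm_num) (by norm_num) (by norm_num)
  | smul a u _ hu =>
    have h2 : Tendsto (fun t : ℝ => t * a) (𝓝 0) (𝓝 0) := by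
      have : Tendsto (fun t : ℝ => t * a) (𝓝 0) (𝓝 (0 * a)) :=
        (continuous_id.mul continuous_const).continuousAt
      simpa using this
    filter_upwards [h2.eventually hu] with t h
    rwa [smul_smul]

end Loc

/-- a base simplex with minimal vertex `q` -/
structure Base (l0 : Q →₀ ℝ) (q : Q) : Prop where
  wt : Wt l0
  mem : q ∈ l0.support
  min : ∀ c ∈ l0.support, q ≤ c

/-- the upper link of the base simplex -/
def lk (l0 : Q →₀ ℝ) (q : Q) : Set Q :=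
  {ρ | q < ρ ∧ ρ ∉ l0.support ∧ ∀ c ∈ l0.support, ρ ≤ c ∨ c ≤ ρ}

/-- conic chain weights on the link -/
structure Rc (l0 : Q →₀ ℝ) (q : Q) (μ : Q →₀ ℝ) : Prop where
  nn : ∀ ρ, 0 ≤ μ ρ
  chain : ∀ ρ ∈ μ.support, ∀ σ ∈ μ.support, ρ ≤ σ ∨ σ ≤ ρ
  lk : ∀ ρ ∈ μ.support, ρ ∈ lk l0 q

/-- the direction space of the base simplex and of its minimal cell -/
def V (l0 : Q →₀ ℝ) (q : Q) : Submodule ℝ E :=
  V0 C q ⊔ Submodule.span ℝ ((fun c => C.b c - C.b q) '' (l0.support : Set Q))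

/-- direction vectors -/
noncomputable def dv (q : Q) : (Q →₀ ℝ) →ₗ[ℝ] E := lc (fun ρ => C.b ρ - C.b q)

lemma dv_eq (q : Q) (l : Q →₀ ℝ) : dv C q l = lc C.b l - tot l • C.b q := lc_sub _ _ _

lemma dv_erase (q : Q) (l : Q →₀ ℝ) : dv C q (l.erase q) = dv C q l := lc_erase (by simp) l

section Loc

variable [FiniteDimensional ℝ E]

/-- **the chain coordinates of `u + ∑ μ (b ρ - b q)`, near the base point** -/
theorem bc_line (hΛ : IsOpen Λ) {l0 : Q →₀ ℝ} {q : Q} (hB : Base l0 q) {μ : Q →₀ ℝ}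
    (hμ : Rc l0 q μ) {u : E} (hu : u ∈ V C l0 q) :
    ∀ᶠ t in 𝓝[>] (0 : ℝ), ∀ ρ ∈ lk l0 q, bc C (bs C.b l0 + t • (u + dv C q μ)) ρ = t * μ ρ := by
  obtain ⟨u0, hu0, w, hw, rfl⟩ := Submodule.mem_sup.1 hu
  obtain ⟨s1, hs1, rfl⟩ := (Finsupp.mem_span_image_iff_linearCombination ℝ).1 hw
  -- remove the `q`-part
  set s := s1.erase q with hs
  have hs1' : ∀ ρ ∈ s1.support, ρ ∈ l0.support := fun ρ hρ => by
    have := (Finsupp.mem_supported ℝ s1).1 hs1 hρ
    exact this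
  have hss : ∀ ρ ∈ s.support, ρ ∈ l0.support ∧ ρ ≠ q := by
    intro ρ hρ
    rw [hs, Finsupp.support_erase] at hρ
    exact ⟨hs1' ρ (Finset.mem_of_mem_erase hρ), Finset.ne_of_mem_erase hρ⟩
  have hsq : s q = 0 := by rw [hs]; simp
  have hw' : (Finsupp.linearCombination ℝ fun c => C.b c - C.b q) s1 = dv C q s := by
    rw [hs, dv_erase]; rfl
  rw [hw']
  clear_value s
  have hlq : 0 < l0 q := lt_of_le_of_ne (hB.wt.nn q) (Ne.symm (Finsupp.mem_support_iff.1 hB.mem))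
  -- small parameters
  set A : ℝ → ℝ := fun t => l0 q - t * (tot s + tot μ) with hA
  have hAc : Continuous A := continuous_const.sub (continuous_id.mul continuous_const)
  have hA0 : A 0 = l0 q := by simp [hA]
  have e1 : ∀ᶠ t in 𝓝 (0 : ℝ), 0 < A t := by
    have := hAc.continuousAt (x := (0 : ℝ))
    exact this.eventually_const_lt (by rw [hA0]; exact hlq)
  have e2 : ∀ᶠ t in 𝓝 (0 : ℝ), ∀ ρ ∈ l0.support, 0 < l0 ρ + t * s ρ := by
    rw [Filter.eventually_all_finset]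
    intro ρ hρ
    have h1 : ContinuousAt (fun t : ℝ => l0 ρ + t * s ρ) 0 :=
      (continuous_const.add (continuous_id.mul continuous_const)).continuousAt
    refine h1.eventually_const_lt ?_
    show 0 < l0 ρ + 0 * s ρ
    rw [zero_mul, add_zero]
    exact lt_of_le_of_ne (hB.wt.nn ρ) (Ne.symm (Finsupp.mem_support_iff.1 hρ))
  have e3 : ∀ᶠ t in 𝓝 (0 : ℝ), C.b q + (t / A t) • u0 ∈ C.cell q := by
    have h1 : ContinuousAt (fun t : ℝ => t / A t) 0 :=
      continuousAt_id.div hAc.continuousAt (by rw [hA0]; exact hlq.ne')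
    have h2 : Tendsto (fun t : ℝ => t / A t) (𝓝 0) (𝓝 0) := by
      have := h1.tendsto
      simpa using this
    exact h2.eventually (small_mem C hΛ hu0)
  filter_upwards [nhdsWithin_le_nhds e1, nhdsWithin_le_nhds e2, nhdsWithin_le_nhds e3,
    self_mem_nhdsWithin] with t hAt h2 hx ht ρ hρ
  have ht0 : 0 < t := ht
  set x : E := C.b q + (t / A t) • u0 with hxdef
  obtain ⟨k1, k2, k3⟩ := bc_spec C hx
  set k := bc C x with hk
  clear_value k
  set l : Q →₀ ℝ := A t • k + (l0.erase q + t • s) + t • μ with hl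
  have hlv : ∀ σ, l σ = A t * k σ + ((l0.erase q) σ + t * s σ) + t * μ σ := fun σ => by
    simp [hl]
  have hmid0 : ∀ σ, 0 ≤ (l0.erase q) σ + t * s σ := by
    intro σ
    by_cases h : σ = q
    · subst h; simp [hsq]
    · rw [Finsupp.erase_ne h]
      by_cases h' : σ ∈ l0.support
      · exact (h2 σ h').le
      · have h3 : l0 σ = 0 := Finsupp.notMem_support_iff.1 h'
        have h4 : s σ = 0 := Finsupp.notMem_support_iff.1 fun h'' => h' (hss σ h'').1
        rw [h3, h4]; simp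
  have hsupp : ∀ σ ∈ l.support, σ ∈ k.support ∨ (σ ∈ l0.support ∧ σ ≠ q) ∨ σ ∈ μ.support := by
    intro σ hσ
    by_contra hcon
    push Not at hcon
    obtain ⟨c1, c2, c3⟩ := hcon
    apply Finsupp.mem_support_iff.1 hσ
    rw [hlv, Finsupp.notMem_support_iff.1 c1, Finsupp.notMem_support_iff.1 c3]
    have c4 : (l0.erase q) σ + t * s σ = 0 := by
      by_cases h : σ = q
      · subst h; simp [hsq]
      · have h' : σ ∉ l0.support := fun h' => h (c2 h')
        have h4 : s σ = 0 := Finsupp.notMem_support_iff.1 fun h'' => h' (hss σ h'').1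
        rw [Finsupp.erase_ne h, Finsupp.notMem_support_iff.1 h', h4]; simp
    rw [c4]; simp
  have hwt : Wt l := by
    refine ⟨fun σ => ?_, ?_, ?_⟩
    · rw [hlv]
      have h3 := mul_nonneg hAt.le (k1.nn σ)
      have h4 := mul_nonneg ht0.le (hμ.nn σ)
      linarith [hmid0 σ]
    · rw [← tot_eq]
      have h3 : tot (l0.erase q) = 1 - l0 q := by
        have h5 : tot l0 = tot (l0.erase q) + l0 q := by
          conv_lhs => rw [← Finsupp.erase_add_single q l0, map_add, tot_single]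
        rw [tot_wt hB.wt] at h5
        linarith
      rw [hl, map_add, map_add, map_add, map_smul, map_smul, map_smul, h3, tot_wt k1]
      simp only [smul_eq_mul, hA]
      ring
    · intro σ hσ τ hτ
      rcases hsupp σ hσ with a | ⟨a, a'⟩ | a <;> rcases hsupp τ hτ with b | ⟨b, b'⟩ | b
      · exact k1.chain σ a τ b
      · exact Or.inl ((k3 σ a).trans (hB.min τ b))
      · exact Or.inl ((k3 σ a).trans (hμ.lk τ b).1.le)
      · exact Or.inr ((k3 τ b).trans (hB.min σ a))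
      · exact hB.wt.chain σ a τ b
      · exact ((hμ.lk τ b).2.2 σ a).symm
      · exact Or.inr ((k3 τ b).trans (hμ.lk σ a).1.le)
      · exact (hμ.lk σ a).2.2 τ b
      · exact hμ.chain σ a τ b
  have hbs : bs C.b l = bs C.b l0 + t • (u0 + dv C q s + dv C q μ) := by
    rw [← lc_eq_bs, ← lc_eq_bs, hl, map_add, map_add, map_add, map_smul, map_smul, map_smul]
    have h3 : lc C.b k = x := by rw [lc_eq_bs]; exact k2
    have h4 : lc C.b l0 = lc C.b (l0.erase q) + l0 q • C.b q := by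
      conv_lhs => rw [← Finsupp.erase_add_single q l0, map_add, lc_single]
    have h5 : A t • x = A t • C.b q + t • u0 := by
      rw [hxdef, smul_add, smul_smul, mul_div_cancel₀ _ hAt.ne']
    rw [h3, h4, h5, dv_eq, dv_eq]
    have h6 : A t = l0 q - t * (tot s + tot μ) := rfl
    rw [h6]
    module
  have hfin : bc C (bs C.b l0 + t • (u0 + dv C q s + dv C q μ)) ρ = l ρ := by
    rw [← hbs, bc_bs C hwt]
  rw [hfin, hlv]
  have h3 : k ρ = 0 := Finsupp.notMem_support_iff.1 fun h => absurd (k3 ρ h) (not_le_of_gt hρ.1)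
  have h4 : (l0.erase q) ρ = 0 := by
    rw [Finsupp.erase_ne hρ.1.ne']
    exact Finsupp.notMem_support_iff.1 hρ.2.1
  have h5 : s ρ = 0 := Finsupp.notMem_support_iff.1 fun h => hρ.2.1 (hss ρ h).1
  rw [h3, h4, h5]
  ring

/-- **decomposition of small vectors** -/
theorem bc_rep (hΛ : IsOpen Λ) {l0 : Q →₀ ℝ} {q : Q} (hB : Base l0 q) :
    ∃ r > 0, ∀ v : E, ‖v‖ < r →
      Rc l0 q ((bc C (bs C.b l0 + v)).filter (· ∈ lk l0 q)) ∧
      v - dv C q ((bc C (bs C.b l0 + v)).filter (· ∈ lk l0 q)) ∈ V C l0 q := by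
  obtain ⟨r, hr, hnear⟩ := near C hΛ hB.wt
  refine ⟨r, hr, fun v hv => ?_⟩
  obtain ⟨hm, hpos⟩ := hnear v hv
  obtain ⟨hw, he⟩ := spec_of_mem C hm
  set l := bc C (bs C.b l0 + v) with hl
  clear_value l
  have hcomp : ∀ ρ ∈ l.support, ∀ c ∈ l0.support, ρ ≤ c ∨ c ≤ ρ := fun ρ hρ c hc =>
    hw.chain ρ hρ c (Finsupp.mem_support_iff.2 (hpos c hc).ne')
  have hcase : ∀ ρ ∈ l.support, ρ ∈ l0.support ∨ ρ < q ∨ ρ ∈ lk l0 q := by
    intro ρ hρ
    by_cases h : ρ ∈ l0.support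
    · exact Or.inl h
    · right
      rcases hcomp ρ hρ q hB.mem with h1 | h1
      · left
        refine lt_of_le_of_ne h1 ?_
        rintro rfl
        exact h hB.mem
      · right
        refine ⟨lt_of_le_of_ne h1 ?_, h, hcomp ρ hρ⟩
        rintro rfl
        exact h hB.mem
  refine ⟨⟨fun ρ => ?_, fun ρ hρ σ hσ => ?_, fun ρ hρ => ?_⟩, ?_⟩
  · by_cases h : ρ ∈ lk l0 q
    · rw [Finsupp.filter_apply_pos _ _ h]; exact hw.nn ρ
    · rw [Finsupp.filter_apply_neg _ _ h]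
  · rw [Finsupp.support_filter, Finset.mem_filter] at hρ hσ
    exact hw.chain ρ hρ.1 σ hσ.1
  · rw [Finsupp.support_filter, Finset.mem_filter] at hρ
    exact hρ.2
  · have h1 : v = dv C q l - dv C q l0 := by
      rw [dv_eq, dv_eq, tot_wt hw, tot_wt hB.wt, lc_eq_bs, lc_eq_bs, he]
      abel
    have h2 : l = l.filter (· ∈ lk l0 q) + l.filter (fun ρ => ¬ ρ ∈ lk l0 q) :=
      (Finsupp.filter_pos_add_filter_neg l (· ∈ lk l0 q)).symm
    have h3 : v - dv C q (l.filter (· ∈ lk l0 q)) =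
        dv C q (l.filter (fun ρ => ¬ ρ ∈ lk l0 q)) - dv C q l0 := by
      rw [h1]
      conv_lhs => rw [h2, map_add]
      have h4 : (l.filter (· ∈ lk l0 q) + l.filter (fun ρ => ¬ ρ ∈ lk l0 q)).filter
          (· ∈ lk l0 q) = l.filter (· ∈ lk l0 q) := by rw [← h2]
      rw [h4]
      abel
    rw [h3]
    have h5 : ∀ c ∈ l0.support, C.b c - C.b q ∈ V C l0 q := fun c hc =>
      Submodule.mem_sup_right (Submodule.subset_span ⟨c, hc, rfl⟩)
    refine Submodule.sub_mem _ (lc_mem fun ρ hρ => ?_) (lc_mem h5)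
    rw [Finsupp.support_filter, Finset.mem_filter] at hρ
    rcases hcase ρ hρ.1 with h | h | h
    · exact h5 ρ h
    · exact Submodule.mem_sup_left (sub_mem_V0 C (C.mono h (C.bmem ρ)))
    · exact absurd h hρ.2

end Loc

end Crest.Agent.R096.Dl_609
end

-- ▼ part R096/Dl3_609
section

/-!
# R096 (row 96), (R1) DUAL BALLS, part 3 (helper609)

`isBall_Dd`: the dual ball of a base chain: the chain weights on `{q} ∪ (upper link)`.
-/

set_option autoImplicit false
set_option linter.unusedSectionVars false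
set_option linter.unusedVariables false
set_option linter.deprecated false

open Set Metric Module Filter Topology
open scoped Classical

namespace Crest.Agent.R096.Dl_609

open Ce_537 Xp_537

variable {E : Type*} [NormedAddCommGroup E] [NormedSpace ℝ E]
variable {Q : Type*}

lemma lc_sum {a : Q → E} {l : Q →₀ ℝ} {F : Finset Q} (h : l.support ⊆ F) :
    lc a l = ∑ i : F, l i • a i := by
  rw [lc, Finsupp.linearCombination_apply, Finsupp.sum_of_support_subset _ h _ (by simp),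
    ← Finset.sum_coe_sort]

lemma tot_sum {l : Q →₀ ℝ} {F : Finset Q} (h : l.support ⊆ F) : tot l = ∑ i : F, l i := by
  rw [tot, Finsupp.linearCombination_apply, Finsupp.sum_of_support_subset _ h _ (by simp),
    ← Finset.sum_coe_sort]
  simp

variable [PartialOrder Q] {Λ : Set E} (C : CC Λ Q)

lemma lc_toF {a : Q → E} {F : Finset Q} (x : F → ℝ) : lc a (toF F x) = ∑ i : F, x i • a i := by
  rw [lc_sum (toF_supp x)]
  exact Finset.sum_congr rfl fun i _ => by rw [toF_apply]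

lemma tot_toF {F : Finset Q} (x : F → ℝ) : tot (toF F x) = ∑ i : F, x i := by
  rw [tot_sum (toF_supp x)]
  exact Finset.sum_congr rfl fun i _ => by rw [toF_apply]

section Loc

variable [FiniteDimensional ℝ E]

lemma smul_small (v : E) {r : ℝ} (hr : 0 < r) : ∀ᶠ t in 𝓝[>] (0 : ℝ), ‖t • v‖ < r := by
  have h1 : Tendsto (fun t : ℝ => ‖t • v‖) (𝓝 0) (𝓝 ‖(0 : ℝ) • v‖) :=
    (continuous_id.smul continuous_const).norm.continuousAt
  rw [zero_smul, norm_zero] at h1
  exact nhdsWithin_le_nhds (h1.eventually_lt_const hr)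

/-- **local structure at a base chain** -/
theorem loc (hΛ : IsOpen Λ) {l0 : Q →₀ ℝ} {q : Q} (hB : Base l0 q) :
    ∃ (LK : Finset Q) (S : Finset (E →L[ℝ] (LK → ℝ))) (H : E → (LK → ℝ)),
      (∀ ρ, ρ ∈ LK ↔ ρ ∈ lk l0 q) ∧ Str_696.Conic H S ∧ (∀ v i, 0 ≤ H v i) ∧
      (∀ v (i j : LK), H v i ≠ 0 → H v j ≠ 0 → (i : Q) ≤ j ∨ (j : Q) ≤ i) ∧
      (∀ v, v - ∑ i, H v i • (C.b i - C.b q) ∈ V C l0 q) ∧
      (∀ μ, Rc l0 q μ → ∀ u ∈ V C l0 q, ∀ i : LK, H (u + dv C q μ) i = μ i) := by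
  have hfin : (lk l0 q).Finite := (finite_ge C q).subset fun ρ hρ => hρ.1.le
  set LK : Finset Q := hfin.toFinset with hLKdef
  have hLK : ∀ ρ, ρ ∈ LK ↔ ρ ∈ lk l0 q := fun ρ => hfin.mem_toFinset
  have hloc : LocPL (fun y => (fun i : LK => bc C y i)) Λ :=
    Expl.locPL_of_pieces hΛ (fun i => (C.cpt i).isClosed) C.cover C.lf
      (fun i => Bd_416.pl_pi fun j => plOn_bc C i j)
  set x := bs C.b l0 with hx
  obtain ⟨r1, S, H, hr1, hH, hHl⟩ := Str_696.LocPL.conic (locPL_iff.1 hloc) (wt_mem C hB.wt)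
  obtain ⟨r2, hr2, hrep⟩ := bc_rep C hΛ hB
  have hx0 : ∀ i : LK, bc C x i = 0 := fun i => by
    rw [hx, bc_bs C hB.wt]
    exact Finsupp.notMem_support_iff.1 ((hLK i).1 i.2).2.1
  have hHt : ∀ v, ∀ᶠ t in 𝓝[>] (0 : ℝ), 0 < t ∧ ‖t • v‖ < r2 ∧
      ∀ i : LK, bc C (x + t • v) i = t * H v i := by
    intro v
    filter_upwards [smul_small v hr1, smul_small v hr2, self_mem_nhdsWithin] with t h1 h2 h3
    refine ⟨h3, h2, fun i => ?_⟩
    have h4 := congrFun (hHl (t • v) h1) i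
    have h5 : bc C (x + t • v) i = bc C x i + H (t • v) i := h4
    rw [h5, hx0, hH.homog t v (le_of_lt h3)]
    simp
  have hfil : ∀ (l : Q →₀ ℝ) (i : LK), (l.filter (· ∈ lk l0 q)) i = l i := fun l i =>
    Finsupp.filter_apply_pos _ _ ((hLK i).1 i.2)
  refine ⟨LK, S, H, hLK, hH, fun v i => ?_, fun v i j hi hj => ?_, fun v => ?_,
    fun μ hμ u hu i => ?_⟩
  · obtain ⟨t, h1, h2, h3⟩ := (hHt v).exists
    have h4 := (hrep _ h2).1.nn i
    rw [hfil, h3] at h4
    exact nonneg_of_mul_nonneg_right h4 h1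
  · obtain ⟨t, h1, h2, h3⟩ := (hHt v).exists
    refine (hrep _ h2).1.chain i ?_ j ?_
    · rw [Finsupp.mem_support_iff, hfil, h3]
      exact mul_ne_zero h1.ne' hi
    · rw [Finsupp.mem_support_iff, hfil, h3]
      exact mul_ne_zero h1.ne' hj
  · obtain ⟨t, h1, h2, h3⟩ := (hHt v).exists
    have h4 := (hrep _ h2).2
    set m := (bc C (x + t • v)).filter (· ∈ lk l0 q) with hm
    have hs : m.support ⊆ LK := fun ρ hρ => (hLK ρ).2 ((hrep _ h2).1.lk ρ hρ)
    have h5 : dv C q m = t • ∑ i : LK, H v i • (C.b i - C.b q) := by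
      rw [dv, lc_sum hs, Finset.smul_sum]
      refine Finset.sum_congr rfl fun i _ => ?_
      rw [hm, hfil, h3, smul_smul]
    rw [h5, ← smul_sub] at h4
    exact (Submodule.smul_mem_iff _ h1.ne').1 h4
  · obtain ⟨t, ⟨h1, h2, h3⟩, h4⟩ := ((hHt (u + dv C q μ)).and (bc_line C hΛ hB hμ hu)).exists
    have h5 := h4 i ((hLK i).1 i.2)
    rw [h3] at h5
    exact mul_left_cancel₀ h1.ne' h5

/-- the dual cell of a base chain -/
def Dd (l0 : Q →₀ ℝ) (q : Q) : Set E :=
  {y | ∃ l, Wt l ∧ (∀ ρ ∈ l.support, ρ = q ∨ ρ ∈ lk l0 q) ∧ bs C.b l = y}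

/-- its boundary -/
def Ld (l0 : Q →₀ ℝ) (q : Q) : Set E :=
  {y | ∃ l, Wt l ∧ (∀ ρ ∈ l.support, ρ ∈ lk l0 q) ∧ bs C.b l = y}

lemma q_notMem_lk {l0 : Q →₀ ℝ} {q : Q} : q ∉ lk l0 q := fun h => lt_irrefl _ h.1

/-- **the dual cell of a base chain is a ball** -/
theorem isBall_Dd (hΛ : IsOpen Λ) {l0 : Q →₀ ℝ} {q : Q} (hB : Base l0 q) :
    IsBall (finrank ℝ E - finrank ℝ (V C l0 q)) (Dd C l0 q) (Ld C l0 q) := by
  obtain ⟨LK, S, H, hLK, hH, h0, hch, hV, hU⟩ := loc C hΛ hB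
  have hrc : ∀ v, Rc l0 q (toF LK (H v)) := by
    intro v
    have hm : ∀ ρ ∈ (toF LK (H v)).support, ∃ h : ρ ∈ LK, toF LK (H v) ρ = H v ⟨ρ, h⟩ :=
      fun ρ hρ => ⟨toF_supp _ hρ, toF_apply _ ⟨ρ, toF_supp _ hρ⟩⟩
    refine ⟨fun ρ => ?_, fun ρ hρ σ hσ => ?_, fun ρ hρ => (hLK ρ).1 (toF_supp _ hρ)⟩
    · by_cases h : ρ ∈ (toF LK (H v)).support
      · obtain ⟨h', e⟩ := hm ρ h
        rw [e]; exact h0 v _
      · rw [Finsupp.notMem_support_iff.1 h]
    · obtain ⟨h1, e1⟩ := hm ρ hρ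
      obtain ⟨h2, e2⟩ := hm σ hσ
      exact hch v ⟨ρ, h1⟩ ⟨σ, h2⟩ (by rw [← e1]; exact Finsupp.mem_support_iff.1 hρ)
        (by rw [← e2]; exact Finsupp.mem_support_iff.1 hσ)
  have hdv : ∀ v, dv C q (toF LK (H v)) = ∑ i, H v i • (C.b i - C.b q) := fun v => lc_toF _
  have hinv : ∀ v, ∀ u ∈ V C l0 q, H (v + u) = H v := by
    intro v u hu
    funext i
    have h1 := hU _ (hrc v) (v - dv C q (toF LK (H v)) + u)
      (Submodule.add_mem _ (by rw [hdv]; exact hV v) hu) i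
    rw [toF_apply] at h1
    rw [← h1]
    congr 1
    abel_nf
  have key := isBall_conic (fun i : LK => C.b i - C.b q) (C.b q) (V C l0 q) hH h0 hV hinv
  -- weights
  have hbs : ∀ l : Q →₀ ℝ, Wt l → bs C.b l = C.b q + dv C q (l.erase q) := by
    intro l hl
    rw [dv_erase, dv_eq, tot_wt hl, lc_eq_bs]
    module
  have hto : ∀ v, ∑ i, H v i ≤ 1 → ∃ l, Wt l ∧ (∀ ρ ∈ l.support, ρ = q ∨ ρ ∈ lk l0 q) ∧
      bs C.b l = C.b q + ∑ i, H v i • (C.b i - C.b q) ∧ l q = 1 - ∑ i, H v i := by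
    intro v hv
    set μ := toF LK (H v) with hμ
    have hμr := hrc v
    rw [← hμ] at hμr
    have ht : tot μ = ∑ i, H v i := tot_toF _
    have hμq : μ q = 0 := Finsupp.notMem_support_iff.1 fun h => q_notMem_lk (hμr.lk q h)
    set l := μ + Finsupp.single q (1 - tot μ) with hl
    have hlq : l q = 1 - tot μ := by simp [hl, hμq]
    have hlne : ∀ ρ, ρ ≠ q → l ρ = μ ρ := fun ρ h => by
      simp [hl, Finsupp.single_eq_of_ne h]
    have hs : ∀ ρ ∈ l.support, ρ = q ∨ ρ ∈ μ.support := by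
      intro ρ hρ
      by_cases h : ρ = q
      · exact Or.inl h
      · right
        rw [Finsupp.mem_support_iff, ← hlne ρ h]
        exact Finsupp.mem_support_iff.1 hρ
    have hwt : Wt l := by
      refine ⟨fun ρ => ?_, ?_, fun ρ hρ σ hσ => ?_⟩
      · by_cases h : ρ = q
        · subst h; rw [hlq, ht]; linarith
        · rw [hlne ρ h]; exact hμr.nn ρ
      · rw [← tot_eq, hl, map_add, tot_single]; ring
      · rcases hs ρ hρ with rfl | h1 <;> rcases hs σ hσ with rfl | h2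
        · exact Or.inl le_rfl
        · exact Or.inl (hμr.lk σ h2).1.le
        · exact Or.inr (hμr.lk ρ h1).1.le
        · exact hμr.chain ρ h1 σ h2
    refine ⟨l, hwt, fun ρ hρ => (hs ρ hρ).imp id (hμr.lk ρ), ?_, by rw [hlq, ht]⟩
    have h1 : l.erase q = μ := by
      ext ρ
      by_cases h : ρ = q
      · subst h; simp [hμq]
      · rw [Finsupp.erase_ne h, hlne ρ h]
    rw [hbs l hwt, h1, hμ, hdv]
  have hfrom : ∀ l, Wt l → (∀ ρ ∈ l.support, ρ = q ∨ ρ ∈ lk l0 q) →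
      ∃ v, ∑ i, H v i = 1 - l q ∧ bs C.b l = C.b q + ∑ i, H v i • (C.b i - C.b q) := by
    intro l hl hs
    have hes : ∀ ρ ∈ (l.erase q).support, ρ ∈ l.support ∧ ρ ∈ lk l0 q := by
      intro ρ hρ
      rw [Finsupp.support_erase] at hρ
      have h1 := Finset.mem_of_mem_erase hρ
      exact ⟨h1, (hs ρ h1).resolve_left (Finset.ne_of_mem_erase hρ)⟩
    have hrc' : Rc l0 q (l.erase q) := by
      refine ⟨fun ρ => ?_, fun ρ hρ σ hσ => hl.chain ρ (hes ρ hρ).1 σ (hes σ hσ).1,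
        fun ρ hρ => (hes ρ hρ).2⟩
      by_cases h : ρ = q
      · subst h; simp
      · rw [Finsupp.erase_ne h]; exact hl.nn ρ
    have hsub : (l.erase q).support ⊆ LK := fun ρ hρ => (hLK ρ).2 (hes ρ hρ).2
    have h1 : ∀ i : LK, H (dv C q (l.erase q)) i = (l.erase q) i := fun i => by
      have := hU _ hrc' 0 (Submodule.zero_mem _) i
      rwa [zero_add] at this
    refine ⟨dv C q (l.erase q), ?_, ?_⟩
    · rw [Finset.sum_congr rfl fun i _ => h1 i, ← tot_sum hsub]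
      have h5 : tot l = tot (l.erase q) + l q := by
        conv_lhs => rw [← Finsupp.erase_add_single q l, map_add, tot_single]
      rw [tot_wt hl] at h5
      linarith
    · rw [hbs l hl]
      congr 1
      rw [Finset.sum_congr rfl fun i _ => by rw [h1 i], dv, lc_sum hsub]
  have e1 : {y | ∃ v, ∑ i, H v i ≤ 1 ∧ y = C.b q + ∑ i, H v i • (C.b i - C.b q)} = Dd C l0 q := by
    ext y
    constructor
    · rintro ⟨v, hv, rfl⟩
      obtain ⟨l, h1, h2, h3, h4⟩ := hto v hv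
      exact ⟨l, h1, h2, h3⟩
    · rintro ⟨l, h1, h2, rfl⟩
      obtain ⟨v, h3, h4⟩ := hfrom l h1 h2
      exact ⟨v, by rw [h3]; linarith [h1.nn q], h4⟩
  have e2 : {y | ∃ v, ∑ i, H v i = 1 ∧ y = C.b q + ∑ i, H v i • (C.b i - C.b q)} = Ld C l0 q := by
    ext y
    constructor
    · rintro ⟨v, hv, rfl⟩
      obtain ⟨l, h1, h2, h3, h4⟩ := hto v hv.le
      refine ⟨l, h1, fun ρ hρ => (h2 ρ hρ).resolve_left ?_, h3⟩
      rintro rfl
      rw [Finsupp.mem_support_iff, h4, hv] at hρ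
      simp at hρ
    · rintro ⟨l, h1, h2, rfl⟩
      obtain ⟨v, h3, h4⟩ := hfrom l h1 fun ρ hρ => Or.inr (h2 ρ hρ)
      refine ⟨v, ?_, h4⟩
      rw [h3, Finsupp.notMem_support_iff.1 fun h => q_notMem_lk (h2 q h), sub_zero]
  rw [e1, e2] at key
  exact key

end Loc

end Crest.Agent.R096.Dl_609
end

-- ▼ part R096/Dl4_609
section

/-!
# R096 (row 96), CORE BALLS (helper609)

The fibre over the barycentre `b q` inside the exact core `coreF C κ c θ` of a maximal cell `c`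
is a ball; its side on the boundary of the core (`sl y c = θ`) and its side on the larger cells
(`sl y q = 0`) form a `BallPair` (`core_pair`, transported to `K ≃ coreF` in `core_pair_K`).
-/

set_option autoImplicit false
set_option linter.unusedSectionVars false
set_option linter.unusedVariables false
set_option linter.deprecated false

open Set Metric Module Filter Topology
open scoped Classical

namespace Crest.Agent.R096.Dl_609

open Ce_537 Xp_537 Cb_609

variable {E : Type*} [NormedAddCommGroup E] [NormedSpace ℝ E]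
variable {Q : Type*} [PartialOrder Q] {Λ : Set E} (C : CC Λ Q)

/-- barycentric combinations with support in `p` -/
def KK (p : Q → Prop) : Set E := {y | ∃ l, Wt l ∧ (∀ ρ ∈ l.support, p ρ) ∧ bs C.b l = y}

lemma KK_congr {p p' : Q → Prop} (h : ∀ ρ, p ρ ↔ p' ρ) : KK C p = KK C p' := by
  have : p = p' := funext fun ρ => propext (h ρ)
  rw [this]

/-- adding mass at a top element -/
lemma wt_top {l : Q →₀ ℝ} {c : Q} (hl : Wt l) (hc : ∀ ρ ∈ l.support, ρ ≤ c) {t : ℝ}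
    (h0 : 0 ≤ t) (h1 : t ≤ 1) : Wt ((1 - t) • l + Finsupp.single c t) := by
  have hv : ∀ ρ, ((1 - t) • l + Finsupp.single c t) ρ = (1 - t) * l ρ + Finsupp.single c t ρ :=
    fun ρ => by simp
  have hs : ∀ ρ ∈ ((1 - t) • l + Finsupp.single c t).support, ρ = c ∨ ρ ∈ l.support := by
    intro ρ hρ
    by_contra hcon
    push Not at hcon
    apply Finsupp.mem_support_iff.1 hρ
    rw [hv, Finsupp.notMem_support_iff.1 hcon.2, Finsupp.single_eq_of_ne hcon.1]
    simp
  refine ⟨fun ρ => ?_, ?_, fun ρ hρ σ hσ => ?_⟩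
  · rw [hv]
    have h2 : 0 ≤ Finsupp.single c t ρ := by
      by_cases h : ρ = c
      · subst h; simpa using h0
      · rw [Finsupp.single_eq_of_ne h]
    have h3 := mul_nonneg (sub_nonneg.2 h1) (hl.nn ρ)
    linarith
  · rw [← tot_eq, map_add, map_smul, tot_single, tot_wt hl]
    simp
  · rcases hs ρ hρ with rfl | h2 <;> rcases hs σ hσ with rfl | h3
    · exact Or.inl le_rfl
    · exact Or.inr (hc σ h3)
    · exact Or.inl (hc ρ h2)
    · exact hl.chain ρ h2 σ h3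

lemma bs_top' (b : Q → E) (l : Q →₀ ℝ) (c : Q) (t : ℝ) :
    bs b ((1 - t) • l + Finsupp.single c t) = (1 - t) • bs b l + t • b c := by
  rw [← lc_eq_bs, ← lc_eq_bs, map_add, map_smul, lc_single]

/-- removing the mass at the top element -/
lemma wt_untop {l : Q →₀ ℝ} {c : Q} (hl : Wt l) (h1 : l c < 1) :
    Wt ((1 - l c)⁻¹ • l.erase c) ∧ l = (1 - l c) • ((1 - l c)⁻¹ • l.erase c) +
      Finsupp.single c (l c) ∧ (∀ ρ ∈ ((1 - l c)⁻¹ • l.erase c).support, ρ ∈ l.support ∧ ρ ≠ c) := by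
  have hpos : 0 < 1 - l c := by linarith
  have hs : ∀ ρ ∈ ((1 - l c)⁻¹ • l.erase c).support, ρ ∈ l.support ∧ ρ ≠ c := by
    intro ρ hρ
    have h2 := Finsupp.support_smul hρ
    rw [Finsupp.support_erase] at h2
    exact ⟨Finset.mem_of_mem_erase h2, Finset.ne_of_mem_erase h2⟩
  refine ⟨⟨fun ρ => ?_, ?_, fun ρ hρ σ hσ => hl.chain ρ (hs ρ hρ).1 σ (hs σ hσ).1⟩, ?_, hs⟩
  · rw [Finsupp.smul_apply, smul_eq_mul]
    refine mul_nonneg (inv_nonneg.2 hpos.le) ?_
    by_cases h : ρ = c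
    · subst h; simp
    · rw [Finsupp.erase_ne h]; exact hl.nn ρ
  · have h5 : tot l = tot (l.erase c) + l c := by
      conv_lhs => rw [← Finsupp.erase_add_single c l, map_add, tot_single]
    rw [tot_wt hl] at h5
    rw [← tot_eq, map_smul, smul_eq_mul, inv_mul_eq_one₀ hpos.ne']
    linarith
  · rw [smul_smul, mul_inv_cancel₀ hpos.ne', one_smul, Finsupp.erase_add_single]

lemma eq_single_of_one {l : Q →₀ ℝ} {c : Q} (hl : Wt l) (h1 : l c = 1) :
    l = Finsupp.single c 1 := by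
  have h5 : tot l = tot (l.erase c) + l c := by
    conv_lhs => rw [← Finsupp.erase_add_single c l, map_add, tot_single]
  rw [tot_wt hl, h1] at h5
  have h6 : ∑ ρ ∈ (l.erase c).support, (l.erase c) ρ = 0 := by rw [← tot_eq]; linarith
  have hnn : ∀ ρ, 0 ≤ (l.erase c) ρ := fun ρ => by
    by_cases h : ρ = c
    · subst h; simp
    · rw [Finsupp.erase_ne h]; exact hl.nn ρ
  have h7 := (Finset.sum_eq_zero_iff_of_nonneg fun ρ _ => hnn ρ).1 h6
  have h8 : l.erase c = 0 := by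
    ext ρ
    by_cases h : ρ ∈ (l.erase c).support
    · rw [h7 ρ h]; rfl
    · rw [Finsupp.notMem_support_iff.1 h]; rfl
  rw [← Finsupp.erase_add_single c l, h8, h1, zero_add]

/-- the cone over `KK p` -/
lemma insert_cone {p : Q → Prop} {c : Q} (hp : ∀ ρ, p ρ → ρ < c) :
    insert (C.b c) (coneSet (C.b c) (KK C p)) = KK C (fun ρ => p ρ ∨ ρ = c) := by
  ext y
  constructor
  · rintro (rfl | ⟨_, ⟨l, hl, hs, rfl⟩, t, ht, rfl⟩)
    · refine ⟨Finsupp.single c 1, Expl.wt_single c, fun ρ hρ => ?_, by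
        rw [bs_single _ one_pos, one_smul]⟩
      rw [Finsupp.support_single_ne_zero c one_ne_zero, Finset.mem_singleton] at hρ
      exact Or.inr hρ
    · refine ⟨(1 - t) • l + Finsupp.single c t,
        wt_top hl (fun ρ hρ => (hp ρ (hs ρ hρ)).le) ht.1 ht.2, fun ρ hρ => ?_, bs_top' _ _ _ _⟩
      by_cases h : ρ = c
      · exact Or.inr h
      · refine Or.inl (hs ρ ?_)
        rw [Finsupp.mem_support_iff]
        intro h0
        apply Finsupp.mem_support_iff.1 hρ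
        simp [h0, Finsupp.single_eq_of_ne h]
  · rintro ⟨l, hl, hs, rfl⟩
    have hle : l c ≤ 1 := by
      rw [← hl.sum]
      by_cases h : c ∈ l.support
      · exact Finset.single_le_sum (fun ρ _ => hl.nn ρ) h
      · rw [Finsupp.notMem_support_iff.1 h]
        exact Finset.sum_nonneg fun ρ _ => hl.nn ρ
    rcases hle.lt_or_eq with h1 | h1
    · right
      obtain ⟨h2, h3, h4⟩ := wt_untop hl h1
      refine ⟨_, ⟨_, h2, fun ρ hρ => ?_, rfl⟩, l c, ⟨hl.nn c, h1.le⟩, ?_⟩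
      · exact (hs ρ (h4 ρ hρ).1).resolve_right (h4 ρ hρ).2
      · rw [← bs_top', ← h3]
    · left
      rw [eq_single_of_one hl h1, bs_single _ one_pos, one_smul]

lemma cone_eq {p : Q → Prop} {c : Q} (hp : ∀ ρ, p ρ → ρ < c) (hne : (KK C p).Nonempty) :
    coneSet (C.b c) (KK C p) = KK C (fun ρ => p ρ ∨ ρ = c) := by
  rw [← insert_cone C hp, insert_eq_of_mem]
  obtain ⟨x, hx⟩ := hne
  exact ⟨x, hx, 1, ⟨zero_le_one, le_rfl⟩, by simp⟩

lemma joinable {p : Q → Prop} {c : Q} (hp : ∀ ρ, p ρ → ρ < c) : Joinable (C.b c) (KK C p) := by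
  rintro _ ⟨l, hl, hs, rfl⟩ _ ⟨l', hl', hs', rfl⟩ t ht t' ht' he
  rw [← bs_top', ← bs_top'] at he
  have h1 := bs_inj C (wt_top hl (fun ρ hρ => (hp ρ (hs ρ hρ)).le) ht.1 ht.2.le)
    (wt_top hl' (fun ρ hρ => (hp ρ (hs' ρ hρ)).le) ht'.1 ht'.2) he
  have hc : l c = 0 := Finsupp.notMem_support_iff.1 fun h => lt_irrefl _ (hp c (hs c h))
  have hc' : l' c = 0 := Finsupp.notMem_support_iff.1 fun h => lt_irrefl _ (hp c (hs' c h))
  have h2 := DFunLike.congr_fun h1 c
  simp [hc, hc'] at h2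
  subst h2
  refine ⟨?_, rfl⟩
  have h3 : l = l' := by
    have h4 : (1 - t) • l = (1 - t) • l' := add_right_cancel h1
    exact smul_right_injective _ (by linarith [ht.2] : (1 - t) ≠ 0) h4
  rw [h3]

section Core

variable [FiniteDimensional ℝ E] {q c : Q}

/-- the base chain `q < c` -/
noncomputable def l2 (q c : Q) : Q →₀ ℝ := Finsupp.single q (1 / 2) + Finsupp.single c (1 / 2)

lemma l2_apply {q c : Q} (h : q < c) : (l2 q c) q = 1 / 2 ∧ (l2 q c) c = 1 / 2 ∧
    ∀ ρ, ρ ≠ q → ρ ≠ c → (l2 q c) ρ = 0 := by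
  refine ⟨?_, ?_, fun ρ h1 h2 => ?_⟩
  · simp [l2, Finsupp.single_eq_of_ne h.ne]
  · simp [l2, Finsupp.single_eq_of_ne h.ne']
  · simp [l2, Finsupp.single_eq_of_ne h1, Finsupp.single_eq_of_ne h2]

lemma l2_supp {q c : Q} (h : q < c) : ∀ ρ, ρ ∈ (l2 q c).support ↔ ρ = q ∨ ρ = c := by
  obtain ⟨h1, h2, h3⟩ := l2_apply h
  intro ρ
  rw [Finsupp.mem_support_iff]
  constructor
  · intro hρ
    by_contra hcon
    push Not at hcon
    exact hρ (h3 ρ hcon.1 hcon.2)
  · rintro (rfl | rfl)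
    · rw [h1]; norm_num
    · rw [h2]; norm_num

lemma l2_base {q c : Q} (h : q < c) : Base (l2 q c) q := by
  obtain ⟨h1, h2, h3⟩ := l2_apply h
  refine ⟨⟨fun ρ => ?_, ?_, fun ρ hρ σ hσ => ?_⟩, (l2_supp h q).2 (Or.inl rfl), fun ρ hρ => ?_⟩
  · by_cases e1 : ρ = q
    · subst e1; rw [h1]; norm_num
    · by_cases e2 : ρ = c
      · subst e2; rw [h2]; norm_num
      · rw [h3 ρ e1 e2]
  · rw [← tot_eq, l2, map_add, tot_single, tot_single]; norm_num
  · rcases (l2_supp h ρ).1 hρ with rfl | rfl <;> rcases (l2_supp h σ).1 hσ with rfl | rfl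
    · exact Or.inl le_rfl
    · exact Or.inl h.le
    · exact Or.inr h.le
    · exact Or.inl le_rfl
  · rcases (l2_supp h ρ).1 hρ with rfl | rfl
    · exact le_rfl
    · exact h.le

lemma l2_lk {q c : Q} (h : q < c) (hc : ∀ ρ, c ≤ ρ → ρ = c) :
    ∀ ρ, ρ ∈ lk (l2 q c) q ↔ q < ρ ∧ ρ < c := by
  intro ρ
  constructor
  · rintro ⟨h1, h2, h3⟩
    refine ⟨h1, ?_⟩
    have h4 : ρ ≠ c := fun e => h2 ((l2_supp h ρ).2 (Or.inr e))
    rcases h3 c ((l2_supp h c).2 (Or.inr rfl)) with h5 | h5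
    · exact lt_of_le_of_ne h5 h4
    · exact absurd (hc ρ h5) h4
  · rintro ⟨h1, h2⟩
    refine ⟨h1, fun h3 => ?_, fun σ hσ => ?_⟩
    · rcases (l2_supp h ρ).1 h3 with rfl | rfl
      · exact lt_irrefl _ h1
      · exact lt_irrefl _ h2
    · rcases (l2_supp h σ).1 hσ with rfl | rfl
      · exact Or.inr h1.le
      · exact Or.inl h2.le

/-- the barycentre of a larger cell is not in the direction of a smaller one -/
lemma notMem_V0 (hΛ : IsOpen Λ) (h : q < c) : C.b c - C.b q ∉ V0 C q := by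
  intro hm
  have h1 : ∀ᶠ t in 𝓝[>] (0 : ℝ), C.b q + t • (C.b c - C.b q) ∈ C.cell q :=
    nhdsWithin_le_nhds (small_mem C hΛ hm)
  have h2 : ∀ᶠ t in 𝓝[>] (0 : ℝ), t < 1 := nhdsWithin_le_nhds (eventually_lt_nhds one_pos)
  obtain ⟨t, ⟨h3, h4⟩, h5⟩ := ((h1.and h2).and self_mem_nhdsWithin).exists
  refine opn_combo C (C.bmem c) (fun p hp => C.b_notMem hp) (C.mono h (C.bmem q)) h5 h4.le h ?_
  have : t • C.b c + (1 - t) • C.b q = C.b q + t • (C.b c - C.b q) := by module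
  rw [this]
  exact h3

lemma finrank_V (hΛ : IsOpen Λ) (h : q < c) :
    finrank ℝ (V C (l2 q c) q) = finrank ℝ (V0 C q) + 1 := by
  have h1 : V C (l2 q c) q = V0 C q ⊔ Submodule.span ℝ {C.b c - C.b q} := by
    refine le_antisymm (sup_le le_sup_left ?_) (sup_le le_sup_left ?_)
    · rw [Submodule.span_le]
      rintro _ ⟨ρ, hρ, rfl⟩
      rcases (l2_supp h ρ).1 hρ with rfl | rfl
      · show C.b ρ - C.b ρ ∈ _
        rw [sub_self]; exact Submodule.zero_mem _
      · exact Submodule.mem_sup_right (Submodule.subset_span rfl)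
    · rw [Submodule.span_le]
      rintro _ rfl
      exact Submodule.mem_sup_right (Submodule.subset_span ⟨c, (l2_supp h c).2 (Or.inr rfl), rfl⟩)
  rw [h1]
  have hn := notMem_V0 C hΛ h
  have h0 : C.b c - C.b q ≠ 0 := fun e => hn (by rw [e]; exact Submodule.zero_mem _)
  have h2 : V0 C q ⊓ Submodule.span ℝ {C.b c - C.b q} = ⊥ := by
    rw [← disjoint_iff]
    exact (Submodule.disjoint_span_singleton' h0).2 hn
  have h3 := Submodule.finrank_sup_add_finrank_inf_eq (V0 C q) (Submodule.span ℝ {C.b c - C.b q})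
  rw [h2, finrank_bot, finrank_span_singleton h0] at h3
  omega

/-- the order complex of `[q, c)`, `c` maximal, is a ball with boundary the complex of `(q, c)` -/
theorem isBall_KK (hΛ : IsOpen Λ) (h : q < c) (hc : ∀ ρ, c ≤ ρ → ρ = c) {k : ℕ}
    (hk : Ar_241.cod C q = k + 1) :
    IsBall k (KK C fun ρ => q ≤ ρ ∧ ρ < c) (KK C fun ρ => q < ρ ∧ ρ < c) := by
  have h1 := isBall_Dd C hΛ (l2_base h)
  have h2 : finrank ℝ E - finrank ℝ (V C (l2 q c) q) = k := by
    have h3 : Ar_241.cod C q = finrank ℝ E - finrank ℝ (V0 C q) := rfl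
    rw [finrank_V C hΛ h]
    omega
  rw [h2] at h1
  have e1 : Dd C (l2 q c) q = KK C fun ρ => q ≤ ρ ∧ ρ < c := by
    refine KK_congr C fun ρ => ?_
    rw [l2_lk h hc]
    constructor
    · rintro (rfl | ⟨h3, h4⟩)
      · exact ⟨le_rfl, h⟩
      · exact ⟨h3.le, h4⟩
    · rintro ⟨h3, h4⟩
      rcases h3.eq_or_lt with h5 | h5
      · exact Or.inl h5.symm
      · exact Or.inr ⟨h5, h4⟩
  have e2 : Ld C (l2 q c) q = KK C fun ρ => q < ρ ∧ ρ < c :=
    KK_congr C fun ρ => by rw [l2_lk h hc]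
  rw [e1, e2] at h1
  exact h1

/-- the cone pair over `[q, c)` with apex `b c` -/
theorem cone_pair (hΛ : IsOpen Λ) (h : q < c) (hc : ∀ ρ, c ≤ ρ → ρ = c) {k : ℕ}
    (hk : Ar_241.cod C q = k + 1) :
    BallPair k (KK C fun ρ => q ≤ ρ ∧ ρ ≤ c) (KK C fun ρ => q ≤ ρ ∧ ρ < c)
      (KK C fun ρ => q < ρ ∧ ρ ≤ c) (KK C fun ρ => q < ρ ∧ ρ < c) := by
  have h1 := isBall_KK C hΛ h hc hk
  have h2 := BallPair.coneFrom h1 (joinable C (c := c) (fun ρ hρ => hρ.2))
  rw [cone_eq C (fun ρ hρ => hρ.2) h1.nonempty, insert_cone C (fun ρ hρ => hρ.2)] at h2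
  have e1 : (KK C fun ρ => (q ≤ ρ ∧ ρ < c) ∨ ρ = c) = KK C fun ρ => q ≤ ρ ∧ ρ ≤ c := by
    refine KK_congr C fun ρ => ?_
    constructor
    · rintro (⟨h3, h4⟩ | rfl)
      · exact ⟨h3, h4.le⟩
      · exact ⟨h.le, le_rfl⟩
    · rintro ⟨h3, h4⟩
      rcases h4.eq_or_lt with h5 | h5
      · exact Or.inr h5
      · exact Or.inl ⟨h3, h5⟩
  have e2 : (KK C fun ρ => (q < ρ ∧ ρ < c) ∨ ρ = c) = KK C fun ρ => q < ρ ∧ ρ ≤ c := by
    refine KK_congr C fun ρ => ?_
    constructor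
    · rintro (⟨h3, h4⟩ | rfl)
      · exact ⟨h3, h4.le⟩
      · exact ⟨h, le_rfl⟩
    · rintro ⟨h3, h4⟩
      rcases h4.eq_or_lt with h5 | h5
      · exact Or.inr h5
      · exact Or.inl ⟨h3, h5⟩
  rw [e1, e2] at h2
  exact h2

end Core

end Crest.Agent.R096.Dl_609
end

-- ▼ part R096/Dl5_609

/-!
# R096 (row 96), CORE BALLS, part 2 (helper609)

`core_pair`: in the exact core `coreF C κ c θ` of a maximal cell `c`, the fibre `{st = b q}`
(`q < c`) is a ball of dimension `cod C q`; its two sides `sl y c = θ` (on the boundary of the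
core) and `sl y q = 0` (on the larger cells) are balls with common boundary.
`core_pair_K`: the same in `K ≃ coreF C κ c θ`, in 537's notation `cG`, `ctop`.
-/

set_option autoImplicit false
set_option linter.unusedSectionVars false
set_option linter.unusedVariables false
set_option linter.deprecated false

open Set Metric Module Filter Topology
open scoped Classical

namespace Crest.Agent.R096.Dl_609

open Ce_537 Xp_537 Cb_609

variable {E : Type*} [NormedAddCommGroup E] [NormedSpace ℝ E]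
variable {Q : Type*} [PartialOrder Q] {Λ : Set E} (C : CC Λ Q)

section Core

variable [FiniteDimensional ℝ E] {q c : Q} {κ θ : ℝ}

/-- the affine map from the cone over `[q, c)` onto the fibre in the core -/
noncomputable def aff (κ θ : ℝ) (q c : Q) : E →ᵃ[ℝ] E :=
  (κ * (1 - θ)) • AffineMap.id ℝ E + AffineMap.const ℝ E ((1 - κ) • C.b q + (κ * θ) • C.b c)

lemma aff_apply (x : E) : aff C κ θ q c x =
    (κ * (1 - θ)) • x + ((1 - κ) • C.b q + (κ * θ) • C.b c) := rfl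

lemma aff_inj (hκ : 0 < κ) (hθ : θ < 1) : Function.Injective (aff C κ θ q c) := by
  intro x y h
  rw [aff_apply, aff_apply] at h
  have h1 := add_right_cancel h
  exact smul_right_injective _ (mul_pos hκ (by linarith) : (0:ℝ) < κ * (1 - θ)).ne' h1

lemma aff_bs (l : Q →₀ ℝ) :
    aff C κ θ q c (bs C.b l) = pk C κ ((1 - θ) • l + Finsupp.single c θ) (C.b q) := by
  rw [aff_apply, pk, bs_top']
  module

/-- **description of the image** -/
lemma mem_aff_KK (hκ : 0 < κ ∧ κ < 1) (h0 : 0 ≤ θ) (h1 : θ < 1) (hqc : q < c) {p : Q → Prop}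
    (hp : ∀ ρ, p ρ → q ≤ ρ ∧ ρ ≤ c) (y : E) :
    y ∈ aff C κ θ q c '' KK C p ↔ (y ∈ coreF C κ c θ ∧ st C κ y = C.b q) ∧
      (∀ ρ ∈ (sl C κ y).support, ρ ≠ c → p ρ) ∧ (sl C κ y c ≠ θ → p c) := by
  have h1' : 0 < 1 - θ := by linarith
  constructor
  · rintro ⟨_, ⟨l, hl, hs, rfl⟩, rfl⟩
    rw [aff_bs]
    set m := (1 - θ) • l + Finsupp.single c θ with hm
    have hle : ∀ ρ ∈ l.support, ρ ≤ c := fun ρ hρ => (hp ρ (hs ρ hρ)).2
    have hwt : Wt m := wt_top hl hle h0 h1.le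
    have hmc : m c = (1 - θ) * l c + θ := by simp [hm]
    have hmne : ∀ ρ, ρ ≠ c → m ρ = (1 - θ) * l ρ := fun ρ h => by
      simp [hm, Finsupp.single_eq_of_ne h]
    have hms : ∀ ρ ∈ m.support, ρ ≠ c → p ρ := by
      intro ρ hρ hne
      refine hs ρ ?_
      rw [Finsupp.mem_support_iff]
      intro h2
      apply Finsupp.mem_support_iff.1 hρ
      rw [hmne ρ hne, h2, mul_zero]
    have hmq : ∀ ρ ∈ m.support, q ≤ ρ ∧ ρ ≤ c := by
      intro ρ hρ
      by_cases h : ρ = c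
      · subst h; exact ⟨hqc.le, le_rfl⟩
      · exact hp ρ (hms ρ hρ h)
    have hst : State C m (C.b q) := ⟨hwt.nn, hwt.sum, hwt.chain, fun ρ hρ =>
      C.mono_le (hmq ρ hρ).1 (C.bmem q)⟩
    rw [sl_pk C hκ hst, st_pk C hκ hst]
    refine ⟨⟨⟨pk_mem C hκ hst fun ρ hρ => (hmq ρ hρ).2, ?_⟩, rfl⟩, hms, fun hne => ?_⟩
    · rw [sl_pk C hκ hst, hmc]
      have := mul_nonneg h1'.le (hl.nn c)
      linarith
    · refine hs c ?_
      rw [Finsupp.mem_support_iff]
      intro h2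
      apply hne
      rw [hmc, h2, mul_zero, zero_add]
  · rintro ⟨⟨⟨hy, hθ⟩, hst⟩, hs, hc⟩
    obtain ⟨k1, k2, k3⟩ := st_spec C hκ hy
    set m := sl C κ y with hm
    rw [hst] at k1 k2
    clear_value m
    -- divide
    set l : Q →₀ ℝ := (1 - θ)⁻¹ • (m - Finsupp.single c θ) with hl
    have hlc : l c = (1 - θ)⁻¹ * (m c - θ) := by simp [hl]
    have hlne : ∀ ρ, ρ ≠ c → l ρ = (1 - θ)⁻¹ * m ρ := fun ρ h => by
      simp [hl, Finsupp.single_eq_of_ne h]
    have hsub : ∀ ρ ∈ l.support, ρ ∈ m.support ∧ p ρ := by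
      intro ρ hρ
      by_cases h : ρ = c
      · subst h
        have h2 : m ρ - θ ≠ 0 := by
          intro h2
          apply Finsupp.mem_support_iff.1 hρ
          rw [hlc, h2, mul_zero]
        have h3 : m ρ ≠ θ := fun e => h2 (by rw [e, sub_self])
        refine ⟨Finsupp.mem_support_iff.2 fun e => ?_, hc h3⟩
        rw [e] at hθ
        exact h3 (by rw [e]; linarith)
      · have h2 : m ρ ≠ 0 := by
          intro h2
          apply Finsupp.mem_support_iff.1 hρ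
          rw [hlne ρ h, h2, mul_zero]
        exact ⟨Finsupp.mem_support_iff.2 h2, hs ρ (Finsupp.mem_support_iff.2 h2) h⟩
    have hlw : Wt l := by
      refine ⟨fun ρ => ?_, ?_, fun ρ hρ σ hσ => k1.chain ρ (hsub ρ hρ).1 σ (hsub σ hσ).1⟩
      · by_cases h : ρ = c
        · subst h; rw [hlc]
          exact mul_nonneg (inv_nonneg.2 h1'.le) (by linarith)
        · rw [hlne ρ h]
          exact mul_nonneg (inv_nonneg.2 h1'.le) (k1.nn ρ)
      · rw [← tot_eq, hl, map_smul, map_sub, tot_single, tot_wt k1.wt, smul_eq_mul,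
          inv_mul_cancel₀ h1'.ne']
    refine ⟨bs C.b l, ⟨l, hlw, fun ρ hρ => (hsub ρ hρ).2, rfl⟩, ?_⟩
    rw [aff_bs]
    have h5 : (1 - θ) • l + Finsupp.single c θ = m := by
      rw [hl, smul_smul, mul_inv_cancel₀ h1'.ne', one_smul, sub_add_cancel]
    rw [h5, k2]

/-- the support of a state over `b q` in the cell `c` -/
lemma supp_fibre (hκ : 0 < κ ∧ κ < 1) {y : E} (hy : y ∈ C.cell c) (hst : st C κ y = C.b q) :
    ∀ ρ ∈ (sl C κ y).support, q ≤ ρ ∧ ρ ≤ c := by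
  obtain ⟨k1, k2, k3⟩ := st_spec C hκ hy
  rw [hst] at k1
  exact fun ρ hρ => ⟨C.le_of_b (k1.mem ρ hρ), k3 ρ hρ⟩

/-- **the core pair** -/
theorem core_pair (hΛ : IsOpen Λ) (hκ : 0 < κ ∧ κ < 1) (h0 : 0 ≤ θ) (h1 : θ < 1) (hqc : q < c)
    (hc : ∀ ρ, c ≤ ρ → ρ = c) {k : ℕ} (hk : Ar_241.cod C q = k + 1) :
    BallPair k {y | y ∈ coreF C κ c θ ∧ st C κ y = C.b q}
      {y | (y ∈ coreF C κ c θ ∧ st C κ y = C.b q) ∧ sl C κ y c = θ}
      {y | (y ∈ coreF C κ c θ ∧ st C κ y = C.b q) ∧ sl C κ y q = 0}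
      {y | (y ∈ coreF C κ c θ ∧ st C κ y = C.b q) ∧ sl C κ y c = θ ∧ sl C κ y q = 0} := by
  have h2 := (cone_pair C hΛ hqc hc hk).image_injOn (plOn_affine (aff C κ θ q c) _)
    (aff_inj C hκ.1 h1).injOn
  have hA : ∀ S : Set E, (fun x => aff C κ θ q c x) '' S = aff C κ θ q c '' S := fun S => rfl
  rw [hA, hA, hA, hA] at h2
  have e1 : aff C κ θ q c '' KK C (fun ρ => q ≤ ρ ∧ ρ ≤ c) =
      {y | y ∈ coreF C κ c θ ∧ st C κ y = C.b q} := by
    ext y
    rw [mem_aff_KK C hκ h0 h1 hqc (fun ρ h => h)]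
    constructor
    · exact fun h => h.1
    · exact fun h => ⟨h, fun ρ hρ _ => supp_fibre C hκ h.1.1 h.2 ρ hρ, fun _ => ⟨hqc.le, le_rfl⟩⟩
  have e2 : aff C κ θ q c '' KK C (fun ρ => q ≤ ρ ∧ ρ < c) =
      {y | (y ∈ coreF C κ c θ ∧ st C κ y = C.b q) ∧ sl C κ y c = θ} := by
    ext y
    rw [mem_aff_KK C hκ h0 h1 hqc (fun ρ h => ⟨h.1, h.2.le⟩)]
    constructor
    · rintro ⟨h3, h4, h5⟩
      refine ⟨h3, ?_⟩
      by_contra hne
      exact lt_irrefl _ (h5 hne).2
    · rintro ⟨h3, h4⟩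
      refine ⟨h3, fun ρ hρ hne => ?_, fun hne => absurd h4 hne⟩
      obtain ⟨h5, h6⟩ := supp_fibre C hκ h3.1.1 h3.2 ρ hρ
      exact ⟨h5, lt_of_le_of_ne h6 hne⟩
  have e3 : aff C κ θ q c '' KK C (fun ρ => q < ρ ∧ ρ ≤ c) =
      {y | (y ∈ coreF C κ c θ ∧ st C κ y = C.b q) ∧ sl C κ y q = 0} := by
    ext y
    rw [mem_aff_KK C hκ h0 h1 hqc (fun ρ h => ⟨h.1.le, h.2⟩)]
    constructor
    · rintro ⟨h3, h4, h5⟩
      refine ⟨h3, ?_⟩
      by_contra hne
      exact lt_irrefl _ (h4 q (Finsupp.mem_support_iff.2 hne) hqc.ne).1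
    · rintro ⟨h3, h4⟩
      refine ⟨h3, fun ρ hρ hne => ?_, fun hne => ⟨hqc, le_rfl⟩⟩
      obtain ⟨h5, h6⟩ := supp_fibre C hκ h3.1.1 h3.2 ρ hρ
      refine ⟨lt_of_le_of_ne h5 ?_, h6⟩
      rintro rfl
      exact Finsupp.mem_support_iff.1 hρ h4
  have e4 : aff C κ θ q c '' KK C (fun ρ => q < ρ ∧ ρ < c) =
      {y | (y ∈ coreF C κ c θ ∧ st C κ y = C.b q) ∧ sl C κ y c = θ ∧ sl C κ y q = 0} := by
    ext y
    rw [mem_aff_KK C hκ h0 h1 hqc (fun ρ h => ⟨h.1.le, h.2.le⟩)]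
    constructor
    · rintro ⟨h3, h4, h5⟩
      refine ⟨h3, ?_, ?_⟩
      · by_contra hne
        exact lt_irrefl _ (h5 hne).2
      · by_contra hne
        exact lt_irrefl _ (h4 q (Finsupp.mem_support_iff.2 hne) hqc.ne).1
    · rintro ⟨h3, h4, h4'⟩
      refine ⟨h3, fun ρ hρ hne => ?_, fun hne => absurd h4 hne⟩
      obtain ⟨h5, h6⟩ := supp_fibre C hκ h3.1.1 h3.2 ρ hρ
      refine ⟨lt_of_le_of_ne h5 ?_, lt_of_le_of_ne h6 hne⟩
      rintro rfl
      exact Finsupp.mem_support_iff.1 hρ h4'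
  rw [e1, e2, e3, e4] at h2
  exact h2

variable {E' : Type*} [NormedAddCommGroup E'] [NormedSpace ℝ E'] {K : Set E'}

/-- `ctop ≠ q` on the fibre over `b q` -/
lemma ctop_ne_iff (hκ : 0 < κ ∧ κ < 1) {y : E} (hy : y ∈ C.cell c) (hst : st C κ y = C.b q) :
    mn c (sl C κ y) ≠ q ↔ sl C κ y q = 0 := by
  obtain ⟨k1, k2, k3⟩ := st_spec C hκ hy
  have hs := supp_fibre C hκ hy hst
  constructor
  · intro hne
    by_contra h
    exact hne (mn_eq c k1.wt (Finsupp.mem_support_iff.2 h) fun ρ hρ => (hs ρ hρ).1)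
  · intro h e
    have := (mn_spec c k1.wt).1
    rw [e] at this
    exact Finsupp.mem_support_iff.1 this h

/-- **the core pair in `K ≃ coreF C κ c θ`** -/
theorem core_pair_K (hΛ : IsOpen Λ) (hκ : 0 < κ ∧ κ < 1) (h0 : 0 ≤ θ) (h1 : θ < 1) (hqc : q < c)
    (hc : ∀ ρ, c ≤ ρ → ρ = c) {k : ℕ} (hk : Ar_241.cod C q = k + 1)
    (Th : PLEquiv K (coreF C κ c θ)) :
    BallPair k {x | x ∈ K ∧ cG C κ Th.f x = C.b q}
      {x | (x ∈ K ∧ cG C κ Th.f x = C.b q) ∧ sl C κ (Th.f x) c = θ}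
      {x | (x ∈ K ∧ cG C κ Th.f x = C.b q) ∧ ctop C κ c Th.f x ≠ q}
      {x | (x ∈ K ∧ cG C κ Th.f x = C.b q) ∧ sl C κ (Th.f x) c = θ ∧ ctop C κ c Th.f x ≠ q} := by
  have h2 := core_pair C hΛ hκ h0 h1 hqc hc hk
  have key : ∀ P : E → Prop, Th.g '' {y | (y ∈ coreF C κ c θ ∧ st C κ y = C.b q) ∧ P y} =
      {x | (x ∈ K ∧ cG C κ Th.f x = C.b q) ∧ P (Th.f x)} := by
    intro P
    ext x
    constructor
    · rintro ⟨y, ⟨⟨hy, hst⟩, hP⟩, rfl⟩
      refine ⟨⟨Th.mg hy, ?_⟩, ?_⟩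
      · show st C κ (Th.f (Th.g y)) = _
        rw [Th.ri y hy]; exact hst
      · rw [Th.ri y hy]; exact hP
    · rintro ⟨⟨hx, hG⟩, hP⟩
      exact ⟨Th.f x, ⟨⟨Th.mf hx, hG⟩, hP⟩, Th.li x hx⟩
  have key0 : Th.g '' {y | y ∈ coreF C κ c θ ∧ st C κ y = C.b q} =
      {x | x ∈ K ∧ cG C κ Th.f x = C.b q} := by
    have := key fun _ => True
    simpa using this
  have h3 := h2.map (Th.symm.restrImage (A' := {y | y ∈ coreF C κ c θ ∧ st C κ y = C.b q})
    fun y hy => hy.1)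
  have hf : ∀ S : Set E, (Th.symm.restrImage (A' := {y | y ∈ coreF C κ c θ ∧ st C κ y = C.b q})
    fun y hy => hy.1).f '' S = Th.g '' S := fun S => rfl
  have hf' : Th.symm.f '' {y | y ∈ coreF C κ c θ ∧ st C κ y = C.b q} =
    Th.g '' {y | y ∈ coreF C κ c θ ∧ st C κ y = C.b q} := rfl
  rw [hf, hf, hf, hf', key0, key, key, key] at h3
  have e1 : {x | (x ∈ K ∧ cG C κ Th.f x = C.b q) ∧ sl C κ (Th.f x) q = 0} =
      {x | (x ∈ K ∧ cG C κ Th.f x = C.b q) ∧ ctop C κ c Th.f x ≠ q} := by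
    ext x
    constructor
    · rintro ⟨⟨hx, hG⟩, h4⟩
      exact ⟨⟨hx, hG⟩, (ctop_ne_iff C hκ (Th.mf hx).1 hG).2 h4⟩
    · rintro ⟨⟨hx, hG⟩, h4⟩
      exact ⟨⟨hx, hG⟩, (ctop_ne_iff C hκ (Th.mf hx).1 hG).1 h4⟩
  have e2 : {x | (x ∈ K ∧ cG C κ Th.f x = C.b q) ∧ sl C κ (Th.f x) c = θ ∧
      sl C κ (Th.f x) q = 0} =
      {x | (x ∈ K ∧ cG C κ Th.f x = C.b q) ∧ sl C κ (Th.f x) c = θ ∧
        ctop C κ c Th.f x ≠ q} := by
    ext x
    constructor
    · rintro ⟨⟨hx, hG⟩, h5, h4⟩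
      exact ⟨⟨hx, hG⟩, h5, (ctop_ne_iff C hκ (Th.mf hx).1 hG).2 h4⟩
    · rintro ⟨⟨hx, hG⟩, h5, h4⟩
      exact ⟨⟨hx, hG⟩, h5, (ctop_ne_iff C hκ (Th.mf hx).1 hG).1 h4⟩
  rw [e1, e2] at h3
  exact h3

end Core

end Crest.Agent.R096.Dl_609
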