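import Crest.Agent.R096.Ar6_241
import Crest.Agent.R096.Glu1_422
import Crest.Agent.R096.Dl5_609

-- ▼ part R096/Ar7_241
section

/-!
# R096 (row 96), ARR part 7 (helper241): strips (R6) for a transport structure with cores

`Cores X Kc X0`: closed disjoint saturated cores `Kc c`, `X0` = the rest (closed), `X0 ∩ Kc c` in the
frontier of `Kc c`.
`Tr0.strip`: the fibre over an edge is a disc, if its truncation lies in a PL 2-sphere `S'`.
`Tr0.square`: the fibre over a square is an arc, from the truncated arc.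
-/

set_option autoImplicit false
set_option linter.unusedSectionVars false
set_option linter.unusedVariables false

open Set Metric Topology Module
open scoped Classical

namespace Crest.Agent.R096.Ar_241

open Crest.Agent.R096.Xp_537
open Crest.Agent.R096.Ce_537 (PLOn PLEquiv cube sph IsBall)
open Crest.Agent.R096.Glu_422 (Pieces exch mem_exch sphere_all ball_all compl_zero compl_one)

variable {E : Type*} [NormedAddCommGroup E] [NormedSpace ℝ E] [FiniteDimensional ℝ E]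
  {Q : Type*} [PartialOrder Q] {Λ : Set E}
  {E' : Type*} [NormedAddCommGroup E'] [NormedSpace ℝ E']
  {Ω : Set E'} {C : CC Λ Q} {G : E' → E}

/-- closed, disjoint, saturated cores and the closed complement -/
structure Cores (X : Tr0 Ω C G) {ι : Type*} (Kc : ι → Set E') (X0 : Set E') : Prop where
  closed : ∀ c, IsClosed (Kc c)
  X0closed : IsClosed X0
  cov : Ω ⊆ X0 ∪ ⋃ c, Kc c
  disj : ∀ c c', c ≠ c' → Disjoint (Kc c) (Kc c')
  lf : ∀ x ∈ Ω, ∃ ε > (0:ℝ), {c | (Kc c ∩ ball x ε).Nonempty}.Finite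
  bd : ∀ c, ∀ x ∈ Kc c, x ∈ X0 → ∀ ε > (0:ℝ), ∃ z ∈ ball x ε, z ∉ Kc c
  sat : ∀ c, ∀ x ∈ Kc c, x ∈ Ω → ∀ t ∈ C.cell (X.top x), X.tr x t ∈ Kc c

namespace Cores

variable {X : Tr0 Ω C G} {ι : Type*} {Kc : ι → Set E'} {X0 : Set E'}

/-- a neighbourhood meets only the cores which contain the point -/
lemma near (h : Cores X Kc X0) {x : E'} (hx : x ∈ Ω) :
    ∃ ε > (0:ℝ), ∀ c, (Kc c ∩ ball x ε).Nonempty → x ∈ Kc c := by
  obtain ⟨ε1, h1, hf⟩ := h.lf x hx
  set A : Set ι := {c | (Kc c ∩ ball x ε1).Nonempty} ∩ {c | x ∉ Kc c} with hA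
  have hfin : A.Finite := hf.subset inter_subset_left
  have hcl : IsClosed (⋃ c ∈ A, Kc c) := hfin.isClosed_biUnion fun c _ => h.closed c
  have hnot : x ∉ ⋃ c ∈ A, Kc c := by
    intro hh
    obtain ⟨c, hc, hxc⟩ := mem_iUnion₂.1 hh
    exact hc.2 hxc
  obtain ⟨ε2, h2, hb⟩ := Metric.isOpen_iff.1 hcl.isOpen_compl _ hnot
  refine ⟨min ε1 ε2, lt_min h1 h2, ?_⟩
  rintro c ⟨z, hzc, hz⟩
  by_contra hcon
  exact hb (ball_subset_ball (min_le_right _ _) hz)
    (mem_biUnion (show c ∈ A from ⟨⟨z, hzc, ball_subset_ball (min_le_left _ _) hz⟩, hcon⟩) hzc)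

end Cores

namespace Tr0

variable (X : Tr0 Ω C G)

/-- **(R6) strips.** `q` an edge (codimension 2), `S q` a circle. -/
theorem strip (hΩ : IsOpen Ω) (hc : ∀ q, IsCompact (X.F q)) {ι : Type*} {Kc : ι → Set E'}
    {X0 : Set E'} (hK : Cores X Kc X0) {q : Q} (hS : Nonempty (PLEquiv (sph 2) (X.S q)))
    {s : Finset ι} (hs : s.Nonempty) (hKq : ∀ c, (X.F q ∩ Kc c).Nonempty → c ∈ s)
    {R Qc : ι → Set E'}
    (hP : Pieces 1 s (X.S q) (fun c => X.F q ∩ Kc c) (fun c => X.F q ∩ Kc c ∩ X0) R Qc)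
    {S' : Set E'} (hS' : Nonempty (PLEquiv (sph 3) S')) (hS'Ω : S' ⊆ Ω)
    (h1 : X.F q ∩ X0 ⊆ S')
    (h2 : ∀ z ∈ S', (∀ c, z ∉ Kc c) → G z ∈ C.cell q → G z = C.b q)
    (h3 : ∃ z ∈ S', z ∉ X.F q) :
    IsBall 2 (X.F q) (X.S q) := by
  set M0 : Set E' := X.F q ∩ X0 with hM0
  set Γ : Set E' := exch s (X.S q) (fun c => X.F q ∩ Kc c ∩ X0) R with hΓ
  have hΓc : Nonempty (PLEquiv (sph 2) Γ) := sphere_all compl_one hS hP
  have hRsub : ∀ c ∈ s, R c = (X.F q ∩ Kc c) ∩ X.S q := fun c hcs => (hP.inter c hcs).symm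
  have hX0 : ∀ x ∈ Ω, (∀ c, x ∉ Kc c) → x ∈ X0 := by
    intro x hx hcs
    rcases hK.cov hx with h | h
    · exact h
    · obtain ⟨c, hc'⟩ := mem_iUnion.1 h
      exact absurd hc' (hcs c)
  have hΓM : Γ ⊆ M0 := by
    intro x hx
    rcases mem_exch.1 hx with ⟨hxS, hxR⟩ | ⟨c, -, hxc⟩
    · have hxF := X.S_sub q hxS
      refine ⟨hxF, hX0 x hxF.1 fun c hxc => ?_⟩
      have hcs := hKq c ⟨x, hxF, hxc⟩
      apply hxR c hcs
      rw [hRsub c hcs]
      exact ⟨⟨hxF, hxc⟩, hxS⟩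
    · exact ⟨hxc.1.1, hxc.2⟩
  -- points of `M0` off `Γ`
  have hoff : ∀ x ∈ M0, x ∉ Γ → X.top x = q ∧ ∀ c, x ∉ Kc c := by
    intro x hx hxΓ
    have hcs : ∀ c, x ∉ Kc c := by
      intro c hxc
      exact hxΓ (mem_exch.2 (Or.inr ⟨c, hKq c ⟨x, hx.1, hxc⟩, ⟨hx.1, hxc⟩, hx.2⟩))
    refine ⟨?_, hcs⟩
    by_contra hne
    apply hxΓ
    refine mem_exch.2 (Or.inl ⟨⟨hx.1.1, hx.1.2, hne⟩, fun c hcs' hxR => ?_⟩)
    rw [hRsub c hcs'] at hxR
    exact hcs c hxR.1.2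
  have hfr : ∀ x ∈ M0, x ∉ Γ → ∃ ε > (0:ℝ), S' ∩ ball x ε ⊆ M0 := by
    intro x hx hxΓ
    obtain ⟨htop, hcs⟩ := hoff x hx hxΓ
    obtain ⟨ε1, e1, hsub, hn⟩ := X.near hΩ hc hx.1.1
    obtain ⟨ε2, e2, hk⟩ := hK.near hx.1.1
    refine ⟨min ε1 ε2, lt_min e1 e2, ?_⟩
    rintro z ⟨hzS, hz⟩
    have hz1 : z ∈ ball x ε1 := ball_subset_ball (min_le_left _ _) hz
    have hz2 : z ∈ ball x ε2 := ball_subset_ball (min_le_right _ _) hz
    have hzc : ∀ c, z ∉ Kc c := fun c hzc => hcs c (hk c ⟨z, hzc, hz2⟩)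
    obtain ⟨a1, a2⟩ := hn z hz1
    rw [hx.1.2] at a2
    have a3 : X.top z = q := le_antisymm (htop ▸ a1) (C.le_of_b a2)
    have a4 : G z ∈ C.cell q := a3 ▸ X.G_mem z (hsub hz1)
    exact ⟨⟨hsub hz1, h2 z hzS hzc a4⟩, hX0 z (hsub hz1) hzc⟩
  have hn1 : ¬ M0 ⊆ Γ := by
    intro hsubΓ
    -- an interior point of `D c`
    obtain ⟨c, hcs⟩ := hs
    have hb := (hP.pair c hcs).ball₁
    obtain ⟨x, hxD, hxQ⟩ := hb.nonempty_diff
    have hxS : x ∉ X.S q := by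
      intro hxS
      have hxR : x ∈ R c := by rw [hRsub c hcs]; exact ⟨hxD.1, hxS⟩
      have hi := (hP.pair c hcs).inter
      exact hxQ (hi ▸ ⟨hxD, hxR⟩)
    have hxF : x ∈ X.F q := hxD.1.1
    have htop : X.top x = q := by
      by_contra hne
      exact hxS ⟨hxF.1, hxF.2, hne⟩
    obtain ⟨ε1, e1, hsub, hn⟩ := X.near hΩ hc hxF.1
    obtain ⟨ε2, e2, hk⟩ := hK.near hxF.1
    -- near `x` everything is in the piece of `q`
    have hPz : ∀ z ∈ ball x ε1, z ∈ X.P q ∧ X.top z = q := by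
      intro z hz
      obtain ⟨a1, a2⟩ := hn z hz
      rw [hxF.2] at a2
      have a3 : X.top z = q := le_antisymm (htop ▸ a1) (C.le_of_b a2)
      exact ⟨⟨hsub hz, a3.ge, a3 ▸ X.G_mem z (hsub hz)⟩, a3⟩
    have hcont : ContinuousWithinAt (fun z => X.tr z (C.b q)) (X.P q) x :=
      (X.plc q).1 x (hPz x (mem_ball_self e1)).1
    have hself : X.tr x (C.b q) = x := by
      have := X.tr_self x hxF.1
      rwa [hxF.2] at this
    obtain ⟨δ, hδ, hd⟩ := Metric.continuousWithinAt_iff.1 hcont ε2 e2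
    obtain ⟨z, hz, hzK⟩ := hK.bd c x hxD.1.2 hxD.2 (min ε1 δ) (lt_min e1 hδ)
    have hz1 : z ∈ ball x ε1 := ball_subset_ball (min_le_left _ _) hz
    have hz2 : dist z x < δ := lt_of_lt_of_le hz (min_le_right _ _)
    obtain ⟨hzP, hzt⟩ := hPz z hz1
    have hm := hd hzP hz2
    rw [hself] at hm
    set m := X.tr z (C.b q) with hmdef
    have hbz : C.b q ∈ C.cell (X.top z) := by rw [hzt]; exact C.bmem q
    have hmΩ : m ∈ Ω := X.tr_mem z hzP.1 _ hbz
    have hmF : m ∈ X.F q := ⟨hmΩ, X.tr_G z hzP.1 _ hbz⟩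
    have hmt : X.top m = q := (X.top_tr hzP.1 hbz).trans hzt
    have hmK : ∀ c', m ∉ Kc c' := by
      intro c' hmc
      have hxc' : x ∈ Kc c' := hk c' ⟨m, hmc, hm⟩
      have hcc : c' = c := by
        by_contra hne
        exact disjoint_left.1 (hK.disj c' c hne) hxc' hxD.1.2
      subst hcc
      have h4 := hK.sat c' m hmc hmΩ (G z) (by rw [hmt, ← hzt]; exact X.G_mem z hzP.1)
      rw [X.tr_tr z hzP.1 _ hbz _ (X.G_mem z hzP.1), X.tr_self z hzP.1] at h4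
      exact hzK h4
    have hmΓ := hsubΓ ⟨hmF, hX0 m hmΩ hmK⟩
    rcases mem_exch.1 hmΓ with ⟨h5, -⟩ | ⟨c', -, h5⟩
    · exact h5.2.2 hmt
    · exact hmK c' h5.1.2
  have hn2 : ¬ S' ⊆ M0 := by
    obtain ⟨z, hz, hzF⟩ := h3
    exact fun h => hzF (h hz).1
  have hball : IsBall 2 M0 Γ :=
    isBall_side hS' hΓc hΓM h1 ((hc q).inter_right hK.X0closed) hfr hn1 hn2
  have hfin := ball_all compl_one hP hball (fun c hcs => by
    ext x
    constructor
    · rintro ⟨ha, hb⟩; exact ⟨hb, ha.2⟩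
    · rintro ⟨ha, hb⟩; exact ⟨⟨ha.1, hb⟩, ha⟩)
  have hun : M0 ∪ ⋃ c ∈ s, X.F q ∩ Kc c = X.F q := by
    ext x
    simp only [mem_union, mem_iUnion, exists_prop]
    constructor
    · rintro (h | ⟨c, -, h⟩)
      · exact h.1
      · exact h.1
    · intro hx
      by_cases hxc : ∃ c, x ∈ Kc c
      · obtain ⟨c, hxc⟩ := hxc
        exact Or.inr ⟨c, hKq c ⟨x, hx, hxc⟩, hx, hxc⟩
      · push Not at hxc
        exact Or.inl ⟨hx, hX0 x hx.1 hxc⟩
  rwa [hun] at hfin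

/-- **squares**: from the truncated arc -/
theorem square {ι : Type*} {Kc : ι → Set E'} {X0 : Set E'} (hK : Cores X Kc X0) {q : Q}
    {s : Finset ι} (hKq : ∀ c, (X.F q ∩ Kc c).Nonempty → c ∈ s) {R Qc : ι → Set E'}
    (hP : Pieces 0 s (X.S q) (fun c => X.F q ∩ Kc c) (fun c => X.F q ∩ Kc c ∩ X0) R Qc)
    (h : IsBall 1 (X.F q ∩ X0) (exch s (X.S q) (fun c => X.F q ∩ Kc c ∩ X0) R)) :
    IsBall 1 (X.F q) (X.S q) := by
  have hfin := ball_all compl_zero hP h (fun c hcs => by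
    ext x
    constructor
    · rintro ⟨ha, hb⟩; exact ⟨hb, ha.2⟩
    · rintro ⟨ha, hb⟩; exact ⟨⟨ha.1, hb⟩, ha⟩)
  have hun : (X.F q ∩ X0) ∪ ⋃ c ∈ s, X.F q ∩ Kc c = X.F q := by
    ext x
    simp only [mem_union, mem_iUnion, exists_prop]
    constructor
    · rintro (h | ⟨c, -, h⟩)
      · exact h.1
      · exact h.1
    · intro hx
      rcases hK.cov hx.1 with h' | h'
      · exact Or.inl ⟨hx, h'⟩
      · obtain ⟨c, hxc⟩ := mem_iUnion.1 h'
        exact Or.inr ⟨c, hKq c ⟨x, hx, hxc⟩, hx, hxc⟩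
  rwa [hun] at hfin

end Tr0

end Crest.Agent.R096.Ar_241
end

-- ▼ part R096/Ar8_241
section

/-!
# R096 (row 96), ARR part 8 (helper241): assembly in dimension 3

`Tr0.balls3`: all fibres are balls, from
* `hc` compact fibres, `P2 E' 3`, `Cores X Kc X0`;
* top cells: one point;
* `CoreData`: the pieces of the fibres of squares and edges in the cores (BallPairs);
* squares: the truncated fibre is an arc whose end points are its points in the cores;
* edges: the truncated fibre lies in a PL 2-sphere `S'` (sheet).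
-/

set_option autoImplicit false
set_option linter.unusedSectionVars false
set_option linter.unusedVariables false

open Set Metric Topology Module
open scoped Classical

namespace Crest.Agent.R096.Ar_241

open Crest.Agent.R096.Xp_537
open Crest.Agent.R096.Ce_537 (PLOn PLEquiv cube sph IsBall)
open Crest.Agent.R096.Glu_422 (Pieces exch mem_exch)

variable {E : Type*} [NormedAddCommGroup E] [NormedSpace ℝ E] [FiniteDimensional ℝ E]
  {Q : Type*} [PartialOrder Q] {Λ : Set E}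
  {E' : Type*} [NormedAddCommGroup E'] [NormedSpace ℝ E']
  {Ω : Set E'} {C : CC Λ Q} {G : E' → E}

/-- the pieces of the fibre over `q` in the cores are BallPairs -/
def CoreData (X : Tr0 Ω C G) {ι : Type*} (Kc : ι → Set E') (X0 : Set E') (k : ℕ) (q : Q) : Prop :=
  ∃ (s : Finset ι) (R Qc : ι → Set E'), s.Nonempty ∧ (∀ c, (X.F q ∩ Kc c).Nonempty → c ∈ s) ∧
    Pieces k s (X.S q) (fun c => X.F q ∩ Kc c) (fun c => X.F q ∩ Kc c ∩ X0) R Qc

/-- the sheet of an edge -/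
def SheetData (X : Tr0 Ω C G) {ι : Type*} (Kc : ι → Set E') (X0 : Set E') (q : Q) : Prop :=
  ∃ S' : Set E', Nonempty (PLEquiv (sph 3) S') ∧ S' ⊆ Ω ∧ X.F q ∩ X0 ⊆ S' ∧
    (∀ z ∈ S', (∀ c, z ∉ Kc c) → G z ∈ C.cell q → G z = C.b q) ∧ ∃ z ∈ S', z ∉ X.F q

namespace Tr0

variable (X : Tr0 Ω C G)

/-- **ARR in dimension 3.** -/
theorem balls3 (hΛ : IsOpen Λ) (hΩ : IsOpen Ω) (hE : finrank ℝ E = 3) (hP : P2 E' 3)
    (hc : ∀ q, IsCompact (X.F q)) {ι : Type*} {Kc : ι → Set E'} {X0 : Set E'}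
    (hK : Cores X Kc X0)
    (i0 : ∀ q, cod C q = 0 → ∃ x, X.F q = {x})
    (i1 : ∀ q, cod C q = 1 → CoreData X Kc X0 0 q)
    (i1' : ∀ q, cod C q = 1 → X.S q ⊆ ⋃ c, Kc c)
    (i1'' : ∀ q, cod C q = 1 → IsBall 1 (X.F q ∩ X0) (X.F q ∩ X0 ∩ ⋃ c, Kc c))
    (i2 : ∀ q, cod C q = 2 → CoreData X Kc X0 1 q)
    (i2' : ∀ q, cod C q = 2 → SheetData X Kc X0 q) :
    ∀ q, IsBall (cod C q) (X.F q) (X.S q) := by
  refine X.balls hΛ hΩ hc (by omega) (by rw [hE]; exact hP) fun q hq hr hS => ?_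
  rw [hE] at hq
  have hcases : cod C q = 0 ∨ cod C q = 1 ∨ cod C q = 2 := by omega
  rcases hcases with h | h | h
  · exact X.point hΛ h (i0 q h)
  · rw [h]
    obtain ⟨s, R, Qc, -, hKq, hPi⟩ := i1 q h
    refine X.square hK hKq hPi ?_
    have h1 : exch s (X.S q) (fun c => X.F q ∩ Kc c ∩ X0) R = X.F q ∩ X0 ∩ ⋃ c, Kc c := by
      ext x
      rw [mem_exch]
      constructor
      · rintro (⟨hxS, hxR⟩ | ⟨c, hcs, hx⟩)
        · exfalso
          obtain ⟨c, hxc⟩ := mem_iUnion.1 (i1' q h hxS)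
          have hxF := X.S_sub q hxS
          have hcs := hKq c ⟨x, hxF, hxc⟩
          apply hxR c hcs
          have := hPi.inter c hcs
          rw [← this]
          exact ⟨⟨hxF, hxc⟩, hxS⟩
        · exact ⟨⟨hx.1.1, hx.2⟩, mem_iUnion.2 ⟨c, hx.1.2⟩⟩
      · rintro ⟨⟨hxF, hx0⟩, hx⟩
        obtain ⟨c, hxc⟩ := mem_iUnion.1 hx
        exact Or.inr ⟨c, hKq c ⟨x, hxF, hxc⟩, ⟨hxF, hxc⟩, hx0⟩
    rw [h1]
    exact i1'' q h
  · rw [h] at hS ⊢
    obtain ⟨s, R, Qc, hs, hKq, hPi⟩ := i2 q h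
    obtain ⟨S', a1, a2, a3, a4, a5⟩ := i2' q h
    exact X.strip hΩ hc hK hS hs hKq hPi a1 a2 a3 a4 a5


end Tr0

end Crest.Agent.R096.Ar_241
end

-- ▼ part R096/Ar9_241

/-!
# R096 (row 96), ARR part 9 (helper241): exact cores

`Exact X κ θ Kc X0`: on the core `Kc c` of the top cell `c` the transport structure is the exact one
(537's `cG, ctop, ctr` through `Th c : Kc c ≃ coreF`), `X0 ∩ Kc c = {sl c = θ}`, and the pieces of the
top cells are contained in the cores.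
`Exact.cores`, `Exact.coreData` (609's `core_pair_K`), `Exact.i0`, `Exact.i1'` and the final
`Exact.balls` / `Exact.trn`: the only inputs left are compact fibres, `P2`, the truncated arcs of the
squares and the sheets of the edges.
-/

set_option autoImplicit false
set_option linter.unusedSectionVars false
set_option linter.unusedVariables false

open Set Metric Topology Module
open scoped Classical

namespace Crest.Agent.R096.Ar_241

open Crest.Agent.R096.Xp_537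
open Crest.Agent.R096.Ce_537 (PLOn PLEquiv cube sph IsBall)
open Crest.Agent.R096.Glu_422 (Pieces exch mem_exch)
open Crest.Agent.R096.Ar_241.Tr0 (P2)

variable {E : Type*} [NormedAddCommGroup E] [NormedSpace ℝ E] [FiniteDimensional ℝ E]
  {Q : Type*} [PartialOrder Q] {Λ : Set E}
  {E' : Type*} [NormedAddCommGroup E'] [NormedSpace ℝ E']
  {Ω : Set E'} {C : CC Λ Q} {G : E' → E}

/-- the top cells -/
abbrev TopC (Q : Type*) [PartialOrder Q] := {c : Q // ∀ r, c ≤ r → r = c}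

/-- a cell of positive codimension is not maximal -/
lemma exists_gt (C : CC Λ Q) (hΛ : IsOpen Λ) {q : Q} (hq : 0 < cod C q) : ∃ r, q < r := by
  by_contra hcon
  push Not at hcon
  have he : IsEmpty (Up q) := ⟨fun r => hcon r.1 r.2⟩
  have : Fintype (Up q) := Fintype.ofIsEmpty
  have htop : dirW C q = ⊤ := by
    rw [eq_top_iff]
    intro w _
    obtain ⟨u, hu, l, -, hw⟩ := exists_rep C hΛ (q := q) w
    rw [hw]
    simpa using hu
  unfold cod at hq
  rw [htop, finrank_top] at hq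
  omega

lemma max_of_cod (C : CC Λ Q) (hΛ : IsOpen Λ) {q : Q} (hq : cod C q = 0) :
    ∀ r, q ≤ r → r = q := by
  intro r hr
  by_contra hne
  have := cod_lt C hΛ (lt_of_le_of_ne hr (Ne.symm hne))
  omega

lemma cod_of_max (C : CC Λ Q) (hΛ : IsOpen Λ) {q : Q} (hq : ∀ r, q ≤ r → r = q) :
    cod C q = 0 := by
  by_contra hne
  obtain ⟨r, hr⟩ := exists_gt C hΛ (Nat.pos_of_ne_zero hne)
  exact hr.ne' (hq r hr.le)

/-- some top cell above every cell -/
lemma exists_topC (C : CC Λ Q) (hΛ : IsOpen Λ) (q : Q) : ∃ c : TopC Q, q ≤ c.1 := by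
  induction h : cod C q using Nat.strong_induction_on generalizing q with
  | _ n ih =>
    rcases Nat.eq_zero_or_pos n with h0 | h0
    · exact ⟨⟨q, max_of_cod C hΛ (by omega)⟩, le_rfl⟩
    · obtain ⟨r, hr⟩ := exists_gt C hΛ (q := q) (by omega)
      obtain ⟨c, hc⟩ := ih (cod C r) (by have := cod_lt C hΛ hr; omega) r rfl
      exact ⟨c, hr.le.trans hc⟩

/-- **the exact cores** -/
structure Exact (X : Tr0 Ω C G) (κ θ : TopC Q → ℝ) (Kc : TopC Q → Set E') (X0 : Set E') where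
  κpos : ∀ c, 0 < κ c ∧ κ c < 1
  θ0 : ∀ c, 0 ≤ θ c
  θ1 : ∀ c, θ c < 1
  Th : ∀ c, PLEquiv (Kc c) (coreF C (κ c) c.1 (θ c))
  sub : ∀ c, Kc c ⊆ Ω
  G_eq : ∀ c, ∀ x ∈ Kc c, G x = cG C (κ c) (Th c).f x
  top_eq : ∀ c, ∀ x ∈ Kc c, X.top x = ctop C (κ c) c.1 (Th c).f x
  tr_eq : ∀ c, ∀ x ∈ Kc c, ∀ t ∈ C.cell (X.top x),
    X.tr x t = ctr C (κ c) (Th c).f (Th c).g x t
  X0_iff : ∀ c, ∀ x ∈ Kc c, x ∈ X0 ↔ sl C (κ c) ((Th c).f x) c.1 = θ c
  disj : ∀ c c', c ≠ c' → Disjoint (Kc c) (Kc c')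
  maxtop : ∀ x ∈ Ω, (∀ r, X.top x ≤ r → r = X.top x) → ∃ c, x ∈ Kc c

lemma isCompact_coreF (C : CC Λ Q) {κ θ : ℝ} (hκ : 0 < κ ∧ κ < 1) (c : Q) :
    IsCompact (coreF C κ c θ) := by
  have h1 : ContinuousOn (fun y => sl C κ y c) (C.cell c) := (plOn_sl C hκ c c).1
  have h2 : IsClosed (C.cell c ∩ (fun y => sl C κ y c) ⁻¹' Ici θ) :=
    h1.preimage_isClosed_of_isClosed (C.cpt c).isClosed isClosed_Ici
  exact (C.cpt c).of_isClosed_subset h2 (fun y hy => hy.1)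

namespace Exact

variable {X : Tr0 Ω C G} {κ θ : TopC Q → ℝ} {Kc : TopC Q → Set E'} {X0 : Set E'}
  (h : Exact X κ θ Kc X0)
include h

lemma isCompact (c : TopC Q) : IsCompact (Kc c) := by
  have h1 : Kc c = (h.Th c).g '' (coreF C (κ c) c.1 (θ c)) := by
    ext x
    constructor
    · intro hx
      exact ⟨_, (h.Th c).mf hx, (h.Th c).li x hx⟩
    · rintro ⟨y, hy, rfl⟩
      exact (h.Th c).mg hy
  rw [h1]
  exact (isCompact_coreF C (h.κpos c) c.1).image_of_continuousOn (h.Th c).pg.1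

lemma top_le {c : TopC Q} {x : E'} (hx : x ∈ Kc c) : X.top x ≤ c.1 := by
  rw [h.top_eq c x hx]
  obtain ⟨k1, k2, k3⟩ := st_spec C (h.κpos c) ((h.Th c).mf hx).1
  exact k3 _ (mn_spec c.1 k1.wt).1

lemma sat {c : TopC Q} {x : E'} (hx : x ∈ Kc c) {t : E} (ht : t ∈ C.cell (X.top x)) :
    X.tr x t ∈ Kc c := by
  rw [h.tr_eq c x hx t ht]
  rw [h.top_eq c x hx] at ht
  exact (h.Th c).mg (coreF_move (h.κpos c) ((h.Th c).mf hx) ht)

theorem cores (X0closed : IsClosed X0) (cov : Ω ⊆ X0 ∪ ⋃ c, Kc c)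
    (bd : ∀ c, ∀ x ∈ Kc c, x ∈ X0 → ∀ ε > (0:ℝ), ∃ z ∈ ball x ε, z ∉ Kc c) : Cores X Kc X0 where
  closed := fun c => (h.isCompact c).isClosed
  X0closed := X0closed
  cov := cov
  disj := h.disj
  lf := fun x hx => by
    obtain ⟨r, hr, hf⟩ := X.lf x hx
    refine ⟨r, hr, ?_⟩
    have h1 : ({q | ({x | x ∈ Ω ∧ q ≤ X.top x ∧ G x ∈ C.cell q} ∩ ball x r).Nonempty}).Finite := hf
    have h2 : (⋃ q ∈ {q | ({x | x ∈ Ω ∧ q ≤ X.top x ∧ G x ∈ C.cell q} ∩ ball x r).Nonempty},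
        {c : TopC Q | q ≤ c.1}).Finite := by
      refine h1.biUnion fun q _ => ?_
      have := finite_up C q
      have h3 : ({r : Q | q < r}).Finite := this
      have h4 : ({r : Q | q ≤ r}).Finite := (h3.insert q).subset fun r hr => by
        rcases eq_or_lt_of_le (show q ≤ r from hr) with e | e
        · exact Or.inl e.symm
        · exact Or.inr e
      exact Set.Finite.preimage (Subtype.val_injective.injOn) h4
    refine h2.subset ?_
    rintro c ⟨z, hz, hzb⟩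
    refine mem_biUnion (x := X.top z) ?_ (h.top_le hz)
    exact ⟨z, ⟨h.sub c hz, le_rfl, X.G_mem z (h.sub c hz)⟩, hzb⟩
  bd := bd
  sat := fun c x hx _ t ht => h.sat hx ht

lemma F_inter (q : Q) (c : TopC Q) :
    X.F q ∩ Kc c = {x | x ∈ Kc c ∧ cG C (κ c) (h.Th c).f x = C.b q} := by
  ext x
  constructor
  · rintro ⟨h1, h2⟩
    exact ⟨h2, by rw [← h.G_eq c x h2]; exact h1.2⟩
  · rintro ⟨h1, h2⟩
    exact ⟨⟨h.sub c h1, by rw [h.G_eq c x h1]; exact h2⟩, h1⟩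

/-- the fibre of a cell meets only the cores of the top cells above it -/
lemma le_of_meets {q : Q} {c : TopC Q} (hne : (X.F q ∩ Kc c).Nonempty) : q ≤ c.1 := by
  obtain ⟨x, hx, hc⟩ := hne
  have h1 : q ≤ X.top x := C.le_of_b (by rw [← hx.2]; exact X.G_mem x hx.1)
  exact h1.trans (h.top_le hc)

theorem coreData (hΛ : IsOpen Λ) {q : Q} {k : ℕ} (hq : cod C q = k + 1) :
    CoreData X Kc X0 k q := by
  have hfin : ({c : TopC Q | q < c.1}).Finite := by
    have := finite_up C q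
    have h3 : ({r : Q | q < r}).Finite := this
    exact Set.Finite.preimage (Subtype.val_injective.injOn) h3
  have hlt : ∀ c : TopC Q, q ≤ c.1 → q < c.1 := by
    intro c hc
    refine lt_of_le_of_ne hc ?_
    rintro rfl
    have := cod_of_max C hΛ c.2
    omega
  refine ⟨hfin.toFinset,
    fun c => {x | (x ∈ Kc c ∧ cG C (κ c) (h.Th c).f x = C.b q) ∧
      ctop C (κ c) c.1 (h.Th c).f x ≠ q},
    fun c => {x | (x ∈ Kc c ∧ cG C (κ c) (h.Th c).f x = C.b q) ∧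
      sl C (κ c) ((h.Th c).f x) c.1 = θ c ∧ ctop C (κ c) c.1 (h.Th c).f x ≠ q}, ?_, ?_, ?_, ?_, ?_⟩
  · obtain ⟨c, hc⟩ := exists_topC C hΛ q
    exact ⟨c, hfin.mem_toFinset.2 (hlt c hc)⟩
  · intro c hc
    exact hfin.mem_toFinset.2 (hlt c (h.le_of_meets hc))
  · intro c hc
    have hqc : q < c.1 := hfin.mem_toFinset.1 hc
    have h1 := Dl_609.core_pair_K C hΛ (h.κpos c) (h.θ0 c) (h.θ1 c) hqc c.2 hq (h.Th c)
    have e2 : X.F q ∩ Kc c ∩ X0 = {x | (x ∈ Kc c ∧ cG C (κ c) (h.Th c).f x = C.b q) ∧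
        sl C (κ c) ((h.Th c).f x) c.1 = θ c} := by
      rw [h.F_inter q c]
      ext x
      constructor
      · rintro ⟨h1, h2⟩
        exact ⟨h1, (h.X0_iff c x h1.1).1 h2⟩
      · rintro ⟨h1, h2⟩
        exact ⟨h1, (h.X0_iff c x h1.1).2 h2⟩
    rw [← h.F_inter q c, ← e2] at h1
    exact h1
  · intro c hc
    ext x
    constructor
    · rintro ⟨⟨hF, hK⟩, hS⟩
      refine ⟨⟨hK, by rw [← h.G_eq c x hK]; exact hF.2⟩, ?_⟩
      rw [← h.top_eq c x hK]
      exact hS.2.2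
    · rintro ⟨⟨hK, hG⟩, ht⟩
      have hG' : G x = C.b q := by rw [h.G_eq c x hK]; exact hG
      refine ⟨⟨⟨h.sub c hK, hG'⟩, hK⟩, h.sub c hK, hG', ?_⟩
      rw [h.top_eq c x hK]
      exact ht
  · intro c hc c' hc' hne
    exact (h.disj c c' hne).mono inter_subset_right inter_subset_right

/-- top cells -/
theorem i0 (hΛ : IsOpen Λ) {q : Q} (hq : cod C q = 0) : ∃ x, X.F q = {x} := by
  have hmax := max_of_cod C hΛ hq
  have hc0 : (⟨q, hmax⟩ : TopC Q).1 = q := rfl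
  set c : TopC Q := ⟨q, hmax⟩ with hc
  have hst : State C (Finsupp.single q (1:ℝ)) (C.b q) := by
    refine ⟨fun ρ => ?_, ?_, ?_, ?_⟩
    · rw [Finsupp.single_apply]; split_ifs <;> norm_num
    · rw [Finsupp.support_single_ne_zero _ one_ne_zero]; simp
    · rw [Finsupp.support_single_ne_zero _ one_ne_zero]
      intro ρ hρ σ hσ
      rw [Finset.mem_singleton] at hρ hσ
      left; rw [hρ, hσ]
    · rw [Finsupp.support_single_ne_zero _ one_ne_zero]
      intro ρ hρ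
      rw [Finset.mem_singleton] at hρ
      rw [hρ]; exact C.bmem q
  set y0 : E := pk C (κ c) (Finsupp.single q (1:ℝ)) (C.b q) with hy0
  have hsl0 : sl C (κ c) y0 = Finsupp.single q (1:ℝ) := sl_pk C (h.κpos c) hst
  have hst0 : st C (κ c) y0 = C.b q := st_pk C (h.κpos c) hst
  have hy0c : y0 ∈ coreF C (κ c) c.1 (θ c) := by
    refine ⟨pk_mem C (h.κpos c) hst ?_, ?_⟩
    · rw [Finsupp.support_single_ne_zero _ one_ne_zero]
      intro ρ hρ
      rw [Finset.mem_singleton] at hρ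
      rw [hρ]
    · rw [hsl0, hc0, Finsupp.single_eq_same]
      exact (h.θ1 c).le
  refine ⟨(h.Th c).g y0, ?_⟩
  ext x
  constructor
  · intro hx
    have h1 : q ≤ X.top x := C.le_of_b (by rw [← hx.2]; exact X.G_mem x hx.1)
    have h2 : X.top x = q := hmax _ h1
    obtain ⟨c', hc'⟩ := h.maxtop x hx.1 (by rw [h2]; exact hmax)
    have h3 : q ≤ c'.1 := by rw [← h2]; exact h.top_le hc'
    have h4 : c' = c := Subtype.ext (hmax _ h3)
    rw [h4] at hc'
    have hy := (h.Th c).mf hc'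
    obtain ⟨k1, k2, k3⟩ := st_spec C (h.κpos c) hy.1
    have h5 : st C (κ c) ((h.Th c).f x) = C.b q := by
      have := h.G_eq c x hc'
      rw [hx.2] at this
      exact this.symm
    have h6 : sl C (κ c) ((h.Th c).f x) = Finsupp.single q (1:ℝ) := by
      have h7 : ∀ ρ ∈ (sl C (κ c) ((h.Th c).f x)).support, ρ = q := by
        intro ρ hρ
        exact hmax ρ (Dl_609.supp_fibre C (h.κpos c) hy.1 h5 ρ hρ).1
      ext ρ
      by_cases hρ : ρ = q
      · subst hρ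
        rw [Finsupp.single_eq_same]
        have h8 := k1.sum
        have h9 : (sl C (κ c) ((h.Th c).f x)).support ⊆ {ρ} := fun σ hσ =>
          Finset.mem_singleton.2 (h7 σ hσ)
        have h10 := Finset.sum_subset h9 (f := fun σ => sl C (κ c) ((h.Th c).f x) σ)
          (fun σ _ hσ => Finsupp.notMem_support_iff.1 hσ)
        rw [Finset.sum_singleton] at h10
        rw [← h10]; exact h8
      · rw [Finsupp.single_eq_of_ne hρ]
        by_contra hne
        exact hρ (h7 ρ (Finsupp.mem_support_iff.2 hne))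
    have h7 : (h.Th c).f x = y0 := by
      rw [← k2, h6, h5]
    rw [mem_singleton_iff, ← h7, (h.Th c).li x hc']
  · intro hx
    rw [mem_singleton_iff] at hx
    have hxK : x ∈ Kc c := by rw [hx]; exact (h.Th c).mg hy0c
    refine ⟨h.sub c hxK, ?_⟩
    rw [h.G_eq c x hxK]
    show st C (κ c) ((h.Th c).f x) = _
    rw [hx, (h.Th c).ri y0 hy0c, hst0]

/-- squares: the boundary of the fibre lies in the cores -/
theorem i1' (hΛ : IsOpen Λ) {q : Q} (hq : cod C q = 1) : X.S q ⊆ ⋃ c, Kc c := by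
  intro x hx
  have h1 : q ≤ X.top x := C.le_of_b (by rw [← hx.2.1]; exact X.G_mem x hx.1)
  have h2 : q < X.top x := lt_of_le_of_ne h1 (Ne.symm hx.2.2)
  have h3 : cod C (X.top x) = 0 := by
    have := cod_lt C hΛ h2
    omega
  obtain ⟨c, hc⟩ := h.maxtop x hx.1 (max_of_cod C hΛ h3)
  exact mem_iUnion.2 ⟨c, hc⟩

/-- **ARR with exact cores**: all fibres are balls -/
theorem balls (hΛ : IsOpen Λ) (hΩ : IsOpen Ω) (hE : finrank ℝ E = 3) (hP : P2 E' 3)
    (hc : ∀ q, IsCompact (X.F q)) (X0closed : IsClosed X0) (cov : Ω ⊆ X0 ∪ ⋃ c, Kc c)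
    (bd : ∀ c, ∀ x ∈ Kc c, x ∈ X0 → ∀ ε > (0:ℝ), ∃ z ∈ ball x ε, z ∉ Kc c)
    (arcs : ∀ q, cod C q = 1 → IsBall 1 (X.F q ∩ X0) (X.F q ∩ X0 ∩ ⋃ c, Kc c))
    (sheets : ∀ q, cod C q = 2 → SheetData X Kc X0 q) :
    ∀ q, IsBall (cod C q) (X.F q) (X.S q) :=
  X.balls3 hΛ hΩ hE hP hc (h.cores X0closed cov bd) (fun q hq => h.i0 hΛ hq)
    (fun q hq => h.coreData hΛ hq) (fun q hq => h.i1' hΛ hq) arcs
    (fun q hq => h.coreData hΛ hq) sheets

/-- **the transport structure of 537 with exact cores** -/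
noncomputable def trn (hΛ : IsOpen Λ) (hΩ : IsOpen Ω) (hE : finrank ℝ E = 3) (hP : P2 E' 3)
    (hdim : ∀ q, C.dim q ≤ 3)
    (hc : ∀ q, IsCompact (X.F q)) (X0closed : IsClosed X0) (cov : Ω ⊆ X0 ∪ ⋃ c, Kc c)
    (bd : ∀ c, ∀ x ∈ Kc c, x ∈ X0 → ∀ ε > (0:ℝ), ∃ z ∈ ball x ε, z ∉ Kc c)
    (arcs : ∀ q, cod C q = 1 → IsBall 1 (X.F q ∩ X0) (X.F q ∩ X0 ∩ ⋃ c, Kc c))
    (sheets : ∀ q, cod C q = 2 → SheetData X Kc X0 q) : Trn Ω C G :=
  X.trn 3 (cod C) hdim (h.balls hΛ hΩ hE hP hc X0closed cov bd arcs sheets)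

end Exact

end Crest.Agent.R096.Ar_241
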