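import Mathlib
import Crest.Agent.R096.Cx1_609
import Crest.Agent.R096.Ce1_537

-- ▼ part R096/Cx2_609
section

set_option autoImplicit false
set_option linter.unusedSectionVars false

open Set Metric

namespace Crest.Agent.R096.Cx_609

noncomputable section

variable {E F G : Type*} [NormedAddCommGroup E] [NormedSpace ℝ E]
  [NormedAddCommGroup F] [NormedSpace ℝ F] [NormedAddCommGroup G] [NormedSpace ℝ G]

/-- the cone extension (Alexander trick) -/
def cone {k : ℕ} (h : (Fin k → ℝ) → F) (x : Fin k → ℝ) : F := ‖x‖ • h (‖x‖⁻¹ • x)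

theorem cone_zero {k : ℕ} (h : (Fin k → ℝ) → F) : cone h 0 = 0 := by simp [cone]

theorem cone_of_sphere {k : ℕ} (h : (Fin k → ℝ) → F) {x : Fin k → ℝ} (hx : x ∈ sphere (0 : Fin k → ℝ) 1) :
    cone h x = h x := by
  rw [mem_sphere_zero_iff_norm] at hx
  simp [cone, hx]

theorem norm_smul_inv {k : ℕ} {x : Fin k → ℝ} (hx : x ≠ 0) : ‖x‖⁻¹ • x ∈ sphere (0 : Fin k → ℝ) 1 := by
  rw [mem_sphere_zero_iff_norm, norm_smul, norm_inv, norm_norm]
  exact inv_mul_cancel₀ (norm_ne_zero_iff.2 hx)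

theorem cone_smul {k : ℕ} (h : (Fin k → ℝ) → F) {t : ℝ} (ht : 0 ≤ t) (x : Fin k → ℝ) :
    cone h (t • x) = t • cone h x := by
  rcases ht.eq_or_lt with rfl | ht
  · simp [cone]
  · unfold cone
    rw [norm_smul, Real.norm_eq_abs, abs_of_pos ht, smul_smul, smul_smul]
    congr 2
    rw [mul_inv, mul_comm t⁻¹, mul_assoc, inv_mul_cancel₀ ht.ne', mul_one]

theorem exists_abs_eq_norm {k : ℕ} {x : Fin k → ℝ} (hx : x ≠ 0) :
    ∃ i : Fin k, ∃ s : ℝ, (s = 1 ∨ s = -1) ∧ ‖x‖ = s * x i := by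
  have hpos : 0 < ‖x‖ := norm_pos_iff.2 hx
  by_contra hcon
  push Not at hcon
  have h1 : ‖x‖ < ‖x‖ := by
    rw [pi_norm_lt_iff hpos]
    intro i
    refine lt_of_le_of_ne (norm_le_pi_norm x i) ?_
    intro h
    rcases abs_choice (x i) with h2 | h2
    · exact hcon i 1 (Or.inl rfl) (by rw [← h, Real.norm_eq_abs, h2, one_mul])
    · exact hcon i (-1) (Or.inr rfl) (by rw [← h, Real.norm_eq_abs, h2]; ring)
  exact lt_irrefl _ h1

theorem PLOn.cone {k : ℕ} {h : (Fin k → ℝ) → F} (hh : PLOn (sphere (0 : Fin k → ℝ) 1) h) :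
    PLOn univ (cone h) := by
  obtain ⟨hc, A, hA, hhA⟩ := hh
  refine ⟨?_, ?_⟩
  · rw [continuousOn_univ, continuous_iff_continuousAt]
    intro x
    by_cases hx : x = 0
    · subst hx
      obtain ⟨M, hM⟩ := (isCompact_sphere (0 : Fin k → ℝ) 1).exists_bound_of_continuousOn hc
      have h1 : ∀ y : Fin k → ℝ, ‖Cx_609.cone h y‖ ≤ |M| * ‖y‖ := by
        intro y
        by_cases hy : y = 0
        · subst hy
          simp [cone_zero]
        · unfold Cx_609.cone
          rw [norm_smul, norm_norm, mul_comm]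
          exact mul_le_mul_of_nonneg_right ((hM _ (norm_smul_inv hy)).trans (le_abs_self M))
            (norm_nonneg y)
      rw [ContinuousAt, cone_zero]
      rw [tendsto_zero_iff_norm_tendsto_zero]
      refine squeeze_zero (fun y => norm_nonneg _) h1 ?_
      have h2 : Continuous fun y : Fin k → ℝ => |M| * ‖y‖ := by fun_prop
      have h3 := h2.tendsto 0
      simpa using h3
    · have h1 : ContinuousOn (fun y : Fin k → ℝ => ‖y‖⁻¹ • y) {0}ᶜ := by
        refine ContinuousOn.smul (ContinuousOn.inv₀ continuous_norm.continuousOn ?_)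
          continuousOn_id
        intro y hy
        exact norm_ne_zero_iff.2 hy
      have h2 : ContinuousOn (Cx_609.cone h) {0}ᶜ := by
        refine ContinuousOn.smul continuous_norm.continuousOn ?_
        exact hc.comp h1 fun y hy => norm_smul_inv hy
      exact h2.continuousAt (isOpen_compl_singleton.mem_nhds hx)
  · let m : (((Fin k → ℝ) →ᵃ[ℝ] F) × Fin k × ℝ) → ((Fin k → ℝ) →ᵃ[ℝ] F) := fun p =>
      (p.1.linear + ((p.2.2 • (LinearMap.proj p.2.1 : (Fin k → ℝ) →ₗ[ℝ] ℝ)).smulRight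
        (p.1 0))).toAffineMap
    refine ⟨{AffineMap.const ℝ _ 0} ∪ m '' (A ×ˢ ((univ : Set (Fin k)) ×ˢ ({1, -1} : Set ℝ))),
      (finite_singleton _).union ((hA.prod (finite_univ.prod (by simp))).image m), ?_⟩
    intro x _
    by_cases hx : x = 0
    · subst hx
      exact ⟨_, Or.inl rfl, by simp [cone_zero]⟩
    · obtain ⟨g, hg, hxg⟩ := hhA _ (norm_smul_inv hx)
      obtain ⟨i, s, hs, hxs⟩ := exists_abs_eq_norm hx
      refine ⟨m (g, i, s), Or.inr ⟨(g, i, s), ⟨hg, mem_univ _, ?_⟩, rfl⟩, ?_⟩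
      · rcases hs with rfl | rfl <;> simp
      · have hn : ‖x‖ ≠ 0 := norm_ne_zero_iff.2 hx
        have e : ∀ y, g y = g.linear y + g 0 := fun y => congrFun g.decomp y
        unfold Cx_609.cone
        rw [hxg, e (‖x‖⁻¹ • x)]
        simp only [m, LinearMap.coe_toAffineMap, LinearMap.add_apply, LinearMap.smulRight_apply,
          LinearMap.smul_apply, LinearMap.proj_apply, smul_eq_mul,
          smul_add, map_smul, smul_smul, mul_inv_cancel₀ hn, one_smul, ← hxs]

/-- a PL ball of dimension `k` with its boundary -/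
def IsPLBall (k : ℕ) (c bd : Set E) : Prop :=
  ∃ φ : (Fin k → ℝ) → E, PLOn (closedBall 0 1) φ ∧ InjOn φ (closedBall 0 1) ∧
    φ '' closedBall 0 1 = c ∧ φ '' sphere 0 1 = bd

theorem finConv_closedBall (k : ℕ) : FinConv (closedBall (0 : Fin k → ℝ) 1) :=
  (convex_closedBall 0 1).finConv

theorem finConv_sphere (k : ℕ) : FinConv (sphere (0 : Fin k → ℝ) 1) := by
  have h1 : sphere (0 : Fin k → ℝ) 1 =
      ⋃ p ∈ ((univ : Set (Fin k)) ×ˢ ({1, -1} : Set ℝ)),
        (closedBall (0 : Fin k → ℝ) 1 ∩ {x | x p.1 = p.2}) := by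
    ext x
    simp only [mem_sphere_zero_iff_norm, mem_iUnion, mem_prod, mem_univ, true_and, mem_inter_iff,
      mem_closedBall_zero_iff, mem_ofPred_eq, Prod.exists, exists_prop]
    constructor
    · intro hx
      have hx0 : x ≠ 0 := by
        rintro rfl
        simp at hx
      obtain ⟨i, s, hs, hxs⟩ := exists_abs_eq_norm hx0
      refine ⟨i, s, ?_, hx.le, ?_⟩
      · rcases hs with rfl | rfl <;> simp
      · rw [hx] at hxs
        rcases hs with rfl | rfl
        · linarith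
        · linarith
    · rintro ⟨i, s, hs, hx, hxi⟩
      refine le_antisymm hx ?_
      have h2 := norm_le_pi_norm x i
      have h3 : ‖x i‖ = 1 := by
        rw [hxi]
        rcases hs with rfl | hs
        · simp
        · rw [mem_singleton_iff.1 hs]; simp
      linarith
  rw [h1]
  refine FinConv.biUnion (finite_univ.prod (by simp)) ?_
  rintro ⟨i, s⟩ _
  refine ((convex_closedBall _ _).inter ?_).finConv
  have : {x : Fin k → ℝ | x i = s} = (LinearMap.proj i : (Fin k → ℝ) →ₗ[ℝ] ℝ) ⁻¹' {s} := rfl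
  rw [this]
  exact (convex_singleton s).linear_preimage _

section

variable {k : ℕ} {c bd : Set E}

theorem IsPLBall.bd_subset (h : IsPLBall k c bd) : bd ⊆ c := by
  obtain ⟨φ, _, _, rfl, rfl⟩ := h
  exact image_mono sphere_subset_closedBall

theorem IsPLBall.isCompact (h : IsPLBall k c bd) : IsCompact c := by
  obtain ⟨φ, h1, _, rfl, rfl⟩ := h
  exact (isCompact_closedBall _ _).image_of_continuousOn h1.1

theorem IsPLBall.isCompact_bd (h : IsPLBall k c bd) : IsCompact bd := by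
  obtain ⟨φ, h1, _, rfl, rfl⟩ := h
  exact (isCompact_sphere _ _).image_of_continuousOn (h1.1.mono sphere_subset_closedBall)

theorem IsPLBall.isClosed (h : IsPLBall k c bd) : IsClosed c := h.isCompact.isClosed

theorem IsPLBall.isClosed_bd (h : IsPLBall k c bd) : IsClosed bd := h.isCompact_bd.isClosed

theorem IsPLBall.nonempty (h : IsPLBall k c bd) : c.Nonempty := by
  obtain ⟨φ, _, _, rfl, _⟩ := h
  exact ⟨φ 0, mem_image_of_mem _ (by simp)⟩

variable [FiniteDimensional ℝ E] [FiniteDimensional ℝ F]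

theorem IsPLBall.finConv (h : IsPLBall k c bd) : FinConv c := by
  obtain ⟨φ, h1, _, rfl, rfl⟩ := h
  exact h1.finConv_image (finConv_closedBall k)

theorem IsPLBall.finConv_bd (h : IsPLBall k c bd) : FinConv bd := by
  obtain ⟨φ, h1, _, rfl, rfl⟩ := h
  exact (h1.mono sphere_subset_closedBall).finConv_image (finConv_sphere k)

/-- images of PL balls -/
theorem IsPLBall.image (h : IsPLBall k c bd) {f : E → F} (hf : PLOn c f) (hi : InjOn f c) :
    IsPLBall k (f '' c) (f '' bd) := by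
  obtain ⟨φ, h1, h2, rfl, rfl⟩ := h
  refine ⟨f ∘ φ, hf.comp h1 (mapsTo_image φ _), ?_, ?_, ?_⟩
  · exact hi.comp h2 (mapsTo_image φ _)
  · rw [image_comp]
  · rw [image_comp]

/-- a chart of a PL ball with PL inverse -/
theorem IsPLBall.exists_chart (h : IsPLBall k c bd) : ∃ (φ : (Fin k → ℝ) → E) (r : E → (Fin k → ℝ)),
    PLOn (closedBall 0 1) φ ∧ PLOn c r ∧ InvOn r φ (closedBall 0 1) c ∧
    MapsTo φ (closedBall 0 1) c ∧ MapsTo r c (closedBall 0 1) ∧
    MapsTo φ (sphere 0 1) bd ∧ MapsTo r bd (sphere 0 1) := by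
  obtain ⟨φ, h1, h2, rfl, rfl⟩ := h
  let r := Function.invFunOn φ (closedBall (0 : Fin k → ℝ) 1)
  have hr : LeftInvOn r φ (closedBall 0 1) := h2.leftInvOn_invFunOn
  have hr' : MapsTo r (φ '' closedBall 0 1) (closedBall (0 : Fin k → ℝ) 1) := by
    rintro _ ⟨x, hx, rfl⟩
    rw [hr hx]
    exact hx
  refine ⟨φ, r, h1, h1.inv (finConv_closedBall k) (isCompact_closedBall _ _) hr, ⟨hr, ?_⟩,
    mapsTo_image _ _, hr', mapsTo_image _ _, ?_⟩
  · rintro _ ⟨x, hx, rfl⟩
    rw [hr hx]
  · rintro _ ⟨x, hx, rfl⟩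
    rw [hr (sphere_subset_closedBall hx)]
    exact hx

end

theorem norm_cone {k : ℕ} {ψ : (Fin k → ℝ) → (Fin k → ℝ)}
    (hm : MapsTo ψ (sphere 0 1) (sphere 0 1)) (x : Fin k → ℝ) : ‖cone ψ x‖ = ‖x‖ := by
  by_cases hx : x = 0
  · subst hx
    rw [cone_zero]
  · unfold cone
    rw [norm_smul, norm_norm, mem_sphere_zero_iff_norm.1 (hm (norm_smul_inv hx)), mul_one]

theorem bijOn_cone {k : ℕ} {ψ : (Fin k → ℝ) → (Fin k → ℝ)}
    (hm : BijOn ψ (sphere 0 1) (sphere 0 1)) : BijOn (cone ψ) (closedBall 0 1) (closedBall 0 1) := by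
  refine ⟨?_, ?_, ?_⟩
  · intro x hx
    rw [mem_closedBall_zero_iff] at hx ⊢
    rwa [norm_cone hm.mapsTo]
  · intro x _ y _ hxy
    have hn : ‖x‖ = ‖y‖ := by rw [← norm_cone hm.mapsTo x, ← norm_cone hm.mapsTo y, hxy]
    by_cases hx : x = 0
    · subst hx
      rw [norm_zero] at hn
      exact (norm_eq_zero.1 hn.symm).symm
    · have hy : y ≠ 0 := by
        rintro rfl
        rw [norm_zero] at hn
        exact hx (norm_eq_zero.1 hn)
      have hnx : ‖x‖ ≠ 0 := norm_ne_zero_iff.2 hx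
      unfold cone at hxy
      rw [← hn] at hxy
      have h1 := smul_right_injective _ hnx hxy
      have h2 := hm.injOn (norm_smul_inv hx) (by rw [hn]; exact norm_smul_inv hy) h1
      exact smul_right_injective _ (inv_ne_zero hnx) h2
  · intro y hy
    by_cases hy0 : y = 0
    · subst hy0
      exact ⟨0, hy, cone_zero ψ⟩
    · obtain ⟨z, hz, hzy⟩ := hm.surjOn (norm_smul_inv hy0)
      rw [mem_closedBall_zero_iff] at hy
      refine ⟨‖y‖ • z, ?_, ?_⟩
      · rw [mem_closedBall_zero_iff, norm_smul, norm_norm, mem_sphere_zero_iff_norm.1 hz, mul_one]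
        exact hy
      · rw [cone_smul ψ (norm_nonneg y), cone_of_sphere ψ hz, hzy, smul_smul,
          mul_inv_cancel₀ (norm_ne_zero_iff.2 hy0), one_smul]

/-- **Alexander trick for PL balls**: a PL homeomorphism between the boundaries of two PL balls
extends. -/
theorem ball_ext [FiniteDimensional ℝ E] [FiniteDimensional ℝ F] {k : ℕ} {c bd : Set E}
    {c' bd' : Set F} (hc : IsPLBall k c bd) (hc' : IsPLBall k c' bd') {h : E → F}
    (hh : PLOn bd h) (hb : BijOn h bd bd') :
    ∃ H : E → F, PLOn c H ∧ BijOn H c c' ∧ EqOn H h bd := by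
  obtain ⟨φ, r, h1, h2, h3, h4, h5, h6, h7⟩ := hc.exists_chart
  obtain ⟨φ', r', h1', h2', h3', h4', h5', h6', h7'⟩ := hc'.exists_chart
  have hsub : (sphere (0 : Fin k → ℝ) 1) ⊆ closedBall 0 1 := sphere_subset_closedBall
  let ψ : (Fin k → ℝ) → (Fin k → ℝ) := r' ∘ h ∘ φ
  have hψ : PLOn (sphere 0 1) ψ :=
    (h2'.mono hc'.bd_subset).comp (hh.comp (h1.mono hsub) h6) (hb.mapsTo.comp h6)
  have hψb : BijOn ψ (sphere 0 1) (sphere 0 1) := by
    refine ⟨h7'.comp (hb.mapsTo.comp h6), ?_, ?_⟩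
    · intro x hx y hy hxy
      have e1 : h (φ x) = h (φ y) := by
        have := congrArg φ' hxy
        simp only [ψ, Function.comp] at this
        rwa [h3'.2 (hc'.bd_subset (hb.mapsTo (h6 hx))),
          h3'.2 (hc'.bd_subset (hb.mapsTo (h6 hy)))] at this
      have e2 := hb.injOn (h6 hx) (h6 hy) e1
      rw [← h3.1 (hsub hx), ← h3.1 (hsub hy), e2]
    · intro y hy
      obtain ⟨x, hx, hxy⟩ := hb.surjOn (h6' hy)
      refine ⟨r x, h7 hx, ?_⟩
      simp only [ψ, Function.comp]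
      rw [h3.2 (hc.bd_subset hx), hxy, h3'.1 (hsub hy)]
  have hκ := bijOn_cone hψb
  refine ⟨φ' ∘ cone ψ ∘ r, ?_, ?_, ?_⟩
  · exact h1'.comp ((hψ.cone.mono (subset_univ _)).comp h2 h5) (hκ.mapsTo.comp h5)
  · have hr : BijOn r c (closedBall 0 1) := by
      refine ⟨h5, h3.2.injOn, ?_⟩
      intro x hx
      exact ⟨φ x, h4 hx, h3.1 hx⟩
    have hφ' : BijOn φ' (closedBall 0 1) c' := by
      refine ⟨h4', h3'.1.injOn, ?_⟩
      intro y hy
      exact ⟨r' y, h5' hy, h3'.2 hy⟩
    exact hφ'.comp (hκ.comp hr)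
  · intro x hx
    simp only [Function.comp]
    rw [cone_of_sphere ψ (h7 hx)]
    simp only [ψ, Function.comp]
    rw [h3.2 (hc.bd_subset hx), h3'.2 (hc'.bd_subset (hb.mapsTo hx))]

end

end Crest.Agent.R096.Cx_609
end

-- ▼ part R096/Cx3_609

set_option autoImplicit false
set_option linter.unusedSectionVars false

open Set Metric

namespace Crest.Agent.R096.Cx_609

noncomputable section

variable {E F G : Type*} [NormedAddCommGroup E] [NormedSpace ℝ E]
  [NormedAddCommGroup F] [NormedSpace ℝ F] [NormedAddCommGroup G] [NormedSpace ℝ G]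
  [FiniteDimensional ℝ E] [FiniteDimensional ℝ F]

/-- closed convex pieces -/
theorem PLOn.closed_pieces {s : Set E} (hs : FinConv s) (hsc : IsClosed s) {f : E → F}
    (hf : PLOn s f) :
    ∃ 𝒞 : Set (Set E), 𝒞.Finite ∧
      (∀ K ∈ 𝒞, Convex ℝ K ∧ IsClosed K ∧ ∃ g : E →ᵃ[ℝ] F, EqOn f g K) ∧ ⋃₀ 𝒞 = s := by
  obtain ⟨𝒞, hfin, h1, h2⟩ := hf.pieces hs
  refine ⟨closure '' 𝒞, hfin.image _, ?_, ?_⟩
  · rintro _ ⟨K, hK, rfl⟩
    obtain ⟨hc, g, hg⟩ := h1 K hK
    have hKs : K ⊆ s := by rw [← h2]; exact subset_sUnion_of_mem hK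
    refine ⟨hc.closure, isClosed_closure, g, ?_⟩
    have h3 := PLOn.closure_inter hf.1 hKs hg
    rwa [inter_eq_self_of_subset_left (closure_minimal hKs hsc)] at h3
  · apply Subset.antisymm
    · rintro x ⟨_, ⟨K, hK, rfl⟩, hx⟩
      have hKs : K ⊆ s := by rw [← h2]; exact subset_sUnion_of_mem hK
      exact closure_minimal hKs hsc hx
    · rw [← h2]
      rintro x ⟨K, hK, hx⟩
      exact ⟨closure K, ⟨K, hK, rfl⟩, subset_closure hx⟩

/-- the image of a closed finite union of convex sets under an injective PL map is closed, and the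
inverse is PL -/
theorem PLOn.inv_closed {s : Set E} (hs : FinConv s) (hsc : IsClosed s) {f : E → F}
    (hf : PLOn s f) {r : F → E} (hr : LeftInvOn r f s) : IsClosed (f '' s) ∧ PLOn (f '' s) r := by
  obtain ⟨𝒞, hfin, h1, h2⟩ := hf.closed_pieces hs hsc
  have h3 : ∀ K ∈ 𝒞, IsClosed (f '' K) ∧ PLOn (f '' K) r := by
    intro K hK
    obtain ⟨hc, hcl, g, hg⟩ := h1 K hK
    have hKs : K ⊆ s := by rw [← h2]; exact subset_sUnion_of_mem hK
    obtain ⟨b', hb'⟩ := factor hc g (AffineMap.id ℝ E) (by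
      intro x hx y hy hxy
      rw [← hg hx, ← hg hy] at hxy
      exact hr.injOn (hKs hx) (hKs hy) hxy)
    have hb'' : ∀ x ∈ K, b' (f x) = x := fun x hx => by rw [hg hx]; exact (hb' x hx).symm
    constructor
    · have h4 : f '' K = {y | b' y ∈ K ∧ g (b' y) = y} := by
        ext y
        constructor
        · rintro ⟨x, hx, rfl⟩
          refine ⟨by rw [hb'' x hx]; exact hx, by rw [hb'' x hx, hg hx]⟩
        · rintro ⟨h5, h6⟩
          exact ⟨b' y, h5, by rw [hg h5, h6]⟩
      rw [h4]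
      have hb'c := b'.continuous_of_finiteDimensional
      exact (hcl.preimage hb'c).inter
        (isClosed_eq (g.continuous_of_finiteDimensional.comp hb'c) continuous_id)
    · refine (plOn_affine (f '' K) b').congr ?_
      rintro _ ⟨x, hx, rfl⟩
      rw [hr (hKs hx), hb'' x hx]
  have h4 : f '' s = ⋃ K ∈ 𝒞, f '' K := by
    rw [← h2, image_sUnion, sUnion_image]
  rw [h4]
  exact ⟨hfin.isClosed_biUnion fun K hK => (h3 K hK).1,
    PLOn.biUnion hfin (fun K hK => (h3 K hK).1) (fun K hK => (h3 K hK).2)⟩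

/-- a bijective PL map of vector spaces has a PL (in particular continuous) inverse -/
theorem PLOn.inv_univ {f : E → F} (hf : PLOn univ f) {r : F → E}
    (hr : Function.LeftInverse r f) (hr' : Function.RightInverse r f) : PLOn univ r := by
  have h1 := (hf.inv_closed convex_univ.finConv isClosed_univ (r := r) (fun x _ => hr x)).2
  rwa [image_univ, hr'.surjective.range_eq] at h1

/-! ### the bridge to 537 -/

theorem plOn_iff {s : Set E} {f : E → F} : PLOn s f ↔ Ce_537.PLOn f s := by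
  constructor
  · rintro ⟨h1, A, hA, h2⟩
    refine ⟨h1, hA.toFinset, fun x hx => ?_⟩
    obtain ⟨g, hg, e⟩ := h2 x hx
    exact ⟨g, hA.mem_toFinset.2 hg, e⟩
  · rintro ⟨h1, A, h2⟩
    exact ⟨h1, (A : Set _), A.finite_toSet, fun x hx => h2 x hx⟩

/-- an injective PL map on a closed finite union of convex sets is a PL equivalence onto its image -/
def equivOfInjOn {s : Set E} (hs : FinConv s) (hsc : IsClosed s) {f : E → F}
    (hf : Ce_537.PLOn f s) (hi : InjOn f s) : Ce_537.PLEquiv s (f '' s) where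
  f := f
  g := by
    classical
    exact fun y => if h : ∃ x ∈ s, f x = y then h.choose else 0
  pf := hf
  pg := by
    classical
    refine plOn_iff.1 ((plOn_iff.2 hf).inv_closed hs hsc ?_).2
    intro x hx
    have h : ∃ x' ∈ s, f x' = f x := ⟨x, hx, rfl⟩
    show (if h : ∃ x' ∈ s, f x' = f x then h.choose else 0) = x
    rw [dif_pos h]
    exact hi h.choose_spec.1 hx h.choose_spec.2
  mf := mapsTo_image f s
  mg := by
    classical
    rintro _ ⟨x, hx, rfl⟩
    have h : ∃ x' ∈ s, f x' = f x := ⟨x, hx, rfl⟩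
    simp only [dif_pos h]
    exact h.choose_spec.1
  li := by
    classical
    intro x hx
    have h : ∃ x' ∈ s, f x' = f x := ⟨x, hx, rfl⟩
    simp only [dif_pos h]
    exact hi h.choose_spec.1 hx h.choose_spec.2
  ri := by
    classical
    rintro _ ⟨x, hx, rfl⟩
    have h : ∃ x' ∈ s, f x' = f x := ⟨x, hx, rfl⟩
    simp only [dif_pos h]
    exact h.choose_spec.2

@[simp] theorem equivOfInjOn_f {s : Set E} (hs : FinConv s) (hsc : IsClosed s) {f : E → F}
    (hf : Ce_537.PLOn f s) (hi : InjOn f s) : (equivOfInjOn hs hsc hf hi).f = f := rfl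

/-- a bijective PL map between sets, domain a closed finite union of convex sets -/
def equivOfBijOn {s : Set E} {t : Set F} (hs : FinConv s) (hsc : IsClosed s) {f : E → F}
    (hf : Ce_537.PLOn f s) (hb : BijOn f s t) : Ce_537.PLEquiv s t :=
  hb.image_eq ▸ equivOfInjOn hs hsc hf hb.injOn

theorem exists_equiv_of_bijOn {s : Set E} {t : Set F} (hs : FinConv s) (hsc : IsClosed s) {f : E → F}
    (hf : Ce_537.PLOn f s) (hb : BijOn f s t) : ∃ e : Ce_537.PLEquiv s t, e.f = f := by
  obtain rfl := hb.image_eq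
  exact ⟨equivOfInjOn hs hsc hf hb.injOn, rfl⟩

/-- **an injective PL map on the cube is a ball** (no inverse has to be given) -/
theorem isBall_of_injOn {k : ℕ} {φ : (Fin k → ℝ) → E} (h : Ce_537.PLOn φ (Ce_537.cube k))
    (hi : InjOn φ (Ce_537.cube k)) :
    Ce_537.IsBall k (φ '' Ce_537.cube k) (φ '' Ce_537.sph k) :=
  ⟨equivOfInjOn (finConv_closedBall k) isClosed_closedBall h hi, rfl⟩

theorem isBall_iff {k : ℕ} {K dK : Set E} : Ce_537.IsBall k K dK ↔ IsPLBall k K dK := by
  constructor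
  · rintro ⟨e, he⟩
    exact ⟨e.f, plOn_iff.2 e.pf, e.injOn, e.image_eq, he⟩
  · rintro ⟨φ, h1, h2, rfl, rfl⟩
    exact isBall_of_injOn (plOn_iff.1 h1) h2

theorem _root_.Crest.Agent.R096.Ce_537.PLEquiv.finConv {A : Set E} {B : Set F}
    (e : Ce_537.PLEquiv A B) (hA : FinConv A) : FinConv B := by
  rw [← e.image_eq]
  exact (plOn_iff.2 e.pf).finConv_image hA

/-- images of balls under injective PL maps -/
theorem _root_.Crest.Agent.R096.Ce_537.IsBall.image_injOn {k : ℕ} {K dK : Set E}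
    (h : Ce_537.IsBall k K dK) {f : E → F} (hf : Ce_537.PLOn f K) (hi : InjOn f K) :
    Ce_537.IsBall k (f '' K) (f '' dK) :=
  isBall_iff.2 ((isBall_iff.1 h).image (plOn_iff.2 hf) hi)

end

end Crest.Agent.R096.Cx_609
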