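import Crest.Agent.R096.Arc1_422
import Crest.Agent.R096.Cb3_609
import Crest.Agent.R096.Cb6_609
import Crest.Agent.R096.Bd6_416
import Crest.Agent.R096.Cx3_609
import Crest.Agent.R096.Bd14_416
import Crest.Agent.R096.Bd15_416
import Crest.Agent.R096.Bd18_416
import Crest.Agent.R096.Shp2_334

-- ▼ part R096/Arc2_422
section

/-!
# R096 / ARR (AR)(b): the arcs of a `Chn` glue to ONE PL arc (helper422)
-/

set_option autoImplicit false
set_option linter.unusedSectionVars false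

namespace Crest.Agent.R096.Arc_422

open Ce_537 Cb_609

variable {Z ι : Type*} {E : Type*} [NormedAddCommGroup E] [NormedSpace ℝ E]

/-- realisation of a chain by PL arcs -/
structure Real (C : Chn Z ι) (v : Z → E) (Ar : ι → Z → Set E) : Prop where
  inj : Function.Injective v
  sym : ∀ {q z}, q ∈ C.S z → Ar q (C.arc q z) = Ar q z
  ball : ∀ {q z}, q ∈ C.S z → IsBall 1 (Ar q z) {v z, v (C.arc q z)}
  disj : ∀ {q z z'}, q ∈ C.S z → q ∈ C.S z' → z' ≠ z → z' ≠ C.arc q z →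
    Disjoint (Ar q z) (Ar q z')
  inter : ∀ {q q' z z'}, q ∈ C.S z → q' ∈ C.S z' → q ≠ q' →
    Ar q z ∩ Ar q' z' ⊆ {v z, v (C.arc q z)} ∩ {v z', v (C.arc q' z')}

variable {C : Chn Z ι} {v : Z → E} {Ar : ι → Z → Set E}

/-- union of the arcs used before the step `(z, q)` -/
def UU (C : Chn Z ι) (Ar : ι → Z → Set E) (Q : Set Z) (z : Z) (q : ι) : Set E :=
  {x | ∃ u ∈ Q, ∃ r ∈ C.S u, (u, r) ≠ (z, q) ∧ x ∈ Ar r u}

theorem UU_first {q : ι} (hq : q ∈ C.S C.e) : UU C Ar {C.e} C.e q = ∅ := by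
  ext x
  constructor
  · rintro ⟨u, hu, r, hr, hne, -⟩
    obtain ⟨q₀, h0⟩ := C.one
    rw [Set.mem_singleton_iff] at hu
    subst hu
    rw [h0, Set.mem_singleton_iff] at hq hr
    exact (hne (by rw [hq, hr])).elim
  · intro h; exact h.elim

theorem UU_glue (hR : Real C v Ar) {Q : Set Z} {z : Z} {q : ι} (h : C.Inv Q z q)
    (hU : v z ∈ UU C Ar Q z q) : UU C Ar Q z q ∩ Ar q z = {v z} := by
  have hn := h.notMem
  ext x
  constructor
  · rintro ⟨⟨u, hu, r, hr, hne, hx⟩, hx'⟩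
    by_cases hrq : r = q
    · subst hrq
      exfalso
      have h1 : u ≠ z := fun h' => hne (by rw [h'])
      have h2 : u ≠ C.arc r z := fun h' => hn (h' ▸ hu)
      exact Set.disjoint_left.1 (hR.disj h.hq hr h1 h2) hx' hx
    · have h1 := hR.inter hr h.hq hrq ⟨hx, hx'⟩
      have h2 := (h.cl u hu r hr hne).1
      rcases h1.2 with h3 | h3
      · exact h3
      · exfalso
        rw [Set.mem_singleton_iff] at h3
        rcases h1.1 with h4 | h4
        · exact hn ((hR.inj (h4.symm.trans h3)) ▸ hu)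
        · rw [Set.mem_singleton_iff] at h4
          exact hn ((hR.inj (h4.symm.trans h3)) ▸ h2)
  · intro hx
    rw [Set.mem_singleton_iff] at hx
    subst hx
    exact ⟨hU, (hR.ball h.hq).subset (by simp)⟩

theorem UU_step (hR : Real C v Ar) {Q : Set Z} {z : Z} {q q' : ι} (h : C.Inv Q z q)
    (hq' : q' ∈ C.S (C.arc q z)) (hne : q' ≠ q) :
    UU C Ar (insert (C.arc q z) Q) (C.arc q z) q' = UU C Ar Q z q ∪ Ar q z := by
  have hI := h.step hq' hne
  ext x
  constructor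
  · rintro ⟨u, hu, r, hr, hur, hx⟩
    rcases Set.mem_insert_iff.1 hu with rfl | hu
    · right
      have h1 := hI.cl _ (Set.mem_insert _ _) r hr hur
      have hrq : r = q := by
        by_contra hrq
        -- both `r` and `q` are different from `q'`: at most two sides
        have hm : q ∈ C.S (C.arc q z) := C.mem h.hq
        have hrq' : r ≠ q' := fun h => hur (by rw [h])
        have hz' : C.arc q z ≠ C.e := fun he => h.notMem (he ▸ h.he)
        by_cases he' : C.arc q z = C.e'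
        · obtain ⟨q₀, h0⟩ := C.one'
          rw [he', h0, Set.mem_singleton_iff] at hr hm
          exact hrq (hr.trans hm.symm)
        · obtain ⟨a, b, -, hab⟩ := C.two _ hz' he'
          rw [hab, Set.mem_insert_iff, Set.mem_singleton_iff] at hr hq' hm
          rcases hr with h1 | h1 <;> rcases hq' with h2 | h2 <;> rcases hm with h3 | h3
          · exact hrq (h1.trans h3.symm)
          · exact hrq' (h1.trans h2.symm)
          · exact hrq (h1.trans h3.symm)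
          · exact hne (h2.trans h3.symm)
          · exact hne (h2.trans h3.symm)
          · exact hrq (h1.trans h3.symm)
          · exact hrq' (h1.trans h2.symm)
          · exact hrq (h1.trans h3.symm)
      subst hrq
      rwa [hR.sym h.hq] at hx
    · by_cases hz : (u, r) = (z, q)
      · obtain ⟨rfl, rfl⟩ := Prod.mk.inj hz
        exact Or.inr hx
      · exact Or.inl ⟨u, hu, r, hr, hz, hx⟩
  · rintro (⟨u, hu, r, hr, hur, hx⟩ | hx)
    · refine ⟨u, Set.mem_insert_of_mem _ hu, r, hr, fun he => ?_, hx⟩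
      have h1 : u = C.arc q z := congrArg Prod.fst he
      exact h.notMem (h1 ▸ hu)
    · refine ⟨z, Set.mem_insert_of_mem _ h.hz, q, h.hq, fun he => ?_, hx⟩
      exact hne (congrArg Prod.snd he).symm

/-- **ONE ARC** -/
theorem Real.isBall [Finite Z] (hR : Real C v Ar) :
    IsBall 1 {x | ∃ z, ∃ q ∈ C.S z, x ∈ Ar q z} {v C.e, v C.e'} := by
  refine C.path_ind (fun Q z q => (z = C.e ∧ UU C Ar Q z q = ∅) ∨
    (IsBall 1 (UU C Ar Q z q) {v C.e, v z})) _ ?_ ?_ ?_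
  · intro q hq
    exact Or.inl ⟨rfl, UU_first hq⟩
  · intro Q z q hI hP q' hq' hne
    right
    rw [UU_step hR hI hq' hne]
    rcases hP with ⟨rfl, h⟩ | h
    · rw [h, Set.empty_union]
      exact hR.ball hI.hq
    · exact arc_glue h (hR.ball hI.hq) (UU_glue hR hI (h.subset (by simp)))
  · intro Q z q hI hP he hu
    have hT : {x | ∃ z, ∃ q ∈ C.S z, x ∈ Ar q z} = UU C Ar Q z q ∪ Ar q z := by
      ext x
      constructor
      · rintro ⟨u, r, hr, hx⟩
        have hu' : u ∈ insert (C.arc q z) Q := by rw [hu]; trivial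
        rcases Set.mem_insert_iff.1 hu' with rfl | hu'
        · right
          obtain ⟨q₀, h0⟩ := C.one'
          have hm : q ∈ C.S (C.arc q z) := C.mem hI.hq
          have hrq : r = q := by
            rw [he, h0, Set.mem_singleton_iff] at hr hm
            exact hr.trans hm.symm
          subst hrq
          rwa [hR.sym hI.hq] at hx
        · by_cases hz : (u, r) = (z, q)
          · obtain ⟨rfl, rfl⟩ := Prod.mk.inj hz
            exact Or.inr hx
          · exact Or.inl ⟨u, hu', r, hr, hz, hx⟩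
      · rintro (⟨u, hu, r, hr, hur, hx⟩ | hx)
        · exact ⟨u, r, hr, hx⟩
        · exact ⟨z, q, hI.hq, hx⟩
    rw [hT, ← he]
    rcases hP with ⟨rfl, h⟩ | h
    · rw [h, Set.empty_union]
      exact hR.ball hI.hq
    · exact arc_glue h (hR.ball hI.hq) (UU_glue hR hI (h.subset (by simp)))

end Crest.Agent.R096.Arc_422
end

-- ▼ part R096/Arc4_778
section

/-!
# R096 (row 96), (R4) CELL GEOMETRY, part 4: the arcs of a closed cycle glue to ONE PL circle
(helper778).  Closed version of 422's `Chn` / `Real`.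
-/

set_option autoImplicit false

open Set Metric

namespace Crest.Agent.R096.Arc_778

open Crest.Agent.R096.Ce_537 Crest.Agent.R096.Cb_609 Crest.Agent.R096.Pl Crest.Agent.R096.Arc_422

variable {Z ι : Type*}

/-- Nodes `Z`, sides `S z`, arcs `z — arc q z` for `q ∈ S z`; every node has two sides;
connected. -/
structure Cyc (Z ι : Type*) where
  S : Z → Set ι
  arc : ι → Z → Z
  ne : ∀ {q z}, q ∈ S z → arc q z ≠ z
  mem : ∀ {q z}, q ∈ S z → q ∈ S (arc q z)
  inv : ∀ {q z}, q ∈ S z → arc q (arc q z) = z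
  two : ∀ z, ∃ q q', q ≠ q' ∧ S z = {q, q'}
  conn : ∀ G : Set Z, G.Nonempty → (∀ z ∈ G, ∀ q ∈ S z, arc q z ∈ G) → G = univ

/-- cut the cycle at the arc `(q, z)` -/
def Cyc.cut (C : Cyc Z ι) (q₀ : ι) (z₀ : Z) (h : q₀ ∈ C.S z₀) : Chn Z ι where
  S z := {q | q ∈ C.S z ∧ ¬ (q = q₀ ∧ (z = z₀ ∨ z = C.arc q₀ z₀))}
  arc := C.arc
  e := z₀
  e' := C.arc q₀ z₀
  ne h := C.ne h.1
  mem {q z} hq := by
    refine ⟨C.mem hq.1, ?_⟩
    rintro ⟨rfl, h1 | h1⟩
    · refine hq.2 ⟨rfl, Or.inr ?_⟩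
      rw [← h1, C.inv hq.1]
    · refine hq.2 ⟨rfl, Or.inl ?_⟩
      have := congrArg (C.arc q) h1
      rwa [C.inv hq.1, C.inv h] at this
  inv h := C.inv h.1
  one := by
    obtain ⟨q, q', hne, hS⟩ := C.two z₀
    rw [hS] at h
    rcases h with rfl | h
    · refine ⟨q', ?_⟩
      ext r
      constructor
      · rintro ⟨h1, h2⟩
        rw [hS] at h1
        rcases h1 with rfl | h1
        · exact absurd ⟨rfl, Or.inl rfl⟩ h2
        · exact h1
      · intro h1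
        have h1' : r = q' := h1
        subst h1'
        exact ⟨by rw [hS]; right; rfl, fun h2 => hne h2.1.symm⟩
    · have h' : q₀ = q' := h
      subst h'
      refine ⟨q, ?_⟩
      ext r
      constructor
      · rintro ⟨h1, h2⟩
        rw [hS] at h1
        rcases h1 with h1 | h1
        · exact h1
        · have h1' : r = q₀ := h1
          subst h1'
          exact absurd ⟨rfl, Or.inl rfl⟩ h2
      · intro h1
        have h1' : r = q := h1
        subst h1'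
        exact ⟨by rw [hS]; left; rfl, fun h2 => hne h2.1⟩
  one' := by
    obtain ⟨q, q', hne, hS⟩ := C.two (C.arc q₀ z₀)
    have h0 := C.mem h
    rw [hS] at h0
    rcases h0 with h0 | h0
    · have h' : q₀ = q := h0
      subst h'
      refine ⟨q', ?_⟩
      ext r
      constructor
      · rintro ⟨h1, h2⟩
        rw [hS] at h1
        rcases h1 with h1 | h1
        · have h1' : r = q₀ := h1
          subst h1'
          exact absurd ⟨rfl, Or.inr rfl⟩ h2
        · exact h1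
      · intro h1
        have h1' : r = q' := h1
        subst h1'
        exact ⟨by rw [hS]; right; rfl, fun h2 => hne h2.1.symm⟩
    · have h' : q₀ = q' := h0
      subst h'
      refine ⟨q, ?_⟩
      ext r
      constructor
      · rintro ⟨h1, h2⟩
        rw [hS] at h1
        rcases h1 with h1 | h1
        · exact h1
        · have h1' : r = q₀ := h1
          subst h1'
          exact absurd ⟨rfl, Or.inr rfl⟩ h2
      · intro h1
        have h1' : r = q := h1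
        subst h1'
        exact ⟨by rw [hS]; left; rfl, fun h2 => hne h2.1⟩
  ee := (C.ne h).symm
  two z h1 h2 := by
    obtain ⟨q, q', hne, hS⟩ := C.two z
    refine ⟨q, q', hne, ?_⟩
    rw [← hS]
    ext r
    exact ⟨fun h3 => h3.1, fun h3 => ⟨h3, fun h4 => by
      rcases h4.2 with h5 | h5
      · exact h1 h5
      · exact h2 h5⟩⟩
  no G hG := by
    by_contra hne
    have h1 := C.conn G (nonempty_iff_ne_empty.2 hne) (fun z hz q hq =>
      (hG z hz).2.2 q ⟨hq, fun h4 => by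
        rcases h4.2 with h5 | h5
        · exact (hG z hz).1 h5
        · exact (hG z hz).2.1 h5⟩)
    have h2 : z₀ ∈ G := by rw [h1]; trivial
    exact (hG z₀ h2).1 rfl

variable {E : Type*} [NormedAddCommGroup E] [NormedSpace ℝ E]

/-- realisation of a cycle by PL arcs -/
structure CReal (C : Cyc Z ι) (v : Z → E) (Ar : ι → Z → Set E) : Prop where
  inj : Function.Injective v
  sym : ∀ {q z}, q ∈ C.S z → Ar q (C.arc q z) = Ar q z
  ball : ∀ {q z}, q ∈ C.S z → IsBall 1 (Ar q z) {v z, v (C.arc q z)}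
  disj : ∀ {q z z'}, q ∈ C.S z → q ∈ C.S z' → z' ≠ z → z' ≠ C.arc q z →
    Disjoint (Ar q z) (Ar q z')
  inter : ∀ {q q' z z'}, q ∈ C.S z → q' ∈ C.S z' → q ≠ q' →
    Ar q z ∩ Ar q' z' ⊆ {v z, v (C.arc q z)} ∩ {v z', v (C.arc q' z')}

/-- **ONE CIRCLE** -/
theorem CReal.circle [Finite Z] [Nonempty Z] {C : Cyc Z ι} {v : Z → E} {Ar : ι → Z → Set E}
    (hR : CReal C v Ar) :
    Nonempty (PLEquiv (S1 ℝ) {x | ∃ z, ∃ q ∈ C.S z, x ∈ Ar q z}) := by
  obtain ⟨z₀⟩ := ‹Nonempty Z›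
  obtain ⟨q₀, q₁, hne, hS⟩ := C.two z₀
  have h0 : q₀ ∈ C.S z₀ := by rw [hS]; left; rfl
  have hR' : Real (C.cut q₀ z₀ h0) v Ar := by
    refine ⟨hR.inj, fun hq => hR.sym hq.1, fun hq => hR.ball hq.1, fun hq hq' => hR.disj hq.1 hq'.1,
      fun hq hq' h => hR.inter hq.1 hq'.1 h⟩
  have hU : IsBall 1 {x | ∃ z, ∃ q ∈ (C.cut q₀ z₀ h0).S z, x ∈ Ar q z}
    {v z₀, v (C.arc q₀ z₀)} := hR'.isBall
  have hA : IsBall 1 (Ar q₀ z₀) {v z₀, v (C.arc q₀ z₀)} := hR.ball h0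
  have hi : {x | ∃ z, ∃ q ∈ (C.cut q₀ z₀ h0).S z, x ∈ Ar q z} ∩ Ar q₀ z₀
      = {v z₀, v (C.arc q₀ z₀)} := by
    apply Subset.antisymm
    · rintro x ⟨⟨z, q, hq, hx⟩, hx'⟩
      by_cases hqq : q = q₀
      · subst hqq
        have h1 : z ≠ z₀ := fun h => hq.2 ⟨rfl, Or.inl h⟩
        have h2 : z ≠ C.arc q z₀ := fun h => hq.2 ⟨rfl, Or.inr h⟩
        exact absurd hx (Set.disjoint_left.1 (hR.disj h0 hq.1 h1 h2) hx')
      · exact (hR.inter hq.1 h0 hqq ⟨hx, hx'⟩).2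
    · intro x hx
      exact ⟨hU.subset hx, hA.subset hx⟩
  obtain ⟨e, -, -, -⟩ := exists_equiv_union ballPair_real hU hA hi
  have hT : {x | ∃ z, ∃ q ∈ C.S z, x ∈ Ar q z}
      = {x | ∃ z, ∃ q ∈ (C.cut q₀ z₀ h0).S z, x ∈ Ar q z} ∪ Ar q₀ z₀ := by
    ext x
    constructor
    · rintro ⟨z, q, hq, hx⟩
      by_cases h : q = q₀ ∧ (z = z₀ ∨ z = C.arc q₀ z₀)
      · right
        obtain ⟨rfl, rfl | rfl⟩ := h
        · exact hx
        · rwa [hR.sym h0] at hx
      · left; exact ⟨z, q, ⟨hq, h⟩, hx⟩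
    · rintro (⟨z, q, hq, hx⟩ | hx)
      · exact ⟨z, q, hq.1, hx⟩
      · exact ⟨z₀, q₀, h0, hx⟩
  rw [hT, ← Kp_union_Km]
  exact ⟨e⟩

end Crest.Agent.R096.Arc_778
end

-- ▼ part R096/Arc1_778
section

/-!
# R096 (row 96), (R4) CELL GEOMETRY, part 1: the lid over a ball; cells filled by the cone rule
(helper778)

* `lid` : `Γ × [r₀,r₁] ∪ Δ × {r₀}` is a ball with boundary `Γ × {r₁}` if `Δ` is a ball with
  boundary `Γ`.
* `ConeCell e c ρ` : sign information of the band functions in a cell filled by the cone rule.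
* `ConeCell.ball` : the sheet piece `{c i = 0}` is a ball with boundary `{c i = 0} ∩ ∂`.
* `ConeCell.inter` : the intersection of two sheet pieces.
-/

set_option autoImplicit false

open Set Metric

namespace Crest.Agent.R096.Arc_778

open Crest.Agent.R096.Ce_537 Crest.Agent.R096.Bd_416

section Lid

variable {E : Type*} [NormedAddCommGroup E] [NormedSpace ℝ E] [FiniteDimensional ℝ E]

lemma cf_half (t : ℝ) : cf (1/2) t = 2 * t := by
  unfold cf
  rcases le_total 0 t with h | h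
  · rw [max_eq_right (by linarith), max_eq_left (by linarith)]; ring
  · rw [max_eq_left (by linarith), max_eq_right (by linarith)]; ring

/-- the lid map in the model -/
lemma lid_norm {k : ℕ} (x : Fin k → ℝ) (hx : ‖x‖ ≤ 1) :
    ‖fun j => cf (max ‖x‖ (1/2)) (x j)‖ ≤ 1 ∧
      (1/2 ≤ ‖x‖ → ‖fun j => cf (max ‖x‖ (1/2)) (x j)‖ = 1) ∧
      (‖x‖ ≤ 1/2 → (fun j => cf (max ‖x‖ (1/2)) (x j)) = (2:ℝ) • x) := by
  have h1 : 1/2 ≤ ‖x‖ → ‖fun j => cf (max ‖x‖ (1/2)) (x j)‖ = 1 := by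
    intro h
    rw [max_eq_left h]
    exact norm_cf (x := x) ⟨h, hx⟩
  have h2 : ‖x‖ ≤ 1/2 → (fun j => cf (max ‖x‖ (1/2)) (x j)) = (2:ℝ) • x := by
    intro h
    rw [max_eq_right h]
    funext j
    rw [cf_half]; rfl
  refine ⟨?_, h1, h2⟩
  rcases le_total (1/2) ‖x‖ with h | h
  · exact (h1 h).le
  · rw [h2 h, norm_smul, Real.norm_eq_abs, abs_of_pos two_pos]; linarith

/-- **the lid over a ball is a ball** -/
theorem lid {k : ℕ} {Δ Γ : Set E} (h : IsBall k Δ Γ) {r0 r1 : ℝ} (hr : r0 < r1) :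
    IsBall k (Γ ×ˢ Icc r0 r1 ∪ Δ ×ˢ {r0}) (Γ ×ˢ {r1}) := by
  obtain ⟨a, rfl⟩ := h
  set φ : (Fin k → ℝ) → E × ℝ := fun x =>
    (a.f (fun j => cf (max ‖x‖ (1/2)) (x j)), r0 + (r1 - r0) * (2 * max ‖x‖ (1/2) - 1)) with hφ
  have hd : 0 < r1 - r0 := by linarith
  have hpm : PLOn (fun x : Fin k → ℝ => max ‖x‖ (1/2)) (cube k) :=
    pl_max (pl_norm _) (plOn_const _ _)
  have hpl : PLOn φ (cube k) := by
    refine pl_pair (a.pf.comp (pl_pi fun i => pl_cf hpm (pl_apply (plOn_id _) i)) ?_) ?_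
    · intro x hx
      have hx' : ‖x‖ ≤ 1 := by simpa using hx
      have := (lid_norm x hx').1
      simpa using this
    · exact pl_add (plOn_const _ _) (pl_mul _ (pl_sub_const (pl_mul 2 hpm) 1))
  have hinj : InjOn φ (cube k) := by
    intro x hx y hy hxy
    have hx' : ‖x‖ ≤ 1 := by simpa using hx
    have hy' : ‖y‖ ≤ 1 := by simpa using hy
    have e1 : a.f (fun j => cf (max ‖x‖ (1/2)) (x j)) = a.f (fun j => cf (max ‖y‖ (1/2)) (y j)) :=
      congrArg Prod.fst hxy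
    have e2 : r0 + (r1 - r0) * (2 * max ‖x‖ (1/2) - 1) = r0 + (r1 - r0) * (2 * max ‖y‖ (1/2) - 1) :=
      congrArg Prod.snd hxy
    have e3 : max ‖x‖ (1/2) = max ‖y‖ (1/2) := by
      have h1 : (r1 - r0) * (2 * max ‖x‖ (1/2) - 1) = (r1 - r0) * (2 * max ‖y‖ (1/2) - 1) := by
        linarith
      have h2 := mul_left_cancel₀ hd.ne' h1
      linarith
    have e4 := a.injOn (by simpa using (lid_norm x hx').1) (by simpa using (lid_norm y hy').1) e1
    funext j
    have e5 : cf (max ‖x‖ (1/2)) (x j) = cf (max ‖x‖ (1/2)) (y j) := by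
      have h7 : cf (max ‖x‖ (1/2)) (x j) = cf (max ‖y‖ (1/2)) (y j) := congrFun e4 j
      rw [h7, e3]
    have e6 : 1/2 ≤ max ‖x‖ (1/2) := le_max_right _ _
    rw [← cg_cf (x := x j) e6, e5, cg_cf e6]
  have hb := Cx_609.isBall_of_injOn hpl hinj
  have im1 : φ '' cube k = (a.f '' sph k) ×ˢ Icc r0 r1 ∪ Δ ×ˢ {r0} := by
    apply Subset.antisymm
    · rintro _ ⟨x, hx, rfl⟩
      have hx' : ‖x‖ ≤ 1 := by simpa using hx
      obtain ⟨h1, h2, h3⟩ := lid_norm x hx'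
      rcases le_total (1/2) ‖x‖ with h | h
      · left
        refine ⟨⟨_, by simpa using h2 h, rfl⟩, ?_⟩
        show r0 + (r1 - r0) * (2 * max ‖x‖ (1/2) - 1) ∈ Icc r0 r1
        rw [max_eq_left h]
        constructor <;> nlinarith
      · right
        refine ⟨a.mf (by simpa using h1), ?_⟩
        show r0 + (r1 - r0) * (2 * max ‖x‖ (1/2) - 1) = r0
        rw [max_eq_right h]; ring
    · rintro ⟨ω, r⟩ (⟨⟨u, hu, hω⟩, hr'⟩ | ⟨hω, hr'⟩)
      · have hω' : a.f u = ω := hω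
        have hr1 : r0 ≤ r := hr'.1
        have hr2 : r ≤ r1 := hr'.2
        set s : ℝ := (1 + (r - r0) / (r1 - r0)) / 2 with hs
        have hs0 : 0 ≤ (r - r0) / (r1 - r0) := div_nonneg (by linarith) hd.le
        have hs1 : (r - r0) / (r1 - r0) ≤ 1 := by rw [div_le_one hd]; linarith
        have hsI : s ∈ Icc (1/2:ℝ) 1 := by
          constructor
          · rw [hs]; linarith
          · rw [hs]; linarith
        have hn := norm_cg (n := k) (ω := u) hu hsI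
        refine ⟨fun j => cg s (u j), ?_, ?_⟩
        · rw [mem_closedBall, dist_zero_right, hn]; exact hsI.2
        · have hm : max ‖fun j => cg s (u j)‖ (1/2) = s := by rw [hn]; exact max_eq_left hsI.1
          apply Prod.ext
          · show a.f (fun j => cf (max ‖fun j => cg s (u j)‖ (1/2)) (cg s (u j))) = ω
            rw [hm, ← hω']
            congr 1
            funext j
            exact cf_cg hsI.1
          · show r0 + (r1 - r0) * (2 * max ‖fun j => cg s (u j)‖ (1/2) - 1) = r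
            rw [hm, hs]
            field_simp
            ring
      · have hr'' : r = r0 := hr'
        have hΔ : ω ∈ a.f '' cube k := by rw [a.image_eq]; exact hω
        obtain ⟨u, hu, rfl⟩ := hΔ
        have hu' : ‖u‖ ≤ 1 := by simpa using hu
        have hn : ‖(1/2:ℝ) • u‖ ≤ 1/2 := by
          rw [norm_smul, Real.norm_eq_abs, abs_of_pos (by norm_num : (0:ℝ) < 1/2)]; linarith
        refine ⟨(1/2:ℝ) • u, by rw [mem_closedBall, dist_zero_right]; linarith, ?_⟩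
        apply Prod.ext
        · show a.f (fun j => cf (max ‖(1/2:ℝ) • u‖ (1/2)) (((1/2:ℝ) • u) j)) = a.f u
          rw [(lid_norm ((1/2:ℝ) • u) (by linarith)).2.2 hn, smul_smul]
          norm_num
        · show r0 + (r1 - r0) * (2 * max ‖(1/2:ℝ) • u‖ (1/2) - 1) = r
          rw [max_eq_right hn, hr'']; ring
  have im2 : φ '' sph k = (a.f '' sph k) ×ˢ {r1} := by
    have key : ∀ x ∈ sph k, φ x = (a.f x, r1) := by
      intro x hx
      have hx' : ‖x‖ = 1 := by simpa using hx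
      have hm : max ‖x‖ (1/2) = 1 := by rw [hx']; norm_num
      apply Prod.ext
      · show a.f (fun j => cf (max ‖x‖ (1/2)) (x j)) = a.f x
        rw [hm]
        congr 1
        funext j
        exact cf_one (by rw [← hx']; exact abs_apply_le x j)
      · show r0 + (r1 - r0) * (2 * max ‖x‖ (1/2) - 1) = r1
        rw [hm]; ring
    ext p
    constructor
    · rintro ⟨x, hx, rfl⟩
      rw [key x hx]
      exact ⟨⟨x, hx, rfl⟩, rfl⟩
    · rintro ⟨⟨x, hx, h1⟩, h2⟩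
      refine ⟨x, hx, ?_⟩
      rw [key x hx]
      exact Prod.ext h1 h2.symm
  rw [im1, im2] at hb
  exact hb

end Lid

section Cone

variable {E : Type*} [NormedAddCommGroup E] [NormedSpace ℝ E] {ι : Type*} {n : ℕ} {K dK : Set E}

/-- the radius of a point of the cell -/
noncomputable def rad (e : PLEquiv (cube n) K) (z : E) : ℝ := ‖e.g z‖

/-- the projection to the boundary along the collar -/
noncomputable def prj (e : PLEquiv (cube n) K) (z : E) : E := e.f ((collar n).f (e.g z)).1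

/-- the outer part of the cell -/
def Out (e : PLEquiv (cube n) K) : Set E := {z | z ∈ K ∧ 1/2 ≤ rad e z}

lemma rad_le (e : PLEquiv (cube n) K) {z : E} (hz : z ∈ K) : rad e z ≤ 1 := by
  simpa [rad] using e.mg hz

lemma mem_ann (e : PLEquiv (cube n) K) {z : E} (hz : z ∈ Out e) : e.g z ∈ Ann n :=
  ⟨hz.2, rad_le e hz.1⟩

variable (e : PLEquiv (cube n) K) (he : e.f '' sph n = dK)
include he

lemma bd_sph {ω : E} (hω : ω ∈ dK) : e.g ω ∈ sph n ∧ e.f (e.g ω) = ω := g_sph e he hω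

lemma bd_sub : dK ⊆ K := dq_subset e he

lemma rad_bd {ω : E} (hω : ω ∈ dK) : rad e ω = 1 := by
  simpa [rad] using (bd_sph e he hω).1

lemma prj_bd {ω : E} (hω : ω ∈ dK) : prj e ω = ω := by
  obtain ⟨h1, h2⟩ := bd_sph e he hω
  unfold prj
  rw [collar_f_sph h1]; exact h2

lemma prj_mem {z : E} (hz : z ∈ Out e) : prj e z ∈ dK := by
  rw [← he]
  exact ⟨_, ((collar n).mf (mem_ann e hz)).1, rfl⟩

lemma bd_out : dK ⊆ Out e := fun ω hω => ⟨bd_sub e he hω, by rw [rad_bd e he hω]; norm_num⟩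

/-- the collar of the cell -/
noncomputable def Th : PLEquiv (dK ×ˢ Icc (1/2 : ℝ) 1) (Out e) where
  f p := e.f ((collar n).g (e.g p.1, p.2))
  g z := (prj e z, rad e z)
  pf := by
    refine e.pf.comp ((collar n).pg.comp (pl_pair (e.pg.comp (pl_fst (plOn_id _)) ?_)
      (pl_snd (plOn_id _))) ?_) ?_
    · intro p hp; exact bd_sub e he hp.1
    · intro p hp; exact ⟨(bd_sph e he hp.1).1, hp.2⟩
    · intro p hp
      have := (collar n).mg (show ((e.g p.1, p.2) : (Fin n → ℝ) × ℝ) ∈ PS (sph n) from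
        ⟨(bd_sph e he hp.1).1, hp.2⟩)
      rw [mem_closedBall, dist_zero_right]; exact this.2
  pg := by
    refine pl_pair (e.pf.comp (pl_fst ((collar n).pf.comp (e.pg.mono (fun z hz => hz.1)) ?_)) ?_)
      ((pl_norm _).comp (e.pg.mono (fun z hz => hz.1)) (fun z _ => mem_univ _))
    · intro z hz; exact mem_ann e hz
    · intro z hz
      exact sph_subset_cube ((collar n).mf (mem_ann e hz)).1
  mf p hp := by
    have h1 : ((e.g p.1, p.2) : (Fin n → ℝ) × ℝ) ∈ PS (sph n) := ⟨(bd_sph e he hp.1).1, hp.2⟩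
    have h2 := (collar n).mg h1
    have h3 : (collar n).g (e.g p.1, p.2) ∈ cube n := by
      rw [mem_closedBall, dist_zero_right]; exact h2.2
    refine ⟨e.mf h3, ?_⟩
    unfold rad
    rw [e.li _ h3]; exact h2.1
  mg z hz := ⟨prj_mem e he hz, hz.2, rad_le e hz.1⟩
  li p hp := by
    have h1 : ((e.g p.1, p.2) : (Fin n → ℝ) × ℝ) ∈ PS (sph n) := ⟨(bd_sph e he hp.1).1, hp.2⟩
    have h2 := (collar n).mg h1
    have h3 : (collar n).g (e.g p.1, p.2) ∈ cube n := by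
      rw [mem_closedBall, dist_zero_right]; exact h2.2
    have h4 := (collar n).ri _ h1
    apply Prod.ext
    · show e.f ((collar n).f (e.g (e.f ((collar n).g (e.g p.1, p.2))))).1 = p.1
      rw [e.li _ h3, h4]
      exact (bd_sph e he hp.1).2
    · show ‖e.g (e.f ((collar n).g (e.g p.1, p.2)))‖ = p.2
      rw [e.li _ h3]
      exact congrArg Prod.snd h4
  ri z hz := by
    have h1 := mem_ann e hz
    have h2 := (collar n).mf h1
    show e.f ((collar n).g (e.g (e.f ((collar n).f (e.g z)).1), ‖e.g z‖)) = z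
    rw [e.li _ (sph_subset_cube h2.1)]
    have h3 : (((collar n).f (e.g z)).1, ‖e.g z‖) = (collar n).f (e.g z) := rfl
    rw [h3, (collar n).li _ h1]
    exact e.ri z hz.1

lemma Th_rad {p : E × ℝ} (hp : p ∈ dK ×ˢ Icc (1/2 : ℝ) 1) : rad e ((Th e he).f p) = p.2 :=
  congrArg Prod.snd ((Th e he).li p hp)

lemma Th_prj {p : E × ℝ} (hp : p ∈ dK ×ˢ Icc (1/2 : ℝ) 1) : prj e ((Th e he).f p) = p.1 :=
  congrArg Prod.fst ((Th e he).li p hp)

lemma Th_ri {z : E} (hz : z ∈ Out e) : (Th e he).f (prj e z, rad e z) = z := (Th e he).ri z hz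

lemma Th_one {ω : E} (hω : ω ∈ dK) : (Th e he).f (ω, 1) = ω := by
  have h := Th_ri e he (bd_out e he hω)
  rwa [prj_bd e he hω, rad_bd e he hω] at h

omit he in
/-- **sign information of the band functions in a cell filled by the cone rule** -/
structure ConeCell (e : PLEquiv (cube n) K) (c : ι → E → ℝ) (ρ : ι → ℝ) : Prop where
  lo : ∀ i, 1/2 < ρ i
  hi : ∀ i, ρ i < 1
  low : ∀ i, ∀ z ∈ K, rad e z ≤ 1/2 → c i z < 0
  sgn : ∀ i, ∀ z ∈ K, 1/2 ≤ rad e z →
    SignType.sign (c i z) = SignType.sign (min (c i (prj e z)) (rad e z - ρ i))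

/-- the curve (end points) of `i` on the boundary -/
def Gam (dK : Set E) (c : ι → E → ℝ) (i : ι) : Set E := {ω | ω ∈ dK ∧ c i ω = 0}

/-- the inside of `i` on the boundary -/
def Dlt (dK : Set E) (c : ι → E → ℝ) (i : ι) : Set E := {ω | ω ∈ dK ∧ 0 ≤ c i ω}

/-- the sheet piece -/
def Zer (K : Set E) (c : ι → E → ℝ) (i : ι) : Set E := {z | z ∈ K ∧ c i z = 0}

namespace ConeCell

variable {e he} {c : ι → E → ℝ} {ρ : ι → ℝ} (H : ConeCell e c ρ)
include H

omit he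

lemma nonneg_iff {i : ι} {z : E} (hz : z ∈ K) :
    0 ≤ c i z ↔ 1/2 ≤ rad e z ∧ 0 ≤ c i (prj e z) ∧ ρ i ≤ rad e z := by
  rcases le_or_gt (1/2) (rad e z) with h | h
  · have h1 := H.sgn i z hz h
    have h2 : 0 ≤ c i z ↔ 0 ≤ min (c i (prj e z)) (rad e z - ρ i) := by
      rw [← sign_nonneg_iff, h1, sign_nonneg_iff]
    rw [h2, le_min_iff, sub_nonneg]
    exact ⟨fun h3 => ⟨h, h3⟩, fun h3 => h3.2⟩
  · constructor
    · intro h1; exact absurd h1 (not_le.2 (H.low i z hz h.le))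
    · intro h1; exact absurd h1.1 (not_le.2 h)

lemma pos_iff {i : ι} {z : E} (hz : z ∈ K) :
    0 < c i z ↔ 1/2 ≤ rad e z ∧ 0 < c i (prj e z) ∧ ρ i < rad e z := by
  rcases le_or_gt (1/2) (rad e z) with h | h
  · have h1 := H.sgn i z hz h
    have h2 : 0 < c i z ↔ 0 < min (c i (prj e z)) (rad e z - ρ i) := by
      rw [← sign_eq_one_iff, h1, sign_eq_one_iff]
    rw [h2, lt_min_iff, sub_pos]
    exact ⟨fun h3 => ⟨h, h3⟩, fun h3 => h3.2⟩
  · constructor
    · intro h1; exact absurd h1 (not_lt.2 (H.low i z hz h.le).le)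
    · intro h1; exact absurd h1.1 (not_le.2 h)

lemma zero_iff {i : ι} {z : E} (hz : z ∈ K) :
    c i z = 0 ↔ 1/2 ≤ rad e z ∧ ((c i (prj e z) = 0 ∧ ρ i ≤ rad e z) ∨
      (0 ≤ c i (prj e z) ∧ rad e z = ρ i)) := by
  have h1 : c i z = 0 ↔ 0 ≤ c i z ∧ ¬ 0 < c i z :=
    ⟨fun h => ⟨h.ge, h.not_gt⟩, fun h => le_antisymm (not_lt.1 h.2) h.1⟩
  rw [h1, H.nonneg_iff hz, H.pos_iff hz]
  constructor
  · rintro ⟨⟨h2, h3, h4⟩, h5⟩
    refine ⟨h2, ?_⟩
    by_cases h6 : ρ i < rad e z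
    · left
      refine ⟨le_antisymm (not_lt.1 fun h7 => h5 ⟨h2, h7, h6⟩) h3, h4⟩
    · right; exact ⟨h3, le_antisymm (not_lt.1 h6) h4⟩
  · rintro ⟨h2, ⟨h3, h4⟩ | ⟨h3, h4⟩⟩
    · exact ⟨⟨h2, h3.ge, h4⟩, fun h5 => h5.2.1.ne' h3⟩
    · exact ⟨⟨h2, h3, h4.ge⟩, fun h5 => h5.2.2.ne' h4⟩

end ConeCell

variable {e he} {c : ι → E → ℝ} {ρ : ι → ℝ}

omit [NormedAddCommGroup E] [NormedSpace ℝ E] he in
lemma lid_subset {Δ Γ : Set E} (h1 : Δ ⊆ dK) (h2 : Γ ⊆ dK) {r : ℝ} (hr : 1/2 < r) (hr1 : r < 1) :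
    Γ ×ˢ Icc r 1 ∪ Δ ×ˢ {r} ⊆ dK ×ˢ Icc (1/2 : ℝ) 1 := by
  rintro ⟨ω, t⟩ (⟨h3, h4⟩ | ⟨h3, h4⟩)
  · exact ⟨h2 h3, hr.le.trans h4.1, h4.2⟩
  · have : t = r := h4
    subst this
    exact ⟨h1 h3, hr.le, hr1.le⟩

/-- the zero set -/
theorem ConeCell.zer_eq (H : ConeCell e c ρ) (i : ι) :
    Zer K c i = (Th e he).f '' (Gam dK c i ×ˢ Icc (ρ i) 1 ∪ Dlt dK c i ×ˢ {ρ i}) := by
  have hl := H.lo i
  have hh := H.hi i
  ext z
  constructor
  · rintro ⟨hz, h0⟩
    obtain ⟨h1, h2⟩ := (H.zero_iff hz).1 h0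
    have hO : z ∈ Out e := ⟨hz, h1⟩
    refine ⟨(prj e z, rad e z), ?_, Th_ri e he hO⟩
    rcases h2 with ⟨h2, h3⟩ | ⟨h2, h3⟩
    · left; exact ⟨⟨prj_mem e he hO, h2⟩, h3, rad_le e hz⟩
    · right; exact ⟨⟨prj_mem e he hO, h2⟩, h3⟩
  · rintro ⟨p, hp, rfl⟩
    have hp' := lid_subset (dK := dK) (fun ω h => h.1) (fun ω h => h.1) hl hh hp
    have hm := (Th e he).mf hp'
    refine ⟨hm.1, (H.zero_iff hm.1).2 ⟨hm.2, ?_⟩⟩
    rw [Th_rad e he hp', Th_prj e he hp']
    rcases hp with ⟨h1, h2⟩ | ⟨h1, h2⟩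
    · left; exact ⟨h1.2, h2.1⟩
    · right; exact ⟨h1.2, h2⟩

/-- **the intersection of two sheet pieces** (`j` deeper) -/
theorem ConeCell.inter_eq (H : ConeCell e c ρ) {i j : ι} (hij : ρ j < ρ i) :
    Zer K c i ∩ Zer K c j = (Th e he).f '' ((Gam dK c i ∩ Gam dK c j) ×ˢ Icc (ρ i) 1 ∪
      (Dlt dK c i ∩ Gam dK c j) ×ˢ {ρ i}) := by
  have hl := H.lo i
  have hh := H.hi i
  ext z
  constructor
  · rintro ⟨⟨hz, h0⟩, -, h0'⟩
    obtain ⟨h1, h2⟩ := (H.zero_iff hz).1 h0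
    obtain ⟨-, h2'⟩ := (H.zero_iff hz).1 h0'
    have hO : z ∈ Out e := ⟨hz, h1⟩
    refine ⟨(prj e z, rad e z), ?_, Th_ri e he hO⟩
    rcases h2 with ⟨h2, h3⟩ | ⟨h2, h3⟩
    · rcases h2' with ⟨h4, h5⟩ | ⟨h4, h5⟩
      · left; exact ⟨⟨⟨prj_mem e he hO, h2⟩, prj_mem e he hO, h4⟩, h3, rad_le e hz⟩
      · rw [h5] at h3; exact absurd h3 (not_le.2 hij)
    · rcases h2' with ⟨h4, h5⟩ | ⟨h4, h5⟩
      · right; exact ⟨⟨⟨prj_mem e he hO, h2⟩, prj_mem e he hO, h4⟩, h3⟩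
      · rw [h5] at h3; exact absurd h3 hij.ne
  · rintro ⟨p, hp, rfl⟩
    have hp' := lid_subset (dK := dK) (Δ := Dlt dK c i ∩ Gam dK c j)
      (Γ := Gam dK c i ∩ Gam dK c j) (fun ω h => h.1.1) (fun ω h => h.1.1) hl hh hp
    have hm := (Th e he).mf hp'
    refine ⟨⟨hm.1, (H.zero_iff hm.1).2 ⟨hm.2, ?_⟩⟩, hm.1, (H.zero_iff hm.1).2 ⟨hm.2, ?_⟩⟩
    · rw [Th_rad e he hp', Th_prj e he hp']
      rcases hp with ⟨h1, h2⟩ | ⟨h1, h2⟩
      · left; exact ⟨h1.1.2, h2.1⟩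
      · right; exact ⟨h1.1.2, h2⟩
    · rw [Th_rad e he hp', Th_prj e he hp']
      left
      rcases hp with ⟨h1, h2⟩ | ⟨h1, h2⟩
      · exact ⟨h1.2.2, hij.le.trans h2.1⟩
      · have h2' : p.2 = ρ i := h2
        exact ⟨h1.2.2, by rw [h2']; exact hij.le⟩

/-- the lid over a part `A` of the boundary with boundary `Q`, of depth `r` -/
def Lidd (e : PLEquiv (cube n) K) (he : e.f '' sph n = dK) (r : ℝ) (A Q : Set E) : Set E :=
  (Th e he).f '' (Q ×ˢ Icc r 1 ∪ A ×ˢ {r})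

/-- **the lid is a ball** -/
theorem isBall_lidd [FiniteDimensional ℝ E] {k : ℕ} {A Q : Set E} (h : IsBall k A Q)
    (hA : A ⊆ dK) {r : ℝ} (hr : 1/2 < r) (hr1 : r < 1) : IsBall k (Lidd e he r A Q) Q := by
  have h1 := lid h hr1
  have hQ : Q ⊆ dK := h.subset.trans hA
  have h2 := h1.map ((Th e he).restrImage (lid_subset hA hQ hr hr1))
  have h3 : ((Th e he).restrImage (lid_subset hA hQ hr hr1)).f '' (Q ×ˢ {(1:ℝ)}) = Q := by
    ext ω
    constructor
    · rintro ⟨⟨ω', t⟩, ⟨h4, h5⟩, rfl⟩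
      have h5' : t = 1 := h5
      subst h5'
      show (Th e he).f (ω', 1) ∈ Q
      rw [Th_one e he (hQ h4)]; exact h4
    · intro hω
      exact ⟨(ω, 1), ⟨hω, rfl⟩, Th_one e he (hQ hω)⟩
  rw [h3] at h2
  exact h2

/-- **the sheet piece is a ball** with boundary on the boundary of the cell -/
theorem ConeCell.ball [FiniteDimensional ℝ E] (H : ConeCell e c ρ) {k : ℕ} {i : ι}
    (h : IsBall k (Dlt dK c i) (Gam dK c i)) : IsBall k (Zer K c i) (Gam dK c i) := by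
  rw [H.zer_eq (he := he)]
  exact isBall_lidd (he := he) h (fun ω h => h.1) (H.lo i) (H.hi i)

lemma lidd_inter_bd {A Q : Set E} (hA : A ⊆ dK) (hQ : Q ⊆ dK) {r : ℝ} (hr : 1/2 < r)
    (hr1 : r < 1) : Lidd e he r A Q ∩ dK = Q := by
  ext z
  constructor
  · rintro ⟨⟨p, hp, rfl⟩, hz⟩
    have hp' := lid_subset hA hQ hr hr1 hp
    have h1 := rad_bd e he hz
    have h2 := prj_bd e he hz
    rw [Th_rad e he hp'] at h1
    rw [Th_prj e he hp'] at h2
    rw [← h2]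
    rcases hp with ⟨h3, h4⟩ | ⟨h3, h4⟩
    · exact h3
    · have h4' : p.2 = r := h4
      rw [h1] at h4'; exact absurd h4' hr1.ne'
  · intro hz
    exact ⟨⟨(z, 1), Or.inl ⟨hz, hr1.le, le_rfl⟩, Th_one e he (hQ hz)⟩, hQ hz⟩


/-- lids of the same depth over disjoint sets are disjoint -/
lemma lidd_disjoint {A Q A' Q' : Set E} (hA : A ⊆ dK) (hQ : Q ⊆ A) (hA' : A' ⊆ dK)
    (hQ' : Q' ⊆ A') {r : ℝ} (hr : 1/2 < r) (hr1 : r < 1) (hd : Disjoint A A') :
    Disjoint (Lidd e he r A Q) (Lidd e he r A' Q') := by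
  refine Set.disjoint_left.2 ?_
  rintro _ ⟨p, hp, rfl⟩ ⟨p', hp', heq⟩
  have h1 := lid_subset hA (hQ.trans hA) hr hr1 hp
  have h2 := lid_subset hA' (hQ'.trans hA') hr hr1 hp'
  have h3 : p' = p := (Th e he).injOn h2 h1 heq
  subst h3
  have h4 : p'.1 ∈ A := by
    rcases hp with h | h
    · exact hQ h.1
    · exact h.1
  have h5 : p'.1 ∈ A' := by
    rcases hp' with h | h
    · exact hQ' h.1
    · exact h.1
  exact Set.disjoint_left.1 hd h4 h5

/-- the intersection of two sheet pieces is the union of the lids over the parts of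
`Dlt i ∩ Gam j` -/
theorem ConeCell.inter_iUnion (H : ConeCell e c ρ) {i j : ι} (hij : ρ j < ρ i) {M : Type*}
    {A Q : M → Set E} (hA : Dlt dK c i ∩ Gam dK c j = ⋃ m, A m)
    (hQ : Gam dK c i ∩ Gam dK c j = ⋃ m, Q m) :
    Zer K c i ∩ Zer K c j = ⋃ m, Lidd e he (ρ i) (A m) (Q m) := by
  rw [H.inter_eq (he := he) hij, hA, hQ]
  unfold Lidd
  rw [← image_iUnion]
  congr 1
  rw [iUnion_union_distrib, iUnion_prod_const, iUnion_prod_const]

/-- **two sheet pieces meet in one point** if the curve of the deeper one meets the inside of the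
other one in exactly one point (dimension 2) -/
theorem ConeCell.inter_point (H : ConeCell e c ρ) {i j : ι} (hij : ρ j < ρ i) {p : E}
    (h1 : Gam dK c i ∩ Gam dK c j = ∅) (h2 : Dlt dK c i ∩ Gam dK c j = {p}) :
    Zer K c i ∩ Zer K c j = {(Th e he).f (p, ρ i)} := by
  rw [H.inter_eq (he := he) hij, h1, h2]
  simp

/-- no intersection -/
theorem ConeCell.inter_empty (H : ConeCell e c ρ) {i j : ι} (hij : ρ j < ρ i)
    (h2 : Dlt dK c i ∩ Gam dK c j = ∅) : Zer K c i ∩ Zer K c j = ∅ := by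
  have h1 : Gam dK c i ∩ Gam dK c j = ∅ := by
    rw [← subset_empty_iff, ← h2]
    exact fun ω h => ⟨⟨h.1.1, h.1.2.ge⟩, h.2⟩
  rw [H.inter_eq (he := he) hij, h1, h2]
  simp

end Cone

/-! ### the cone rule of 416 -/

section Fill

variable {E : Type*} [NormedAddCommGroup E] [NormedSpace ℝ E] {n : ℕ} {q dq : Set E} {I : Type*}
  {e : PLEquiv (cube n) q} {he : e.f '' sph n = dq} {L : Lam dq I} {K b : ℝ} {h ρ : I → ℝ}

lemma sign_cl {b : ℝ} (h0 : 0 < b) (t : ℝ) :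
    SignType.sign (cl (t / (2 * b))) = SignType.sign t := by
  have h2 : 0 < 2 * b := by linarith
  rcases lt_trichotomy t 0 with h | h | h
  · have h3 : t / (2 * b) < 0 := div_neg_of_neg_of_pos h h2
    have h4 : cl (t / (2 * b)) < 0 := by
      unfold cl
      exact max_lt (by norm_num) (lt_of_le_of_lt (min_le_left _ _) h3)
    rw [sign_neg h, sign_neg h4]
  · subst h
    have : cl (0 / (2 * b)) = 0 := by
      rw [zero_div]; exact cl_of_mem ⟨by norm_num, by norm_num⟩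
    rw [this]
  · have h3 : 0 < t / (2 * b) := div_pos h h2
    have h4 : 0 < cl (t / (2 * b)) := by
      unfold cl
      exact lt_max_of_lt_right (lt_min h3 (by norm_num))
    rw [sign_pos h, sign_pos h4]

lemma sign_ramp {h ρ r : ℝ} (hh : 0 < h) :
    SignType.sign (ramp h ρ r) = SignType.sign (r - ρ) := by
  have h1 : ramp h ρ r = cl ((r - ρ) / (2 * (h / 2))) := by
    unfold ramp; congr 2; ring
  rw [h1, sign_cl (by linarith)]

lemma sign_min (a b : ℝ) : SignType.sign (min a b) = min (SignType.sign a) (SignType.sign b) :=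
  (SignType.sign.monotone).map_min

/-- **a cell filled by the cone rule is a `ConeCell`** -/
theorem coneCell_fillBall (D : Dep L K b h ρ) : ConeCell e (D.fillBall e he).c ρ where
  lo i := by have := D.lo i; have := D.h0 i; linarith
  hi i := by have := D.hi i; have := D.h0 i; linarith
  low i z hz hr := by
    rw [D.fillBall_c, (D.pull e he).fill_c_low i hr]; norm_num
  sgn i z hz hr := by
    have hb := D.cst.b0
    have hO : z ∈ Out e := ⟨hz, hr⟩
    have hp := prj_mem e he hO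
    rw [D.fillBall_c_bd e he i hp, D.fillBall_c, (D.pull e he).fill_c_ann i (mem_ann e hO),
      sign_cl hb, sign_min, sign_cl hb, Af, sign_min]
    congr 1
    exact sign_ramp (D.h0 i)

/-- squeezing does not change the signs -/
theorem ConeCell.congr {c c' : I → E → ℝ} {e : PLEquiv (cube n) q} (H : ConeCell e c ρ)
    (he : e.f '' sph n = dq)
    (hs : ∀ i, ∀ z ∈ q, SignType.sign (c' i z) = SignType.sign (c i z)) : ConeCell e c' ρ where
  lo := H.lo
  hi := H.hi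
  low i z hz hr := by
    have h1 := H.low i z hz hr
    rw [← sign_eq_neg_one_iff] at h1 ⊢
    rw [hs i z hz, h1]
  sgn i z hz hr := by
    have hp := bd_sub e he (prj_mem e he (show z ∈ Out e from ⟨hz, hr⟩))
    rw [hs i z hz, H.sgn i z hz hr, sign_min, sign_min, hs i _ hp]

end Fill

end Crest.Agent.R096.Arc_778
end

-- ▼ part R096/Arc2_778
section

/-!
# R096 (row 96), (R4) CELL GEOMETRY, part 2: sides; components of a superlevel set on a circle
(helper778)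

* `sides` : a function on a sphere `A ∪ B` whose zero set is the common boundary of the balls
  `A`, `B`, and which has both signs: `{0 ≤ c}` is `A` or `B`.
* `interval_comp` : components of `{0 ≤ g}` on an interval.
* `circ_comp` : components of `{0 ≤ f}` on a PL circle are arcs with end points in `{f = 0}`.
-/

set_option autoImplicit false

open Set Metric

namespace Crest.Agent.R096.Arc_778

open Crest.Agent.R096.Ce_537 Crest.Agent.R096.Bd_416 Crest.Agent.R096.Cb_609 Crest.Agent.R096.Pl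

section Sides

variable {E : Type*} [NormedAddCommGroup E] [NormedSpace ℝ E]

/-- a continuous function without zeros on a preconnected set has a constant sign -/
lemma sign_const {X : Type*} [TopologicalSpace X] {T : Set X} (hT : IsPreconnected T)
    {c : X → ℝ} (hc : ContinuousOn c T) (h0 : ∀ x ∈ T, c x ≠ 0) :
    (∀ x ∈ T, c x < 0) ∨ (∀ x ∈ T, 0 < c x) := by
  by_contra hcon
  rw [not_or] at hcon
  obtain ⟨h1, h2⟩ := hcon
  push Not at h1 h2
  obtain ⟨x, hx, hx'⟩ := h1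
  obtain ⟨y, hy, hy'⟩ := h2
  obtain ⟨z, hz, hz0⟩ := hT.intermediate_value hy hx hc (show (0:ℝ) ∈ Icc (c y) (c x) from
    ⟨hy', hx'⟩)
  exact h0 z hz hz0

/-- **the two sides of the zero set** -/
theorem sides {k : ℕ} {K A B Γ S : Set E} (h : BallPair k K A B Γ) (hAB : A ∪ B = S)
    {c : E → ℝ} (hc : ContinuousOn c S) (hz : ∀ ω ∈ S, (c ω = 0 ↔ ω ∈ Γ))
    (hneg : ∃ ω ∈ S, c ω < 0) (hpos : ∃ ω ∈ S, 0 < c ω) :
    {ω | ω ∈ S ∧ 0 ≤ c ω} = A ∨ {ω | ω ∈ S ∧ 0 ≤ c ω} = B := by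
  have hA : A ⊆ S := hAB ▸ subset_union_left
  have hB : B ⊆ S := hAB ▸ subset_union_right
  have sA : (∀ x ∈ A \ Γ, c x < 0) ∨ (∀ x ∈ A \ Γ, 0 < c x) :=
    sign_const h.ball₁.isPreconnected_diff (hc.mono (sdiff_subset.trans hA))
      (fun x hx h0 => hx.2 ((hz x (hA hx.1)).1 h0))
  have sB : (∀ x ∈ B \ Γ, c x < 0) ∨ (∀ x ∈ B \ Γ, 0 < c x) :=
    sign_const h.ball₂.isPreconnected_diff (hc.mono (sdiff_subset.trans hB))
      (fun x hx h0 => hx.2 ((hz x (hB hx.1)).1 h0))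
  have hΓA : Γ ⊆ A := h.ball₁.subset
  have hΓB : Γ ⊆ B := h.ball₂.subset
  have key : ∀ {A B : Set E}, A ∪ B = S → Γ ⊆ A → (∀ x ∈ A \ Γ, 0 < c x) →
      (∀ x ∈ B \ Γ, c x < 0) → {ω | ω ∈ S ∧ 0 ≤ c ω} = A := by
    intro A B hAB hΓA h1 h2
    ext ω
    constructor
    · rintro ⟨hω, h0⟩
      by_cases hωΓ : ω ∈ Γ
      · exact hΓA hωΓ
      · rw [← hAB] at hω
        rcases hω with hω | hω
        · exact hω
        · exact absurd h0 (not_le.2 (h2 ω ⟨hω, hωΓ⟩))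
    · intro hω
      have hS : ω ∈ S := by rw [← hAB]; exact Or.inl hω
      refine ⟨hS, ?_⟩
      by_cases hωΓ : ω ∈ Γ
      · exact ((hz ω hS).2 hωΓ).ge
      · exact (h1 ω ⟨hω, hωΓ⟩).le
  rcases sA with sA | sA <;> rcases sB with sB | sB
  · exfalso
    obtain ⟨ω, hω, h0⟩ := hpos
    have hn : ω ∉ Γ := fun hc' => h0.ne' ((hz ω hω).2 hc')
    rw [← hAB] at hω
    rcases hω with hω | hω
    · exact lt_asymm h0 (sA ω ⟨hω, hn⟩)
    · exact lt_asymm h0 (sB ω ⟨hω, hn⟩)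
  · right; exact key (by rw [union_comm]; exact hAB) hΓB sB sA
  · left; exact key hAB hΓA sA sB
  · exfalso
    obtain ⟨ω, hω, h0⟩ := hneg
    have hn : ω ∉ Γ := fun hc' => h0.ne ((hz ω hω).2 hc')
    rw [← hAB] at hω
    rcases hω with hω | hω
    · exact lt_asymm h0 (sA ω ⟨hω, hn⟩)
    · exact lt_asymm h0 (sB ω ⟨hω, hn⟩)

/-- the inside of a pair of points on the boundary of a 2-ball is an arc -/
theorem isBall_dlt1 {ι : Type*} {K S : Set E} (hK : IsBall 2 K S) {c : ι → E → ℝ} {i : ι}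
    (hc : ContinuousOn (c i) S) {a b : E} (hab : a ≠ b) (hG : Gam S c i = {a, b})
    (hneg : ∃ ω ∈ S, c i ω < 0) (hpos : ∃ ω ∈ S, 0 < c i ω) :
    IsBall 1 (Dlt S c i) (Gam S c i) := by
  have ha : a ∈ Gam S c i := by rw [hG]; simp
  have hb : b ∈ Gam S c i := by rw [hG]; simp
  obtain ⟨A, B, h1, h2⟩ := two_marks hK ha.1 hb.1 hab
  rw [← hG] at h1
  rcases sides h1 h2 hc (fun ω hω => ⟨fun h => ⟨hω, h⟩, fun h => h.2⟩) hneg hpos with h3 | h3
  · show IsBall 1 {ω | ω ∈ S ∧ 0 ≤ c i ω} (Gam S c i)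
    rw [h3]; exact h1.ball₁
  · show IsBall 1 {ω | ω ∈ S ∧ 0 ≤ c i ω} (Gam S c i)
    rw [h3]; exact h1.ball₂

/-- the inside of a circle on the boundary of a 3-ball is a disc -/
theorem isBall_dlt2 [FiniteDimensional ℝ E] {ι : Type*} {K S : Set E} (hK : IsBall 3 K S)
    {c : ι → E → ℝ} {i : ι}
    (hc : ContinuousOn (c i) S) (hG : Nonempty (PLEquiv (S1 ℝ) (Gam S c i)))
    (hneg : ∃ ω ∈ S, c i ω < 0) (hpos : ∃ ω ∈ S, 0 < c i ω) :
    IsBall 2 (Dlt S c i) (Gam S c i) := by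
  obtain ⟨A, B, h1, h2⟩ := sphere_sides hK hG (fun ω h => h.1)
  rcases sides h1 h2 hc (fun ω hω => ⟨fun h => ⟨hω, h⟩, fun h => h.2⟩) hneg hpos with h3 | h3
  · show IsBall 2 {ω | ω ∈ S ∧ 0 ≤ c i ω} (Gam S c i)
    rw [h3]; exact h1.ball₁
  · show IsBall 2 {ω | ω ∈ S ∧ 0 ≤ c i ω} (Gam S c i)
    rw [h3]; exact h1.ball₂

end Sides

section Interval

/-- **components of `{0 ≤ g}` on an interval** -/
theorem interval_comp {g : ℝ → ℝ} {u v : ℝ} (hg : ContinuousOn g (Icc u v)) (hu : g u < 0)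
    (hv : g v < 0)
    (hN : ∀ t ∈ Ioo u v, g t = 0 → t ∈ closure {t' | t' ∈ Icc u v ∧ g t' < 0})
    (hP : ∀ t ∈ Icc u v, g t = 0 →
      ∃ T ⊆ {t' | t' ∈ Icc u v ∧ 0 ≤ g t'}, IsPreconnected T ∧ t ∈ T ∧ T.Nontrivial)
    {t0 : ℝ} (ht0 : t0 ∈ Icc u v) (hg0 : 0 ≤ g t0) :
    ∃ a b, a < b ∧ u < a ∧ b < v ∧ t0 ∈ Icc a b ∧ g a = 0 ∧ g b = 0 ∧
      (∀ t ∈ Ioo a b, 0 < g t) ∧
      ∀ C ⊆ {t' | t' ∈ Icc u v ∧ 0 ≤ g t'}, IsPreconnected C → t0 ∈ C → C ⊆ Icc a b := by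
  set X : Set ℝ := {t' | t' ∈ Icc u v ∧ 0 ≤ g t'} with hX
  have hXc : IsClosed X := hg.preimage_isClosed_of_isClosed isClosed_Icc isClosed_Ici
  have h0X : t0 ∈ X := ⟨ht0, hg0⟩
  set C0 : Set ℝ := connectedComponentIn X t0 with hC0
  have hC0X : C0 ⊆ X := connectedComponentIn_subset X t0
  have hC0p : IsPreconnected C0 := isPreconnected_connectedComponentIn
  have h0C : t0 ∈ C0 := mem_connectedComponentIn h0X
  have hC0c : IsClosed C0 := by
    have h1 : IsPreconnected (closure C0) := hC0p.closure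
    have h2 : closure C0 ⊆ X := closure_minimal hC0X hXc
    have h3 : closure C0 ⊆ C0 := h1.subset_connectedComponentIn (subset_closure h0C) h2
    exact closure_subset_iff_isClosed.1 h3
  have hmax : ∀ C ⊆ X, IsPreconnected C → t0 ∈ C → C ⊆ C0 := fun C hC hCp h0 =>
    hCp.subset_connectedComponentIn h0 hC
  have hbd : C0 ⊆ Icc u v := fun t ht => (hC0X ht).1
  have hbb : BddBelow C0 := ⟨u, fun t ht => (hbd ht).1⟩
  have hba : BddAbove C0 := ⟨v, fun t ht => (hbd ht).2⟩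
  set a := sInf C0 with ha
  set b := sSup C0 with hb
  have haC : a ∈ C0 := hC0c.csInf_mem ⟨t0, h0C⟩ hbb
  have hbC : b ∈ C0 := hC0c.csSup_mem ⟨t0, h0C⟩ hba
  have hord := hC0p.ordConnected
  have hC0eq : C0 = Icc a b := by
    apply Subset.antisymm
    · intro t ht; exact ⟨csInf_le hbb ht, le_csSup hba ht⟩
    · exact hord.out haC hbC
  have hga0 : 0 ≤ g a := (hC0X haC).2
  have hgb0 : 0 ≤ g b := (hC0X hbC).2
  have hua : u < a := by
    rcases (hbd haC).1.lt_or_eq with h | h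
    · exact h
    · rw [← h] at hga0; exact absurd hga0 (not_le.2 hu)
  have hbv : b < v := by
    rcases (hbd hbC).2.lt_or_eq with h | h
    · exact h
    · rw [h] at hgb0; exact absurd hgb0 (not_le.2 hv)
  have hab' : a ≤ b := csInf_le hbb hbC
  have hbu : u < b := hua.trans_le hab'
  have hav : a < v := hab'.trans_lt hbv
  have hga : g a = 0 := by
    by_contra hne
    have hpos : 0 < g a := lt_of_le_of_ne hga0 (Ne.symm hne)
    have hcont : ContinuousAt g a := hg.continuousAt (Icc_mem_nhds hua hav)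
    have hev : ∀ᶠ t in nhds a, 0 < g t := hcont.eventually (lt_mem_nhds hpos)
    obtain ⟨ε, hε, hball⟩ := Metric.eventually_nhds_iff_ball.1 hev
    set δ := min ε (a - u) / 2 with hδ
    have hδ0 : 0 < δ := by
      have : 0 < min ε (a - u) := lt_min hε (by linarith)
      linarith
    have hδε : δ < ε := by
      have := min_le_left ε (a - u)
      linarith
    have hδu : δ < a - u := by
      have := min_le_right ε (a - u)
      linarith
    have h1 : IsPreconnected (C0 ∪ Icc (a - δ) a) :=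
      hC0p.union a haC (right_mem_Icc.2 (by linarith)) isPreconnected_Icc
    have h2 : C0 ∪ Icc (a - δ) a ⊆ X := by
      rintro t (ht | ht)
      · exact hC0X ht
      · refine ⟨⟨by linarith [ht.1], by linarith [ht.2]⟩, (hball t ?_).le⟩
        rw [Metric.mem_ball, Real.dist_eq, abs_lt]
        constructor <;> linarith [ht.1, ht.2]
    have h3 := hmax _ h2 h1 (Or.inl h0C)
    have h4 : a - δ ∈ C0 := h3 (Or.inr (left_mem_Icc.2 (by linarith)))
    have h5 := csInf_le hbb h4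
    linarith
  have hgb : g b = 0 := by
    by_contra hne
    have hpos : 0 < g b := lt_of_le_of_ne hgb0 (Ne.symm hne)
    have hcont : ContinuousAt g b := hg.continuousAt (Icc_mem_nhds hbu hbv)
    have hev : ∀ᶠ t in nhds b, 0 < g t := hcont.eventually (lt_mem_nhds hpos)
    obtain ⟨ε, hε, hball⟩ := Metric.eventually_nhds_iff_ball.1 hev
    set δ := min ε (v - b) / 2 with hδ
    have hδ0 : 0 < δ := by
      have : 0 < min ε (v - b) := lt_min hε (by linarith)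
      linarith
    have hδε : δ < ε := by
      have := min_le_left ε (v - b)
      linarith
    have hδu : δ < v - b := by
      have := min_le_right ε (v - b)
      linarith
    have h1 : IsPreconnected (C0 ∪ Icc b (b + δ)) :=
      hC0p.union b hbC (left_mem_Icc.2 (by linarith)) isPreconnected_Icc
    have h2 : C0 ∪ Icc b (b + δ) ⊆ X := by
      rintro t (ht | ht)
      · exact hC0X ht
      · refine ⟨⟨by linarith [ht.1], by linarith [ht.2]⟩, (hball t ?_).le⟩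
        rw [Metric.mem_ball, Real.dist_eq, abs_lt]
        constructor <;> linarith [ht.1, ht.2]
    have h3 := hmax _ h2 h1 (Or.inl h0C)
    have h4 : b + δ ∈ C0 := h3 (Or.inr (right_mem_Icc.2 (by linarith)))
    have h5 := le_csSup hba h4
    linarith
  have hab : a < b := by
    rcases hab'.lt_or_eq with h | h
    · exact h
    · exfalso
      have h1 : C0 = {a} := by rw [hC0eq, ← h, Icc_self]
      have h2 : t0 = a := by
        have := h0C
        rw [h1] at this; exact this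
      obtain ⟨T, hT, hTp, htT, hTn⟩ := hP t0 ht0 (by rw [h2]; exact hga)
      have h3 := hmax T hT hTp htT
      rw [h1] at h3
      exact hTn.not_subset_singleton h3
  refine ⟨a, b, hab, hua, hbv, by rw [← hC0eq]; exact h0C, hga, hgb, ?_, ?_⟩
  · intro t ht
    have htC : t ∈ C0 := by rw [hC0eq]; exact ⟨ht.1.le, ht.2.le⟩
    have h1 := (hC0X htC).2
    rcases h1.lt_or_eq with h2 | h2
    · exact h2
    · exfalso
      have h3 := hN t ⟨hua.trans ht.1, ht.2.trans hbv⟩ h2.symm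
      rw [Metric.mem_closure_iff] at h3
      have hpos : 0 < min (t - a) (b - t) := lt_min (by linarith [ht.1]) (by linarith [ht.2])
      obtain ⟨t', ht', hd⟩ := h3 _ hpos
      rw [Real.dist_eq, abs_lt] at hd
      have h4 := min_le_left (t - a) (b - t)
      have h5 := min_le_right (t - a) (b - t)
      have h6 : t' ∈ C0 := by
        rw [hC0eq]; constructor <;> linarith [hd.1, hd.2]
      exact absurd (hC0X h6).2 (not_le.2 ht'.2)
  · intro C hC hCp h0
    rw [← hC0eq]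
    exact hmax C hC hCp h0

end Interval

section Circle

variable {E : Type*} [NormedAddCommGroup E] [NormedSpace ℝ E]

/-- a PL circle is cut into two arcs by two points -/
theorem circ_two_marks {Γ : Set E} (hΓ : Nonempty (PLEquiv (S1 ℝ) Γ)) {p q : E} (hp : p ∈ Γ)
    (hq : q ∈ Γ) (hne : p ≠ q) : ∃ A B, IsBall 1 A {p, q} ∧ IsBall 1 B {p, q} ∧
      A ∩ B = {p, q} ∧ A ∪ B = Γ := by
  obtain ⟨c⟩ := hΓ
  have hp' : c.g p ∈ S1 ℝ := c.mg hp
  have hq' : c.g q ∈ S1 ℝ := c.mg hq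
  have hne' : c.g p ≠ c.g q := fun h => hne (c.symm.injOn hp hq h)
  obtain ⟨A, B, h1, h2⟩ := two_marks isBall_plane hp' hq' hne'
  have hA : A ⊆ S1 ℝ := h2 ▸ subset_union_left
  have hB : B ⊆ S1 ℝ := h2 ▸ subset_union_right
  have him : c.f '' {c.g p, c.g q} = {p, q} := by
    rw [image_pair, c.ri p hp, c.ri q hq]
  refine ⟨c.f '' A, c.f '' B, ?_, ?_, ?_, ?_⟩
  · have := h1.ball₁.map (c.restrImage hA)
    have h3 : (c.restrImage hA).f '' {c.g p, c.g q} = {p, q} := him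
    rwa [h3] at this
  · have := h1.ball₂.map (c.restrImage hB)
    have h3 : (c.restrImage hB).f '' {c.g p, c.g q} = {p, q} := him
    rwa [h3] at this
  · rw [← him, ← h1.inter]
    exact ((c.injOn.image_inter hA hB)).symm
  · rw [← image_union, h2]; exact c.image_eq

lemma circ_isPreconnected {Γ : Set E} (hΓ : Nonempty (PLEquiv (S1 ℝ) Γ)) : IsPreconnected Γ := by
  obtain ⟨c⟩ := hΓ
  obtain ⟨p, hp, q, hq, hne⟩ : ∃ p ∈ S1 ℝ, ∃ q ∈ S1 ℝ, p ≠ q := by
    refine ⟨((1:ℝ), (0:ℝ)), ?_, ((-1:ℝ), (0:ℝ)), ?_, ?_⟩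
    · show N1 _ = 1; simp [N1]
    · show N1 _ = 1; simp [N1]
    · intro h; have := congrArg Prod.fst h; norm_num at this
  obtain ⟨A, B, h1, h2⟩ := two_marks isBall_plane hp hq hne
  have h3 : IsPreconnected (S1 ℝ) := by
    rw [← h2]
    exact h1.ball₁.isPreconnected.union p (h1.ball₁.subset (by simp))
      (h1.ball₂.subset (by simp)) h1.ball₂.isPreconnected
  rw [← c.image_eq]
  exact h3.image _ c.pf.1

lemma circ_nontrivial {Γ : Set E} (hΓ : Nonempty (PLEquiv (S1 ℝ) Γ)) : Γ.Nontrivial := by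
  obtain ⟨c⟩ := hΓ
  have hp : ((1:ℝ), (0:ℝ)) ∈ S1 ℝ := by show N1 _ = 1; simp [N1]
  have hq : ((-1:ℝ), (0:ℝ)) ∈ S1 ℝ := by show N1 _ = 1; simp [N1]
  refine ⟨_, c.mf hp, _, c.mf hq, fun h => ?_⟩
  have h1 := c.injOn hp hq h
  have := congrArg Prod.fst h1; norm_num at this

lemma circ_isCompact {Γ : Set E} (hΓ : Nonempty (PLEquiv (S1 ℝ) Γ)) : IsCompact Γ := by
  obtain ⟨c⟩ := hΓ
  rw [← c.image_eq]
  exact isCompact_S1.image_of_continuousOn c.pf.1

/-- a subarc of a chart -/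
lemma isBall_subarc {A : Set E} (e : PLEquiv (cube 1) A) {a b : ℝ} (hab : a < b) (ha : -1 ≤ a)
    (hb : b ≤ 1) : IsBall 1 ((fun t : ℝ => e.f (fun _ => t)) '' Icc a b)
      {e.f (fun _ => a), e.f (fun _ => b)} := by
  have hne : (fun _ => a : Fin 1 → ℝ) ≠ fun _ => b := fun h => hab.ne (congrFun h 0)
  have h1 := isBall_segment hne
  have h2 : segment ℝ (fun _ => a : Fin 1 → ℝ) (fun _ => b) = (fun t : ℝ => (fun _ => t : Fin 1 → ℝ)) '' Icc a b := by
    rw [segment_eq_image_lineMap]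
    ext x
    constructor
    · rintro ⟨s, hs, rfl⟩
      refine ⟨a + s * (b - a), ⟨by nlinarith [hs.1], by nlinarith [hs.2]⟩, ?_⟩
      funext j
      simp [AffineMap.lineMap_apply]; ring
    · rintro ⟨t, ht, rfl⟩
      refine ⟨(t - a) / (b - a), ⟨div_nonneg (by linarith [ht.1]) (by linarith),
        by rw [div_le_one (by linarith)]; linarith [ht.2]⟩, ?_⟩
      funext j
      simp only [AffineMap.lineMap_apply, vsub_eq_sub, vadd_eq_add, Pi.add_apply, Pi.smul_apply,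
        Pi.sub_apply, smul_eq_mul]
      field_simp [show b - a ≠ 0 by linarith]
      ring
  have hsub : segment ℝ (fun _ => a : Fin 1 → ℝ) (fun _ => b) ⊆ cube 1 := by
    rw [h2]
    rintro _ ⟨t, ht, rfl⟩
    rw [mem_cube1, abs_le]
    exact ⟨by linarith [ht.1], by linarith [ht.2]⟩
  have h3 := h1.map (e.restrImage hsub)
  have h4 : e.f '' segment ℝ (fun _ => a : Fin 1 → ℝ) (fun _ => b)
      = (fun t : ℝ => e.f (fun _ => t)) '' Icc a b := by
    rw [h2, image_image]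
  have h5 : (e.restrImage hsub).f '' {(fun _ => a : Fin 1 → ℝ), fun _ => b}
      = {e.f (fun _ => a), e.f (fun _ => b)} := by
    rw [image_pair]; rfl
  rw [h5] at h3
  have h6 : (e.f '' segment ℝ (fun _ => a : Fin 1 → ℝ) (fun _ => b)) =
    (fun t : ℝ => e.f (fun _ => t)) '' Icc a b := h4
  rw [← h6]
  exact h3

/-- **components of `{0 ≤ f}` on an arc** with `f < 0` at both ends -/
theorem arc_comp {A : Set E} {p q : E} (hA : IsBall 1 A {p, q}) {f : E → ℝ}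
    (hf : ContinuousOn f A) (hp : f p < 0) (hq : f q < 0)
    (hN : ∀ ω ∈ A, ω ≠ p → ω ≠ q → f ω = 0 → ω ∈ closure {ω' | ω' ∈ A ∧ f ω' < 0})
    (hP : ∀ ω ∈ A, f ω = 0 → ∃ T ⊆ {ω' | ω' ∈ A ∧ 0 ≤ f ω'},
      IsPreconnected T ∧ ω ∈ T ∧ T.Nontrivial)
    {ω0 : E} (h0 : ω0 ∈ A) (h0' : 0 ≤ f ω0) :
    ∃ B z z', IsBall 1 B {z, z'} ∧ B ⊆ A ∧ ω0 ∈ B ∧ f z = 0 ∧ f z' = 0 ∧
      (∀ ω ∈ B, ω ≠ z → ω ≠ z' → 0 < f ω) ∧
      ∀ C ⊆ {ω' | ω' ∈ A ∧ 0 ≤ f ω'}, IsPreconnected C → ω0 ∈ C → C ⊆ B := by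
  obtain ⟨e, he⟩ := hA
  set γ : ℝ → E := fun t => e.f (fun _ => t) with hγ
  set τ : E → ℝ := fun ω => e.g ω 0 with hτ
  have hIc : ∀ t ∈ Icc (-1:ℝ) 1, (fun _ => t : Fin 1 → ℝ) ∈ cube 1 := fun t ht =>
    mem_cube1.2 (abs_le.2 ht)
  have hγm : ∀ t ∈ Icc (-1:ℝ) 1, γ t ∈ A := fun t ht => e.mf (hIc t ht)
  have hγc : ContinuousOn γ (Icc (-1) 1) :=
    e.pf.1.comp (by fun_prop) (fun t ht => hIc t ht)
  have hτc : ContinuousOn τ A := (continuous_apply 0).comp_continuousOn e.pg.1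
  have hτm : ∀ ω ∈ A, τ ω ∈ Icc (-1:ℝ) 1 := fun ω hω => abs_le.1 (mem_cube1.1 (e.mg hω))
  have hγτ : ∀ ω ∈ A, γ (τ ω) = ω := by
    intro ω hω
    have : (fun _ => e.g ω 0 : Fin 1 → ℝ) = e.g ω := by funext j; rw [Subsingleton.elim j 0]
    show e.f (fun _ => e.g ω 0) = ω
    rw [this]; exact e.ri ω hω
  have hτγ : ∀ t ∈ Icc (-1:ℝ) 1, τ (γ t) = t := by
    intro t ht
    show e.g (e.f (fun _ => t)) 0 = t
    rw [e.li _ (hIc t ht)]
  have hm1 : (fun _ => -1 : Fin 1 → ℝ) ∈ sph 1 := mem_sph1.2 (by norm_num)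
  have hp1 : (fun _ => 1 : Fin 1 → ℝ) ∈ sph 1 := mem_sph1.2 (by norm_num)
  have hends : ∀ ω ∈ ({p, q} : Set E), f ω < 0 := by
    rintro ω (rfl | rfl)
    · exact hp
    · exact hq
  have hu : f (γ (-1)) < 0 := hends _ (by rw [← he]; exact ⟨_, hm1, rfl⟩)
  have hv : f (γ 1) < 0 := hends _ (by rw [← he]; exact ⟨_, hp1, rfl⟩)
  have hg : ContinuousOn (fun t => f (γ t)) (Icc (-1) 1) := hf.comp hγc hγm
  have hne : ∀ t ∈ Ioo (-1:ℝ) 1, γ t ≠ p ∧ γ t ≠ q := by
    intro t ht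
    have ht' : t ∈ Icc (-1:ℝ) 1 := ⟨ht.1.le, ht.2.le⟩
    have key : γ t ∉ ({p, q} : Set E) := by
      rw [← he]
      rintro ⟨x, hx, hxe⟩
      have h1 : x = fun _ => t := e.injOn (sph_subset_cube hx) (hIc t ht') hxe
      rw [h1, mem_sph1] at hx
      have h2 : |t| < 1 := abs_lt.2 ht
      exact h2.ne hx
    exact ⟨fun h => key (by rw [h]; simp), fun h => key (by rw [h]; simp)⟩
  have hτimg : ∀ T ⊆ {ω' | ω' ∈ A ∧ 0 ≤ f ω'}, IsPreconnected T →
      IsPreconnected (τ '' T) ∧ τ '' T ⊆ {t' | t' ∈ Icc (-1:ℝ) 1 ∧ 0 ≤ f (γ t')} := by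
    intro T hT hTp
    refine ⟨hTp.image _ (hτc.mono fun ω h => (hT h).1), ?_⟩
    rintro _ ⟨ω, hω, rfl⟩
    refine ⟨hτm ω (hT hω).1, ?_⟩
    rw [hγτ ω (hT hω).1]; exact (hT hω).2
  obtain ⟨a, b, hab, hua, hbv, h0ab, hga, hgb, hpos, hmax⟩ := interval_comp (g := fun t => f (γ t))
    (u := -1) (v := 1) hg hu hv (by
      intro t ht h0
      have ht' : t ∈ Icc (-1:ℝ) 1 := ⟨ht.1.le, ht.2.le⟩
      have h1 := hN (γ t) (hγm t ht') (hne t ht).1 (hne t ht).2 h0
      have h2 : τ (γ t) ∈ closure (τ '' {ω' | ω' ∈ A ∧ f ω' < 0}) := by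
        have hcw : ContinuousWithinAt τ {ω' | ω' ∈ A ∧ f ω' < 0} (γ t) :=
          (hτc (γ t) (hγm t ht')).mono fun ω h => h.1
        exact hcw.mem_closure_image h1
      rw [hτγ t ht'] at h2
      refine closure_mono ?_ h2
      rintro _ ⟨ω, hω, rfl⟩
      refine ⟨hτm ω hω.1, ?_⟩
      rw [hγτ ω hω.1]; exact hω.2) (by
      intro t ht h0
      obtain ⟨T, hT, hTp, hTt, hTn⟩ := hP (γ t) (hγm t ht) h0
      obtain ⟨h1, h2⟩ := hτimg T hT hTp
      refine ⟨τ '' T, h2, h1, ⟨γ t, hTt, hτγ t ht⟩, ?_⟩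
      refine hTn.image_of_injOn ?_
      intro x hx y hy hxy
      rw [← hγτ x (hT hx).1, ← hγτ y (hT hy).1, hxy])
    (hτm ω0 h0) (by rw [hγτ ω0 h0]; exact h0')
  have hIab : Icc a b ⊆ Icc (-1:ℝ) 1 := Icc_subset_Icc hua.le hbv.le
  refine ⟨γ '' Icc a b, γ a, γ b, isBall_subarc e hab hua.le hbv.le, ?_, ?_, hga, hgb, ?_, ?_⟩
  · rintro _ ⟨t, ht, rfl⟩; exact hγm t (hIab ht)
  · exact ⟨τ ω0, h0ab, hγτ ω0 h0⟩
  · rintro _ ⟨t, ht, rfl⟩ h1 h2
    refine hpos t ⟨lt_of_le_of_ne ht.1 ?_, lt_of_le_of_ne ht.2 ?_⟩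
    · rintro rfl; exact h1 rfl
    · rintro rfl; exact h2 rfl
  · intro C hC hCp h0C ω hω
    obtain ⟨h1, h2⟩ := hτimg C hC hCp
    have h3 := hmax (τ '' C) h2 h1 ⟨ω0, h0C, rfl⟩ ⟨ω, hω, rfl⟩
    exact ⟨τ ω, h3, hγτ ω (hC hω).1⟩

/-- **components of `{0 ≤ f}` on a PL circle are arcs with end points in `{f = 0}`** -/
theorem circ_comp {Γ : Set E} (hΓ : Nonempty (PLEquiv (S1 ℝ) Γ)) {f : E → ℝ}
    (hf : ContinuousOn f Γ) (hneg : ∃ ω ∈ Γ, f ω < 0)
    (hN : ∀ ω ∈ Γ, f ω = 0 → ω ∈ closure {ω' | ω' ∈ Γ ∧ f ω' < 0})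
    (hP : ∀ ω ∈ Γ, f ω = 0 → ∃ T ⊆ {ω' | ω' ∈ Γ ∧ 0 ≤ f ω'},
      IsPreconnected T ∧ ω ∈ T ∧ T.Nontrivial)
    {ω0 : E} (h0 : ω0 ∈ Γ) (h0' : 0 ≤ f ω0) :
    ∃ B z z', IsBall 1 B {z, z'} ∧ B ⊆ Γ ∧ ω0 ∈ B ∧ f z = 0 ∧ f z' = 0 ∧
      (∀ ω ∈ B, ω ≠ z → ω ≠ z' → 0 < f ω) ∧
      ∀ C ⊆ {ω' | ω' ∈ Γ ∧ 0 ≤ f ω'}, IsPreconnected C → ω0 ∈ C → C ⊆ B := by
  have hΓc := circ_isCompact hΓ
  -- two negative points
  obtain ⟨p, hp, q, hq, hpq, hfp, hfq⟩ : ∃ p ∈ Γ, ∃ q ∈ Γ, p ≠ q ∧ f p < 0 ∧ f q < 0 := by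
    obtain ⟨p, hp, hfp⟩ := hneg
    by_contra hcon
    push Not at hcon
    have h1 : ∀ q ∈ Γ, q ≠ p → 0 ≤ f q := fun q hq hne => hcon p hp q hq (Ne.symm hne) hfp
    have hpre := circ_isPreconnected hΓ
    obtain ⟨y, hy, hyp⟩ : ∃ y ∈ Γ, y ≠ p := (circ_nontrivial hΓ).exists_ne p
    -- intermediate value: values in `(f p, 0)`
    obtain ⟨x, hx, hx0⟩ := hpre.intermediate_value hp hy hf
      (show f p / 2 ∈ Icc (f p) (f y) from ⟨by linarith, by linarith [h1 y hy hyp]⟩)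
    by_cases hxp : x = p
    · rw [hxp] at hx0; linarith
    · have := h1 x hx hxp; linarith
  obtain ⟨A, B, hA, hB, hAB, hU⟩ := circ_two_marks hΓ hp hq hpq
  -- both arcs are treated in the same way
  have key : ∀ {A B : Set E}, IsBall 1 A {p, q} → IsBall 1 B {p, q} → A ∩ B = {p, q} →
      A ∪ B = Γ → ω0 ∈ A → ∃ B' z z', IsBall 1 B' {z, z'} ∧ B' ⊆ Γ ∧ ω0 ∈ B' ∧ f z = 0 ∧
        f z' = 0 ∧ (∀ ω ∈ B', ω ≠ z → ω ≠ z' → 0 < f ω) ∧
        ∀ C ⊆ {ω' | ω' ∈ Γ ∧ 0 ≤ f ω'}, IsPreconnected C → ω0 ∈ C → C ⊆ B' := by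
    intro A B hA hB hAB hU h0A
    have hAΓ : A ⊆ Γ := hU ▸ subset_union_left
    have hnot : ∀ ω, 0 ≤ f ω → ω ∉ ({p, q} : Set E) := by
      rintro ω hω (rfl | rfl)
      · exact absurd hω (not_le.2 hfp)
      · exact absurd hω (not_le.2 hfq)
    -- a preconnected set in `{0 ≤ f}` which meets `A` lies in `A`
    have hin : ∀ C ⊆ {ω' | ω' ∈ Γ ∧ 0 ≤ f ω'}, IsPreconnected C → ∀ x ∈ C, x ∈ A → C ⊆ A := by
      intro C hC hCp x hx hxA
      by_contra hcon
      rw [not_subset] at hcon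
      obtain ⟨y, hy, hyA⟩ := hcon
      have hyB : y ∈ B := by
        have := (hC hy).1
        rw [← hU] at this
        exact this.resolve_left hyA
      obtain ⟨w, hwC, hwA, hwB⟩ := isPreconnected_closed_iff.1 hCp A B hA.isClosed hB.isClosed
        (by rw [hU]; exact fun ω h => (hC h).1) ⟨x, hx, hxA⟩ ⟨y, hy, hyB⟩
      refine hnot w (hC hwC).2 ?_
      rw [← hAB]; exact ⟨hwA, hwB⟩
    obtain ⟨B', z, z', h1, h2, h3, h4, h5, h6, h7⟩ := arc_comp hA (hf.mono hAΓ) hfp hfq (by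
      intro ω hω hω1 hω2 hω0
      have h1 := hN ω (hAΓ hω) hω0
      have hωB : ω ∉ B := fun hB' => by
        have : ω ∈ ({p, q} : Set E) := by rw [← hAB]; exact ⟨hω, hB'⟩
        rcases this with h | h
        · exact hω1 h
        · exact hω2 h
      have hopen : Bᶜ ∈ nhds ω := hB.isClosed.isOpen_compl.mem_nhds hωB
      rw [mem_closure_iff_nhds] at h1 ⊢
      intro U hU'
      obtain ⟨y, ⟨hyU, hyB⟩, hy1, hy2⟩ := h1 (U ∩ Bᶜ) (Filter.inter_mem hU' hopen)
      refine ⟨y, hyU, ?_, hy2⟩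
      rw [← hU] at hy1
      exact hy1.resolve_right hyB) (by
      intro ω hω hω0
      obtain ⟨T, hT, hTp, hωT, hTn⟩ := hP ω (hAΓ hω) hω0
      exact ⟨T, fun y hy => ⟨hin T hT hTp ω hωT hω hy, (hT hy).2⟩, hTp, hωT, hTn⟩) h0A h0'
    refine ⟨B', z, z', h1, h2.trans hAΓ, h3, h4, h5, h6, fun C hC hCp h0C => ?_⟩
    exact h7 C (fun y hy => ⟨hin C hC hCp ω0 h0C h0A hy, (hC hy).2⟩) hCp h0C
  rw [← hU] at h0
  rcases h0 with h0 | h0
  · exact key hA hB hAB hU h0
  · exact key hB hA (by rw [inter_comm]; exact hAB) (by rw [union_comm]; exact hU) h0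

end Circle

end Crest.Agent.R096.Arc_778
end

-- ▼ part R096/Arc3_778
section

/-!
# R096 (row 96), (R4) CELL GEOMETRY, part 3: two pieces on a sphere; depth numbers for ALL pairs
(helper778)

* `Two S f` : `{0 ≤ f}` and `{f ≤ 0}` are preconnected, `f` has a zero.
* `Two.swap` : alternation is symmetric.  `Two.lam4` : no alternation ⟹ disjoint or nested.
* `Inc C K c τ x x'` : `x` lies inside `x'` (any two families).  `Ins.inc` : contains 416's `Ins`.
* `exists_rank_all` : depth numbers for `Inc` = requirement (N).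
-/

set_option autoImplicit false

open Set Metric

namespace Crest.Agent.R096.Arc_778

open Crest.Agent.R096.Ce_537 Crest.Agent.R096.Bd_416 Crest.Agent.R096.Cb_609 Crest.Agent.R096.Pl

open scoped Classical

/-! ### two functions on a sphere -/

section two

variable {X : Type*} [TopologicalSpace X] {S : Set X} {f g : X → ℝ}

/-- a function with two sides -/
structure Two (S : Set X) (f : X → ℝ) : Prop where
  cont : ContinuousOn f S
  pos : IsPreconnected {ω | ω ∈ S ∧ 0 ≤ f ω}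
  neg : IsPreconnected {ω | ω ∈ S ∧ f ω ≤ 0}
  zero : ∃ ω ∈ S, f ω = 0

/-- **alternation is symmetric** -/
theorem Two.swap (hf : Two S f) (hg : Two S g) (hd : ∀ ω ∈ S, f ω = 0 → g ω ≠ 0)
    (h1 : ∃ ω ∈ S, f ω = 0 ∧ 0 < g ω) (h2 : ∃ ω ∈ S, f ω = 0 ∧ g ω < 0) :
    (∃ ω ∈ S, g ω = 0 ∧ 0 < f ω) ∧ (∃ ω ∈ S, g ω = 0 ∧ f ω < 0) := by
  obtain ⟨u, hu, hu0, hug⟩ := h1
  obtain ⟨v, hv, hv0, hvg⟩ := h2
  have hd' : ∀ ω ∈ S, g ω = 0 → f ω ≠ 0 := fun ω hω h h' => hd ω hω h' h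
  constructor
  · obtain ⟨z, hz, hz0⟩ := hf.pos.intermediate_value (a := v) (b := u) ⟨hv, hv0.ge⟩ ⟨hu, hu0.ge⟩
      (hg.cont.mono fun ω h => h.1) (show (0:ℝ) ∈ Icc (g v) (g u) from ⟨hvg.le, hug.le⟩)
    exact ⟨z, hz.1, hz0, lt_of_le_of_ne hz.2 (Ne.symm (hd' z hz.1 hz0))⟩
  · obtain ⟨z, hz, hz0⟩ := hf.neg.intermediate_value (a := v) (b := u) ⟨hv, hv0.le⟩ ⟨hu, hu0.le⟩
      (hg.cont.mono fun ω h => h.1) (show (0:ℝ) ∈ Icc (g v) (g u) from ⟨hvg.le, hug.le⟩)
    exact ⟨z, hz.1, hz0, lt_of_le_of_ne hz.2 (hd' z hz.1 hz0)⟩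

/-- **no alternation: disjoint or nested** -/
theorem Two.lam4 (hf : Two S f) (hg : Two S g) (hd : ∀ ω ∈ S, f ω = 0 → g ω ≠ 0)
    (hs : (∀ ω ∈ S, f ω = 0 → 0 < g ω) ∨ (∀ ω ∈ S, f ω = 0 → g ω < 0))
    {o : X} (ho : o ∈ S) (hof : f o < 0) (hog : g o < 0) :
    (∀ ω ∈ S, 0 ≤ f ω → g ω < 0) ∨ (∀ ω ∈ S, 0 ≤ f ω → 0 < g ω) ∨
      (∀ ω ∈ S, 0 ≤ g ω → 0 < f ω) := by
  have hd' : ∀ ω ∈ S, g ω = 0 → f ω ≠ 0 := fun ω hω h h' => hd ω hω h' h
  -- the sign of `f` on the zeros of `g`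
  have hs' : (∀ ω ∈ S, g ω = 0 → 0 < f ω) ∨ (∀ ω ∈ S, g ω = 0 → f ω < 0) := by
    by_contra hcon
    rw [not_or] at hcon
    obtain ⟨h1, h2⟩ := hcon
    push Not at h1 h2
    obtain ⟨u, hu, hu0, huf⟩ := h1
    obtain ⟨v, hv, hv0, hvf⟩ := h2
    obtain ⟨⟨a, ha, ha0, hag⟩, ⟨b, hb, hb0, hbg⟩⟩ := hg.swap hf hd'
      ⟨v, hv, hv0, lt_of_le_of_ne hvf (Ne.symm (hd' v hv hv0))⟩
      ⟨u, hu, hu0, lt_of_le_of_ne huf (hd' u hu hu0)⟩
    rcases hs with hs | hs
    · exact lt_asymm hbg (hs b hb hb0)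
    · exact lt_asymm hag (hs a ha ha0)
  obtain ⟨u, hu, hu0⟩ := hf.zero
  obtain ⟨v, hv, hv0⟩ := hg.zero
  have hgc : ContinuousOn g {ω | ω ∈ S ∧ 0 ≤ f ω} := hg.cont.mono fun ω h => h.1
  rcases hs' with hs' | hs'
  · rcases hs with hs | hs
    · -- impossible
      exfalso
      obtain ⟨z, hz, hz0⟩ := hf.neg.intermediate_value (a := o) (b := u) ⟨ho, hof.le⟩
        ⟨hu, hu0.le⟩ (hg.cont.mono fun ω h => h.1)
        (show (0:ℝ) ∈ Icc (g o) (g u) from ⟨hog.le, (hs u hu hu0).le⟩)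
      exact absurd (hs' z hz.1 hz0) (not_lt.2 hz.2)
    · -- `{0 ≤ g}` inside `{0 < f}`
      right; right
      have h0 : ∀ ω ∈ {ω | ω ∈ S ∧ 0 ≤ g ω}, f ω ≠ 0 := fun ω hω h =>
        absurd (hs ω hω.1 h) (not_lt.2 hω.2)
      rcases sign_const hg.pos (hf.cont.mono fun ω h => h.1) h0 with h | h
      · exact absurd (h v ⟨hv, hv0.ge⟩) (not_lt.2 (hs' v hv hv0).le)
      · exact fun ω hω h1 => h ω ⟨hω, h1⟩
  · have h0 : ∀ ω ∈ {ω | ω ∈ S ∧ 0 ≤ f ω}, g ω ≠ 0 := fun ω hω h =>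
      absurd (hs' ω hω.1 h) (not_lt.2 hω.2)
    rcases sign_const hf.pos hgc h0 with h | h
    · left; exact fun ω hω h1 => h ω ⟨hω, h1⟩
    · right; left; exact fun ω hω h1 => h ω ⟨hω, h1⟩

end two

/-! ### depth numbers for all pairs -/

section rank

variable {Q : Type} [PartialOrder Q] {dim : Q → ℕ} {J Fam : Type}
variable {E : Type*} [NormedAddCommGroup E] [NormedSpace ℝ E]
variable {C : Cmb Q dim J Fam} {K : Q → Set E} {D : Set Q} {g : Gd E J}
  {P : ∀ q, C.I q → Set E} {c : ∀ q, C.I q → E → ℝ} {b : ℝ} {Ω : Set E} {τ : Q}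

/-- `x` lies inside `x'` (any two families); `f x` = the band function on the boundary `S` -/
def Inc {X I : Type*} (S : Set X) (f : I → X → ℝ) (x x' : I) : Prop :=
  x ≠ x' ∧ (∃ z ∈ S, 0 ≤ f x z) ∧ ∀ z ∈ S, 0 ≤ f x z → 0 < f x' z

/-- signs are enough -/
lemma Inc.congr {X I : Type*} {S : Set X} {f f' : I → X → ℝ} {x x' : I} (h : Inc S f x x')
    (hs : ∀ i, ∀ z ∈ S, SignType.sign (f' i z) = SignType.sign (f i z)) : Inc S f' x x' := by
  obtain ⟨h1, ⟨z, hz, h2⟩, h3⟩ := h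
  have e1 : ∀ i, ∀ z ∈ S, (0 ≤ f' i z ↔ 0 ≤ f i z) := fun i z hz => by
    rw [← sign_nonneg_iff, hs i z hz, sign_nonneg_iff]
  have e2 : ∀ i, ∀ z ∈ S, (0 < f' i z ↔ 0 < f i z) := fun i z hz => by
    rw [← sign_eq_one_iff, hs i z hz, sign_eq_one_iff]
  exact ⟨h1, ⟨z, hz, (e1 _ z hz).2 h2⟩, fun z hz h => (e2 _ z hz).2 (h3 z hz ((e1 _ z hz).1 h))⟩

/-- `Inc` is transitive -/
lemma Inc.trans {X I : Type*} [TopologicalSpace X] {S : Set X} {f : I → X → ℝ}
    (hS : IsPreconnected S) (hc : ∀ x, ContinuousOn (f x) S) {o : X} (ho : o ∈ S)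
    (hof : ∀ x, f x o < 0) {x x' x'' : I} (h : Inc S f x x') (h' : Inc S f x' x'') :
    Inc S f x x'' := by
  obtain ⟨h1, ⟨z, hz, h2⟩, h3⟩ := h
  obtain ⟨-, -, h4⟩ := h'
  have h5 : ∀ z ∈ S, 0 ≤ f x z → 0 < f x'' z := fun z hz h => h4 z hz (h3 z hz h).le
  refine ⟨?_, ⟨z, hz, h2⟩, h5⟩
  rintro rfl
  obtain ⟨y, hy, hy0⟩ := hS.intermediate_value ho hz (hc x)
    (show (0:ℝ) ∈ Icc (f x o) (f x z) from ⟨(hof x).le, h2⟩)
  have := h5 y hy hy0.ge
  rw [hy0] at this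
  exact lt_irrefl _ this

/-- numbers which respect a transitive irreflexive relation -/
lemma exists_rank_of {I : Type*} [Fintype I] (R : I → I → Prop) (ht : ∀ x y z, R x y → R y z → R x z)
    (hi : ∀ x, ¬ R x x) : ∃ k : I → ℕ, Function.Injective k ∧ ∀ x x', R x x' → k x' < k x := by
  let N : I → ℕ := fun x => (Finset.univ.filter fun y => R x y).card
  have hN : ∀ x x', R x x' → N x' < N x := by
    intro x x' h
    refine Finset.card_lt_card (Finset.ssubset_iff_subset_ne.2 ⟨?_, ?_⟩)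
    · intro y hy
      rw [Finset.mem_filter] at hy ⊢
      exact ⟨hy.1, ht _ _ _ h hy.2⟩
    · intro he
      have h1 : x' ∈ Finset.univ.filter fun y => R x y :=
        Finset.mem_filter.2 ⟨Finset.mem_univ _, h⟩
      rw [← he] at h1
      exact hi _ (Finset.mem_filter.1 h1).2
  let m := Fintype.card I
  let f : I ≃ Fin m := Fintype.equivFin _
  refine ⟨fun x => N x * (m + 1) + f x, fun x y hxy => ?_, fun x x' h => ?_⟩
  · have h1 : N x * (m + 1) + f x = N y * (m + 1) + f y := hxy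
    have hx := (f x).isLt
    have hy := (f y).isLt
    have h2 : N x = N y := by
      have : (N x * (m + 1) + f x) / (m + 1) = (N y * (m + 1) + f y) / (m + 1) := by rw [h1]
      rw [Nat.add_comm (N x * (m+1)), Nat.add_comm (N y * (m+1)),
        Nat.add_mul_div_right _ _ (by omega), Nat.add_mul_div_right _ _ (by omega),
        Nat.div_eq_of_lt (by omega), Nat.div_eq_of_lt (by omega)] at this
      omega
    rw [h2] at h1
    have h3 : f x = f y := Fin.ext (by omega)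
    exact f.injective h3
  · have h1 := hN x x' h
    have hx := (f x).isLt
    have hx' := (f x').isLt
    show N x' * (m + 1) + f x' < N x * (m + 1) + f x
    have h2 : (N x' + 1) * (m + 1) ≤ N x * (m + 1) := Nat.mul_le_mul_right _ h1
    have h3 : (N x' + 1) * (m + 1) = N x' * (m + 1) + (m + 1) := by ring
    omega

variable (H : Inv C K D g P c) (X : Cplx Ω Q dim K) (hτ : ∀ σ < τ, σ ∈ D)

include H X hτ in
/-- every piece which is not `-1/2` everywhere has a zero on the boundary, and the band runs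
through it -/
lemma exists_zero_of_ne {x : C.I τ} {z : E} (hz : z ∈ bdS K τ)
    (h : cbd C K c τ x z ≠ -1/2) : ∃ y ∈ bdS K τ, 0 ≤ cbd C K c τ x y := by
  have hm : cbd C K c τ x z ∈ I2 := (bdPcs H X τ hτ).cm x z hz
  by_cases h1 : |cbd C K c τ x z| < 1/2
  · have hB : z ∈ (bdLam H X τ hτ).B x := (bdLam H X τ hτ).Bm x z hz h1
    have h0 : (0:ℝ) ∈ I2 := ⟨by norm_num, by norm_num⟩
    refine ⟨(bdLam H X τ hτ).tr x (z, 0), (bdLam H X τ hτ).BZ x
      ((bdLam H X τ hτ).trB x z hB 0 h0), ?_⟩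
    have := (bdLam H X τ hτ).ctr x z hB 0 h0
    exact this.ge
  · refine ⟨z, hz, ?_⟩
    rcases half_of_I2 hm h1 with h2 | h2
    · exact absurd h2 h
    · rw [h2]; norm_num

include H X hτ in
/-- `Ins` (same family) is a special case of `Inc` -/
lemma Ins_inc (hd : 2 ≤ dim τ) {x x' : C.I τ} (h : Ins C K c τ x x') :
    Inc (bdS K τ) (cbd C K c τ) x x' := by
  have hg := h.geo H X hτ hd
  obtain ⟨hne, hf, h1, h2, z, hz, hzn⟩ := h
  refine ⟨hne, exists_zero_of_ne H X hτ hz hzn, fun y hy hy0 => ?_⟩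
  rw [hg y hy (by linarith)]; norm_num

include H X hτ in
/-- **depth numbers for all pairs** (requirement (N)) -/
theorem exists_rank_all (hd : 2 ≤ dim τ) : ∃ k : C.I τ → ℕ, Function.Injective k ∧
    (∀ x x', Ins C K c τ x x' → k x' < k x) ∧
    ∀ x x', Inc (bdS K τ) (cbd C K c τ) x x' → k x' < k x := by
  obtain ⟨o, ho, hoc⟩ := exists_base_pt H X hτ (by omega)
  have hoS : o ∈ bdS K τ :=
    mem_biUnion (show C.o τ ∈ {j | j < τ} from C.o_lt τ (by omega)) ho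
  have hc : ∀ x, ContinuousOn (cbd C K c τ x) (bdS K τ) := fun x =>
    ((bdPcs H X τ hτ).pc x).1
  obtain ⟨k, hk, hkI⟩ := exists_rank_of (Inc (bdS K τ) (cbd C K c τ))
    (fun x y z h h' => h.trans (preconn_bd X hd) hc hoS
      (fun x => by rw [hoc x]; norm_num) h') (fun x h => h.1 rfl)
  exact ⟨k, hk, fun x x' h => hkI x x' (Ins_inc H X hτ hd h), hkI⟩

end rank

end Crest.Agent.R096.Arc_778
end

-- ▼ part R096/Arc5_778
section

/-!
# R096 (row 96), (R4) CELL GEOMETRY, part 5: the boundary of a cell; chords of a 2-cell (R4.3)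
(helper778)

`H : Inv C K univ g P c` = 416's final band structure.  `FCell K S c` = the cell is filled by the
cone rule, seen through signs only (416's `Spec` + squeezing, see `FCell.of_fill`, `FCell.sqd`).

* `Chords` = (R4.3): chords are arcs, laced chords meet in exactly one point, the others do not.
* `chords_of_cone` : (R4.3) for a 2-cell filled by the cone rule.
-/

set_option autoImplicit false
set_option linter.unusedSectionVars false

open Set Metric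

namespace Crest.Agent.R096.Arc_778

open Crest.Agent.R096.Ce_537 Crest.Agent.R096.Bd_416 Crest.Agent.R096.Cb_609 Crest.Agent.R096.Pl

open scoped Classical

/-! ### cells seen through signs -/

section sgn

variable {E : Type*} [NormedAddCommGroup E] [NormedSpace ℝ E] {I : Type*}

/-- pieces which meet have different depths -/
def Spd (S : Set E) (c : I → E → ℝ) (ρ : I → ℝ) : Prop :=
  ∀ x x', x ≠ x' → (∃ z ∈ S, 0 ≤ c x z ∧ 0 ≤ c x' z) → ρ x ≠ ρ x'

/-- **a cell filled by the cone rule** with depths respecting (N), seen through signs -/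
def FCell (K S : Set E) (c : I → E → ℝ) : Prop :=
  ∃ (n : ℕ) (e : PLEquiv (cube n) K) (_ : e.f '' sph n = S) (ρ : I → ℝ),
    ConeCell e c ρ ∧ Spd S c ρ ∧ ∀ x x', Inc S c x x' → ρ x' < ρ x

/-- **an edge**: positions `p` in the order `k`, seen through signs (`s₀` = the base vertex) -/
def ECell (K S : Set E) (o : E) (k : I → ℕ) (c : I → E → ℝ) : Prop :=
  ∃ (e : PLEquiv (cube 1) K) (p : I → ℝ), e.f '' sph 1 = S ∧ e.f (fun _ => -1) = o ∧
    (∀ x, p x ∈ Ioo (-1:ℝ) 1) ∧ (∀ x x', k x < k x' → p x < p x') ∧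
    ∀ x, ∀ z ∈ K, SignType.sign (c x z) = SignType.sign (e.g z 0 - p x)

lemma FCell.congr {K S : Set E} {c c' : I → E → ℝ} (h : FCell K S c)
    (hs : ∀ i, ∀ z ∈ K, SignType.sign (c' i z) = SignType.sign (c i z)) : FCell K S c' := by
  obtain ⟨n, e, he, ρ, h1, h2, h3⟩ := h
  have hsub : S ⊆ K := bd_sub e he
  have e1 : ∀ i, ∀ z ∈ S, (0 ≤ c' i z ↔ 0 ≤ c i z) := fun i z hz => by
    rw [← sign_nonneg_iff, hs i z (hsub hz), sign_nonneg_iff]
  refine ⟨n, e, he, ρ, h1.congr he hs, fun x x' hne => ?_,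
    fun x x' h => h3 x x' (h.congr fun i z hz => ?_)⟩
  · rintro ⟨z, hz, ha, hb⟩
    exact h2 x x' hne ⟨z, hz, (e1 x z hz).1 ha, (e1 x' z hz).1 hb⟩
  · exact (hs i z (hsub hz)).symm

lemma ECell.congr {K S : Set E} {o : E} {k : I → ℕ} {c c' : I → E → ℝ} (h : ECell K S o k c)
    (hs : ∀ i, ∀ z ∈ K, SignType.sign (c' i z) = SignType.sign (c i z)) : ECell K S o k c' := by
  obtain ⟨e, p, h1, h2, h3, h4, h5⟩ := h
  exact ⟨e, p, h1, h2, h3, h4, fun x z hz => (hs x z hz).trans (h5 x z hz)⟩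

/-- a `Dep`-filling is an `FCell` -/
theorem FCell.of_fill {K S : Set E} {n : ℕ} (e : PLEquiv (cube n) K) (he : e.f '' sph n = S)
    {L : Lam S I} {κ b : ℝ} {h ρ : I → ℝ} (D : Dep L κ b h ρ)
    (hN : ∀ x x', Inc S L.c x x' → ρ x' < ρ x) : FCell K S (D.fillBall e he).c := by
  have hs : ∀ i, ∀ z ∈ S, SignType.sign ((D.fillBall e he).c i z) = SignType.sign (L.c i z) := by
    intro i z hz
    rw [D.fillBall_c_bd e he i hz]
    exact sign_cl (by have := D.cst.b0; linarith) _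
  have e1 : ∀ i, ∀ z ∈ S, (0 ≤ (D.fillBall e he).c i z ↔ 0 ≤ L.c i z) := fun i z hz => by
    rw [← sign_nonneg_iff, hs i z hz, sign_nonneg_iff]
  refine ⟨n, e, he, ρ, coneCell_fillBall D, fun x x' hne => ?_,
    fun x x' h => hN x x' (h.congr fun i z hz => (hs i z hz).symm)⟩
  rintro ⟨z, hz, ha, hb⟩ heq
  have h1 := D.sep x x' hne ⟨z, hz, by linarith [(e1 x z hz).1 ha], by linarith [(e1 x' z hz).1 hb]⟩
  rw [heq, sub_self, abs_zero] at h1
  linarith [D.h0 x, D.h0 x']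

end sgn

/-! ### a sphere with two sides -/

section sides

variable {E : Type*} [NormedAddCommGroup E] [NormedSpace ℝ E]

lemma two_of_pair {k : ℕ} {K A B Γ S : Set E} (h : BallPair k K A B Γ) (hAB : A ∪ B = S)
    {c : E → ℝ} (hc : ContinuousOn c S) (hz : ∀ ω ∈ S, (c ω = 0 ↔ ω ∈ Γ)) (hΓ : Γ.Nonempty)
    (hneg : ∃ ω ∈ S, c ω < 0) (hpos : ∃ ω ∈ S, 0 < c ω) : Two S c where
  cont := hc
  pos := by
    rcases sides h hAB hc hz hneg hpos with h1 | h1 <;> rw [h1]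
    · exact h.ball₁.isPreconnected
    · exact h.ball₂.isPreconnected
  neg := by
    have h1 := sides h hAB (c := fun ω => - c ω) hc.neg
      (fun ω hω => by rw [neg_eq_zero]; exact hz ω hω)
      (by obtain ⟨ω, hω, h⟩ := hpos; exact ⟨ω, hω, by linarith⟩)
      (by obtain ⟨ω, hω, h⟩ := hneg; exact ⟨ω, hω, by linarith⟩)
    have h2 : {ω | ω ∈ S ∧ c ω ≤ 0} = {ω | ω ∈ S ∧ 0 ≤ - c ω} := by
      ext ω; simp
    rw [h2]
    rcases h1 with h1 | h1 <;> rw [h1]
    · exact h.ball₁.isPreconnected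
    · exact h.ball₂.isPreconnected
  zero := by
    obtain ⟨ω, hω⟩ := hΓ
    have hS : ω ∈ S := hAB ▸ Or.inl (h.ball₁.subset hω)
    exact ⟨ω, hS, (hz ω hS).2 hω⟩

/-- the boundary of a 2-ball with two zeros -/
lemma two_dim2 {ι : Type*} {K S : Set E} (hK : IsBall 2 K S) {c : ι → E → ℝ} {i : ι}
    (hc : ContinuousOn (c i) S) {a b : E} (hab : a ≠ b) (hG : Gam S c i = {a, b})
    (hneg : ∃ ω ∈ S, c i ω < 0) (hpos : ∃ ω ∈ S, 0 < c i ω) : Two S (c i) := by
  have ha : a ∈ Gam S c i := by rw [hG]; simp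
  have hb : b ∈ Gam S c i := by rw [hG]; simp
  obtain ⟨A, B, h1, h2⟩ := two_marks hK ha.1 hb.1 hab
  rw [← hG] at h1
  exact two_of_pair h1 h2 hc (fun ω hω => ⟨fun h => ⟨hω, h⟩, fun h => h.2⟩) ⟨a, ha⟩ hneg hpos

/-- the boundary of a 3-ball with a circle of zeros -/
lemma two_dim3 [FiniteDimensional ℝ E] {ι : Type*} {K S : Set E} (hK : IsBall 3 K S)
    {c : ι → E → ℝ} {i : ι} (hc : ContinuousOn (c i) S)
    (hG : Nonempty (PLEquiv (S1 ℝ) (Gam S c i)))
    (hneg : ∃ ω ∈ S, c i ω < 0) (hpos : ∃ ω ∈ S, 0 < c i ω) : Two S (c i) := by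
  obtain ⟨A, B, h1, h2⟩ := sphere_sides hK hG (fun ω h => h.1)
  exact two_of_pair h1 h2 hc (fun ω hω => ⟨fun h => ⟨hω, h⟩, fun h => h.2⟩)
    (circ_nontrivial hG).nonempty hneg hpos

/-- **(N) at work: pieces which do not alternate on the boundary do not meet** -/
theorem ConeCell.none {ι : Type*} {n : ℕ} {K S : Set E} {e : PLEquiv (cube n) K}
    (he : e.f '' sph n = S) {c : ι → E → ℝ} {ρ : ι → ℝ} (H : ConeCell e c ρ)
    (hN : ∀ x x', Inc S c x x' → ρ x' < ρ x) {x x' : ι} (hne : x ≠ x')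
    (hx : Two S (c x)) (hx' : Two S (c x')) {o : E} (ho : o ∈ S) (hox : c x o < 0)
    (hox' : c x' o < 0) (hd : Gam S c x ∩ Gam S c x' = ∅)
    (hs : (∀ ω ∈ Gam S c x', 0 < c x ω) ∨ (∀ ω ∈ Gam S c x', c x ω < 0)) :
    Zer K c x ∩ Zer K c x' = ∅ := by
  have hd' : ∀ ω ∈ S, c x' ω = 0 → c x ω ≠ 0 := fun ω hω h h' => by
    have : ω ∈ Gam S c x ∩ Gam S c x' := ⟨⟨hω, h'⟩, hω, h⟩
    rw [hd] at this; exact this.elim
  have h4 := hx'.lam4 hx hd' (hs.imp (fun h ω hω h0 => h ω ⟨hω, h0⟩)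
    (fun h ω hω h0 => h ω ⟨hω, h0⟩)) ho hox' hox
  obtain ⟨u, hu, hu0⟩ := hx.zero
  obtain ⟨v, hv, hv0⟩ := hx'.zero
  rcases h4 with h | h | h
  · refine eq_empty_iff_forall_notMem.2 ?_
    rintro z ⟨⟨hz, h1⟩, -, h2⟩
    obtain ⟨a1, a2, a3⟩ := (H.nonneg_iff hz).1 h1.ge
    obtain ⟨b1, b2, b3⟩ := (H.nonneg_iff hz).1 h2.ge
    exact absurd a2 (not_le.2 (h _ (prj_mem e he ⟨hz, a1⟩) b2))
  · -- `x'` inside `x`
    have h1 : ρ x < ρ x' := hN x' x ⟨Ne.symm hne, ⟨v, hv, hv0.ge⟩, h⟩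
    rw [inter_comm]
    refine H.inter_empty (he := he) h1 (eq_empty_iff_forall_notMem.2 ?_)
    rintro ω ⟨⟨hω, h1⟩, -, h2⟩
    exact (h ω hω h1).ne' h2
  · have h1 : ρ x' < ρ x := hN x x' ⟨hne, ⟨u, hu, hu0.ge⟩, h⟩
    refine H.inter_empty (he := he) h1 (eq_empty_iff_forall_notMem.2 ?_)
    rintro ω ⟨⟨hω, h1⟩, -, h2⟩
    exact (h ω hω h1).ne' h2

lemma dlt_point {ι : Type*} {S : Set E} {c : ι → E → ℝ} {x x' : ι} {a b : E}
    (hG : Gam S c x' = {a, b}) (h1 : ∃ ω ∈ Gam S c x', 0 < c x ω)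
    (h2 : ∃ ω ∈ Gam S c x', c x ω < 0) : ∃ p, Dlt S c x ∩ Gam S c x' = {p} := by
  obtain ⟨u, hu, hu0⟩ := h1
  obtain ⟨v, hv, hv0⟩ := h2
  have huv : u ≠ v := by rintro rfl; exact lt_asymm hu0 hv0
  have key : ∀ w ∈ Gam S c x', w = u ∨ w = v := by
    intro w hw
    rw [hG] at hu hv hw
    simp only [mem_insert_iff, mem_singleton_iff] at hu hv hw
    rcases hu with rfl | rfl <;> rcases hv with rfl | rfl
    · exact absurd rfl huv
    · exact hw
    · exact hw.symm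
    · exact absurd rfl huv
  refine ⟨u, ?_⟩
  ext w
  constructor
  · rintro ⟨⟨hw, hw0⟩, hw'⟩
    rcases key w hw' with rfl | rfl
    · rfl
    · exact absurd hw0 (not_le.2 hv0)
  · intro hw
    have hw' : w = u := hw
    subst hw'
    exact ⟨⟨hu.1, hu0.le⟩, hu⟩

/-- **laced chords meet in exactly one point** -/
theorem ConeCell.cross {ι : Type*} {n : ℕ} {K S : Set E} {e : PLEquiv (cube n) K}
    (he : e.f '' sph n = S) {c : ι → E → ℝ} {ρ : ι → ℝ} (H : ConeCell e c ρ)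
    (hρ : Spd S c ρ) {x x' : ι} (hne : x ≠ x')
    (hx : Two S (c x)) (hx' : Two S (c x')) (hd : Gam S c x ∩ Gam S c x' = ∅)
    (hG : ∃ a b, Gam S c x = {a, b}) (hG' : ∃ a b, Gam S c x' = {a, b})
    (h1 : ∃ ω ∈ Gam S c x', 0 < c x ω) (h2 : ∃ ω ∈ Gam S c x', c x ω < 0) :
    ∃ p, Zer K c x ∩ Zer K c x' = {p} := by
  have hd' : ∀ ω ∈ S, c x' ω = 0 → c x ω ≠ 0 := fun ω hω h h' => by
    have : ω ∈ Gam S c x ∩ Gam S c x' := ⟨⟨hω, h'⟩, hω, h⟩
    rw [hd] at this; exact this.elim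
  obtain ⟨a, b, hab⟩ := hG
  obtain ⟨a', b', hab'⟩ := hG'
  have hr : ρ x' ≠ ρ x := by
    obtain ⟨ω, hω, h⟩ := h1
    exact (hρ x x' hne ⟨ω, hω.1, h.le, hω.2.ge⟩).symm
  rcases lt_or_gt_of_ne hr with ho | ho
  · obtain ⟨p, hp⟩ := dlt_point hab' h1 h2
    exact ⟨_, H.inter_point (he := he) ho hd hp⟩
  · obtain ⟨⟨u, hu, hu0, hu1⟩, ⟨v, hv, hv0, hv1⟩⟩ := hx'.swap hx hd'
      (by obtain ⟨ω, hω, h⟩ := h1; exact ⟨ω, hω.1, hω.2, h⟩)
      (by obtain ⟨ω, hω, h⟩ := h2; exact ⟨ω, hω.1, hω.2, h⟩)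
    obtain ⟨p, hp⟩ := dlt_point (x := x') hab ⟨u, ⟨hu, hu0⟩, hu1⟩ ⟨v, ⟨hv, hv0⟩, hv1⟩
    rw [inter_comm] at hd ⊢
    exact ⟨_, H.inter_point (he := he) ho hd hp⟩

end sides

/-! ### the boundary of a cell in 416's structure -/

section bd

variable {Q : Type} [PartialOrder Q] {dim : Q → ℕ} {J Fam : Type}
variable {E : Type*} [NormedAddCommGroup E] [NormedSpace ℝ E]
variable {C : Cmb Q dim J Fam} {K : Q → Set E} {g : Gd E J}
  {P : ∀ q, C.I q → Set E} {c : ∀ q, C.I q → E → ℝ} {Ω : Set E}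
variable (H : Inv C K univ g P c) (X : Cplx Ω Q dim K) {q : Q}

lemma bdS_sub (X : Cplx Ω Q dim K) {q : Q} : bdS K q ⊆ K q := by
  intro z hz
  obtain ⟨σ, h, hz⟩ := exists_of_mem_bdS hz
  exact X.subset h.le hz

include H X in
lemma c_eq_cbd (x : C.I q) {z : E} (hz : z ∈ bdS K q) : c q x z = cbd C K c q x z := by
  obtain ⟨σ, h, hzσ⟩ := exists_of_mem_bdS hz
  have h1 := cbd_eq H X h (fun _ _ => mem_univ _) x hzσ
  have h2 := H.r2 h (mem_univ q) x z hzσ
  linarith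

/-- the band structure on the boundary of `q` -/
noncomputable abbrev bL (H : Inv C K univ g P c) (X : Cplx Ω Q dim K) (q : Q) :
    Lam (bdS K q) (C.I q) := bdLam H X q (fun _ _ => mem_univ _)

lemma bL_c (x : C.I q) {z : E} (hz : z ∈ bdS K q) : (bL H X q).c x z = c q x z :=
  (c_eq_cbd H X x hz).symm

include H X in
lemma bd_cont (x : C.I q) : ContinuousOn (c q x) (bdS K q) :=
  (H.pc q (mem_univ q) x).1.mono (bdS_sub X)

include H X in
lemma bd_base (hd : 1 ≤ dim q) : ∃ o ∈ bdS K q, ∀ x, c q x o < 0 := by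
  obtain ⟨o, ho, hoc⟩ := exists_base_pt H X (τ := q) (fun _ _ => mem_univ _) hd
  have hoS : o ∈ bdS K q := mem_biUnion (show C.o q ∈ {j | j < q} from C.o_lt q hd) ho
  exact ⟨o, hoS, fun x => by rw [c_eq_cbd H X x hoS, hoc x]; norm_num⟩

/-- moving in the band of `x` from a zero of `x` -/
lemma bd_move {x : C.I q} {z : E} (hz : z ∈ Gam (bdS K q) (c q) x) :
    z ∈ (bL H X q).B x ∧ ContinuousOn (fun s => (bL H X q).tr x (z, s)) I2 ∧
      (bL H X q).tr x (z, 0) = z ∧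
      (∀ s ∈ I2, (bL H X q).tr x (z, s) ∈ bdS K q ∧ c q x ((bL H X q).tr x (z, s)) = s) ∧
      ∀ x', x' ≠ x → ∀ s ∈ I2, c q x' ((bL H X q).tr x (z, s)) = c q x' z := by
  have h0 : (bL H X q).c x z = 0 := by rw [bL_c H X x hz.1]; exact hz.2
  have hB : z ∈ (bL H X q).B x := (bL H X q).Bm x z hz.1 (by rw [h0]; norm_num)
  have hS : ∀ s ∈ I2, (bL H X q).tr x (z, s) ∈ bdS K q := fun s hs =>
    (bL H X q).BZ x ((bL H X q).trB x z hB s hs)
  refine ⟨hB, ?_, ?_, fun s hs => ⟨hS s hs, ?_⟩, fun x' hne s hs => ?_⟩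
  · exact ((bL H X q).pt x).1.comp (by fun_prop) (fun s hs => ⟨hB, hs⟩)
  · have := (bL H X q).tr_self x z hB
    rwa [h0] at this
  · rw [← bL_c H X x (hS s hs)]
    exact (bL H X q).ctr x z hB s hs
  · rw [← bL_c H X x' (hS s hs), ← bL_c H X x' hz.1]
    exact (bL H X q).co x x' (Ne.symm hne) z hB s hs

include H X in
lemma bd_pos {x : C.I q} (h : (Gam (bdS K q) (c q) x).Nonempty) :
    ∃ ω ∈ bdS K q, 0 < c q x ω := by
  obtain ⟨z, hz⟩ := h
  obtain ⟨-, -, -, h1, -⟩ := bd_move H X hz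
  have hs : (1/4 : ℝ) ∈ I2 := ⟨by norm_num, by norm_num⟩
  exact ⟨_, (h1 _ hs).1, by rw [(h1 _ hs).2]; norm_num⟩

include H X in
/-- near a crossing with `x'`, the curve of `x'` runs to the negative side of `x` -/
lemma bd_closure {x x' : C.I q} (hne : x ≠ x') {z : E}
    (hz : z ∈ Gam (bdS K q) (c q) x) (hz' : z ∈ Gam (bdS K q) (c q) x') :
    z ∈ closure {ω | ω ∈ Gam (bdS K q) (c q) x' ∧ c q x ω < 0} := by
  obtain ⟨-, hcont, h0, h1, h2⟩ := bd_move H X hz
  have hs : Ico (-1/4 : ℝ) 0 ⊆ I2 := fun s hs => ⟨by linarith [hs.1], by linarith [hs.2]⟩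
  have hc : (0:ℝ) ∈ closure (Ico (-1/4 : ℝ) 0) := by
    rw [closure_Ico (by norm_num)]; exact ⟨by norm_num, le_rfl⟩
  have hw : ContinuousWithinAt (fun s => (bL H X q).tr x (z, s)) (Ico (-1/4 : ℝ) 0) 0 :=
    (hcont 0 ⟨by norm_num, by norm_num⟩).mono hs
  have h3 := hw.mem_closure_image hc
  simp only [h0] at h3
  refine closure_mono ?_ h3
  rintro _ ⟨s, hs', rfl⟩
  refine ⟨⟨(h1 s (hs hs')).1, ?_⟩, ?_⟩
  · show c q x' _ = 0
    rw [h2 x' (Ne.symm hne) s (hs hs')]; exact hz'.2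
  · show c q x _ < 0
    rw [(h1 s (hs hs')).2]; exact hs'.2

include H X in
/-- ... and to the positive side -/
lemma bd_run {x x' : C.I q} (hne : x ≠ x') {z : E}
    (hz : z ∈ Gam (bdS K q) (c q) x) (hz' : z ∈ Gam (bdS K q) (c q) x') :
    ∃ T ⊆ {ω | ω ∈ Gam (bdS K q) (c q) x' ∧ 0 ≤ c q x ω}, IsPreconnected T ∧ z ∈ T ∧
      T.Nontrivial := by
  obtain ⟨-, hcont, h0, h1, h2⟩ := bd_move H X hz
  have hs : Icc (0 : ℝ) (1/4) ⊆ I2 := fun s hs => ⟨by linarith [hs.1], by linarith [hs.2]⟩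
  have e0 : (0:ℝ) ∈ Icc (0 : ℝ) (1/4) := ⟨le_rfl, by norm_num⟩
  have e1 : (1/4:ℝ) ∈ Icc (0 : ℝ) (1/4) := ⟨by norm_num, le_rfl⟩
  refine ⟨(fun s => (bL H X q).tr x (z, s)) '' Icc 0 (1/4), ?_, ?_, ⟨0, e0, h0⟩, ?_⟩
  · rintro _ ⟨s, hs', rfl⟩
    refine ⟨⟨(h1 s (hs hs')).1, ?_⟩, ?_⟩
    · show c q x' _ = 0
      rw [h2 x' (Ne.symm hne) s (hs hs')]; exact hz'.2
    · show 0 ≤ c q x _
      rw [(h1 s (hs hs')).2]; exact hs'.1
  · exact isPreconnected_Icc.image _ (hcont.mono hs)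
  · refine ⟨_, ⟨0, e0, rfl⟩, _, ⟨1/4, e1, rfl⟩, fun h => ?_⟩
    have h3 := congrArg (c q x) h
    simp only [(h1 0 (hs e0)).2, (h1 _ (hs e1)).2] at h3
    norm_num at h3

/-! ### (R4.3) -/

/-- **(R4.3)**: geometry of the chords of a 2-cell -/
structure Chords {I : Type*} (K S : Set E) (c : I → E → ℝ) : Prop where
  ball : ∀ x, IsBall 1 (Zer K c x) (Gam S c x)
  cross : ∀ x x', x ≠ x' → (∃ ω ∈ Gam S c x', 0 < c x ω) → (∃ ω ∈ Gam S c x', c x ω < 0) →
    ∃ p, Zer K c x ∩ Zer K c x' = {p}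
  none : ∀ x x', x ≠ x' → ((∀ ω ∈ Gam S c x', 0 < c x ω) ∨ (∀ ω ∈ Gam S c x', c x ω < 0)) →
    Zer K c x ∩ Zer K c x' = ∅

include H X in
/-- **(R4.3) for a 2-cell filled by the cone rule** -/
theorem chords_of_cone [FiniteDimensional ℝ E] (hd : dim q = 2)
    (hq : FCell (K q) (bdS K q) (c q))
    (hends : ∀ x, ∃ a b, a ≠ b ∧ Gam (bdS K q) (c q) x = {a, b})
    (hdis : ∀ x x', x ≠ x' → Gam (bdS K q) (c q) x ∩ Gam (bdS K q) (c q) x' = ∅) :
    Chords (K q) (bdS K q) (c q) := by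
  obtain ⟨n, e, he, ρ, h1, h2, h3⟩ := hq
  have hK : IsBall 2 (K q) (bdS K q) := by
    have := X.isBall q
    rw [hd] at this
    exact this
  obtain ⟨o, ho, hoc⟩ := bd_base H X (q := q) (by omega)
  have hne : ∀ x, (Gam (bdS K q) (c q) x).Nonempty := fun x => by
    obtain ⟨a, b, -, h⟩ := hends x
    rw [h]; exact ⟨a, by simp⟩
  have htwo : ∀ x, Two (bdS K q) (c q x) := fun x => by
    obtain ⟨a, b, hab, h⟩ := hends x
    exact two_dim2 hK (bd_cont H X x) hab h ⟨o, ho, hoc x⟩ (bd_pos H X (hne x))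
  refine ⟨fun x => ?_, fun x x' hxx h4 h5 => ?_, fun x x' hxx h4 => ?_⟩
  · obtain ⟨a, b, hab, h⟩ := hends x
    exact h1.ball (he := he) (isBall_dlt1 hK (bd_cont H X x) hab h ⟨o, ho, hoc x⟩
      (bd_pos H X (hne x)))
  · refine h1.cross he h2 hxx (htwo x) (htwo x') (hdis x x' hxx) ?_ ?_ h4 h5
    · obtain ⟨a, b, -, h⟩ := hends x; exact ⟨a, b, h⟩
    · obtain ⟨a, b, -, h⟩ := hends x'; exact ⟨a, b, h⟩
  · exact h1.none he h3 hxx (htwo x) (htwo x') ho (hoc x) (hoc x') (hdis x x' hxx) h4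

end bd

end Crest.Agent.R096.Arc_778
end

-- ▼ part R096/Arc6_778
section

/-!
# R096 (row 96), (R4) CELL GEOMETRY, part 6: points on edges, chords of faces, the curve of a piece
on the boundary of a 3-cell is a PL circle (helper778)

* `Blw C q x` = the edge points of the piece `x` of `q`.
* `EdgeG` : on an edge every piece is one point, different pieces different points.
* `Loop C q x` : combinatorial input (two ends of a chord, two faces at an edge, connected).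
* `circle_of_loop` : `Gam (bdS K q) (c q) x` is a PL circle.
-/

set_option autoImplicit false
set_option linter.unusedSectionVars false

open Set Metric

namespace Crest.Agent.R096.Arc_778

open Crest.Agent.R096.Ce_537 Crest.Agent.R096.Bd_416 Crest.Agent.R096.Cb_609 Crest.Agent.R096.Pl
open Crest.Agent.R096.Shp_334 (Zr Zr_down Zr_min Zr_unique mem_P_of_zero)

open scoped Classical

variable {Q : Type} [PartialOrder Q] {dim : Q → ℕ} {J Fam : Type}
variable {E : Type*} [NormedAddCommGroup E] [NormedSpace ℝ E]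
variable {C : Cmb Q dim J Fam} {K : Q → Set E} {g : Gd E J}
  {P : ∀ q, C.I q → Set E} {c : ∀ q, C.I q → E → ℝ} {Ω : Set E}

/-- the edge points of a piece -/
def Blw (C : Cmb Q dim J Fam) (q : Q) (x : C.I q) : Set (Σ e, C.I e) :=
  {v | dim v.1 = 1 ∧ ∃ h : v.1 < q, C.up h v.2 = x}

/-- the pieces of an edge are different points -/
structure EdgeG {I : Type*} (K : Set E) (c : I → E → ℝ) : Prop where
  pt : ∀ x, ∃ z, Zer K c x = {z}
  dis : ∀ x x', x ≠ x' → Disjoint (Zer K c x) (Zer K c x')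

/-- an `ECell` has the points `e.f (p x)` -/
theorem ECell.edgeG {I : Type*} {K S : Set E} {o : E} {k : I → ℕ} (hk : Function.Injective k)
    {c : I → E → ℝ} (h : ECell K S o k c) : EdgeG K c := by
  obtain ⟨e, p, h1, h2, h3, h4, h5⟩ := h
  have hp : Function.Injective p := by
    intro x x' hxx
    rcases lt_trichotomy (k x) (k x') with h | h | h
    · exact absurd hxx (h4 _ _ h).ne
    · exact hk h
    · exact absurd hxx (h4 _ _ h).ne'
  have hz : ∀ x, ∀ z ∈ K, (c x z = 0 ↔ e.g z 0 = p x) := by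
    intro x z hz
    rw [← sign_eq_zero_iff, h5 x z hz, sign_eq_zero_iff, sub_eq_zero]
  constructor
  · intro x
    have hm : (fun _ => p x : Fin 1 → ℝ) ∈ cube 1 :=
      mem_cube1.2 (abs_le.2 ⟨(h3 x).1.le, (h3 x).2.le⟩)
    refine ⟨e.f (fun _ => p x), ?_⟩
    ext z
    constructor
    · rintro ⟨h6, h7⟩
      have h8 := (hz x z h6).1 h7
      have h9 : e.g z = fun _ => p x := by
        funext j; rw [Subsingleton.elim j 0]; exact h8
      rw [mem_singleton_iff, ← h9]; exact (e.ri z h6).symm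
    · intro h6
      rw [mem_singleton_iff] at h6
      subst h6
      refine ⟨e.mf hm, (hz x _ (e.mf hm)).2 ?_⟩
      rw [e.li _ hm]
  · intro x x' hne
    refine Set.disjoint_left.2 fun z h6 h7 => hne (hp ?_)
    rw [← (hz x z h6.1).1 h6.2, ← (hz x' z h7.1).1 h7.2]

/-- the point of a piece of an edge -/
noncomputable def pnt (K : Q → Set E) (c : ∀ q, C.I q → E → ℝ) (v : Σ e, C.I e) : E :=
  if h : (Zer (K v.1) (c v.1) v.2).Nonempty then h.some else 0

lemma zer_pnt {v : Σ e, C.I e} (h : EdgeG (K v.1) (c v.1)) :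
    Zer (K v.1) (c v.1) v.2 = {pnt K c v} := by
  obtain ⟨z, hz⟩ := h.pt v.2
  have hn : (Zer (K v.1) (c v.1) v.2).Nonempty := by rw [hz]; exact ⟨z, rfl⟩
  have h1 : pnt K c v ∈ Zer (K v.1) (c v.1) v.2 := by
    unfold pnt; rw [dif_pos hn]; exact hn.some_mem
  rw [hz] at h1 ⊢
  rw [mem_singleton_iff.1 h1]

lemma pnt_mem {v : Σ e, C.I e} (h : EdgeG (K v.1) (c v.1)) :
    pnt K c v ∈ Zer (K v.1) (c v.1) v.2 := by rw [zer_pnt h]; rfl

section struct

variable (H : Inv C K univ g P c) (X : Cplx Ω Q dim K) {q : Q}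

include H X in
/-- the smallest piece at a boundary point -/
lemma min_bd {x : C.I q} {z : E} (hz : z ∈ Gam (bdS K q) (c q) x) :
    ∃ (m : Q) (hm : m < q), Opn K m z ∧ 1 ≤ dim m ∧ ∃ y : C.I m,
      z ∈ Zer (K m) (c m) y ∧ C.up hm y = x := by
  obtain ⟨σ, h, hzσ⟩ := exists_of_mem_bdS hz.1
  obtain ⟨y0, hy0, hz0⟩ := (Zr_down H h hzσ).1 hz.2
  obtain ⟨m, hm, hd, y, hy, -, h1⟩ := Zr_min H X hz0
  rcases h1 with ⟨e, h1⟩ | ⟨hlt, h1⟩
  · subst e
    simp only at h1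
    subst h1
    exact ⟨m, h, hm, hd, y, hy, hy0⟩
  · exact ⟨m, hlt.trans h, hm, hd, y, hy, by rw [C.up_up hlt h, h1, hy0]⟩

include H X in
/-- points of edges lie in the open edge -/
lemma opn_edge {e : Q} (hd : dim e = 1) {u : C.I e} {z : E} (hz : z ∈ Zer (K e) (c e) u) :
    Opn K e z := by
  obtain ⟨m, hm, hdm, y, hy, -, h1⟩ := Zr_min H X (q := e) (x := u) hz
  rcases h1 with ⟨e', -⟩ | ⟨hlt, -⟩
  · rwa [e'] at hm
  · have := X.mono _ _ hlt
    omega

include H X in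
lemma pnt_inj {v v' : Σ e, C.I e} (hd : dim v.1 = 1) (hd' : dim v'.1 = 1)
    (h : EdgeG (K v.1) (c v.1)) (h' : EdgeG (K v'.1) (c v'.1)) (he : pnt K c v = pnt K c v') :
    v = v' := by
  have h1 := pnt_mem h
  have h2 := pnt_mem h'
  rw [← he] at h2
  obtain ⟨e, u⟩ := v
  obtain ⟨e', u'⟩ := v'
  have h3 := opn_edge H X hd h1
  have h4 := opn_edge H X hd' h2
  obtain rfl : e = e' := X.disj _ _ _ h3 h4
  by_contra hne
  have hu : u ≠ u' := by rintro rfl; exact hne rfl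
  exact Set.disjoint_left.1 (h.dis u u' hu) h1 h2

include H X in
/-- a piece of a smaller cell lies in the piece of the bigger cell -/
lemma zer_up {p : Q} (h : p < q) {y : C.I p} {z : E} (hz : z ∈ Zer (K p) (c p) y) :
    z ∈ Gam (bdS K q) (c q) (C.up h y) :=
  ⟨mem_biUnion (show p ∈ {j | j < q} from h) hz.1, (Zr_down H h hz.1).2 ⟨y, rfl, hz⟩⟩

include H in
/-- the piece at a point is determined by its sheet -/
lemma zer_unique {x x' : C.I q} (hc : C.col q x = C.col q x') {z : E}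
    (h : z ∈ Zer (K q) (c q) x) (h' : z ∈ Zer (K q) (c q) x') : x = x' :=
  Zr_unique H hc h h'

include H X in
lemma gam_face (hd : dim q = 2) (hE : ∀ e < q, dim e = 1 → EdgeG (K e) (c e)) (y : C.I q) :
    Gam (bdS K q) (c q) y = pnt K c '' Blw C q y := by
  ext z
  constructor
  · intro hz
    obtain ⟨m, hm, hmo, hdm, w, hw, hwy⟩ := min_bd H X hz
    have h1 := X.mono _ _ hm
    have h2 : dim m = 1 := by omega
    refine ⟨⟨m, w⟩, ⟨h2, hm, hwy⟩, ?_⟩
    have h3 := zer_pnt (v := ⟨m, w⟩) (hE m hm h2)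
    have h4 : z ∈ ({pnt K c ⟨m, w⟩} : Set E) := by rw [← h3]; exact hw
    exact h4.symm
  · rintro ⟨v, ⟨h1, h2, h3⟩, rfl⟩
    rw [← h3]
    exact zer_up H X h2 (pnt_mem (hE _ h2 h1))

include H X in
lemma gam_dis (hd : dim q = 2) (hE : ∀ e < q, dim e = 1 → EdgeG (K e) (c e)) (y y' : C.I q)
    (hne : y ≠ y') : Gam (bdS K q) (c q) y ∩ Gam (bdS K q) (c q) y' = ∅ := by
  refine eq_empty_iff_forall_notMem.2 ?_
  rintro z ⟨hz, hz'⟩
  obtain ⟨m, hm, hmo, hdm, w, hw, hwy⟩ := min_bd H X hz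
  obtain ⟨m', hm', hmo', hdm', w', hw', hwy'⟩ := min_bd H X hz'
  obtain rfl : m = m' := X.disj _ _ _ hmo hmo'
  have h1 := X.mono _ _ hm
  have h2 : dim m = 1 := by omega
  by_cases hww : w = w'
  · subst hww; exact hne (hwy.symm.trans hwy')
  · exact Set.disjoint_left.1 ((hE m hm h2).dis w w' hww) hw hw'

include H X in
lemma gam_pair (hd : dim q = 2) (hE : ∀ e < q, dim e = 1 → EdgeG (K e) (c e)) (y : C.I q)
    {a b : Σ e, C.I e} (hab : a ≠ b) (h : Blw C q y = {a, b}) :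
    Gam (bdS K q) (c q) y = {pnt K c a, pnt K c b} ∧ pnt K c a ≠ pnt K c b := by
  refine ⟨by rw [gam_face H X hd hE y, h, image_pair], fun he => hab ?_⟩
  have ha : a ∈ Blw C q y := by rw [h]; simp
  have hb : b ∈ Blw C q y := by rw [h]; simp
  exact pnt_inj H X ha.1 hb.1 (hE _ ha.2.1 ha.1) (hE _ hb.2.1 hb.1) he

include H X in
/-- **(R4.3) for a 2-cell filled by the cone rule, with combinatorial input** -/
theorem chords_face [FiniteDimensional ℝ E] (hd : dim q = 2)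
    (hE : ∀ e < q, dim e = 1 → EdgeG (K e) (c e)) (hq : FCell (K q) (bdS K q) (c q))
    (hends : ∀ y : C.I q, ∃ a b, a ≠ b ∧ Blw C q y = {a, b}) :
    Chords (K q) (bdS K q) (c q) := by
  refine chords_of_cone H X hd hq (fun x => ?_) (gam_dis H X hd hE)
  obtain ⟨a, b, hab, h⟩ := hends x
  obtain ⟨h1, h2⟩ := gam_pair H X hd hE x hab h
  exact ⟨_, _, h2, h1⟩

/-- **combinatorial input for the curve of the piece `x` on the boundary of a 3-cell** -/
structure Loop (C : Cmb Q dim J Fam) (q : Q) (x : C.I q) : Prop where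
  ends : ∀ F, dim F = 2 → F < q → ∀ y : C.I F, ∃ a b, a ≠ b ∧ Blw C F y = {a, b}
  two : ∀ e, dim e = 1 → e < q → Nonempty (C.I e) →
    ∃ F F', F ≠ F' ∧ {F | dim F = 2 ∧ e < F ∧ F < q} = {F, F'}
  ne : (Blw C q x).Nonempty
  conn : ∀ G ⊆ Blw C q x, G.Nonempty →
    (∀ v ∈ G, ∀ F, dim F = 2 → ∀ h : v.1 < F, F < q → Blw C F (C.up h v.2) ⊆ G) → G = Blw C q x

/-- the other end of a chord -/
lemma Loop.oth {q : Q} {x : C.I q} (L : Loop C q x) (F : Q) (v : {v // v ∈ Blw C q x})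
    (h : dim F = 2 ∧ v.1.1 < F ∧ F < q) :
    ∃ v' : {v // v ∈ Blw C q x}, v' ≠ v ∧ Blw C F (C.up h.2.1 v.1.2) = {v.1, v'.1} := by
  obtain ⟨hd, h1, h2⟩ := h
  obtain ⟨a, b, hab, hB⟩ := L.ends F hd h2 (C.up h1 v.1.2)
  have hv : v.1 ∈ Blw C F (C.up h1 v.1.2) := ⟨v.2.1, h1, rfl⟩
  have hup : ∀ w ∈ Blw C F (C.up h1 v.1.2), w ∈ Blw C q x := by
    rintro w ⟨h3, h4, h5⟩
    refine ⟨h3, h4.trans h2, ?_⟩
    rw [C.up_up h4 h2, h5, ← C.up_up h1 h2]
    exact v.2.2.2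
  have ha := hup a (by rw [hB]; simp)
  have hb := hup b (by rw [hB]; simp)
  rw [hB] at hv
  rcases hv with hv | hv
  · refine ⟨⟨b, hb⟩, ?_, ?_⟩
    · intro h; exact hab (hv.symm.trans (congrArg Subtype.val h).symm)
    · rw [hB, hv]
  · have hv' : v.1 = b := hv
    refine ⟨⟨a, ha⟩, ?_, ?_⟩
    · intro h; exact hab ((congrArg Subtype.val h).trans hv')
    · rw [hB, hv', pair_comm]

/-- the arc to the other end -/
noncomputable def Loop.arc {q : Q} {x : C.I q} (L : Loop C q x) (F : Q)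
    (v : {v // v ∈ Blw C q x}) : {v // v ∈ Blw C q x} :=
  if h : dim F = 2 ∧ v.1.1 < F ∧ F < q then (L.oth F v h).choose else v

lemma Loop.arc_spec {q : Q} {x : C.I q} (L : Loop C q x) {F : Q} {v : {v // v ∈ Blw C q x}}
    (h : dim F = 2 ∧ v.1.1 < F ∧ F < q) :
    L.arc F v ≠ v ∧ Blw C F (C.up h.2.1 v.1.2) = {v.1, (L.arc F v).1} := by
  have h1 : L.arc F v = (L.oth F v h).choose := by unfold Loop.arc; rw [dif_pos h]
  rw [h1]
  exact (L.oth F v h).choose_spec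

lemma Loop.arc_mem {q : Q} {x : C.I q} (L : Loop C q x) {F : Q} {v : {v // v ∈ Blw C q x}}
    (h : dim F = 2 ∧ v.1.1 < F ∧ F < q) :
    ∃ h' : (L.arc F v).1.1 < F, C.up h' (L.arc F v).1.2 = C.up h.2.1 v.1.2 := by
  have h1 : (L.arc F v).1 ∈ Blw C F (C.up h.2.1 v.1.2) := by rw [(L.arc_spec h).2]; simp
  exact h1.2

lemma Loop.arc_inv {q : Q} {x : C.I q} (L : Loop C q x) {F : Q} {v : {v // v ∈ Blw C q x}}
    (h : dim F = 2 ∧ v.1.1 < F ∧ F < q) : L.arc F (L.arc F v) = v := by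
  obtain ⟨h', he⟩ := L.arc_mem h
  have h2 := L.arc_spec h
  have h3 := L.arc_spec (F := F) (v := L.arc F v) ⟨h.1, h', h.2.2⟩
  rw [he, h2.2] at h3
  obtain ⟨h3, h4⟩ := h3
  have h5 : (v.1) ∈ ({(L.arc F v).1, (L.arc F (L.arc F v)).1} : Set (Σ e, C.I e)) := by
    rw [← h4]; simp
  rcases h5 with h5 | h5
  · exact absurd (Subtype.ext h5.symm) h2.1
  · exact (Subtype.ext h5).symm

/-- the cycle of the chords of `x` -/
noncomputable def Loop.cyc {q : Q} {x : C.I q} (L : Loop C q x) :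
    Cyc {v // v ∈ Blw C q x} Q where
  S v := {F | dim F = 2 ∧ v.1.1 < F ∧ F < q}
  arc := L.arc
  ne h := (L.arc_spec h).1
  mem h := ⟨h.1, (L.arc_mem h).1, h.2.2⟩
  inv h := L.arc_inv h
  two v := L.two v.1.1 v.2.1 v.2.2.1 ⟨v.1.2⟩
  conn G hG hcl := by
    have h1 := L.conn (Subtype.val '' G) (by rintro _ ⟨v, -, rfl⟩; exact v.2) (hG.image _) (by
      rintro _ ⟨v, hv, rfl⟩ F hd h h'
      rw [(L.arc_spec (F := F) (v := v) ⟨hd, h, h'⟩).2]
      rintro w (hw | hw)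
      · exact ⟨v, hv, hw.symm⟩
      · exact ⟨L.arc F v, hcl v hv F ⟨hd, h, h'⟩, hw.symm⟩)
    ext v
    refine ⟨fun _ => trivial, fun _ => ?_⟩
    have h2 : v.1 ∈ Subtype.val '' G := by rw [h1]; exact v.2
    obtain ⟨w, hw, he⟩ := h2
    rwa [← Subtype.ext he]

lemma finite_blw (X : Cplx Ω Q dim K) (q : Q) (x : C.I q) : (Blw C q x).Finite := by
  have h2 : (⋃ p ∈ {p | p < q}, ((fun y : C.I p => (⟨p, y⟩ : Σ e, C.I e)) '' univ)).Finite :=
    (X.finite_below q).biUnion fun p _ => finite_univ.image _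
  refine h2.subset ?_
  rintro ⟨p, y⟩ ⟨-, h, -⟩
  exact mem_biUnion (show p ∈ {p | p < q} from h) ⟨y, mem_univ _, rfl⟩

include H X in
/-- **the curve of a piece on the boundary of a 3-cell is a PL circle** -/
theorem circle_of_loop (hd : dim q = 3) (hE : ∀ e < q, dim e = 1 → EdgeG (K e) (c e))
    (hF : ∀ F < q, dim F = 2 → ∀ y, IsBall 1 (Zer (K F) (c F) y) (Gam (bdS K F) (c F) y))
    {x : C.I q} (L : Loop C q x) : Nonempty (PLEquiv (S1 ℝ) (Gam (bdS K q) (c q) x)) := by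
  have hfin : Finite {v // v ∈ Blw C q x} := (finite_blw X q x).to_subtype
  have hne : Nonempty {v // v ∈ Blw C q x} := L.ne.to_subtype
  have hEv : ∀ v : {v // v ∈ Blw C q x}, EdgeG (K v.1.1) (c v.1.1) := fun v =>
    hE _ v.2.2.1 v.2.1
  let vv : {v // v ∈ Blw C q x} → E := fun v => pnt K c v.1
  let Ar : Q → {v // v ∈ Blw C q x} → Set E := fun F v =>
    if h : v.1.1 < F then Zer (K F) (c F) (C.up h v.1.2) else ∅
  have hAr : ∀ {F : Q} {v : {v // v ∈ Blw C q x}} (h : dim F = 2 ∧ v.1.1 < F ∧ F < q),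
      Ar F v = Zer (K F) (c F) (C.up h.2.1 v.1.2) := fun h => dif_pos h.2.1
  have hEF : ∀ {F : Q}, F < q → ∀ e < F, dim e = 1 → EdgeG (K e) (c e) :=
    fun h e he hd => hE e (he.trans h) hd
  have hupx : ∀ {F : Q} {v : {v // v ∈ Blw C q x}} (h : dim F = 2 ∧ v.1.1 < F ∧ F < q),
      C.up h.2.2 (C.up h.2.1 v.1.2) = x := by
    intro F v h
    rw [← C.up_up h.2.1 h.2.2]; exact v.2.2.2
  have hR : CReal L.cyc vv Ar := by
    refine ⟨?_, ?_, ?_, ?_, ?_⟩
    · intro v v' h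
      exact Subtype.ext (pnt_inj H X v.2.1 v'.2.1 (hEv v) (hEv v') h)
    · intro F v h
      obtain ⟨h1, h2⟩ := L.arc_mem h
      have h3 : Ar F (L.arc F v) = Ar F v := by
        rw [hAr (v := L.arc F v) ⟨h.1, h1, h.2.2⟩, hAr h, h2]
      exact h3
    · intro F v h
      rw [hAr h]
      have h1 := hF F h.2.2 h.1 (C.up h.2.1 v.1.2)
      have h2 := L.arc_spec h
      have h3 := (gam_pair H X h.1 (hEF h.2.2) (C.up h.2.1 v.1.2)
        (fun h4 => h2.1 (Subtype.ext h4.symm)) h2.2).1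
      rw [h3] at h1
      exact h1
    · intro F v v' h h' h1 h2
      have h3 : C.up h.2.1 v.1.2 ≠ C.up h'.2.1 v'.1.2 := by
        intro h4
        have h5 : v'.1 ∈ Blw C F (C.up h.2.1 v.1.2) := ⟨v'.2.1, h'.2.1, h4.symm⟩
        rw [(L.arc_spec h).2] at h5
        rcases h5 with h5 | h5
        · exact h1 (Subtype.ext h5)
        · exact h2 (Subtype.ext h5)
      rw [hAr h, hAr h']
      refine Set.disjoint_left.2 fun z hz hz' => h3 (zer_unique H ?_ hz hz')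
      rw [← C.col_up h.2.2, ← C.col_up h.2.2, hupx h, hupx h']
    · intro F F' v v' h h' hne
      rw [hAr h, hAr h']
      rintro z ⟨hz, hz'⟩
      -- the smallest piece
      obtain ⟨m, hm, hdm, w, hw, -, h1⟩ := Zr_min H X (q := F) (x := C.up h.2.1 v.1.2) hz
      obtain ⟨m', hm', hdm', w', hw', -, h1'⟩ :=
        Zr_min H X (q := F') (x := C.up h'.2.1 v'.1.2) hz'
      obtain rfl : m = m' := X.disj _ _ _ hm hm'
      have hmF : m < F ∧ m < F' := by
        rcases h1 with ⟨e, -⟩ | ⟨hlt, -⟩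
        · exfalso
          rcases h1' with ⟨e', -⟩ | ⟨hlt', -⟩
          · exact hne (e.symm.trans e')
          · have := X.mono _ _ hlt'
            rw [e, h.1, h'.1] at this
            exact lt_irrefl _ this
        · rcases h1' with ⟨e', -⟩ | ⟨hlt', -⟩
          · have := X.mono _ _ hlt
            rw [e', h.1, h'.1] at this
            exact absurd this (lt_irrefl _)
          · exact ⟨hlt, hlt'⟩
      have hup : C.up hmF.1 w = C.up h.2.1 v.1.2 := by
        rcases h1 with ⟨e, -⟩ | ⟨hlt, h1⟩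
        · exact absurd hmF.1 (by rw [e]; exact lt_irrefl _)
        · exact h1
      have hup' : C.up hmF.2 w' = C.up h'.2.1 v'.1.2 := by
        rcases h1' with ⟨e, -⟩ | ⟨hlt, h1⟩
        · exact absurd hmF.2 (by rw [e]; exact lt_irrefl _)
        · exact h1
      have hcw : C.col m w = C.col m w' := by
        rw [← C.col_up hmF.1 w, ← C.col_up hmF.2 w', hup, hup', ← C.col_up h.2.2,
          ← C.col_up h'.2.2, hupx h, hupx h']
      obtain rfl : w = w' := zer_unique H hcw hw hw'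
      have hdm1 : dim m = 1 := by
        have := X.mono _ _ hmF.1
        rw [h.1] at this; omega
      have hEm : EdgeG (K m) (c m) := hE m (hmF.1.trans h.2.2) hdm1
      have hzp : z = pnt K c ⟨m, w⟩ := by
        have h4 : z ∈ Zer (K (⟨m, w⟩ : Σ e, C.I e).1) (c (⟨m, w⟩ : Σ e, C.I e).1)
          (⟨m, w⟩ : Σ e, C.I e).2 := hw
        rw [zer_pnt (v := ⟨m, w⟩) hEm] at h4
        exact h4
      have h5 : (⟨m, w⟩ : Σ e, C.I e) ∈ Blw C F (C.up h.2.1 v.1.2) := ⟨hdm1, hmF.1, hup⟩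
      have h6 : (⟨m, w⟩ : Σ e, C.I e) ∈ Blw C F' (C.up h'.2.1 v'.1.2) := ⟨hdm1, hmF.2, hup'⟩
      rw [(L.arc_spec h).2] at h5
      rw [(L.arc_spec h').2] at h6
      constructor
      · rcases h5 with h5 | h5
        · left; rw [hzp, h5]
        · right
          have h5' : (⟨m, w⟩ : Σ e, C.I e) = (L.arc F v).1 := h5
          show z = pnt K c (L.arc F v).1
          rw [hzp, h5']
      · rcases h6 with h6 | h6
        · left; rw [hzp, h6]
        · right
          have h6' : (⟨m, w⟩ : Σ e, C.I e) = (L.arc F' v').1 := h6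
          show z = pnt K c (L.arc F' v').1
          rw [hzp, h6']
  have hT : Gam (bdS K q) (c q) x = {z | ∃ v, ∃ F ∈ L.cyc.S v, z ∈ Ar F v} := by
    ext z
    constructor
    · intro hz
      obtain ⟨m, hm, hmo, hdm, w, hw, hwx⟩ := min_bd H X hz
      have h1 := X.mono _ _ hm
      have h2 : dim m = 1 ∨ dim m = 2 := by omega
      rcases h2 with h2 | h2
      · have hv : (⟨m, w⟩ : Σ e, C.I e) ∈ Blw C q x := ⟨h2, hm, hwx⟩
        obtain ⟨F, F', -, hS⟩ := L.two m h2 hm ⟨w⟩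
        have hFS : F ∈ {F | dim F = 2 ∧ m < F ∧ F < q} := by rw [hS]; simp
        refine ⟨⟨_, hv⟩, F, hFS, ?_⟩
        rw [hAr (v := ⟨_, hv⟩) hFS]
        have h3 := zer_up H X hFS.2.1 hw
        exact ⟨bdS_sub X h3.1, h3.2⟩
      · obtain ⟨a, b, hab, hB⟩ := L.ends m h2 hm w
        have ha : a ∈ Blw C m w := by rw [hB]; simp
        obtain ⟨ha1, ha2, ha3⟩ := ha
        have hv : a ∈ Blw C q x := ⟨ha1, ha2.trans hm, by rw [C.up_up ha2 hm, ha3, hwx]⟩
        refine ⟨⟨a, hv⟩, m, ⟨h2, ha2, hm⟩, ?_⟩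
        rw [hAr (v := ⟨a, hv⟩) ⟨h2, ha2, hm⟩]
        show z ∈ Zer (K m) (c m) (C.up ha2 a.2)
        rw [ha3]; exact hw
    · rintro ⟨v, F, h, hz⟩
      rw [hAr h] at hz
      have h1 := zer_up H X h.2.2 hz
      rwa [hupx h] at h1
  rw [hT]
  exact hR.circle

end struct

end Crest.Agent.R096.Arc_778
end

-- ▼ part R096/Arc7_778

/-!
# R096 (row 96), (R4) CELL GEOMETRY, part 7: (R4.1) sheet pieces in 3-cells are discs; `Bls` of 334
(helper778)

* `Tile` : the facts (R4.1) about a 3-cell filled by the cone rule.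
* `Geo C K c R k` : what 416's recursion gives, seen through signs (edges `ECell`, other cells
  `FCell`, outside the given part `R`).
* `bls` : 334's `Bls` for all sheets.
-/

set_option autoImplicit false
set_option linter.unusedSectionVars false

open Set Metric

namespace Crest.Agent.R096.Arc_778

open Crest.Agent.R096.Ce_537 Crest.Agent.R096.Bd_416 Crest.Agent.R096.Cb_609 Crest.Agent.R096.Pl
open Crest.Agent.R096.Shp_334 (Zr Bls)

open scoped Classical

variable {Q : Type} [PartialOrder Q] {dim : Q → ℕ} {J Fam : Type}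
variable {E : Type*} [NormedAddCommGroup E] [NormedSpace ℝ E] [FiniteDimensional ℝ E]
variable {C : Cmb Q dim J Fam} {K : Q → Set E} {g : Gd E J}
  {P : ∀ q, C.I q → Set E} {c : ∀ q, C.I q → E → ℝ} {Ω : Set E}

section tile

variable (H : Inv C K univ g P c) (X : Cplx Ω Q dim K) {q : Q}

include H X in
lemma two_of_circle (hd : dim q = 3) {x : C.I q}
    (hG : Nonempty (PLEquiv (S1 ℝ) (Gam (bdS K q) (c q) x))) : Two (bdS K q) (c q x) := by
  have hK : IsBall 3 (K q) (bdS K q) := by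
    have := X.isBall q
    rw [hd] at this
    exact this
  obtain ⟨o, ho, hoc⟩ := bd_base H X (q := q) (by omega)
  exact two_dim3 hK (bd_cont H X x) hG ⟨o, ho, hoc x⟩ (bd_pos H X (circ_nontrivial hG).nonempty)

include H X in
/-- the inside of a curve is a disc -/
theorem dlt_disc (hd : dim q = 3) {x : C.I q}
    (hG : Nonempty (PLEquiv (S1 ℝ) (Gam (bdS K q) (c q) x))) :
    IsBall 2 (Dlt (bdS K q) (c q) x) (Gam (bdS K q) (c q) x) := by
  have hK : IsBall 3 (K q) (bdS K q) := by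
    have := X.isBall q
    rw [hd] at this
    exact this
  obtain ⟨o, ho, hoc⟩ := bd_base H X (q := q) (by omega)
  exact isBall_dlt2 hK (bd_cont H X x) hG ⟨o, ho, hoc x⟩
    (bd_pos H X (circ_nontrivial hG).nonempty)

include H X in
/-- **(R4.1)** -/
theorem zer_disc (hd : dim q = 3) (hq : FCell (K q) (bdS K q) (c q)) {x : C.I q}
    (hG : Nonempty (PLEquiv (S1 ℝ) (Gam (bdS K q) (c q) x))) :
    IsBall 2 (Zer (K q) (c q) x) (Gam (bdS K q) (c q) x) := by
  obtain ⟨n, e, he, ρ, h1, -, -⟩ := hq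
  exact h1.ball (he := he) (dlt_disc H X hd hG)

include H X in
/-- pieces whose curves do not meet do not meet -/
theorem zer_empty (hd : dim q = 3) (hq : FCell (K q) (bdS K q) (c q)) {x x' : C.I q}
    (hne : x ≠ x') (hG : Nonempty (PLEquiv (S1 ℝ) (Gam (bdS K q) (c q) x)))
    (hG' : Nonempty (PLEquiv (S1 ℝ) (Gam (bdS K q) (c q) x')))
    (hi : Gam (bdS K q) (c q) x ∩ Gam (bdS K q) (c q) x' = ∅) :
    Zer (K q) (c q) x ∩ Zer (K q) (c q) x' = ∅ := by
  obtain ⟨n, e, he, ρ, h1, h2, h3⟩ := hq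
  obtain ⟨o, ho, hoc⟩ := bd_base H X (q := q) (by omega)
  refine h1.none he h3 hne (two_of_circle H X hd hG) (two_of_circle H X hd hG') ho (hoc x)
    (hoc x') hi ?_
  have h4 : ∀ ω ∈ Gam (bdS K q) (c q) x', c q x ω ≠ 0 := fun ω hω h => by
    have : ω ∈ Gam (bdS K q) (c q) x ∩ Gam (bdS K q) (c q) x' := ⟨⟨hω.1, h⟩, hω⟩
    rw [hi] at this; exact this.elim
  exact (sign_const (circ_isPreconnected hG')
    ((bd_cont H X x).mono fun ω h => h.1) h4).symm

end tile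

/-! ### all cells -/

/-- **416's recursion seen through signs**: edges and cone-filled cells outside `R` -/
structure Geo (C : Cmb Q dim J Fam) (K : Q → Set E) (c : ∀ q, C.I q → E → ℝ) (R : Set Q)
    (k : ∀ q, C.I q → ℕ) : Prop where
  edge : ∀ q ∉ R, dim q = 1 → ∃ o ∈ K (C.o q), ECell (K q) (bdS K q) o (k q) (c q)
  cone : ∀ q ∉ R, 2 ≤ dim q → FCell (K q) (bdS K q) (c q)

/-- the same facts on the given part `R` (exact cores) -/
structure GeoR (C : Cmb Q dim J Fam) (K : Q → Set E) (c : ∀ q, C.I q → E → ℝ) (R : Set Q) :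
    Prop where
  edge : ∀ q ∈ R, dim q = 1 → EdgeG (K q) (c q)
  face : ∀ q ∈ R, dim q = 2 → Chords (K q) (bdS K q) (c q)
  cell : ∀ q ∈ R, dim q = 3 → ∀ x, IsBall 2 (Zer (K q) (c q) x) (Gam (bdS K q) (c q) x)

/-- **combinatorial input** -/
structure CmbG (C : Cmb Q dim J Fam) (R : Set Q) (k : ∀ q, C.I q → ℕ) : Prop where
  dim_le : ∀ q, dim q ≤ 3
  inj : ∀ q ∉ R, dim q = 1 → Function.Injective (k q)
  ends : ∀ F ∉ R, dim F = 2 → ∀ y : C.I F, ∃ a b, a ≠ b ∧ Blw C F y = {a, b}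
  loop : ∀ q ∉ R, dim q = 3 → ∀ x : C.I q, Loop C q x

section all

variable (H : Inv C K univ g P c) (X : Cplx Ω Q dim K) {R : Set Q} {k : ∀ q, C.I q → ℕ}
  (G : Geo C K c R k) (GR : GeoR C K c R) (L : CmbG C R k)
include H X G GR L

omit [FiniteDimensional ℝ E] H X in
theorem edgeG (q : Q) (hd : dim q = 1) : EdgeG (K q) (c q) := by
  by_cases hR : q ∈ R
  · exact GR.edge q hR hd
  · obtain ⟨o, -, h⟩ := G.edge q hR hd
    exact h.edgeG (L.inj q hR hd)

/-- **(R4.3) for all 2-cells** -/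
theorem chords (q : Q) (hd : dim q = 2) : Chords (K q) (bdS K q) (c q) := by
  by_cases hR : q ∈ R
  · exact GR.face q hR hd
  · exact chords_face H X hd (fun e _ he => edgeG G GR L e he) (G.cone q hR hd.ge)
      (L.ends q hR hd)

/-- the curve of a piece on the boundary of a 3-cell is a circle -/
theorem circle (q : Q) (hd : dim q = 3) (x : C.I q) :
    Nonempty (PLEquiv (S1 ℝ) (Gam (bdS K q) (c q) x)) := by
  by_cases hR : q ∈ R
  · exact circle_of_disc (GR.cell q hR hd x)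
  · exact circle_of_loop H X hd (fun e _ he => edgeG G GR L e he)
      (fun F _ hF y => (chords H X G GR L F hF).ball y) (L.loop q hR hd x)

/-- **(R4.1) for all 3-cells** -/
theorem disc (q : Q) (hd : dim q = 3) (x : C.I q) :
    IsBall 2 (Zer (K q) (c q) x) (Gam (bdS K q) (c q) x) := by
  by_cases hR : q ∈ R
  · exact GR.cell q hR hd x
  · exact zer_disc H X hd (G.cone q hR (by omega)) (circle H X G GR L q hd x)

/-- **334's input** -/
theorem bls (j : J) : Bls C K c j := by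
  intro q hq x hx
  have h1 : Zr c K q x = Zer (K q) (c q) x := rfl
  have h2 : Zr c K q x ∩ bdS K q = Gam (bdS K q) (c q) x := by
    ext z
    exact ⟨fun h => ⟨h.2, h.1.2⟩, fun h => ⟨⟨bdS_sub X h.1, h.2⟩, h.1⟩⟩
  rw [h2, h1]
  have hle := L.dim_le q
  have h3 : dim q = 1 ∨ dim q = 2 ∨ dim q = 3 := by omega
  rcases h3 with h3 | h3 | h3
  · have hE := edgeG G GR L q h3
    obtain ⟨z, hz⟩ := hE.pt x
    have h4 : Gam (bdS K q) (c q) x = ∅ := by
      refine eq_empty_iff_forall_notMem.2 fun y hy => ?_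
      obtain ⟨m, hm, -, hdm, -⟩ := min_bd H X hy
      have := X.mono _ _ hm
      omega
    rw [h4, hz]
    have h5 : dim q - 1 = 0 := by omega
    rw [h5]
    exact isBall_point z
  · have h5 : dim q - 1 = 1 := by omega
    rw [h5]
    exact (chords H X G GR L q h3).ball x
  · have h5 : dim q - 1 = 2 := by omega
    rw [h5]
    exact disc H X G GR L q h3 x

end all

end Crest.Agent.R096.Arc_778
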