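import Mathlib

-- ▼ part R096/Fx1_689
section

set_option autoImplicit false
open Finset

namespace Crest.Agent.R096.Fx_689

/-- Two families of chords of a circle (cut open: the end points are natural numbers); chords of the
same family do not cross. -/
structure Dg (C : Type*) where
  lo : C → ℕ
  hi : C → ℕ
  lt : ∀ x, lo x < hi x
  lo_inj : ∀ x y, lo x = lo y → x = y
  hi_inj : ∀ x y, hi x = hi y → x = y
  ne : ∀ x y, lo x ≠ hi y
  fam : C → Bool
  nc : ∀ x y, fam x = fam y → ¬ (lo x < lo y ∧ lo y < hi x ∧ hi x < hi y)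

namespace Dg

variable {C : Type*} (D : Dg C)

/-- the chords cross -/
def X (x y : C) : Prop :=
  (D.lo x < D.lo y ∧ D.lo y < D.hi x ∧ D.hi x < D.hi y) ∨
    (D.lo y < D.lo x ∧ D.lo x < D.hi y ∧ D.hi y < D.hi x)

instance (x y : C) : Decidable (D.X x y) := by unfold X; infer_instance

/-- the end point of `y` inside `x` -/
def e (x y : C) : ℕ := if D.lo x < D.lo y then D.lo y else D.hi y

/-- side of `y` on which the point `t` lies -/
def inn (y : C) (t : ℕ) : ZMod 2 := if D.lo y < t ∧ t < D.hi y then 1 else 0

/-- side of `y` on which the piece of `x` over `(k, k+1)` lies -/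
def ep (y x : C) (k : ℕ) : ZMod 2 :=
  if D.X x y ∧ D.e x y ≤ k then D.inn y (D.hi x) else D.inn y (D.lo x)

lemma X_symm {x y : C} (h : D.X x y) : D.X y x := by
  unfold X at *; tauto

lemma X_fam {x y : C} (h : D.X x y) : D.fam x ≠ D.fam y := by
  intro hf
  rcases h with h | h
  · exact D.nc x y hf h
  · exact D.nc y x hf.symm h

lemma X_ne {x y : C} (h : D.X x y) : x ≠ y := by
  rintro rfl
  exact D.X_fam h rfl

lemma e_mem {x y : C} (h : D.X x y) : D.lo x < D.e x y ∧ D.e x y < D.hi x := by
  unfold X at h; unfold e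
  have := D.lt x; have := D.lt y
  split_ifs <;> omega

lemma e_inj {x y y' : C} (h : D.X x y) (h' : D.X x y') (he : D.e x y = D.e x y') : y = y' := by
  unfold e at he
  have h1 := D.ne y y'; have h2 := D.ne y' y
  split_ifs at he
  · exact D.lo_inj _ _ he
  · exact absurd he h1
  · exact absurd he.symm h2
  · exact D.hi_inj _ _ he

lemma inn_flip {x y : C} (h : D.X x y) : D.inn y (D.hi x) = D.inn y (D.lo x) + 1 := by
  unfold X at h; unfold inn
  have := D.lt x; have := D.lt y
  have h1 := D.ne x y; have h2 := D.ne y x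
  split_ifs <;> first | rfl | (exfalso; omega) | decide

/-- a function on the pieces of the chords which is even at every vertex (relative cycle) -/
structure RC (u : C → ℕ → ZMod 2) : Prop where
  st : ∀ x j, D.lo x < j → j < D.hi x → (∀ y, D.X x y → D.e x y ≠ j) → u x (j - 1) = u x j
  ev : ∀ x y, D.X x y →
    u x (D.e x y - 1) + u x (D.e x y) = u y (D.e y x - 1) + u y (D.e y x)

variable [Fintype C] [DecidableEq C]

/-- the turning number of `u` at the vertex `(x, y)` -/
def c (u : C → ℕ → ZMod 2) (x y : C) : ZMod 2 := u x (D.e x y - 1) + u x (D.e x y)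

def d (u : C → ℕ → ZMod 2) (x : C) : ZMod 2 :=
  u x (D.lo x) + ∑ y, if D.X x y then D.c u x y * D.inn y (D.lo x) else 0

lemma add_self' (a : ZMod 2) : a + a = 0 := by
  revert a; decide

lemma form {u : C → ℕ → ZMod 2} (hu : D.RC u) (x : C) (k : ℕ) (h1 : D.lo x ≤ k) (h2 : k < D.hi x) :
    u x k = D.d u x + ∑ y, if D.X x y then D.c u x y * D.ep y x k else 0 := by
  induction k, h1 using Nat.le_induction with
  | base =>
    unfold d
    have : (∑ y, if D.X x y then D.c u x y * D.ep y x (D.lo x) else 0)
        = ∑ y, if D.X x y then D.c u x y * D.inn y (D.lo x) else 0 := by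
      apply Finset.sum_congr rfl
      intro y _
      split_ifs with h
      · have := (D.e_mem h).1
        unfold ep
        rw [if_neg (by omega)]
      · rfl
    rw [this, add_assoc, add_self', add_zero]
  | succ k hk ih =>
    have ih := ih (by omega)
    by_cases hy : ∃ y, D.X x y ∧ D.e x y = k + 1
    · obtain ⟨y, hxy, hey⟩ := hy
      have hc : u x (k + 1) = u x k + D.c u x y := by
        unfold c
        rw [hey]
        have : k + 1 - 1 = k := by omega
        rw [this, ← add_assoc, add_self', zero_add]
      rw [hc, ih, add_assoc]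
      congr 1
      have : D.c u x y = ∑ y', if y' = y then D.c u x y else 0 := by simp
      rw [this, ← Finset.sum_add_distrib]
      apply Finset.sum_congr rfl
      intro y' _
      by_cases h : y' = y
      · subst h
        rw [if_pos hxy, if_pos hxy, if_pos rfl]
        unfold ep
        rw [if_neg (by omega), if_pos ⟨hxy, by omega⟩, D.inn_flip hxy]
        ring
      · rw [if_neg h, add_zero]
        split_ifs with h'
        · have hne : D.e x y' ≠ k + 1 := fun h'' => h (D.e_inj h' hxy (by omega))
          unfold ep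
          by_cases h3 : D.e x y' ≤ k
          · rw [if_pos ⟨h', h3⟩, if_pos ⟨h', by omega⟩]
          · rw [if_neg (by tauto), if_neg (by rintro ⟨-, h4⟩; omega)]
        · rfl
    · push Not at hy
      have hc : u x k = u x (k + 1) := by
        have := hu.st x (k + 1) (by omega) h2 hy
        simpa using this
      rw [← hc, ih]
      congr 1
      apply Finset.sum_congr rfl
      intro y' _
      split_ifs with h'
      · have hne := hy y' h'
        unfold ep
        by_cases h3 : D.e x y' ≤ k
        · rw [if_pos ⟨h', h3⟩, if_pos ⟨h', by omega⟩]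
        · rw [if_neg (by tauto), if_neg (by rintro ⟨-, h4⟩; omega)]
      · rfl

/-- the colouring of the regions, a polynomial in the sides -/
def S (u : C → ℕ → ZMod 2) (v : C → ZMod 2) : ZMod 2 :=
  ∑ x, D.d u x * v x + ∑ x, ∑ y, if D.fam x = false ∧ D.X x y then D.c u x y * (v x * v y) else 0

def Dv (u : C → ℕ → ZMod 2) (v : C → ZMod 2) (x : C) : ZMod 2 :=
  D.d u x + ∑ y, if D.X x y then D.c u x y * v y else 0

lemma S_add {u : C → ℕ → ZMod 2} (hu : D.RC u) (v v' : C → ZMod 2) (x : C)
    (h : ∀ y, v' y = v y + if y = x then 1 else 0) :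
    D.S u v' = D.S u v + D.Dv u v x := by
  unfold S Dv
  have e1 : ∑ y, D.d u y * v' y = ∑ y, D.d u y * v y + D.d u x := by
    have : D.d u x = ∑ y, if y = x then D.d u x else 0 := by simp
    rw [this, ← Finset.sum_add_distrib]
    apply Finset.sum_congr rfl
    intro y _
    rw [h]
    split_ifs with h'
    · subst h'; ring
    · ring
  have e2 : (∑ z, ∑ y, if D.fam z = false ∧ D.X z y then D.c u z y * (v' z * v' y) else 0)
      = (∑ z, ∑ y, if D.fam z = false ∧ D.X z y then D.c u z y * (v z * v y) else 0)
        + ∑ y, if D.X x y then D.c u x y * v y else 0 := by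
    have key : ∀ z y, (if D.fam z = false ∧ D.X z y then D.c u z y * (v' z * v' y) else 0)
      = (if D.fam z = false ∧ D.X z y then D.c u z y * (v z * v y) else 0)
        + ((if z = x then (if D.fam x = false ∧ D.X x y then D.c u x y * v y else 0) else 0)
          + (if y = x then (if D.fam z = false ∧ D.X z x then D.c u z x * v z else 0) else 0)) := by
      intro z y
      by_cases h0 : D.fam z = false ∧ D.X z y
      · have hzy := D.X_ne h0.2
        rw [if_pos h0, if_pos h0, h, h]
        by_cases hz : z = x
        · subst hz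
          have hy : ¬ y = z := fun h => hzy h.symm
          rw [if_pos rfl, if_neg hy, if_pos rfl, if_pos h0, if_neg hy]
          ring
        · rw [if_neg hz, if_neg hz]
          by_cases hy : y = x
          · subst hy
            rw [if_pos rfl, if_pos rfl, if_pos h0]
            ring
          · rw [if_neg hy, if_neg hy]
            ring
      · rw [if_neg h0, if_neg h0]
        by_cases hz : z = x
        · subst hz
          rw [if_pos rfl, if_neg h0]
          split_ifs with h1 h2
          · subst h1
            exact absurd h2.2 (fun h => D.X_ne h rfl)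
          · simp
          · simp
        · rw [if_neg hz]
          split_ifs with h1 h2
          · subst h1
            exact absurd h2 h0
          · simp
          · simp
    simp_rw [key, Finset.sum_add_distrib]
    congr 1
    have a1 : (∑ z, ∑ y, if z = x then (if D.fam x = false ∧ D.X x y then D.c u x y * v y else 0)
        else 0) = ∑ y, if D.fam x = false ∧ D.X x y then D.c u x y * v y else 0 := by
      rw [Finset.sum_comm]
      apply Finset.sum_congr rfl
      intro y _
      simp
    have a2 : (∑ z, ∑ y, if y = x then (if D.fam z = false ∧ D.X z x then D.c u z x * v z else 0)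
        else 0) = ∑ y, if D.fam x = true ∧ D.X x y then D.c u x y * v y else 0 := by
      apply Finset.sum_congr rfl
      intro z _
      rw [Finset.sum_ite_eq' Finset.univ x]
      simp only [Finset.mem_univ, if_true]
      by_cases hX : D.X x z
      · have hX' := D.X_symm hX
        have hf := D.X_fam hX
        have hcc : D.c u z x = D.c u x z := by
          unfold c; exact (hu.ev x z hX).symm
        cases hfx : D.fam x <;> cases hfz : D.fam z
        · exact absurd (hfx.trans hfz.symm) hf
        · simp
        · simp [hX, hX', hcc]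
        · exact absurd (hfx.trans hfz.symm) hf
      · have hX' : ¬ D.X z x := fun h => hX (D.X_symm h)
        simp [hX, hX']
    rw [a1, a2, ← Finset.sum_add_distrib]
    apply Finset.sum_congr rfl
    intro y _
    cases hfx : D.fam x <;> simp
  rw [e1, e2]; ring

end Dg

end Crest.Agent.R096.Fx_689
end

-- ▼ part R096/Fx2_689
section

set_option autoImplicit false
open Finset

namespace Crest.Agent.R096.Fx_689

namespace Dg

variable {C : Type*} (D : Dg C)

/-- sides of a third chord are the same along both chords at their crossing -/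
lemma side_third {x y w : C} (hX : D.X x y) (hx : w ≠ x) (hy : w ≠ y) (k k' : ℕ)
    (hk : k = D.e x y ∨ k = D.e x y - 1) (hk' : k' = D.e y x ∨ k' = D.e y x - 1) :
    D.ep w x k = D.ep w y k' := by
  have l1 := D.lt x; have l2 := D.lt y; have l3 := D.lt w
  have a1 : D.lo x ≠ D.lo y := fun h => D.X_ne hX (D.lo_inj _ _ h)
  have a2 : D.lo w ≠ D.lo x := fun h => hx (D.lo_inj _ _ h)
  have a3 : D.lo w ≠ D.lo y := fun h => hy (D.lo_inj _ _ h)
  have b1 : D.hi x ≠ D.hi y := fun h => D.X_ne hX (D.hi_inj _ _ h)
  have b2 : D.hi w ≠ D.hi x := fun h => hx (D.hi_inj _ _ h)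
  have b3 : D.hi w ≠ D.hi y := fun h => hy (D.hi_inj _ _ h)
  have c1 := D.ne x y; have c2 := D.ne y x; have c3 := D.ne x w
  have c4 := D.ne w x; have c5 := D.ne y w; have c6 := D.ne w y
  have hfam := D.X_fam hX
  have hwxy : ¬ (D.X x w ∧ D.X y w) := by
    rintro ⟨h1, h2⟩
    have := D.X_fam h1; have := D.X_fam h2
    cases hfx : D.fam x <;> cases hfy : D.fam y <;> cases hfw : D.fam w <;> simp_all
  have hk1 : D.lo x < D.lo y ∧ D.lo y < D.hi x ∧ D.hi x < D.hi y ∧
      (k = D.lo y ∨ k = D.lo y - 1) ∧ (k' = D.hi x ∨ k' = D.hi x - 1) ∨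
      D.lo y < D.lo x ∧ D.lo x < D.hi y ∧ D.hi y < D.hi x ∧
      (k = D.hi y ∨ k = D.hi y - 1) ∧ (k' = D.lo x ∨ k' = D.lo x - 1) := by
    unfold e at hk hk'
    rcases hX with h | h
    · left
      rw [if_pos h.1] at hk
      rw [if_neg (by omega)] at hk'
      exact ⟨h.1, h.2.1, h.2.2, hk, hk'⟩
    · right
      rw [if_neg (by omega)] at hk
      rw [if_pos h.1] at hk'
      exact ⟨h.1, h.2.1, h.2.2, hk, hk'⟩
  clear hk hk' hX hfam
  have hex : D.lo x < D.lo w ∧ D.e x w = D.lo w ∨ D.lo w < D.lo x ∧ D.e x w = D.hi w := by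
    unfold e
    by_cases h : D.lo x < D.lo w
    · left; exact ⟨h, if_pos h⟩
    · right; exact ⟨by omega, if_neg h⟩
  have hey : D.lo y < D.lo w ∧ D.e y w = D.lo w ∨ D.lo w < D.lo y ∧ D.e y w = D.hi w := by
    unfold e
    by_cases h : D.lo y < D.lo w
    · left; exact ⟨h, if_pos h⟩
    · right; exact ⟨by omega, if_neg h⟩
  unfold ep inn X at *
  generalize D.e x w = E1 at *
  generalize D.e y w = E2 at *
  rcases hk1 with h | h <;> split_ifs <;> first | rfl | (exfalso; omega)

variable [Fintype C] [DecidableEq C]

/-- the colour seen from the piece of `x` over `(k,k+1)`, on the outer side of `x` -/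
def s (u : C → ℕ → ZMod 2) (x : C) (k : ℕ) : ZMod 2 :=
  D.S u (fun y => if y = x then 0 else D.ep y x k)

/-- local crossing number at the vertex `(x,y)` -/
def cr (u w : C → ℕ → ZMod 2) (x y : C) : ZMod 2 :=
  (u x (D.e x y - 1) * u x (D.e x y)) * (w y (D.e y x - 1) * w y (D.e y x)) +
    (w x (D.e x y - 1) * w x (D.e x y)) * (u y (D.e y x - 1) * u y (D.e y x))

set_option synthInstance.maxSize 2000 in
set_option synthInstance.maxHeartbeats 400000 in
lemma key : ∀ t t' c Dx Dy w1 w2 w3 w4 : ZMod 2,
    w1 + w2 = w3 + w4 →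
    (Dx + t * c) * w1 = 0 → (Dx + (t + 1) * c) * w2 = 0 →
    (Dy + t' * c) * w3 = 0 → (Dy + (t' + 1) * c) * w4 = 0 →
    t * Dy * w1 + (t + 1) * Dy * w2 + t' * Dx * w3 + (t' + 1) * Dx * w4
      = ((Dx + t * c) * (Dx + (t + 1) * c)) * (w3 * w4) +
        (w1 * w2) * ((Dy + t' * c) * (Dy + (t' + 1) * c)) := by
  decide

omit [Fintype C] [DecidableEq C] in
lemma ep_e {x y : C} (h : D.X x y) : D.ep y x (D.e x y) = D.inn y (D.hi x) := by
  unfold ep; rw [if_pos ⟨h, le_refl _⟩]

omit [Fintype C] [DecidableEq C] in
lemma ep_e1 {x y : C} (h : D.X x y) : D.ep y x (D.e x y - 1) = D.inn y (D.lo x) := by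
  unfold ep
  have := (D.e_mem h).1
  rw [if_neg (by rintro ⟨-, h'⟩; omega)]

/-- value of `u` on a piece in terms of a colour vector -/
lemma u_eq {u : C → ℕ → ZMod 2} (hu : D.RC u) (x : C) (k : ℕ) (h1 : D.lo x ≤ k) (h2 : k < D.hi x)
    (v : C → ZMod 2) (hv : ∀ y, D.X x y → v y = D.ep y x k) : u x k = D.Dv u v x := by
  rw [D.form hu x k h1 h2]
  unfold Dv
  congr 1
  apply Finset.sum_congr rfl
  intro y _
  split_ifs with h
  · rw [hv y h]
  · rfl

lemma Dv_add {u : C → ℕ → ZMod 2} (x y : C) (hX : D.X x y) (t : ZMod 2) (v v' : C → ZMod 2)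
    (h : ∀ z, v' z = v z + if z = y then t else 0) :
    D.Dv u v' x = D.Dv u v x + t * D.c u x y := by
  unfold Dv
  rw [add_assoc]
  congr 1
  have : t * D.c u x y = ∑ z, if z = y then t * D.c u x y else 0 := by simp
  rw [this, ← Finset.sum_add_distrib]
  apply Finset.sum_congr rfl
  intro z _
  rw [h]
  by_cases hz : z = y
  · subst hz
    rw [if_pos rfl, if_pos hX, if_pos hX, if_pos rfl]
    ring
  · rw [if_neg hz, if_neg hz]
    simp

lemma S_addt {u : C → ℕ → ZMod 2} (hu : D.RC u) (v v' : C → ZMod 2) (x : C) (t : ZMod 2)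
    (h : ∀ y, v' y = v y + if y = x then t else 0) :
    D.S u v' = D.S u v + t * D.Dv u v x := by
  have h2 : ∀ a : ZMod 2, a = 0 ∨ a = 1 := by decide
  have ht := h2 t
  rcases ht with rfl | rfl
  · have : v' = v := by
      funext y; rw [h]; simp
    rw [this]; ring
  · rw [D.S_add hu v v' x h]; ring

/-- the four half edges at a vertex -/
lemma vertex {u w : C → ℕ → ZMod 2} (hu : D.RC u) (hw : D.RC w)
    (hd : ∀ x k, D.lo x ≤ k → k < D.hi x → u x k * w x k = 0) {x y : C} (hX : D.X x y) :
    (w x (D.e x y - 1) * D.s u x (D.e x y - 1) + w x (D.e x y) * D.s u x (D.e x y)) +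
    (w y (D.e y x - 1) * D.s u y (D.e y x - 1) + w y (D.e y x) * D.s u y (D.e y x))
      = D.cr u w x y := by
  have hY := D.X_symm hX
  have hne := D.X_ne hX
  have m1 := D.e_mem hX
  have m2 := D.e_mem hY
  set v0 : C → ZMod 2 := fun z => if z = x ∨ z = y then 0 else D.ep z x (D.e x y) with hv0
  -- the four colour vectors
  have va : ∀ k, (k = D.e x y ∨ k = D.e x y - 1) → ∀ z,
      (fun z => if z = x then 0 else D.ep z x k) z = v0 z + if z = y then D.ep y x k else 0 := by
    intro k hk z
    simp only [hv0]
    by_cases h1 : z = x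
    · subst h1; simp [hne]
    · by_cases h2 : z = y
      · subst h2; simp [h1]
      · simp only [h1, h2, if_false, or_self, add_zero]
        rw [D.side_third hX h1 h2 k (D.e y x) hk (Or.inl rfl),
          D.side_third hX h1 h2 (D.e x y) (D.e y x) (Or.inl rfl) (Or.inl rfl)]
  have vb : ∀ k, (k = D.e y x ∨ k = D.e y x - 1) → ∀ z,
      (fun z => if z = y then 0 else D.ep z y k) z = v0 z + if z = x then D.ep x y k else 0 := by
    intro k hk z
    simp only [hv0]
    by_cases h1 : z = x
    · subst h1; simp [hne]
    · by_cases h2 : z = y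
      · subst h2; simp [h1]
      · simp only [h1, h2, if_false, or_self, add_zero]
        rw [D.side_third hX h1 h2 (D.e x y) k (Or.inl rfl) hk]
  have sa : ∀ k, (k = D.e x y ∨ k = D.e x y - 1) →
      D.s u x k = D.S u v0 + D.ep y x k * D.Dv u v0 y := fun k hk =>
    D.S_addt hu v0 _ y _ (va k hk)
  have sb : ∀ k, (k = D.e y x ∨ k = D.e y x - 1) →
      D.s u y k = D.S u v0 + D.ep x y k * D.Dv u v0 x := fun k hk =>
    D.S_addt hu v0 _ x _ (vb k hk)
  have ua : ∀ k, (k = D.e x y ∨ k = D.e x y - 1) →
      u x k = D.Dv u v0 x + D.ep y x k * D.c u x y := by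
    intro k hk
    rw [D.u_eq hu x k (by omega) (by omega) (fun z => if z = x then 0 else D.ep z x k)
      (fun z hz => by rw [if_neg (fun h => D.X_ne hz h.symm)])]
    exact D.Dv_add x y hX _ _ _ (va k hk)
  have ub : ∀ k, (k = D.e y x ∨ k = D.e y x - 1) →
      u y k = D.Dv u v0 y + D.ep x y k * D.c u y x := by
    intro k hk
    rw [D.u_eq hu y k (by omega) (by omega) (fun z => if z = y then 0 else D.ep z y k)
      (fun z hz => by rw [if_neg (fun h => D.X_ne hz h.symm)])]
    exact D.Dv_add y x hY _ _ _ (vb k hk)
  have hc : D.c u y x = D.c u x y := (hu.ev x y hX).symm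
  have d1 := hd x (D.e x y - 1) (by omega) (by omega)
  have d2 := hd x (D.e x y) (by omega) (by omega)
  have d3 := hd y (D.e y x - 1) (by omega) (by omega)
  have d4 := hd y (D.e y x) (by omega) (by omega)
  have hev := hw.ev x y hX
  rw [ua _ (Or.inr rfl)] at d1
  rw [ua _ (Or.inl rfl)] at d2
  rw [ub _ (Or.inr rfl)] at d3
  rw [ub _ (Or.inl rfl)] at d4
  unfold cr
  rw [sa _ (Or.inr rfl), sa _ (Or.inl rfl), sb _ (Or.inr rfl), sb _ (Or.inl rfl)]
  rw [ua _ (Or.inr rfl), ua _ (Or.inl rfl), ub _ (Or.inr rfl), ub _ (Or.inl rfl)]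
  rw [hc] at *
  have f1 := D.ep_e1 hX
  have f2 : D.ep y x (D.e x y) = D.ep y x (D.e x y - 1) + 1 := by
    rw [D.ep_e hX, D.ep_e1 hX, D.inn_flip hX]
  have f3 : D.ep x y (D.e y x) = D.ep x y (D.e y x - 1) + 1 := by
    rw [D.ep_e hY, D.ep_e1 hY, D.inn_flip hY]
  rw [f2] at d2 ⊢
  rw [f3] at d4 ⊢
  have := key (D.ep y x (D.e x y - 1)) (D.ep x y (D.e y x - 1)) (D.c u x y) (D.Dv u v0 x)
    (D.Dv u v0 y) (w x (D.e x y - 1)) (w x (D.e x y)) (w y (D.e y x - 1)) (w y (D.e y x))
    hev d1 d2 d3 d4
  rw [← this]
  have hz : (w x (D.e x y - 1) + w x (D.e x y)) + (w y (D.e y x - 1) + w y (D.e y x)) = 0 := by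
    rw [hev]; exact add_self' _
  linear_combination (D.S u v0) * hz

end Dg

end Crest.Agent.R096.Fx_689
end

-- ▼ part R096/Fx3_689

set_option autoImplicit false
open Finset

namespace Crest.Agent.R096.Fx_689

namespace Dg

variable {C : Type*} (D : Dg C)

lemma telescope (φ : ℕ → ZMod 2) (a b : ℕ) (h : a < b) :
    ∑ j ∈ Finset.Ioo a b, (φ (j - 1) + φ j) = φ a + φ (b - 1) := by
  induction b, (Nat.succ_le_of_lt h) using Nat.le_induction with
  | base =>
    have : Finset.Ioo a (a + 1) = ∅ := by
      ext j; simp only [Finset.mem_Ioo, Finset.notMem_empty, iff_false]; omega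
    rw [show a.succ = a + 1 from rfl, this]
    simp [add_self']
  | succ b hb ih =>
    have h1 : Finset.Ioo a (b + 1) = insert b (Finset.Ioo a b) := by
      ext j; simp only [Finset.mem_Ioo, Finset.mem_insert]; omega
    rw [h1, Finset.sum_insert (by simp), ih (by omega)]
    have : b + 1 - 1 = b := by omega
    rw [this]
    have h2 := add_self' (φ (b - 1))
    linear_combination h2

variable [Fintype C] [DecidableEq C]

/-- sum over the crossings of `x` = the two ends of `x` -/
lemma along {u w : C → ℕ → ZMod 2} (hw : D.RC w) (x : C) :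
    ∑ y, (if D.X x y then (w x (D.e x y - 1) * D.s u x (D.e x y - 1)
        + w x (D.e x y) * D.s u x (D.e x y)) else 0)
      = w x (D.lo x) * D.s u x (D.lo x) + w x (D.hi x - 1) * D.s u x (D.hi x - 1) := by
  rw [← telescope (fun k => w x k * D.s u x k) (D.lo x) (D.hi x) (D.lt x), ← Finset.sum_filter]
  rw [← Finset.sum_image (s := Finset.univ.filter (fun y => D.X x y)) (g := fun y => D.e x y)
    (f := fun j => w x (j - 1) * D.s u x (j - 1) + w x j * D.s u x j)]
  · apply Finset.sum_subset
    · intro j hj
      simp only [Finset.mem_image, Finset.mem_filter, Finset.mem_univ, true_and] at hj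
      obtain ⟨y, hy, rfl⟩ := hj
      exact Finset.mem_Ioo.2 (D.e_mem hy)
    · intro j hj hj'
      rw [Finset.mem_Ioo] at hj
      simp only [Finset.mem_image, Finset.mem_filter, Finset.mem_univ, true_and, not_exists,
        not_and] at hj'
      have h1 := hw.st x j hj.1 hj.2 hj'
      have h2 : D.s u x (j - 1) = D.s u x j := by
        unfold s
        congr 1
        funext y
        split_ifs with h
        · rfl
        · unfold ep
          by_cases hX : D.X x y
          · have := hj' y hX
            by_cases h3 : D.e x y ≤ j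
            · rw [if_pos ⟨hX, by omega⟩, if_pos ⟨hX, h3⟩]
            · rw [if_neg (by rintro ⟨-, h4⟩; omega), if_neg (by tauto)]
          · rw [if_neg (by tauto), if_neg (by tauto)]
      rw [h1, h2]
      exact add_self' _
  · intro y hy y' hy' h
    simp only [Finset.coe_filter, Finset.mem_univ, true_and, Set.mem_ofPred_eq] at hy hy'
    exact D.e_inj hy hy' h

/-- end points -/
def pos (t : C × Bool) : ℕ := if t.2 then D.hi t.1 else D.lo t.1

def val (u : C → ℕ → ZMod 2) (t : C × Bool) : ZMod 2 :=
  if t.2 then u t.1 (D.hi t.1 - 1) else u t.1 (D.lo t.1)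

/-- colour of the gap before the point `k` of the circle -/
def G (u : C → ℕ → ZMod 2) (k : ℕ) : ZMod 2 :=
  D.S u (fun y => if D.lo y < k ∧ k ≤ D.hi y then 1 else 0)

omit [DecidableEq C] in
lemma G_zero (u : C → ℕ → ZMod 2) : D.G u 0 = 0 := by
  unfold G S
  have : (fun y => if D.lo y < 0 ∧ 0 ≤ D.hi y then (1 : ZMod 2) else 0) = fun _ => 0 := by
    funext y; simp
  rw [this]
  simp

lemma G_succ {u : C → ℕ → ZMod 2} (hu : D.RC u) (k : ℕ) :
    D.G u (k + 1) = D.G u k + ∑ t : C × Bool, if D.pos t = k then D.val u t else 0 := by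
  by_cases hk : ∃ t : C × Bool, D.pos t = k
  · obtain ⟨⟨x, b⟩, ht⟩ := hk
    have huniq : ∀ t : C × Bool, D.pos t = k → t = (x, b) := by
      rintro ⟨y, b'⟩ h'
      unfold pos at h' ht
      cases b <;> cases b' <;> simp at h' ht
      · rw [D.lo_inj y x (by omega)]
      · exact absurd (ht.trans h'.symm) (D.ne _ _)
      · exact absurd (h'.trans ht.symm) (D.ne _ _)
      · rw [D.hi_inj y x (by omega)]
    have hsum : (∑ t : C × Bool, if D.pos t = k then D.val u t else 0) = D.val u (x, b) := by
      rw [Finset.sum_eq_single (x, b)]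
      · rw [if_pos ht]
      · intro t _ h
        rw [if_neg (fun h' => h (huniq t h'))]
      · simp
    rw [hsum]
    have hl := D.lt x
    cases b
    · -- `k = lo x`
      have hk' : D.lo x = k := by simpa [pos] using ht
      have hv : ∀ y, (if D.lo y < k + 1 ∧ k + 1 ≤ D.hi y then (1 : ZMod 2) else 0)
          = (if D.lo y < k ∧ k ≤ D.hi y then 1 else 0) + if y = x then 1 else 0 := by
        intro y
        by_cases hy : y = x
        · subst hy
          rw [if_pos (by omega), if_neg (by omega), if_pos rfl, zero_add]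
        · have h1 : D.lo y ≠ D.lo x := fun h => hy (D.lo_inj _ _ h)
          have h2 := D.ne x y
          have h3 := D.lt y
          rw [if_neg hy, add_zero]
          split_ifs <;> first | rfl | (exfalso; omega)
      have h0 := D.S_add hu _ _ x hv
      unfold G
      rw [h0]
      congr 1
      have : D.val u (x, false) = u x (D.lo x) := by simp [val]
      rw [this, D.u_eq hu x (D.lo x) (le_refl _) hl
        (fun y => if D.lo y < k ∧ k ≤ D.hi y then 1 else 0)]
      intro y hXy
      have h1 : D.lo y ≠ D.lo x := fun h => D.X_ne hXy (D.lo_inj _ _ h).symm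
      have h2 := D.ne x y
      have h3 := (D.e_mem hXy).1
      have h4 : D.ep y x (D.lo x) = D.inn y (D.lo x) := by
        unfold ep
        rw [if_neg (by rintro ⟨-, h⟩; omega)]
      rw [h4]
      unfold inn
      split_ifs <;> first | rfl | (exfalso; omega)
    · -- `k = hi x`
      have hk' : D.hi x = k := by simpa [pos] using ht
      have hv : ∀ y, (if D.lo y < k ∧ k ≤ D.hi y then (1 : ZMod 2) else 0)
          = (if D.lo y < k + 1 ∧ k + 1 ≤ D.hi y then 1 else 0) + if y = x then 1 else 0 := by
        intro y
        by_cases hy : y = x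
        · subst hy
          rw [if_pos (by omega), if_neg (by omega), if_pos rfl, zero_add]
        · have h1 : D.hi y ≠ D.hi x := fun h => hy (D.hi_inj _ _ h)
          have h2 := D.ne y x
          have h3 := D.lt y
          rw [if_neg hy, add_zero]
          split_ifs <;> first | rfl | (exfalso; omega)
      have h0 := D.S_add hu _ _ x hv
      unfold G
      rw [h0]
      have : D.val u (x, true) = u x (D.hi x - 1) := by simp [val]
      rw [this, D.u_eq hu x (D.hi x - 1) (by omega) (by omega)
        (fun y => if D.lo y < k + 1 ∧ k + 1 ≤ D.hi y then 1 else 0)]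
      · rw [add_assoc, add_self', add_zero]
      intro y hXy
      have h1 : D.hi y ≠ D.hi x := fun h => D.X_ne hXy (D.hi_inj _ _ h).symm
      have h2 := D.ne y x
      have h3 := (D.e_mem hXy).2
      have h4 : D.ep y x (D.hi x - 1) = D.inn y (D.hi x) := by
        unfold ep
        rw [if_pos ⟨hXy, by omega⟩]
      rw [h4]
      unfold inn
      split_ifs <;> first | rfl | (exfalso; omega)
  · push Not at hk
    have : (∑ t : C × Bool, if D.pos t = k then D.val u t else 0) = 0 :=
      Finset.sum_eq_zero (fun t _ => if_neg (hk t))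
    rw [this, add_zero]
    unfold G
    congr 1
    funext y
    have h1 : D.lo y ≠ k := by simpa [pos] using hk (y, false)
    have h2 : D.hi y ≠ k := by simpa [pos] using hk (y, true)
    split_ifs <;> first | rfl | (exfalso; omega)

lemma G_eq {u : C → ℕ → ZMod 2} (hu : D.RC u) (k : ℕ) :
    D.G u k = ∑ t : C × Bool, if D.pos t < k then D.val u t else 0 := by
  induction k with
  | zero => rw [G_zero]; simp
  | succ k ih =>
    rw [D.G_succ hu, ih, ← Finset.sum_add_distrib]
    apply Finset.sum_congr rfl
    intro t _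
    split_ifs <;> first | (exfalso; omega) | simp

/-- crossings = interlacing parity of the end points -/
theorem cr_eq {u w : C → ℕ → ZMod 2} (hu : D.RC u) (hw : D.RC w)
    (hd : ∀ x k, D.lo x ≤ k → k < D.hi x → u x k * w x k = 0) :
    (∑ x, ∑ y, if D.fam x = false ∧ D.X x y then D.cr u w x y else 0)
      = ∑ t : C × Bool, ∑ r : C × Bool, if D.pos r < D.pos t then D.val u r * D.val w t else 0 := by
  set f : C → C → ZMod 2 := fun x y => w x (D.e x y - 1) * D.s u x (D.e x y - 1)
        + w x (D.e x y) * D.s u x (D.e x y) with hf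
  have h1 : (∑ x, ∑ y, if D.fam x = false ∧ D.X x y then D.cr u w x y else 0)
      = ∑ x, ∑ y, if D.X x y then f x y else 0 := by
    have e1 : (∑ x, ∑ y, if D.fam x = false ∧ D.X x y then D.cr u w x y else 0)
        = (∑ x, ∑ y, if D.fam x = false ∧ D.X x y then f x y else 0)
          + ∑ x, ∑ y, if D.fam x = false ∧ D.X x y then f y x else 0 := by
      rw [← Finset.sum_add_distrib]
      apply Finset.sum_congr rfl; intro x _
      rw [← Finset.sum_add_distrib]
      apply Finset.sum_congr rfl; intro y _
      by_cases h : D.fam x = false ∧ D.X x y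
      · rw [if_pos h, if_pos h, if_pos h]
        exact (D.vertex hu hw hd h.2).symm
      · rw [if_neg h, if_neg h, if_neg h, add_zero]
    have e2 : (∑ x, ∑ y, if D.fam x = false ∧ D.X x y then f y x else 0)
        = ∑ x, ∑ y, if D.fam x = true ∧ D.X x y then f x y else 0 := by
      rw [Finset.sum_comm]
      apply Finset.sum_congr rfl; intro x _
      apply Finset.sum_congr rfl; intro y _
      by_cases hX : D.X x y
      · have hX' := D.X_symm hX
        have hfam := D.X_fam hX
        cases hx : D.fam x <;> cases hy : D.fam y <;> simp_all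
      · have hX' : ¬ D.X y x := fun h => hX (D.X_symm h)
        simp [hX, hX']
    rw [e1, e2, ← Finset.sum_add_distrib]
    apply Finset.sum_congr rfl; intro x _
    rw [← Finset.sum_add_distrib]
    apply Finset.sum_congr rfl; intro y _
    cases hx : D.fam x <;> simp
  rw [h1]
  have h2 : ∀ x, (∑ y, if D.X x y then f x y else 0)
      = D.val w (x, false) * D.G u (D.pos (x, false)) + D.val w (x, true) * D.G u (D.pos (x, true)) := by
    intro x
    rw [hf, D.along hw x]
    have hl := D.lt x
    have p1 : D.pos (x, false) = D.lo x := by simp [pos]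
    have p2 : D.pos (x, true) = D.hi x := by simp [pos]
    have v1 : D.val w (x, false) = w x (D.lo x) := by simp [val]
    have v2 : D.val w (x, true) = w x (D.hi x - 1) := by simp [val]
    rw [p1, p2, v1, v2]
    have s1 : D.s u x (D.lo x) = D.G u (D.lo x) := by
      unfold s G
      congr 1
      funext y
      by_cases hy : y = x
      · subst hy
        rw [if_pos rfl, if_neg (by omega)]
      · rw [if_neg hy]
        have h1 : D.lo y ≠ D.lo x := fun h => hy (D.lo_inj _ _ h)
        have h2 := D.ne x y
        have h3 := D.lt y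
        have h4 : D.ep y x (D.lo x) = D.inn y (D.lo x) := by
          unfold ep
          by_cases hX : D.X x y
          · have := (D.e_mem hX).1
            rw [if_neg (by rintro ⟨-, h⟩; omega)]
          · rw [if_neg (by tauto)]
        rw [h4]
        unfold inn
        split_ifs <;> first | rfl | (exfalso; omega)
    have s2 : w x (D.hi x - 1) * D.s u x (D.hi x - 1) = w x (D.hi x - 1) * D.G u (D.hi x) := by
      have hv : ∀ y, (if D.lo y < D.hi x ∧ D.hi x ≤ D.hi y then (1 : ZMod 2) else 0)
          = (if y = x then 0 else D.ep y x (D.hi x - 1)) + if y = x then 1 else 0 := by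
        intro y
        by_cases hy : y = x
        · subst hy
          rw [if_pos (by omega), if_pos rfl, if_pos rfl, zero_add]
        · rw [if_neg hy, if_neg hy, add_zero]
          have h1 : D.hi y ≠ D.hi x := fun h => hy (D.hi_inj _ _ h)
          have h1' : D.lo y ≠ D.lo x := fun h => hy (D.lo_inj _ _ h)
          have h2 := D.ne y x
          have h2' := D.ne x y
          have h3 := D.lt y
          by_cases hX : D.X x y
          · have := (D.e_mem hX).2
            have h4 : D.ep y x (D.hi x - 1) = D.inn y (D.hi x) := by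
              unfold ep
              rw [if_pos ⟨hX, by omega⟩]
            rw [h4]
            unfold inn
            split_ifs <;> first | rfl | (exfalso; omega)
          · have h4 : D.ep y x (D.hi x - 1) = D.inn y (D.lo x) := by
              unfold ep
              rw [if_neg (by tauto)]
            rw [h4]
            unfold X at hX
            unfold inn
            split_ifs <;> first | rfl | (exfalso; omega)
      have hS := D.S_add hu _ _ x hv
      have hG : D.G u (D.hi x) = D.s u x (D.hi x - 1) + u x (D.hi x - 1) := by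
        unfold G s
        rw [hS]
        congr 1
        rw [D.u_eq hu x (D.hi x - 1) (by omega) (by omega)
          (fun y => if y = x then 0 else D.ep y x (D.hi x - 1))]
        intro y hy
        rw [if_neg (fun h => D.X_ne hy h.symm)]
      have hd' := hd x (D.hi x - 1) (by omega) (by omega)
      rw [hG]
      linear_combination (-1 : ZMod 2) * hd'
    rw [s1, s2]
  simp_rw [h2]
  have h3 : ∀ t : C × Bool, (∑ r : C × Bool, if D.pos r < D.pos t then D.val u r * D.val w t else 0)
      = D.val w t * D.G u (D.pos t) := by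
    intro t
    rw [D.G_eq hu, Finset.mul_sum]
    apply Finset.sum_congr rfl
    intro r _
    split_ifs <;> ring
  simp_rw [h3]
  rw [Fintype.sum_prod_type]
  apply Finset.sum_congr rfl
  intro x _
  rw [Fintype.sum_bool]
  ring

end Dg

end Crest.Agent.R096.Fx_689
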