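import Crest.Agent.R096.Lm5_117
import Crest.Agent.R096.Ac9_117
import Crest.Agent.R096.Ac10_117

-- ▼ part R096/Lm11_117
section

/-!
# R096 (row 96), LMesh, part 11: laminarity over a labelled mesh; the closed chord cycles of a
two-colour state on the boundary of a tile (helper117)
-/

set_option autoImplicit false
set_option linter.unusedSectionVars false

open Set

namespace Crest.Agent.R096.Lm_117

open Crest.Agent.R096.St_147 Crest.Agent.R096.Ac_117 Crest.Agent.R096.Seq_213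
open Crest.Agent.R096.Wk_689

/-! ### laminarity -/

section lam

variable {Q W : Type} [PartialOrder Q] {dim : Q → ℕ} {L : Sk W Q dim}

/-- number mod 2 of the points of `Y` on `e` below the position `x` -/
noncomputable def preN (L : Sk W Q dim) (Y : Finset W) (e : Q) (x : ℝ) : ZMod 2 :=
  nW Y {w | w ∈ L.W1 ∧ L.ed w = e ∧ L.t w < x}

lemma preN_pre {Y : Finset W} {w : W} : preN L Y (L.ed w) (L.t w) = L.pre Y w := rfl


lemma preN_out {Y : Finset W} {e : Q} {x : ℝ} {u : W} (hu : u ∉ Y) (hu1 : u ∈ L.W1)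
    (hue : L.ed u = e) (hx : L.t u < x)
    (hmax : ∀ w ∈ Y, w ∈ L.W1 → L.ed w = e → L.t w < x → L.t w ≤ L.t u) :
    preN L Y e x = preN L Y e (L.t u) := by
  unfold preN
  apply nW_congr
  intro w hw
  constructor
  · rintro ⟨a1, a2, a3⟩
    refine ⟨a1, a2, lt_of_le_of_ne (hmax w hw a1 a2 a3) (fun h => ?_)⟩
    have := L.t_inj w a1 u hu1 (a2.trans hue.symm) h
    exact hu (this ▸ hw)
  · rintro ⟨a1, a2, a3⟩
    exact ⟨a1, a2, a3.trans hx⟩

lemma preN_low {Y : Finset W} {e : Q} {x : ℝ}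
    (h : ∀ w ∈ Y, w ∈ L.W1 → L.ed w = e → ¬ L.t w < x) : preN L Y e x = 0 :=
  nW_empty fun w hw h' => h w hw h'.1 h'.2.1 h'.2.2

lemma exists_big (Y : Finset W) (t : W → ℝ) : ∃ x, ∀ w ∈ Y, t w < x := by
  classical
  obtain ⟨x, hx⟩ := (Y.image t).finite_toSet.bddAbove
  refine ⟨x + 1, fun w hw => ?_⟩
  have := hx (Finset.mem_coe.2 (Finset.mem_image_of_mem t hw))
  linarith

variable {Y Y' : Finset W} {a b : Q → ZMod 2} {β : ZMod 2} {c : Q}

/-- along an edge -/
lemma hh_edge (hd : ∀ w ∈ Y, w ∉ Y')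
    (h1 : ∀ w ∈ Y', w ∈ L.In c → L.ext Y a w = 1)
    (h2 : ∀ w ∈ Y, w ∈ L.In c → L.ext Y' b w = β) {e : Q} (he : e ≤ c) (x : ℝ) :
    (a (L.en e false) + preN L Y e x + 1) * (b (L.en e false) + preN L Y' e x + β) =
      (a (L.en e false) + 1) * (b (L.en e false) + β) := by
  classical
  have key : ∀ u : W, u ∈ L.W1 → L.ed u = e → (u ∈ Y ∨ u ∈ Y') →
      (a (L.en e false) + preN L Y e (L.t u) + 1) *
        (b (L.en e false) + preN L Y' e (L.t u) + β) = 0 := by
    intro u hu1 hue hu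
    have hin : u ∈ L.In c := ⟨hu1, hue ▸ he⟩
    rcases hu with hu | hu
    · have h3 := h2 u hu hin
      unfold Sk.ext at h3
      rw [← preN_pre, hue] at h3
      rw [h3, add_self, mul_zero]
    · have h3 := h1 u hu hin
      unfold Sk.ext at h3
      rw [← preN_pre, hue] at h3
      rw [h3, add_self, zero_mul]
  let S : Finset W := (Y ∪ Y').filter (fun u => u ∈ L.W1 ∧ L.ed u = e)
  have hS : ∀ u, u ∈ S ↔ (u ∈ Y ∨ u ∈ Y') ∧ u ∈ L.W1 ∧ L.ed u = e := by
    intro u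
    simp only [S, Finset.mem_filter, Finset.mem_union]
  by_cases hSx : (S.filter (fun u => L.t u < x)).Nonempty
  · -- the value at `x` is zero
    obtain ⟨u, hu, humax⟩ := Finset.exists_max_image _ L.t hSx
    rw [Finset.mem_filter, hS] at hu
    have hmax : ∀ w, (w ∈ Y ∨ w ∈ Y') → w ∈ L.W1 → L.ed w = e → L.t w < x → L.t w ≤ L.t u :=
      fun w hw a1 a2 a3 => humax w (Finset.mem_filter.2 ⟨(hS w).2 ⟨hw, a1, a2⟩, a3⟩)
    have hL : (a (L.en e false) + preN L Y e x + 1) *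
        (b (L.en e false) + preN L Y' e x + β) = 0 := by
      have h3 := key u hu.1.2.1 hu.1.2.2 hu.1.1
      rcases hu.1.1 with hY | hY
      · have e2 := preN_out (L := L) (Y := Y') (hd u hY) hu.1.2.1 hu.1.2.2 hu.2
          (fun w hw => hmax w (Or.inr hw))
        have h4 := h2 u hY ⟨hu.1.2.1, hu.1.2.2 ▸ he⟩
        unfold Sk.ext at h4
        rw [← preN_pre, hu.1.2.2] at h4
        rw [e2, h4, add_self, mul_zero]
      · have hYn : u ∉ Y := fun h => hd u h hY
        have e2 := preN_out (L := L) (Y := Y) hYn hu.1.2.1 hu.1.2.2 hu.2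
          (fun w hw => hmax w (Or.inl hw))
        have h4 := h1 u hY ⟨hu.1.2.1, hu.1.2.2 ▸ he⟩
        unfold Sk.ext at h4
        rw [← preN_pre, hu.1.2.2] at h4
        rw [e2, h4, add_self, zero_mul]
    -- the value at the first point
    obtain ⟨u0, hu0, hmin⟩ := Finset.exists_min_image S L.t ⟨u, (hS u).2 hu.1⟩
    rw [hS] at hu0
    have h5 := key u0 hu0.2.1 hu0.2.2 hu0.1
    have e3 : preN L Y e (L.t u0) = 0 := preN_low fun w hw a1 a2 a3 =>
      absurd (hmin w ((hS w).2 ⟨Or.inl hw, a1, a2⟩)) (not_le.2 a3)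
    have e4 : preN L Y' e (L.t u0) = 0 := preN_low fun w hw a1 a2 a3 =>
      absurd (hmin w ((hS w).2 ⟨Or.inr hw, a1, a2⟩)) (not_le.2 a3)
    rw [e3, e4, add_zero, add_zero] at h5
    rw [hL, h5]
  · rw [Finset.not_nonempty_iff_eq_empty] at hSx
    have hno : ∀ w, (w ∈ Y ∨ w ∈ Y') → w ∈ L.W1 → L.ed w = e → ¬ L.t w < x := by
      intro w hw a1 a2 a3
      have : w ∈ S.filter (fun u => L.t u < x) := Finset.mem_filter.2 ⟨(hS w).2 ⟨hw, a1, a2⟩, a3⟩
      rw [hSx] at this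
      exact absurd this (Finset.notMem_empty _)
    rw [preN_low (fun w hw => hno w (Or.inl hw)), preN_low (fun w hw => hno w (Or.inr hw)),
      add_zero, add_zero]

/-- **laminarity on the 1-skeleton** -/
theorem lam_skel (ha : L.XL Y a c) (hb : L.XL Y' b c) (hd : ∀ w ∈ Y, w ∉ Y')
    (h1 : ∀ w ∈ Y', w ∈ L.In c → L.ext Y a w = 1)
    (h2 : ∀ w ∈ Y, w ∈ L.In c → L.ext Y' b w = β) (ha0 : a (bv L c) = 0) (hb0 : b (bv L c) = 0)
    (hne : ∃ w ∈ Y', w ∈ L.In c) :
    β = 0 ∧ (∀ v ≤ c, dim v = 0 → b v = 1 → a v = 1) ∧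
      ∀ w ∈ L.In c, L.ext Y' b w = 1 → L.ext Y a w = 1 := by
  classical
  have hconst : ∀ v ≤ c, dim v = 0 → (a v + 1) * (b v + β) = β := by
    intro v hv h0
    have h3 := L.conn c (fun v => (a v + 1) * (b v + β)) (by
      intro e he h1'
      obtain ⟨x, hx⟩ := exists_big (Y ∪ Y') L.t
      have h4 := hh_edge (L := L) hd h1 h2 he x
      have e1 : preN L Y e x = nW Y (L.On1 e) := nW_congr fun w hw =>
        ⟨fun h => ⟨h.1, h.2.1⟩, fun h => ⟨h.1, h.2, hx w (Finset.mem_union_left _ hw)⟩⟩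
      have e2 : preN L Y' e x = nW Y' (L.On1 e) := nW_congr fun w hw =>
        ⟨fun h => ⟨h.1, h.2.1⟩, fun h => ⟨h.1, h.2, hx w (Finset.mem_union_right _ hw)⟩⟩
      rw [e1, e2, ← ha e he h1', ← hb e he h1'] at h4
      have k : ∀ p q : ZMod 2, p + (p + q) = q := by decide
      rw [k, k] at h4
      exact h4.symm) v (bv L c) hv (bv_le L c) h0 (bv_dim L c)
    have h4 : (a v + 1) * (b v + β) = (a (bv L c) + 1) * (b (bv L c) + β) := h3
    rw [h4, ha0, hb0]; ring
  have hpt : ∀ w ∈ L.In c, (L.ext Y a w + 1) * (L.ext Y' b w + β) = β := by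
    intro w hw
    have h3 := hh_edge (L := L) hd h1 h2 hw.2 (L.t w)
    rw [hconst _ ((L.en_lt _ (L.ed_dim w hw.1) false).le.trans hw.2)
      (L.en_dim _ (L.ed_dim w hw.1) false)] at h3
    exact h3
  have hβ : β = 0 := by
    obtain ⟨w, hw, hwc⟩ := hne
    rw [← hpt w hwc, h1 w hw hwc, add_self, zero_mul]
  refine ⟨hβ, ?_, ?_⟩
  · intro v hv h0 hbv
    have h3 := hconst v hv h0
    rw [hβ, hbv] at h3
    have k : ∀ p : ZMod 2, (p + 1) * (1 + 0) = 0 → p = 1 := by decide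
    exact k _ h3
  · intro w hw hbw
    have h3 := hpt w hw
    rw [hβ, hbw] at h3
    have k : ∀ p : ZMod 2, (p + 1) * (1 + 0) = 0 → p = 1 := by decide
    exact k _ h3

end lam

/-! ### the closed chord cycles -/

variable {ι Φ W Q J C I K : Type} {M : MeshC ι Φ W} [PartialOrder Q] {dim : Q → ℕ}
variable {L : LM M Q dim} {fam : J → C} {col : I → Bool}

/-- `r` is the restriction of `s` to some families -/
structure ResOf (s : GSt M fam) (r : St M col) : Prop where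
  sub : ∀ w ∈ r.P, w ∈ s.P
  mu : ∀ F w, r.mu F w = s.mu F w
  cl : ∀ w ∈ r.P, ∀ w' ∈ s.P, fam (s.lab w') = fam (s.lab w) → w' ∈ r.P
  colr : ∀ w ∈ r.P, ∀ w' ∈ r.P, (col (r.lab w) = col (r.lab w') ↔ fam (s.lab w) = fam (s.lab w'))

theorem resOf (s : GSt M fam) (Qd : Quads ι C K) (k : K) (i0 : Qd.Nm fam k) :
    ResOf s (s.res Qd k i0) where
  sub := fun _ hw => (GSt.mem_res.1 hw).1
  mu := fun _ _ => rfl
  cl := fun w hw w' hw' hf => by
    rw [GSt.mem_res] at hw ⊢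
    exact ⟨hw', by rw [hf]; exact hw.2⟩
  colr := fun w hw w' hw' => by
    rw [GSt.mem_res] at hw hw'
    rw [GSt.res_lab hw.2, GSt.res_lab hw'.2]
    exact Qd.cl_eq_iff fam k ⟨_, hw.2⟩ ⟨_, hw'.2⟩

variable {s : GSt M fam} {r : St M col}

variable {q : ι} {c : Q}

lemma ptc (R : ResOf s r) (hc : ∀ F, q ∈ M.side F ↔ L.cf F ≤ c) {F : Φ} {w : W} (hat : r.At F w)
    (hq : q ∈ M.side F) : w ∈ s.P ∧ w ∈ L.toSk.In c :=
  ⟨R.sub w hat.1, on_in ((hc F).1 hq) hat.2⟩

/-- the closed chord cycle of a sub-chord -/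
noncomputable def cyc (R : ResOf s r) (hc : ∀ F, q ∈ M.side F ↔ L.cf F ≤ c) (p : Qq r q) : Pc L s c :=
  Quot.mk _ ⟨(chd p.1.2).2, ptc R hc (chd_at p.1.2) p.2⟩

lemma mk_congr {w w' : W} (h : w = w') (hw : w ∈ s.P ∧ w ∈ L.toSk.In c)
    (hw' : w' ∈ s.P ∧ w' ∈ L.toSk.In c) :
    (Quot.mk _ ⟨w, hw⟩ : Pc L s c) = Quot.mk _ ⟨w', hw'⟩ := by
  subst h; rfl

variable (R : ResOf s r) (hc : ∀ F, q ∈ M.side F ↔ L.cf F ≤ c)

include R in
lemma mk_mu {F : Φ} (hF : L.cf F ≤ c) {w : W} (hat : r.At F w)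
    (hw : w ∈ s.P ∧ w ∈ L.toSk.In c)
    (hw' : r.mu F w ∈ s.P ∧ r.mu F w ∈ L.toSk.In c) :
    (Quot.mk _ ⟨r.mu F w, hw'⟩ : Pc L s c) = Quot.mk _ ⟨w, hw⟩ :=
  (Quot.sound (r := Rel L s c) ⟨F, hF, hat.2, R.mu F w⟩).symm

lemma cyc_pt (d : Dart r) (h : q ∈ M.side (fc d)) :
    cyc R hc (pD d h) = Quot.mk _ ⟨pt d, ptc R hc (pt_at d) h⟩ := by
  obtain ⟨x, p, b⟩ := d
  cases b
  · rfl
  · exact (mk_mu R ((hc _).1 h) (chd_at p) (ptc R hc (chd_at p) h)
      (ptc R hc (pt_at ⟨x, p, true⟩) h)).symm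

lemma chd_dj (z : r.Dbl) (x j : Bool) : chd (dj z x j).p = (z.F, z.e x) := by
  unfold dj
  cases (!(xor j (lowIn z x)))
  · rfl
  · exact below_chd (bel_spec z x)

lemma cyc_dj {z : r.Dbl} (hz : q ∈ M.side z.F) (x j : Bool) :
    cyc R hc (pcQ (Sum.inl (⟨z, hz⟩, x, j))) =
      Quot.mk _ ⟨z.e x, ptc R hc (z.at_ x) hz⟩ := by
  apply mk_congr
  show (chd (dj z x j).p).2 = z.e x
  rw [chd_dj]

lemma cyc_lp (w : Lq r q) (i : Bool) :
    cyc R hc (pcQ (Sum.inr (w, i))) = Quot.mk _ ⟨w.1, ptc R hc (fa_at w i) (fa_side w i).1⟩ := by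
  refine (cyc_pt R hc (ed (fa_at w i)) (toD_side (Sum.inr (w, i)))).trans ?_
  apply mk_congr
  rw [pt_ed]

lemma cyc_nx (d : Drt (Zq r q) (Lq r q)) : cyc R hc (pcQ (Arr.nx d)) = cyc R hc (pcQ d) := by
  rcases d with ⟨z, x, j⟩ | ⟨w, i⟩
  · show cyc R hc (pcQ (Sum.inl (z, x, !j))) = _
    exact (cyc_dj R hc z.2 x (!j)).trans (cyc_dj R hc z.2 x j).symm
  · show cyc R hc (pcQ (Sum.inr (w, !i))) = _
    exact (cyc_lp R hc w (!i)).trans (cyc_lp R hc w i).symm

/-! ### connectedness of the cycles -/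

section conn

variable {X : Set (Qq r q)} (hX : ∀ d : Drt (Zq r q) (Lq r q), pcQ d ∈ X → pcQ (Arr.nx d) ∈ X)

include hX

lemma x_z {z : r.Dbl} (hz : q ∈ M.side z.F) (x : Bool)
    (h1 : q ∈ M.side (chd (bel z x)).1) (h2 : q ∈ M.side (chd (abv z x)).1) :
    (⟨⟨x, bel z x⟩, h1⟩ : Qq r q) ∈ X ↔ (⟨⟨x, abv z x⟩, h2⟩ : Qq r q) ∈ X := by
  obtain ⟨j, e1, e2⟩ := bel_abv z x
  have f1 : (⟨⟨x, bel z x⟩, h1⟩ : Qq r q) = pcQ (Sum.inl (⟨z, hz⟩, x, j)) := by
    apply Subtype.ext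
    show (⟨x, bel z x⟩ : Σ x : Bool, r.Sub x) = ⟨(dj z x j).x, (dj z x j).p⟩
    rw [← e1]; rfl
  have f2 : (⟨⟨x, abv z x⟩, h2⟩ : Qq r q) = pcQ (Sum.inl (⟨z, hz⟩, x, !j)) := by
    apply Subtype.ext
    show (⟨x, abv z x⟩ : Σ x : Bool, r.Sub x) = ⟨(dj z x (!j)).x, (dj z x (!j)).p⟩
    rw [← e2]; rfl
  rw [f1, f2]
  constructor
  · intro h; exact hX _ h
  · intro h
    have := hX _ h
    have e3 : Arr.nx (Sum.inl (⟨z, hz⟩, x, !j) : Drt (Zq r q) (Lq r q)) =
        Sum.inl (⟨z, hz⟩, x, j) := by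
      show (Sum.inl (⟨z, hz⟩, x, !!j) : Drt (Zq r q) (Lq r q)) = _
      rw [Bool.not_not]
    rwa [e3] at this

/-- the first piece of the chord of a piece -/
noncomputable def fstp {x : Bool} (p : r.Sub x) : r.Sub x := Sum.inl ⟨chd p, chd_at p, chd_low p, chd_col p⟩

lemma x_fst {x : Bool} (p : r.Sub x) (hp : q ∈ M.side (chd p).1) :
    (⟨⟨x, p⟩, hp⟩ : Qq r q) ∈ X ↔ (⟨⟨x, fstp p⟩, hp⟩ : Qq r q) ∈ X := by
  by_contra hbad
  -- the lowest bad double point
  have hne : {z : r.Dbl | ∃ hz : q ∈ M.side (chd (Sum.inr z : r.Sub x)).1,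
      ¬ ((⟨⟨x, Sum.inr z⟩, hz⟩ : Qq r q) ∈ X ↔
        (⟨⟨x, fstp (Sum.inr z)⟩, hz⟩ : Qq r q) ∈ X)}.Nonempty := by
    cases p with
    | inl a => exact absurd Iff.rfl hbad
    | inr z => exact ⟨z, hp, hbad⟩
  obtain ⟨z, ⟨hz, hzb⟩, hmin⟩ := Set.exists_min_image _ (fun z : r.Dbl => z.key x)
    (Set.toFinite _) hne
  have hb := bel_spec z x
  have hbc := below_chd hb
  have hbs : q ∈ M.side (chd (bel z x)).1 := by
    rw [hbc]; exact hz
  have h1 := x_z hX (z := z) hz x hbs hz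
  apply hzb
  refine (h1.symm : _ ↔ (⟨⟨x, bel z x⟩, hbs⟩ : Qq r q) ∈ X).trans ?_
  have hfst : ∀ p' : r.Sub x, ∀ (hp' : q ∈ M.side (chd p').1), chd p' = (z.F, z.e x) →
      ((⟨⟨x, fstp p'⟩, hp'⟩ : Qq r q) ∈ X ↔ (⟨⟨x, fstp (Sum.inr z)⟩, hz⟩ : Qq r q) ∈ X) := by
    intro p' hp' he
    have : fstp p' = fstp (Sum.inr z : r.Sub x) := by
      unfold fstp
      congr 1
      exact Subtype.ext he
    have e1 : (⟨⟨x, fstp p'⟩, hp'⟩ : Qq r q) = ⟨⟨x, fstp (Sum.inr z)⟩, hz⟩ := by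
      apply Subtype.ext
      show (⟨x, fstp p'⟩ : Σ x : Bool, r.Sub x) = ⟨x, fstp (Sum.inr z)⟩
      rw [this]
    rw [e1]
  obtain ⟨b0, hbe0⟩ : ∃ b0, bel z x = b0 := ⟨_, rfl⟩
  rcases b0 with a | z'
  · -- the piece below is the first one
    have h2 := hfst (bel z x) hbs hbc
    have h4 : fstp (bel z x) = bel z x := by
      rw [hbe0]; rfl
    have e1 : (⟨⟨x, fstp (bel z x)⟩, hbs⟩ : Qq r q) = ⟨⟨x, bel z x⟩, hbs⟩ := by
      apply Subtype.ext
      show (⟨x, fstp (bel z x)⟩ : Σ x : Bool, r.Sub x) = ⟨x, bel z x⟩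
      rw [h4]
    rw [e1] at h2
    exact h2
  · have h5 : z'.key x < z.key x := by
      have := (below_start hb).1
      rw [hbe0] at this
      exact this
    have hc' : chd (Sum.inr z' : r.Sub x) = (z.F, z.e x) := by rw [← hbe0]; exact hbc
    have hz' : q ∈ M.side (chd (Sum.inr z' : r.Sub x)).1 := by rw [hc']; exact hz
    have h6 : (⟨⟨x, Sum.inr z'⟩, hz'⟩ : Qq r q) ∈ X ↔
        (⟨⟨x, fstp (Sum.inr z')⟩, hz'⟩ : Qq r q) ∈ X := by
      by_contra hcon
      exact absurd (hmin z' ⟨hz', hcon⟩) (not_le.2 h5)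
    have h7 := hfst (Sum.inr z') hz' hc'
    have e1 : (⟨⟨x, bel z x⟩, hbs⟩ : Qq r q) = ⟨⟨x, Sum.inr z'⟩, hz'⟩ := by
      apply Subtype.ext
      show (⟨x, bel z x⟩ : Σ x : Bool, r.Sub x) = ⟨x, Sum.inr z'⟩
      rw [hbe0]
    rw [e1]
    exact h6.trans h7

/-- pieces of one chord -/
lemma x_chord {p p' : Qq r q} (h : chd p.1.2 = chd p'.1.2) : p ∈ X ↔ p' ∈ X := by
  obtain ⟨⟨x, p⟩, hp⟩ := p
  obtain ⟨⟨x', p'⟩, hp'⟩ := p'
  have h' : chd p = chd p' := h
  have hx : x = x' := by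
    rw [← chd_col p, ← chd_col p', h']
  subst hx
  rw [x_fst hX p hp, x_fst hX p' hp']
  have e1 : (⟨⟨x, fstp p⟩, hp⟩ : Qq r q) = ⟨⟨x, fstp p'⟩, hp'⟩ := by
    apply Subtype.ext
    show (⟨x, fstp p⟩ : Σ x : Bool, r.Sub x) = ⟨x, fstp p'⟩
    have : fstp p = fstp p' := by
      unfold fstp
      congr 1
      exact Subtype.ext h'
    rw [this]
  rw [e1]

/-- `w` is an end point of the chord of the piece -/
def IsEnd (p : Qq r q) (w : W) : Prop :=
  (chd p.1.2).2 = w ∨ r.mu (chd p.1.2).1 (chd p.1.2).2 = w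

omit hX in
lemma isEnd_at {p : Qq r q} {w : W} (h : IsEnd p w) : r.At (chd p.1.2).1 w := by
  rcases h with h | h
  · rw [← h]; exact chd_at p.1.2
  · rw [← h]; exact At.mu r (chd_at p.1.2)

omit hX in
lemma lo_dart (d : Dart r) : r.lo (fc d) (pt d) = (chd d.p).2 := by
  obtain ⟨x, p, b⟩ := d
  cases b
  · exact lo_eq_of_lt (chd_low p)
  · exact lo_mu_of_lt (chd_at p) (chd_low p)

omit hX in
lemma isEnd_lo {p : Qq r q} {w : W} (h : IsEnd p w) :
    r.lo (chd p.1.2).1 w = (chd p.1.2).2 := by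
  rcases h with h | h
  · rw [← h]; exact lo_eq_of_lt (chd_low p.1.2)
  · rw [← h]; exact lo_mu_of_lt (chd_at p.1.2) (chd_low p.1.2)

/-- all pieces of the chords which end at `w` -/
lemma x_ends (w : Lq r q) {i : Bool} (h : pcQ (Sum.inr (w, i)) ∈ X) :
    ∀ p : Qq r q, IsEnd p w.1 → p ∈ X := by
  have hall : ∀ j, pcQ (Sum.inr (w, j)) ∈ X := by
    intro j
    rcases bool_or_not j i with rfl | rfl
    · exact h
    · exact hX _ h
  intro p hp
  obtain ⟨j, hj⟩ := exists_fa w p.2 (isEnd_at hp).2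
  refine (x_chord hX (p' := pcQ (Sum.inr (w, j))) ?_).2 (hall j)
  show chd p.1.2 = chd (ed (fa_at w j)).p
  have h1 : fc (ed (fa_at w j)) = fa w j := fc_ed _
  have h2 := lo_dart (ed (fa_at w j))
  rw [pt_ed, h1] at h2
  apply Prod.ext
  · rw [hj]; exact h1.symm
  · rw [← h2, ← hj]; exact (isEnd_lo hp).symm

omit hX in
lemma isEnd_pc (w : Lq r q) (i : Bool) : IsEnd (pcQ (Sum.inr (w, i))) w.1 := by
  have h : pt (ed (fa_at w i)) = w.1 := pt_ed _
  show (chd (ed (fa_at w i)).p).2 = w.1 ∨ r.mu (chd (ed (fa_at w i)).p).1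
    (chd (ed (fa_at w i)).p).2 = w.1
  unfold pt at h
  rcases hb : (ed (fa_at w i)).b
  · rw [hb] at h; exact Or.inl h
  · rw [hb] at h; exact Or.inr h

include R hc in
/-- **the closed chord cycles are connected** -/
theorem x_cyc {p p' : Qq r q} (h : cyc R hc p = cyc R hc p') (hp : p ∈ X) : p' ∈ X := by
  -- a predicate on points
  have hinv : ∀ a b : Pt L s c, Rel L s c a b →
      (a.1 ∈ r.P → ∀ p : Qq r q, IsEnd p a.1 → p ∈ X) =
      (b.1 ∈ r.P → ∀ p : Qq r q, IsEnd p b.1 → p ∈ X) := by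
    have one : ∀ a b : Pt L s c, (∃ F : Φ, L.cf F ≤ c ∧ a.1 ∈ M.On F ∧ b.1 = s.mu F a.1) →
        (a.1 ∈ r.P → ∀ p : Qq r q, IsEnd p a.1 → p ∈ X) →
        (b.1 ∈ r.P → ∀ p : Qq r q, IsEnd p b.1 → p ∈ X) := by
      rintro a b ⟨F, hF, haF, hb⟩ ha hbP
      have hqF : q ∈ M.side F := (hc F).2 hF
      have haP : a.1 ∈ r.P := by
        refine R.cl b.1 hbP a.1 a.2.1 ?_
        rw [hb, s.mu_lab a.2.1 haF]
      have hat : r.At F a.1 := ⟨haP, haF⟩
      let w : Lq r q := ⟨a.1, haP, F, hqF, hat.2⟩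
      have hbm : r.mu F a.1 = b.1 := by rw [R.mu, hb]
      have hatb : r.At F b.1 := by rw [← hbm]; exact At.mu r hat
      let w' : Lq r q := ⟨b.1, hbP, F, hqF, hatb.2⟩
      obtain ⟨i, hi⟩ := exists_fa w' hqF hatb.2
      refine x_ends hX w' (i := i) (ha haP _ ?_)
      -- the end piece at `b` on `F` is on the chord of `a`
      have hc1 : (chd (ed (fa_at w' i)).p).1 = F := by
        have : fc (ed (fa_at w' i)) = fa w' i := fc_ed _
        rw [hi]; exact this
      have hend := isEnd_pc w' i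
      show (chd (ed (fa_at w' i)).p).2 = a.1 ∨ r.mu (chd (ed (fa_at w' i)).p).1
        (chd (ed (fa_at w' i)).p).2 = a.1
      have hend' : (chd (ed (fa_at w' i)).p).2 = b.1 ∨ r.mu (chd (ed (fa_at w' i)).p).1
        (chd (ed (fa_at w' i)).p).2 = b.1 := hend
      rw [hc1] at hend' ⊢
      have hmb : r.mu F b.1 = a.1 := by rw [← hbm]; exact r.mu_mu hat.1 hat.2
      rcases hend' with h1 | h1
      · right; rw [h1]; exact hmb
      · left
        have hat2 : r.At F (chd (ed (fa_at w' i)).p).2 := by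
          have := chd_at (ed (fa_at w' i)).p
          rwa [hc1] at this
        rw [← r.mu_mu hat2.1 hat2.2, h1, hmb]
    intro a b hab
    apply propext
    constructor
    · exact one a b hab
    · refine one b a ?_
      obtain ⟨F, hF, haF, hb⟩ := hab
      have hm := s.mu_mem a.2.1 haF
      refine ⟨F, hF, by rw [hb]; exact hm.2, ?_⟩
      rw [hb, s.mu_mu a.2.1 haF]
  let g : Pc L s c → Prop := Quot.lift (fun a => a.1 ∈ r.P → ∀ p : Qq r q, IsEnd p a.1 → p ∈ X) hinv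
  have hgp : g (cyc R hc p) := by
    intro _
    have hat := chd_at p.1.2
    let w : Lq r q := ⟨(chd p.1.2).2, hat.1, _, p.2, hat.2⟩
    obtain ⟨i, hi⟩ := exists_fa w p.2 hat.2
    refine x_ends hX w (i := i) ?_
    refine (x_chord hX (p' := p) ?_).2 hp
    show chd (ed (fa_at w i)).p = chd p.1.2
    have h1 : fc (ed (fa_at w i)) = fa w i := fc_ed _
    have h2 := lo_dart (ed (fa_at w i))
    rw [pt_ed, h1] at h2
    have h3' : r.lo (chd p.1.2).1 (chd p.1.2).2 = (chd p.1.2).2 := lo_eq_of_lt (chd_low p.1.2)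
    have h4 : r.lo (fa w i) w.1 = (chd p.1.2).2 := by
      have : r.lo (fa w i) w.1 = r.lo (chd p.1.2).1 (chd p.1.2).2 := by
        exact congrArg (fun G => r.lo G (chd p.1.2).2) hi.symm
      rw [this, h3']
    apply Prod.ext
    · exact h1.trans hi.symm
    · exact h2.symm.trans h4
  have hgp' : g (cyc R hc p') := h ▸ hgp
  exact hgp' (chd_at p'.1.2).1 p' (Or.inl rfl)

end conn



end Crest.Agent.R096.Lm_117
end

-- ▼ part R096/Lm12_117
section

/-!
# R096 (row 96), LMesh, part 12: the inside function of a closed chord cycle on the boundary of a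
tile of a labelled mesh (helper117)
-/

set_option autoImplicit false
set_option linter.unusedSectionVars false

open Set

namespace Crest.Agent.R096.Lm_117

open Crest.Agent.R096.St_147 Crest.Agent.R096.Ac_117 Crest.Agent.R096.Seq_213
open Crest.Agent.R096.Wk_689

variable {ι Φ W Q J C I K : Type} {M : MeshC ι Φ W} [PartialOrder Q] {dim : Q → ℕ}
variable {L : LM M Q dim} {fam : J → C} {col : I → Bool}
variable {s : GSt M fam} {r : St M col} {q : ι} {c : Q}

open Classical in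
/-- the jump of a piece -/
noncomputable def jx (h : LF L s) (x : Pc L s c) (b : Bool) (p : r.Sub b) : ZMod 2 :=
  if (chd p).2 ∈ pts h c x then 1 else 0

lemma jx_evD (h : LF L s) (x : Pc L s c) (F : Φ) : EvD (jx (r := r) h x) F := by
  intro z _
  unfold jx
  have e1 : ∀ b, chd (bel z b) = (z.F, z.e b) := fun b => below_chd (bel_spec z b)
  have e2 : ∀ b, chd (abv z b) = (z.F, z.e b) := fun b => rfl
  rw [e1, e1, e2, e2, add_self, add_self, add_zero]

/-- partners on the faces of the cell -/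
lemma mem_mu (R : ResOf s r) {h : LF L s} {x : Pc L s c} {F : Φ} (hF : L.cf F ≤ c) {w : W}
    (hat : r.At F w) : r.mu F w ∈ pts h c x ↔ w ∈ pts h c x := by
  constructor
  · intro hw
    have h1 := mu_pts hw hF (At.mu r hat).2
    rw [← R.mu, r.mu_mu hat.1 hat.2] at h1
    exact h1
  · intro hw
    rw [R.mu]
    exact mu_pts hw hF hat.2

lemma mem_lo (R : ResOf s r) {h : LF L s} {x : Pc L s c} {F : Φ} (hF : L.cf F ≤ c) {w : W}
    (hat : r.At F w) : r.lo F w ∈ pts h c x ↔ w ∈ pts h c x := by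
  unfold St.lo
  split_ifs
  · rfl
  · exact mem_mu R hF hat

open Classical in
lemma jx_ed (R : ResOf s r) {h : LF L s} {x : Pc L s c} {F : Φ} (hF : L.cf F ≤ c) {w : W}
    (hat : r.At F w) : jx h x (ed hat).x (ed hat).p = if w ∈ pts h c x then 1 else 0 := by
  have h1 := lo_dart (ed hat)
  rw [pt_ed, fc_ed] at h1
  unfold jx
  rw [← h1]
  by_cases hw : w ∈ pts h c x
  · rw [if_pos hw, if_pos ((mem_lo R hF hat).2 hw)]
  · rw [if_neg hw, if_neg (fun h' => hw ((mem_lo R hF hat).1 h'))]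

open Classical in
lemma gF_lamF (R : ResOf s r) {h : LF L s} {x : Pc L s c} (hx : ∀ w ∈ pts h c x, w ∈ r.P) {F : Φ}
    (hF : L.cf F ≤ c) (w : W) :
    gF (jx (r := r) h x) F (M.pos F w) = cntP M (pts h c x) F (M.pos F w) := by
  rw [gF_eq (jx_evD h x F)]
  unfold cntP
  have h1 : ∀ v ∈ r.P.filter (fun v => v ∈ M.On F ∧
      M.pos F v < M.pos F w),
      ue (jx (r := r) h x) F v = if v ∈ pts h c x then 1 else 0 := by
    intro v hv
    obtain ⟨a1, a2, -⟩ := Finset.mem_filter.1 hv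
    have hat : r.At F v := ⟨a1, a2⟩
    rw [ue_ed hat]
    exact jx_ed R hF hat
  rw [Finset.sum_congr rfl h1, ← Finset.sum_filter, Finset.sum_const, nsmul_eq_mul, mul_one]
  congr 2
  ext v
  simp only [Finset.mem_filter]
  constructor
  · rintro ⟨⟨a1, a2, a3⟩, a4⟩
    exact ⟨a4, a2, a3⟩
  · rintro ⟨a1, a2, a3⟩
    exact ⟨⟨hx v a1, a2, a3⟩, a1⟩

/-- **the side of a piece of the closed chord cycle `x`** -/
noncomputable def inS (h : LF L s) (x : Pc L s c) (p : Qq r q) (i : Bool) : ZMod 2 :=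
  kap h x (chd p.1.2).1 + sd (jx h x) p.1.2 i

open Classical in
lemma inS_end (R : ResOf s r) (hc : ∀ F, q ∈ M.side F ↔ L.cf F ≤ c) {h : LF L s} {x : Pc L s c}
    (hx : ∀ w ∈ pts h c x, w ∈ r.P) (w : Lq r q) (b i : Bool) :
    inS h x (pcQ (Sum.inr (w, b))) i = kap h x (fa w b) + cntP M (pts h c x) (fa w b) (M.pos (fa w b) w.1) +
      (if xor i (upb w b) = true then (if w.1 ∈ pts h c x then 1 else 0) else 0) := by
  have hF := (hc _).1 (fa_side w b).1
  have hat := fa_at w b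
  have hend := Wk_689.end_ed hat
  obtain ⟨-, -, h3'⟩ := face_side (jx (r := r) h x) (fa w b) (jx_evD h x _)
  obtain ⟨g1, g2⟩ := h3' _ _ _ hend
  have hfc : (chd (ed hat).p).1 = fa w b := fc_ed _
  have e0 : inS h x (pcQ (Sum.inr (w, b))) i = kap h x (fa w b) + sd (jx h x) (ed hat).p i := by
    show kap h x (chd (ed hat).p).1 + sd (jx h x) (ed hat).p i = _
    rw [hfc]
  rw [gF_lamF R hx hF, jx_ed R hF hat] at g1 g2
  rw [e0, add_assoc]
  congr 1
  unfold upb
  by_cases hlt : M.pos (fa w b) (r.mu (fa w b) w.1) < M.pos (fa w b) w.1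
  · rw [decide_eq_true hlt]
    obtain ⟨k1, k2⟩ := g2 hlt
    cases i
    · simp only [Bool.xor_true, Bool.not_false, if_true]; exact k2
    · simp only [Bool.xor_true, Bool.not_true, Bool.false_eq_true, if_false, add_zero]; exact k1
  · rw [decide_eq_false hlt]
    have hne : M.pos (fa w b) w.1 ≠ M.pos (fa w b) (r.mu (fa w b) w.1) :=
      pos_ne r hat (At.mu r hat) (fun h' => r.mu_ne hat.1 hat.2 h'.symm)
    obtain ⟨k1, k2⟩ := g1 (lt_of_le_of_ne (not_lt.1 hlt) hne)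
    cases i
    · simp only [Bool.xor_false, Bool.false_eq_true, if_false, add_zero]; exact k1
    · simp only [Bool.xor_false, if_true]; exact k2

/-- off the points of `x` the value is the label -/
lemma inS_end' (R : ResOf s r) (hc : ∀ F, q ∈ M.side F ↔ L.cf F ≤ c) {h : LF L s} {x : Pc L s c}
    (hx : ∀ w ∈ pts h c x, w ∈ r.P) (w : Lq r q) (b i : Bool) (hw : w.1 ∉ pts h c x) :
    inS h x (pcQ (Sum.inr (w, b))) i = nlw h c x w.1 := by
  classical
  have hF := (hc _).1 (fa_side w b).1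
  have h2 := (fa_side w b).2
  rw [inS_end R hc hx w b i, if_neg hw, ite_self, add_zero,
    kap_eq hF h2 hw]


lemma even_On {h : LF L s} {x : Pc L s c} {F : Φ} (hF : L.cf F ≤ c) :
    (open Classical in Even ((pts h c x).filter (fun v => v ∈ M.On F)).card) := by
  classical
  have h1 := even_pts (h := h) (x := x) hF
  unfold nW at h1
  rw [← ZMod.natCast_eq_zero_iff_even, ← h1, Finset.card_filter, Nat.cast_sum]
  apply Finset.sum_congr rfl
  intro v _
  by_cases hvF : v ∈ M.On F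
  · rw [if_pos hvF, if_pos hvF]; rfl
  · rw [if_neg hvF, if_neg hvF]; rfl

open Classical in
/-- **the two faces at a point** -/
lemma kap_opp (S : SphM M q) (hc : ∀ F, q ∈ M.side F ↔ L.cf F ≤ c) (h : LF L s) (x : Pc L s c)
    {F F' : Φ} (hF : q ∈ M.side F) (hF' : q ∈ M.side F') (hne : F ≠ F')
    {w : W} (hw : w ∈ M.On F) (hw' : w ∈ M.On F') :
    kap h x F + cntP M (pts h c x) F (M.pos F w) = kap h x F' + cntP M (pts h c x) F' (M.pos F' w) +
      (if w ∈ pts h c x ∧ S.opp w = true then 1 else 0) := by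
  have hFc := (hc _).1 hF
  have hFc' := (hc _).1 hF'
  by_cases hwx : w ∈ pts h c x
  · obtain ⟨κ, hκ⟩ := S.sph (pts h c x) (fun G hG => even_On ((hc _).1 hG))
    have hwW := (L.on_iff F w).1 hw
    obtain ⟨v, ⟨hv1, hve⟩, hvx⟩ := (L.inf w hwW.1).exists_notMem_finset (pts h c x)
    have hvF : v ∈ M.On F := (L.on_iff F v).2 ⟨hv1, by rw [hve]; exact hwW.2⟩
    have hvF' : v ∈ M.On F' := (L.on_iff F' v).2 ⟨hv1, by rw [hve]; exact ((L.on_iff F' w).1 hw').2⟩
    have a1 := hκ F F' v hF hF' hne hvF hvF'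
    have a2 := hκ F F' w hF hF' hne hw hw'
    rw [if_neg (fun h' => hvx h'.1), add_zero] at a1
    have b1 := kap_eq (h := h) (x := x) hFc hvF hvx
    have b2 := kap_eq (h := h) (x := x) hFc' hvF' hvx
    rw [b1] at b2
    generalize kap h x F = k1 at b2 ⊢
    generalize kap h x F' = k2 at b2 ⊢
    generalize cntP M (pts h c x) F (M.pos F v) = l1 at a1 b2
    generalize cntP M (pts h c x) F' (M.pos F' v) = l2 at a1 b2
    generalize cntP M (pts h c x) F (M.pos F w) = m1 at a2 ⊢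
    generalize cntP M (pts h c x) F' (M.pos F' w) = m2 at a2 ⊢
    generalize (if w ∈ pts h c x ∧ S.opp w = true then (1 : ZMod 2) else 0) = o at a2 ⊢
    generalize κ F = n1 at a1 a2
    generalize κ F' = n2 at a1 a2
    clear hκ
    have e : ∀ k1 k2 l1 l2 m1 m2 o n1 n2 : ZMod 2, k1 + l1 = k2 + l2 → n1 + l1 = n2 + l2 →
        n1 + m1 = n2 + m2 + o → k1 + m1 = k2 + m2 + o := by
      intro k1 k2 l1 l2 m1 m2 o n1 n2 h1 h2 h3
      have h4 : k1 + m1 = (k1 + l1) - (n1 + l1) + (n1 + m1) := by ring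
      rw [h4, h1, h2, h3]; ring
    exact e _ _ _ _ _ _ _ _ _ b2 a1 a2
  · rw [if_neg (fun h' => hwx h'.1), add_zero,
      ← kap_eq hFc hw hwx, ← kap_eq hFc' hw' hwx]

/-- **the inside function is a colouring** -/
theorem inS_colr (S : SphM M q) (R : ResOf s r) (hc : ∀ F, q ∈ M.side F ↔ L.cf F ≤ c)
    {h : LF L s} {x : Pc L s c} (hx : ∀ w ∈ pts h c x, w ∈ r.P) :
    (arr S r).Colr (fun p => jx h x p.1.1 p.1.2) (inS h x) where
  jump := by
    intro p
    have h1 := sd_add (u := jx (r := r) h x) p.1.2 (jx_evD h x _)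
    show kap h x (chd p.1.2).1 + sd (jx h x) p.1.2 false +
      (kap h x (chd p.1.2).1 + sd (jx h x) p.1.2 true) = jx h x p.1.1 p.1.2
    rw [← h1]
    generalize kap h x (chd p.1.2).1 = k
    generalize sd (jx (r := r) h x) p.1.2 false = a
    generalize sd (jx (r := r) h x) p.1.2 true = b
    revert k a b; decide
  quad := by
    intro z i j
    obtain ⟨-, h2, -⟩ := face_side (jx (r := r) h x) z.1.F (jx_evD h x _)
    have h3' := h2 z.1 rfl i j
    have e1 : ∀ c j, (chd (dj z.1 c j).p).1 = z.1.F := fun c j => dj_fc z.1 c j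
    let t : (x : Bool) → r.Sub x → Bool → ZMod 2 := fun b p i => sd (jx (r := r) h x) p i
    have h4 : t (dj z.1 true j).x (dj z.1 true j).p i = t (dj z.1 false i).x (dj z.1 false i).p j := by
      rw [dj_qd z.1 true j, dj_qd z.1 false i]
      exact h3'
    show kap h x (chd (dj z.1 true j).p).1 + t (dj z.1 true j).x (dj z.1 true j).p i =
      kap h x (chd (dj z.1 false i).p).1 + t (dj z.1 false i).x (dj z.1 false i).p j
    rw [e1, e1, h4]
  lk := by
    classical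
    intro w i
    show inS h x (pcQ (Sum.inr (w, false))) i =
      inS h x (pcQ (Sum.inr (w, true))) (xor i (xor (S.opp w.1) (xor (upb w false) (upb w true))))
    rw [inS_end R hc hx, inS_end R hc hx]
    have h1 := kap_opp S hc h x (fa_side w false).1 (fa_side w true).1 (fa_ne w)
      (fa_side w false).2 (fa_side w true).2
    rw [h1]
    by_cases hw : w.1 ∈ pts h c x
    · generalize kap h x (fa w true) + cntP M (pts h c x) (fa w true) (M.pos (fa w true) w.1) = a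
      cases i <;> cases S.opp w.1 <;> cases upb w false <;> cases upb w true <;>
        simp [hw] <;> (revert a; decide)
    · rw [if_neg (fun h' => hw h'.1), if_neg hw, ite_self, ite_self, add_zero, add_zero]



end Crest.Agent.R096.Lm_117
end

-- ▼ part R096/Lm13_117

/-!
# R096 (row 96), LMesh, part 13: `Dep` of a two-family restriction of a global state on the boundary
of a tile of a labelled mesh; the arc pairing (helper117)
-/

set_option autoImplicit false
set_option linter.unusedSectionVars false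

open Set

namespace Crest.Agent.R096.Lm_117

open Crest.Agent.R096.St_147 Crest.Agent.R096.Ac_117 Crest.Agent.R096.Seq_213
open Crest.Agent.R096.Wk_689

variable {ι Φ W Q J C I K : Type} {M : MeshC ι Φ W} [PartialOrder Q] {dim : Q → ℕ}
variable {L : LM M Q dim} {fam : J → C} {col : I → Bool}
variable {s : GSt M fam} {r : St M col} {q : ι} {c : Q}

lemma mem_pts_cyc (R : ResOf s r) (hc : ∀ F, q ∈ M.side F ↔ L.cf F ≤ c) (h : LF L s) (p : Qq r q)
    (x : Pc L s c) : (chd p.1.2).2 ∈ pts h c x ↔ cyc R hc p = x := by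
  rw [mem_pts]
  constructor
  · rintro ⟨h', e⟩
    exact e
  · intro e
    exact ⟨ptc R hc (chd_at p.1.2) p.2, e⟩

lemma pts_P (R : ResOf s r) {h : LF L s} {x : Pc L s c} {v : W} (hv : v ∈ pts h c x) (hvr : v ∈ r.P) :
    ∀ w ∈ pts h c x, w ∈ r.P := by
  intro w hw
  refine R.cl v hvr w (pts_in hw).1 ?_
  rw [← pcol_pts hw, ← pcol_pts hv]

lemma pts_P' (R : ResOf s r) (hc : ∀ F, q ∈ M.side F ↔ L.cf F ≤ c) (h : LF L s) (p : Qq r q) :
    ∀ w ∈ pts h c (cyc R hc p), w ∈ r.P :=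
  pts_P R ((mem_pts_cyc R hc h p _).2 rfl) (chd_at p.1.2).1

/-- **the closed cycles of the restriction on the boundary of the tile** -/
noncomputable def cycs (S : SphM M q) (R : ResOf s r)
    (hc : ∀ F, q ∈ M.side F ↔ L.cf F ≤ c) (h : LF L s) : Cyc (arr S r) (Pc L s c) where
  cy := cyc R hc
  t := inS h
  cy_nx d := by
    rw [arr_pce, arr_pce]; exact cyc_nx R hc d
  conn X hX p p' h' hp := by
    refine x_cyc R hc (X := X) (fun d hd => ?_) h' hp
    have := hX d (by rw [arr_pce]; exact hd)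
    rw [arr_pce] at this
    exact this
  off p p' hne := by
    have h1 := (inS_colr S R hc (h := h) (x := cyc R hc p) (pts_P' R hc h p)).jump p'
    rw [h1]
    exact if_neg (fun h' => hne ((mem_pts_cyc R hc h p' _).1 h'))
  on p p' he := by
    have h1 := (inS_colr S R hc (h := h) (x := cyc R hc p) (pts_P' R hc h p)).jump p'
    rw [h1]
    exact if_pos ((mem_pts_cyc R hc h p' _).2 he)
  quad p := (inS_colr S R hc (h := h) (x := cyc R hc p) (pts_P' R hc h p)).quad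
  lk p := (inS_colr S R hc (h := h) (x := cyc R hc p) (pts_P' R hc h p)).lk

/-- an end piece of the cycle of a piece -/
lemma exists_end (R : ResOf s r) (hc : ∀ F, q ∈ M.side F ↔ L.cf F ≤ c) (p : Qq r q) :
    ∃ (w : Lq r q) (i : Bool), w.1 = (chd p.1.2).2 ∧ cyc R hc (pcQ (Sum.inr (w, i))) = cyc R hc p := by
  have hat := chd_at p.1.2
  let w : Lq r q := ⟨(chd p.1.2).2, hat.1, _, p.2, hat.2⟩
  refine ⟨w, false, rfl, ?_⟩
  rw [cyc_lp]
  exact mk_congr rfl _ _

lemma fam_cyc (R : ResOf s r) (hc : ∀ F, q ∈ M.side F ↔ L.cf F ≤ c) {p p' : Qq r q}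
    (hcol : p.1.1 = p'.1.1) : fam (pcol L s c (cyc R hc p)) = fam (pcol L s c (cyc R hc p')) := by
  have h1 := chd_col p.1.2
  have h2 := chd_col p'.1.2
  exact (R.colr _ (chd_at p.1.2).1 _ (chd_at p'.1.2).1).1 (by rw [h1, h2, hcol])

/-- the order of the depths: outer closed cycles are deeper -/
def Ord (h : LF L s) (c : Q) (rk : Pc L s c → ℕ) : Prop :=
  ∀ x x' : Pc L s c, x ≠ x' → fam (pcol L s c x) = fam (pcol L s c x') → nlw h c x (rep h x') = 1 →
    rk x < rk x'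

theorem lam_dep (S : SphM M q) (R : ResOf s r) (hc : ∀ F, q ∈ M.side F ↔ L.cf F ≤ c)
    (h : LF L s) {rk : Pc L s c → ℕ} (hord : Ord h c rk) (p p' : Qq r q)
    (hcol : (arr S r).col p = (arr S r).col p') (hne : cyc R hc p ≠ cyc R hc p')
    (h1 : inS h (cyc R hc p) p' true = 1) :
    rk (cyc R hc p) < rk (cyc R hc p') ∧ inS h (cyc R hc p') p true = 0 ∧
      ∀ p'', cyc R hc p'' ≠ cyc R hc p → cyc R hc p'' ≠ cyc R hc p' →
        ∃ e, cyc R hc e = cyc R hc p'' ∧
          (inS h (cyc R hc p') e true = 1 → inS h (cyc R hc p) e true = 1) := by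
  have hfam := fam_cyc R hc hcol
  set x := cyc R hc p with hx
  set x' := cyc R hc p' with hx'
  have hxP : ∀ w ∈ pts h c x, w ∈ r.P := pts_P' R hc h p
  have hxP' : ∀ w ∈ pts h c x', w ∈ r.P := pts_P' R hc h p'
  let V := cycs S R hc h
  -- labels of `x` on `x'`
  have k1 : nlw h c x (rep h x') = 1 := by
    obtain ⟨w, i, hw, he⟩ := exists_end R hc p'
    have hwx' : w.1 ∈ pts h c x' := by
      rw [hw]; exact (mem_pts_cyc R hc h p' _).2 rfl
    have hwx : w.1 ∉ pts h c x := fun h' => hne (pts_disj h' hwx')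
    have e1 : inS h x (pcQ (Sum.inr (w, i))) true = inS h x p' true :=
      V.const (p := p) (p' := p') (r := pcQ (Sum.inr (w, i))) hcol.symm (Ne.symm hne) he true true
    rw [inS_end' R hc hxP w i true hwx, h1] at e1
    rw [← e1]
    exact side_const (Ne.symm hne) hfam.symm (rep_mem h x') hwx'
  have k2 := lam_skel (c := c) (Y := pts h c x) (Y' := pts h c x') (a := nl h c x)
    (b := nl h c x') (β := nlw h c x' (rep h x)) (nl_xl h c x) (nl_xl h c x')
    (fun w hw hw' => hne (pts_disj hw hw'))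
    (fun w hw _ => (side_const (Ne.symm hne) hfam.symm hw (rep_mem h x')).trans k1)
    (fun w hw _ => side_const hne hfam hw (rep_mem h x)) (nl_bv h c x) (nl_bv h c x')
    ⟨rep h x', rep_mem h x', (pts_in (rep_mem h x')).2⟩
  obtain ⟨k2, -, k3⟩ := k2
  refine ⟨hord x x' hne hfam k1, ?_, ?_⟩
  · obtain ⟨w, i, hw, he⟩ := exists_end R hc p
    have hwx : w.1 ∈ pts h c x := by
      rw [hw]; exact (mem_pts_cyc R hc h p _).2 rfl
    have hwx' : w.1 ∉ pts h c x' := fun h' => hne (pts_disj hwx h')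
    have e1 : inS h x' (pcQ (Sum.inr (w, i))) true = inS h x' p true :=
      V.const (p := p') (p' := p) (r := pcQ (Sum.inr (w, i))) hcol hne he true true
    rw [← e1, inS_end' R hc hxP' w i true hwx', side_const hne hfam hwx (rep_mem h x)]
    exact k2
  · intro p'' g1 g2
    obtain ⟨w, i, hw, he⟩ := exists_end R hc p''
    have hwx : w.1 ∉ pts h c x := fun h' => g1 ((mem_pts_cyc R hc h p'' _).1 (by rw [← hw]; exact h'))
    have hwx' : w.1 ∉ pts h c x' :=
      fun h' => g2 ((mem_pts_cyc R hc h p'' _).1 (by rw [← hw]; exact h'))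
    refine ⟨pcQ (Sum.inr (w, i)), he, ?_⟩
    rw [inS_end' R hc hxP w i true hwx, inS_end' R hc hxP' w i true hwx']
    have hwc : w.1 ∈ L.toSk.In c := by
      obtain ⟨F, hF, hwF⟩ := w.2.2
      exact on_in ((hc F).1 hF) hwF
    exact k3 w.1 hwc

/-- **`Dep` from the labels and any ranks** -/
noncomputable def depC (S : SphM M q) (R : ResOf s r) (hc : ∀ F, q ∈ M.side F ↔ L.cf F ≤ c)
    (h : LF L s) (rk : Pc L s c → ℕ) (hinj : Function.Injective rk) (hord : Ord h c rk) :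
    Dep (arr S r) :=
  (cycs S R hc h).dep rk (fun _ _ h' => hinj h') (fun p p' => lam_dep S R hc h hord p p')


/-- **(ARCS) for a two-family restriction: the pairing of the double points on the boundaries of
the active tiles.**  `rk q` = any injective ranks of the closed chord cycles of the tile (small =
deep) such that outer cycles of one family are deeper. -/
theorem exists_arcs (R : ResOf s r) (h : LF L s) (Act : Set ι)
    (tc : ι → Q)
    (htc : ∀ q ∈ Act, ∀ F, q ∈ M.side F ↔ L.cf F ≤ tc q) (S : ∀ q ∈ Act, SphM M q) (rk : ∀ q, Pc L s (tc q) → ℕ)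
    (hinj : ∀ q ∈ Act, Function.Injective (rk q)) (hord : ∀ q ∈ Act, Ord h (tc q) (rk q)) :
    ∃ A : r.Arcs Act, ∀ (q : ι) (hq : q ∈ Act) (z : r.Dbl) (hz : q ∈ M.side z.F),
      A.arc q z = ((depC (S q hq) R (htc q hq) h (rk q) (hinj q hq) (hord q hq)).arc ⟨z, hz⟩).1 :=
  arcs_of_dep Act (faceSide r) S
    (fun q hq => depC (S q hq) R (htc q hq) h (rk q) (hinj q hq) (hord q hq))




end Crest.Agent.R096.Lm_117
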