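import Crest.Agent.R096.Arc8_778
import Crest.Agent.R096.Lm7_117
import Crest.Agent.R096.Ac10_117
import Crest.Agent.R096.Fx3_689
import Crest.Agent.R096.Ac9_117
import Crest.Agent.R096.Lm13_117

-- ▼ part R096/Arc11_778
section

/-!
# R096 (row 96), (R4), part 11: signs at the edge points from the labels; paths (helper778)

* `EdgeO K c k` : order of the points of an edge (`k` small = near the base vertex).
* `lblN` : the label of an edge point with respect to a piece; `sign_pnt` : it is the sign of the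
  band function (`1` = inside = positive).
* `exists_path` : an arc `IsBall 1 A {p, p'}` as an injective path from `p` to `p'`.
* `chord_one`, `chord_non` : (R4.3) with labels.
-/

set_option autoImplicit false
set_option linter.unusedSectionVars false

open Set Metric

namespace Crest.Agent.R096.Arc_778

open Crest.Agent.R096.Ce_537 Crest.Agent.R096.Bd_416 Crest.Agent.R096.Cb_609 Crest.Agent.R096.Pl

open scoped Classical

/-- order of the points of an edge -/
def EdgeO {E I : Type*} (K : Set E) (c : I → E → ℝ) (k : I → ℕ) : Prop :=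
  ∀ u u₀ : I, ∀ z ∈ Zer K c u₀, (k u < k u₀ → 0 < c u z) ∧ (k u₀ < k u → c u z < 0)

section path

variable {E : Type*} [NormedAddCommGroup E] [NormedSpace ℝ E]

/-- an arc as a path -/
theorem exists_path {A : Set E} {p p' : E} (h : IsBall 1 A {p, p'}) :
    ∃ γ : ℝ → E, ContinuousOn γ (Icc 0 1) ∧ InjOn γ (Icc 0 1) ∧ γ '' Icc 0 1 = A ∧
      γ 0 = p ∧ γ 1 = p' := by
  have hne := arc_ne h
  obtain ⟨e, he⟩ := h
  -- the two orientations
  have key : ∀ σ : ℝ, σ = 1 ∨ σ = -1 → ∃ γ : ℝ → E, ContinuousOn γ (Icc 0 1) ∧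
      InjOn γ (Icc 0 1) ∧ γ '' Icc 0 1 = A ∧ γ 0 = e.f (fun _ => -σ) ∧ γ 1 = e.f (fun _ => σ) := by
    intro σ hσ
    have hm : ∀ t ∈ Icc (0:ℝ) 1, (fun _ => σ * (2 * t - 1) : Fin 1 → ℝ) ∈ cube 1 := by
      intro t ht
      rw [mem_cube1, abs_le]
      rcases hσ with rfl | rfl <;> constructor <;> linarith [ht.1, ht.2]
    refine ⟨fun t => e.f (fun _ => σ * (2 * t - 1)), ?_, ?_, ?_, ?_, ?_⟩
    · exact e.pf.1.comp (by fun_prop) hm
    · intro t ht t' ht' heq
      have h1 := congrFun (e.injOn (hm t ht) (hm t' ht') heq) 0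
      have h1' : σ * (2 * t - 1) = σ * (2 * t' - 1) := h1
      rcases hσ with rfl | rfl <;> linarith
    · ext z
      constructor
      · rintro ⟨t, ht, rfl⟩; exact e.mf (hm t ht)
      · intro hz
        have h1 := e.mg hz
        have h2 := abs_le.1 (mem_cube1.1 h1)
        have hσ2 : σ * σ = 1 := by rcases hσ with rfl | rfl <;> norm_num
        refine ⟨(σ * e.g z 0 + 1) / 2, ?_, ?_⟩
        · rcases hσ with rfl | rfl <;> constructor <;> linarith [h2.1, h2.2]
        · have h3 : (fun _ => σ * (2 * ((σ * e.g z 0 + 1) / 2) - 1) : Fin 1 → ℝ) = e.g z := by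
            funext j
            rw [Subsingleton.elim j 0]
            linear_combination (e.g z 0) * hσ2
          show e.f _ = z
          rw [h3]; exact e.ri z hz
    · show e.f (fun _ => σ * (2 * 0 - 1)) = e.f (fun _ => -σ)
      congr 1; funext j; ring
    · show e.f (fun _ => σ * (2 * 1 - 1)) = e.f (fun _ => σ)
      congr 1; funext j; ring
  have hm1 : (fun _ => -1 : Fin 1 → ℝ) ∈ sph 1 := mem_sph1.2 (by norm_num)
  have hp1 : (fun _ => 1 : Fin 1 → ℝ) ∈ sph 1 := mem_sph1.2 (by norm_num)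
  have ha : e.f (fun _ => -1) ∈ ({p, p'} : Set E) := by rw [← he]; exact ⟨_, hm1, rfl⟩
  have hb : e.f (fun _ => 1) ∈ ({p, p'} : Set E) := by rw [← he]; exact ⟨_, hp1, rfl⟩
  have hab : e.f (fun _ => (-1:ℝ)) ≠ e.f (fun _ => (1:ℝ)) := by
    intro h1
    have := congrFun (e.injOn (sph_subset_cube hm1) (sph_subset_cube hp1) h1) 0
    norm_num at this
  rcases ha with ha | ha
  · have hb' : e.f (fun _ => 1) = p' := by
      rcases hb with hb | hb
      · exact absurd (ha.trans hb.symm) hab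
      · exact hb
    obtain ⟨γ, h1, h2, h3, h4, h5⟩ := key 1 (Or.inl rfl)
    exact ⟨γ, h1, h2, h3, h4.trans ha, h5.trans hb'⟩
  · have ha' : e.f (fun _ => -1) = p' := ha
    have hb' : e.f (fun _ => 1) = p := by
      rcases hb with hb | hb
      · exact hb
      · exact absurd (ha'.trans (mem_singleton_iff.1 hb).symm) hab
    obtain ⟨γ, h1, h2, h3, h4, h5⟩ := key (-1) (Or.inr rfl)
    refine ⟨γ, h1, h2, h3, ?_, h5.trans ha'⟩
    rw [h4, neg_neg]; exact hb'

end path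

variable {Q : Type} [PartialOrder Q] {dim : Q → ℕ} {J Fam : Type}
variable {E : Type*} [NormedAddCommGroup E] [NormedSpace ℝ E]
variable {C : Cmb Q dim J Fam} {K : Q → Set E} {g : Gd E J}
  {P : ∀ q, C.I q → Set E} {c : ∀ q, C.I q → E → ℝ} {Ω : Set E}

/-- an `ECell` is ordered -/
theorem ECell.edgeO {I : Type*} {K S : Set E} {o : E} {k : I → ℕ} {c : I → E → ℝ}
    (h : ECell K S o k c) : EdgeO K c k := by
  obtain ⟨e, p, h1, h2, h3, h4, h5⟩ := h
  intro u u₀ z hz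
  have h6 : e.g z 0 = p u₀ := by
    have := h5 u₀ z hz.1
    rw [hz.2, sign_zero, eq_comm, sign_eq_zero_iff, sub_eq_zero] at this
    exact this
  have h7 := h5 u z hz.1
  rw [h6] at h7
  constructor
  · intro hk
    rw [← sign_eq_one_iff, h7, sign_eq_one_iff, sub_pos]
    exact h4 _ _ hk
  · intro hk
    rw [← sign_eq_neg_one_iff, h7, sign_eq_neg_one_iff, sub_neg]
    exact h4 _ _ hk

/-- the label of the point `u₀` of the edge `e` with respect to the piece `x` of `q` -/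
noncomputable def lblN (C : Cmb Q dim J Fam) (k : ∀ q, C.I q → ℕ) {e q : Q} (h : e < q)
    (u₀ : C.I e) (x : C.I q) : ZMod 2 :=
  C.s h x + ∑ u : C.I e with C.up h u = x, (if k e u < k e u₀ then 1 else 0)


section sign

variable (H : Inv C K univ g P c)
include H

/-- **the sign of a band function at an edge point is the label** -/
theorem sign_pnt {k : ∀ q, C.I q → ℕ} {e q : Q} (h : e < q) (hk : Function.Injective (k e))
    (hE : EdgeG (K e) (c e)) (hO : EdgeO (K e) (c e) (k e)) (u₀ : C.I e) (x : C.I q)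
    (hne : C.up h u₀ ≠ x) :
    (lblN C k h u₀ x = 1 → 0 < c q x (pnt K c ⟨e, u₀⟩)) ∧
    (lblN C k h u₀ x = 0 → c q x (pnt K c ⟨e, u₀⟩) < 0) := by
  have hz : pnt K c ⟨e, u₀⟩ ∈ Zer (K e) (c e) u₀ := pnt_mem (v := ⟨e, u₀⟩) hE
  set z := pnt K c ⟨e, u₀⟩ with hzd
  have h2 := H.r2 h (mem_univ q) x z hz.1
  have key : 0 < sg (lblN C k h u₀ x) * (-2 * c q x z) := by
    rw [h2]
    unfold lblN
    rw [sg_add, sg_sum]
    have e1 : sg (C.s h x) * (∏ u : C.I e with C.up h u = x,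
        sg (if k e u < k e u₀ then 1 else 0)) *
        (sg (C.s h x) * ∏ u : C.I e with C.up h u = x, (-2 * c e u z))
        = (sg (C.s h x) * sg (C.s h x)) * ∏ u : C.I e with C.up h u = x,
          (sg (if k e u < k e u₀ then 1 else 0) * (-2 * c e u z)) := by
      rw [Finset.prod_mul_distrib (f := fun u : C.I e => sg (if k e u < k e u₀ then 1 else 0))
        (g := fun u : C.I e => -2 * c e u z)]
      generalize (∏ u : C.I e with C.up h u = x, sg (if k e u < k e u₀ then 1 else 0)) = A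
      generalize (∏ u : C.I e with C.up h u = x, (-2 * c e u z)) = B
      ring
    rw [e1, sg_sq, one_mul]
    refine Finset.prod_pos fun u hu => ?_
    have hu' : C.up h u = x := (Finset.mem_filter.1 hu).2
    have huu : u ≠ u₀ := by rintro rfl; exact hne hu'
    have hkk : k e u ≠ k e u₀ := fun h' => huu (hk h')
    obtain ⟨h3, h4⟩ := hO u u₀ z hz
    rcases lt_or_gt_of_ne hkk with h5 | h5
    · rw [if_pos h5, sg_one]
      have := h3 h5
      linarith
    · rw [if_neg (not_lt.2 h5.le), sg_zero]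
      have := h4 h5
      linarith
  constructor
  · intro hN
    rw [hN, sg_one] at key
    linarith
  · intro hN
    rw [hN, sg_zero] at key
    linarith

end sign

section chord

variable (H : Inv C K univ g P c) (X : Cplx Ω Q dim K)

include H X in
/-- **(R4.3) with labels**: different labels at the two ends of `y'` with respect to `y` -/
theorem chord_one {k : ∀ q, C.I q → ℕ} {F : Q}
    (hE : ∀ e < F, dim e = 1 → EdgeG (K e) (c e) ∧ EdgeO (K e) (c e) (k e) ∧
      Function.Injective (k e))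
    (hCh : Chords (K F) (bdS K F) (c F)) {y y' : C.I F} (hne : y ≠ y')
    {a b : Σ e, C.I e} (ha : a.1 < F) (hb : b.1 < F) (hda : dim a.1 = 1) (hdb : dim b.1 = 1)
    (ha' : C.up ha a.2 = y') (hb' : C.up hb b.2 = y')
    (hl : lblN C k ha a.2 y ≠ lblN C k hb b.2 y) :
    ∃ p, Zer (K F) (c F) y ∩ Zer (K F) (c F) y' = {p} := by
  have hEa := hE _ ha hda
  have hEb := hE _ hb hdb
  have h1 := sign_pnt H ha hEa.2.2 hEa.1 hEa.2.1 a.2 y (by rw [ha']; exact Ne.symm hne)
  have h2 := sign_pnt H hb hEb.2.2 hEb.1 hEb.2.1 b.2 y (by rw [hb']; exact Ne.symm hne)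
  have ga : pnt K c a ∈ Gam (bdS K F) (c F) y' := by
    rw [← ha']; exact zer_up H X ha (pnt_mem hEa.1)
  have gb : pnt K c b ∈ Gam (bdS K F) (c F) y' := by
    rw [← hb']; exact zer_up H X hb (pnt_mem hEb.1)
  rcases z2 (lblN C k ha a.2 y) with h3 | h3 <;> rcases z2 (lblN C k hb b.2 y) with h4 | h4
  · exact absurd (h3.trans h4.symm) hl
  · exact hCh.cross y y' hne ⟨_, gb, h2.1 h4⟩ ⟨_, ga, h1.2 h3⟩
  · exact hCh.cross y y' hne ⟨_, ga, h1.1 h3⟩ ⟨_, gb, h2.2 h4⟩
  · exact absurd (h3.trans h4.symm) hl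

include H X in
/-- equal labels: no common point -/
theorem chord_non {k : ∀ q, C.I q → ℕ} {F : Q} (hd : dim F = 2)
    (hE : ∀ e < F, dim e = 1 → EdgeG (K e) (c e) ∧ EdgeO (K e) (c e) (k e) ∧
      Function.Injective (k e))
    (hCh : Chords (K F) (bdS K F) (c F)) {y y' : C.I F} (hne : y ≠ y')
    {a b : Σ e, C.I e} (hB : Blw C F y' = {a, b}) (ha : a.1 < F) (hb : b.1 < F)
    (hl : lblN C k ha a.2 y = lblN C k hb b.2 y) :
    Zer (K F) (c F) y ∩ Zer (K F) (c F) y' = ∅ := by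
  have hma : a ∈ Blw C F y' := by rw [hB]; simp
  have hmb : b ∈ Blw C F y' := by rw [hB]; simp
  have hEa := hE _ ha hma.1
  have hEb := hE _ hb hmb.1
  have h1 := sign_pnt H ha hEa.2.2 hEa.1 hEa.2.1 a.2 y
    (by obtain ⟨_, _, h⟩ := hma; rw [h]; exact Ne.symm hne)
  have h2 := sign_pnt H hb hEb.2.2 hEb.1 hEb.2.1 b.2 y
    (by obtain ⟨_, _, h⟩ := hmb; rw [h]; exact Ne.symm hne)
  have hG : Gam (bdS K F) (c F) y' = {pnt K c a, pnt K c b} := by
    rw [gam_face H X hd (fun e he hde => (hE e he hde).1) y', hB, image_pair]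
  refine hCh.none y y' hne ?_
  rw [hG]
  rcases z2 (lblN C k ha a.2 y) with h3 | h3
  · right
    rintro ω (rfl | hω)
    · exact h1.2 h3
    · rw [mem_singleton_iff.1 hω]; exact h2.2 (hl ▸ h3)
  · left
    rintro ω (rfl | hω)
    · exact h1.1 h3
    · rw [mem_singleton_iff.1 hω]; exact h2.1 (hl ▸ h3)

end chord

end Crest.Agent.R096.Arc_778
end

-- ▼ part R096/Arc12_778
section

/-!
# R096 (row 96), (R4), part 12: the geometric facts on a face over the CMB of a labelled mesh (I1)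
(helper778)

Over 117's `cmb h Lam hLam` (labelled mesh `L : LM M Q dim`, state `s`) with `k = ek h`:
* `ptW` : the point of `w`; `ptW_mem`, `ptW_inj`, `ptW_zero`.
* `lblN_eq`, **`sign_w`** : sign of a band function at a point = normalised label `nlw`.
* **`path_w`** : the chord of `w` on a face as a path from `w` to its partner.
* **`one_w`**, **`non_w`** : (R4.3) with `nlw`.
-/

set_option autoImplicit false
set_option linter.unusedSectionVars false

open Set Metric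

namespace Crest.Agent.R096.Arc_778

open Crest.Agent.R096.Ce_537 Crest.Agent.R096.Bd_416 Crest.Agent.R096.Cb_609 Crest.Agent.R096.Pl
open Crest.Agent.R096.St_147 Crest.Agent.R096.Ac_117 Crest.Agent.R096.Seq_213
open Crest.Agent.R096.Lm_117

open scoped Classical

variable {ι Φ W Q J Fm : Type} {M : MeshC ι Φ W} [PartialOrder Q] {dim : Q → ℕ}
variable {L : LM M Q dim} {fam : J → Fm} {s : GSt M fam}
variable (h : LF L s) (Lam : J → Q → ZMod 2) (hLam : ∀ j c, L.toSk.XL (gP s j) (Lam j) c)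
variable {E : Type*} [NormedAddCommGroup E] [NormedSpace ℝ E]

/-- the piece of a point -/
def mkP {q : Q} {w : W} (hw : w ∈ s.P ∧ w ∈ L.toSk.In q) : Pc L s q := Quot.mk _ ⟨w, hw⟩

lemma mem_mkP {q : Q} {w : W} (hw : w ∈ s.P ∧ w ∈ L.toSk.In q) : w ∈ pts h q (mkP hw) :=
  mem_pts.2 ⟨hw, rfl⟩

lemma mkP_eq {q : Q} {x : Pc L s q} {w : W} (hw : w ∈ pts h q x) : mkP (pts_in hw) = x := by
  obtain ⟨h', e⟩ := mem_pts.1 hw
  exact e

lemma in_ed {q : Q} {w : W} (hw : w ∈ s.P ∧ w ∈ L.toSk.In q) :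
    w ∈ s.P ∧ w ∈ L.toSk.In (L.ed w) := ⟨hw.1, hw.2.1, le_rfl⟩

lemma ed_lt {q : Q} (hq : 2 ≤ dim q) {w : W} (hw : w ∈ L.toSk.In q) : L.ed w < q := by
  refine lt_of_le_of_ne hw.2 fun h => ?_
  have := L.ed_dim w hw.1
  rw [h] at this
  omega

/-- the edge piece of a point -/
noncomputable def sgW (w : W) (hw : w ∈ s.P ∧ w ∈ L.toSk.In (L.ed w)) :
    Σ e, (cmb h Lam hLam).I e := ⟨L.ed w, mkP hw⟩

/-- the place of a point -/
noncomputable def ptW (K : Q → Set E) (c : ∀ q, (cmb h Lam hLam).I q → E → ℝ) (w : W) : E :=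
  if hw : w ∈ s.P ∧ w ∈ L.toSk.In (L.ed w) then pnt (C := cmb h Lam hLam) K c (sgW h Lam hLam w hw)
  else 0


variable {h Lam hLam}

lemma ptW_eq {K : Q → Set E} {c : ∀ q, (cmb h Lam hLam).I q → E → ℝ} {w : W}
    (hw : w ∈ s.P ∧ w ∈ L.toSk.In (L.ed w)) :
    ptW h Lam hLam K c w = pnt (C := cmb h Lam hLam) K c (sgW h Lam hLam w hw) := dif_pos hw


/-- **the label of an edge point is `nlw`** -/
theorem lblN_eq {e q : Q} (he : e < q) (hd : dim e = 1) {w : W}
    (hw : w ∈ s.P ∧ w ∈ L.toSk.In e) (x : Pc L s q) (hne : w ∉ pts h q x) :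
    lblN (cmb h Lam hLam) (ek h) he (mkP hw) x = nlw h q x w := by
  classical
  have := h.pc e
  let _ : Fintype (Pc L s e) := Fintype.ofFinite _
  have h1 := nlw_coc (h := h) he.le x (Finset.univ.filter (fun y => pup L s he.le y = x))
      (fun y => ⟨fun h => (Finset.mem_filter.1 h).2,
        fun h => Finset.mem_filter.2 ⟨Finset.mem_univ _, h⟩⟩) hw.2
  rw [h1]
  unfold lblN
  congr 1
  refine Finset.sum_congr ?_ ?_
  · ext u
    constructor
    · intro hu
      exact Finset.mem_filter.2 ⟨Finset.mem_univ _, (Finset.mem_filter.1 hu).2⟩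
    · intro hu
      exact Finset.mem_filter.2 ⟨Finset.mem_univ _, (Finset.mem_filter.1 hu).2⟩
  · intro u hu
    have hu' : pup L s he.le u = x := (Finset.mem_filter.1 hu).2
    have hne' : (mkP hw : Pc L s e) ≠ u := by
      rintro rfl
      exact hne ((mem_pts_pup he.le hw.2).2 ⟨_, hu', mem_mkP h hw⟩)
    have hr : rep h (mkP hw : Pc L s e) = w :=
      pts_edge hd (mkP hw) (rep_mem h _) (mem_mkP h hw)
    have h2 := nlw_edge h e hd hne'
    rw [hr] at h2
    exact h2.symm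

lemma sgW_inj {w w' : W} (hw : w ∈ s.P ∧ w ∈ L.toSk.In (L.ed w))
    (hw' : w' ∈ s.P ∧ w' ∈ L.toSk.In (L.ed w'))
    (he : sgW h Lam hLam w hw = sgW h Lam hLam w' hw') : w = w' := by
  have key : ∀ v : Σ e, (cmb h Lam hLam).I e, v = sgW h Lam hLam w' hw' →
      w' ∈ pts h v.1 (show Pc L s v.1 from v.2) := by
    rintro v rfl
    exact mem_mkP h hw'
  exact pts_edge (L.ed_dim w hw.2.1) _ (mem_mkP h hw) (key _ he)

/-- the edge points of a piece -/
lemma mem_blwW {q : Q} (hq : 2 ≤ dim q) {x : Pc L s q} {v : Σ e, (cmb h Lam hLam).I e} :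
    v ∈ Blw (cmb h Lam hLam) q x ↔
      ∃ w, ∃ hw : w ∈ pts h q x, v = sgW h Lam hLam w (in_ed (pts_in hw)) := by
  constructor
  · rintro ⟨h1, h2, h3⟩
    obtain ⟨e, y⟩ := v
    obtain ⟨⟨w, hw⟩, rfl⟩ := Quot.exists_rep y
    have h3' : pup L s (le_of_lt h2) (mkP hw) = x := h3
    have hwq : w ∈ pts h q x := (mem_pts_pup (le_of_lt h2) hw.2).2 ⟨_, h3', mem_mkP h hw⟩
    have h4 : L.ed w = e := eq_of_dim L.toSk hw.2.2 (by
      have h1' : dim e = 1 := h1
      rw [h1', L.ed_dim _ hw.2.1])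
    subst h4
    exact ⟨w, hwq, rfl⟩
  · rintro ⟨w, hw, rfl⟩
    have h1 := pts_in hw
    exact ⟨L.ed_dim w h1.2.1, ed_lt hq h1.2, mkP_eq h hw⟩

/-- the points of a piece of a face -/
lemma pts_face {F : Φ} {w w' : W} (hw : w ∈ s.P ∧ w ∈ L.toSk.In (L.cf F)) :
    w' ∈ pts h (L.cf F) (mkP hw) ↔ w' = w ∨ w' = s.mu F w := by
  have hwF := on_of_in hw.2
  constructor
  · intro hw'
    obtain ⟨h', e⟩ := mem_pts.1 hw'
    refine quot_inv (L := L) (s := s) (c := L.cf F) (a := ⟨w, hw⟩) (b := ⟨w', h'⟩)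
      (fun x => x = w ∨ x = s.mu F w) ?_ e.symm (Or.inl rfl)
    intro G hG u hu huG hh
    have hGF : G = F := L.cf_inj _ _ (eq_of_dim L.toSk hG (by rw [L.cf_dim, L.cf_dim]))
    subst hGF
    rcases hh with rfl | rfl
    · exact Or.inr rfl
    · exact Or.inl (s.mu_mu hw.1 hwF)
  · rintro (rfl | rfl)
    · exact mem_mkP h hw
    · exact mu_pts (mem_mkP h hw) le_rfl hwF

lemma mu_in {F : Φ} {w : W} (hw : w ∈ s.P ∧ w ∈ L.toSk.In (L.cf F)) :
    s.mu F w ∈ s.P ∧ s.mu F w ∈ L.toSk.In (L.cf F) := by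
  have := s.mu_mem hw.1 (on_of_in hw.2)
  exact ⟨this.1, on_in le_rfl this.2⟩

lemma blw_w {F : Φ} {w : W} (hw : w ∈ s.P ∧ w ∈ L.toSk.In (L.cf F)) :
    Blw (cmb h Lam hLam) (L.cf F) (mkP hw) =
      {sgW h Lam hLam w (in_ed hw), sgW h Lam hLam (s.mu F w) (in_ed (mu_in hw))} := by
  ext v
  rw [mem_blwW (L.cf_dim F).ge]
  constructor
  · rintro ⟨w', hw', rfl⟩
    rcases (pts_face hw).1 hw' with rfl | rfl
    · exact Or.inl rfl
    · exact Or.inr rfl
  · rintro (rfl | rfl)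
    · exact ⟨w, (pts_face hw).2 (Or.inl rfl), rfl⟩
    · exact ⟨_, (pts_face hw).2 (Or.inr rfl), rfl⟩

lemma sg_ne {F : Φ} {w : W} (hw : w ∈ s.P ∧ w ∈ L.toSk.In (L.cf F)) :
    sgW h Lam hLam w (in_ed hw) ≠ sgW h Lam hLam (s.mu F w) (in_ed (mu_in hw)) := fun he =>
  s.mu_ne hw.1 (on_of_in hw.2) (sgW_inj _ _ he).symm

/-- all edges are ordered -/
theorem edgeGO [FiniteDimensional ℝ E] {K : Q → Set E} {c : ∀ q, (cmb h Lam hLam).I q → E → ℝ}
    {R : Set Q} {k : ∀ q, (cmb h Lam hLam).I q → ℕ}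
    (G : Geo (cmb h Lam hLam) K c R k) (GR : GeoR (cmb h Lam hLam) K c R)
    (C : CmbG (cmb h Lam hLam) R k) (hk : ∀ e ∉ R, dim e = 1 → k e = ek h e)
    (GO : ∀ e ∈ R, dim e = 1 → EdgeO (K e) (c e) (ek h e)) (e : Q) (he : dim e = 1) :
    EdgeG (K e) (c e) ∧ EdgeO (K e) (c e) (ek h e) := by
  refine ⟨edgeG G GR C e he, ?_⟩
  by_cases hR : e ∈ R
  · exact GO e hR he
  · obtain ⟨o, -, h1⟩ := G.edge e hR he
    rw [← hk e hR he]
    exact h1.edgeO

section geo

variable {K : Q → Set E} {g : Gd E J} {P : ∀ q, (cmb h Lam hLam).I q → Set E}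
  {c : ∀ q, (cmb h Lam hLam).I q → E → ℝ} {Ω : Set E}
  (H : Inv (cmb h Lam hLam) K univ g P c) (X : Cplx Ω Q dim K)

include H in
/-- **sign at a point = normalised label** -/
theorem sign_w {q : Q} {w : W} (hw : w ∈ s.P ∧ w ∈ L.toSk.In q) (hlt : L.ed w < q)
    (hE : EdgeG (K (L.ed w)) (c (L.ed w))) (hO : EdgeO (K (L.ed w)) (c (L.ed w)) (ek h (L.ed w)))
    (x : Pc L s q) (hne : w ∉ pts h q x) :
    (nlw h q x w = 1 → 0 < c q x (ptW h Lam hLam K c w)) ∧
    (nlw h q x w = 0 → c q x (ptW h Lam hLam K c w) < 0) := by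
  have hd := L.ed_dim w hw.2.1
  have h1 := sign_pnt (C := cmb h Lam hLam) (k := ek h) H hlt (ek_inj h _ hd) hE hO
    (mkP (in_ed hw)) x (by
      intro h'
      have h3 : pup L s hlt.le (mkP (in_ed hw)) = x := h'
      exact hne ((mem_pts_pup hlt.le (in_ed hw).2).2 ⟨_, h3, mem_mkP h (in_ed hw)⟩))
  rw [lblN_eq hlt hd (in_ed hw) x hne] at h1
  rw [ptW_eq (in_ed hw)]
  exact h1


include H X in
/-- the boundary points of the chord of `w` -/
theorem gam_w {F : Φ} (hE : ∀ e < L.cf F, dim e = 1 → EdgeG (K e) (c e)) {w : W}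
    (hw : w ∈ s.P ∧ w ∈ L.toSk.In (L.cf F)) :
    Gam (bdS K (L.cf F)) (c (L.cf F)) (mkP hw) =
      {ptW h Lam hLam K c w, ptW h Lam hLam K c (s.mu F w)} ∧
    ptW h Lam hLam K c w ≠ ptW h Lam hLam K c (s.mu F w) := by
  rw [ptW_eq (in_ed hw), ptW_eq (in_ed (mu_in hw))]
  exact gam_pair (C := cmb h Lam hLam) H X (L.cf_dim F) hE (mkP hw) (sg_ne hw) (blw_w hw)

include H X in
/-- **the chord of `w` as a path** -/
theorem path_w {F : Φ} (hE : ∀ e < L.cf F, dim e = 1 → EdgeG (K e) (c e))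
    (hCh : Chords (K (L.cf F)) (bdS K (L.cf F)) (c (L.cf F))) {w : W}
    (hw : w ∈ s.P ∧ w ∈ L.toSk.In (L.cf F)) :
    ∃ γ : ℝ → E, ContinuousOn γ (Icc 0 1) ∧ InjOn γ (Icc 0 1) ∧
      γ '' Icc 0 1 = Zer (K (L.cf F)) (c (L.cf F)) (mkP hw) ∧
      γ 0 = ptW h Lam hLam K c w ∧ γ 1 = ptW h Lam hLam K c (s.mu F w) := by
  have h1 := hCh.ball (mkP hw)
  rw [(gam_w H X hE hw).1] at h1
  exact exists_path h1

include H X in
/-- **(R4.3)** different labels at the two ends of the chord of `w'`: one common point -/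
theorem one_w {F : Φ} (hE : ∀ e < L.cf F, dim e = 1 → EdgeG (K e) (c e) ∧
      EdgeO (K e) (c e) (ek h e))
    (hCh : Chords (K (L.cf F)) (bdS K (L.cf F)) (c (L.cf F))) {y : Pc L s (L.cf F)} {w' : W}
    (hw' : w' ∈ s.P ∧ w' ∈ L.toSk.In (L.cf F)) (hne : w' ∉ pts h (L.cf F) y)
    (hl : nlw h (L.cf F) y w' ≠ nlw h (L.cf F) y (s.mu F w')) :
    ∃ p, Zer (K (L.cf F)) (c (L.cf F)) y ∩ Zer (K (L.cf F)) (c (L.cf F)) (mkP hw') = {p} := by
  have hm := mu_in hw'
  have hlt := ed_lt (L.cf_dim F).ge hw'.2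
  have hlt' := ed_lt (L.cf_dim F).ge hm.2
  have hd := L.ed_dim w' hw'.2.1
  have hd' := L.ed_dim _ hm.2.1
  have hyy : y ≠ mkP hw' := by
    rintro rfl; exact hne (mem_mkP h hw')
  have hne' : s.mu F w' ∉ pts h (L.cf F) y := fun h' => hyy
    (pts_disj h' ((pts_face hw').2 (Or.inr rfl)))
  refine chord_one (C := cmb h Lam hLam) (k := ek h) H X
    (fun e he hde => ⟨(hE e he hde).1, (hE e he hde).2, ek_inj h e hde⟩) hCh hyy
    (a := sgW h Lam hLam w' (in_ed hw')) (b := sgW h Lam hLam (s.mu F w') (in_ed hm))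
    hlt hlt' hd hd' rfl ?_ ?_
  · exact mkP_eq h (show s.mu F w' ∈ pts h (L.cf F) (mkP hw') from (pts_face hw').2 (Or.inr rfl))
  · show lblN (cmb h Lam hLam) (ek h) hlt (mkP (in_ed hw')) y ≠
      lblN (cmb h Lam hLam) (ek h) hlt' (mkP (in_ed hm)) y
    rw [lblN_eq hlt hd (in_ed hw') y hne, lblN_eq hlt' hd' (in_ed hm) y hne']
    exact hl

include H X in
/-- **(R4.3)** equal labels: no common point -/
theorem non_w {F : Φ} (hE : ∀ e < L.cf F, dim e = 1 → EdgeG (K e) (c e) ∧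
      EdgeO (K e) (c e) (ek h e))
    (hCh : Chords (K (L.cf F)) (bdS K (L.cf F)) (c (L.cf F))) {y : Pc L s (L.cf F)} {w' : W}
    (hw' : w' ∈ s.P ∧ w' ∈ L.toSk.In (L.cf F)) (hne : w' ∉ pts h (L.cf F) y)
    (hl : nlw h (L.cf F) y w' = nlw h (L.cf F) y (s.mu F w')) :
    Zer (K (L.cf F)) (c (L.cf F)) y ∩ Zer (K (L.cf F)) (c (L.cf F)) (mkP hw') = ∅ := by
  have hm := mu_in hw'
  have hlt := ed_lt (L.cf_dim F).ge hw'.2
  have hlt' := ed_lt (L.cf_dim F).ge hm.2
  have hd := L.ed_dim w' hw'.2.1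
  have hd' := L.ed_dim _ hm.2.1
  have hyy : y ≠ mkP hw' := by
    rintro rfl; exact hne (mem_mkP h hw')
  have hne' : s.mu F w' ∉ pts h (L.cf F) y := fun h' => hyy
    (pts_disj h' ((pts_face hw').2 (Or.inr rfl)))
  refine chord_non (C := cmb h Lam hLam) (k := ek h) H X (L.cf_dim F)
    (fun e he hde => ⟨(hE e he hde).1, (hE e he hde).2, ek_inj h e hde⟩) hCh hyy (blw_w hw')
    hlt hlt' ?_
  show lblN (cmb h Lam hLam) (ek h) hlt (mkP (in_ed hw')) y =
      lblN (cmb h Lam hLam) (ek h) hlt' (mkP (in_ed hm)) y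
  rw [lblN_eq hlt hd (in_ed hw') y hne, lblN_eq hlt' hd' (in_ed hm) y hne']
  exact hl

end geo

end Crest.Agent.R096.Arc_778
end

-- ▼ part R096/Gr1_117
section

/-!
# R096 (row 96), ARR (D2), part 1: the run of the deeper closed cycle as a connected set (helper117)
-/

set_option autoImplicit false

open Set

namespace Crest.Agent.R096.Ac_117

variable {Q Z L : Type*} {A : Arr Q Z L} {X : Type*} [TopologicalSpace X]

/-- a picture of an arrangement: every piece is a preconnected set which contains the points of its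
two ends -/
structure Pic (A : Arr Q Z L) (X : Type*) [TopologicalSpace X] where
  cu : Q → Set X
  vz : Z → X
  vl : L → X
  pre : ∀ p, IsPreconnected (cu p)
  mz : ∀ z c j, vz z ∈ cu (A.pc z c j)
  ml : ∀ l i, vl l ∈ cu (A.lp l i)

namespace Pic

variable (G : Pic A X)

/-- the point of an end -/
def pnt : Drt Z L → X
  | Sum.inl (z, _, _) => G.vz z
  | Sum.inr (l, _) => G.vl l

lemma pnt_mem (d : Drt Z L) : G.pnt d ∈ G.cu (A.pce d) := by
  rcases d with ⟨z, c, j⟩ | ⟨l, i⟩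
  · exact G.mz z c j
  · exact G.ml l i

lemma pnt_nx (d : Drt Z L) : G.pnt (Arr.nx d) = G.pnt d := by
  rcases d with ⟨z, c, j⟩ | ⟨l, i⟩ <;> rfl

end Pic

/-- **the run of the deeper cycle is connected**: the two double points `z`, `arc z` lie in one
preconnected set of pieces of the deeper cycle inside the shallower one -/
theorem Dep.run_conn (E : Dep A) (G : Pic A X) [Finite Z] [Finite L] (z : Z) {Y : Set X}
    (hY : ∀ p, E.k p = E.dy z → (∀ i, E.I (E.sx z) p i = 1) → G.cu p ⊆ Y) :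
    ∃ B ⊆ Y, IsPreconnected B ∧ G.vz z ∈ B ∧ G.vz (E.arc z) ∈ B := by
  have key : ∀ d ∈ E.run z, ∃ B ⊆ Y, IsPreconnected B ∧ G.vz z ∈ B ∧ G.pnt d ∈ B := by
    refine cls_ind (P := fun d => ∃ B ⊆ Y, IsPreconnected B ∧ G.vz z ∈ B ∧ G.pnt d ∈ B) ?_ ?_ ?_
    · have h := E.run_prop _ (E.rd_mem z)
      exact ⟨G.cu (A.pce (E.rd z)), hY _ h.1 h.2, G.pre _, G.pnt_mem (E.rd z), G.pnt_mem (E.rd z)⟩
    · rintro d hd ⟨B, hB, hpre, hz, hp⟩
      have h := E.run_prop _ hd
      have h1 := G.pnt_mem (A.flip d)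
      rw [A.pce_flip'] at h1
      exact ⟨B ∪ G.cu (A.pce d), union_subset hB (hY _ h.1 h.2),
        hpre.union (G.pnt d) hp (G.pnt_mem d) (G.pre _), Or.inl hz, Or.inr h1⟩
    · rintro d hd ⟨B, hB, hpre, hz, hp⟩
      refine ⟨B, hB, hpre, hz, ?_⟩
      rcases E.nxx_eq_or (E.sx z) (E.dc z) d with h | h
      · rw [h]; exact hp
      · rw [h, G.pnt_nx]; exact hp
  exact key _ (E.arc_spec z).1

end Crest.Agent.R096.Ac_117
end

-- ▼ part R096/Gr2_117
section

/-!
# R096 (row 96), ARR (D2), part 2: arcs of a face with the crossings of a chord diagram (helper117)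

`GeoD D X`: every chord of the diagram `D` is a path `γ a` in `X`, with band functions `f b`: the
sign of `f b` at the ends of `γ a` is the side of the diagram, exactly one zero on `γ a` if the
chords cross, none otherwise.  Then the crossings occur along `γ a` in the order of the diagram, and
the sides of the sub-arcs are those of the diagram.
-/

set_option autoImplicit false

open Set

namespace Crest.Agent.R096.Gr_117

open Crest.Agent.R096.Fx_689

/-- paths and band functions of a chord diagram -/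
structure GeoD {C : Type*} (D : Dg C) (X : Type*) [TopologicalSpace X] where
  γ : C → ℝ → X
  f : C → X → ℝ
  contγ : ∀ a, ContinuousOn (γ a) (Icc 0 1)
  cont : ∀ a b, ContinuousOn (fun t => f b (γ a t)) (Icc 0 1)
  own : ∀ a, ∀ t ∈ Icc (0:ℝ) 1, f a (γ a t) = 0
  crs : ∀ a b, D.X a b → ∃ t ∈ Icc (0:ℝ) 1, f b (γ a t) = 0 ∧
    ∀ t' ∈ Icc (0:ℝ) 1, f b (γ a t') = 0 → t' = t
  ncrs : ∀ a b, a ≠ b → ¬ D.X a b → ∀ t ∈ Icc (0:ℝ) 1, f b (γ a t) ≠ 0
  zer : ∀ a b, ∀ t ∈ Icc (0:ℝ) 1, f b (γ a t) = 0 → ∃ t' ∈ Icc (0:ℝ) 1, γ a t = γ b t'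
  s0 : ∀ a b, a ≠ b → (D.inn b (D.lo a) = 1 → 0 < f b (γ a 0)) ∧
    (D.inn b (D.lo a) = 0 → f b (γ a 0) < 0)
  s1 : ∀ a b, a ≠ b → (D.inn b (D.hi a) = 1 → 0 < f b (γ a 1)) ∧
    (D.inn b (D.hi a) = 0 → f b (γ a 1) < 0)

namespace GeoD

variable {C : Type*} {D : Dg C} {X : Type*} [TopologicalSpace X] (G : GeoD D X)

lemma z2 (a : ZMod 2) : a = 0 ∨ a = 1 := by revert a; decide

open Classical in
/-- parameter of the crossing with `b` on `a` -/
noncomputable def cr (a b : C) : ℝ := if h : D.X a b then (G.crs a b h).choose else 0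

lemma cr_mem {a b : C} (h : D.X a b) : G.cr a b ∈ Icc (0:ℝ) 1 := by
  unfold cr
  rw [dif_pos h]
  exact (G.crs a b h).choose_spec.1

lemma cr_zero {a b : C} (h : D.X a b) : G.f b (G.γ a (G.cr a b)) = 0 := by
  unfold cr
  rw [dif_pos h]
  exact (G.crs a b h).choose_spec.2.1

lemma cr_uniq {a b : C} (h : D.X a b) {t : ℝ} (ht : t ∈ Icc (0:ℝ) 1) (h0 : G.f b (G.γ a t) = 0) :
    t = G.cr a b := by
  unfold cr
  rw [dif_pos h]
  exact (G.crs a b h).choose_spec.2.2 t ht h0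

/-- the crossing point -/
lemma cr_symm {a b : C} (h : D.X a b) : G.γ a (G.cr a b) = G.γ b (G.cr b a) := by
  obtain ⟨t', ht', e⟩ := G.zer a b _ (G.cr_mem h) (G.cr_zero h)
  have h1 : G.f a (G.γ b t') = 0 := by
    rw [← e]; exact G.own a _ (G.cr_mem h)
  rw [e, G.cr_uniq (D.X_symm h) ht' h1]

/-- sign of a function without zero on an interval -/
lemma sign_const {g : ℝ → ℝ} {u v : ℝ} (hg : ContinuousOn g (Icc u v))
    (h0 : ∀ t ∈ Icc u v, g t ≠ 0) {t t' : ℝ} (ht : t ∈ Icc u v) (ht' : t' ∈ Icc u v)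
    (h : 0 < g t) : 0 < g t' := by
  by_contra hneg
  rw [not_lt] at hneg
  have hpre : IsPreconnected (g '' Icc u v) := (isPreconnected_Icc).image _ hg
  have h1 : (0:ℝ) ∈ g '' Icc u v :=
    hpre.ordConnected.out ⟨t', ht', rfl⟩ ⟨t, ht, rfl⟩ ⟨hneg, h.le⟩
  obtain ⟨s, hs, e⟩ := h1
  exact h0 s hs e

lemma sign_const' {g : ℝ → ℝ} {u v : ℝ} (hg : ContinuousOn g (Icc u v))
    (h0 : ∀ t ∈ Icc u v, g t ≠ 0) {t t' : ℝ} (ht : t ∈ Icc u v) (ht' : t' ∈ Icc u v)
    (h : g t < 0) : g t' < 0 := by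
  have := sign_const (g := fun t => - g t) hg.neg (fun t ht => neg_ne_zero.2 (h0 t ht)) ht ht'
    (neg_pos.2 h)
  exact neg_pos.1 this

/-- signs of an unlaced chord -/
lemma unl_pos {a b : C} (hne : a ≠ b) (h : ¬ D.X a b) (hi : D.inn b (D.lo a) = 1) {t : ℝ}
    (ht : t ∈ Icc (0:ℝ) 1) : 0 < G.f b (G.γ a t) :=
  sign_const (G.cont a b) (G.ncrs a b hne h) (left_mem_Icc.2 zero_le_one) ht ((G.s0 a b hne).1 hi)

lemma unl_neg {a b : C} (hne : a ≠ b) (h : ¬ D.X a b) (hi : D.inn b (D.lo a) = 0) {t : ℝ}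
    (ht : t ∈ Icc (0:ℝ) 1) : G.f b (G.γ a t) < 0 :=
  sign_const' (G.cont a b) (G.ncrs a b hne h) (left_mem_Icc.2 zero_le_one) ht ((G.s0 a b hne).2 hi)

/-- signs of a laced chord before the crossing -/
lemma bef {a b : C} (h : D.X a b) {t : ℝ} (ht : t ∈ Icc (0:ℝ) 1) (hlt : t < G.cr a b) :
    (D.inn b (D.lo a) = 1 → 0 < G.f b (G.γ a t)) ∧ (D.inn b (D.lo a) = 0 → G.f b (G.γ a t) < 0) := by
  have hne := D.X_ne h
  have hsub : Icc (0:ℝ) t ⊆ Icc 0 1 := Icc_subset_Icc le_rfl ht.2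
  have h0 : ∀ t' ∈ Icc (0:ℝ) t, G.f b (G.γ a t') ≠ 0 := fun t' ht' h0 => by
    have := G.cr_uniq h (hsub ht') h0
    linarith [ht'.2]
  have hc := (G.cont a b).mono hsub
  exact ⟨fun hi => sign_const hc h0 (left_mem_Icc.2 ht.1) (right_mem_Icc.2 ht.1)
      ((G.s0 a b hne).1 hi), fun hi => sign_const' hc h0 (left_mem_Icc.2 ht.1)
      (right_mem_Icc.2 ht.1) ((G.s0 a b hne).2 hi)⟩

/-- signs of a laced chord after the crossing -/
lemma aft {a b : C} (h : D.X a b) {t : ℝ} (ht : t ∈ Icc (0:ℝ) 1) (hlt : G.cr a b < t) :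
    (D.inn b (D.hi a) = 1 → 0 < G.f b (G.γ a t)) ∧ (D.inn b (D.hi a) = 0 → G.f b (G.γ a t) < 0) := by
  have hne := D.X_ne h
  have hsub : Icc t (1:ℝ) ⊆ Icc 0 1 := Icc_subset_Icc ht.1 le_rfl
  have h0 : ∀ t' ∈ Icc t (1:ℝ), G.f b (G.γ a t') ≠ 0 := fun t' ht' h0 => by
    have := G.cr_uniq h (hsub ht') h0
    linarith [ht'.1]
  have hc := (G.cont a b).mono hsub
  exact ⟨fun hi => sign_const hc h0 (right_mem_Icc.2 ht.2) (left_mem_Icc.2 ht.2)
      ((G.s1 a b hne).1 hi), fun hi => sign_const' hc h0 (right_mem_Icc.2 ht.2)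
      (left_mem_Icc.2 ht.2) ((G.s1 a b hne).2 hi)⟩

/-- two chords of one family: sign of one on the other -/
lemma X_fam' {a b b' : C} (h : D.X a b) (h' : D.X a b') : ¬ D.X b b' := by
  intro hX
  have h1 := D.X_fam h
  have h2 := D.X_fam h'
  have h3 := D.X_fam hX
  cases ha : D.fam a <;> cases hb : D.fam b <;> cases hb' : D.fam b' <;> simp_all

/-- **the crossings occur in the order of the diagram** -/
theorem cr_lt {a b b' : C} (h : D.X a b) (h' : D.X a b') (he : D.e a b < D.e a b') :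
    G.cr a b < G.cr a b' := by
  have hne : b ≠ b' := fun e => by rw [e] at he; exact lt_irrefl _ he
  have hX := X_fam' h h'
  have hmem := G.cr_mem h
  -- the point on `b`
  obtain ⟨t', ht', e⟩ := G.zer a b _ hmem (G.cr_zero h)
  have hl := D.lt a
  have hl1 := D.lt b
  have hl2 := D.lt b'
  have q1 := D.ne a b
  have q2 := D.ne b a
  have q3 := D.ne a b'
  have q4 := D.ne b' a
  have q5 := D.ne b b'
  have q6 := D.ne b' b
  have q7 : D.lo b ≠ D.lo b' := fun h => hne (D.lo_inj _ _ h)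
  have q8 : D.hi b ≠ D.hi b' := fun h => hne (D.hi_inj _ _ h)
  -- the sign of `b'` at the crossing of `b` is the sign before the crossing of `b'`
  have key : D.inn b' (D.lo b) = D.inn b' (D.lo a) := by
    unfold Dg.X at h h' hX
    unfold Dg.e at he
    unfold Dg.inn
    split_ifs at he ⊢ <;> first | rfl | (exfalso; omega)
  have key2 : D.inn b' (D.hi a) = D.inn b' (D.lo a) + 1 := D.inn_flip h'
  rcases z2 (D.inn b' (D.lo a)) with h0 | h0
  · have p1 : G.f b' (G.γ a (G.cr a b)) < 0 := by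
      rw [e]
      exact G.unl_neg hne hX (by rw [key, h0]) ht'
    by_contra hcon
    rw [not_lt] at hcon
    rcases hcon.lt_or_eq with hlt | heq
    · have := (G.aft h' hmem hlt).1 (by rw [key2, h0]; rfl)
      linarith
    · have := G.cr_zero h'
      rw [heq] at this
      linarith
  · have p1 : 0 < G.f b' (G.γ a (G.cr a b)) := by
      rw [e]
      exact G.unl_pos hne hX (by rw [key, h0]) ht'
    by_contra hcon
    rw [not_lt] at hcon
    rcases hcon.lt_or_eq with hlt | heq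
    · have := (G.aft h' hmem hlt).2 (by rw [key2, h0]; rfl)
      linarith
    · have := G.cr_zero h'
      rw [heq] at this
      linarith

/-- the parameters of the piece over `(k, k+1)` -/
def seg (a : C) (k : ℕ) : Set ℝ :=
  {t | t ∈ Icc (0:ℝ) 1 ∧ (∀ b, D.X a b → D.e a b ≤ k → G.cr a b ≤ t) ∧
    ∀ b, D.X a b → k < D.e a b → t ≤ G.cr a b}

/-- the piece over `(k, k+1)` -/
def cu (a : C) (k : ℕ) : Set X := G.γ a '' G.seg a k

lemma seg_ord (a : C) (k : ℕ) : (G.seg a k).OrdConnected := by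
  refine ⟨?_⟩
  rintro t ⟨h1, h2, h3⟩ t' ⟨h1', h2', h3'⟩ u hu
  exact ⟨⟨h1.1.trans hu.1, hu.2.trans h1'.2⟩, fun b hb hk => (h2 b hb hk).trans hu.1,
    fun b hb hk => hu.2.trans (h3' b hb hk)⟩

lemma cu_pre (a : C) (k : ℕ) : IsPreconnected (G.cu a k) :=
  (G.seg_ord a k).isPreconnected.image _ ((G.contγ a).mono fun _ h => h.1)


/-- **the sides of the piece are those of the diagram** -/
theorem cu_side {a b : C} (hne : b ≠ a) {k : ℕ} {x : X} (hx : x ∈ G.cu a k) :
    (D.ep b a k = 1 → 0 ≤ G.f b x) ∧ (D.ep b a k = 0 → G.f b x ≤ 0) := by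
  obtain ⟨t, ht, rfl⟩ := hx
  unfold Dg.ep
  by_cases hX : D.X a b
  · by_cases hk : D.e a b ≤ k
    · rw [if_pos ⟨hX, hk⟩]
      rcases (ht.2.1 b hX hk).lt_or_eq with hlt | heq
      · exact ⟨fun h => ((G.aft hX ht.1 hlt).1 h).le, fun h => ((G.aft hX ht.1 hlt).2 h).le⟩
      · rw [← heq, G.cr_zero hX]; exact ⟨fun _ => le_rfl, fun _ => le_rfl⟩
    · rw [if_neg (fun h => hk h.2)]
      rcases (ht.2.2 b hX (not_le.1 hk)).lt_or_eq with hlt | heq
      · exact ⟨fun h => ((G.bef hX ht.1 hlt).1 h).le, fun h => ((G.bef hX ht.1 hlt).2 h).le⟩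
      · rw [heq, G.cr_zero hX]; exact ⟨fun _ => le_rfl, fun _ => le_rfl⟩
  · rw [if_neg (fun h => hX h.1)]
    exact ⟨fun h => (G.unl_pos (Ne.symm hne) hX h ht.1).le,
      fun h => (G.unl_neg (Ne.symm hne) hX h ht.1).le⟩

/-- the lower node of a piece -/
lemma lo_mem {a b : C} {k : ℕ} (h : D.X a b) (hk : D.e a b ≤ k)
    (hm : ∀ b', D.X a b' → D.e a b' ≤ k → D.e a b' ≤ D.e a b) : G.γ a (G.cr a b) ∈ G.cu a k := by
  refine ⟨_, ⟨G.cr_mem h, fun b' h' hk' => ?_, fun b' h' hk' => ?_⟩, rfl⟩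
  · rcases (hm b' h' hk').lt_or_eq with hlt | heq
    · exact (G.cr_lt h' h hlt).le
    · rw [D.e_inj h' h heq]
  · exact (G.cr_lt h h' (lt_of_le_of_lt hk hk')).le

/-- the upper node of a piece -/
lemma hi_mem {a b : C} {k : ℕ} (h : D.X a b) (hk : k < D.e a b)
    (hm : ∀ b', D.X a b' → k < D.e a b' → D.e a b ≤ D.e a b') : G.γ a (G.cr a b) ∈ G.cu a k := by
  refine ⟨_, ⟨G.cr_mem h, fun b' h' hk' => ?_, fun b' h' hk' => ?_⟩, rfl⟩
  · exact (G.cr_lt h' h (lt_of_le_of_lt hk' hk)).le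
  · rcases (hm b' h' hk').lt_or_eq with hlt | heq
    · exact (G.cr_lt h h' hlt).le
    · rw [D.e_inj h h' heq]

/-- the lower end -/
lemma zero_mem {a : C} {k : ℕ} (hm : ∀ b', D.X a b' → k < D.e a b') : G.γ a 0 ∈ G.cu a k :=
  ⟨_, ⟨left_mem_Icc.2 zero_le_one, fun b' h' hk' => absurd hk' (not_le.2 (hm b' h')),
    fun _ h' _ => (G.cr_mem h').1⟩, rfl⟩

/-- the upper end -/
lemma one_mem {a : C} {k : ℕ} (hm : ∀ b', D.X a b' → D.e a b' ≤ k) : G.γ a 1 ∈ G.cu a k :=
  ⟨_, ⟨right_mem_Icc.2 zero_le_one, fun _ h' _ => (G.cr_mem h').2,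
    fun b' h' hk' => absurd hk' (not_lt.2 (hm b' h'))⟩, rfl⟩

end GeoD

end Crest.Agent.R096.Gr_117
end

-- ▼ part R096/Gr3_117
section

/-!
# R096 (row 96), ARR (D2), part 3: the sub-chords of the boundary of a cell as sub-arcs (helper117)
-/

set_option autoImplicit false
set_option linter.unusedSectionVars false

open Set

namespace Crest.Agent.R096.Gr_117

open Crest.Agent.R096.Fx_689 Crest.Agent.R096.St_147 Crest.Agent.R096.Wk_689
  Crest.Agent.R096.Ac_117

variable {ι Φ W I : Type} {M : MeshC ι Φ W} {col : I → Bool} {s : St M col} {q : ι}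

/-- the double point of two crossing chords -/
lemma exists_dbl {F : Φ} (a b : Ch s F) (h : (dg s F).X a b) {x : Bool}
    (hx : col (s.lab a.1) = x) : ∃ z : s.Dbl, z.F = F ∧ z.e x = a.1 ∧ z.e (!x) = b.1 ∧
      (dg s F).e a b = rk s F (z.key x) := by
  subst hx
  cases ha : (dg s F).fam a
  · have ha' : col (s.lab a.1) = false := ha
    rw [ha']
    exact ⟨mkD a b ha h, rfl, rfl, rfl, (e_mkD a b ha h).1⟩
  · have ha' : col (s.lab a.1) = true := ha
    have hb : (dg s F).fam b = false := by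
      have := (dg s F).X_fam h
      cases hb : (dg s F).fam b
      · rfl
      · exact absurd (ha.trans hb.symm) this
    rw [ha']
    exact ⟨mkD b a hb ((dg s F).X_symm h), rfl, rfl, rfl, (e_mkD b a hb ((dg s F).X_symm h)).2⟩

/-- nodes below a piece -/
lemma e_le_iff {F : Φ} (a b : Ch s F) (_ : (dg s F).X a b) {x : Bool} (p : s.Sub x)
    (hp : chd p = (F, a.1)) {z : s.Dbl} (hz : z.F = F) (hza : z.e x = a.1)
    (he : (dg s F).e a b = rk s F (z.key x)) :
    (dg s F).e a b ≤ rk s F (start p) ↔ z.key x ≤ start p := by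
  have hx : col (s.lab a.1) = x := by
    have := chd_col p
    rw [hp] at this
    exact this
  subst hx
  constructor
  · intro hle
    have h1 := pc_start a p hp
    have h2 : (dg s F).lo a ≤ rk s F (start p) := lo_le_start a p hp
    have h3 := pc_max a h2 (abv z _) (Prod.ext hz hza) (by
      show rk s F (z.key _) ≤ _
      rw [← he]; exact hle)
    rw [h1] at h3
    exact h3
  · intro hle
    rw [he]
    exact rk_mono s F hle

/-- the picture of a cell: paths and band functions on its faces -/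
structure FG (s : St M col) (q : ι) (X : Type*) [TopologicalSpace X] where
  G : ∀ F, q ∈ M.side F → GeoD (dg s F) X
  pt : W → X
  e0 : ∀ F (h : q ∈ M.side F) (a : Ch s F), (G F h).γ a 0 = pt a.1
  e1 : ∀ F (h : q ∈ M.side F) (a : Ch s F), (G F h).γ a 1 = pt (s.mu F a.1)

variable {X : Type*} [TopologicalSpace X] (D : FG s q X)

namespace FG

/-- the sub-arc of a sub-chord -/
noncomputable def cuP (p : Qq s q) : Set X :=
  (D.G (chd p.1.2).1 p.2).cu (pch p.1.2) (rk s (chd p.1.2).1 (start p.1.2))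

lemma cuP_eq {F : Φ} (a : Ch s F) {x : Bool} (p : s.Sub x) (hp : chd p = (F, a.1))
    (hq : q ∈ M.side F) (hq' : q ∈ M.side (chd p).1) :
    D.cuP ⟨⟨x, p⟩, hq'⟩ = (D.G F hq).cu a (rk s F (start p)) := by
  have h1 : (chd p).1 = F := by rw [hp]
  subst h1
  have h2 : a = pch p := Subtype.ext (congrArg Prod.snd hp).symm
  subst h2
  rfl

/-- the double point -/
noncomputable def vz (z : Zq s q) : X :=
  (D.G z.1.F z.2).γ (cz z.1 true) ((D.G z.1.F z.2).cr (cz z.1 true) (cz z.1 false))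

lemma vz_eq (z : Zq s q) (x : Bool) : D.vz z =
    (D.G z.1.F z.2).γ (cz z.1 x) ((D.G z.1.F z.2).cr (cz z.1 x) (cz z.1 (!x))) := by
  cases x
  · exact (D.G z.1.F z.2).cr_symm (cz_X z.1 true)
  · rfl

lemma mem_abv (z : Zq s q) (x : Bool) (hq : q ∈ M.side (chd (abv z.1 x)).1) :
    D.vz z ∈ D.cuP ⟨⟨x, abv z.1 x⟩, hq⟩ := by
  rw [D.cuP_eq (cz z.1 x) (abv z.1 x) rfl z.2, D.vz_eq z x]
  have h1 : rk s z.1.F (start (abv z.1 x)) = (dg s z.1.F).e (cz z.1 x) (cz z.1 (!x)) := rk_key z.1 x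
  rw [h1]
  exact (D.G z.1.F z.2).lo_mem (cz_X z.1 x) le_rfl (fun b' _ hb => hb)

lemma mem_bel (z : Zq s q) (x : Bool) (hq : q ∈ M.side (chd (bel z.1 x)).1) :
    D.vz z ∈ D.cuP ⟨⟨x, bel z.1 x⟩, hq⟩ := by
  have hb := bel_spec z.1 x
  have hbc := below_chd hb
  rw [D.cuP_eq (cz z.1 x) (bel z.1 x) hbc z.2, D.vz_eq z x]
  have hs := below_start hb
  have hiff := e_le_iff (cz z.1 x) (cz z.1 (!x)) (cz_X z.1 x) (bel z.1 x) hbc rfl rfl
    (rk_key z.1 x).symm
  refine (D.G z.1.F z.2).hi_mem (cz_X z.1 x) ?_ ?_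
  · by_contra hcon
    exact absurd (hiff.1 (not_lt.1 hcon)) (not_le.2 hs.1)
  · intro b' hb' hk
    obtain ⟨z', h1, h2, -, h4⟩ := exists_dbl (cz z.1 x) b' hb' (z.1.colr x)
    have hiff' := e_le_iff (cz z.1 x) b' hb' (bel z.1 x) hbc h1 h2 h4
    have h5 : start (bel z.1 x) < z'.key x := by
      by_contra hcon
      exact absurd (hiff'.2 (not_lt.1 hcon)) (not_le.2 hk)
    have h6 := hs.2 (abv z' x) (by rw [hbc]; exact Prod.ext h1 h2)
    have h7 : z.1.key x ≤ z'.key x := by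
      by_contra hcon
      exact h6 ⟨h5, not_le.1 hcon⟩
    rw [h4, ← rk_key z.1 x]
    exact rk_mono s _ h7

lemma mem_ini {F : Φ} (hF : q ∈ M.side F) (a : Ch s F) {x : Bool}
    (p : s.Sub x) (hp : chd p = (F, a.1)) (hst : start p = M.pos F a.1)
    (hq : q ∈ M.side (chd p).1) : D.pt a.1 ∈ D.cuP ⟨⟨x, p⟩, hq⟩ := by
  rw [D.cuP_eq a p hp hF, ← D.e0 F hF a]
  apply (D.G F hF).zero_mem
  intro b' hb'
  rw [hst]
  exact ((dg s F).e_mem hb').1

lemma mem_top {F : Φ} (hF : q ∈ M.side F) (a : Ch s F) {x : Bool}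
    (p : s.Sub x) (hp : chd p = (F, a.1)) (ht : IsTop p)
    (hq : q ∈ M.side (chd p).1) : D.pt (s.mu F a.1) ∈ D.cuP ⟨⟨x, p⟩, hq⟩ := by
  rw [D.cuP_eq a p hp hF, ← D.e1 F hF a]
  apply (D.G F hF).one_mem
  intro b' hb'
  have hx : col (s.lab a.1) = x := by
    have := chd_col p
    rw [hp] at this
    exact this
  obtain ⟨z', h1, h2, -, h4⟩ := exists_dbl a b' hb' hx
  rw [h4]
  apply rk_mono
  exact top_iff.1 ht (abv z' x) (by rw [hp]; exact Prod.ext h1 h2)

/-- the points of an end dart -/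
lemma mem_ed {F : Φ} {w : W} (hat : s.At F w) (hF : q ∈ M.side F)
    (hq : q ∈ M.side (chd (ed hat).p).1) : D.pt w ∈ D.cuP ⟨⟨(ed hat).x, (ed hat).p⟩, hq⟩ := by
  have hn := node_ed hat
  have hf : (chd (ed hat).p).1 = F := fc_ed hat
  have hp := pt_ed hat
  generalize ed hat = d at hn hf hp hq ⊢
  obtain ⟨x, p, b⟩ := d
  have hf' : (chd p).1 = F := hf
  subst hf'
  cases b
  · have hp' : (chd p).2 = w := hp
    rw [← hp']
    refine D.mem_ini hF (pch p) p rfl ?_ hq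
    cases p with
    | inl a => rfl
    | inr z => exact absurd hn (by simp [node, prv])
  · have hp' : s.mu (chd p).1 (chd p).2 = w := hp
    rw [← hp']
    exact D.mem_top hF (pch p) p rfl (nxt_none.1 hn) hq

/-- **the picture of the arrangement on the boundary of the cell** -/
noncomputable def pic (S : SphM M q) : Pic (arr S s) X where
  cu := D.cuP
  vz := D.vz
  vl := fun w => D.pt w.1
  pre := fun p => (D.G _ p.2).cu_pre _ _
  mz := by
    intro z c j
    show D.vz z ∈ D.cuP (pcQ (Sum.inl (z, c, j)))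
    have key : ∀ b : Bool, ∀ (hq : q ∈ M.side (fc (dz z.1 c b))),
        D.vz z ∈ D.cuP (pD (dz z.1 c b) hq) := by
      intro b hq
      cases b
      · exact D.mem_abv z c hq
      · exact D.mem_bel z c hq
    exact key _ (toD_side (Sum.inl (z, c, j)))
  ml := by
    intro w i
    exact D.mem_ed (fa_at w i) (fa_side w i).1 (toD_side (Sum.inr (w, i)))

end FG

end Crest.Agent.R096.Gr_117
end

-- ▼ part R096/Lm14_117
section

/-!
# R096 (row 96), LMesh, part 14: the chords of a face of a labelled mesh as pieces, counting formulas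
(helper117)
-/

set_option autoImplicit false
set_option linter.unusedSectionVars false

open Set

namespace Crest.Agent.R096.Lm_117

open Crest.Agent.R096.St_147 Crest.Agent.R096.Ac_117 Crest.Agent.R096.Seq_213
open Crest.Agent.R096.Wk_689 Crest.Agent.R096.Fx_689 Crest.Agent.R096.Gr_117
open Crest.Agent.R096.Bd_416 (sg sg_add sg_sum sg_or sg_sq)

variable {ι Φ W Q J C I : Type} {M : MeshC ι Φ W} [PartialOrder Q] {dim : Q → ℕ}
variable {L : LM M Q dim} {fam : J → C} {col : I → Bool}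
variable {s : GSt M fam} {r : St M col} {q : ι} {c : Q}

/-- the piece of a chord in its face -/
noncomputable def chP (R : ResOf s r) {F : Φ} (a : Ch r F) : Pc L s (L.cf F) :=
  Quot.mk _ ⟨a.1, R.sub _ a.2.1.1, on_in le_rfl a.2.1.2⟩

variable (R : ResOf s r)

lemma mem_pts_ch {h : LF L s} {F : Φ} (a : Ch r F) {w : W} :
    w ∈ pts h (L.cf F) (chP R a) ↔ w = a.1 ∨ w = r.mu F a.1 := by
  have ha : a.1 ∈ pts h (L.cf F) (chP R a) :=
    mem_pts.2 ⟨⟨R.sub _ a.2.1.1, on_in le_rfl a.2.1.2⟩, rfl⟩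
  constructor
  · intro hw
    obtain ⟨h', e⟩ := mem_pts.1 hw
    let g : Pc L s (L.cf F) → Set W := Quot.lift (fun v => {v.1, s.mu F v.1}) (by
      rintro v v' ⟨F', hF', hv, hv'⟩
      have hFF : F' = F := L.cf_inj _ _ (eq_of_dim L.toSk hF' (by rw [L.cf_dim, L.cf_dim]))
      subst hFF
      show ({v.1, s.mu F' v.1} : Set W) = {v'.1, s.mu F' v'.1}
      rw [hv', s.mu_mu v.2.1 hv, Set.pair_comm])
    have h1 : ({w, s.mu F w} : Set W) = {a.1, s.mu F a.1} := congrArg g e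
    have h2 : w ∈ ({a.1, s.mu F a.1} : Set W) := h1 ▸ Set.mem_insert _ _
    rw [R.mu]
    exact h2
  · rintro (rfl | rfl)
    · exact ha
    · rw [R.mu]
      exact mu_pts ha le_rfl a.2.1.2

lemma chP_inj {F : Φ} {a b : Ch r F} (h : LF L s)
    (hab : (chP R a : Pc L s (L.cf F)) = chP R b) : a = b := by
  have h1 : a.1 ∈ pts h (L.cf F) (chP R b) := by
    rw [← hab]; exact (mem_pts_ch R a).2 (Or.inl rfl)
  rcases (mem_pts_ch R b).1 h1 with h2 | h2
  · exact Subtype.ext h2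
  · exfalso
    have h4 := a.2.2
    rw [h2, r.mu_mu b.2.1.1 b.2.1.2] at h4
    exact lt_asymm h4 b.2.2

lemma pup_ch {h : LF L s} {x : Pc L s c} {F : Φ} (hF : L.cf F ≤ c) (a : Ch r F) :
    pup L s hF (chP R a) = x ↔ a.1 ∈ pts h c x := by
  rw [mem_pts]
  constructor
  · intro e
    exact ⟨⟨R.sub _ a.2.1.1, on_in hF a.2.1.2⟩, e⟩
  · rintro ⟨h', e⟩
    exact e

open Classical in
/-- the chords of the piece `x` on the face -/
noncomputable def chs (h : LF L s) (x : Pc L s c) (r : St M col) (F : Φ) :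
    Finset (Ch r F) := Finset.univ.filter (fun a => a.1 ∈ pts h c x)

lemma mem_chs {h : LF L s} {x : Pc L s c} {F : Φ} {a : Ch r F} :
    a ∈ chs h x r F ↔ a.1 ∈ pts h c x := by
  classical
  unfold chs
  rw [Finset.mem_filter]
  exact ⟨fun h => h.2, fun h => ⟨Finset.mem_univ _, h⟩⟩

open Classical in
lemma img_chs {h : LF L s} {x : Pc L s c} (hx : ∀ w ∈ pts h c x, w ∈ r.P) {F : Φ} (hF : L.cf F ≤ c)
    (Y : Finset (Pc L s (L.cf F))) (hY : ∀ y, y ∈ Y ↔ pup L s hF y = x) :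
    Y = (chs h x r F).image (chP R) := by
  ext y
  rw [hY, Finset.mem_image]
  constructor
  · intro hy
    obtain ⟨w, rfl⟩ := Quot.exists_rep y
    have hwx : w.1 ∈ pts h c x := mem_pts.2 ⟨⟨w.2.1, Sk.In_mono hF w.2.2⟩, hy⟩
    have hat : r.At F w.1 := ⟨hx _ hwx, on_of_in w.2.2⟩
    by_cases hlt : M.pos F w.1 < M.pos F (r.mu F w.1)
    · refine ⟨⟨w.1, hat, hlt⟩, mem_chs.2 hwx, rfl⟩
    · have hne : M.pos F w.1 ≠ M.pos F (r.mu F w.1) :=
        pos_ne r hat (At.mu r hat) (fun h' => r.mu_ne hat.1 hat.2 h'.symm)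
      have hlt' : M.pos F (r.mu F w.1) <
          M.pos F (r.mu F (r.mu F w.1)) := by
        rw [r.mu_mu hat.1 hat.2]
        exact lt_of_le_of_ne (not_lt.1 hlt) (Ne.symm hne)
      let a : Ch r F := ⟨r.mu F w.1, At.mu r hat, hlt'⟩
      refine ⟨a, mem_chs.2 ?_, ?_⟩
      · exact (mem_mu R hF hat).2 hwx
      · have h1 : w.1 ∈ pts h (L.cf F) (chP R a) := by
          rw [mem_pts_ch R a]
          right
          show w.1 = r.mu F (r.mu F w.1)
          rw [r.mu_mu hat.1 hat.2]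
        obtain ⟨h', e⟩ := mem_pts.1 h1
        exact e.symm
  · rintro ⟨a, ha, rfl⟩
    exact (pup_ch R hF a).2 (mem_chs.1 ha)

lemma prod_chs {h : LF L s} {x : Pc L s c} (hx : ∀ w ∈ pts h c x, w ∈ r.P) {F : Φ} (hF : L.cf F ≤ c)
    (Y : Finset (Pc L s (L.cf F))) (hY : ∀ y, y ∈ Y ↔ pup L s hF y = x) (f : Pc L s (L.cf F) → ℝ) :
    ∏ y ∈ Y, f y = ∏ a ∈ chs h x r F, f (chP R a) := by
  classical
  rw [img_chs R hx hF Y hY, Finset.prod_image]
  intro a _ b _ hab
  exact chP_inj R h hab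

lemma cnt_chs {h : LF L s} {x : Pc L s c} (hx : ∀ w ∈ pts h c x, w ∈ r.P) {F : Φ}
    (hF : L.cf F ≤ c) (t : ℝ) : cntP M (pts h c x) F t =
      ∑ a ∈ chs h x r F, cntP M (pts h (L.cf F) (chP R a)) F t := by
  classical
  have := h.pc (L.cf F)
  let _ : Fintype (Pc L s (L.cf F)) := Fintype.ofFinite _
  let Y : Finset (Pc L s (L.cf F)) := Finset.univ.filter (fun y => pup L s hF y = x)
  have hY : ∀ y, y ∈ Y ↔ pup L s hF y = x := fun y =>
    ⟨fun h => (Finset.mem_filter.1 h).2, fun h => Finset.mem_filter.2 ⟨Finset.mem_univ _, h⟩⟩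
  have e0 : ∀ y : Finset W, cntP M y F t = nW y {w | w ∈ M.On F ∧ M.pos F w < t} := by
    intro y
    rw [nW_card]
    unfold cntP
    congr 2
    ext v
    simp only [Finset.mem_filter, mem_ofPred_eq]
  have h1 : nW (pts h c x) {w | w ∈ M.On F ∧ M.pos F w < t} =
      ∑ y ∈ Y, nW (pts h (L.cf F) y) {w | w ∈ M.On F ∧ M.pos F w < t} :=
    nW_pieces Y (mem_pieces hF x Y hY) (fun w hw => on_in le_rfl hw.1)
  rw [e0, h1, img_chs R hx hF Y hY, Finset.sum_image (fun a _ b _ hab => chP_inj R h hab)]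
  exact Finset.sum_congr rfl fun a _ => (e0 _).symm

/-- the position label of one chord -/
lemma cnt_ch {h : LF L s} {F : Φ} (b : Ch r F) {w : W} (hw : r.At F w)
    (hne : w ∉ pts h (L.cf F) (chP R b)) :
    cntP M (pts h (L.cf F) (chP R b)) F (M.pos F w) = (dg r F).inn b (rk r F (M.pos F w)) := by
  classical
  have h1 : pts h (L.cf F) (chP R b) = {b.1, r.mu F b.1} := by
    ext v
    rw [mem_pts_ch R b, Finset.mem_insert, Finset.mem_singleton]
  have hbm : b.1 ≠ r.mu F b.1 := fun h' => r.mu_ne b.2.1.1 b.2.1.2 h'.symm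
  have hwb : w ≠ b.1 := fun h' => hne ((mem_pts_ch R b).2 (Or.inl h'))
  have hwb' : w ≠ r.mu F b.1 := fun h' => hne ((mem_pts_ch R b).2 (Or.inr h'))
  have hm := At.mu r b.2.1
  have q1 : b.1 ∈ M.On F := b.2.1.2
  have q2 : r.mu F b.1 ∈ M.On F := hm.2
  have p1 : M.pos F b.1 < M.pos F (r.mu F b.1) := b.2.2
  have p2 := pos_ne r hw b.2.1 hwb
  have p3 := pos_ne r hw hm hwb'
  have r1 : (dg r F).lo b < rk r F (M.pos F w) ↔
      M.pos F b.1 < M.pos F w := rk_lt_iff r b.2.1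
  have r2 : rk r F (M.pos F w) < (dg r F).hi b ↔
      M.pos F w < M.pos F (r.mu F b.1) := rk_lt_iff r hw
  rw [cntP_sum]
  unfold Dg.inn
  rw [h1, Finset.sum_pair hbm]
  have e1 : ∀ v, v ∈ M.On F → (v ∈ M.On F ∧ M.pos F v < M.pos F w ↔
      M.pos F v < M.pos F w) := fun v hv => ⟨fun h => h.2, fun h => ⟨hv, h⟩⟩
  simp only [e1 _ q1, e1 _ q2, r1, r2]
  rcases lt_or_gt_of_ne p2 with g1 | g1
  · have g2 : ¬ M.pos F b.1 < M.pos F w := not_lt.2 g1.le
    have g3 : ¬ M.pos F (r.mu F b.1) < M.pos F w :=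
      not_lt.2 (g1.trans p1).le
    rw [if_neg g2, if_neg g3, if_neg (fun h => g2 h.1), add_zero]
  · rcases lt_or_gt_of_ne p3 with g2 | g2
    · rw [if_pos g1, if_neg (not_lt.2 g2.le), if_pos ⟨g1, g2⟩, add_zero]
    · rw [if_pos g1, if_pos g2, if_neg (fun h => absurd h.2 (not_lt.2 g2.le))]
      decide

/-- sums of functions which are constant along the chords -/
lemma S_const {Y : Type*} [Fintype Y] [DecidableEq Y] (D : Dg Y) (u : Y → ℕ → ZMod 2)
    (U v : Y → ZMod 2) (hu : ∀ y k, u y k = U y) : D.S u v = ∑ y, U y * v y := by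
  have hc : ∀ x y, D.c u x y = 0 := by
    intro x y
    unfold Dg.c
    rw [hu, hu]
    exact add_self _
  have hd : ∀ x, D.d u x = U x := by
    intro x
    unfold Dg.d
    rw [hu]
    simp [hc]
  unfold Dg.S
  simp only [hc, hd, zero_mul, ite_self, Finset.sum_const_zero, add_zero]

open Classical in
/-- **the inside function as a count** -/
lemma inS_count {h : LF L s} {x : Pc L s c} (p : Qq r q) (i : Bool)
    (hp : (chd p.1.2).2 ∉ pts h c x) :
    inS h x p i = kap h x (chd p.1.2).1 + ∑ b ∈ chs h x r (chd p.1.2).1,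
      (dg r (chd p.1.2).1).ep b (pch p.1.2) (rk r (chd p.1.2).1 (start p.1.2)) := by
  unfold inS sd
  congr 1
  rw [S_const (dg r (chd p.1.2).1) _ (fun b => if b.1 ∈ pts h c x then 1 else 0) _ (by
    intro y k
    show (if (chd (pc y k)).2 ∈ pts h c x then (1 : ZMod 2) else 0) = _
    rw [pc_chd])]
  unfold chs
  rw [Finset.sum_filter]
  apply Finset.sum_congr rfl
  intro b _
  by_cases hb : b.1 ∈ pts h c x
  · have hne : b ≠ pch p.1.2 := fun h' => hp (by rw [h'] at hb; exact hb)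
    rw [if_pos hb, if_pos hb, if_neg hne, one_mul]
  · rw [if_neg hb, if_neg hb, zero_mul]



end Crest.Agent.R096.Lm_117
end

-- ▼ part R096/Lm15_117
section

/-!
# R096 (row 96), LMesh, part 15: (D2) over a labelled mesh: the two ends of an arc of the pairing lie
in one connected part of {c_y = 0, 0 ≤ c_x} on the boundary of the tile (helper117)
-/

set_option autoImplicit false
set_option linter.unusedSectionVars false

open Set

namespace Crest.Agent.R096.Lm_117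

open Crest.Agent.R096.St_147 Crest.Agent.R096.Ac_117 Crest.Agent.R096.Seq_213
open Crest.Agent.R096.Wk_689 Crest.Agent.R096.Fx_689 Crest.Agent.R096.Gr_117
open Crest.Agent.R096.Bd_416 (sg sg_add sg_sum sg_or sg_sq sg_zero sg_one)

variable {ι Φ W Q J C I : Type} {M : MeshC ι Φ W} [PartialOrder Q] {dim : Q → ℕ}
variable {L : LM M Q dim} {fam : J → C} {col : I → Bool}
variable {s : GSt M fam} {r : St M col} {q : ι} {c : Q}
variable {E : Type*} [TopologicalSpace E]

/-- **the geometric facts on a face**: the zero sets of the chords are arcs, one crossing for a laced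
pair, none otherwise, signs at the end points = labels -/
structure BG (h : LF L s) (R : ResOf s r) (K : Q → Set E)
    (cb : ∀ c : Q, Pc L s c → E → ℝ) (pt : W → E) (F : Φ) : Prop where
  cont : ∀ a : Ch r F, ContinuousOn (cb (L.cf F) (chP R a)) (K (L.cf F))
  arc : ∀ a : Ch r F, ∃ γ : ℝ → E, ContinuousOn γ (Icc 0 1) ∧ InjOn γ (Icc 0 1) ∧
    γ '' Icc 0 1 = {z | z ∈ K (L.cf F) ∧ cb (L.cf F) (chP R a) z = 0} ∧ γ 0 = pt a.1 ∧ γ 1 = pt (r.mu F a.1)
  one : ∀ a b : Ch r F, (dg r F).X a b →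
    ∃ p, {z | z ∈ K (L.cf F) ∧ cb (L.cf F) (chP R a) z = 0 ∧ cb (L.cf F) (chP R b) z = 0} = {p}
  non : ∀ a b : Ch r F, a ≠ b → ¬ (dg r F).X a b →
    {z | z ∈ K (L.cf F) ∧ cb (L.cf F) (chP R a) z = 0 ∧ cb (L.cf F) (chP R b) z = 0} = ∅
  sign : ∀ w, r.At F w → ∀ b : Ch r F, w ∉ pts h (L.cf F) (chP R b) →
    (nlw h (L.cf F) (chP R b) w = 1 → 0 < cb (L.cf F) (chP R b) (pt w)) ∧
    (nlw h (L.cf F) (chP R b) w = 0 → cb (L.cf F) (chP R b) (pt w) < 0)

variable {h : LF L s} {R : ResOf s r} {K : Q → Set E}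
  {cb : ∀ c : Q, Pc L s c → E → ℝ} {pt : W → E}

/-- the label of the base vertex for the position label -/
noncomputable def kp (h : LF L s) (R : ResOf s r) {F : Φ} (b : Ch r F) : ZMod 2 :=
  cntP M (pts h (L.cf F) (chP R b)) F (L.vpos F (bv L.toSk (L.cf F)))

lemma nl_kp {F : Φ} (b : Ch r F) {w : W} (hw : r.At F w) (hne : w ∉ pts h (L.cf F) (chP R b)) :
    nlw h (L.cf F) (chP R b) w = kp h R b + (dg r F).inn b (rk r F (M.pos F w)) := by
  have h1 := kap_eq (h := h) (x := chP R b) (F := F) le_rfl hw.2 hne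
  rw [h1, cnt_ch R b hw hne]
  unfold kap kp
  rw [nl_bv, zero_add]

lemma not_ch {F : Φ} {a b : Ch r F} (hab : a ≠ b) : a.1 ∉ pts h (L.cf F) (chP R b) := by
  intro h1
  rcases (mem_pts_ch R b).1 h1 with h2 | h2
  · exact hab (Subtype.ext h2)
  · have h4 := a.2.2
    rw [h2, r.mu_mu b.2.1.1 b.2.1.2] at h4
    exact lt_asymm h4 b.2.2

lemma not_ch' {F : Φ} {a b : Ch r F} (hab : a ≠ b) : r.mu F a.1 ∉ pts h (L.cf F) (chP R b) := by
  intro h1
  rw [mem_mu R (c := L.cf F) le_rfl a.2.1] at h1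
  exact not_ch hab h1

lemma sg_sign {k l : ZMod 2} {t : ℝ} (h : (k + l = 1 → 0 < t) ∧ (k + l = 0 → t < 0)) :
    (l = 1 → 0 < sg k * t) ∧ (l = 0 → sg k * t < 0) := by
  rcases GeoD.z2 k with rfl | rfl
  · rw [sg_zero, one_mul]
    exact ⟨fun hl => h.1 (by rw [hl]; rfl), fun hl => h.2 (by rw [hl]; rfl)⟩
  · rw [sg_one]
    refine ⟨fun hl => ?_, fun hl => ?_⟩
    · have := h.2 (by rw [hl]; decide)
      linarith
    · have := h.1 (by rw [hl]; decide)
      linarith

lemma sg_ne (a : ZMod 2) : sg a ≠ 0 := by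
  rcases sg_or a with h | h <;> rw [h] <;> norm_num

/-- **the geometric diagram of a face** -/
noncomputable def geoD {F : Φ} (B : BG h R K cb pt F) : GeoD (dg r F) E where
  γ a := (B.arc a).choose
  f b z := sg (kp h R b) * cb (L.cf F) (chP R b) z
  contγ a := (B.arc a).choose_spec.1
  cont a b := by
    refine continuousOn_const.mul ((B.cont b).comp (B.arc a).choose_spec.1 ?_)
    intro t ht
    have : (B.arc a).choose t ∈ (B.arc a).choose '' Icc 0 1 := ⟨t, ht, rfl⟩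
    rw [(B.arc a).choose_spec.2.2.1] at this
    exact this.1
  own a t ht := by
    have : (B.arc a).choose t ∈ (B.arc a).choose '' Icc 0 1 := ⟨t, ht, rfl⟩
    rw [(B.arc a).choose_spec.2.2.1] at this
    rw [this.2, mul_zero]
  crs a b hX := by
    obtain ⟨p, hp⟩ := B.one a b hX
    have hpm : p ∈ {z | z ∈ K (L.cf F) ∧ cb (L.cf F) (chP R a) z = 0 ∧ cb (L.cf F) (chP R b) z = 0} := by
      rw [hp]; rfl
    have h1 : p ∈ (B.arc a).choose '' Icc 0 1 := by
      rw [(B.arc a).choose_spec.2.2.1]; exact ⟨hpm.1, hpm.2.1⟩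
    obtain ⟨t, ht, e⟩ := h1
    refine ⟨t, ht, ?_, ?_⟩
    · rw [e, hpm.2.2, mul_zero]
    · intro t' ht' h0
      have h2 : (B.arc a).choose t' ∈ (B.arc a).choose '' Icc 0 1 := ⟨t', ht', rfl⟩
      rw [(B.arc a).choose_spec.2.2.1] at h2
      have h3' : cb (L.cf F) (chP R b) ((B.arc a).choose t') = 0 := by
        rcases mul_eq_zero.1 h0 with h4 | h4
        · exact absurd h4 (sg_ne _)
        · exact h4
      have h4 : (B.arc a).choose t' ∈
          {z | z ∈ K (L.cf F) ∧ cb (L.cf F) (chP R a) z = 0 ∧ cb (L.cf F) (chP R b) z = 0} := ⟨h2.1, h2.2, h3'⟩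
      rw [hp] at h4
      exact (B.arc a).choose_spec.2.1 ht' ht (h4.trans e.symm)
  ncrs a b hab hX t ht h0 := by
    have h2 : (B.arc a).choose t ∈ (B.arc a).choose '' Icc 0 1 := ⟨t, ht, rfl⟩
    rw [(B.arc a).choose_spec.2.2.1] at h2
    have h3' : cb (L.cf F) (chP R b) ((B.arc a).choose t) = 0 := by
      rcases mul_eq_zero.1 h0 with h4 | h4
      · exact absurd h4 (sg_ne _)
      · exact h4
    have h4 : (B.arc a).choose t ∈
        {z | z ∈ K (L.cf F) ∧ cb (L.cf F) (chP R a) z = 0 ∧ cb (L.cf F) (chP R b) z = 0} := ⟨h2.1, h2.2, h3'⟩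
    rw [B.non a b hab hX] at h4
    exact h4
  zer a b t ht h0 := by
    have h2 : (B.arc a).choose t ∈ (B.arc a).choose '' Icc 0 1 := ⟨t, ht, rfl⟩
    rw [(B.arc a).choose_spec.2.2.1] at h2
    have h3' : cb (L.cf F) (chP R b) ((B.arc a).choose t) = 0 := by
      rcases mul_eq_zero.1 h0 with h4 | h4
      · exact absurd h4 (sg_ne _)
      · exact h4
    have h4 : (B.arc a).choose t ∈ (B.arc b).choose '' Icc 0 1 := by
      rw [(B.arc b).choose_spec.2.2.1]; exact ⟨h2.1, h3'⟩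
    obtain ⟨t', ht', e⟩ := h4
    exact ⟨t', ht', e.symm⟩
  s0 a b hab := by
    have e : (B.arc a).choose 0 = pt a.1 := (B.arc a).choose_spec.2.2.2.1
    rw [e]
    have h1 := B.sign a.1 a.2.1 b (not_ch hab)
    rw [nl_kp b a.2.1 (not_ch hab)] at h1
    exact sg_sign h1
  s1 a b hab := by
    have e : (B.arc a).choose 1 = pt (r.mu F a.1) := (B.arc a).choose_spec.2.2.2.2
    rw [e]
    have h1 := B.sign (r.mu F a.1) (At.mu r a.2.1) b (not_ch' hab)
    rw [nl_kp b (At.mu r a.2.1) (not_ch' hab)] at h1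
    exact sg_sign h1

/-- the picture of the boundary of the tile -/
noncomputable def fg (B : ∀ F, q ∈ M.side F → BG h R K cb pt F) : FG r q E where
  G F hF := geoD (B F hF)
  pt := pt
  e0 F hF a := ((B F hF).arc a).choose_spec.2.2.2.1
  e1 F hF a := ((B F hF).arc a).choose_spec.2.2.2.2

/-- the band function of a chord vanishes on its sub-arcs -/
lemma cuP_own (B : ∀ F, q ∈ M.side F → BG h R K cb pt F) (p : Qq r q) {z : E}
    (hz : z ∈ (fg B).cuP p) : z ∈ K (L.cf (chd p.1.2).1) ∧ cb _ (chP R (pch p.1.2)) z = 0 := by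
  obtain ⟨t, ht, rfl⟩ := hz
  have h2 : ((B _ p.2).arc (pch p.1.2)).choose t ∈
      ((B _ p.2).arc (pch p.1.2)).choose '' Icc 0 1 := ⟨t, ht.1, rfl⟩
  rw [((B _ p.2).arc (pch p.1.2)).choose_spec.2.2.1] at h2
  exact h2

/-- the relation between the band functions of the tile and of its faces -/
def R2 (h : LF L s) (q : ι) (c : Q) (K : Q → Set E)
    (cb : ∀ c : Q, Pc L s c → E → ℝ) : Prop :=
  ∀ (F : Φ) (hF : L.cf F ≤ c), q ∈ M.side F → ∀ (x : Pc L s c) (Y : Finset (Pc L s (L.cf F))),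
    (∀ y, y ∈ Y ↔ pup L s hF y = x) → ∀ z ∈ K (L.cf F),
      -2 * cb c x z = sg (nl h c x (bv L.toSk (L.cf F))) * ∏ y ∈ Y, (-2 * cb (L.cf F) y z)

lemma r2_chs (hr : R2 h q c K cb) (hc : ∀ F, q ∈ M.side F ↔ L.cf F ≤ c) {x : Pc L s c}
    (hx : ∀ w ∈ pts h c x, w ∈ r.P) {F : Φ} (hF : q ∈ M.side F) {z : E}
    (hz : z ∈ K (L.cf F)) : -2 * cb c x z =
      sg (nl h c x (bv L.toSk (L.cf F))) * ∏ a ∈ chs h x r F, (-2 * cb (L.cf F) (chP R a) z) := by
  classical
  have := h.pc (L.cf F)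
  let _ : Fintype (Pc L s (L.cf F)) := Fintype.ofFinite _
  have hle := (hc _).1 hF
  let Y : Finset (Pc L s (L.cf F)) := Finset.univ.filter (fun y => pup L s hle y = x)
  have hY : ∀ y, y ∈ Y ↔ pup L s hle y = x := fun y =>
    ⟨fun h => (Finset.mem_filter.1 h).2, fun h => Finset.mem_filter.2 ⟨Finset.mem_univ _, h⟩⟩
  rw [hr F hle hF x Y hY z hz, prod_chs R hx hle Y hY]

/-- the band function of the own cycle vanishes -/
lemma own_zero (hr : R2 h q c K cb) (hc : ∀ F, q ∈ M.side F ↔ L.cf F ≤ c)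
    (B : ∀ F, q ∈ M.side F → BG h R K cb pt F) (p : Qq r q) {z : E}
    (hz : z ∈ (fg B).cuP p) : cb c (cyc R hc p) z = 0 := by
  have h1 := cuP_own B p hz
  have h2 := r2_chs (R := R) hr hc (pts_P' R hc h p) p.2 h1.1
  have h3' : ∏ a ∈ chs h (cyc R hc p) r (chd p.1.2).1,
      (-2 * cb (L.cf (chd p.1.2).1) (chP R a) z) = 0 := by
    refine Finset.prod_eq_zero (i := pch p.1.2) ?_ ?_
    · rw [mem_chs]
      exact (mem_pts_cyc R hc h p _).2 rfl
    · rw [h1.2, mul_zero]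
  rw [h3', mul_zero] at h2
  linarith

/-- **the sign of the band function of another cycle is its inside function** -/
theorem side_nonneg (hr : R2 h q c K cb) (hc : ∀ F, q ∈ M.side F ↔ L.cf F ≤ c)
    (B : ∀ F, q ∈ M.side F → BG h R K cb pt F) (p : Qq r q) {x : Pc L s c}
    (hx : ∀ w ∈ pts h c x, w ∈ r.P) (hp : (chd p.1.2).2 ∉ pts h c x) {z : E}
    (hz : z ∈ (fg B).cuP p) (i : Bool) : 0 ≤ sg (inS h x p i) * (-2 * cb c x z) := by
  classical
  have h1 := cuP_own B p hz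
  have h2 := r2_chs (R := R) hr hc hx p.2 h1.1
  set F := (chd p.1.2).1 with hF
  set k := rk r F (start p.1.2) with hk
  rw [inS_count p i hp, sg_add, h2]
  have hkap : kap h x F = nl h c x (bv L.toSk (L.cf F)) + ∑ a ∈ chs h x r F, kp h R a := by
    unfold kap kp
    rw [cnt_chs R hx ((hc _).1 p.2)]
  rw [hkap, sg_add, sg_sum, sg_sum]
  have e1 : sg (nl h c x (bv L.toSk (L.cf F))) * (∏ a ∈ chs h x r F, sg (kp h R a)) *
      (∏ a ∈ chs h x r F, sg ((dg r F).ep a (pch p.1.2) k)) *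
      (sg (nl h c x (bv L.toSk (L.cf F))) * ∏ a ∈ chs h x r F, (-2 * cb (L.cf F) (chP R a) z)) =
      (sg (nl h c x (bv L.toSk (L.cf F))) * sg (nl h c x (bv L.toSk (L.cf F)))) *
      ∏ a ∈ chs h x r F, (sg ((dg r F).ep a (pch p.1.2) k) *
        (-2 * (sg (kp h R a) * cb (L.cf F) (chP R a) z))) := by
    rw [Finset.prod_mul_distrib, Finset.prod_mul_distrib, Finset.prod_mul_distrib,
      Finset.prod_mul_distrib]
    ring
  rw [e1, sg_sq, one_mul]
  apply Finset.prod_nonneg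
  intro a ha
  have hne : a ≠ pch p.1.2 := by
    intro h'
    rw [mem_chs, h'] at ha
    exact hp ha
  have h4 := (geoD (B _ p.2)).cu_side hne hz
  rcases GeoD.z2 ((dg r F).ep a (pch p.1.2) k) with h5 | h5
  · rw [h5, sg_zero, one_mul]
    have h6 : sg (kp h R a) * cb (L.cf F) (chP R a) z ≤ 0 := h4.2 h5
    linarith
  · rw [h5, sg_one]
    have h6 : 0 ≤ sg (kp h R a) * cb (L.cf F) (chP R a) z := h4.1 h5
    linarith

/-- the cycle of colour `b` at a double point -/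
noncomputable def cyZ (R : ResOf s r) (hc : ∀ F, q ∈ M.side F ↔ L.cf F ≤ c) (z : Zq r q) (b : Bool) :
    Pc L s c := Quot.mk _ ⟨z.1.e b, ptc R hc (z.1.at_ b) z.2⟩

lemma cyZ_eq (hc : ∀ F, q ∈ M.side F ↔ L.cf F ≤ c) (z : Zq r q) (b j : Bool) :
    cyc R hc (pcQ (Sum.inl (z, b, j))) = cyZ R hc z b := cyc_dj R hc z.2 b j

/-- **(D2)** the two ends of an arc of the pairing lie in one connected part of
`{c_y = 0, 0 ≤ c_x}` on the boundary of the tile (`y` = deeper, `x` = shallower cycle at `z`) -/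
theorem run_tile (S : SphM M q) (hc : ∀ F, q ∈ M.side F ↔ L.cf F ≤ c)
    {rk : Pc L s c → ℕ} (hinj : Function.Injective rk) (hord : Ord h c rk)
    (B : ∀ F, q ∈ M.side F → BG h R K cb pt F) (hr : R2 h q c K cb)
    (z : Zq r q) {b : Bool} (hb : rk (cyZ R hc z b) < rk (cyZ R hc z (!b))) :
    ∃ A ⊆ {v | (∃ F : Φ, q ∈ M.side F ∧ v ∈ K (L.cf F)) ∧ cb c (cyZ R hc z b) v = 0 ∧
        0 ≤ cb c (cyZ R hc z (!b)) v},
      IsPreconnected A ∧ (fg B).vz z ∈ A ∧
        (fg B).vz ((depC S R hc h rk hinj hord).arc z) ∈ A := by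
  set Ed := depC S R hc h rk hinj hord with hE
  have hkz : ∀ (u : Zq r q) (b : Bool), Ed.kz u b = rk (cyZ R hc u b) := by
    intro u b
    show rk (cyc R hc ((arr S r).pc u b false)) = _
    have : (arr S r).pc u b false = pcQ (Sum.inl (u, b, false)) := rfl
    rw [this, cyZ_eq]
  have hdc : Ed.dc z = b := Ed.dc_eq (by rw [hkz, hkz]; exact hb)
  have hdy : Ed.dy z = rk (cyZ R hc z b) := by
    show Ed.kz z (Ed.dc z) = _
    rw [hdc, hkz]
  have hsx : Ed.sx z = rk (cyZ R hc z (!b)) := by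
    show Ed.kz z (!Ed.dc z) = _
    rw [hdc, hkz]
  refine Ed.run_conn ((fg B).pic S) z ?_
  intro p hk hI v hv
  have hk' : rk (cyc R hc p) = rk (cyZ R hc z b) := hk.trans hdy
  have hcy : cyc R hc p = cyZ R hc z b := hinj hk'
  have hv' : v ∈ (fg B).cuP p := hv
  refine ⟨⟨_, p.2, (cuP_own B p hv').1⟩, ?_, ?_⟩
  · rw [← hcy]
    exact own_zero hr hc B p hv'
  · -- the inside function
    have hx : cyc R hc (pcQ (Sum.inl (z, !b, false))) = cyZ R hc z (!b) := cyZ_eq hc z (!b) false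
    have hI1 : inS h (cyZ R hc z (!b)) p true = 1 := by
      have h1 := hI true
      rw [hsx, ← hx] at h1
      have h2 := (cycs S R hc h).dep_I rk (fun _ _ h' => hinj h')
        (fun p p' => lam_dep S R hc h hord p p') (pcQ (Sum.inl (z, !b, false)))
      have h4 : Ed.I (rk (cyc R hc (pcQ (Sum.inl (z, !b, false))))) =
        inS h (cyc R hc (pcQ (Sum.inl (z, !b, false)))) := h2
      rw [h4, hx] at h1
      exact h1
    have hxP : ∀ w ∈ pts h c (cyZ R hc z (!b)), w ∈ r.P := by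
      rw [← hx]
      exact pts_P' R hc h _
    have hp : (chd p.1.2).2 ∉ pts h c (cyZ R hc z (!b)) := by
      intro h'
      have h1 := (mem_pts_cyc R hc h p _).1 h'
      rw [hcy] at h1
      rw [h1] at hb
      exact lt_irrefl _ hb
    have h5 := side_nonneg hr hc B p hxP hp hv' true
    rw [hI1, sg_one] at h5
    linarith

/-- the double point on its face -/
lemma vz_mem (B : ∀ F, q ∈ M.side F → BG h R K cb pt F) (z : Zq r q) (b : Bool) :
    (fg B).vz z ∈ K (L.cf z.1.F) ∧ cb (L.cf z.1.F) (chP R (cz z.1 b)) ((fg B).vz z) = 0 := by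
  rw [(fg B).vz_eq z b]
  have h1 := (geoD (B _ z.2)).cr_mem (cz_X z.1 b)
  have h2 : ((B _ z.2).arc (cz z.1 b)).choose ((geoD (B _ z.2)).cr (cz z.1 b) (cz z.1 (!b))) ∈
      ((B _ z.2).arc (cz z.1 b)).choose '' Icc 0 1 := ⟨_, h1, rfl⟩
  rw [((B _ z.2).arc (cz z.1 b)).choose_spec.2.2.1] at h2
  exact h2

/-- the double point is the only common point of its two chords -/
lemma vz_unique (B : ∀ F, q ∈ M.side F → BG h R K cb pt F) (z : Zq r q) {v : E}
    (hv : v ∈ K (L.cf z.1.F)) (h0 : ∀ b, cb (L.cf z.1.F) (chP R (cz z.1 b)) v = 0) : v = (fg B).vz z := by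
  obtain ⟨p, hp⟩ := (B _ z.2).one _ _ (cz_X z.1 true)
  have h1 : v ∈ ({p} : Set E) := by rw [← hp]; exact ⟨hv, h0 true, h0 false⟩
  have h2 : (fg B).vz z ∈ ({p} : Set E) := by
    rw [← hp]; exact ⟨(vz_mem B z true).1, (vz_mem B z true).2, (vz_mem B z false).2⟩
  rw [h1, h2]

/-- both ends of an arc are on the same closed cycles -/
lemma cyZ_arc (S : SphM M q) (hc : ∀ F, q ∈ M.side F ↔ L.cf F ≤ c)
    {rk : Pc L s c → ℕ} (hinj : Function.Injective rk) (hord : Ord h c rk) (z : Zq r q) (b : Bool) :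
    cyZ R hc ((depC S R hc h rk hinj hord).arc z) b = cyZ R hc z b := by
  have hkz : ∀ (u : Zq r q) (b : Bool),
      (depC S R hc h rk hinj hord).kz u b = rk (cyZ R hc u b) := by
    intro u b
    show rk (cyc R hc ((arr S r).pc u b false)) = _
    have : (arr S r).pc u b false = pcQ (Sum.inl (u, b, false)) := rfl
    rw [this, cyZ_eq]
  apply hinj
  rw [← hkz, ← hkz]
  exact (depC S R hc h rk hinj hord).kz_arc z b



end Crest.Agent.R096.Lm_117
end

-- ▼ part R096/Arc13_778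

/-!
# R096 (row 96), (R4), part 13: **`bg_lm`** = 117's geometric facts `BG` on every face for 416's
recursion over a labelled mesh; `r2_lm` = his `R2` (helper778)
-/

set_option autoImplicit false
set_option linter.unusedSectionVars false

open Set Metric


namespace Crest.Agent.R096.Arc_778

open Crest.Agent.R096.Ce_537 Crest.Agent.R096.Bd_416 Crest.Agent.R096.Cb_609 Crest.Agent.R096.Pl
open Crest.Agent.R096.St_147 Crest.Agent.R096.Ac_117 Crest.Agent.R096.Seq_213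
open Crest.Agent.R096.Lm_117 Crest.Agent.R096.Wk_689 Crest.Agent.R096.Fx_689
open Crest.Agent.R096.Gr_117 (GeoD FG)

variable {ι Φ W Q J Fm I : Type} {M : MeshC ι Φ W} [PartialOrder Q] {dim : Q → ℕ}
variable {L : LM M Q dim} {fam : J → Fm} {col : I → Bool}
variable {s : GSt M fam} {r : St M col} {q : ι} {c : Q}

/-! ### the chords of a face as pieces -/

lemma ch_in (R : ResOf s r) {F : Φ} {w : W} (hw : r.At F w) :
    w ∈ s.P ∧ w ∈ L.toSk.In (L.cf F) := ⟨R.sub _ hw.1, on_in le_rfl hw.2⟩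

variable (R : ResOf s r)

/-- every piece of the restriction on a face is a chord -/
lemma exists_ch (h : LF L s) {F : Φ} {w : W} (hw : w ∈ s.P ∧ w ∈ L.toSk.In (L.cf F))
    (hr : w ∈ r.P) : ∃ a : Ch r F, (chP R a : Pc L s (L.cf F)) = mkP hw ∧ (a.1 = w ∨ a.1 = r.mu F w) := by
  have hat : r.At F w := ⟨hr, on_of_in hw.2⟩
  by_cases hlt : M.pos F w < M.pos F (r.mu F w)
  · exact ⟨⟨w, hat, hlt⟩, rfl, Or.inl rfl⟩
  · have hne : M.pos F w ≠ M.pos F (r.mu F w) :=
      pos_ne r hat (At.mu r hat) (fun h' => r.mu_ne hat.1 hat.2 h'.symm)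
    have hlt' : M.pos F (r.mu F w) < M.pos F (r.mu F (r.mu F w)) := by
      rw [r.mu_mu hat.1 hat.2]
      exact lt_of_le_of_ne (not_lt.1 hlt) (Ne.symm hne)
    let a : Ch r F := ⟨r.mu F w, At.mu r hat, hlt'⟩
    refine ⟨a, ?_, Or.inr rfl⟩
    have h1 : w ∈ pts h (L.cf F) (chP R a) := by
      rw [mem_pts_ch R a]
      right
      show w = r.mu F (r.mu F w)
      rw [r.mu_mu hat.1 hat.2]
    exact (mkP_eq h h1).symm

lemma inn_same {F : Φ} {a b : Ch r F} (hab : a ≠ b) (h : ¬ (dg r F).X a b) :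
    (dg r F).inn b ((dg r F).hi a) = (dg r F).inn b ((dg r F).lo a) := by
  have hl := (dg r F).lt a
  have hl1 := (dg r F).lt b
  have q1 := (dg r F).ne a b
  have q2 := (dg r F).ne b a
  have q7 : (dg r F).lo a ≠ (dg r F).lo b := fun h => hab ((dg r F).lo_inj _ _ h)
  have q8 : (dg r F).hi a ≠ (dg r F).hi b := fun h => hab ((dg r F).hi_inj _ _ h)
  unfold Dg.X at h
  unfold Dg.inn
  split_ifs <;> first | rfl | (exfalso; omega)

variable {E : Type*} [NormedAddCommGroup E] [NormedSpace ℝ E]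

section geo

open scoped Classical

variable {h : LF L s} {Lam : J → Q → ZMod 2} {hLam : ∀ j c, L.toSk.XL (gP s j) (Lam j) c}
variable {K : Q → Set E} {g : Gd E J} {P : ∀ q, (cmb h Lam hLam).I q → Set E}
  {cb : ∀ q, (cmb h Lam hLam).I q → E → ℝ} {Ω : Set E}
  (H : Inv (cmb h Lam hLam) K univ g P cb) (X : Cplx Ω Q dim K)

include H X in
/-- **(I1)** the geometric facts on a face for 416's recursion -/
theorem bg_lm {F : Φ} (hE : ∀ e < L.cf F, dim e = 1 → EdgeG (K e) (cb e) ∧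
      EdgeO (K e) (cb e) (ek h e))
    (hCh : Chords (K (L.cf F)) (bdS K (L.cf F)) (cb (L.cf F))) :
    BG h R K cb (ptW h Lam hLam K cb) F where
  cont a := (H.pc _ (mem_univ _) _).1
  arc a := by
    have h1 := path_w H X (fun e he hd => (hE e he hd).1) hCh (ch_in R a.2.1)
    obtain ⟨γ, g1, g2, g3, g4, g5⟩ := h1
    exact ⟨γ, g1, g2, g3, g4, by rw [g5, R.mu]⟩
  one a b hX := by
    have hab := (dg r F).X_ne hX
    have h1 := one_w H X hE hCh (y := chP R b) (ch_in R a.2.1) (not_ch hab) (by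
      rw [nl_kp b a.2.1 (not_ch hab), ← R.mu, nl_kp b (At.mu r a.2.1) (not_ch' hab)]
      have h2 : (dg r F).inn b (rk r F (M.pos F (r.mu F a.1))) =
        (dg r F).inn b (rk r F (M.pos F a.1)) + 1 := (dg r F).inn_flip hX
      rw [h2]
      intro h3
      have h4 : ∀ k l : ZMod 2, k + l ≠ k + (l + 1) := by decide
      exact h4 _ _ h3)
    obtain ⟨p, hp⟩ := h1
    refine ⟨p, ?_⟩
    rw [← hp]
    ext z
    exact ⟨fun h => ⟨⟨h.1, h.2.2⟩, ⟨h.1, h.2.1⟩⟩, fun h => ⟨h.1.1, h.2.2, h.1.2⟩⟩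
  non a b hab hX := by
    have h1 := non_w H X hE hCh (y := chP R b) (ch_in R a.2.1) (not_ch hab) (by
      rw [nl_kp b a.2.1 (not_ch hab), ← R.mu, nl_kp b (At.mu r a.2.1) (not_ch' hab)]
      have h2 : (dg r F).inn b (rk r F (M.pos F (r.mu F a.1))) =
        (dg r F).inn b (rk r F (M.pos F a.1)) := inn_same hab hX
      rw [h2])
    rw [← h1]
    ext z
    exact ⟨fun h => ⟨⟨h.1, h.2.2⟩, ⟨h.1, h.2.1⟩⟩, fun h => ⟨h.1.1, h.2.2, h.1.2⟩⟩
  sign w hw b hne := by
    have hlt := ed_lt (L.cf_dim F).ge (ch_in R hw).2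
    have h1 := hE _ hlt (L.ed_dim w (ch_in (L := L) R hw).2.1)
    exact sign_w H (ch_in R hw) hlt h1.1 h1.2 _ hne

include H in
/-- 117's `R2` -/
theorem r2_lm (hd : dim c = 3) (q : ι) : R2 h q c K cb := by
  intro F hF _ x Y hY z hz
  have hlt : L.cf F < c := lt_of_le_of_ne hF fun h' => by
    have := L.cf_dim F
    rw [h', hd] at this
    omega
  have h1 := H.r2 hlt (mem_univ c) x z hz
  rw [h1]
  show sg (nl h c x (bv L.toSk (L.cf F))) * _ = _
  congr 1
  refine Finset.prod_congr ?_ fun _ _ => rfl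
  ext y
  exact ⟨fun h' => (hY y).2 (Finset.mem_filter.1 h').2, fun h' =>
    Finset.mem_filter.2 ⟨Finset.mem_univ _, (hY y).1 h'⟩⟩

end geo

end Crest.Agent.R096.Arc_778
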