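import Crest.Agent.R096.Ar9_241

-- ▼ part R096/As1_241
section

/-!
# R096 (row 96), ARR2 part 1 (helper241): the complex of the proper faces of a top cell

`below C c` = the `CC` of the cells `< c`; `sphere_below` = the boundary of the fibre over `b q`
of a transport structure over `below C c` is a PL sphere of dimension `cod q - 2`
(`PLEquiv (sph (cod C q - 1)) S`).
-/

set_option autoImplicit false
set_option linter.unusedSectionVars false
set_option linter.unusedVariables false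
set_option linter.deprecated false

open Set Metric Topology Module
open scoped Classical

namespace Crest.Agent.R096.As_241

open Crest.Agent.R096.Xp_537
open Crest.Agent.R096.Ce_537 (PLOn PLEquiv cube sph IsBall Cplx Opn)
open Crest.Agent.R096.Ar_241
open Crest.Agent.R096.Dl_609 (KK KK_congr isBall_KK)

variable {E : Type*} [NormedAddCommGroup E] [NormedSpace ℝ E]
  {Q : Type*} [PartialOrder Q] {Λ : Set E}

/-- the union of the proper faces of `c` -/
def bdc (C : CC Λ Q) (c : Q) : Set E := ⋃ q : {q : Q // q < c}, C.cell q.1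

/-- **the complex of the proper faces of `c`** -/
def below (C : CC Λ Q) (c : Q) : CC (bdc C c) {q : Q // q < c} where
  cell q := C.cell q.1
  b q := C.b q.1
  dim q := C.dim q.1
  conv q := C.conv q.1
  cpt q := C.cpt q.1
  bmem q := C.bmem q.1
  mono h := C.mono h
  dim_lt h := C.dim_lt h
  b_notMem h := C.b_notMem h
  rad q y hy := by
    rcases C.rad q.1 y hy with h | ⟨p, hp, y', hy', w, hw, e⟩
    · exact Or.inl h
    · exact Or.inr ⟨⟨p, hp.trans q.2⟩, hp, y', hy', w, hw, e⟩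
  rad_uniq h1 h2 h3 h4 h5 h6 h7 := C.rad_uniq h1 h2 h3 h4 h5 h6 h7
  disj {p q y} h1 h2 h3 h4 := Subtype.ext (C.disj h1 (fun r hr => h2 ⟨r, hr.trans p.2⟩ hr) h3
    (fun r hr => h4 ⟨r, hr.trans q.2⟩ hr))
  sub q := subset_iUnion (fun q : {q : Q // q < c} => C.cell q.1) q
  cover y hy := mem_iUnion.1 hy
  lf y hy := by
    obtain ⟨q, hq⟩ := mem_iUnion.1 hy
    obtain ⟨r, hr, hf⟩ := C.lf y (C.sub q.1 hq)
    exact ⟨r, hr, Set.Finite.preimage (f := (Subtype.val : {q : Q // q < c} → Q))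
      (s := {q | (C.cell q ∩ Metric.ball y r).Nonempty}) (Subtype.val_injective.injOn) hf⟩

@[simp] lemma below_cell (C : CC Λ Q) (c : Q) (q : {q : Q // q < c}) :
    (below C c).cell q = C.cell q.1 := rfl

@[simp] lemma below_b (C : CC Λ Q) (c : Q) (q : {q : Q // q < c}) :
    (below C c).b q = C.b q.1 := rfl

/-- barycentric combinations and their smallest element -/
lemma KK_min {C : CC Λ Q} {q c : Q} {x : E} (hx : x ∈ KK C fun ρ => q ≤ ρ ∧ ρ < c) :
    ∃ l, Wt l ∧ bs C.b l = x ∧ ∃ m ∈ l.support, (∀ ρ ∈ l.support, m ≤ ρ ∧ ρ < c) ∧ q ≤ m := by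
  obtain ⟨l, hl, hs, he⟩ := hx
  obtain ⟨m, hm, hmin⟩ := hl.exists_min
  exact ⟨l, hl, he, m, hm, fun ρ hρ => ⟨hmin ρ hρ, (hs ρ hρ).2⟩, (hs m hm).1⟩

lemma KK_bdry (C : CC Λ Q) (q c : Q) : KK C (fun ρ => q < ρ ∧ ρ < c) =
    ⋃ r ∈ {r | q < r ∧ r < c}, KK C (fun ρ => r ≤ ρ ∧ ρ < c) := by
  ext x
  simp only [mem_iUnion, mem_setOf_eq, exists_prop]
  constructor
  · rintro ⟨l, hl, hs, he⟩
    obtain ⟨m, hm, hmin⟩ := hl.exists_min
    exact ⟨m, hs m hm, l, hl, fun ρ hρ => ⟨hmin ρ hρ, (hs ρ hρ).2⟩, he⟩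
  · rintro ⟨r, hr, l, hl, hs, he⟩
    exact ⟨l, hl, fun ρ hρ => ⟨hr.1.trans_le (hs ρ hρ).1, (hs ρ hρ).2⟩, he⟩

/-- the smallest element of an interior point -/
lemma KK_opn {C : CC Λ Q} {r c : Q} {x : E} (hx : x ∈ KK C fun ρ => r ≤ ρ ∧ ρ < c)
    (h : ∀ r', r < r' → r' < c → x ∉ KK C fun ρ => r' ≤ ρ ∧ ρ < c) :
    ∃ l, Wt l ∧ bs C.b l = x ∧ r ∈ l.support ∧ ∀ ρ ∈ l.support, r ≤ ρ := by
  obtain ⟨l, hl, he, m, hm, hs, hrm⟩ := KK_min hx
  have : r = m := by
    by_contra hne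
    exact h m (lt_of_le_of_ne hrm hne) (hs m hm).2 ⟨l, hl, hs, he⟩
  subst this
  exact ⟨l, hl, he, hm, fun ρ hρ => (hs ρ hρ).1⟩

section sphere

variable [FiniteDimensional ℝ E] {E' : Type*} [NormedAddCommGroup E'] [NormedSpace ℝ E']

lemma cod_pos (C : CC Λ Q) (hΛ : IsOpen Λ) {q c : Q} (h : q < c) :
    cod C q = (cod C q - 1) + 1 := by
  have := cod_lt C hΛ h
  omega

/-- the model complex -/
theorem cplx_KK (C : CC Λ Q) (hΛ : IsOpen Λ) {c : Q} (hc : ∀ ρ, c ≤ ρ → ρ = c)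
    (q : {q : Q // q < c}) :
    Cplx (KK C fun ρ => q.1 < ρ ∧ ρ < c) (Up q)ᵒᵈ
      (fun r => cod C (OrderDual.ofDual r).1.1 - 1)
      (fun r => KK C fun ρ => (OrderDual.ofDual r).1.1 ≤ ρ ∧ ρ < c) where
  isBall r := by
    have h := isBall_KK C hΛ (OrderDual.ofDual r).1.2 hc (cod_pos C hΛ (OrderDual.ofDual r).1.2)
    rw [KK_bdry] at h
    convert h using 1
    ext x
    simp only [mem_iUnion, exists_prop]
    constructor
    · rintro ⟨j, hj, hx⟩
      exact ⟨(OrderDual.ofDual j).1.1, ⟨hj, (OrderDual.ofDual j).1.2⟩, hx⟩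
    · rintro ⟨j, hj, hx⟩
      exact ⟨OrderDual.toDual ⟨⟨j, hj.2⟩, (OrderDual.ofDual r).2.trans
        (show (OrderDual.ofDual r).1 < (⟨j, hj.2⟩ : {q : Q // q < c}) from hj.1)⟩, hj.1, hx⟩
  mono i j hij := by
    have h1 := cod_lt C hΛ (show (OrderDual.ofDual i).1.1 < (OrderDual.ofDual j).1.1 from hij)
    have h2 := cod_pos C hΛ (OrderDual.ofDual i).1.2
    have h3 := cod_pos C hΛ (OrderDual.ofDual j).1.2
    omega
  disj i j x hi hj := by
    obtain ⟨l, h1, h2, h3, h4⟩ := KK_opn hi.1 fun r' hr' hc' hx =>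
      hi.2 (OrderDual.toDual ⟨⟨r', hc'⟩, (OrderDual.ofDual i).2.trans
        (show (OrderDual.ofDual i).1 < (⟨r', hc'⟩ : {q : Q // q < c}) from hr')⟩) hr' hx
    obtain ⟨l', h1', h2', h3', h4'⟩ := KK_opn hj.1 fun r' hr' hc' hx =>
      hj.2 (OrderDual.toDual ⟨⟨r', hc'⟩, (OrderDual.ofDual j).2.trans
        (show (OrderDual.ofDual j).1 < (⟨r', hc'⟩ : {q : Q // q < c}) from hr')⟩) hr' hx
    have he : l = l' := bs_inj C h1 h1' (h2.trans h2'.symm)
    subst he
    have h5 : (OrderDual.ofDual i).1.1 = (OrderDual.ofDual j).1.1 :=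
      le_antisymm (h4 _ h3') (h4' _ h3)
    apply OrderDual.ofDual.injective
    exact Subtype.ext (Subtype.ext h5)
  sub r := by
    rintro x ⟨l, hl, hs, he⟩
    exact ⟨l, hl, fun ρ hρ => ⟨(show q.1 < (OrderDual.ofDual r).1.1 from
      (OrderDual.ofDual r).2).trans_le (hs ρ hρ).1, (hs ρ hρ).2⟩, he⟩
  cover x hx := by
    rw [KK_bdry] at hx
    obtain ⟨r, hr, hx⟩ := mem_iUnion₂.1 hx
    exact ⟨OrderDual.toDual ⟨⟨r, hr.2⟩, hr.1⟩, hx⟩
  lf x _ := by
    have : Finite (Up q) := by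
      have h1 : ({r : Q | q.1 < r}).Finite := finite_up C q.1
      have h2 : ({r : {q : Q // q < c} | q < r}).Finite :=
        Set.Finite.preimage (f := Subtype.val) (Subtype.val_injective.injOn) h1
      exact h2
    have : Finite (Up q)ᵒᵈ := this
    exact ⟨1, one_pos, Set.toFinite _⟩

lemma finite_up' (C : CC Λ Q) {c : Q} (q : {q : Q // q < c}) : Finite (Up q) := by
  have h1 : ({r : Q | q.1 < r}).Finite := finite_up C q.1
  have h2 : ({r : {q : Q // q < c} | q < r}).Finite :=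
    Set.Finite.preimage (f := Subtype.val) (Subtype.val_injective.injOn) h1
  exact h2

/-- **ARR-GEN for the proper faces of a top cell** -/
theorem bdry_below (C : CC Λ Q) (hΛ : IsOpen Λ) {c : Q} (hc : ∀ ρ, c ≤ ρ → ρ = c)
    (q : {q : Q // q < c}) {S : Set E'} {T : Up q → Set E'}
    (hball : ∀ r, IsBall (cod C r.1.1 - 1) (T r) (⋃ r' ∈ {r' | r < r'}, T r'))
    (hsub : ∀ r, T r ⊆ S) (htop : ∀ x ∈ S, ∃ t : Up q, ∀ r, x ∈ T r ↔ r ≤ t) :
    Nonempty (PLEquiv (sph (cod C q.1 - 1)) S) := by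
  have := finite_up' C q
  have hC : Cplx S (Up q)ᵒᵈ (fun r => cod C (OrderDual.ofDual r).1.1 - 1)
      (fun r => T (OrderDual.ofDual r)) :=
    { isBall := fun r => by
        have h := hball (OrderDual.ofDual r)
        convert h using 1
        ext x
        simp only [mem_iUnion, exists_prop]
        constructor
        · rintro ⟨j, hj, hx⟩; exact ⟨OrderDual.ofDual j, hj, hx⟩
        · rintro ⟨j, hj, hx⟩; exact ⟨OrderDual.toDual j, hj, hx⟩
      mono := (cplx_KK C hΛ hc q).mono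
      disj := fun i j x hi hj => by
        obtain ⟨t, ht⟩ := htop x (hsub _ hi.1)
        have key : ∀ i : (Up q)ᵒᵈ, Opn (fun r : (Up q)ᵒᵈ => T (OrderDual.ofDual r)) i x →
            OrderDual.ofDual i = t := by
          intro i hi
          have h1 := (ht _).1 hi.1
          by_contra hne
          have h2 : OrderDual.ofDual i < t := lt_of_le_of_ne h1 hne
          exact hi.2 (OrderDual.toDual t) h2 ((ht _).2 le_rfl)
        have h1 := key i hi
        have h2 := key j hj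
        exact OrderDual.ofDual.injective (h1.trans h2.symm)
      sub := fun r => hsub _
      cover := fun x hx => by
        obtain ⟨t, ht⟩ := htop x hx
        exact ⟨OrderDual.toDual t, (ht _).2 le_rfl⟩
      lf := fun x _ => ⟨1, one_pos, by
        have : Finite (Up q)ᵒᵈ := inferInstanceAs (Finite (Up q))
        exact Set.toFinite _⟩ }
  have : Finite (Up q)ᵒᵈ := inferInstanceAs (Finite (Up q))
  obtain ⟨e, -⟩ := Cplx.exists_equiv (cplx_KK C hΛ hc q) hC
  obtain ⟨a, ha⟩ := isBall_KK C hΛ q.2 hc (cod_pos C hΛ q.2)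
  have b : PLEquiv (sph (cod C q.1 - 1)) (a.f '' sph (cod C q.1 - 1)) :=
    a.restrImage sphere_subset_closedBall
  rw [ha] at b
  exact ⟨b.trans e⟩

/-- **the boundary of the fibre is a PL sphere** -/
theorem sphere_below {C : CC Λ Q} (hΛ : IsOpen Λ) {c : Q} (hc : ∀ ρ, c ≤ ρ → ρ = c) {S : Set E'}
    {G : E' → E} (X : Tr0 S (below C c) G) (q : {q : Q // q < c})
    (h : ∀ r : Up q, IsBall (cod C r.1.1 - 1) (X.F r.1) (X.S r.1)) :
    Nonempty (PLEquiv (sph (cod C q.1 - 1)) (X.S q)) := by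
  refine bdry_below C hΛ hc q (T := X.T q) (fun r => ?_) (fun r x hx => ?_) (fun x hx => ?_)
  · rw [← X.eT_bdry]
    exact (h r).map _
  · exact ⟨hx.1, hx.2.1, fun he => absurd r.2 (not_lt_of_ge (he ▸ hx.2.2))⟩
  · have h1 : q < X.top x := lt_of_le_of_ne (X.F_top (X.S_sub _ hx)) (Ne.symm hx.2.2)
    exact ⟨⟨X.top x, h1⟩, fun r => ⟨fun hr => hr.2.2, fun hr => ⟨hx.1, hx.2.1, hr⟩⟩⟩

end sphere

end Crest.Agent.R096.As_241
end

-- ▼ part R096/As2_241
section

/-!
# R096 (row 96), ARR2 part 2 (helper241): sides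

`exists_sides'` : two points on a PL circle, a PL circle on a PL 2-sphere;
`Tr0.side_ball`: the fibre over `b q` is a ball if it lies in a PL sphere `{G x ∈ L}`, one dimension
higher than its boundary sphere.
-/

set_option autoImplicit false
set_option linter.unusedSectionVars false
set_option linter.unusedVariables false
set_option linter.deprecated false

open Set Metric Topology Module
open scoped Classical

namespace Crest.Agent.R096.As_241

open Crest.Agent.R096.Xp_537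
open Crest.Agent.R096.Ce_537 (PLOn PLEquiv cube sph IsBall)
open Crest.Agent.R096.Ar_241

variable {E : Type*} [NormedAddCommGroup E] [NormedSpace ℝ E]
  {E' : Type*} [NormedAddCommGroup E'] [NormedSpace ℝ E']

/-- **sides**: `k = 1`: two points of a circle; `k = 2`: a circle on a 2-sphere -/
theorem exists_sides' {k : ℕ} (hk : k = 1 ∨ k = 2) {S' Γ : Set E'}
    (hS : Nonempty (PLEquiv (sph (k + 1)) S')) (hΓ : Nonempty (PLEquiv (sph k) Γ)) (hsub : Γ ⊆ S') :
    ∃ A B, IsBall k A Γ ∧ IsBall k B Γ ∧ A ∪ B = S' ∧ A ∩ B = Γ := by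
  obtain ⟨e⟩ := hS
  obtain ⟨c⟩ := hΓ
  set Γ0 : Set (Fin (k + 1) → ℝ) := e.g '' Γ with hΓ0
  have hΓ0S : Γ0 ⊆ sph (k + 1) := by
    rintro _ ⟨x, hx, rfl⟩
    exact e.mg (hsub hx)
  have hback : e.f '' Γ0 = Γ := by
    rw [hΓ0, image_image]
    ext x
    constructor
    · rintro ⟨y, hy, rfl⟩
      show e.f (e.g y) ∈ Γ
      rwa [e.ri y (hsub hy)]
    · intro hx; exact ⟨x, hx, e.ri x (hsub hx)⟩
  have key : ∀ D, D ⊆ sph (k + 1) → IsBall k D Γ0 → IsBall k (e.f '' D) Γ := by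
    intro D hD hb
    have h3 := hb.map (e.restrImage hD)
    have h4 : (e.restrImage hD).f '' Γ0 = Γ := hback
    rwa [h4] at h3
  have hAB : ∃ A B, IsBall k A Γ0 ∧ IsBall k B Γ0 ∧ A ∪ B = sph (k + 1) ∧ A ∩ B = Γ0 := by
    have eΓ : PLEquiv Γ Γ0 := e.symm.restrImage hsub
    rcases hk with rfl | rfl
    · -- two points
      have e1 := (c.trans eΓ)
      have hpt : Γ0 = {e1.f (fun _ => -1), e1.f (fun _ => 1)} :=
        e1.image_eq.symm.trans ((congrArg (fun s => e1.f '' s) Cb_609.sph_one).trans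
          (image_pair _ _ _))
      have hp1 : e1.f (fun _ => -1) ∈ Γ0 := e1.mf (by rw [Cb_609.sph_one]; simp)
      have hp2 : e1.f (fun _ => 1) ∈ Γ0 := e1.mf (by rw [Cb_609.sph_one]; simp)
      have hne : e1.f (fun _ => (-1:ℝ)) ≠ e1.f (fun _ => (1:ℝ)) := by
        intro h
        have h1 : (fun _ : Fin 1 => (-1:ℝ)) ∈ sph 1 := by rw [Cb_609.sph_one]; simp
        have h2 : (fun _ : Fin 1 => (1:ℝ)) ∈ sph 1 := by rw [Cb_609.sph_one]; simp
        have h3 := congrFun (e1.injOn h1 h2 h) 0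
        norm_num at h3
      obtain ⟨A, B, h1, h2⟩ := Cb_609.two_marks (Ce_537.isBall_cube 2)
        (hΓ0S hp1) (hΓ0S hp2) hne
      rw [← hpt] at h1
      exact ⟨A, B, h1.ball₁, h1.ball₂, h2, h1.inter⟩
    · obtain ⟨a, ha, -⟩ := Cb_609.isBall_plane.exists_equiv (Ce_537.isBall_cube 2)
      have a' : PLEquiv (Pl.S1 ℝ) (a.f '' Pl.S1 ℝ) := a.restrImage Cb_609.isBall_plane.subset
      rw [ha] at a'
      have hcirc : Nonempty (PLEquiv (Pl.S1 ℝ) Γ0) := ⟨(a'.trans c).trans eΓ⟩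
      obtain ⟨A, B, h1, h2⟩ := Cb_609.sphere_sides (Ce_537.isBall_cube 3) hcirc hΓ0S
      exact ⟨A, B, h1.ball₁, h1.ball₂, h2, h1.inter⟩
  obtain ⟨A, B, hA, hB, hU, hI⟩ := hAB
  have hAs : A ⊆ sph (k + 1) := by rw [← hU]; exact subset_union_left
  have hBs : B ⊆ sph (k + 1) := by rw [← hU]; exact subset_union_right
  refine ⟨e.f '' A, e.f '' B, key A hAs hA, key B hBs hB, ?_, ?_⟩
  · rw [← image_union, hU, e.image_eq]
  · rw [← e.injOn.image_inter hAs hBs, hI, hback]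

/-- **one of the two sides** -/
theorem ball_of_sides {k : ℕ} {M Γ S' A B : Set E'} (bA : IsBall k A Γ) (bB : IsBall k B Γ)
    (hUn : A ∪ B = S') (hΓM : Γ ⊆ M) (hMS : M ⊆ S') (hM : IsClosed M)
    (hfr : ∀ x ∈ M, x ∉ Γ → ∃ ε > (0:ℝ), S' ∩ ball x ε ⊆ M) (h1 : ¬ M ⊆ Γ) (h2 : ¬ S' ⊆ M) :
    IsBall k M Γ := by
  have hdich : ∀ A0 : Set E', IsPreconnected A0 → A0 ⊆ S' → (∀ x ∈ A0, x ∉ Γ) →
      A0 ⊆ M ∨ ∀ x ∈ A0, x ∉ M := by
    intro A0 hpre hsub hd
    choose! ε hε hεM using hfr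
    by_contra hcon
    push Not at hcon
    obtain ⟨hn1, x, hxA, hxM⟩ := hcon
    obtain ⟨y, hyA, hyM⟩ := not_subset.1 hn1
    have oU : IsOpen (⋃ z ∈ M \ Γ, ball z (ε z)) := isOpen_biUnion fun _ _ => isOpen_ball
    obtain ⟨w, hwA, hwU, hwV⟩ := hpre _ _ oU hM.isOpen_compl (fun z hz => by
        by_cases hzM : z ∈ M
        · exact Or.inl (mem_biUnion (show z ∈ M \ Γ from ⟨hzM, hd z hz⟩)
            (mem_ball_self (hε z hzM (hd z hz))))
        · exact Or.inr hzM)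
      ⟨x, hxA, mem_biUnion (show x ∈ M \ Γ from ⟨hxM, hd x hxA⟩)
        (mem_ball_self (hε x hxM (hd x hxA)))⟩ ⟨y, hyA, hyM⟩
    obtain ⟨z, hz, hwz⟩ := mem_iUnion₂.1 hwU
    exact hwV (hεM z hz.1 hz.2 ⟨hsub hwA, hwz⟩)
  have hA' : A ⊆ S' := subset_union_left.trans hUn.subset
  have hB' : B ⊆ S' := subset_union_right.trans hUn.subset
  have dA := hdich _ bA.isPreconnected_diff (diff_subset.trans hA') fun x hx => hx.2
  have dB := hdich _ bB.isPreconnected_diff (diff_subset.trans hB') fun x hx => hx.2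
  have hfin : ∀ D D' : Set E', IsBall k D Γ → D ∪ D' = S' → (D \ Γ ⊆ M) → (∀ x ∈ D' \ Γ, x ∉ M) →
      IsBall k M Γ := by
    intro D D' hD hun h3 h4
    have : M = D := by
      apply Subset.antisymm
      · intro x hx
        by_cases hxΓ : x ∈ Γ
        · exact hD.subset hxΓ
        · rcases hun.ge (hMS hx) with h5 | h5
          · exact h5
          · exact absurd hx (h4 x ⟨h5, hxΓ⟩)
      · intro x hx
        by_cases hxΓ : x ∈ Γ
        · exact hΓM hxΓ
        · exact h3 ⟨hx, hxΓ⟩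
    rwa [this]
  rcases dA with hA1 | hA1 <;> rcases dB with hB1 | hB1
  · exfalso
    apply h2
    intro x hx
    by_cases hxΓ : x ∈ Γ
    · exact hΓM hxΓ
    · rcases hUn.ge hx with h5 | h5
      · exact hA1 ⟨h5, hxΓ⟩
      · exact hB1 ⟨h5, hxΓ⟩
  · exact hfin _ _ bA hUn hA1 hB1
  · exact hfin _ _ bB (by rw [union_comm]; exact hUn) hB1 hA1
  · exfalso
    apply h1
    intro x hx
    by_contra hxΓ
    rcases hUn.ge (hMS hx) with h5 | h5
    · exact hA1 x ⟨h5, hxΓ⟩ hx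
    · exact hB1 x ⟨h5, hxΓ⟩ hx

variable [FiniteDimensional ℝ E] {Q : Type*} [PartialOrder Q] {Λ : Set E} {Ω : Set E'} {C : CC Λ Q} {G : E' → E}

/-- near a point only the pieces containing it occur (relative form, `Ω` arbitrary) -/
lemma near' (X : Tr0 Ω C G) (hc : ∀ q, IsCompact (X.F q)) {x : E'} (hx : x ∈ Ω) :
    ∃ r > (0:ℝ), ∀ z ∈ Ω, z ∈ ball x r → X.top z ≤ X.top x ∧ G x ∈ C.cell (X.top z) := by
  obtain ⟨r1, hr1, hf⟩ := X.lf x hx
  set A : Set Q := {q | (X.P q ∩ ball x r1).Nonempty} ∩ {q | x ∉ X.P q} with hA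
  have hfin : A.Finite := hf.subset inter_subset_left
  have hcl : IsClosed (⋃ q ∈ A, X.P q) :=
    hfin.isClosed_biUnion fun q _ => (X.isCompact_P hc q).isClosed
  have hnot : x ∉ ⋃ q ∈ A, X.P q := by
    intro h
    obtain ⟨q, hq, hxq⟩ := mem_iUnion₂.1 h
    exact hq.2 hxq
  obtain ⟨r2, hr2, h2⟩ := Metric.isOpen_iff.1 hcl.isOpen_compl _ hnot
  refine ⟨min r1 r2, lt_min hr1 hr2, fun z hzΩ hz => ?_⟩
  have hz1 : z ∈ ball x r1 := ball_subset_ball (min_le_left _ _) hz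
  have hz2 : z ∈ ball x r2 := ball_subset_ball (min_le_right _ _) hz
  have hzP : z ∈ X.P (X.top z) := ⟨hzΩ, le_rfl, X.G_mem z hzΩ⟩
  have hxP : x ∈ X.P (X.top z) := by
    by_contra hcon
    exact h2 hz2 (mem_biUnion (show X.top z ∈ A from ⟨⟨z, hzP, hz1⟩, hcon⟩) hzP)
  exact ⟨hxP.2.1, hxP.2.2⟩

/-- **SIDE THEOREM.** -/
theorem side_ball (X : Tr0 Ω C G) (hc : ∀ q, IsCompact (X.F q)) {q : Q} (hfin : Finite (Up q))
    {d : Q → ℕ} (hb : ∀ r : Up q, IsBall (d r.1) (X.F r.1) (X.S r.1)) {k : ℕ}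
    (hk : k = 1 ∨ k = 2) (hS : Nonempty (PLEquiv (sph k) (X.S q))) {L : Set E}
    (hL : Nonempty (PLEquiv (sph (k + 1)) {x | x ∈ Ω ∧ G x ∈ L})) (hbL : C.b q ∈ L)
    (hqL : ∀ t ∈ C.cell q, t ∈ L → t = C.b q)
    (hr : ∀ r, q < r → (∀ s, q < s → s ≤ r → s = r) →
      IsPreconnected ((C.cell r ∩ L) \ {C.b q}) ∧ ((C.cell r ∩ L) \ {C.b q}).Nonempty) :
    IsBall k (X.F q) (X.S q) := by
  set Sg : Set E' := {x | x ∈ Ω ∧ G x ∈ L} with hSg
  have hFL : X.F q ⊆ Sg := fun x hx => ⟨hx.1, by rw [hx.2]; exact hbL⟩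
  obtain ⟨A, B, hA, hB, hU, hI⟩ := exists_sides' hk hL hS ((X.S_sub q).trans hFL)
  -- a minimal cell above `q`
  have hne : (X.S q).Nonempty := by
    obtain ⟨c⟩ := hS
    have : (sph k).Nonempty := by
      have hk1 : 0 < k := by omega
      have : Nontrivial (Fin k → ℝ) := by
        have : Nonempty (Fin k) := ⟨⟨0, hk1⟩⟩
        infer_instance
      exact (NormedSpace.sphere_nonempty (x := (0 : Fin k → ℝ)) (r := 1)).2 zero_le_one
    obtain ⟨x, hx⟩ := this
    exact ⟨_, c.mf hx⟩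
  obtain ⟨x0, hx0⟩ := hne
  have h0 : q < X.top x0 := lt_of_le_of_ne (X.F_top (X.S_sub _ hx0)) (Ne.symm hx0.2.2)
  obtain ⟨r, -, hrm⟩ := (Set.toFinite (univ : Set (Up q))).exists_minimal ⟨⟨X.top x0, h0⟩, trivial⟩
  have hmin : ∀ s : Q, q < s → s ≤ r.1 → s = r.1 := fun s hs hle =>
    le_antisymm hle (hrm (y := ⟨s, hs⟩) trivial hle)
  obtain ⟨hpre, ⟨t0, ⟨ht0, ht0L⟩, ht0b⟩⟩ := hr r.1 r.2 hmin
  refine ball_of_sides hA hB hU (X.S_sub q) hFL (hc q).isClosed (fun x hx hxS => ?_) ?_ ?_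
  · -- relative frontier
    have htop : X.top x = q := by
      by_contra hne
      exact hxS ⟨hx.1, hx.2, hne⟩
    obtain ⟨ε, hε, hn⟩ := near' X hc hx.1
    refine ⟨ε, hε, ?_⟩
    rintro z ⟨⟨hzΩ, hzL⟩, hz⟩
    obtain ⟨a1, a2⟩ := hn z hzΩ hz
    rw [hx.2] at a2
    have a3 : X.top z = q := le_antisymm (htop ▸ a1) (C.le_of_b a2)
    exact ⟨hzΩ, hqL _ (a3 ▸ X.G_mem z hzΩ) hzL⟩
  · -- not contained in the boundary
    intro hsub
    obtain ⟨x, hxT, hxn⟩ := ((by rw [← X.eT_bdry]; exact (hb r).map _ :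
      IsBall (d r.1) (X.T q r) (⋃ r' ∈ {r' | r < r'}, X.T q r'))).nonempty_diff
    have hxr : X.top x = r.1 := by
      by_contra hne'
      have h1 : r.1 < X.top x := lt_of_le_of_ne hxT.2.2 (Ne.symm hne')
      exact hxn (mem_iUnion₂.2 ⟨⟨X.top x, r.2.trans h1⟩, h1, hxT.1, hxT.2.1, le_rfl⟩)
    have hxS : x ∈ X.S q := ⟨hxT.1, hxT.2.1, by rw [hxr]; exact r.2.ne'⟩
    obtain ⟨ε, hε, hn⟩ := near' X hc hxT.1
    have htop : ∀ z ∈ Sg, z ∈ ball x ε → X.top z = r.1 := by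
      rintro z ⟨hzΩ, hzL⟩ hz
      obtain ⟨h1, h2⟩ := hn z hzΩ hz
      have h3 : q ≤ X.top z := C.le_of_b (hxT.2.1 ▸ h2)
      rw [hxr] at h1
      rcases h3.eq_or_lt with h4 | h4
      · exfalso
        have h5 := X.G_mem z hzΩ
        rw [← h4] at h5
        have h6 : z ∈ X.F q := ⟨hzΩ, hqL _ h5 hzL⟩
        exact (hsub h6).2.2 h4.symm
      · exact hmin _ h4 h1
    set A' : Set E' := (fun p : E' × E => X.tr p.1 p.2) ''
      ((X.F r.1 \ X.S r.1) ×ˢ ((C.cell r.1 ∩ L) \ {C.b q})) with hA'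
    have hApre : IsPreconnected A' := by
      refine ((hb r).isPreconnected_diff.prod hpre).image _ ?_
      exact (X.pltr r.1).1.mono (prod_mono diff_subset (diff_subset.trans inter_subset_left))
    have hAS : ∀ y ∈ A', y ∈ Sg ∧ y ∉ X.S q := by
      rintro _ ⟨⟨m, t⟩, ⟨hm, ht⟩, rfl⟩
      have h0 := X.F_cell hm.1 ht.1.1
      have h1 := X.tr_G m hm.1.1 t h0
      refine ⟨⟨X.tr_mem m hm.1.1 t h0, ?_⟩, fun hy => ht.2 (h1.symm.trans hy.2.1)⟩
      show G (X.tr m t) ∈ L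
      rw [h1]; exact ht.1.2
    have hUA : ∀ z ∈ Sg, z ∈ ball x ε → z ∉ X.S q → z ∈ A' := by
      intro z hzS hz hzn
      have hzΩ := hzS.1
      have h1 := htop z hzS hz
      have h2 : C.b r.1 ∈ C.cell (X.top z) := by rw [h1]; exact C.bmem _
      have hG : G z ∈ C.cell r.1 := h1 ▸ X.G_mem z hzΩ
      refine ⟨(X.tr z (C.b r.1), G z), ⟨⟨⟨X.tr_mem z hzΩ _ h2, X.tr_G z hzΩ _ h2⟩,
        fun hS' => ?_⟩, ⟨hG, hzS.2⟩, fun hGq => ?_⟩, ?_⟩
      · exact hS'.2.2 ((X.top_tr hzΩ h2).trans h1)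
      · exact hzn (hsub ⟨hzΩ, hGq⟩)
      · show X.tr (X.tr z (C.b r.1)) (G z) = z
        rw [X.tr_tr z hzΩ _ h2 _ (X.G_mem z hzΩ), X.tr_self z hzΩ]
    have hAsub : A ⊆ Sg := subset_union_left.trans hU.subset
    have hBsub : B ⊆ Sg := subset_union_right.trans hU.subset
    have hside : ∀ D : Set E', IsBall k D (X.S q) → D ⊆ Sg → ∃ a ∈ A', a ∈ D := by
      intro D hD hDs
      have h1 : x ∈ closure (D \ X.S q) := by
        have h2 := hD.closure_diff
        rw [h2]; exact hD.subset hxS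
      obtain ⟨a, ha, hax⟩ := Metric.mem_closure_iff.1 h1 ε hε
      refine ⟨a, hUA a (hDs ha.1) (by rwa [mem_ball, dist_comm]) ha.2, ha.1⟩
    obtain ⟨a, haA', haA⟩ := hside A hA hAsub
    obtain ⟨b, hbA', hbB⟩ := hside B hB hBsub
    have hcl := (isPreconnected_closed_iff.1 hApre) A B hA.isClosed hB.isClosed
      (fun y hy => hU.ge (hAS y hy).1) ⟨a, haA', haA⟩ ⟨b, hbA', hbB⟩
    obtain ⟨w, hw, hwA, hwB⟩ := hcl
    exact (hAS w hw).2 (hI.le ⟨hwA, hwB⟩)
  · -- not everything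
    intro hsub
    obtain ⟨m, hm⟩ := (hb r).nonempty
    have h1 := X.F_cell hm ht0
    have h2 := X.tr_G m hm.1 t0 h1
    have h3 : X.tr m t0 ∈ Sg := ⟨X.tr_mem m hm.1 t0 h1, by rw [h2]; exact ht0L⟩
    exact ht0b (h2.symm.trans (hsub h3).2)

end Crest.Agent.R096.As_241
end

-- ▼ part R096/As3_241

/-!
# R096 (row 96), ARR2 part 3 (helper241): all fibres on the boundary sphere of a tiny core are balls

`balls_below`: `X : Tr0 S (below C c) G` on a PL 2-sphere `S`: squares one point, edges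
`{G ∈ L}` a PL circle.  `trn_below` = 537's `Trn`.
-/

set_option autoImplicit false
set_option linter.unusedSectionVars false
set_option linter.unusedVariables false
set_option linter.deprecated false

open Set Metric Topology Module
open scoped Classical

namespace Crest.Agent.R096.As_241

open Crest.Agent.R096.Xp_537
open Crest.Agent.R096.Ce_537 (PLOn PLEquiv cube sph IsBall)
open Crest.Agent.R096.Ar_241

variable {E : Type*} [NormedAddCommGroup E] [NormedSpace ℝ E] [FiniteDimensional ℝ E]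
  {E' : Type*} [NormedAddCommGroup E'] [NormedSpace ℝ E']
  {Q : Type*} [PartialOrder Q] {Λ : Set E} {C : CC Λ Q} {c : Q} {S : Set E'} {G : E' → E}

lemma isCompact_of_sphere {k : ℕ} (hS : Nonempty (PLEquiv (sph k) S)) : IsCompact S := by
  obtain ⟨e⟩ := hS
  rw [← e.image_eq]
  exact (isCompact_sphere (0 : Fin k → ℝ) 1).image_of_continuousOn e.pf.1

lemma isCompact_F' {Λ' : Set E} {Q' : Type*} [PartialOrder Q'] {C' : CC Λ' Q'}
    (X : Tr0 S C' G) (hS : IsCompact S) (hG : ContinuousOn G S) (q : Q') : IsCompact (X.F q) := by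
  have h1 : IsClosed (S ∩ G ⁻¹' {C'.b q}) :=
    hG.preimage_isClosed_of_isClosed hS.isClosed isClosed_singleton
  exact hS.of_isClosed_subset h1 (fun x hx => hx.1)

/-- **all fibres are balls**, edges as a hypothesis -/
theorem balls_below' (hΛ : IsOpen Λ) (hE : finrank ℝ E = 3) (hc : ∀ ρ, c ≤ ρ → ρ = c)
    (X : Tr0 S (below C c) G) (hS : Nonempty (PLEquiv (sph 3) S)) (hG : ContinuousOn G S)
    (sq : ∀ q : {q : Q // q < c}, cod C q.1 = 1 → ∃ x, X.F q = {x})
    (edge : ∀ q : {q : Q // q < c}, cod C q.1 = 2 →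
      (∀ r : Up q, IsBall (cod C r.1.1 - 1) (X.F r.1) (X.S r.1)) →
      Nonempty (PLEquiv (sph 1) (X.S q)) → IsBall 1 (X.F q) (X.S q)) :
    ∀ q, IsBall (cod C q.1 - 1) (X.F q) (X.S q) := by
  have hcF : ∀ q, IsCompact (X.F q) := isCompact_F' X (isCompact_of_sphere hS) hG
  intro q
  induction hd : cod C q.1 using Nat.strong_induction_on generalizing q with
  | _ d ih =>
    have hr : ∀ r : Up q, IsBall (cod C r.1.1 - 1) (X.F r.1) (X.S r.1) := fun r =>
      ih (cod C r.1.1) (hd ▸ cod_lt C hΛ (show q.1 < r.1.1 from r.2)) r.1 rfl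
    have hpos := cod_pos C hΛ q.2
    have hle : cod C q.1 ≤ 3 := by rw [← hE]; exact Nat.sub_le _ _
    have hsph := sphere_below hΛ hc X q hr
    rw [hd] at hpos hle hsph
    have h3 : d = 1 ∨ d = 2 ∨ d = 3 := by omega
    rcases h3 with h | h | h
    · subst h
      obtain ⟨x, hx⟩ := sq q hd
      have hSe : X.S q = ∅ := by
        rw [eq_empty_iff_forall_notMem]
        intro y hy
        have h1 : q < X.top y := lt_of_le_of_ne (X.F_top (X.S_sub _ hy)) (Ne.symm hy.2.2)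
        have h2 := cod_lt C hΛ (show q.1 < (X.top y).1 from h1)
        have h3 := cod_pos C hΛ (X.top y).2
        omega
      rw [hSe, hx]
      exact Cb_609.isBall_point x
    · subst h
      exact edge q hd hr hsph
    · subst h
      have hq : cod C q.1 = finrank ℝ E := by rw [hE]; exact hd
      refine side_ball X hcF (finite_up' C q) (d := fun r => cod C r.1 - 1) hr (k := 2)
        (Or.inr rfl) hsph (L := univ) ?_ (mem_univ _) ?_ ?_
      · have : {x | x ∈ S ∧ G x ∈ (univ : Set E)} = S := by ext x; simp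
        rw [this]; exact hS
      · intro t ht _
        exact Tr0.cell_vertex hq t ht
      · intro r hqr hmin
        have hqr' : q.1 < r.1 := hqr
        have h1 := Tr0.convex_diff hΛ hq hqr' fun s hs hsr =>
          congrArg Subtype.val (hmin ⟨s, hsr.trans_lt r.2⟩ hs hsr)
        rw [inter_univ]
        exact ⟨h1.isPreconnected, C.b r.1, C.bmem r.1, fun he =>
          C.b_notMem hqr' (by rw [mem_singleton_iff.1 he]; exact C.bmem q.1)⟩

/-- the data of an edge: the fibre is cut out of a PL circle `{G ∈ L}` -/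
def EdgeData (C : CC Λ Q) (c : Q) (S : Set E') (G : E' → E) (q : {q : Q // q < c}) : Prop :=
  ∃ L : Set E, C.b q.1 ∈ L ∧ (∀ t ∈ C.cell q.1, t ∈ L → t = C.b q.1) ∧
    (∀ r : {q : Q // q < c}, q < r → IsPreconnected ((C.cell r.1 ∩ L) \ {C.b q.1}) ∧
      ((C.cell r.1 ∩ L) \ {C.b q.1}).Nonempty) ∧
    Nonempty (PLEquiv (sph 2) {x | x ∈ S ∧ G x ∈ L})

/-- **ARR2: all fibres are balls** -/
theorem balls_below (hΛ : IsOpen Λ) (hE : finrank ℝ E = 3) (hc : ∀ ρ, c ≤ ρ → ρ = c)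
    (X : Tr0 S (below C c) G) (hS : Nonempty (PLEquiv (sph 3) S)) (hG : ContinuousOn G S)
    (sq : ∀ q : {q : Q // q < c}, cod C q.1 = 1 → ∃ x, X.F q = {x})
    (edge : ∀ q : {q : Q // q < c}, cod C q.1 = 2 → EdgeData C c S G q) :
    ∀ q, IsBall (cod C q.1 - 1) (X.F q) (X.S q) := by
  have hcF : ∀ q, IsCompact (X.F q) := isCompact_F' X (isCompact_of_sphere hS) hG
  refine balls_below' hΛ hE hc X hS hG sq fun q hq hr hsph => ?_
  obtain ⟨L, h1, h2, h3, h4⟩ := edge q hq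
  exact side_ball X hcF (finite_up' C q) (d := fun r => cod C r.1 - 1) hr (k := 1)
    (Or.inl rfl) hsph h4 h1 h2 (fun r hqr _ => h3 r hqr)

/-- 537's transport structure -/
noncomputable def trn_below (X : Tr0 S (below C c) G)
    (h : ∀ q, IsBall (cod C q.1 - 1) (X.F q) (X.S q)) : Trn S (below C c) G :=
  X.trn (C.dim c) (fun q => cod C q.1 - 1) (fun q => (C.dim_lt q.2).le) h

end Crest.Agent.R096.As_241
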