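import Crest.Agent.R096.As3_241

-- ▼ part R096/As4_241
section

/-!
# R096 (row 96), ARR2 part 4 (helper241): top cells and exact cores are balls

`isBall_topcell : IsBall n (C.cell c) (bdc C c)`; `isBall_coreF : IsBall n (coreF C κ c θ)
{y ∈ coreF | sl y c = θ}`.
-/

set_option autoImplicit false
set_option linter.unusedSectionVars false
set_option linter.unusedVariables false
set_option linter.deprecated false

open Set Metric Topology Module
open scoped Classical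

namespace Crest.Agent.R096.As_241

open Crest.Agent.R096.Xp_537
open Crest.Agent.R096.Ce_537 (PLOn PLEquiv cube sph IsBall plOn_affine)
open Crest.Agent.R096.Ar_241
open Crest.Agent.R096.Dl_609 (lc tot tot_eq lc_single tot_single lc_eq_bs tot_wt wt_top bs_top')

variable {E : Type*} [NormedAddCommGroup E] [NormedSpace ℝ E] [FiniteDimensional ℝ E]
  {Q : Type*} [PartialOrder Q] {Λ : Set E}

/-- injective PL images of balls -/
theorem isBall_image_injOn {V W : Type*} [NormedAddCommGroup V] [NormedSpace ℝ V]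
    [NormedAddCommGroup W] [NormedSpace ℝ W] [FiniteDimensional ℝ V] [FiniteDimensional ℝ W]
    {k : ℕ} {X M : Set V} (h : IsBall k X M) {f : V → W} (hf : PLOn f X) (hi : InjOn f X) :
    IsBall k (f '' X) (f '' M) :=
  h.map (Cx_609.equivOfInjOn (Cx_609.isBall_iff.1 h).finConv h.isClosed hf hi)

section top

variable (C : CC Λ Q) (c : Q)

/-- the indices of the proper faces -/
abbrev Dwn (c : Q) := {r : Q // r < c}

lemma finite_dwn (C : CC Λ Q) (c : Q) : Finite (Dwn c) := by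
  have : ({r : Q | r < c}).Finite := (C.dn c).finite_toSet.subset fun r hr => by
    exact Finset.mem_coe.2 (C.mem_dn.2 (le_of_lt hr))
  exact this

/-- weights below `c` completed to total mass one -/
noncomputable def wtc [Fintype (Dwn c)] (l : Dwn c → ℝ) : Q →₀ ℝ :=
  (∑ i, Finsupp.single i.1 (l i)) + Finsupp.single c (1 - ∑ i, l i)

variable {c} [Fintype (Dwn c)]

lemma wtc_lt (l : Dwn c → ℝ) (i : Dwn c) : wtc c l i.1 = l i := by
  unfold wtc
  rw [Finsupp.add_apply, Finsupp.finsetSum_apply, Finsupp.single_eq_of_ne i.2.ne, add_zero]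
  rw [Finset.sum_eq_single i]
  · simp
  · intro j _ hj
    rw [Finsupp.single_eq_of_ne]
    intro h
    exact hj (Subtype.ext h.symm)
  · intro h; exact absurd (Finset.mem_univ i) h

lemma wtc_top (l : Dwn c → ℝ) : wtc c l c = 1 - ∑ i, l i := by
  unfold wtc
  rw [Finsupp.add_apply, Finsupp.finsetSum_apply]
  rw [Finset.sum_eq_zero fun j _ => ?_]
  · simp
  · rw [Finsupp.single_eq_of_ne j.2.ne']

lemma wtc_off (l : Dwn c → ℝ) {ρ : Q} (h1 : ¬ ρ < c) (h2 : ρ ≠ c) : wtc c l ρ = 0 := by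
  unfold wtc
  rw [Finsupp.add_apply, Finsupp.finsetSum_apply, Finsupp.single_eq_of_ne h2, add_zero]
  refine Finset.sum_eq_zero fun j _ => ?_
  rw [Finsupp.single_eq_of_ne]
  intro h
  exact h1 (h ▸ j.2)

lemma tot_wtc (l : Dwn c → ℝ) : tot (wtc c l) = 1 := by
  unfold wtc
  rw [map_add, map_sum, tot_single]
  simp

lemma supp_wtc (l : Dwn c → ℝ) {ρ : Q} (h : ρ ∈ (wtc c l).support) :
    ρ = c ∨ ∃ i : Dwn c, ρ = i.1 ∧ l i ≠ 0 := by
  rw [Finsupp.mem_support_iff] at h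
  by_cases h1 : ρ < c
  · right
    refine ⟨⟨ρ, h1⟩, rfl, ?_⟩
    rw [← wtc_lt l ⟨ρ, h1⟩]
    exact h
  · by_cases h2 : ρ = c
    · exact Or.inl h2
    · exact absurd (wtc_off l h1 h2) h

lemma wt_wtc {l : Dwn c → ℝ} (hl : Chn l) (hs : ∑ i, l i ≤ 1) : Wt (wtc c l) where
  nn ρ := by
    by_cases h1 : ρ < c
    · rw [wtc_lt l ⟨ρ, h1⟩]; exact hl.nn _
    · by_cases h2 : ρ = c
      · rw [h2, wtc_top]; linarith
      · rw [wtc_off l h1 h2]
  sum := by rw [← tot_eq, tot_wtc]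
  chain ρ hρ σ hσ := by
    rcases supp_wtc l hρ with rfl | ⟨i, rfl, hi⟩ <;> rcases supp_wtc l hσ with rfl | ⟨j, rfl, hj⟩
    · exact Or.inl le_rfl
    · exact Or.inr j.2.le
    · exact Or.inl i.2.le
    · exact hl.ch i j hi hj

/-- the linear map of the differences -/
noncomputable def dif (C : CC Λ Q) (c : Q) [Fintype (Dwn c)] : (Dwn c → ℝ) →ₗ[ℝ] E :=
  ∑ i, (LinearMap.proj i : (Dwn c → ℝ) →ₗ[ℝ] ℝ).smulRight (C.b i.1 - C.b c)

lemma dif_apply (l : Dwn c → ℝ) : dif C c l = ∑ i, l i • (C.b i.1 - C.b c) := by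
  simp [dif, LinearMap.sum_apply]

lemma bs_wtc (l : Dwn c → ℝ) : bs C.b (wtc c l) = C.b c + dif C c l := by
  rw [← lc_eq_bs, dif_apply]
  unfold wtc
  rw [map_add, map_sum, lc_single]
  simp only [lc_single]
  simp only [smul_sub, Finset.sum_sub_distrib, ← Finset.sum_smul]
  module

/-- every point of the cell is a combination -/
lemma exists_dif {y : E} (hy : y ∈ C.cell c) : ∃ l : Dwn c → ℝ, Chn l ∧ ∑ i, l i ≤ 1 ∧
    C.b c + dif C c l = y ∧ (y ∈ bdc C c → ∑ i, l i = 1) := by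
  obtain ⟨h1, h2, h3⟩ := bc_spec C hy
  have hl : wtc c (fun i : Dwn c => bc C y i.1) = bc C y := by
    have hsum : ∑ i : Dwn c, bc C y i.1 + bc C y c = 1 := by
      have h5 := tot_wt h1
      have h6 : bc C y = (∑ i : Dwn c, Finsupp.single i.1 (bc C y i.1)) +
          Finsupp.single c (bc C y c) := by
        ext ρ
        rw [Finsupp.add_apply, Finsupp.finsetSum_apply]
        by_cases h7 : ρ < c
        · rw [Finsupp.single_eq_of_ne h7.ne, add_zero, Finset.sum_eq_single ⟨ρ, h7⟩]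
          · simp
          · intro j _ hj
            rw [Finsupp.single_eq_of_ne]
            intro h
            exact hj (Subtype.ext h.symm)
          · intro h; exact absurd (Finset.mem_univ _) h
        · have h8 : ∑ i : Dwn c, (Finsupp.single i.1 (bc C y i.1)) ρ = 0 := by
            refine Finset.sum_eq_zero fun j _ => ?_
            rw [Finsupp.single_eq_of_ne]
            intro h
            exact h7 (h ▸ j.2)
          rw [h8, zero_add]
          by_cases h9 : ρ = c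
          · subst h9; simp
          · rw [Finsupp.single_eq_of_ne h9]
            by_contra hne
            exact h7 (lt_of_le_of_ne (h3 ρ (Finsupp.mem_support_iff.2 hne)) h9)
      rw [h6, map_add, map_sum, tot_single] at h5
      simpa using h5
    ext ρ
    by_cases h7 : ρ < c
    · rw [wtc_lt _ ⟨ρ, h7⟩]
    · by_cases h9 : ρ = c
      · rw [h9, wtc_top]; linarith
      · rw [wtc_off _ h7 h9]
        by_contra hne
        exact h7 (lt_of_le_of_ne (h3 ρ (Finsupp.mem_support_iff.2 (Ne.symm hne))) h9)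
  refine ⟨fun i => bc C y i.1, ⟨fun i => h1.nn _, fun i j hi hj => ?_⟩, ?_, ?_, ?_⟩
  · exact h1.chain _ (Finsupp.mem_support_iff.2 hi) _ (Finsupp.mem_support_iff.2 hj)
  · have h4 := wtc_top (c := c) (fun i : Dwn c => bc C y i.1)
    rw [hl] at h4
    have := h1.nn c
    linarith
  · rw [← bs_wtc, hl, h2]
  · intro hyb
    obtain ⟨p, hp⟩ := mem_iUnion.1 hyb
    have h4 := wtc_top (c := c) (fun i : Dwn c => bc C y i.1)
    rw [hl] at h4
    have h5 : bc C y c = 0 := by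
      by_contra hne
      have h6 := (bc_spec C hp).2.2 c (Finsupp.mem_support_iff.2 hne)
      exact absurd p.2 (not_lt_of_ge h6)
    linarith

lemma dif_mem {l : Dwn c → ℝ} (hl : Chn l) (hs : ∑ i, l i ≤ 1) :
    C.b c + dif C c l ∈ C.cell c ∧ (∑ i, l i = 1 → C.b c + dif C c l ∈ bdc C c) := by
  have h1 := wt_wtc hl hs
  have hle : ∀ ρ ∈ (wtc c l).support, ρ ≤ c := by
    intro ρ hρ
    rcases supp_wtc l hρ with rfl | ⟨i, rfl, hi⟩
    · exact le_rfl
    · exact i.2.le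
  refine ⟨by rw [← bs_wtc]; exact bs_mem C h1 hle, fun h2 => ?_⟩
  obtain ⟨p, hp, hpm⟩ := h1.exists_max
  have hpc : p < c := by
    rcases supp_wtc l hp with h3 | ⟨i, rfl, hi⟩
    · exfalso
      apply Finsupp.mem_support_iff.1 hp
      rw [h3, wtc_top, h2]; ring
    · exact i.2
  rw [← bs_wtc]
  exact mem_iUnion.2 ⟨⟨p, hpc⟩, bs_mem C h1 hpm⟩

lemma dif_inj {l l' : Dwn c → ℝ} (hl : Chn l) (hl' : Chn l') (hs : ∑ i, l i ≤ 1)
    (hs' : ∑ i, l' i ≤ 1) (h : dif C c l = dif C c l') : l = l' := by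
  have h1 : wtc c l = wtc c l' := bs_inj C (wt_wtc hl hs) (wt_wtc hl' hs') (by
    rw [bs_wtc, bs_wtc, h])
  funext i
  rw [← wtc_lt l i, h1, wtc_lt]

/-- **top cells are balls** -/
theorem isBall_topcell (hΛ : IsOpen Λ) (hc : ∀ ρ, c ≤ ρ → ρ = c) :
    IsBall (finrank ℝ E) (C.cell c) (bdc C c) := by
  set n := finrank ℝ E with hn
  let b : E ≃ₗ[ℝ] (Fin n → ℝ) := (finBasis ℝ E).equivFun
  let L : (Dwn c → ℝ) →ₗ[ℝ] (Fin n → ℝ) := b.toLinearMap.comp (dif C c)
  have hLe : ∀ l, L l = b (dif C c l) := fun l => rfl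
  have hsmall : ∀ l l' : Dwn c → ℝ, Chn l → Chn l' → ∃ τ > (0:ℝ), ∑ i, (τ • l) i ≤ 1 ∧
      ∑ i, (τ • l') i ≤ 1 := by
    intro l l' hl hl'
    have h1 : 0 ≤ ∑ i, l i := Finset.sum_nonneg fun i _ => hl.nn i
    have h2 : 0 ≤ ∑ i, l' i := Finset.sum_nonneg fun i _ => hl'.nn i
    refine ⟨(1 + ∑ i, l i + ∑ i, l' i)⁻¹, by positivity, ?_, ?_⟩
    · simp only [Pi.smul_apply, smul_eq_mul, ← Finset.mul_sum]
      rw [inv_mul_le_iff₀ (by positivity)]; linarith
    · simp only [Pi.smul_apply, smul_eq_mul, ← Finset.mul_sum]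
      rw [inv_mul_le_iff₀ (by positivity)]; linarith
  have hL : ∀ a, ∃ l, Chn l ∧ L l = a := by
    intro a
    obtain ⟨ε, hε, hsub, hnear⟩ := exists_near C hΛ c
    obtain ⟨τ, hτ, hball⟩ := exists_smul_near (x := C.b c) (v := b.symm a) hε
    have h1 := hball τ hτ.le le_rfl
    obtain ⟨s, hs⟩ := C.cover _ (hsub h1)
    have h2 : s = c := hc s (hnear _ h1 s hs)
    rw [h2] at hs
    obtain ⟨l, hl, -, he, -⟩ := exists_dif C hs
    refine ⟨τ⁻¹ • l, hl.smul (inv_nonneg.2 hτ.le), ?_⟩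
    rw [hLe, map_smul, add_left_cancel he, smul_smul, inv_mul_cancel₀ hτ.ne', one_smul,
      b.apply_symm_apply]
  have hU : ∀ l l', Chn l → Chn l' → L l = L l' → l = l' := by
    intro l l' hl hl' he
    obtain ⟨τ, hτ, h1, h2⟩ := hsmall l l' hl hl'
    rw [hLe, hLe] at he
    have h3 := b.injective he
    have h4 := dif_inj C (hl.smul hτ.le) (hl'.smul hτ.le) h1 h2 (by rw [map_smul, map_smul, h3])
    exact smul_right_injective _ hτ.ne' h4
  have hb := ball_of_model L hL hU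
  let A : (Dwn c → ℝ) →ᵃ[ℝ] E := (dif C c).toAffineMap + AffineMap.const ℝ _ (C.b c)
  have hA : ∀ l, A l = C.b c + dif C c l := fun l => by
    show dif C c l + C.b c = _
    rw [add_comm]
  have h1 := isBall_image_injOn hb (plOn_affine A _) (fun l hl l' hl' he => by
    have he' : A l = A l' := he
    rw [hA, hA] at he'
    exact dif_inj C hl.1 hl'.1 hl.2 hl'.2 (add_left_cancel he'))
  have e1 : (fun x => A x) '' {l : Dwn c → ℝ | Chn l ∧ ∑ i, l i ≤ 1} = C.cell c := by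
    ext y
    constructor
    · rintro ⟨l, hl, rfl⟩
      show A l ∈ _
      rw [hA]; exact (dif_mem C hl.1 hl.2).1
    · intro hy
      obtain ⟨l, hl, hs, he, -⟩ := exists_dif C hy
      exact ⟨l, ⟨hl, hs⟩, by show A l = y; rw [hA]; exact he⟩
  have e2 : (fun x => A x) '' {l : Dwn c → ℝ | Chn l ∧ ∑ i, l i = 1} = bdc C c := by
    ext y
    constructor
    · rintro ⟨l, hl, rfl⟩
      show A l ∈ _
      rw [hA]; exact (dif_mem C hl.1 hl.2.le).2 hl.2
    · intro hy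
      obtain ⟨p, hp⟩ := mem_iUnion.1 hy
      obtain ⟨l, hl, hs, he, h2⟩ := exists_dif C (C.mono p.2 hp)
      exact ⟨l, ⟨hl, h2 hy⟩, by show A l = y; rw [hA]; exact he⟩
  rwa [e1, e2] at h1

end top

end Crest.Agent.R096.As_241
end

-- ▼ part R096/As5_241
section

/-!
# R096 (row 96), ARR2 part 5 (helper241): the exact core is a ball

`isBall_coreF : IsBall n (coreF C κ c θ) {y ∈ coreF | sl y c = θ}` for a top cell `c`.
-/

set_option autoImplicit false
set_option linter.unusedSectionVars false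
set_option linter.unusedVariables false
set_option linter.deprecated false

open Set Metric Topology Module
open scoped Classical

namespace Crest.Agent.R096.As_241

open Crest.Agent.R096.Xp_537
open Crest.Agent.R096.Ce_537 (PLOn PLEquiv cube sph IsBall plOn_affine plOn_id plOn_const)
open Crest.Agent.R096.Bd_416 (pl_add pl_smul)
open Crest.Agent.R096.Ar_241
open Crest.Agent.R096.Dl_609 (lc tot tot_eq lc_single tot_single lc_eq_bs tot_wt wt_top bs_top')

variable {E : Type*} [NormedAddCommGroup E] [NormedSpace ℝ E] [FiniteDimensional ℝ E]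
  {Q : Type*} [PartialOrder Q] {Λ : Set E} {C : CC Λ Q} {c : Q} {κ θ : ℝ}

/-- removing mass at the top -/
lemma exists_unmix {m : Q →₀ ℝ} (hm : Wt m) (h0 : 0 ≤ θ) (hθ : θ < 1) (h : θ ≤ m c) :
    ∃ l, Wt l ∧ m = (1 - θ) • l + Finsupp.single c θ ∧ (∀ ρ ∈ l.support, ρ ∈ m.support) ∧
      l c = (1 - θ)⁻¹ * (m c - θ) := by
  have h1' : 0 < 1 - θ := by linarith
  set l : Q →₀ ℝ := (1 - θ)⁻¹ • (m - Finsupp.single c θ) with hl
  have hlc : l c = (1 - θ)⁻¹ * (m c - θ) := by simp [hl]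
  have hlne : ∀ ρ, ρ ≠ c → l ρ = (1 - θ)⁻¹ * m ρ := fun ρ h => by
    simp [hl, Finsupp.single_eq_of_ne h]
  have hsub : ∀ ρ ∈ l.support, ρ ∈ m.support := by
    intro ρ hρ
    by_cases h2 : ρ = c
    · subst h2
      rw [Finsupp.mem_support_iff]
      intro h3
      apply Finsupp.mem_support_iff.1 hρ
      have h4 : θ = 0 := le_antisymm (by rw [← h3]; exact h) h0
      rw [hlc, h3, h4]; ring
    · rw [Finsupp.mem_support_iff]
      intro h3
      apply Finsupp.mem_support_iff.1 hρ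
      rw [hlne ρ h2, h3, mul_zero]
  refine ⟨l, ⟨fun ρ => ?_, ?_, fun ρ hρ σ hσ => hm.chain ρ (hsub ρ hρ) σ (hsub σ hσ)⟩, ?_,
    hsub, hlc⟩
  · by_cases h2 : ρ = c
    · subst h2; rw [hlc]
      exact mul_nonneg (inv_nonneg.2 h1'.le) (by linarith)
    · rw [hlne ρ h2]
      exact mul_nonneg (inv_nonneg.2 h1'.le) (hm.nn ρ)
  · rw [← tot_eq, hl, map_smul, map_sub, tot_single, tot_wt hm, smul_eq_mul,
      inv_mul_cancel₀ h1'.ne']
  · rw [hl, smul_smul, mul_inv_cancel₀ h1'.ne', one_smul, sub_add_cancel]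

/-- adding mass at the top of a state -/
lemma mix_state {l : Q →₀ ℝ} {t : E} (h : State C l t) (hle : ∀ ρ ∈ l.support, ρ ≤ c)
    (h0 : 0 ≤ θ) (hθ : θ < 1) : State C ((1 - θ) • l + Finsupp.single c θ) t ∧
      (∀ ρ ∈ ((1 - θ) • l + Finsupp.single c θ).support, ρ ≤ c) ∧
      ((1 - θ) • l + Finsupp.single c θ) c = (1 - θ) * l c + θ := by
  have hwt := wt_top h.wt hle h0 hθ.le
  have hs : ∀ ρ ∈ ((1 - θ) • l + Finsupp.single c θ).support, ρ = c ∨ ρ ∈ l.support := by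
    intro ρ hρ
    by_contra hcon
    push Not at hcon
    apply Finsupp.mem_support_iff.1 hρ
    simp [Finsupp.notMem_support_iff.1 hcon.2, Finsupp.single_eq_of_ne hcon.1]
  obtain ⟨p, hp⟩ := h.wt.nonempty
  have htc : t ∈ C.cell c := C.mono_le (hle p hp) (h.mem p hp)
  refine ⟨⟨hwt.nn, hwt.sum, hwt.chain, fun ρ hρ => ?_⟩, fun ρ hρ => ?_, by simp⟩
  · rcases hs ρ hρ with rfl | h2
    · exact htc
    · exact h.mem ρ h2
  · rcases hs ρ hρ with rfl | h2
    · exact le_rfl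
    · exact hle ρ h2

lemma mix_inj {l l' : Q →₀ ℝ} (hθ : θ < 1)
    (h : (1 - θ) • l + Finsupp.single c θ = (1 - θ) • l' + Finsupp.single c θ) : l = l' := by
  have h1 := add_right_cancel h
  exact smul_right_injective _ (by linarith : (1 - θ) ≠ 0) h1

/-- `sl y c = 0` iff `y` is in the boundary -/
lemma sl_zero_iff (hκ : 0 < κ ∧ κ < 1) {y : E} (hy : y ∈ C.cell c) :
    sl C κ y c = 0 ↔ y ∈ bdc C c := by
  obtain ⟨k1, k2, k3⟩ := st_spec C hκ hy
  constructor
  · intro h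
    obtain ⟨p, hp, hpm⟩ := k1.wt.exists_max
    have hpc : p < c := lt_of_le_of_ne (k3 p hp) (by
      rintro rfl; exact Finsupp.mem_support_iff.1 hp h)
    refine mem_iUnion.2 ⟨⟨p, hpc⟩, ?_⟩
    show y ∈ C.cell p
    rw [← k2]
    exact pk_mem C hκ k1 hpm
  · intro h
    obtain ⟨p, hp⟩ := mem_iUnion.1 h
    by_contra hne
    have := (st_spec C hκ hp).2.2 c (Finsupp.mem_support_iff.2 hne)
    exact absurd p.2 (not_lt_of_ge this)

/-- the retraction of the cell onto the core -/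
noncomputable def shr (C : CC Λ Q) (κ θ : ℝ) (c : Q) (y : E) : E :=
  pk C κ ((1 - θ) • sl C κ y + Finsupp.single c θ) (st C κ y)

lemma shr_eq (hκ : 0 < κ ∧ κ < 1) {y : E} (hy : y ∈ C.cell c) : shr C κ θ c y =
    ((1 - θ) • y + (θ * (1 - κ)) • st C κ y) + (κ * θ) • C.b c := by
  obtain ⟨k1, k2, k3⟩ := st_spec C hκ hy
  have h2 : (1 - θ) • y = (1 - θ) • ((1 - κ) • st C κ y + κ • bs C.b (sl C κ y)) :=
    congrArg (fun z => (1 - θ) • z) k2.symm
  rw [h2]
  unfold shr pk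
  rw [bs_top']
  module

lemma shr_spec (hκ : 0 < κ ∧ κ < 1) (h0 : 0 ≤ θ) (hθ : θ < 1) {y : E} (hy : y ∈ C.cell c) :
    shr C κ θ c y ∈ coreF C κ c θ ∧
      sl C κ (shr C κ θ c y) = (1 - θ) • sl C κ y + Finsupp.single c θ ∧
      st C κ (shr C κ θ c y) = st C κ y ∧ sl C κ (shr C κ θ c y) c = (1 - θ) * sl C κ y c + θ := by
  obtain ⟨k1, k2, k3⟩ := st_spec C hκ hy
  obtain ⟨m1, m2, m3⟩ := mix_state (θ := θ) k1 k3 h0 hθ
  have e1 : sl C κ (shr C κ θ c y) = (1 - θ) • sl C κ y + Finsupp.single c θ := sl_pk C hκ m1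
  refine ⟨⟨pk_mem C hκ m1 m2, ?_⟩, e1, st_pk C hκ m1, by rw [e1]; exact m3⟩
  rw [e1, m3]
  have := mul_nonneg (sub_nonneg.2 hθ.le) (k1.nn c)
  linarith

/-- **the exact core is a ball** -/
theorem isBall_coreF (hΛ : IsOpen Λ) (hc : ∀ ρ, c ≤ ρ → ρ = c) (hκ : 0 < κ ∧ κ < 1)
    (h0 : 0 ≤ θ) (hθ : θ < 1) :
    IsBall (finrank ℝ E) (coreF C κ c θ) {y | y ∈ coreF C κ c θ ∧ sl C κ y c = θ} := by
  have := finite_dwn C c
  let _ : Fintype (Dwn c) := Fintype.ofFinite _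
  have hb := isBall_topcell C hΛ hc
  have hpl : PLOn (shr C κ θ c) (C.cell c) := by
    refine (pl_add (pl_add (pl_smul (1 - θ) (plOn_id _)) (pl_smul (θ * (1 - κ))
      (plOn_st C hκ c))) (plOn_const ((κ * θ) • C.b c) _)).congr fun y hy => ?_
    exact shr_eq hκ hy
  have hinj : InjOn (shr C κ θ c) (C.cell c) := by
    intro y hy y' hy' he
    obtain ⟨-, a2, a3, -⟩ := shr_spec hκ h0 hθ hy
    obtain ⟨-, b2, b3, -⟩ := shr_spec hκ h0 hθ hy'
    have h1 : sl C κ y = sl C κ y' := mix_inj hθ (by rw [← a2, ← b2, he])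
    have h2 : st C κ y = st C κ y' := by rw [← a3, ← b3, he]
    rw [← (st_spec C hκ hy).2.1, ← (st_spec C hκ hy').2.1, h1, h2]
  have h1 := isBall_image_injOn hb hpl hinj
  have hpre : ∀ z ∈ coreF C κ c θ, ∃ y ∈ C.cell c, shr C κ θ c y = z := by
    rintro z ⟨hz, hzθ⟩
    obtain ⟨k1, k2, k3⟩ := st_spec C hκ hz
    obtain ⟨l, l1, l2, l3, l4⟩ := exists_unmix k1.wt h0 hθ hzθ
    have hst : State C l (st C κ z) := ⟨l1.nn, l1.sum, l1.chain, fun ρ hρ => k1.mem ρ (l3 ρ hρ)⟩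
    refine ⟨pk C κ l (st C κ z), pk_mem C hκ hst fun ρ hρ => k3 ρ (l3 ρ hρ), ?_⟩
    unfold shr
    rw [sl_pk C hκ hst, st_pk C hκ hst, ← l2, k2]
  have e1 : shr C κ θ c '' C.cell c = coreF C κ c θ := by
    ext z
    constructor
    · rintro ⟨y, hy, rfl⟩; exact (shr_spec hκ h0 hθ hy).1
    · intro hz
      obtain ⟨y, hy, he⟩ := hpre z hz
      exact ⟨y, hy, he⟩
  have e2 : shr C κ θ c '' bdc C c = {y | y ∈ coreF C κ c θ ∧ sl C κ y c = θ} := by
    ext z
    constructor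
    · rintro ⟨y, hy, rfl⟩
      obtain ⟨p, hp⟩ := mem_iUnion.1 hy
      have hyc : y ∈ C.cell c := C.mono p.2 hp
      obtain ⟨s1, -, -, s4⟩ := shr_spec hκ h0 hθ hyc
      refine ⟨s1, ?_⟩
      rw [s4, (sl_zero_iff hκ hyc).2 hy]; ring
    · rintro ⟨hz, hz'⟩
      obtain ⟨y, hy, rfl⟩ := hpre z hz
      refine ⟨y, (sl_zero_iff hκ hy).1 ?_, rfl⟩
      have h4 := (shr_spec hκ h0 hθ hy).2.2.2
      rw [hz'] at h4
      have h5 : (1 - θ) * sl C κ y c = 0 := by linarith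
      exact (mul_eq_zero.1 h5).resolve_left (by linarith)
  rwa [e1, e2] at h1

end Crest.Agent.R096.As_241
end

-- ▼ part R096/As6_241

/-!
# R096 (row 96), ARR2 part 6 (helper241): the tiny core

`exists_Th`: a transport structure with ball fibres on the boundary sphere `S` of a PL ball `K` over
the proper faces of the top cell `c` extends to the exact structure on `K` : there is
`Th : PLEquiv K (coreF C κ c θ)`, `S = {sl (Th x) c = θ}`, and on `S` the exact structure of `Th` is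
the given one.
-/

set_option autoImplicit false
set_option linter.unusedSectionVars false
set_option linter.unusedVariables false
set_option linter.deprecated false

open Set Metric Topology Module
open scoped Classical

namespace Crest.Agent.R096.As_241

open Crest.Agent.R096.Xp_537
open Crest.Agent.R096.Ce_537 (PLOn PLEquiv cube sph IsBall plOn_affine plOn_id plOn_const
  plOn_biUnion)
open Crest.Agent.R096.Bd_416 (pl_add pl_smul pl_sum pl_clm)
open Crest.Agent.R096.Ar_241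
open Crest.Agent.R096.Dl_609 (lc tot tot_eq lc_single tot_single lc_eq_bs tot_wt wt_top bs_top')

variable {E : Type*} [NormedAddCommGroup E] [NormedSpace ℝ E] [FiniteDimensional ℝ E]
  {E' : Type*} [NormedAddCommGroup E'] [NormedSpace ℝ E'] [FiniteDimensional ℝ E']
  {Q : Type*} [PartialOrder Q] {Λ : Set E} {C : CC Λ Q} {c : Q} {κ θ : ℝ}
  {S K : Set E'} {G : E' → E}

/-- weights on the proper faces as weights on all cells -/
noncomputable def emb (c : Q) (l : {q : Q // q < c} →₀ ℝ) : Q →₀ ℝ :=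
  l.embDomain ⟨Subtype.val, Subtype.val_injective⟩

lemma emb_apply (l : {q : Q // q < c} →₀ ℝ) (q : {q : Q // q < c}) : emb c l q.1 = l q :=
  Finsupp.embDomain_apply_self ⟨Subtype.val, Subtype.val_injective⟩ l q

lemma emb_off (l : {q : Q // q < c} →₀ ℝ) {ρ : Q} (h : ¬ ρ < c) : emb c l ρ = 0 := by
  refine Finsupp.embDomain_of_notMem_range _ _ _ ?_
  rintro ⟨q, rfl⟩
  exact h q.2

lemma emb_supp (l : {q : Q // q < c} →₀ ℝ) {ρ : Q} (h : ρ ∈ (emb c l).support) :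
    ∃ q : {q : Q // q < c}, q.1 = ρ ∧ q ∈ l.support := by
  rw [Finsupp.mem_support_iff] at h
  by_cases h1 : ρ < c
  · refine ⟨⟨ρ, h1⟩, rfl, ?_⟩
    rw [Finsupp.mem_support_iff, ← emb_apply l ⟨ρ, h1⟩]
    exact h
  · exact absurd (emb_off l h1) h

lemma emb_inj : Function.Injective (emb c) := Finsupp.embDomain_injective _

lemma emb_sum {M : Type*} [AddCommMonoid M] (l : {q : Q // q < c} →₀ ℝ) (g : Q → ℝ → M)
    : ∑ ρ ∈ (emb c l).support, g ρ (emb c l ρ) = ∑ q ∈ l.support, g q.1 (l q) := by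
  unfold emb
  rw [Finsupp.support_embDomain, Finset.sum_map]
  refine Finset.sum_congr rfl fun q _ => ?_
  rw [Finsupp.embDomain_apply_self]
  rfl

lemma emb_wt {l : {q : Q // q < c} →₀ ℝ} (h : Wt l) : Wt (emb c l) where
  nn ρ := by
    by_cases h1 : ρ < c
    · rw [emb_apply l ⟨ρ, h1⟩]; exact h.nn _
    · rw [emb_off l h1]
  sum := by
    rw [emb_sum l (fun _ x => x)]; exact h.sum
  chain ρ hρ σ hσ := by
    obtain ⟨q, rfl, hq⟩ := emb_supp l hρ
    obtain ⟨r, rfl, hr⟩ := emb_supp l hσ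
    exact h.chain q hq r hr

lemma emb_state {l : {q : Q // q < c} →₀ ℝ} {t : E} (h : State (below C c) l t) :
    State C (emb c l) t := by
  have h1 := emb_wt h.wt
  refine ⟨h1.nn, h1.sum, h1.chain, fun ρ hρ => ?_⟩
  obtain ⟨q, rfl, hq⟩ := emb_supp l hρ
  exact h.mem q hq

lemma bs_emb (l : {q : Q // q < c} →₀ ℝ) : bs C.b (emb c l) = bs (below C c).b l := by
  unfold bs
  rw [emb_sum l (fun ρ x => x • C.b ρ)]
  rfl

section T

variable (T : Trn S (below C c) G)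

/-- the weights on the core -/
noncomputable def Mw (θ : ℝ) (x : E') : Q →₀ ℝ :=
  (1 - θ) • emb c (T.expl.LAM x) + Finsupp.single c θ

/-- the boundary homeomorphism -/
noncomputable def thS (κ θ : ℝ) (x : E') : E := pk C κ (Mw T θ x) (G x)

variable {T}

lemma Mw_state (h0 : 0 ≤ θ) (hθ : θ < 1) {x : E'} (hx : x ∈ S) :
    State C (Mw T θ x) (G x) ∧ (∀ ρ ∈ (Mw T θ x).support, ρ ≤ c) ∧ Mw T θ x c = θ := by
  have h1 := emb_state (T.expl.LAM_state hx)
  obtain ⟨a, b, d⟩ := mix_state (c := c) (θ := θ) h1 (fun ρ hρ => by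
    obtain ⟨q, rfl, -⟩ := emb_supp _ hρ
    exact q.2.le) h0 hθ
  refine ⟨a, b, ?_⟩
  have h2 : emb c (T.expl.LAM x) c = 0 := emb_off _ (lt_irrefl c)
  rw [h2] at d
  simpa [Mw] using d

lemma thS_sl (hκ : 0 < κ ∧ κ < 1) (h0 : 0 ≤ θ) (hθ : θ < 1) {x : E'} (hx : x ∈ S) :
    sl C κ (thS T κ θ x) = Mw T θ x ∧ st C κ (thS T κ θ x) = G x := by
  obtain ⟨a, b, d⟩ := Mw_state (T := T) h0 hθ hx
  exact ⟨sl_pk C hκ a, st_pk C hκ a⟩

lemma thS_mem (hκ : 0 < κ ∧ κ < 1) (h0 : 0 ≤ θ) (hθ : θ < 1) {x : E'} (hx : x ∈ S) :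
    thS T κ θ x ∈ coreF C κ c θ ∧ sl C κ (thS T κ θ x) c = θ := by
  obtain ⟨a, b, d⟩ := Mw_state (T := T) h0 hθ hx
  have h1 := (thS_sl (T := T) hκ h0 hθ hx).1
  refine ⟨⟨pk_mem C hκ a b, ?_⟩, ?_⟩
  · rw [h1, d]
  · rw [h1, d]

lemma thS_inj (hκ : 0 < κ ∧ κ < 1) (h0 : 0 ≤ θ) (hθ : θ < 1) : InjOn (thS T κ θ) S := by
  intro x hx y hy he
  obtain ⟨a1, a2⟩ := thS_sl (T := T) hκ h0 hθ hx
  obtain ⟨b1, b2⟩ := thS_sl (T := T) hκ h0 hθ hy
  have h1 : Mw T θ x = Mw T θ y := by rw [← a1, ← b1, he]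
  have h2 : G x = G y := by rw [← a2, ← b2, he]
  exact T.expl.LAM_inj hx hy (emb_inj (mix_inj hθ h1)) h2

lemma thS_surj (hκ : 0 < κ ∧ κ < 1) (h0 : 0 ≤ θ) (hθ : θ < 1) {y : E}
    (hy : y ∈ coreF C κ c θ) (hyθ : sl C κ y c = θ) : ∃ x ∈ S, thS T κ θ x = y := by
  obtain ⟨k1, k2, k3⟩ := st_spec C hκ hy.1
  obtain ⟨l, l1, l2, l3, l4⟩ := exists_unmix k1.wt h0 hθ hyθ.ge
  have hlc : l c = 0 := by rw [l4, hyθ]; ring
  have hlt : ∀ ρ ∈ l.support, ρ < c := fun ρ hρ => lt_of_le_of_ne (k3 ρ (l3 ρ hρ)) (by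
    rintro rfl; exact Finsupp.mem_support_iff.1 hρ hlc)
  set l' : {q : Q // q < c} →₀ ℝ := l.subtypeDomain (fun q => q < c) with hl'
  have hl'v : ∀ q : {q : Q // q < c}, l' q = l q.1 := fun q => rfl
  have he : emb c l' = l := by
    ext ρ
    by_cases h1 : ρ < c
    · rw [emb_apply l' ⟨ρ, h1⟩]; rfl
    · rw [emb_off l' h1]
      by_contra hne
      exact h1 (hlt ρ (Finsupp.mem_support_iff.2 (Ne.symm hne)))
  have hsup : ∀ q, q ∈ l'.support → q.1 ∈ l.support := fun q hq =>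
    Finsupp.mem_support_iff.2 (by rw [← hl'v]; exact Finsupp.mem_support_iff.1 hq)
  have hst : State (below C c) l' (st C κ y) := by
    refine ⟨fun q => l1.nn _, ?_, fun q hq r hr => l1.chain _ (hsup q hq) _ (hsup r hr),
      fun q hq => k1.mem _ (l3 _ (hsup q hq))⟩
    have h2 := emb_sum l' (fun _ x => x)
    rw [he] at h2
    rw [← h2]; exact l1.sum
  obtain ⟨q, -, x, hx, hL, hG⟩ := T.expl.LAM_surj hst
  refine ⟨x, T.expl.sub q hx, ?_⟩
  unfold thS Mw
  rw [hL, hG, he, ← l2, k2]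

lemma thS_pl (hκ : 0 < κ ∧ κ < 1) : PLOn (thS T κ θ) S := by
  have := finite_dwn C c
  let _ : Fintype (Dwn c) := Fintype.ofFinite _
  have hfin : (univ : Set {q : Q // q < c}).Finite := Set.finite_univ
  have h1 : ∀ q, PLOn (thS T κ θ) (T.expl.P q) := by
    intro q
    have h2 : PLOn (fun x => ∑ ρ : {q : Q // q < c}, T.expl.LAM x ρ • C.b ρ.1) (T.expl.P q) :=
      pl_sum _ fun ρ _ => pl_clm (T.expl.plOn_LAM q ρ)
        ((ContinuousLinearMap.id ℝ ℝ).smulRight (C.b ρ.1))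
    refine (pl_add (pl_smul (1 - κ) (T.expl.plOn_G q)) (pl_smul κ (pl_add (pl_smul (1 - θ) h2)
      (plOn_const (θ • C.b c) _)))).congr fun x hx => ?_
    show thS T κ θ x = (1 - κ) • G x + κ • ((1 - θ) • (∑ ρ : {q : Q // q < c},
      T.expl.LAM x ρ • C.b ρ.1) + θ • C.b c)
    unfold thS pk Mw
    rw [bs_top', bs_emb]
    have h3 : bs (below C c).b (T.expl.LAM x) = ∑ ρ : {q : Q // q < c}, T.expl.LAM x ρ • C.b ρ.1 :=
      bs_eq_of (Finset.subset_univ _)
    rw [h3]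
  have h2 := plOn_biUnion (K := fun q => T.expl.P q) univ hfin (fun q _ => h1 q)
    (fun q _ => (T.expl.isCompact_P q).isClosed)
  refine h2.mono fun x hx => ?_
  obtain ⟨q, hq⟩ := T.expl.cover x hx
  exact mem_biUnion (mem_univ q) hq

/-- the min of the weights is the top -/
lemma Mw_mn (h0 : 0 ≤ θ) (hθ : θ < 1) {x : E'} (hx : x ∈ S) :
    mn c (Mw T θ x) = (T.top x).1 := by
  have htop : T.expl.IsTop x (T.top x) :=
    ⟨⟨hx, le_rfl, T.G_mem x hx⟩, fun q hq => hq.2.1⟩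
  obtain ⟨h1, h2⟩ := T.expl.LAM_top htop
  obtain ⟨a, b, d⟩ := Mw_state (T := T) h0 hθ hx
  have hval : ∀ q : {q : Q // q < c}, Mw T θ x q.1 = (1 - θ) * T.expl.LAM x q := by
    intro q
    unfold Mw
    rw [Finsupp.add_apply, Finsupp.smul_apply, smul_eq_mul, emb_apply,
      Finsupp.single_eq_of_ne q.2.ne, add_zero]
  refine mn_eq c a.wt ?_ ?_
  · rw [Finsupp.mem_support_iff, hval]
    exact mul_ne_zero (by linarith) (Finsupp.mem_support_iff.1 h1)
  · intro ρ hρ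
    by_cases hρc : ρ < c
    · have h3 : (⟨ρ, hρc⟩ : {q : Q // q < c}) ∈ (T.expl.LAM x).support := by
        rw [Finsupp.mem_support_iff]
        intro h4
        apply Finsupp.mem_support_iff.1 hρ
        rw [hval ⟨ρ, hρc⟩, h4, mul_zero]
      exact h2 _ h3
    · have h3 : ρ = c := (b ρ hρ).lt_or_eq.resolve_left hρc
      rw [h3]; exact (T.top x).2.le

/-- the weights are invariant under the transports -/
lemma LAM_tr {x : E'} (hx : x ∈ S) {t : E} (ht : t ∈ C.cell (T.top x).1) :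
    T.expl.LAM (T.tr x t) = T.expl.LAM x := by
  have htop : x ∈ T.expl.P (T.top x) := ⟨hx, le_rfl, T.G_mem x hx⟩
  have h1 : T.tr x t ∈ T.expl.P (T.top x) :=
    ⟨T.tr_mem x hx t ht, T.tr_top x hx t ht, by rw [T.tr_G x hx t ht]; exact ht⟩
  rw [T.expl.LAM_eq htop, T.expl.LAM_eq h1]
  congr 1
  show T.tr (T.tr x t) _ = T.tr x _
  exact T.tr_tr x hx t ht _ (C.bmem _)

variable (T)

/-- **the tiny core**: extension of the structure on the boundary sphere to the exact structure -/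
theorem exists_Th (hΛ : IsOpen Λ) (hc : ∀ ρ, c ≤ ρ → ρ = c) (hκ : 0 < κ ∧ κ < 1) (h0 : 0 ≤ θ)
    (hθ : θ < 1) (hK : IsBall (finrank ℝ E) K S) :
    ∃ Th : PLEquiv K (coreF C κ c θ), (∀ x ∈ K, x ∈ S ↔ sl C κ (Th.f x) c = θ) ∧
      (∀ x ∈ S, Th.f x = thS T κ θ x) ∧
      ∀ x ∈ S, cG C κ Th.f x = G x ∧ ctop C κ c Th.f x = (T.top x).1 ∧
        ∀ s ∈ C.cell (T.top x).1, ctr C κ Th.f Th.g x s = T.tr x s := by
  -- the boundary equivalence
  have hfc : Cx_609.FinConv S := (Cx_609.isBall_iff.1 hK).finConv_bd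
  let e0 := Cx_609.equivOfInjOn hfc hK.isClosed_bdry (thS_pl (T := T) (θ := θ) hκ)
    (thS_inj (T := T) hκ h0 hθ)
  have himg : thS T κ θ '' S = {y | y ∈ coreF C κ c θ ∧ sl C κ y c = θ} := by
    ext y
    constructor
    · rintro ⟨x, hx, rfl⟩; exact thS_mem (T := T) hκ h0 hθ hx
    · rintro ⟨hy, hy'⟩
      obtain ⟨x, hx, he⟩ := thS_surj (T := T) hκ h0 hθ hy hy'
      exact ⟨x, hx, he⟩
  have hex : ∃ e1 : PLEquiv S {y | y ∈ coreF C κ c θ ∧ sl C κ y c = θ},
      ∀ x ∈ S, e1.f x = thS T κ θ x := by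
    rw [← himg]
    exact ⟨e0, fun x _ => rfl⟩
  obtain ⟨e, he⟩ := hex
  obtain ⟨Th, t1, t2⟩ := hK.extend (isBall_coreF hΛ hc hκ h0 hθ) e
  have hTS : ∀ x ∈ S, Th.f x = thS T κ θ x := fun x hx => (t1 hx).trans (he x hx)
  refine ⟨Th, fun x hx => ⟨fun hxS => ?_, fun h => ?_⟩, hTS, fun x hx => ⟨?_, ?_, fun s hs => ?_⟩⟩
  · rw [hTS x hxS]; exact (thS_mem (T := T) hκ h0 hθ hxS).2
  · obtain ⟨z, hz, hze⟩ := thS_surj (T := T) hκ h0 hθ (Th.mf hx) h
    have : z = x := Th.injOn (hK.subset hz) hx ((hTS z hz).trans hze)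
    rwa [← this]
  · show st C κ (Th.f x) = G x
    rw [hTS x hx]; exact (thS_sl (T := T) hκ h0 hθ hx).2
  · show mn c (sl C κ (Th.f x)) = _
    rw [hTS x hx, (thS_sl (T := T) hκ h0 hθ hx).1]
    exact Mw_mn (T := T) h0 hθ hx
  · show Th.g (pk C κ (sl C κ (Th.f x)) s) = _
    rw [hTS x hx, (thS_sl (T := T) hκ h0 hθ hx).1]
    have hxs : T.tr x s ∈ S := T.tr_mem x hx s hs
    have h2 : thS T κ θ (T.tr x s) = pk C κ (Mw T θ x) s := by
      unfold thS Mw
      rw [LAM_tr (T := T) hx hs, T.tr_G x hx s hs]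
    rw [← h2, ← hTS _ hxs]
    exact Th.li _ (hK.subset hxs)

end T

end Crest.Agent.R096.As_241
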