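import Mathlib
import Crest.Agent.R96.Sob8_199
import Crest.Agent.R096.Sk0_962
import Crest.Agent.R096.Ce1_537

-- ▼ part R096/Sbc1_447
section

set_option autoImplicit false
set_option linter.unusedSectionVars false
set_option linter.style.longLine false

open MeasureTheory Set Filter
open scoped Topology ENNReal

namespace Crest.Agent.R096.Sbc_447

open Crest.Agent.R96.Acl_392 Crest.Agent.R96.Sob3_199 Crest.Agent.R96.Sob8_199

noncomputable section

variable {E : Type*} [NormedAddCommGroup E] [NormedSpace ℝ E]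

/-- the crease set -/
def Nn (S : Finset (E →ᵃ[ℝ] E)) : Set E := {x | ∃ a ∈ S, ∃ b ∈ S, a ≠ b ∧ a x = b x}

theorem null_eq [FiniteDimensional ℝ E] [MeasurableSpace E] [BorelSpace E] (μ : Measure E)
    [μ.IsAddHaarMeasure] {a b : E →ᵃ[ℝ] E} (h : a ≠ b) : μ {x | a x = b x} = 0 := by
  have h1 : {x | a x = b x} =
      (((AffineSubspace.mk' (0:E) (⊥ : Submodule ℝ E)).comap (a - b) : AffineSubspace ℝ E) : Set E) := by
    ext x
    simp [AffineSubspace.mem_mk', sub_eq_zero]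
  rw [h1]
  apply Measure.addHaar_affineSubspace
  intro h2
  apply h
  ext x
  have h3 : x ∈ ((AffineSubspace.mk' (0:E) (⊥ : Submodule ℝ E)).comap (a - b)) := by
    rw [h2]; exact AffineSubspace.mem_top ℝ E x
  simpa [AffineSubspace.mem_mk', sub_eq_zero] using h3

theorem null_Nn [FiniteDimensional ℝ E] [MeasurableSpace E] [BorelSpace E] (μ : Measure E)
    [μ.IsAddHaarMeasure] (S : Finset (E →ᵃ[ℝ] E)) : μ (Nn S) = 0 := by
  have h1 : Nn S ⊆ ⋃ a ∈ S, ⋃ b ∈ S, ⋃ (_ : a ≠ b), {x | a x = b x} := by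
    rintro x ⟨a, ha, b, hb, hab, hx⟩
    simp only [mem_iUnion]
    exact ⟨a, ha, b, hb, hab, hx⟩
  refine measure_mono_null h1 ?_
  refine (measure_biUnion_null_iff (I := (S : Set (E →ᵃ[ℝ] E))) S.countable_toSet).2 fun a ha => ?_
  refine (measure_biUnion_null_iff (I := (S : Set (E →ᵃ[ℝ] E))) S.countable_toSet).2 fun b hb => ?_
  refine measure_iUnion_null_iff.2 fun hab => ?_
  exact null_eq μ hab

theorem near [FiniteDimensional ℝ E] {S : Finset (E →ᵃ[ℝ] E)} {Ψ : E → E} (hc : Continuous Ψ)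
    (hS : ∀ x, ∃ a ∈ S, Ψ x = a x)
    {x : E} (hx : x ∉ Nn S) {a : E →ᵃ[ℝ] E} (ha : a ∈ S) (hxa : Ψ x = a x) :
    ∀ᶠ y in 𝓝 x, Ψ y = a y := by
  have h1 : ∀ᶠ y in 𝓝 x, ∀ b ∈ S, b ≠ a → Ψ y ≠ b y := by
    rw [eventually_all_finset]
    intro b hb
    by_cases hba : b = a
    · exact Eventually.of_forall fun y h => absurd hba h
    · have h2 : Ψ x ≠ b x := by
        rw [hxa]
        intro h3
        exact hx ⟨a, ha, b, hb, fun h => hba h.symm, h3⟩
      have h3 : ∀ᶠ y in 𝓝 x, Ψ y - b y ≠ 0 := by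
        have h4 : Continuous fun y => Ψ y - b y :=
          hc.sub (AffineMap.continuous_of_finiteDimensional b)
        exact h4.continuousAt.eventually_ne (sub_ne_zero.2 h2)
      filter_upwards [h3] with y hy _
      exact sub_ne_zero.1 hy
  filter_upwards [h1] with y hy
  obtain ⟨b, hb, hyb⟩ := hS y
  by_cases hba : b = a
  · rw [← hba]; exact hyb
  · exact absurd hyb (hy b hb hba)

theorem inj_of_near {Ψ : E → E} (hi : Function.Injective Ψ) {x : E} {a : E →ᵃ[ℝ] E}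
    (h : ∀ᶠ y in 𝓝 x, Ψ y = a y) : Function.Injective a.linear := by
  rw [← LinearMap.ker_eq_bot, LinearMap.ker_eq_bot']
  intro v hv
  have h1 : Tendsto (fun ε : ℝ => x + ε • v) (𝓝[≠] 0) (𝓝 x) := by
    have h2 : Continuous (fun ε : ℝ => x + ε • v) := by fun_prop
    have h3 := h2.tendsto 0
    simp only [zero_smul, add_zero] at h3
    exact h3.mono_left nhdsWithin_le_nhds
  obtain ⟨ε, hε1, hε2⟩ := ((h1.eventually h).and self_mem_nhdsWithin).exists
  have h4 : a (x + ε • v) = a x := by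
    have h5 := a.map_vadd x (ε • v)
    simp only [vadd_eq_add, map_smul, hv, smul_zero, zero_add] at h5
    rw [add_comm x]
    exact h5
  have h6 : Ψ (x + ε • v) = Ψ x := by
    rw [hε1, h4, h.self_of_nhds]
  have h7 := hi h6
  have h8 : ε • v = 0 := by simpa using h7
  rcases smul_eq_zero.1 h8 with h9 | h9
  · exact absurd h9 hε2
  · exact h9

/-- the affine map with injective linear part as an affine isomorphism -/
def toE [FiniteDimensional ℝ E] (a : E →ᵃ[ℝ] E) (h : Function.Injective a.linear) : E ≃L[ℝ] E :=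
  (LinearEquiv.ofInjectiveEndo a.linear h).toContinuousLinearEquiv

theorem toE_apply [FiniteDimensional ℝ E] (a : E →ᵃ[ℝ] E) (h : Function.Injective a.linear) (x : E) :
    toE a h x = a.linear x := rfl

theorem aff_toE [FiniteDimensional ℝ E] [MeasurableSpace E] [BorelSpace E] (a : E →ᵃ[ℝ] E) (h : Function.Injective a.linear) (x : E) :
    aff (a 0) (toE a h) x = a x := by
  rw [aff_apply, toE_apply]
  have := a.map_vadd 0 x
  simp only [vadd_eq_add, add_zero] at this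
  rw [this, add_comm]

/-- a line through a point off the creases meets the creases in a finite set -/
theorem finite_line {S : Finset (E →ᵃ[ℝ] E)} {x : E} (hx : x ∉ Nn S) (e : E) :
    {τ : ℝ | x + τ • e ∈ Nn S}.Finite := by
  have h1 : {τ : ℝ | x + τ • e ∈ Nn S} ⊆ ⋃ a ∈ S, ⋃ b ∈ S, {τ : ℝ | a ≠ b ∧ a (x + τ • e) = b (x + τ • e)} := by
    rintro τ ⟨a, ha, b, hb, hab, hτ⟩
    simp only [mem_iUnion]
    exact ⟨a, ha, b, hb, hab, hτ⟩
  refine Set.Finite.subset ?_ h1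
  refine Set.Finite.biUnion S.finite_toSet fun a ha => Set.Finite.biUnion S.finite_toSet fun b hb => ?_
  apply Set.Subsingleton.finite
  rintro τ ⟨hab, hτ⟩ σ ⟨-, hσ⟩
  by_contra hne
  have key : ∀ ρ : ℝ, a (x + ρ • e) - b (x + ρ • e) = (a x - b x) + ρ • (a.linear e - b.linear e) := by
    intro ρ
    have h5 := a.map_vadd x (ρ • e)
    have h6 := b.map_vadd x (ρ • e)
    simp only [vadd_eq_add, map_smul] at h5 h6
    rw [add_comm x, h5, h6, smul_sub]
    abel
  have k1 := key τ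
  have k2 := key σ
  rw [hτ, sub_self] at k1
  rw [hσ, sub_self] at k2
  have k3 : (τ - σ) • (a.linear e - b.linear e) = 0 := by
    rw [sub_smul]
    have : τ • (a.linear e - b.linear e) = σ • (a.linear e - b.linear e) := by
      have := k1.symm.trans k2
      exact add_left_cancel this
    rw [this, sub_self]
  rcases smul_eq_zero.1 k3 with k4 | k4
  · exact hne (sub_eq_zero.1 k4)
  · rw [k4, smul_zero, add_zero] at k1
    exact hx ⟨a, ha, b, hb, hab, (sub_eq_zero.1 k1.symm)⟩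

theorem map_le [FiniteDimensional ℝ E] [MeasurableSpace E] [BorelSpace E] (μ : Measure E)
    [μ.IsAddHaarMeasure] (Ψ : E ≃ₜ E) {S : Finset (E →ᵃ[ℝ] E)} (hS : ∀ x, ∃ a ∈ S, Ψ x = a x) :
    ∃ K : ℝ≥0∞, K ≠ ⊤ ∧ Measure.map Ψ μ ≤ K • μ := by
  classical
  refine ⟨∑ a ∈ S, (if h : Function.Injective a.linear then fac (toE a h) else 0), ?_, ?_⟩
  · rw [ENNReal.sum_ne_top]
    intro a ha
    split_ifs
    · exact fac_ne_top _
    · exact ENNReal.zero_ne_top
  · rw [Measure.le_iff]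
    intro B hB
    rw [Measure.map_apply Ψ.continuous.measurable hB]
    have h1 : Ψ ⁻¹' B ⊆ Nn S ∪ ⋃ a ∈ S, (if h : Function.Injective a.linear then
        (aff (a 0) (toE a h)) ⁻¹' B else ∅) := by
      intro x hx
      by_cases hxN : x ∈ Nn S
      · exact Or.inl hxN
      · right
        obtain ⟨a, ha, hxa⟩ := hS x
        have hn := near Ψ.continuous hS hxN ha hxa
        have hi := inj_of_near Ψ.injective hn
        simp only [mem_iUnion]
        refine ⟨a, ha, ?_⟩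
        rw [dif_pos hi]
        show aff (a 0) (toE a hi) x ∈ B
        rw [aff_toE, ← hxa]
        exact hx
    refine (measure_mono h1).trans ?_
    refine (measure_union_le _ _).trans ?_
    rw [null_Nn, zero_add]
    refine (measure_biUnion_finset_le _ _).trans ?_
    rw [Measure.smul_apply, smul_eq_mul, Finset.sum_mul]
    apply Finset.sum_le_sum
    intro a ha
    by_cases h : Function.Injective a.linear
    · rw [dif_pos h, dif_pos h]
      have h2 := map_aff (μ := μ) (a 0) (toE a h)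
      rw [← Measure.map_apply (aff (a 0) (toE a h)).continuous.measurable hB, h2]
      simp
    · rw [dif_neg h, dif_neg h]
      simp

end

end Crest.Agent.R096.Sbc_447
end

-- ▼ part R096/Sbc2_447
section

set_option autoImplicit false
set_option linter.unusedSectionVars false
set_option linter.style.longLine false

open MeasureTheory Set Filter
open scoped Topology ENNReal

namespace Crest.Agent.R096.Sbc_447

open Crest.Agent.R96.Acl_392 Crest.Agent.R96.Sob3_199 Crest.Agent.R96.Sob8_199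

noncomputable section

/-- local to global, one dimensional, from the right -/
theorem incr_of_right {φ m : ℝ → ℝ} {s t : ℝ} (hst : s ≤ t) (hφ : ContinuousOn φ (Icc s t))
    (hm : IntegrableOn m (Icc s t))
    (h : ∀ τ ∈ Ico s t, ∀ y ∈ Ioc τ t, ∃ z ∈ Ioc τ y, |φ z - φ τ| ≤ ∫ σ in τ..z, m σ) :
    |φ t - φ s| ≤ ∫ σ in s..t, m σ := by
  have hII : ∀ a b : ℝ, s ≤ a → a ≤ b → b ≤ t → IntervalIntegrable m volume a b := by
    intro a b h1 h2 h3
    rw [intervalIntegrable_iff_integrableOn_Icc_of_le h2]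
    exact hm.mono_set (Icc_subset_Icc h1 h3)
  have hsub : Icc s t ⊆ {τ | |φ τ - φ s| ≤ ∫ σ in s..τ, m σ} := by
    apply IsClosed.Icc_subset_of_forall_exists_gt
    · have h1 : ContinuousOn (fun τ => |φ τ - φ s| - ∫ σ in s..τ, m σ) (Icc s t) := by
        apply ContinuousOn.sub
        · exact (hφ.sub continuousOn_const).abs
        · have h2 := intervalIntegral.continuousOn_primitive_interval (μ := volume) (f := m) (a := s) (b := t)
            (by rw [uIcc_of_le hst]; exact hm)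
          rw [uIcc_of_le hst] at h2
          exact h2
      have h2 := h1.preimage_isClosed_of_isClosed isClosed_Icc (isClosed_Iic (a := (0:ℝ)))
      convert h2 using 1
      ext τ
      simp only [mem_inter_iff, mem_ofPred_eq, mem_Icc, mem_preimage, mem_Iic, sub_nonpos]
      tauto
    · simp
    · rintro τ ⟨hτ1, hτ2⟩ y hy
      obtain ⟨z, hz1, hz2⟩ := h τ hτ2 (min y t) ⟨lt_min hy hτ2.2, min_le_right _ _⟩
      refine ⟨z, ?_, hz1.1, hz1.2.trans (min_le_left _ _)⟩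
      simp only [mem_ofPred_eq] at hτ1 ⊢
      have hzt : z ≤ t := hz1.2.trans (min_le_right _ _)
      have h3 := intervalIntegral.integral_add_adjacent_intervals (hII s τ le_rfl hτ2.1 hτ2.2.le)
        (hII τ z hτ2.1 hz1.1.le hzt)
      rw [← h3]
      calc |φ z - φ s| = |(φ τ - φ s) + (φ z - φ τ)| := by ring_nf
        _ ≤ |φ τ - φ s| + |φ z - φ τ| := abs_add_le _ _
        _ ≤ _ := add_le_add hτ1 hz2
  exact hsub (right_mem_Icc.2 hst)

/-- a bound on `[τ', z]` for all `τ' ∈ (τ, z]` gives the bound on `[τ, z]` -/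
theorem incr_limit {φ m : ℝ → ℝ} {τ z : ℝ} (hτz : τ < z) (hφ : ContinuousOn φ (Icc τ z))
    (hm : IntegrableOn m (Icc τ z))
    (h : ∀ τ' ∈ Ioo τ z, |φ z - φ τ'| ≤ ∫ σ in τ'..z, m σ) :
    |φ z - φ τ| ≤ ∫ σ in τ..z, m σ := by
  have h1 : Tendsto (fun τ' => |φ z - φ τ'|) (𝓝[>] τ) (𝓝 |φ z - φ τ|) := by
    apply Tendsto.abs
    apply Tendsto.const_sub
    have h2 : Tendsto φ (𝓝[Icc τ z] τ) (𝓝 (φ τ)) := hφ τ ⟨le_rfl, hτz.le⟩
    refine h2.mono_left ?_
    rw [← nhdsWithin_Ioo_eq_nhdsGT hτz]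
    exact nhdsWithin_mono _ Ioo_subset_Icc_self
  have h3 : Tendsto (fun τ' => ∫ σ in τ'..z, m σ) (𝓝[>] τ) (𝓝 (∫ σ in τ..z, m σ)) := by
    have h2 := intervalIntegral.continuousOn_primitive_interval (μ := volume) (f := m) (a := τ) (b := z)
            (by rw [uIcc_of_le hτz.le]; exact hm)
    rw [uIcc_of_le hτz.le] at h2
    have h4 : Tendsto (fun τ' => ∫ σ in τ..τ', m σ) (𝓝[>] τ) (𝓝 (∫ σ in τ..τ, m σ)) := by
      refine (h2 τ ⟨le_rfl, hτz.le⟩).mono_left ?_
      rw [← nhdsWithin_Ioo_eq_nhdsGT hτz]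
      exact nhdsWithin_mono _ Ioo_subset_Icc_self
    rw [intervalIntegral.integral_same] at h4
    have h5 := h4.const_sub (∫ σ in τ..z, m σ)
    rw [sub_zero] at h5
    refine h5.congr' ?_
    filter_upwards [Ioo_mem_nhdsGT hτz] with τ' hτ'
    rw [intervalIntegral.integral_interval_sub_left]
    · rw [intervalIntegrable_iff_integrableOn_Icc_of_le hτz.le]; exact hm
    · rw [intervalIntegrable_iff_integrableOn_Icc_of_le hτ'.1.le]
      exact hm.mono_set (Icc_subset_Icc le_rfl hτ'.2.le)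
  refine le_of_tendsto_of_tendsto h1 h3 ?_
  filter_upwards [Ioo_mem_nhdsGT hτz] with τ' hτ'
  exact h τ' hτ'

variable {E : Type*} [NormedAddCommGroup E] [NormedSpace ℝ E] [FiniteDimensional ℝ E]

theorem ug_of_pieces {Om : Set E} {v : E → ℝ} {Ψ : E → E} (hΨc : Continuous Ψ)
    (hv : ContinuousOn v Om) (hΨ : ∀ x, x ∈ Om → Ψ x ∈ Om) {S : Finset (E →ᵃ[ℝ] E)}
    (hS : ∀ x, ∃ a ∈ S, Ψ x = a x) {e x : E} (hx : x ∉ Nn S) (w : (E →ᵃ[ℝ] E) → E → ℝ)
    (m : E → ℝ) (hm : ∀ a ∈ S, ∀ y, Ψ y = a y → |w a y| ≤ m y)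
    (hmi : ∀ s t : ℝ, s ≤ t → x ∈ segIn Om e s t → IntegrableOn (fun τ : ℝ => m (x + τ • e)) (Icc s t))
    (hi : Function.Injective Ψ)
    (hU : ∀ a ∈ S, Function.Injective a.linear →
      UG (a ⁻¹' Om) (fun y => v (a y)) (fun y => |w a y|) e x) :
    UG Om (fun y => v (Ψ y)) m e x := by
  intro s t hst hxs
  refine ⟨hmi s t hst hxs, ?_⟩
  have hlc : Continuous (fun τ : ℝ => x + τ • e) := by fun_prop
  have hφc : ∀ s' t', s ≤ s' → t' ≤ t → ContinuousOn (fun τ : ℝ => v (Ψ (x + τ • e))) (Icc s' t') := by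
    intro s' t' h1 h2
    apply hv.comp (hΨc.comp hlc).continuousOn
    intro τ hτ
    exact hΨ _ (hxs τ ⟨h1.trans hτ.1, hτ.2.trans h2⟩)
  have hmI : ∀ s' t', s ≤ s' → t' ≤ t → IntegrableOn (fun τ : ℝ => m (x + τ • e)) (Icc s' t') := by
    intro s' t' h1 h2
    exact (hmi s t hst hxs).mono_set (Icc_subset_Icc h1 h2)
  -- step A: away from the creases
  have hA : ∀ s' t', s ≤ s' → s' ≤ t' → t' ≤ t → (∀ τ ∈ Icc s' t', x + τ • e ∉ Nn S) →
      |v (Ψ (x + t' • e)) - v (Ψ (x + s' • e))| ≤ ∫ τ in s'..t', m (x + τ • e) := by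
    intro s' t' h1 h2 h3 h4
    apply incr_of_right (φ := fun τ => v (Ψ (x + τ • e))) (m := fun τ => m (x + τ • e)) h2 (hφc _ _ h1 h3) (hmI _ _ h1 h3)
    intro τ hτ y hy
    obtain ⟨a, ha, hxa⟩ := hS (x + τ • e)
    have hn := near hΨc hS (h4 τ ⟨hτ.1, hτ.2.le⟩) ha hxa
    have hinj := inj_of_near hi hn
    have hn' : ∀ᶠ σ in 𝓝 τ, Ψ (x + σ • e) = a (x + σ • e) := hlc.continuousAt.eventually hn
    obtain ⟨δ, hδ, hδ'⟩ := Metric.eventually_nhds_iff.1 hn'
    obtain ⟨z, hz1, hz2⟩ : ∃ z, τ < z ∧ z < min y (τ + δ) := exists_between (lt_min hy.1 (by linarith))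
    have hzy : z ≤ y := (hz2.le).trans (min_le_left _ _)
    have hzδ : z < τ + δ := hz2.trans_le (min_le_right _ _)
    have heq : ∀ σ ∈ Icc τ z, Ψ (x + σ • e) = a (x + σ • e) := by
      intro σ hσ
      apply hδ'
      rw [Real.dist_eq, abs_lt]
      constructor <;> linarith [hσ.1, hσ.2]
    refine ⟨z, ⟨hz1, hzy⟩, ?_⟩
    have hseg : x ∈ segIn (a ⁻¹' Om) e τ z := by
      intro σ hσ
      show a (x + σ • e) ∈ Om
      rw [← heq σ hσ]
      exact hΨ _ (hxs σ ⟨by linarith [hσ.1, hτ.1], by linarith [hσ.2, hy.2]⟩)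
    have hug := hU a ha hinj τ z hz1.le hseg
    rw [heq z ⟨hz1.le, le_rfl⟩, heq τ ⟨le_rfl, hz1.le⟩]
    refine hug.2.trans ?_
    apply intervalIntegral.integral_mono_on hz1.le
    · rw [intervalIntegrable_iff_integrableOn_Icc_of_le hz1.le]
      exact hug.1
    · rw [intervalIntegrable_iff_integrableOn_Icc_of_le hz1.le]
      exact hmI _ _ (by linarith [hτ.1]) (by linarith [hy.2])
    · intro σ hσ
      exact hm a ha _ (heq σ hσ)
  -- step B
  have hfin := finite_line hx e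
  apply incr_of_right (φ := fun τ => v (Ψ (x + τ • e))) (m := fun τ => m (x + τ • e)) hst (hφc _ _ le_rfl le_rfl) (hmI _ _ le_rfl le_rfl)
  intro τ hτ y hy
  have h1 : ∀ᶠ σ in 𝓝[>] τ, ∀ ρ ∈ Ioc τ σ, x + ρ • e ∉ Nn S := by
    have h2 : ({ρ : ℝ | x + ρ • e ∈ Nn S} \ {τ}).Finite := hfin.sdiff
    have h3 : ({ρ : ℝ | x + ρ • e ∈ Nn S} \ {τ})ᶜ ∈ 𝓝 τ := h2.isClosed.isOpen_compl.mem_nhds (by simp)
    obtain ⟨δ, hδ, hδ'⟩ := Metric.mem_nhds_iff.1 h3
    have h4 : Ioo τ (τ + δ) ∈ 𝓝[>] τ := Ioo_mem_nhdsGT (by linarith)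
    filter_upwards [h4] with σ hσ ρ hρ hcon
    have h5 : ρ ∈ Metric.ball τ δ := by
      rw [Metric.mem_ball, Real.dist_eq, abs_lt]
      constructor <;> linarith [hρ.1, hρ.2, hσ.2]
    exact hδ' h5 ⟨hcon, by simp only [mem_singleton_iff]; exact hρ.1.ne'⟩
  obtain ⟨z, hz1, hz2⟩ := (h1.and (Ioc_mem_nhdsGT hy.1)).exists
  refine ⟨z, hz2, ?_⟩
  have hzt : z ≤ t := hz2.2.trans hy.2
  apply incr_limit (φ := fun τ => v (Ψ (x + τ • e))) (m := fun τ => m (x + τ • e)) hz2.1 (hφc _ _ hτ.1 hzt) (hmI _ _ hτ.1 hzt)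
  intro τ' hτ'
  apply hA τ' z (hτ.1.trans hτ'.1.le) hτ'.2.le hzt
  intro ρ hρ
  exact hz1 ρ ⟨lt_of_lt_of_le hτ'.1 hρ.1, hρ.2⟩

end

end Crest.Agent.R096.Sbc_447
end

-- ▼ part R096/Sbc3_447

set_option autoImplicit false
set_option linter.unusedSectionVars false
set_option linter.style.longLine false

open MeasureTheory Set Filter
open scoped Topology ENNReal NNReal

namespace Crest.Agent.R096.Sbc_447

open Crest.Agent.R96.Acl_392 Crest.Agent.R96.Sob1_199 Crest.Agent.R96.Sob2_199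
  Crest.Agent.R96.Sob3_199 Crest.Agent.R96.Sob6_199 Crest.Agent.R96.Sob7_199
  Crest.Agent.R96.Sob8_199
open Crest.AnalysisR.VecCalc3 Crest.AnalysisR.Sobolev
open Crest.Agent.R096.Ce_537 (PLOn)
open Crest.Agent.R096.Sk_962 (SH)

noncomputable section

/-- `L^p` pulls back -/
theorem memLp_comp {F : Type*} [NormedAddCommGroup F] (Ψ : R3 ≃ₜ R3) {S : Finset (R3 →ᵃ[ℝ] R3)}
    (hS : ∀ x, ∃ a ∈ S, Ψ x = a x) {Om : Set R3} (hΨ : ∀ x, Ψ x ∈ Om ↔ x ∈ Om) {p : ℝ≥0∞}
    {g : R3 → F} (hg : MemLp g p (volume.restrict Om)) :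
    MemLp (fun x => g (Ψ x)) p (volume.restrict Om) := by
  obtain ⟨K, hK, hle⟩ := map_le (volume : Measure R3) Ψ hS
  have h1 : Measure.map Ψ (volume.restrict Om) ≤ K • volume.restrict Om := by
    have h2 : Ψ ⁻¹' Om = Om := by
      ext x; exact hΨ x
    have h3 := Ψ.measurableEmbedding.restrict_map (volume : Measure R3) Om
    rw [h2] at h3
    rw [← h3, ← Measure.restrict_smul]
    exact Measure.restrict_mono le_rfl hle
  have h2 : MemLp g p (Measure.map Ψ (volume.restrict Om)) := hg.of_measure_le_smul hK h1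
  exact (Ψ.measurableEmbedding.memLp_map_measure_iff).1 h2

theorem locInt_of_memLp {F : Type*} [NormedAddCommGroup F] {Om : Set R3} (hOm : IsOpen Om)
    {p : ℝ≥0∞} (hp : 1 ≤ p) {g : R3 → F} (hg : MemLp g p (volume.restrict Om)) :
    LocallyIntegrableOn g Om := by
  rw [locallyIntegrableOn_iff hOm.isLocallyClosed]
  intro K hK hKc
  have h1 : MemLp g p (volume.restrict K) := hg.mono_measure (Measure.restrict_mono hK le_rfl)
  have : IsFiniteMeasure (volume.restrict K) := ⟨by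
    rw [Measure.restrict_apply_univ]; exact hKc.measure_lt_top⟩
  exact h1.integrable hp

/-- the majorant of the derivative of `v ∘ Ψ` in the direction `e` -/
def maj (S : Finset (R3 →ᵃ[ℝ] R3)) (Ψ : R3 → R3) (G : R3 → R3) (e : R3) (y : R3) : ℝ :=
  ∑ a ∈ S, ({y | Ψ y = a y}).indicator (fun y => |inner ℝ (G (Ψ y)) (a.linear e)|) y

theorem le_maj {S : Finset (R3 →ᵃ[ℝ] R3)} {Ψ : R3 → R3} {G : R3 → R3} {e : R3} {y : R3}
    {a : R3 →ᵃ[ℝ] R3} (ha : a ∈ S) (h : Ψ y = a y) :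
    |inner ℝ (G (a y)) (a.linear e)| ≤ maj S Ψ G e y := by
  rw [maj]
  have h1 : |inner ℝ (G (a y)) (a.linear e)| =
      ({y | Ψ y = a y}).indicator (fun y => |inner ℝ (G (Ψ y)) (a.linear e)|) y := by
    rw [indicator_of_mem (by exact h), h]
  rw [h1]
  refine Finset.single_le_sum (f := fun a : R3 →ᵃ[ℝ] R3 => ({y | Ψ y = a y}).indicator (fun y => |inner ℝ (G (Ψ y)) (a.linear e)|) y) ?_ ha
  intro b hb
  exact indicator_nonneg (fun _ _ => abs_nonneg _) _

theorem maj_eq {S : Finset (R3 →ᵃ[ℝ] R3)} {Ψ : R3 → R3} {G : R3 → R3} {e : R3} {y : R3}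
    (hy : y ∉ Nn S) {a : R3 →ᵃ[ℝ] R3} (ha : a ∈ S) (h : Ψ y = a y) :
    maj S Ψ G e y = |inner ℝ (G (Ψ y)) (a.linear e)| := by
  rw [maj, Finset.sum_eq_single_of_mem a ha]
  · rw [indicator_of_mem (by exact h)]
  · intro b hb hba
    apply indicator_of_notMem
    intro h2
    have h3 : Ψ y = b y := h2
    exact hy ⟨a, ha, b, hb, fun h => hba h.symm, by rw [← h, h3]⟩

theorem locInt_maj {S : Finset (R3 →ᵃ[ℝ] R3)} {Ψ : R3 → R3} (hΨ : Continuous Ψ) {G : R3 → R3} {Om : Set R3}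
    (hG : LocallyIntegrableOn (fun y => G (Ψ y)) Om) (e : R3) :
    LocallyIntegrableOn (maj S Ψ G e) Om := by
  have h1 : ∀ a ∈ S, LocallyIntegrableOn
      (({y | Ψ y = a y}).indicator (fun y => |inner ℝ (G (Ψ y)) (a.linear e)|)) Om := by
    intro a ha x hx
    obtain ⟨t, ht1, ht2⟩ := hG x hx
    refine ⟨t, ht1, ?_⟩
    have h2 : IntegrableOn (fun y => |inner ℝ (G (Ψ y)) (a.linear e)|) t := by
      have h3 : IntegrableOn (fun y => inner ℝ (G (Ψ y)) (a.linear e)) t := ht2.inner_const _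
      exact h3.abs
    refine h2.indicator ?_
    exact (isClosed_eq hΨ (AffineMap.continuous_of_finiteDimensional a)).measurableSet
  intro x hx
  have h2 : ∀ a ∈ S, ∃ t ∈ 𝓝[Om] x, IntegrableOn
      (({y | Ψ y = a y}).indicator (fun y => |inner ℝ (G (Ψ y)) (a.linear e)|)) t := fun a ha => h1 a ha x hx
  choose! t ht1 ht2 using h2
  refine ⟨⋂ a ∈ S, t a, ?_, ?_⟩
  · rw [Filter.biInter_finset_mem]
    exact ht1
  · unfold IntegrableOn
    have h3 : maj S Ψ G e = fun y => ∑ a ∈ S, ({y | Ψ y = a y}).indicator (fun y => |inner ℝ (G (Ψ y)) (a.linear e)|) y := rfl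
    rw [h3]
    apply integrable_finsetSum
    intro a ha
    exact (ht2 a ha).mono_set (biInter_subset_of_mem ha)

/-- one component, one direction -/
theorem wd_comp_pl {Om : Set R3} (hOm : IsOpen Om) {v : R3 → ℝ} {G : R3 → R3}
    (h : HasWeakGradOn Om v G) (hv : ContinuousOn v Om) (Ψ : R3 ≃ₜ R3) {S : Finset (R3 →ᵃ[ℝ] R3)}
    (hS : ∀ x, ∃ a ∈ S, Ψ x = a x) (hΨ : ∀ x, Ψ x ∈ Om ↔ x ∈ Om)
    (hG : LocallyIntegrableOn (fun y => G (Ψ y)) Om) (e : R3) :
    WD Om volume (fun x => v (Ψ x)) (dq Om (fun x => v (Ψ x)) e) e ∧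
      (∀ᵐ x, x ∈ Om → |dq Om (fun x => v (Ψ x)) e x| ≤ maj S Ψ G e x) := by
  classical
  have hmLoc := locInt_maj (S := S) Ψ.continuous hG e
  apply wd_of_ug hOm
  · exact hv.comp Ψ.continuous.continuousOn (fun x hx => (hΨ x).2 hx)
  · exact hmLoc
  · have h1 : ∀ᵐ x : R3, x ∉ Nn S := measure_eq_zero_iff_ae_notMem.1 (null_Nn _ S)
    have h2 := ae_line_integrable hOm hmLoc e
    have h3 : ∀ a ∈ S, ∀ᵐ x : R3, Function.Injective a.linear →
        UG (a ⁻¹' Om) (fun y => v (a y)) (fun y => |inner ℝ (G (a y)) (a.linear e)|) e x := by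
      intro a ha
      by_cases hi : Function.Injective a.linear
      · have hA : ∀ y, aff (a 0) (toE a hi) y = a y := aff_toE a hi
        have h4 := wd_comp_aff (wd_of_grad hOm h (toE a hi e)) (a 0) (toE a hi)
        rw [ContinuousLinearEquiv.symm_apply_apply] at h4
        have hset : (aff (a 0) (toE a hi)) ⁻¹' Om = a ⁻¹' Om := by
          ext y
          simp only [mem_preimage, hA]
        rw [hset] at h4
        simp only [hA] at h4
        have hac : Continuous a := AffineMap.continuous_of_finiteDimensional a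
        have h5 := acl (hOm.preimage hac) h4 (hv.comp hac.continuousOn (fun y hy => hy))
        filter_upwards [h5] with x hx _
        exact ug_of_acl hx
      · exact Eventually.of_forall fun x h => absurd h hi
    have h4 : ∀ᵐ x : R3, ∀ a ∈ S, Function.Injective a.linear →
        UG (a ⁻¹' Om) (fun y => v (a y)) (fun y => |inner ℝ (G (a y)) (a.linear e)|) e x := by
      rw [eventually_all_finset]
      exact h3
    filter_upwards [h1, h2, h4] with x hx1 hx2 hx3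
    exact ug_of_pieces Ψ.continuous hv (fun x hx => (hΨ x).2 hx) hS hx1
      (fun a y => inner ℝ (G (a y)) (a.linear e)) _ (fun a ha y hy => le_maj ha hy) hx2 Ψ.injective hx3

theorem norm_linear_le {Ψ : R3 → R3} {a : R3 →ᵃ[ℝ] R3} {x : R3} (h : ∀ᶠ y in 𝓝 x, Ψ y = a y)
    {c : ℝ} (hc : ∀ᶠ y in 𝓝 x, ‖Ψ y - Ψ x‖ ≤ c * ‖y - x‖) (e : R3) : ‖a.linear e‖ ≤ c * ‖e‖ := by
  have h1 : Tendsto (fun ε : ℝ => x + ε • e) (𝓝[>] 0) (𝓝 x) := by
    have h2 : Continuous (fun ε : ℝ => x + ε • e) := by fun_prop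
    have h3 := h2.tendsto 0
    simp only [zero_smul, add_zero] at h3
    exact h3.mono_left nhdsWithin_le_nhds
  obtain ⟨ε, ⟨hε1, hε2⟩, hε3⟩ := (((h1.eventually h).and (h1.eventually hc)).and self_mem_nhdsWithin).exists
  have hε : 0 < ε := hε3
  have h4 : a (x + ε • e) - a x = ε • a.linear e := by
    have h5 := a.map_vadd x (ε • e)
    simp only [vadd_eq_add, map_smul] at h5
    rw [add_comm x, h5, add_sub_cancel_right]
  rw [hε1, h.self_of_nhds, h4, add_sub_cancel_left, norm_smul, norm_smul, Real.norm_of_nonneg hε.le] at hε2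
  have h6 : ε * ‖a.linear e‖ ≤ ε * (c * ‖e‖) := by linarith
  exact le_of_mul_le_mul_left h6 hε

/-- **SOB-CHAIN** -/
theorem sob_chain {p : ℝ} (hp : 1 ≤ p) {Om La : Set R3} {f : R3 → R3} {G : Fin 3 → R3 → R3}
    (hOm : IsOpen Om) (h : SH p Om La f G) (Ψ : R3 ≃ₜ R3) (h1 : PLOn Ψ univ)
    (_h2 : PLOn Ψ.symm univ) (hΨ : ∀ x, Ψ x ∈ Om ↔ x ∈ Om) :
    ∃ G' : Fin 3 → R3 → R3, SH p Om La (fun x => f (Ψ x)) G' ∧
      ∀ j, ∀ᵐ x, x ∈ Om → ∀ c : ℝ, 0 ≤ c →
        (∀ᶠ y in 𝓝 x, ‖Ψ y - Ψ x‖ ≤ c * ‖y - x‖) → ‖G' j x‖ ≤ 3 * c * ‖G j (Ψ x)‖ := by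
  classical
  obtain ⟨-, S, hS'⟩ := h1
  have hS : ∀ x, ∃ a ∈ S, Ψ x = a x := fun x => hS' x (mem_univ x)
  have hp' : 1 ≤ ENNReal.ofReal p := by
    rw [← ENNReal.ofReal_one]; exact ENNReal.ofReal_le_ofReal hp
  obtain ⟨finv, hf1, hf2, hf3, hf4, hf5, hf6⟩ := h.homeo
  have hGp : ∀ j, MemLp (fun x => G j (Ψ x)) (ENNReal.ofReal p) (volume.restrict Om) :=
    fun j => memLp_comp Ψ hS hΨ (h.memG j)
  have hGl : ∀ j, LocallyIntegrableOn (fun x => G j (Ψ x)) Om := fun j => locInt_of_memLp hOm hp' (hGp j)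
  have hfj : ∀ j : Fin 3, ContinuousOn (fun x => f x j) Om := by
    intro j
    exact (EuclideanSpace.proj j : R3 →L[ℝ] ℝ).continuous.comp_continuousOn hf5
  have key := fun (j i : Fin 3) => wd_comp_pl hOm (h.wg j) (hfj j) Ψ hS hΨ (hGl j) (EuclideanSpace.single i (1:ℝ))
  let G' : Fin 3 → R3 → R3 := fun j x =>
    WithLp.toLp 2 fun i => dq Om (fun x => f (Ψ x) j) (EuclideanSpace.single i (1:ℝ)) x
  have hG'i : ∀ j x i, G' j x i = dq Om (fun x => f (Ψ x) j) (EuclideanSpace.single i (1:ℝ)) x := fun _ _ _ => rfl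
  have hwg : ∀ j : Fin 3, HasWeakGradOn Om (fun x => f (Ψ x) j) (G' j) := by
    intro j
    apply grad_of_wd
    intro i
    exact (key j i).1
  have hbd : ∀ j, ∀ᵐ x, x ∈ Om → ∀ c : ℝ, 0 ≤ c →
        (∀ᶠ y in 𝓝 x, ‖Ψ y - Ψ x‖ ≤ c * ‖y - x‖) → ‖G' j x‖ ≤ 3 * c * ‖G j (Ψ x)‖ := by
    intro j
    have hN : ∀ᵐ x : R3, x ∉ Nn S := measure_eq_zero_iff_ae_notMem.1 (null_Nn _ S)
    have hk : ∀ᵐ x : R3, ∀ i : Fin 3, x ∈ Om → |dq Om (fun x => f (Ψ x) j) (EuclideanSpace.single i (1:ℝ)) x| ≤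
        maj S Ψ (G j) (EuclideanSpace.single i (1:ℝ)) x := by
      rw [ae_all_iff]
      intro i
      exact (key j i).2
    filter_upwards [hN, hk] with x hx1 hx2 hxOm c hc hcx
    obtain ⟨a, ha, hxa⟩ := hS x
    have hn := near Ψ.continuous hS hx1 ha hxa
    have h3 : ∀ i : Fin 3, |G' j x i| ≤ c * ‖G j (Ψ x)‖ := by
      intro i
      rw [hG'i]
      refine (hx2 i hxOm).trans ?_
      rw [maj_eq hx1 ha hxa]
      refine (abs_real_inner_le_norm _ _).trans ?_
      have h4 := norm_linear_le hn hcx (EuclideanSpace.single i (1:ℝ))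
      have h4' : ‖(EuclideanSpace.single i (1:ℝ) : R3)‖ = 1 := by simp
      rw [h4', mul_one] at h4
      rw [mul_comm c]
      gcongr
    have h5 : ‖G' j x‖ ^ 2 ≤ (3 * c * ‖G j (Ψ x)‖) ^ 2 := by
      rw [EuclideanSpace.norm_sq_eq, Fin.sum_univ_three]
      have h6 : ∀ i : Fin 3, ‖G' j x i‖ ^ 2 ≤ (c * ‖G j (Ψ x)‖) ^ 2 := by
        intro i
        rw [Real.norm_eq_abs]
        exact pow_le_pow_left₀ (abs_nonneg _) (h3 i) 2
      have h7 := h6 0
      have h8 := h6 1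
      have h9 := h6 2
      have h10 : 0 ≤ (c * ‖G j (Ψ x)‖) ^ 2 := sq_nonneg _
      nlinarith
    exact le_of_sq_le_sq h5 (by positivity)
  refine ⟨G', ⟨?_, ?_, hwg, ?_⟩, hbd⟩
  · refine ⟨fun y => Ψ.symm (finv y), ?_, ?_, ?_, ?_, ?_, ?_⟩
    · intro x hx
      exact hf1 ((hΨ x).2 hx)
    · intro y hy
      rw [← hΨ]
      simpa using hf2 hy
    · intro x hx
      show Ψ.symm (finv (f (Ψ x))) = x
      rw [hf3 _ ((hΨ x).2 hx)]
      simp
    · intro y hy
      simp only [Homeomorph.apply_symm_apply]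
      exact hf4 y hy
    · exact hf5.comp Ψ.continuous.continuousOn (fun x hx => (hΨ x).2 hx)
    · exact Ψ.symm.continuous.comp_continuousOn hf6
  · exact memLp_comp Ψ hS hΨ h.mem
  · intro j
    obtain ⟨L, hL⟩ := lip_of_sel (convex_univ) Ψ.continuous.continuousOn (S := S) (fun y _ => hS y)
    have hL2 : ∀ x y, ‖Ψ y - Ψ x‖ ≤ (L:ℝ) * ‖y - x‖ := by
      intro x y
      have := hL.dist_le_mul y (mem_univ _) x (mem_univ _)
      rwa [dist_eq_norm, dist_eq_norm] at this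
    have hmeas : AEStronglyMeasurable (G' j) (volume.restrict Om) := by
      exact (hwg j).2.1.aestronglyMeasurable
    refine MemLp.of_le_mul (c := 3 * L) (hGp j) hmeas ?_
    rw [ae_restrict_iff' hOm.measurableSet]
    filter_upwards [hbd j] with x hx hxOm
    exact hx hxOm L L.2 (Eventually.of_forall fun y => hL2 x y)

end

end Crest.Agent.R096.Sbc_447
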