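import Crest.Agent.R096.Sq15_55
import Crest.Agent.R096.Msh3_715
import Crest.Agent.R096.Sq16_55

-- ▼ part R096/Sq17_55
section

/-!
# R096 (row 96), SOBSQ, part 17 (helper55): conical extension of PL maps; charts of cells and faces
-/

set_option autoImplicit false
set_option linter.unusedSectionVars false

open Set Metric Filter Topology

namespace Crest.Agent.R096.Sq_55

open Crest.Agent.R096.Ce_537 Crest.Agent.R096.Bd_416 Crest.Agent.R96.Hole_348
open scoped NNReal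

section con

variable {W W' : Type*} [NormedAddCommGroup W] [NormedSpace ℝ W] [NormedAddCommGroup W']
  [NormedSpace ℝ W']

/-- the conical extension -/
noncomputable def con (σ : W → W') (z : ℝ × W) : W' :=
  open Classical in if 0 < z.1 then z.1 • σ (z.1⁻¹ • z.2) else 0

/-- the cone over `B` -/
def Kc (B : Set W) : Set (ℝ × W) := {z | 0 ≤ z.1 ∧ (0 < z.1 → z.1⁻¹ • z.2 ∈ B) ∧
  (z.1 = 0 → z.2 = 0)}

variable {σ : W → W'} {B : Set W} {B' : Set W'}

lemma con_pos {z : ℝ × W} (h : 0 < z.1) : con σ z = z.1 • σ (z.1⁻¹ • z.2) := if_pos h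

lemma con_of_le {z : ℝ × W} (h : z.1 ≤ 0) : con σ z = 0 := if_neg (not_lt.2 h)

lemma norm_con_le {C : ℝ} (hC : ∀ w ∈ B, ‖σ w‖ ≤ C) {z : ℝ × W} (hz : z ∈ Kc B) :
    ‖con σ z‖ ≤ z.1 * C := by
  rcases hz.1.lt_or_eq with h1 | h1
  · rw [con_pos h1, norm_smul, Real.norm_eq_abs, abs_of_pos h1]
    exact mul_le_mul_of_nonneg_left (hC _ (hz.2.1 h1)) h1.le
  · rw [con_of_le h1.ge, norm_zero, ← h1, zero_mul]

lemma con_mem (h : MapsTo σ B B') {z : ℝ × W} (hz : z ∈ Kc B) : (z.1, con σ z) ∈ Kc B' := by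
  refine ⟨hz.1, fun h1 => ?_, fun h1 => ?_⟩
  · have h1' : 0 < z.1 := h1
    show z.1⁻¹ • con σ z ∈ B'
    rw [con_pos h1', smul_smul, inv_mul_cancel₀ h1'.ne', one_smul]
    exact h (hz.2.1 h1')
  · have h1' : z.1 = 0 := h1
    show con σ z = 0
    exact con_of_le h1'.le

lemma con_con {σ' : W' → W} (h : ∀ w ∈ B, σ' (σ w) = w) {z : ℝ × W} (hz : z ∈ Kc B) :
    con σ' (z.1, con σ z) = z.2 := by
  rcases hz.1.lt_or_eq with h1 | h1
  · have h1' : 0 < (z.1, con σ z).1 := h1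
    rw [con_pos h1']
    show z.1 • σ' (z.1⁻¹ • con σ z) = z.2
    rw [con_pos h1, smul_smul, inv_mul_cancel₀ h1.ne', one_smul, h _ (hz.2.1 h1), smul_smul,
      mul_inv_cancel₀ h1.ne', one_smul]
  · have h1' : (z.1, con σ z).1 ≤ 0 := h1.ge
    rw [con_of_le h1', hz.2.2 h1.symm]

lemma continuousOn_con (hσ : ContinuousOn σ B) {C : ℝ} (hC : ∀ w ∈ B, ‖σ w‖ ≤ C) :
    ContinuousOn (con σ) (Kc B) := by
  intro z hz
  rcases hz.1.lt_or_eq with h1 | h1
  · have h2 : ContinuousWithinAt (fun z : ℝ × W => z.1 • σ (z.1⁻¹ • z.2)) (Kc B ∩ {z | 0 < z.1})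
        z := by
      refine continuousWithinAt_fst.smul ?_
      have h3 : ContinuousWithinAt (fun z : ℝ × W => z.1⁻¹ • z.2) (Kc B ∩ {z | 0 < z.1}) z :=
        (continuousWithinAt_fst.inv₀ h1.ne').smul continuousWithinAt_snd
      exact ContinuousWithinAt.comp (f := fun z : ℝ × W => z.1⁻¹ • z.2) (x := z) (t := B)
        (hσ _ (hz.2.1 h1)) h3 (fun y hy => hy.1.2.1 hy.2)
    have h4 : ContinuousWithinAt (con σ) (Kc B ∩ {z | 0 < z.1}) z := by
      refine h2.congr (fun y hy => con_pos hy.2) (con_pos h1)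
    have h5 : {z : ℝ × W | 0 < z.1} ∈ 𝓝 z := (isOpen_lt continuous_const continuous_fst).mem_nhds h1
    exact (continuousWithinAt_inter h5).1 h4
  · have e0 : con σ z = 0 := con_of_le h1.ge
    rw [ContinuousWithinAt, e0, tendsto_zero_iff_norm_tendsto_zero]
    have h2 : Tendsto (fun y : ℝ × W => y.1 * C) (𝓝[Kc B] z) (𝓝 0) := by
      have h3 : Tendsto (fun y : ℝ × W => y.1 * C) (𝓝 z) (𝓝 (z.1 * C)) :=
        (continuous_fst.mul continuous_const).tendsto z
      rw [← h1, zero_mul] at h3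
      exact h3.mono_left nhdsWithin_le_nhds
    refine squeeze_zero' (Eventually.of_forall fun _ => norm_nonneg _) ?_ h2
    filter_upwards [self_mem_nhdsWithin] with y hy
    exact norm_con_le hC hy

/-- the homogeneous extension of an affine map -/
noncomputable def homc (g : W →ᵃ[ℝ] W') : (ℝ × W) →ᵃ[ℝ] W' :=
  (g.linear ∘ₗ LinearMap.snd ℝ ℝ W + (LinearMap.fst ℝ ℝ W).smulRight (g 0)).toAffineMap

lemma homc_apply (g : W →ᵃ[ℝ] W') (z : ℝ × W) : homc g z = g.linear z.2 + z.1 • g 0 := rfl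

lemma affine_eq' (g : W →ᵃ[ℝ] W') (x : W) : g x = g.linear x + g 0 := by
  have := g.map_vadd 0 x
  simpa using this

lemma plOn_con (hσ : PLOn σ B) {C : ℝ} (hC : ∀ w ∈ B, ‖σ w‖ ≤ C) (hne : B.Nonempty) :
    PLOn (con σ) (Kc B) := by
  classical
  refine ⟨continuousOn_con hσ.1 hC, ?_⟩
  obtain ⟨_, S, hS⟩ := hσ
  refine ⟨S.image homc, fun z hz => ?_⟩
  rcases hz.1.lt_or_eq with h1 | h1
  · obtain ⟨g, hg, e⟩ := hS _ (hz.2.1 h1)
    refine ⟨homc g, Finset.mem_image_of_mem _ hg, ?_⟩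
    rw [con_pos h1, e, homc_apply, affine_eq', map_smul, smul_add, smul_smul,
      mul_inv_cancel₀ h1.ne', one_smul]
  · obtain ⟨w, hw⟩ := hne
    obtain ⟨g, hg, _⟩ := hS w hw
    refine ⟨homc g, Finset.mem_image_of_mem _ hg, ?_⟩
    rw [con_of_le h1.ge, homc_apply, hz.2.2 h1.symm, map_zero, ← h1, zero_smul, add_zero]

lemma convex_Kc (hB : Convex ℝ B) : Convex ℝ (Kc B) := by
  intro z hz w hw a b ha hb hab
  have key : ∀ {z w : ℝ × W}, z ∈ Kc B → w ∈ Kc B → z + w ∈ Kc B := by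
    intro z w hz hw
    refine ⟨add_nonneg hz.1 hw.1, fun h => ?_, fun h => ?_⟩
    · show (z.1 + w.1)⁻¹ • (z.2 + w.2) ∈ B
      have h' : 0 < z.1 + w.1 := h
      rcases hz.1.lt_or_eq with h1 | h1
      · rcases hw.1.lt_or_eq with h2 | h2
        · have h3 := hB (hz.2.1 h1) (hw.2.1 h2) (a := (z.1 + w.1)⁻¹ * z.1)
            (b := (z.1 + w.1)⁻¹ * w.1) (by positivity) (by positivity)
            (by rw [← mul_add, inv_mul_cancel₀ h'.ne'])
          rw [smul_smul, smul_smul, mul_assoc, mul_assoc, mul_inv_cancel₀ h1.ne',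
            mul_inv_cancel₀ h2.ne', mul_one, ← smul_add] at h3
          exact h3
        · rw [hw.2.2 h2.symm, add_zero, ← h2, add_zero]
          exact hz.2.1 h1
      · have h2 : 0 < w.1 := by rw [← h1, zero_add] at h'; exact h'
        rw [hz.2.2 h1.symm, zero_add, ← h1, zero_add]
        exact hw.2.1 h2
    · have h' : z.1 + w.1 = 0 := h
      have h1 : z.1 = 0 := by linarith [hz.1, hw.1]
      have h2 : w.1 = 0 := by linarith [hz.1, hw.1]
      show z.2 + w.2 = 0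
      rw [hz.2.2 h1, hw.2.2 h2, add_zero]
  have key2 : ∀ {z : ℝ × W} {a : ℝ}, 0 ≤ a → z ∈ Kc B → a • z ∈ Kc B := by
    intro z a ha hz
    rcases ha.lt_or_eq with h1 | h1
    · refine ⟨mul_nonneg h1.le hz.1, fun h => ?_, fun h => ?_⟩
      · have h' : 0 < a * z.1 := h
        have h2 : 0 < z.1 := (mul_pos_iff_of_pos_left h1).1 h'
        show (a * z.1)⁻¹ • (a • z.2) ∈ B
        rw [smul_smul]
        have : (a * z.1)⁻¹ * a = z.1⁻¹ := by field_simp
        rw [this]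
        exact hz.2.1 h2
      · have h' : a * z.1 = 0 := h
        have h2 : z.1 = 0 := (mul_eq_zero.1 h').resolve_left h1.ne'
        show a • z.2 = 0
        rw [hz.2.2 h2, smul_zero]
    · rw [← h1, zero_smul]
      exact ⟨le_rfl, fun h => absurd h (lt_irrefl _), fun _ => rfl⟩
  exact key (key2 ha hz) (key2 hb hw)

/-- conical extensions are Lipschitz -/
lemma lip_con [FiniteDimensional ℝ W] (hσ : PLOn σ B) {C : ℝ} (hC : ∀ w ∈ B, ‖σ w‖ ≤ C)
    (hne : B.Nonempty) (hB : Convex ℝ B) : ∃ L : ℝ≥0, LipschitzOnWith L (con σ) (Kc B) := by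
  obtain ⟨h1, S, h2⟩ := plOn_con hσ hC hne
  exact Crest.Agent.R96.Sob7_199.lip_of_sel (convex_Kc hB) h1 h2

end con

/-- PL maps on convex sets are Lipschitz -/
lemma exists_lip {E F : Type*} [NormedAddCommGroup E] [NormedSpace ℝ E] [FiniteDimensional ℝ E]
    [NormedAddCommGroup F] [NormedSpace ℝ F] {T : E → F} {s : Set E} (hs : Convex ℝ s)
    (h : PLOn T s) : ∃ L : ℝ≥0, LipschitzOnWith L T s := by
  obtain ⟨h1, S, h2⟩ := h
  exact Crest.Agent.R96.Sob7_199.lip_of_sel hs h1 h2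

/-! ### the double pyramid -/

/-- the tail -/
def tl (z : E3) : Fin 2 → ℝ := fun j => z j.succ

lemma wid_eq (z : E3) : wid z = ‖tl z‖ := rfl

lemma cons_tl (z : E3) : (Fin.cons (α := fun _ => ℝ) (z 0) (tl z) : E3) = z :=
  Fin.cons_self_tail z

/-- positive part -/
noncomputable def pp (x : ℝ) : ℝ := max x 0

lemma pp_nonneg (x : ℝ) : 0 ≤ pp x := le_max_right _ _

lemma pp_sub (x : ℝ) : pp x - pp (-x) = x := by
  unfold pp
  rcases le_total 0 x with h | h
  · rw [max_eq_left h, max_eq_right (by linarith)]; ring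
  · rw [max_eq_right h, max_eq_left (by linarith)]; ring

lemma pp_add (x : ℝ) : pp x + pp (-x) = |x| := by
  unfold pp
  rcases le_total 0 x with h | h
  · rw [max_eq_left h, max_eq_right (by linarith), abs_of_nonneg h]; ring
  · rw [max_eq_right h, max_eq_left (by linarith), abs_of_nonpos h]; ring

/-- the data of a double pyramid: the plane `{l (y - b) = 0}`, the two apexes, the face -/
structure Dp where
  b : E3
  a : E3
  a' : E3
  l : E3 →L[ℝ] ℝ
  ha : 0 < l (a - b)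
  ha' : l (a' - b) < 0
  F : Set E3
  oF : Set E3
  cF : IsCompact F
  vF : Convex ℝ F
  sF : oF ⊆ F
  pl : ∀ y ∈ F, l (y - b) = 0
  bF : b ∈ oF
  e : PLEquiv (cube 2) F
  sph : e.f '' (sph 2) = F \ oF
  O : Set E3
  hO : IsOpen O
  mO : ∀ y, l (y - b) = 0 → (y ∈ O ↔ y ∈ oF)

namespace Dp

variable (D : Dp)

/-- normalised signed height -/
noncomputable def t (y : E3) : ℝ :=
  pp (D.l (y - D.b)) / D.l (D.a - D.b) - pp (-D.l (y - D.b)) / (-D.l (D.a' - D.b))

/-- the point `h`-above/below -/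
noncomputable def ax (s : ℝ) : E3 := pp s • (D.a - D.b) + pp (-s) • (D.a' - D.b)

/-- the plane component -/
noncomputable def w (y : E3) : E3 := y - D.b - D.ax (D.t y)

lemma pp_pos {x : ℝ} (h : 0 ≤ x) : pp x = x := max_eq_left h
lemma pp_neg {x : ℝ} (h : x ≤ 0) : pp x = 0 := max_eq_right h


lemma pp_t (y : E3) : pp (D.t y) = pp (D.l (y - D.b)) / D.l (D.a - D.b) := by
  have h1 := D.ha
  have h2 := D.ha'
  unfold t
  rcases le_total 0 (D.l (y - D.b)) with h | h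
  · rw [pp_neg (x := -D.l (y - D.b)) (by linarith), zero_div, sub_zero]
    exact pp_pos (by have := pp_nonneg (D.l (y - D.b)); positivity)
  · rw [pp_neg h, zero_div, zero_sub]
    apply pp_neg
    have := pp_nonneg (-D.l (y - D.b))
    have h3 : 0 < -D.l (D.a' - D.b) := by linarith
    have : 0 ≤ pp (-D.l (y - D.b)) / (-D.l (D.a' - D.b)) := by positivity
    linarith

lemma pp_neg_t (y : E3) : pp (-D.t y) = pp (-D.l (y - D.b)) / (-D.l (D.a' - D.b)) := by
  have h1 := pp_sub (D.t y)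
  rw [D.pp_t] at h1
  have h2 : D.t y = pp (D.l (y - D.b)) / D.l (D.a - D.b) -
    pp (-D.l (y - D.b)) / (-D.l (D.a' - D.b)) := rfl
  linarith

lemma l_ax_t (y : E3) : D.l (D.ax (D.t y)) = D.l (y - D.b) := by
  have h1 := D.ha
  have h2 := D.ha'
  have h3 : D.l (D.a' - D.b) ≠ 0 := h2.ne
  rw [ax, map_add, map_smul, map_smul, smul_eq_mul, smul_eq_mul, D.pp_t, D.pp_neg_t]
  have e1 : pp (D.l (y - D.b)) / D.l (D.a - D.b) * D.l (D.a - D.b) = pp (D.l (y - D.b)) := by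
    field_simp
  have e2 : pp (-D.l (y - D.b)) / (-D.l (D.a' - D.b)) * D.l (D.a' - D.b) =
      - pp (-D.l (y - D.b)) := by
    field_simp
  rw [e1, e2]
  have := pp_sub (D.l (y - D.b))
  linarith

lemma l_w (y : E3) : D.l (D.w y) = 0 := by
  rw [w, map_sub, D.l_ax_t, sub_self]

/-- a point given by its height and its plane component -/
lemma t_of {s : ℝ} {x : E3} (hx : D.l x = 0) : D.t (D.b + D.ax s + x) = s := by
  have h1 := D.ha
  have h2 := D.ha'
  have h3 : D.l (D.a' - D.b) ≠ 0 := h2.ne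
  have e : D.l (D.b + D.ax s + x - D.b) = pp s * D.l (D.a - D.b) + pp (-s) * D.l (D.a' - D.b) := by
    have : D.b + D.ax s + x - D.b = D.ax s + x := by abel
    rw [this, map_add, hx, add_zero, ax, map_add, map_smul, map_smul]
    rfl
  rw [t, e]
  rcases le_total 0 s with h | h
  · rw [pp_neg (x := -s) (by linarith), zero_mul, add_zero, pp_pos h, pp_pos (by positivity),
      pp_neg (x := -(s * D.l (D.a - D.b))) (by nlinarith), zero_div, sub_zero]
    field_simp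
  · rw [pp_neg h, zero_mul, zero_add, pp_pos (x := -s) (by linarith),
      pp_neg (x := -s * D.l (D.a' - D.b)) (by nlinarith),
      pp_pos (x := -(-s * D.l (D.a' - D.b))) (by nlinarith), zero_div, zero_sub]
    field_simp

lemma w_of {s : ℝ} {x : E3} (hx : D.l x = 0) : D.w (D.b + D.ax s + x) = x := by
  rw [w, D.t_of hx]
  abel

/-- reconstruction -/
lemma recon (y : E3) : D.b + D.ax (D.t y) + D.w y = y := by
  rw [w]; abel

lemma pl_pp {E : Type*} [NormedAddCommGroup E] [NormedSpace ℝ E] {f : E → ℝ} {K : Set E}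
    (h : PLOn f K) : PLOn (fun x => pp (f x)) K := pl_max h (plOn_const 0 K)

lemma pl_l : PLOn (fun y => D.l (y - D.b)) univ := pl_clm (pl_sub_const (plOn_id _) _) D.l

lemma pl_t : PLOn D.t univ :=
  pl_sub (pl_div (pl_pp D.pl_l) _) (pl_div (pl_pp (pl_neg D.pl_l)) _)

lemma pl_ax {E : Type*} [NormedAddCommGroup E] [NormedSpace ℝ E] {f : E → ℝ} {K : Set E}
    (h : PLOn f K) : PLOn (fun x => D.ax (f x)) K := by
  have h1 : ∀ v : E3, PLOn (fun x => pp (f x) • v) K := fun v =>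
    pl_clm (pl_pp h) ((ContinuousLinearMap.id ℝ ℝ).smulRight v)
  have h2 : ∀ v : E3, PLOn (fun x => pp (-f x) • v) K := fun v =>
    pl_clm (pl_pp (pl_neg h)) ((ContinuousLinearMap.id ℝ ℝ).smulRight v)
  exact pl_add (h1 _) (h2 _)

lemma pl_w : PLOn D.w univ := pl_sub (pl_sub_const (plOn_id _) _) (D.pl_ax D.pl_t)

lemma pl_abs {E : Type*} [NormedAddCommGroup E] [NormedSpace ℝ E] {f : E → ℝ} {K : Set E}
    (h : PLOn f K) : PLOn (fun x => |f x|) K :=
  (pl_add (pl_pp h) (pl_pp (pl_neg h))).congr fun x _ => (pp_add (f x)).symm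

/-- the face, centred -/
def B : Set E3 := {x | D.b + x ∈ D.F}

/-- chart of the centred face -/
noncomputable def σ (v : Fin 2 → ℝ) : E3 := D.e.f v - D.b

/-- its inverse -/
noncomputable def σ' (x : E3) : Fin 2 → ℝ := D.e.g (D.b + x)

/-- the double pyramid -/
def K : Set E3 := {y | (1 - |D.t y|, D.w y) ∈ Kc D.B}

/-- its open part -/
def V : Set E3 := {y | 0 < 1 - |D.t y| ∧ D.b + (1 - |D.t y|)⁻¹ • D.w y ∈ D.oF}

/-- the chart -/
noncomputable def ch (y : E3) : E3 :=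
  Fin.cons (α := fun _ => ℝ) (D.t y) (con D.σ' (1 - |D.t y|, D.w y))

/-- its inverse -/
noncomputable def ch' (z : E3) : E3 := D.b + D.ax (z 0) + con D.σ (1 - |z 0|, tl z)

lemma ch_zero (y : E3) : D.ch y 0 = D.t y := rfl

lemma tl_ch (y : E3) : tl (D.ch y) = con D.σ' (1 - |D.t y|, D.w y) := rfl

lemma maps_σ : MapsTo D.σ (cube 2) D.B := fun v hv => by
  show D.b + (D.e.f v - D.b) ∈ D.F
  rw [add_sub_cancel]
  exact D.e.mf hv

lemma maps_σ' : MapsTo D.σ' D.B (cube 2) := fun x hx => D.e.mg hx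

lemma σ'_σ {v : Fin 2 → ℝ} (hv : v ∈ cube 2) : D.σ' (D.σ v) = v := by
  show D.e.g (D.b + (D.e.f v - D.b)) = v
  rw [add_sub_cancel, D.e.li v hv]

lemma σ_σ' {x : E3} (hx : x ∈ D.B) : D.σ (D.σ' x) = x := by
  show D.e.f (D.e.g (D.b + x)) - D.b = x
  rw [D.e.ri _ hx, add_sub_cancel_left]

lemma l_B {x : E3} (hx : x ∈ D.B) : D.l x = 0 := by
  have := D.pl _ hx
  rwa [add_sub_cancel_left] at this

lemma l_con {z : ℝ × (Fin 2 → ℝ)} (hz : z ∈ Kc (cube 2)) : D.l (con D.σ z) = 0 := by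
  rcases hz.1.lt_or_eq with h1 | h1
  · rw [con_pos h1, map_smul, D.l_B (D.maps_σ (hz.2.1 h1)), smul_zero]
  · rw [con_of_le h1.ge, map_zero]

lemma mem_Dc {z : E3} : z ∈ Dc ↔ (1 - |z 0|, tl z) ∈ Kc (cube 2) := by
  constructor
  · intro hz
    have h1 : |z 0| + ‖tl z‖ ≤ 1 := hz
    have h2 := norm_nonneg (tl z)
    refine ⟨by show 0 ≤ 1 - |z 0|; linarith, fun h => ?_, fun h => ?_⟩
    · have h' : 0 < 1 - |z 0| := h
      show (1 - |z 0|)⁻¹ • tl z ∈ closedBall 0 1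
      rw [mem_closedBall_zero_iff, norm_smul, norm_inv, Real.norm_eq_abs, abs_of_pos h',
        inv_mul_le_iff₀ h']
      linarith
    · have h' : 1 - |z 0| = 0 := h
      exact norm_le_zero_iff.1 (by linarith)
  · rintro ⟨h1, h2, h3⟩
    have h1' : 0 ≤ 1 - |z 0| := h1
    show |z 0| + ‖tl z‖ ≤ 1
    rcases h1'.lt_or_eq with h | h
    · have h4 : (1 - |z 0|)⁻¹ • tl z ∈ closedBall 0 1 := h2 h
      rw [mem_closedBall_zero_iff, norm_smul, norm_inv, Real.norm_eq_abs, abs_of_pos h,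
        inv_mul_le_iff₀ h] at h4
      linarith
    · have h4 : tl z = 0 := h3 h.symm
      rw [h4, norm_zero]
      linarith

lemma ch'_spec {z : E3} (hz : z ∈ Dc) :
    D.t (D.ch' z) = z 0 ∧ D.w (D.ch' z) = con D.σ (1 - |z 0|, tl z) := by
  have h1 := D.l_con (mem_Dc.1 hz)
  exact ⟨D.t_of h1, D.w_of h1⟩

lemma ch'_mem {z : E3} (hz : z ∈ Dc) : D.ch' z ∈ D.K := by
  obtain ⟨h1, h2⟩ := D.ch'_spec hz
  show (1 - |D.t (D.ch' z)|, D.w (D.ch' z)) ∈ Kc D.B
  rw [h1, h2]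
  exact con_mem D.maps_σ (mem_Dc.1 hz)

lemma ch_mem {y : E3} (hy : y ∈ D.K) : D.ch y ∈ Dc := by
  rw [mem_Dc, ch_zero, tl_ch]
  exact con_mem D.maps_σ' hy

lemma ch_ch' {z : E3} (hz : z ∈ Dc) : D.ch (D.ch' z) = z := by
  obtain ⟨h1, h2⟩ := D.ch'_spec hz
  rw [ch, h1, h2, con_con (σ' := D.σ') (fun v hv => D.σ'_σ hv) (mem_Dc.1 hz)]
  exact cons_tl z

lemma ch'_ch {y : E3} (hy : y ∈ D.K) : D.ch' (D.ch y) = y := by
  rw [ch', ch_zero, tl_ch, con_con (σ' := D.σ) (fun v hv => D.σ_σ' hv) hy]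
  exact D.recon y

/-- interior of the face in the chart -/
lemma norm_σ' {x : E3} (hx : x ∈ D.B) : ‖D.σ' x‖ < 1 ↔ D.b + x ∈ D.oF := by
  have h1 : ‖D.σ' x‖ ≤ 1 := mem_closedBall_zero_iff.1 (D.maps_σ' hx)
  constructor
  · intro h
    by_contra h2
    have h3 : D.b + x ∈ D.e.f '' (Ce_537.sph 2) := by rw [D.sph]; exact ⟨hx, h2⟩
    obtain ⟨v, hv, hvx⟩ := h3
    have h4 : D.σ' x = v := by
      show D.e.g (D.b + x) = v
      rw [← hvx, D.e.li v (sph_subset_cube hv)]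
    have h5 : ‖v‖ = 1 := mem_sphere_zero_iff_norm.1 hv
    rw [h4, h5] at h
    exact lt_irrefl _ h
  · intro h
    refine lt_of_le_of_ne h1 fun h2 => ?_
    have h3 : D.σ' x ∈ Ce_537.sph 2 := mem_sphere_zero_iff_norm.2 h2
    have h4 : D.e.f (D.σ' x) ∈ D.F \ D.oF := by rw [← D.sph]; exact mem_image_of_mem _ h3
    have h5 : D.e.f (D.σ' x) = D.b + x := D.e.ri _ hx
    rw [h5] at h4
    exact h4.2 h

lemma V_sub : D.V ⊆ D.K := by
  rintro y ⟨h1, h2⟩
  refine ⟨h1.le, fun _ => D.sF h2, fun h => absurd h (ne_of_gt h1)⟩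

lemma ch_mem_Do {y : E3} (hy : y ∈ D.K) : D.ch y ∈ Do ↔ y ∈ D.V := by
  have h0 : 0 ≤ 1 - |D.t y| := hy.1
  have e1 : D.ch y ∈ Do ↔ |D.t y| + ‖con D.σ' (1 - |D.t y|, D.w y)‖ < 1 := Iff.rfl
  rw [e1]
  constructor
  · intro h
    have h1 := norm_nonneg (con D.σ' (1 - |D.t y|, D.w y))
    have h2 : 0 < 1 - |D.t y| := by linarith
    refine ⟨h2, ?_⟩
    have h3 : (1 - |D.t y|)⁻¹ • D.w y ∈ D.B := hy.2.1 h2
    rw [← D.norm_σ' h3]
    rw [con_pos (show 0 < (1 - |D.t y|, D.w y).1 from h2), norm_smul, Real.norm_eq_abs,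
      abs_of_pos (show 0 < (1 - |D.t y|, D.w y).1 from h2)] at h
    have h4 : (1 - |D.t y|) * ‖D.σ' ((1 - |D.t y|)⁻¹ • D.w y)‖ < (1 - |D.t y|) * 1 := by
      have : |D.t y| + (1 - |D.t y|) * ‖D.σ' ((1 - |D.t y|)⁻¹ • D.w y)‖ < 1 := h
      linarith
    exact lt_of_mul_lt_mul_left h4 h2.le
  · rintro ⟨h2, h3⟩
    have h2' : 0 < 1 - |D.t y| := h2
    have h4 : (1 - |D.t y|)⁻¹ • D.w y ∈ D.B := hy.2.1 h2'
    have h5 := (D.norm_σ' h4).2 h3
    rw [con_pos (show 0 < (1 - |D.t y|, D.w y).1 from h2'), norm_smul, Real.norm_eq_abs,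
      abs_of_pos (show 0 < (1 - |D.t y|, D.w y).1 from h2')]
    show |D.t y| + (1 - |D.t y|) * ‖D.σ' ((1 - |D.t y|)⁻¹ • D.w y)‖ < 1
    have h6 : (1 - |D.t y|) * ‖D.σ' ((1 - |D.t y|)⁻¹ • D.w y)‖ < (1 - |D.t y|) * 1 :=
      mul_lt_mul_of_pos_left h5 h2'
    linarith

lemma continuous_t : Continuous D.t := continuousOn_univ.1 D.pl_t.1
lemma continuous_w : Continuous D.w := continuousOn_univ.1 D.pl_w.1

lemma isOpen_V : IsOpen D.V := by
  have e : D.V = {y | 0 < 1 - |D.t y|} ∩ (fun y => D.b + (1 - |D.t y|)⁻¹ • D.w y) ⁻¹' D.O := by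
    ext y
    have h1 : D.l (D.b + (1 - |D.t y|)⁻¹ • D.w y - D.b) = 0 := by
      rw [add_sub_cancel_left, map_smul, D.l_w, smul_zero]
    constructor
    · rintro ⟨h2, h3⟩
      exact ⟨h2, (D.mO _ h1).2 h3⟩
    · rintro ⟨h2, h3⟩
      exact ⟨h2, (D.mO _ h1).1 h3⟩
  rw [e]
  have c1 : Continuous fun y => 1 - |D.t y| := continuous_const.sub D.continuous_t.abs
  have o1 : IsOpen {y | 0 < 1 - |D.t y|} := isOpen_lt continuous_const c1
  refine ContinuousOn.isOpen_inter_preimage ?_ o1 D.hO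
  exact continuousOn_const.add ((c1.continuousOn.inv₀ fun y hy => (ne_of_gt hy)).smul
    D.continuous_w.continuousOn)

lemma bounded_σ : ∃ C, ∀ v ∈ cube 2, ‖D.σ v‖ ≤ C := by
  have h : ContinuousOn D.σ (cube 2) := D.e.pf.1.sub continuousOn_const
  exact (isCompact_closedBall (0 : Fin 2 → ℝ) 1).exists_bound_of_continuousOn h

lemma pl_σ : PLOn D.σ (cube 2) := pl_sub_const D.e.pf D.b

lemma pl_σ' : PLOn D.σ' D.B :=
  D.e.pg.comp (f := fun x => D.b + x) ((pl_add (plOn_const D.b _) (plOn_id _))) fun _ hx => hx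

lemma nonempty_B : D.B.Nonempty := ⟨0, by
  show D.b + 0 ∈ D.F
  rw [add_zero]; exact D.sF D.bF⟩

lemma convex_B : Convex ℝ D.B := by
  have : D.B = (fun x => D.b + x) ⁻¹' D.F := rfl
  rw [this]
  exact D.vF.translate_preimage_right D.b

lemma pl_tl {E : Type*} [NormedAddCommGroup E] [NormedSpace ℝ E] {f : E → E3} {K : Set E}
    (h : PLOn f K) : PLOn (fun x => tl (f x)) K := pl_pi fun j => pl_apply h j.succ

lemma pl_ch' : PLOn D.ch' Dc := by
  obtain ⟨C, hC⟩ := D.bounded_σ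
  have h1 : PLOn (fun z : E3 => z 0) Dc := pl_apply (plOn_id _) 0
  have h2 : PLOn (fun z : E3 => ((1 - |z 0| : ℝ), tl z)) Dc :=
    pl_pair (pl_sub (plOn_const 1 _) (pl_abs h1)) (pl_tl (plOn_id _))
  have h3 := (plOn_con D.pl_σ hC ⟨0, by simp [cube]⟩).comp h2 (fun z hz => mem_Dc.1 hz)
  exact pl_add (pl_add (plOn_const _ _) (D.pl_ax h1)) h3

lemma pl_tw : PLOn (fun y => ((1 - |D.t y| : ℝ), D.w y)) univ :=
  pl_pair (pl_sub (plOn_const 1 _) (pl_abs D.pl_t)) D.pl_w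

lemma bd_σ' : ∀ x ∈ D.B, ‖D.σ' x‖ ≤ 1 := fun x hx => mem_closedBall_zero_iff.1 (D.maps_σ' hx)

lemma pl_ch : PLOn D.ch D.K := by
  have h3 := (plOn_con D.pl_σ' D.bd_σ' D.nonempty_B).comp (D.pl_tw.mono (subset_univ D.K))
    (fun z hz => hz)
  refine pl_pi fun j => ?_
  refine Fin.cases ?_ (fun i => ?_) j
  · exact D.pl_t.mono (subset_univ _)
  · exact pl_apply h3 i

lemma exists_lip_ch : ∃ L : ℝ≥0, LipschitzOnWith L D.ch D.K := by
  obtain ⟨L1, h1⟩ := lip_con D.pl_σ' D.bd_σ' D.nonempty_B D.convex_B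
  obtain ⟨L2, h2⟩ := exists_lip convex_univ D.pl_tw
  obtain ⟨L3, h3⟩ := exists_lip convex_univ D.pl_t
  refine ⟨max L3 (L1 * L2), LipschitzOnWith.of_dist_le_mul fun x hx y hy => ?_⟩
  have k3 := h3.dist_le_mul x (mem_univ _) y (mem_univ _)
  have k1 := h1.dist_le_mul _ hx _ hy
  have k2 := h2.dist_le_mul x (mem_univ _) y (mem_univ _)
  have hd : 0 ≤ dist x y := dist_nonneg
  have m1 : (L3 : ℝ) ≤ (max L3 (L1 * L2) : ℝ≥0) := by exact_mod_cast le_max_left _ _
  have m2 : ((L1 : ℝ) * L2) ≤ (max L3 (L1 * L2) : ℝ≥0) := by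
    exact_mod_cast le_max_right L3 (L1 * L2)
  have hM : (0:ℝ) ≤ (max L3 (L1 * L2) : ℝ≥0) := NNReal.coe_nonneg _
  rw [dist_pi_le_iff (by positivity)]
  intro j
  refine Fin.cases ?_ (fun i => ?_) j
  · exact k3.trans (mul_le_mul_of_nonneg_right m1 hd)
  · have k4 : dist (D.ch x i.succ) (D.ch y i.succ) ≤
        dist (con D.σ' (1 - |D.t x|, D.w x)) (con D.σ' (1 - |D.t y|, D.w y)) :=
      dist_le_pi_dist _ _ i
    calc dist (D.ch x i.succ) (D.ch y i.succ) ≤ L1 * (L2 * dist x y) :=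
          k4.trans (k1.trans (mul_le_mul_of_nonneg_left k2 L1.coe_nonneg))
      _ = (L1 * L2) * dist x y := by ring
      _ ≤ _ := mul_le_mul_of_nonneg_right m2 hd

lemma isCompact_Dc : IsCompact Dc := by
  refine Metric.isCompact_of_isClosed_isBounded ?_ ?_
  · exact isClosed_le ((continuous_apply 0).abs.add continuous_wid) continuous_const
  · refine (isBounded_closedBall (x := (0 : E3)) (r := 1)).subset fun z hz => ?_
    have h1 : |z 0| + wid z ≤ 1 := hz
    rw [mem_closedBall_zero_iff]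
    exact norm_le_max (by have := wid_nonneg z; linarith) (by have := abs_nonneg (z 0); linarith)

lemma isClosed_K : IsClosed D.K := by
  have h : D.K = D.ch' '' Dc := by
    ext y
    constructor
    · intro hy
      exact ⟨D.ch y, D.ch_mem hy, D.ch'_ch hy⟩
    · rintro ⟨z, hz, rfl⟩
      exact D.ch'_mem hz
  rw [h]
  exact (isCompact_Dc.image_of_continuousOn D.pl_ch'.1).isClosed

lemma isOpen_Do : IsOpen Do :=
  isOpen_lt ((continuous_apply 0).abs.add continuous_wid) continuous_const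

lemma isClosed_Dc : IsClosed Dc := isCompact_Dc.isClosed

/-- **the chart of the double pyramid** -/
theorem exists_cht : ∃ L L' : ℝ≥0, Cht D.K D.V Dc Do D.ch D.ch' L L' := by
  obtain ⟨L, hL⟩ := D.exists_lip_ch
  obtain ⟨L', hL'⟩ := exists_lip convex_Dc D.pl_ch'
  refine ⟨L, L', ?_⟩
  exact {
    clK := D.isClosed_K
    opU := D.isOpen_V
    sub := D.V_sub
    clK' := isClosed_Dc
    opU' := isOpen_Do
    sub' := fun z hz => by
      have h1 : |z 0| + wid z < 1 := hz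
      exact h1.le
    maps := fun y hy => D.ch_mem hy
    maps' := fun z hz => D.ch'_mem hz
    inv := fun y hy => D.ch'_ch hy
    inv' := fun z hz => D.ch_ch' hz
    mem := fun y hy => D.ch_mem_Do hy
    pl := D.pl_ch
    pl' := D.pl_ch'
    lip := hL
    lip' := hL' }

end Dp

end Crest.Agent.R096.Sq_55
end

-- ▼ part R096/Sq18_55
section

/-!
# R096 (row 96), SOBSQ, part 18 (helper55): charts of the tiles and of the 2-cells of a tiling
-/

set_option autoImplicit false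
set_option linter.unusedSectionVars false

open Set Metric Filter Topology

namespace Crest.Agent.R096.Sq_55

open Crest.Agent.R096.Ce_537 Crest.Agent.R096.Bd_416 Crest.Agent.R96.Hole_348
open Crest.Agent.R096.Msh_715 (P I Tiling I_sub_P isOpen_I isClosed_P convex_P mem_I_of_move
  disjoint_P_I isBall_P_top mem_I_small)
open scoped NNReal

/-- **charts of polytopes** -/
theorem exists_cell_cht {H : Finset ((E3 →L[ℝ] ℝ) × ℝ)} (hc : IsCompact (P H))
    (hI : (I H).Nonempty) : ∃ (e e' : E3 → E3) (L L' : ℝ≥0),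
      Cht (P H) (I H) (closedBall 0 1) (ball 0 1) e e' L L' := by
  have h := isBall_P_top H hc hI
  have h3 : Module.finrank ℝ E3 = 3 := by simp
  rw [h3] at h
  obtain ⟨E, hE⟩ := h
  obtain ⟨L, hL⟩ := exists_lip (convex_P H) E.pg
  obtain ⟨L', hL'⟩ := exists_lip (convex_closedBall (0 : E3) 1) E.pf
  refine ⟨E.g, E.f, L, L', ?_⟩
  exact {
    clK := isClosed_P H
    opU := isOpen_I H
    sub := I_sub_P H
    clK' := isClosed_closedBall
    opU' := isOpen_ball
    sub' := ball_subset_closedBall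
    maps := E.mg
    maps' := E.mf
    inv := E.ri
    inv' := E.li
    mem := by
      intro x hx
      have h1 : ‖E.g x‖ ≤ 1 := mem_closedBall_zero_iff.1 (E.mg hx)
      rw [mem_ball_zero_iff]
      constructor
      · intro h2
        by_contra h3
        have h4 : x ∈ E.f '' (sph 3) := by rw [hE]; exact ⟨hx, h3⟩
        obtain ⟨v, hv, hvx⟩ := h4
        have h5 : E.g x = v := by rw [← hvx, E.li v (sph_subset_cube hv)]
        have h6 : ‖v‖ = 1 := mem_sphere_zero_iff_norm.1 hv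
        rw [h5, h6] at h2
        exact lt_irrefl _ h2
      · intro h2
        refine lt_of_le_of_ne h1 fun h3 => ?_
        have h4 : E.f (E.g x) ∈ P H \ I H := by
          rw [← hE]
          exact mem_image_of_mem _ (mem_sphere_zero_iff_norm.2 h3)
        rw [E.ri x hx] at h4
        exact h4.2 h2
    pl := E.pg
    pl' := E.pf
    lip := hL
    lip' := hL' }


section tiling

variable {Om : Set E3} {ι : Type*} (T : Tiling Om ι) (c : ι → E3)

/-- the double pyramid over the 2-cell of `x` with apexes `c i`, `c j` -/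
structure IsDp (x : E3) (i j : ι) (D : Dp) : Prop where
  ne : i ≠ j
  at_ : T.at_ x = {i, j}
  a : D.a = c i
  a' : D.a' = c j
  F : D.F = T.cc x
  oF : D.oF = T.oc x

/-- **every 2-cell has a double pyramid** -/
theorem exists_dp (hc : ∀ i, c i ∈ I (T.H i)) {x : E3} (hx : x ∈ Om) (hd : T.dim x = 2) :
    ∃ i j D, IsDp T c x i j D := by
  have h3 : Module.finrank ℝ E3 = 3 := by simp
  obtain ⟨i1, j1, hij1, hat1, -⟩ := T.two_tiles hx (by rw [hd, h3])
  have hactive : ∀ i ∈ T.at_ x, ∃ h ∈ T.H i, h.1 x = h.2 := by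
    intro i hi
    by_contra hcon
    push Not at hcon
    have : T.V x = ⊤ := (T.V_eq_top_iff hx).2
      ⟨i, fun h hh => lt_of_le_of_ne (hi h hh) (hcon h hh)⟩
    have h1 : T.dim x = Module.finrank ℝ E3 := by
      unfold Tiling.dim; rw [this]; exact finrank_top ℝ E3
    omega
  have hi1 : i1 ∈ T.at_ x := by rw [hat1]; exact mem_insert _ _
  have hj1 : j1 ∈ T.at_ x := by rw [hat1]; exact mem_insert_of_mem _ rfl
  obtain ⟨h0, hh0, e0⟩ := hactive i1 hi1
  set l : E3 →L[ℝ] ℝ := -h0.1 with hl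
  have hlc : 0 < l (c i1 - x) := by
    have := hc i1 h0 hh0
    show 0 < -(h0.1 (c i1 - x))
    rw [map_sub, e0]; linarith
  have hne0 : (l : E3 →ₗ[ℝ] ℝ) ≠ 0 := by
    intro h
    have : l (c i1 - x) = 0 := congrArg (fun f : E3 →ₗ[ℝ] ℝ => f (c i1 - x)) h
    linarith
  have hVle : T.V x ≤ LinearMap.ker (l : E3 →ₗ[ℝ] ℝ) := fun v hv => by
    rw [LinearMap.mem_ker]
    show -(h0.1 v) = 0
    rw [hv i1 hi1 h0 hh0 e0, neg_zero]
  have hker : Module.finrank ℝ (LinearMap.ker (l : E3 →ₗ[ℝ] ℝ)) + 1 = Module.finrank ℝ E3 := by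
    have h1 := LinearMap.finrank_range_add_finrank_ker (l : E3 →ₗ[ℝ] ℝ)
    have h2 : LinearMap.range (l : E3 →ₗ[ℝ] ℝ) = ⊤ := LinearMap.range_eq_top.2
      (LinearMap.surjective_of_ne_zero hne0)
    rw [h2, finrank_top, Module.finrank_self] at h1
    omega
  have hVeq : T.V x = LinearMap.ker (l : E3 →ₗ[ℝ] ℝ) := by
    apply Submodule.eq_of_le_of_finrank_eq hVle
    have : Module.finrank ℝ (T.V x) = T.dim x := rfl
    omega
  have hV : ∀ v, v ∈ T.V x ↔ l v = 0 := fun v => by rw [hVeq, LinearMap.mem_ker]; rfl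
  -- every active functional is a multiple of `l`
  set u : E3 := (l (c i1 - x))⁻¹ • (c i1 - x) with hu
  have hlu : l u = 1 := by rw [hu, map_smul, smul_eq_mul, inv_mul_cancel₀ hlc.ne']
  have hmul : ∀ i ∈ T.at_ x, ∀ h ∈ T.H i, h.1 x = h.2 → ∀ v, h.1 v = h.1 u * l v := by
    intro i hi h hh e v
    have h5 : v - l v • u ∈ T.V x := by
      rw [hV, map_sub, map_smul, hlu, smul_eq_mul, mul_one, sub_self]
    have := h5 i hi h hh e
    rw [map_sub, map_smul, smul_eq_mul, sub_eq_zero] at this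
    rw [this]; ring
  -- the sign at `j1`
  have hlj : l (c j1 - x) < 0 := by
    by_contra hcon
    push Not at hcon
    have hneg : ∀ i, i ∈ T.at_ x → 0 ≤ l (c i - x) → ∀ h ∈ T.H i, h.1 x = h.2 → h.1 u < 0 := by
      intro i hi hli h hh e
      have h6 := hmul i hi h hh e (c i - x)
      rw [map_sub, e] at h6
      have h7 := hc i h hh
      by_contra h8
      push Not at h8
      nlinarith
    have hN1 := hneg i1 hi1 hlc.le
    have hN2 := hneg j1 hj1 hcon
    -- a common interior point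
    have hsmall : ∀ i, i ∈ T.at_ x → (∀ h ∈ T.H i, h.1 x = h.2 → h.1 u < 0) →
        ∀ᶠ s in 𝓝[>] (0:ℝ), x + s • u ∈ I (T.H i) := by
      intro i hi hN
      have : ∀ h ∈ T.H i, ∀ᶠ s in 𝓝[>] (0:ℝ), h.1 (x + s • u) < h.2 := by
        intro h hh
        rcases eq_or_lt_of_le (hi h hh) with e | e
        · filter_upwards [self_mem_nhdsWithin] with s hs
          have hs' : (0:ℝ) < s := hs
          rw [map_add, map_smul, smul_eq_mul, e]
          nlinarith [hN h hh e]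
        · have hcn : Tendsto (fun s : ℝ => h.1 (x + s • u)) (𝓝 0) (𝓝 (h.1 (x + (0:ℝ) • u))) := by
            apply Continuous.tendsto
            fun_prop
          rw [zero_smul, add_zero] at hcn
          exact (hcn.eventually (gt_mem_nhds e)).filter_mono nhdsWithin_le_nhds
      exact (Finset.eventually_all (l := 𝓝[>] (0:ℝ)) (T.H i)
        (p := fun h s => h.1 (x + s • u) < h.2)).2 this
    obtain ⟨s, h8, h9⟩ := ((hsmall i1 hi1 hN1).and (hsmall j1 hj1 hN2)).exists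
    exact Set.disjoint_left.1 (T.dis i1 j1 hij1) h8 h9
  have hball := T.isBall_cell hx
  rw [hd] at hball
  obtain ⟨e, he⟩ := hball
  have hfin := T.at_finite hx
  refine ⟨i1, j1, ⟨x, c i1, c j1, l, hlc, hlj, T.cc x, T.oc x, T.isCompact_cc hx, T.convex_cc x,
    T.oc_sub_cc x, fun y hy => (hV _).1 (T.sub_mem_V hy), T.self_mem_oc x, e, he,
    {z | ∀ i ∈ T.at_ x, ∀ h ∈ T.H i, h.1 x < h.2 → h.1 z < h.2}, ?_, ?_⟩,
    hij1, hat1, rfl, rfl, rfl, rfl⟩
  · have e1 : {z | ∀ i ∈ T.at_ x, ∀ h ∈ T.H i, h.1 x < h.2 → h.1 z < h.2} =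
        ⋂ i ∈ T.at_ x, ⋂ h ∈ T.H i, {z | h.1 x < h.2 → h.1 z < h.2} := by
      ext z; simp
    rw [e1]
    refine hfin.isOpen_biInter fun i _ => isOpen_biInter_finset fun h _ => ?_
    by_cases e2 : h.1 x < h.2
    · simp only [e2, forall_const]
      exact isOpen_lt h.1.continuous continuous_const
    · simp [e2]
  · intro y hy
    have hyV : y - x ∈ T.V x := (hV _).2 hy
    have hact : ∀ i ∈ T.at_ x, ∀ h ∈ T.H i, h.1 x = h.2 → h.1 y = h.2 := by
      intro i hi h hh e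
      have := hyV i hi h hh e
      rw [map_sub, sub_eq_zero] at this
      rw [this, e]
    constructor
    · intro h i hi g hg
      rcases eq_or_lt_of_le (hi g hg) with e | e
      · exact ⟨(hact i hi g hg e).le, fun _ => e, fun _ => hact i hi g hg e⟩
      · have := h i hi g hg e
        exact ⟨this.le, fun e' => absurd e' this.ne, fun e' => absurd e' e.ne⟩
    · intro h i hi g hg e
      have h1 := h i hi g hg
      exact lt_of_le_of_ne h1.1 fun e' => e.ne (h1.2.1 e')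

variable {T c}

namespace IsDp

variable {x : E3} {i j : ι} {D : Dp}

lemma symm_mem (h : IsDp T c x i j D) : i ∈ T.at_ x ∧ j ∈ T.at_ x := by
  rw [h.at_]; exact ⟨mem_insert _ _, mem_insert_of_mem _ rfl⟩

lemma t_of_cc (h : IsDp T c x i j D) {y : E3} (hy : y ∈ T.cc x) : D.t y = 0 := by
  have h1 : D.l (y - D.b) = 0 := D.pl y (by rw [h.F]; exact hy)
  rw [Dp.t, h1, neg_zero, Dp.pp_pos le_rfl, zero_div, zero_div, sub_zero]

lemma mem_V_of_oc (h : IsDp T c x i j D) {y : E3} (hy : y ∈ T.oc x) : y ∈ D.V ∧ D.t y = 0 := by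
  have h0 := h.t_of_cc (T.oc_sub_cc x hy)
  refine ⟨⟨?_, ?_⟩, h0⟩
  · rw [h0, abs_zero]; norm_num
  · rw [h0, abs_zero, sub_zero, inv_one, one_smul, Dp.w, h0, Dp.ax, neg_zero, Dp.pp_pos le_rfl,
      zero_smul, zero_smul, add_zero, sub_zero, add_sub_cancel, h.oF]
    exact hy

/-- points of `K` as convex combinations -/
lemma repr_pos (_h : IsDp T c x i j D) {y : E3} (hy : y ∈ D.K) (ht : 0 < D.t y) (ht1 : D.t y < 1) :
    D.b + (1 - D.t y)⁻¹ • D.w y ∈ D.F ∧
      y = (D.b + (1 - D.t y)⁻¹ • D.w y) + D.t y • (D.a - (D.b + (1 - D.t y)⁻¹ • D.w y)) := by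
  have h1 : 0 < 1 - D.t y := by linarith
  have h2 : (1 - |D.t y|)⁻¹ • D.w y ∈ D.B := hy.2.1 (by
    show 0 < 1 - |D.t y|
    rw [abs_of_pos ht]; exact h1)
  rw [abs_of_pos ht] at h2
  refine ⟨h2, ?_⟩
  have h3 := D.recon y
  rw [Dp.ax, Dp.pp_pos ht.le, Dp.pp_neg (x := -D.t y) (by linarith), zero_smul, add_zero] at h3
  set z := (1 - D.t y)⁻¹ • D.w y with hz
  have h4 : D.w y = (1 - D.t y) • z := by
    rw [hz, smul_smul, mul_inv_cancel₀ h1.ne', one_smul]
  rw [h4] at h3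
  rw [← h3]
  have : D.t (D.b + D.t y • (D.a - D.b) + (1 - D.t y) • z) = D.t y := by rw [h3]
  rw [this]
  module

lemma repr_neg (_h : IsDp T c x i j D) {y : E3} (hy : y ∈ D.K) (ht : D.t y < 0)
    (ht1 : -1 < D.t y) :
    D.b + (1 + D.t y)⁻¹ • D.w y ∈ D.F ∧
      y = (D.b + (1 + D.t y)⁻¹ • D.w y) + (-D.t y) • (D.a' - (D.b + (1 + D.t y)⁻¹ • D.w y)) := by
  have h1 : 0 < 1 + D.t y := by linarith
  have e0 : 1 - |D.t y| = 1 + D.t y := by rw [abs_of_neg ht]; ring
  have h2 : (1 - |D.t y|)⁻¹ • D.w y ∈ D.B := hy.2.1 (by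
    show 0 < 1 - |D.t y|
    rw [e0]; exact h1)
  rw [e0] at h2
  refine ⟨h2, ?_⟩
  have h3 := D.recon y
  rw [Dp.ax, Dp.pp_neg ht.le, Dp.pp_pos (x := -D.t y) (by linarith), zero_smul, zero_add] at h3
  set z := (1 + D.t y)⁻¹ • D.w y with hz
  have h4 : D.w y = (1 + D.t y) • z := by
    rw [hz, smul_smul, mul_inv_cancel₀ h1.ne', one_smul]
  rw [h4] at h3
  rw [← h3]
  have : D.t (D.b + (-D.t y) • (D.a' - D.b) + (1 + D.t y) • z) = D.t y := by rw [h3]
  rw [this]
  module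

variable (hc : ∀ i, c i ∈ I (T.H i))
include hc

lemma tile_pos (h : IsDp T c x i j D) {y : E3} (hy : y ∈ D.V) (ht : 0 < D.t y) :
    y ∈ I (T.H i) := by
  have h1 : D.t y < 1 := by
    have : 0 < 1 - |D.t y| := hy.1
    rw [abs_of_pos ht] at this
    linarith
  obtain ⟨h2, h3⟩ := h.repr_pos (D.V_sub hy) ht h1
  rw [h.F] at h2
  rw [h3]
  have h4 := T.cc_sub_tile h.symm_mem.1 h2
  refine mem_I_of_move h4 ?_ ht h1.le
  rw [h.a]; exact hc i

lemma tile_neg (h : IsDp T c x i j D) {y : E3} (hy : y ∈ D.V) (ht : D.t y < 0) :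
    y ∈ I (T.H j) := by
  have h1 : -1 < D.t y := by
    have : 0 < 1 - |D.t y| := hy.1
    rw [abs_of_neg ht] at this
    linarith
  obtain ⟨h2, h3⟩ := h.repr_neg (D.V_sub hy) ht h1
  rw [h.F] at h2
  rw [h3]
  have h4 := T.cc_sub_tile h.symm_mem.2 h2
  refine mem_I_of_move h4 ?_ (by linarith) (by linarith)
  rw [h.a']; exact hc j

omit hc in
lemma cell_zero (h : IsDp T c x i j D) {y : E3} (hy : y ∈ D.V) (ht : D.t y = 0) :
    y ∈ T.oc x := by
  have h1 := hy.2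
  have h3 := D.recon y
  rw [ht, Dp.ax, neg_zero, Dp.pp_pos le_rfl, zero_smul, zero_smul, add_zero, add_zero] at h3
  rw [ht, abs_zero, sub_zero, inv_one, one_smul, h3, h.oF] at h1
  exact h1

/-- membership in a tile depends only on the height -/
lemma side (h : IsDp T c x i j D) (hx : x ∈ Om) {y z : E3} (hy : y ∈ D.V) (hz : z ∈ D.V)
    (e : D.t y = D.t z) {k : ι} (hk : y ∈ P (T.H k)) : z ∈ P (T.H k) := by
  rcases lt_trichotomy (D.t y) 0 with ht | ht | ht
  · have h1 := h.tile_neg hc hy ht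
    have h2 : k = j := by
      by_contra hne
      exact Set.disjoint_left.1 (disjoint_P_I (T.ne k) (T.dis k j hne)) hk h1
    rw [h2]
    exact I_sub_P _ (h.tile_neg hc hz (by rw [← e]; exact ht))
  · have h1 := h.cell_zero hy ht
    have h2 := h.cell_zero hz (by rw [← e]; exact ht)
    have e1 := T.at_eq_of_mem_oc hx h1
    have e2 := T.at_eq_of_mem_oc hx h2
    have h3 : k ∈ T.at_ y := hk
    rw [e1, ← e2] at h3
    exact h3
  · have h1 := h.tile_pos hc hy ht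
    have h2 : k = i := by
      by_contra hne
      exact Set.disjoint_left.1 (disjoint_P_I (T.ne k) (T.dis k i hne)) hk h1
    rw [h2]
    exact I_sub_P _ (h.tile_pos hc hz (by rw [← e]; exact ht))

lemma sub_tiles (h : IsDp T c x i j D) {y : E3} (hy : y ∈ D.V) :
    y ∈ P (T.H i) ∨ y ∈ P (T.H j) := by
  rcases lt_trichotomy (D.t y) 0 with ht | ht | ht
  · exact Or.inr (I_sub_P _ (h.tile_neg hc hy ht))
  · exact Or.inl (T.cc_sub_tile h.symm_mem.1 (T.oc_sub_cc x (h.cell_zero hy ht)))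
  · exact Or.inl (I_sub_P _ (h.tile_pos hc hy ht))

/-- the height is controlled by the distance to the boundary of the tile -/
lemma exists_slab (h : IsDp T c x i j D) (hx : x ∈ Om) : ∃ A : ℝ, 0 ≤ A ∧ ∀ k, ∀ y ∈ D.V,
    y ∈ P (T.H k) → ∀ z ∈ P (T.H k) \ I (T.H k), |D.t y| ≤ A * ‖y - z‖ := by
  have hA : ∀ i, ∃ A : ℝ, 0 ≤ A ∧ ∀ h ∈ T.H i, ‖h.1‖ ≤ A * (h.2 - h.1 (c i)) := by
    intro i
    refine ⟨∑ h ∈ T.H i, ‖h.1‖ / (h.2 - h.1 (c i)), ?_, ?_⟩
    · refine Finset.sum_nonneg fun h hh => ?_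
      have := hc i h hh
      exact div_nonneg (norm_nonneg _) (by linarith)
    · intro h hh
      have h1 : 0 < h.2 - h.1 (c i) := by have := hc i h hh; linarith
      have h2 : ‖h.1‖ / (h.2 - h.1 (c i)) ≤ ∑ h ∈ T.H i, ‖h.1‖ / (h.2 - h.1 (c i)) := by
        refine Finset.single_le_sum (f := fun h : (E3 →L[ℝ] ℝ) × ℝ => ‖h.1‖ / (h.2 - h.1 (c i)))
          (fun g hg => ?_) hh
        have := hc i g hg
        exact div_nonneg (norm_nonneg _) (by linarith)
      rwa [div_le_iff₀ h1] at h2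
  obtain ⟨A, hA0, hA1⟩ := hA i
  obtain ⟨A', hA0', hA1'⟩ := hA j
  refine ⟨max A A', hA0.trans (le_max_left _ _), fun k y hy hk z hz => ?_⟩
  have key : ∀ (k : ι) (A : ℝ), (∀ h ∈ T.H k, ‖h.1‖ ≤ A * (h.2 - h.1 (c k))) →
      ∀ (v : E3) (s : ℝ), 0 < s → s < 1 → v ∈ P (T.H k) → y = v + s • (c k - v) →
      z ∈ P (T.H k) \ I (T.H k) → s ≤ A * ‖y - z‖ := by
    intro k A hA v s hs hs1 hv hyv hz
    obtain ⟨g, hg, hgz⟩ : ∃ g ∈ T.H k, g.1 z = g.2 := by
      by_contra hcon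
      push Not at hcon
      exact hz.2 fun g hg => lt_of_le_of_ne (hz.1 g hg) (hcon g hg)
    have h1 : g.1 y = (1 - s) * g.1 v + s * g.1 (c k) := by
      rw [hyv]
      simp only [map_add, map_smul, map_sub, smul_eq_mul]; ring
    have h2 := hv g hg
    have h3 : s * (g.2 - g.1 (c k)) ≤ g.1 z - g.1 y := by rw [hgz, h1]; nlinarith
    have h4 : g.1 z - g.1 y ≤ ‖g.1‖ * ‖y - z‖ := by
      rw [← map_sub, ← norm_neg (y - z), neg_sub]
      exact (le_abs_self _).trans (g.1.le_opNorm _)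
    have h5 := hA g hg
    have h6 : 0 < g.2 - g.1 (c k) := by have := hc k g hg; linarith
    have h7 : s * (g.2 - g.1 (c k)) ≤ (A * ‖y - z‖) * (g.2 - g.1 (c k)) := by
      have := mul_le_mul_of_nonneg_right h5 (norm_nonneg (y - z))
      nlinarith
    exact le_of_mul_le_mul_right h7 h6
  have hb1 : |D.t y| < 1 := by have : 0 < 1 - |D.t y| := hy.1; linarith
  rcases lt_trichotomy (D.t y) 0 with ht | ht | ht
  · have h1 := h.tile_neg hc hy ht
    have h2 : k = j := by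
      by_contra hne
      exact Set.disjoint_left.1 (disjoint_P_I (T.ne k) (T.dis k j hne)) hk h1
    subst h2
    rw [abs_of_neg ht] at hb1 ⊢
    obtain ⟨h3, h4⟩ := h.repr_neg (D.V_sub hy) ht (by linarith)
    rw [h.F] at h3
    rw [h.a'] at h4
    have := key k A' hA1' _ (-D.t y) (by linarith) hb1
      (T.cc_sub_tile h.symm_mem.2 h3) h4 hz
    exact this.trans (mul_le_mul_of_nonneg_right (le_max_right _ _) (norm_nonneg _))
  · rw [ht, abs_zero]
    exact mul_nonneg (hA0.trans (le_max_left _ _)) (norm_nonneg _)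
  · have h1 := h.tile_pos hc hy ht
    have h2 : k = i := by
      by_contra hne
      exact Set.disjoint_left.1 (disjoint_P_I (T.ne k) (T.dis k i hne)) hk h1
    subst h2
    rw [abs_of_pos ht] at hb1 ⊢
    obtain ⟨h3, h4⟩ := h.repr_pos (D.V_sub hy) ht hb1
    rw [h.F] at h3
    rw [h.a] at h4
    have := key k A hA1 _ (D.t y) ht hb1 (T.cc_sub_tile h.symm_mem.1 h3) h4 hz
    exact this.trans (mul_le_mul_of_nonneg_right (le_max_left _ _) (norm_nonneg _))

end IsDp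

end tiling

end Crest.Agent.R096.Sq_55
end

-- ▼ part R096/Sq19_55

/-!
# R096 (row 96), SOBSQ, part 19 (helper55): the system of a tiling
-/

set_option autoImplicit false
set_option linter.unusedSectionVars false

open Set Metric Filter Topology

namespace Crest.Agent.R096.Sq_55

open Crest.Agent.R096.Ce_537 Crest.Agent.R096.Bd_416 Crest.Agent.R96.Hole_348
open Crest.Agent.R096.Msh_715 (P I Tiling I_sub_P isOpen_I isClosed_P convex_P mem_I_of_move
  disjoint_P_I isBall_P_top mem_I_small)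
open scoped NNReal

section tiling

variable {Om : Set E3} {ι : Type*} {T : Tiling Om ι} {c : ι → E3}

/-- uniqueness of the exit point of a ray -/
lemma ray_unique {H : Finset ((E3 →L[ℝ] ℝ) × ℝ)} {v z z' : E3} (hv : v ∈ I H) (hz : z ∈ P H)
    (hz' : z' ∈ P H) (nz : z ∉ I H) (nz' : z' ∉ I H) {s s' : ℝ} (hs : 0 < s) (hs1 : s < 1)
    (hs' : 0 < s') (hs1' : s' < 1) (e : z + s • (v - z) = z' + s' • (v - z')) : z = z' := by
  have key : ∀ {z z' : E3} {s s' : ℝ}, z' ∈ P H → z ∉ I H → s < 1 → 0 < s' → s' < 1 → s < s' →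
      z + s • (v - z) = z' + s' • (v - z') → False := by
    intro z z' s s' hz' nz hs1 hs' hs1' hlt e
    apply nz
    have h1 : 0 < 1 - s := by linarith
    have h2 : z = z' + ((s' - s) / (1 - s)) • (v - z') := by
      have e1 : (1 - s) • z = (1 - s') • z' + (s' - s) • v := by
        have e2 : z + s • (v - z) - s • v = z' + s' • (v - z') - s • v := by rw [e]
        calc (1 - s) • z = z + s • (v - z) - s • v := by module
          _ = z' + s' • (v - z') - s • v := e2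
          _ = (1 - s') • z' + (s' - s) • v := by module
      have e3 : z = (1 - s)⁻¹ • ((1 - s) • z) := by
        rw [smul_smul, inv_mul_cancel₀ h1.ne', one_smul]
      rw [e3, e1, smul_add, smul_smul, smul_smul]
      have e4 : (1 - s)⁻¹ * (1 - s') = 1 - (s' - s) / (1 - s) := by field_simp; ring
      have e5 : (1 - s)⁻¹ * (s' - s) = (s' - s) / (1 - s) := by field_simp
      rw [e4, e5]
      module
    rw [h2]
    refine mem_I_of_move hz' hv (div_pos (by linarith) h1) ?_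
    rw [div_le_one h1]; linarith
  rcases lt_trichotomy s s' with h | h | h
  · exact (key hz' nz hs1 hs' hs1' h e).elim
  · subst h
    have h1 : 0 < 1 - s := by linarith
    have e1 : (1 - s) • z = (1 - s) • z' := by
      have e2 : z + s • (v - z) - s • v = z' + s • (v - z') - s • v := by rw [e]
      calc (1 - s) • z = z + s • (v - z) - s • v := by module
        _ = z' + s • (v - z') - s • v := e2
        _ = (1 - s) • z' := by module
    exact smul_right_injective E3 h1.ne' e1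
  · exact (key hz nz' hs1' hs hs1 h e.symm).elim

lemma notMem_I_of_two {y : E3} {i j l : ι} (hij : i ≠ j) (hi : y ∈ P (T.H i))
    (hj : y ∈ P (T.H j)) : y ∉ I (T.H l) := by
  intro hl
  by_cases h1 : i = l
  · have h2 : j ≠ l := fun h => hij (h1.trans h.symm)
    exact Set.disjoint_left.1 (disjoint_P_I (T.ne j) (T.dis j l h2)) hj hl
  · exact Set.disjoint_left.1 (disjoint_P_I (T.ne i) (T.dis i l h1)) hi hl

namespace IsDp

variable {x : E3} {i j : ι} {D : Dp}

lemma oc_notMem (h : IsDp T c x i j D) (hx : x ∈ Om) {y : E3} (hy : y ∈ T.oc x) (l : ι) :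
    y ∉ I (T.H l) := by
  have e := T.at_eq_of_mem_oc hx hy
  have h1 : i ∈ T.at_ y := by rw [e]; exact h.symm_mem.1
  have h2 : j ∈ T.at_ y := by rw [e]; exact h.symm_mem.2
  exact notMem_I_of_two h.ne h1 h2

lemma ray_repr (h : IsDp T c x i j D) (hx : x ∈ Om) (hc : ∀ i, c i ∈ I (T.H i)) {y : E3}
    (hy : y ∈ D.V) (ht : D.t y ≠ 0) : ∃ (l : ι) (z : E3) (s : ℝ), z ∈ T.oc x ∧ z ∈ P (T.H l) ∧
      z ∉ I (T.H l) ∧ 0 < s ∧ s < 1 ∧ y = z + s • (c l - z) ∧ y ∈ I (T.H l) := by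
  have hb1 : |D.t y| < 1 := by have : 0 < 1 - |D.t y| := hy.1; linarith
  rcases lt_or_gt_of_ne ht with ht | ht
  · have h0 := h.tile_neg hc hy ht
    rw [abs_of_neg ht] at hb1
    obtain ⟨h3, h4⟩ := h.repr_neg (D.V_sub hy) ht (by linarith)
    have h5 := hy.2
    rw [h.F] at h3
    rw [h.oF, show 1 - |D.t y| = 1 + D.t y by rw [abs_of_neg ht]; ring] at h5
    rw [h.a'] at h4
    exact ⟨j, _, _, h5, T.cc_sub_tile h.symm_mem.2 h3, h.oc_notMem hx h5 j, by linarith,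
      by linarith, h4, h0⟩
  · have h0 := h.tile_pos hc hy ht
    rw [abs_of_pos ht] at hb1
    obtain ⟨h3, h4⟩ := h.repr_pos (D.V_sub hy) ht hb1
    have h5 := hy.2
    rw [h.F] at h3
    rw [h.oF, abs_of_pos ht] at h5
    rw [h.a] at h4
    exact ⟨i, _, _, h5, T.cc_sub_tile h.symm_mem.1 h3, h.oc_notMem hx h5 i, ht, hb1, h4, h0⟩

lemma disjoint (hc : ∀ i, c i ∈ I (T.H i)) (h : IsDp T c x i j D) (hx : x ∈ Om) {x' : E3}
    {i' j' : ι} {D' : Dp} (h' : IsDp T c x' i' j' D') (hx' : x' ∈ Om)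
    (hne : T.cc x ≠ T.cc x') : Disjoint D.V D'.V := by
  rw [Set.disjoint_left]
  intro y hy hy'
  have fin : ∀ {z : E3}, z ∈ T.oc x → z ∈ T.oc x' → False := fun hz hz' =>
    hne ((T.cc_eq_of_mem_oc hx hz).symm.trans (T.cc_eq_of_mem_oc hx' hz'))
  by_cases ht : D.t y = 0
  · have h1 := h.cell_zero hy ht
    by_cases ht' : D'.t y = 0
    · exact fin h1 (h'.cell_zero hy' ht')
    · obtain ⟨l, _, _, _, _, _, _, _, _, h2⟩ := h'.ray_repr hx' hc hy' ht'
      exact h.oc_notMem hx h1 l h2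
  · obtain ⟨l, z, s, a1, a2, a3, a4, a5, a6, a7⟩ := h.ray_repr hx hc hy ht
    by_cases ht' : D'.t y = 0
    · exact h'.oc_notMem hx' (h'.cell_zero hy' ht') l a7
    · obtain ⟨l', z', s', b1, b2, b3, b4, b5, b6, b7⟩ := h'.ray_repr hx' hc hy' ht'
      have e : l = l' := by
        by_contra hne
        exact Set.disjoint_left.1 (T.dis l l' hne) a7 b7
      subst e
      have e2 := ray_unique (hc l) a2 b2 a3 b3 a4 a5 b4 b5 (a6.symm.trans b6)
      rw [← e2] at b1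
      exact fin a1 b1

end IsDp

/-- `F` is a chart of the double pyramid over the 2-cell of `x` -/
def FaceOf (T : Tiling Om ι) (c : ι → E3) (x : E3) (F : Face) : Prop :=
  ∃ i j D, IsDp T c x i j D ∧ F.K = D.K ∧ F.V = D.V ∧ (∀ y ∈ D.K, F.e y 0 = D.t y) ∧
    ∀ k, ∀ y ∈ D.V, y ∈ P (T.H k) → ∀ z ∈ P (T.H k) \ I (T.H k),
      F.ρ * |D.t y| ≤ F.M * ‖y - z‖

/-- **charts of the 2-cells exist** -/
theorem exists_face (hc : ∀ i, c i ∈ I (T.H i)) {x : E3} (hx : x ∈ Om) (hd : T.dim x = 2)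
    {ρ : ℝ≥0} (hρ : 0 < ρ) : ∃ F : Face, FaceOf T c x F ∧ F.ρ = ρ := by
  obtain ⟨i, j, D, h⟩ := exists_dp T c hc hx hd
  obtain ⟨L, L', hL⟩ := D.exists_cht
  obtain ⟨A, hA0, hA⟩ := h.exists_slab hc hx
  set M : ℝ≥0 := max 1 (max (max (L * ρ) (L' / ρ)) (A.toNNReal * ρ)) with hM
  have h1 : L ≤ M / ρ := by
    rw [le_div_iff₀ hρ]
    exact (le_max_left _ _).trans ((le_max_left _ _).trans (le_max_right _ _))
  have h2 : L' ≤ M * ρ := by
    rw [← div_le_iff₀ hρ]
    exact (le_max_right _ _).trans ((le_max_left _ _).trans (le_max_right _ _))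
  have h3 : A * ρ ≤ M := by
    have : A.toNNReal * ρ ≤ M := (le_max_right _ _).trans (le_max_right _ _)
    have h4 : ((A.toNNReal * ρ : ℝ≥0) : ℝ) ≤ M := by exact_mod_cast this
    rwa [NNReal.coe_mul, Real.coe_toNNReal _ hA0] at h4
  refine ⟨⟨D.K, D.V, M, ρ, le_max_left _ _, hρ, D.ch, D.ch',
    { hL with lip := hL.lip.weaken h1, lip' := hL.lip'.weaken h2 }⟩,
    ⟨i, j, D, h, rfl, rfl, fun y _ => rfl, fun k y hy hk z hz => ?_⟩, rfl⟩
  have h5 := hA k y hy hk z hz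
  have hρ' : (0:ℝ) ≤ ρ := ρ.coe_nonneg
  calc (ρ : ℝ) * |D.t y| ≤ ρ * (A * ‖y - z‖) := mul_le_mul_of_nonneg_left h5 hρ'
    _ = (A * ρ) * ‖y - z‖ := by ring
    _ ≤ M * ‖y - z‖ := mul_le_mul_of_nonneg_right h3 (norm_nonneg _)

/-- the rim is the boundary of the 2-cell -/
lemma FaceOf.rim {x : E3} {F : Face} (h : FaceOf T c x F) : F.rim = T.cc x \ T.oc x := by
  obtain ⟨i, j, D, h, hK, hV, he, -⟩ := h
  have c0 : Cht D.K D.V Dc Do F.e F.e' (F.M / F.ρ) (F.M * F.ρ) := by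
    rw [← hK, ← hV]; exact F.cht
  ext y
  constructor
  · rintro ⟨z, ⟨z0, z1⟩, rfl⟩
    have hz : z ∈ Dc := Face.rim_mem z0 z1
    have hyK : F.e' z ∈ D.K := c0.maps' hz
    have ht : D.t (F.e' z) = 0 := by rw [← he _ hyK, c0.inv' z hz, z0]
    have hnV : F.e' z ∉ D.V := by
      intro h1
      have h2 : |z 0| + wid z < 1 := (c0.mem' hz).1 h1
      rw [z0, z1, abs_zero, zero_add] at h2
      exact lt_irrefl _ h2
    refine ⟨?_, fun h1 => hnV (h.mem_V_of_oc h1).1⟩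
    have h1 := hyK.2.1 (by rw [ht]; norm_num)
    have h3 := D.recon (F.e' z)
    rw [ht, Dp.ax, neg_zero, Dp.pp_pos le_rfl, zero_smul, zero_smul, add_zero, add_zero] at h3
    have h4 : (1 - |D.t (F.e' z)|)⁻¹ • D.w (F.e' z) = D.w (F.e' z) := by
      rw [ht, abs_zero, sub_zero, inv_one, one_smul]
    have h5 : D.b + (1 - |D.t (F.e' z)|)⁻¹ • D.w (F.e' z) ∈ D.F := h1
    rw [h4, h3, h.F] at h5
    exact h5
  · rintro ⟨h1, h2⟩
    have ht := h.t_of_cc h1
    have hw : D.w y = y - D.b := by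
      rw [Dp.w, ht, Dp.ax, neg_zero, Dp.pp_pos le_rfl, zero_smul, zero_smul, add_zero, sub_zero]
    have hyK : y ∈ D.K := by
      refine ⟨by rw [ht]; norm_num, fun _ => ?_, fun h3 => ?_⟩
      · show D.b + (1 - |D.t y|)⁻¹ • D.w y ∈ D.F
        rw [ht, abs_zero, sub_zero, inv_one, one_smul, hw, add_sub_cancel, h.F]
        exact h1
      · have h3' : 1 - |D.t y| = 0 := h3
        rw [ht, abs_zero, sub_zero] at h3'
        exact absurd h3' one_ne_zero
    have hnV : y ∉ D.V := fun h3 => h2 (h.cell_zero h3 ht)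
    have hz : F.e y ∈ Dc := c0.maps hyK
    have hz0 : F.e y 0 = 0 := by rw [he y hyK, ht]
    refine ⟨F.e y, ⟨hz0, ?_⟩, c0.inv y hyK⟩
    have h3 : |F.e y 0| + wid (F.e y) ≤ 1 := hz
    have h4 : ¬ (|F.e y 0| + wid (F.e y) < 1) := fun h5 => hnV ((c0.mem y hyK).1 h5)
    rw [hz0, abs_zero, zero_add] at h3 h4
    exact le_antisymm h3 (not_lt.1 h4)

/-- a double pyramid lies in the union of the two tiles -/
lemma FaceOf.sub {x : E3} {F : Face} (h : FaceOf T c x F) (hc : ∀ i, c i ∈ I (T.H i)) {y : E3}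
    (hy : y ∈ F.K) : ∃ i ∈ T.at_ x, y ∈ P (T.H i) := by
  obtain ⟨i, j, D, h, hK, hV, he, -⟩ := h
  have h1 : y ∈ closure F.V := by
    have hz : F.e y ∈ Dc := F.cht.maps hy
    have h1 : F.e y ∈ closure Do := by
      have h2 : Tendsto (fun s : ℝ => (1 - s) • F.e y) (𝓝[>] 0) (𝓝 (F.e y)) := by
        have : Tendsto (fun s : ℝ => (1 - s) • F.e y) (𝓝 0) (𝓝 ((1 - 0 : ℝ) • F.e y)) := by
          apply Continuous.tendsto
          fun_prop
        rw [sub_zero, one_smul] at this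
        exact this.mono_left nhdsWithin_le_nhds
      refine mem_closure_of_tendsto h2 ?_
      have h3 : ∀ᶠ s in 𝓝[>] (0:ℝ), s < 1 :=
        (gt_mem_nhds (zero_lt_one' ℝ)).filter_mono nhdsWithin_le_nhds
      filter_upwards [h3, self_mem_nhdsWithin] with s hs hs0
      have hs0 : (0:ℝ) < s := hs0
      show |((1 - s) • F.e y) 0| + wid ((1 - s) • F.e y) < 1
      have e0 : ((1 - s) • F.e y) 0 = (1 - s) * F.e y 0 := rfl
      have h4 : |F.e y 0| + wid (F.e y) ≤ 1 := hz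
      rw [wid_smul (by linarith), e0, abs_mul, abs_of_pos (by linarith : 0 < 1 - s), ← mul_add]
      nlinarith [abs_nonneg (F.e y 0), wid_nonneg (F.e y)]
    have h2 : ContinuousWithinAt F.e' Do (F.e y) :=
      (F.cht.pl'.1 _ hz).mono F.cht.sub'
    have h3 := h2.mem_closure_image h1
    rw [F.cht.inv y hy] at h3
    refine closure_mono ?_ h3
    rintro _ ⟨z, hz, rfl⟩
    exact F.cht.eU' hz
  have h2 : F.V ⊆ P (T.H i) ∪ P (T.H j) := fun z hz => by
    rw [hV] at hz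
    exact h.sub_tiles hc hz
  have h3 := closure_minimal h2 ((isClosed_P _).union (isClosed_P _)) h1
  rcases h3 with h3 | h3
  · exact ⟨i, h.symm_mem.1, h3⟩
  · exact ⟨j, h.symm_mem.2, h3⟩

/-- **the system of a tiling** -/
noncomputable def mkSys (hc : ∀ i, c i ∈ I (T.H i)) (s : Finset ι) (Fs : Finset E3)
    (hFs : ∀ x ∈ Fs, x ∈ Om) (hne : ∀ x ∈ Fs, ∀ y ∈ Fs, x ≠ y → T.cc x ≠ T.cc y)
    (C : s → Cell) (hC : ∀ k : s, (C k).P = P (T.H k) ∧ (C k).U = I (T.H k))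
    (F : Fs → Face) (hF : ∀ x : Fs, FaceOf T c (x : E3) (F x)) (m : s → ℝ≥0)
    (mC : ∀ k : s, (C k).M ≤ m k)
    (mF : ∀ (k : s) (x : Fs), (k : ι) ∈ T.at_ (x : E3) → (F x).M ≤ m k) (Z : Set E3)
    (hZ : ∀ k ∈ s, ∀ y ∈ P (T.H k) \ I (T.H k), y ∈ Z ∨ ∃ x ∈ Fs, y ∈ T.oc x) : Sys s Fs where
  C := C
  F := F
  m := m
  Z := Z
  disC k l hkl := by
    rw [(hC k).2, (hC l).2]
    exact T.dis _ _ fun h => hkl (Subtype.ext h)
  disF x y hxy := by
    obtain ⟨i, j, D, h, hK, hV, he, -⟩ := hF x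
    obtain ⟨i', j', D', h', hK', hV', he', -⟩ := hF y
    rw [hV, hV']
    exact h.disjoint hc (hFs _ x.2) h' (hFs _ y.2) (hne _ x.2 _ y.2 fun e => hxy (Subtype.ext e))
  side x k y hy z hz e hk := by
    obtain ⟨i, j, D, h, hK, hV, he, -⟩ := hF x
    rw [hV] at hy hz
    rw [he y (D.V_sub hy), he z (D.V_sub hz)] at e
    rw [(hC k).1] at hk ⊢
    exact h.side hc (hFs _ x.2) hy hz e hk
  slab x k y hy hk z hz := by
    obtain ⟨i, j, D, h, hK, hV, he, hs⟩ := hF x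
    rw [hV] at hy
    rw [(hC k).1] at hk
    rw [(hC k).1, (hC k).2] at hz
    rw [he y (D.V_sub hy)]
    exact hs k y hy hk z hz
  hZ k y hy := by
    rw [(hC k).1, (hC k).2] at hy
    rcases hZ k k.2 y hy with h1 | ⟨x, hx, h1⟩
    · exact Or.inl h1
    · right
      obtain ⟨i, j, D, h, hK, hV, he, hs⟩ := hF ⟨x, hx⟩
      obtain ⟨h2, h3⟩ := h.mem_V_of_oc h1
      refine ⟨⟨x, hx⟩, by rw [hV]; exact h2, by rw [he y (D.V_sub h2), h3]⟩
  mC := mC
  mF k x hkx := by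
    apply mF k x
    obtain ⟨y, hy, hk⟩ := hkx
    obtain ⟨i, j, D, h, hK, hV, he, hs⟩ := hF x
    rw [hV] at hy
    rw [(hC k).1] at hk
    show (k : ι) ∈ T.at_ (x : E3)
    by_cases ht : D.t y = 0
    · have h1 := h.cell_zero hy ht
      have h2 : (k : ι) ∈ T.at_ y := hk
      rwa [T.at_eq_of_mem_oc (hFs _ x.2) h1] at h2
    · obtain ⟨l, z, s', a1, a2, a3, a4, a5, a6, a7⟩ := h.ray_repr (hFs _ x.2) hc hy ht
      have e : (k : ι) = l := by
        by_contra hne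
        exact Set.disjoint_left.1 (disjoint_P_I (T.ne _) (T.dis _ l hne)) hk a7
      have h2 : l ∈ T.at_ z := a2
      rw [T.at_eq_of_mem_oc (hFs _ x.2) a1] at h2
      rwa [e]


end tiling

end Crest.Agent.R096.Sq_55
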