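import Crest.Agent.R096.Cob4_622
import Crest.Agent.R096.Sq19_55
import Crest.Agent.R096.Mf2_113
import Crest.Agent.R096.Slb1_296

-- ▼ part R096/Efi1_296
section

set_option autoImplicit false
set_option linter.unusedSectionVars false
set_option linter.style.longLine false

open Set Metric Filter Topology MeasureTheory
open scoped ENNReal NNReal

namespace Crest.Agent.R096.Efi_296

open Crest.AnalysisR.VecCalc3
open Crest.Agent.R096.Msh_715 (P I Tiling I_sub_P isOpen_I isClosed_P)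
open Crest.Agent.R096.Sq_55 (E3 Sys Face FaceOf w2)

noncomputable section

variable {Om : Set E3} {ι : Type*}

/-- the closed 1-cells of the tiles of `s` -/
def EgS (T : Tiling Om ι) (s : Finset ι) : Set T.Cell :=
  {c | c.dim = 1 ∧ ∃ k ∈ s, c.set ⊆ P (T.H k)}

/-- the closed 2-cells of the tiles of `s` -/
def F2S (T : Tiling Om ι) (s : Finset ι) : Set T.Cell :=
  {c | c.dim = 2 ∧ ∃ k ∈ s, c.set ⊆ P (T.H k)}

/-- the closed 2-cells of the tiles of `s` which are not squeezed -/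
def FcS (T : Tiling Om ι) (s : Finset ι) (pr : T.Cell → Prop) : Set T.Cell :=
  {c | c ∈ F2S T s ∧ ¬ pr c}

variable {T : Tiling Om ι}

theorem finite_cells_of_tiles (T : Tiling Om ι) (s : Finset ι) :
    {c : T.Cell | ∃ k ∈ s, c.set ⊆ P (T.H k)}.Finite := by
  have hK : IsCompact (⋃ k ∈ s, P (T.H k)) := s.isCompact_biUnion fun k _ => T.cpt k
  have hKO : (⋃ k ∈ s, P (T.H k)) ⊆ Om := iUnion₂_subset fun k _ => T.sub k
  have h1 := T.finite_cells hK hKO
  refine Set.Finite.of_finite_image (f := fun c : T.Cell => c.1) (h1.subset ?_)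
    (fun c _ d _ h => Subtype.ext h)
  rintro _ ⟨c, ⟨k, hk, hc⟩, rfl⟩
  refine ⟨c.2, c.pt, ?_, ?_⟩
  · have := T.self_mem_cc c.pt
    rwa [← c.set_eq] at this
  · have h2 := T.self_mem_cc c.pt
    rw [← c.set_eq] at h2
    exact mem_iUnion₂.2 ⟨k, hk, hc h2⟩

theorem finite_EgS (T : Tiling Om ι) (s : Finset ι) : (EgS T s).Finite :=
  (finite_cells_of_tiles T s).subset fun _ h => h.2

theorem finite_F2S (T : Tiling Om ι) (s : Finset ι) : (F2S T s).Finite :=
  (finite_cells_of_tiles T s).subset fun _ h => h.2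

theorem finite_FcS (T : Tiling Om ι) (s : Finset ι) (pr : T.Cell → Prop) : (FcS T s pr).Finite :=
  (finite_F2S T s).subset fun _ h => h.1

instance (s : Finset ι) : Fintype (EgS T s) := (finite_EgS T s).fintype
instance (s : Finset ι) (pr : T.Cell → Prop) : Fintype (FcS T s pr) := (finite_FcS T s pr).fintype

open Classical in
/-- representatives of the squeezed 2-cells -/
def reps (T : Tiling Om ι) (s : Finset ι) (pr : T.Cell → Prop) : Finset E3 :=
  ((finite_F2S T s).toFinset.filter pr).image fun c => c.pt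

theorem mem_reps {s : Finset ι} {pr : T.Cell → Prop} {x : E3} :
    x ∈ reps T s pr ↔ ∃ c ∈ F2S T s, pr c ∧ c.pt = x := by
  classical
  unfold reps
  simp only [Finset.mem_image, Finset.mem_filter, Set.Finite.mem_toFinset]
  constructor
  · rintro ⟨c, ⟨h1, h2⟩, h3⟩; exact ⟨c, h1, h2, h3⟩
  · rintro ⟨c, h1, h2, h3⟩; exact ⟨c, ⟨h1, h2⟩, h3⟩

theorem pt_mem_set (c : T.Cell) : c.pt ∈ c.set := by
  rw [c.set_eq]; exact T.self_mem_cc _

theorem reps_dim {s : Finset ι} {pr : T.Cell → Prop} {x : E3} (hx : x ∈ reps T s pr) :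
    x ∈ Om ∧ T.dim x = 2 := by
  obtain ⟨c, h1, -, rfl⟩ := mem_reps.1 hx
  exact ⟨c.pt_mem, h1.1⟩

theorem reps_tile {s : Finset ι} {pr : T.Cell → Prop} {x : E3} (hx : x ∈ reps T s pr) :
    ∃ k ∈ s, T.cc x ⊆ P (T.H k) := by
  obtain ⟨c, h1, -, rfl⟩ := mem_reps.1 hx
  obtain ⟨k, hk, hc⟩ := h1.2
  exact ⟨k, hk, c.set_eq ▸ hc⟩

theorem reps_ne {s : Finset ι} {pr : T.Cell → Prop} {x y : E3} (hx : x ∈ reps T s pr)
    (hy : y ∈ reps T s pr) (hxy : x ≠ y) : T.cc x ≠ T.cc y := by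
  obtain ⟨c, -, -, rfl⟩ := mem_reps.1 hx
  obtain ⟨d, -, -, rfl⟩ := mem_reps.1 hy
  intro h
  apply hxy
  have : c = d := Tiling.Cell.ext (by rw [c.set_eq, d.set_eq, h])
  rw [this]

/-- the set `Z` of the system -/
def Zs (T : Tiling Om ι) (s : Finset ι) (pr : T.Cell → Prop) : Set E3 :=
  (⋃ c ∈ EgS T s, c.set) ∪ ⋃ c ∈ FcS T s pr, c.set

theorem isClosed_set (c : T.Cell) : IsClosed c.set := by
  rw [c.set_eq]; exact T.isClosed_cc _

theorem isClosed_Zs (T : Tiling Om ι) (s : Finset ι) (pr : T.Cell → Prop) :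
    IsClosed (Zs T s pr) :=
  ((finite_EgS T s).isClosed_biUnion fun c _ => isClosed_set c).union
    ((finite_FcS T s pr).isClosed_biUnion fun c _ => isClosed_set c)

theorem dim_E3_le (x : E3) : T.dim x ≤ 3 := by
  have := T.dim_le_finrank x
  simpa using this

theorem dim_lt_three {k : ι} {y : E3} (hy : y ∈ P (T.H k)) (hyI : y ∉ I (T.H k)) :
    T.dim y ≤ 2 := by
  by_contra hcon
  have h3 : T.dim y = 3 := le_antisymm (dim_E3_le y) (by omega)
  have hO : y ∈ Om := T.sub k hy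
  have htop : T.V y = ⊤ := by
    apply Submodule.eq_top_of_finrank_eq
    have : Module.finrank ℝ E3 = 3 := by simp
    rw [this]
    exact h3
  obtain ⟨i, hi⟩ := (T.V_eq_top_iff hO).1 htop
  have h1 := T.at_eq_singleton hi
  have h2 : k ∈ T.at_ y := hy
  rw [h1, mem_singleton_iff] at h2
  subst h2
  exact hyI hi

/-- a point on the boundary of a cell of dimension two or three and of dimension at most one lies on
an edge of this cell -/
theorem exists_edge_in {y z : E3} (hy : y ∈ Om) (hd : 1 ≤ T.dim y) (hz : z ∈ T.cc y)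
    (hz1 : T.dim z ≤ 1) : ∃ e ∈ T.cc y, T.dim e = 1 ∧ z ∈ T.cc e := by
  rcases Nat.eq_zero_or_pos (T.dim z) with h0 | h0
  · exact Mf_113.exists_edge_of_vertex h0 hy hz hd
  · exact ⟨z, hz, by omega, T.self_mem_cc z⟩

/-- hypothesis `hZ` of 55's `exists_sys` -/
theorem hZ_Zs {s : Finset ι} {pr : T.Cell → Prop} {k : ι} (hk : k ∈ s) {y : E3}
    (hy : y ∈ P (T.H k) \ I (T.H k)) : y ∈ Zs T s pr ∨ ∃ x ∈ reps T s pr, y ∈ T.oc x := by
  have hO : y ∈ Om := T.sub k hy.1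
  have h2 := dim_lt_three hy.1 hy.2
  rcases Nat.lt_or_ge (T.dim y) 2 with h1 | h1
  · left
    obtain ⟨y0, hy0⟩ := T.ne k
    have hcc : T.cc y0 = P (T.H k) := T.cc_eq_tile hy0
    have hO0 : y0 ∈ Om := T.sub k (I_sub_P _ hy0)
    have hd0 : 1 ≤ T.dim y0 := by
      have hV : T.V y0 = ⊤ := (T.V_eq_top_iff hO0).2 ⟨k, hy0⟩
      have : T.dim y0 = Module.finrank ℝ E3 := by
        show Module.finrank ℝ (T.V y0) = _
        rw [hV, finrank_top]
      rw [this]
      simp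
    obtain ⟨e, he, he1, hye⟩ := exists_edge_in hO0 hd0 (hcc ▸ hy.1) (by omega)
    have heO : e ∈ Om := T.cc_sub_Om hO0 he
    left
    refine mem_iUnion₂.2 ⟨T.cl heO, ⟨by rw [T.dim_cl heO, he1], k, hk, ?_⟩, by rwa [T.cl_set heO]⟩
    rw [T.cl_set heO, ← hcc]
    exact T.cc_sub_of_mem he
  · have hd : T.dim y = 2 := by omega
    have hsub : (T.cl hO).set ⊆ P (T.H k) := by
      rw [T.cl_set hO]
      exact T.cc_sub_tile hy.1
    have hF : T.cl hO ∈ F2S T s := ⟨by rw [T.dim_cl hO, hd], k, hk, hsub⟩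
    by_cases hpr : pr (T.cl hO)
    · right
      refine ⟨(T.cl hO).pt, mem_reps.2 ⟨_, hF, hpr, rfl⟩, ?_⟩
      have h3 := T.pt_cl hO
      rw [T.oc_eq_of_mem hO h3]
      exact T.self_mem_oc y
    · left; right
      exact mem_iUnion₂.2 ⟨T.cl hO, ⟨hF, hpr⟩, by rw [T.cl_set hO]; exact T.self_mem_cc y⟩

open Classical in
/-- the edges of a squeezed 2-cell -/
def rimS (T : Tiling Om ι) (s : Finset ι) (x : E3) : Finset (EgS T s) :=
  Finset.univ.filter fun c => c.1.set ⊆ T.cc x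

theorem mem_rimS {s : Finset ι} {x : E3} {c : EgS T s} : c ∈ rimS T s x ↔ c.1.set ⊆ T.cc x := by
  classical
  unfold rimS
  simp

/-- the boundary of a 2-cell of a tile of `s` is covered by its edges -/
theorem bdry_sub {s : Finset ι} {x : E3} (hx : x ∈ Om) (hd : T.dim x = 2)
    (hk : ∃ k ∈ s, T.cc x ⊆ P (T.H k)) : T.cc x \ T.oc x ⊆ ⋃ c ∈ rimS T s x, (c : T.Cell).set := by
  rintro y ⟨hy, hyo⟩
  obtain ⟨k, hks, hk⟩ := hk
  have h1 := T.dim_lt hy hyo
  obtain ⟨e, he, he1, hye⟩ := exists_edge_in hx (by omega) hy (by omega)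
  have heO : e ∈ Om := T.cc_sub_Om hx he
  have hsub : (T.cl heO).set ⊆ T.cc x := by
    rw [T.cl_set heO]; exact T.cc_sub_of_mem he
  refine mem_iUnion₂.2 ⟨⟨T.cl heO, ⟨by rw [T.dim_cl heO, he1], k, hks, hsub.trans hk⟩⟩, ?_, ?_⟩
  · exact mem_rimS.2 hsub
  · show y ∈ (T.cl heO).set
    rwa [T.cl_set heO]

end

end Crest.Agent.R096.Efi_296
end

-- ▼ part R096/Efi2_296

set_option autoImplicit false
set_option linter.unusedSectionVars false
set_option linter.style.longLine false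

open Set Metric Filter Topology MeasureTheory
open scoped ENNReal NNReal

namespace Crest.Agent.R096.Efi_296

open Crest.AnalysisR.VecCalc3
open Crest.Agent.R096.Msh_715 (P I Tiling I_sub_P isOpen_I isClosed_P)
open Crest.Agent.R096.Sq_55 (E3 Sys Face FaceOf w2 IsDp)
open Crest.Agent.R096.Cob_622 (EF)
open Crest.Agent.R96.Coarse_538 (seg)
open Crest.Agent.R096.Fce_793 (pt cc)

noncomputable section

variable {Om : Set E3} {ι : Type*} {T : Tiling Om ι}

/-- change of the constant in a limit -/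
theorem lim_scale {f : ℝ → ℝ≥0∞} {c : ℝ} (hc : 0 ≤ c) {e : ℝ≥0∞} {pw : ℝ → ℝ}
    (h : ∀ ε : ℝ≥0∞, 0 < ε → ∀ᶠ δ in 𝓝[>] (0:ℝ), f δ ≤ ENNReal.ofReal (c * pw δ) * (e + ε)) :
    ∀ η : ℝ≥0∞, 0 < η → ∀ᶠ δ in 𝓝[>] (0:ℝ),
      f δ ≤ ENNReal.ofReal (pw δ) * (ENNReal.ofReal c * e + η) := by
  intro η hη
  have hc1 : ENNReal.ofReal (c + 1) ≠ 0 := by
    rw [Ne, ENNReal.ofReal_eq_zero, not_le]; linarith
  have hc2 : ENNReal.ofReal (c + 1) ≠ ∞ := ENNReal.ofReal_ne_top
  have hε : 0 < η / ENNReal.ofReal (c + 1) := ENNReal.div_pos hη.ne' hc2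
  filter_upwards [h _ hε] with δ hδ
  refine hδ.trans ?_
  rw [ENNReal.ofReal_mul hc, mul_comm (ENNReal.ofReal c), mul_assoc]
  gcongr
  rw [mul_add]
  gcongr
  calc ENNReal.ofReal c * (η / ENNReal.ofReal (c + 1))
      ≤ ENNReal.ofReal (c + 1) * (η / ENNReal.ofReal (c + 1)) := by
        gcongr
        linarith
    _ = η := ENNReal.mul_div_cancel hc1 hc2

/-- the instance, from given limits -/
def mkEF {s : Finset ι} {pr : T.Cell → Prop} (X : Sys s (reps T s pr))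
    (hrim : ∀ x : reps T s pr, (X.F x).rim = T.cc (x : E3) \ T.oc (x : E3))
    (hZ : X.Z = Zs T s pr) (Om' : Set R3) (g : R3 → ℝ≥0∞) (Ee : EgS T s → ℝ≥0∞)
    (Ef : FcS T s pr → ℝ≥0∞) (fE : ∀ a, Ee a ≠ ∞)
    (hE : ∀ a : EgS T s, ∀ η : ℝ≥0∞, 0 < η → ∀ᶠ δ in 𝓝[>] (0:ℝ),
      ∫⁻ y in Om' ∩ thickening δ (w2 '' a.1.set), g y ≤ ENNReal.ofReal (δ^2) * (Ee a + η))
    (hF : ∀ b : FcS T s pr, ∀ η : ℝ≥0∞, 0 < η → ∀ᶠ δ in 𝓝[>] (0:ℝ),
      ∫⁻ y in Om' ∩ thickening δ (w2 '' b.1.set), g y ≤ ENNReal.ofReal δ * (Ef b + η)) :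
    EF X Om' g (EgS T s) (FcS T s pr) where
  eg a := w2 '' a.1.set
  fc b := w2 '' b.1.set
  rimE x := rimS T s x
  clE a := w2.isClosed_image.2 (isClosed_set _)
  clF b := w2.isClosed_image.2 (isClosed_set _)
  clZ := hZ ▸ isClosed_Zs T s pr
  hrim := by
    intro x
    have h0 := reps_dim x.2
    rw [hrim x]
    rintro _ ⟨y, hy, rfl⟩
    have h1 := bdry_sub h0.1 h0.2 (reps_tile x.2) hy
    obtain ⟨c, hc, hyc⟩ := mem_iUnion₂.1 h1
    exact mem_iUnion₂.2 ⟨c, hc, y, hyc, rfl⟩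
  hZ := by
    rw [hZ]
    rintro _ ⟨y, hy | hy, rfl⟩
    · obtain ⟨c, hc, hyc⟩ := mem_iUnion₂.1 hy
      exact .inl (mem_iUnion.2 ⟨⟨c, hc⟩, y, hyc, rfl⟩)
    · obtain ⟨c, hc, hyc⟩ := mem_iUnion₂.1 hy
      exact .inr (mem_iUnion.2 ⟨⟨c, hc⟩, y, hyc, rfl⟩)
  Ee := Ee
  Ef := Ef
  fE := fE
  hE := hE
  hF := hF


/-- the double pyramid over a 2-cell meets only the two tiles of the 2-cell -/
theorem mem_at_of_V {c : ι → E3} {x : E3} {F : Face} (h : FaceOf T c x F)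
    (hc : ∀ i, c i ∈ I (T.H i)) (hx : x ∈ Om) {k : ι} {y : E3} (hy : y ∈ F.V)
    (hk : y ∈ P (T.H k)) : k ∈ T.at_ x := by
  obtain ⟨i, j, D, h, hK, hV, he, -⟩ := h
  rw [hV] at hy
  by_cases ht : D.t y = 0
  · have h1 := h.cell_zero hy ht
    rw [← T.at_eq_of_mem_oc hx h1]
    exact hk
  · obtain ⟨l, z, s, hz, hzl, -, -, -, -, hyl⟩ := h.ray_repr hx hc hy ht
    have h1 := T.at_eq_singleton hyl
    have h2 : k ∈ T.at_ y := hk
    rw [h1, mem_singleton_iff] at h2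
    subst h2
    rw [← T.at_eq_of_mem_oc hx hz]
    exact hzl

open Classical in
/-- **the functional `J k`** in terms of the edges of the tile `k` and of the unsqueezed faces which
meet it: `r` bounds the sizes of the squeezed faces of the tile, `n` their number -/
theorem J_le {s : Finset ι} {pr : T.Cell → Prop} {X : Sys s (reps T s pr)} {Om' : Set R3}
    {g : R3 → ℝ≥0∞} (D : EF X Om' g (EgS T s) (FcS T s pr)) {c : ι → E3}
    (hc : ∀ i, c i ∈ I (T.H i)) (hXF : ∀ x : reps T s pr, FaceOf T c (x : E3) (X.F x))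
    (hXP : ∀ k : s, (X.C k).P = P (T.H k)) (hfc : ∀ b, D.fc b = w2 '' b.1.set)
    (hrE : ∀ x, D.rimE x = rimS T s (x : E3)) (k : s) {r : ℝ≥0} {n : ℕ}
    (hr : ∀ x : reps T s pr, (k : ι) ∈ T.at_ (x : E3) → (X.F x).ρ ≤ r)
    (hn : (Finset.univ.filter fun x : reps T s pr => (k : ι) ∈ T.at_ (x : E3)).card ≤ n) :
    D.J k ≤ ENNReal.ofReal (X.C k).R *
      (((n : ℝ≥0∞) * r) * (∑ c ∈ Finset.univ.filter fun c : EgS T s => c.1.set ⊆ P (T.H k), D.Ee c) +
        ∑ b ∈ Finset.univ.filter fun b : FcS T s pr => (b.1.set ∩ P (T.H k)).Nonempty, D.Ef b) := by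
  unfold EF.J
  gcongr ENNReal.ofReal (X.C k).R * (?_ + ?_)
  · set S : ℝ≥0∞ := ∑ c ∈ Finset.univ.filter fun c : EgS T s => c.1.set ⊆ P (T.H k), D.Ee c
    have h1 : ∀ x : reps T s pr, ((X.F x).V ∩ (X.C k).P).Nonempty →
        (k : ι) ∈ T.at_ (x : E3) := by
      rintro x ⟨y, hy1, hy2⟩
      rw [hXP k] at hy2
      exact mem_at_of_V (hXF x) hc (reps_dim x.2).1 hy1 hy2
    calc (∑ j ∈ Finset.univ.filter fun j => ((X.F j).V ∩ (X.C k).P).Nonempty,
        ENNReal.ofReal (X.F j).ρ * ∑ a ∈ D.rimE j, D.Ee a)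
        ≤ ∑ j ∈ Finset.univ.filter (fun x : reps T s pr => (k : ι) ∈ T.at_ (x : E3)),
            ENNReal.ofReal (X.F j).ρ * ∑ a ∈ D.rimE j, D.Ee a := by
          apply Finset.sum_le_sum_of_subset
          intro x hx
          rw [Finset.mem_filter] at hx ⊢
          exact ⟨Finset.mem_univ _, h1 x hx.2⟩
      _ ≤ ∑ j ∈ Finset.univ.filter (fun x : reps T s pr => (k : ι) ∈ T.at_ (x : E3)),
            (r : ℝ≥0∞) * S := by
          apply Finset.sum_le_sum
          intro x hx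
          rw [Finset.mem_filter] at hx
          have h2 : ENNReal.ofReal (X.F x).ρ ≤ (r : ℝ≥0∞) := by
            rw [ENNReal.ofReal_coe_nnreal]
            exact_mod_cast hr x hx.2
          refine mul_le_mul' h2 ?_
          rw [hrE x]
          apply Finset.sum_le_sum_of_subset
          intro a ha
          rw [Finset.mem_filter]
          exact ⟨Finset.mem_univ _, (mem_rimS.1 ha).trans (T.cc_sub_tile hx.2)⟩
      _ ≤ ((n : ℝ≥0∞) * r) * S := by
          rw [Finset.sum_const, nsmul_eq_mul, mul_assoc]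
          gcongr
  · apply Finset.sum_le_sum_of_subset
    intro b hb
    rw [Finset.mem_filter] at hb ⊢
    refine ⟨Finset.mem_univ _, ?_⟩
    obtain ⟨y, hy1, hy2⟩ := hb.2
    rw [hfc b] at hy1
    obtain ⟨z, hz, rfl⟩ := hy1
    obtain ⟨z', hz', e'⟩ := hy2
    have : z' = z := w2.injective e'
    subst this
    exact ⟨z', hz, by rw [← hXP k]; exact hz'⟩

end

end Crest.Agent.R096.Efi_296
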