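import Crest.Agent.R096.Cel1_715
import Crest.Agent.R096.Lab5_184
import Crest.Agent.R096.Mrg3_715

-- ▼ part R096/Tgr1_335
section

/-!
# Row 96, 2SK for arbitrary tilings (helper335), part 1: the boundary of a convex body minus a
convex set is connected; functions on the vertices outside a tile
-/

set_option autoImplicit false
set_option linter.unusedSectionVars false

open Set Metric Topology Filter

namespace Crest.Agent.R096.Tgr_335

open Crest.Agent.R096.Msh_715

section Radial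

variable {W : Type*} [NormedAddCommGroup W] [NormedSpace ℝ W]

/-- **the frontier of a convex body minus a convex set which misses the interior is connected** -/
theorem frontier_diff {C K : Set W} (hC : Convex ℝ C) (hC0 : C ∈ 𝓝 (0 : W))
    (hCb : Bornology.IsBounded C) (hK : Convex ℝ K) (hKi : Disjoint K (interior C)) {c0 : W}
    (hc0 : c0 ∈ K) (hc0' : c0 ∈ frontier C) : IsPreconnected (frontier C \ K) := by
  have habs : Absorbent ℝ C := absorbent_nhds_zero hC0
  have hcont : Continuous (gauge C) := continuous_gauge hC hC0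
  have hbv : Bornology.IsVonNBounded ℝ C := NormedSpace.isVonNBounded_iff ℝ |>.2 hCb
  have hpos : ∀ v : W, v ≠ 0 → 0 < gauge C v := fun v hv => (gauge_pos habs hbv).2 hv
  have hfr : ∀ v : W, v ∈ frontier C ↔ gauge C v = 1 := fun v =>
    (gauge_eq_one_iff_mem_frontier hC hC0).symm
  have hin : ∀ v : W, v ∈ interior C ↔ gauge C v < 1 := fun v =>
    (gauge_lt_one_iff_mem_interior hC hC0).symm
  have hge : ∀ v ∈ K, 1 ≤ gauge C v := by
    intro v hv
    by_contra h
    exact (disjoint_left.1 hKi) hv ((hin v).2 (not_le.1 h))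
  have hsm : ∀ (r : ℝ) (v : W), 0 ≤ r → gauge C (r • v) = r * gauge C v := fun r v hr => by
    rw [gauge_smul_of_nonneg hr, smul_eq_mul]
  have g0 : gauge C c0 = 1 := (hfr c0).1 hc0'
  have hc0n : c0 ≠ 0 := by
    rintro rfl
    rw [gauge_zero] at g0
    exact one_ne_zero g0.symm
  let pst : W := (gauge C (-c0))⁻¹ • (-c0)
  refine isPreconnected_of_forall pst ?_
  intro x hx
  have gx : gauge C x = 1 := (hfr x).1 hx.1
  have hw : ∀ τ ∈ Icc (0 : ℝ) 1, (1 - τ) • x - τ • c0 ≠ 0 := by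
    intro τ hτ h
    have h1 : (1 - τ) • x = τ • c0 := sub_eq_zero.1 h
    have h2 := congrArg (gauge C) h1
    rw [hsm _ _ (by linarith [hτ.2]), hsm _ _ hτ.1, gx, g0] at h2
    have h3 : τ = 1 / 2 := by linarith
    rw [h3] at h1
    have h4 : x = c0 := by
      have h5 : (1 : ℝ) - 1 / 2 = 1 / 2 := by norm_num
      rw [h5] at h1
      exact smul_right_injective W (by norm_num : (1 / 2 : ℝ) ≠ 0) h1
    exact hx.2 (h4 ▸ hc0)
  let w : ℝ → W := fun τ => (1 - τ) • x - τ • c0
  have hwc : Continuous w := by fun_prop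
  let F : ℝ → W := fun τ => (gauge C (w τ))⁻¹ • w τ
  have hFc : ContinuousOn F (Icc 0 1) := by
    refine ContinuousOn.smul ?_ hwc.continuousOn
    exact ((hcont.comp hwc).continuousOn).inv₀ fun τ hτ => (hpos _ (hw τ hτ)).ne'
  refine ⟨F '' Icc 0 1, ?_, ⟨1, ⟨zero_le_one, le_refl _⟩, ?_⟩, ⟨0, ⟨le_refl _, zero_le_one⟩, ?_⟩,
    isPreconnected_Icc.image _ hFc⟩
  · rintro _ ⟨τ, hτ, rfl⟩
    have hg := hpos _ (hw τ hτ)
    refine ⟨(hfr _).2 ?_, ?_⟩
    · show gauge C ((gauge C (w τ))⁻¹ • w τ) = 1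
      rw [hsm _ _ (inv_nonneg.2 hg.le)]
      exact inv_mul_cancel₀ hg.ne'
    · intro hy0
      obtain ⟨l, hl⟩ : ∃ l, l = gauge C (w τ) := ⟨_, rfl⟩
      obtain ⟨y, hyd⟩ : ∃ y, y = F τ := ⟨_, rfl⟩
      have hy : y ∈ K := by rw [hyd]; exact hy0
      have hlp : 0 < l := by rw [hl]; exact hg
      have hly : l • y = (1 - τ) • x - τ • c0 := by
        rw [hyd, hl]
        show gauge C (w τ) • ((gauge C (w τ))⁻¹ • w τ) = w τ
        rw [smul_smul, mul_inv_cancel₀ hg.ne', one_smul]
      have gy : gauge C y = 1 := by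
        rw [hyd]
        show gauge C ((gauge C (w τ))⁻¹ • w τ) = 1
        rw [hsm _ _ (inv_nonneg.2 hg.le)]
        exact inv_mul_cancel₀ hg.ne'
      have hsum : (1 - τ) • x = l • y + τ • c0 := by rw [hly]; abel
      have hlt : 0 < l + τ := by linarith [hτ.1]
      have hm : (l / (l + τ)) • y + (τ / (l + τ)) • c0 ∈ K :=
        hK hy hc0 (by positivity) (div_nonneg hτ.1 hlt.le) (by field_simp)
      obtain ⟨m, hmd⟩ : ∃ m, m = (l / (l + τ)) • y + (τ / (l + τ)) • c0 := ⟨_, rfl⟩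
      rw [← hmd] at hm
      have hm2 : (l + τ) • m = (1 - τ) • x := by
        rw [hmd, smul_add, smul_smul, smul_smul, mul_div_cancel₀ _ hlt.ne',
          mul_div_cancel₀ _ hlt.ne', hsum]
      rcases eq_or_lt_of_le hτ.2 with e | e
      · rw [e, sub_self, zero_smul] at hm2
        have hm0 : m = 0 := by
          rcases smul_eq_zero.1 hm2 with h | h
          · rw [e] at hlt; exact absurd h hlt.ne'
          · exact h
        have h1 := hge m hm
        rw [hm0, gauge_zero] at h1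
        linarith
      · have h1 := hge m hm
        have h2 := congrArg (gauge C) hm2
        rw [hsm _ _ hlt.le, hsm _ _ (by linarith), gx, mul_one] at h2
        have h3 : gauge C m ≤ 1 := by
          rw [hmd]
          have h4 := gauge_add_le hC habs ((l / (l + τ)) • y) ((τ / (l + τ)) • c0)
          rw [hsm _ _ (by positivity), hsm _ _ (div_nonneg hτ.1 hlt.le), gy, g0, mul_one,
            mul_one, ← add_div, div_self hlt.ne'] at h4
          exact h4
        have h5 : gauge C m = 1 := le_antisymm h3 h1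
        rw [h5, mul_one] at h2
        rw [h2] at hm2
        have h6 : (1 - τ) ≠ 0 := (sub_pos.2 e).ne'
        have h7 : m = x := smul_right_injective W h6 hm2
        exact hx.2 (h7 ▸ hm)
  · show (gauge C ((1 - (1 : ℝ)) • x - (1 : ℝ) • c0))⁻¹ • ((1 - (1 : ℝ)) • x - (1 : ℝ) • c0) = pst
    have : (1 - (1 : ℝ)) • x - (1 : ℝ) • c0 = -c0 := by rw [sub_self, zero_smul, one_smul, zero_sub]
    rw [this]
  · show (gauge C ((1 - (0 : ℝ)) • x - (0 : ℝ) • c0))⁻¹ • ((1 - (0 : ℝ)) • x - (0 : ℝ) • c0) = x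
    have : (1 - (0 : ℝ)) • x - (0 : ℝ) • c0 = x := by rw [sub_zero, zero_smul, one_smul, sub_zero]
    rw [this, gx, inv_one, one_smul]

end Radial

variable {E : Type*} [NormedAddCommGroup E] [NormedSpace ℝ E] [FiniteDimensional ℝ E]
variable {Om : Set E} {ι : Type*} (T : Tiling Om ι)

/-- a closed cell in the coordinates of its direction space, centred at `x` -/
def body (x : E) : Set (T.V x) := {v | x + (v : E) ∈ T.cc x}

theorem isClosed_body (x : E) : IsClosed (body T x) :=
  (T.isClosed_cc x).preimage (by fun_prop)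

theorem convex_body (x : E) : Convex ℝ (body T x) := by
  intro u hu v hv a b ha hb hab
  have h := T.convex_cc x hu hv ha hb hab
  show x + ((a • u + b • v : T.V x) : E) ∈ T.cc x
  have e : x + ((a • u + b • v : T.V x) : E) = a • (x + (u : E)) + b • (x + (v : E)) := by
    have e1 : x = a • x + b • x := by rw [← add_smul, hab, one_smul]
    push_cast
    rw [smul_add, smul_add]
    nth_rewrite 1 [e1]
    abel
  rw [e]
  exact h

theorem isBounded_body {x : E} (hx : x ∈ Om) : Bornology.IsBounded (body T x) := by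
  obtain ⟨B, hB⟩ := (T.isCompact_cc hx).isBounded.exists_norm_le
  rw [isBounded_iff_forall_norm_le]
  refine ⟨B + ‖x‖, fun v hv => ?_⟩
  have h1 := hB _ hv
  have h2 : ‖(v : E)‖ ≤ ‖x + (v : E)‖ + ‖x‖ := by
    have : (v : E) = x + (v : E) - x := by abel
    conv_lhs => rw [this]
    exact norm_sub_le _ _
  have h3 : ‖v‖ = ‖(v : E)‖ := rfl
  rw [h3]
  linarith

theorem body_nhds {x : E} (hx : x ∈ Om) : body T x ∈ 𝓝 (0 : T.V x) := by
  obtain ⟨r, hr, h⟩ := T.exists_ball_oc hx
  refine Metric.mem_nhds_iff.2 ⟨r, hr, fun v hv => ?_⟩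
  rw [mem_ball_zero_iff] at hv
  exact T.oc_sub_cc x (h v v.2 hv)

theorem mem_interior_body {x : E} (hx : x ∈ Om) (v : T.V x) :
    v ∈ interior (body T x) ↔ x + (v : E) ∈ T.oc x := by
  constructor
  · intro hv
    have hc : ContinuousAt (fun s : ℝ => (1 + s) • v) 0 := by fun_prop
    have hev : ∀ᶠ s in 𝓝 (0 : ℝ), (1 + s) • v ∈ interior (body T x) := by
      refine hc.eventually_mem (isOpen_interior.mem_nhds ?_)
      simpa using hv
    obtain ⟨r, hr, hr'⟩ := Metric.eventually_nhds_iff.1 hev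
    have h1 : (1 + r / 2) • v ∈ body T x := interior_subset (hr' (by
      rw [Real.dist_eq, sub_zero, abs_of_pos (by positivity)]; linarith))
    have hpos : 0 < 1 + r / 2 := by positivity
    have h2 := T.move_mem_oc (x := x) (y := x + (((1 + r / 2) • v : T.V x) : E)) h1
      (s := (r / 2) / (1 + r / 2)) (by positivity) (by
        rw [div_le_one hpos]; linarith)
    have e : x + (((1 + r / 2) • v : T.V x) : E) + ((r / 2) / (1 + r / 2)) •
        (x - (x + (((1 + r / 2) • v : T.V x) : E))) = x + (v : E) := by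
      push_cast
      rw [sub_add_cancel_left, smul_neg, smul_smul, add_assoc, ← sub_eq_add_neg, ← sub_smul,
        div_mul_cancel₀ _ hpos.ne']
      simp
    rwa [e] at h2
  · intro hv
    obtain ⟨r, hr, h⟩ := T.exists_ball_oc (T.cc_sub_Om hx (T.oc_sub_cc x hv))
    refine mem_interior.2 ⟨ball v r, fun u hu => ?_, isOpen_ball, mem_ball_self hr⟩
    have h1 : ((u - v : T.V x) : E) ∈ T.V (x + (v : E)) := by
      rw [T.V_eq_of_mem_oc hx hv]; exact (u - v).2
    have h2 := h _ h1 (by rw [mem_ball_iff_norm] at hu; exact hu)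
    rw [T.oc_eq_of_mem hx hv] at h2
    have e : x + (v : E) + ((u - v : T.V x) : E) = x + (u : E) := by push_cast; abel
    rw [e] at h2
    exact T.oc_sub_cc x h2

theorem mem_frontier_body {x : E} (hx : x ∈ Om) (v : T.V x) :
    v ∈ frontier (body T x) ↔ x + (v : E) ∈ T.cc x \ T.oc x := by
  rw [frontier, (isClosed_body T x).closure_eq, Set.mem_sdiff, mem_interior_body T hx]
  rfl

/-- **the relative boundary of a cell minus a convex set which misses the open cell** -/
theorem bdry_diff {K : Set E} (hK : Convex ℝ K) {x : E} (hx : x ∈ Om) (hd : 2 ≤ T.dim x)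
    (hKx : Disjoint K (T.oc x)) : IsPreconnected ((T.cc x \ T.oc x) \ K) := by
  by_cases hne : (K ∩ (T.cc x \ T.oc x)).Nonempty
  · obtain ⟨c, hcK, hc⟩ := hne
    let f : T.V x → E := fun v => x + (v : E)
    have hf : Continuous f := by fun_prop
    have hmem : ∀ y ∈ T.cc x, ∃ v : T.V x, f v = y := fun y hy =>
      ⟨⟨y - x, T.sub_mem_V hy⟩, by simp [f]⟩
    obtain ⟨c0, hc0⟩ := hmem c hc.1
    have hK' : Convex ℝ (f ⁻¹' K) := by
      intro u hu v hv a b ha hb hab
      have h := hK hu hv ha hb hab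
      show x + ((a • u + b • v : T.V x) : E) ∈ K
      have e : x + ((a • u + b • v : T.V x) : E) = a • (x + (u : E)) + b • (x + (v : E)) := by
        have e1 : x = a • x + b • x := by rw [← add_smul, hab, one_smul]
        push_cast
        rw [smul_add, smul_add]
        nth_rewrite 1 [e1]
        abel
      rw [e]
      exact h
    have h1 := frontier_diff (convex_body T x) (body_nhds T hx) (isBounded_body T hx) hK'
      (by
        rw [disjoint_left]
        intro v hv hv'
        exact (disjoint_left.1 hKx) hv ((mem_interior_body T hx v).1 hv'))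
      (c0 := c0) (by show f c0 ∈ K; rw [hc0]; exact hcK)
      ((mem_frontier_body T hx c0).2 (by show f c0 ∈ _; rw [hc0]; exact hc))
    have h2 : (T.cc x \ T.oc x) \ K = f '' (frontier (body T x) \ f ⁻¹' K) := by
      ext y
      constructor
      · rintro ⟨hy, hyK⟩
        obtain ⟨v, rfl⟩ := hmem y hy.1
        exact ⟨v, ⟨(mem_frontier_body T hx v).2 hy, hyK⟩, rfl⟩
      · rintro ⟨v, ⟨hv, hvK⟩, rfl⟩
        exact ⟨(mem_frontier_body T hx v).1 hv, hvK⟩
    rw [h2]
    exact h1.image _ hf.continuousOn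
  · have h1 : (T.cc x \ T.oc x) \ K = T.cc x \ T.oc x := by
      ext y
      constructor
      · exact fun h => h.1
      · exact fun h => ⟨h, fun hyK => hne ⟨y, hyK, h⟩⟩
    rw [h1]
    exact T.isPreconnected_bdry hx hd

end Crest.Agent.R096.Tgr_335
end

-- ▼ part R096/Tgr2_335
section

/-!
# Row 96, 2SK for arbitrary tilings (helper335), part 2: functions on the vertices outside a tile
-/

set_option autoImplicit false
set_option linter.unusedSectionVars false

open Set Metric Topology Filter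

namespace Crest.Agent.R096.Tgr_335

open Crest.Agent.R096.Msh_715 Crest.Agent.R096.Coh_184

variable {E : Type*} [NormedAddCommGroup E] [NormedSpace ℝ E] [FiniteDimensional ℝ E]
variable {Om : Set E} {ι : Type*} (T : Tiling Om ι)

/-- a linear function does not decrease towards some vertex -/
theorem exists_vertex_ge (h : E →L[ℝ] ℝ) {x : E} (hx : x ∈ Om) :
    ∃ p ∈ T.cc x, T.dim p = 0 ∧ h x ≤ h p := by
  induction hd : T.dim x using Nat.strong_induction_on generalizing x with
  | _ d ih =>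
    rcases Nat.eq_zero_or_pos d with h0 | h0
    · exact ⟨x, T.self_mem_cc x, hd.trans h0, le_refl _⟩
    · have hne : T.V x ≠ ⊥ := by
        intro h
        have := T.dim_eq_zero_iff.2 h
        omega
      obtain ⟨v, hv, hv0⟩ := Submodule.exists_mem_ne_zero_of_ne_bot hne
      obtain ⟨v, hv, hv0, hv1⟩ : ∃ v ∈ T.V x, v ≠ 0 ∧ 0 ≤ h v := by
        rcases le_total 0 (h v) with h1 | h1
        · exact ⟨v, hv, hv0, h1⟩
        · exact ⟨-v, (T.V x).neg_mem hv, neg_ne_zero.2 hv0, by rw [map_neg]; linarith⟩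
      obtain ⟨t, ht, h1, h2, -⟩ := T.exists_exit hx hv hv0
      have hlt := T.dim_lt h1 h2
      obtain ⟨p, hp, hp0, hp1⟩ := ih _ (hd ▸ hlt) (T.cc_sub_Om hx h1) rfl
      refine ⟨p, T.cc_sub_of_mem h1 hp, hp0, ?_⟩
      rw [map_add, map_smul, smul_eq_mul] at hp1
      nlinarith [mul_nonneg ht.le hv1]

/-- a cell outside a tile has a vertex outside the tile -/
theorem exists_vertex_off {i : ι} {x : E} (hx : x ∈ Om) (hn : x ∉ P (T.H i)) :
    ∃ p ∈ T.cc x, T.dim p = 0 ∧ p ∉ P (T.H i) := by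
  have h1 : ∃ h ∈ T.H i, h.2 < h.1 x := by
    by_contra hcon
    push Not at hcon
    exact hn hcon
  obtain ⟨h, hh, hlt⟩ := h1
  obtain ⟨p, hp, hp0, hp1⟩ := exists_vertex_ge T h.1 hx
  exact ⟨p, hp, hp0, fun hpK => by have := hpK h hh; linarith⟩

/-- the closed cell of a point of a tile is in the tile -/
theorem cc_sub_P {i : ι} {x : E} (hx : x ∈ P (T.H i)) : T.cc x ⊆ P (T.H i) := T.cc_sub_tile hx

theorem disjoint_oc {i : ι} {x : E} (hx : x ∈ Om) (hn : x ∉ P (T.H i)) :
    Disjoint (P (T.H i)) (T.oc x) := by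
  rw [disjoint_left]
  intro y hy hy'
  have h1 := cc_sub_P T hy
  rw [T.cc_eq_of_mem_oc hx hy'] at h1
  exact hn (h1 (T.self_mem_cc x))

/-- the key step: agreement cell by cell, off a tile -/
theorem const_of_cells_off {A : Type*} {φ : E → A} {C : Set E} {i : ι} (hC : IsPreconnected C)
    (hCO : C ⊆ Om) (hCn : ∀ x ∈ C, x ∉ P (T.H i))
    (hcell : ∀ x ∈ C, ∀ v ∈ T.cc x, ∀ w ∈ T.cc x, T.dim v = 0 → T.dim w = 0 →
      v ∉ P (T.H i) → w ∉ P (T.H i) → φ v = φ w) :
    ∀ x ∈ C, ∀ y ∈ C, ∀ v ∈ T.cc x, ∀ w ∈ T.cc y, T.dim v = 0 → T.dim w = 0 →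
      v ∉ P (T.H i) → w ∉ P (T.H i) → φ v = φ w := by
  have hvert : ∀ x ∈ C, ∃ v ∈ T.cc x, T.dim v = 0 ∧ v ∉ P (T.H i) := fun x hx =>
    exists_vertex_off T (hCO hx) (hCn x hx)
  choose! g hg hg0 hgn using hvert
  have hlc : LC (fun x => φ (g x)) C := by
    intro x hx
    have h1 : ∀ᶠ y in 𝓝[C] x, y ∈ Om ∧ x ∈ T.cc y :=
      (T.eventually_mem_cc (hCO hx)).filter_mono nhdsWithin_le_nhds
    filter_upwards [h1, self_mem_nhdsWithin] with y hy hyC
    exact hcell y hyC _ (hg y hyC) _ (T.cc_sub_of_mem hy.2 (hg x hx)) (hg0 y hyC) (hg0 x hx)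
      (hgn y hyC) (hgn x hx)
  intro x hx y hy v hv w hw hv0 hw0 hvn hwn
  have h1 := hcell x hx v hv (g x) (hg x hx) hv0 (hg0 x hx) hvn (hgn x hx)
  have h2 := hcell y hy w hw (g y) (hg y hy) hw0 (hg0 y hy) hwn (hgn y hy)
  rw [h1, h2]
  exact hlc.eq_of_preconnected hC hx hy

/-- `φ` is constant along the edges of `C` with both ends outside the tile -/
def OffConst {A : Type*} (i : ι) (φ : E → A) (C : Set E) : Prop :=
  ∀ e ∈ C, T.dim e = 1 → ∀ a b, T.cc e = segment ℝ a b → a ∉ P (T.H i) → b ∉ P (T.H i) → φ a = φ b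

/-- **in a cell the vertices outside a tile are joined by edges outside the tile** -/
theorem const_cell_off {A : Type*} {φ : E → A} {i : ι} {x : E} (hx : x ∈ Om)
    (hφ : OffConst T i φ (T.cc x)) :
    ∀ v ∈ T.cc x, ∀ w ∈ T.cc x, T.dim v = 0 → T.dim w = 0 → v ∉ P (T.H i) → w ∉ P (T.H i) →
      φ v = φ w := by
  induction hd : T.dim x using Nat.strong_induction_on generalizing x with
  | _ d ih =>
    intro v hv w hw hv0 hw0 hvn hwn
    rcases Nat.lt_or_ge d 2 with h2 | h2
    · rcases Nat.eq_zero_or_pos d with h0 | h0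
      · have h1 := T.cc_eq_singleton (T.dim_eq_zero_iff.1 (hd.trans h0))
        rw [h1, mem_singleton_iff] at hv hw
        rw [hv, hw]
      · have h1 : T.dim x = 1 := by omega
        obtain ⟨a, b, -, e1, -, -, -, -, -⟩ := T.edge_eq hx h1
        have hab := hφ x (T.self_mem_cc x) h1 a b e1
        rcases T.vertex_of_edge hx h1 e1 hv hv0 with rfl | rfl <;>
          rcases T.vertex_of_edge hx h1 e1 hw hw0 with rfl | rfl
        · rfl
        · exact hab hvn hwn
        · exact (hab hwn hvn).symm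
        · rfl
    · have hxn : x ∉ P (T.H i) := fun hxK => hvn (cc_sub_P T hxK hv)
      have hb := bdry_diff T (convex_P (T.H i)) hx (by rw [hd]; exact h2) (disjoint_oc T hx hxn)
      have hbO : (T.cc x \ T.oc x) \ P (T.H i) ⊆ Om := fun y hy => T.cc_sub_Om hx hy.1.1
      have hmem : ∀ {v : E}, v ∈ T.cc x → T.dim v = 0 → v ∉ P (T.H i) →
          v ∈ (T.cc x \ T.oc x) \ P (T.H i) := by
        intro v hv hv0 hvn
        refine ⟨⟨hv, fun h => ?_⟩, hvn⟩
        have := T.dim_eq_of_mem_oc hx h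
        omega
      refine const_of_cells_off T hb hbO (fun y hy => hy.2) (fun y hy => ?_) v (hmem hv hv0 hvn)
        w (hmem hw hw0 hwn) v (T.self_mem_cc v) w (T.self_mem_cc w) hv0 hw0 hvn hwn
      exact ih (T.dim y) (hd ▸ T.dim_lt hy.1.1 hy.1.2) (hbO hy)
        (fun e he => hφ e (T.cc_sub_of_mem hy.1.1 he)) rfl

/-- the complement of a compact convex body in a connected open set is connected -/
theorem compl_preconnected {O C : Set E} (h3 : Module.finrank ℝ E = 3) (hO : IsOpen O)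
    (hOc : IsPreconnected O) (hC : Convex ℝ C) (hCc : IsCompact C) (hCO : C ⊆ O)
    {z : E} (hz : z ∈ interior C) : IsPreconnected (O \ C) := by
  obtain ⟨r, hr, hrO⟩ : ∃ r : ℝ, 0 < r ∧ ∀ s : ℝ, 0 ≤ s → s ≤ r → ∀ x ∈ C, x + s • (x - z) ∈ O := by
    obtain ⟨ε, hε, hε'⟩ := hCc.exists_thickening_subset_open hO hCO
    obtain ⟨B, hB⟩ := hCc.isBounded.exists_norm_le
    have hB0 : 0 ≤ B := (norm_nonneg _).trans (hB z (interior_subset hz))
    refine ⟨ε / (2 * (2 * B + 1)), by positivity, fun s hs0 hs x hx => hε' ?_⟩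
    rw [mem_thickening_iff]
    refine ⟨x, hx, ?_⟩
    rw [dist_eq_norm, add_sub_cancel_left, norm_smul, Real.norm_eq_abs, abs_of_nonneg hs0]
    have h1 : ‖x - z‖ ≤ 2 * B := by
      calc ‖x - z‖ ≤ ‖x‖ + ‖z‖ := norm_sub_le _ _
        _ ≤ 2 * B := by linarith [hB x hx, hB z (interior_subset hz)]
    calc s * ‖x - z‖ ≤ ε / (2 * (2 * B + 1)) * (2 * B) := by gcongr
      _ < ε := by
        rw [div_mul_eq_mul_div, div_lt_iff₀ (by positivity)]
        nlinarith
  -- the gauge
  let τ : E ≃ₜ E := Homeomorph.addLeft z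
  let C0 : Set E := τ ⁻¹' C
  have hτ : ∀ v, τ v = z + v := fun v => rfl
  have hC0i : interior C0 = τ ⁻¹' interior C := (τ.preimage_interior C).symm
  have hC0f : frontier C0 = τ ⁻¹' frontier C := (τ.preimage_frontier C).symm
  have hC0c : IsClosed C0 := hCc.isClosed.preimage τ.continuous
  have hC0 : Convex ℝ C0 := by
    intro u hu v hv a b ha hb hab
    have h := hC hu hv ha hb hab
    show z + (a • u + b • v) ∈ C
    have e : z + (a • u + b • v) = a • (z + u) + b • (z + v) := by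
      have e1 : z = a • z + b • z := by rw [← add_smul, hab, one_smul]
      rw [smul_add, smul_add]
      nth_rewrite 1 [e1]
      abel
    rw [e]
    exact h
  have hC00 : C0 ∈ 𝓝 (0 : E) := by
    rw [_root_.mem_nhds_iff]
    refine ⟨interior C0, interior_subset, isOpen_interior, ?_⟩
    rw [hC0i]
    show z + 0 ∈ interior C
    rwa [add_zero]
  have hg1 : ∀ v, v ∈ frontier C0 ↔ gauge C0 v = 1 := fun v =>
    (gauge_eq_one_iff_mem_frontier hC0 hC00).symm
  have hg2 : ∀ v, v ∈ interior C0 ↔ gauge C0 v < 1 := fun v =>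
    (gauge_lt_one_iff_mem_interior hC0 hC00).symm
  have hg3 : ∀ v, v ∈ C0 ↔ gauge C0 v ≤ 1 := fun v => by
    rw [gauge_le_one_iff_mem_closure hC0 hC00, hC0c.closure_eq]
  have hsm : ∀ (c : ℝ) (v : E), 0 ≤ c → gauge C0 (c • v) = c * gauge C0 v := fun c v hc => by
    rw [gauge_smul_of_nonneg hc, smul_eq_mul]
  -- the shell
  let F : E × ℝ → E := fun q => q.1 + q.2 • (q.1 - z)
  have hF : Continuous F := by fun_prop
  let A : Set E := F '' (frontier C ×ˢ Ioo 0 r)
  have hA : IsPreconnected A :=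
    ((Lab_184.isPreconnected_frontier h3 hCc hC ⟨z, hz⟩).prod isPreconnected_Ioo).image _
      hF.continuousOn
  have hgF : ∀ x s, 0 ≤ s → gauge C0 (F (x, s) - z) = (1 + s) * gauge C0 (x - z) := by
    intro x s hs
    have e : F (x, s) - z = (1 + s) • (x - z) := by
      show x + s • (x - z) - z = _
      rw [add_smul, one_smul]; abel
    rw [e, hsm _ _ (by linarith)]
  have hmemC : ∀ y, y ∈ C ↔ gauge C0 (y - z) ≤ 1 := fun y => by
    rw [← hg3]
    show y ∈ C ↔ z + (y - z) ∈ C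
    rw [add_sub_cancel]
  have hmemf : ∀ y, y ∈ frontier C ↔ gauge C0 (y - z) = 1 := fun y => by
    rw [← hg1, hC0f]
    show y ∈ frontier C ↔ z + (y - z) ∈ frontier C
    rw [add_sub_cancel]
  have hAO : A ⊆ O \ C := by
    rintro _ ⟨⟨x, s⟩, ⟨hx, hs⟩, rfl⟩
    have hx : x ∈ frontier C := hx
    have hs : s ∈ Ioo 0 r := hs
    refine ⟨hrO s hs.1.le hs.2.le x (hCc.isClosed.frontier_subset hx), fun h => ?_⟩
    rw [hmemC, hgF x s hs.1.le, (hmemf x).1 hx] at h
    linarith [hs.1]
  -- the neighbourhood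
  let N : Set E := {y | gauge C0 (y - z) < 1 + r}
  have hN : IsOpen N :=
    isOpen_lt ((continuous_gauge hC0 hC00).comp (by fun_prop)) continuous_const
  have hNC : ∀ y ∈ N, y ∉ C → y ∈ A := by
    intro y hy hyC
    have h1 : 1 < gauge C0 (y - z) := by
      by_contra hcon
      exact hyC ((hmemC y).2 (not_lt.1 hcon))
    have hy : gauge C0 (y - z) < 1 + r := hy
    set γ := gauge C0 (y - z) with hγ
    have hγ0 : 0 < γ := by linarith
    refine ⟨(z + γ⁻¹ • (y - z), γ - 1), ⟨?_, ?_, ?_⟩, ?_⟩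
    · show z + γ⁻¹ • (y - z) ∈ frontier C
      rw [hmemf, add_sub_cancel_left, hsm _ _ (inv_nonneg.2 hγ0.le), ← hγ,
        inv_mul_cancel₀ hγ0.ne']
    · show 0 < γ - 1
      linarith
    · show γ - 1 < r
      linarith
    · show z + γ⁻¹ • (y - z) + (γ - 1) • (z + γ⁻¹ • (y - z) - z) = y
      rw [add_sub_cancel_left, smul_smul, add_assoc, ← add_smul]
      have : γ⁻¹ + (γ - 1) * γ⁻¹ = 1 := by field_simp; ring
      rw [this, one_smul, add_sub_cancel]
  have hCN : C ⊆ N := fun y hy => by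
    have := (hmemC y).1 hy
    show gauge C0 (y - z) < 1 + r
    linarith
  have key : ∀ U V : Set E, IsOpen U → IsOpen V → O \ C ⊆ U ∪ V → ((O \ C) ∩ U).Nonempty →
      ((O \ C) ∩ V).Nonempty → A ∩ V = ∅ → ((O \ C) ∩ (U ∩ V)).Nonempty := by
    intro U V hU hV hUV hnU hnV hAV
    have h1 : O ⊆ (U ∪ N) ∪ (V \ C) := by
      intro y hy
      by_cases hyC : y ∈ C
      · exact Or.inl (Or.inr (hCN hyC))
      · rcases hUV ⟨hy, hyC⟩ with h | h
        · exact Or.inl (Or.inl h)
        · exact Or.inr ⟨h, hyC⟩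
    obtain ⟨y, hyO, hy1, hy2⟩ := hOc (U ∪ N) (V \ C) (hU.union hN) (hV.sdiff hCc.isClosed) h1
      (by obtain ⟨y, hy, hyU⟩ := hnU; exact ⟨y, hy.1, Or.inl hyU⟩)
      (by obtain ⟨y, hy, hyV⟩ := hnV; exact ⟨y, hy.1, hyV, hy.2⟩)
    rcases hy1 with hy1 | hy1
    · exact ⟨y, ⟨hyO, hy2.2⟩, hy1, hy2.1⟩
    · have h2 : y ∈ A ∩ V := ⟨hNC y hy1 hy2.2, hy2.1⟩
      rw [hAV] at h2
      exact h2.elim
  intro U V hU hV hUV hnU hnV
  by_cases h1 : (A ∩ V).Nonempty
  · by_cases h2 : (A ∩ U).Nonempty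
    · obtain ⟨y, hy, hy'⟩ := hA U V hU hV (hAO.trans hUV) h2 h1
      exact ⟨y, hAO hy, hy'⟩
    · rw [Set.not_nonempty_iff_eq_empty] at h2
      obtain ⟨y, hy, hy'⟩ := key V U hV hU (by rwa [union_comm]) hnV hnU h2
      exact ⟨y, hy, hy'.2, hy'.1⟩
  · rw [Set.not_nonempty_iff_eq_empty] at h1
    exact key U V hU hV hUV hnU hnV h1


/-- the vertices of a cell in a tile are joined by edges in the tile -/
theorem const_in {A : Type*} {φ : E → A} {i : ι} {x : E}
    (hφ : T.EdgeConst φ (T.cc x ∩ P (T.H i))) :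
    ∀ v ∈ T.cc x, ∀ w ∈ T.cc x, T.dim v = 0 → T.dim w = 0 → v ∈ P (T.H i) → w ∈ P (T.H i) →
      φ v = φ w := by
  intro v hv w hw hv0 hw0 hvn hwn
  exact T.const_of_preconnected (((T.convex_cc x).inter (convex_P _)).isPreconnected)
    (fun y hy => T.sub i hy.2) (fun y hy => subset_inter (T.cc_sub_of_mem hy.1) (cc_sub_P T hy.2))
    hφ v ⟨hv, hvn⟩ w ⟨hw, hwn⟩ hv0 hw0

end Crest.Agent.R096.Tgr_335
end

-- ▼ part R096/Tgr3_335

/-!
# Row 96, 2SK for arbitrary tilings (helper335), part 3: the edges which leave a tile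
`two_tile`, `conn_tile`.
-/

set_option autoImplicit false
set_option linter.unusedSectionVars false

open Set Metric Topology Filter

namespace Crest.Agent.R096.Tgr_335

open Crest.Agent.R096.Msh_715 Crest.Agent.R096.Coh_184 Crest.Agent.R096.Lab_184

variable {E : Type*} [NormedAddCommGroup E] [NormedSpace ℝ E] [FiniteDimensional ℝ E]
variable {Om : Set E} {ι : Type*} (T : Tiling Om ι)

/-- `e` is a point of an open 1-cell which leaves the tile `i` -/
structure Crs (i : ι) (e : E) : Prop where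
  om : e ∈ Om
  dim : T.dim e = 1
  off : e ∉ P (T.H i)
  meet : (T.cc e ∩ P (T.H i)).Nonempty

variable {T} {i : ι}

/-- the end points of a crossing edge -/
theorem Crs.ends {e : E} (h : Crs T i e) : ∃ a b, T.cc e = segment ℝ a b ∧ T.dim a = 0 ∧
    T.dim b = 0 ∧ a ∈ P (T.H i) ∧ b ∉ P (T.H i) := by
  obtain ⟨a, b, -, e1, e2, ha, hb, hac, hbc⟩ := T.edge_eq h.om h.dim
  have hnot : ¬ (a ∈ P (T.H i) ∧ b ∈ P (T.H i)) := by
    rintro ⟨h1, h2⟩
    have h3 := (convex_P (T.H i)).segment_subset h1 h2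
    rw [← e1] at h3
    exact h.off (h3 (T.self_mem_cc e))
  have hor : a ∈ P (T.H i) ∨ b ∈ P (T.H i) := by
    obtain ⟨p, hp, hpK⟩ := h.meet
    by_cases hpo : p ∈ T.oc e
    · have h1 := T.cc_sub_tile (x := p) (i := i) hpK
      rw [T.cc_eq_of_mem_oc h.om hpo] at h1
      exact absurd (h1 (T.self_mem_cc e)) h.off
    · have hp2 : p = a ∨ p = b := by
        rw [e1, ← insert_endpoints_openSegment] at hp
        rw [e2] at hpo
        rcases hp with hp | hp | hp
        · exact Or.inl hp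
        · exact Or.inr hp
        · exact absurd hp hpo
      rcases hp2 with rfl | rfl
      · exact Or.inl hpK
      · exact Or.inr hpK
  rcases hor with h1 | h1
  · exact ⟨a, b, e1, ha, hb, h1, fun h2 => hnot ⟨h1, h2⟩⟩
  · exact ⟨b, a, by rw [e1, segment_symm], hb, ha, h1, fun h2 => hnot ⟨h2, h1⟩⟩

/-- an edge with one end in the tile and one end outside is crossing -/
theorem crs_of_ends {e a b : E} (he : e ∈ Om) (hd : T.dim e = 1) (hab : T.cc e = segment ℝ a b)
    (ha : a ∈ P (T.H i)) (hb : b ∉ P (T.H i)) : Crs T i e := by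
  refine ⟨he, hd, fun h => ?_, a, ?_, ha⟩
  · have h1 := T.cc_sub_tile (x := e) (i := i) h
    rw [hab] at h1
    exact hb (h1 (right_mem_segment ℝ a b))
  · rw [hab]; exact left_mem_segment ℝ a b

/-- two 1-cells one of which contains a point of the other open one are equal -/
theorem cc_eq_of_dim_one {e g : E} (hg : g ∈ Om) (hde : T.dim e = 1) (hdg : T.dim g = 1)
    (h : e ∈ T.cc g) : T.cc e = T.cc g := by
  by_cases ho : e ∈ T.oc g
  · exact T.cc_eq_of_mem_oc hg ho
  · have := T.dim_lt h ho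
    omega

theorem Crs.congr {e g : E} (h : Crs T i e) (hg : g ∈ Om) (hc : T.cc g = T.cc e) : Crs T i g := by
  have ho : g ∈ T.oc e := (T.cc_eq_iff h.om).1 hc
  refine ⟨hg, by rw [T.dim_eq_of_mem_oc h.om ho, h.dim], fun hK => ?_, by rw [hc]; exact h.meet⟩
  have h1 := T.cc_sub_tile (x := g) (i := i) hK
  rw [hc] at h1
  exact h.off (h1 (T.self_mem_cc e))

theorem add_eq_zero_iff_eq (a b : ZMod 2) : a + b = 0 ↔ a = b := by
  revert a b; decide

/-- labels of a finite set of crossing points are constant inside and outside -/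
theorem ncard_zero_of_in {Q : Finset E} (hQ : ∀ w ∈ Q, Crs T i w) {g : E}
    (hg : g ∈ P (T.H i)) : ((Q : Set E) ∩ T.cc g).ncard = 0 := by
  have : (Q : Set E) ∩ T.cc g = ∅ := by
    rw [eq_empty_iff_forall_notMem]
    rintro w ⟨hw, hwg⟩
    exact (hQ w hw).off (T.cc_sub_tile (x := g) (i := i) hg hwg)
  rw [this, ncard_empty]

theorem ncard_zero_of_out {Q : Finset E} (hQ : ∀ w ∈ Q, Crs T i w) {g a b : E} (hgO : g ∈ Om)
    (hd : T.dim g = 1) (hab : T.cc g = segment ℝ a b) (ha : a ∉ P (T.H i)) (hb : b ∉ P (T.H i)) :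
    ((Q : Set E) ∩ T.cc g).ncard = 0 := by
  have : (Q : Set E) ∩ T.cc g = ∅ := by
    rw [eq_empty_iff_forall_notMem]
    rintro w ⟨hw, hwg⟩
    have h1 := cc_eq_of_dim_one hgO (hQ w hw).dim hd hwg
    obtain ⟨a', b', e1, ha', -, haK, -⟩ := (hQ w hw).ends
    have h2 : a' ∈ T.cc g := by rw [← h1, e1]; exact left_mem_segment ℝ _ _
    rcases T.vertex_of_edge hgO hd hab h2 ha' with rfl | rfl
    · exact ha haK
    · exact hb haK
  rw [this, ncard_empty]

/-- at most two crossing edges in a 2-cell -/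
theorem at_most_two {x : E} (hx : x ∈ Om) (hd : T.dim x = 2) {e e' e'' : E} (h : Crs T i e)
    (h' : Crs T i e') (h'' : Crs T i e'') (he : e ∈ T.cc x) (he' : e' ∈ T.cc x)
    (he'' : e'' ∈ T.cc x) (h1 : T.cc e ≠ T.cc e') (h2 : T.cc e'' ≠ T.cc e)
    (h3 : T.cc e'' ≠ T.cc e') : False := by
  classical
  let Q : Finset E := {e, e'}
  have hQc : ∀ w ∈ Q, Crs T i w := by
    intro w hw
    simp only [Q, Finset.mem_insert, Finset.mem_singleton] at hw
    rcases hw with rfl | rfl
    · exact h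
    · exact h'
  have hne : e ≠ e' := fun hh => h1 (by rw [hh])
  have hQx : (Q : Set E) ∩ T.cc x = {e, e'} := by
    ext w
    simp only [Q, Finset.coe_insert, Finset.coe_singleton, mem_inter_iff, mem_insert_iff,
      mem_singleton_iff]
    constructor
    · exact fun hw => hw.1
    · rintro (rfl | rfl)
      · exact ⟨Or.inl rfl, he⟩
      · exact ⟨Or.inr rfl, he'⟩
  obtain ⟨lam, hlam⟩ := exists_ex_cell2 (T := T) (Q := Q) (fun w hw => (hQc w hw).dim) hx hd
    (by rw [hQx, ncard_pair hne]; exact even_two)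
  have hin := const_in (T := T) (i := i) (x := x) (φ := lam) (fun g hg hgd a b hab => by
    have h4 := hlam g (T.sub i hg.2) hgd (T.cc_sub_of_mem hg.1) a b hab
    rw [ncard_zero_of_in hQc hg.2, Nat.cast_zero, add_eq_zero_iff_eq] at h4
    exact h4)
  have hout := const_cell_off T (i := i) (x := x) (φ := lam) hx (fun g hg hgd a b hab ha hb => by
    have hgO := T.cc_sub_Om hx hg
    have h4 := hlam g hgO hgd (T.cc_sub_of_mem hg) a b hab
    rw [ncard_zero_of_out hQc hgO hgd hab ha hb, Nat.cast_zero, add_eq_zero_iff_eq] at h4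
    exact h4)
  obtain ⟨a, b, e1, ha, hb, haK, hbK⟩ := h.ends
  obtain ⟨c, d, e2, hc, hdd, hcK, hdK⟩ := h''.ends
  have hax : a ∈ T.cc x := T.cc_sub_of_mem he (by rw [e1]; exact left_mem_segment ℝ _ _)
  have hbx : b ∈ T.cc x := T.cc_sub_of_mem he (by rw [e1]; exact right_mem_segment ℝ _ _)
  have hcx : c ∈ T.cc x := T.cc_sub_of_mem he'' (by rw [e2]; exact left_mem_segment ℝ _ _)
  have hdx : d ∈ T.cc x := T.cc_sub_of_mem he'' (by rw [e2]; exact right_mem_segment ℝ _ _)
  have k1 := hin a hax c hcx ha hc haK hcK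
  have k2 := hout b hbx d hdx hb hdd hbK hdK
  have k3 := hlam e h.om h.dim (T.cc_sub_of_mem he) a b e1
  have k4 := hlam e'' h''.om h''.dim (T.cc_sub_of_mem he'') c d e2
  have c1 : (Q : Set E) ∩ T.cc e = {e} := by
    ext w
    simp only [Q, Finset.coe_insert, Finset.coe_singleton, mem_inter_iff, mem_insert_iff,
      mem_singleton_iff]
    constructor
    · rintro ⟨rfl | rfl, hw⟩
      · rfl
      · exact absurd (cc_eq_of_dim_one h.om h'.dim h.dim hw).symm h1
    · rintro rfl
      exact ⟨Or.inl rfl, T.self_mem_cc _⟩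
  have c2 : (Q : Set E) ∩ T.cc e'' = ∅ := by
    rw [eq_empty_iff_forall_notMem]
    rintro w ⟨hw, hw'⟩
    simp only [Q, Finset.coe_insert, Finset.coe_singleton, mem_insert_iff, mem_singleton_iff] at hw
    rcases hw with rfl | rfl
    · exact h2 (cc_eq_of_dim_one h''.om h.dim h''.dim hw').symm
    · exact h3 (cc_eq_of_dim_one h''.om h'.dim h''.dim hw').symm
  rw [c1, ncard_singleton, Nat.cast_one] at k3
  rw [c2, ncard_empty, Nat.cast_zero] at k4
  rw [k1, k2, k4] at k3
  exact zero_ne_one k3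

/-- a 2-cell with a crossing edge has another one -/
theorem another {x : E} (hx : x ∈ Om) (hd : T.dim x = 2) {e : E} (h : Crs T i e)
    (he : e ∈ T.cc x) : ∃ e' ∈ T.cc x, Crs T i e' ∧ T.cc e' ≠ T.cc e := by
  by_contra hcon
  push Not at hcon
  have heo : e ∉ T.oc x := fun ho => by
    have := T.dim_eq_of_mem_oc hx ho
    rw [h.dim, hd] at this
    omega
  have hpc : IsPreconnected ((T.cc x \ T.oc x) \ T.oc e) := by
    refine bdry_diff T (T.convex_oc e) hx hd.ge ?_
    rw [disjoint_left]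
    intro w hw hw'
    have h1 := T.dim_eq_of_mem_oc h.om hw
    have h2 := T.dim_eq_of_mem_oc hx hw'
    rw [h.dim] at h1
    rw [hd] at h2
    omega
  have hcl : ∀ y ∈ (T.cc x \ T.oc x) \ T.oc e, T.cc y ⊆ (T.cc x \ T.oc x) \ T.oc e := by
    rintro y ⟨⟨hy1, hy2⟩, hy3⟩ w hw
    have hyO : y ∈ Om := T.cc_sub_Om hx hy1
    have hlt := T.dim_lt hy1 hy2
    have hwle := T.dim_le hw
    refine ⟨⟨T.cc_sub_of_mem hy1 hw, fun ho => ?_⟩, fun ho => ?_⟩
    · have := T.dim_eq_of_mem_oc hx ho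
      omega
    · have h1 := T.dim_eq_of_mem_oc h.om ho
      have h2 : T.cc e ⊆ T.cc y := by
        rw [← T.cc_eq_of_mem_oc h.om ho]; exact T.cc_sub_of_mem hw
      have h3 : T.dim y = 1 := by
        rw [h.dim] at h1
        omega
      have h4 := cc_eq_of_dim_one hyO h.dim h3 (h2 (T.self_mem_cc e))
      exact hy3 ((T.cc_eq_iff h.om).1 h4.symm)
  obtain ⟨a, b, e1, ha, hb, haK, hbK⟩ := h.ends
  have hax : a ∈ T.cc e := by rw [e1]; exact left_mem_segment ℝ _ _
  have hbx : b ∈ T.cc e := by rw [e1]; exact right_mem_segment ℝ _ _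
  have hmem : ∀ v ∈ T.cc e, T.dim v = 0 → v ∈ (T.cc x \ T.oc x) \ T.oc e := by
    intro v hv hv0
    refine ⟨⟨T.cc_sub_of_mem he hv, fun ho => ?_⟩, fun ho => ?_⟩
    · have := T.dim_eq_of_mem_oc hx ho
      omega
    · have := T.dim_eq_of_mem_oc h.om ho
      rw [h.dim] at this
      omega
  have hconst := T.const_of_preconnected (φ := fun v => v ∈ P (T.H i)) hpc
    (fun y hy => T.cc_sub_Om hx hy.1.1) hcl (fun g hg hgd c d hcd => by
      have hgO : g ∈ Om := T.cc_sub_Om hx hg.1.1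
      have hne : T.cc g ≠ T.cc e := fun hh => hg.2 ((T.cc_eq_iff h.om).1 hh)
      refine propext ⟨fun h1 => ?_, fun h1 => ?_⟩
      · by_contra h2
        exact hne (hcon g hg.1.1 (crs_of_ends hgO hgd hcd h1 h2))
      · by_contra h2
        exact hne (hcon g hg.1.1 (crs_of_ends hgO hgd (by rw [hcd, segment_symm]) h1 h2)))
    a (hmem a hax ha) b (hmem b hbx hb) ha hb
  have hconst' : (a ∈ P (T.H i)) = (b ∈ P (T.H i)) := hconst
  rw [hconst'] at haK
  exact hbK haK

/-- **`two`** -/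
theorem two_tile {x : E} (hx : x ∈ Om) (hd : T.dim x = 2) (hex : ∃ e ∈ T.cc x, Crs T i e) :
    ∃ e e', Crs T i e ∧ Crs T i e' ∧ T.cc e ≠ T.cc e' ∧ e ∈ T.cc x ∧ e' ∈ T.cc x ∧
      ∀ e'', Crs T i e'' → e'' ∈ T.cc x → T.cc e'' = T.cc e ∨ T.cc e'' = T.cc e' := by
  obtain ⟨e, he, h⟩ := hex
  obtain ⟨e', he', h', hne⟩ := another hx hd h he
  refine ⟨e, e', h, h', hne.symm, he, he', fun e'' h'' he'' => ?_⟩
  by_contra hcon
  push Not at hcon
  exact at_most_two hx hd h h' h'' he he' he'' hne.symm hcon.1 hcon.2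

end Crest.Agent.R096.Tgr_335
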