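import Crest.Agent.R096.Sk2a_855

/-!
# Row 96 (S0127), p < 2: lemma 2SK (helper855), part b: colours

Boxes of equal colour are disjoint; processing one colour class enlarges the image of a face at
most by the boxes which it meets, so the total growth is controlled by the number of colours.
-/

set_option autoImplicit false
set_option linter.unusedSectionVars false

open Set Metric

namespace Crest.Agent.R096.Sk2_855

open Crest.Agent.R096.Msh_715 (Tiling)

section Reach

variable {E : Type*} [NormedAddCommGroup E] [NormedSpace ℝ E]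

theorem reach_class : ∀ (l : List (Set E)), l.Pairwise Disjoint → ∀ S : Set E,
    reach S l ⊆ S ∪ {y | ∃ Y ∈ l, (S ∩ Y).Nonempty ∧ y ∈ Y} := by
  intro l
  induction l with
  | nil => intro _ S; exact subset_union_left
  | cons Y l ih =>
    intro hp S y hy
    rw [List.pairwise_cons] at hp
    rcases ih hp.2 (grow S Y) hy with hy | ⟨Y', hY', ⟨z, hz, hzY'⟩, hyY'⟩
    · rcases hy with hy | ⟨hy, hm⟩
      · exact Or.inl hy
      · exact Or.inr ⟨Y, List.mem_cons_self, hm, hy⟩
    · refine Or.inr ⟨Y', List.mem_cons_of_mem _ hY', ?_, hyY'⟩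
      rcases hz with hz | ⟨hz, -⟩
      · exact ⟨z, hz, hzY'⟩
      · exact absurd hzY' (disjoint_left.1 (hp.1 Y' hY') hz)

/-- a chain of sets which absorbs one class at every step -/
theorem reach_chain (Z : ℕ → Set E) (hZ : ∀ i, Z i ⊆ Z (i + 1)) :
    ∀ (ls : List (List (Set E))), (∀ l ∈ ls, l.Pairwise Disjoint) → ∀ i : ℕ,
    (∀ l ∈ ls, ∀ Y ∈ l, ∀ i' < i + ls.length, (Z i' ∩ Y).Nonempty → Y ⊆ Z (i' + 1)) →
    ∀ S ⊆ Z i, reach S ls.flatten ⊆ Z (i + ls.length) := by
  intro ls
  induction ls with
  | nil => intro _ i _ S hS; simpa [reach] using hS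
  | cons l ls ih =>
    intro hp i hY S hS
    rw [List.flatten_cons, reach_append]
    have h1 : reach S l ⊆ Z (i + 1) := by
      intro y hy
      rcases reach_class l (hp l List.mem_cons_self) S hy with hy | ⟨Y, hYl, ⟨z, hz, hzY⟩, hyY⟩
      · exact hZ i (hS hy)
      · exact hY l List.mem_cons_self Y hYl i (by simp) ⟨z, hS hz, hzY⟩ hyY
    have h2 := ih (fun l' hl' => hp l' (List.mem_cons_of_mem _ hl')) (i + 1)
      (fun l' hl' Y hYl i' hi' => hY l' (List.mem_cons_of_mem _ hl') Y hYl i'
        (by simp only [List.length_cons]; omega)) (reach S l) h1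
    refine h2.trans (le_of_eq ?_)
    rw [List.length_cons]
    congr 1
    omega

/-- a suffix of a flattened list is flattened -/
theorem flatten_suffix {α : Type*} : ∀ (ls : List (List α)) (l1 : List α) (B : α) (l2 : List α),
    ls.flatten = l1 ++ B :: l2 → ∃ ls' : List (List α), l2 = ls'.flatten ∧
      ls'.length ≤ ls.length ∧ ∀ l' ∈ ls', ∃ l ∈ ls, l'.Sublist l := by
  intro ls
  induction ls with
  | nil => intro l1 B l2 h; exact absurd h.symm (by simp)
  | cons l ls ih =>
    intro l1 B l2 h
    rw [List.flatten_cons, List.append_eq_append_iff] at h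
    rcases h with ⟨m, h1, h2⟩ | ⟨m, h1, h2⟩
    · obtain ⟨ls', e, hl, hs⟩ := ih m B l2 h2
      exact ⟨ls', e, hl.trans (by simp), fun l' hl' => by
        obtain ⟨l0, h0, h0'⟩ := hs l' hl'
        exact ⟨l0, List.mem_cons_of_mem _ h0, h0'⟩⟩
    · cases m with
      | nil =>
        rw [List.nil_append] at h2
        rw [List.append_nil] at h1
        obtain ⟨ls', e, hl, hs⟩ := ih [] B l2 h2.symm
        exact ⟨ls', e, hl.trans (by simp), fun l' hl' => by
          obtain ⟨l0, h0, h0'⟩ := hs l' hl'
          exact ⟨l0, List.mem_cons_of_mem _ h0, h0'⟩⟩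
      | cons B' m =>
        rw [List.cons_append, List.cons.injEq] at h2
        obtain ⟨rfl, rfl⟩ := h2
        refine ⟨m :: ls, rfl, by simp, fun l' hl' => ?_⟩
        rcases List.mem_cons.1 hl' with rfl | hl'
        · refine ⟨l, List.mem_cons_self, ?_⟩
          rw [h1]
          exact (List.sublist_cons_self _ _).trans (List.sublist_append_right _ _)
        · exact ⟨l', List.mem_cons_of_mem _ hl', List.Sublist.refl _⟩

end Reach

variable {E : Type*} [NormedAddCommGroup E] [NormedSpace ℝ E] {Om La : Set E} {ι : Type*}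
  [FiniteDimensional ℝ E]


end Crest.Agent.R096.Sk2_855
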