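import Crest.Agent.R096.PlExt_296

-- ▼ part R096/PlPoly_296
section

/-!
# Closed simple polygons in the plane (helper296, row 96, P2-Y)
-/

namespace Crest.Agent.R096.Pl

open Set Metric Topology

set_option linter.unusedSectionVars false

/-- the edge from `v i` to `v (i+1)` -/
def edge {E : Type*} [AddCommGroup E] [Module ℝ E] (v : ℤ → E) (i : ℤ) : Set E :=
  segment ℝ (v i) (v (i + 1))

/-- the union of all edges -/
def polySet {E : Type*} [AddCommGroup E] [Module ℝ E] (v : ℤ → E) : Set E := ⋃ i, edge v i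

/-- the union of the edges `a, …, b-1` -/
def arcSet {E : Type*} [AddCommGroup E] [Module ℝ E] (v : ℤ → E) (a b : ℤ) : Set E :=
  ⋃ i ∈ Ico a b, edge v i

/-- a closed simple polygon with `n` vertices `v 0, …, v (n-1)`, indexed periodically by `ℤ` -/
structure Poly {E : Type*} [AddCommGroup E] [Module ℝ E] (n : ℕ) (v : ℤ → E) : Prop where
  three : 3 ≤ n
  per : ∀ i, v (i + n) = v i
  inj : ∀ i j, v i = v j → (n : ℤ) ∣ i - j
  simple : ∀ i j, ¬ (n : ℤ) ∣ i - j → ∀ x ∈ edge v i, x ∈ edge v j →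
    (x = v i ∨ x = v (i + 1)) ∧ (x = v j ∨ x = v (j + 1))

section general

variable {E : Type*} [NormedAddCommGroup E] [NormedSpace ℝ E] {n : ℕ} {v : ℤ → E}

theorem left_mem_edge (v : ℤ → E) (i : ℤ) : v i ∈ edge v i := left_mem_segment ℝ _ _

theorem right_mem_edge (v : ℤ → E) (i : ℤ) : v (i + 1) ∈ edge v i := right_mem_segment ℝ _ _

theorem Poly.pos (h : Poly n v) : (0 : ℤ) < n := by have := h.three; omega

theorem Poly.eq_of_dvd (h : Poly n v) {i j : ℤ} (hd : (n : ℤ) ∣ i - j) : v i = v j := by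
  obtain ⟨c, hc⟩ := hd
  have hp : Function.Periodic v (n : ℤ) := h.per
  have := hp.int_mul c j
  rw [← this]; congr 1
  simp only [Int.cast_id]; linarith [mul_comm (n : ℤ) c]

theorem Poly.edge_eq_of_dvd (h : Poly n v) {i j : ℤ} (hd : (n : ℤ) ∣ i - j) :
    edge v i = edge v j := by
  unfold edge
  rw [h.eq_of_dvd hd, h.eq_of_dvd (i := i + 1) (j := j + 1) (by simpa using hd)]

theorem Poly.eq_iff (h : Poly n v) {i j : ℤ} : v i = v j ↔ (n : ℤ) ∣ i - j :=
  ⟨h.inj i j, h.eq_of_dvd⟩

/-- a vertex lies only on its two edges -/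
theorem Poly.vertex_mem_edge (h : Poly n v) {a j : ℤ} (hm : v a ∈ edge v j) :
    (n : ℤ) ∣ a - j ∨ (n : ℤ) ∣ a - (j + 1) := by
  by_cases hd : (n : ℤ) ∣ a - j
  · exact Or.inl hd
  · rcases (h.simple a j hd _ (left_mem_edge v a) hm).2 with h' | h'
    · exact Or.inl (h.inj _ _ h')
    · exact Or.inr (h.inj _ _ h')

theorem Poly.shift (h : Poly n v) (c : ℤ) : Poly n (fun i => v (i + c)) where
  three := h.three
  per := fun i => by
    rw [← h.per (i + c)]; congr 1; ring
  inj := fun i j hij => by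
    have := h.inj _ _ hij
    simpa using this
  simple := fun i j hij x hx hx' => by
    have e : ∀ i, edge (fun i => v (i + c)) i = edge v (i + c) := fun i => by
      show segment ℝ (v (i + c)) (v (i + 1 + c)) = segment ℝ (v (i + c)) (v (i + c + 1))
      rw [show i + 1 + c = i + c + 1 by ring]
    rw [e] at hx hx'
    have := h.simple (i + c) (j + c) (by simpa using hij) x hx hx'
    rw [show i + 1 + c = i + c + 1 by ring, show j + 1 + c = j + c + 1 by ring]
    exact this

theorem edge_shift (v : ℤ → E) (c i : ℤ) : edge (fun i => v (i + c)) i = edge v (i + c) := by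
  show segment ℝ (v (i + c)) (v (i + 1 + c)) = segment ℝ (v (i + c)) (v (i + c + 1))
  rw [show i + 1 + c = i + c + 1 by ring]

theorem polySet_shift (v : ℤ → E) (c : ℤ) : polySet (fun i => v (i + c)) = polySet v := by
  unfold polySet
  simp only [edge_shift]
  exact (Equiv.addRight c).surjective.iUnion_comp (fun i => edge v i)

theorem arcSet_shift (v : ℤ → E) (c a b : ℤ) :
    arcSet (fun i => v (i + c)) a b = arcSet v (a + c) (b + c) := by
  ext x
  simp only [arcSet, mem_iUnion, edge_shift, exists_prop, mem_Ico]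
  constructor
  · rintro ⟨i, hi, hx⟩
    exact ⟨i + c, ⟨by omega, by omega⟩, hx⟩
  · rintro ⟨i, hi, hx⟩
    exact ⟨i - c, ⟨by omega, by omega⟩, by simpa using hx⟩

theorem mem_arcSet {v : ℤ → E} {a b : ℤ} {x : E} :
    x ∈ arcSet v a b ↔ ∃ i, a ≤ i ∧ i < b ∧ x ∈ edge v i := by
  simp only [arcSet, mem_iUnion, exists_prop, mem_Ico, and_assoc]

theorem mem_polySet {v : ℤ → E} {x : E} : x ∈ polySet v ↔ ∃ i, x ∈ edge v i := by
  simp only [polySet, mem_iUnion]

/-- every edge is one of the edges `a, …, a + n - 1` -/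
theorem Poly.exists_rep (h : Poly n v) (a i : ℤ) :
    ∃ j, a ≤ j ∧ j < a + n ∧ (n : ℤ) ∣ i - j := by
  refine ⟨a + (i - a) % n, ?_, ?_, ?_⟩
  · have := Int.emod_nonneg (i - a) h.pos.ne'; linarith
  · have := Int.emod_lt_of_pos (i - a) h.pos; linarith
  · have := Int.emod_add_mul_ediv (i - a) n
    refine ⟨(i - a) / n, ?_⟩
    linarith

theorem Poly.polySet_eq (h : Poly n v) (a : ℤ) : polySet v = arcSet v a (a + n) := by
  ext x
  rw [mem_polySet, mem_arcSet]
  constructor
  · rintro ⟨i, hi⟩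
    obtain ⟨j, h1, h2, h3⟩ := h.exists_rep a i
    exact ⟨j, h1, h2, by rwa [← h.edge_eq_of_dvd h3]⟩
  · rintro ⟨i, -, -, hi⟩
    exact ⟨i, hi⟩

theorem arcSet_union {v : ℤ → E} {a b c : ℤ} (h1 : a ≤ b) (h2 : b ≤ c) :
    arcSet v a b ∪ arcSet v b c = arcSet v a c := by
  ext x
  simp only [mem_union, mem_arcSet]
  constructor
  · rintro (⟨i, h3, h4, h5⟩ | ⟨i, h3, h4, h5⟩)
    · exact ⟨i, h3, by omega, h5⟩
    · exact ⟨i, by omega, h4, h5⟩
  · rintro ⟨i, h3, h4, h5⟩
    by_cases h : i < b
    · exact Or.inl ⟨i, h3, h, h5⟩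
    · exact Or.inr ⟨i, by omega, h4, h5⟩

theorem dvd_small {n : ℕ} {z : ℤ} (hd : (n : ℤ) ∣ z) (h1 : -(n : ℤ) < z) (h2 : z < n) : z = 0 :=
  Int.eq_zero_of_abs_lt_dvd hd (abs_lt.2 ⟨h1, h2⟩)

theorem isPreconnected_segment_diff {x y : E} (hxy : x ≠ y) {T : Set E}
    (hT : ∀ z ∈ T, z ∈ segment ℝ x y → z = x ∨ z = y) : IsPreconnected (segment ℝ x y \ T) := by
  refine IsPreconnected.subset_closure (convex_openSegment x y).isPreconnected ?_ ?_
  · intro z hz
    refine ⟨openSegment_subset_segment ℝ x y hz, fun hzT => ?_⟩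
    rcases hT z hzT (openSegment_subset_segment ℝ x y hz) with rfl | rfl
    · exact hxy (left_mem_openSegment_iff.1 hz)
    · exact hxy (right_mem_openSegment_iff.1 hz)
  · rw [closure_openSegment]; exact sdiff_subset

/-- the interior of an arc of a simple polygon is connected -/
theorem Poly.isPreconnected_arc (h : Poly n v) {a b : ℤ} (hab : a < b) (hbn : b < a + n) :
    IsPreconnected (arcSet v a b \ {v a, v b}) := by
  have e : arcSet v a b \ {v a, v b} = ⋃ i ∈ Ico a b, (edge v i \ {v a, v b}) := by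
    ext x
    simp only [mem_sdiff, mem_arcSet, mem_iUnion, exists_prop, mem_Ico]
    constructor
    · rintro ⟨⟨i, h1, h2, h3⟩, h4⟩; exact ⟨i, ⟨h1, h2⟩, h3, h4⟩
    · rintro ⟨i, ⟨h1, h2⟩, h3, h4⟩; exact ⟨⟨i, h1, h2, h3⟩, h4⟩
  have h3 := h.three
  rw [e]
  refine IsPreconnected.biUnion_of_chain ordConnected_Ico ?_ ?_
  · intro i hi
    have hi' : a ≤ i ∧ i < b := hi
    refine isPreconnected_segment_diff ?_ ?_
    · intro heq
      have := h.inj _ _ heq
      have := dvd_small this (by omega) (by omega)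
      omega
    · rintro z (rfl | rfl) hz
      · rcases h.vertex_mem_edge hz with h' | h'
        · exact Or.inl (h.eq_of_dvd h')
        · exact Or.inr (h.eq_of_dvd h')
      · rcases h.vertex_mem_edge hz with h' | h'
        · exact Or.inl (h.eq_of_dvd h')
        · exact Or.inr (h.eq_of_dvd h')
  · intro i hi hi'
    have hi1 : a ≤ i ∧ i < b := hi
    have hi2 : a ≤ i + 1 ∧ i + 1 < b := hi'
    refine ⟨v (i + 1), ⟨right_mem_edge v i, ?_⟩, ⟨left_mem_edge v (i + 1), ?_⟩⟩
    all_goals
      rintro (h' | h')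
      · have := dvd_small (h.inj _ _ h') (by omega) (by omega)
        omega
      · have := dvd_small (h.inj _ _ (show v (i + 1) = v b from h')) (by omega) (by omega)
        omega

/-- the two arcs of a simple polygon meet in their end points -/
theorem Poly.arc_inter (h : Poly n v) {k : ℤ} (hk : 0 < k) (hkn : k < n) :
    arcSet v 0 k ∩ arcSet v k n = {v 0, v k} := by
  have h0 : v n = v 0 := by have := h.per 0; rwa [zero_add] at this
  ext x
  simp only [mem_inter_iff, mem_arcSet, mem_insert_iff, mem_singleton_iff]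
  constructor
  · rintro ⟨⟨i, h1, h2, h3⟩, ⟨j, h4, h5, h6⟩⟩
    have hnd : ¬ (n : ℤ) ∣ i - j := by
      intro hd
      have := dvd_small hd (by omega) (by omega)
      omega
    obtain ⟨hx1, hx2⟩ := h.simple i j hnd x h3 h6
    rcases hx1 with hx1 | hx1 <;> rcases hx2 with hx2 | hx2
    · have := dvd_small (h.inj _ _ (hx1.symm.trans hx2)) (by omega) (by omega)
      omega
    · -- v i = v (j+1)
      have hd := h.inj _ _ (hx1.symm.trans hx2)
      rcases lt_or_ge (j + 1 - i) n with h' | h'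
      · have := dvd_small hd (by omega) (by omega)
        omega
      · have : i = 0 := by omega
        left; rw [hx1, this]
    · -- v (i+1) = v j
      have := dvd_small (h.inj _ _ (hx1.symm.trans hx2)) (by omega) (by omega)
      right; rw [hx1, show i + 1 = k by omega]
    · have hd := h.inj _ _ (hx1.symm.trans hx2)
      have := dvd_small hd (by omega) (by omega)
      omega
  · rintro (rfl | rfl)
    · refine ⟨⟨0, le_rfl, hk, left_mem_edge v 0⟩, ⟨n - 1, by omega, by omega, ?_⟩⟩
      rw [← h0]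
      have := right_mem_edge v ((n : ℤ) - 1)
      simpa using this
    · refine ⟨⟨k - 1, by omega, by omega, ?_⟩, ⟨k, le_rfl, hkn, left_mem_edge v k⟩⟩
      have := right_mem_edge v (k - 1)
      simpa using this

/-- the sub-polygon cut off by the chord from `v k` to `v 0` -/
theorem Poly.sub (h : Poly n v) {k : ℕ} (hk : 2 ≤ k) (hkn : k + 2 ≤ n)
    (hD : ∀ x ∈ segment ℝ (v k) (v 0), x ∈ polySet v → x = v 0 ∨ x = v k) :
    Poly (k + 1) (fun i => v (i % (k + 1 : ℤ))) ∧
      polySet (fun i => v (i % (k + 1 : ℤ))) = arcSet v 0 k ∪ segment ℝ (v k) (v 0) := by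
  set w : ℤ → E := fun i => v (i % (k + 1 : ℤ)) with hw
  have hm : (0 : ℤ) < k + 1 := by omega
  have hr0 : ∀ i : ℤ, 0 ≤ i % (k + 1 : ℤ) := fun i => Int.emod_nonneg i hm.ne'
  have hr1 : ∀ i : ℤ, i % (k + 1 : ℤ) < k + 1 := fun i => Int.emod_lt_of_pos i hm
  have hlt : ∀ i : ℤ, i % (k + 1 : ℤ) < k → (i + 1) % (k + 1 : ℤ) = i % (k + 1 : ℤ) + 1 := by
    intro i hi
    have h0 := hr0 i
    rw [Int.add_emod, Int.emod_eq_of_lt (a := (1 : ℤ)) (by omega) (by omega),
      Int.emod_eq_of_lt (by omega) (by omega)]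
  have hlast : ∀ i : ℤ, i % (k + 1 : ℤ) = k → (i + 1) % (k + 1 : ℤ) = 0 := by
    intro i hi
    rw [Int.add_emod, Int.emod_eq_of_lt (a := (1 : ℤ)) (by omega) (by omega), hi]
    exact Int.emod_self
  have hedge : ∀ i : ℤ, i % (k + 1 : ℤ) < k → edge w i = edge v (i % (k + 1 : ℤ)) := by
    intro i hi
    show segment ℝ (v (i % (k + 1 : ℤ))) (v ((i + 1) % (k + 1 : ℤ))) = _
    rw [hlt i hi]; rfl
  have hedge' : ∀ i : ℤ, i % (k + 1 : ℤ) = k → edge w i = segment ℝ (v k) (v 0) := by
    intro i hi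
    show segment ℝ (v (i % (k + 1 : ℤ))) (v ((i + 1) % (k + 1 : ℤ))) = _
    rw [hlast i hi, hi]
  have hmod : ∀ i j : ℤ, i % (k + 1 : ℤ) = j % (k + 1 : ℤ) → ((k + 1 : ℕ) : ℤ) ∣ i - j := by
    intro i j hij
    push_cast
    exact Int.ModEq.dvd (show j ≡ i [ZMOD (k + 1 : ℤ)] from hij.symm)
  have hnd : ∀ a b : ℤ, 0 ≤ a → 0 ≤ b → a ≤ k → b ≤ k → (n : ℤ) ∣ a - b → a = b := by
    intro a b h1 h2 h3 h4 hd
    have := dvd_small hd (by omega) (by omega)
    omega
  -- chord and edge
  have hchord : ∀ r : ℤ, 0 ≤ r → r < k → ∀ x ∈ segment ℝ (v k) (v 0), x ∈ edge v r →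
      (x = v k ∨ x = v 0) ∧ (x = v r ∨ x = v (r + 1)) := by
    intro r hr hrk x hx hxr
    have h1 := hD x hx (mem_polySet.2 ⟨r, hxr⟩)
    refine ⟨h1.symm, ?_⟩
    rcases h1 with rfl | rfl
    · rcases h.vertex_mem_edge hxr with h' | h'
      · exact Or.inl (h.eq_of_dvd h')
      · exact Or.inr (h.eq_of_dvd h')
    · rcases h.vertex_mem_edge hxr with h' | h'
      · exact Or.inl (h.eq_of_dvd h')
      · exact Or.inr (h.eq_of_dvd h')
  refine ⟨⟨by omega, ?_, ?_, ?_⟩, ?_⟩
  · intro i
    show v ((i + ((k + 1 : ℕ) : ℤ)) % (k + 1 : ℤ)) = v (i % (k + 1 : ℤ))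
    congr 1
    push_cast
    exact Int.add_emod_right i _
  · intro i j hij
    have h1 := h.inj _ _ hij
    have h2 := hnd _ _ (hr0 i) (hr0 j) (by have := hr1 i; omega) (by have := hr1 j; omega) h1
    exact hmod i j h2
  · intro i j hij x hx hx'
    have hne : i % (k + 1 : ℤ) ≠ j % (k + 1 : ℤ) := fun h' => hij (hmod i j h')
    have hi1 := hr1 i
    have hj1 := hr1 j
    have hi0 := hr0 i
    have hj0 := hr0 j
    rcases lt_or_eq_of_le (by omega : i % (k + 1 : ℤ) ≤ k) with hi | hi
    · rcases lt_or_eq_of_le (by omega : j % (k + 1 : ℤ) ≤ k) with hj | hj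
      · rw [hedge i hi] at hx
        rw [hedge j hj] at hx'
        have := h.simple _ _ (fun hd => hne (hnd _ _ hi0 hj0 (by omega) (by omega) hd)) x hx hx'
        show (x = v (i % (k + 1 : ℤ)) ∨ x = v ((i + 1) % (k + 1 : ℤ))) ∧
          (x = v (j % (k + 1 : ℤ)) ∨ x = v ((j + 1) % (k + 1 : ℤ)))
        rw [hlt i hi, hlt j hj]; exact this
      · rw [hedge i hi] at hx
        rw [hedge' j hj] at hx'
        have := hchord _ hi0 hi x hx' hx
        show (x = v (i % (k + 1 : ℤ)) ∨ x = v ((i + 1) % (k + 1 : ℤ))) ∧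
          (x = v (j % (k + 1 : ℤ)) ∨ x = v ((j + 1) % (k + 1 : ℤ)))
        rw [hlt i hi, hlast j hj, hj]; exact this.symm
    · rcases lt_or_eq_of_le (by omega : j % (k + 1 : ℤ) ≤ k) with hj | hj
      · rw [hedge' i hi] at hx
        rw [hedge j hj] at hx'
        have := hchord _ hj0 hj x hx hx'
        show (x = v (i % (k + 1 : ℤ)) ∨ x = v ((i + 1) % (k + 1 : ℤ))) ∧
          (x = v (j % (k + 1 : ℤ)) ∨ x = v ((j + 1) % (k + 1 : ℤ)))
        rw [hlt j hj, hlast i hi, hi]; exact this
      · exact absurd (hi.trans hj.symm) hne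
  · ext x
    rw [mem_polySet, mem_union, mem_arcSet]
    constructor
    · rintro ⟨i, hi⟩
      have hi1 := hr1 i
      rcases lt_or_eq_of_le (by omega : i % (k + 1 : ℤ) ≤ k) with h' | h'
      · rw [hedge i h'] at hi
        exact Or.inl ⟨_, hr0 i, h', hi⟩
      · rw [hedge' i h'] at hi
        exact Or.inr hi
    · rintro (⟨i, h1, h2, h3⟩ | h1)
      · refine ⟨i, ?_⟩
        have e : i % (k + 1 : ℤ) = i := Int.emod_eq_of_lt h1 (by omega)
        rw [hedge i (by omega), e]; exact h3
      · refine ⟨k, ?_⟩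
        rw [hedge' k (Int.emod_eq_of_lt (by omega) (by omega))]; exact h1

end general

end Crest.Agent.R096.Pl
end

-- ▼ part R096/PlDiag_296
section

/-!
# Diagonals of closed simple polygons in the plane (helper296, row 96, P2-Y)
-/

namespace Crest.Agent.R096.Pl

open Set Metric Topology

set_option linter.unusedSectionVars false

/-- determinant of two plane vectors -/
def dt (u w : ℝ × ℝ) : ℝ := u.1 * w.2 - u.2 * w.1

/-- barycentric coordinates at a corner -/
structure Coord (o a b : ℝ × ℝ) (s t : (ℝ × ℝ) →ᵃ[ℝ] ℝ) : Prop where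
  so : s o = 0
  to' : t o = 0
  sa : s a = 1
  ta : t a = 0
  sb : s b = 0
  tb : t b = 1
  inj : ∀ x y, s x = s y → t x = t y → x = y

theorem exists_coord {o a b : ℝ × ℝ} (h : dt (a - o) (b - o) ≠ 0) :
    ∃ s t : (ℝ × ℝ) →ᵃ[ℝ] ℝ, Coord o a b s t := by
  set Δ := dt (a - o) (b - o) with hΔ
  let fs : (ℝ × ℝ) →ᵃ[ℝ] ℝ := (LinearMap.fst ℝ ℝ ℝ).toAffineMap - AffineMap.const ℝ _ o.1
  let sn : (ℝ × ℝ) →ᵃ[ℝ] ℝ := (LinearMap.snd ℝ ℝ ℝ).toAffineMap - AffineMap.const ℝ _ o.2
  have hfs : ∀ x, fs x = x.1 - o.1 := fun x => by simp [fs]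
  have hsn : ∀ x, sn x = x.2 - o.2 := fun x => by simp [sn]
  have hΔ' : Δ = (a.1 - o.1) * (b.2 - o.2) - (a.2 - o.2) * (b.1 - o.1) := by
    rw [hΔ]; simp [dt]
  let s : (ℝ × ℝ) →ᵃ[ℝ] ℝ := ((b.2 - o.2) / Δ) • fs - ((b.1 - o.1) / Δ) • sn
  let t : (ℝ × ℝ) →ᵃ[ℝ] ℝ := ((a.1 - o.1) / Δ) • sn - ((a.2 - o.2) / Δ) • fs
  have hs : ∀ x, s x = ((b.2 - o.2) * (x.1 - o.1) - (b.1 - o.1) * (x.2 - o.2)) / Δ := fun x => by
    simp only [s, AffineMap.coe_sub, AffineMap.coe_smul, Pi.sub_apply, Pi.smul_apply, smul_eq_mul,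
      hfs, hsn]
    ring
  have ht : ∀ x, t x = ((a.1 - o.1) * (x.2 - o.2) - (a.2 - o.2) * (x.1 - o.1)) / Δ := fun x => by
    simp only [t, AffineMap.coe_sub, AffineMap.coe_smul, Pi.sub_apply, Pi.smul_apply, smul_eq_mul,
      hfs, hsn]
    ring
  refine ⟨s, t, ?_, ?_, ?_, ?_, ?_, ?_, ?_⟩
  · rw [hs]; simp
  · rw [ht]; simp
  · rw [hs, div_eq_one_iff_eq h, hΔ']; ring
  · rw [ht, div_eq_zero_iff]; left; ring
  · rw [hs, div_eq_zero_iff]; left; ring
  · rw [ht, div_eq_one_iff_eq h, hΔ']
  · intro x y h1 h2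
    rw [hs, hs] at h1
    rw [ht, ht] at h2
    have h1' := (div_left_inj' h).1 h1
    have h2' := (div_left_inj' h).1 h2
    have e1 : Δ * (x.1 - y.1) = 0 := by rw [hΔ']; linear_combination (a.1 - o.1) * h1' + (b.1 - o.1) * h2'
    have e2 : Δ * (x.2 - y.2) = 0 := by rw [hΔ']; linear_combination (a.2 - o.2) * h1' + (b.2 - o.2) * h2'
    ext
    · have := (mul_eq_zero.1 e1).resolve_left h; linarith
    · have := (mul_eq_zero.1 e2).resolve_left h; linarith

theorem mem_segment_comb {x y z : ℝ × ℝ} (h : z ∈ segment ℝ x y) :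
    ∃ τ : ℝ, 0 ≤ τ ∧ τ ≤ 1 ∧ z = (1 - τ) • x + τ • y := by
  obtain ⟨α, β, h1, h2, h3, rfl⟩ := h
  exact ⟨β, h2, by linarith, by rw [show 1 - β = α by linarith]⟩

theorem comb_mem_segment {x y : ℝ × ℝ} {τ : ℝ} (h1 : 0 ≤ τ) (h2 : τ ≤ 1) :
    (1 - τ) • x + τ • y ∈ segment ℝ x y := ⟨1 - τ, τ, by linarith, h1, by ring, rfl⟩

theorem Coord.mem_left {o a b : ℝ × ℝ} {s t : (ℝ × ℝ) →ᵃ[ℝ] ℝ} (h : Coord o a b s t) {x : ℝ × ℝ}
    (hs : 0 ≤ s x) (hs1 : s x ≤ 1) (ht : t x = 0) : x ∈ segment ℝ o a := by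
  have e : x = (1 - s x) • o + (s x) • a := by
    apply h.inj
    · rw [affine_comb s (by ring), h.so, h.sa]; ring
    · rw [affine_comb t (by ring), h.to', h.ta, ht]; ring
  rw [e]; exact comb_mem_segment hs hs1

theorem Coord.mem_right {o a b : ℝ × ℝ} {s t : (ℝ × ℝ) →ᵃ[ℝ] ℝ} (h : Coord o a b s t) {x : ℝ × ℝ}
    (ht : 0 ≤ t x) (ht1 : t x ≤ 1) (hs : s x = 0) : x ∈ segment ℝ o b := by
  have e : x = (1 - t x) • o + (t x) • b := by
    apply h.inj
    · rw [affine_comb s (by ring), h.so, h.sb, hs]; ring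
    · rw [affine_comb t (by ring), h.to', h.tb]; ring
  rw [e]; exact comb_mem_segment ht ht1

/-- **Lemma Q**: an edge whose end points are outside `Ω = {s, t ≥ 0, s + t < m}` and which does not
meet the two legs of `Ω` does not meet `Ω`. -/
theorem lemmaQ {s t : (ℝ × ℝ) →ᵃ[ℝ] ℝ} {m : ℝ} {c d : ℝ × ℝ}
    (hc : ¬ (0 ≤ s c ∧ 0 ≤ t c ∧ s c + t c < m)) (hd : ¬ (0 ≤ s d ∧ 0 ≤ t d ∧ s d + t d < m))
    (hleg : ∀ y ∈ segment ℝ c d, 0 ≤ s y → 0 ≤ t y → s y + t y < m → s y ≠ 0 ∧ t y ≠ 0) :
    ∀ x ∈ segment ℝ c d, ¬ (0 ≤ s x ∧ 0 ≤ t x ∧ s x + t x < m) := by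
  rintro x hx ⟨hs, ht, hm⟩
  obtain ⟨hs0, ht0⟩ := hleg x hx hs ht hm
  have hs' : 0 < s x := lt_of_le_of_ne hs (Ne.symm hs0)
  have ht' : 0 < t x := lt_of_le_of_ne ht (Ne.symm ht0)
  have key : ∀ z ∈ segment ℝ c d, ¬ (0 ≤ s z ∧ 0 ≤ t z ∧ s z + t z < m) → m ≤ s z + t z := by
    intro z hz hnz
    by_contra hlt
    push Not at hlt
    have hneg : min (s z) (t z) < 0 := by
      by_contra hge
      push Not at hge
      exact hnz ⟨hge.trans (min_le_left _ _), hge.trans (min_le_right _ _), hlt⟩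
    let γ : ℝ → ℝ × ℝ := fun τ => (1 - τ) • x + τ • z
    have hγ : Continuous γ := by fun_prop
    have hf : Continuous fun τ => min (s (γ τ)) (t (γ τ)) :=
      (s.continuous_of_finiteDimensional.comp hγ).min (t.continuous_of_finiteDimensional.comp hγ)
    have h01 : (0 : ℝ) ∈ Icc (min (s (γ 1)) (t (γ 1))) (min (s (γ 0)) (t (γ 0))) := by
      constructor
      · simpa [γ] using (lt_min_iff.not.1 (not_lt.2 hneg.le) |> fun _ => hneg.le)
      · simp only [γ]
        simp only [sub_zero, one_smul, zero_smul, add_zero]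
        exact le_min hs ht
    obtain ⟨τ, hτ, hτ0⟩ := intermediate_value_Icc' (zero_le_one (α := ℝ)) hf.continuousOn h01
    have hy : γ τ ∈ segment ℝ c d :=
      (convex_segment c d) hx hz (by linarith [hτ.2]) hτ.1 (by ring)
    have hsum : s (γ τ) + t (γ τ) = (1 - τ) * (s x + t x) + τ * (s z + t z) := by
      simp only [γ]
      rw [affine_comb s (by ring), affine_comb t (by ring)]; ring
    have hlt' : s (γ τ) + t (γ τ) < m := by
      rw [hsum]
      rcases hτ.1.eq_or_lt with h0 | h0
      · rw [← h0]; linarith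
      · nlinarith [hτ.2]
    have h1 : 0 ≤ s (γ τ) := by rw [← hτ0]; exact min_le_left _ _
    have h2 : 0 ≤ t (γ τ) := by rw [← hτ0]; exact min_le_right _ _
    obtain ⟨h3, h4⟩ := hleg _ hy h1 h2 hlt'
    rcases min_choice (s (γ τ)) (t (γ τ)) with h | h
    · exact h3 (h.symm.trans hτ0)
    · exact h4 (h.symm.trans hτ0)
  have h1 := key c (left_mem_segment ℝ c d) hc
  have h2 := key d (right_mem_segment ℝ c d) hd
  obtain ⟨τ, hτ0, hτ1, rfl⟩ := mem_segment_comb hx
  have hsum : s ((1 - τ) • c + τ • d) + t ((1 - τ) • c + τ • d) =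
      (1 - τ) * (s c + t c) + τ * (s d + t d) := by
    rw [affine_comb s (by ring), affine_comb t (by ring)]; ring
  rw [hsum] at hm
  nlinarith

/-- an extreme vertex is a genuine corner -/
theorem Poly.corner {n : ℕ} {v : ℤ → ℝ × ℝ} (h : Poly n v)
    (hmin : ∀ j, toLex (v 0) ≤ toLex (v j)) : dt (v 1 - v 0) (v (-1) - v 0) ≠ 0 := by
  intro hdt
  have h3 := h.three
  have hlex : ∀ j : ℤ, ¬ (n : ℤ) ∣ j → (v 0).1 < (v j).1 ∨ ((v 0).1 = (v j).1 ∧ (v 0).2 < (v j).2) := by
    intro j hj
    have h1 := hmin j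
    rw [Prod.Lex.toLex_le_toLex] at h1
    rcases h1 with h1 | ⟨h1, h2⟩
    · exact Or.inl h1
    · rcases h2.lt_or_eq with h2 | h2
      · exact Or.inr ⟨h1, h2⟩
      · exfalso
        have : v 0 = v j := Prod.ext h1 h2
        have := h.inj _ _ this
        rw [zero_sub] at this
        exact hj ((dvd_neg).1 this)
  have hn1 : ¬ (n : ℤ) ∣ 1 := fun hd => by
    have := dvd_small hd (by omega) (by omega); omega
  have hn2 : ¬ (n : ℤ) ∣ -1 := fun hd => by
    have := dvd_small hd (by omega) (by omega); omega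
  have ha := hlex 1 hn1
  have hb := hlex (-1) hn2
  -- the two neighbours are on the same ray
  set o := v 0
  set a := v 1
  set b := v (-1)
  have hdt' : (a.1 - o.1) * (b.2 - o.2) = (a.2 - o.2) * (b.1 - o.1) := by
    have : (a.1 - o.1) * (b.2 - o.2) - (a.2 - o.2) * (b.1 - o.1) = 0 := by simpa [dt] using hdt
    linarith
  -- find `c > 0` with `b - o = c (a - o)`
  have hc : ∃ c : ℝ, 0 < c ∧ b = (1 - c) • o + c • a := by
    rcases ha with ha | ⟨ha, ha2⟩
    · have hpos : 0 < a.1 - o.1 := by linarith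
      refine ⟨(b.1 - o.1) / (a.1 - o.1), ?_, ?_⟩
      · rcases hb with hb | ⟨hb, hb2⟩
        · apply div_pos <;> linarith
        · exfalso
          rw [← hb, sub_self, mul_zero] at hdt'
          rcases mul_eq_zero.1 hdt' with h' | h' <;> linarith
      · ext
        · simp only [Prod.fst_add, Prod.smul_fst, smul_eq_mul]; field_simp; ring
        · simp only [Prod.snd_add, Prod.smul_snd, smul_eq_mul]; field_simp
          linear_combination hdt'
    · have hpos : 0 < a.2 - o.2 := by linarith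
      have hb1 : b.1 - o.1 = 0 := by
        rw [← ha, sub_self, zero_mul] at hdt'
        exact (mul_eq_zero.1 hdt'.symm).resolve_left hpos.ne'
      rcases hb with hb | ⟨hb, hb2⟩
      · linarith
      refine ⟨(b.2 - o.2) / (a.2 - o.2), by apply div_pos <;> linarith, ?_⟩
      ext
      · simp only [Prod.fst_add, Prod.smul_fst, smul_eq_mul]; rw [← ha]; linarith
      · simp only [Prod.snd_add, Prod.smul_snd, smul_eq_mul]; field_simp; ring
  obtain ⟨c, hc0, hc⟩ := hc
  rcases le_total c 1 with h1 | h1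
  · have hm : b ∈ edge v 0 := by
      show b ∈ segment ℝ o (v (0 + 1))
      rw [zero_add, hc]; exact comb_mem_segment hc0.le h1
    rcases h.vertex_mem_edge hm with h' | h'
    · have := dvd_small h' (by omega) (by omega); omega
    · have := dvd_small h' (by omega) (by omega); omega
  · have hm : a ∈ edge v (-1) := by
      show a ∈ segment ℝ b (v (-1 + 1))
      rw [neg_add_cancel, segment_symm]
      have e : a = (1 - 1 / c) • o + (1 / c) • b := by
        rw [hc]
        match_scalars <;> field_simp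
        ring
      have hmem := comb_mem_segment (x := o) (y := b) (τ := 1 / c) (by positivity)
        (by rw [div_le_one hc0]; exact h1)
      rw [← e] at hmem
      exact hmem
    rcases h.vertex_mem_edge hm with h' | h'
    · have := dvd_small h' (by omega) (by omega); omega
    · have := dvd_small h' (by omega) (by omega); omega

/-- the corner form of the diagonal lemma -/
theorem Poly.diag_aux {n : ℕ} {v : ℤ → ℝ × ℝ} (h : Poly n v) (h4 : 4 ≤ n)
    (hcorner : dt (v 1 - v 0) (v (-1) - v 0) ≠ 0) :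
    ∃ c : ℤ, ∃ k : ℕ, 2 ≤ k ∧ k + 2 ≤ n ∧
      ∀ x ∈ segment ℝ (v (c + k)) (v c), x ∈ polySet v → x = v c ∨ x = v (c + k) := by
  obtain ⟨s, t, hst⟩ := exists_coord hcorner
  have hso := hst.so
  have hto := hst.to'
  have hsa := hst.sa
  have hta := hst.ta
  have hsb := hst.sb
  have htb := hst.tb
  have he0 : edge v 0 = segment ℝ (v 0) (v 1) := by
    show segment ℝ (v 0) (v (0 + 1)) = _; rw [zero_add]
  have he1 : edge v (-1) = segment ℝ (v 0) (v (-1)) := by
    show segment ℝ (v (-1)) (v (-1 + 1)) = _; rw [neg_add_cancel, segment_symm]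
  -- the legs are met only in `a`, `b`
  have hleg : ∀ i : ℤ, 1 ≤ i → i ≤ n - 2 → ∀ m : ℝ, m ≤ 1 → ∀ y ∈ segment ℝ (v i) (v (i + 1)),
      0 ≤ s y → 0 ≤ t y → s y + t y < m → s y ≠ 0 ∧ t y ≠ 0 := by
    intro i hi1 hi2 m hm y hy hsy hty hlt
    constructor
    · intro h0
      have hm' : y ∈ edge v (-1) := by
        rw [he1]; exact hst.mem_right hty (by linarith) h0
      obtain ⟨h5, h6⟩ := h.simple (-1) i (fun hd => by
        have := dvd_small hd (by omega) (by omega); omega) y hm' hy
      rw [neg_add_cancel] at h5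
      rcases h5 with h5 | h5
      · rw [h5, htb] at hlt; linarith
      · rcases h6 with h6 | h6
        · have := dvd_small (h.inj _ _ (h5.symm.trans h6)) (by omega) (by omega); omega
        · have := dvd_small (h.inj _ _ (h5.symm.trans h6)) (by omega) (by omega); omega
    · intro h0
      have hm' : y ∈ edge v 0 := by
        rw [he0]; exact hst.mem_left hsy (by linarith) h0
      obtain ⟨h5, h6⟩ := h.simple 0 i (fun hd => by
        have := dvd_small hd (by omega) (by omega); omega) y hm' hy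
      rw [zero_add] at h5
      rcases h5 with h5 | h5
      · rcases h6 with h6 | h6
        · have := dvd_small (h.inj _ _ (h5.symm.trans h6)) (by omega) (by omega); omega
        · have := dvd_small (h.inj _ _ (h5.symm.trans h6)) (by omega) (by omega); omega
      · rw [h5, hsa] at hlt; linarith
  -- candidates
  let cand : Finset ℤ := (Finset.Icc (2 : ℤ) (n - 2)).filter
    (fun j => 0 ≤ s (v j) ∧ 0 ≤ t (v j) ∧ s (v j) + t (v j) ≤ 1)
  -- a vertex of index in `[1, n-1]` in the triangle is `a`, `b` or a candidate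
  have hcand : ∀ i : ℤ, 1 ≤ i → i ≤ n - 1 → 0 ≤ s (v i) → 0 ≤ t (v i) → s (v i) + t (v i) ≤ 1 →
      i = 1 ∨ i = n - 1 ∨ i ∈ cand := by
    intro i h1 h2 h3 h5 h6
    by_cases hi1 : i = 1
    · exact Or.inl hi1
    by_cases hi2 : i = n - 1
    · exact Or.inr (Or.inl hi2)
    · right; right
      exact Finset.mem_filter.2 ⟨Finset.mem_Icc.2 ⟨by omega, by omega⟩, h3, h5, h6⟩
  have hvn : v ((n : ℤ) - 1) = v (-1) := h.eq_of_dvd ⟨1, by ring⟩
  by_cases hne : cand.Nonempty
  · -- Case B
    obtain ⟨j, hj, hjmin⟩ := Finset.exists_min_image cand (fun j => s (v j) + t (v j)) hne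
    obtain ⟨hj1, hjs, hjt, hj2⟩ := Finset.mem_filter.1 hj
    rw [Finset.mem_Icc] at hj1
    obtain ⟨k, rfl⟩ : ∃ k : ℕ, j = k := ⟨j.toNat, by omega⟩
    have hsw : s (v k) ≠ 0 := by
      intro h0
      have hm' : v k ∈ edge v (-1) := by
        rw [he1]; exact hst.mem_right hjt (by linarith) h0
      rcases h.vertex_mem_edge hm' with h' | h'
      · have := dvd_small (z := (k : ℤ) + 1 - n) (by
          have := h'.sub (dvd_refl (n : ℤ)); rw [sub_neg_eq_add] at this; exact this)
          (by omega) (by omega)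
        omega
      · have := dvd_small (z := (k : ℤ)) (by simpa using h') (by omega) (by omega)
        omega
    have htw : t (v k) ≠ 0 := by
      intro h0
      have hm' : v k ∈ edge v 0 := by
        rw [he0]; exact hst.mem_left hjs (by linarith) h0
      rcases h.vertex_mem_edge hm' with h' | h'
      · have := dvd_small (z := (k : ℤ)) (by simpa using h') (by omega) (by omega)
        omega
      · have := dvd_small h' (by omega) (by omega)
        omega
    have hsw' : 0 < s (v k) := lt_of_le_of_ne hjs (Ne.symm hsw)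
    have htw' : 0 < t (v k) := lt_of_le_of_ne hjt (Ne.symm htw)
    set m := s (v k) + t (v k) with hm
    have hout : ∀ i : ℤ, 1 ≤ i → i ≤ n - 1 →
        ¬ (0 ≤ s (v i) ∧ 0 ≤ t (v i) ∧ s (v i) + t (v i) < m) := by
      rintro i h1 h2 ⟨h3, h5, h6⟩
      rcases hcand i h1 h2 h3 h5 (by linarith) with rfl | rfl | hi
      · rw [hsa, hta] at h6; linarith
      · rw [hvn, hsb, htb] at h6; linarith
      · have := hjmin i hi; linarith
    refine ⟨0, k, by omega, by omega, ?_⟩
    rw [zero_add]
    intro x hx hxp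
    rw [segment_symm] at hx
    obtain ⟨τ, hτ0, hτ1, rfl⟩ := mem_segment_comb hx
    have hsx : s ((1 - τ) • v 0 + τ • v k) = τ * s (v k) := by
      rw [affine_comb s (by ring), hso]; ring
    have htx : t ((1 - τ) • v 0 + τ • v k) = τ * t (v k) := by
      rw [affine_comb t (by ring), hto]; ring
    rcases hτ0.eq_or_lt with h0 | h0
    · left; rw [← h0]; simp
    rcases hτ1.eq_or_lt with h1 | h1
    · right; rw [h1]; simp
    exfalso
    rw [h.polySet_eq (-1), mem_arcSet] at hxp
    obtain ⟨i, hi1, hi2, hi3⟩ := hxp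
    have hi : i = -1 ∨ i = 0 ∨ (1 ≤ i ∧ i ≤ n - 2) := by omega
    rcases hi with rfl | rfl | ⟨hi4, hi5⟩
    · rw [he1] at hi3
      obtain ⟨σ, _, _, e⟩ := mem_segment_comb hi3
      have := congrArg s e
      rw [hsx, affine_comb s (by ring), hso, hsb] at this
      have : τ * s (v k) = 0 := by rw [this]; ring
      have := mul_pos h0 hsw'; linarith
    · rw [he0] at hi3
      obtain ⟨σ, _, _, e⟩ := mem_segment_comb hi3
      have := congrArg t e
      rw [htx, affine_comb t (by ring), hto, hta] at this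
      have : τ * t (v k) = 0 := by rw [this]; ring
      have := mul_pos h0 htw'; linarith
    · refine lemmaQ (hout i hi4 (by omega)) (hout (i + 1) (by omega) (by omega))
        (hleg i hi4 hi5 m hj2) _ hi3 ⟨?_, ?_, ?_⟩
      · rw [hsx]; positivity
      · rw [htx]; positivity
      · rw [hsx, htx]; nlinarith
  · -- Case A
    have hcand' : ∀ i : ℤ, 1 ≤ i → i ≤ n - 1 → 0 ≤ s (v i) → 0 ≤ t (v i) →
        s (v i) + t (v i) ≤ 1 → i = 1 ∨ i = n - 1 := by
      intro i h1 h2 h3 h5 h6
      rcases hcand i h1 h2 h3 h5 h6 with h' | h' | h'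
      · exact Or.inl h'
      · exact Or.inr h'
      · exact absurd ⟨i, h'⟩ hne
    have hout : ∀ i : ℤ, 1 ≤ i → i ≤ n - 1 →
        ¬ (0 ≤ s (v i) ∧ 0 ≤ t (v i) ∧ s (v i) + t (v i) < 1) := by
      rintro i h1 h2 ⟨h3, h5, h6⟩
      rcases hcand' i h1 h2 h3 h5 h6.le with rfl | rfl
      · rw [hsa, hta] at h6; linarith
      · rw [hvn, hsb, htb] at h6; linarith
    obtain ⟨k, hk⟩ : ∃ k : ℕ, n = k + 2 := ⟨n - 2, by omega⟩
    have hv' : v (1 + (k : ℤ)) = v (-1) := by
      refine h.eq_of_dvd ⟨1, ?_⟩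
      rw [hk]; push_cast; ring
    refine ⟨1, k, by omega, by omega, ?_⟩
    rw [hv']
    intro x hx hxp
    rw [segment_symm] at hx
    obtain ⟨τ, hτ0, hτ1, rfl⟩ := mem_segment_comb hx
    set x := (1 - τ) • v 1 + τ • v (-1) with hxdef
    have hsx : s x = 1 - τ := by
      rw [hxdef, affine_comb s (by ring), hsa, hsb]; ring
    have htx : t x = τ := by
      rw [hxdef, affine_comb t (by ring), hta, htb]; ring
    rcases hτ0.eq_or_lt with h0 | h0
    · left; rw [hxdef, ← h0]; simp
    rcases hτ1.eq_or_lt with h1 | h1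
    · right; rw [hxdef, h1]; simp
    exfalso
    rw [h.polySet_eq (-1), mem_arcSet] at hxp
    obtain ⟨i, hi1, hi2, hi3⟩ := hxp
    have hi : i = -1 ∨ i = 0 ∨ (1 ≤ i ∧ i ≤ n - 2) := by omega
    rcases hi with rfl | rfl | ⟨hi4, hi5⟩
    · rw [he1] at hi3
      obtain ⟨σ, _, _, e⟩ := mem_segment_comb hi3
      have := congrArg s e
      rw [hsx, affine_comb s (by ring), hso, hsb] at this
      have : 1 - τ = 0 := by rw [this]; ring
      linarith
    · rw [he0] at hi3
      obtain ⟨σ, _, _, e⟩ := mem_segment_comb hi3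
      have := congrArg t e
      rw [htx, affine_comb t (by ring), hto, hta] at this
      have : τ = 0 := by rw [this]; ring
      linarith
    · have hQ := lemmaQ (hout i hi4 (by omega)) (hout (i + 1) (by omega) (by omega))
        (hleg i hi4 hi5 1 le_rfl)
      set c := v i with hc
      set d := v (i + 1) with hd
      -- both end points are beyond the line `a b`
      have hge : ∀ z ∈ segment ℝ c d, 1 ≤ s z + t z := by
        intro z hz
        by_contra hlt
        push Not at hlt
        -- move a little from `x` to `z`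
        have hcont : Continuous fun δ : ℝ => min (s ((1 - δ) • x + δ • z)) (t ((1 - δ) • x + δ • z)) := by
          have hγ : Continuous fun δ : ℝ => (1 - δ) • x + δ • z := by fun_prop
          exact (s.continuous_of_finiteDimensional.comp hγ).min
            (t.continuous_of_finiteDimensional.comp hγ)
        have hpos0 : 0 < min (s ((1 - (0:ℝ)) • x + (0:ℝ) • z)) (t ((1 - (0:ℝ)) • x + (0:ℝ) • z)) := by
          simp only [sub_zero, one_smul, zero_smul, add_zero, hsx, htx]
          exact lt_min (by linarith) h0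
        have := (hcont.tendsto 0).eventually (lt_mem_nhds hpos0)
        obtain ⟨ε, hε, hball⟩ := Metric.eventually_nhds_iff.1 this
        set δ := min (ε / 2) 1 with hδ
        have hδ0 : 0 < δ := lt_min (by linarith) one_pos
        have hδ1 : δ ≤ 1 := min_le_right _ _
        have hδε : dist δ 0 < ε := by
          rw [Real.dist_eq, sub_zero, abs_of_pos hδ0]
          exact lt_of_le_of_lt (min_le_left _ _) (by linarith)
        have h7 := hball hδε
        have h8 := lt_min_iff.1 h7
        refine hQ ((1 - δ) • x + δ • z) ?_ ⟨h8.1.le, h8.2.le, ?_⟩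
        · exact (convex_segment c d) hi3 hz (by linarith) hδ0.le (by ring)
        · rw [affine_comb s (by ring), affine_comb t (by ring), hsx, htx]
          nlinarith
      have hgc := hge c (left_mem_segment ℝ c d)
      have hgd := hge d (right_mem_segment ℝ c d)
      obtain ⟨σ, hσ0, hσ1, hσ⟩ := mem_segment_comb hi3
      have e1 : s x = (1 - σ) * s c + σ * s d := by rw [hσ, affine_comb s (by ring)]
      have e2 : t x = (1 - σ) * t c + σ * t d := by rw [hσ, affine_comb t (by ring)]
      -- `x` is not a vertex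
      have hxc : ∀ z : ℤ, 1 ≤ z → z ≤ n - 1 → x ≠ v z := by
        intro z hz1 hz2 hz
        have h9 := hcand' z hz1 hz2 (by rw [← hz, hsx]; linarith) (by rw [← hz, htx]; linarith)
          (by rw [← hz, hsx, htx]; linarith)
        rcases h9 with rfl | rfl
        · have := congrArg t hz; rw [htx, hta] at this; linarith
        · have := congrArg s hz; rw [hsx, hvn, hsb] at this; linarith
      have hσ0' : 0 < σ := by
        rcases hσ0.eq_or_lt with h' | h'
        · exfalso; rw [← h'] at hσ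
          exact hxc i hi4 (by omega) (by rw [hσ, ← hc]; simp)
        · exact h'
      have hσ1' : σ < 1 := by
        rcases hσ1.eq_or_lt with h' | h'
        · exfalso; rw [h'] at hσ
          exact hxc (i + 1) (by omega) (by omega) (by rw [hσ, ← hd]; simp)
        · exact h'
      have hlc : s c + t c = 1 := by nlinarith
      have hld : s d + t d = 1 := by nlinarith
      -- position on the line `ab`
      have hpos : ∀ z : ℤ, 1 ≤ z → z ≤ n - 1 → s (v z) + t (v z) = 1 →
          s (v z) ≤ 0 ∨ 1 ≤ s (v z) := by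
        intro z hz1 hz2 hz
        by_contra hcon
        push Not at hcon
        rcases hcand' z hz1 hz2 hcon.1.le (by linarith [hcon.2]) hz.le with rfl | rfl
        · linarith [hcon.2]
        · rw [hvn, hsb] at hcon; linarith [hcon.1]
      have hmem : ∀ y, s y + t y = 1 → (s c ≤ s y ∧ s y ≤ s d ∨ s d ≤ s y ∧ s y ≤ s c) →
          s c ≠ s d → y ∈ segment ℝ c d := by
        intro y hy hbet hne'
        have hden : s d - s c ≠ 0 := sub_ne_zero.2 (Ne.symm hne')
        have e : y = (1 - (s y - s c) / (s d - s c)) • c + ((s y - s c) / (s d - s c)) • d := by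
          apply hst.inj
          · rw [affine_comb s (by ring)]; field_simp; ring
          · rw [affine_comb t (by ring)]
            have h1' : t y = 1 - s y := by linarith
            have h2' : t c = 1 - s c := by linarith
            have h3' : t d = 1 - s d := by linarith
            rw [h1', h2', h3']; field_simp; ring
        have hr : 0 ≤ (s y - s c) / (s d - s c) ∧ (s y - s c) / (s d - s c) ≤ 1 := by
          rcases hbet with ⟨h5, h6⟩ | ⟨h5, h6⟩
          · have hp : 0 < s d - s c := lt_of_le_of_ne (by linarith) (Ne.symm hden)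
            exact ⟨div_nonneg (by linarith) hp.le, by rw [div_le_one hp]; linarith⟩
          · have hp : s d - s c < 0 := lt_of_le_of_ne (by linarith) hden
            exact ⟨div_nonneg_of_nonpos (by linarith) hp.le, by
              rw [div_le_one_of_neg hp]; linarith⟩
        rw [e]; exact comb_mem_segment hr.1 hr.2
      have hsc := hpos i hi4 (by omega) hlc
      have hsd := hpos (i + 1) (by omega) (by omega) hld
      rw [← hc] at hsc
      rw [← hd] at hsd
      have hsx0 : 0 < s x := by rw [hsx]; linarith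
      have hsx1 : s x < 1 := by rw [hsx]; linarith
      have hab : v 1 ∈ edge v i ∧ v (-1) ∈ edge v i := by
        rcases hsc with hsc | hsc <;> rcases hsd with hsd | hsd
        · exfalso; nlinarith
        · exact ⟨hmem _ (by rw [hsa, hta]; ring) (Or.inl ⟨by rw [hsa]; linarith, by rw [hsa]; exact hsd⟩)
            (by intro h'; linarith),
            hmem _ (by rw [hsb, htb]; ring) (Or.inl ⟨by rw [hsb]; exact hsc, by rw [hsb]; linarith⟩)
            (by intro h'; linarith)⟩
        · exact ⟨hmem _ (by rw [hsa, hta]; ring) (Or.inr ⟨by rw [hsa]; linarith, by rw [hsa]; exact hsc⟩)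
            (by intro h'; linarith),
            hmem _ (by rw [hsb, htb]; ring) (Or.inr ⟨by rw [hsb]; exact hsd, by rw [hsb]; linarith⟩)
            (by intro h'; linarith)⟩
        · exfalso; nlinarith
      have hi1' : i = 1 := by
        rcases h.vertex_mem_edge hab.1 with h' | h'
        · have := dvd_small h' (by omega) (by omega); omega
        · have := dvd_small h' (by omega) (by omega); omega
      rcases h.vertex_mem_edge hab.2 with h' | h'
      · have := dvd_small h' (by omega) (by omega); omega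
      · have := dvd_small h' (by omega) (by omega); omega

/-- **diagonal lemma**: a closed simple polygon with at least 4 vertices has a diagonal -/
theorem Poly.exists_diag {n : ℕ} {v : ℤ → ℝ × ℝ} (h : Poly n v) (h4 : 4 ≤ n) :
    ∃ c : ℤ, ∃ k : ℕ, 2 ≤ k ∧ k + 2 ≤ n ∧
      ∀ x ∈ segment ℝ (v (c + k)) (v c), x ∈ polySet v → x = v c ∨ x = v (c + k) := by
  obtain ⟨i₀, _, hi₀⟩ := Finset.exists_min_image (Finset.Ico (0:ℤ) n) (fun i => toLex (v i))
    ⟨0, by simp; omega⟩
  have hmin : ∀ j, toLex (v i₀) ≤ toLex (v j) := by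
    intro j
    obtain ⟨j', h1, h2, h3⟩ := h.exists_rep 0 j
    rw [h.eq_of_dvd h3]
    exact hi₀ j' (Finset.mem_Ico.2 ⟨h1, by simpa using h2⟩)
  have hs := h.shift i₀
  obtain ⟨c, k, h1, h2, h3⟩ := hs.diag_aux h4 (hs.corner (by
    intro j
    simp only [zero_add]
    exact hmin _))
  refine ⟨c + i₀, k, h1, h2, ?_⟩
  rw [polySet_shift] at h3
  intro x hx hxp
  have := h3 x (by
    have e : c + (k : ℤ) + i₀ = c + i₀ + k := by ring
    simp only [e]; exact hx) hxp
  have e : c + (k : ℤ) + i₀ = c + i₀ + k := by ring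
  simp only [e] at this
  exact this

end Crest.Agent.R096.Pl
end

-- ▼ part R096/PlSch_296

/-!
# The PL Schoenflies theorem in the plane, polygon form (helper296, row 96, P2-Y)
-/

namespace Crest.Agent.R096.Pl

open Set Metric Topology

set_option linter.unusedSectionVars false

theorem Kp_real : Kp ℝ = segment ℝ ((-1 : ℝ), (0 : ℝ)) (0, 1) ∪ segment ℝ ((0 : ℝ), (1 : ℝ)) (1, 0) := by
  ext p
  constructor
  · rintro ⟨h1, h2⟩
    have h2' : |p.1| + |p.2| = 1 := h2
    rw [abs_of_nonneg h1] at h2'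
    rcases le_total p.1 0 with h | h
    · left
      rw [abs_of_nonpos h] at h2'
      have e : p = (1 - p.2) • ((-1 : ℝ), (0 : ℝ)) + p.2 • ((0 : ℝ), (1 : ℝ)) := by
        ext
        · simp; linarith
        · simp
      rw [e]; exact comb_mem_segment h1 (by linarith)
    · right
      rw [abs_of_nonneg h] at h2'
      have e : p = (1 - p.1) • ((0 : ℝ), (1 : ℝ)) + p.1 • ((1 : ℝ), (0 : ℝ)) := by
        ext
        · simp
        · simp; linarith
      rw [e]; exact comb_mem_segment h (by linarith)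
  · rintro (h | h)
    · obtain ⟨τ, h1, h2, rfl⟩ := mem_segment_comb h
      refine ⟨by simpa using h1, ?_⟩
      show |((1 - τ) • ((-1 : ℝ), (0 : ℝ)) + τ • ((0 : ℝ), (1 : ℝ))).1| +
        |((1 - τ) • ((-1 : ℝ), (0 : ℝ)) + τ • ((0 : ℝ), (1 : ℝ))).2| = 1
      simp only [Prod.fst_add, Prod.snd_add, Prod.smul_fst, Prod.smul_snd, smul_eq_mul]
      rw [abs_of_nonpos (by linarith), abs_of_nonneg (by linarith)]; ring
    · obtain ⟨τ, h1, h2, rfl⟩ := mem_segment_comb h
      refine ⟨by simpa using h2, ?_⟩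
      show |((1 - τ) • ((0 : ℝ), (1 : ℝ)) + τ • ((1 : ℝ), (0 : ℝ))).1| +
        |((1 - τ) • ((0 : ℝ), (1 : ℝ)) + τ • ((1 : ℝ), (0 : ℝ))).2| = 1
      simp only [Prod.fst_add, Prod.snd_add, Prod.smul_fst, Prod.smul_snd, smul_eq_mul]
      rw [abs_of_nonneg (by linarith), abs_of_nonneg (by linarith)]; ring

theorem flat_real : (fun x : ℝ => (x, (0 : ℝ))) '' closedBall (0 : ℝ) 1 =
    segment ℝ ((-1 : ℝ), (0 : ℝ)) (1, 0) := by
  ext p
  constructor
  · rintro ⟨x, hx, rfl⟩
    rw [Real.closedBall_eq_Icc, mem_Icc] at hx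
    have e : (x, (0:ℝ)) = (1 - (x + 1) / 2) • ((-1 : ℝ), (0 : ℝ)) + ((x + 1) / 2) • ((1 : ℝ), (0 : ℝ)) := by
      ext
      · simp; ring
      · simp
    show (x, (0:ℝ)) ∈ _
    rw [e]; exact comb_mem_segment (by linarith [hx.1]) (by linarith [hx.2])
  · intro h
    obtain ⟨τ, h1, h2, rfl⟩ := mem_segment_comb h
    refine ⟨2 * τ - 1, ?_, ?_⟩
    · rw [Real.closedBall_eq_Icc, mem_Icc]; constructor <;> linarith
    · ext
      · simp; ring
      · simp

/-- the standard triangle is standard -/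
theorem stdC_tri : StdC (segment ℝ ((-1 : ℝ), (0 : ℝ)) (0, 1) ∪
    segment ℝ ((0 : ℝ), (1 : ℝ)) (1, 0) ∪ segment ℝ ((-1 : ℝ), (0 : ℝ)) (1, 0)) := by
  obtain ⟨H, hH, h1, h2, -⟩ := exists_halfPush polyNorm_real
  refine ⟨H.symm, hH.symm, ?_⟩
  rw [← Kp_real, ← flat_real]
  have e : H '' (Kp ℝ ∪ (fun x : ℝ => (x, (0 : ℝ))) '' closedBall (0 : ℝ) 1) = S1 ℝ := by
    rw [image_union, ← Kp_union_Km]
    congr 1
    · conv_rhs => rw [← image_id (Kp ℝ)]
      exact image_congr fun p hp => h1 p hp
    · rw [← em_image, ← image_comp]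
      refine image_congr fun x hx => ?_
      exact h2 x (by simpa using hx)
  rw [← e, symm_image_image']

/-- triangles are standard -/
theorem stdC_triangle {o a b : ℝ × ℝ} (h : dt (a - o) (b - o) ≠ 0) :
    StdC (segment ℝ o a ∪ segment ℝ a b ∪ segment ℝ o b) := by
  obtain ⟨s, t, hst⟩ := exists_coord h
  let fst' : (ℝ × ℝ) →ᵃ[ℝ] ℝ := (LinearMap.fst ℝ ℝ ℝ).toAffineMap
  let snd' : (ℝ × ℝ) →ᵃ[ℝ] ℝ := (LinearMap.snd ℝ ℝ ℝ).toAffineMap
  let A : (ℝ × ℝ) →ᵃ[ℝ] (ℝ × ℝ) :=
    ((LinearMap.toSpanSingleton ℝ (ℝ × ℝ) ((1/2 : ℝ) • (b - o))).toAffineMap.comp fst' +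
      (LinearMap.toSpanSingleton ℝ (ℝ × ℝ) (a - (1/2 : ℝ) • (o + b))).toAffineMap.comp snd') +
      AffineMap.const ℝ _ ((1/2 : ℝ) • (o + b))
  have hA : ∀ p, A p = p.1 • ((1/2 : ℝ) • (b - o)) + p.2 • (a - (1/2 : ℝ) • (o + b)) +
      (1/2 : ℝ) • (o + b) := fun p => by
    simp [A, fst', snd']
  let B : (ℝ × ℝ) →ᵃ[ℝ] (ℝ × ℝ) :=
    ((2 : ℝ) • t + s - AffineMap.const ℝ _ 1).prod s
  have hB : ∀ p, B p = (2 * t p + s p - 1, s p) := fun p => by simp [B]
  have hA' : ∀ p, A p = ((1 - p.1 - p.2) / 2) • o + (p.2 • a + ((1 + p.1 - p.2) / 2) • b) := fun p => by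
    rw [hA]; module
  have haff : ∀ (f : (ℝ × ℝ) →ᵃ[ℝ] ℝ) (α β γ : ℝ), α + β + γ = 1 →
      f (α • o + (β • a + γ • b)) = α * f o + (β * f a + γ * f b) := by
    intro f α β γ hsum
    have hl : ∀ x : ℝ × ℝ, f x = f.linear x + f 0 := fun x => by
      have := congrFun (AffineMap.decomp f) x; simpa using this
    rw [hl (α • o + (β • a + γ • b)), hl o, hl a, hl b]
    simp only [map_add, map_smul, smul_eq_mul]
    linear_combination (-(f 0)) * hsum
  have hsA : ∀ p, s (A p) = p.2 := fun p => by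
    rw [hA', haff s _ _ _ (by ring), hst.so, hst.sa, hst.sb]; ring
  have htA : ∀ p, t (A p) = (1 + p.1 - p.2) / 2 := fun p => by
    rw [hA', haff t _ _ _ (by ring), hst.to', hst.ta, hst.tb]; ring
  have hBA : ∀ p, B (A p) = p := fun p => by
    rw [hB, hsA, htA]; ext
    · simp only; ring
    · rfl
  have hAB : ∀ p, A (B p) = p := fun p => by
    apply hst.inj
    · rw [hsA, hB]
    · rw [htA, hB]; simp only; ring
  let H : (ℝ × ℝ) ≃ₜ (ℝ × ℝ) := mkH A B (PLMap.of_affine A) (PLMap.of_affine B) hBA hAB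
  have hH : PLH H := PLH_mkH _ _ _ _ _ _
  have := stdC_tri.map hH
  have e0 : A (-1, 0) = o := by rw [hA']; norm_num
  have e1 : A (0, 1) = a := by rw [hA']; norm_num
  have e2 : A (1, 0) = b := by rw [hA']; norm_num
  have himg : ∀ x y : ℝ × ℝ, H '' segment ℝ x y = segment ℝ (A x) (A y) := fun x y =>
    image_segment ℝ A x y
  rw [image_union, image_union, himg, himg, himg, e0, e1, e2] at this
  exact this

/-- **PL Schoenflies theorem for closed simple polygons in the plane** -/
theorem Poly.stdC : ∀ (n : ℕ) (v : ℤ → ℝ × ℝ), Poly n v → StdC (polySet v) := by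
  intro n
  induction n using Nat.strong_induction_on with
  | _ n ih =>
    intro v h
    rcases h.three.eq_or_lt with h3 | h4
    · -- triangles
      obtain ⟨i₀, _, hi₀⟩ := Finset.exists_min_image (Finset.Ico (0:ℤ) n) (fun i => toLex (v i))
        ⟨0, by simp; omega⟩
      have hmin : ∀ j, toLex (v i₀) ≤ toLex (v j) := by
        intro j
        obtain ⟨j', h1, h2, h3⟩ := h.exists_rep 0 j
        rw [h.eq_of_dvd h3]
        exact hi₀ j' (Finset.mem_Ico.2 ⟨h1, by simpa using h2⟩)
      have hs := h.shift i₀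
      have hc := hs.corner (by
        intro j
        simp only [zero_add]
        exact hmin _)
      rw [← polySet_shift v i₀]
      set w : ℤ → ℝ × ℝ := fun i => v (i + i₀) with hw
      have hset : polySet w = segment ℝ (w 0) (w 1) ∪ segment ℝ (w 1) (w (-1)) ∪
          segment ℝ (w 0) (w (-1)) := by
        rw [hs.polySet_eq (-1)]
        have hw2 : w 2 = w (-1) := hs.eq_of_dvd ⟨1, by rw [← h3]; norm_num⟩
        ext x
        rw [mem_arcSet]
        constructor
        · rintro ⟨i, h1, h2, h5⟩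
          have : i = -1 ∨ i = 0 ∨ i = 1 := by omega
          rcases this with rfl | rfl | rfl
          · right
            have : x ∈ segment ℝ (w (-1)) (w (-1 + 1)) := h5
            rwa [neg_add_cancel, segment_symm] at this
          · left; left
            have : x ∈ segment ℝ (w 0) (w (0 + 1)) := h5
            rwa [zero_add] at this
          · left; right
            have : x ∈ segment ℝ (w 1) (w (1 + 1)) := h5
            rwa [show (1:ℤ) + 1 = 2 by norm_num, hw2] at this
        · rintro ((h5 | h5) | h5)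
          · refine ⟨0, by omega, by omega, ?_⟩
            show x ∈ segment ℝ (w 0) (w (0 + 1))
            rwa [zero_add]
          · refine ⟨1, by omega, by omega, ?_⟩
            show x ∈ segment ℝ (w 1) (w (1 + 1))
            rwa [show (1:ℤ) + 1 = 2 by norm_num, hw2]
          · refine ⟨-1, by omega, by omega, ?_⟩
            show x ∈ segment ℝ (w (-1)) (w (-1 + 1))
            rwa [neg_add_cancel, segment_symm]
      rw [hset]
      exact stdC_triangle hc
    · -- cut along a diagonal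
      obtain ⟨c, k, hk, hkn, hD⟩ := h.exists_diag h4
      rw [← polySet_shift v c]
      rw [← polySet_shift v c] at hD
      have hs := h.shift c
      set w : ℤ → ℝ × ℝ := fun i => v (i + c) with hw
      have hw0 : v c = w 0 := by simp [hw]
      have hwk : v (c + k) = w k := by simp only [hw]; rw [add_comm]
      rw [hw0, hwk] at hD
      set D := segment ℝ (w k) (w 0) with hDdef
      have hn0 : w n = w 0 := hs.eq_of_dvd ⟨1, by ring⟩
      obtain ⟨hp1, hset1⟩ := hs.sub hk hkn (fun x hx hxp => hD x hx hxp)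
      -- the other side
      obtain ⟨l, hl⟩ : ∃ l : ℕ, n = k + l := ⟨n - k, by omega⟩
      have hs2 := hs.shift k
      have hwl : w ((l : ℤ) + k) = w 0 := by
        rw [← hn0]; congr 1; rw [hl]; push_cast; ring
      have hwl0 : w (0 + (k : ℤ)) = w k := by
        rw [zero_add]
      obtain ⟨hp2, hset2⟩ := hs2.sub (k := l) (by omega) (by omega) (by
        rw [hwl, hwl0, polySet_shift w]
        intro x hx hxp
        rw [segment_symm] at hx
        exact (hD x hx hxp).symm)
      rw [hwl, hwl0, arcSet_shift, segment_symm] at hset2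
      have hlk : (0 : ℤ) + k = k := zero_add _
      have hlk2 : (l : ℤ) + k = n := by rw [hl]; push_cast; ring
      rw [hlk, hlk2] at hset2
      have hne : w 0 ≠ w k := by
        intro h'
        have := dvd_small (hs.inj _ _ h') (by omega) (by omega)
        omega
      have hpoly : arcSet w 0 k ∪ arcSet w k n = polySet w := by
        rw [arcSet_union (by omega) (by omega), hs.polySet_eq 0, zero_add]
      have hint : arcSet w 0 k ∩ arcSet w k n = {w 0, w k} := hs.arc_inter (by omega) (by omega)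
      have hm0 : w 0 ∈ arcSet w 0 k ∩ arcSet w k n := by rw [hint]; simp
      have hmk : w k ∈ arcSet w 0 k ∩ arcSet w k n := by rw [hint]; simp
      have hE1D : arcSet w 0 k ∩ D = {w 0, w k} := by
        apply Subset.antisymm
        · rintro x ⟨hx, hxD⟩
          exact hD x hxD (by rw [← hpoly]; exact Or.inl hx)
        · rintro x (rfl | rfl)
          · exact ⟨hm0.1, right_mem_segment ℝ _ _⟩
          · exact ⟨hmk.1, left_mem_segment ℝ _ _⟩
      have hE2D : arcSet w k n ∩ D = {w 0, w k} := by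
        apply Subset.antisymm
        · rintro x ⟨hx, hxD⟩
          exact hD x hxD (by rw [← hpoly]; exact Or.inr hx)
        · rintro x (rfl | rfl)
          · exact ⟨hm0.2, right_mem_segment ℝ _ _⟩
          · exact ⟨hmk.2, left_mem_segment ℝ _ _⟩
      have hc1 : IsPreconnected (arcSet w 0 k \ {w 0, w k}) :=
        hs.isPreconnected_arc (by omega) (by omega)
      have hc2 : IsPreconnected (arcSet w k n \ {w 0, w k}) := by
        have := hs.isPreconnected_arc (a := k) (b := n) (by omega) (by omega)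
        rwa [hn0, pair_comm] at this
      have hcD : IsPreconnected (D \ {w 0, w k}) := by
        refine isPreconnected_segment_diff hne.symm ?_
        rintro z (rfl | rfl) _
        · exact Or.inr rfl
        · exact Or.inl rfl
      have hstd1 : StdS (arcSet w 0 k) D :=
        (ih (k + 1) (by omega) _ hp1).pair_real hne (by rw [hset1]) hE1D hc1 hcD
      have hstd2 : StdS (arcSet w k n) D :=
        (ih (l + 1) (by omega) _ hp2).pair_real hne (by rw [hset2]) hE2D hc2 hcD
      have := (hstd1.cut polyNorm_real hstd2 (by rw [hint, hE1D]) (by rw [hE2D, hE1D])).stdC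
      rwa [hpoly] at this

end Crest.Agent.R096.Pl
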