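import Mathlib
import Crest.Agent.R096.Cb3_609
import Crest.Agent.R096.PlSch_296
import Crest.Agent.R096.Srg2_465
import Crest.Agent.R096.Sk2a_855
import Crest.Agent.R096.Srg5_465

-- ▼ part R096/Lvl1_816
section

/-!
# Level curves of a piecewise affine function on a plane convex polygon, part 1 (helper816, row 96)

Line arrangements: cells, crossing cells, start and end edges.
-/

set_option autoImplicit false
set_option linter.unusedSectionVars false

open Set Filter Topology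

namespace Crest.Agent.R096.Lvl_816

/-- affine functionals of the plane -/
structure Fn where
  a : ℝ
  b : ℝ
  c : ℝ

namespace Fn

/-- value -/
def ev (f : Fn) (x : ℝ × ℝ) : ℝ := f.a * x.1 + f.b * x.2 + f.c

/-- linear part -/
def ln (f : Fn) (v : ℝ × ℝ) : ℝ := f.a * v.1 + f.b * v.2

/-- direction of the level lines -/
def dir (f : Fn) : ℝ × ℝ := (f.b, - f.a)

/-- cross product -/
def cr (f g : Fn) : ℝ := f.a * g.b - f.b * g.a

theorem ev_add (f : Fn) (x v : ℝ × ℝ) (s : ℝ) : f.ev (x + s • v) = f.ev x + s * f.ln v := by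
  simp only [ev, ln, Prod.fst_add, Prod.snd_add, Prod.smul_fst, Prod.smul_snd, smul_eq_mul]; ring

theorem ln_dir (f g : Fn) : f.ln g.dir = f.cr g := by simp only [ln, dir, cr]; ring

theorem ln_self (f : Fn) : f.ln f.dir = 0 := by simp only [ln, dir]; ring

theorem cr_swap (f g : Fn) : f.cr g = - g.cr f := by simp only [cr]; ring

theorem ln_neg (f : Fn) (v : ℝ × ℝ) : f.ln (-v) = - f.ln v := by
  simp only [ln, Prod.fst_neg, Prod.snd_neg]; ring

theorem ev_sub (f : Fn) (x y : ℝ × ℝ) : f.ev x - f.ev y = f.ln (x - y) := by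
  simp only [ev, ln, Prod.fst_sub, Prod.snd_sub]; ring

theorem continuous_ev (f : Fn) : Continuous f.ev := by unfold ev; fun_prop


theorem ev_comb (f : Fn) (x y : ℝ × ℝ) {p q : ℝ} (h : p + q = 1) :
    f.ev (p • x + q • y) = p * f.ev x + q * f.ev y := by
  have hq : q = 1 - p := by linarith
  subst hq
  simp only [ev, Prod.fst_add, Prod.snd_add, Prod.smul_fst, Prod.smul_snd, smul_eq_mul]
  ring

theorem sq_pos {f : Fn} (h : f.dir ≠ 0) : 0 < f.a ^ 2 + f.b ^ 2 := by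
  by_contra hn
  have h1 : f.a = 0 := by nlinarith [sq_nonneg f.a, sq_nonneg f.b]
  have h2 : f.b = 0 := by nlinarith [sq_nonneg f.a, sq_nonneg f.b]
  exact h (by simp [dir, h1, h2])

theorem exists_smul {f : Fn} (h : f.dir ≠ 0) {v : ℝ × ℝ} (hv : f.ln v = 0) :
    ∃ s : ℝ, v = s • f.dir := by
  have hp := sq_pos h
  simp only [ln] at hv
  refine ⟨(f.b * v.1 - f.a * v.2) / (f.a ^ 2 + f.b ^ 2), ?_⟩
  have hne := hp.ne'
  ext
  · simp only [dir, Prod.smul_fst, smul_eq_mul]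
    field_simp
    linear_combination f.a * hv
  · simp only [dir, Prod.smul_snd, smul_eq_mul]
    field_simp
    linear_combination f.b * hv

/-- two points on the same level line -/
theorem exists_level {f : Fn} (h : f.dir ≠ 0) {x y : ℝ × ℝ} (hxy : f.ev x = f.ev y) :
    ∃ s : ℝ, x = y + s • f.dir := by
  obtain ⟨s, hs⟩ := exists_smul h (v := x - y) (by rw [← ev_sub, hxy, sub_self])
  exact ⟨s, by rw [← hs]; abel⟩

end Fn

/-- sign of a boolean -/
def sg (b : Bool) : ℝ := if b then 1 else -1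

theorem sg_true : sg true = 1 := rfl
theorem sg_false : sg false = -1 := rfl
theorem sg_not (b : Bool) : sg (!b) = - sg b := by cases b <;> simp [sg]
theorem sg_ne (b : Bool) : sg b ≠ 0 := by cases b <;> simp [sg]
theorem sg_mul_self (b : Bool) : sg b * sg b = 1 := by cases b <;> simp [sg]

/-- a line arrangement adapted to the polygon `Q` and the function `u` -/
structure Arr (m : Type) (Q : Set (ℝ × ℝ)) (u : ℝ × ℝ → ℝ) where
  l : m → Fn
  bd : m → Prop
  g : (m → Bool) → Fn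
  nz : ∀ j, (l j).dir ≠ 0
  dis : ∀ j k, j ≠ k → ∀ x y, (l j).ev x = 0 → (l k).ev x = 0 → (l j).ev y = 0 →
    (l k).ev y = 0 → x = y
  hQ : ∀ x, x ∈ Q ↔ ∀ j, bd j → 0 ≤ (l j).ev x
  hg : ∀ σ, (∀ j, bd j → σ j = true) → (∃ x, ∀ j, 0 < sg (σ j) * (l j).ev x) →
    ∀ x, (∀ j, 0 ≤ sg (σ j) * (l j).ev x) → u x = (g σ).ev x

namespace Arr

variable {m : Type} {Q : Set (ℝ × ℝ)} {u : ℝ × ℝ → ℝ} (A : Arr m Q u)

/-- open cells -/
def oc (σ : m → Bool) : Set (ℝ × ℝ) := {x | ∀ j, 0 < sg (σ j) * (A.l j).ev x}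

/-- closed cells -/
def cc (σ : m → Bool) : Set (ℝ × ℝ) := {x | ∀ j, 0 ≤ sg (σ j) * (A.l j).ev x}

/-- nonempty cells of `Q` -/
def Cell (σ : m → Bool) : Prop := (∀ j, A.bd j → σ j = true) ∧ (A.oc σ).Nonempty

theorem oc_sub_cc (σ : m → Bool) : A.oc σ ⊆ A.cc σ := fun _ h j => (h j).le

variable {A}

theorem Cell.cc_sub {σ : m → Bool} (h : A.Cell σ) : A.cc σ ⊆ Q := by
  intro x hx
  rw [A.hQ]
  intro j hj
  have := hx j
  rw [h.1 j hj, sg_true, one_mul] at this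
  exact this

theorem Cell.u_eq {σ : m → Bool} (h : A.Cell σ) {x : ℝ × ℝ} (hx : x ∈ A.cc σ) :
    u x = (A.g σ).ev x := A.hg σ h.1 h.2 x hx

variable (A)

/-- the bad values -/
def Bad : Set ℝ :=
  {t | (∃ x ∈ Q, ∃ j k, j ≠ k ∧ (A.l j).ev x = 0 ∧ (A.l k).ev x = 0 ∧ u x = t) ∨
    (∃ σ, (A.g σ).dir = 0 ∧ (A.g σ).c = t) ∨
    (∃ σ j, (A.l j).cr (A.g σ) = 0 ∧ ∃ x, (A.l j).ev x = 0 ∧ (A.g σ).ev x = t)}

theorem finite_bad [Finite m] : A.Bad.Finite := by
  have e : A.Bad ⊆ (⋃ p : m × m, {t | ∃ x, p.1 ≠ p.2 ∧ (A.l p.1).ev x = 0 ∧ (A.l p.2).ev x = 0 ∧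
      u x = t}) ∪ ((⋃ σ : m → Bool, {(A.g σ).c}) ∪
      ⋃ p : (m → Bool) × m, {t | (A.l p.2).cr (A.g p.1) = 0 ∧
        ∃ x, (A.l p.2).ev x = 0 ∧ (A.g p.1).ev x = t}) := by
    rintro t (⟨x, -, j, k, hjk, h1, h2, h3⟩ | ⟨σ, -, h⟩ | ⟨σ, j, h1, h2⟩)
    · exact Or.inl (mem_iUnion.2 ⟨(j, k), x, hjk, h1, h2, h3⟩)
    · exact Or.inr (Or.inl (mem_iUnion.2 ⟨σ, h.symm⟩))
    · exact Or.inr (Or.inr (mem_iUnion.2 ⟨(σ, j), h1, h2⟩))
  refine Set.Finite.subset ?_ e
  refine (finite_iUnion fun p => ?_).union ((finite_iUnion fun σ => finite_singleton _).union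
    (finite_iUnion fun p => ?_))
  · refine Set.Subsingleton.finite ?_
    rintro t ⟨x, h0, h1, h2, h3⟩ t' ⟨x', h0', h1', h2', h3'⟩
    rw [← h3, ← h3', A.dis p.1 p.2 h0 x x' h1 h2 h1' h2']
  · refine Set.Subsingleton.finite ?_
    rintro t ⟨h0, x, h1, h2⟩ t' ⟨h0', x', h1', h2'⟩
    obtain ⟨s, hs⟩ := Fn.exists_level (A.nz p.2) (h1.trans h1'.symm)
    rw [← h2, ← h2', hs, Fn.ev_add, Fn.ln_dir, Fn.cr_swap, h0]; ring

variable {A}

theorem reg_one {t : ℝ} (ht : t ∉ A.Bad) {x : ℝ × ℝ} (hx : x ∈ Q) (hu : u x = t) {j k : m}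
    (hj : (A.l j).ev x = 0) (hk : (A.l k).ev x = 0) : j = k := by
  by_contra hjk
  exact ht (Or.inl ⟨x, hx, j, k, hjk, hj, hk, hu⟩)

theorem reg_dir {t : ℝ} (ht : t ∉ A.Bad) {σ : m → Bool} {x : ℝ × ℝ}
    (hx : (A.g σ).ev x = t) : (A.g σ).dir ≠ 0 := by
  intro h
  refine ht (Or.inr (Or.inl ⟨σ, h, ?_⟩))
  simp only [Fn.dir, Prod.mk_eq_zero, neg_eq_zero] at h
  rw [← hx]; simp [Fn.ev, h.1, h.2]

theorem reg_cr {t : ℝ} (ht : t ∉ A.Bad) {σ : m → Bool} {x : ℝ × ℝ} {j : m}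
    (hj : (A.l j).ev x = 0) (hx : (A.g σ).ev x = t) : (A.l j).cr (A.g σ) ≠ 0 :=
  fun h => ht (Or.inr (Or.inr ⟨σ, j, h, x, hj, hx⟩))

/-- strict inequalities persist along a line -/
theorem eventually_pos [Finite m] {σ : m → Bool} {x : ℝ × ℝ} (v : ℝ × ℝ) {S : Set m}
    (h : ∀ k ∈ S, 0 < sg (σ k) * (A.l k).ev x) :
    ∀ᶠ s : ℝ in 𝓝 0, ∀ k ∈ S, 0 < sg (σ k) * (A.l k).ev (x + s • v) := by
  have : ∀ k ∈ S, ∀ᶠ s : ℝ in 𝓝 0, 0 < sg (σ k) * (A.l k).ev (x + s • v) := by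
    intro k hk
    have hc : Continuous fun s : ℝ => sg (σ k) * (A.l k).ev (x + s • v) := by
      have := (A.l k).continuous_ev; fun_prop
    have h0 : 0 < sg (σ k) * (A.l k).ev (x + (0 : ℝ) • v) := by simpa using h k hk
    exact hc.continuousAt.eventually (lt_mem_nhds h0)
  have h2 : ∀ k, ∀ᶠ s : ℝ in 𝓝 0, k ∈ S → 0 < sg (σ k) * (A.l k).ev (x + s • v) := by
    intro k
    by_cases hk : k ∈ S
    · exact (this k hk).mono fun s hs _ => hs
    · exact Eventually.of_forall fun s h => absurd h hk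
  exact (eventually_all.2 h2).mono fun s hs k hk => hs k hk

theorem pos_of_ne {σ : m → Bool} {x : ℝ × ℝ} (hx : x ∈ A.cc σ) {k : m}
    (hk : (A.l k).ev x ≠ 0) : 0 < sg (σ k) * (A.l k).ev x :=
  lt_of_le_of_ne (hx k) (Ne.symm (mul_ne_zero (sg_ne _) hk))

/-- entering the cell -/
theorem enter [Finite m] {σ : m → Bool} {x : ℝ × ℝ} {j : m} (hx : x ∈ A.cc σ)
    (hj : ∀ k, k ≠ j → (A.l k).ev x ≠ 0) {v : ℝ × ℝ} (hv : 0 < sg (σ j) * (A.l j).ln v) :
    ∀ᶠ s : ℝ in 𝓝[>] 0, x + s • v ∈ A.oc σ := by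
  have h1 := eventually_pos (A := A) (σ := σ) (x := x) v (S := {k | k ≠ j})
    (fun k hk => pos_of_ne hx (hj k hk))
  filter_upwards [nhdsWithin_le_nhds h1, self_mem_nhdsWithin] with s hs hs0 k
  by_cases hk : k = j
  · subst hk
    rw [Fn.ev_add, mul_add]
    have h2 : 0 < s := hs0
    have h3 := hx k
    have h4 : 0 < sg (σ k) * (s * (A.l k).ln v) := by nlinarith [mul_pos h2 hv]
    linarith
  · exact hs k hk

/-- crossing cells -/
def Cr (A : Arr m Q u) (σ : m → Bool) (t : ℝ) : Prop :=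
  A.Cell σ ∧ ∃ x ∈ A.oc σ, (A.g σ).ev x = t

/-- crossing edges -/
def X (A : Arr m Q u) (σ : m → Bool) (j : m) (t : ℝ) : Prop :=
  A.Cell σ ∧ ∃ x ∈ A.cc σ, (A.l j).ev x = 0 ∧ (A.g σ).ev x = t

theorem X.cr [Finite m] {σ : m → Bool} {j : m} {t : ℝ} (h : A.X σ j t) (ht : t ∉ A.Bad) :
    A.Cr σ t := by
  obtain ⟨hc, x, hx, hj, hg⟩ := h
  refine ⟨hc, ?_⟩
  have h1 := reg_cr ht hj hg
  have huniq : ∀ k, k ≠ j → (A.l k).ev x ≠ 0 := fun k hk h0 =>
    hk (reg_one ht (hc.cc_sub hx) ((hc.u_eq hx).trans hg) h0 hj)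
  -- choose the sign of the direction
  obtain ⟨v, hv, hv0⟩ : ∃ v : ℝ × ℝ, 0 < sg (σ j) * (A.l j).ln v ∧ (A.g σ).ln v = 0 := by
    rcases lt_or_gt_of_ne (mul_ne_zero (sg_ne (σ j)) h1) with h | h
    · refine ⟨- (A.g σ).dir, ?_, by rw [Fn.ln_neg, Fn.ln_self, neg_zero]⟩
      rw [Fn.ln_neg, Fn.ln_dir]; linarith
    · exact ⟨(A.g σ).dir, by rw [Fn.ln_dir]; exact h, Fn.ln_self _⟩
  obtain ⟨s, hs⟩ := (enter hx huniq hv).exists
  exact ⟨_, hs, by rw [Fn.ev_add, hv0, hg]; ring⟩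

/-- leaving the cell backwards along `w` -/
theorem exit [Finite m] (hQ : Bornology.IsBounded Q) {σ : m → Bool} (hc : A.Cell σ)
    {x : ℝ × ℝ} (hx : x ∈ A.oc σ) {w : ℝ × ℝ} (hw : w ≠ 0) :
    ∃ r : ℝ, 0 < r ∧ ∃ j, 0 < sg (σ j) * (A.l j).ln w ∧ x - r • w ∈ A.cc σ ∧
      (A.l j).ev (x - r • w) = 0 := by
  classical
  have := Fintype.ofFinite m
  let S : Finset m := Finset.univ.filter fun j => 0 < sg (σ j) * (A.l j).ln w
  have hev : ∀ (j : m) (s : ℝ), sg (σ j) * (A.l j).ev (x - s • w) =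
      sg (σ j) * (A.l j).ev x - s * (sg (σ j) * (A.l j).ln w) := by
    intro j s
    have : x - s • w = x + (-s) • w := by rw [neg_smul]; abel
    rw [this, Fn.ev_add]; ring
  have hS : S.Nonempty := by
    by_contra hS
    rw [Finset.not_nonempty_iff_eq_empty] at hS
    have h1 : ∀ s : ℝ, 0 ≤ s → x - s • w ∈ Q := by
      intro s hs
      refine hc.cc_sub fun j => ?_
      rw [hev]
      have h2 : ¬ 0 < sg (σ j) * (A.l j).ln w := fun h => by
        have : j ∈ S := Finset.mem_filter.2 ⟨Finset.mem_univ _, h⟩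
        rw [hS] at this; simp at this
      have h3 := hx j
      nlinarith [mul_nonneg hs (sub_nonneg.2 (not_lt.1 h2))]
    obtain ⟨R, hR⟩ := hQ.subset_closedBall 0
    have hwn : 0 < ‖w‖ := norm_pos_iff.2 hw
    have h4 := hR (h1 ((|R| + ‖x‖ + 1) / ‖w‖) (by positivity))
    rw [mem_closedBall_zero_iff] at h4
    have h5 : ‖((|R| + ‖x‖ + 1) / ‖w‖) • w‖ = |R| + ‖x‖ + 1 := by
      rw [norm_smul, Real.norm_of_nonneg (by positivity)]; field_simp
    have h6 := norm_sub_norm_le (((|R| + ‖x‖ + 1) / ‖w‖) • w) x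
    rw [norm_sub_rev] at h6
    linarith [le_abs_self R]
  obtain ⟨j, hjS, hj⟩ := Finset.exists_min_image S
    (fun j => (sg (σ j) * (A.l j).ev x) / (sg (σ j) * (A.l j).ln w)) hS
  have hjp : 0 < sg (σ j) * (A.l j).ln w := (Finset.mem_filter.1 hjS).2
  set r := (sg (σ j) * (A.l j).ev x) / (sg (σ j) * (A.l j).ln w) with hr
  have hr0 : 0 < r := div_pos (hx j) hjp
  refine ⟨r, hr0, j, hjp, fun k => ?_, ?_⟩
  · rw [hev]
    by_cases hk : 0 < sg (σ k) * (A.l k).ln w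
    · have h1 := hj k (Finset.mem_filter.2 ⟨Finset.mem_univ _, hk⟩)
      rw [le_div_iff₀ hk] at h1
      linarith
    · have h3 := hx k
      nlinarith [mul_nonneg hr0.le (sub_nonneg.2 (not_lt.1 hk))]
  · have h1 := hev j r
    have h2 : r * (sg (σ j) * (A.l j).ln w) = sg (σ j) * (A.l j).ev x := by
      rw [hr]; exact div_mul_cancel₀ _ hjp.ne'
    rw [h2, sub_self] at h1
    rcases mul_eq_zero.1 h1 with h | h
    · exact absurd h (sg_ne _)
    · exact h

/-- start edges -/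
def Sta (A : Arr m Q u) (σ : m → Bool) (j : m) : Prop := 0 < sg (σ j) * (A.l j).cr (A.g σ)

/-- end edges -/
def End (A : Arr m Q u) (σ : m → Bool) (j : m) : Prop := sg (σ j) * (A.l j).cr (A.g σ) < 0

theorem Cr.exists_start [Finite m] (hQ : Bornology.IsBounded Q) {σ : m → Bool} {t : ℝ}
    (h : A.Cr σ t) (ht : t ∉ A.Bad) : ∃ j, A.Sta σ j ∧ A.X σ j t := by
  obtain ⟨hc, x, hx, hg⟩ := h
  obtain ⟨r, hr, j, h1, h2, h3⟩ := exit hQ hc hx (reg_dir ht hg)
  refine ⟨j, by rw [Fn.ln_dir] at h1; exact h1, hc, _, h2, h3, ?_⟩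
  have : x - r • (A.g σ).dir = x + (-r) • (A.g σ).dir := by rw [neg_smul]; abel
  rw [this, Fn.ev_add, Fn.ln_self, hg]; ring

theorem Cr.exists_end [Finite m] (hQ : Bornology.IsBounded Q) {σ : m → Bool} {t : ℝ}
    (h : A.Cr σ t) (ht : t ∉ A.Bad) : ∃ j, A.End σ j ∧ A.X σ j t := by
  obtain ⟨hc, x, hx, hg⟩ := h
  obtain ⟨r, hr, j, h1, h2, h3⟩ := exit hQ hc hx (neg_ne_zero.2 (reg_dir ht hg))
  refine ⟨j, by rw [Fn.ln_neg, Fn.ln_dir] at h1; unfold End; linarith, hc, _, h2, h3, ?_⟩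
  have : x - r • -(A.g σ).dir = x + r • (A.g σ).dir := by rw [smul_neg]; abel
  rw [this, Fn.ev_add, Fn.ln_self, hg]; ring

theorem start_unique {σ : m → Bool} {t : ℝ} (ht : t ∉ A.Bad) {j k : m} {x y : ℝ × ℝ}
    (hj : A.Sta σ j) (hk : A.Sta σ k) (hx : x ∈ A.cc σ) (hy : y ∈ A.cc σ)
    (hxj : (A.l j).ev x = 0) (hyk : (A.l k).ev y = 0) (hgx : (A.g σ).ev x = t)
    (hgy : (A.g σ).ev y = t) : x = y := by
  obtain ⟨s, hs⟩ := Fn.exists_level (reg_dir ht hgx) (hgx.trans hgy.symm)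
  rcases lt_trichotomy s 0 with h | h | h
  · -- y = x - s w
    exfalso
    have h1 : (A.l k).ev x = s * (A.l k).cr (A.g σ) := by
      rw [hs, Fn.ev_add, hyk, Fn.ln_dir]; ring
    have h2 := hx k
    rw [h1] at h2
    have h3 : sg (σ k) * (s * (A.l k).cr (A.g σ)) = s * (sg (σ k) * (A.l k).cr (A.g σ)) := by ring
    rw [h3] at h2
    exact absurd h2 (not_le.2 (mul_neg_of_neg_of_pos h hk))
  · rw [hs, h, zero_smul, add_zero]
  · exfalso
    have h1 : 0 = (A.l j).ev y + s * (A.l j).cr (A.g σ) := by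
      rw [← hxj, hs, Fn.ev_add, Fn.ln_dir]
    have h2 := hy j
    have h3 : (A.l j).ev y = - (s * (A.l j).cr (A.g σ)) := by linarith
    rw [h3] at h2
    have h4 : sg (σ j) * -(s * (A.l j).cr (A.g σ)) = - (s * (sg (σ j) * (A.l j).cr (A.g σ))) := by
      ring
    rw [h4] at h2
    linarith [mul_pos h hj]

theorem end_unique {σ : m → Bool} {t : ℝ} (ht : t ∉ A.Bad) {j k : m} {x y : ℝ × ℝ}
    (hj : A.End σ j) (hk : A.End σ k) (hx : x ∈ A.cc σ) (hy : y ∈ A.cc σ)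
    (hxj : (A.l j).ev x = 0) (hyk : (A.l k).ev y = 0) (hgx : (A.g σ).ev x = t)
    (hgy : (A.g σ).ev y = t) : x = y := by
  unfold End at hj hk
  obtain ⟨s, hs⟩ := Fn.exists_level (reg_dir ht hgx) (hgx.trans hgy.symm)
  rcases lt_trichotomy s 0 with h | h | h
  · exfalso
    have h1 : 0 = (A.l j).ev y + s * (A.l j).cr (A.g σ) := by
      rw [← hxj, hs, Fn.ev_add, Fn.ln_dir]
    have h2 := hy j
    have h3 : (A.l j).ev y = - (s * (A.l j).cr (A.g σ)) := by linarith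
    rw [h3] at h2
    have h4 : sg (σ j) * -(s * (A.l j).cr (A.g σ)) = - (s * (sg (σ j) * (A.l j).cr (A.g σ))) := by
      ring
    rw [h4] at h2
    linarith [mul_pos_of_neg_of_neg h hj]
  · rw [hs, h, zero_smul, add_zero]
  · exfalso
    have h1 : (A.l k).ev x = s * (A.l k).cr (A.g σ) := by
      rw [hs, Fn.ev_add, hyk, Fn.ln_dir]; ring
    have h2 := hx k
    rw [h1] at h2
    have h3 : sg (σ k) * (s * (A.l k).cr (A.g σ)) = s * (sg (σ k) * (A.l k).cr (A.g σ)) := by ring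
    rw [h3] at h2
    exact absurd h2 (not_le.2 (mul_neg_of_pos_of_neg h hk))

end Arr

end Crest.Agent.R096.Lvl_816
end

-- ▼ part R096/Lvl2_816
section

/-!
# Level curves of a piecewise affine function on a plane convex polygon, part 2 (helper816, row 96)

Constancy of the combinatorics between bad values, flips, points on edges.
-/

set_option autoImplicit false
set_option linter.unusedSectionVars false

open Set Filter Topology

namespace Crest.Agent.R096.Lvl_816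

namespace Arr

variable {m : Type} {Q : Set (ℝ × ℝ)} {u : ℝ × ℝ → ℝ} {A : Arr m Q u}

theorem isClosed_cc (σ : m → Bool) : IsClosed (A.cc σ) := by
  have : A.cc σ = ⋂ j, {x | 0 ≤ sg (σ j) * (A.l j).ev x} := by ext x; simp [cc]
  rw [this]
  refine isClosed_iInter fun j => isClosed_le continuous_const ?_
  have := (A.l j).continuous_ev
  fun_prop

theorem convex_cc (σ : m → Bool) : Convex ℝ (A.cc σ) := by
  intro x hx y hy p q hp hq hpq j
  rw [Fn.ev_comb _ _ _ hpq]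
  have h1 := hx j
  have h2 := hy j
  have : sg (σ j) * (p * (A.l j).ev x + q * (A.l j).ev y) =
      p * (sg (σ j) * (A.l j).ev x) + q * (sg (σ j) * (A.l j).ev y) := by ring
  rw [this]
  positivity

theorem isOpen_oc [Finite m] (σ : m → Bool) : IsOpen (A.oc σ) := by
  have : A.oc σ = ⋂ j, {x | 0 < sg (σ j) * (A.l j).ev x} := by ext x; simp [oc]
  rw [this]
  refine isOpen_iInter_of_finite fun j => isOpen_lt continuous_const ?_
  have := (A.l j).continuous_ev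
  fun_prop

theorem Cell.oc_sub [Finite m] {σ : m → Bool} (h : A.Cell σ) : A.oc σ ⊆ interior Q :=
  interior_maximal ((oc_sub_cc A σ).trans h.cc_sub) (isOpen_oc σ)

theorem others_ne {t : ℝ} (ht : t ∉ A.Bad) {σ : m → Bool} (hc : A.Cell σ) {x : ℝ × ℝ} {j : m}
    (hx : x ∈ A.cc σ) (hj : (A.l j).ev x = 0) (hg : (A.g σ).ev x = t) :
    ∀ k, k ≠ j → (A.l k).ev x ≠ 0 :=
  fun _ hk h0 => hk (reg_one ht (hc.cc_sub hx) ((hc.u_eq hx).trans hg) h0 hj)

/-- moving along an edge -/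
theorem along [Finite m] {t : ℝ} (ht : t ∉ A.Bad) {σ : m → Bool} (hc : A.Cell σ) {x : ℝ × ℝ}
    {j : m} (hx : x ∈ A.cc σ) (hj : (A.l j).ev x = 0) (hg : (A.g σ).ev x = t) :
    ∀ᶠ s : ℝ in 𝓝 0, x + s • (A.l j).dir ∈ A.cc σ := by
  have h1 := eventually_pos (A := A) (σ := σ) (x := x) (A.l j).dir (S := {k | k ≠ j})
    (fun k hk => pos_of_ne hx (others_ne ht hc hx hj hg k hk))
  filter_upwards [h1] with s hs k
  by_cases hk : k = j
  · subst hk
    rw [Fn.ev_add, Fn.ln_self, hj]; simp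
  · exact (hs k hk).le

theorem X.nhds [Finite m] {σ : m → Bool} {j : m} {t : ℝ} (h : A.X σ j t) (ht : t ∉ A.Bad) :
    ∀ᶠ t' in 𝓝 t, A.X σ j t' := by
  obtain ⟨hc, x, hx, hj, hg⟩ := h
  have h1 := along ht hc hx hj hg
  have h2 := reg_cr ht hj hg
  have h3 : (A.g σ).ln (A.l j).dir ≠ 0 := by
    rw [Fn.ln_dir, Fn.cr_swap]; exact neg_ne_zero.2 h2
  have h4 : Tendsto (fun t' : ℝ => (t' - t) / (A.g σ).ln (A.l j).dir) (𝓝 t) (𝓝 0) := by
    have : Continuous fun t' : ℝ => (t' - t) / (A.g σ).ln (A.l j).dir := by fun_prop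
    simpa using this.tendsto t
  filter_upwards [h4.eventually h1] with t' h5
  refine ⟨hc, _, h5, by rw [Fn.ev_add, Fn.ln_self, hj]; simp, ?_⟩
  rw [Fn.ev_add, hg, div_mul_cancel₀ _ h3]; ring

theorem isClosed_X (hQ : IsCompact Q) (σ : m → Bool) (j : m) : IsClosed {t | A.X σ j t} := by
  by_cases hc : A.Cell σ
  · have : {t | A.X σ j t} = (A.g σ).ev '' (A.cc σ ∩ {x | (A.l j).ev x = 0}) := by
      ext t
      constructor
      · rintro ⟨-, x, hx, hj, hg⟩
        exact ⟨x, ⟨hx, hj⟩, hg⟩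
      · rintro ⟨x, ⟨hx, hj⟩, hg⟩
        exact ⟨hc, x, hx, hj, hg⟩
    rw [this]
    have h1 : IsCompact (A.cc σ ∩ {x | (A.l j).ev x = 0}) :=
      (hQ.of_isClosed_subset (isClosed_cc σ) hc.cc_sub).inter_right
        (isClosed_eq (A.l j).continuous_ev continuous_const)
    exact (h1.image (A.g σ).continuous_ev).isClosed
  · have : {t | A.X σ j t} = ∅ := by
      ext t; simp only [mem_ofPred_eq, mem_empty_iff_false, iff_false]; exact fun h => hc h.1
    rw [this]; exact isClosed_empty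

/-- the combinatorics does not change between bad values -/
theorem X.const [Finite m] (hQ : IsCompact Q) {J : Set ℝ} (hJ : IsPreconnected J)
    (hB : Disjoint J A.Bad) {σ : m → Bool} {j : m} {t t' : ℝ} (ht : t ∈ J) (ht' : t' ∈ J)
    (h : A.X σ j t) : A.X σ j t' := by
  have h1 : J ⊆ interior {t | A.X σ j t} ∪ {t | A.X σ j t}ᶜ := by
    intro s hs
    by_cases h2 : A.X σ j s
    · left
      rw [mem_interior_iff_mem_nhds]
      exact h2.nhds (fun hb => hB.le_bot ⟨hs, hb⟩)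
    · right; exact h2
  rcases hJ.subset_or_subset isOpen_interior (isClosed_X hQ σ j).isOpen_compl
    (disjoint_left.2 fun s hs hs' => hs' (interior_subset hs)) h1 with h2 | h2
  · have h3 : t' ∈ {t | A.X σ j t} := interior_subset (h2 ht')
    exact h3
  · exact absurd h (h2 ht)

theorem Cr.const [Finite m] (hQ : IsCompact Q) {J : Set ℝ} (hJ : IsPreconnected J)
    (hB : Disjoint J A.Bad) {σ : m → Bool} {t t' : ℝ} (ht : t ∈ J) (ht' : t' ∈ J)
    (h : A.Cr σ t) : A.Cr σ t' := by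
  obtain ⟨j, -, hj⟩ := h.exists_start hQ.isBounded (fun hb => hB.le_bot ⟨ht, hb⟩)
  exact (hj.const hQ hJ hB ht ht').cr (fun hb => hB.le_bot ⟨ht', hb⟩)

/-- the point with value `t` on the line `j`, from the point `p` with value `t₀` -/
noncomputable def pt (A : Arr m Q u) (σ : m → Bool) (j : m) (p : ℝ × ℝ) (t₀ t : ℝ) : ℝ × ℝ :=
  p + ((t - t₀) / (A.g σ).ln (A.l j).dir) • (A.l j).dir

theorem continuous_pt (σ : m → Bool) (j : m) (p : ℝ × ℝ) (t₀ : ℝ) :
    Continuous (A.pt σ j p t₀) := by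
  unfold pt; fun_prop

theorem pt_eq {σ : m → Bool} {j : m} {p x : ℝ × ℝ} {t₀ t : ℝ} (hp : (A.l j).ev p = 0)
    (hpg : (A.g σ).ev p = t₀) (hx : (A.l j).ev x = 0) (hxg : (A.g σ).ev x = t)
    (hcr : (A.l j).cr (A.g σ) ≠ 0) : A.pt σ j p t₀ t = x := by
  obtain ⟨s, hs⟩ := Fn.exists_level (A.nz j) (hx.trans hp.symm)
  have h3 : (A.g σ).ln (A.l j).dir ≠ 0 := by
    rw [Fn.ln_dir, Fn.cr_swap]; exact neg_ne_zero.2 hcr
  have h4 : t = t₀ + s * (A.g σ).ln (A.l j).dir := by rw [← hxg, hs, Fn.ev_add, hpg]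
  have h5 : (t - t₀) / (A.g σ).ln (A.l j).dir = s := by
    rw [h4]; field_simp; ring
  rw [pt, h5, hs]

/-- crossing an edge -/
noncomputable def fl (σ : m → Bool) (j : m) : m → Bool := by
  classical exact Function.update σ j (!(σ j))

theorem fl_self (σ : m → Bool) (j : m) : fl σ j j = !(σ j) := by simp [fl]

theorem fl_ne (σ : m → Bool) {j k : m} (h : k ≠ j) : fl σ j k = σ k := by simp [fl, h]


theorem eq_fl {σ τ : m → Bool} {j : m} (h : ∀ k, k ≠ j → τ k = σ k) (hne : τ ≠ σ) :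
    τ = fl σ j := by
  have h1 : τ j ≠ σ j := fun h1 => hne (funext fun k => by
    by_cases hk : k = j
    · subst hk; exact h1
    · exact h k hk)
  funext k
  by_cases hk : k = j
  · subst hk; rw [fl_self]; cases h2 : τ k <;> cases h3 : σ k <;> simp_all
  · rw [fl_ne _ hk, h k hk]

theorem mem_cc_fl {σ : m → Bool} {j : m} {x : ℝ × ℝ} (hx : x ∈ A.cc σ)
    (hj : (A.l j).ev x = 0) : x ∈ A.cc (fl σ j) := by
  intro k
  by_cases hk : k = j
  · subst hk; rw [hj, mul_zero]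
  · rw [fl_ne _ hk]; exact hx k

/-- a direction entering a half plane -/
theorem exists_enter (A : Arr m Q u) (σ : m → Bool) (j : m) :
    ∃ v : ℝ × ℝ, 0 < sg (σ j) * (A.l j).ln v := by
  refine ⟨(sg (σ j) * (A.l j).a, sg (σ j) * (A.l j).b), ?_⟩
  have h := Fn.sq_pos (A.nz j)
  have h2 : sg (σ j) * (A.l j).ln (sg (σ j) * (A.l j).a, sg (σ j) * (A.l j).b) =
      (sg (σ j) * sg (σ j)) * ((A.l j).a ^ 2 + (A.l j).b ^ 2) := by
    simp only [Fn.ln]; ring
  rw [h2, sg_mul_self, one_mul]; exact h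

/-- the other cell at an edge -/
theorem flip_cell [Finite m] {t : ℝ} (ht : t ∉ A.Bad) {σ : m → Bool} (hc : A.Cell σ)
    {x : ℝ × ℝ} {j : m} (hx : x ∈ A.cc σ) (hj : (A.l j).ev x = 0) (hg : (A.g σ).ev x = t)
    (hb : ¬ A.bd j) : A.Cell (fl σ j) := by
  refine ⟨fun k hk => ?_, ?_⟩
  · have : k ≠ j := fun h => hb (h ▸ hk)
    rw [fl_ne _ this]; exact hc.1 k hk
  · obtain ⟨v, hv⟩ := exists_enter A (fl σ j) j
    obtain ⟨s, hs⟩ := (enter (mem_cc_fl hx hj) (others_ne ht hc hx hj hg) hv).exists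
    exact ⟨_, hs⟩

theorem flip_g {σ : m → Bool} (hc : A.Cell σ) {x : ℝ × ℝ} {j : m} (hx : x ∈ A.cc σ)
    (hj : (A.l j).ev x = 0) (hc' : A.Cell (fl σ j)) : (A.g (fl σ j)).ev x = (A.g σ).ev x := by
  rw [← hc.u_eq hx, ← hc'.u_eq (mem_cc_fl hx hj)]

theorem flip_cr [Finite m] {t : ℝ} (ht : t ∉ A.Bad) {σ : m → Bool} (hc : A.Cell σ)
    {x : ℝ × ℝ} {j : m} (hx : x ∈ A.cc σ) (hj : (A.l j).ev x = 0) (hg : (A.g σ).ev x = t)
    (hc' : A.Cell (fl σ j)) : (A.l j).cr (A.g (fl σ j)) = (A.l j).cr (A.g σ) := by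
  have h1 := along ht hc hx hj hg
  have h2 : ∀ᶠ s : ℝ in 𝓝[>] 0, x + s • (A.l j).dir ∈ A.cc σ := nhdsWithin_le_nhds h1
  obtain ⟨s, hs, hs0⟩ := (h2.and self_mem_nhdsWithin).exists
  have hs0 : 0 < s := hs0
  have h3 : (A.l j).ev (x + s • (A.l j).dir) = 0 := by rw [Fn.ev_add, Fn.ln_self, hj]; simp
  have h4 := flip_g hc hx hj hc'
  have h5 := flip_g hc hs h3 hc'
  rw [Fn.ev_add, Fn.ev_add, h4, Fn.ln_dir, Fn.ln_dir] at h5
  have h6 : (A.g (fl σ j)).cr (A.l j) = (A.g σ).cr (A.l j) := by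
    have := add_left_cancel h5
    exact mul_left_cancel₀ hs0.ne' this
  rw [Fn.cr_swap, h6, ← Fn.cr_swap]

theorem flip_sta [Finite m] {t : ℝ} (ht : t ∉ A.Bad) {σ : m → Bool} (hc : A.Cell σ)
    {x : ℝ × ℝ} {j : m} (hx : x ∈ A.cc σ) (hj : (A.l j).ev x = 0) (hg : (A.g σ).ev x = t)
    (hc' : A.Cell (fl σ j)) : A.Sta (fl σ j) j ↔ A.End σ j := by
  unfold Sta End
  rw [flip_cr ht hc hx hj hg hc', fl_self, sg_not]
  constructor <;> intro h <;> linarith

theorem flip_end [Finite m] {t : ℝ} (ht : t ∉ A.Bad) {σ : m → Bool} (hc : A.Cell σ)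
    {x : ℝ × ℝ} {j : m} (hx : x ∈ A.cc σ) (hj : (A.l j).ev x = 0) (hg : (A.g σ).ev x = t)
    (hc' : A.Cell (fl σ j)) : A.End (fl σ j) j ↔ A.Sta σ j := by
  unfold Sta End
  rw [flip_cr ht hc hx hj hg hc', fl_self, sg_not]
  constructor <;> intro h <;> linarith

theorem not_sta_end {σ : m → Bool} {j : m} (h1 : A.Sta σ j) (h2 : A.End σ j) : False :=
  absurd h1 (not_lt.2 (le_of_lt h2))

/-- every point of the level set lies in a crossing cell -/
theorem cover [Finite m] {t : ℝ} (ht : t ∉ A.Bad) {x : ℝ × ℝ} (hx : x ∈ Q) (hu : u x = t) :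
    ∃ σ, A.Cr σ t ∧ x ∈ A.cc σ := by
  classical
  let σ : m → Bool := fun k => decide (0 ≤ (A.l k).ev x)
  have hσ : x ∈ A.cc σ := by
    intro k
    by_cases h : 0 ≤ (A.l k).ev x
    · have : σ k = true := decide_eq_true h
      rw [this, sg_true, one_mul]; exact h
    · have : σ k = false := decide_eq_false h
      rw [this, sg_false]; linarith [not_le.1 h]
  have hb : ∀ k, A.bd k → σ k = true := fun k hk => decide_eq_true ((A.hQ x).1 hx k hk)
  by_cases hz : ∃ j, (A.l j).ev x = 0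
  · obtain ⟨j, hj⟩ := hz
    have hne : ∀ k, k ≠ j → (A.l k).ev x ≠ 0 := fun k hk h0 => hk (reg_one ht hx hu h0 hj)
    obtain ⟨v, hv⟩ := exists_enter A σ j
    obtain ⟨s, hs⟩ := (enter hσ hne hv).exists
    have hc : A.Cell σ := ⟨hb, _, hs⟩
    exact ⟨σ, X.cr ⟨hc, x, hσ, hj, (hc.u_eq hσ).symm.trans hu⟩ ht, hσ⟩
  · push Not at hz
    have ho : x ∈ A.oc σ := fun k => pos_of_ne hσ (hz k)
    have hc : A.Cell σ := ⟨hb, x, ho⟩
    exact ⟨σ, ⟨hc, x, ho, (hc.u_eq hσ).symm.trans hu⟩, hσ⟩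

end Arr

end Crest.Agent.R096.Lvl_816
end

-- ▼ part R096/Lvl3_816
section

/-!
# Level curves of a piecewise affine function on a plane convex polygon, part 3 (helper816, row 96)

`LSys`: the level sets `{u = t}`, `t` in an interval without bad values, as a finite system of
oriented segments; construction from a line arrangement.
-/

set_option autoImplicit false
set_option linter.unusedSectionVars false

open Set Filter Topology

namespace Crest.Agent.R096.Lvl_816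

/-- a finite system of oriented segments `[a i t, b i t]` which makes up the level sets
`{x ∈ Q | u x = t}` for `t ∈ J` -/
structure LSys (Q : Set (ℝ × ℝ)) (u : ℝ × ℝ → ℝ) (J : Set ℝ) (I : Type) where
  a : I → ℝ → ℝ × ℝ
  b : I → ℝ → ℝ × ℝ
  ca : ∀ i, Continuous (a i)
  cb : ∀ i, Continuous (b i)
  ne : ∀ i, ∀ t ∈ J, a i t ≠ b i t
  cov : ∀ t ∈ J, ∀ x, (x ∈ Q ∧ u x = t) ↔ ∃ i, x ∈ segment ℝ (a i t) (b i t)
  opn : ∀ t ∈ J, ∀ i, openSegment ℝ (a i t) (b i t) ⊆ interior Q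
  simple : ∀ t ∈ J, ∀ i j, i ≠ j → ∀ x ∈ segment ℝ (a i t) (b i t),
    x ∈ segment ℝ (a j t) (b j t) → (x = b i t ∧ x = a j t) ∨ (x = a i t ∧ x = b j t)
  db : ∀ i, (∀ t ∈ J, b i t ∈ frontier Q) ∨ ∃ j, ∀ t ∈ J, b i t ∈ interior Q ∧ b i t = a j t
  da : ∀ i, (∀ t ∈ J, a i t ∈ frontier Q) ∨ ∃ j, ∀ t ∈ J, a i t ∈ interior Q ∧ a i t = b j t
  hi : ∀ t ∈ J, ∀ i, ∀ x ∈ openSegment ℝ (a i t) (b i t), ∃ᶠ y in 𝓝 x, t < u y
  lo : ∀ t ∈ J, ∀ i, ∀ x ∈ openSegment ℝ (a i t) (b i t), ∃ᶠ y in 𝓝 x, u y < t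

namespace Arr

variable {m : Type} {Q : Set (ℝ × ℝ)} {u : ℝ × ℝ → ℝ} {A : Arr m Q u}

theorem isClosed_Q (A : Arr m Q u) : IsClosed Q := by
  have : Q = ⋂ j, ⋂ (_ : A.bd j), {x | 0 ≤ (A.l j).ev x} := by
    ext x; rw [A.hQ]; simp
  rw [this]
  exact isClosed_iInter fun j => isClosed_iInter fun _ =>
    isClosed_le continuous_const (A.l j).continuous_ev

/-- an edge of the rim -/
theorem mem_frontier {x : ℝ × ℝ} {j : m} (hx : x ∈ Q) (hj : (A.l j).ev x = 0) (hb : A.bd j) :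
    x ∈ frontier Q := by
  rw [A.isClosed_Q.frontier_eq]
  refine ⟨hx, fun hi => ?_⟩
  obtain ⟨v, hv⟩ := exists_enter A (fun _ => false) j
  rw [sg_false] at hv
  have h1 : Tendsto (fun s : ℝ => x + s • v) (𝓝[>] 0) (𝓝 x) := by
    have : Continuous fun s : ℝ => x + s • v := by fun_prop
    have h2 := this.tendsto 0
    rw [zero_smul, add_zero] at h2
    exact h2.mono_left nhdsWithin_le_nhds
  have h3 : ∀ᶠ s : ℝ in 𝓝[>] 0, x + s • v ∈ Q :=
    h1.eventually ((mem_interior_iff_mem_nhds.1 hi))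
  obtain ⟨s, hs, hs0⟩ := (h3.and self_mem_nhdsWithin).exists
  have hs0 : 0 < s := hs0
  have h4 := (A.hQ _).1 hs j hb
  rw [Fn.ev_add, hj] at h4
  nlinarith

/-- a node inside -/
theorem mem_interior [Finite m] {x : ℝ × ℝ} (hx : x ∈ Q) (hz : ∀ j, A.bd j → (A.l j).ev x ≠ 0) :
    x ∈ interior Q := by
  rw [mem_interior_iff_mem_nhds]
  have h1 : ∀ j, ∀ᶠ y in 𝓝 x, A.bd j → 0 ≤ (A.l j).ev y := by
    intro j
    by_cases hb : A.bd j
    · have h2 : 0 < (A.l j).ev x := lt_of_le_of_ne ((A.hQ x).1 hx j hb) (hz j hb).symm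
      exact ((A.l j).continuous_ev.continuousAt.eventually (lt_mem_nhds h2)).mono
        fun y hy _ => hy.le
    · exact Eventually.of_forall fun y h => absurd h hb
  exact (eventually_all.2 h1).mono fun y hy => (A.hQ y).2 hy

/-- crossing cells near the level set: data at one regular value -/
structure Dat (A : Arr m Q u) (t₀ : ℝ) (σ : m → Bool) where
  js : m
  je : m
  ps : ℝ × ℝ
  pe : ℝ × ℝ
  sta : A.Sta σ js
  en : A.End σ je
  hc : A.Cell σ
  pscc : ps ∈ A.cc σ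
  pecc : pe ∈ A.cc σ
  psl : (A.l js).ev ps = 0
  pel : (A.l je).ev pe = 0
  psg : (A.g σ).ev ps = t₀
  peg : (A.g σ).ev pe = t₀

theorem exists_dat [Finite m] (hQ : IsCompact Q) {t₀ : ℝ} (h0 : t₀ ∉ A.Bad) {σ : m → Bool}
    (h : A.Cr σ t₀) : Nonempty (Dat A t₀ σ) := by
  obtain ⟨j, hj, hc, x, hx, hxl, hxg⟩ := h.exists_start hQ.isBounded h0
  obtain ⟨k, hk, -, y, hy, hyl, hyg⟩ := h.exists_end hQ.isBounded h0
  exact ⟨⟨j, k, x, y, hj, hk, hc, hx, hy, hxl, hyl, hxg, hyg⟩⟩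

namespace Dat

variable {t₀ : ℝ} {σ τ : m → Bool} (D : Dat A t₀ σ) (D' : Dat A t₀ τ)

/-- the start point -/
noncomputable def a (t : ℝ) : ℝ × ℝ := A.pt σ D.js D.ps t₀ t

/-- the end point -/
noncomputable def b (t : ℝ) : ℝ × ℝ := A.pt σ D.je D.pe t₀ t

theorem crs : (A.l D.js).cr (A.g σ) ≠ 0 := fun h => by
  have := D.sta; unfold Sta at this; rw [h, mul_zero] at this; exact lt_irrefl _ this

theorem cre : (A.l D.je).cr (A.g σ) ≠ 0 := fun h => by
  have := D.en; unfold End at this; rw [h, mul_zero] at this; exact lt_irrefl _ this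

theorem js_ne : D.js ≠ D.je := fun h => not_sta_end D.sta (h ▸ D.en)

variable [Finite m] (hQ : IsCompact Q) {J : Set ℝ} (hJ : IsPreconnected J)
  (hB : Disjoint J A.Bad) (h0 : t₀ ∈ J) {t : ℝ} (ht : t ∈ J)

include hQ hJ hB h0 ht

theorem a_spec : D.a t ∈ A.cc σ ∧ (A.l D.js).ev (D.a t) = 0 ∧ (A.g σ).ev (D.a t) = t := by
  have h : A.X σ D.js t₀ := ⟨D.hc, D.ps, D.pscc, D.psl, D.psg⟩
  obtain ⟨-, x, hx, hxl, hxg⟩ := h.const hQ hJ hB h0 ht
  rw [show D.a t = x from pt_eq D.psl D.psg hxl hxg D.crs]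
  exact ⟨hx, hxl, hxg⟩

theorem b_spec : D.b t ∈ A.cc σ ∧ (A.l D.je).ev (D.b t) = 0 ∧ (A.g σ).ev (D.b t) = t := by
  have h : A.X σ D.je t₀ := ⟨D.hc, D.pe, D.pecc, D.pel, D.peg⟩
  obtain ⟨-, x, hx, hxl, hxg⟩ := h.const hQ hJ hB h0 ht
  rw [show D.b t = x from pt_eq D.pel D.peg hxl hxg D.cre]
  exact ⟨hx, hxl, hxg⟩


theorem a_ne_b : D.a t ≠ D.b t := by
  intro h
  obtain ⟨h1, h2, h3⟩ := D.a_spec hQ hJ hB h0 ht
  obtain ⟨-, h5, -⟩ := D.b_spec hQ hJ hB h0 ht
  rw [← h] at h5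
  exact D.js_ne (reg_one (fun hb => hB.le_bot ⟨ht, hb⟩) (D.hc.cc_sub h1)
    ((D.hc.u_eq h1).trans h3) h2 h5)

/-- the index which vanishes at the start point -/
theorem a_idx {k : m} (hk : (A.l k).ev (D.a t) = 0) : k = D.js := by
  obtain ⟨h1, h2, h3⟩ := D.a_spec hQ hJ hB h0 ht
  exact reg_one (fun hb => hB.le_bot ⟨ht, hb⟩) (D.hc.cc_sub h1)
    ((D.hc.u_eq h1).trans h3) hk h2

theorem b_idx {k : m} (hk : (A.l k).ev (D.b t) = 0) : k = D.je := by
  obtain ⟨h1, h2, h3⟩ := D.b_spec hQ hJ hB h0 ht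
  exact reg_one (fun hb => hB.le_bot ⟨ht, hb⟩) (D.hc.cc_sub h1)
    ((D.hc.u_eq h1).trans h3) hk h2

theorem seg_eq : segment ℝ (D.a t) (D.b t) = {x | x ∈ A.cc σ ∧ (A.g σ).ev x = t} := by
  obtain ⟨a1, a2, a3⟩ := D.a_spec hQ hJ hB h0 ht
  obtain ⟨b1, b2, b3⟩ := D.b_spec hQ hJ hB h0 ht
  have hreg : t ∉ A.Bad := fun hb => hB.le_bot ⟨ht, hb⟩
  apply Subset.antisymm
  · rintro x ⟨p, q, hp, hq, hpq, rfl⟩
    refine ⟨convex_cc σ a1 b1 hp hq hpq, ?_⟩
    rw [Fn.ev_comb _ _ _ hpq, a3, b3, ← add_mul, hpq, one_mul]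
  · rintro x ⟨hx, hxg⟩
    obtain ⟨s, hs⟩ := Fn.exists_level (reg_dir hreg hxg) (hxg.trans a3.symm)
    obtain ⟨r, hr⟩ := Fn.exists_level (reg_dir hreg hxg) (b3.trans a3.symm)
    have hs0 : 0 ≤ s := by
      have h1 := hx D.js
      rw [hs, Fn.ev_add, a2, Fn.ln_dir, zero_add] at h1
      have h2 := D.sta
      unfold Sta at h2
      have h3 : sg (σ D.js) * (s * (A.l D.js).cr (A.g σ)) =
        s * (sg (σ D.js) * (A.l D.js).cr (A.g σ)) := by ring
      rw [h3] at h1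
      exact nonneg_of_mul_nonneg_left h1 h2
    have hsr : s ≤ r := by
      have h1 := hx D.je
      have h4 : x = D.b t + (s - r) • (A.g σ).dir := by rw [hs, hr, sub_smul]; abel
      rw [h4, Fn.ev_add, b2, Fn.ln_dir, zero_add] at h1
      have h2 := D.en
      unfold End at h2
      have h3 : sg (σ D.je) * ((s - r) * (A.l D.je).cr (A.g σ)) =
        (r - s) * (- (sg (σ D.je) * (A.l D.je).cr (A.g σ))) := by ring
      rw [h3] at h1
      have := nonneg_of_mul_nonneg_left h1 (by linarith)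
      linarith
    have hr0 : 0 < r := by
      rcases (hs0.trans hsr).eq_or_lt with h | h
      · exfalso
        refine D.a_ne_b hQ hJ hB h0 ht ?_
        rw [hr, ← h, zero_smul, add_zero]
      · exact h
    refine ⟨1 - s / r, s / r, by rw [sub_nonneg, div_le_one hr0]; exact hsr,
      by positivity, by ring, ?_⟩
    rw [hs, hr, smul_add, smul_smul, ← add_assoc, ← add_smul]
    have h5 : s / r * r = s := div_mul_cancel₀ _ hr0.ne'
    rw [h5]
    congr 1
    have : 1 - s / r + s / r = 1 := by ring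
    rw [this, one_smul]

theorem open_sub : openSegment ℝ (D.a t) (D.b t) ⊆ A.oc σ := by
  obtain ⟨a1, a2, a3⟩ := D.a_spec hQ hJ hB h0 ht
  obtain ⟨b1, b2, b3⟩ := D.b_spec hQ hJ hB h0 ht
  rintro x ⟨p, q, hp, hq, hpq, rfl⟩ k
  rw [Fn.ev_comb _ _ _ hpq]
  have h1 := a1 k
  have h2 := b1 k
  have h3 : sg (σ k) * (p * (A.l k).ev (D.a t) + q * (A.l k).ev (D.b t)) =
      p * (sg (σ k) * (A.l k).ev (D.a t)) + q * (sg (σ k) * (A.l k).ev (D.b t)) := by ring
  rw [h3]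
  by_cases h4 : (A.l k).ev (D.a t) = 0
  · have h5 : (A.l k).ev (D.b t) ≠ 0 := by
      intro h6
      exact D.js_ne ((D.a_idx hQ hJ hB h0 ht h4).symm.trans (D.b_idx hQ hJ hB h0 ht h6))
    have h6 := pos_of_ne b1 h5
    have := mul_pos hq h6
    have := mul_nonneg hp.le h1
    linarith
  · have h6 := pos_of_ne a1 h4
    have := mul_pos hp h6
    have := mul_nonneg hq.le h2
    linarith

/-- a point of a segment which lies on a line is an end point -/
theorem endpt {x : ℝ × ℝ} (hx : x ∈ segment ℝ (D.a t) (D.b t)) {k : m}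
    (hk : (A.l k).ev x = 0) : (x = D.a t ∧ k = D.js) ∨ (x = D.b t ∧ k = D.je) := by
  rw [← insert_endpoints_openSegment] at hx
  rcases hx with h | h | h
  · exact Or.inl ⟨h, D.a_idx hQ hJ hB h0 ht (h ▸ hk)⟩
  · exact Or.inr ⟨h, D.b_idx hQ hJ hB h0 ht (h ▸ hk)⟩
  · have := D.open_sub hQ hJ hB h0 ht h k
    rw [hk, mul_zero] at this; exact absurd this (lt_irrefl _)

theorem simple (hne : σ ≠ τ) {x : ℝ × ℝ} (hx : x ∈ segment ℝ (D.a t) (D.b t))
    (hx' : x ∈ segment ℝ (D'.a t) (D'.b t)) :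
    (x = D.b t ∧ x = D'.a t) ∨ (x = D.a t ∧ x = D'.b t) := by
  have hreg : t ∉ A.Bad := fun hb => hB.le_bot ⟨ht, hb⟩
  have hs := D.seg_eq hQ hJ hB h0 ht
  have hs' := D'.seg_eq hQ hJ hB h0 ht
  have hxm : x ∈ A.cc σ ∧ (A.g σ).ev x = t := by rw [hs] at hx; exact hx
  have hxm' : x ∈ A.cc τ ∧ (A.g τ).ev x = t := by rw [hs'] at hx'; exact hx'
  -- some line passes through x
  obtain ⟨j, hj⟩ : ∃ j, (A.l j).ev x = 0 := by
    by_contra hn
    push Not at hn
    refine hne (funext fun k => ?_)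
    have h1 := pos_of_ne hxm.1 (hn k)
    have h2 := pos_of_ne hxm'.1 (hn k)
    cases h3 : σ k <;> cases h4 : τ k <;> rw [h3] at h1 <;> rw [h4] at h2 <;>
      simp only [sg_true, sg_false] at h1 h2 <;> first | rfl | (exfalso; linarith)
  have hoth := others_ne hreg D.hc hxm.1 hj hxm.2
  have hτ : τ = fl σ j := by
    refine eq_fl (fun k hk => ?_) hne.symm
    have h1 := pos_of_ne hxm.1 (hoth k hk)
    have h2 := pos_of_ne hxm'.1 (hoth k hk)
    cases h3 : σ k <;> cases h4 : τ k <;> rw [h3] at h1 <;> rw [h4] at h2 <;>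
      simp only [sg_true, sg_false] at h1 h2 <;> first | rfl | (exfalso; linarith)
  subst hτ
  have hc' := D'.hc
  have e1 := flip_sta hreg D.hc hxm.1 hj hxm.2 hc'
  have e2 := flip_end hreg D.hc hxm.1 hj hxm.2 hc'
  rcases D.endpt hQ hJ hB h0 ht hx hj with ⟨h1, h2⟩ | ⟨h1, h2⟩ <;>
    rcases D'.endpt hQ hJ hB h0 ht hx' hj with ⟨h3, h4⟩ | ⟨h3, h4⟩
  · exfalso
    have h5 := D'.sta
    rw [← h4] at h5
    have h6 := D.sta
    rw [← h2] at h6
    exact not_sta_end h6 (e1.1 h5)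
  · exact Or.inr ⟨h1, h3⟩
  · exact Or.inl ⟨h1, h3⟩
  · exfalso
    have h5 := D'.en
    rw [← h4] at h5
    have h6 := D.en
    rw [← h2] at h6
    exact not_sta_end (e2.1 h5) h6

theorem hi {x : ℝ × ℝ} (hx : x ∈ openSegment ℝ (D.a t) (D.b t)) :
    (∃ᶠ y in 𝓝 x, t < u y) ∧ ∃ᶠ y in 𝓝 x, u y < t := by
  have hreg : t ∉ A.Bad := fun hb => hB.le_bot ⟨ht, hb⟩
  have ho := D.open_sub hQ hJ hB h0 ht hx
  have hxm : x ∈ A.cc σ ∧ (A.g σ).ev x = t := by
    have := openSegment_subset_segment ℝ _ _ hx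
    rw [D.seg_eq hQ hJ hB h0 ht] at this; exact this
  have hd := Fn.sq_pos (reg_dir hreg hxm.2)
  let n : ℝ × ℝ := ((A.g σ).a, (A.g σ).b)
  have hn : (A.g σ).ln n = (A.g σ).a ^ 2 + (A.g σ).b ^ 2 := by simp only [Fn.ln, n]; ring
  have key : ∀ v : ℝ × ℝ, Tendsto (fun s : ℝ => x + s • v) (𝓝[>] 0) (𝓝 x) := by
    intro v
    have : Continuous fun s : ℝ => x + s • v := by fun_prop
    have h2 := this.tendsto 0
    rw [zero_smul, add_zero] at h2
    exact h2.mono_left nhdsWithin_le_nhds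
  have hin : ∀ v : ℝ × ℝ, ∀ᶠ s : ℝ in 𝓝[>] 0, x + s • v ∈ A.oc σ := fun v =>
    (key v).eventually ((isOpen_oc σ).mem_nhds ho)
  constructor
  · refine (key n).frequently (Eventually.frequently ?_)
    filter_upwards [hin n, self_mem_nhdsWithin] with s hs hs0
    have hs0 : 0 < s := hs0
    rw [D.hc.u_eq (oc_sub_cc A σ hs), Fn.ev_add, hxm.2, hn]
    nlinarith [mul_pos hs0 hd]
  · refine (key (-n)).frequently (Eventually.frequently ?_)
    filter_upwards [hin (-n), self_mem_nhdsWithin] with s hs hs0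
    have hs0 : 0 < s := hs0
    rw [D.hc.u_eq (oc_sub_cc A σ hs), Fn.ev_add, hxm.2, Fn.ln_neg, hn]
    nlinarith [mul_pos hs0 hd]

end Dat

/-- **the level sets between bad values form a system of oriented segments**, with a bound of
the number of segments which does not depend on the levels -/
theorem exists_lsys' [Finite m] (A : Arr m Q u) (hQ : IsCompact Q) {J : Set ℝ}
    (hJ : IsPreconnected J) (hB : Disjoint J A.Bad) {t₀ : ℝ} (h0 : t₀ ∈ J) :
    ∃ (I : Type) (_ : Finite I), Nat.card I ≤ Nat.card (m → Bool) ∧ Nonempty (LSys Q u J I) := by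
  classical
  have hr0 : t₀ ∉ A.Bad := fun hb => hB.le_bot ⟨h0, hb⟩
  let I := {σ : m → Bool // A.Cr σ t₀}
  let D : ∀ i : I, Dat A t₀ i.1 := fun i => (exists_dat hQ hr0 i.2).some
  refine ⟨I, inferInstance, Nat.card_le_card_of_injective (fun i : I => i.1)
    Subtype.val_injective, ⟨{
    a := fun i => (D i).a
    b := fun i => (D i).b
    ca := fun i => continuous_pt _ _ _ _
    cb := fun i => continuous_pt _ _ _ _
    ne := fun i t ht => (D i).a_ne_b hQ hJ hB h0 ht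
    cov := ?_
    opn := fun t ht i => ((D i).open_sub hQ hJ hB h0 ht).trans (D i).hc.oc_sub
    simple := fun t ht i j hij x hx hx' =>
      (D i).simple (D j) hQ hJ hB h0 ht (fun h => hij (Subtype.ext h)) hx hx'
    db := ?_
    da := ?_
    hi := fun t ht i x hx => ((D i).hi hQ hJ hB h0 ht hx).1
    lo := fun t ht i x hx => ((D i).hi hQ hJ hB h0 ht hx).2 }⟩⟩
  · intro t ht x
    have hreg : t ∉ A.Bad := fun hb => hB.le_bot ⟨ht, hb⟩
    constructor
    · rintro ⟨hx, hu⟩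
      obtain ⟨σ, hσ, hxσ⟩ := cover hreg hx hu
      have hσ0 : A.Cr σ t₀ := Cr.const hQ hJ hB ht h0 hσ
      refine ⟨⟨σ, hσ0⟩, ?_⟩
      rw [(D ⟨σ, hσ0⟩).seg_eq hQ hJ hB h0 ht]
      exact ⟨hxσ, (hσ.1.u_eq hxσ).symm.trans hu⟩
    · rintro ⟨i, hx⟩
      rw [(D i).seg_eq hQ hJ hB h0 ht] at hx
      exact ⟨(D i).hc.cc_sub hx.1, ((D i).hc.u_eq hx.1).trans hx.2⟩
  · intro i
    by_cases hb : A.bd (D i).je
    · left
      intro t ht
      obtain ⟨h1, h2, h3⟩ := (D i).b_spec hQ hJ hB h0 ht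
      exact mem_frontier ((D i).hc.cc_sub h1) h2 hb
    · right
      have hc' : A.Cell (fl i.1 (D i).je) :=
        flip_cell hr0 (D i).hc (D i).pecc (D i).pel (D i).peg hb
      have hX : A.X (fl i.1 (D i).je) (D i).je t₀ :=
        ⟨hc', _, mem_cc_fl (D i).pecc (D i).pel, (D i).pel,
          (flip_g (D i).hc (D i).pecc (D i).pel hc').trans (D i).peg⟩
      refine ⟨⟨fl i.1 (D i).je, hX.cr hr0⟩, fun t ht => ?_⟩
      have hreg : t ∉ A.Bad := fun hb => hB.le_bot ⟨ht, hb⟩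
      obtain ⟨h1, h2, h3⟩ := (D i).b_spec hQ hJ hB h0 ht
      refine ⟨mem_interior (A := A) ((D i).hc.cc_sub h1) fun j hj h4 => ?_, ?_⟩
      · rw [(D i).b_idx hQ hJ hB h0 ht h4] at hj
        exact hb hj
      · obtain ⟨h4, h5, h6⟩ := (D ⟨fl i.1 (D i).je, hX.cr hr0⟩).a_spec hQ hJ hB h0 ht
        refine start_unique hreg (σ := fl i.1 (D i).je) (j := (D i).je)
          (k := (D ⟨fl i.1 (D i).je, hX.cr hr0⟩).js) ?_ (D ⟨fl i.1 (D i).je, hX.cr hr0⟩).sta
          (mem_cc_fl h1 h2) h4 h2 h5 ((flip_g (D i).hc h1 h2 hc').trans h3) h6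
        exact (flip_sta hreg (D i).hc h1 h2 h3 hc').2 (D i).en
  · intro i
    by_cases hb : A.bd (D i).js
    · left
      intro t ht
      obtain ⟨h1, h2, h3⟩ := (D i).a_spec hQ hJ hB h0 ht
      exact mem_frontier ((D i).hc.cc_sub h1) h2 hb
    · right
      have hc' : A.Cell (fl i.1 (D i).js) :=
        flip_cell hr0 (D i).hc (D i).pscc (D i).psl (D i).psg hb
      have hX : A.X (fl i.1 (D i).js) (D i).js t₀ :=
        ⟨hc', _, mem_cc_fl (D i).pscc (D i).psl, (D i).psl,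
          (flip_g (D i).hc (D i).pscc (D i).psl hc').trans (D i).psg⟩
      refine ⟨⟨fl i.1 (D i).js, hX.cr hr0⟩, fun t ht => ?_⟩
      have hreg : t ∉ A.Bad := fun hb => hB.le_bot ⟨ht, hb⟩
      obtain ⟨h1, h2, h3⟩ := (D i).a_spec hQ hJ hB h0 ht
      refine ⟨mem_interior (A := A) ((D i).hc.cc_sub h1) fun j hj h4 => ?_, ?_⟩
      · rw [(D i).a_idx hQ hJ hB h0 ht h4] at hj
        exact hb hj
      · obtain ⟨h4, h5, h6⟩ := (D ⟨fl i.1 (D i).js, hX.cr hr0⟩).b_spec hQ hJ hB h0 ht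
        refine end_unique hreg (σ := fl i.1 (D i).js) (j := (D i).js)
          (k := (D ⟨fl i.1 (D i).js, hX.cr hr0⟩).je) ?_ (D ⟨fl i.1 (D i).js, hX.cr hr0⟩).en
          (mem_cc_fl h1 h2) h4 h2 h5 ((flip_g (D i).hc h1 h2 hc').trans h3) h6
        exact (flip_end hreg (D i).hc h1 h2 h3 hc').2 (D i).sta

/-- **the level sets between bad values form a system of oriented segments** -/
theorem exists_lsys [Finite m] (A : Arr m Q u) (hQ : IsCompact Q) {J : Set ℝ}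
    (hJ : IsPreconnected J) (hB : Disjoint J A.Bad) {t₀ : ℝ} (h0 : t₀ ∈ J) :
    ∃ (I : Type) (_ : Finite I), Nonempty (LSys Q u J I) := by
  obtain ⟨I, hI, -, h⟩ := A.exists_lsys' hQ hJ hB h0
  exact ⟨I, hI, h⟩

end Arr

end Crest.Agent.R096.Lvl_816
end

-- ▼ part R096/Lvl4_816
section

/-!
# Level curves of a piecewise affine function on a plane convex polygon, part 4 (helper816, row 96)

A system of oriented segments decomposes into closed polygons and arcs which reach the rim.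
-/

set_option autoImplicit false
set_option linter.unusedSectionVars false

open Set Filter Topology

namespace Crest.Agent.R096.Lvl_816

open Ce_537 Pl

/-- a finite system of oriented segments which makes up the set `K ⊆ Q` -/
structure Seg (Q : Set (ℝ × ℝ)) (K : Set (ℝ × ℝ)) (I : Type) where
  a : I → ℝ × ℝ
  b : I → ℝ × ℝ
  ne : ∀ i, a i ≠ b i
  cov : ∀ x, x ∈ K ↔ ∃ i, x ∈ segment ℝ (a i) (b i)
  opn : ∀ i, openSegment ℝ (a i) (b i) ⊆ interior Q
  simple : ∀ i j, i ≠ j → ∀ x ∈ segment ℝ (a i) (b i),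
    x ∈ segment ℝ (a j) (b j) → (x = b i ∧ x = a j) ∨ (x = a i ∧ x = b j)
  db : ∀ i, b i ∈ frontier Q ∨ ∃ j, b i ∈ interior Q ∧ b i = a j

namespace Seg

variable {Q K : Set (ℝ × ℝ)} {I : Type} (S : Seg Q K I)

theorem a_inj {i j : I} (h : S.a i = S.a j) : i = j := by
  by_contra hij
  rcases S.simple i j hij (S.a i) (left_mem_segment ℝ _ _)
    (h ▸ left_mem_segment ℝ _ _) with h1 | h1
  · exact S.ne i h1.1
  · exact S.ne j (h.symm.trans h1.2)

theorem b_inj {i j : I} (h : S.b i = S.b j) : i = j := by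
  by_contra hij
  rcases S.simple i j hij (S.b i) (right_mem_segment ℝ _ _)
    (h ▸ right_mem_segment ℝ _ _) with h1 | h1
  · exact S.ne j (h1.2.symm.trans h)
  · exact S.ne i h1.1.symm

/-- the segment has a successor -/
def P (i : I) : Prop := ∃ j, S.b i ∈ interior Q ∧ S.b i = S.a j

/-- the segment has a predecessor -/
def R (j : I) : Prop := ∃ i, S.b i ∈ interior Q ∧ S.b i = S.a j

/-- the successor map -/
noncomputable def nx (i : {i // S.P i}) : {j // S.R j} :=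
  ⟨i.2.choose, i.1, i.2.choose_spec⟩

theorem nx_spec (i : {i // S.P i}) : S.b i.1 = S.a (S.nx i).1 := i.2.choose_spec.2

theorem nx_bij : Function.Bijective S.nx := by
  constructor
  · intro i j h
    refine Subtype.ext (S.b_inj ?_)
    rw [S.nx_spec, S.nx_spec, h]
  · rintro ⟨j, i, hij⟩
    refine ⟨⟨i, j, hij⟩, Subtype.ext (S.a_inj ?_)⟩
    rw [← S.nx_spec]; exact hij.2

variable [Finite I]

/-- a permutation which extends the successor map -/
noncomputable def pi : Equiv.Perm I := by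
  classical
  exact (Equiv.ofBijective S.nx S.nx_bij).extendSubtype

theorem pi_spec {i : I} (h : S.P i) : S.b i = S.a (S.pi i) := by
  classical
  have h1 : S.pi i = (S.nx ⟨i, h⟩).1 := by
    unfold pi
    rw [Equiv.extendSubtype_apply_of_mem _ _ h]; rfl
  rw [h1]; exact S.nx_spec ⟨i, h⟩

/-- closed orbits -/
def Cl (i : I) : Prop := ∀ n : ℕ, S.P ((S.pi ^ n) i)

variable {S}

theorem Cl.int {i : I} (h : S.Cl i) (n : ℤ) : S.P ((S.pi ^ n) i) := by
  have h1 : 0 < orderOf S.pi := orderOf_pos S.pi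
  have h2 := zpow_mod_orderOf S.pi n
  have h3 : 0 ≤ n % (orderOf S.pi : ℤ) := Int.emod_nonneg _ (by exact_mod_cast h1.ne')
  obtain ⟨k, hk⟩ := Int.eq_ofNat_of_zero_le h3
  rw [← h2, hk, zpow_natCast]
  exact h k

theorem Cl.next {i : I} (h : S.Cl i) (n : ℤ) :
    S.b ((S.pi ^ n) i) = S.a ((S.pi ^ (n + 1)) i) := by
  rw [S.pi_spec (h.int n), zpow_add_one, Equiv.Perm.mul_apply]
  congr 1
  rw [← Equiv.Perm.mul_apply, ← Equiv.Perm.mul_apply, ← zpow_add_one, ← zpow_one_add, add_comm]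

variable (S)

/-- the union of the segments of an orbit -/
def cyc (i : I) : Set (ℝ × ℝ) := ⋃ n : ℤ, segment ℝ (S.a ((S.pi ^ n) i)) (S.b ((S.pi ^ n) i))

variable {S}

theorem seg_sub_cyc (i : I) : segment ℝ (S.a i) (S.b i) ⊆ S.cyc i := by
  intro x hx
  exact mem_iUnion.2 ⟨0, by simpa using hx⟩

theorem cyc_sub (i : I) : S.cyc i ⊆ K := by
  intro x hx
  obtain ⟨n, hn⟩ := mem_iUnion.1 hx
  exact (S.cov x).2 ⟨_, hn⟩

theorem isClosed_seg (i : I) : IsClosed (segment ℝ (S.a i) (S.b i)) := by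
  rw [segment_eq_image_lineMap]
  exact (isCompact_Icc.image AffineMap.lineMap_continuous).isClosed

theorem cyc_eq (i : I) : S.cyc i = ⋃ j ∈ {j | ∃ n : ℤ, (S.pi ^ n) i = j},
    segment ℝ (S.a j) (S.b j) := by
  ext x
  simp only [cyc, mem_iUnion, mem_ofPred_eq]
  constructor
  · rintro ⟨n, h⟩
    exact ⟨_, ⟨n, rfl⟩, h⟩
  · rintro ⟨j, ⟨n, rfl⟩, h⟩
    exact ⟨n, h⟩

theorem isClosed_cyc (i : I) : IsClosed (S.cyc i) := by
  rw [cyc_eq]
  exact (Set.toFinite _).isClosed_biUnion fun j _ => isClosed_seg j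

theorem Cl.isPreconnected {i : I} (h : S.Cl i) : IsPreconnected (S.cyc i) := by
  unfold cyc
  refine IsPreconnected.iUnion_of_chain (fun n => (convex_segment _ _).isPreconnected) fun n => ?_
  refine ⟨S.b ((S.pi ^ n) i), right_mem_segment ℝ _ _, ?_⟩
  show S.b ((S.pi ^ n) i) ∈ segment ℝ (S.a ((S.pi ^ (n + 1)) i)) (S.b ((S.pi ^ (n + 1)) i))
  rw [h.next n]
  exact left_mem_segment ℝ _ _

/-- the rest of the level set -/
theorem Cl.disjoint {i : I} (h : S.Cl i) {j : I} (hj : ∀ n : ℤ, (S.pi ^ n) i ≠ j) {x : ℝ × ℝ}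
    (hx : x ∈ S.cyc i) : x ∉ segment ℝ (S.a j) (S.b j) := by
  intro hxj
  obtain ⟨n, hn⟩ := mem_iUnion.1 hx
  rcases S.simple _ _ (hj n) x hn hxj with ⟨h1, h2⟩ | ⟨h1, h2⟩
  · exact hj (n + 1) (S.a_inj ((h.next n).symm.trans (h1.symm.trans h2)))
  · refine hj (n - 1) (S.b_inj ?_)
    have := h.next (n - 1)
    rw [sub_add_cancel] at this
    exact this.trans (h1.symm.trans h2)

/-- a closed orbit is a component -/
theorem Cl.component {i : I} (h : S.Cl i) {x : ℝ × ℝ} (hx : x ∈ S.cyc i) :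
    connectedComponentIn K x = S.cyc i := by
  have hxK := cyc_sub i hx
  apply Subset.antisymm
  · have h1 : IsPreconnected (connectedComponentIn K x) := isPreconnected_connectedComponentIn
    rw [isPreconnected_iff_subset_of_disjoint_closed] at h1
    let Z := ⋃ j ∈ {j | ∀ n : ℤ, (S.pi ^ n) i ≠ j}, segment ℝ (S.a j) (S.b j)
    have hZ : IsClosed Z := (Set.toFinite _).isClosed_biUnion fun j _ => isClosed_seg j
    have hdis : ∀ y ∈ S.cyc i, y ∉ Z := by
      intro y hy hyZ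
      obtain ⟨j, hj, hyj⟩ := mem_iUnion₂.1 hyZ
      exact h.disjoint hj hy hyj
    rcases h1 (S.cyc i) Z (isClosed_cyc i) hZ (by
        intro y hy
        obtain ⟨j, hj⟩ := (S.cov y).1 (connectedComponentIn_subset K x hy)
        by_cases hjn : ∃ n : ℤ, (S.pi ^ n) i = j
        · obtain ⟨n, rfl⟩ := hjn
          exact Or.inl (mem_iUnion.2 ⟨n, hj⟩)
        · push Not at hjn
          exact Or.inr (mem_iUnion₂.2 ⟨j, hjn, hj⟩)) (by
        ext y
        simp only [mem_inter_iff, mem_empty_iff_false, iff_false, not_and]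
        exact fun _ h2 h3 => hdis y h2 h3) with h2 | h2
    · exact h2
    · exact absurd (h2 (mem_connectedComponentIn hxK)) (hdis x hx)
  · exact h.isPreconnected.subset_connectedComponentIn hx (cyc_sub i)

/-- a closed orbit is a polygon -/
theorem Cl.poly {i : I} (h : S.Cl i) :
    ∃ (n : ℕ) (v : ℤ → ℝ × ℝ), Poly n v ∧ polySet v = S.cyc i := by
  classical
  let N := MulAction.period S.pi i
  let v : ℤ → ℝ × ℝ := fun n => S.a ((S.pi ^ n) i)
  have hper : ∀ k l : ℤ, (S.pi ^ k) i = (S.pi ^ l) i ↔ (N : ℤ) ∣ k - l := by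
    intro k l
    have h1 := MulAction.zpow_smul_eq_iff_period_dvd (j := k - l) (g := S.pi) (a := i)
    rw [← h1]
    constructor
    · intro h2
      show (S.pi ^ (k - l)) i = i
      rw [sub_eq_neg_add, zpow_add, Equiv.Perm.mul_apply, h2, ← Equiv.Perm.mul_apply, ← zpow_add,
        neg_add_cancel, zpow_zero]; rfl
    · intro h2
      have h2 : (S.pi ^ (k - l)) i = i := h2
      have h3 : (S.pi ^ k) i = (S.pi ^ l) ((S.pi ^ (k - l)) i) := by
        rw [← Equiv.Perm.mul_apply, ← zpow_add]; congr 2; ring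
      rw [h3, h2]
  have hedge : ∀ n, edge v n = segment ℝ (S.a ((S.pi ^ n) i)) (S.b ((S.pi ^ n) i)) := by
    intro n
    show segment ℝ (S.a ((S.pi ^ n) i)) (S.a ((S.pi ^ (n + 1)) i)) = _
    rw [h.next n]
  have hNpos : 0 < N := MulAction.period_pos_of_orderOf_pos (orderOf_pos S.pi) i
  have hinj : ∀ k l, v k = v l → (N : ℤ) ∣ k - l := fun k l hkl => (hper k l).1 (S.a_inj hkl)
  have h1 : N ≠ 1 := by
    intro h1
    have h2 : (S.pi ^ (1 : ℤ)) i = (S.pi ^ (0 : ℤ)) i := (hper 1 0).2 (by simp [h1])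
    have h3 := h.next 0
    rw [zero_add, h2] at h3
    exact S.ne _ h3.symm
  have h2 : N ≠ 2 := by
    intro h2
    have h3 : (S.pi ^ (2 : ℤ)) i = (S.pi ^ (0 : ℤ)) i := (hper 2 0).2 (by simp [h2])
    have h4 := h.next 0
    have h5 := h.next 1
    rw [zero_add] at h4
    rw [show (1 : ℤ) + 1 = 2 by norm_num, h3] at h5
    have hne : (S.pi ^ (0 : ℤ)) i ≠ (S.pi ^ (1 : ℤ)) i := by
      intro h6
      have h7 := (hper 0 1).1 h6
      rw [h2] at h7
      norm_num at h7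
    let y := midpoint ℝ (S.a ((S.pi ^ (0 : ℤ)) i)) (S.b ((S.pi ^ (0 : ℤ)) i))
    have hy : y ∈ segment ℝ (S.a ((S.pi ^ (0 : ℤ)) i)) (S.b ((S.pi ^ (0 : ℤ)) i)) :=
      midpoint_mem_segment _ _
    have hy' : y ∈ segment ℝ (S.a ((S.pi ^ (1 : ℤ)) i)) (S.b ((S.pi ^ (1 : ℤ)) i)) := by
      rw [← h4, h5, segment_symm]; exact hy
    have hab := S.ne ((S.pi ^ (0 : ℤ)) i)
    rcases S.simple _ _ hne y hy hy' with ⟨h6, -⟩ | ⟨h6, -⟩
    · exact hab ((midpoint_eq_right_iff ℝ).1 h6)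
    · exact hab ((midpoint_eq_left_iff ℝ).1 h6)
  refine ⟨N, v, ⟨by omega, fun n => ?_, hinj, fun k l hkl x hx hx' => ?_⟩, ?_⟩
  · show S.a ((S.pi ^ (n + (N : ℤ))) i) = S.a ((S.pi ^ n) i)
    rw [(hper (n + N) n).2 (by simp)]
  · rw [hedge] at hx hx'
    have hne : (S.pi ^ k) i ≠ (S.pi ^ l) i := fun h3 => hkl ((hper k l).1 h3)
    have e1 : v (k + 1) = S.b ((S.pi ^ k) i) := (h.next k).symm
    have e2 : v (l + 1) = S.b ((S.pi ^ l) i) := (h.next l).symm
    rw [e1, e2]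
    rcases S.simple _ _ hne x hx hx' with ⟨h3, h4⟩ | ⟨h3, h4⟩
    · exact ⟨Or.inr h3, Or.inl h4⟩
    · exact ⟨Or.inl h3, Or.inr h4⟩
  · unfold polySet cyc
    exact iUnion_congr hedge

/-- an orbit which is not closed reaches the rim -/
theorem reaches {i : I} (h : ¬ S.Cl i) {x : ℝ × ℝ} (hx : x ∈ segment ℝ (S.a i) (S.b i)) :
    (connectedComponentIn K x ∩ frontier Q).Nonempty := by
  classical
  unfold Cl at h
  push Not at h
  have hN := Nat.find_spec h
  set N := Nat.find h with hNdef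
  have hmin : ∀ n < N, S.P ((S.pi ^ n) i) := fun n hn => by
    by_contra h1; exact Nat.find_min h hn h1
  have hx0 : x ∈ K := (S.cov x).2 ⟨i, hx⟩
  have key : ∀ n ≤ N, segment ℝ (S.a ((S.pi ^ n) i)) (S.b ((S.pi ^ n) i)) ⊆
      connectedComponentIn K x := by
    intro n
    induction n with
    | zero =>
      intro _
      rw [pow_zero, Equiv.Perm.one_apply]
      exact (convex_segment _ _).isPreconnected.subset_connectedComponentIn hx
        fun y hy => (S.cov y).2 ⟨i, hy⟩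
    | succ n ih =>
      intro hn
      have h1 := ih (by omega)
      have h2 := S.pi_spec (hmin n (by omega))
      have h3 : (S.pi ^ (n + 1)) i = S.pi ((S.pi ^ n) i) := by
        rw [pow_succ', Equiv.Perm.mul_apply]
      have h4 : S.b ((S.pi ^ n) i) ∈ connectedComponentIn K x := h1 (right_mem_segment ℝ _ _)
      rw [connectedComponentIn_eq h4]
      refine (convex_segment _ _).isPreconnected.subset_connectedComponentIn ?_
        fun y hy => (S.cov y).2 ⟨_, hy⟩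
      rw [h3, h2]
      exact left_mem_segment ℝ _ _
  refine ⟨S.b ((S.pi ^ N) i), key N le_rfl (right_mem_segment ℝ _ _), ?_⟩
  rcases S.db ((S.pi ^ N) i) with h1 | ⟨j, h1⟩
  · exact h1
  · exact absurd ⟨j, h1⟩ hN

/-- a closed orbit lies in the interior -/
theorem Cl.sub_interior {i : I} (h : S.Cl i) : S.cyc i ⊆ interior Q := by
  intro y hy
  obtain ⟨n, hn⟩ := mem_iUnion.1 hy
  rw [← insert_endpoints_openSegment] at hn
  rcases hn with h1 | h1 | h1
  · have h2 := h.next (n - 1)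
    rw [sub_add_cancel] at h2
    rw [h1, ← h2]
    exact (h.int (n - 1)).choose_spec.1
  · rw [h1]; exact (h.int n).choose_spec.1
  · exact S.opn _ h1

end Seg

end Crest.Agent.R096.Lvl_816
end

-- ▼ part R096/Lvl5_816
section

/-!
# Level curves of a piecewise affine function on a flat face, part 5 (helper816, row 96)

From a line arrangement to 465's `Lev`.
-/

set_option autoImplicit false
set_option linter.unusedSectionVars false

open Set Filter Topology Metric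

namespace Crest.Agent.R096.Lvl_816

open Ce_537 Pl Srg_465

section Hull

variable {E : Type*} [NormedAddCommGroup E] [NormedSpace ℝ E]

/-- from a point of a compact set one leaves it in every direction through the frontier -/
theorem exists_exit {K : Set E} (hK : IsCompact K) {x v : E} (hx : x ∈ K) (hv : v ≠ 0) :
    ∃ s : ℝ, 0 ≤ s ∧ x + s • v ∈ frontier K := by
  have hc : Continuous fun s : ℝ => x + s • v := by fun_prop
  let T : Set ℝ := {s | 0 ≤ s ∧ x + s • v ∈ K}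
  have hT : IsCompact T := by
    have h1 : IsClosed T := (isClosed_le continuous_const continuous_id).inter
      (hK.isClosed.preimage hc)
    obtain ⟨R, hR⟩ := hK.isBounded.subset_closedBall 0
    have hvn : 0 < ‖v‖ := norm_pos_iff.2 hv
    refine (isCompact_Icc (a := (0 : ℝ)) (b := (R + ‖x‖) / ‖v‖)).of_isClosed_subset h1 ?_
    rintro s ⟨h2, h3⟩
    refine ⟨h2, ?_⟩
    rw [le_div_iff₀ hvn]
    have h4 := hR h3
    rw [mem_closedBall_zero_iff] at h4
    have h5 : ‖s • v‖ = s * ‖v‖ := by rw [norm_smul, Real.norm_of_nonneg h2]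
    have h6 : ‖s • v‖ ≤ ‖x + s • v‖ + ‖x‖ := by
      have := norm_sub_le (x + s • v) x
      simpa using this
    linarith
  obtain ⟨s, hs, hmax⟩ := hT.exists_isMaxOn ⟨0, le_rfl, by simpa using hx⟩ continuousOn_id
  refine ⟨s, hs.1, ?_⟩
  rw [hK.isClosed.frontier_eq]
  refine ⟨hs.2, fun hi => ?_⟩
  have h1 : ∀ᶠ r : ℝ in 𝓝 s, x + r • v ∈ K :=
    hc.continuousAt.eventually (mem_interior_iff_mem_nhds.1 hi)
  have h2 : ∀ᶠ r : ℝ in 𝓝[>] s, x + r • v ∈ K := nhdsWithin_le_nhds h1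
  obtain ⟨r, hr, hrs⟩ := (h2.and self_mem_nhdsWithin).exists
  have hrs : s < r := hrs
  have h3 : r ≤ s := hmax ⟨hs.1.trans hrs.le, hr⟩
  linarith

/-- a compact set lies in every convex set which contains its frontier -/
theorem subset_of_frontier [Nontrivial E] {K C : Set E} (hK : IsCompact K) (hC : Convex ℝ C)
    (h : frontier K ⊆ C) : K ⊆ C := by
  intro x hx
  obtain ⟨v, hv⟩ := exists_ne (0 : E)
  obtain ⟨s, hs, h1⟩ := exists_exit hK hx hv
  obtain ⟨r, hr, h2⟩ := exists_exit hK hx (neg_ne_zero.2 hv)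
  rcases hs.eq_or_lt with h0 | h0
  · rw [← h0, zero_smul, add_zero] at h1; exact h h1
  · have hsr : 0 < s + r := by linarith
    have h3 := hC (h h1) (h h2) (a := r / (s + r)) (b := s / (s + r)) (by positivity)
      (by positivity) (by rw [← add_div, add_comm r s]; exact div_self hsr.ne')
    convert h3 using 1
    rw [smul_add, smul_add, smul_smul, smul_neg, smul_neg, smul_smul]
    have e1 : (r / (s + r)) • x + (s / (s + r)) • x = x := by
      rw [← add_smul, ← add_div, add_comm r s, div_self hsr.ne', one_smul]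
    have e2 : r / (s + r) * s = s / (s + r) * r := by ring
    rw [e2]
    calc x = (r / (s + r)) • x + (s / (s + r)) • x := e1.symm
      _ = _ := by abel

end Hull

/-- a polygon inside a convex compact set bounds a disc inside it -/
theorem exists_disc {Q : Set (ℝ × ℝ)} (hQc : Convex ℝ Q) {n : ℕ} {v : ℤ → ℝ × ℝ}
    (h : Poly n v) (hs : polySet v ⊆ interior Q) :
    ∃ Fc, IsBall 2 Fc (polySet v) ∧ Fc ⊆ interior Q ∧ IsOpen (Fc \ polySet v) := by
  obtain ⟨H, hH, hS⟩ := h.stdC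
  have hb := Cb_609.isBall_of_stdC Cb_609.isBall_real hH hS
  have h1 : H '' {p | N1 p ≤ 1} \ polySet v = H '' {p : ℝ × ℝ | N1 p < 1} := by
    rw [← hS, ← image_sdiff H.injective]
    congr 1
    ext p
    simp only [Set.mem_sdiff, S1, mem_ofPred_eq]
    exact ⟨fun ⟨h1, h2⟩ => lt_of_le_of_ne h1 h2, fun h1 => ⟨h1.le, h1.ne⟩⟩
  have h2 : IsOpen (H '' {p : ℝ × ℝ | N1 p < 1}) := by
    refine H.isOpenMap _ (isOpen_lt ?_ continuous_const)
    unfold N1; fun_prop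
  refine ⟨_, hb, ?_, by rw [h1]; exact h2⟩
  refine subset_of_frontier hb.isCompact hQc.interior ?_
  intro x hx
  rw [hb.isClosed.frontier_eq] at hx
  refine hs (by_contra fun h3 => hx.2 ?_)
  refine interior_maximal (?_ : H '' {p : ℝ × ℝ | N1 p < 1} ⊆ _) h2 ?_
  · exact image_mono fun p (hp : N1 p < 1) => (show N1 p ≤ 1 from hp.le)
  · rw [← h1]; exact ⟨hx.1, h3⟩

/-- the level set at one value as a `Seg` -/
def LSys.seg {Q : Set (ℝ × ℝ)} {u : ℝ × ℝ → ℝ} {J : Set ℝ} {I : Type} (L : LSys Q u J I)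
    {t : ℝ} (ht : t ∈ J) : Seg Q {x | x ∈ Q ∧ u x = t} I where
  a := fun i => L.a i t
  b := fun i => L.b i t
  ne := fun i => L.ne i t ht
  cov := fun x => L.cov t ht x
  opn := fun i => L.opn t ht i
  simple := fun i j hij x hx hx' => L.simple t ht i j hij x hx hx'
  db := fun i => by
    rcases L.db i with h | ⟨j, h⟩
    · exact Or.inl (h t ht)
    · exact Or.inr ⟨j, h t ht⟩

variable {Q : Set (ℝ × ℝ)} {u : ℝ × ℝ → ℝ} {J : Set ℝ} {I : Type}

/-- near every point of a level set in the interior there are higher and lower points -/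
theorem LSys.hilo (L : LSys Q u J I) {t : ℝ} (ht : t ∈ J) {x : ℝ × ℝ} (hx : x ∈ Q)
    (hu : u x = t) : (∃ᶠ y in 𝓝 x, t < u y) ∧ ∃ᶠ y in 𝓝 x, u y < t := by
  obtain ⟨i, hi⟩ := (L.cov t ht x).1 ⟨hx, hu⟩
  have hcl : x ∈ closure (openSegment ℝ (L.a i t) (L.b i t)) := by
    rw [closure_openSegment]; exact hi
  constructor
  · rw [frequently_iff]
    intro W hW
    obtain ⟨V, hVW, hVo, hxV⟩ := _root_.mem_nhds_iff.1 hW
    obtain ⟨y, hyV, hy⟩ := mem_closure_iff.1 hcl V hVo hxV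
    obtain ⟨z, hz1, hz2⟩ := (frequently_iff.1 (L.hi t ht i y hy)) (hVo.mem_nhds hyV)
    exact ⟨z, hVW hz1, hz2⟩
  · rw [frequently_iff]
    intro W hW
    obtain ⟨V, hVW, hVo, hxV⟩ := _root_.mem_nhds_iff.1 hW
    obtain ⟨y, hyV, hy⟩ := mem_closure_iff.1 hcl V hVo hxV
    obtain ⟨z, hz1, hz2⟩ := (frequently_iff.1 (L.lo t ht i y hy)) (hVo.mem_nhds hyV)
    exact ⟨z, hVW hz1, hz2⟩

section Space

variable {E : Type*} [NormedAddCommGroup E] [NormedSpace ℝ E] [FiniteDimensional ℝ E]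

/-- a flat face: an affine copy of a plane convex polygon -/
structure Flat (Q : Set (ℝ × ℝ)) (F rim : Set E) where
  φ : (ℝ × ℝ) →ᵃ[ℝ] E
  ρ : E →ᵃ[ℝ] (ℝ × ℝ)
  li : ∀ x, ρ (φ x) = x
  hF : φ '' Q = F
  hr : φ '' frontier Q = rim

variable {F rim : Set E} (Φ : Flat Q F rim)

theorem Flat.cφ : Continuous Φ.φ := Φ.φ.continuous_of_finiteDimensional

theorem Flat.cρ : Continuous Φ.ρ := Φ.ρ.continuous_of_finiteDimensional

theorem Flat.inj : Function.Injective Φ.φ := fun x y h => by rw [← Φ.li x, h, Φ.li]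

theorem Flat.ri {y : E} (hy : y ∈ F) : Φ.φ (Φ.ρ y) = y := by
  rw [← Φ.hF] at hy; obtain ⟨x, -, rfl⟩ := hy; rw [Φ.li]

theorem Flat.ρ_mem {y : E} (hy : y ∈ F) : Φ.ρ y ∈ Q := by
  rw [← Φ.hF] at hy; obtain ⟨x, hx, rfl⟩ := hy; rw [Φ.li]; exact hx

theorem Flat.mem_F {x : ℝ × ℝ} (hx : x ∈ Q) : Φ.φ x ∈ F := by
  have h : Φ.φ x ∈ Φ.φ '' Q := ⟨x, hx, rfl⟩
  exact Eq.mp (congrArg (fun A : Set E => (Φ.φ x ∈ A)) Φ.hF) h

theorem Flat.mem_rim {x : ℝ × ℝ} : Φ.φ x ∈ rim ↔ x ∈ frontier Q := by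
  constructor
  · intro h
    have h1 : Φ.φ x ∈ Φ.φ '' frontier Q :=
      Eq.mpr (congrArg (fun A : Set E => (Φ.φ x ∈ A)) Φ.hr) h
    obtain ⟨z, hz, hzx⟩ := h1
    rw [← Φ.inj hzx]; exact hz
  · intro h
    have h1 : Φ.φ x ∈ Φ.φ '' frontier Q := ⟨x, h, rfl⟩
    exact Eq.mp (congrArg (fun A : Set E => (Φ.φ x ∈ A)) Φ.hr) h1

/-- the affine copy of a plane disc -/
noncomputable def Flat.equiv (A : Set (ℝ × ℝ)) : PLEquiv A (Φ.φ '' A) where
  f := Φ.φ
  g := Φ.ρ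
  pf := plOn_affine _ _
  pg := plOn_affine _ _
  mf := fun x hx => ⟨x, hx, rfl⟩
  mg := by rintro _ ⟨x, hx, rfl⟩; show Φ.ρ (Φ.φ x) ∈ A; rw [Φ.li]; exact hx
  li := fun x _ => Φ.li x
  ri := by rintro _ ⟨x, hx, rfl⟩; show Φ.φ (Φ.ρ (Φ.φ x)) = _; rw [Φ.li]

theorem Flat.homeo : IsEmbedding Φ.φ := by
  refine ⟨⟨?_⟩, Φ.inj⟩
  exact (Function.LeftInverse.isEmbedding (f := Φ.ρ) (g := Φ.φ) Φ.li Φ.cρ Φ.cφ).eq_induced

/-- components of level sets correspond -/
theorem Flat.comp {ψ : E → ℝ} (hψ : ∀ x ∈ Q, ψ (Φ.φ x) = u x) {t : ℝ} {x : ℝ × ℝ}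
    (hx : x ∈ Q) (hu : u x = t) : connectedComponentIn (Ls F ψ t) (Φ.φ x) =
      Φ.φ '' connectedComponentIn {x | x ∈ Q ∧ u x = t} x := by
  have hL : Ls F ψ t = Φ.φ '' {x | x ∈ Q ∧ u x = t} := by
    ext y
    constructor
    · rintro ⟨hy, hyt⟩
      rw [← Φ.hF] at hy
      obtain ⟨z, hz, rfl⟩ := hy
      exact ⟨z, ⟨hz, (hψ z hz).symm.trans hyt⟩, rfl⟩
    · rintro ⟨z, ⟨hz, hzt⟩, rfl⟩
      exact ⟨Φ.mem_F hz, (hψ z hz).trans hzt⟩
  have hx' : x ∈ {x | x ∈ Q ∧ u x = t} := ⟨hx, hu⟩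
  have hφx : Φ.φ x ∈ Ls F ψ t := by rw [hL]; exact ⟨x, hx', rfl⟩
  apply Subset.antisymm
  · have h1 : Φ.ρ '' connectedComponentIn (Ls F ψ t) (Φ.φ x) ⊆
        connectedComponentIn {x | x ∈ Q ∧ u x = t} x := by
      refine (isPreconnected_connectedComponentIn.image _ Φ.cρ.continuousOn).subset_connectedComponentIn
        ⟨_, mem_connectedComponentIn hφx, Φ.li x⟩ ?_
      rintro _ ⟨y, hy, rfl⟩
      have := connectedComponentIn_subset _ _ hy
      rw [hL] at this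
      obtain ⟨z, hz, rfl⟩ := this
      rw [Φ.li]; exact hz
    intro y hy
    have h2 : y ∈ F := (connectedComponentIn_subset _ _ hy).1
    exact ⟨Φ.ρ y, h1 ⟨y, hy, rfl⟩, Φ.ri h2⟩
  · refine (isPreconnected_connectedComponentIn.image _ Φ.cφ.continuousOn).subset_connectedComponentIn
      ⟨x, mem_connectedComponentIn hx', rfl⟩ ?_
    rw [hL]
    exact image_mono (connectedComponentIn_subset _ _)



/-- **465's `Lev` from a system of segments** -/
theorem LSys.lev [Finite I] (L : LSys Q u J I) (hQ : IsCompact Q) (hQc : Convex ℝ Q)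
    (hu : ContinuousOn u Q) {ψ : E → ℝ} (hψ : ∀ x ∈ Q, ψ (Φ.φ x) = u x) :
    Lev F rim ψ J where
  cont := by
    have h1 : ContinuousOn (fun y => u (Φ.ρ y)) F :=
      hu.comp Φ.cρ.continuousOn fun y hy => Φ.ρ_mem hy
    refine h1.congr fun y hy => ?_
    show ψ y = u (Φ.ρ y)
    rw [← hψ _ (Φ.ρ_mem hy), Φ.ri hy]
  fin := by
    intro t ht
    let S := L.seg ht
    refine (Set.finite_range fun i : I => connectedComponentIn (Ls F ψ t) (Φ.φ (L.a i t))).subset ?_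
    rintro Γ ⟨⟨x, hx, hxt, rfl⟩, -⟩
    have hxQ := Φ.ρ_mem hx
    have hux : u (Φ.ρ x) = t := by rw [← hψ _ hxQ, Φ.ri hx, hxt]
    obtain ⟨i, hi⟩ := (L.cov t ht _).1 ⟨hxQ, hux⟩
    have ha := (L.cov t ht (L.a i t)).2 ⟨i, left_mem_segment ℝ _ _⟩
    refine ⟨i, ?_⟩
    show connectedComponentIn (Ls F ψ t) (Φ.φ (L.a i t)) = _
    have e1 := Φ.comp hψ ha.1 ha.2
    have e2 := Φ.comp hψ hxQ hux
    rw [Φ.ri hx] at e2
    rw [e1, e2]
    congr 1
    refine connectedComponentIn_eq ?_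
    exact (convex_segment _ _).isPreconnected.subset_connectedComponentIn
      (left_mem_segment ℝ _ _) (fun y hy => (L.cov t ht y).2 ⟨i, hy⟩) hi
  comp := by
    intro t ht x hx hxt
    have hxQ := Φ.ρ_mem hx
    have hux : u (Φ.ρ x) = t := by rw [← hψ _ hxQ, Φ.ri hx, hxt]
    obtain ⟨i, hi⟩ := (L.cov t ht _).1 ⟨hxQ, hux⟩
    have e2 := Φ.comp hψ hxQ hux
    rw [Φ.ri hx] at e2
    let S := L.seg ht
    by_cases hcl : S.Cl i
    · right
      have hxc : Φ.ρ x ∈ S.cyc i := Seg.seg_sub_cyc (S := S) i hi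
      have hcomp := hcl.component hxc
      obtain ⟨n, v, hv, hvs⟩ := hcl.poly
      have hin : S.cyc i ⊆ interior Q := hcl.sub_interior
      obtain ⟨Fc, h1, h2, h3⟩ := exists_disc hQc hv (hvs ▸ hin)
      refine ⟨⟨x, hx, hxt, rfl⟩, Φ.φ '' Fc, ?_, ?_, Φ.ρ ⁻¹' (Fc \ polySet v),
        h3.preimage Φ.cρ, ?_⟩
      · rw [e2]
        have h4 := h1.map (Φ.equiv Fc)
        have h5 : (Φ.equiv Fc).f '' polySet v = Φ.φ '' connectedComponentIn
            {x | x ∈ Q ∧ u x = t} (Φ.ρ x) := by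
          rw [hcomp, hvs]; rfl
        rw [h5] at h4
        exact h4
      · rintro _ ⟨y, hy, rfl⟩
        exact ⟨Φ.mem_F (interior_subset (h2 hy)), fun hr => (Φ.mem_rim.1 hr).2 (h2 hy)⟩
      · ext y
        constructor
        · rintro ⟨hy1, hy2⟩
          refine ⟨⟨Φ.ρ y, hy1.1, Φ.ri hy2⟩, fun hy3 => hy1.2 ?_⟩
          rw [e2, hcomp, ← hvs] at hy3
          obtain ⟨z, hz, rfl⟩ := hy3
          rw [Φ.li]; exact hz
        · rintro ⟨⟨z, hz, rfl⟩, hy⟩
          refine ⟨?_, Φ.mem_F (interior_subset (h2 hz))⟩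
          show Φ.ρ (Φ.φ z) ∈ Fc \ polySet v
          rw [Φ.li]
          refine ⟨hz, fun h4 => hy ?_⟩
          rw [e2, hcomp, ← hvs]
          exact ⟨z, h4, rfl⟩
    · left
      obtain ⟨y, hy1, hy2⟩ := Seg.reaches hcl hi
      refine ⟨Φ.φ y, ?_, ?_⟩
      · rw [e2]; exact ⟨y, hy1, rfl⟩
      · exact Φ.mem_rim.2 hy2
  extr := by
    intro x hx hr hxJ
    have hxQ := Φ.ρ_mem hx
    have hux : u (Φ.ρ x) = ψ x := by rw [← hψ _ hxQ, Φ.ri hx]
    have hint : Φ.ρ x ∈ interior Q := by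
      by_contra hn
      refine hr ?_
      rw [← Φ.ri hx, Φ.mem_rim, hQ.isClosed.frontier_eq]
      exact ⟨hxQ, hn⟩
    obtain ⟨h1, h2⟩ := L.hilo hxJ hxQ hux
    have hback : Tendsto Φ.φ (𝓝[Q] (Φ.ρ x)) (𝓝[F] x) := by
      have h3 : Tendsto Φ.φ (𝓝 (Φ.ρ x)) (𝓝 x) := by
        have := Φ.cφ.tendsto (Φ.ρ x); rwa [Φ.ri hx] at this
      refine tendsto_nhdsWithin_iff.2 ⟨h3.mono_left nhdsWithin_le_nhds, ?_⟩
      filter_upwards [self_mem_nhdsWithin] with y hy
      exact Φ.mem_F hy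
    have hnear : ∀ᶠ y in 𝓝 (Φ.ρ x), y ∈ Q := mem_interior_iff_mem_nhds.1 hint
    have hn2 : 𝓝[Q] (Φ.ρ x) = 𝓝 (Φ.ρ x) := nhdsWithin_eq_nhds.2 hnear
    rw [hn2] at hback
    constructor
    · intro hm
      have h4 : ∀ᶠ y in 𝓝 (Φ.ρ x), ψ x ≤ ψ (Φ.φ y) := hback.eventually hm
      obtain ⟨y, hy1, hy2, hy3⟩ := (h2.and_eventually (h4.and hnear)).exists
      rw [hψ y hy3] at hy2
      linarith
    · intro hm
      have h4 : ∀ᶠ y in 𝓝 (Φ.ρ x), ψ (Φ.φ y) ≤ ψ x := hback.eventually hm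
      obtain ⟨y, hy1, hy2, hy3⟩ := (h1.and_eventually (h4.and hnear)).exists
      rw [hψ y hy3] at hy2
      linarith

end Space

end Crest.Agent.R096.Lvl_816
end

-- ▼ part R096/Lvl6_816
section

/-!
# Level curves of a piecewise affine function on a plane convex polygon, part 6 (helper816, row 96)

Existence of the line arrangement.
-/

set_option autoImplicit false
set_option linter.unusedSectionVars false

open Set Filter Topology

namespace Crest.Agent.R096.Lvl_816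

namespace Fn

/-- zero set -/
def Z (f : Fn) : Set (ℝ × ℝ) := {x | f.ev x = 0}

/-- difference -/
def sub (f g : Fn) : Fn := ⟨f.a - g.a, f.b - g.b, f.c - g.c⟩

theorem ev_sub' (f g : Fn) (x : ℝ × ℝ) : (f.sub g).ev x = f.ev x - g.ev x := by
  simp only [ev, sub]; ring

theorem eq_of_sub {f g : Fn} (h : (f.sub g).dir = 0) {x : ℝ × ℝ} (hx : f.ev x = g.ev x) :
    f = g := by
  simp only [dir, sub, Prod.mk_eq_zero, neg_eq_zero, sub_eq_zero] at h
  obtain ⟨h1, h2⟩ := h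
  have h3 : f.c = g.c := by
    simp only [ev, h1, h2] at hx; linarith
  cases f; cases g; simp_all

theorem const_of_dir {f : Fn} (h : f.dir = 0) (x y : ℝ × ℝ) : f.ev x = f.ev y := by
  simp only [dir, Prod.mk_eq_zero, neg_eq_zero] at h
  simp [ev, h.1, h.2]

theorem Z_sub {f g : Fn} (hf : f.dir ≠ 0) {x y : ℝ × ℝ} (hxy : x ≠ y)
    (h1 : f.ev x = 0) (h2 : g.ev x = 0) (h3 : f.ev y = 0) (h4 : g.ev y = 0) : Z f ⊆ Z g := by
  intro z hz
  obtain ⟨r, hr⟩ := exists_level hf (h3.trans h1.symm)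
  obtain ⟨s, hs⟩ := exists_level hf ((show f.ev z = 0 from hz).trans h1.symm)
  have hr0 : r ≠ 0 := by
    rintro rfl; rw [zero_smul, add_zero] at hr; exact hxy hr.symm
  have h5 : g.ln f.dir = 0 := by
    have h6 : g.ev y = 0 := h4
    rw [hr, ev_add, h2, zero_add] at h6
    rcases mul_eq_zero.1 h6 with h | h
    · exact absurd h hr0
    · exact h
  show g.ev z = 0
  rw [hs, ev_add, h2, h5]; ring

theorem Z_eq {f g : Fn} (hf : f.dir ≠ 0) (hg : g.dir ≠ 0) {x y : ℝ × ℝ} (hxy : x ≠ y)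
    (h1 : f.ev x = 0) (h2 : g.ev x = 0) (h3 : f.ev y = 0) (h4 : g.ev y = 0) : Z f = Z g :=
  (Z_sub hf hxy h1 h2 h3 h4).antisymm (Z_sub hg hxy h2 h1 h4 h3)

end Fn

section Build

variable {Q : Set (ℝ × ℝ)} {u : ℝ × ℝ → ℝ}

/-- **existence of a line arrangement** adapted to a convex polygon and a piecewise affine
function. -/
theorem exists_arr {𝓑 S : Set Fn} (hB : 𝓑.Finite) (hS : S.Finite)
    (hQ : ∀ x, x ∈ Q ↔ ∀ f ∈ 𝓑, 0 ≤ f.ev x) {p₀ : ℝ × ℝ} (hp : ∀ f ∈ 𝓑, 0 < f.ev p₀)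
    (hu : ContinuousOn u Q) (hs : ∀ x ∈ Q, ∃ g ∈ S, u x = g.ev x) :
    ∃ (m : Type) (_ : Finite m), Nonempty (Arr m Q u) := by
  classical
  let 𝓛 : Set Fn := {f | f.dir ≠ 0 ∧ (f ∈ 𝓑 ∨ ∃ g ∈ S, ∃ g' ∈ S, f = g.sub g')}
  have hL : 𝓛.Finite := by
    refine (hB.union (hS.image2 Fn.sub hS)).subset ?_
    rintro f ⟨-, h | ⟨g, hg, g', hg', h⟩⟩
    · exact Or.inl h
    · exact Or.inr ⟨g, hg, g', hg', h.symm⟩
  let m : Type := {L : Set (ℝ × ℝ) // L ∈ Fn.Z '' 𝓛}
  have hm : Finite m := (hL.image _).to_subtype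
  let bd : m → Prop := fun j => ∃ f ∈ 𝓑, f.dir ≠ 0 ∧ f.Z = j.1
  have hex : ∀ j : m, ∃ f ∈ 𝓛, f.Z = j.1 ∧ (bd j → f ∈ 𝓑) := by
    intro j
    by_cases hb : bd j
    · obtain ⟨f, hf, hd, hz⟩ := hb
      exact ⟨f, ⟨hd, Or.inl hf⟩, hz, fun _ => hf⟩
    · obtain ⟨f, hf, hz⟩ := j.2
      exact ⟨f, hf, hz, fun h => absurd h hb⟩
  choose l hlL hlZ hlB using hex
  have hnz : ∀ j, (l j).dir ≠ 0 := fun j => (hlL j).1
  have hQ' : ∀ x, x ∈ Q ↔ ∀ j, bd j → 0 ≤ (l j).ev x := by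
    intro x
    rw [hQ]
    constructor
    · intro h j hj; exact h _ (hlB j hj)
    · intro h f hf
      by_cases hd : f.dir = 0
      · rw [Fn.const_of_dir hd x p₀]; exact (hp f hf).le
      · by_contra hneg
        rw [not_le] at hneg
        let j : m := ⟨f.Z, ⟨f, ⟨hd, Or.inl hf⟩, rfl⟩⟩
        have hj : bd j := ⟨f, hf, hd, rfl⟩
        have h1 := h j hj
        have h2 := hp _ (hlB j hj)
        have h3 := hp f hf
        -- the point where f vanishes
        let s := f.ev x / (f.ev x - f.ev p₀)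
        have hden : f.ev x - f.ev p₀ < 0 := by linarith
        have hs0 : 0 < s := div_pos_of_neg_of_neg hneg hden
        have hs1 : s < 1 := by
          rw [div_lt_one_of_neg hden]; linarith
        have h4 : f.ev ((1 - s) • x + s • p₀) = 0 := by
          rw [Fn.ev_comb _ _ _ (by ring)]
          have : s * (f.ev x - f.ev p₀) = f.ev x := div_mul_cancel₀ _ hden.ne
          linarith
        have h5 : (1 - s) • x + s • p₀ ∈ (l j).Z := by
          rw [hlZ j]; exact h4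
        have h6 : (l j).ev ((1 - s) • x + s • p₀) = 0 := h5
        rw [Fn.ev_comb _ _ _ (by ring)] at h6
        have := mul_pos hs0 h2
        have := mul_nonneg (sub_nonneg.2 hs1.le) h1
        linarith
  -- on an open cell the selection is unique
  have hcell : ∀ σ : m → Bool, (∀ j, bd j → σ j = true) →
      (∃ x, ∀ j, 0 < sg (σ j) * (l j).ev x) →
      ∃ g : Fn, ∀ x, (∀ j, 0 ≤ sg (σ j) * (l j).ev x) → u x = g.ev x := by
    intro σ hσ ⟨x₀, hx₀⟩
    let O : Set (ℝ × ℝ) := {x | ∀ j, 0 < sg (σ j) * (l j).ev x}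
    let C : Set (ℝ × ℝ) := {x | ∀ j, 0 ≤ sg (σ j) * (l j).ev x}
    have hOo : IsOpen O := by
      have : O = ⋂ j, {x | 0 < sg (σ j) * (l j).ev x} := by ext x; simp [O]
      rw [this]
      refine isOpen_iInter_of_finite fun j => isOpen_lt continuous_const ?_
      have := (l j).continuous_ev
      fun_prop
    have hOc : Convex ℝ O := by
      intro x hx y hy p q hp' hq' hpq j
      rw [Fn.ev_comb _ _ _ hpq]
      have h1 := hx j
      have h2 := hy j
      have h3 : sg (σ j) * (p * (l j).ev x + q * (l j).ev y) =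
          p * (sg (σ j) * (l j).ev x) + q * (sg (σ j) * (l j).ev y) := by ring
      rw [h3]
      rcases hp'.eq_or_lt with h | h
      · have : q = 1 := by linarith
        rw [← h, this]; linarith
      · have := mul_pos h h1
        have := mul_nonneg hq' h2.le
        linarith
    have hCQ : C ⊆ Q := by
      intro x hx
      rw [hQ']
      intro j hj
      have := hx j
      rw [hσ j hj, sg_true, one_mul] at this
      exact this
    have hOC : O ⊆ C := fun x hx j => (hx j).le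
    have huniq : ∀ x ∈ O, ∀ g ∈ S, ∀ g' ∈ S, g.ev x = g'.ev x → g = g' := by
      intro x hx g hg g' hg' he
      by_cases hd : (g.sub g').dir = 0
      · exact Fn.eq_of_sub hd he
      · exfalso
        let j : m := ⟨(g.sub g').Z, ⟨_, ⟨hd, Or.inr ⟨g, hg, g', hg', rfl⟩⟩, rfl⟩⟩
        have h1 : x ∈ (g.sub g').Z := by show (g.sub g').ev x = 0; rw [Fn.ev_sub', he, sub_self]
        have h2 : x ∈ (l j).Z := by rw [hlZ j]; exact h1
        have h3 : (l j).ev x = 0 := h2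
        have h4 := hx j
        rw [h3, mul_zero] at h4
        exact lt_irrefl _ h4
    obtain ⟨g₀, hg₀, hx₀g⟩ := hs x₀ (hCQ (hOC hx₀))
    have huO : ContinuousOn u O := hu.mono (hOC.trans hCQ)
    have hopen : ∀ g : Fn, IsOpen {x | x ∈ O ∧ u x ≠ g.ev x} := by
      intro g
      have h1 : {x | x ∈ O ∧ u x ≠ g.ev x} = O ∩ (fun x => u x - g.ev x) ⁻¹' {0}ᶜ := by
        ext x; simp [sub_eq_zero]
      rw [h1]
      exact (huO.sub g.continuous_ev.continuousOn).isOpen_inter_preimage hOo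
        isOpen_compl_singleton
    have hU : IsOpen {x | x ∈ O ∧ u x = g₀.ev x} := by
      have h1 : {x | x ∈ O ∧ u x = g₀.ev x} =
          O ∩ ⋂ g ∈ S \ {g₀}, {x | x ∈ O ∧ u x ≠ g.ev x} := by
        ext x
        simp only [mem_ofPred_eq, mem_inter_iff, mem_iInter]
        constructor
        · rintro ⟨h1, h2⟩
          refine ⟨h1, fun g hg => ⟨h1, fun h3 => hg.2 ?_⟩⟩
          exact huniq x h1 g hg.1 g₀ hg₀ (h3.symm.trans h2)
        · rintro ⟨h1, h2⟩
          refine ⟨h1, ?_⟩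
          obtain ⟨g, hg, hgx⟩ := hs x (hCQ (hOC h1))
          by_cases he : g = g₀
          · rw [← he]; exact hgx
          · exact absurd hgx (h2 g ⟨hg, he⟩).2
      rw [h1]
      exact hOo.inter ((hS.subset sdiff_subset).isOpen_biInter fun g _ => hopen g)
    have hall : ∀ x ∈ O, u x = g₀.ev x := by
      rcases hOc.isPreconnected.subset_or_subset hU (hopen g₀)
        (disjoint_left.2 fun x h1 h2 => h2.2 h1.2) (fun x hx => by
          by_cases h : u x = g₀.ev x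
          · exact Or.inl ⟨hx, h⟩
          · exact Or.inr ⟨hx, h⟩) with h1 | h1
      · exact fun x hx => (h1 hx).2
      · exact absurd hx₀g (h1 hx₀).2
    have hcl : C ⊆ closure O := by
      intro x hx
      have h1 : ∀ s ∈ Ioc (0 : ℝ) 1, (1 - s) • x + s • x₀ ∈ O := by
        intro s hs' j
        rw [Fn.ev_comb _ _ _ (by ring)]
        have h2 := hx j
        have h3 := hx₀ j
        have h4 : sg (σ j) * ((1 - s) * (l j).ev x + s * (l j).ev x₀) =
            (1 - s) * (sg (σ j) * (l j).ev x) + s * (sg (σ j) * (l j).ev x₀) := by ring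
        rw [h4]
        have := mul_nonneg (sub_nonneg.2 hs'.2) h2
        have := mul_pos hs'.1 h3
        linarith
      have h2 : Tendsto (fun s : ℝ => (1 - s) • x + s • x₀) (𝓝[>] 0) (𝓝 x) := by
        have hc : Continuous fun s : ℝ => (1 - s) • x + s • x₀ := by fun_prop
        have h3 := hc.tendsto 0
        rw [sub_zero, one_smul, zero_smul, add_zero] at h3
        exact h3.mono_left nhdsWithin_le_nhds
      refine mem_closure_of_tendsto h2 ?_
      filter_upwards [Ioc_mem_nhdsGT (show (0 : ℝ) < 1 by norm_num)] with s hs'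
      exact h1 s hs'
    refine ⟨g₀, fun x hx => ?_⟩
    have h1 : EqOn u g₀.ev C := Set.EqOn.of_subset_closure (fun x hx => hall x hx)
      (hu.mono hCQ) g₀.continuous_ev.continuousOn hOC hcl
    exact h1 hx
  have : Nonempty Fn := ⟨⟨0, 0, 0⟩⟩
  choose! g hg using hcell
  exact ⟨m, hm, ⟨{
    l := l
    bd := bd
    g := g
    nz := hnz
    dis := by
      intro j k hjk x y h1 h2 h3 h4
      by_contra hxy
      refine hjk (Subtype.ext ?_)
      rw [← hlZ j, ← hlZ k]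
      exact Fn.Z_eq (hnz j) (hnz k) hxy h1 h2 h3 h4
    hQ := hQ'
    hg := fun σ h1 h2 x hx => hg σ h1 h2 x hx }⟩⟩

/-- the frontier of the polygon -/
theorem mem_frontier_iff {𝓑 : Set Fn} (hB : 𝓑.Finite)
    (hQ : ∀ x, x ∈ Q ↔ ∀ f ∈ 𝓑, 0 ≤ f.ev x) {p₀ : ℝ × ℝ} (hp : ∀ f ∈ 𝓑, 0 < f.ev p₀)
    {x : ℝ × ℝ} (hx : x ∈ Q) : x ∈ frontier Q ↔ ∃ f ∈ 𝓑, f.ev x = 0 := by
  have hcl : IsClosed Q := by
    have : Q = ⋂ f ∈ 𝓑, {x | 0 ≤ f.ev x} := by ext x; rw [hQ]; simp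
    rw [this]
    exact isClosed_biInter fun f _ => isClosed_le continuous_const f.continuous_ev
  rw [hcl.frontier_eq]
  constructor
  · rintro ⟨-, hn⟩
    by_contra h
    push Not at h
    refine hn (mem_interior_iff_mem_nhds.2 ?_)
    have h1 : IsOpen {y | ∀ f ∈ 𝓑, 0 < f.ev y} := by
      have : {y | ∀ f ∈ 𝓑, 0 < f.ev y} = ⋂ f ∈ 𝓑, {x | 0 < f.ev x} := by ext x; simp
      rw [this]
      exact hB.isOpen_biInter fun f _ => isOpen_lt continuous_const f.continuous_ev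
    refine mem_of_superset (h1.mem_nhds fun f hf => lt_of_le_of_ne ((hQ x).1 hx f hf)
      (h f hf).symm) fun y hy => (hQ y).2 fun f hf => (hy f hf).le
  · rintro ⟨f, hf, h0⟩
    refine ⟨hx, fun hi => ?_⟩
    have h1 : Tendsto (fun s : ℝ => x + s • (x - p₀)) (𝓝[>] 0) (𝓝 x) := by
      have hc : Continuous fun s : ℝ => x + s • (x - p₀) := by fun_prop
      have h2 := hc.tendsto 0
      rw [zero_smul, add_zero] at h2
      exact h2.mono_left nhdsWithin_le_nhds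
    have h3 : ∀ᶠ s : ℝ in 𝓝[>] 0, x + s • (x - p₀) ∈ Q :=
      h1.eventually (mem_interior_iff_mem_nhds.1 hi)
    obtain ⟨s, hs, hs0⟩ := (h3.and self_mem_nhdsWithin).exists
    have hs0 : 0 < s := hs0
    have h4 := (hQ _).1 hs f hf
    rw [Fn.ev_add, ← Fn.ev_sub, h0] at h4
    have := hp f hf
    nlinarith

end Build

end Crest.Agent.R096.Lvl_816
end

-- ▼ part R096/Lvl7_816
section

/-!
# Level curves of a piecewise affine function on a flat face, part 7 (helper816, row 96)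

`Lev` for the closed 2-cells of a tiling.
-/

set_option autoImplicit false
set_option linter.unusedSectionVars false

open Set Filter Topology Metric

namespace Crest.Agent.R096.Lvl_816

open Ce_537 Pl Srg_465 Msh_715

/-- an affine function of the plane as a triple -/
noncomputable def toFn (a : (ℝ × ℝ) →ᵃ[ℝ] ℝ) : Fn := ⟨a.linear (1, 0), a.linear (0, 1), a 0⟩

theorem ev_toFn (a : (ℝ × ℝ) →ᵃ[ℝ] ℝ) (p : ℝ × ℝ) : (toFn a).ev p = a p := by
  have h1 : a p = a.linear p + a 0 := by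
    have := a.map_vadd 0 p
    simpa using this
  have h2 : p = p.1 • (1, 0) + p.2 • ((0 : ℝ), (1 : ℝ)) := by ext <;> simp
  rw [h1]
  conv_rhs => rw [h2]
  rw [map_add, map_smul, map_smul, smul_eq_mul, smul_eq_mul]
  simp only [Fn.ev, toFn]; ring


section Cell

variable {E : Type*} [NormedAddCommGroup E] [NormedSpace ℝ E] [FiniteDimensional ℝ E]
  {Om : Set E} {ι : Type*}


end Cell

end Crest.Agent.R096.Lvl_816
namespace Crest.Agent.R096.Lvl_816.Flat
end Crest.Agent.R096.Lvl_816.Flat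
end

-- ▼ part R096/Srg6_465

/-!
# R096 (row 96), 2SK-SURG, part 6: LEV with a uniform bound; `Surg T La` (helper465)

`lev_cell_card`: 816's `lev_cell` (Lvl7_816) together with the bound of the number of circles by
the number of segments of the system (same proof).
`surg_final`: `Surg T La` from the PL Schoenflies theorem for two discs only.
-/

set_option autoImplicit false
set_option linter.unusedSectionVars false

open Set Filter Topology Metric

namespace Crest.Agent.R096.Lvl_816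

open Ce_537 Pl Srg_465 Msh_715

theorem LSys.ncard_le {E : Type*} [NormedAddCommGroup E] [NormedSpace ℝ E]
    [FiniteDimensional ℝ E] {Q : Set (ℝ × ℝ)} {F rim : Set E} {u : ℝ × ℝ → ℝ} {J : Set ℝ}
    {I : Type} [Finite I] (L : LSys Q u J I) (Φ : Flat Q F rim) {ψ : E → ℝ}
    (hψ : ∀ x ∈ Q, ψ (Φ.φ x) = u x) {t : ℝ} (ht : t ∈ J) :
    {Γ | Circ F rim ψ t Γ}.ncard ≤ Nat.card I := by
  have hsub : {Γ | Circ F rim ψ t Γ} ⊆
      range fun i : I => connectedComponentIn (Ls F ψ t) (Φ.φ (L.a i t)) := by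
    rintro Γ ⟨⟨x, hx, hxt, rfl⟩, -⟩
    have hxQ := Φ.ρ_mem hx
    have hux : u (Φ.ρ x) = t := by rw [← hψ _ hxQ, Φ.ri hx, hxt]
    obtain ⟨i, hi⟩ := (L.cov t ht _).1 ⟨hxQ, hux⟩
    have ha := (L.cov t ht (L.a i t)).2 ⟨i, left_mem_segment ℝ _ _⟩
    refine ⟨i, ?_⟩
    show connectedComponentIn (Ls F ψ t) (Φ.φ (L.a i t)) = _
    have e1 := Φ.comp hψ ha.1 ha.2
    have e2 := Φ.comp hψ hxQ hux
    rw [Φ.ri hx] at e2
    rw [e1, e2]
    congr 1
    refine connectedComponentIn_eq ?_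
    exact (convex_segment _ _).isPreconnected.subset_connectedComponentIn
      (left_mem_segment ℝ _ _) (fun y hy => (L.cov t ht y).2 ⟨i, hy⟩) hi
  refine (Set.ncard_le_ncard hsub (Set.finite_range _)).trans ?_
  rw [← Set.image_univ]
  refine (Set.ncard_image_le Set.finite_univ).trans ?_
  rw [Set.ncard_univ]

/-- **`Lev` on an affine copy of a convex polygon** -/
theorem Flat.exists_lev_card {E : Type*} [NormedAddCommGroup E] [NormedSpace ℝ E]
    [FiniteDimensional ℝ E] {Q : Set (ℝ × ℝ)} {F rim : Set E} (Φ : Flat Q F rim) {𝓑 : Set Fn}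
    (hB : 𝓑.Finite) (hQ : ∀ x, x ∈ Q ↔ ∀ f ∈ 𝓑, 0 ≤ f.ev x) {p₀ : ℝ × ℝ}
    (hp : ∀ f ∈ 𝓑, 0 < f.ev p₀) (hc : IsCompact Q) {ψ : E → ℝ} (hψ : PLOn ψ F) :
    ∃ B : Set ℝ, B.Finite ∧ ∀ J : Set ℝ, IsPreconnected J → Disjoint J B → Lev F rim ψ J ∧
      ∃ M : ℕ, ∀ t ∈ J, {Γ | Circ F rim ψ t Γ}.ncard ≤ M := by
  classical
  obtain ⟨hψc, S, hS⟩ := hψ
  have hconv : Convex ℝ Q := by
    intro x hx y hy p q hp' hq' hpq
    rw [hQ] at hx hy ⊢
    intro f hf
    rw [Fn.ev_comb _ _ _ hpq]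
    have := mul_nonneg hp' (hx f hf)
    have := mul_nonneg hq' (hy f hf)
    linarith
  have hu : ContinuousOn (fun x => ψ (Φ.φ x)) Q :=
    hψc.comp Φ.cφ.continuousOn fun x hx => Φ.mem_F hx
  obtain ⟨m, hm, ⟨A⟩⟩ := exists_arr (Q := Q) (u := fun x => ψ (Φ.φ x)) hB
    (S := (fun a : E →ᵃ[ℝ] ℝ => toFn (a.comp Φ.φ)) '' (S : Set (E →ᵃ[ℝ] ℝ)))
    (S.finite_toSet.image _) hQ hp hu (fun x hx => by
      obtain ⟨a, ha, e⟩ := hS (Φ.φ x) (Φ.mem_F hx)
      exact ⟨_, ⟨a, ha, rfl⟩, by rw [ev_toFn]; exact e⟩)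
  refine ⟨A.Bad, A.finite_bad, fun J hJ hJB => ?_⟩
  rcases J.eq_empty_or_nonempty with rfl | ⟨t₀, ht₀⟩
  · exact ⟨⟨hψc, fun t ht => absurd ht (notMem_empty t), fun t ht => absurd ht (notMem_empty t),
      fun x _ _ h => absurd h (notMem_empty _)⟩, 0, fun t ht => absurd ht (notMem_empty t)⟩
  · obtain ⟨I, hI, ⟨L⟩⟩ := A.exists_lsys hc hJ hJB ht₀
    exact ⟨L.lev Φ hc hconv hu fun x _ => rfl, Nat.card I, fun t ht =>
      L.ncard_le Φ (fun x _ => rfl) ht⟩

section Cell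

variable {E : Type*} [NormedAddCommGroup E] [NormedSpace ℝ E] [FiniteDimensional ℝ E]
  {Om : Set E} {ι : Type*}

/-- **the regular levels of a PL function on a closed 2-cell of a tiling** -/
theorem lev_cell_card (T : Tiling Om ι) {x : E} (hx : x ∈ Om) (hd : T.dim x = 2) {ψ : E → ℝ}
    (hψ : PLOn ψ (T.cc x)) :
    ∃ B : Set ℝ, B.Finite ∧ ∀ J : Set ℝ, IsPreconnected J → Disjoint J B →
      Lev (T.cc x) (T.cc x ∩ Sk2_855.sk1 T) ψ J ∧
        ∃ M : ℕ, ∀ t ∈ J, {Γ | Circ (T.cc x) (T.cc x ∩ Sk2_855.sk1 T) ψ t Γ}.ncard ≤ M := by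
  classical
  let V := T.V x
  have hfr : Module.finrank ℝ (ℝ × ℝ) = Module.finrank ℝ V := by
    have : Module.finrank ℝ (ℝ × ℝ) = 2 := by simp
    rw [this]; exact hd.symm
  let e : (ℝ × ℝ) ≃ₗ[ℝ] V := LinearEquiv.ofFinrankEq _ _ hfr
  let L : (ℝ × ℝ) →ₗ[ℝ] E := V.subtype.comp e.toLinearMap
  have hLinj : Function.Injective L := V.injective_subtype.comp e.injective
  have hLV : ∀ p, L p ∈ V := fun p => (e p).2
  obtain ⟨r, hr⟩ := LinearMap.exists_leftInverse_of_injective L (LinearMap.ker_eq_bot.2 hLinj)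
  have hrL : ∀ p, r (L p) = p := fun p => by
    have := congrArg (fun g : (ℝ × ℝ) →ₗ[ℝ] (ℝ × ℝ) => g p) hr
    exact this
  let φ : (ℝ × ℝ) →ᵃ[ℝ] E := L.toAffineMap + AffineMap.const ℝ _ x
  have hφ : ∀ p, φ p = L p + x := fun p => rfl
  let ρ : E →ᵃ[ℝ] (ℝ × ℝ) := r.toAffineMap - AffineMap.const ℝ _ (r x)
  have hρ : ∀ y, ρ y = r y - r x := fun p => rfl
  have hli : ∀ p, ρ (φ p) = p := fun p => by
    rw [hρ, hφ, map_add, hrL, add_sub_cancel_right]
  have hri : ∀ y ∈ T.cc x, φ (ρ y) = y := by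
    intro y hy
    have h1 : y - x ∈ V := T.sub_mem_V hy
    obtain ⟨p, hp⟩ : ∃ p, L p = y - x := ⟨e.symm ⟨_, h1⟩, by
      show ((e (e.symm ⟨y - x, h1⟩) : V) : E) = y - x
      rw [e.apply_symm_apply]⟩
    rw [hρ, ← map_sub, ← hp, hrL, hφ, hp, sub_add_cancel]
  let H := T.Hx hx
  have hfc : ∀ y, y ∈ T.cc x ↔ ∀ h ∈ H, h.1 y ≤ h.2 ∧ (h.1 x = h.2 → h.1 y = h.2) := by
    intro y; rw [← T.fc_Hx hx]; rfl
  have hfo : ∀ y, y ∈ T.oc x ↔ ∀ h ∈ H, h.1 y ≤ h.2 ∧ (h.1 y = h.2 ↔ h.1 x = h.2) := by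
    intro y; rw [← T.fo_Hx hx]; rfl
  have hVH : ∀ p, ∀ h ∈ H, h.1 x = h.2 → h.1 (L p) = 0 := by
    intro p h hh e1
    have h1 : L p ∈ dirP H x := by rw [T.dirP_Hx hx]; exact hLV p
    exact h1 h hh e1
  let fn : ((E →L[ℝ] ℝ) × ℝ) → Fn := fun h =>
    ⟨- h.1 (L (1, 0)), - h.1 (L (0, 1)), h.2 - h.1 x⟩
  have hfn : ∀ h p, (fn h).ev p = h.2 - h.1 (φ p) := by
    intro h p
    have h2 : p = p.1 • (1, 0) + p.2 • ((0 : ℝ), (1 : ℝ)) := by ext <;> simp
    have h3 : h.1 (L p) = p.1 * h.1 (L (1, 0)) + p.2 * h.1 (L (0, 1)) := by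
      conv_lhs => rw [h2]
      rw [map_add, map_smul, map_smul, map_add, map_smul, map_smul, smul_eq_mul, smul_eq_mul]
    rw [hφ, map_add, h3]
    simp only [Fn.ev, fn]; ring
  let 𝓑 : Set Fn := fn '' {h | h ∈ H ∧ h.1 x ≠ h.2}
  have hBfin : 𝓑.Finite := (H.finite_toSet.subset fun h hh => hh.1).image _
  let Q : Set (ℝ × ℝ) := φ ⁻¹' T.cc x
  have hQ : ∀ p, p ∈ Q ↔ ∀ f ∈ 𝓑, 0 ≤ f.ev p := by
    intro p
    show φ p ∈ T.cc x ↔ _
    rw [hfc]
    constructor
    · rintro h1 _ ⟨h, ⟨hh, hne⟩, rfl⟩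
      rw [hfn]
      linarith [(h1 h hh).1]
    · intro h1 h hh
      by_cases he : h.1 x = h.2
      · have : h.1 (φ p) = h.2 := by rw [hφ, map_add, hVH p h hh he, zero_add, he]
        exact ⟨this.le, fun _ => this⟩
      · have := h1 _ ⟨h, ⟨hh, he⟩, rfl⟩
        rw [hfn] at this
        exact ⟨by linarith, fun h2 => absurd h2 he⟩
  have hxx : ∀ h ∈ H, h.1 x ≤ h.2 := fun h hh => ((hfc x).1 (T.self_mem_cc x) h hh).1
  have hp : ∀ f ∈ 𝓑, 0 < f.ev (0 : ℝ × ℝ) := by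
    rintro _ ⟨h, ⟨hh, hne⟩, rfl⟩
    rw [hfn, hφ, map_zero, zero_add, sub_pos]
    exact lt_of_le_of_ne (hxx h hh) hne
  have hQρ : Q = ρ '' T.cc x := by
    ext p
    constructor
    · intro hp; exact ⟨φ p, hp, hli p⟩
    · rintro ⟨y, hy, rfl⟩
      show φ (ρ y) ∈ T.cc x
      rw [hri y hy]; exact hy
  have hQc : IsCompact Q := by
    rw [hQρ]
    exact (T.isCompact_cc hx).image ρ.continuous_of_finiteDimensional
  have hfront : ∀ p ∈ Q, (p ∈ frontier Q ↔ φ p ∉ T.oc x) := by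
    intro p hpQ
    rw [mem_frontier_iff hBfin hQ hp hpQ]
    have hcc := (hfc _).1 (show φ p ∈ T.cc x from hpQ)
    constructor
    · rintro ⟨_, ⟨h, ⟨hh, hne⟩, rfl⟩, h0⟩ ho
      rw [hfn] at h0
      exact hne (((hfo _).1 ho h hh).2.1 (by linarith))
    · intro ho
      rw [hfo] at ho
      push Not at ho
      obtain ⟨h, hh, h1⟩ := ho
      have h2 := h1 (hcc h hh).1
      rcases h2 with ⟨h3, h4⟩ | ⟨h3, h4⟩
      · exact ⟨_, ⟨h, ⟨hh, h4⟩, rfl⟩, by rw [hfn, h3, sub_self]⟩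
      · exact absurd ((hcc h hh).2 h4) h3
  let Φ : Flat Q (T.cc x) (T.cc x ∩ Sk2_855.sk1 T) :=
    { φ := φ
      ρ := ρ
      li := hli
      hF := by
        apply Subset.antisymm
        · rintro _ ⟨p, hp, rfl⟩; exact hp
        · intro y hy
          exact ⟨ρ y, by show φ (ρ y) ∈ T.cc x; rw [hri y hy]; exact hy, hri y hy⟩
      hr := by
        ext y
        constructor
        · rintro ⟨p, hp', rfl⟩
          have hpQ : p ∈ Q := by
            rw [hQc.isClosed.frontier_eq] at hp'; exact hp'.1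
          have hno := (hfront p hpQ).1 hp'
          refine ⟨hpQ, T.cc_sub_Om hx hpQ, ?_⟩
          have := T.dim_lt (x := x) (y := φ p) hpQ hno
          omega
        · rintro ⟨hy, hyO, hy1⟩
          refine ⟨ρ y, ?_, hri y hy⟩
          have hpQ : ρ y ∈ Q := by show φ (ρ y) ∈ T.cc x; rw [hri y hy]; exact hy
          rw [hfront _ hpQ, hri y hy]
          intro ho
          have := T.dim_eq_of_mem_oc hx ho
          omega }
  exact Φ.exists_lev_card hBfin hQ hp hQc hψ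

end Cell

end Crest.Agent.R096.Lvl_816

namespace Crest.Agent.R096.Srg_465

open Ce_537 Pl Cb_609 Msh_715
open Sk2_855 (HP sk1 Box Mv Surg)

theorem levStmt {E : Type*} [NormedAddCommGroup E] [NormedSpace ℝ E] [FiniteDimensional ℝ E]
    {Om : Set E} {ι : Type*} (T : Tiling Om ι) : LevStmt T := by
  intro x hx hd φ hφ
  obtain ⟨B, hB, h⟩ := Lvl_816.lev_cell_card T hx hd hφ
  exact ⟨B, hB, fun J hJ hJB => h J hJ hJB⟩


end Crest.Agent.R096.Srg_465
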