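import Crest.Agent.R096.Ub3_113
import Crest.Agent.R096.Srg6_465
import Crest.Agent.R096.Sk2b_855

/-!
# Row 96, 2SK for a general gauge, part 4: colours, convex gauges, `Box → UBox`, the final `USurg`
-/

set_option autoImplicit false
set_option linter.unusedSectionVars false

open Set Metric

namespace Crest.Agent.R096.Ub_113

open Crest.Agent.R096.Msh_715
open Crest.Agent.R096.Pl (PLH PLMap)
open Crest.Agent.R096.Ce_537
open Crest.Agent.R096.Sk2_855

variable {E : Type*} [NormedAddCommGroup E] [NormedSpace ℝ E] {Om La : Set E} {ι : Type*}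
  [FiniteDimensional ℝ E]




/-! ### the gauge of a convex polytope -/

section gauge

variable (G : Finset ((E →L[ℝ] ℝ) × ℝ)) (hG : G.Nonempty)

/-- the maximum of finitely many affine functions -/
noncomputable def gau (y : E) : ℝ := G.sup' hG fun h => h.1 y - h.2

theorem gau_le_iff {y : E} {t : ℝ} : gau G hG y ≤ t ↔ ∀ h ∈ G, h.1 y - h.2 ≤ t :=
  Finset.sup'_le_iff _ _

theorem gau_lt_iff {y : E} {t : ℝ} : gau G hG y < t ↔ ∀ h ∈ G, h.1 y - h.2 < t :=
  Finset.sup'_lt_iff _

theorem le_gau {y : E} {h : (E →L[ℝ] ℝ) × ℝ} (hh : h ∈ G) : h.1 y - h.2 ≤ gau G hG y :=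
  Finset.le_sup' (fun h : (E →L[ℝ] ℝ) × ℝ => h.1 y - h.2) hh

theorem exists_gau (y : E) : ∃ h ∈ G, gau G hG y = h.1 y - h.2 :=
  Finset.exists_mem_eq_sup' hG _

theorem continuous_gau : Continuous (gau G hG) := by
  have : gau G hG = G.sup' hG (fun h y => h.1 y - h.2) := by
    ext y
    simp [gau, Finset.sup'_apply]
  rw [this]
  exact Continuous.finset_sup' hG fun h _ => h.1.continuous.sub continuous_const

theorem convex_gau : ConvexOn ℝ univ (gau G hG) := by
  refine ⟨convex_univ, fun x _ y _ a b ha hb hab => ?_⟩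
  rw [gau_le_iff]
  intro h hh
  have h1 := le_gau G hG (y := x) hh
  have h2 := le_gau G hG (y := y) hh
  simp only [map_add, map_smul, smul_eq_mul]
  have e : h.2 = a * h.2 + b * h.2 := by rw [← add_mul, hab, one_mul]
  nlinarith [mul_le_mul_of_nonneg_left h1 ha, mul_le_mul_of_nonneg_left h2 hb]

theorem plOn_gau (s : Set E) : PLOn (gau G hG) s := by
  classical
  refine ⟨(continuous_gau G hG).continuousOn,
    G.image fun h => (h.1 : E →ₗ[ℝ] ℝ).toAffineMap - AffineMap.const ℝ E h.2, fun y _ => ?_⟩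
  obtain ⟨h, hh, e⟩ := exists_gau G hG y
  exact ⟨_, Finset.mem_image_of_mem _ hh, e⟩

/-- the sublevel sets of the gauge are polytopes -/
theorem gau_P [DecidableEq ((E →L[ℝ] ℝ) × ℝ)] (t : ℝ) :
    {y | gau G hG y ≤ t} = P (G.image fun h => (h.1, h.2 + t)) := by
  ext y
  simp only [P, mem_ofPred_eq, gau_le_iff, Finset.mem_image, forall_exists_index, and_imp,
    forall_apply_eq_imp_iff₂]
  constructor
  · intro h g hg; linarith [h g hg]
  · intro h g hg; linarith [h g hg]

theorem gau_I [DecidableEq ((E →L[ℝ] ℝ) × ℝ)] (t : ℝ) :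
    {y | gau G hG y < t} = I (G.image fun h => (h.1, h.2 + t)) := by
  ext y
  simp only [I, mem_ofPred_eq, gau_lt_iff, Finset.mem_image, forall_exists_index, and_imp,
    forall_apply_eq_imp_iff₂]
  constructor
  · intro h g hg; linarith [h g hg]
  · intro h g hg; linarith [h g hg]

/-- a compact sublevel set with a point below is a PL ball -/
theorem isBall_gau {t : ℝ} (hc : IsCompact {y | gau G hG y ≤ t}) (hne : ∃ y, gau G hG y < t) :
    IsBall (Module.finrank ℝ E) {y | gau G hG y ≤ t} {y | gau G hG y = t} := by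
  classical
  have h1 := gau_P G hG t
  have h2 := gau_I G hG t
  rw [h1] at hc
  have h3 := isBall_P_top _ hc (by rw [← h2]; exact hne)
  rw [← h1, ← h2] at h3
  have e : {y | gau G hG y ≤ t} \ {y | gau G hG y < t} = {y | gau G hG y = t} := by
    ext y
    simp only [mem_sdiff, mem_ofPred_eq, not_lt]
    exact ⟨fun h => le_antisymm h.1 h.2, fun h => ⟨h.le, h.ge⟩⟩
  rwa [e] at h3

end gauge

end Crest.Agent.R096.Ub_113

namespace Crest.Agent.R096.Ub3_113

open Msh_715 Srg_465 Ub_113 Ce_537 Sk2_855 Cb_609 Pl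

/-- **USURG**, the only input is the disc move -/
theorem usurg_final {E : Type} [NormedAddCommGroup E] [NormedSpace ℝ E] [FiniteDimensional ℝ E]
    (h3 : Module.finrank ℝ E = 3) (hDM : DMove E) {Om La : Set E} {ι : Type} (T : Tiling Om ι) :
    USurg T La := usurg h3 hDM (levStmt T)


end Crest.Agent.R096.Ub3_113
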