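import Crest.Agent.R96.Hole4_348
import Crest.Agent.R96.Sob7_199

-- ▼ part R096/Sq3_55
section

/-!
# R096 (row 96), SQUEEZE1, part 3 (helper55): the squeeze of a face, extended conically to the
diamond `|s| + ‖u‖ < 1` over the face
-/

set_option autoImplicit false

open Set Metric Filter Topology MeasureTheory

namespace Crest.Agent.R096.Sq_55

open Crest.Agent.R096.Ce_537 Crest.Agent.R096.Bd_416 Crest.Agent.R96.Hole_348

section dia

variable {W : Type*} [NormedAddCommGroup W] [NormedSpace ℝ W]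

/-- the conical extension of `σ` to the diamond -/
noncomputable def dia (σ : W → W) (z : ℝ × W) : ℝ × W :=
  open Classical in
  if |z.1| < 1 then (z.1, (1 - |z.1|) • σ ((1 - |z.1|)⁻¹ • z.2)) else z

/-- the hypotheses on `σ` -/
structure Sg (σ : W → W) : Prop where
  pl : PLOn σ univ
  out : ∀ w, 1 ≤ ‖w‖ → σ w = w
  inn : ∀ w, ‖w‖ < 1 → ‖σ w‖ < 1

variable {σ : W → W}

lemma Sg.le (h : Sg σ) {w : W} (hw : ‖w‖ ≤ 1) : ‖σ w‖ ≤ 1 := by
  rcases hw.lt_or_eq with h1 | h1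
  · exact (h.inn w h1).le
  · rw [h.out w h1.ge]; exact hw

lemma dia_of_lt {z : ℝ × W} (h : |z.1| < 1) :
    dia σ z = (z.1, (1 - |z.1|) • σ ((1 - |z.1|)⁻¹ • z.2)) := by
  rw [dia, if_pos h]

lemma dia_of_le {z : ℝ × W} (h : 1 ≤ |z.1|) : dia σ z = z := by
  rw [dia, if_neg (not_lt.2 h)]

lemma dia_fst (z : ℝ × W) : (dia σ z).1 = z.1 := by
  unfold dia; split_ifs <;> rfl

lemma norm_inv_smul {a : ℝ} (ha : 0 < a) (u : W) : ‖a⁻¹ • u‖ = ‖u‖ / a := by
  rw [norm_smul, norm_inv, Real.norm_eq_abs, abs_of_pos ha]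
  ring

lemma dia_out (h : Sg σ) {z : ℝ × W} (hz : 1 - |z.1| ≤ ‖z.2‖) : dia σ z = z := by
  by_cases h1 : |z.1| < 1
  · have ha : 0 < 1 - |z.1| := by linarith
    rw [dia_of_lt h1, h.out, smul_smul, mul_inv_cancel₀ ha.ne', one_smul]
    rw [norm_inv_smul ha, le_div_iff₀ ha, one_mul]
    exact hz
  · exact dia_of_le (not_lt.1 h1)

lemma norm_dia_lt (h : Sg σ) {z : ℝ × W} (hz : |z.1| + ‖z.2‖ < 1) :
    |(dia σ z).1| + ‖(dia σ z).2‖ < 1 := by
  have h1 : |z.1| < 1 := by linarith [norm_nonneg z.2]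
  have ha : 0 < 1 - |z.1| := by linarith
  rw [dia_fst, dia_of_lt h1]
  show |z.1| + ‖(1 - |z.1|) • σ ((1 - |z.1|)⁻¹ • z.2)‖ < 1
  rw [norm_smul, Real.norm_eq_abs, abs_of_pos ha]
  have h2 : ‖(1 - |z.1|)⁻¹ • z.2‖ < 1 := by
    rw [norm_inv_smul ha, div_lt_one ha]; linarith
  have h3 := h.inn _ h2
  nlinarith

lemma norm_dia_le (h : Sg σ) {z : ℝ × W} (hz : |z.1| + ‖z.2‖ ≤ 1) :
    |(dia σ z).1| + ‖(dia σ z).2‖ ≤ 1 := by
  rcases hz.lt_or_eq with h1 | h1
  · exact (norm_dia_lt h h1).le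
  · rw [dia_out h (by linarith)]; exact hz

lemma dia_dia {σ' : W → W} (hs : ∀ w, σ' (σ w) = w) (z : ℝ × W) : dia σ' (dia σ z) = z := by
  by_cases h1 : |z.1| < 1
  · have ha : 0 < 1 - |z.1| := by linarith
    have e : dia σ' (dia σ z) = ((dia σ z).1, (1 - |(dia σ z).1|) •
        σ' ((1 - |(dia σ z).1|)⁻¹ • (dia σ z).2)) := dia_of_lt (by rw [dia_fst]; exact h1)
    rw [e, dia_of_lt (σ := σ) h1]
    show (z.1, (1 - |z.1|) • σ' ((1 - |z.1|)⁻¹ • ((1 - |z.1|) • σ ((1 - |z.1|)⁻¹ • z.2)))) = z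
    rw [smul_smul, inv_mul_cancel₀ ha.ne', one_smul, hs, smul_smul, mul_inv_cancel₀ ha.ne',
      one_smul]
  · rw [dia_of_le (σ := σ) (not_lt.1 h1), dia_of_le (not_lt.1 h1)]

lemma dia_sub_le (h : Sg σ) {z : ℝ × W} (hz : |z.1| + ‖z.2‖ ≤ 1) :
    ‖dia σ z - z‖ ≤ 2 * (1 - |z.1|) := by
  have h1 := norm_dia_le h hz
  rw [dia_fst] at h1
  rw [Prod.norm_def]
  apply max_le
  · show ‖(dia σ z).1 - z.1‖ ≤ _
    rw [dia_fst, sub_self, norm_zero]
    have := norm_nonneg z.2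
    linarith
  · show ‖(dia σ z).2 - z.2‖ ≤ _
    have := norm_sub_le (dia σ z).2 z.2
    linarith

lemma continuousOn_dia (h : Sg σ) : ContinuousOn (dia σ) {z : ℝ × W | |z.1| + ‖z.2‖ ≤ 1} := by
  intro z₀ hz₀
  have hcσ : Continuous σ := continuousOn_univ.1 h.pl.1
  by_cases h1 : |z₀.1| < 1
  · have ha : 1 - |z₀.1| ≠ 0 := by linarith
    have hc : Continuous fun z : ℝ × W => |z.1| := continuous_fst.abs
    have h2 : ContinuousAt (fun z : ℝ × W =>
        (z.1, (1 - |z.1|) • σ ((1 - |z.1|)⁻¹ • z.2))) z₀ := by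
      refine continuousAt_fst.prodMk ?_
      refine ContinuousAt.smul (continuous_const.sub hc).continuousAt ?_
      refine hcσ.continuousAt.comp_of_eq ?_ rfl
      exact ((continuous_const.sub hc).continuousAt.inv₀ ha).smul continuousAt_snd
    have h3 : dia σ =ᶠ[𝓝 z₀] fun z : ℝ × W =>
        (z.1, (1 - |z.1|) • σ ((1 - |z.1|)⁻¹ • z.2)) := by
      filter_upwards [(isOpen_lt hc continuous_const).mem_nhds h1] with z hz
      exact dia_of_lt hz
    exact (h2.congr h3.symm).continuousWithinAt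
  · have h1' : 1 ≤ |z₀.1| := not_lt.1 h1
    have e0 : |z₀.1| = 1 := le_antisymm (by
      have := norm_nonneg z₀.2
      have h5 : |z₀.1| + ‖z₀.2‖ ≤ 1 := hz₀
      linarith) h1'
    rw [ContinuousWithinAt, dia_of_le h1']
    have hc : Continuous fun z : ℝ × W => |z.1| := continuous_fst.abs
    have h4 : Tendsto (fun z : ℝ × W => z + (dia σ z - z))
        (𝓝[{z : ℝ × W | |z.1| + ‖z.2‖ ≤ 1}] z₀) (𝓝 (z₀ + 0)) := by
      refine (tendsto_id.mono_left nhdsWithin_le_nhds).add ?_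
      refine squeeze_zero_norm' (a := fun z : ℝ × W => 2 * (1 - |z.1|)) ?_ ?_
      · filter_upwards [self_mem_nhdsWithin] with z hz
        exact dia_sub_le h hz
      · have h5 : Tendsto (fun z : ℝ × W => 2 * (1 - |z.1|)) (𝓝 z₀) (𝓝 (2 * (1 - |z₀.1|))) :=
          (continuous_const.mul (continuous_const.sub hc)).continuousAt
        rw [e0, sub_self, mul_zero] at h5
        exact h5.mono_left nhdsWithin_le_nhds
    rw [add_zero] at h4
    refine h4.congr fun z => ?_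
    abel

/-- the homogeneous extension of an affine map -/
noncomputable def hom (g : W →ᵃ[ℝ] W) (s : ℝ) : (ℝ × W) →ᵃ[ℝ] (ℝ × W) where
  toFun z := (z.1, g.linear z.2 + (1 - s * z.1) • g 0)
  linear := (LinearMap.fst ℝ ℝ W).prod
    (g.linear ∘ₗ LinearMap.snd ℝ ℝ W - (LinearMap.fst ℝ ℝ W).smulRight (s • g 0))
  map_vadd' z v := by
    simp only [vadd_eq_add, Prod.fst_add, Prod.snd_add, map_add, LinearMap.prod_apply]
    ext1
    · rfl
    · show g.linear v.2 + g.linear z.2 + (1 - s * (v.1 + z.1)) • g 0 =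
        (g.linear v.2 - v.1 • (s • g 0)) + (g.linear z.2 + (1 - s * z.1) • g 0)
      rw [smul_smul]
      have : (1 - s * (v.1 + z.1)) • g 0 = (1 - s * z.1) • g 0 - (v.1 * s) • g 0 := by
        rw [← sub_smul]; congr 1; ring
      rw [this]
      abel

lemma hom_apply (g : W →ᵃ[ℝ] W) (s : ℝ) (z : ℝ × W) :
    hom g s z = (z.1, g.linear z.2 + (1 - s * z.1) • g 0) := rfl

lemma affine_eq (g : W →ᵃ[ℝ] W) (x : W) : g x = g.linear x + g 0 := by
  have := g.map_vadd 0 x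
  simpa using this

lemma plOn_dia (h : Sg σ) : PLOn (dia σ) univ := by
  classical
  have hU : (univ : Set (ℝ × W)) = {z : ℝ × W | |z.1| + ‖z.2‖ ≤ 1} ∪
      {z : ℝ × W | 1 ≤ |z.1| + ‖z.2‖} := by
    ext z
    simp only [mem_univ, mem_union, mem_ofPred_eq, true_iff]
    exact le_total _ _
  have hc : Continuous fun z : ℝ × W => |z.1| + ‖z.2‖ := continuous_fst.abs.add
    continuous_snd.norm
  rw [hU]
  refine PLOn.union ⟨continuousOn_dia h, ?_⟩ ((plOn_id _).congr fun z hz => ?_)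
    (isClosed_le hc continuous_const) (isClosed_le continuous_const hc)
  · obtain ⟨_, S, hS⟩ := h.pl
    refine ⟨(S.image fun g => hom g 1) ∪ (S.image fun g => hom g (-1)), fun z hz => ?_⟩
    by_cases h1 : |z.1| < 1
    · have ha : 0 < 1 - |z.1| := by linarith
      obtain ⟨g, hg, e⟩ := hS ((1 - |z.1|)⁻¹ • z.2) (mem_univ _)
      have e2 : dia σ z = (z.1, g.linear z.2 + (1 - |z.1|) • g 0) := by
        rw [dia_of_lt h1, e, affine_eq, map_smul, smul_add, smul_smul, mul_inv_cancel₀ ha.ne',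
          one_smul]
      rcases le_total 0 z.1 with h0 | h0
      · refine ⟨hom g 1, Finset.mem_union_left _ (Finset.mem_image_of_mem _ hg), ?_⟩
        rw [e2, hom_apply, one_mul, abs_of_nonneg h0]
      · refine ⟨hom g (-1), Finset.mem_union_right _ (Finset.mem_image_of_mem _ hg), ?_⟩
        rw [e2, hom_apply, abs_of_nonpos h0]
        congr 3
        ring
    · have h1' := not_lt.1 h1
      obtain ⟨g, hg, _⟩ := hS 0 (mem_univ _)
      have hz' : |z.1| + ‖z.2‖ ≤ 1 := hz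
      have e1 : ‖z.2‖ = 0 := le_antisymm (by linarith) (norm_nonneg _)
      have e1' : z.2 = 0 := norm_eq_zero.1 e1
      have e3 : |z.1| = 1 := by linarith
      rcases le_total 0 z.1 with h0 | h0
      · refine ⟨hom g 1, Finset.mem_union_left _ (Finset.mem_image_of_mem _ hg), ?_⟩
        rw [abs_of_nonneg h0] at e3
        rw [dia_of_le h1', hom_apply, e3, e1', map_zero, mul_one, sub_self, zero_smul, add_zero]
        exact Prod.ext e3 e1'
      · refine ⟨hom g (-1), Finset.mem_union_right _ (Finset.mem_image_of_mem _ hg), ?_⟩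
        rw [abs_of_nonpos h0] at e3
        rw [dia_of_le h1', hom_apply, e1', map_zero,
          show 1 - -1 * z.1 = 0 by linarith, zero_smul, add_zero]
        exact Prod.ext rfl e1'
  · refine dia_out h ?_
    have : 1 ≤ |z.1| + ‖z.2‖ := hz
    linarith

lemma alg1 (a a' : ℝ) (x y : W) : a' • x - a • y = a' • (x - y) + (a' - a) • y := by
  rw [smul_sub, sub_smul]; abel

lemma alg2 {a a' : ℝ} (ha : a ≠ 0) (ha' : a' ≠ 0) (x y : W) :
    a' • (a'⁻¹ • x - a⁻¹ • y) = (x - y) + ((a - a') * a⁻¹) • y := by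
  rw [smul_sub, smul_smul, smul_smul, mul_inv_cancel₀ ha', one_smul, sub_mul,
    mul_inv_cancel₀ ha, sub_smul, one_smul]
  abel

/-- the local Lipschitz constant in the closed diamond, off the apexes -/
lemma LLV_dia (h : Sg σ) {z : ℝ × W} (h1 : |z.1| < 1) (h2 : |z.1| + ‖z.2‖ ≤ 1) {K : ℝ}
    (hK0 : 0 ≤ K) (hK : LLV K σ ((1 - |z.1|)⁻¹ • z.2)) : LLV (1 + 2 * K) (dia σ) z := by
  have hc : Continuous fun z : ℝ × W => |z.1| := continuous_fst.abs
  have ha : 0 < 1 - |z.1| := by linarith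
  have h3 : Tendsto (fun z : ℝ × W => (1 - |z.1|)⁻¹ • z.2) (𝓝 z)
      (𝓝 ((1 - |z.1|)⁻¹ • z.2)) :=
    ((continuous_const.sub hc).continuousAt.inv₀ ha.ne').smul continuousAt_snd
  filter_upwards [h3.eventually hK, (isOpen_lt hc continuous_const).mem_nhds h1] with z' hz' hz'1
  have hz'1' : |z'.1| < 1 := hz'1
  have ha' : 0 < 1 - |z'.1| := by linarith
  have d1 : |z'.1 - z.1| ≤ ‖z' - z‖ := norm_fst_le (z' - z)
  have d2 : ‖z'.2 - z.2‖ ≤ ‖z' - z‖ := norm_snd_le (z' - z)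
  have d3 : |(1 - |z'.1|) - (1 - |z.1|)| ≤ ‖z' - z‖ := by
    have := abs_abs_sub_abs_le_abs_sub z'.1 z.1
    rw [show (1 - |z'.1|) - (1 - |z.1|) = -(|z'.1| - |z.1|) by ring, abs_neg]
    exact this.trans d1
  set a := 1 - |z.1| with hadef
  set a' := 1 - |z'.1| with ha'def
  have hd0 := norm_nonneg (z' - z)
  rw [Prod.norm_def]
  apply max_le
  · show ‖(dia σ z').1 - (dia σ z).1‖ ≤ _
    rw [dia_fst, dia_fst, Real.norm_eq_abs]
    nlinarith
  · show ‖(dia σ z').2 - (dia σ z).2‖ ≤ _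
    rw [dia_of_lt h1, dia_of_lt hz'1']
    show ‖a' • σ (a'⁻¹ • z'.2) - a • σ (a⁻¹ • z.2)‖ ≤ _
    have e1 : a' • σ (a'⁻¹ • z'.2) - a • σ (a⁻¹ • z.2) =
        a' • (σ (a'⁻¹ • z'.2) - σ (a⁻¹ • z.2)) + (a' - a) • σ (a⁻¹ • z.2) := alg1 _ _ _ _
    have e2 : a' • (a'⁻¹ • z'.2 - a⁻¹ • z.2) = (z'.2 - z.2) + ((a - a') * a⁻¹) • z.2 :=
      alg2 ha.ne' ha'.ne' _ _
    have n1 : ‖σ (a⁻¹ • z.2)‖ ≤ 1 := by
      apply h.le
      rw [norm_inv_smul ha, div_le_one ha]
      linarith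
    have n2 : a' * ‖a'⁻¹ • z'.2 - a⁻¹ • z.2‖ ≤ 2 * ‖z' - z‖ := by
      have h5 : a' * ‖a'⁻¹ • z'.2 - a⁻¹ • z.2‖ = ‖a' • (a'⁻¹ • z'.2 - a⁻¹ • z.2)‖ := by
        rw [norm_smul, Real.norm_eq_abs, abs_of_pos ha']
      rw [h5, e2]
      refine (norm_add_le _ _).trans ?_
      have h6 : ‖((a - a') * a⁻¹) • z.2‖ ≤ ‖z' - z‖ := by
        rw [norm_smul, Real.norm_eq_abs, abs_mul, abs_of_pos (inv_pos.2 ha), abs_sub_comm]
        have h7 : a⁻¹ * ‖z.2‖ ≤ 1 := by
          rw [inv_mul_le_iff₀ ha]; linarith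
        calc |a' - a| * a⁻¹ * ‖z.2‖ = |a' - a| * (a⁻¹ * ‖z.2‖) := by ring
          _ ≤ |a' - a| * 1 := mul_le_mul_of_nonneg_left h7 (abs_nonneg _)
          _ ≤ _ := by rw [mul_one]; exact d3
      linarith
    rw [e1]
    refine (norm_add_le _ _).trans ?_
    rw [norm_smul, norm_smul, Real.norm_eq_abs, Real.norm_eq_abs, abs_of_pos ha']
    have n3 : a' * ‖σ (a'⁻¹ • z'.2) - σ (a⁻¹ • z.2)‖ ≤ K * (2 * ‖z' - z‖) := by
      calc a' * ‖σ (a'⁻¹ • z'.2) - σ (a⁻¹ • z.2)‖ ≤ a' * (K * ‖a'⁻¹ • z'.2 - a⁻¹ • z.2‖) :=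
            mul_le_mul_of_nonneg_left hz' ha'.le
        _ = K * (a' * ‖a'⁻¹ • z'.2 - a⁻¹ • z.2‖) := by ring
        _ ≤ _ := mul_le_mul_of_nonneg_left n2 hK0
    have n4 : |a' - a| * ‖σ (a⁻¹ • z.2)‖ ≤ ‖z' - z‖ := by
      calc |a' - a| * ‖σ (a⁻¹ • z.2)‖ ≤ |a' - a| * 1 :=
            mul_le_mul_of_nonneg_left n1 (abs_nonneg _)
        _ ≤ _ := by rw [mul_one]; exact d3
    linarith


end dia

end Crest.Agent.R096.Sq_55
end

-- ▼ part R096/Sq4_55
section

/-!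
# R096 (row 96), SQUEEZE1, part 4 (helper55): tiles (faces) in `ℝ^(n+1)`, the squeeze of a tile,
products of homeomorphisms with disjoint supports
-/

set_option autoImplicit false

open Set Metric Filter Topology MeasureTheory

namespace Crest.Agent.R096.Sq_55

open Crest.Agent.R096.Ce_537 Crest.Agent.R096.Bd_416 Crest.Agent.R96.Hole_348

variable {n : ℕ}

/-- a tile: the axis orthogonal to it, its centre and its half side -/
structure Tile (n : ℕ) where
  i : Fin (n+1)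
  m : Fin (n+1) → ℝ
  ρ : ℝ
  pos : 0 < ρ

namespace Tile

variable (f : Tile n)

/-- coordinates: height over the plane of the tile and position in the tile, normalised -/
noncomputable def dn (x : Fin (n+1) → ℝ) : ℝ × (Fin n → ℝ) :=
  (f.ρ⁻¹ * (x f.i - f.m f.i), fun j => f.ρ⁻¹ * (x (f.i.succAbove j) - f.m (f.i.succAbove j)))

/-- the inverse -/
noncomputable def up (z : ℝ × (Fin n → ℝ)) : Fin (n+1) → ℝ :=
  f.i.insertNth (f.m f.i + f.ρ * z.1) (fun j => f.m (f.i.succAbove j) + f.ρ * z.2 j)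

lemma up_i (z : ℝ × (Fin n → ℝ)) : f.up z f.i = f.m f.i + f.ρ * z.1 := by
  rw [up, Fin.insertNth_apply_same]

lemma up_succ (z : ℝ × (Fin n → ℝ)) (j : Fin n) :
    f.up z (f.i.succAbove j) = f.m (f.i.succAbove j) + f.ρ * z.2 j := by
  rw [up, Fin.insertNth_apply_succAbove]

lemma dn_up (z : ℝ × (Fin n → ℝ)) : f.dn (f.up z) = z := by
  have h := f.pos.ne'
  refine Prod.ext ?_ (funext fun j => ?_)
  · show f.ρ⁻¹ * (f.up z f.i - f.m f.i) = z.1
    rw [up_i]; field_simp; ring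
  · show f.ρ⁻¹ * (f.up z (f.i.succAbove j) - f.m (f.i.succAbove j)) = z.2 j
    rw [up_succ]; field_simp; ring

lemma up_dn (x : Fin (n+1) → ℝ) : f.up (f.dn x) = x := by
  have h := f.pos.ne'
  funext k
  rcases eq_or_ne k f.i with rfl | hk
  · rw [up_i]
    show f.m f.i + f.ρ * (f.ρ⁻¹ * (x f.i - f.m f.i)) = x f.i
    field_simp; ring
  · obtain ⟨j, rfl⟩ := Fin.exists_succAbove_eq hk
    rw [up_succ]
    show _ + f.ρ * (f.ρ⁻¹ * (x (f.i.succAbove j) - f.m (f.i.succAbove j))) = _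
    field_simp; ring

lemma dn_sub_le (x y : Fin (n+1) → ℝ) : ‖f.dn x - f.dn y‖ ≤ f.ρ⁻¹ * ‖x - y‖ := by
  have h := f.pos
  have h' : 0 < f.ρ⁻¹ := inv_pos.2 h
  rw [Prod.norm_def]
  apply max_le
  · show ‖f.ρ⁻¹ * (x f.i - f.m f.i) - f.ρ⁻¹ * (y f.i - f.m f.i)‖ ≤ _
    rw [← mul_sub, sub_sub_sub_cancel_right, Real.norm_eq_abs, abs_mul, abs_of_pos h']
    exact mul_le_mul_of_nonneg_left (abs_sub_apply_le x y _) h'.le
  · rw [pi_norm_le_iff_of_nonneg (by positivity)]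
    intro j
    show ‖f.ρ⁻¹ * (x (f.i.succAbove j) - f.m (f.i.succAbove j)) -
      f.ρ⁻¹ * (y (f.i.succAbove j) - f.m (f.i.succAbove j))‖ ≤ _
    rw [← mul_sub, sub_sub_sub_cancel_right, Real.norm_eq_abs, abs_mul, abs_of_pos h']
    exact mul_le_mul_of_nonneg_left (abs_sub_apply_le x y _) h'.le

lemma up_sub_le (z w : ℝ × (Fin n → ℝ)) : ‖f.up z - f.up w‖ ≤ f.ρ * ‖z - w‖ := by
  have h := f.pos
  rw [pi_norm_le_iff_of_nonneg (by positivity)]
  intro k
  rcases eq_or_ne k f.i with rfl | hk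
  · rw [Pi.sub_apply, up_i, up_i, add_sub_add_left_eq_sub, ← mul_sub, Real.norm_eq_abs, abs_mul,
      abs_of_pos h]
    exact mul_le_mul_of_nonneg_left (norm_fst_le (z - w)) h.le
  · obtain ⟨j, rfl⟩ := Fin.exists_succAbove_eq hk
    rw [Pi.sub_apply, up_succ, up_succ, add_sub_add_left_eq_sub, ← mul_sub, Real.norm_eq_abs,
      abs_mul, abs_of_pos h]
    refine mul_le_mul_of_nonneg_left ?_ h.le
    exact (abs_sub_apply_le z.2 w.2 j).trans (norm_snd_le (z - w))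

lemma continuous_dn : Continuous f.dn := by
  refine (LipschitzWith.of_dist_le_mul (K := ⟨f.ρ⁻¹, (inv_pos.2 f.pos).le⟩) ?_).continuous
  intro x y
  rw [dist_eq_norm, dist_eq_norm]
  exact f.dn_sub_le x y

lemma continuous_up : Continuous f.up := by
  refine (LipschitzWith.of_dist_le_mul (K := ⟨f.ρ, f.pos.le⟩) ?_).continuous
  intro x y
  rw [dist_eq_norm, dist_eq_norm]
  exact f.up_sub_le x y

lemma plOn_dn : PLOn f.dn univ := by
  refine pl_pair (f := fun x : Fin (n+1) → ℝ => f.ρ⁻¹ * (x f.i - f.m f.i))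
    (g := fun (x : Fin (n+1) → ℝ) (j : Fin n) =>
      f.ρ⁻¹ * (x (f.i.succAbove j) - f.m (f.i.succAbove j))) ?_ (pl_pi fun j => ?_)
  · exact pl_mul _ (pl_sub_const (pl_apply (plOn_id _) _) _)
  · exact pl_mul _ (pl_sub_const (pl_apply (plOn_id _) _) _)

lemma plOn_up : PLOn f.up univ := by
  refine pl_pi fun k => ?_
  rcases eq_or_ne k f.i with rfl | hk
  · have h : PLOn (fun z : ℝ × (Fin n → ℝ) => f.ρ * z.1 + f.m f.i) univ :=
      pl_add_const (pl_mul _ (pl_fst (plOn_id _))) _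
    refine h.congr fun z _ => ?_
    show f.up z f.i = _
    rw [up_i, add_comm]
  · obtain ⟨j, rfl⟩ := Fin.exists_succAbove_eq hk
    have h : PLOn (fun z : ℝ × (Fin n → ℝ) => f.ρ * z.2 j + f.m (f.i.succAbove j)) univ :=
      pl_add_const (pl_mul _ (pl_apply (pl_snd (plOn_id _)) j)) _
    refine h.congr fun z _ => ?_
    show f.up z (f.i.succAbove j) = _
    rw [up_succ, add_comm]

/-- the open diamond -/
def O : Set (Fin (n+1) → ℝ) := {x | |(f.dn x).1| + ‖(f.dn x).2‖ < 1}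

/-- the closed diamond -/
def Oc : Set (Fin (n+1) → ℝ) := {x | |(f.dn x).1| + ‖(f.dn x).2‖ ≤ 1}

/-- the tile -/
def sq : Set (Fin (n+1) → ℝ) := {x | (f.dn x).1 = 0 ∧ ‖(f.dn x).2‖ ≤ 1}

/-- the boundary of the tile -/
def rim : Set (Fin (n+1) → ℝ) := {x | (f.dn x).1 = 0 ∧ ‖(f.dn x).2‖ = 1}

lemma isOpen_O : IsOpen f.O :=
  isOpen_lt ((continuous_fst.comp f.continuous_dn).abs.add
    (continuous_snd.comp f.continuous_dn).norm) continuous_const


/-- the squeeze of the tile -/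
noncomputable def T (σ : (Fin n → ℝ) → (Fin n → ℝ)) (x : Fin (n+1) → ℝ) : Fin (n+1) → ℝ :=
  f.up (dia σ (f.dn x))

variable {σ : (Fin n → ℝ) → (Fin n → ℝ)}

lemma dn_T (x : Fin (n+1) → ℝ) : f.dn (f.T σ x) = dia σ (f.dn x) := f.dn_up _

lemma T_i (x : Fin (n+1) → ℝ) : f.T σ x f.i = x f.i := by
  have h := f.pos.ne'
  rw [T, up_i, dia_fst]
  show f.m f.i + f.ρ * (f.ρ⁻¹ * (x f.i - f.m f.i)) = x f.i
  field_simp; ring

lemma T_out (h : Sg σ) {x : Fin (n+1) → ℝ} (hx : x ∉ f.O) : f.T σ x = x := by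
  have h1 : ¬ (|(f.dn x).1| + ‖(f.dn x).2‖ < 1) := hx
  rw [T, dia_out h (by linarith), up_dn]

lemma T_mem (h : Sg σ) {x : Fin (n+1) → ℝ} (hx : x ∈ f.O) : f.T σ x ∈ f.O := by
  show |(f.dn (f.T σ x)).1| + ‖(f.dn (f.T σ x)).2‖ < 1
  rw [dn_T]
  exact norm_dia_lt h hx

lemma T_T {σ' : (Fin n → ℝ) → (Fin n → ℝ)} (hs : ∀ w, σ' (σ w) = w) (x : Fin (n+1) → ℝ) :
    f.T σ' (f.T σ x) = x := by
  rw [T, dn_T, dia_dia hs, up_dn]


lemma plOn_T (h : Sg σ) : PLOn (f.T σ) univ :=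
  f.plOn_up.comp ((plOn_dia h).comp f.plOn_dn (mapsTo_univ _ _)) (mapsTo_univ _ _)

lemma LLV_T {K : ℝ} {x : Fin (n+1) → ℝ} (h : LLV K (dia σ) (f.dn x)) :
    LLV K (f.T σ) x := by
  have h' := f.pos
  filter_upwards [f.continuous_dn.continuousAt.eventually h] with y hy
  calc ‖f.T σ y - f.T σ x‖ ≤ f.ρ * ‖dia σ (f.dn y) - dia σ (f.dn x)‖ := f.up_sub_le _ _
    _ ≤ f.ρ * (K * ‖f.dn y - f.dn x‖) := mul_le_mul_of_nonneg_left hy h'.le
    _ ≤ K * ‖y - x‖ := by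
        by_cases hK : 0 ≤ K
        · calc f.ρ * (K * ‖f.dn y - f.dn x‖) ≤ f.ρ * (K * (f.ρ⁻¹ * ‖y - x‖)) := by
                have := mul_le_mul_of_nonneg_left (f.dn_sub_le y x) hK
                exact mul_le_mul_of_nonneg_left this h'.le
            _ = K * ‖y - x‖ := by field_simp
        · have h1 := norm_nonneg (dia σ (f.dn y) - dia σ (f.dn x))
          have h2 : K * ‖f.dn y - f.dn x‖ ≥ 0 := h1.trans hy
          have h3 := f.up_sub_le (f.dn y) (f.dn x)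
          rw [up_dn, up_dn] at h3
          have h4 : ‖f.dn y - f.dn x‖ = 0 := by
            rcases (norm_nonneg (f.dn y - f.dn x)).eq_or_lt with h5 | h5
            · exact h5.symm
            · nlinarith [not_le.1 hK]
          rw [h4] at h3 ⊢
          have h6 : ‖y - x‖ = 0 := le_antisymm (by linarith) (norm_nonneg _)
          rw [h6]; simp

end Tile

/-! ### the squeeze `chf` -/

lemma sg_chf {τ : ℝ} {N : ℕ} (hP : Par τ N 1) : Sg (chf (n := n) τ N) :=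
  ⟨plOn_chf hP, fun _ h => chf_out h, fun _ h => norm_chf_lt hP h⟩

lemma norm_chg_lt {τ : ℝ} {N : ℕ} (hP : Par τ N 1) {x : Fin n → ℝ} (hx : ‖x‖ < 1) :
    ‖chg τ N x‖ < 1 := by
  by_contra h
  have h1 := chf_out (τ := τ) (N := N) (not_lt.1 h)
  have h2 : chf τ N (chg τ N x) = x := (chi hP).apply_symm_apply x
  rw [h2] at h1
  rw [← h1] at h
  exact h hx

lemma sg_chg {τ : ℝ} {N : ℕ} (hP : Par τ N 1) : Sg (chg (n := n) τ N) :=
  ⟨plOn_chg hP, fun _ h => chg_out hP h, fun _ h => norm_chg_lt hP h⟩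

/-- the squeeze of a tile as a homeomorphism -/
noncomputable def Tile.H (f : Tile n) {τ : ℝ} {N : ℕ} (hP : Par τ N 1) :
    (Fin (n+1) → ℝ) ≃ₜ (Fin (n+1) → ℝ) where
  toFun := f.T (chf τ N)
  invFun := f.T (chg τ N)
  left_inv := f.T_T fun w => (chi hP).symm_apply_apply w
  right_inv := f.T_T fun w => (chi hP).apply_symm_apply w
  continuous_toFun := continuousOn_univ.1 (f.plOn_T (sg_chf hP)).1
  continuous_invFun := continuousOn_univ.1 (f.plOn_T (sg_chg hP)).1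

/-! ### products -/

section prod

variable {E : Type*} [NormedAddCommGroup E] [NormedSpace ℝ E]

lemma maps_of_fix {E : Type*} {h : E → E} (hi : Function.Injective h) {O : Set E}
    (hfix : ∀ x, x ∉ O → h x = x) {x : E} (hx : x ∈ O) : h x ∈ O := by
  by_contra h1
  have := hi (hfix _ h1)
  rw [this] at h1
  exact h1 hx

/-- finite products of PL homeomorphisms with disjoint supports -/
lemma exists_prod {κ : Type*} (s : Finset κ) (h : κ → E ≃ₜ E) (O : κ → Set E)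
    (hpl : ∀ j ∈ s, PLOn (h j) univ) (hpl' : ∀ j ∈ s, PLOn (h j).symm univ)
    (hfix : ∀ j ∈ s, ∀ x, x ∉ O j → h j x = x)
    (hdis : ∀ j ∈ s, ∀ k ∈ s, j ≠ k → Disjoint (O j) (O k)) :
    ∃ H : E ≃ₜ E, PLOn H univ ∧ PLOn H.symm univ ∧ (∀ j ∈ s, ∀ x ∈ O j, H x = h j x) ∧
      (∀ x, (∀ j ∈ s, x ∉ O j) → H x = x) := by
  classical
  induction s using Finset.induction_on with
  | empty => exact ⟨Homeomorph.refl E, plOn_id _, plOn_id _, by simp, fun x _ => rfl⟩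
  | insert j s hj ih =>
    obtain ⟨H, h1, h2, h3, h4⟩ := ih (fun k hk => hpl k (Finset.mem_insert_of_mem hk))
      (fun k hk => hpl' k (Finset.mem_insert_of_mem hk))
      (fun k hk => hfix k (Finset.mem_insert_of_mem hk))
      (fun k hk l hl => hdis k (Finset.mem_insert_of_mem hk) l (Finset.mem_insert_of_mem hl))
    have hjs := Finset.mem_insert_self j s
    refine ⟨H.trans (h j), (hpl j hjs).comp h1 (mapsTo_univ _ _),
      h2.comp (hpl' j hjs) (mapsTo_univ _ _), ?_, ?_⟩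
    · intro k hk x hx
      rcases Finset.mem_insert.1 hk with rfl | hk'
      · have : H x = x := h4 x fun l hl hxl =>
          (Set.disjoint_left.1 (hdis k hjs l (Finset.mem_insert_of_mem hl)
            (fun e => hj (e ▸ hl))) hx hxl)
        show h k (H x) = h k x
        rw [this]
      · show h j (H x) = h k x
        rw [h3 k hk' x hx]
        apply hfix j hjs
        have h5 := maps_of_fix (h k).injective (hfix k hk) hx
        exact fun h6 => Set.disjoint_left.1 (hdis j hjs k hk (fun e => hj (e ▸ hk'))) h6 h5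
    · intro x hx
      show h j (H x) = x
      rw [h4 x fun l hl => hx l (Finset.mem_insert_of_mem hl)]
      exact hfix j hjs x (hx j hjs)


end prod

end Crest.Agent.R096.Sq_55
end

-- ▼ part R096/Sq5_55
section

/-!
# R096 (row 96), SOBSQ, part 5 (helper55): the squeeze with layers of geometric thickness

`gf q N τ ρ : [-1,1]^n ⟶ [-ρ,ρ]^n` maps the shell `1/2 ≤ ‖x‖ ≤ 1` onto the layer
`ρ - τ ≤ ‖y‖ ≤ ρ` (along the lines of 416's collar) and the cube `‖x‖ ≤ 1/2` by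
`gf q (N-1) (q τ) (ρ - τ) (2 x)`.  (Copy of helper348's `hf`, which is the case `q = 1`.)
-/

set_option autoImplicit false

open Set Metric Filter Topology MeasureTheory

namespace Crest.Agent.R096.Sq_55

open Crest.Agent.R096.Ce_537 Crest.Agent.R096.Bd_416 Crest.Agent.R96.Hole_348

variable {n : ℕ}

/-- forward map -/
noncomputable def gf (q : ℝ) : ℕ → ℝ → ℝ → (Fin n → ℝ) → (Fin n → ℝ)
  | 0, _, ρ, x => fun j => cg ρ (x j)
  | N + 1, τ, ρ, x => if ‖x‖ ≤ 1/2 then gf q N (q * τ) (ρ - τ) ((2:ℝ) • x)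
      else fun j => cg (ρ - τ + (2 * ‖x‖ - 1) * τ) (cf ‖x‖ (x j))

/-- backward map -/
noncomputable def gg (q : ℝ) : ℕ → ℝ → ℝ → (Fin n → ℝ) → (Fin n → ℝ)
  | 0, _, ρ, y => fun j => cf ρ (y j)
  | N + 1, τ, ρ, y => if ‖y‖ ≤ ρ - τ then (1/2 : ℝ) • gg q N (q * τ) (ρ - τ) y
      else fun j => cg ((1 + (‖y‖ - (ρ - τ)) / τ) / 2) (cf ‖y‖ (y j))

/-- the hypotheses on the parameters -/
structure GPar (q τ ρ : ℝ) : Prop where
  q0 : 0 < q
  q1 : q < 1
  t0 : 0 < τ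
  lo : 1/2 ≤ ρ - τ / (1 - q)
  hi : ρ ≤ 1

variable {q τ ρ : ℝ}

lemma GPar.le_div (h : GPar q τ ρ) : τ ≤ τ / (1 - q) := by
  have h1 := h.q0
  have h2 := h.q1
  have h3 := h.t0
  rw [le_div_iff₀ (by linarith)]
  nlinarith

lemma GPar.half_le (h : GPar q τ ρ) : 1/2 ≤ ρ - τ := by
  have := h.le_div
  have := h.lo
  linarith

lemma GPar.half_le' (h : GPar q τ ρ) : 1/2 ≤ ρ := by
  have := h.half_le
  have := h.t0
  linarith

lemma GPar.pred (h : GPar q τ ρ) : GPar q (q * τ) (ρ - τ) := by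
  have h1 := h.q0
  have h2 := h.q1
  have h3 := h.t0
  have h4 := h.lo
  have h5 := h.hi
  refine ⟨h1, h2, mul_pos h1 h3, ?_, by linarith⟩
  have e : ρ - τ - q * τ / (1 - q) = ρ - τ / (1 - q) := by
    have : (1:ℝ) - q ≠ 0 := by linarith
    field_simp
    ring
  rw [e]; exact h4

lemma gf_bd : ∀ {N : ℕ} {τ ρ : ℝ} {x : Fin n → ℝ}, ‖x‖ = 1 →
    gf q N τ ρ x = fun j => cg ρ (x j)
  | 0, τ, ρ, x, _ => rfl
  | N + 1, τ, ρ, x, hx => by
    rw [gf, if_neg (by rw [hx]; norm_num), hx]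
    funext j
    rw [cf_one (by rw [← hx]; exact abs_apply_le x j)]
    congr 1
    ring

lemma gg_bd : ∀ {N : ℕ} {τ ρ : ℝ}, GPar q τ ρ → ∀ {y : Fin n → ℝ}, ‖y‖ = ρ →
    gg q N τ ρ y = fun j => cf ρ (y j)
  | 0, τ, ρ, _, y, _ => rfl
  | N + 1, τ, ρ, h, y, hy => by
    have ht := h.t0
    rw [gg, if_neg (by rw [hy]; linarith), hy]
    funext j
    have e : (1 + (ρ - (ρ - τ)) / τ) / 2 = 1 := by
      rw [sub_sub_cancel, div_self ht.ne']; norm_num
    rw [e, cg_one]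
    have := norm_cf_le h.half_le' h.hi (y := y) hy.le
    exact (abs_apply_le (fun j => cf ρ (y j)) j).trans this

lemma norm_gf : ∀ {N : ℕ} {τ ρ : ℝ}, GPar q τ ρ → ∀ {x : Fin n → ℝ}, ‖x‖ ≤ 1 →
    ‖gf q N τ ρ x‖ ≤ ρ
  | 0, τ, ρ, h, x, hx => norm_cg_le h.half_le' h.hi hx
  | N + 1, τ, ρ, h, x, hx => by
    have ht := h.t0
    by_cases h1 : ‖x‖ ≤ 1/2
    · rw [gf, if_pos h1]
      have := norm_gf (N := N) h.pred (x := (2:ℝ) • x) (by rw [norm_smul]; norm_num; linarith)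
      linarith
    · rw [gf, if_neg h1, norm_outer ht h.half_le h.hi (not_le.1 h1).le hx]
      nlinarith

lemma norm_gg : ∀ {N : ℕ} {τ ρ : ℝ}, GPar q τ ρ → ∀ {y : Fin n → ℝ}, ‖y‖ ≤ ρ →
    ‖gg q N τ ρ y‖ ≤ 1
  | 0, τ, ρ, h, y, hy => norm_cf_le h.half_le' h.hi hy
  | N + 1, τ, ρ, h, y, hy => by
    have ht := h.t0
    by_cases h1 : ‖y‖ ≤ ρ - τ
    · rw [gg, if_pos h1, norm_smul]
      have := norm_gg (N := N) h.pred h1
      norm_num
      linarith
    · rw [gg, if_neg h1, norm_outer_inv ht h.half_le h.hi (not_le.1 h1).le hy]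
      have e2 : (‖y‖ - (ρ - τ)) / τ ≤ 1 := by rw [div_le_one ht]; linarith
      linarith

lemma gg_gf : ∀ {N : ℕ} {τ ρ : ℝ}, GPar q τ ρ → ∀ {x : Fin n → ℝ}, ‖x‖ ≤ 1 →
    gg q N τ ρ (gf q N τ ρ x) = x
  | 0, τ, ρ, h, x, _ => by
    funext j
    exact cf_cg h.half_le'
  | N + 1, τ, ρ, h, x, hx => by
    have ht := h.t0
    by_cases h1 : ‖x‖ ≤ 1/2
    · have h2 : ‖(2:ℝ) • x‖ ≤ 1 := by rw [norm_smul]; norm_num; linarith
      rw [gf, if_pos h1, gg, if_pos (norm_gf h.pred h2), gg_gf h.pred h2, smul_smul]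
      norm_num
    · have h1' := not_le.1 h1
      have e := norm_outer ht h.half_le h.hi h1'.le hx
      rw [gf, if_neg h1, gg, e, if_neg (by nlinarith)]
      funext j
      rw [cf_cg (by nlinarith [h.half_le])]
      have e2 : (1 + (ρ - τ + (2 * ‖x‖ - 1) * τ - (ρ - τ)) / τ) / 2 = ‖x‖ := by
        field_simp; ring
      rw [e2, cg_cf h1'.le]

lemma gf_gg : ∀ {N : ℕ} {τ ρ : ℝ}, GPar q τ ρ → ∀ {y : Fin n → ℝ}, ‖y‖ ≤ ρ →
    gf q N τ ρ (gg q N τ ρ y) = y
  | 0, τ, ρ, h, y, _ => by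
    funext j
    exact cg_cf h.half_le'
  | N + 1, τ, ρ, h, y, hy => by
    have ht := h.t0
    by_cases h1 : ‖y‖ ≤ ρ - τ
    · have h2 : ‖(1/2:ℝ) • gg q N (q * τ) (ρ - τ) y‖ ≤ 1/2 := by
        rw [norm_smul]
        have := norm_gg (N := N) h.pred h1
        norm_num
        linarith
      rw [gg, if_pos h1, gf, if_pos h2, smul_smul]
      norm_num
      exact gf_gg h.pred h1
    · have h1' := not_le.1 h1
      have e := norm_outer_inv ht h.half_le h.hi h1'.le hy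
      have e1 : 0 < (‖y‖ - (ρ - τ)) / τ := div_pos (by linarith) ht
      rw [gg, if_neg h1, gf, e, if_neg (by linarith)]
      funext j
      rw [cf_cg (by linarith)]
      have e2 : ρ - τ + (2 * ((1 + (‖y‖ - (ρ - τ)) / τ) / 2) - 1) * τ = ‖y‖ := by
        field_simp; ring
      rw [e2, cg_cf (by linarith [h.half_le])]

/-- the formula on the outer shell -/
noncomputable def outer (τ ρ : ℝ) (x : Fin n → ℝ) : Fin n → ℝ :=
  fun j => cg (ρ - τ + (2 * ‖x‖ - 1) * τ) (cf ‖x‖ (x j))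

lemma gf_outer {N : ℕ} {x : Fin n → ℝ} (hx : 1/2 ≤ ‖x‖) :
    gf q (N+1) τ ρ x = outer τ ρ x := by
  by_cases hx2 : ‖x‖ ≤ 1/2
  · have e : ‖x‖ = 1/2 := le_antisymm hx2 hx
    rw [gf, if_pos hx2, gf_bd (by rw [norm_smul, e]; norm_num)]
    funext j
    show cg (ρ - τ) (2 * x j) = cg (ρ - τ + (2 * ‖x‖ - 1) * τ) (cf ‖x‖ (x j))
    rw [e, cf_half]
    congr 1
    ring
  · rw [gf, if_neg hx2]; rfl

lemma gf_inner' {N : ℕ} {x : Fin n → ℝ} (hx : ‖x‖ ≤ 1/2) :
    gf q (N+1) τ ρ x = gf q N (q * τ) (ρ - τ) ((2:ℝ) • x) := by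
  rw [gf, if_pos hx]

lemma plOn_gf : ∀ {N : ℕ} {τ ρ : ℝ}, GPar q τ ρ →
    PLOn (gf (n := n) q N τ ρ) (closedBall 0 1)
  | 0, τ, ρ, h => pl_pi fun j => pl_cg (plOn_const _ _) (pl_apply (plOn_id _) j)
  | N + 1, τ, ρ, h => by
    have hA : PLOn (gf (n := n) q (N + 1) τ ρ) (closedBall 0 (1/2)) := by
      have h1 : PLOn (fun x : Fin n → ℝ => gf q N (q * τ) (ρ - τ) ((2:ℝ) • x))
          (closedBall 0 (1/2)) := by
        refine (plOn_gf h.pred).comp (pl_smul 2 (plOn_id _)) ?_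
        intro x hx
        rw [mem_closedBall_zero_iff] at hx ⊢
        rw [norm_smul]; norm_num; linarith
      refine h1.congr ?_
      intro x hx
      rw [mem_closedBall_zero_iff] at hx
      exact gf_inner' hx
    have hB : PLOn (gf (n := n) q (N + 1) τ ρ) (Ann n) := by
      have h1 : PLOn (outer (n := n) τ ρ) (Ann n) := by
        refine pl_pi fun j => pl_cg ?_ (pl_cf (pl_norm _) (pl_apply (plOn_id _) j))
        have h2 : PLOn (fun x : Fin n → ℝ => τ * (2 * ‖x‖ - 1) + (ρ - τ)) (Ann n) :=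
          pl_add_const (pl_mul τ (pl_sub_const (pl_mul 2 (pl_norm _)) 1)) _
        refine h2.congr ?_
        intro x _
        show ρ - τ + (2 * ‖x‖ - 1) * τ = _
        ring
      refine h1.congr ?_
      intro x hx
      exact gf_outer hx.1
    have hU : (closedBall (0 : Fin n → ℝ) 1) = closedBall 0 (1/2) ∪ Ann n := by
      ext x
      simp only [mem_closedBall_zero_iff, mem_union, Ann, mem_ofPred_eq]
      constructor
      · intro hx
        rcases le_total ‖x‖ (1/2) with h1 | h1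
        · exact Or.inl h1
        · exact Or.inr ⟨h1, hx⟩
      · rintro (hx | hx)
        · linarith
        · exact hx.2
    rw [hU]
    exact hA.union hB isClosed_closedBall isClosed_Ann

lemma plOn_gg : ∀ {N : ℕ} {τ ρ : ℝ}, GPar q τ ρ →
    PLOn (gg (n := n) q N τ ρ) (closedBall 0 ρ)
  | 0, τ, ρ, h => pl_pi fun j => pl_cf (plOn_const _ _) (pl_apply (plOn_id _) j)
  | N + 1, τ, ρ, h => by
    have ht := h.t0
    have hA : PLOn (gg (n := n) q (N + 1) τ ρ) (closedBall 0 (ρ - τ)) := by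
      have h1 : PLOn (fun y : Fin n → ℝ => (1/2:ℝ) • gg q N (q * τ) (ρ - τ) y)
          (closedBall 0 (ρ - τ)) :=
        pl_smul _ (plOn_gg h.pred)
      refine h1.congr ?_
      intro x hx
      rw [mem_closedBall_zero_iff] at hx
      show gg q (N + 1) τ ρ x = _
      rw [gg, if_pos hx]
    have hB : PLOn (gg (n := n) q (N + 1) τ ρ) {y | ρ - τ ≤ ‖y‖ ∧ ‖y‖ ≤ ρ} := by
      have h1 : PLOn (fun y : Fin n → ℝ =>
          fun j => cg ((1 + (‖y‖ - (ρ - τ)) / τ) / 2) (cf ‖y‖ (y j)))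
            {y | ρ - τ ≤ ‖y‖ ∧ ‖y‖ ≤ ρ} := by
        refine pl_pi fun j => pl_cg ?_ (pl_cf (pl_norm _) (pl_apply (plOn_id _) j))
        have h2 : PLOn (fun y : Fin n → ℝ => ((‖y‖ - (ρ - τ)) / τ + 1) / 2)
            {y | ρ - τ ≤ ‖y‖ ∧ ‖y‖ ≤ ρ} :=
          pl_div (pl_add_const (pl_div (pl_sub_const (pl_norm _) _) τ) 1) 2
        refine h2.congr ?_
        intro x _
        show (1 + (‖x‖ - (ρ - τ)) / τ) / 2 = _
        ring
      refine h1.congr ?_
      intro y hy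
      by_cases hy2 : ‖y‖ ≤ ρ - τ
      · have e : ‖y‖ = ρ - τ := le_antisymm hy2 hy.1
        show gg q (N + 1) τ ρ y = _
        rw [gg, if_pos hy2, gg_bd h.pred e]
        funext j
        show (1/2) * cf (ρ - τ) (y j) = cg ((1 + (‖y‖ - (ρ - τ)) / τ) / 2) (cf ‖y‖ (y j))
        rw [e, sub_self, zero_div, add_zero, cg_half]
        ring
      · show gg q (N + 1) τ ρ y = _
        rw [gg, if_neg hy2]
    have hU : (closedBall (0 : Fin n → ℝ) ρ) = closedBall 0 (ρ - τ) ∪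
        {y | ρ - τ ≤ ‖y‖ ∧ ‖y‖ ≤ ρ} := by
      ext x
      simp only [mem_closedBall_zero_iff, mem_union, mem_ofPred_eq]
      constructor
      · intro hx
        rcases le_total ‖x‖ (ρ - τ) with h1 | h1
        · exact Or.inl h1
        · exact Or.inr ⟨h1, hx⟩
      · rintro (hx | hx)
        · linarith
        · exact hx.2
    rw [hU]
    exact hA.union hB isClosed_closedBall ((isClosed_le continuous_const continuous_norm).inter
      (isClosed_le continuous_norm continuous_const))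

/-! ### the homeomorphism of the space -/

/-- the extension by the identity -/
noncomputable def cgf (q τ : ℝ) (N : ℕ) (x : Fin n → ℝ) : Fin n → ℝ :=
  if ‖x‖ ≤ 1 then gf q N τ 1 x else x

/-- its inverse -/
noncomputable def cgg (q τ : ℝ) (N : ℕ) (x : Fin n → ℝ) : Fin n → ℝ :=
  if ‖x‖ ≤ 1 then gg q N τ 1 x else x

lemma cgf_in {N : ℕ} {x : Fin n → ℝ} (hx : ‖x‖ ≤ 1) : cgf q τ N x = gf q N τ 1 x := if_pos hx

lemma cgf_out {N : ℕ} {x : Fin n → ℝ} (hx : 1 ≤ ‖x‖) : cgf q τ N x = x := by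
  by_cases h : ‖x‖ ≤ 1
  · have e : ‖x‖ = 1 := le_antisymm h hx
    rw [cgf, if_pos h, gf_bd e]
    funext j
    exact cg_one (by rw [← e]; exact abs_apply_le x j)
  · rw [cgf, if_neg h]

lemma cgg_out {N : ℕ} (hP : GPar q τ 1) {x : Fin n → ℝ} (hx : 1 ≤ ‖x‖) :
    cgg q τ N x = x := by
  by_cases h : ‖x‖ ≤ 1
  · have e : ‖x‖ = 1 := le_antisymm h hx
    rw [cgg, if_pos h, gg_bd hP e]
    funext j
    exact cf_one (by rw [← e]; exact abs_apply_le x j)
  · rw [cgg, if_neg h]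

lemma plOn_cgf {N : ℕ} (hP : GPar q τ 1) : PLOn (cgf (n := n) q τ N) univ := by
  rw [univ_eq_union]
  refine PLOn.union ((plOn_gf (N := N) hP).congr ?_) ((plOn_id _).congr ?_) isClosed_closedBall
    (isClosed_le continuous_const continuous_norm)
  · intro x hx
    rw [mem_closedBall_zero_iff] at hx
    exact if_pos hx
  · intro x hx
    exact cgf_out hx

lemma plOn_cgg {N : ℕ} (hP : GPar q τ 1) : PLOn (cgg (n := n) q τ N) univ := by
  rw [univ_eq_union]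
  refine PLOn.union ((plOn_gg (N := N) hP).congr ?_) ((plOn_id _).congr ?_) isClosed_closedBall
    (isClosed_le continuous_const continuous_norm)
  · intro x hx
    rw [mem_closedBall_zero_iff] at hx
    exact if_pos hx
  · intro x hx
    exact cgg_out hP hx

/-- the squeeze as a homeomorphism of the space -/
noncomputable def gchi {N : ℕ} (hP : GPar q τ 1) : (Fin n → ℝ) ≃ₜ (Fin n → ℝ) where
  toFun := cgf q τ N
  invFun := cgg q τ N
  left_inv x := by
    by_cases h : ‖x‖ ≤ 1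
    · have h2 := norm_gf (N := N) hP h
      rw [cgf, if_pos h, cgg, if_pos h2, gg_gf hP h]
    · rw [cgf, if_neg h, cgg, if_neg h]
  right_inv x := by
    by_cases h : ‖x‖ ≤ 1
    · have h2 := norm_gg (N := N) hP h
      rw [cgg, if_pos h, cgf, if_pos h2, gf_gg hP h]
    · rw [cgg, if_neg h, cgf, if_neg h]
  continuous_toFun := continuousOn_univ.1 (plOn_cgf hP).1
  continuous_invFun := continuousOn_univ.1 (plOn_cgg hP).1

lemma norm_cgf_lt {N : ℕ} (hP : GPar q τ 1) {x : Fin n → ℝ} (hx : ‖x‖ < 1) :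
    ‖cgf q τ N x‖ < 1 := by
  by_contra h
  have h1 := cgg_out (N := N) hP (not_lt.1 h)
  have h2 : cgg q τ N (cgf q τ N x) = x := (gchi (N := N) hP).symm_apply_apply x
  rw [h2] at h1
  rw [← h1] at h
  exact h hx

lemma norm_cgg_lt {N : ℕ} (hP : GPar q τ 1) {x : Fin n → ℝ} (hx : ‖x‖ < 1) :
    ‖cgg q τ N x‖ < 1 := by
  by_contra h
  have h1 := cgf_out (q := q) (τ := τ) (N := N) (not_lt.1 h)
  have h2 : cgf q τ N (cgg q τ N x) = x := (gchi (N := N) hP).apply_symm_apply x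
  rw [h2] at h1
  rw [← h1] at h
  exact h hx

lemma sg_cgf {N : ℕ} (hP : GPar q τ 1) : Sg (cgf (n := n) q τ N) :=
  ⟨plOn_cgf hP, fun _ h => cgf_out h, fun _ h => norm_cgf_lt hP h⟩

lemma sg_cgg {N : ℕ} (hP : GPar q τ 1) : Sg (cgg (n := n) q τ N) :=
  ⟨plOn_cgg hP, fun _ h => cgg_out hP h, fun _ h => norm_cgg_lt hP h⟩

end Crest.Agent.R096.Sq_55
private theorem rz_9902e20b5d : type_of% @_root_.Crest.Agent.R096.Sq_55.gf.eq_def := @_root_.Crest.Agent.R096.Sq_55.gf.eq_def -- L22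
private theorem rz_402e5ed4e2 : type_of% @_root_.Crest.Agent.R096.Sq_55.gf.eq_1 := @_root_.Crest.Agent.R096.Sq_55.gf.eq_1 -- L22
private theorem rz_5447663d79 : type_of% @_root_.Crest.Agent.R096.Sq_55.gg.eq_def := @_root_.Crest.Agent.R096.Sq_55.gg.eq_def -- L28
private theorem rz_a7a7f8a54c : type_of% @_root_.Crest.Agent.R096.Sq_55.gg.eq_1 := @_root_.Crest.Agent.R096.Sq_55.gg.eq_1 -- L28
end

-- ▼ part R096/Sq6_55
section

/-!
# R096 (row 96), SOBSQ, part 6 (helper55): the integral estimate of the geometric squeeze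

`gf_int`: for `0 < p < n`, `q² = 2^(p-n)`, every measurable `u ≥ 0` and every weight `w` bounded by
the `p`-th power of the local Lipschitz constant of `gf`,
`∫_{‖x‖<1} u (gf x) w x ≤ (K/τ) ∫_{ρ-τ/(1-q) < ‖y‖ ≤ ρ} u + K q^(2N) ∫_{‖y‖ ≤ ρ} u`.
-/

set_option autoImplicit false

open Set Metric Filter Topology MeasureTheory

namespace Crest.Agent.R096.Sq_55

open Crest.Agent.R096.Ce_537 Crest.Agent.R096.Bd_416 Crest.Agent.R96.Hole_348
open scoped ENNReal NNReal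

variable {n : ℕ}

/-! ### volumes of Lipschitz images -/

lemma volume_lip_image {ι ι' : Type*} [Fintype ι] {f : (ι → ℝ) → (ι → ℝ)} {K : ℝ≥0}
    (h : LipschitzWith K f) (A : Set (ι → ℝ)) :
    volume (f '' A) ≤ (K:ℝ≥0∞)^(Fintype.card ι) * volume A := by
  have h1 := h.hausdorffMeasure_image_le (d := (Fintype.card ι : ℝ)) (Nat.cast_nonneg _) A
  rw [hausdorffMeasure_pi_real] at h1
  simpa using h1

/-- coordinates of the collar over the faces orthogonal to the axis `i` -/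
noncomputable def tht (i : Fin n) (y : Fin n → ℝ) : Fin n → ℝ :=
  Function.update (fun j => cf ‖y‖ (y j)) i ‖y‖

/-- the inverse -/
noncomputable def psi' (i : Fin n) (s : ℝ) (v : Fin n → ℝ) : Fin n → ℝ :=
  fun j => cg (v i) (if j = i then s else v j)

lemma lip_tht (i : Fin n) : LipschitzWith 7 (tht i) := by
  refine LipschitzWith.of_dist_le_mul ?_
  intro v w
  rw [dist_eq_norm, dist_eq_norm, pi_norm_le_iff_of_nonneg (by positivity)]
  intro j
  have h2 := abs_norm_sub_le' v w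
  have h3 := abs_sub_apply_le v w j
  have h0 := norm_nonneg (v - w)
  show |tht i v j - tht i w j| ≤ _
  push_cast
  by_cases hj : j = i
  · subst hj
    simp only [tht, Function.update_self]
    linarith
  · simp only [tht, Function.update_of_ne hj]
    have h1 := cf_lip ‖v‖ ‖w‖ (v j) (w j)
    linarith

lemma lip_psi' (i : Fin n) (s : ℝ) : LipschitzWith 4 (psi' i s) := by
  refine LipschitzWith.of_dist_le_mul ?_
  intro v w
  rw [dist_eq_norm, dist_eq_norm, pi_norm_le_iff_of_nonneg (by positivity)]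
  intro j
  have h1 := cg_lip (v i) (w i) (if j = i then s else v j) (if j = i then s else w j)
  have h2 := abs_sub_apply_le v w i
  have h3 : |(if j = i then s else v j) - (if j = i then s else w j)| ≤ ‖v - w‖ := by
    split_ifs
    · simp
    · exact abs_sub_apply_le v w j
  show |cg _ _ - cg _ _| ≤ _
  refine h1.trans ?_
  push_cast
  linarith

/-- scaling of one coordinate -/
noncomputable def scl (i : Fin n) (a b : ℝ) (v : Fin n → ℝ) : Fin n → ℝ :=
  Function.update v i (a * v i + b)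

lemma volume_scl (i : Fin n) (a b : ℝ) (A : Set (Fin n → ℝ)) :
    volume (scl i a b '' A) = ENNReal.ofReal |a| * volume A := by
  classical
  set d : Fin n → ℝ := fun j => if j = i then a else 1 with hd
  have e : scl i a b '' A = (fun v => v + Pi.single i b) '' ((Matrix.toLin' (Matrix.diagonal d)) '' A) := by
    rw [image_image]
    refine image_congr' fun v => ?_
    funext j
    by_cases hj : j = i
    · subst hj
      simp [scl, Matrix.mulVec_diagonal, hd]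
    · simp [scl, Matrix.mulVec_diagonal, hd, hj]
  rw [e, image_add_right, measure_preimage_add_right, Measure.addHaar_image_linearMap,
    LinearMap.det_toLin', Matrix.det_diagonal]
  congr 2
  rw [hd, Finset.prod_ite_eq']
  simp

/-- the constant -/
noncomputable def kap (n : ℕ) : ℝ := n * 28^n

/-- the measure estimate for the outer shell -/
lemma volume_outer {τ ρ : ℝ} (ht : 0 < τ) (h1 : 1/2 ≤ ρ - τ) (h2 : ρ ≤ 1)
    (A : Set (Fin n → ℝ)) :
    volume {x : Fin n → ℝ | (1/2 < ‖x‖ ∧ ‖x‖ < 1) ∧ outer τ ρ x ∈ A} ≤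
      ENNReal.ofReal (kap n / τ) * volume (A ∩ {y | ρ - τ < ‖y‖ ∧ ‖y‖ ≤ ρ}) := by
  classical
  set L := {y : Fin n → ℝ | ρ - τ < ‖y‖ ∧ ‖y‖ ≤ ρ} with hL
  set B : Fin n × Bool → Set (Fin n → ℝ) := fun a =>
    psi' a.1 (if a.2 then 1 else -1) ''
      (scl a.1 (1/(2*τ)) ((1 - (ρ - τ)/τ)/2) '' (tht a.1 '' (A ∩ L))) with hB
  have hsub : {x : Fin n → ℝ | (1/2 < ‖x‖ ∧ ‖x‖ < 1) ∧ outer τ ρ x ∈ A} ⊆ ⋃ a, B a := by
    rintro x ⟨⟨hx1, hx2⟩, hxA⟩
    set ft : Fin n → ℝ := fun j => cf ‖x‖ (x j) with hft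
    have hft1 : ‖ft‖ = 1 := norm_cf ⟨hx1.le, hx2.le⟩
    have hne : ft ≠ 0 := by
      intro h0
      rw [h0, norm_zero] at hft1
      exact zero_ne_one hft1
    obtain ⟨i, hi⟩ := exists_coord hne
    rw [hft1] at hi
    have hny : ‖outer τ ρ x‖ = ρ - τ + (2 * ‖x‖ - 1) * τ := norm_outer ht h1 h2 hx1.le hx2.le
    have hyL : outer τ ρ x ∈ L := by
      refine ⟨?_, ?_⟩
      · rw [hny]; nlinarith
      · rw [hny]; nlinarith
    set s : Bool := decide (0 ≤ ft i) with hs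
    have hsi : (if s then (1:ℝ) else -1) = ft i := by
      rcases le_or_gt 0 (ft i) with h0 | h0
      · rw [abs_of_nonneg h0] at hi
        rw [hs, if_pos (by simpa using h0)]; exact hi
      · rw [abs_of_neg h0] at hi
        rw [hs, if_neg (by simpa using h0)]; linarith
    have hfty : ∀ j, cf ‖outer τ ρ x‖ (outer τ ρ x j) = ft j := by
      intro j
      rw [hny]
      exact cf_cg (by nlinarith)
    refine mem_iUnion.2 ⟨(i, s), _, ⟨_, ⟨_, ⟨hxA, hyL⟩, rfl⟩, rfl⟩, ?_⟩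
    have e1 : scl i (1/(2*τ)) ((1 - (ρ - τ)/τ)/2) (tht i (outer τ ρ x)) =
        Function.update ft i ‖x‖ := by
      funext j
      by_cases hj : j = i
      · subst hj
        simp only [scl, tht, Function.update_self]
        rw [hny]
        field_simp
        ring
      · simp only [scl, tht, Function.update_of_ne hj]
        exact hfty j
    show psi' i (if s then 1 else -1) (scl i (1/(2*τ)) ((1 - (ρ - τ)/τ)/2)
      (tht i (outer τ ρ x))) = x
    rw [e1]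
    funext j
    show cg (Function.update ft i ‖x‖ i) (if j = i then (if s then 1 else -1)
      else Function.update ft i ‖x‖ j) = x j
    rw [Function.update_self]
    by_cases hj : j = i
    · rw [if_pos hj, hsi, hj]; exact cg_cf hx1.le
    · rw [if_neg hj, Function.update_of_ne hj]; exact cg_cf hx1.le
  have hBv : ∀ a, volume (B a) ≤ ENNReal.ofReal (28^n / (2*τ)) * volume (A ∩ L) := by
    intro a
    have b1 := volume_lip_image (ι' := Fin n) (lip_psi' a.1 (if a.2 then 1 else -1))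
      (scl a.1 (1/(2*τ)) ((1 - (ρ - τ)/τ)/2) '' (tht a.1 '' (A ∩ L)))
    have b2 := volume_lip_image (ι' := Fin n) (lip_tht a.1) (A ∩ L)
    rw [volume_scl] at b1
    rw [Fintype.card_fin] at b1 b2
    refine b1.trans ?_
    calc ((4:ℝ≥0):ℝ≥0∞)^n * (ENNReal.ofReal |1/(2*τ)| * volume (tht a.1 '' (A ∩ L)))
        ≤ ((4:ℝ≥0):ℝ≥0∞)^n * (ENNReal.ofReal |1/(2*τ)| * (((7:ℝ≥0):ℝ≥0∞)^n * volume (A ∩ L))) := by
          gcongr
      _ = ENNReal.ofReal (28^n / (2*τ)) * volume (A ∩ L) := by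
          rw [abs_of_pos (by positivity)]
          rw [show ((4:ℝ≥0):ℝ≥0∞)^n = ENNReal.ofReal (4^n) by
              rw [ENNReal.ofReal_pow (by norm_num)]; norm_num,
            show ((7:ℝ≥0):ℝ≥0∞)^n = ENNReal.ofReal (7^n) by
              rw [ENNReal.ofReal_pow (by norm_num)]; norm_num,
            ← mul_assoc, ← mul_assoc, ← ENNReal.ofReal_mul (by positivity),
            ← ENNReal.ofReal_mul (by positivity)]
          congr 2
          rw [show (28:ℝ) = 4 * 7 by norm_num, mul_pow]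
          ring
  calc volume {x : Fin n → ℝ | (1/2 < ‖x‖ ∧ ‖x‖ < 1) ∧ outer τ ρ x ∈ A}
      ≤ volume (⋃ a, B a) := measure_mono hsub
    _ ≤ ∑ a, volume (B a) := by
        have := measure_iUnion_fintype_le volume B
        exact this
    _ ≤ ∑ _a : Fin n × Bool, ENNReal.ofReal (28^n / (2*τ)) * volume (A ∩ L) :=
        Finset.sum_le_sum fun a _ => hBv a
    _ = _ := by
        rw [Finset.sum_const, Finset.card_univ, Fintype.card_prod, Fintype.card_fin,
          Fintype.card_bool, nsmul_eq_mul, ← mul_assoc]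
        congr 1
        rw [← ENNReal.ofReal_natCast, ← ENNReal.ofReal_mul (Nat.cast_nonneg _)]
        congr 1
        unfold kap
        push_cast
        field_simp

lemma continuous_cg {X : Type*} [TopologicalSpace X] {a b : X → ℝ} (ha : Continuous a)
    (hb : Continuous b) : Continuous fun x => cg (a x) (b x) := by
  unfold cg; fun_prop

lemma continuous_cf {X : Type*} [TopologicalSpace X] {a b : X → ℝ} (ha : Continuous a)
    (hb : Continuous b) : Continuous fun x => cf (a x) (b x) := by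
  unfold cf; fun_prop

lemma continuous_outer (τ ρ : ℝ) : Continuous (outer (n := n) τ ρ) := by
  refine continuous_pi fun j => ?_
  refine continuous_cg ?_ (continuous_cf continuous_norm (continuous_apply j))
  exact continuous_const.add (((continuous_const.mul continuous_norm).sub
    continuous_const).mul continuous_const)

lemma isOpen_shell : IsOpen {x : Fin n → ℝ | 1/2 < ‖x‖ ∧ ‖x‖ < 1} :=
  (isOpen_lt continuous_const continuous_norm).inter (isOpen_lt continuous_norm continuous_const)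

lemma measurableSet_layer (a b : ℝ) : MeasurableSet {y : Fin n → ℝ | a < ‖y‖ ∧ ‖y‖ ≤ b} :=
  (isOpen_lt continuous_const continuous_norm).measurableSet.inter
    (isClosed_le continuous_norm continuous_const).measurableSet

/-- measure inequality ==> integral inequality -/
lemma lint_of_volume {X Y : Type*} [MeasurableSpace X] [MeasurableSpace Y] {μ : Measure X}
    {ν : Measure Y} {φ : X → Y} (hφ : Measurable φ)
    {S : Set X} {T : Set Y} (hT : MeasurableSet T) {c : ℝ≥0∞}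
    (h : ∀ A, MeasurableSet A → μ (S ∩ φ ⁻¹' A) ≤ c * ν (A ∩ T)) {u : Y → ℝ≥0∞}
    (hu : Measurable u) : ∫⁻ x in S, u (φ x) ∂μ ≤ c * ∫⁻ y in T, u y ∂ν := by
  have h1 : Measure.map φ (μ.restrict S) ≤ c • ν.restrict T := by
    refine Measure.le_iff.2 fun A hA => ?_
    rw [Measure.map_apply hφ hA, Measure.restrict_apply (hφ hA), Measure.smul_apply,
      Measure.restrict_apply hA, smul_eq_mul, inter_comm]
    exact h A hA
  rw [← lintegral_map hu hφ, ← smul_eq_mul, ← lintegral_smul_measure]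
  exact lintegral_mono' h1 le_rfl

lemma lint_outer {τ ρ : ℝ} (ht : 0 < τ) (h1 : 1/2 ≤ ρ - τ) (h2 : ρ ≤ 1)
    {u : (Fin n → ℝ) → ℝ≥0∞} (hu : Measurable u) :
    ∫⁻ x in {x : Fin n → ℝ | 1/2 < ‖x‖ ∧ ‖x‖ < 1}, u (outer τ ρ x) ≤
      ENNReal.ofReal (kap n / τ) * ∫⁻ y in {y : Fin n → ℝ | ρ - τ < ‖y‖ ∧ ‖y‖ ≤ ρ}, u y :=
  lint_of_volume (continuous_outer τ ρ).measurable (measurableSet_layer _ _)
    (fun A _ => volume_outer ht h1 h2 A) hu

/-- the innermost cube -/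
lemma volume_inner {ρ : ℝ} (h1 : 1/2 ≤ ρ) (h2 : ρ ≤ 1) (A : Set (Fin n → ℝ)) :
    volume (ball (0 : Fin n → ℝ) 1 ∩ (fun x : Fin n → ℝ => fun j => cg ρ (x j)) ⁻¹' A) ≤
      ENNReal.ofReal (3^n) * volume (A ∩ closedBall 0 ρ) := by
  have hl : LipschitzWith 3 (fun y : Fin n → ℝ => fun j => cf ρ (y j)) := by
    refine LipschitzWith.of_dist_le_mul ?_
    intro v w
    rw [dist_eq_norm, dist_eq_norm, pi_norm_le_iff_of_nonneg (by positivity)]
    intro j
    have h3 := cf_lip ρ ρ (v j) (w j)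
    rw [sub_self, abs_zero, mul_zero, add_zero] at h3
    have h4 := abs_sub_apply_le v w j
    show |cf ρ (v j) - cf ρ (w j)| ≤ _
    push_cast
    linarith
  have hsub : ball (0 : Fin n → ℝ) 1 ∩ (fun x : Fin n → ℝ => fun j => cg ρ (x j)) ⁻¹' A ⊆
      (fun y : Fin n → ℝ => fun j => cf ρ (y j)) '' (A ∩ closedBall 0 ρ) := by
    rintro x ⟨hx, hxA⟩
    rw [mem_ball_zero_iff] at hx
    refine ⟨fun j => cg ρ (x j), ⟨hxA, ?_⟩, ?_⟩
    · rw [mem_closedBall_zero_iff]; exact norm_cg_le h1 h2 hx.le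
    · funext j; exact cf_cg h1
  refine (measure_mono hsub).trans ((volume_lip_image (ι' := Fin n) hl _).trans (le_of_eq ?_))
  rw [Fintype.card_fin]
  congr 1
  rw [ENNReal.ofReal_pow (by norm_num)]
  norm_num

/-! ### Lipschitz constants -/

lemma outer_lip {τ ρ : ℝ} (ht : 0 < τ) (ht2 : τ ≤ 1/2) (x y : Fin n → ℝ) :
    ‖outer τ ρ x - outer τ ρ y‖ ≤ 16 * ‖x - y‖ := by
  rw [pi_norm_le_iff_of_nonneg (by positivity)]
  intro j
  have h3 := cg_lip (ρ - τ + (2 * ‖x‖ - 1) * τ) (ρ - τ + (2 * ‖y‖ - 1) * τ)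
    (cf ‖x‖ (x j)) (cf ‖y‖ (y j))
  have h4 := cf_lip ‖x‖ ‖y‖ (x j) (y j)
  have h5 := abs_norm_sub_le' x y
  have h6 := abs_sub_apply_le x y j
  have e : ρ - τ + (2 * ‖x‖ - 1) * τ - (ρ - τ + (2 * ‖y‖ - 1) * τ) = 2 * τ * (‖x‖ - ‖y‖) := by
    ring
  rw [e, abs_mul, abs_of_pos (by linarith : 0 < 2 * τ)] at h3
  have h7 : 2 * τ * |‖x‖ - ‖y‖| ≤ ‖x - y‖ := by
    have := abs_nonneg (‖x‖ - ‖y‖)
    nlinarith
  show |cg _ _ - cg _ _| ≤ _
  linarith

variable {q τ ρ : ℝ}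

lemma LLV_gf_outer {N : ℕ} (h : GPar q τ ρ) {x : Fin n → ℝ} (h1 : 1/2 < ‖x‖) :
    LLV 16 (gf q (N+1) τ ρ) x := by
  have ht2 : τ ≤ 1/2 := by have := h.half_le; have := h.hi; linarith
  filter_upwards [(isOpen_lt continuous_const continuous_norm).mem_nhds h1] with y hy
  rw [gf_outer (le_of_lt hy), gf_outer h1.le]
  exact outer_lip h.t0 ht2 y x

lemma LLV_gf_zero (x : Fin n → ℝ) : LLV 2 (gf q 0 τ ρ) x := by
  refine Eventually.of_forall fun y => ?_
  rw [pi_norm_le_iff_of_nonneg (by positivity)]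
  intro j
  have h3 := cg_lip ρ ρ (y j) (x j)
  rw [sub_self, abs_zero, mul_zero, add_zero] at h3
  have h4 := abs_sub_apply_le y x j
  show |cg ρ (y j) - cg ρ (x j)| ≤ _
  linarith

lemma LLV_gf_inner {N : ℕ} {x : Fin n → ℝ} (h1 : ‖x‖ < 1/2) {c : ℝ}
    (hc : LLV c (gf q N (q * τ) (ρ - τ)) ((2:ℝ) • x)) :
    LLV (2 * c) (gf q (N+1) τ ρ) x := by
  have h2 : Tendsto (fun y : Fin n → ℝ => (2:ℝ) • y) (𝓝 x) (𝓝 ((2:ℝ) • x)) :=
    (continuous_const_smul (2:ℝ)).continuousAt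
  filter_upwards [h2.eventually hc, (isOpen_lt continuous_norm continuous_const).mem_nhds h1]
    with y hy hy2
  rw [gf_inner' (le_of_lt hy2), gf_inner' h1.le]
  refine hy.trans (le_of_eq ?_)
  rw [← smul_sub, norm_smul]
  norm_num
  ring

/-! ### the estimate -/

/-- the constant -/
noncomputable def Kg (n : ℕ) (p : ℝ) : ℝ := (16:ℝ)^p * (kap n + 3^n)

lemma kap_nonneg : 0 ≤ kap n := by unfold kap; positivity

lemma Kg_nonneg {p : ℝ} : 0 ≤ Kg n p := by
  have := kap_nonneg (n := n)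
  unfold Kg; positivity

lemma lint_two (F : (Fin n → ℝ) → ℝ≥0∞) :
    ∫⁻ x in ball (0 : Fin n → ℝ) (1/2), F ((2:ℝ) • x) =
      ENNReal.ofReal ((2:ℝ)^n)⁻¹ * ∫⁻ x in ball (0 : Fin n → ℝ) 1, F x := by
  set e := (Homeomorph.smulOfNeZero (α := Fin n → ℝ) (2:ℝ) two_ne_zero).toMeasurableEquiv with he
  have h1 : ball (0 : Fin n → ℝ) (1/2) = e ⁻¹' ball (0 : Fin n → ℝ) 1 := by
    ext x
    show x ∈ ball (0 : Fin n → ℝ) (1/2) ↔ (2:ℝ) • x ∈ ball (0 : Fin n → ℝ) 1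
    rw [mem_ball_zero_iff, mem_ball_zero_iff, norm_smul]
    norm_num
    constructor <;> intro h <;> linarith
  have h2 : Measure.map e volume = ENNReal.ofReal ((2:ℝ)^n)⁻¹ • (volume : Measure (Fin n → ℝ)) := by
    have := Measure.map_addHaar_smul (volume : Measure (Fin n → ℝ)) (r := (2:ℝ)) two_ne_zero
    rw [Module.finrank_fin_fun, abs_of_pos (by positivity)] at this
    exact this
  have h3 : (fun x : Fin n → ℝ => F ((2:ℝ) • x)) = fun x => F (e x) := rfl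
  rw [h1, h3, ← lintegral_map_equiv F e, ← MeasurableEquiv.restrict_map, h2,
    Measure.restrict_smul, lintegral_smul_measure, smul_eq_mul]

theorem gf_int {p : ℝ} (hp : 0 < p) (hn : 0 < n) {q : ℝ} (hq : q^2 = (2:ℝ)^(p - n)) :
    ∀ {N : ℕ} {τ ρ : ℝ}, GPar q τ ρ → ∀ {u w : (Fin n → ℝ) → ℝ≥0∞}, Measurable u →
      (∀ x c, ‖x‖ < 1 → 1 ≤ c → LLV c (gf q N τ ρ) x → w x ≤ ENNReal.ofReal (c^p)) →
      ∫⁻ x in ball (0 : Fin n → ℝ) 1, u (gf q N τ ρ x) * w x ≤
        ENNReal.ofReal (Kg n p / τ) *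
          (∫⁻ y in {y : Fin n → ℝ | ρ - τ / (1 - q) < ‖y‖ ∧ ‖y‖ ≤ ρ}, u y) +
        ENNReal.ofReal (Kg n p * q^(2*N)) * ∫⁻ y in closedBall (0 : Fin n → ℝ) ρ, u y
  | 0, τ, ρ, h, u, w, hu, hw => by
    have h16 : (0:ℝ) < (16:ℝ)^p := by positivity
    calc ∫⁻ x in ball (0 : Fin n → ℝ) 1, u (gf q 0 τ ρ x) * w x
        ≤ ∫⁻ x in ball (0 : Fin n → ℝ) 1, ENNReal.ofReal ((16:ℝ)^p) * u (gf q 0 τ ρ x) := by
          refine setLIntegral_mono' measurableSet_ball fun x hx => ?_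
          rw [mul_comm]
          refine mul_le_mul' ?_ le_rfl
          refine (hw x 2 (by simpa using hx) (by norm_num) (LLV_gf_zero x)).trans ?_
          exact ENNReal.ofReal_le_ofReal (Real.rpow_le_rpow (by norm_num) (by norm_num) hp.le)
      _ = ENNReal.ofReal ((16:ℝ)^p) * ∫⁻ x in ball (0 : Fin n → ℝ) 1, u (gf q 0 τ ρ x) :=
          lintegral_const_mul' _ _ ENNReal.ofReal_ne_top
      _ ≤ ENNReal.ofReal ((16:ℝ)^p) * (ENNReal.ofReal (3^n) *
            ∫⁻ y in closedBall (0 : Fin n → ℝ) ρ, u y) := by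
          refine mul_le_mul' le_rfl ?_
          refine lint_of_volume (φ := fun x : Fin n → ℝ => fun j => cg ρ (x j)) ?_
            isClosed_closedBall.measurableSet
            (fun A _ => volume_inner h.half_le' h.hi A) hu
          exact (continuous_pi fun j => continuous_cg continuous_const
            (continuous_apply j)).measurable
      _ ≤ ENNReal.ofReal (Kg n p * q^(2*0)) * ∫⁻ y in closedBall (0 : Fin n → ℝ) ρ, u y := by
          rw [← mul_assoc, ← ENNReal.ofReal_mul (by positivity)]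
          refine mul_le_mul' (ENNReal.ofReal_le_ofReal ?_) le_rfl
          have := kap_nonneg (n := n)
          rw [mul_zero, pow_zero, mul_one, Kg]
          nlinarith
      _ ≤ _ := le_add_self
  | N + 1, τ, ρ, h, u, w, hu, hw => by
    have h16 : (0:ℝ) < (16:ℝ)^p := by positivity
    have ht := h.t0
    have hK := Kg_nonneg (n := n) (p := p)
    -- the weight of the inner part
    set w' : (Fin n → ℝ) → ℝ≥0∞ := fun x => ENNReal.ofReal ((2:ℝ)^(-p)) * w ((1/2:ℝ) • x) with hw'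
    have hww' : ∀ x c, ‖x‖ < 1 → 1 ≤ c → LLV c (gf q N (q * τ) (ρ - τ)) x →
        w' x ≤ ENNReal.ofReal (c^p) := by
      intro x c hx hc hxc
      have e2 : (2:ℝ) • ((1/2:ℝ) • x) = x := by rw [smul_smul]; norm_num
      have hx2 : ‖(1/2:ℝ) • x‖ < 1/2 := by rw [norm_smul]; norm_num; linarith
      have h3 := hw ((1/2:ℝ) • x) (2 * c) (by linarith) (by linarith)
        (LLV_gf_inner hx2 (by rw [e2]; exact hxc))
      rw [hw']
      refine (mul_le_mul' le_rfl h3).trans (le_of_eq ?_)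
      rw [← ENNReal.ofReal_mul (by positivity)]
      congr 1
      rw [Real.mul_rpow (by norm_num) (by linarith), ← mul_assoc,
        ← Real.rpow_add (by norm_num), neg_add_cancel, Real.rpow_zero, one_mul]
    have IH := gf_int hp hn hq (N := N) h.pred hu hww'
    have e3 : ρ - τ - q * τ / (1 - q) = ρ - τ / (1 - q) := by
      have : (1:ℝ) - q ≠ 0 := by have := h.q1; linarith
      field_simp
      ring
    rw [e3] at IH
    -- splitting
    have hnull : volume {x : Fin n → ℝ | ‖x‖ = 1/2} = 0 := by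
      have := ae_norm_ne (n := n) (1/2) hn
      rw [ae_iff] at this
      simpa using this
    have hU : ball (0 : Fin n → ℝ) 1 ⊆ (ball (0 : Fin n → ℝ) (1/2) ∪
        {x : Fin n → ℝ | 1/2 < ‖x‖ ∧ ‖x‖ < 1}) ∪ {x : Fin n → ℝ | ‖x‖ = 1/2} := by
      intro x hx
      rw [mem_ball_zero_iff] at hx
      rcases lt_trichotomy ‖x‖ (1/2) with h1 | h1 | h1
      · exact Or.inl (Or.inl (by rw [mem_ball_zero_iff]; exact h1))
      · exact Or.inr h1
      · exact Or.inl (Or.inr ⟨h1, hx⟩)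
    set F : (Fin n → ℝ) → ℝ≥0∞ := fun x => u (gf q (N+1) τ ρ x) * w x with hF
    have hsplit : ∫⁻ x in ball (0 : Fin n → ℝ) 1, F x ≤
        (∫⁻ x in ball (0 : Fin n → ℝ) (1/2), F x) +
        ∫⁻ x in {x : Fin n → ℝ | 1/2 < ‖x‖ ∧ ‖x‖ < 1}, F x := by
      calc ∫⁻ x in ball (0 : Fin n → ℝ) 1, F x
          ≤ ∫⁻ x in (ball (0 : Fin n → ℝ) (1/2) ∪
            {x : Fin n → ℝ | 1/2 < ‖x‖ ∧ ‖x‖ < 1}) ∪ {x : Fin n → ℝ | ‖x‖ = 1/2}, F x :=
            lintegral_mono_set hU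
        _ ≤ (∫⁻ x in ball (0 : Fin n → ℝ) (1/2) ∪
              {x : Fin n → ℝ | 1/2 < ‖x‖ ∧ ‖x‖ < 1}, F x) +
            ∫⁻ x in {x : Fin n → ℝ | ‖x‖ = 1/2}, F x := lintegral_union_le _ _ _
        _ = ∫⁻ x in ball (0 : Fin n → ℝ) (1/2) ∪
              {x : Fin n → ℝ | 1/2 < ‖x‖ ∧ ‖x‖ < 1}, F x := by
            rw [setLIntegral_measure_zero _ _ hnull, add_zero]
        _ ≤ _ := lintegral_union_le _ _ _
    -- the outer shell
    have hout : ∫⁻ x in {x : Fin n → ℝ | 1/2 < ‖x‖ ∧ ‖x‖ < 1}, F x ≤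
        ENNReal.ofReal (Kg n p / τ) *
          ∫⁻ y in {y : Fin n → ℝ | ρ - τ < ‖y‖ ∧ ‖y‖ ≤ ρ}, u y := by
      calc ∫⁻ x in {x : Fin n → ℝ | 1/2 < ‖x‖ ∧ ‖x‖ < 1}, F x
          ≤ ∫⁻ x in {x : Fin n → ℝ | 1/2 < ‖x‖ ∧ ‖x‖ < 1},
              ENNReal.ofReal ((16:ℝ)^p) * u (outer τ ρ x) := by
            refine setLIntegral_mono' isOpen_shell.measurableSet fun x hx => ?_
            rw [hF]
            show u (gf q (N+1) τ ρ x) * w x ≤ _
            rw [gf_outer hx.1.le, mul_comm]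
            exact mul_le_mul' (hw x 16 hx.2 (by norm_num) (LLV_gf_outer h hx.1)) le_rfl
        _ = ENNReal.ofReal ((16:ℝ)^p) *
            ∫⁻ x in {x : Fin n → ℝ | 1/2 < ‖x‖ ∧ ‖x‖ < 1}, u (outer τ ρ x) :=
            lintegral_const_mul' _ _ ENNReal.ofReal_ne_top
        _ ≤ ENNReal.ofReal ((16:ℝ)^p) * (ENNReal.ofReal (kap n / τ) *
            ∫⁻ y in {y : Fin n → ℝ | ρ - τ < ‖y‖ ∧ ‖y‖ ≤ ρ}, u y) :=
            mul_le_mul' le_rfl (lint_outer ht h.half_le h.hi hu)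
        _ ≤ _ := by
            rw [← mul_assoc, ← ENNReal.ofReal_mul (by positivity)]
            refine mul_le_mul' (ENNReal.ofReal_le_ofReal ?_) le_rfl
            rw [← mul_div_assoc]
            apply div_le_div_of_nonneg_right _ ht.le
            unfold Kg
            have : (0:ℝ) ≤ (16:ℝ)^p * 3^n := by positivity
            linarith
    -- the inner part
    have hin : ∫⁻ x in ball (0 : Fin n → ℝ) (1/2), F x ≤
        ENNReal.ofReal (Kg n p / τ) *
          (∫⁻ y in {y : Fin n → ℝ | ρ - τ / (1 - q) < ‖y‖ ∧ ‖y‖ ≤ ρ - τ}, u y) +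
        ENNReal.ofReal (Kg n p * q^(2*(N+1))) * ∫⁻ y in closedBall (0 : Fin n → ℝ) ρ, u y := by
      have e4 : ∀ x ∈ ball (0 : Fin n → ℝ) (1/2), F x =
          (fun z => ENNReal.ofReal ((2:ℝ)^p) * (u (gf q N (q * τ) (ρ - τ) z) * w' z))
            ((2:ℝ) • x) := by
        intro x hx
        rw [mem_ball_zero_iff] at hx
        have e2 : (1/2:ℝ) • ((2:ℝ) • x) = x := by rw [smul_smul]; norm_num
        show u (gf q (N+1) τ ρ x) * w x = ENNReal.ofReal ((2:ℝ)^p) *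
          (u (gf q N (q * τ) (ρ - τ) ((2:ℝ) • x)) *
            (ENNReal.ofReal ((2:ℝ)^(-p)) * w ((1/2:ℝ) • ((2:ℝ) • x))))
        rw [e2, gf_inner' hx.le]
        have e5 : ENNReal.ofReal ((2:ℝ)^p) * ENNReal.ofReal ((2:ℝ)^(-p)) = 1 := by
          rw [← ENNReal.ofReal_mul (by positivity), ← Real.rpow_add (by norm_num),
            add_neg_cancel, Real.rpow_zero, ENNReal.ofReal_one]
        calc _ = (ENNReal.ofReal ((2:ℝ)^p) * ENNReal.ofReal ((2:ℝ)^(-p))) *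
              (u (gf q N (q * τ) (ρ - τ) ((2:ℝ) • x)) * w x) := by rw [e5, one_mul]
          _ = _ := by ring
      rw [setLIntegral_congr_fun measurableSet_ball e4]
      refine (le_of_eq (lint_two (fun z => ENNReal.ofReal ((2:ℝ)^p) *
        (u (gf q N (q * τ) (ρ - τ) z) * w' z)))).trans ?_
      rw [lintegral_const_mul' _ _ ENNReal.ofReal_ne_top, ← mul_assoc,
        ← ENNReal.ofReal_mul (by positivity)]
      have e6 : ((2:ℝ)^n)⁻¹ * (2:ℝ)^p = q^2 := by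
        rw [hq, Real.rpow_sub (by norm_num), Real.rpow_natCast]
        field_simp
      rw [e6]
      refine (mul_le_mul' le_rfl IH).trans ?_
      rw [mul_add, ← mul_assoc, ← mul_assoc, ← ENNReal.ofReal_mul (by positivity),
        ← ENNReal.ofReal_mul (by positivity)]
      refine add_le_add (mul_le_mul' (ENNReal.ofReal_le_ofReal ?_) le_rfl)
        (mul_le_mul' (le_of_eq ?_) (lintegral_mono_set (closedBall_subset_closedBall (by linarith))))
      · have e7 : q^2 * (Kg n p / (q * τ)) = q * (Kg n p / τ) := by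
          have := h.q0
          field_simp
        rw [e7]
        have : 0 ≤ Kg n p / τ := div_nonneg hK ht.le
        nlinarith [h.q1]
      · congr 1
        ring
    -- conclusion
    refine hsplit.trans ((add_le_add hin hout).trans ?_)
    have hlay : {y : Fin n → ℝ | ρ - τ / (1 - q) < ‖y‖ ∧ ‖y‖ ≤ ρ} =
        {y : Fin n → ℝ | ρ - τ / (1 - q) < ‖y‖ ∧ ‖y‖ ≤ ρ - τ} ∪
        {y : Fin n → ℝ | ρ - τ < ‖y‖ ∧ ‖y‖ ≤ ρ} := by
      have := h.le_div
      ext y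
      simp only [mem_union, mem_ofPred_eq]
      constructor
      · rintro ⟨a, b⟩
        rcases le_or_gt ‖y‖ (ρ - τ) with h1 | h1
        · exact Or.inl ⟨a, h1⟩
        · exact Or.inr ⟨h1, b⟩
      · rintro (⟨a, b⟩ | ⟨a, b⟩)
        · exact ⟨a, by linarith⟩
        · exact ⟨by linarith, b⟩
    rw [hlay, lintegral_union (measurableSet_layer _ _) ?_, mul_add]
    · apply le_of_eq
      ring
    · rw [Set.disjoint_left]
      rintro y ⟨_, a⟩ ⟨b, _⟩
      linarith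

end Crest.Agent.R096.Sq_55
end

-- ▼ part R096/Sq7_55
section

/-!
# R096 (row 96), SOBSQ, part 7 (helper55): the integral estimates for cubes and for tiles
-/

set_option autoImplicit false

open Set Metric Filter Topology MeasureTheory

namespace Crest.Agent.R096.Sq_55

open Crest.Agent.R096.Ce_537 Crest.Agent.R096.Bd_416 Crest.Agent.R96.Hole_348
open scoped ENNReal NNReal

variable {n : ℕ}

/-! ### the unit cube -/

theorem cgf_int {p : ℝ} (hp : 0 < p) (hn : 0 < n) {q : ℝ} (hq : q^2 = (2:ℝ)^(p - n))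
    {N : ℕ} {τ : ℝ} (h : GPar q τ 1) {u w : (Fin n → ℝ) → ℝ≥0∞} (hu : Measurable u)
    (hw : ∀ x c, ‖x‖ < 1 → 1 ≤ c → LLV c (cgf q τ N) x → w x ≤ ENNReal.ofReal (c^p)) :
    ∫⁻ x in ball (0 : Fin n → ℝ) 1, u (cgf q τ N x) * w x ≤
      ENNReal.ofReal (Kg n p / τ) *
        (∫⁻ y in {y : Fin n → ℝ | 1 - τ / (1 - q) < ‖y‖ ∧ ‖y‖ ≤ 1}, u y) +
      ENNReal.ofReal (Kg n p * q^(2*N)) * ∫⁻ y in closedBall (0 : Fin n → ℝ) 1, u y := by
  have h1 : ∀ x ∈ ball (0 : Fin n → ℝ) 1, u (cgf q τ N x) * w x = u (gf q N τ 1 x) * w x := by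
    intro x hx
    rw [mem_ball_zero_iff] at hx
    rw [cgf_in hx.le]
  rw [setLIntegral_congr_fun measurableSet_ball h1]
  refine gf_int hp hn hq h hu ?_
  intro x c hx hc hxc
  refine hw x c hx hc ?_
  filter_upwards [hxc, isOpen_ball.mem_nhds (show x ∈ ball (0 : Fin n → ℝ) 1 by simpa using hx)]
    with y hy hy2
  rw [mem_ball_zero_iff] at hy2
  rw [cgf_in hy2.le, cgf_in hx.le]
  exact hy

/-! ### scaling -/

lemma lint_scale {a : ℝ} (ha : 0 < a) (S : Set (Fin n → ℝ)) (F : (Fin n → ℝ) → ℝ≥0∞) :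
    ∫⁻ x in (fun x : Fin n → ℝ => a • x) ⁻¹' S, F (a • x) =
      ENNReal.ofReal (a^n)⁻¹ * ∫⁻ x in S, F x := by
  set e := (Homeomorph.smulOfNeZero (α := Fin n → ℝ) a ha.ne').toMeasurableEquiv with he
  have h2 : Measure.map e volume = ENNReal.ofReal (a^n)⁻¹ • (volume : Measure (Fin n → ℝ)) := by
    have := Measure.map_addHaar_smul (volume : Measure (Fin n → ℝ)) (r := a) ha.ne'
    rw [Module.finrank_fin_fun, abs_of_pos (by positivity)] at this
    exact this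
  have h3 : (fun x : Fin n → ℝ => F (a • x)) = fun x => F (e x) := rfl
  have h4 : (fun x : Fin n → ℝ => a • x) ⁻¹' S = e ⁻¹' S := rfl
  rw [h4, h3, ← lintegral_map_equiv F e, ← MeasurableEquiv.restrict_map, h2,
    Measure.restrict_smul, lintegral_smul_measure, smul_eq_mul]

lemma lint_scale' {a : ℝ} (ha : 0 < a) (S : Set (Fin n → ℝ)) (F : (Fin n → ℝ) → ℝ≥0∞) :
    ∫⁻ x in S, F x = ENNReal.ofReal (a^n) *
      ∫⁻ x in (fun x : Fin n → ℝ => a • x) ⁻¹' S, F (a • x) := by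
  rw [lint_scale ha, ← mul_assoc, ← ENNReal.ofReal_mul (by positivity),
    mul_inv_cancel₀ (by positivity), ENNReal.ofReal_one, one_mul]

/-! ### the diamond -/

/-- the layer of the diamond -/
def Lay (n : ℕ) (η : ℝ) : Set (ℝ × (Fin n → ℝ)) :=
  {z | |z.1| < 1 ∧ η * (1 - |z.1|) < ‖z.2‖ ∧ ‖z.2‖ ≤ 1 - |z.1|}

/-- the diamond without its apexes -/
def Tot (n : ℕ) : Set (ℝ × (Fin n → ℝ)) := {z | |z.1| < 1 ∧ ‖z.2‖ ≤ 1 - |z.1|}

lemma measurableSet_Lay (η : ℝ) : MeasurableSet (Lay n η) := by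
  have h1 : Continuous fun z : ℝ × (Fin n → ℝ) => |z.1| := continuous_fst.abs
  have h2 : Continuous fun z : ℝ × (Fin n → ℝ) => ‖z.2‖ := continuous_snd.norm
  exact (isOpen_lt h1 continuous_const).measurableSet.inter
    ((isOpen_lt (continuous_const.mul (continuous_const.sub h1)) h2).measurableSet.inter
      (isClosed_le h2 (continuous_const.sub h1)).measurableSet)

lemma measurableSet_Tot : MeasurableSet (Tot n) := by
  have h1 : Continuous fun z : ℝ × (Fin n → ℝ) => |z.1| := continuous_fst.abs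
  have h2 : Continuous fun z : ℝ × (Fin n → ℝ) => ‖z.2‖ := continuous_snd.norm
  exact (isOpen_lt h1 continuous_const).measurableSet.inter
      (isClosed_le h2 (continuous_const.sub h1)).measurableSet

/-- **the estimate in a slice** -/
lemma slice_int {p : ℝ} (hp : 0 < p) (hn : 0 < n) {q : ℝ} (hq : q^2 = (2:ℝ)^(p - n))
    {N : ℕ} {τ : ℝ} (h : GPar q τ 1) {u w : ℝ × (Fin n → ℝ) → ℝ≥0∞} (hu : Measurable u)
    (hw : ∀ z c, |z.1| + ‖z.2‖ < 1 → 1 ≤ c → LLV c (dia (cgf q τ N)) z →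
      w z ≤ ENNReal.ofReal (c^p)) {s : ℝ} (hs : |s| < 1) :
    ∫⁻ y in ball (0 : Fin n → ℝ) (1 - |s|), u (dia (cgf q τ N) (s, y)) * w (s, y) ≤
      ENNReal.ofReal (3^p * Kg n p / τ) *
        (∫⁻ y in {y : Fin n → ℝ | (1 - τ / (1 - q)) * (1 - |s|) < ‖y‖ ∧ ‖y‖ ≤ 1 - |s|}, u (s, y)) +
      ENNReal.ofReal (3^p * (Kg n p * q^(2*N))) *
        ∫⁻ y in closedBall (0 : Fin n → ℝ) (1 - |s|), u (s, y) := by
  set a := 1 - |s| with hadef
  have ha : 0 < a := by rw [hadef]; linarith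
  have hK := Kg_nonneg (n := n) (p := p)
  have ht := h.t0
  have hq0 := h.q0
  have h3p : (0:ℝ) < (3:ℝ)^p := by positivity
  have e1 : (fun x : Fin n → ℝ => a • x) ⁻¹' ball (0 : Fin n → ℝ) a = ball 0 1 := by
    ext x
    rw [mem_preimage, mem_ball_zero_iff, mem_ball_zero_iff, norm_smul, Real.norm_eq_abs,
      abs_of_pos ha]
    constructor
    · intro h1; nlinarith
    · intro h1; nlinarith
  have e2 : (fun x : Fin n → ℝ => a • x) ⁻¹' closedBall (0 : Fin n → ℝ) a = closedBall 0 1 := by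
    ext x
    rw [mem_preimage, mem_closedBall_zero_iff, mem_closedBall_zero_iff, norm_smul,
      Real.norm_eq_abs, abs_of_pos ha]
    constructor
    · intro h1; nlinarith
    · intro h1; nlinarith
  have e3 : (fun x : Fin n → ℝ => a • x) ⁻¹'
      {y : Fin n → ℝ | (1 - τ / (1 - q)) * a < ‖y‖ ∧ ‖y‖ ≤ a} =
      {y : Fin n → ℝ | 1 - τ / (1 - q) < ‖y‖ ∧ ‖y‖ ≤ 1} := by
    ext x
    simp only [mem_preimage, mem_ofPred_eq]
    rw [norm_smul, Real.norm_eq_abs, abs_of_pos ha]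
    constructor
    · rintro ⟨h1, h2⟩
      exact ⟨by nlinarith, by nlinarith⟩
    · rintro ⟨h1, h2⟩
      exact ⟨by nlinarith, by nlinarith⟩
  set us : (Fin n → ℝ) → ℝ≥0∞ := fun y => u (s, a • y) with hus
  set ws : (Fin n → ℝ) → ℝ≥0∞ := fun x => ENNReal.ofReal ((3:ℝ)^(-p)) * w (s, a • x) with hws
  have hum : Measurable us := hu.comp (by fun_prop)
  have hwb : ∀ x c, ‖x‖ < 1 → 1 ≤ c → LLV c (cgf q τ N) x → ws x ≤ ENNReal.ofReal (c^p) := by
    intro x c hx hc hxc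
    have hz2 : ‖a • x‖ < a := by
      rw [norm_smul, Real.norm_eq_abs, abs_of_pos ha]; nlinarith
    have hz : |(s, a • x).1| + ‖(s, a • x).2‖ < 1 := by
      show |s| + ‖a • x‖ < 1
      rw [hadef] at hz2 ⊢
      linarith
    have h5 : LLV (1 + 2 * c) (dia (cgf q τ N)) (s, a • x) := by
      refine LLV_dia (sg_cgf h) hs hz.le (by linarith) ?_
      show LLV c (cgf q τ N) ((1 - |s|)⁻¹ • (a • x))
      rw [← hadef, smul_smul, inv_mul_cancel₀ ha.ne', one_smul]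
      exact hxc
    have h6 := hw (s, a • x) (1 + 2 * c) hz (by linarith) h5
    have h7 : ENNReal.ofReal ((1 + 2 * c)^p) ≤ ENNReal.ofReal ((3 * c)^p) :=
      ENNReal.ofReal_le_ofReal (Real.rpow_le_rpow (by linarith) (by linarith) hp.le)
    refine (mul_le_mul' le_rfl (h6.trans h7)).trans (le_of_eq ?_)
    rw [← ENNReal.ofReal_mul (by positivity)]
    congr 1
    rw [Real.mul_rpow (by norm_num) (by linarith), ← mul_assoc,
      ← Real.rpow_add (by norm_num), neg_add_cancel, Real.rpow_zero, one_mul]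
  have key := cgf_int hp hn hq (N := N) h hum hwb
  -- the left hand side
  have hL : ∫⁻ y in ball (0 : Fin n → ℝ) a, u (dia (cgf q τ N) (s, y)) * w (s, y) =
      ENNReal.ofReal (a^n) * (ENNReal.ofReal ((3:ℝ)^p) *
        ∫⁻ x in ball (0 : Fin n → ℝ) 1, us (cgf q τ N x) * ws x) := by
    rw [lint_scale' ha, e1]
    congr 1
    rw [← lintegral_const_mul' _ _ ENNReal.ofReal_ne_top]
    refine lintegral_congr fun x => ?_
    have e5 : ENNReal.ofReal ((3:ℝ)^p) * ENNReal.ofReal ((3:ℝ)^(-p)) = 1 := by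
      rw [← ENNReal.ofReal_mul (by positivity), ← Real.rpow_add (by norm_num),
        add_neg_cancel, Real.rpow_zero, ENNReal.ofReal_one]
    have e6 : dia (cgf q τ N) (s, a • x) = (s, a • cgf q τ N x) := by
      rw [dia_of_lt (show |(s, a • x).1| < 1 from hs)]
      show (s, (1 - |s|) • cgf q τ N ((1 - |s|)⁻¹ • (a • x))) = _
      rw [← hadef, smul_smul, inv_mul_cancel₀ ha.ne', one_smul]
    rw [e6]
    show u (s, a • cgf q τ N x) * w (s, a • x) = ENNReal.ofReal ((3:ℝ)^p) *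
      (u (s, a • cgf q τ N x) * (ENNReal.ofReal ((3:ℝ)^(-p)) * w (s, a • x)))
    calc _ = (ENNReal.ofReal ((3:ℝ)^p) * ENNReal.ofReal ((3:ℝ)^(-p))) *
          (u (s, a • cgf q τ N x) * w (s, a • x)) := by rw [e5, one_mul]
      _ = _ := by ring
  rw [hL, lint_scale' ha {y : Fin n → ℝ | (1 - τ / (1 - q)) * a < ‖y‖ ∧ ‖y‖ ≤ a} (fun y => u (s, y)),
    lint_scale' ha (closedBall (0 : Fin n → ℝ) a) (fun y => u (s, y)), e2, e3]
  refine (mul_le_mul' le_rfl (mul_le_mul' le_rfl key)).trans (le_of_eq ?_)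
  rw [show (3:ℝ)^p * Kg n p / τ = 3^p * (Kg n p / τ) by ring,
    ENNReal.ofReal_mul h3p.le, ENNReal.ofReal_mul h3p.le]
  ring

theorem dia_int {p : ℝ} (hp : 0 < p) (hn : 0 < n) {q : ℝ} (hq : q^2 = (2:ℝ)^(p - n))
    {N : ℕ} {τ : ℝ} (h : GPar q τ 1) {u w : ℝ × (Fin n → ℝ) → ℝ≥0∞} (hu : Measurable u)
    (hw : ∀ z c, |z.1| + ‖z.2‖ < 1 → 1 ≤ c → LLV c (dia (cgf q τ N)) z →
      w z ≤ ENNReal.ofReal (c^p)) :
    ∫⁻ z in {z : ℝ × (Fin n → ℝ) | |z.1| + ‖z.2‖ < 1}, u (dia (cgf q τ N) z) * w z ≤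
      ENNReal.ofReal (3^p * Kg n p / τ) * (∫⁻ z in Lay n (1 - τ / (1 - q)), u z) +
      ENNReal.ofReal (3^p * (Kg n p * q^(2*N))) * ∫⁻ z in Tot n, u z := by
  classical
  have h1 : Continuous fun z : ℝ × (Fin n → ℝ) => |z.1| := continuous_fst.abs
  have h2 : Continuous fun z : ℝ × (Fin n → ℝ) => ‖z.2‖ := continuous_snd.norm
  have hOm : MeasurableSet {z : ℝ × (Fin n → ℝ) | |z.1| + ‖z.2‖ < 1} :=
    (isOpen_lt (h1.add h2) continuous_const).measurableSet
  have hslice : ∀ (B : Set (ℝ × (Fin n → ℝ))), MeasurableSet B → ∀ F : ℝ × (Fin n → ℝ) → ℝ≥0∞,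
      ∀ s : ℝ, ∫⁻ y, B.indicator F (s, y) = ∫⁻ y in {y | (s, y) ∈ B}, F (s, y) := by
    intro B hB F s
    have hBs : MeasurableSet {y : Fin n → ℝ | (s, y) ∈ B} := hB.preimage (by fun_prop)
    rw [← lintegral_indicator hBs]
    rfl
  calc ∫⁻ z in {z : ℝ × (Fin n → ℝ) | |z.1| + ‖z.2‖ < 1}, u (dia (cgf q τ N) z) * w z
      = ∫⁻ z, {z : ℝ × (Fin n → ℝ) | |z.1| + ‖z.2‖ < 1}.indicator
          (fun z => u (dia (cgf q τ N) z) * w z) z := (lintegral_indicator hOm _).symm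
    _ ≤ ∫⁻ s : ℝ, ∫⁻ y : Fin n → ℝ, {z : ℝ × (Fin n → ℝ) | |z.1| + ‖z.2‖ < 1}.indicator
          (fun z => u (dia (cgf q τ N) z) * w z) (s, y) := by
        rw [Measure.volume_eq_prod]
        exact lintegral_prod_le _
    _ ≤ ∫⁻ s : ℝ, (ENNReal.ofReal (3^p * Kg n p / τ) *
          (∫⁻ y : Fin n → ℝ, (Lay n (1 - τ / (1 - q))).indicator u (s, y)) +
          ENNReal.ofReal (3^p * (Kg n p * q^(2*N))) *
            ∫⁻ y : Fin n → ℝ, (Tot n).indicator u (s, y)) := by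
        refine lintegral_mono fun s => ?_
        rw [hslice _ hOm, hslice _ (measurableSet_Lay _), hslice _ measurableSet_Tot]
        by_cases hs : |s| < 1
        · have e1 : {y : Fin n → ℝ | (s, y) ∈ {z : ℝ × (Fin n → ℝ) | |z.1| + ‖z.2‖ < 1}} =
              ball 0 (1 - |s|) := by
            ext y
            simp only [mem_ofPred_eq, mem_ball_zero_iff]
            constructor <;> intro h <;> linarith
          have e2 : {y : Fin n → ℝ | (s, y) ∈ Lay n (1 - τ / (1 - q))} =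
              {y : Fin n → ℝ | (1 - τ / (1 - q)) * (1 - |s|) < ‖y‖ ∧ ‖y‖ ≤ 1 - |s|} := by
            ext y
            simp only [Lay, mem_ofPred_eq]
            exact ⟨fun h => h.2, fun h => ⟨hs, h⟩⟩
          have e3 : {y : Fin n → ℝ | (s, y) ∈ Tot n} = closedBall 0 (1 - |s|) := by
            ext y
            simp only [Tot, mem_ofPred_eq, mem_closedBall_zero_iff]
            exact ⟨fun h => h.2, fun h => ⟨hs, h⟩⟩
          rw [e1, e2, e3]
          exact slice_int hp hn hq h hu hw hs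
        · have e1 : {y : Fin n → ℝ | (s, y) ∈ {z : ℝ × (Fin n → ℝ) | |z.1| + ‖z.2‖ < 1}} = ∅ := by
            ext y
            simp only [mem_ofPred_eq, mem_empty_iff_false, iff_false]
            intro h
            linarith [norm_nonneg y, not_lt.1 hs]
          rw [e1]
          simp
    _ = ENNReal.ofReal (3^p * Kg n p / τ) *
          (∫⁻ s : ℝ, ∫⁻ y : Fin n → ℝ, (Lay n (1 - τ / (1 - q))).indicator u (s, y)) +
          ENNReal.ofReal (3^p * (Kg n p * q^(2*N))) *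
            ∫⁻ s : ℝ, ∫⁻ y : Fin n → ℝ, (Tot n).indicator u (s, y) := by
        have hm1 : Measurable fun s : ℝ => ∫⁻ y : Fin n → ℝ,
            (Lay n (1 - τ / (1 - q))).indicator u (s, y) :=
          (hu.indicator (measurableSet_Lay _)).lintegral_prod_right'
        rw [lintegral_add_left (hm1.const_mul _), lintegral_const_mul' _ _ ENNReal.ofReal_ne_top,
          lintegral_const_mul' _ _ ENNReal.ofReal_ne_top]
    _ = _ := by
        rw [← lintegral_indicator (measurableSet_Lay _), ← lintegral_indicator measurableSet_Tot,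
          Measure.volume_eq_prod,
          lintegral_prod _ (hu.indicator (measurableSet_Lay _)).aemeasurable,
          lintegral_prod _ (hu.indicator measurableSet_Tot).aemeasurable]

end Crest.Agent.R096.Sq_55
end

-- ▼ part R096/Sq8_55
section

/-!
# R096 (row 96), SOBSQ, part 8 (helper55): the integral estimates for tiles and for cubes in
`ℝ^(n+1)`
-/

set_option autoImplicit false

open Set Metric Filter Topology MeasureTheory

namespace Crest.Agent.R096.Sq_55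

open Crest.Agent.R096.Ce_537 Crest.Agent.R096.Bd_416 Crest.Agent.R96.Hole_348
open scoped ENNReal NNReal

variable {n : ℕ}

namespace Tile

variable (f : Tile n)

/-- the chart as a homeomorphism -/
noncomputable def dnH : (Fin (n+1) → ℝ) ≃ₜ ℝ × (Fin n → ℝ) where
  toFun := f.dn
  invFun := f.up
  left_inv := f.up_dn
  right_inv := f.dn_up
  continuous_toFun := f.continuous_dn
  continuous_invFun := f.continuous_up

lemma isAddHaar : (volume : Measure (ℝ × (Fin n → ℝ))).IsAddHaarMeasure := by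
  rw [Measure.volume_eq_prod]; infer_instance

/-- the chart scales the measure -/
lemma map_dn : ∃ c : ℝ≥0∞, Measure.map f.dn volume = c • (volume : Measure (ℝ × (Fin n → ℝ))) := by
  set P : (Fin (n+1) → ℝ) ≃ᵐ ℝ × (Fin n → ℝ) :=
    MeasurableEquiv.piFinSuccAbove (fun _ : Fin (n+1) => ℝ) f.i with hP
  have h1 : f.dn = (fun z : ℝ × (Fin n → ℝ) => f.ρ⁻¹ • z) ∘ (fun z => z + (- P f.m)) ∘ P := by
    funext x
    refine Prod.ext ?_ (funext fun j => ?_)
    · show f.ρ⁻¹ * (x f.i - f.m f.i) = f.ρ⁻¹ * (x f.i + - f.m f.i)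
      ring
    · show f.ρ⁻¹ * (x (f.i.succAbove j) - f.m (f.i.succAbove j)) =
        f.ρ⁻¹ * (x (f.i.succAbove j) + - f.m (f.i.succAbove j))
      ring
  haveI := isAddHaar (n := n)
  have h2 : Measure.map P volume = volume :=
    (volume_preserving_piFinSuccAbove (fun _ : Fin (n+1) => ℝ) f.i).map_eq
  have h3 : Measure.map (fun z : ℝ × (Fin n → ℝ) => z + (- P f.m)) volume = volume :=
    (measurePreserving_add_right (volume : Measure (ℝ × (Fin n → ℝ))) (- P f.m)).map_eq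
  have h4 := Measure.map_addHaar_smul (volume : Measure (ℝ × (Fin n → ℝ))) (r := f.ρ⁻¹)
    (inv_ne_zero f.pos.ne')
  refine ⟨ENNReal.ofReal |(f.ρ⁻¹ ^ Module.finrank ℝ (ℝ × (Fin n → ℝ)))⁻¹|, ?_⟩
  rw [h1, ← Measure.map_map (by fun_prop) (by fun_prop), ← Measure.map_map (by fun_prop)
    P.measurable, h2, h3]
  exact h4

lemma lint_dn (c : ℝ≥0∞) (hc : Measure.map f.dn volume = c • (volume : Measure (ℝ × (Fin n → ℝ))))
    (S : Set (ℝ × (Fin n → ℝ))) (F : ℝ × (Fin n → ℝ) → ℝ≥0∞) :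
    ∫⁻ x in f.dn ⁻¹' S, F (f.dn x) = c * ∫⁻ z in S, F z := by
  set e := f.dnH.toMeasurableEquiv with he
  have h3 : (fun x => F (f.dn x)) = fun x => F (e x) := rfl
  have h4 : f.dn ⁻¹' S = e ⁻¹' S := rfl
  have h2 : Measure.map e volume = c • (volume : Measure (ℝ × (Fin n → ℝ))) := hc
  rw [h4, h3, ← lintegral_map_equiv F e, ← MeasurableEquiv.restrict_map, h2,
    Measure.restrict_smul, lintegral_smul_measure, smul_eq_mul]

/-- **the estimate for one tile** -/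
theorem tile_int {p : ℝ} (hp : 0 < p) (hn : 0 < n) {q : ℝ} (hq : q^2 = (2:ℝ)^(p - n))
    {N : ℕ} {τ : ℝ} (h : GPar q τ 1) {u w : (Fin (n+1) → ℝ) → ℝ≥0∞} (hu : Measurable u)
    (hw : ∀ x ∈ f.O, ∀ c, 1 ≤ c → LLV c (f.T (cgf q τ N)) x → w x ≤ ENNReal.ofReal (c^p)) :
    ∫⁻ x in f.O, u (f.T (cgf q τ N) x) * w x ≤
      ENNReal.ofReal (3^p * Kg n p / τ) *
        (∫⁻ x in f.dn ⁻¹' Lay n (1 - τ / (1 - q)), u x) +
      ENNReal.ofReal (3^p * (Kg n p * q^(2*N))) * ∫⁻ x in f.dn ⁻¹' Tot n, u x := by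
  obtain ⟨c, hc⟩ := f.map_dn
  have key := dia_int hp hn hq (N := N) h (u := fun z => u (f.up z)) (w := fun z => w (f.up z))
    (hu.comp f.continuous_up.measurable) (by
      intro z c hz hc1 hzc
      have hO : f.up z ∈ f.O := by
        show |(f.dn (f.up z)).1| + ‖(f.dn (f.up z)).2‖ < 1
        rw [f.dn_up]; exact hz
      refine hw _ hO c hc1 (f.LLV_T ?_)
      rw [f.dn_up]; exact hzc)
  have e1 : ∫⁻ x in f.O, u (f.T (cgf q τ N) x) * w x =
      c * ∫⁻ z in {z : ℝ × (Fin n → ℝ) | |z.1| + ‖z.2‖ < 1},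
        u (f.up (dia (cgf q τ N) z)) * w (f.up z) := by
    rw [← f.lint_dn c hc]
    refine lintegral_congr fun x => ?_
    rw [f.up_dn]
    rfl
  have e2 : ∀ S : Set (ℝ × (Fin n → ℝ)), ∫⁻ x in f.dn ⁻¹' S, u x =
      c * ∫⁻ z in S, u (f.up z) := by
    intro S
    rw [← f.lint_dn c hc]
    refine lintegral_congr fun x => ?_
    rw [f.up_dn]
  rw [e1, e2, e2]
  refine (mul_le_mul' le_rfl key).trans (le_of_eq ?_)
  ring

end Tile

/-! ### cubes -/

/-- a cube: centre and half side -/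
structure Cub (d : ℕ) where
  c : Fin d → ℝ
  R : ℝ
  pos : 0 < R

namespace Cub

variable {d : ℕ} (Q : Cub d)

/-- normalised coordinates -/
noncomputable def dn (x : Fin d → ℝ) : Fin d → ℝ := Q.R⁻¹ • (x - Q.c)

/-- the inverse -/
noncomputable def up (z : Fin d → ℝ) : Fin d → ℝ := Q.c + Q.R • z

lemma dn_up (z : Fin d → ℝ) : Q.dn (Q.up z) = z := by
  simp [dn, up, smul_smul, inv_mul_cancel₀ Q.pos.ne']

lemma up_dn (x : Fin d → ℝ) : Q.up (Q.dn x) = x := by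
  simp [dn, up, smul_smul, mul_inv_cancel₀ Q.pos.ne']

lemma continuous_dn : Continuous Q.dn := by unfold dn; fun_prop
lemma continuous_up : Continuous Q.up := by unfold up; fun_prop

lemma dn_sub (x y : Fin d → ℝ) : ‖Q.dn x - Q.dn y‖ = Q.R⁻¹ * ‖x - y‖ := by
  rw [dn, dn, ← smul_sub, sub_sub_sub_cancel_right, norm_smul, norm_inv, Real.norm_eq_abs,
    abs_of_pos Q.pos]

lemma up_sub (x y : Fin d → ℝ) : ‖Q.up x - Q.up y‖ = Q.R * ‖x - y‖ := by
  rw [up, up, add_sub_add_left_eq_sub, ← smul_sub, norm_smul, Real.norm_eq_abs,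
    abs_of_pos Q.pos]

lemma norm_dn (x : Fin d → ℝ) : ‖Q.dn x‖ = Q.R⁻¹ * ‖x - Q.c‖ := by
  rw [dn, norm_smul, norm_inv, Real.norm_eq_abs, abs_of_pos Q.pos]

lemma plOn_dn : PLOn Q.dn univ := pl_smul _ (pl_sub_const (plOn_id _) _)

lemma plOn_up : PLOn Q.up univ := by
  have h : PLOn (fun z : Fin d → ℝ => Q.R • z + Q.c) univ :=
    pl_add_const (pl_smul _ (plOn_id _)) _
  refine h.congr fun z _ => ?_
  show Q.c + Q.R • z = _
  rw [add_comm]

/-- the open cube -/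
def I : Set (Fin d → ℝ) := {x | ‖x - Q.c‖ < Q.R}

/-- the closed cube -/
def K : Set (Fin d → ℝ) := {x | ‖x - Q.c‖ ≤ Q.R}

lemma isOpen_I : IsOpen Q.I := isOpen_lt (continuous_id.sub continuous_const).norm continuous_const
lemma isClosed_K : IsClosed Q.K :=
  isClosed_le (continuous_id.sub continuous_const).norm continuous_const

lemma mem_I {x : Fin d → ℝ} : x ∈ Q.I ↔ ‖Q.dn x‖ < 1 := by
  rw [norm_dn, inv_mul_lt_iff₀ Q.pos, mul_one]; rfl

lemma mem_K {x : Fin d → ℝ} : x ∈ Q.K ↔ ‖Q.dn x‖ ≤ 1 := by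
  rw [norm_dn, inv_mul_le_iff₀ Q.pos, mul_one]; rfl

/-- the layer at the boundary -/
def L (η : ℝ) : Set (Fin d → ℝ) := {x | η * Q.R < ‖x - Q.c‖ ∧ ‖x - Q.c‖ ≤ Q.R}

/-- transport of a homeomorphism -/
noncomputable def H (χ : (Fin d → ℝ) ≃ₜ (Fin d → ℝ)) : (Fin d → ℝ) ≃ₜ (Fin d → ℝ) where
  toFun x := Q.up (χ (Q.dn x))
  invFun x := Q.up (χ.symm (Q.dn x))
  left_inv x := by
    show Q.up (χ.symm (Q.dn (Q.up (χ (Q.dn x))))) = x
    rw [dn_up, χ.symm_apply_apply, up_dn]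
  right_inv x := by
    show Q.up (χ (Q.dn (Q.up (χ.symm (Q.dn x))))) = x
    rw [dn_up, χ.apply_symm_apply, up_dn]
  continuous_toFun := Q.continuous_up.comp (χ.continuous.comp Q.continuous_dn)
  continuous_invFun := Q.continuous_up.comp (χ.symm.continuous.comp Q.continuous_dn)


/-- the squeeze of the cube -/
noncomputable def S {q τ : ℝ} (N : ℕ) (hP : GPar q τ 1) : (Fin d → ℝ) ≃ₜ (Fin d → ℝ) :=
  Q.H (gchi (N := N) hP)

lemma S_apply {q τ : ℝ} {N : ℕ} (hP : GPar q τ 1) (x : Fin d → ℝ) :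
    Q.S N hP x = Q.up (cgf q τ N (Q.dn x)) := rfl

lemma S_out {q τ : ℝ} {N : ℕ} (hP : GPar q τ 1) {x : Fin d → ℝ} (hx : x ∉ Q.I) :
    Q.S N hP x = x := by
  rw [mem_I, not_lt] at hx
  rw [S_apply, cgf_out hx, up_dn]

lemma plOn_S {q τ : ℝ} {N : ℕ} (hP : GPar q τ 1) : PLOn (Q.S N hP) univ :=
  Q.plOn_up.comp ((plOn_cgf (N := N) hP).comp Q.plOn_dn (mapsTo_univ _ _)) (mapsTo_univ _ _)

lemma plOn_S_symm {q τ : ℝ} {N : ℕ} (hP : GPar q τ 1) : PLOn (Q.S N hP).symm univ :=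
  Q.plOn_up.comp ((plOn_cgg (N := N) hP).comp Q.plOn_dn (mapsTo_univ _ _)) (mapsTo_univ _ _)

lemma LLV_S {q τ : ℝ} {N : ℕ} (hP : GPar q τ 1) {c : ℝ} {x : Fin d → ℝ}
    (h : LLV c (cgf q τ N) (Q.dn x)) : LLV c (Q.S N hP) x := by
  have hR := Q.pos
  filter_upwards [Q.continuous_dn.continuousAt.eventually h] with y hy
  rw [S_apply, S_apply, up_sub]
  calc Q.R * ‖cgf q τ N (Q.dn y) - cgf q τ N (Q.dn x)‖ ≤ Q.R * (c * ‖Q.dn y - Q.dn x‖) :=
        mul_le_mul_of_nonneg_left hy hR.le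
    _ = c * ‖y - x‖ := by rw [dn_sub]; field_simp

lemma map_dn : ∃ c : ℝ≥0∞, Measure.map Q.dn volume = c • (volume : Measure (Fin d → ℝ)) := by
  have h1 : Q.dn = (fun z : Fin d → ℝ => Q.R⁻¹ • z) ∘ (fun z => z + (- Q.c)) := by
    funext x
    simp [dn, sub_eq_add_neg]
  have h3 : Measure.map (fun z : Fin d → ℝ => z + (- Q.c)) volume = volume :=
    (measurePreserving_add_right (volume : Measure (Fin d → ℝ)) (- Q.c)).map_eq
  have h4 := Measure.map_addHaar_smul (volume : Measure (Fin d → ℝ)) (r := Q.R⁻¹)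
    (inv_ne_zero Q.pos.ne')
  refine ⟨ENNReal.ofReal |(Q.R⁻¹ ^ Module.finrank ℝ (Fin d → ℝ))⁻¹|, ?_⟩
  rw [h1, ← Measure.map_map (by fun_prop) (by fun_prop), h3]
  exact h4

/-- the chart as a homeomorphism -/
noncomputable def dnH : (Fin d → ℝ) ≃ₜ (Fin d → ℝ) where
  toFun := Q.dn
  invFun := Q.up
  left_inv := Q.up_dn
  right_inv := Q.dn_up
  continuous_toFun := Q.continuous_dn
  continuous_invFun := Q.continuous_up

lemma lint_dn (c : ℝ≥0∞) (hc : Measure.map Q.dn volume = c • (volume : Measure (Fin d → ℝ)))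
    (S : Set (Fin d → ℝ)) (F : (Fin d → ℝ) → ℝ≥0∞) :
    ∫⁻ x in Q.dn ⁻¹' S, F (Q.dn x) = c * ∫⁻ z in S, F z := by
  set e := Q.dnH.toMeasurableEquiv with he
  have h3 : (fun x => F (Q.dn x)) = fun x => F (e x) := rfl
  have h4 : Q.dn ⁻¹' S = e ⁻¹' S := rfl
  have h2 : Measure.map e volume = c • (volume : Measure (Fin d → ℝ)) := hc
  rw [h4, h3, ← lintegral_map_equiv F e, ← MeasurableEquiv.restrict_map, h2,
    Measure.restrict_smul, lintegral_smul_measure, smul_eq_mul]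

/-- **the estimate for one cube** -/
theorem cube_int {p : ℝ} (hp : 0 < p) (hd : 0 < d) {q : ℝ} (hq : q^2 = (2:ℝ)^(p - d))
    {N : ℕ} {τ : ℝ} (h : GPar q τ 1) {u w : (Fin d → ℝ) → ℝ≥0∞} (hu : Measurable u)
    (hw : ∀ x ∈ Q.I, ∀ c, 1 ≤ c → LLV c (Q.S N h) x → w x ≤ ENNReal.ofReal (c^p)) :
    ∫⁻ x in Q.I, u (Q.S N h x) * w x ≤
      ENNReal.ofReal (Kg d p / τ) * (∫⁻ x in Q.L (1 - τ / (1 - q)), u x) +
      ENNReal.ofReal (Kg d p * q^(2*N)) * ∫⁻ x in Q.K, u x := by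
  obtain ⟨c, hc⟩ := Q.map_dn
  have key := cgf_int hp hd hq (N := N) h (u := fun z => u (Q.up z)) (w := fun z => w (Q.up z))
    (hu.comp Q.continuous_up.measurable) (by
      intro z c hz hc1 hzc
      have hI : Q.up z ∈ Q.I := by rw [mem_I, dn_up]; exact hz
      refine hw _ hI c hc1 (Q.LLV_S h ?_)
      rw [dn_up]; exact hzc)
  have s1 : Q.I = Q.dn ⁻¹' ball 0 1 := by
    ext x; rw [mem_I, mem_preimage, mem_ball_zero_iff]
  have s2 : Q.K = Q.dn ⁻¹' closedBall 0 1 := by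
    ext x; rw [mem_K, mem_preimage, mem_closedBall_zero_iff]
  have s3 : Q.L (1 - τ / (1 - q)) =
      Q.dn ⁻¹' {y | 1 - τ / (1 - q) < ‖y‖ ∧ ‖y‖ ≤ 1} := by
    ext x
    have hR := Q.pos
    simp only [L, mem_ofPred_eq, mem_preimage]
    rw [norm_dn, lt_inv_mul_iff₀ hR, inv_mul_le_iff₀ hR, mul_one, mul_comm Q.R]
  have e1 : ∫⁻ x in Q.I, u (Q.S N h x) * w x =
      c * ∫⁻ z in ball (0 : Fin d → ℝ) 1, u (Q.up (cgf q τ N z)) * w (Q.up z) := by
    rw [← Q.lint_dn c hc, ← s1]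
    refine lintegral_congr fun x => ?_
    rw [Q.up_dn]
    rfl
  have e2 : ∀ S : Set (Fin d → ℝ), ∫⁻ x in Q.dn ⁻¹' S, u x =
      c * ∫⁻ z in S, u (Q.up z) := by
    intro S
    rw [← Q.lint_dn c hc]
    refine lintegral_congr fun x => ?_
    rw [Q.up_dn]
  rw [e1, s2, s3, e2, e2]
  refine (mul_le_mul' le_rfl key).trans (le_of_eq ?_)
  ring

end Cub

end Crest.Agent.R096.Sq_55
end

-- ▼ part R096/Sq9_55

/-!
# R096 (row 96), SOBSQ, part 9 (helper55): the estimates for a majorised function; from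
`Fin 3 → ℝ` to `R3`; the Prop `SobChain`
-/

set_option autoImplicit false

open Set Metric Filter Topology MeasureTheory

namespace Crest.Agent.R096.Sq_55

open Crest.Agent.R096.Ce_537 Crest.Agent.R096.Bd_416 Crest.Agent.R96.Hole_348
open Crest.AnalysisR.VecCalc3 Crest.AnalysisR.Sobolev Crest.Agent.R096.Sk_962
open scoped ENNReal NNReal

/-! ### the estimates with a majorised function instead of a weight -/

lemma null_of_int {d : ℕ} {T : (Fin d → ℝ) → (Fin d → ℝ)} (hT : Measurable T)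
    {O : Set (Fin d → ℝ)} (hO : MeasurableSet O)
    (h : ∀ u : (Fin d → ℝ) → ℝ≥0∞, Measurable u → (∀ᵐ y, u y = 0) → ∫⁻ x in O, u (T x) = 0)
    {P : (Fin d → ℝ) → Prop} (hP : ∀ᵐ y, P y) : ∀ᵐ x, x ∈ O → P (T x) := by
  obtain ⟨N, hN1, hN2, hN3⟩ := exists_measurable_superset_of_null (ae_iff.1 hP)
  have hm : Measurable (N.indicator fun _ : Fin d → ℝ => (1:ℝ≥0∞)) :=
    measurable_const.indicator hN2
  have h1 := h _ hm (by
    have : ∀ᵐ y : Fin d → ℝ, y ∉ N := measure_eq_zero_iff_ae_notMem.1 hN3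
    filter_upwards [this] with y hy
    exact indicator_of_notMem hy _)
  have hm2 : Measurable fun x => N.indicator (fun _ : Fin d → ℝ => (1:ℝ≥0∞)) (T x) := hm.comp hT
  rw [lintegral_eq_zero_iff hm2, Filter.EventuallyEq, ae_restrict_iff' hO] at h1
  filter_upwards [h1] with x hx hxO
  by_contra hc
  have h2 := hx hxO
  have h3 : T x ∈ N := hN1 hc
  have h4 : N.indicator (fun _ : Fin d → ℝ => (1:ℝ≥0∞)) (T x) = 0 := h2
  rw [indicator_of_mem h3] at h4
  exact one_ne_zero h4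

/-- general form: an integral inequality with weights gives one for majorised functions -/
lemma int_of_weight {d : ℕ} {T : (Fin d → ℝ) → (Fin d → ℝ)} (hT : Measurable T)
    {O B₁ B₂ : Set (Fin d → ℝ)} (hO : MeasurableSet O) {p : ℝ} (hp : 0 ≤ p) {a b : ℝ≥0∞}
    (h : ∀ u w : (Fin d → ℝ) → ℝ≥0∞, Measurable u →
      (∀ x ∈ O, ∀ c, 1 ≤ c → LLV c T x → w x ≤ ENNReal.ofReal (c^p)) →
      ∫⁻ x in O, u (T x) * w x ≤ a * (∫⁻ x in B₁, u x) + b * ∫⁻ x in B₂, u x)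
    {u F : (Fin d → ℝ) → ℝ≥0∞} (hu : Measurable u) (hfin : ∀ᵐ y, u y ≠ ∞)
    (hex : ∀ x ∈ O, ∃ c, 1 ≤ c ∧ LLV c T x)
    (hF : ∀ᵐ x, x ∈ O → ∀ c, 1 ≤ c → LLV c T x → F x ≤ ENNReal.ofReal (c^p) * u (T x)) :
    ∫⁻ x in O, F x ≤ a * (∫⁻ x in B₁, u x) + b * ∫⁻ x in B₂, u x := by
  classical
  have hz : ∀ u : (Fin d → ℝ) → ℝ≥0∞, Measurable u → (∀ᵐ y, u y = 0) →
      ∫⁻ x in O, u (T x) = 0 := by
    intro v hv hv0
    have h1 := h v (fun _ => 1) hv (by
      intro x _ c hc _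
      rw [← ENNReal.ofReal_one]
      exact ENNReal.ofReal_le_ofReal (Real.one_le_rpow hc hp))
    have h2 : ∀ B : Set (Fin d → ℝ), ∫⁻ x in B, v x = 0 := by
      intro B
      refine le_antisymm ?_ zero_le
      refine (setLIntegral_le_lintegral _ _).trans (le_of_eq ?_)
      rw [lintegral_congr_ae (g := fun _ => (0:ℝ≥0∞)) hv0, lintegral_zero]
    rw [h2, h2, mul_zero, mul_zero, add_zero, nonpos_iff_eq_zero] at h1
    simpa using h1
  have hfin' := null_of_int hT hO hz hfin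
  set Gd : (Fin d → ℝ) → Prop := fun x => x ∈ O ∧ u (T x) ≠ ∞ ∧
    ∀ c, 1 ≤ c → LLV c T x → F x ≤ ENNReal.ofReal (c^p) * u (T x) with hGd
  set w : (Fin d → ℝ) → ℝ≥0∞ := fun x => if Gd x then F x / u (T x) else 0 with hw
  have hwb : ∀ x ∈ O, ∀ c, 1 ≤ c → LLV c T x → w x ≤ ENNReal.ofReal (c^p) := by
    intro x _ c hc hxc
    show (if Gd x then F x / u (T x) else 0) ≤ _
    by_cases hx : Gd x
    · rw [if_pos hx]
      exact ENNReal.div_le_of_le_mul (hx.2.2 c hc hxc)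
    · rw [if_neg hx]; exact zero_le
  refine le_trans (setLIntegral_mono_ae' hO ?_) (h u w hu hwb)
  filter_upwards [hfin', hF] with x h1 h2 hxO
  have hx : Gd x := ⟨hxO, h1 hxO, h2 hxO⟩
  show F x ≤ u (T x) * (if Gd x then F x / u (T x) else 0)
  rw [if_pos hx]
  by_cases h0 : u (T x) = 0
  · obtain ⟨c, hc, hxc⟩ := hex x hxO
    have := h2 hxO c hc hxc
    rw [h0, mul_zero] at this
    rw [h0, nonpos_iff_eq_zero.1 this]
    simp
  · rw [ENNReal.mul_div_cancel h0 (h1 hxO)]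

/-- PL maps are locally Lipschitz -/
lemma exists_LLV {E F : Type*} [NormedAddCommGroup E] [NormedSpace ℝ E] [FiniteDimensional ℝ E]
    [NormedAddCommGroup F] [NormedSpace ℝ F] {T : E → F} (h : PLOn T univ) (x : E) :
    ∃ c, 1 ≤ c ∧ LLV c T x := by
  obtain ⟨h1, S, h2⟩ := h
  obtain ⟨C, hC⟩ := Crest.Agent.R96.Sob7_199.lip_of_sel (s := univ) convex_univ h1 h2
  refine ⟨max 1 C, le_max_left _ _, Eventually.of_forall fun y => ?_⟩
  have h3 := hC.dist_le_mul y (mem_univ _) x (mem_univ _)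
  rw [dist_eq_norm, dist_eq_norm] at h3
  exact h3.trans (mul_le_mul_of_nonneg_right (le_max_right _ _) (norm_nonneg _))

namespace Cub

variable {d : ℕ} (Q : Cub d)

theorem cube_intF {p : ℝ} (hp : 0 < p) (hd : 0 < d) {q : ℝ} (hq : q^2 = (2:ℝ)^(p - d))
    {N : ℕ} {τ : ℝ} (h : GPar q τ 1) {u F : (Fin d → ℝ) → ℝ≥0∞} (hu : Measurable u)
    (hfin : ∀ᵐ y, u y ≠ ∞)
    (hF : ∀ᵐ x, x ∈ Q.I → ∀ c, 1 ≤ c → LLV c (Q.S N h) x →
      F x ≤ ENNReal.ofReal (c^p) * u (Q.S N h x)) :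
    ∫⁻ x in Q.I, F x ≤
      ENNReal.ofReal (Kg d p / τ) * (∫⁻ x in Q.L (1 - τ / (1 - q)), u x) +
      ENNReal.ofReal (Kg d p * q^(2*N)) * ∫⁻ x in Q.K, u x :=
  int_of_weight (Q.S N h).continuous.measurable Q.isOpen_I.measurableSet hp.le
    (fun _ _ hu hw => Q.cube_int hp hd hq h hu hw) hu hfin
    (fun x _ => exists_LLV (Q.plOn_S h) x) hF

end Cub

namespace Tile

variable {n : ℕ} (f : Tile n)

theorem tile_intF {p : ℝ} (hp : 0 < p) (hn : 0 < n) {q : ℝ} (hq : q^2 = (2:ℝ)^(p - n))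
    {N : ℕ} {τ : ℝ} (h : GPar q τ 1) {u F : (Fin (n+1) → ℝ) → ℝ≥0∞} (hu : Measurable u)
    (hfin : ∀ᵐ y, u y ≠ ∞)
    (hF : ∀ᵐ x, x ∈ f.O → ∀ c, 1 ≤ c → LLV c (f.T (cgf q τ N)) x →
      F x ≤ ENNReal.ofReal (c^p) * u (f.T (cgf q τ N) x)) :
    ∫⁻ x in f.O, F x ≤
      ENNReal.ofReal (3^p * Kg n p / τ) *
        (∫⁻ x in f.dn ⁻¹' Lay n (1 - τ / (1 - q)), u x) +
      ENNReal.ofReal (3^p * (Kg n p * q^(2*N))) * ∫⁻ x in f.dn ⁻¹' Tot n, u x := by
  have hc : Continuous (f.T (cgf q τ N)) := continuousOn_univ.1 (f.plOn_T (sg_cgf h)).1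
  exact int_of_weight hc.measurable f.isOpen_O.measurableSet hp.le
    (fun _ _ hu hw => f.tile_int hp hn hq h hu hw) hu hfin
    (fun x _ => exists_LLV (f.plOn_T (sg_cgf h)) x) hF

end Tile

/-! ### `R3` -/

/-- the coordinates -/
noncomputable def w2 : (Fin 3 → ℝ) ≃ₜ R3 where
  toFun z := WithLp.toLp 2 z
  invFun x := WithLp.ofLp x
  left_inv _ := rfl
  right_inv _ := rfl
  continuous_toFun := PiLp.continuous_toLp 2 _
  continuous_invFun := PiLp.continuous_ofLp 2 _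

lemma w2_sub (z z' : Fin 3 → ℝ) : w2 z - w2 z' = WithLp.toLp 2 (z - z') := rfl


lemma mp_w2 : MeasurePreserving w2 (volume : Measure (Fin 3 → ℝ)) (volume : Measure R3) :=
  (EuclideanSpace.volume_preserving_symm_measurableEquiv_toLp (Fin 3)).symm

lemma lint_w2 (S : Set R3) (F : R3 → ℝ≥0∞) :
    ∫⁻ x in S, F x = ∫⁻ z in w2 ⁻¹' S, F (w2 z) := by
  have h := mp_w2.map_eq
  rw [← h]
  have h2 := MeasurableEquiv.restrict_map w2.toMeasurableEquiv (volume : Measure (Fin 3 → ℝ)) S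
  have h3 : Measure.map w2.toMeasurableEquiv (volume : Measure (Fin 3 → ℝ)) =
    Measure.map w2 volume := rfl
  rw [h3] at h2
  rw [h2]
  exact lintegral_map_equiv F w2.toMeasurableEquiv

lemma ae_w2 {P : R3 → Prop} : (∀ᵐ x, P x) ↔ ∀ᵐ z, P (w2 z) := by
  have h := mp_w2.map_eq
  rw [← h]
  exact w2.measurableEmbedding.ae_map_iff

/-- the homeomorphism of `R3` -/
noncomputable def toR (χ : (Fin 3 → ℝ) ≃ₜ (Fin 3 → ℝ)) : R3 ≃ₜ R3 := w2.symm.trans (χ.trans w2)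

lemma toR_apply (χ : (Fin 3 → ℝ) ≃ₜ (Fin 3 → ℝ)) (x : R3) : toR χ x = w2 (χ (w2.symm x)) := rfl

lemma plOn_w2 : PLOn w2 univ :=
  plOn_affineMap ((WithLp.linearEquiv 2 ℝ (Fin 3 → ℝ)).symm.toLinearMap.toAffineMap)
    (PiLp.continuous_toLp 2 _) univ

lemma plOn_w2_symm : PLOn w2.symm univ :=
  plOn_affineMap ((WithLp.linearEquiv 2 ℝ (Fin 3 → ℝ)).toLinearMap.toAffineMap)
    (PiLp.continuous_ofLp 2 _) univ

lemma plOn_toR {χ : (Fin 3 → ℝ) ≃ₜ (Fin 3 → ℝ)} (h : PLOn χ univ) : PLOn (toR χ) univ :=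
  plOn_w2.comp (h.comp plOn_w2_symm (mapsTo_univ _ _)) (mapsTo_univ _ _)

lemma plOn_toR_symm {χ : (Fin 3 → ℝ) ≃ₜ (Fin 3 → ℝ)} (h : PLOn χ.symm univ) :
    PLOn (toR χ).symm univ :=
  plOn_w2.comp (h.comp plOn_w2_symm (mapsTo_univ _ _)) (mapsTo_univ _ _)

lemma LLV_toR {χ : (Fin 3 → ℝ) ≃ₜ (Fin 3 → ℝ)} {c : ℝ} (hc : 0 ≤ c) {z : Fin 3 → ℝ}
    (h : LLV c χ z) : LLV (2 * c) (toR χ) (w2 z) := by
  have h1 : Tendsto w2.symm (𝓝 (w2 z)) (𝓝 z) := by
    have := w2.symm.continuous.continuousAt (x := w2 z)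
    rwa [ContinuousAt, w2.symm_apply_apply] at this
  filter_upwards [h1.eventually h] with y hy
  rw [toR_apply, toR_apply, w2.symm_apply_apply, w2_sub]
  refine (norm_toLp_le _).trans ?_
  have h2 : ‖w2.symm y - z‖ ≤ ‖y - w2 z‖ := by
    have : w2.symm y - z = WithLp.ofLp (y - w2 z) := rfl
    rw [this]
    exact norm_ofLp_le _
  calc 2 * ‖χ (w2.symm y) - χ z‖ ≤ 2 * (c * ‖w2.symm y - z‖) := by linarith
    _ ≤ 2 * (c * ‖y - w2 z‖) := by
        have := mul_le_mul_of_nonneg_left h2 hc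
        linarith
    _ = _ := by ring

/-- **SOB-CHAIN** (helper447's leaf) -/
def SobChain (p : ℝ) : Prop :=
  ∀ {Om La : Set R3} {f : R3 → R3} {G : Fin 3 → R3 → R3}, IsOpen Om → SH p Om La f G →
    ∀ Ψ : R3 ≃ₜ R3, PLOn Ψ univ → PLOn Ψ.symm univ → (∀ x, Ψ x ∈ Om ↔ x ∈ Om) →
    ∃ G' : Fin 3 → R3 → R3, SH p Om La (fun x => f (Ψ x)) G' ∧
      ∀ j, ∀ᵐ x, x ∈ Om → ∀ c : ℝ, 0 ≤ c → (∀ᶠ y in 𝓝 x, ‖Ψ y - Ψ x‖ ≤ c * ‖y - x‖) →
        ‖G' j x‖ ≤ 3 * c * ‖G j (Ψ x)‖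

/-- the energy density -/
noncomputable def En (p : ℝ) (G : Fin 3 → R3 → R3) (x : R3) : ℝ≥0∞ := ∑ j : Fin 3, ‖G j x‖ₑ ^ p

/-- one step: composition with a PL homeomorphism -/
theorem step {p : ℝ} (hp : 0 < p) (hS : SobChain p) {Om La : Set R3} {f : R3 → R3}
    {G : Fin 3 → R3 → R3} (hOm : IsOpen Om) (h : SH p Om La f G)
    (χ : (Fin 3 → ℝ) ≃ₜ (Fin 3 → ℝ)) (h1 : PLOn χ univ) (h2 : PLOn χ.symm univ)
    (hΨ : ∀ z, w2 (χ z) ∈ Om ↔ w2 z ∈ Om) :
    ∃ G' : Fin 3 → R3 → R3, SH p Om La (fun x => f (toR χ x)) G' ∧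
      ∀ᵐ z : Fin 3 → ℝ, w2 z ∈ Om → ∀ c : ℝ, 1 ≤ c → LLV c χ z →
        ENNReal.ofReal ((6:ℝ)^(-p)) * En p G' (w2 z) ≤
          ENNReal.ofReal (c^p) * En p G (w2 (χ z)) := by
  obtain ⟨G', h3, h4⟩ := hS hOm h (toR χ) (plOn_toR h1) (plOn_toR_symm h2) (by
    intro x
    have := hΨ (w2.symm x)
    rw [w2.apply_symm_apply] at this
    exact this)
  refine ⟨G', h3, ?_⟩
  have h5 : ∀ᵐ z : Fin 3 → ℝ, ∀ j, w2 z ∈ Om → ∀ c : ℝ, 0 ≤ c →
      (∀ᶠ y in 𝓝 (w2 z), ‖toR χ y - toR χ (w2 z)‖ ≤ c * ‖y - w2 z‖) →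
        ‖G' j (w2 z)‖ ≤ 3 * c * ‖G j (toR χ (w2 z))‖ := by
    rw [ae_all_iff]
    intro j
    exact ae_w2.1 (h4 j)
  filter_upwards [h5] with z hz hzO c hc hzc
  have hc0 : 0 ≤ c := by linarith
  have h6 : ∀ j, ‖G' j (w2 z)‖ₑ ^ p ≤
      ENNReal.ofReal ((6:ℝ)^p * c^p) * ‖G j (w2 (χ z))‖ₑ ^ p := by
    intro j
    have h7 := hz j hzO (2 * c) (by linarith) (LLV_toR hc0 hzc)
    rw [toR_apply, w2.symm_apply_apply] at h7
    have h8 : ‖G' j (w2 z)‖ₑ ≤ ENNReal.ofReal (6 * c) * ‖G j (w2 (χ z))‖ₑ := by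
      rw [← ofReal_norm, ← ofReal_norm, ← ENNReal.ofReal_mul (by positivity)]
      apply ENNReal.ofReal_le_ofReal
      linarith
    calc ‖G' j (w2 z)‖ₑ ^ p ≤ (ENNReal.ofReal (6 * c) * ‖G j (w2 (χ z))‖ₑ) ^ p :=
          ENNReal.rpow_le_rpow h8 hp.le
      _ = ENNReal.ofReal ((6:ℝ)^p * c^p) * ‖G j (w2 (χ z))‖ₑ ^ p := by
          rw [ENNReal.mul_rpow_of_nonneg _ _ hp.le, ENNReal.ofReal_rpow_of_nonneg (by positivity) hp.le,
            Real.mul_rpow (by norm_num) hc0]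
  calc ENNReal.ofReal ((6:ℝ)^(-p)) * En p G' (w2 z)
      ≤ ENNReal.ofReal ((6:ℝ)^(-p)) * ∑ j : Fin 3, ENNReal.ofReal ((6:ℝ)^p * c^p) *
          ‖G j (w2 (χ z))‖ₑ ^ p := mul_le_mul' le_rfl (Finset.sum_le_sum fun j _ => h6 j)
    _ = ENNReal.ofReal (c^p) * En p G (w2 (χ z)) := by
        rw [← Finset.mul_sum, ← mul_assoc, ← ENNReal.ofReal_mul (by positivity), ← mul_assoc,
          ← Real.rpow_add (by norm_num), neg_add_cancel, Real.rpow_zero, one_mul]
        rfl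

lemma six_cancel (p : ℝ) (a : ℝ≥0∞) :
    a = ENNReal.ofReal ((6:ℝ)^p) * (ENNReal.ofReal ((6:ℝ)^(-p)) * a) := by
  rw [← mul_assoc, ← ENNReal.ofReal_mul (by positivity), ← Real.rpow_add (by norm_num),
    add_neg_cancel, Real.rpow_zero, ENNReal.ofReal_one, one_mul]

end Crest.Agent.R096.Sq_55
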