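import Crest.Agent.R096.Sqt5_143
import Crest.Agent.R096.Cob4_622

-- ▼ part R096/Str1_968
section

/-!
Row 96 (S0127), helper968, leaf STRIP, part 1: **one cell**.  On the points of the cell at distance
`≤ u ≤ R / (2 M)` of its boundary the squeeze is the explicit map of the outer shell: it does not
depend on `N`, moves points by `≤ 2 M² u`, is locally `16 M²`-Lipschitz and its inverse has Jacobian
`≤ C M⁶ / τ`.
-/

set_option autoImplicit false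

open Set Metric Filter Topology MeasureTheory

namespace Crest.Agent.R096.Str_968

open Crest.Agent.R096.Ce_537 Crest.Agent.R096.Bd_416 Crest.Agent.R96.Hole_348
open Crest.Agent.R096.Sq_55 Crest.Agent.R096.Sqt_143
open scoped ENNReal NNReal

/-! ### general lemmas -/


section cell

variable {C : Cell} {q τ : ℝ} {N : ℕ}

/-- the depth of a point near the boundary -/
lemma depth {x y : E3} (hx : x ∈ C.P) (hy : y ∈ C.P) (hyU : y ∉ C.U) :
    1 - ‖C.e x‖ ≤ (C.M / C.R : ℝ) * ‖x - y‖ := by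
  have hy1 : 1 ≤ ‖C.e y‖ := by
    by_contra hlt
    exact hyU ((C.cht.mem y hy).1 (mem_ball_zero_iff.2 (not_le.1 hlt)))
  have h3 := lip_le C.cht.lip hx hy
  push_cast at h3
  have h4 : ‖C.e y‖ ≤ ‖C.e x‖ + ‖C.e x - C.e y‖ := by
    calc ‖C.e y‖ = ‖C.e x - (C.e x - C.e y)‖ := by congr 1; abel
      _ ≤ _ := norm_sub_le _ _
  linarith

lemma depth_lt {x y : E3} (hx : x ∈ C.P) (hy : y ∈ C.P) (hyU : y ∉ C.U) {u : ℝ}
    (hxy : ‖x - y‖ ≤ u) (hu : 2 * C.M * u < C.R) : 1/2 < ‖C.e x‖ := by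
  have hM := C.M_pos
  have hR := C.R_pos
  have h1 := depth hx hy hyU
  have h2 : (C.M / C.R : ℝ) * ‖x - y‖ ≤ (C.M / C.R : ℝ) * u :=
    mul_le_mul_of_nonneg_left hxy (by positivity)
  have h3 : (C.M / C.R : ℝ) * u < 1/2 := by
    rw [div_mul_eq_mul_div, div_lt_iff₀ hR]; linarith
  linarith

/-- the formula on the outer shell -/
lemma hh_outer (hP : GPar q τ 1) {x : E3} (hx : x ∈ C.P) (h : 1/2 ≤ ‖C.e x‖) :
    C.hh (N+1) hP x = C.e' (outer τ 1 (C.e x)) := by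
  rw [C.hh_in (N+1) hP hx, cgf_in (mem_closedBall_zero_iff.1 (C.cht.maps hx)), gf_outer h]

lemma tau_le (hP : GPar q τ 1) : τ ≤ 1/2 := by have := hP.half_le; linarith

lemma e_outer (hP : GPar q τ 1) {x : E3} (hx : x ∈ C.P) (h : 1/2 ≤ ‖C.e x‖) :
    C.e (C.hh (N+1) hP x) = outer τ 1 (C.e x) ∧
      ‖C.e (C.hh (N+1) hP x)‖ = 1 - 2 * τ * (1 - ‖C.e x‖) := by
  have h1 : ‖C.e x‖ ≤ 1 := mem_closedBall_zero_iff.1 (C.cht.maps hx)
  have h2 := norm_outer_one hP.t0 (tau_le hP) h h1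
  have h3 : ‖outer τ 1 (C.e x)‖ ≤ 1 := by
    rw [h2]; have := hP.t0; nlinarith
  have h4 : C.e (C.hh (N+1) hP x) = outer τ 1 (C.e x) := by
    rw [hh_outer hP hx h]
    exact C.cht.inv' _ (mem_closedBall_zero_iff.2 h3)
  exact ⟨h4, by rw [h4, h2]⟩

/-- points are near the boundary -/
lemma near_bd {x : E3} (hx : x ∈ C.P) (h : 0 < ‖C.e x‖) :
    ∃ y ∈ C.P \ C.U, ‖x - y‖ ≤ C.M * C.R * (1 - ‖C.e x‖) := by
  set z := C.e x with hz
  have hz1 : ‖z‖ ≤ 1 := mem_closedBall_zero_iff.1 (C.cht.maps hx)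
  set z' := ‖z‖⁻¹ • z with hz'
  have n1 : ‖z'‖ = 1 := by rw [hz', norm_smul, norm_inv, norm_norm, inv_mul_cancel₀ h.ne']
  have n2 : ‖z - z'‖ = 1 - ‖z‖ := by
    have : z - z' = (1 - ‖z‖⁻¹) • z := by rw [hz', sub_smul, one_smul]
    rw [this, norm_smul, Real.norm_eq_abs, abs_sub_comm, abs_of_nonneg, sub_mul,
      inv_mul_cancel₀ h.ne', one_mul]
    have := (one_le_inv₀ h).2 hz1
    linarith
  have m1 : z' ∈ closedBall (0 : E3) 1 := by rw [mem_closedBall_zero_iff, n1]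
  have m2 : z ∈ closedBall (0 : E3) 1 := C.cht.maps hx
  refine ⟨C.e' z', ⟨C.cht.maps' m1, fun h1 => ?_⟩, ?_⟩
  · have := (C.cht.mem' m1).1 h1
    rw [mem_ball_zero_iff, n1] at this
    exact lt_irrefl _ this
  · have h1 := lip_le C.cht.lip' m2 m1
    rw [C.cht.inv x hx, n2] at h1
    push_cast at h1
    exact h1

lemma hh_P (hP : GPar q τ 1) {x : E3} (hx : x ∈ C.P) : C.hh N hP x ∈ C.P := by
  by_cases h : x ∈ C.U
  · exact C.cht.sub (maps_of_fix (C.hh N hP).injective (fun _ hx => C.hh_out N hP hx) h)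
  · rw [C.hh_out N hP h]; exact hx

/-- **(a)** displacement and distance to the boundary -/
theorem cell_a (hP : GPar q τ 1) {x y : E3} (hx : x ∈ C.P) (hy : y ∈ C.P \ C.U) {u : ℝ}
    (hxy : ‖x - y‖ ≤ u) (hu : 2 * C.M * u ≤ C.R) :
    ‖C.hh (N+1) hP x - x‖ ≤ 2 * (C.M:ℝ)^2 * u ∧
      ∃ y' ∈ C.P \ C.U, ‖C.hh (N+1) hP x - y'‖ ≤ 2 * (C.M:ℝ)^2 * τ * u := by
  have hM := C.M_pos
  have hR := C.R_pos
  have h1 := depth hx hy.1 hy.2
  have h2 : (C.M / C.R : ℝ) * ‖x - y‖ ≤ (C.M / C.R : ℝ) * u :=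
    mul_le_mul_of_nonneg_left hxy (by positivity)
  have h3 : (C.M / C.R : ℝ) * u ≤ 1/2 := by
    rw [div_mul_eq_mul_div, div_le_iff₀ hR]; linarith
  have h4 : 1/2 ≤ ‖C.e x‖ := by linarith
  have h5 : ‖C.e x‖ ≤ 1 := mem_closedBall_zero_iff.1 (C.cht.maps hx)
  have ht := hP.t0
  obtain ⟨k1, k2⟩ := e_outer (N := N) hP hx h4
  have hK : C.hh (N+1) hP x ∈ C.P := hh_P hP hx
  constructor
  · have h6 := outer_sub_le ht (tau_le hP) h4 h5
    have h7 := lip_le C.cht.lip' (C.cht.maps hK) (C.cht.maps hx)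
    rw [C.cht.inv _ hK, C.cht.inv x hx, k1] at h7
    push_cast at h7
    refine h7.trans ?_
    calc (C.M * C.R : ℝ) * ‖outer τ 1 (C.e x) - C.e x‖
        ≤ (C.M * C.R : ℝ) * (2 * ((C.M / C.R : ℝ) * u)) := by
          apply mul_le_mul_of_nonneg_left _ (by positivity)
          linarith
      _ = _ := by field_simp
  · obtain ⟨y', hy', h6⟩ := near_bd hK (by rw [k2]; have := tau_le hP; nlinarith)
    refine ⟨y', hy', h6.trans ?_⟩
    rw [k2]
    calc (C.M * C.R : ℝ) * (1 - (1 - 2 * τ * (1 - ‖C.e x‖)))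
        = (C.M * C.R : ℝ) * (2 * τ) * (1 - ‖C.e x‖) := by ring
      _ ≤ (C.M * C.R : ℝ) * (2 * τ) * ((C.M / C.R : ℝ) * u) := by
          apply mul_le_mul_of_nonneg_left _ (by positivity)
          linarith
      _ = _ := by field_simp



/-- the shell of a cell -/
def shC (C : Cell) : Set E3 := C.U ∩ C.e ⁻¹' {z | 1/2 < ‖z‖}






end cell

end Crest.Agent.R096.Str_968
end

-- ▼ part R096/Str2_968
section

/-!
Row 96 (S0127), helper968, leaf STRIP, part 2: **one face**.  On the outer shell of the double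
pyramid of a face the squeeze is explicit (`fo`), keeps the height, moves points by at most
`2 M ρ` times the depth, is locally `33 M²`-Lipschitz and its inverse has Jacobian `≤ C M⁶ / τ`.
-/

set_option autoImplicit false

open Set Metric Filter Topology MeasureTheory

namespace Crest.Agent.R096.Str_968

open Crest.Agent.R096.Ce_537 Crest.Agent.R096.Bd_416 Crest.Agent.R96.Hole_348
open Crest.Agent.R096.Sq_55 Crest.Agent.R096.Sqt_143
open scoped ENNReal NNReal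

/-! ### the model -/

section model

variable {n : ℕ} {q τ : ℝ} {N : ℕ}







end model

/-! ### one face -/

section face

variable {F : Face} {q τ : ℝ} {N : ℕ}

/-- the outer shell of the model -/
def shM : Set E3 := {z | |z 0| < 1 ∧ (1/2) * (1 - |z 0|) < wid z ∧ |z 0| + wid z < 1}






/-- the shell of a face -/
def shF (F : Face) : Set E3 := F.V ∩ F.e ⁻¹' {z | (1/2) * (1 - |z 0|) < wid z}


lemma shF_mem {x : E3} (hx : x ∈ shF F) : F.e x ∈ shM := by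
  have h1 : |F.e x 0| + wid (F.e x) < 1 := F.cht.eU hx.1
  have h2 := wid_nonneg (F.e x)
  exact ⟨by linarith, hx.2, h1⟩

/-- the formula on the shell -/
lemma hhF_outer (hP : GPar q τ 1) {x : E3} (hx : x ∈ shF F) :
    F.hh (N+1) hP x = F.e' (fo τ (F.e x)) := by
  obtain ⟨h1, h2, h3⟩ := shF_mem hx
  rw [F.hh_in (N+1) hP (F.cht.sub hx.1), T_eq_fo h1 h2.le h3.le]

lemma fo_mem {z : E3} (ht : 0 < τ) (hτ : τ ≤ 1/2) (hz : z ∈ shM) :
    |fo τ z 0| = |z 0| ∧ wid (fo τ z) = (1 - |z 0|) - 2 * τ * (1 - |z 0| - wid z) ∧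
      (1 - τ) * (1 - |z 0|) < wid (fo τ z) ∧ |fo τ z 0| + wid (fo τ z) < 1 := by
  obtain ⟨h1, h2, h3⟩ := hz
  obtain ⟨-, k2⟩ := fo_sub_le ht hτ h1 h2.le h3.le
  have e0 : |fo τ z 0| = |z 0| := by rw [fo_zero]
  refine ⟨e0, k2, ?_, ?_⟩
  · rw [k2]; nlinarith
  · rw [e0, k2]; nlinarith

/-- **(a)** the image and the displacement -/
theorem face_a (hP : GPar q τ 1) {x : E3} (hx : x ∈ shF F) :
    F.e (F.hh (N+1) hP x) = fo τ (F.e x) ∧ F.hh (N+1) hP x ∈ F.V ∧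
      ‖F.hh (N+1) hP x - x‖ ≤ F.M * F.ρ * (2 * (1 - |F.e x 0| - wid (F.e x))) := by
  have hz := shF_mem hx
  obtain ⟨h1, h2, h3⟩ := shF_mem hx
  obtain ⟨k1, k2, k3, k4⟩ := fo_mem hP.t0 (tau_le hP) hz
  have hm : fo τ (F.e x) ∈ Dc := k4.le
  have hV := F.hh_mem (N+1) hP hx.1
  have e1 : F.e (F.hh (N+1) hP x) = fo τ (F.e x) := by
    rw [hhF_outer hP hx]
    exact F.cht.inv' _ hm
  refine ⟨e1, hV, ?_⟩
  have hK := F.cht.sub hV
  have hxK := F.cht.sub hx.1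
  have h7 := lip_le F.cht.lip' (F.cht.maps hK) (F.cht.maps hxK)
  rw [F.cht.inv _ hK, F.cht.inv x hxK, e1] at h7
  push_cast at h7
  refine h7.trans (mul_le_mul_of_nonneg_left ?_ (by positivity))
  exact (fo_sub_le hP.t0 (tau_le hP) h1 h2.le h3.le).1





end face

end Crest.Agent.R096.Str_968
end

-- ▼ part R096/Str3_968
section

/-!
Row 96 (S0127), helper968, leaf STRIP, part 3: **the strips of helper55's systems.**  `E₀` is a
closed subset of the boundary of the cell `k` outside all `V j` (an edge, a vertex, ..).  For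
`r ≤ σ · min (R, ρ j)`, `σ ≤ c(m)` the map `chi = H ∘ Y` is on `P k ∩ nb r E₀` the explicit map of
the outer shells: independent of `N₁, N₂ ≥ 1`, `C(m)`-Lipschitz, and (`strip_int`), with
`t = 7 m³ σ δ ≤ δ`,
`∫_(P k ∩ nb r E₀) v (chi x) ≤ C(m) (R/δ) [Σ_j (ρ_j/δ) ∫_(P ∩ V_j ∩ nb t rim_j ∩ nb (C r) E₀) v +
∫_(P ∩ nb t (∂P) ∩ (nb t Z ∪ ⋃ nb t rim_j) ∩ nb (C r) E₀) v]` without error term, for every `p < 3`.
-/

set_option autoImplicit false
set_option linter.unusedSectionVars false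

open Set Metric Filter Topology MeasureTheory

namespace Crest.Agent.R096.Str_968

open Crest.Agent.R096.Ce_537 Crest.Agent.R096.Bd_416 Crest.Agent.R96.Hole_348
open Crest.Agent.R096.Sq_55 Crest.Agent.R096.Sqt_143
open scoped ENNReal NNReal

/-! ### closed neighbourhoods -/


lemma isCompact_rim (F : Face) : IsCompact F.rim := by
  have h1 : IsCompact {z : E3 | z 0 = 0 ∧ wid z = 1} := by
    refine IsCompact.of_isClosed_subset (isCompact_closedBall (0:E3) 1) ?_ ?_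
    · exact (isClosed_eq (continuous_apply 0) continuous_const).inter
        (isClosed_eq continuous_wid continuous_const)
    · rintro z ⟨h0, h1⟩
      rw [mem_closedBall_zero_iff]
      exact norm_le_max (by rw [h0, abs_zero]; exact zero_le_one) h1.le
  refine h1.image_of_continuousOn (F.cht.lip'.continuousOn.mono ?_)
  rintro z ⟨h0, h1⟩
  exact Face.rim_mem h0 h1

/-! ### geometry -/

/-- points of a face near a point outside have small depth -/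
lemma face_depth (F : Face) {x y : E3} (hy : y ∈ F.V) (hx : x ∉ F.V) {d : ℝ}
    (hd : ‖x - y‖ ≤ d) : 1 - |F.e y 0| - wid (F.e y) ≤ 2 * (F.M / F.ρ * d) := by
  have hMρ := F.ρ_pos
  have hM := F.M_pos
  obtain ⟨x', hx1, hx2⟩ := inter_frontier ((convex_segment y x).isPreconnected) F.cht.opU
    ⟨y, left_mem_segment ℝ y x, hy⟩ ⟨x, right_mem_segment ℝ y x, hx⟩
  have hxK : x' ∈ F.K := closure_minimal F.cht.sub F.cht.clK hx2.1
  have hxV : x' ∉ F.V := by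
    have := hx2.2
    rwa [F.cht.opU.interior_eq] at this
  have hyK : y ∈ F.K := F.cht.sub hy
  have h1 : ‖x' - y‖ ≤ d := by
    have h2 : x' ∈ closedBall y d := by
      refine (convex_closedBall y d).segment_subset ?_ ?_ hx1
      · rw [mem_closedBall, dist_self]; exact (norm_nonneg _).trans hd
      · rw [mem_closedBall, dist_eq_norm]; exact hd
    rwa [mem_closedBall, dist_eq_norm] at h2
  have h3 : ‖F.e x' - F.e y‖ ≤ F.M / F.ρ * d := by
    refine (lip_le F.cht.lip hxK hyK).trans ?_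
    push_cast
    exact mul_le_mul_of_nonneg_left h1 (by positivity)
  have h4 : |F.e x' 0| + wid (F.e x') = 1 := by
    have a1 : |F.e x' 0| + wid (F.e x') ≤ 1 := F.cht.maps hxK
    have a2 : ¬ (|F.e x' 0| + wid (F.e x') < 1) := fun h => hxV ((F.cht.mem x' hxK).1 h)
    exact le_antisymm a1 (not_lt.1 a2)
  have h5 : |F.e x' 0| ≤ |F.e y 0| + F.M / F.ρ * d := by
    have h7 := abs_zero_le (F.e x' - F.e y)
    have e : (F.e x' - F.e y) 0 = F.e x' 0 - F.e y 0 := rfl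
    rw [e] at h7
    have h8 := abs_sub_abs_le_abs_sub (F.e x' 0) (F.e y 0)
    linarith
  have h6 : wid (F.e x') - wid (F.e y) ≤ F.M / F.ρ * d := (wid_sub_le _ _).trans h3
  linarith

section sys

variable {κ ι : Type*} [Fintype κ] [Fintype ι] {X : Sys κ ι} {p δ : ℝ}

open Sys

/-- points of the cell near its boundary in `V j` have small height -/
lemma slab_le {k : κ} {j : ι} {z y : E3} (hz : z ∈ (X.C k).P)
    (hzV : z ∈ (X.F j).V) (hy : y ∈ (X.C k).P \ (X.C k).U) {d : ℝ} (hd : ‖z - y‖ ≤ d) :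
    |(X.F j).e z 0| ≤ (X.F j).M * d / (X.F j).ρ := by
  have hρ := (X.F j).ρ_pos
  have h1 := X.slab j k z hzV hz y hy
  rw [le_div_iff₀ hρ]
  have h3 : ((X.F j).M : ℝ) * ‖z - y‖ ≤ (X.F j).M * d :=
    mul_le_mul_of_nonneg_left hd (by positivity)
  linarith

/-- `E₀` is a closed part of the boundary of the cell `k` outside the `V j`; `r ≤ σ · size` -/
structure Edg (X : Sys κ ι) (k : κ) (E₀ : Set E3) (r σ : ℝ) : Prop where
  cl : IsClosed E₀
  bd : E₀ ⊆ (X.C k).P \ (X.C k).U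
  dis : ∀ j, Disjoint E₀ (X.F j).V
  r0 : 0 ≤ r
  s1 : 24 * (X.m k : ℝ)^3 * σ < 1
  rC : r ≤ σ * (X.C k).R
  rF : ∀ j, ((X.F j).V ∩ (X.C k).P).Nonempty → r ≤ σ * (X.F j).ρ

variable {k : κ} {E₀ : Set E3} {r σ : ℝ} {N₁ N₂ : ℕ}

lemma Edg.s0 (hE : Edg X k E₀ r σ) : 0 ≤ σ := by
  have h1 := (X.C k).R_pos
  have h2 := hE.r0.trans hE.rC
  by_contra h
  have := mul_neg_of_neg_of_pos (not_le.1 h) h1
  linarith

lemma Edg.rC' (hE : Edg X k E₀ r σ) : 2 * (X.m k : ℝ) * r < (X.C k).R := by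
  have h1 := (X.C k).R_pos
  have hm1 := m_one (X := X) k
  have h0 := hE.s0
  have h2 : (X.m k : ℝ) ≤ (X.m k : ℝ)^3 := by
    calc (X.m k : ℝ) = (X.m k : ℝ)^1 := (pow_one _).symm
      _ ≤ _ := pow_le_pow_right₀ hm1 (by norm_num)
  have h3 : (X.m k : ℝ) * σ ≤ (X.m k : ℝ)^3 * σ := mul_le_mul_of_nonneg_right h2 h0
  have h4 : 2 * (X.m k : ℝ) * σ < 1 := by linarith [hE.s1]
  calc 2 * (X.m k : ℝ) * r ≤ 2 * (X.m k : ℝ) * (σ * (X.C k).R) :=
        mul_le_mul_of_nonneg_left hE.rC (by positivity)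
    _ = (2 * (X.m k : ℝ) * σ) * (X.C k).R := by ring
    _ < 1 * (X.C k).R := mul_lt_mul_of_pos_right h4 h1
    _ = _ := one_mul _

lemma Edg.shC (hE : Edg X k E₀ r σ) {x : E3} (hx : x ∈ (X.C k).U) (hx2 : x ∈ nb r E₀) :
    x ∈ shC (X.C k) := by
  obtain ⟨y, hy, hxy⟩ := hx2
  refine ⟨hx, depth_lt ((X.C k).cht.sub hx) (hE.bd hy).1 (hE.bd hy).2 hxy ?_⟩
  have h3 : ((X.C k).M : ℝ) ≤ X.m k := by exact_mod_cast X.mC k
  have h1 := hE.r0
  have h2 := hE.rC'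
  nlinarith

/-- the distance of the images under `Y` to the boundary -/
noncomputable def dY (X : Sys κ ι) (k : κ) (δ σ : ℝ) : ℝ := 2 * σ * δ / (3 * X.m k)

lemma Edg.Y (hE : Edg X k E₀ r σ) (h : X.Adm p δ) {x : E3} (hx : x ∈ (X.C k).U)
    (hx2 : x ∈ nb r E₀) : Sys.Y h (N₂+1) x ∈ nb (3 * (X.m k : ℝ)^2 * r) E₀ ∧
      Sys.Y h (N₂+1) x ∈ (X.C k).P ∧
      Sys.Y h (N₂+1) x ∈ nb (dY X k δ σ) ((X.C k).P \ (X.C k).U) := by
  have hm1 := m_one (X := X) k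
  have h3 : ((X.C k).M : ℝ) ≤ X.m k := by exact_mod_cast X.mC k
  have h30 := (X.C k).M_pos
  have hR := (X.C k).R_pos
  have hδ := h.d0
  have h1 := hE.r0
  have h2 := hE.rC'
  have hs := hE.shC hx hx2
  obtain ⟨y, hy, hxy⟩ := hx2
  have hxP := (X.C k).cht.sub hx
  rw [Y_eq h (N₂+1) hx]
  obtain ⟨a1, y', hy', a3⟩ := cell_a (N := N₂) (gC h k) hxP (hE.bd hy) hxy (by nlinarith)
  refine ⟨⟨y, hy, ?_⟩, hh_P _ hxP, ⟨y', hy', a3.trans ?_⟩⟩
  · refine (norm_sub_le_norm_sub_add_norm_sub _ x _).trans ?_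
    have h5 : 2 * ((X.C k).M:ℝ)^2 * r ≤ 2 * (X.m k : ℝ)^2 * r := by gcongr
    have h6 : r ≤ (X.m k : ℝ)^2 * r := by
      have : (1:ℝ) ≤ (X.m k : ℝ)^2 := one_le_pow₀ hm1
      nlinarith
    linarith
  · have b1 := ηC_pos h k
    have b2 := (gC h k).t0
    have b3 : X.ηC δ k * (1 - qn 3 p) ≤ X.ηC δ k := by
      have := qn_pos 3 p
      nlinarith
    have b5 : 2 * ((X.C k).M:ℝ)^2 * (X.ηC δ k * (1 - qn 3 p)) ≤
        2 * (X.m k : ℝ)^2 * X.ηC δ k := by gcongr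
    calc 2 * ((X.C k).M:ℝ)^2 * (X.ηC δ k * (1 - qn 3 p)) * r
        ≤ 2 * (X.m k : ℝ)^2 * X.ηC δ k * (σ * (X.C k).R) :=
          mul_le_mul b5 hE.rC h1 (by positivity)
      _ = dY X k δ σ := by
          unfold Sys.ηC dY
          field_simp

/-- points of the layer in `V j` near a point outside `V j` are in the shell of the face -/
lemma Edg.mem_shF (hE : Edg X k E₀ r σ) (h : X.Adm p δ) {j : ι} {z : E3} (hz : z ∈ (X.C k).P)
    (hzV : z ∈ (X.F j).V) (hz2 : z ∈ nb (dY X k δ σ) ((X.C k).P \ (X.C k).U))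
    (hz3 : z ∈ nb (3 * (X.m k : ℝ)^2 * r) E₀) :
    z ∈ shF (X.F j) ∧ |(X.F j).e z 0| ≤ (X.F j).M * dY X k δ σ / (X.F j).ρ ∧
      1 - |(X.F j).e z 0| - wid ((X.F j).e z) ≤
        2 * (((X.F j).M : ℝ) / (X.F j).ρ * (3 * (X.m k : ℝ)^2 * r)) := by
  have hm1 := m_one (X := X) k
  have hM0 := (X.F j).M_pos
  have hρ := (X.F j).ρ_pos
  have hδ := h.d0
  have hδF := h.dF j
  have hs0 := hE.s0
  have hs1 := hE.s1
  have hr0 := hE.r0
  have hM : ((X.F j).M : ℝ) ≤ X.m k := by exact_mod_cast X.mF k j ⟨z, hzV, hz⟩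
  obtain ⟨y, hy, hzy⟩ := hz2
  obtain ⟨x₀, hx₀, hd⟩ := hz3
  have hx₀V : x₀ ∉ (X.F j).V := Set.disjoint_left.1 (hE.dis j) hx₀
  have h0 := slab_le hz hzV hy hzy
  have h1 := face_depth (X.F j) hzV hx₀V (d := 3 * (X.m k : ℝ)^2 * r)
    (by rw [norm_sub_rev]; exact hd)
  have hσ : (X.m k : ℝ)^3 * σ < 1/24 := by linarith
  have h2 : ((X.F j).M : ℝ) / (X.F j).ρ * (3 * (X.m k : ℝ)^2 * r) ≤ 3 * ((X.m k : ℝ)^3 * σ) := by
    rw [div_mul_eq_mul_div, div_le_iff₀ hρ]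
    calc ((X.F j).M : ℝ) * (3 * (X.m k : ℝ)^2 * r) ≤
          X.m k * (3 * (X.m k : ℝ)^2 * (σ * (X.F j).ρ)) := by
            have := hE.rF j ⟨z, hzV, hz⟩
            gcongr
      _ = _ := by ring
  have h3 : (X.F j).M * dY X k δ σ / (X.F j).ρ ≤ 1/2 := by
    rw [div_le_iff₀ hρ, dY]
    have e : ((X.F j).M : ℝ) * (2 * σ * δ / (3 * X.m k)) =
        ((X.F j).M / X.m k) * ((2/3) * σ * δ) := by field_simp
    rw [e]
    have h7 : ((X.F j).M : ℝ) / X.m k ≤ 1 := by rw [div_le_one (by linarith)]; exact hM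
    have h8 : σ ≤ 1/24 := by
      have : (1:ℝ) ≤ (X.m k : ℝ)^3 := one_le_pow₀ hm1
      nlinarith
    calc ((X.F j).M : ℝ) / X.m k * ((2/3) * σ * δ) ≤ 1 * ((2/3) * (1/24) * (X.F j).ρ) := by
          gcongr
      _ ≤ _ := by linarith
  refine ⟨⟨hzV, ?_⟩, h0, h1⟩
  show (1/2) * (1 - |(X.F j).e z 0|) < wid ((X.F j).e z)
  linarith

/-- the thickness of the layers -/
noncomputable def tT (X : Sys κ ι) (k : κ) (δ σ : ℝ) : ℝ := 7 * (X.m k : ℝ)^3 * σ * δ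

/-- the image under `H` of a point of the layer near `E₀` in `V j` -/
lemma Edg.H (hE : Edg X k E₀ r σ) (h : X.Adm p δ) {j : ι} {z : E3} (hz : z ∈ (X.C k).P)
    (hzV : z ∈ (X.F j).V) (hz2 : z ∈ nb (dY X k δ σ) ((X.C k).P \ (X.C k).U))
    (hz3 : z ∈ nb (3 * (X.m k : ℝ)^2 * r) E₀) :
    z ∈ shF (X.F j) ∧ (X.F j).hh (N₁+1) (gF h j) z ∈ (X.C k).P ∩ (X.F j).V ∩
      nb (tT X k δ σ) (X.F j).rim ∩ nb (15 * (X.m k : ℝ)^4 * r) E₀ := by
  have hm1 := m_one (X := X) k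
  have hM0 := (X.F j).M_pos
  have hρ := (X.F j).ρ_pos
  have h1 := hE.r0
  have hδ := h.d0
  have hs0 := hE.s0
  have hM : ((X.F j).M : ℝ) ≤ X.m k := by exact_mod_cast X.mF k j ⟨z, hzV, hz⟩
  obtain ⟨k1, h0, k2⟩ := hE.mem_shF h hz hzV hz2 hz3
  obtain ⟨x₀, hx₀, hzx⟩ := hz3
  obtain ⟨l1, l2, l3⟩ := face_a (N := N₁) (gF h j) k1
  obtain ⟨m1, m2, m3, m4⟩ := fo_mem (gF h j).t0 (tau_le (gF h j)) (shF_mem k1)
  rw [← l1] at m1 m2 m3 m4
  have hθ0 : 0 ≤ 1 - |(X.F j).e z 0| - wid ((X.F j).e z) := by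
    have := (shF_mem k1).2.2
    linarith
  refine ⟨k1, ⟨⟨⟨?_, l2⟩, ?_⟩, ?_⟩⟩
  · rw [← H_eq h (N₁+1) hzV]
    exact (H_P h (N₁+1) k z).2 hz
  · have b2 := ηF_pos h j
    have b3 : X.ηF δ j * (1 - qF p) ≤ X.ηF δ j := by
      have b1 := qF_pos p
      nlinarith
    have b4 : 2 * (X.ηF δ j * (1 - qF p)) * (1 - |(X.F j).e z 0| - wid ((X.F j).e z)) ≤
        2 * X.ηF δ j * (2 * (((X.F j).M : ℝ) / (X.F j).ρ * (3 * (X.m k : ℝ)^2 * r))) := by
      calc 2 * (X.ηF δ j * (1 - qF p)) * (1 - |(X.F j).e z 0| - wid ((X.F j).e z))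
          ≤ 2 * X.ηF δ j * (1 - |(X.F j).e z 0| - wid ((X.F j).e z)) := by gcongr
        _ ≤ _ := mul_le_mul_of_nonneg_left k2 (by positivity)
    obtain ⟨y, hy, hxy⟩ := (X.F j).near_aux ((X.F j).cht.sub l2)
      (d := (X.F j).M * dY X k δ σ / (X.F j).ρ +
        2 * X.ηF δ j * (2 * (((X.F j).M : ℝ) / (X.F j).ρ * (3 * (X.m k : ℝ)^2 * r))))
      (by
        rw [m1]
        have : 0 ≤ 2 * X.ηF δ j * (2 * (((X.F j).M : ℝ) / (X.F j).ρ *
          (3 * (X.m k : ℝ)^2 * r))) := by positivity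
        linarith) (by rw [m2]; linarith)
    refine ⟨y, hy, hxy.trans ?_⟩
    have e1 : ((X.F j).M : ℝ) * (X.F j).ρ * ((X.F j).M * dY X k δ σ / (X.F j).ρ +
        2 * X.ηF δ j * (2 * (((X.F j).M : ℝ) / (X.F j).ρ * (3 * (X.m k : ℝ)^2 * r)))) =
        ((X.F j).M : ℝ)^2 * dY X k δ σ +
        6 * (X.F j).M * (X.m k : ℝ)^2 * δ * (r / (X.F j).ρ) := by
      unfold Sys.ηF
      field_simp
      ring
    rw [e1]
    have e2 : ((X.F j).M : ℝ)^2 * dY X k δ σ ≤ (X.m k : ℝ)^3 * σ * δ := by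
      calc ((X.F j).M : ℝ)^2 * dY X k δ σ ≤ (X.m k : ℝ)^2 * dY X k δ σ := by
            have : 0 ≤ dY X k δ σ := by unfold dY; positivity
            gcongr
        _ = (2/3) * (X.m k : ℝ) * (σ * δ) := by
            unfold dY; field_simp
        _ ≤ (X.m k : ℝ)^3 * (σ * δ) := by
            apply mul_le_mul_of_nonneg_right _ (by positivity)
            have : (X.m k : ℝ) ≤ (X.m k : ℝ)^3 := by
              calc (X.m k : ℝ) = (X.m k : ℝ)^1 := (pow_one _).symm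
                _ ≤ _ := pow_le_pow_right₀ hm1 (by norm_num)
            linarith
        _ = _ := by ring
    have e3 : r / (X.F j).ρ ≤ σ := by
      rw [div_le_iff₀ hρ]; exact hE.rF j ⟨z, hzV, hz⟩
    have e4 : 6 * ((X.F j).M : ℝ) * (X.m k : ℝ)^2 * δ * (r / (X.F j).ρ) ≤
        6 * (X.m k : ℝ)^3 * σ * δ := by
      calc 6 * ((X.F j).M : ℝ) * (X.m k : ℝ)^2 * δ * (r / (X.F j).ρ) ≤
            6 * (X.m k : ℝ) * (X.m k : ℝ)^2 * δ * σ := by gcongr
        _ = _ := by ring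
    rw [tT]
    linarith
  · refine ⟨x₀, hx₀, (norm_sub_le_norm_sub_add_norm_sub _ z _).trans ?_⟩
    have h5 : ((X.F j).M : ℝ) * (X.F j).ρ * (2 * (1 - |(X.F j).e z 0| -
        wid ((X.F j).e z))) ≤ 12 * (X.m k : ℝ)^4 * r := by
      have h4 : ((X.F j).M : ℝ) * (X.F j).ρ * (2 * (1 - |(X.F j).e z 0| -
          wid ((X.F j).e z))) ≤
          ((X.F j).M : ℝ) * (X.F j).ρ * (2 * (2 * (((X.F j).M : ℝ) / (X.F j).ρ *
            (3 * (X.m k : ℝ)^2 * r)))) :=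
        mul_le_mul_of_nonneg_left (by linarith) (by positivity)
      refine h4.trans ?_
      have e : ((X.F j).M : ℝ) * (X.F j).ρ * (2 * (2 * (((X.F j).M : ℝ) / (X.F j).ρ *
            (3 * (X.m k : ℝ)^2 * r)))) =
          12 * (((X.F j).M : ℝ) * (X.F j).M) * ((X.m k : ℝ)^2 * r) := by
        field_simp
        ring
      rw [e]
      have h5 : ((X.F j).M : ℝ) * (X.F j).M ≤ (X.m k : ℝ)^2 := by nlinarith
      calc 12 * (((X.F j).M : ℝ) * (X.F j).M) * ((X.m k : ℝ)^2 * r)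
          ≤ 12 * (X.m k : ℝ)^2 * ((X.m k : ℝ)^2 * r) := by gcongr
        _ = _ := by ring
    have h6 : (X.m k : ℝ)^2 * r ≤ (X.m k : ℝ)^4 * r := by
      have : (X.m k : ℝ)^2 ≤ (X.m k : ℝ)^4 := pow_le_pow_right₀ hm1 (by norm_num)
      nlinarith
    linarith

/-- a point of the layer outside the faces -/
lemma Edg.Z (hE : Edg X k E₀ r σ) (h : X.Adm p δ) {z : E3} (hz : z ∈ (X.C k).P)
    (hzV : ∀ j, z ∉ (X.F j).V) (hz2 : z ∈ nb (dY X k δ σ) ((X.C k).P \ (X.C k).U))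
    (hz3 : z ∈ nb (3 * (X.m k : ℝ)^2 * r) E₀) :
    z ∈ (X.C k).P ∩ nb (tT X k δ σ) ((X.C k).P \ (X.C k).U) ∩
      (nb (tT X k δ σ) X.Z ∪ ⋃ j, nb (tT X k δ σ) (X.F j).rim) ∩
      nb (15 * (X.m k : ℝ)^4 * r) E₀ := by
  have hm1 := m_one (X := X) k
  have hδ := h.d0
  have h1 := hE.r0
  have hs0 := hE.s0
  obtain ⟨y, hy, h4⟩ := hz2
  have hm13 : (X.m k : ℝ) ≤ (X.m k : ℝ)^3 := by
    calc (X.m k : ℝ) = (X.m k : ℝ)^1 := (pow_one _).symm
      _ ≤ _ := pow_le_pow_right₀ hm1 (by norm_num)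
  have hd3 : 3 * (X.m k : ℝ)^2 * dY X k δ σ ≤ tT X k δ σ := by
    have e : 3 * (X.m k : ℝ)^2 * dY X k δ σ = 2 * (X.m k : ℝ) * (σ * δ) := by
      unfold dY; field_simp
    rw [e, tT]
    calc 2 * (X.m k : ℝ) * (σ * δ) ≤ 7 * (X.m k : ℝ)^3 * (σ * δ) := by
          apply mul_le_mul_of_nonneg_right _ (by positivity)
          linarith
      _ = _ := by ring
  have hd0 : 0 ≤ dY X k δ σ := by unfold dY; positivity
  have hδ' : dY X k δ σ ≤ tT X k δ σ := by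
    have : (1:ℝ) ≤ (X.m k : ℝ)^2 := one_le_pow₀ hm1
    nlinarith
  refine ⟨⟨⟨hz, ⟨y, hy, h4.trans hδ'⟩⟩, ?_⟩, ?_⟩
  · rcases X.hZ k y hy with h5 | ⟨j, hj1, hj2⟩
    · left
      exact ⟨y, h5, h4.trans hδ'⟩
    · right
      obtain ⟨s, hs, hys⟩ := (X.F j).exit hj1 hj2 (hzV j) h4
      refine mem_iUnion.2 ⟨j, s, hs, le_trans ?_ hd3⟩
      have hM : ((X.F j).M : ℝ) ≤ X.m k := by exact_mod_cast X.mF k j ⟨y, hj1, hy.1⟩
      have hM1 := (X.F j).M_one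
      have h7 : ‖z - s‖ ≤ ‖z - y‖ + ‖y - s‖ := norm_sub_le_norm_sub_add_norm_sub _ _ _
      have h9 : (1 + 2 * ((X.F j).M * (X.F j).M : ℝ)) ≤ 3 * (X.m k : ℝ)^2 := by nlinarith
      nlinarith
  · refine nb_mono ?_ (subset_refl _) hz3
    have h6 : (X.m k : ℝ)^2 * r ≤ (X.m k : ℝ)^4 * r := by
      have : (X.m k : ℝ)^2 ≤ (X.m k : ℝ)^4 := pow_le_pow_right₀ hm1 (by norm_num)
      nlinarith
    have h7 : 0 ≤ (X.m k : ℝ)^4 * r := by positivity
    linarith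

/-! ### the local Lipschitz constants -/


/-! ### the integrals -/

/-- constant of the cells -/
noncomputable def U3 (p : ℝ) (m : ℝ≥0) : ℝ := 3 * (m:ℝ)^9 * kap 3 / (1 - qn 3 p)
/-- constant of the faces -/
noncomputable def U2 (p : ℝ) (m : ℝ≥0) : ℝ := 2 * (m:ℝ)^7 * kap 2 / (1 - qF p)
/-- **the constant** -/
noncomputable def CS (p : ℝ) (m : ℝ≥0) : ℝ := U3 p m * (1 + U2 p m)








end sys

end Crest.Agent.R096.Str_968
end

-- ▼ part R096/Str4_968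
section

/-!
Row 96 (S0127), helper968, leaf STRIP, part 4: the forms for densities, for the two composition
steps (`Stp`) and for the energies of Sobolev homeomorphisms.
-/

set_option autoImplicit false
set_option linter.unusedSectionVars false

open Set Metric Filter Topology MeasureTheory

namespace Crest.Agent.R096.Str_968

open Crest.Agent.R096.Ce_537 Crest.Agent.R096.Bd_416 Crest.Agent.R96.Hole_348
open Crest.AnalysisR.VecCalc3 Crest.AnalysisR.Sobolev Crest.Agent.R096.Sk_962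
open Crest.Agent.R096.Sq_55 Crest.Agent.R096.Sqt_143
open scoped ENNReal NNReal

section sys

variable {κ ι : Type*} [Fintype κ] [Fintype ι] {X : Sys κ ι} {p δ : ℝ}

open Sys

variable {k : κ} {E₀ : Set E3} {r σ : ℝ} {N₁ N₂ : ℕ}


/-- **the constant** `(528 m⁴)^p · CS p m` -/
noncomputable def CT (p : ℝ) (m : ℝ≥0) : ℝ := (528 * (m:ℝ)^4)^p * CS p m









end sys

end Crest.Agent.R096.Str_968
end

-- ▼ part R096/Str5_968

/-!
Row 96 (S0127), helper968, leaf STRIP, part 5: the limit `δ → 0` of the bound `SB` of the strips,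
from localised covers of the rims and of `Z` by closed pieces of edges and of faces.
-/

set_option autoImplicit false
set_option linter.unusedSectionVars false

open Set Metric Filter Topology MeasureTheory

namespace Crest.Agent.R096.Str_968

open Crest.Agent.R096.Ce_537 Crest.Agent.R096.Bd_416 Crest.Agent.R96.Hole_348
open Crest.AnalysisR.VecCalc3 Crest.AnalysisR.Sobolev Crest.Agent.R096.Sk_962
open Crest.Agent.R096.Sq_55 Crest.Agent.R096.Sqt_143 Crest.Agent.R096.Cob_622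
open scoped ENNReal NNReal

/-- closed pieces of edges and faces which cover the rims and `Z` inside `N₁` (helper622's `EF`,
localised; `EF` is the case `N₁ = univ`) -/
structure EFN {κ ι : Type*} (X : Sys κ ι) (Om : Set R3) (g : R3 → ℝ≥0∞) (N₁ : Set E3)
    (α β : Type*) where
  eg : α → Set R3
  fc : β → Set R3
  rimE : ι → Finset α
  clF : ∀ b, IsClosed (fc b)
  hrim : ∀ j, w2 '' ((X.F j).rim ∩ N₁) ⊆ ⋃ a ∈ rimE j, eg a
  hZ : w2 '' (X.Z ∩ N₁) ⊆ (⋃ a, eg a) ∪ ⋃ b, fc b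
  Ee : α → ℝ≥0∞
  Ef : β → ℝ≥0∞
  fE : ∀ a, Ee a ≠ ∞
  hE : ∀ a, ∀ η : ℝ≥0∞, 0 < η → ∀ᶠ δ in 𝓝[>] (0:ℝ),
    ∫⁻ y in Om ∩ thickening δ (eg a), g y ≤ ENNReal.ofReal (δ^2) * (Ee a + η)
  hF : ∀ b, ∀ η : ℝ≥0∞, 0 < η → ∀ᶠ δ in 𝓝[>] (0:ℝ),
    ∫⁻ y in Om ∩ thickening δ (fc b), g y ≤ ENNReal.ofReal δ * (Ef b + η)

/-- the global data, localised trivially -/
def EFN.ofEF {κ ι α β : Type*} {X : Sys κ ι} {Om : Set R3} {g : R3 → ℝ≥0∞}
    (D : EF X Om g α β) (N₁ : Set E3) : EFN X Om g N₁ α β where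
  eg := D.eg
  fc := D.fc
  rimE := D.rimE
  clF := D.clF
  hrim j := (image_mono inter_subset_left).trans (D.hrim j)
  hZ := (image_mono inter_subset_left).trans D.hZ
  Ee := D.Ee
  Ef := D.Ef
  fE := D.fE
  hE := D.hE
  hF := D.hF

open Classical in
/-- the functional of the strip in the cell `k` inside `N`, thickness `c δ` -/
noncomputable def EFN.J {κ ι α β : Type*} [Fintype ι] [Fintype β] {X : Sys κ ι} {Om : Set R3}
    {g : R3 → ℝ≥0∞} {N₁ : Set E3} (D : EFN X Om g N₁ α β) (k : κ) (N : Set E3) (c : ℝ) : ℝ≥0∞ :=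
  ENNReal.ofReal (9 * c^2 * (X.C k).R) *
    (∑ j ∈ Finset.univ.filter fun j => ((X.F j).V ∩ (X.C k).P).Nonempty,
      ENNReal.ofReal (X.F j).ρ * ∑ a ∈ D.rimE j, D.Ee a) +
  ENNReal.ofReal (3 * c * (X.C k).R) *
    ∑ b ∈ Finset.univ.filter fun b => (D.fc b ∩ w2 '' ((X.C k).P ∩ N)).Nonempty, D.Ef b

/-- the bracket of 143's `tube_int`: `N` closed, `t` the thickness -/
noncomputable def SBc {κ ι : Type*} [Fintype ι] (X : Sys κ ι) (δ t : ℝ) (k : κ) (N : Set E3)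
    (v : E3 → ℝ≥0∞) : ℝ≥0∞ :=
  ENNReal.ofReal ((X.C k).R / δ) *
    ((∑ j, ENNReal.ofReal ((X.F j).ρ / δ) *
      ∫⁻ x in (X.C k).P ∩ (X.F j).V ∩ N ∩ cthickening t (X.F j).rim, v x) +
    ∫⁻ x in (X.C k).P ∩ N ∩ (cthickening t X.Z ∪ ⋃ j, cthickening t (X.F j).rim), v x)



lemma evc {P : ℝ → Prop} {c : ℝ} (hc : 0 < c) (h : ∀ᶠ δ in 𝓝[>] (0:ℝ), P δ) :
    ∀ᶠ δ in 𝓝[>] (0:ℝ), P (c * δ) := by
  have h2 : Tendsto (fun δ : ℝ => c * δ) (𝓝[>] 0) (𝓝[>] 0) := by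
    rw [tendsto_nhdsWithin_iff]
    constructor
    · have : Tendsto (fun δ : ℝ => c * δ) (𝓝 0) (𝓝 (c * 0)) :=
        (continuous_const.mul continuous_id).tendsto 0
      rw [mul_zero] at this
      exact this.mono_left nhdsWithin_le_nhds
    · filter_upwards [self_mem_nhdsWithin] with δ hδ
      have : (0:ℝ) < δ := hδ
      show (0:ℝ) < c * δ
      positivity
  exact h2.eventually h

/-- **the limit of the right side of the strip estimate** -/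
theorem rhs_stripc {κ ι α β : Type*} [Fintype κ] [Fintype ι] [Fintype α] [Fintype β] {X : Sys κ ι}
    {Om : Set R3} {g : R3 → ℝ≥0∞} {N₁ : Set E3} (D : EFN X Om g N₁ α β) {k : κ}
    (hC : (X.C k).P ⊆ w2 ⁻¹' Om) {N : Set E3} (hN : IsClosed N) {s₀ : ℝ} (hs₀ : 0 < s₀)
    (hN₁ : nb s₀ ((X.C k).P ∩ N) ⊆ N₁) {c : ℝ} (hc : 0 < c) {ε : ℝ≥0∞} (hε : ε ≠ 0) :
    ∀ᶠ δ in 𝓝[>] (0:ℝ), SBc X δ (c * δ) k N (fun x => g (w2 x)) ≤ D.J k N c + ε := by
  classical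
  have hR : (0:ℝ) ≤ (X.C k).R := (X.C k).R.coe_nonneg
  have hρ : ∀ j, (0:ℝ) ≤ (X.F j).ρ := fun j => (X.F j).ρ.coe_nonneg
  have hε2 : ε / 2 ≠ 0 := by
    rw [Ne, ENNReal.div_eq_zero_iff]; push Not
    exact ⟨hε, ENNReal.ofNat_ne_top⟩
  set FJ := Finset.univ.filter fun j => ((X.F j).V ∩ (X.C k).P).Nonempty with hFJ
  set FB := Finset.univ.filter fun b => (D.fc b ∩ w2 '' ((X.C k).P ∩ N)).Nonempty with hFB
  set a2 : ℝ := 9 * c^2 * (X.C k).R with ha2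
  set a1 : ℝ := 3 * c * (X.C k).R with ha1
  have ha20 : 0 ≤ a2 := by positivity
  have ha10 : 0 ≤ a1 := by positivity
  set W : ℝ≥0∞ := (ENNReal.ofReal a2 * ∑ j ∈ FJ, ENNReal.ofReal (X.F j).ρ *
    ((D.rimE j).card : ℝ≥0∞)) + ENNReal.ofReal a1 * (FB.card : ℝ≥0∞) with hW
  have hWt : W ≠ ∞ := by
    refine ENNReal.add_ne_top.2 ⟨ENNReal.mul_ne_top ENNReal.ofReal_ne_top ?_, ?_⟩
    · exact (ENNReal.sum_lt_top.2 fun j _ => ENNReal.mul_lt_top ENNReal.ofReal_lt_top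
        (ENNReal.natCast_lt_top _)).ne
    · exact ENNReal.mul_ne_top ENNReal.ofReal_ne_top (ENNReal.natCast_ne_top _)
  obtain ⟨β', hβ', hWβ⟩ := exists_small hWt hε2
  set η : ℝ≥0∞ := min β' 1 with hη
  have hη0 : 0 < η := lt_min (pos_iff_ne_zero.2 hβ') one_pos
  have hηt : η ≠ ∞ := ne_top_of_le_ne_top ENNReal.one_ne_top (min_le_right _ _)
  have hWη : W * η ≤ ε / 2 := (mul_le_mul' le_rfl (min_le_left _ _)).trans hWβ
  set SE : ℝ≥0∞ := ∑ a, (D.Ee a + η) with hSE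
  have hSEt : SE ≠ ∞ := (ENNReal.sum_lt_top.2 fun a _ =>
    ENNReal.add_lt_top.2 ⟨(D.fE a).lt_top, hηt.lt_top⟩).ne
  -- the vanishing term
  have hv : ∀ᶠ δ in 𝓝[>] (0:ℝ), ENNReal.ofReal (a2 * δ) * SE ≤ ε / 2 := by
    have h1 : Tendsto (fun δ : ℝ => a2 * δ) (𝓝[>] 0) (𝓝 (a2 * 0)) :=
      ((continuous_const.mul continuous_id).tendsto 0).mono_left nhdsWithin_le_nhds
    have h2 := ENNReal.tendsto_ofReal h1
    rw [mul_zero, ENNReal.ofReal_zero] at h2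
    have h3 := ENNReal.Tendsto.mul_const h2 (Or.inr hSEt)
    rw [zero_mul] at h3
    exact (h3.eventually (gt_mem_nhds (pos_iff_ne_zero.2 hε2))).mono fun _ h => h.le
  have h3c : 0 < 3 * c := by positivity
  have hE3 : ∀ᶠ δ in 𝓝[>] (0:ℝ), ∀ a, ∫⁻ y in Om ∩ thickening (3 * c * δ) (D.eg a), g y ≤
      ENNReal.ofReal ((3 * c * δ)^2) * (D.Ee a + η) :=
    eventually_all.2 fun a => evc h3c (D.hE a η hη0)
  have hF3 : ∀ᶠ δ in 𝓝[>] (0:ℝ), ∀ b, ∫⁻ y in Om ∩ thickening (3 * c * δ) (D.fc b), g y ≤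
      ENNReal.ofReal (3 * c * δ) * (D.Ef b + η) :=
    eventually_all.2 fun b => evc h3c (D.hF b η hη0)
  have hdis : ∀ᶠ δ in 𝓝[>] (0:ℝ), ∀ b, ¬ (D.fc b ∩ w2 '' ((X.C k).P ∩ N)).Nonempty →
      Disjoint (thickening (3 * (c * δ)) (D.fc b)) (w2 '' ((X.C k).P ∩ N)) := by
    refine eventually_all.2 fun b => ?_
    by_cases h : (D.fc b ∩ w2 '' ((X.C k).P ∩ N)).Nonempty
    · exact Eventually.of_forall fun _ h2 => absurd h h2
    · have h1 : Disjoint (D.fc b) (w2 '' ((X.C k).P ∩ N)) := by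
        rwa [Set.disjoint_iff_inter_eq_empty, ← not_nonempty_iff_eq_empty]
      filter_upwards [evc hc (disjoint_small (D.clF b)
        (((isCompact_P (X.C k)).inter_right hN).image w2.continuous) h1)] with δ hδ _
      exact hδ
  have hs : ∀ᶠ δ in 𝓝[>] (0:ℝ), 2 * (c * δ) < s₀ := by
    have h1 : ∀ᶠ δ in 𝓝[>] (0:ℝ), δ < s₀ / (2 * c) :=
      (eventually_lt_nhds (by positivity : (0:ℝ) < s₀ / (2 * c))).filter_mono nhdsWithin_le_nhds
    filter_upwards [h1] with δ hδ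
    rw [lt_div_iff₀ (by positivity)] at hδ
    linarith
  filter_upwards [hv, hE3, hF3, hdis, hs, self_mem_nhdsWithin] with δ h1 h2 h3 h4 hsδ hδ
  have hδ : (0:ℝ) < δ := hδ
  set t := c * δ with ht
  have ht0 : 0 < t := by positivity
  have e3t : 3 * c * δ = 3 * t := by rw [ht]; ring
  rw [e3t] at h2 h3
  clear_value t
  -- points near a set, localised
  have hloc : ∀ (A : Set E3) (x : E3), x ∈ (X.C k).P ∩ N → x ∈ cthickening t A →
      ∃ z ∈ w2 '' (A ∩ N₁), dist (w2 x) z < 3 * t := by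
    intro A x hx hxA
    have h6 := cthickening_subset_thickening' (by positivity : 0 < 3 / 2 * t)
      (by linarith : t < 3 / 2 * t) A hxA
    obtain ⟨y, hy, hxy⟩ := mem_thickening_iff.1 h6
    rw [dist_eq_norm] at hxy
    refine ⟨w2 y, mem_image_of_mem _ ⟨hy, hN₁ ⟨x, hx, ?_⟩⟩, ?_⟩
    · rw [norm_sub_rev]; linarith
    · rw [dist_eq_norm]
      have := w2_lip x y
      linarith
  -- the face terms
  have t1 : ∀ j, ENNReal.ofReal ((X.C k).R / δ) * (ENNReal.ofReal ((X.F j).ρ / δ) *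
      ∫⁻ x in (X.C k).P ∩ (X.F j).V ∩ N ∩ cthickening t (X.F j).rim, g (w2 x)) ≤
      if j ∈ FJ then ENNReal.ofReal a2 * (ENNReal.ofReal (X.F j).ρ *
        ∑ a ∈ D.rimE j, (D.Ee a + η)) else 0 := by
    intro j
    split_ifs with hj
    · have hs : w2 '' ((X.C k).P ∩ (X.F j).V ∩ N ∩ cthickening t (X.F j).rim) ⊆
          ⋃ a ∈ D.rimE j, (Om ∩ thickening (3 * t) (D.eg a)) := by
        rintro _ ⟨x, ⟨⟨⟨hx1, hx2⟩, hx4⟩, hx3⟩, rfl⟩
        obtain ⟨z, hz, hd⟩ := hloc _ x ⟨hx1, hx4⟩ hx3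
        obtain ⟨a, ha, hza⟩ := mem_iUnion₂.1 (D.hrim j hz)
        exact mem_iUnion₂.2 ⟨a, ha, hC hx1, mem_thickening_iff.2 ⟨z, hza, hd⟩⟩
      have h5 : ∫⁻ x in (X.C k).P ∩ (X.F j).V ∩ N ∩ cthickening t (X.F j).rim, g (w2 x) ≤
          ENNReal.ofReal ((3 * t)^2) * ∑ a ∈ D.rimE j, (D.Ee a + η) := by
        rw [int_w2]
        refine (lintegral_mono_set hs).trans ((lint_biUnion_le _ _ _).trans ?_)
        rw [Finset.mul_sum]
        exact Finset.sum_le_sum fun a _ => h2 a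
      refine (mul_le_mul' le_rfl (mul_le_mul' le_rfl h5)).trans (le_of_eq ?_)
      have e : ENNReal.ofReal ((X.C k).R / δ) * ENNReal.ofReal ((X.F j).ρ / δ) *
          ENNReal.ofReal ((3 * t)^2) = ENNReal.ofReal a2 * ENNReal.ofReal (X.F j).ρ := by
        rw [← ENNReal.ofReal_mul (by positivity), ← ENNReal.ofReal_mul (by positivity),
          ← ENNReal.ofReal_mul ha20]
        congr 1
        rw [ht, ha2]
        field_simp
        ring
      calc _ = ENNReal.ofReal ((X.C k).R / δ) * ENNReal.ofReal ((X.F j).ρ / δ) *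
          ENNReal.ofReal ((3 * t)^2) * ∑ a ∈ D.rimE j, (D.Ee a + η) := by ring
        _ = _ := by rw [e, mul_assoc]
    · have h5 : (X.C k).P ∩ (X.F j).V ∩ N ∩ cthickening t (X.F j).rim = ∅ := by
        rw [← not_nonempty_iff_eq_empty]
        rintro ⟨x, ⟨⟨hx1, hx2⟩, -⟩, -⟩
        exact hj (Finset.mem_filter.2 ⟨Finset.mem_univ _, x, hx2, hx1⟩)
      rw [h5, Measure.restrict_empty, lintegral_zero_measure, mul_zero, mul_zero]
  -- the layer term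
  have t2 : ENNReal.ofReal ((X.C k).R / δ) *
      ∫⁻ x in (X.C k).P ∩ N ∩ (cthickening t X.Z ∪ ⋃ j, cthickening t (X.F j).rim),
        g (w2 x) ≤
      ENNReal.ofReal (a2 * δ) * SE + ENNReal.ofReal a1 * ∑ b ∈ FB, (D.Ef b + η) := by
    have hs : w2 '' ((X.C k).P ∩ N ∩
        (cthickening t X.Z ∪ ⋃ j, cthickening t (X.F j).rim)) ⊆
        (⋃ a ∈ (Finset.univ : Finset α), (Om ∩ thickening (3 * t) (D.eg a))) ∪
        ⋃ b ∈ FB, (Om ∩ thickening (3 * t) (D.fc b)) := by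
      rintro _ ⟨x, ⟨⟨hx1, hx4⟩, hx2⟩, rfl⟩
      have hz : ∃ z ∈ (⋃ a, D.eg a) ∪ ⋃ b, D.fc b, dist (w2 x) z < 3 * t := by
        rcases hx2 with h5 | h5
        · obtain ⟨z, hz, hd⟩ := hloc _ x ⟨hx1, hx4⟩ h5
          exact ⟨z, D.hZ hz, hd⟩
        · obtain ⟨j, hj⟩ := mem_iUnion.1 h5
          obtain ⟨z, hz, hd⟩ := hloc _ x ⟨hx1, hx4⟩ hj
          obtain ⟨a, ha, hza⟩ := mem_iUnion₂.1 (D.hrim j hz)
          exact ⟨z, Or.inl (mem_iUnion.2 ⟨a, hza⟩), hd⟩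
      obtain ⟨z, hz | hz, hd⟩ := hz
      · obtain ⟨a, ha⟩ := mem_iUnion.1 hz
        exact Or.inl (mem_iUnion₂.2 ⟨a, Finset.mem_univ _, hC hx1,
          mem_thickening_iff.2 ⟨z, ha, hd⟩⟩)
      · obtain ⟨b, hb⟩ := mem_iUnion.1 hz
        refine Or.inr (mem_iUnion₂.2 ⟨b, ?_, hC hx1, mem_thickening_iff.2 ⟨z, hb, hd⟩⟩)
        refine Finset.mem_filter.2 ⟨Finset.mem_univ _, ?_⟩
        by_contra hcon
        exact Set.disjoint_left.1 (h4 b hcon) (mem_thickening_iff.2 ⟨z, hb, hd⟩)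
          (mem_image_of_mem _ ⟨hx1, hx4⟩)
    have h5 : ∫⁻ x in (X.C k).P ∩ N ∩
        (cthickening t X.Z ∪ ⋃ j, cthickening t (X.F j).rim), g (w2 x) ≤
        ENNReal.ofReal ((3 * t)^2) * SE + ENNReal.ofReal (3 * t) * ∑ b ∈ FB, (D.Ef b + η) := by
      rw [int_w2]
      refine (lintegral_mono_set hs).trans ((lintegral_union_le _ _ _).trans (add_le_add ?_ ?_))
      · refine (lint_biUnion_le _ _ _).trans ?_
        rw [hSE, Finset.mul_sum]
        exact Finset.sum_le_sum fun a _ => h2 a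
      · refine (lint_biUnion_le _ _ _).trans ?_
        rw [Finset.mul_sum]
        exact Finset.sum_le_sum fun b _ => h3 b
    refine (mul_le_mul' le_rfl h5).trans (le_of_eq ?_)
    have e1 : ENNReal.ofReal ((X.C k).R / δ) * ENNReal.ofReal ((3 * t)^2) =
        ENNReal.ofReal (a2 * δ) := by
      rw [← ENNReal.ofReal_mul (by positivity)]
      congr 1
      rw [ht, ha2]; field_simp; ring
    have e2 : ENNReal.ofReal ((X.C k).R / δ) * ENNReal.ofReal (3 * t) = ENNReal.ofReal a1 := by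
      rw [← ENNReal.ofReal_mul (by positivity)]
      congr 1
      rw [ht, ha1]; field_simp
    rw [mul_add, ← mul_assoc, ← mul_assoc, e1, e2]
  have hsum : ∀ (s : Finset α), ∑ a ∈ s, (D.Ee a + η) = (∑ a ∈ s, D.Ee a) + (s.card : ℝ≥0∞) * η := by
    intro s
    rw [Finset.sum_add_distrib, Finset.sum_const, nsmul_eq_mul]
  have hsumB : ∑ b ∈ FB, (D.Ef b + η) = (∑ b ∈ FB, D.Ef b) + (FB.card : ℝ≥0∞) * η := by
    rw [Finset.sum_add_distrib, Finset.sum_const, nsmul_eq_mul]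
  have s1 : ∑ j, ENNReal.ofReal ((X.C k).R / δ) * (ENNReal.ofReal ((X.F j).ρ / δ) *
      ∫⁻ x in (X.C k).P ∩ (X.F j).V ∩ N ∩ cthickening t (X.F j).rim, g (w2 x)) ≤
      ENNReal.ofReal a2 * (∑ j ∈ FJ, ENNReal.ofReal (X.F j).ρ * ∑ a ∈ D.rimE j, D.Ee a) +
        (ENNReal.ofReal a2 * ∑ j ∈ FJ, ENNReal.ofReal (X.F j).ρ *
          ((D.rimE j).card : ℝ≥0∞)) * η := by
    calc _ ≤ ∑ j, (if j ∈ FJ then ENNReal.ofReal a2 * (ENNReal.ofReal (X.F j).ρ *
          ∑ a ∈ D.rimE j, (D.Ee a + η)) else 0) := Finset.sum_le_sum fun j _ => t1 j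
      _ = ∑ j ∈ FJ, ENNReal.ofReal a2 * (ENNReal.ofReal (X.F j).ρ *
          ∑ a ∈ D.rimE j, (D.Ee a + η)) := by
          rw [Finset.sum_ite_mem, Finset.univ_inter]
      _ = _ := by
          rw [Finset.mul_sum, Finset.mul_sum, Finset.sum_mul, ← Finset.sum_add_distrib]
          refine Finset.sum_congr rfl fun j _ => ?_
          rw [hsum]
          ring
  rw [SBc, mul_add, Finset.mul_sum]
  calc _ ≤ (ENNReal.ofReal a2 * (∑ j ∈ FJ, ENNReal.ofReal (X.F j).ρ *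
          ∑ a ∈ D.rimE j, D.Ee a) + (ENNReal.ofReal a2 * ∑ j ∈ FJ, ENNReal.ofReal (X.F j).ρ *
          ((D.rimE j).card : ℝ≥0∞)) * η) +
        (ENNReal.ofReal (a2 * δ) * SE + ENNReal.ofReal a1 * ∑ b ∈ FB, (D.Ef b + η)) :=
        add_le_add s1 t2
    _ = D.J k N c + (W * η + ENNReal.ofReal (a2 * δ) * SE) := by
        rw [hsumB, hW, EFN.J]
        ring
    _ ≤ D.J k N c + (ε / 2 + ε / 2) := add_le_add le_rfl (add_le_add hWη h1)
    _ = _ := by rw [ENNReal.add_halves]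


end Crest.Agent.R096.Str_968
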