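/-
helper296, row 96, COMPOSITE B (622): the instance of 968's localised structure `EFN` of a tiling for
one good position.
-/
import Crest.Agent.R096.Efi3_296
import Crest.Agent.R096.Str5_968

set_option autoImplicit false
set_option linter.unusedSectionVars false
set_option linter.style.longLine false

open Set Metric Filter Topology MeasureTheory
open scoped ENNReal NNReal

namespace Crest.Agent.R096.Efi_296

open Crest.AnalysisR.VecCalc3
open Crest.Agent.R096.Msh_715 (P I Tiling I_sub_P isOpen_I isClosed_P)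
open Crest.Agent.R096.Sq_55 (E3 Sys Face FaceOf w2 IsDp)
open Crest.Agent.R096.Cob_622 (EF)
open Crest.Agent.R096.Str_968 (EFN)
open Crest.Agent.R96.Coarse_538 (seg)
open Crest.Agent.R096.Fce_793 (pt cc continuous_pt)
open Crest.Agent.R096.Slb_296
open Crest.Agent.R96.En10_199 (P3)

noncomputable section



section maps

variable {OmR : Set R3} {ι : Type*} {T : Tiling OmR ι} {W Om : Set R3} {κe κf : Type*}
  {x v : κe → R3} {e : κf → Fin 2 → R3} {xx : κf → R3} {a : R3} {Q : κf → Set (ℝ × ℝ)}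
  {s : Finset ι} {pr : (Te T).Cell → Prop}

/-- the indices of the 1-cells and of the unsqueezed 2-cells -/
theorem exists_maps
    (hce : ∀ y ∈ OmR, T.dim y = 1 → T.cc y ⊆ W → ∃ i, T.cc y = seg x v a i)
    (hs : ∀ k ∈ s, P (T.H k) ⊆ W)
    (hcf : ∀ c ∈ FcS (Te T) s pr, ∃ φ, T.cc (P3 c.pt) = pt (e φ) (a + xx φ) '' Q φ) :
    ∃ (me : EgS (Te T) s → κe) (mf : FcS (Te T) s pr → κf),
      (∀ c, w2 '' c.1.set = seg x v a (me c)) ∧
      ∀ c, w2 '' c.1.set = pt (e (mf c)) (a + xx (mf c)) '' Q (mf c) := by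
  have hme : ∀ c : EgS (Te T) s, ∃ i, w2 '' c.1.set = seg x v a i := by
    rintro ⟨c, hc1, k, hk, hck⟩
    obtain ⟨h1, h2, h3⟩ := image_set T c
    obtain ⟨i, hi⟩ := hce _ h2 (h3.trans hc1) ((image_sub T hck).trans (hs k hk))
    exact ⟨i, h1.trans hi⟩
  have hmf : ∀ c : FcS (Te T) s pr, ∃ φ, w2 '' c.1.set = pt (e φ) (a + xx φ) '' Q φ := by
    rintro ⟨c, hc⟩
    obtain ⟨φ, hφ⟩ := hcf c hc
    exact ⟨φ, (image_set T c).1.trans hφ⟩
  choose me hme using hme
  choose mf hmf using hmf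
  exact ⟨me, mf, hme, hmf⟩




end maps

open Classical in
/-- 968's functional `EFN.J` in terms of the edges of the tile `k` and of the unsqueezed faces which
meet it inside `N` -/
theorem JN_le {Om : Set E3} {ι : Type*} {T : Tiling Om ι} {s : Finset ι} {pr : T.Cell → Prop}
    {X : Sys s (reps T s pr)} {Om' : Set R3} {g : R3 → ℝ≥0∞} {N₁ : Set E3}
    (D : EFN X Om' g N₁ (EgS T s) (FcS T s pr)) {c : ι → E3}
    (hc : ∀ i, c i ∈ I (T.H i)) (hXF : ∀ x : reps T s pr, FaceOf T c (x : E3) (X.F x))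
    (hXP : ∀ k : s, (X.C k).P = P (T.H k)) (hfc : ∀ b, D.fc b = w2 '' (b.1.set ∩ N₁))
    (hrE : ∀ x, D.rimE x = rimS T s (x : E3)) (k : s) (N : Set E3) (t : ℝ) {r : ℝ≥0} {n : ℕ}
    (hr : ∀ x : reps T s pr, (k : ι) ∈ T.at_ (x : E3) → (X.F x).ρ ≤ r)
    (hn : (Finset.univ.filter fun x : reps T s pr => (k : ι) ∈ T.at_ (x : E3)).card ≤ n) :
    D.J k N t ≤ ENNReal.ofReal (9 * t ^ 2 * (X.C k).R) * (((n : ℝ≥0∞) * r) *
        (∑ c ∈ Finset.univ.filter fun c : EgS T s => c.1.set ⊆ P (T.H k), D.Ee c)) +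
      ENNReal.ofReal (3 * t * (X.C k).R) *
        ∑ b ∈ Finset.univ.filter fun b : FcS T s pr =>
          (b.1.set ∩ N₁ ∩ (P (T.H k) ∩ N)).Nonempty, D.Ef b := by
  unfold EFN.J
  gcongr ENNReal.ofReal (9 * t ^ 2 * (X.C k).R) * ?_ + ENNReal.ofReal (3 * t * (X.C k).R) * ?_
  · set S : ℝ≥0∞ := ∑ c ∈ Finset.univ.filter fun c : EgS T s => c.1.set ⊆ P (T.H k), D.Ee c
    have h1 : ∀ x : reps T s pr, ((X.F x).V ∩ (X.C k).P).Nonempty →
        (k : ι) ∈ T.at_ (x : E3) := by
      rintro x ⟨y, hy1, hy2⟩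
      rw [hXP k] at hy2
      exact mem_at_of_V (hXF x) hc (reps_dim x.2).1 hy1 hy2
    calc (∑ j ∈ Finset.univ.filter fun j => ((X.F j).V ∩ (X.C k).P).Nonempty,
        ENNReal.ofReal (X.F j).ρ * ∑ a ∈ D.rimE j, D.Ee a)
        ≤ ∑ j ∈ Finset.univ.filter (fun x : reps T s pr => (k : ι) ∈ T.at_ (x : E3)),
            ENNReal.ofReal (X.F j).ρ * ∑ a ∈ D.rimE j, D.Ee a := by
          apply Finset.sum_le_sum_of_subset
          intro x hx
          rw [Finset.mem_filter] at hx ⊢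
          exact ⟨Finset.mem_univ _, h1 x hx.2⟩
      _ ≤ ∑ j ∈ Finset.univ.filter (fun x : reps T s pr => (k : ι) ∈ T.at_ (x : E3)),
            (r : ℝ≥0∞) * S := by
          apply Finset.sum_le_sum
          intro x hx
          rw [Finset.mem_filter] at hx
          have h2 : ENNReal.ofReal (X.F x).ρ ≤ (r : ℝ≥0∞) := by
            rw [ENNReal.ofReal_coe_nnreal]
            exact_mod_cast hr x hx.2
          refine mul_le_mul' h2 ?_
          rw [hrE x]
          apply Finset.sum_le_sum_of_subset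
          intro a ha
          rw [Finset.mem_filter]
          exact ⟨Finset.mem_univ _, (mem_rimS.1 ha).trans (T.cc_sub_tile hx.2)⟩
      _ ≤ ((n : ℝ≥0∞) * r) * S := by
          rw [Finset.sum_const, nsmul_eq_mul, mul_assoc]
          gcongr
  · apply Finset.sum_le_sum_of_subset
    intro b hb
    rw [Finset.mem_filter] at hb ⊢
    refine ⟨Finset.mem_univ _, ?_⟩
    obtain ⟨y, hy1, hy2⟩ := hb.2
    rw [hfc b] at hy1
    obtain ⟨z, hz, rfl⟩ := hy1
    obtain ⟨z', hz', e'⟩ := hy2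
    have : z' = z := w2.injective e'
    subst this
    exact ⟨z', hz, by rw [← hXP k]; exact hz'⟩

end

end Crest.Agent.R096.Efi_296
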