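import Crest.Agent.R096.Ce1_537
import Crest.Agent.R096.Sq11_55
import Crest.Agent.R096.Sq16_55

-- ▼ part R096/Sqt1_143
section

/-!
Row 96 (S0127), helper143.  SQ-TUBE, part 1: a PL map which is affine on a segment has the same
derivative in the direction of the segment at all nearby points, up to finitely many small balls.
-/

set_option autoImplicit false

open Set Metric Filter Topology

namespace Crest.Agent.R096.Sqt_143

open Crest.Agent.R096.Ce_537

variable {E F G : Type*} [NormedAddCommGroup E] [NormedSpace ℝ E]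
  [NormedAddCommGroup F] [NormedSpace ℝ F] [NormedAddCommGroup G] [NormedSpace ℝ G]

/-- `h` is affine at `x` in the direction `v`, with derivative `w`. -/
def Tv (h : E → F) (x v : E) (w : F) : Prop := ∀ᶠ σ in 𝓝 (0:ℝ), h (x + σ • v) = h x + σ • w

lemma Tv.comp {h : E → F} {k : F → G} {x v : E} {w : F} {z : G} (h1 : Tv h x v w)
    (h2 : Tv k (h x) w z) : Tv (fun y => k (h y)) x v z := by
  filter_upwards [h1, h2] with σ h1 h2
  rw [h1, h2]

lemma Tv.id (x v : E) : Tv (fun y => y) x v v := Eventually.of_forall fun _ => rfl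

lemma Tv.congr {h k : E → F} {x v : E} {w : F} (h1 : Tv h x v w) (he : k =ᶠ[𝓝 x] h) :
    Tv k x v w := by
  have h2 : Tendsto (fun σ : ℝ => x + σ • v) (𝓝 0) (𝓝 x) := by
    have : Continuous fun σ : ℝ => x + σ • v := by fun_prop
    simpa using this.tendsto 0
  filter_upwards [h1, h2.eventually he] with σ h1 h2
  rw [h2, he.eq_of_nhds, h1]

lemma Tv.congr_of_open {h k : E → F} {x v : E} {w : F} {O : Set E} (h1 : Tv h x v w)
    (hO : IsOpen O) (hx : x ∈ O) (he : EqOn k h O) : Tv k x v w :=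
  h1.congr (eventually_of_mem (hO.mem_nhds hx) he)

/-- affine maps -/
lemma map_line (f : E →ᵃ[ℝ] F) (x v : E) (σ : ℝ) : f (x + σ • v) = f x + σ • f.linear v := by
  have h := f.map_vadd x (σ • v)
  rw [vadd_eq_add, vadd_eq_add, map_smul] at h
  rw [add_comm x, h, add_comm]

lemma aff_sub (f : E →ᵃ[ℝ] F) (x y : E) : f x - f y = f.linear (x - y) := by
  have h := f.linearMap_vsub x y
  rw [vsub_eq_sub, vsub_eq_sub] at h
  exact h.symm

/-- all active pieces have the same derivative in the direction `v` -/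
lemma tv_of_sel [FiniteDimensional ℝ E] {h : E → F} {K : Set E} {S : Finset (E →ᵃ[ℝ] F)}
    (hS : ∀ x ∈ K, ∃ f ∈ S, h x = f x) {x v : E} {w : F} (hK : K ∈ 𝓝 x)
    (hc : ContinuousAt h x) (ha : ∀ f ∈ S, h x = f x → f.linear v = w) : Tv h x v w := by
  have h2 : Tendsto (fun σ : ℝ => x + σ • v) (𝓝 0) (𝓝 x) := by
    have : Continuous fun σ : ℝ => x + σ • v := by fun_prop
    simpa using this.tendsto 0
  have h1 : ∀ᶠ y in 𝓝 x, ∀ f ∈ S, h x ≠ f x → h y ≠ f y := by
    rw [eventually_all_finset]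
    intro f _
    by_cases hf : h x = f x
    · exact Eventually.of_forall fun y h => absurd hf h
    · have h3 : ContinuousAt (fun y => h y - f y) x :=
        hc.sub (AffineMap.continuous_of_finiteDimensional f).continuousAt
      have h4 : h x - f x ≠ 0 := sub_ne_zero.2 hf
      filter_upwards [h3.eventually_ne h4] with y hy _
      exact sub_ne_zero.1 hy
  filter_upwards [h2.eventually h1, h2.eventually hK] with σ h3 h4
  obtain ⟨f, hf, hfx⟩ := hS _ h4
  have h5 : h x = f x := by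
    by_contra hne
    exact h3 f hf hne hfx
  rw [hfx, map_line, ← h5, ha f hf h5]

/-- **(AFF)** a nonconstant affine function on `[0,1]` is large off small intervals round finitely
many points -/
lemma aff_large (α β : F) (hβ : β ≠ 0) (K : ℝ) :
    ∃ c : ℝ, 0 < c ∧ ∃ C : ℝ, 0 < C ∧ ∃ X : Finset ℝ, (∀ s ∈ X, s ∈ Icc (0:ℝ) 1) ∧
      ∀ t ∈ Icc (0:ℝ) 1, ∀ u : ℝ, 0 ≤ u → u ≤ c → (∀ s ∈ X, C * u < |t - s|) →
        K * u < ‖α + t • β‖ := by
  have hβn : 0 < ‖β‖ := norm_pos_iff.2 hβ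
  by_cases hz : ∃ s ∈ Icc (0:ℝ) 1, α + s • β = 0
  · obtain ⟨s, hs, hs0⟩ := hz
    refine ⟨1, one_pos, (|K| + 1) / ‖β‖, by positivity, {s}, by simpa using hs, ?_⟩
    intro t ht u hu0 _ hX
    have h4 := hX s (Finset.mem_singleton_self s)
    have h2 : α + t • β = (t - s) • β := by
      have : α = - (s • β) := eq_neg_of_add_eq_zero_left hs0
      rw [this, sub_smul]; abel
    rw [h2, norm_smul, Real.norm_eq_abs]
    have h5 : (|K| + 1) / ‖β‖ * u * ‖β‖ < |t - s| * ‖β‖ := mul_lt_mul_of_pos_right h4 hβn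
    have h6 : (|K| + 1) / ‖β‖ * u * ‖β‖ = (|K| + 1) * u := by field_simp
    have h7 : K * u ≤ (|K| + 1) * u := mul_le_mul_of_nonneg_right
      ((le_abs_self K).trans (by linarith)) hu0
    linarith
  · push Not at hz
    have hcont : ContinuousOn (fun t : ℝ => ‖α + t • β‖) (Icc 0 1) := by fun_prop
    obtain ⟨s, hs, hmin⟩ := isCompact_Icc.exists_isMinOn (nonempty_Icc.2 zero_le_one) hcont
    have hm : 0 < ‖α + s • β‖ := norm_pos_iff.2 (hz s hs)
    set m := ‖α + s • β‖ with hmdef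
    refine ⟨m / (2 * (|K| + 1)), by positivity, 1, one_pos, ∅, by simp, ?_⟩
    intro t ht u hu0 huc _
    have h2 : m ≤ ‖α + t • β‖ := hmin ht
    have h3 : u * (2 * (|K| + 1)) ≤ m := by rwa [le_div_iff₀ (by positivity)] at huc
    have h7 : K * u ≤ (|K| + 1) * u := mul_le_mul_of_nonneg_right
      ((le_abs_self K).trans (by linarith)) hu0
    have h8 : 0 ≤ (|K| + 1) * u := by positivity
    nlinarith

/-- finitely many nonconstant affine functions at once -/
theorem aff_large_fin {J : Type*} (S : Finset J) (α β : J → F) (K : J → ℝ) :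
    ∃ c : ℝ, 0 < c ∧ ∃ C : ℝ, 0 < C ∧ ∃ X : Finset ℝ, (∀ s ∈ X, s ∈ Icc (0:ℝ) 1) ∧
      ∀ t ∈ Icc (0:ℝ) 1, ∀ u : ℝ, 0 ≤ u → u ≤ c → (∀ s ∈ X, C * u < |t - s|) →
        ∀ j ∈ S, β j ≠ 0 → K j * u < ‖α j + t • β j‖ := by
  classical
  induction S using Finset.induction_on with
  | empty => exact ⟨1, one_pos, 1, one_pos, ∅, by simp, fun _ _ _ _ _ _ j hj => by simp at hj⟩
  | @insert f S hf ih =>
    obtain ⟨c1, hc1, C1, hC1, X1, hX1, h1⟩ := ih
    by_cases hβ : β f = 0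
    · refine ⟨c1, hc1, C1, hC1, X1, hX1, ?_⟩
      intro t ht u hu0 hu hX j hj hj0
      rcases Finset.mem_insert.1 hj with rfl | hj
      · exact absurd hβ hj0
      · exact h1 t ht u hu0 hu hX j hj hj0
    obtain ⟨c2, hc2, C2, hC2, X2, hX2, h2⟩ := aff_large (α f) (β f) hβ (K f)
    refine ⟨min c1 c2, lt_min hc1 hc2, max C1 C2, lt_max_of_lt_left hC1, X1 ∪ X2, ?_, ?_⟩
    · intro s hs
      rcases Finset.mem_union.1 hs with h | h
      · exact hX1 s h
      · exact hX2 s h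
    · intro t ht u hu0 hu hX j hj hj0
      rcases Finset.mem_insert.1 hj with rfl | hj
      · exact h2 t ht u hu0 (hu.trans (min_le_right _ _)) (fun s hs =>
          (mul_le_mul_of_nonneg_right (le_max_right _ _) hu0).trans_lt
            (hX s (Finset.mem_union_right _ hs)))
      · exact h1 t ht u hu0 (hu.trans (min_le_left _ _)) (fun s hs =>
          (mul_le_mul_of_nonneg_right (le_max_left _ _) hu0).trans_lt
            (hX s (Finset.mem_union_left _ hs))) j hj hj0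

/-- a common bound for the linear parts -/
lemma exists_opbound [FiniteDimensional ℝ E] (S : Finset (E →ᵃ[ℝ] F)) :
    ∃ M : ℝ, 0 ≤ M ∧ ∀ f ∈ S, ∀ y, ‖f.linear y‖ ≤ M * ‖y‖ := by
  refine ⟨∑ f ∈ S, ‖LinearMap.toContinuousLinearMap f.linear‖,
    Finset.sum_nonneg fun _ _ => norm_nonneg _, fun f hf y => ?_⟩
  have h1 := (LinearMap.toContinuousLinearMap f.linear).le_opNorm y
  have h2 : ‖LinearMap.toContinuousLinearMap f.linear‖ ≤
      ∑ f ∈ S, ‖LinearMap.toContinuousLinearMap f.linear‖ :=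
    Finset.single_le_sum (f := fun f : E →ᵃ[ℝ] F => ‖LinearMap.toContinuousLinearMap f.linear‖)
      (fun _ _ => norm_nonneg _) hf
  exact h1.trans (mul_le_mul_of_nonneg_right h2 (norm_nonneg _))

end Crest.Agent.R096.Sqt_143
end

-- ▼ part R096/Sqt2_143
section

/-!
Row 96 (S0127), helper143.  SQ-TUBE, part 2: the squeezes of the unit cube and of the standard
diamond near a segment of the boundary sphere (of the rim).
-/

set_option autoImplicit false

open Set Metric Filter Topology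

namespace Crest.Agent.R096.Sqt_143

open Crest.Agent.R096.Ce_537 Crest.Agent.R096.Bd_416 Crest.Agent.R96.Hole_348
open Crest.Agent.R096.Sq_55

section
variable {E F : Type*} [NormedAddCommGroup E] [NormedSpace ℝ E]
  [NormedAddCommGroup F] [NormedSpace ℝ F]

lemma Tv.smul {h : E → F} {x v : E} {w : F} (h1 : Tv h x v w) (c : ℝ) :
    Tv h x (c • v) (c • w) := by
  have h2 : Tendsto (fun σ : ℝ => σ * c) (𝓝 0) (𝓝 0) := by
    have : Continuous fun σ : ℝ => σ * c := by fun_prop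
    simpa using this.tendsto 0
  filter_upwards [h2.eventually h1] with σ hσ
  rw [smul_smul, smul_smul, hσ]

end

variable {n : ℕ}

lemma cf_id {r x : ℝ} (h : |x| ≤ 2 * r - 1) : cf r x = x := by
  have h1 := abs_le.1 h
  unfold cf
  rw [max_eq_left (by linarith), max_eq_left (by linarith)]
  ring

lemma cg_id {r x : ℝ} (h : |x| ≤ 2 * r - 1) : cg r x = x := by
  have h1 := abs_le.1 h
  unfold cg
  rw [max_eq_left (by linarith), max_eq_left (by linarith)]
  ring

/-- **the outer shell near a point of the sphere**: directions along the sphere are kept -/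
lemma outer_tv {z0 w : Fin n → ℝ} (hz0 : ‖z0‖ = 1) {u τ : ℝ} (hτ0 : 0 < τ) (hτ : τ ≤ 1/2)
    {z : Fin n → ℝ} (hzu : ‖z - z0‖ ≤ u) (hw : ∀ j, w j ≠ 0 → |z0 j| + 6 * u < 1) :
    Tv (outer τ 1) z w w := by
  have hu0 : 0 ≤ u := (norm_nonneg _).trans hzu
  set r := ‖z‖ with hr
  have hr1 : 1 - u ≤ r := by
    have h2 : ‖z0‖ ≤ ‖z‖ + ‖z - z0‖ := by
      have : z0 = z - (z - z0) := by abel
      calc ‖z0‖ = ‖z - (z - z0)‖ := by rw [← this]
        _ ≤ _ := norm_sub_le _ _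
    linarith
  have hzj : ∀ j, w j ≠ 0 → |z j| < 1 - 5 * u := by
    intro j hj
    have h2 : |z j - z0 j| ≤ u := (norm_le_pi_norm (z - z0) j).trans hzu
    have h3 := hw j hj
    have h4 : |z j| ≤ |z j - z0 j| + |z0 j| := by
      have := abs_add_le (z j - z0 j) (z0 j)
      simpa using this
    linarith
  -- the norm does not change
  have hnb : ∀ᶠ σ : ℝ in 𝓝 0, ∀ j, w j ≠ 0 → |(z + σ • w) j| < 1 - 5 * u := by
    rw [eventually_all]
    intro j
    by_cases hj : w j = 0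
    · exact Eventually.of_forall fun σ h => absurd hj h
    · have hc : Continuous fun σ : ℝ => |(z + σ • w) j| := by
        have : (fun σ : ℝ => |(z + σ • w) j|) = fun σ => |z j + σ * w j| := by
          funext σ; simp
        rw [this]; fun_prop
      have h0 : |(z + (0:ℝ) • w) j| < 1 - 5 * u := by
        have := hzj j hj
        simpa using this
      filter_upwards [hc.continuousAt.eventually_lt continuousAt_const h0] with σ hσ _
      exact hσ
  have hsame : ∀ σ : ℝ, ∀ j, w j = 0 → (z + σ • w) j = z j := by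
    intro σ j hj; simp [hj]
  have hnorm : ∀ σ : ℝ, (∀ j, w j ≠ 0 → |(z + σ • w) j| < 1 - 5 * u) → ‖z + σ • w‖ = r := by
    intro σ hσ
    apply le_antisymm
    · rw [pi_norm_le_iff_of_nonneg (norm_nonneg _)]
      intro j
      by_cases hj : w j = 0
      · rw [hsame σ j hj]; exact norm_le_pi_norm z j
      · have := hσ j hj
        rw [Real.norm_eq_abs]; linarith
    · rw [hr, pi_norm_le_iff_of_nonneg (norm_nonneg _)]
      intro j
      by_cases hj : w j = 0
      · have := norm_le_pi_norm (z + σ • w) j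
        rwa [hsame σ j hj] at this
      · -- the maximum is attained at a coordinate with `w j = 0`
        by_contra hlt
        push Not at hlt
        -- use the coordinate realising ‖z‖
        have hne : Nonempty (Fin n) := ⟨j⟩
        obtain ⟨i, hi⟩ : ∃ i, ‖z i‖ = ‖z‖ := by
          obtain ⟨i, -, hi⟩ := Finset.exists_mem_eq_sup' (Finset.univ_nonempty (α := Fin n))
            (fun i => ‖z i‖)
          refine ⟨i, le_antisymm (norm_le_pi_norm z i) ?_⟩
          rw [pi_norm_le_iff_of_nonneg (norm_nonneg _)]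
          intro k
          rw [← hi]
          exact Finset.le_sup' (fun i => ‖z i‖) (Finset.mem_univ k)
        have hi0 : w i = 0 := by
          by_contra hi0
          have h1 := hzj i hi0
          rw [Real.norm_eq_abs] at hi
          linarith
        have h2 := norm_le_pi_norm (z + σ • w) i
        rw [hsame σ i hi0, hi] at h2
        have h3 := norm_le_pi_norm z j
        linarith
  have key : ∀ σ : ℝ, (∀ j, w j ≠ 0 → |(z + σ • w) j| < 1 - 5 * u) → ∀ j, w j ≠ 0 →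
      outer τ 1 (z + σ • w) j = (z + σ • w) j := by
    intro σ hσ j hj
    have h1 := hσ j hj
    have h2 := hnorm σ hσ
    show cg (1 - τ + (2 * ‖z + σ • w‖ - 1) * τ) (cf ‖z + σ • w‖ ((z + σ • w) j)) = _
    rw [h2]
    rw [cf_id (by linarith), cg_id]
    nlinarith
  filter_upwards [hnb] with σ hσ
  have h0 : ∀ j, w j ≠ 0 → |(z + (0:ℝ) • w) j| < 1 - 5 * u := by
    intro j hj
    have := hzj j hj
    simpa using this
  have key0 := key 0 h0
  funext j
  by_cases hj : w j = 0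
  · have h2 := hnorm σ hσ
    show cg (1 - τ + (2 * ‖z + σ • w‖ - 1) * τ) (cf ‖z + σ • w‖ ((z + σ • w) j)) =
      cg (1 - τ + (2 * ‖z‖ - 1) * τ) (cf ‖z‖ (z j)) + σ • w j
    rw [h2, hsame σ j hj, hj, smul_zero, add_zero]
  · rw [key σ hσ j hj]
    have h3 := key0 j hj
    rw [zero_smul, add_zero] at h3
    show (z + σ • w) j = outer τ 1 z j + (σ • w) j
    rw [h3]; rfl

/-- the outer shell moves points by at most twice the depth -/
lemma outer_sub_le {τ : ℝ} (hτ0 : 0 < τ) (hτ : τ ≤ 1/2) {z : Fin n → ℝ} (h1 : 1/2 ≤ ‖z‖)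
    (h2 : ‖z‖ ≤ 1) : ‖outer τ 1 z - z‖ ≤ 2 * (1 - ‖z‖) := by
  rw [pi_norm_le_iff_of_nonneg (by linarith)]
  intro j
  set r := ‖z‖ with hr
  have hj : |z j| ≤ r := norm_le_pi_norm z j
  have hj' := abs_le.1 hj
  show |cg (1 - τ + (2 * r - 1) * τ) (cf r (z j)) - z j| ≤ _
  have a1 : |cf r (z j) - z j| ≤ 1 - r := by
    unfold cf
    rw [abs_le]
    constructor
    · have b1 : max 0 (-z j + 1 - 2 * r) ≤ 1 - r := max_le (by linarith) (by linarith)
      have b2 := le_max_left 0 (z j + 1 - 2 * r)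
      linarith
    · have b1 : max 0 (z j + 1 - 2 * r) ≤ 1 - r := max_le (by linarith) (by linarith)
      have b2 := le_max_left 0 (-z j + 1 - 2 * r)
      linarith
  have a2 : |cf r (z j)| ≤ 1 := by
    have hne : Nonempty (Fin n) := ⟨j⟩
    have := norm_cf_le h1 h2 (y := z) le_rfl
    exact (norm_le_pi_norm (fun j => cf r (z j)) j).trans this
  set s := 1 - τ + (2 * r - 1) * τ with hs
  have hs1 : 1 - s = 2 * τ * (1 - r) := by rw [hs]; ring
  have hs2 : 1 - s ≤ 1 - r := by rw [hs1]; nlinarith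
  have hs3 : 0 ≤ 1 - s := by rw [hs1]; nlinarith
  have a3 : |cg s (cf r (z j)) - cf r (z j)| ≤ 1 - s := by
    set y := cf r (z j) with hy
    have hy' := abs_le.1 a2
    unfold cg
    rw [abs_le]
    constructor
    · have b1 : max 0 ((y + 1 - 2 * s) / 2) ≤ 1 - s := max_le hs3 (by linarith)
      have b2 := le_max_left 0 ((-y + 1 - 2 * s) / 2)
      linarith
    · have b1 : max 0 ((-y + 1 - 2 * s) / 2) ≤ 1 - s := max_le hs3 (by linarith)
      have b2 := le_max_left 0 ((y + 1 - 2 * s) / 2)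
      linarith
  have e : cg s (cf r (z j)) - z j = (cg s (cf r (z j)) - cf r (z j)) + (cf r (z j) - z j) := by ring
  rw [e]
  refine (abs_add_le _ _).trans ?_
  linarith

/-- the norm on the outer shell -/
lemma norm_outer_one {τ : ℝ} (hτ0 : 0 < τ) (hτ : τ ≤ 1/2) {z : Fin n → ℝ} (h1 : 1/2 ≤ ‖z‖)
    (h2 : ‖z‖ ≤ 1) : ‖outer τ 1 z‖ = 1 - 2 * τ * (1 - ‖z‖) := by
  have := norm_outer (n := n) (τ := τ) (ρ := 1) hτ0 (by linarith) le_rfl h1 h2
  rw [show (outer τ 1 z) = fun j => cg (1 - τ + (2 * ‖z‖ - 1) * τ) (cf ‖z‖ (z j)) from rfl, this]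
  ring

end Crest.Agent.R096.Sqt_143
end

-- ▼ part R096/Sqt3_143
section

/-!
Row 96 (S0127), helper143.  SQ-TUBE, part 3: **the squeeze of a cell near an edge**: for an arbitrary
PL chart the derivative in the direction of the edge is the identity, off finitely many small balls.
-/

set_option autoImplicit false

open Set Metric Filter Topology

namespace Crest.Agent.R096.Sqt_143

open Crest.Agent.R096.Ce_537 Crest.Agent.R096.Bd_416 Crest.Agent.R96.Hole_348
open Crest.Agent.R096.Sq_55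
open scoped NNReal

variable {n : ℕ} {E : Type*} [NormedAddCommGroup E] [NormedSpace ℝ E]

section charts

variable {E' : Type*} [NormedAddCommGroup E'] [NormedSpace ℝ E']
variable {K U : Set E} {K' U' : Set E'} {e : E → E'} {e' : E' → E} {L L' : ℝ≥0}

lemma lip_le {h : E → E'} {K : Set E} {L : ℝ≥0} (hl : LipschitzOnWith L h K) {x y : E}
    (hx : x ∈ K) (hy : y ∈ K) : ‖h x - h y‖ ≤ L * ‖x - y‖ := by
  have := hl.dist_le_mul x hx y hy
  rwa [dist_eq_norm, dist_eq_norm] at this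

/-- two active pieces at nearby points -/
lemma piece_near {h : E → E'} {K : Set E} {L : ℝ≥0} (hl : LipschitzOnWith L h K)
    {f f' : E →ᵃ[ℝ] E'} {M : ℝ} (hM : ∀ y, ‖f.linear y‖ ≤ M * ‖y‖) (hM0 : 0 ≤ M) {x y : E}
    (hx : x ∈ K) (hy : y ∈ K) (hf : h x = f x) (hf' : h y = f' y) {u : ℝ} (hu : ‖x - y‖ ≤ u) :
    ‖f y - f' y‖ ≤ (M + L) * u := by
  have e1 : f y - f' y = (h x - h y) - (f x - f y) := by
    rw [hf, ← hf']
    abel
  rw [e1]
  refine (norm_sub_le _ _).trans ?_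
  have h1 := lip_le hl hx hy
  have h2 : ‖f x - f y‖ ≤ M * ‖x - y‖ := by rw [aff_sub]; exact hM _
  have h3 : (0:ℝ) ≤ L := L.coe_nonneg
  nlinarith [norm_nonneg (x - y)]

end charts

/-- **the squeeze of a cell near an edge** -/
theorem cell_tube [FiniteDimensional ℝ E] {K U : Set E} {e : E → (Fin n → ℝ)}
    {e' : (Fin n → ℝ) → E} {L L' : ℝ≥0}
    (c : Cht K U (closedBall 0 1) (ball 0 1) e e' L L') {a v : E}
    (hK : ∀ t ∈ Icc (0:ℝ) 1, a + t • v ∈ K) (hU : ∀ t ∈ Icc (0:ℝ) 1, a + t • v ∉ U) :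
    ∃ c0 : ℝ, 0 < c0 ∧ ∃ C : ℝ, 0 < C ∧ ∃ X : Finset ℝ, (∀ s ∈ X, s ∈ Icc (0:ℝ) 1) ∧
      ∀ τ : ℝ, 0 < τ → τ ≤ 1/2 → ∀ x ∈ U, ∀ t ∈ Icc (0:ℝ) 1, ∀ u ≤ c0, ‖x - (a + t • v)‖ ≤ u →
        (∀ s ∈ X, C * u < |t - s|) →
        1/2 < ‖e x‖ ∧ Tv (fun y => e' (outer τ 1 (e y))) x v v := by
  classical
  obtain ⟨ce, S, hS⟩ := c.pl
  obtain ⟨ce', S', hS'⟩ := c.pl'
  obtain ⟨M, hM0, hM⟩ := exists_opbound S
  obtain ⟨M', hM'0, hM'⟩ := exists_opbound S'
  have hL0 : (0:ℝ) ≤ L := L.coe_nonneg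
  have hL'0 : (0:ℝ) ≤ L' := L'.coe_nonneg
  -- the three families
  obtain ⟨c1, hc1, C1, hC1, X1, hX1, h1⟩ := aff_large_fin (S ×ˢ S)
    (fun p => p.1 a - p.2 a) (fun p => p.1.linear v - p.2.linear v) (fun _ => M + L)
  obtain ⟨c2, hc2, C2, hC2, X2, hX2, h2⟩ := aff_large_fin (F := ℝ)
    (S ×ˢ ((Finset.univ : Finset (Fin n)) ×ˢ ({1, -1} : Finset ℝ)))
    (fun p => 1 - p.2.2 * p.1 a p.2.1) (fun p => - (p.2.2 * p.1.linear v p.2.1))
    (fun _ => 6 * (L:ℝ))
  obtain ⟨c3, hc3, C3, hC3, X3, hX3, h3⟩ := aff_large_fin (S ×ˢ S')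
    (fun p => p.2 (p.1 a) - a) (fun p => p.2.linear (p.1.linear v) - v)
    (fun _ => (M' + L') * (3 * (L:ℝ)))
  refine ⟨min (min c1 c2) (min c3 (1 / (4 * ((L:ℝ) + 1)))), ?_, max C1 (max C2 C3),
    lt_max_of_lt_left hC1, X1 ∪ (X2 ∪ X3), ?_, ?_⟩
  · exact lt_min (lt_min hc1 hc2) (lt_min hc3 (by positivity))
  · intro s hs
    rcases Finset.mem_union.1 hs with h | h
    · exact hX1 s h
    · rcases Finset.mem_union.1 h with h | h
      · exact hX2 s h
      · exact hX3 s h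
  intro τ hτ0 hτ x hx t ht u hu hxu hX
  have hu0 : 0 ≤ u := (norm_nonneg _).trans hxu
  have hu1 : u ≤ c1 := hu.trans ((min_le_left _ _).trans (min_le_left _ _))
  have hu2 : u ≤ c2 := hu.trans ((min_le_left _ _).trans (min_le_right _ _))
  have hu3 : u ≤ c3 := hu.trans ((min_le_right _ _).trans (min_le_left _ _))
  have hu4 : u ≤ 1 / (4 * ((L:ℝ) + 1)) := hu.trans ((min_le_right _ _).trans (min_le_right _ _))
  have hY1 : ∀ s ∈ X1, C1 * u < |t - s| := fun s hs =>
    (mul_le_mul_of_nonneg_right (le_max_left _ _) hu0).trans_lt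
      (hX s (Finset.mem_union_left _ hs))
  have hY2 : ∀ s ∈ X2, C2 * u < |t - s| := fun s hs =>
    (mul_le_mul_of_nonneg_right ((le_max_left _ _).trans (le_max_right _ _)) hu0).trans_lt
      (hX s (Finset.mem_union_right _ (Finset.mem_union_left _ hs)))
  have hY3 : ∀ s ∈ X3, C3 * u < |t - s| := fun s hs =>
    (mul_le_mul_of_nonneg_right ((le_max_right _ _).trans (le_max_right _ _)) hu0).trans_lt
      (hX s (Finset.mem_union_right _ (Finset.mem_union_right _ hs)))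
  set y := a + t • v with hy
  have hyK : y ∈ K := hK t ht
  have hyU : y ∉ U := hU t ht
  have hxK : x ∈ K := c.sub hx
  obtain ⟨g, hg, hgy⟩ := hS y hyK
  set w := g.linear v with hw
  -- the norm of `e y`
  have hey1 : ‖e y‖ ≤ 1 := by simpa using c.maps hyK
  have hey : ‖e y‖ = 1 := by
    refine le_antisymm hey1 (not_lt.1 fun h => hyU ?_)
    exact (c.mem y hyK).1 (by simpa using h)
  have hexy : ‖e x - e y‖ ≤ L * u :=
    (lip_le c.lip hxK hyK).trans (mul_le_mul_of_nonneg_left hxu hL0)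
  have hLu : (L:ℝ) * u ≤ 1/4 := by
    rw [le_div_iff₀ (by positivity)] at hu4
    nlinarith
  have hex1 : ‖e x‖ < 1 := by simpa using c.eU hx
  have hex2 : 1 - L * u ≤ ‖e x‖ := by
    have : ‖e y‖ ≤ ‖e x‖ + ‖e x - e y‖ := by
      calc ‖e y‖ = ‖e x - (e x - e y)‖ := by congr 1; abel
        _ ≤ _ := norm_sub_le _ _
    linarith
  have hex3 : 1/2 < ‖e x‖ := by linarith
  refine ⟨hex3, ?_⟩
  -- step 1
  have T1 : Tv e x v w := by
    refine tv_of_sel hS (mem_of_superset (c.opU.mem_nhds hx) c.sub)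
      (ce.continuousAt (mem_of_superset (c.opU.mem_nhds hx) c.sub)) ?_
    intro f hf hfx
    by_contra hne
    have h4 := h1 t ht u hu0 hu1 hY1 (f, g) (Finset.mem_product.2 ⟨hf, hg⟩) (sub_ne_zero.2 hne)
    have h5 := piece_near c.lip (hM f hf) hM0 hxK hyK hfx hgy hxu
    have e1 : (f a - g a) + t • (f.linear v - g.linear v) = f y - g y := by
      rw [hy, map_line, map_line, smul_sub]; abel
    have h6 : ‖(f a - g a) + t • (f.linear v - g.linear v)‖ ≤ (M + L) * u := by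
      rw [e1]; exact h5
    exact absurd h4 (not_lt.2 h6)
  -- step 2
  have T2 : Tv (outer τ 1) (e x) w w := by
    refine outer_tv hey hτ0 hτ hexy ?_
    intro j hj
    have key : ∀ s : ℝ, s ∈ ({1, -1} : Finset ℝ) → 6 * (L:ℝ) * u < |1 - s * e y j| := by
      intro s hs
      have hs0 : s ≠ 0 := by
        rcases Finset.mem_insert.1 hs with rfl | hs
        · norm_num
        · rw [Finset.mem_singleton.1 hs]; norm_num
      have h4 := h2 t ht u hu0 hu2 hY2 (g, (j, s)) (Finset.mem_product.2 ⟨hg,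
        Finset.mem_product.2 ⟨Finset.mem_univ _, hs⟩⟩) (neg_ne_zero.2 (mul_ne_zero hs0 hj))
      have e1 : (1 - s * g a j) + t • (-(s * g.linear v j)) = 1 - s * e y j := by
        rw [hgy, hy, map_line]
        simp only [Pi.add_apply, Pi.smul_apply, smul_eq_mul]
        ring
      have h5 : 6 * (L:ℝ) * u < ‖(1 - s * g a j) + t • (-(s * g.linear v j))‖ := h4
      rwa [e1, Real.norm_eq_abs] at h5
    have k1 := key 1 (by simp)
    have k2 := key (-1) (by simp)
    have hj1 : |e y j| ≤ 1 := (norm_le_pi_norm (e y) j).trans hey1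
    have hj2 := abs_le.1 hj1
    rw [abs_of_nonneg (by linarith)] at k1
    rw [abs_of_nonneg (by linarith)] at k2
    have : |e y j| < 1 - 6 * L * u := by rw [abs_lt]; constructor <;> linarith
    linarith
  -- step 3
  set z' := outer τ 1 (e x) with hz'
  have hz'1 : ‖z'‖ < 1 := by
    rw [hz', norm_outer_one hτ0 hτ hex3.le hex1.le]
    nlinarith
  have hz'y : ‖z' - e y‖ ≤ 3 * (L:ℝ) * u := by
    have h4 := outer_sub_le hτ0 hτ hex3.le hex1.le
    have e1 : z' - e y = (z' - e x) + (e x - e y) := by abel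
    rw [e1]
    refine (norm_add_le _ _).trans ?_
    linarith
  have hzK : z' ∈ closedBall (0 : Fin n → ℝ) 1 := by simpa using hz'1.le
  have hyK' : e y ∈ closedBall (0 : Fin n → ℝ) 1 := c.maps hyK
  have T3 : Tv e' z' w v := by
    have hnb : closedBall (0 : Fin n → ℝ) 1 ∈ 𝓝 z' :=
      mem_of_superset (isOpen_ball.mem_nhds (by simpa using hz'1)) ball_subset_closedBall
    refine tv_of_sel hS' hnb (ce'.continuousAt hnb) ?_
    intro k hk hkz
    by_contra hne
    have h4 := h3 t ht u hu0 hu3 hY3 (g, k) (Finset.mem_product.2 ⟨hg, hk⟩) (sub_ne_zero.2 hne)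
    obtain ⟨k', hk', hk'y⟩ := hS' (e y) hyK'
    have h5 := piece_near c.lip' (hM' k hk) hM'0 hzK hyK' hkz hk'y hz'y
    have e1 : (k (g a) - a) + t • (k.linear (g.linear v) - v) = k (e y) - k' (e y) := by
      rw [← hk'y, c.inv y hyK, hgy, hy, map_line, map_line, smul_sub]; abel
    have h6 : ‖(k (g a) - a) + t • (k.linear (g.linear v) - v)‖ ≤ (M' + L') * (3 * (L:ℝ)) * u := by
      rw [e1]; linarith
    exact absurd h4 (not_lt.2 h6)
  exact (T1.comp (k := outer τ 1) T2).comp (k := e') T3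

end Crest.Agent.R096.Sqt_143
end

-- ▼ part R096/Sqt4_143
section

/-!
Row 96 (S0127), helper143.  SQ-TUBE, part 4: **the squeeze of a face near an edge**.
-/

set_option autoImplicit false

open Set Metric Filter Topology

namespace Crest.Agent.R096.Sqt_143

open Crest.Agent.R096.Ce_537 Crest.Agent.R096.Bd_416 Crest.Agent.R96.Hole_348
open Crest.Agent.R096.Sq_55
open scoped NNReal

/-- the last two coordinates -/
def tl (z : E3) : Fin 2 → ℝ := fun j => z j.succ

lemma wid_eq (z : E3) : wid z = ‖tl z‖ := rfl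


/-- the squeeze of the diamond on its outer shell -/
noncomputable def fo (τ : ℝ) (z : E3) : E3 :=
  Fin.cons (z 0) ((1 - |z 0|) • outer τ 1 ((1 - |z 0|)⁻¹ • tl z))

lemma fo_zero (τ : ℝ) (z : E3) : fo τ z 0 = z 0 := rfl

lemma tl_fo (τ : ℝ) (z : E3) : tl (fo τ z) = (1 - |z 0|) • outer τ 1 ((1 - |z 0|)⁻¹ • tl z) := rfl


/-- `fo` is the squeeze of 55 on the outer shell of the diamond -/
lemma T_eq_fo {q τ : ℝ} {N : ℕ} {z : E3} (h0 : |z 0| < 1)
    (h1 : (1/2) * (1 - |z 0|) ≤ wid z) (h2 : |z 0| + wid z ≤ 1) :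
    f0.T (cgf q τ (N+1)) z = fo τ z := by
  have ha : 0 < 1 - |z 0| := by linarith
  have e1 : f0.dn z = (z 0, tl z) := by
    refine Prod.ext (f0_fst z) (f0_snd z)
  have hn : ‖(1 - |z 0|)⁻¹ • tl z‖ = wid z / (1 - |z 0|) := by
    rw [norm_smul, norm_inv, Real.norm_eq_abs, abs_of_pos ha, wid_eq]
    field_simp
  have hn1 : ‖(1 - |z 0|)⁻¹ • tl z‖ ≤ 1 := by
    rw [hn, div_le_one ha]; linarith
  have hn2 : 1/2 ≤ ‖(1 - |z 0|)⁻¹ • tl z‖ := by
    rw [hn, le_div_iff₀ ha]; linarith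
  have e2 : cgf q τ (N+1) ((1 - |z 0|)⁻¹ • tl z) = outer τ 1 ((1 - |z 0|)⁻¹ • tl z) := by
    rw [cgf_in hn1, gf_outer hn2]
  have e3 : f0.dn (f0.T (cgf q τ (N+1)) z) = f0.dn (fo τ z) := by
    rw [f0.dn_T, e1, dia_of_lt (by simpa using h0)]
    refine Prod.ext ?_ ?_
    · show z 0 = (f0.dn (fo τ z)).1
      rw [f0_fst]; rfl
    · show (1 - |z 0|) • cgf q τ (N+1) ((1 - |z 0|)⁻¹ • tl z) = (f0.dn (fo τ z)).2
      rw [f0_snd, e2]; rfl
  have := congrArg f0.up e3
  rwa [f0.up_dn, f0.up_dn] at this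



/-- `fo` moves little -/
lemma fo_sub_le {z : E3} {τ : ℝ} (hτ0 : 0 < τ) (hτ : τ ≤ 1/2) (h0 : |z 0| < 1)
    (h1 : (1/2) * (1 - |z 0|) ≤ wid z) (h2 : |z 0| + wid z ≤ 1) :
    ‖fo τ z - z‖ ≤ 2 * (1 - |z 0| - wid z) ∧
      wid (fo τ z) = (1 - |z 0|) - 2 * τ * (1 - |z 0| - wid z) := by
  have ha : 0 < 1 - |z 0| := by linarith
  have hn : ‖(1 - |z 0|)⁻¹ • tl z‖ = wid z / (1 - |z 0|) := by
    rw [norm_smul, norm_inv, Real.norm_eq_abs, abs_of_pos ha, wid_eq]
    field_simp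
  have hn1 : ‖(1 - |z 0|)⁻¹ • tl z‖ ≤ 1 := by
    rw [hn, div_le_one ha]; linarith
  have hn2 : 1/2 ≤ ‖(1 - |z 0|)⁻¹ • tl z‖ := by
    rw [hn, le_div_iff₀ ha]; linarith
  have k1 := outer_sub_le hτ0 hτ hn2 hn1
  have k2 := norm_outer_one hτ0 hτ hn2 hn1
  constructor
  · have e1 : tl (fo τ z) - tl z =
        (1 - |z 0|) • (outer τ 1 ((1 - |z 0|)⁻¹ • tl z) - (1 - |z 0|)⁻¹ • tl z) := by
      rw [tl_fo, smul_sub, smul_smul, mul_inv_cancel₀ ha.ne', one_smul]
    have h3 : ‖tl (fo τ z) - tl z‖ ≤ 2 * (1 - |z 0| - wid z) := by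
      rw [e1, norm_smul, Real.norm_eq_abs, abs_of_pos ha]
      calc (1 - |z 0|) * ‖outer τ 1 ((1 - |z 0|)⁻¹ • tl z) - (1 - |z 0|)⁻¹ • tl z‖
          ≤ (1 - |z 0|) * (2 * (1 - wid z / (1 - |z 0|))) := by
            rw [← hn]; exact mul_le_mul_of_nonneg_left k1 ha.le
        _ = 2 * (1 - |z 0| - wid z) := by field_simp
    rw [pi_norm_le_iff_of_nonneg (by linarith)]
    intro j
    refine Fin.cases ?_ (fun i => ?_) j
    · show ‖fo τ z 0 - z 0‖ ≤ _
      rw [fo_zero, sub_self, norm_zero]; linarith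
    · exact (norm_le_pi_norm (tl (fo τ z) - tl z) i).trans h3
  · rw [wid_eq, tl_fo, norm_smul, Real.norm_eq_abs, abs_of_pos ha, k2, hn]
    field_simp


variable {E : Type*} [NormedAddCommGroup E] [NormedSpace ℝ E]


end Crest.Agent.R096.Sqt_143
end

-- ▼ part R096/Sqt5_143

/-!
Row 96 (S0127), helper143.  SQ-TUBE, part 5: **the derivative of `chi` along an edge** for 55's
systems: `chi (x + σ v) = chi x + σ v` for almost all `x` near the edge, off finitely many small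
balls.
-/

set_option autoImplicit false

open Set Metric Filter Topology MeasureTheory

namespace Crest.Agent.R096.Sqt_143

open Crest.Agent.R096.Ce_537 Crest.Agent.R096.Bd_416 Crest.Agent.R96.Hole_348
open Crest.Agent.R096.Sq_55
open scoped NNReal ENNReal

/-- the edge `a + [0,1] v` lies in the boundary of the cell -/
def OnC (C : Cell) (a v : E3) : Prop := ∀ t ∈ Icc (0:ℝ) 1, a + t • v ∈ C.P ∧ a + t • v ∉ C.U

/-- the edge lies in the rim of the face -/
def OnF (F : Face) (a v : E3) : Prop := ∀ t ∈ Icc (0:ℝ) 1,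
  a + t • v ∈ F.K ∧ F.e (a + t • v) 0 = 0 ∧ wid (F.e (a + t • v)) = 1

/-- the squeezes of the cell keep the direction `v` at all points at distance `≤ u ≤ u0` from the
edge, up to `n` intervals of length `2 β u` of parameters -/
def CellT (C : Cell) (a v : E3) (u0 β : ℝ) (n : ℕ) : Prop :=
  ∃ X : Finset ℝ, X.card ≤ n ∧ (∀ s ∈ X, s ∈ Icc (0:ℝ) 1) ∧
    ∀ τ : ℝ, 0 < τ → τ ≤ 1/2 → ∀ x ∈ C.U, ∀ t ∈ Icc (0:ℝ) 1, ∀ u ≤ u0, ‖x - (a + t • v)‖ ≤ u →
      (∀ s ∈ X, β * u < |t - s|) →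
      1/2 < ‖C.e x‖ ∧ Tv (fun y => C.e' (outer τ 1 (C.e y))) x v v

/-- the same for a face -/
def FaceT (F : Face) (a v : E3) (u0 β : ℝ) (n : ℕ) : Prop :=
  ∃ X : Finset ℝ, X.card ≤ n ∧ (∀ s ∈ X, s ∈ Icc (0:ℝ) 1) ∧
    ∀ τ : ℝ, 0 < τ → τ ≤ 1/2 → ∀ x ∈ F.V, ∀ t ∈ Icc (0:ℝ) 1, ∀ u ≤ u0, ‖x - (a + t • v)‖ ≤ u →
      (∀ s ∈ X, β * u < |t - s|) →
      (1/2) * (1 - |F.e x 0|) < wid (F.e x) ∧ Tv (fun y => F.e' (fo τ (F.e y))) x v v



lemma CellT.mono {C : Cell} {a v : E3} {u0 β u0' β' : ℝ} {n n' : ℕ} (h : CellT C a v u0 β n)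
    (h1 : u0' ≤ u0) (h2 : β ≤ β') (h3 : n ≤ n') : CellT C a v u0' β' n' := by
  obtain ⟨X, hX1, hX2, key⟩ := h
  refine ⟨X, hX1.trans h3, hX2, fun τ a1 a2 x hx t ht u hu hxu hX => ?_⟩
  exact key τ a1 a2 x hx t ht u (hu.trans h1) hxu fun s hs =>
    (mul_le_mul_of_nonneg_right h2 ((norm_nonneg _).trans hxu)).trans_lt (hX s hs)

lemma FaceT.mono {F : Face} {a v : E3} {u0 β u0' β' : ℝ} {n n' : ℕ} (h : FaceT F a v u0 β n)
    (h1 : u0' ≤ u0) (h2 : β ≤ β') (h3 : n ≤ n') : FaceT F a v u0' β' n' := by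
  obtain ⟨X, hX1, hX2, key⟩ := h
  refine ⟨X, hX1.trans h3, hX2, fun τ a1 a2 x hx t ht u hu hxu hX => ?_⟩
  exact key τ a1 a2 x hx t ht u (hu.trans h1) hxu fun s hs =>
    (mul_le_mul_of_nonneg_right h2 ((norm_nonneg _).trans hxu)).trans_lt (hX s hs)

/-! ### how far points are moved -/

/-- the squeeze of the cube moves points by at most four times their depth -/
lemma cgf_sub_le {d : ℕ} {q τ : ℝ} {N : ℕ} (hP : GPar q τ 1) {z : Fin d → ℝ} (hz : ‖z‖ ≤ 1) :
    ‖cgf q τ (N+1) z - z‖ ≤ 4 * (1 - ‖z‖) := by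
  have ht2 : τ ≤ 1/2 := by have := hP.half_le; linarith
  rcases le_total (1/2) ‖z‖ with h | h
  · rw [cgf_in hz, gf_outer h]
    have := outer_sub_le hP.t0 ht2 h hz
    linarith
  · have h1 : ‖cgf q τ (N+1) z‖ ≤ 1 := (sg_cgf hP).le hz
    have h2 := norm_sub_le (cgf q τ (N+1) z) z
    linarith

lemma Cell.move {C : Cell} {q τ : ℝ} {N : ℕ} (hP : GPar q τ 1) {x y : E3} (hx : x ∈ C.P)
    (hy : y ∈ C.P) (hyU : y ∉ C.U) :
    ‖C.e' (cgf q τ (N+1) (C.e x)) - x‖ ≤ 4 * ((C.M:ℝ) * C.M) * ‖x - y‖ := by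
  have hM := C.M_pos
  have hR := C.R_pos
  have hz : ‖C.e x‖ ≤ 1 := mem_closedBall_zero_iff.1 (C.cht.maps hx)
  have hy1 : 1 ≤ ‖C.e y‖ := by
    by_contra hlt
    exact hyU ((C.cht.mem y hy).1 (mem_ball_zero_iff.2 (not_le.1 hlt)))
  have h1 := cgf_sub_le (N := N) hP hz
  have h2 : 1 - ‖C.e x‖ ≤ (C.M / C.R : ℝ) * ‖x - y‖ := by
    have h3 := lip_le C.cht.lip hx hy
    push_cast at h3
    have h4 : ‖C.e y‖ ≤ ‖C.e x‖ + ‖C.e x - C.e y‖ := by
      calc ‖C.e y‖ = ‖C.e x - (C.e x - C.e y)‖ := by congr 1; abel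
        _ ≤ _ := norm_sub_le _ _
    linarith
  have hzK : C.e x ∈ closedBall (0:E3) 1 := C.cht.maps hx
  have hz' : cgf q τ (N+1) (C.e x) ∈ closedBall (0:E3) 1 := by
    rw [mem_closedBall_zero_iff]; exact (sg_cgf hP).le hz
  have h5 := lip_le C.cht.lip' hz' hzK
  rw [C.cht.inv x hx] at h5
  push_cast at h5
  refine h5.trans ?_
  calc (C.M * C.R : ℝ) * ‖cgf q τ (N+1) (C.e x) - C.e x‖
      ≤ (C.M * C.R : ℝ) * (4 * ((C.M / C.R : ℝ) * ‖x - y‖)) := by
        apply mul_le_mul_of_nonneg_left _ (by positivity)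
        linarith
    _ = 4 * ((C.M:ℝ) * C.M) * ‖x - y‖ := by field_simp

variable {κ ι : Type*} [Fintype κ] [Fintype ι] {X : Sys κ ι} {p δ : ℝ}

lemma Y_move (h : X.Adm p δ) (N : ℕ) {k : κ} {x y : E3} (hx : x ∈ (X.C k).U) (hy : y ∈ (X.C k).P)
    (hyU : y ∉ (X.C k).U) :
    ‖Sys.Y h (N+1) x - x‖ ≤ 4 * (((X.C k).M:ℝ) * (X.C k).M) * ‖x - y‖ := by
  rw [Sys.Y_in h (N+1) hx]
  exact Cell.move (Sys.gC h k) ((X.C k).cht.sub hx) hy hyU

/-! ### the main statement -/

/-- **an edge of a system**: every cell (face) contains the edge in its boundary (rim) or meets the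
tube of the edge only near the end points. -/
structure Edge (X : Sys κ ι) (a v : E3) (u0 β : ℝ) (n : ℕ) : Prop where
  pos : 0 < u0
  βpos : 0 < β
  cell : ∀ k, (OnC (X.C k) a v ∧ CellT (X.C k) a v u0 β n) ∨
    ∀ x ∈ (X.C k).P, ∀ t ∈ Icc (0:ℝ) 1, ∀ u ≤ u0, ‖x - (a + t • v)‖ ≤ u →
      (t ≤ β * u ∧ a ∈ (X.C k).P ∧ a ∉ (X.C k).U) ∨
      (1 - t ≤ β * u ∧ a + v ∈ (X.C k).P ∧ a + v ∉ (X.C k).U)
  face : ∀ j, (OnF (X.F j) a v ∧ FaceT (X.F j) a v u0 β n) ∨
    ∀ x ∈ (X.F j).K, ∀ t ∈ Icc (0:ℝ) 1, ∀ u ≤ u0, ‖x - (a + t • v)‖ ≤ u →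
      (t ≤ β * u ∧ a ∈ (X.F j).rim) ∨ (1 - t ≤ β * u ∧ a + v ∈ (X.F j).rim)

lemma Tv.of_id {h : E3 → E3} {x v : E3} (he : ∀ᶠ y in 𝓝 x, h y = y) : Tv h x v v :=
  (Tv.id x v).congr he

lemma ncard_filter {α : Type*} [Fintype α] (P : α → Prop) [DecidablePred P] :
    {a | P a}.ncard = (Finset.univ.filter P).card := by
  rw [← Set.ncard_coe_finset]
  congr 1
  ext a
  simp

/-- **`chi` keeps the direction of the edge.** -/
theorem chi_tv {a v : E3} {u0 β : ℝ} {n : ℕ} (hE : Edge X a v u0 β n) {m : ℝ} (hm : 1 ≤ m)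
    (hmC : ∀ k, OnC (X.C k) a v → ((X.C k).M : ℝ) ≤ m) :
    ∃ W : Finset ℝ, W.card ≤ ({k | OnC (X.C k) a v}.ncard + {j | OnF (X.F j) a v}.ncard) * n + 2 ∧
      (∀ s ∈ W, s ∈ Icc (0:ℝ) 1) ∧
      ∀ (δ p : ℝ) (h : X.Adm p δ) (N₁ N₂ : ℕ), ∀ᵐ x : E3, ∀ t ∈ Icc (0:ℝ) 1,
        ∀ u : ℝ, (1 + 4 * (m * m)) * u ≤ u0 → ‖x - (a + t • v)‖ ≤ u →
        (∀ s ∈ W, (β * (1 + 4 * (m * m))) * u < |t - s|) →
        Tv (fun y => Sys.chi h (N₁+1) (N₂+1) y) x v v := by
  classical
  have hXC : ∀ k, ∃ Wk : Finset ℝ, Wk.card ≤ (if OnC (X.C k) a v then n else 0) ∧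
      (∀ s ∈ Wk, s ∈ Icc (0:ℝ) 1) ∧
      (OnC (X.C k) a v ∧ CellT (X.C k) a v u0 β n → ∀ τ : ℝ, 0 < τ → τ ≤ 1/2 →
      ∀ x ∈ (X.C k).U, ∀ t ∈ Icc (0:ℝ) 1, ∀ u ≤ u0, ‖x - (a + t • v)‖ ≤ u →
      (∀ s ∈ Wk, β * u < |t - s|) →
      1/2 < ‖(X.C k).e x‖ ∧ Tv (fun y => (X.C k).e' (outer τ 1 ((X.C k).e y))) x v v) := by
    intro k
    by_cases hk : OnC (X.C k) a v ∧ CellT (X.C k) a v u0 β n
    · obtain ⟨W, h1, h2, h3⟩ := hk.2
      exact ⟨W, by rw [if_pos hk.1]; exact h1, h2, fun _ => h3⟩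
    · exact ⟨∅, by simp, by simp, fun h => absurd h hk⟩
  have hXF : ∀ j, ∃ Wj : Finset ℝ, Wj.card ≤ (if OnF (X.F j) a v then n else 0) ∧
      (∀ s ∈ Wj, s ∈ Icc (0:ℝ) 1) ∧
      (OnF (X.F j) a v ∧ FaceT (X.F j) a v u0 β n → ∀ τ : ℝ, 0 < τ → τ ≤ 1/2 →
      ∀ x ∈ (X.F j).V, ∀ t ∈ Icc (0:ℝ) 1, ∀ u ≤ u0, ‖x - (a + t • v)‖ ≤ u →
      (∀ s ∈ Wj, β * u < |t - s|) →
      (1/2) * (1 - |(X.F j).e x 0|) < wid ((X.F j).e x) ∧
        Tv (fun y => (X.F j).e' (fo τ ((X.F j).e y))) x v v) := by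
    intro j
    by_cases hj : OnF (X.F j) a v ∧ FaceT (X.F j) a v u0 β n
    · obtain ⟨W, h1, h2, h3⟩ := hj.2
      exact ⟨W, by rw [if_pos hj.1]; exact h1, h2, fun _ => h3⟩
    · exact ⟨∅, by simp, by simp, fun h => absurd h hj⟩
  choose WC c1 c2 c3 using hXC
  choose WF f1 f2 f3 using hXF
  refine ⟨(Finset.univ.biUnion WC ∪ Finset.univ.biUnion WF) ∪ {0, 1}, ?_, ?_, ?_⟩
  · refine (Finset.card_union_le _ _).trans (add_le_add ((Finset.card_union_le _ _).trans ?_)
      (Finset.card_le_two))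
    rw [add_mul]
    refine add_le_add ?_ ?_
    · refine Finset.card_biUnion_le.trans ((Finset.sum_le_sum fun k _ => c1 k).trans ?_)
      rw [← Finset.sum_filter, Finset.sum_const, smul_eq_mul, ncard_filter]
    · refine Finset.card_biUnion_le.trans ((Finset.sum_le_sum fun k _ => f1 k).trans ?_)
      rw [← Finset.sum_filter, Finset.sum_const, smul_eq_mul, ncard_filter]
  · intro s hs
    rcases Finset.mem_union.1 hs with hs | hs
    · rcases Finset.mem_union.1 hs with hs | hs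
      · obtain ⟨k, -, hk⟩ := Finset.mem_biUnion.1 hs
        exact c2 k s hk
      · obtain ⟨k, -, hk⟩ := Finset.mem_biUnion.1 hs
        exact f2 k s hk
    · rcases Finset.mem_insert.1 hs with rfl | hs
      · exact ⟨le_rfl, zero_le_one⟩
      · rw [Finset.mem_singleton.1 hs]; exact ⟨zero_le_one, le_rfl⟩
  intro δ p h N₁ N₂
  -- the null sets
  have hn1 : ∀ᵐ x : E3, ∀ k, x ∉ (X.C k).P \ (X.C k).U := by
    rw [ae_all_iff]
    intro k
    exact measure_eq_zero_iff_ae_notMem.1 (X.C k).null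
  have hn2 : ∀ᵐ x : E3, ∀ j, x ∉ (X.F j).K \ (X.F j).V := by
    rw [ae_all_iff]
    intro k
    exact measure_eq_zero_iff_ae_notMem.1 (X.F k).null
  have hn3 := null_pre (Sys.plOn_Y_symm h (N₂+1)) hn2
  filter_upwards [hn1, hn3] with x hx1 hx3 t ht u hu hxu hW
  have hu0 : 0 ≤ u := (norm_nonneg _).trans hxu
  have hm2 : 1 ≤ m * m := one_le_mul_of_one_le_of_one_le hm hm
  have huu : u ≤ u0 := by nlinarith
  have hWC : ∀ k, ∀ s ∈ WC k, β * u < |t - s| := by
    intro k s hs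
    refine lt_of_le_of_lt ?_ (hW s (Finset.mem_union_left _ (Finset.mem_union_left _
      (Finset.mem_biUnion.2 ⟨k, Finset.mem_univ k, hs⟩))))
    have := hE.βpos
    have h1 : 0 ≤ β * u := by positivity
    nlinarith
  have h0 : β * u < t := by
    have := hW 0 (Finset.mem_union_right _ (by simp))
    rw [sub_zero, abs_of_nonneg ht.1] at this
    refine lt_of_le_of_lt ?_ this
    have := hE.βpos
    have h1 : 0 ≤ β * u := by positivity
    nlinarith
  have h0' : β * u < 1 - t := by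
    have := hW 1 (Finset.mem_union_right _ (by simp))
    rw [abs_sub_comm, abs_of_nonneg (by linarith [ht.2])] at this
    refine lt_of_le_of_lt ?_ this
    have := hE.βpos
    have h1 : 0 ≤ β * u := by positivity
    nlinarith
  -- the cells
  set y := Sys.Y h (N₂+1) x with hy
  have T1 : Tv (fun z => Sys.Y h (N₂+1) z) x v v ∧ ‖y - x‖ ≤ 4 * (m * m) * u := by
    by_cases hU : ∃ k, x ∈ (X.C k).U
    · obtain ⟨k, hk⟩ := hU
      rcases hE.cell k with hk2 | hk2
      · obtain ⟨k3, k4⟩ := c3 k hk2 _ (Sys.gC h k).t0 (by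
          have := (Sys.gC h k).half_le; linarith) x hk t ht u huu hxu (hWC k)
        constructor
        · refine k4.congr_of_open (O := (X.C k).U ∩ (X.C k).e ⁻¹' {z | 1/2 < ‖z‖}) ?_ ⟨hk, k3⟩ ?_
          · exact ((X.C k).cht.lip.continuousOn.mono (X.C k).cht.sub).isOpen_inter_preimage
              (X.C k).cht.opU (isOpen_lt continuous_const continuous_norm)
          · rintro z ⟨hz1, hz2⟩
            have hz2' : 1/2 < ‖(X.C k).e z‖ := hz2
            show Sys.Y h (N₂+1) z = _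
            rw [Sys.Y_in h (N₂+1) hz1, cgf_in (mem_closedBall_zero_iff.1
              ((X.C k).cht.maps ((X.C k).cht.sub hz1))), gf_outer hz2'.le]
        · have h1 := Y_move h N₂ hk (hk2.1 t ht).1 (hk2.1 t ht).2
          have h2 := hmC k hk2.1
          have h3 := (X.C k).M_pos
          refine h1.trans ?_
          have h4 : ((X.C k).M:ℝ) * (X.C k).M ≤ m * m := by nlinarith
          have h5 := norm_nonneg (x - (a + t • v))
          have h6 : 0 ≤ ((X.C k).M:ℝ) * (X.C k).M := by positivity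
          nlinarith
      · exfalso
        rcases hk2 x ((X.C k).cht.sub hk) t ht u huu hxu with h1 | h1
        · linarith [h1.1]
        · linarith [h1.1]
    · push Not at hU
      have hP : ∀ k, x ∉ (X.C k).P := fun k hk => hx1 k ⟨hk, hU k⟩
      have hyx : y = x := Sys.Y_out h (N₂+1) hU
      constructor
      · refine Tv.of_id ?_
        have : ∀ᶠ z in 𝓝 x, ∀ k, z ∉ (X.C k).P :=
          eventually_all.2 fun k => (X.C k).cht.clK.isOpen_compl.mem_nhds (hP k)
        filter_upwards [this] with z hz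
        exact Sys.Y_out h (N₂+1) fun k hk => hz k ((X.C k).cht.sub hk)
      · rw [hyx, sub_self, norm_zero]; positivity
  obtain ⟨T1, hyx⟩ := T1
  have hyu : ‖y - (a + t • v)‖ ≤ (1 + 4 * (m * m)) * u := by
    have e1 : y - (a + t • v) = (y - x) + (x - (a + t • v)) := by abel
    rw [e1]
    refine (norm_add_le _ _).trans ?_
    linarith
  -- the faces
  have T2 : Tv (fun z => Sys.H h (N₁+1) z) y v v := by
    by_cases hV : ∃ j, y ∈ (X.F j).V
    · obtain ⟨j, hj⟩ := hV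
      rcases hE.face j with hj2 | hj2
      · obtain ⟨k3, k4⟩ := f3 j hj2 _ (Sys.gF h j).t0 (by
          have := (Sys.gF h j).half_le; linarith) y hj t ht _ hu hyu (by
            intro s hs
            have := hW s (Finset.mem_union_left _ (Finset.mem_union_right _
              (Finset.mem_biUnion.2 ⟨j, Finset.mem_univ j, hs⟩)))
            rwa [mul_assoc] at this)
        refine k4.congr_of_open (O := (X.F j).V ∩
          (X.F j).e ⁻¹' {z | (1/2) * (1 - |z 0|) < wid z}) ?_ ⟨hj, k3⟩ ?_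
        · exact ((X.F j).cht.lip.continuousOn.mono (X.F j).cht.sub).isOpen_inter_preimage
            (X.F j).cht.opU (isOpen_lt (continuous_const.mul (continuous_const.sub
              (continuous_apply 0).abs)) continuous_wid)
        · rintro z ⟨hz1, hz2⟩
          have hz2' : (1/2) * (1 - |(X.F j).e z 0|) < wid ((X.F j).e z) := hz2
          have hz3 : |(X.F j).e z 0| + wid ((X.F j).e z) < 1 := (X.F j).cht.eU hz1
          have hz4 := wid_nonneg ((X.F j).e z)
          show Sys.H h (N₁+1) z = _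
          rw [Sys.H_in h (N₁+1) hz1, T_eq_fo (by linarith) hz2'.le hz3.le]
      · exfalso
        rcases hj2 y ((X.F j).cht.sub hj) t ht _ hu hyu with h1 | h1
        · have := hW 0 (Finset.mem_union_right _ (by simp))
          rw [sub_zero, abs_of_nonneg ht.1] at this
          have := h1.1
          nlinarith
        · have := hW 1 (Finset.mem_union_right _ (by simp))
          rw [abs_sub_comm, abs_of_nonneg (by linarith [ht.2])] at this
          have := h1.1
          nlinarith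
    · push Not at hV
      have hK : ∀ j, y ∉ (X.F j).K := fun j hj => hx3 j ⟨hj, hV j⟩
      refine Tv.of_id ?_
      have : ∀ᶠ z in 𝓝 y, ∀ j, z ∉ (X.F j).K :=
        eventually_all.2 fun j => (X.F j).cht.clK.isOpen_compl.mem_nhds (hK j)
      filter_upwards [this] with z hz
      exact Sys.H_out h (N₁+1) fun j hj => hz j ((X.F j).cht.sub hj)
  exact T1.comp (k := fun z => Sys.H h (N₁+1) z) T2

end Crest.Agent.R096.Sqt_143
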