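import Crest.Agent.R096.Sq19_55
import Crest.Agent.R096.Sqt5_143

-- ▼ part R096/Sq20_55
section

/-!
# R096 (row 96), SOBSQ, part 20 (helper55): explicit constants of the charts of the double pyramids
-/

set_option autoImplicit false
set_option linter.unusedSectionVars false

open Set Metric Filter Topology

namespace Crest.Agent.R096.Sq_55

open Crest.Agent.R096.Ce_537 Crest.Agent.R096.Bd_416 Crest.Agent.R96.Hole_348
open Crest.Agent.R096.Msh_715 (P I Tiling I_sub_P isOpen_I isClosed_P convex_P mem_I_of_move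
  disjoint_P_I isBall_P_top mem_I_small)
open scoped NNReal

section con

variable {W W' : Type*} [NormedAddCommGroup W] [NormedSpace ℝ W] [NormedAddCommGroup W']
  [NormedSpace ℝ W'] {σ : W → W'} {B : Set W}

/-- explicit Lipschitz constant of the conical extension -/
lemma norm_con_sub_le {L C ρ : ℝ} (hL : 0 ≤ L) (hσ : ∀ w ∈ B, ∀ w' ∈ B, ‖σ w - σ w'‖ ≤ L * ‖w - w'‖)
    (hC : ∀ w ∈ B, ‖σ w‖ ≤ C) (hρ : ∀ w ∈ B, ‖w‖ ≤ ρ) {z z' : ℝ × W} (hz : z ∈ Kc B)
    (hz' : z' ∈ Kc B) :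
    ‖con σ z - con σ z'‖ ≤ L * ‖z.2 - z'.2‖ + (C + L * ρ) * |z.1 - z'.1| := by
  have key : ∀ {z z' : ℝ × W}, z ∈ Kc B → z' ∈ Kc B → 0 < z.1 →
      ‖con σ z - con σ z'‖ ≤ L * ‖z.2 - z'.2‖ + (C + L * ρ) * |z.1 - z'.1| := by
    intro z z' hz hz' h1
    have hw := hz.2.1 h1
    have c0 : 0 ≤ C := (norm_nonneg _).trans (hC _ hw)
    have r0 : 0 ≤ ρ := (norm_nonneg _).trans (hρ _ hw)
    rcases hz'.1.lt_or_eq with h2 | h2
    · have hw' := hz'.2.1 h2
      have e1 : con σ z - con σ z' = (z.1 - z'.1) • σ (z.1⁻¹ • z.2) +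
          z'.1 • (σ (z.1⁻¹ • z.2) - σ (z'.1⁻¹ • z'.2)) := by
        rw [con_pos h1, con_pos h2]; module
      have e2 : z'.1 • (z.1⁻¹ • z.2 - z'.1⁻¹ • z'.2) = (z.2 - z'.2) +
          (z'.1 - z.1) • (z.1⁻¹ • z.2) := by
        rw [smul_sub, smul_smul, smul_smul, smul_smul, mul_inv_cancel₀ h2.ne', one_smul, sub_mul,
          mul_inv_cancel₀ h1.ne', sub_smul, one_smul]
        abel
      have e3 : z'.1 * ‖z.1⁻¹ • z.2 - z'.1⁻¹ • z'.2‖ ≤ ‖z.2 - z'.2‖ + |z.1 - z'.1| * ρ := by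
        calc z'.1 * ‖z.1⁻¹ • z.2 - z'.1⁻¹ • z'.2‖ = ‖z'.1 • (z.1⁻¹ • z.2 - z'.1⁻¹ • z'.2)‖ := by
              rw [norm_smul, Real.norm_eq_abs, abs_of_pos h2]
          _ = ‖(z.2 - z'.2) + (z'.1 - z.1) • (z.1⁻¹ • z.2)‖ := by rw [e2]
          _ ≤ ‖z.2 - z'.2‖ + ‖(z'.1 - z.1) • (z.1⁻¹ • z.2)‖ := norm_add_le _ _
          _ ≤ ‖z.2 - z'.2‖ + |z.1 - z'.1| * ρ := by
              rw [norm_smul, Real.norm_eq_abs, abs_sub_comm]
              have := mul_le_mul_of_nonneg_left (hρ _ hw) (abs_nonneg (z.1 - z'.1))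
              linarith
      calc ‖con σ z - con σ z'‖ ≤ ‖(z.1 - z'.1) • σ (z.1⁻¹ • z.2)‖ +
            ‖z'.1 • (σ (z.1⁻¹ • z.2) - σ (z'.1⁻¹ • z'.2))‖ := by rw [e1]; exact norm_add_le _ _
        _ = |z.1 - z'.1| * ‖σ (z.1⁻¹ • z.2)‖ +
            z'.1 * ‖σ (z.1⁻¹ • z.2) - σ (z'.1⁻¹ • z'.2)‖ := by
            rw [norm_smul, norm_smul, Real.norm_eq_abs, Real.norm_eq_abs, abs_of_pos h2]
        _ ≤ |z.1 - z'.1| * C + z'.1 * (L * ‖z.1⁻¹ • z.2 - z'.1⁻¹ • z'.2‖) := by
            have a1 := mul_le_mul_of_nonneg_left (hC _ hw) (abs_nonneg (z.1 - z'.1))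
            have a2 := mul_le_mul_of_nonneg_left (hσ _ hw _ hw') h2.le
            linarith
        _ = |z.1 - z'.1| * C + L * (z'.1 * ‖z.1⁻¹ • z.2 - z'.1⁻¹ • z'.2‖) := by ring
        _ ≤ |z.1 - z'.1| * C + L * (‖z.2 - z'.2‖ + |z.1 - z'.1| * ρ) := by
            have := mul_le_mul_of_nonneg_left e3 hL
            linarith
        _ = _ := by ring
    · rw [con_of_le h2.ge, sub_zero, ← h2, sub_zero, abs_of_pos h1]
      have a1 := norm_con_le hC hz
      have a2 : 0 ≤ L * ‖z.2 - z'.2‖ := mul_nonneg hL (norm_nonneg _)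
      have a3 : 0 ≤ L * ρ * z.1 := mul_nonneg (mul_nonneg hL r0) h1.le
      nlinarith
  rcases hz.1.lt_or_eq with h1 | h1
  · exact key hz hz' h1
  · rcases hz'.1.lt_or_eq with h2 | h2
    · have := key hz' hz h2
      rwa [norm_sub_rev, norm_sub_rev z'.2, abs_sub_comm] at this
    · rw [con_of_le h1.ge, con_of_le h2.ge, sub_self, norm_zero, ← h1, ← h2, sub_self, abs_zero,
        mul_zero, add_zero]
      exact mul_nonneg hL (norm_nonneg _)

end con


namespace Dp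

variable (D : Dp)

/-- the height is `1 / r`-Lipschitz if the apexes are far from the plane -/
lemma abs_t_sub_le {r : ℝ} (h1 : ∀ v, r * |D.l v| ≤ D.l (D.a - D.b) * ‖v‖)
    (h2 : ∀ v, r * |D.l v| ≤ -D.l (D.a' - D.b) * ‖v‖) (hr : 0 < r) (y y' : E3) :
    |D.t y - D.t y'| ≤ r⁻¹ * ‖y - y'‖ := by
  have ha := D.ha
  have ha' : 0 < -D.l (D.a' - D.b) := by have := D.ha'; linarith
  set A := D.l (D.a - D.b) with hA
  set A' := -D.l (D.a' - D.b) with hA'
  set m := min A A' with hm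
  have m0 : 0 < m := lt_min ha ha'
  have hl : D.l (y - D.b) - D.l (y' - D.b) = D.l (y - y') := by rw [← map_sub]; congr 1; abel
  have key : r * |D.l (y - y')| ≤ m * ‖y - y'‖ := by
    rcases min_choice A A' with e | e
    · rw [hm, e]; exact h1 _
    · rw [hm, e]; exact h2 _
  have k2 : m * |D.t y - D.t y'| ≤ |D.l (y - y')| := by
    set s := D.l (y - D.b) with hs
    set s' := D.l (y' - D.b) with hs'
    have e1 : D.t y - D.t y' = (pp s - pp s') / A - (pp (-s) - pp (-s')) / A' := by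
      show pp s / A - pp (-s) / A' - (pp s' / A - pp (-s') / A') = _
      ring
    have b1 : |(pp s - pp s') / A| ≤ |pp s - pp s'| / m := by
      rw [abs_div, abs_of_pos ha]
      exact div_le_div_of_nonneg_left (abs_nonneg _) m0 (min_le_left _ _)
    have b2 : |(pp (-s) - pp (-s')) / A'| ≤ |pp (-s) - pp (-s')| / m := by
      rw [abs_div, abs_of_pos ha']
      exact div_le_div_of_nonneg_left (abs_nonneg _) m0 (min_le_right _ _)
    have b3 : |pp s - pp s'| + |pp (-s) - pp (-s')| = |s - s'| := by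
      unfold pp
      rcases le_total 0 s with h | h <;> rcases le_total 0 s' with h' | h'
      · rw [max_eq_left h, max_eq_left h', max_eq_right (by linarith : -s ≤ 0),
          max_eq_right (by linarith : -s' ≤ 0), sub_self, abs_zero, add_zero]
      · rw [max_eq_left h, max_eq_right h', max_eq_right (by linarith : -s ≤ 0),
          max_eq_left (by linarith : 0 ≤ -s'), sub_zero, zero_sub, neg_neg, abs_of_nonneg h,
          abs_of_nonpos h', abs_of_nonneg (by linarith)]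
        ring
      · rw [max_eq_right h, max_eq_left h', max_eq_left (by linarith : 0 ≤ -s),
          max_eq_right (by linarith : -s' ≤ 0), sub_zero, zero_sub, abs_neg, abs_of_nonneg h',
          abs_of_nonneg (by linarith : 0 ≤ -s), abs_of_nonpos (by linarith : s - s' ≤ 0)]
        ring
      · rw [max_eq_right h, max_eq_right h', max_eq_left (by linarith : 0 ≤ -s),
          max_eq_left (by linarith : 0 ≤ -s'), sub_self, abs_zero, zero_add, ← abs_neg]
        congr 1; ring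
    have b4 : |D.t y - D.t y'| ≤ |s - s'| / m := by
      rw [e1, ← b3, add_div]
      exact (abs_sub _ _).trans (add_le_add b1 b2)
    rw [hl] at b4
    rw [le_div_iff₀ m0] at b4
    linarith
  have k3 : m * (r * |D.t y - D.t y'|) ≤ m * ‖y - y'‖ := by
    have := mul_le_mul_of_nonneg_left k2 hr.le
    linarith
  have k4 := le_of_mul_le_mul_left k3 m0
  rw [inv_mul_eq_div, le_div_iff₀ hr]
  linarith

lemma norm_ax_sub_le {d : ℝ} (h1 : ‖D.a - D.b‖ ≤ d) (h2 : ‖D.a' - D.b‖ ≤ d) (s s' : ℝ) :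
    ‖D.ax s - D.ax s'‖ ≤ d * |s - s'| := by
  have e : D.ax s - D.ax s' = (pp s - pp s') • (D.a - D.b) + (pp (-s) - pp (-s')) • (D.a' - D.b) := by
    unfold ax; module
  have b3 : |pp s - pp s'| + |pp (-s) - pp (-s')| = |s - s'| := by
    unfold pp
    rcases le_total 0 s with h | h <;> rcases le_total 0 s' with h' | h'
    · rw [max_eq_left h, max_eq_left h', max_eq_right (by linarith : -s ≤ 0),
        max_eq_right (by linarith : -s' ≤ 0), sub_self, abs_zero, add_zero]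
    · rw [max_eq_left h, max_eq_right h', max_eq_right (by linarith : -s ≤ 0),
        max_eq_left (by linarith : 0 ≤ -s'), sub_zero, zero_sub, neg_neg, abs_of_nonneg h,
        abs_of_nonpos h', abs_of_nonneg (by linarith)]
      ring
    · rw [max_eq_right h, max_eq_left h', max_eq_left (by linarith : 0 ≤ -s),
        max_eq_right (by linarith : -s' ≤ 0), sub_zero, zero_sub, abs_neg, abs_of_nonneg h',
        abs_of_nonneg (by linarith : 0 ≤ -s), abs_of_nonpos (by linarith : s - s' ≤ 0)]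
      ring
    · rw [max_eq_right h, max_eq_right h', max_eq_left (by linarith : 0 ≤ -s),
        max_eq_left (by linarith : 0 ≤ -s'), sub_self, abs_zero, zero_add, ← abs_neg]
      congr 1; ring
  rw [e]
  calc _ ≤ ‖(pp s - pp s') • (D.a - D.b)‖ + ‖(pp (-s) - pp (-s')) • (D.a' - D.b)‖ :=
        norm_add_le _ _
    _ = |pp s - pp s'| * ‖D.a - D.b‖ + |pp (-s) - pp (-s')| * ‖D.a' - D.b‖ := by
        rw [norm_smul, norm_smul, Real.norm_eq_abs, Real.norm_eq_abs]
    _ ≤ |pp s - pp s'| * d + |pp (-s) - pp (-s')| * d := by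
        have := mul_le_mul_of_nonneg_left h1 (abs_nonneg (pp s - pp s'))
        have := mul_le_mul_of_nonneg_left h2 (abs_nonneg (pp (-s) - pp (-s')))
        linarith
    _ = d * |s - s'| := by rw [← b3]; ring

/-- **the chart of the double pyramid, explicit constants** -/
theorem cht_explicit {r d Lf Lg : ℝ≥0} (hr : 0 < r)
    (h1 : ∀ v, r * |D.l v| ≤ D.l (D.a - D.b) * ‖v‖)
    (h2 : ∀ v, r * |D.l v| ≤ -D.l (D.a' - D.b) * ‖v‖)
    (h3 : ‖D.a - D.b‖ ≤ d) (h4 : ‖D.a' - D.b‖ ≤ d) (h5 : ∀ y ∈ D.F, ‖y - D.b‖ ≤ d)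
    (hf : LipschitzOnWith Lf D.e.f (cube 2)) (hg : LipschitzOnWith Lg D.e.g D.F) :
    Cht D.K D.V Dc Do D.ch D.ch' (Lg + 2 * Lg * (d / r) + 1 / r) (2 * d + 2 * Lf) := by
  obtain ⟨L, L', hL⟩ := D.exists_cht
  have hr' : (0:ℝ) < r := by exact_mod_cast hr
  have ht := D.abs_t_sub_le h1 h2 hr'
  have hax := D.norm_ax_sub_le h3 h4
  have hw : ∀ y y', ‖D.w y - D.w y'‖ ≤ (1 + d * (r:ℝ)⁻¹) * ‖y - y'‖ := by
    intro y y'
    have e : D.w y - D.w y' = (y - y') - (D.ax (D.t y) - D.ax (D.t y')) := by unfold w; abel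
    rw [e]
    calc _ ≤ ‖y - y'‖ + ‖D.ax (D.t y) - D.ax (D.t y')‖ := norm_sub_le _ _
      _ ≤ ‖y - y'‖ + d * ((r:ℝ)⁻¹ * ‖y - y'‖) := by
          have a1 := hax (D.t y) (D.t y')
          have a2 := mul_le_mul_of_nonneg_left (ht y y') d.coe_nonneg
          linarith
      _ = _ := by ring
  have hσ' : ∀ x ∈ D.B, ∀ x' ∈ D.B, ‖D.σ' x - D.σ' x'‖ ≤ Lg * ‖x - x'‖ := by
    intro x hx x' hx'
    have := hg.norm_sub_le hx hx'
    have e : D.b + x - (D.b + x') = x - x' := by abel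
    rw [e] at this
    exact this
  have hσ : ∀ x ∈ cube 2, ∀ x' ∈ cube 2, ‖D.σ x - D.σ x'‖ ≤ Lf * ‖x - x'‖ := by
    intro x hx x' hx'
    have := hf.norm_sub_le hx hx'
    have e : D.σ x - D.σ x' = D.e.f x - D.e.f x' := by unfold σ; abel
    rw [e]
    exact this
  have hσC : ∀ x ∈ cube 2, ‖D.σ x‖ ≤ d := fun x hx => h5 _ (D.e.mf hx)
  have hBd : ∀ x ∈ D.B, ‖x‖ ≤ d := fun x hx => by
    have := h5 _ hx
    rwa [add_sub_cancel_left] at this
  refine { hL with lip := ?_, lip' := ?_ }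
  · refine LipschitzOnWith.of_dist_le_mul fun x hx y hy => ?_
    rw [dist_eq_norm, dist_eq_norm]
    have hn := norm_nonneg (x - y)
    have k1 := norm_con_sub_le Lg.coe_nonneg hσ' D.bd_σ' hBd (show (1 - |D.t x|, D.w x) ∈ Kc D.B from hx)
      (show (1 - |D.t y|, D.w y) ∈ Kc D.B from hy)
    have k2 : |(1 - |D.t x|) - (1 - |D.t y|)| ≤ (r:ℝ)⁻¹ * ‖x - y‖ := by
      have e : (1 - |D.t x|) - (1 - |D.t y|) = -(|D.t x| - |D.t y|) := by ring
      rw [e, abs_neg]
      exact (abs_abs_sub_abs_le _ _).trans (ht x y)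
    have k3 : ‖con D.σ' (1 - |D.t x|, D.w x) - con D.σ' (1 - |D.t y|, D.w y)‖ ≤
        (Lg + 2 * Lg * (d / r) + 1 / r) * ‖x - y‖ := by
      refine k1.trans ?_
      show (Lg:ℝ) * ‖D.w x - D.w y‖ + (1 + Lg * d) * |(1 - |D.t x|) - (1 - |D.t y|)| ≤ _
      have a1 := mul_le_mul_of_nonneg_left (hw x y) Lg.coe_nonneg
      have a2 : (1 + Lg * (d:ℝ)) * |(1 - |D.t x|) - (1 - |D.t y|)| ≤
          (1 + Lg * (d:ℝ)) * ((r:ℝ)⁻¹ * ‖x - y‖) :=
        mul_le_mul_of_nonneg_left k2 (by positivity)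
      refine (add_le_add a1 a2).trans (le_of_eq ?_)
      ring
    have hM : 0 ≤ ((Lg:ℝ) + 2 * Lg * (d / r) + 1 / r) * ‖x - y‖ := by positivity
    push_cast
    rw [pi_norm_le_iff_of_nonneg hM]
    intro j
    refine Fin.cases ?_ (fun i => ?_) j
    · show ‖D.t x - D.t y‖ ≤ _
      rw [Real.norm_eq_abs]
      refine (ht x y).trans ?_
      refine mul_le_mul_of_nonneg_right ?_ hn
      rw [inv_eq_one_div]
      have : 0 ≤ (Lg:ℝ) + 2 * Lg * (d / r) := by positivity
      linarith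
    · refine le_trans ?_ k3
      exact norm_le_pi_norm (con D.σ' (1 - |D.t x|, D.w x) - con D.σ' (1 - |D.t y|, D.w y)) i
  · refine LipschitzOnWith.of_dist_le_mul fun z hz z' hz' => ?_
    rw [dist_eq_norm, dist_eq_norm]
    have hn := norm_nonneg (z - z')
    have z0 : |z 0 - z' 0| ≤ ‖z - z'‖ := norm_le_pi_norm (z - z') 0
    have zt : ‖tl z - tl z'‖ ≤ ‖z - z'‖ := by
      rw [pi_norm_le_iff_of_nonneg hn]
      intro j
      exact norm_le_pi_norm (z - z') j.succ
    have k1 := norm_con_sub_le Lf.coe_nonneg hσ hσC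
      (fun v (hv : v ∈ cube 2) => mem_closedBall_zero_iff.1 hv) (mem_Dc.1 hz) (mem_Dc.1 hz')
    have k2 : |(1 - |z 0|) - (1 - |z' 0|)| ≤ ‖z - z'‖ := by
      have e : (1 - |z 0|) - (1 - |z' 0|) = -(|z 0| - |z' 0|) := by ring
      rw [e, abs_neg]
      exact (abs_abs_sub_abs_le _ _).trans z0
    have e : D.ch' z - D.ch' z' = (D.ax (z 0) - D.ax (z' 0)) +
        (con D.σ (1 - |z 0|, tl z) - con D.σ (1 - |z' 0|, tl z')) := by unfold ch'; abel
    rw [e]
    refine (norm_add_le _ _).trans ?_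
    have a1 : ‖D.ax (z 0) - D.ax (z' 0)‖ ≤ d * ‖z - z'‖ :=
      (hax _ _).trans (mul_le_mul_of_nonneg_left z0 d.coe_nonneg)
    have a2 : (Lf:ℝ) * ‖tl z - tl z'‖ ≤ Lf * ‖z - z'‖ :=
      mul_le_mul_of_nonneg_left zt Lf.coe_nonneg
    have a3 : ((d:ℝ) + Lf * 1) * |(1 - |z 0|) - (1 - |z' 0|)| ≤ (d + Lf * 1) * ‖z - z'‖ :=
      mul_le_mul_of_nonneg_left k2 (by positivity)
    have k1' : ‖con D.σ (1 - |z 0|, tl z) - con D.σ (1 - |z' 0|, tl z')‖ ≤
      (Lf:ℝ) * ‖tl z - tl z'‖ + ((d:ℝ) + Lf * 1) * |(1 - |z 0|) - (1 - |z' 0|)| := k1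
    push_cast
    nlinarith [a1, a2, a3, k1']

end Dp

end Crest.Agent.R096.Sq_55
end

-- ▼ part R096/Sq21_55
section

/-!
# R096 (row 96), SOBSQ, part 21 (helper55): faces of a tiling with explicit constants
-/

set_option autoImplicit false
set_option linter.unusedSectionVars false

open Set Metric Filter Topology

namespace Crest.Agent.R096.Sq_55

open Crest.Agent.R096.Ce_537 Crest.Agent.R096.Bd_416 Crest.Agent.R96.Hole_348
open Crest.Agent.R096.Msh_715 (P I Tiling I_sub_P isOpen_I isClosed_P convex_P mem_I_of_move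
  disjoint_P_I isBall_P_top mem_I_small)
open scoped NNReal

section tiling

variable {Om : Set E3} {ι : Type*} {T : Tiling Om ι} {c : ι → E3} {x : E3} {i j : ι} {D : Dp}

/-- no point of the plane of the 2-cell is in the interior of a tile at the 2-cell -/
lemma IsDp.plane_notMem (h : IsDp T c x i j D) (hx : x ∈ Om) {k : ι} (hk : k ∈ T.at_ x) {p : E3}
    (hp : D.l (p - D.b) = 0) : p ∉ I (T.H k) := by
  intro hpI
  have hb : D.b ∈ P (T.H k) := by
    have : D.b ∈ T.cc x := by rw [← h.F]; exact D.sF D.bF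
    exact T.cc_sub_tile hk this
  have h1 : Tendsto (fun s : ℝ => D.b + s • (p - D.b)) (𝓝 0) (𝓝 (D.b + (0:ℝ) • (p - D.b))) := by
    apply Continuous.tendsto
    fun_prop
  rw [zero_smul, add_zero] at h1
  have hbO : D.b ∈ D.O := (D.mO _ (by rw [sub_self, map_zero])).2 D.bF
  have h2 : ∀ᶠ s in 𝓝[>] (0:ℝ), D.b + s • (p - D.b) ∈ D.O :=
    (h1.eventually (D.hO.mem_nhds hbO)).filter_mono nhdsWithin_le_nhds
  have h3 : ∀ᶠ s in 𝓝[>] (0:ℝ), s < 1 :=
    (gt_mem_nhds (zero_lt_one' ℝ)).filter_mono nhdsWithin_le_nhds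
  obtain ⟨s, ⟨h4, h5⟩, h6⟩ := ((h2.and h3).and self_mem_nhdsWithin).exists
  have h6 : (0:ℝ) < s := h6
  have h7 : D.b + s • (p - D.b) ∈ D.oF := by
    rw [← D.mO _ _]
    · exact h4
    · rw [add_sub_cancel_left, map_smul, hp, smul_zero]
  rw [h.oF] at h7
  exact h.oc_notMem hx h7 k (mem_I_of_move hb hpI h6 h5.le)

/-- a ball in the tile around the apex is on one side of the plane -/
lemma IsDp.ball_pos (h : IsDp T c x i j D) (hx : x ∈ Om) {r : ℝ} (hr : 0 ≤ r)
    (hB : closedBall (c i) r ⊆ I (T.H i)) (v : E3) : r * |D.l v| ≤ D.l (D.a - D.b) * ‖v‖ := by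
  have ha := D.ha
  rcases eq_or_ne v 0 with rfl | hv
  · simp
  have hv' : 0 < ‖v‖ := norm_pos_iff.2 hv
  have key : ∀ σ : ℝ, |σ| = 1 → 0 < D.l (D.a - D.b) + σ * (r / ‖v‖) * D.l v := by
    intro σ hσ
    by_contra hcon
    push Not at hcon
    set w : E3 := (σ * (r / ‖v‖)) • v with hw
    have hwn : ‖w‖ ≤ r := by
      rw [hw, norm_smul, Real.norm_eq_abs, abs_mul, hσ, one_mul, abs_of_nonneg (by positivity),
        div_mul_cancel₀ _ hv'.ne']
    have hlw : D.l w = σ * (r / ‖v‖) * D.l v := by rw [hw, map_smul, smul_eq_mul]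
    rw [← hlw] at hcon
    have hlw0 : D.l w < 0 := by linarith
    -- the point of the plane
    set t : ℝ := D.l (D.a - D.b) / (-D.l w) with ht
    have ht0 : 0 < t := div_pos ha (by linarith)
    have ht1 : t ≤ 1 := by rw [ht, div_le_one (by linarith)]; linarith
    have hp : D.l (D.a + t • w - D.b) = 0 := by
      have : D.a + t • w - D.b = (D.a - D.b) + t • w := by abel
      have h0 : -D.l w ≠ 0 := by linarith
      have h1 : t * -D.l w = D.l (D.a - D.b) := div_mul_cancel₀ _ h0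
      rw [this, map_add, map_smul, smul_eq_mul]
      linarith
    refine h.plane_notMem hx h.symm_mem.1 hp (hB ?_)
    rw [mem_closedBall, dist_eq_norm, h.a, add_sub_cancel_left, norm_smul, Real.norm_eq_abs,
      abs_of_pos ht0]
    calc t * ‖w‖ ≤ 1 * ‖w‖ := mul_le_mul_of_nonneg_right ht1 (norm_nonneg _)
      _ ≤ r := by rw [one_mul]; exact hwn
  have e : r * |D.l v| = (r / ‖v‖ * |D.l v|) * ‖v‖ := by field_simp
  rw [e]
  refine mul_le_mul_of_nonneg_right ?_ hv'.le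
  rcases le_total 0 (D.l v) with h0 | h0
  · have := key (-1) (by norm_num)
    rw [abs_of_nonneg h0]; linarith
  · have := key 1 (by norm_num)
    rw [abs_of_nonpos h0]; linarith

lemma IsDp.ball_neg (h : IsDp T c x i j D) (hx : x ∈ Om) {r : ℝ} (hr : 0 ≤ r)
    (hB : closedBall (c j) r ⊆ I (T.H j)) (v : E3) : r * |D.l v| ≤ -D.l (D.a' - D.b) * ‖v‖ := by
  have ha := D.ha'
  rcases eq_or_ne v 0 with rfl | hv
  · simp
  have hv' : 0 < ‖v‖ := norm_pos_iff.2 hv
  have key : ∀ σ : ℝ, |σ| = 1 → D.l (D.a' - D.b) + σ * (r / ‖v‖) * D.l v < 0 := by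
    intro σ hσ
    by_contra hcon
    push Not at hcon
    set w : E3 := (σ * (r / ‖v‖)) • v with hw
    have hwn : ‖w‖ ≤ r := by
      rw [hw, norm_smul, Real.norm_eq_abs, abs_mul, hσ, one_mul, abs_of_nonneg (by positivity),
        div_mul_cancel₀ _ hv'.ne']
    have hlw : D.l w = σ * (r / ‖v‖) * D.l v := by rw [hw, map_smul, smul_eq_mul]
    rw [← hlw] at hcon
    have hlw0 : 0 < D.l w := by linarith
    set t : ℝ := -D.l (D.a' - D.b) / D.l w with ht
    have ht0 : 0 < t := div_pos (by linarith) hlw0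
    have ht1 : t ≤ 1 := by rw [ht, div_le_one hlw0]; linarith
    have hp : D.l (D.a' + t • w - D.b) = 0 := by
      have : D.a' + t • w - D.b = (D.a' - D.b) + t • w := by abel
      have h1 : t * D.l w = -D.l (D.a' - D.b) := div_mul_cancel₀ _ hlw0.ne'
      rw [this, map_add, map_smul, smul_eq_mul]
      linarith
    refine h.plane_notMem hx h.symm_mem.2 hp (hB ?_)
    rw [mem_closedBall, dist_eq_norm, h.a', add_sub_cancel_left, norm_smul, Real.norm_eq_abs,
      abs_of_pos ht0]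
    calc t * ‖w‖ ≤ 1 * ‖w‖ := mul_le_mul_of_nonneg_right ht1 (norm_nonneg _)
      _ ≤ r := by rw [one_mul]; exact hwn
  have e : r * |D.l v| = (r / ‖v‖ * |D.l v|) * ‖v‖ := by field_simp
  rw [e]
  refine mul_le_mul_of_nonneg_right ?_ hv'.le
  rcases le_total 0 (D.l v) with h0 | h0
  · have := key 1 (by norm_num)
    rw [abs_of_nonneg h0]; linarith
  · have := key (-1) (by norm_num)
    rw [abs_of_nonpos h0]; linarith

/-- one tile: the distance to the boundary -/
lemma dist_bdry {H : Finset ((E3 →L[ℝ] ℝ) × ℝ)} {a v y z : E3} {r s : ℝ}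
    (hB : closedBall a r ⊆ I H) (hs : 0 < s) (hs1 : s ≤ 1) (hv : v ∈ P H)
    (hy : y = v + s • (a - v)) (hz : z ∉ I H) : s * r ≤ ‖y - z‖ := by
  by_contra hcon
  push Not at hcon
  apply hz
  have e : z = v + s • ((a + s⁻¹ • (z - y)) - v) := by
    rw [hy]
    have : s • ((a + s⁻¹ • (z - (v + s • (a - v)))) - v) = s • (a - v) +
        (s * s⁻¹) • (z - (v + s • (a - v))) := by module
    rw [this, mul_inv_cancel₀ hs.ne', one_smul]
    abel
  rw [e]
  refine mem_I_of_move hv (hB ?_) hs hs1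
  rw [mem_closedBall, dist_eq_norm, add_sub_cancel_left, norm_smul, norm_inv, Real.norm_eq_abs,
    abs_of_pos hs, norm_sub_rev, inv_mul_le_iff₀ hs]
  linarith

/-- explicit slab constant -/
lemma IsDp.slab_explicit (h : IsDp T c x i j D) (hx : x ∈ Om) {r : ℝ} (hr : 0 < r)
    (hB : ∀ k ∈ T.at_ x, closedBall (c k) r ⊆ I (T.H k)) (hc : ∀ i, c i ∈ I (T.H i))
    (k : ι) (y : E3) (hy : y ∈ D.V) (hk : y ∈ P (T.H k)) (z : E3) (hz : z ∈ P (T.H k) \ I (T.H k)) :
    |D.t y| ≤ r⁻¹ * ‖y - z‖ := by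
  have hb1 : |D.t y| < 1 := by have : 0 < 1 - |D.t y| := hy.1; linarith
  rcases lt_trichotomy (D.t y) 0 with ht | ht | ht
  · have h1 := h.tile_neg hc hy ht
    have h2 : k = j := by
      by_contra hne
      exact Set.disjoint_left.1 (disjoint_P_I (T.ne k) (T.dis k j hne)) hk h1
    subst h2
    rw [abs_of_neg ht] at hb1 ⊢
    obtain ⟨h3, h4⟩ := h.repr_neg (D.V_sub hy) ht (by linarith)
    rw [h.F] at h3
    rw [h.a'] at h4
    have := dist_bdry (hB _ h.symm_mem.2) (by linarith : 0 < -D.t y) hb1.le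
      (T.cc_sub_tile h.symm_mem.2 h3) h4 hz.2
    rw [inv_mul_eq_div, le_div_iff₀ hr]; exact this
  · rw [ht, abs_zero]
    positivity
  · have h1 := h.tile_pos hc hy ht
    have h2 : k = i := by
      by_contra hne
      exact Set.disjoint_left.1 (disjoint_P_I (T.ne k) (T.dis k i hne)) hk h1
    subst h2
    rw [abs_of_pos ht] at hb1 ⊢
    obtain ⟨h3, h4⟩ := h.repr_pos (D.V_sub hy) ht hb1
    rw [h.F] at h3
    rw [h.a] at h4
    have := dist_bdry (hB _ h.symm_mem.1) ht hb1.le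
      (T.cc_sub_tile h.symm_mem.1 h3) h4 hz.2
    rw [inv_mul_eq_div, le_div_iff₀ hr]; exact this


/-- the constant of the face chart -/
noncomputable def MF (ρ r d Lf Lg : ℝ≥0) : ℝ≥0 :=
  max 1 (max ((Lg + 2 * Lg * (d / r) + 1 / r) * ρ) (max ((2 * d + 2 * Lf) / ρ) (ρ / r)))


end tiling

end Crest.Agent.R096.Sq_55
end

-- ▼ part R096/Sq22_55
section

/-!
# R096 (row 96), SOBSQ, part 22 (helper55): shapes: constants which depend only on the shape
-/

set_option autoImplicit false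
set_option linter.unusedSectionVars false

open Set Metric Filter Topology

namespace Crest.Agent.R096.Sq_55

open Crest.Agent.R096.Ce_537 Crest.Agent.R096.Bd_416 Crest.Agent.R96.Hole_348
open Crest.Agent.R096.Msh_715 (P I Tiling I_sub_P isOpen_I isClosed_P convex_P mem_I_of_move
  disjoint_P_I isBall_P_top mem_I_small)
open scoped NNReal

/-- `B` is a similarity of ratio `1 / R` up to the factor `Λ` -/
structure Frm (Λ R : ℝ≥0) (B : E3 ≃ᵃ[ℝ] E3) : Prop where
  lip : LipschitzWith (Λ / R) B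
  lip' : LipschitzWith (Λ * R) B.symm

lemma continuous_aff (B : E3 ≃ᵃ[ℝ] E3) : Continuous B :=
  B.toAffineMap.continuous_of_finiteDimensional

/-- an affine equivalence as a homeomorphism -/
noncomputable def hmB (B : E3 ≃ᵃ[ℝ] E3) : E3 ≃ₜ E3 where
  toEquiv := B.toEquiv
  continuous_toFun := continuous_aff B
  continuous_invFun := continuous_aff B.symm

lemma image_interior_aff (B : E3 ≃ᵃ[ℝ] E3) (S : Set E3) : B '' interior S = interior (B '' S) :=
  (hmB B).image_interior S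

lemma symm_image_image (B : E3 ≃ᵃ[ℝ] E3) (S : Set E3) : B.symm '' (B '' S) = S := by
  rw [← image_comp]
  convert image_id S
  ext y
  simp

lemma affB_mul (B : E3 ≃ᵃ[ℝ] E3) (y x : E3) (s : ℝ) :
    B (y + s • (y - x)) = B y + s • (B y - B x) := by
  have h3 := B.toAffineMap.map_vadd y (s • (y - x))
  have h4 := B.toAffineMap.linearMap_vsub y x
  simp only [AffineEquiv.coe_toAffineMap, AffineEquiv.linear_toAffineMap, vadd_eq_add,
    vsub_eq_sub, LinearEquiv.coe_coe, map_smul] at h3 h4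
  rw [add_comm y, h3, h4, add_comm]

/-! ### the open cell is a function of the closed cell -/

/-- relative interior -/
def rint (S : Set E3) : Set E3 := {y | y ∈ S ∧ ∀ x ∈ S, ∃ s : ℝ, 0 < s ∧ y + s • (y - x) ∈ S}

lemma rint_sub (S : Set E3) : rint S ⊆ S := fun _ h => h.1

lemma image_rint (B : E3 ≃ᵃ[ℝ] E3) (S : Set E3) : B '' rint S = rint (B '' S) := by
  have key : ∀ (B : E3 ≃ᵃ[ℝ] E3) (S : Set E3), B '' rint S ⊆ rint (B '' S) := by
    rintro B S _ ⟨y, ⟨hy, h⟩, rfl⟩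
    refine ⟨mem_image_of_mem _ hy, ?_⟩
    rintro _ ⟨x, hx, rfl⟩
    obtain ⟨s, hs, h1⟩ := h x hx
    exact ⟨s, hs, by rw [← affB_mul]; exact mem_image_of_mem _ h1⟩
  refine (key B S).antisymm ?_
  have h1 := key B.symm (B '' S)
  rw [symm_image_image] at h1
  intro z hz
  have h2 := h1 (mem_image_of_mem _ hz)
  exact ⟨B.symm z, h2, by simp⟩

section tiling

variable {Om : Set E3} {ι : Type*} {T : Tiling Om ι}

lemma oc_eq_rint {x : E3} (hx : x ∈ Om) : T.oc x = rint (T.cc x) := by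
  ext y
  constructor
  · intro hy
    have hyc := T.oc_sub_cc x hy
    refine ⟨hyc, fun z hz => ?_⟩
    have hyO := T.cc_sub_Om hx hyc
    obtain ⟨r, hr, h⟩ := T.exists_ball_oc hyO
    have hV : y - z ∈ T.V y := by
      rw [T.V_eq_of_mem_oc hx hy]; exact T.sub_mem_V' hyc hz
    set s : ℝ := r / (2 * (‖y - z‖ + 1)) with hs
    have hn := norm_nonneg (y - z)
    have hs0 : 0 < s := by positivity
    refine ⟨s, hs0, ?_⟩
    have h1 := h (s • (y - z)) (Submodule.smul_mem _ _ hV) (by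
      rw [norm_smul, Real.norm_eq_abs, abs_of_pos hs0, hs, div_mul_eq_mul_div,
        div_lt_iff₀ (by positivity)]
      nlinarith)
    rw [T.oc_eq_of_mem hx hy] at h1
    exact T.oc_sub_cc x h1
  · rintro ⟨hy, h⟩
    obtain ⟨s, hs, h1⟩ := h x (T.self_mem_cc x)
    have h2 := T.move_mem_oc h1 (s := s / (1 + s)) (by positivity)
      (by rw [div_le_one (by positivity)]; linarith)
    have h3 : (1 + s) ≠ 0 := by positivity
    have e : y + s • (y - x) + (s / (1 + s)) • (x - (y + s • (y - x))) = y := by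
      have e1 : x - (y + s • (y - x)) = -(1 + s) • (y - x) := by module
      rw [e1, smul_smul]
      have e2 : s / (1 + s) * -(1 + s) = -s := by field_simp
      rw [e2]
      module
    rwa [e] at h2

end tiling

lemma interior_P_eq {H : Finset ((E3 →L[ℝ] ℝ) × ℝ)} (hI : (I H).Nonempty) :
    interior (P H) = I H := by
  apply Subset.antisymm
  · intro x hx
    obtain ⟨z, hz⟩ := hI
    have h1 : Tendsto (fun s : ℝ => x - s • (z - x)) (𝓝 0) (𝓝 (x - (0:ℝ) • (z - x))) := by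
      apply Continuous.tendsto
      fun_prop
    rw [zero_smul, sub_zero] at h1
    have h2 : ∀ᶠ s in 𝓝[>] (0:ℝ), x - s • (z - x) ∈ P H :=
      (h1.eventually (mem_interior_iff_mem_nhds.1 hx)).filter_mono nhdsWithin_le_nhds
    obtain ⟨s, h3, hs⟩ := (h2.and self_mem_nhdsWithin).exists
    have hs : (0:ℝ) < s := hs
    have h4 := mem_I_of_move h3 hz (show 0 < s / (1 + s) by positivity)
      (by rw [div_le_one (by positivity)]; linarith)
    have e : x - s • (z - x) + (s / (1 + s)) • (z - (x - s • (z - x))) = x := by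
      have h3 : (1 + s) ≠ 0 := by positivity
      have e1 : z - (x - s • (z - x)) = (1 + s) • (z - x) := by module
      rw [e1, smul_smul]
      have e2 : s / (1 + s) * (1 + s) = s := by field_simp
      rw [e2]
      module
    rwa [e] at h4
  · exact interior_maximal (I_sub_P H) (isOpen_I H)

/-! ### charts of 2-cells -/

/-- `S` has a chart on the square with the constants `Lf`, `Lg` -/
def FC (S : Set E3) (Lf Lg : ℝ≥0) : Prop := ∃ e : PLEquiv (cube 2) S,
  e.f '' (Ce_537.sph 2) = S \ rint S ∧ LipschitzOnWith Lf e.f (cube 2) ∧ LipschitzOnWith Lg e.g S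

lemma FC.mono {S : Set E3} {Lf Lg Lf' Lg' : ℝ≥0} (h : FC S Lf Lg) (h1 : Lf ≤ Lf')
    (h2 : Lg ≤ Lg') : FC S Lf' Lg' := by
  obtain ⟨e, he, hf, hg⟩ := h
  exact ⟨e, he, hf.weaken h1, hg.weaken h2⟩

lemma FC.map {S : Set E3} {Lf Lg a a' : ℝ≥0} (h : FC S Lf Lg) (B : E3 ≃ᵃ[ℝ] E3)
    (ha : LipschitzWith a B) (ha' : LipschitzWith a' B.symm) : FC (B '' S) (a * Lf) (Lg * a') := by
  obtain ⟨e, he, hf, hg⟩ := h
  have hB : ∀ z ∈ B '' S, B.symm z ∈ S := by
    rintro _ ⟨y, hy, rfl⟩; simpa using hy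
  refine ⟨⟨fun v => B (e.f v), fun y => e.g (B.symm y), ?_, ?_, ?_, ?_, ?_, ?_⟩, ?_, ?_, ?_⟩
  · exact pl_affine e.pf B.toAffineMap (continuous_aff B)
  · exact e.pg.comp (f := fun y => B.symm y) (plOn_affine B.symm.toAffineMap _) hB
  · exact fun v hv => mem_image_of_mem _ (e.mf hv)
  · exact fun y hy => e.mg (hB y hy)
  · intro v hv
    show e.g (B.symm (B (e.f v))) = v
    rw [AffineEquiv.symm_apply_apply, e.li v hv]
  · intro y hy
    show B (e.f (e.g (B.symm y))) = y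
    rw [e.ri _ (hB y hy), AffineEquiv.apply_symm_apply]
  · show (fun v => B (e.f v)) '' _ = _
    rw [← image_rint, ← image_sdiff B.injective, ← he, ← image_comp]
    rfl
  · exact ha.comp_lipschitzOnWith hf
  · exact hg.comp (ha'.lipschitzOnWith) hB

section tiling

variable {Om : Set E3} {ι : Type*} {T : Tiling Om ι}

/-- every 2-cell has a chart -/
lemma exists_FC {x : E3} (hx : x ∈ Om) (hd : T.dim x = 2) : ∃ Lf Lg, FC (T.cc x) Lf Lg := by
  have hball := T.isBall_cell hx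
  rw [hd] at hball
  obtain ⟨e, he⟩ := hball
  obtain ⟨Lf, hf⟩ := exists_lip (convex_closedBall (0 : Fin 2 → ℝ) 1) e.pf
  obtain ⟨Lg, hg⟩ := exists_lip (T.convex_cc x) e.pg
  exact ⟨Lf, Lg, e, by rw [he, oc_eq_rint hx], hf, hg⟩

end tiling

open Classical in
/-- the constant of the chart of a 2-cell of shape `S` -/
noncomputable def mF (S : Set E3) : ℝ≥0 := if h : ∃ m, FC S m m then h.choose else 0

lemma FC_mF {S : Set E3} (h : ∃ Lf Lg, FC S Lf Lg) : FC S (mF S) (mF S) := by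
  obtain ⟨Lf, Lg, h⟩ := h
  have h1 : ∃ m, FC S m m := ⟨max Lf Lg, h.mono (le_max_left _ _) (le_max_right _ _)⟩
  rw [mF, dif_pos h1]
  exact h1.choose_spec

section tiling

variable {Om : Set E3} {ι : Type*} {T : Tiling Om ι}


end tiling

/-! ### charts of tiles -/

/-- `S` has a chart on the cube with the constant `m` -/
def CC3 (S : Set E3) (L L' : ℝ≥0) : Prop := ∃ e e' : E3 → E3,
  Cht S (interior S) (closedBall 0 1) (ball 0 1) e e' L L'

lemma CC3.mono {S : Set E3} {L L' l l' : ℝ≥0} (h : CC3 S L L') (h1 : L ≤ l) (h2 : L' ≤ l') :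
    CC3 S l l' := by
  obtain ⟨e, e', h⟩ := h
  exact ⟨e, e', { h with lip := h.lip.weaken h1, lip' := h.lip'.weaken h2 }⟩

lemma CC3.map {S : Set E3} {L L' a a' : ℝ≥0} (h : CC3 S L L') (B : E3 ≃ᵃ[ℝ] E3)
    (ha : LipschitzWith a B) (ha' : LipschitzWith a' B.symm) : CC3 (B '' S) (L * a') (a * L') := by
  obtain ⟨e, e', h⟩ := h
  have hB : ∀ z ∈ B '' S, B.symm z ∈ S := by
    rintro _ ⟨y, hy, rfl⟩; simpa using hy
  refine ⟨fun y => e (B.symm y), fun z => B (e' z), ?_⟩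
  rw [← image_interior_aff]
  exact {
    clK := (hmB B).isClosedMap _ h.clK
    opU := (hmB B).isOpenMap _ h.opU
    sub := image_mono h.sub
    clK' := h.clK'
    opU' := h.opU'
    sub' := h.sub'
    maps := fun y hy => h.maps (hB y hy)
    maps' := fun z hz => mem_image_of_mem _ (h.maps' hz)
    inv := fun y hy => by
      show B (e' (e (B.symm y))) = y
      rw [h.inv _ (hB y hy), AffineEquiv.apply_symm_apply]
    inv' := fun z hz => by
      show e (B.symm (B (e' z))) = z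
      rw [AffineEquiv.symm_apply_apply, h.inv' z hz]
    mem := fun y hy => by
      rw [h.mem _ (hB y hy)]
      constructor
      · intro h1; exact ⟨B.symm y, h1, by simp⟩
      · rintro ⟨z, hz, rfl⟩; simpa using hz
    pl := h.pl.comp (f := fun y => B.symm y) (plOn_affine B.symm.toAffineMap _) hB
    pl' := pl_affine h.pl' B.toAffineMap (continuous_aff B)
    lip := h.lip.comp (ha'.lipschitzOnWith) hB
    lip' := ha.comp_lipschitzOnWith h.lip' }

open Classical in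
/-- the constant of the chart of a tile of shape `S` -/
noncomputable def mC (S : Set E3) : ℝ≥0 := if h : ∃ m, CC3 S m m then h.choose else 0

lemma CC3_mC {S : Set E3} (h : ∃ L L', CC3 S L L') : CC3 S (mC S) (mC S) := by
  obtain ⟨Lf, Lg, h⟩ := h
  have h1 : ∃ m, CC3 S m m := ⟨max Lf Lg, h.mono (le_max_left _ _) (le_max_right _ _)⟩
  rw [mC, dif_pos h1]
  exact h1.choose_spec


/-! ### centres -/

/-- inner and outer balls -/
structure TG (S : Set E3) (a : E3) (D E : ℝ≥0) : Prop where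
  pos : 0 < E
  inn : closedBall a (E : ℝ)⁻¹ ⊆ interior S
  out : S ⊆ closedBall a D

lemma exists_TG {S : Set E3} (hS : IsCompact S) (hI : (interior S).Nonempty) :
    ∃ a D E, TG S a D E := by
  obtain ⟨a, ha⟩ := hI
  obtain ⟨r, hr, h⟩ := nhds_basis_closedBall.mem_iff.1 (isOpen_interior.mem_nhds ha)
  obtain ⟨D, hD⟩ := hS.isBounded.subset_closedBall a
  refine ⟨a, D.toNNReal, (r.toNNReal)⁻¹, ?_, ?_, hD.trans (closedBall_subset_closedBall ?_)⟩
  · exact inv_pos.2 (Real.toNNReal_pos.2 hr)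
  · rw [NNReal.coe_inv, inv_inv, Real.coe_toNNReal _ hr.le]
    exact h
  · exact Real.le_coe_toNNReal D

open Classical in
/-- the centre of a shape -/
noncomputable def cen (S : Set E3) : E3 := if h : ∃ a D E, TG S a D E then h.choose else 0

open Classical in
/-- outer radius -/
noncomputable def mD (S : Set E3) : ℝ≥0 :=
  if h : ∃ D E, TG S (cen S) D E then h.choose else 0

open Classical in
/-- 1 / inner radius -/
noncomputable def mE (S : Set E3) : ℝ≥0 := if h : ∃ E, TG S (cen S) (mD S) E then h.choose else 0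

lemma TG_spec {S : Set E3} (h : ∃ a D E, TG S a D E) : TG S (cen S) (mD S) (mE S) := by
  have h1 : ∃ D E, TG S (cen S) D E := by
    rw [cen, dif_pos h]; exact h.choose_spec
  have h2 : ∃ E, TG S (cen S) (mD S) E := by
    have := h1.choose_spec
    rw [mD, dif_pos h1]; exact this
  rw [mE, dif_pos h2]
  exact h2.choose_spec

/-- the number of a shape -/
noncomputable def muK (S : Set E3) : ℝ≥0 := max (max (mF S) (mC S)) (max (mD S) (mE S))

end Crest.Agent.R096.Sq_55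
end

-- ▼ part R096/Sq23_55
section

/-!
# R096 (row 96), SOBSQ, part 23 (helper55): the system of a tiling with constants from the shapes
-/

set_option autoImplicit false
set_option linter.unusedSectionVars false

open Set Metric Filter Topology

namespace Crest.Agent.R096.Sq_55

open Crest.Agent.R096.Ce_537 Crest.Agent.R096.Bd_416 Crest.Agent.R96.Hole_348
open Crest.Agent.R096.Msh_715 (P I Tiling I_sub_P isOpen_I isClosed_P convex_P mem_I_of_move
  disjoint_P_I isBall_P_top mem_I_small)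
open scoped NNReal

/-- the bound -/
noncomputable def GG (v : ℝ≥0) : ℝ≥0 := 1 + v^2 + 6 * v^3 + 4 * v^9

lemma GG_mono {v w : ℝ≥0} (h : v ≤ w) : GG v ≤ GG w := by
  unfold GG
  gcongr

lemma one_le_GG (v : ℝ≥0) : 1 ≤ GG v := by
  unfold GG
  rw [add_assoc, add_assoc]
  exact le_self_add

section tiling

variable {Om : Set E3} {ι : Type*} {T : Tiling Om ι}

/-- the tile `i` has size `R` and, in the frame `B`, its cells have shapes with numbers `≤ v` -/
structure Shp (T : Tiling Om ι) (i : ι) (B : E3 ≃ᵃ[ℝ] E3) (R v : ℝ≥0) : Prop where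
  pos : 0 < R
  frm : Frm v R B
  sh : ∀ x ∈ P (T.H i), muK (B '' T.cc x) ≤ v

/-- the centre of a tile -/
noncomputable def ctT (T : Tiling Om ι) (i : ι) (B : E3 ≃ᵃ[ℝ] E3) : E3 :=
  B.symm (cen (B '' P (T.H i)))

namespace Shp

variable {i : ι} {B : E3 ≃ᵃ[ℝ] E3} {R v : ℝ≥0}

lemma tile (h : Shp T i B R v) : muK (B '' P (T.H i)) ≤ v := by
  obtain ⟨x, hx⟩ := T.ne i
  rw [← T.cc_eq_tile hx]
  exact h.sh x (I_sub_P _ hx)

lemma tg (_h : Shp T i B R v) :
    TG (B '' P (T.H i)) (cen (B '' P (T.H i))) (mD (B '' P (T.H i))) (mE (B '' P (T.H i))) := by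
  refine TG_spec (exists_TG ((T.cpt i).image (continuous_aff B)) ?_)
  rw [← image_interior_aff, interior_P_eq (T.ne i)]
  exact (T.ne i).image _

lemma mD_le (h : Shp T i B R v) : mD (B '' P (T.H i)) ≤ v :=
  (le_max_left _ _).trans ((le_max_right _ _).trans h.tile)

lemma mE_le (h : Shp T i B R v) : mE (B '' P (T.H i)) ≤ v :=
  (le_max_right _ _).trans ((le_max_right _ _).trans h.tile)

lemma mC_le (h : Shp T i B R v) : mC (B '' P (T.H i)) ≤ v :=
  (le_max_right _ _).trans ((le_max_left _ _).trans h.tile)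

lemma mF_le (h : Shp T i B R v) {x : E3} (hx : x ∈ P (T.H i)) : mF (B '' T.cc x) ≤ v :=
  (le_max_left _ _).trans ((le_max_left _ _).trans (h.sh x hx))

lemma v_pos (h : Shp T i B R v) : 0 < v := h.tg.pos.trans_le h.mE_le

lemma mono {w : ℝ≥0} (h : Shp T i B R v) (hvw : v ≤ w) : Shp T i B R w where
  pos := h.pos
  frm := ⟨h.frm.lip.weaken (by gcongr), h.frm.lip'.weaken (by gcongr)⟩
  sh := fun x hx => (h.sh x hx).trans hvw

/-- the ball around the centre -/
lemma ball_sub (h : Shp T i B R v) {r : ℝ≥0} (hr : r * (v * v) ≤ R) :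
    closedBall (ctT T i B) r ⊆ I (T.H i) := by
  intro y hy
  have hv := h.v_pos
  have h1 : ‖B y - cen (B '' P (T.H i))‖ ≤ (v / R : ℝ≥0) * ‖y - ctT T i B‖ := by
    have := h.frm.lip.dist_le_mul y (ctT T i B)
    rw [dist_eq_norm, dist_eq_norm, ctT, AffineEquiv.apply_symm_apply] at this
    exact this
  rw [mem_closedBall, dist_eq_norm] at hy
  have h2 : ‖B y - cen (B '' P (T.H i))‖ ≤ ((mE (B '' P (T.H i)) : ℝ≥0) : ℝ)⁻¹ := by
    have h3 : (v / R : ℝ≥0) * r ≤ (mE (B '' P (T.H i)))⁻¹ := by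
      rw [← one_div, le_div_iff₀ h.tg.pos]
      calc v / R * r * mE (B '' P (T.H i)) ≤ v / R * r * v := by
            gcongr; exact h.mE_le
        _ = (r * (v * v)) / R := by ring
        _ ≤ 1 := (div_le_one h.pos).2 hr
    calc _ ≤ (v / R : ℝ≥0) * ‖y - ctT T i B‖ := h1
      _ ≤ (v / R : ℝ≥0) * (r : ℝ) := mul_le_mul_of_nonneg_left hy (NNReal.coe_nonneg _)
      _ ≤ _ := by exact_mod_cast h3
  have h3 : B y ∈ interior (B '' P (T.H i)) :=
    h.tg.inn (by rw [mem_closedBall, dist_eq_norm]; exact h2)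
  rw [← image_interior_aff, interior_P_eq (T.ne i)] at h3
  obtain ⟨z, hz, e⟩ := h3
  rwa [B.injective e] at hz

lemma ctT_mem (h : Shp T i B R v) : ctT T i B ∈ I (T.H i) :=
  h.ball_sub (r := 0) (by rw [zero_mul]; exact h.pos.le) (mem_closedBall_self le_rfl)

lemma norm_le (h : Shp T i B R v) {y : E3} (hy : y ∈ P (T.H i)) :
    ‖ctT T i B - y‖ ≤ (v * v * R : ℝ≥0) := by
  have h1 := h.tg.out (mem_image_of_mem B hy)
  rw [mem_closedBall, dist_comm] at h1
  have h2 := h.frm.lip'.dist_le_mul (cen (B '' P (T.H i))) (B y)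
  rw [AffineEquiv.symm_apply_apply] at h2
  have h3 : ((mD (B '' P (T.H i)) : ℝ≥0) : ℝ) ≤ v := by exact_mod_cast h.mD_le
  calc ‖ctT T i B - y‖ = dist (B.symm (cen (B '' P (T.H i)))) y := by rw [dist_eq_norm]; rfl
    _ ≤ (v * R : ℝ≥0) * dist (cen (B '' P (T.H i))) (B y) := h2
    _ ≤ (v * R : ℝ≥0) * v := mul_le_mul_of_nonneg_left (h1.trans h3) (NNReal.coe_nonneg _)
    _ = (v * v * R : ℝ≥0) := by push_cast; ring

end Shp




/-- finite lists of shapes -/
lemma exists_muK_le {𝓕 : Set (Set E3)} (h : 𝓕.Finite) : ∃ v₀ : ℝ≥0, ∀ v, v₀ ≤ v →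
    ∀ K ∈ 𝓕, muK K ≤ v := by
  obtain ⟨b, hb⟩ := (h.image muK).bddAbove
  exact ⟨b, fun v hv K hK => (hb (mem_image_of_mem _ hK)).trans hv⟩

end tiling

end Crest.Agent.R096.Sq_55
end

-- ▼ part R096/Sq24_55
section

/-!
# R096 (row 96), SOBSQ, part 24 (helper55): edges of tilings with uniform numbers, charts in a plane

`rel_tube` = 143's `cell_tube` for a chart whose domain need not be open.
-/

set_option autoImplicit false
set_option linter.unusedSectionVars false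

open Set Metric Filter Topology

namespace Crest.Agent.R096.Sq_55

open Crest.Agent.R096.Ce_537 Crest.Agent.R096.Bd_416 Crest.Agent.R96.Hole_348
open Crest.Agent.R096.Sqt_143 (Tv map_line aff_sub tv_of_sel aff_large_fin exists_opbound outer_tv
  outer_sub_le norm_outer_one lip_le piece_near)
open Crest.Agent.R096.Msh_715 (P I Tiling I_sub_P isOpen_I isClosed_P convex_P mem_I_of_move
  disjoint_P_I isBall_P_top mem_I_small)
open scoped NNReal

section rel

variable {n : ℕ} {E F : Type*} [NormedAddCommGroup E] [NormedSpace ℝ E] [NormedAddCommGroup F]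
  [NormedSpace ℝ F]

/-- all active pieces have the same derivative in the direction `v` -/
lemma tv_of_sel_rel [FiniteDimensional ℝ E] {h : E → F} {K : Set E} {S : Finset (E →ᵃ[ℝ] F)}
    (hS : ∀ x ∈ K, ∃ f ∈ S, h x = f x) {x v : E} {w : F}
    (hK : ∀ᶠ σ in 𝓝 (0:ℝ), x + σ • v ∈ K)
    (hc : ContinuousWithinAt h K x) (ha : ∀ f ∈ S, h x = f x → f.linear v = w) : Tv h x v w := by
  have h2 : Tendsto (fun σ : ℝ => x + σ • v) (𝓝 0) (𝓝[K] x) := by
    refine tendsto_nhdsWithin_iff.2 ⟨?_, hK⟩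
    have : Continuous fun σ : ℝ => x + σ • v := by fun_prop
    simpa using this.tendsto 0
  have h1 : ∀ᶠ y in 𝓝[K] x, ∀ f ∈ S, h x ≠ f x → h y ≠ f y := by
    rw [eventually_all_finset]
    intro f _
    by_cases hf : h x = f x
    · exact Eventually.of_forall fun y h => absurd hf h
    · have h3 : ContinuousWithinAt (fun y => h y - f y) K x :=
        hc.sub (AffineMap.continuous_of_finiteDimensional f).continuousAt.continuousWithinAt
      have h4 : h x - f x ≠ 0 := sub_ne_zero.2 hf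
      filter_upwards [h3.eventually_ne h4] with y hy _
      exact sub_ne_zero.1 hy
  filter_upwards [h2.eventually h1, hK] with σ h3 h4
  obtain ⟨f, hf, hfx⟩ := hS _ h4
  have h5 : h x = f x := by
    by_contra hne
    exact h3 f hf hne hfx
  rw [hfx, map_line, ← h5, ha f hf h5]

/-- **the squeeze near an edge**, relative form -/
theorem rel_tube [FiniteDimensional ℝ E] {K U : Set E} {e : E → (Fin n → ℝ)}
    {e' : (Fin n → ℝ) → E} {L L' : ℝ≥0} (pe : PLOn e K) (pe' : PLOn e' (closedBall 0 1))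
    (le : LipschitzOnWith L e K) (le' : LipschitzOnWith L' e' (closedBall 0 1))
    (maps : MapsTo e K (closedBall 0 1)) (inv : ∀ x ∈ K, e' (e x) = x) (hsub : U ⊆ K)
    (mem : ∀ x ∈ K, ‖e x‖ < 1 ↔ x ∈ U) {a v : E}
    (hop : ∀ x ∈ U, ∀ᶠ σ in 𝓝 (0:ℝ), x + σ • v ∈ K)
    (hK : ∀ t ∈ Icc (0:ℝ) 1, a + t • v ∈ K) (hU : ∀ t ∈ Icc (0:ℝ) 1, a + t • v ∉ U) :
    ∃ c0 : ℝ, 0 < c0 ∧ ∃ C : ℝ, 0 < C ∧ ∃ X : Finset ℝ, (∀ s ∈ X, s ∈ Icc (0:ℝ) 1) ∧
      ∀ τ : ℝ, 0 < τ → τ ≤ 1/2 → ∀ x ∈ U, ∀ t ∈ Icc (0:ℝ) 1, ∀ u ≤ c0, ‖x - (a + t • v)‖ ≤ u →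
        (∀ s ∈ X, C * u < |t - s|) →
        1/2 < ‖e x‖ ∧ Tv (fun y => e' (outer τ 1 (e y))) x v v := by
  classical
  obtain ⟨ce, S, hS⟩ := pe
  obtain ⟨ce', S', hS'⟩ := pe'
  obtain ⟨M, hM0, hM⟩ := exists_opbound S
  obtain ⟨M', hM'0, hM'⟩ := exists_opbound S'
  have hL0 : (0:ℝ) ≤ L := L.coe_nonneg
  have hL'0 : (0:ℝ) ≤ L' := L'.coe_nonneg
  -- the three families
  obtain ⟨c1, hc1, C1, hC1, X1, hX1, h1⟩ := aff_large_fin (S ×ˢ S)
    (fun p => p.1 a - p.2 a) (fun p => p.1.linear v - p.2.linear v) (fun _ => M + L)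
  obtain ⟨c2, hc2, C2, hC2, X2, hX2, h2⟩ := aff_large_fin (F := ℝ)
    (S ×ˢ ((Finset.univ : Finset (Fin n)) ×ˢ ({1, -1} : Finset ℝ)))
    (fun p => 1 - p.2.2 * p.1 a p.2.1) (fun p => - (p.2.2 * p.1.linear v p.2.1))
    (fun _ => 6 * (L:ℝ))
  obtain ⟨c3, hc3, C3, hC3, X3, hX3, h3⟩ := aff_large_fin (S ×ˢ S')
    (fun p => p.2 (p.1 a) - a) (fun p => p.2.linear (p.1.linear v) - v)
    (fun _ => (M' + L') * (3 * (L:ℝ)))
  refine ⟨min (min c1 c2) (min c3 (1 / (4 * ((L:ℝ) + 1)))), ?_, max C1 (max C2 C3),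
    lt_max_of_lt_left hC1, X1 ∪ (X2 ∪ X3), ?_, ?_⟩
  · exact lt_min (lt_min hc1 hc2) (lt_min hc3 (by positivity))
  · intro s hs
    rcases Finset.mem_union.1 hs with h | h
    · exact hX1 s h
    · rcases Finset.mem_union.1 h with h | h
      · exact hX2 s h
      · exact hX3 s h
  intro τ hτ0 hτ x hx t ht u hu hxu hX
  have hu0 : 0 ≤ u := (norm_nonneg _).trans hxu
  have hu1 : u ≤ c1 := hu.trans ((min_le_left _ _).trans (min_le_left _ _))
  have hu2 : u ≤ c2 := hu.trans ((min_le_left _ _).trans (min_le_right _ _))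
  have hu3 : u ≤ c3 := hu.trans ((min_le_right _ _).trans (min_le_left _ _))
  have hu4 : u ≤ 1 / (4 * ((L:ℝ) + 1)) := hu.trans ((min_le_right _ _).trans (min_le_right _ _))
  have hY1 : ∀ s ∈ X1, C1 * u < |t - s| := fun s hs =>
    (mul_le_mul_of_nonneg_right (le_max_left _ _) hu0).trans_lt
      (hX s (Finset.mem_union_left _ hs))
  have hY2 : ∀ s ∈ X2, C2 * u < |t - s| := fun s hs =>
    (mul_le_mul_of_nonneg_right ((le_max_left _ _).trans (le_max_right _ _)) hu0).trans_lt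
      (hX s (Finset.mem_union_right _ (Finset.mem_union_left _ hs)))
  have hY3 : ∀ s ∈ X3, C3 * u < |t - s| := fun s hs =>
    (mul_le_mul_of_nonneg_right ((le_max_right _ _).trans (le_max_right _ _)) hu0).trans_lt
      (hX s (Finset.mem_union_right _ (Finset.mem_union_right _ hs)))
  set y := a + t • v with hy
  have hyK : y ∈ K := hK t ht
  have hyU : y ∉ U := hU t ht
  have hxK : x ∈ K := hsub hx
  obtain ⟨g, hg, hgy⟩ := hS y hyK
  set w := g.linear v with hw
  -- the norm of `e y`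
  have hey1 : ‖e y‖ ≤ 1 := by simpa using maps hyK
  have hey : ‖e y‖ = 1 := by
    refine le_antisymm hey1 (not_lt.1 fun h => hyU ?_)
    exact (mem y hyK).1 h
  have hexy : ‖e x - e y‖ ≤ L * u :=
    (lip_le le hxK hyK).trans (mul_le_mul_of_nonneg_left hxu hL0)
  have hLu : (L:ℝ) * u ≤ 1/4 := by
    rw [le_div_iff₀ (by positivity)] at hu4
    nlinarith
  have hex1 : ‖e x‖ < 1 := (mem x hxK).2 hx
  have hex2 : 1 - L * u ≤ ‖e x‖ := by
    have : ‖e y‖ ≤ ‖e x‖ + ‖e x - e y‖ := by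
      calc ‖e y‖ = ‖e x - (e x - e y)‖ := by congr 1; abel
        _ ≤ _ := norm_sub_le _ _
    linarith
  have hex3 : 1/2 < ‖e x‖ := by linarith
  refine ⟨hex3, ?_⟩
  -- step 1
  have T1 : Tv e x v w := by
    refine tv_of_sel_rel hS (hop x hx) (ce x hxK) ?_
    intro f hf hfx
    by_contra hne
    have h4 := h1 t ht u hu0 hu1 hY1 (f, g) (Finset.mem_product.2 ⟨hf, hg⟩) (sub_ne_zero.2 hne)
    have h5 := piece_near le (hM f hf) hM0 hxK hyK hfx hgy hxu
    have e1 : (f a - g a) + t • (f.linear v - g.linear v) = f y - g y := by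
      rw [hy, map_line, map_line, smul_sub]; abel
    have h6 : ‖(f a - g a) + t • (f.linear v - g.linear v)‖ ≤ (M + L) * u := by
      rw [e1]; exact h5
    exact absurd h4 (not_lt.2 h6)
  -- step 2
  have T2 : Tv (outer τ 1) (e x) w w := by
    refine outer_tv hey hτ0 hτ hexy ?_
    intro j hj
    have key : ∀ s : ℝ, s ∈ ({1, -1} : Finset ℝ) → 6 * (L:ℝ) * u < |1 - s * e y j| := by
      intro s hs
      have hs0 : s ≠ 0 := by
        rcases Finset.mem_insert.1 hs with rfl | hs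
        · norm_num
        · rw [Finset.mem_singleton.1 hs]; norm_num
      have h4 := h2 t ht u hu0 hu2 hY2 (g, (j, s)) (Finset.mem_product.2 ⟨hg,
        Finset.mem_product.2 ⟨Finset.mem_univ _, hs⟩⟩) (neg_ne_zero.2 (mul_ne_zero hs0 hj))
      have e1 : (1 - s * g a j) + t • (-(s * g.linear v j)) = 1 - s * e y j := by
        rw [hgy, hy, map_line]
        simp only [Pi.add_apply, Pi.smul_apply, smul_eq_mul]
        ring
      have h5 : 6 * (L:ℝ) * u < ‖(1 - s * g a j) + t • (-(s * g.linear v j))‖ := h4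
      rwa [e1, Real.norm_eq_abs] at h5
    have k1 := key 1 (by simp)
    have k2 := key (-1) (by simp)
    have hj1 : |e y j| ≤ 1 := (norm_le_pi_norm (e y) j).trans hey1
    have hj2 := abs_le.1 hj1
    rw [abs_of_nonneg (by linarith)] at k1
    rw [abs_of_nonneg (by linarith)] at k2
    have : |e y j| < 1 - 6 * L * u := by rw [abs_lt]; constructor <;> linarith
    linarith
  -- step 3
  set z' := outer τ 1 (e x) with hz'
  have hz'1 : ‖z'‖ < 1 := by
    rw [hz', norm_outer_one hτ0 hτ hex3.le hex1.le]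
    nlinarith
  have hz'y : ‖z' - e y‖ ≤ 3 * (L:ℝ) * u := by
    have h4 := outer_sub_le hτ0 hτ hex3.le hex1.le
    have e1 : z' - e y = (z' - e x) + (e x - e y) := by abel
    rw [e1]
    refine (norm_add_le _ _).trans ?_
    linarith
  have hzK : z' ∈ closedBall (0 : Fin n → ℝ) 1 := by simpa using hz'1.le
  have hyK' : e y ∈ closedBall (0 : Fin n → ℝ) 1 := maps hyK
  have T3 : Tv e' z' w v := by
    have hnb : closedBall (0 : Fin n → ℝ) 1 ∈ 𝓝 z' :=
      mem_of_superset (isOpen_ball.mem_nhds (by simpa using hz'1)) ball_subset_closedBall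
    refine tv_of_sel hS' hnb (ce'.continuousAt hnb) ?_
    intro k hk hkz
    by_contra hne
    have h4 := h3 t ht u hu0 hu3 hY3 (g, k) (Finset.mem_product.2 ⟨hg, hk⟩) (sub_ne_zero.2 hne)
    obtain ⟨k', hk', hk'y⟩ := hS' (e y) hyK'
    have h5 := piece_near le' (hM' k hk) hM'0 hzK hyK' hkz hk'y hz'y
    have e1 : (k (g a) - a) + t • (k.linear (g.linear v) - v) = k (e y) - k' (e y) := by
      rw [← hk'y, inv y hyK, hgy, hy, map_line, map_line, smul_sub]; abel
    have h6 : ‖(k (g a) - a) + t • (k.linear (g.linear v) - v)‖ ≤ (M' + L') * (3 * (L:ℝ)) * u := by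
      rw [e1]; linarith
    exact absurd h4 (not_lt.2 h6)
  exact (T1.comp (k := outer τ 1) T2).comp (k := e') T3


end rel

/-- the squeezes keep the direction `v` at all points of `U` at distance `≤ u ≤ u0` from the
edge, up to `N` intervals of length `2 β u` of parameters -/
def CT {n : ℕ} (U : Set E3) (e : E3 → Fin n → ℝ) (e' : (Fin n → ℝ) → E3) (a v : E3) (u0 β : ℝ)
    (N : ℕ) : Prop :=
  ∃ X : Finset ℝ, X.card ≤ N ∧ (∀ s ∈ X, s ∈ Icc (0:ℝ) 1) ∧
    ∀ τ : ℝ, 0 < τ → τ ≤ 1/2 → ∀ x ∈ U, ∀ t ∈ Icc (0:ℝ) 1, ∀ u ≤ u0, ‖x - (a + t • v)‖ ≤ u →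
      (∀ s ∈ X, β * u < |t - s|) →
      1/2 < ‖e x‖ ∧ Tv (fun y => e' (outer τ 1 (e y))) x v v

lemma CT.mono {n : ℕ} {U : Set E3} {e : E3 → Fin n → ℝ} {e' : (Fin n → ℝ) → E3} {a v : E3}
    {u0 β u0' β' : ℝ} {N N' : ℕ} (h : CT U e e' a v u0 β N) (h1 : u0' ≤ u0) (h2 : β ≤ β')
    (h3 : N ≤ N') : CT U e e' a v u0' β' N' := by
  obtain ⟨X, hX1, hX2, key⟩ := h
  refine ⟨X, hX1.trans h3, hX2, fun τ a1 a2 x hx t ht u hu hxu hX => ?_⟩
  exact key τ a1 a2 x hx t ht u (hu.trans h1) hxu fun s hs =>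
    (mul_le_mul_of_nonneg_right h2 ((norm_nonneg _).trans hxu)).trans_lt (hX s hs)

/-- transport by a similarity up to bounded factors -/
lemma CT.pull {n : ℕ} {U : Set E3} {e : E3 → Fin n → ℝ} {e' : (Fin n → ℝ) → E3} {a v : E3}
    {u0 β : ℝ} {N : ℕ} {Λ R : ℝ≥0} {B : E3 ≃ᵃ[ℝ] E3} (hB : Frm Λ R B) (hR : 0 < R) (hΛ : 0 < Λ)
    (h : CT (B '' U) e e' (B a) (B.linear v) u0 β N) :
    CT U (fun y => e (B y)) (fun z => B.symm (e' z)) a v (u0 * (R / Λ)) (β * (Λ / R)) N := by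
  obtain ⟨X, hX1, hX2, key⟩ := h
  refine ⟨X, hX1, hX2, fun τ a1 a2 x hx t ht u hu hxu hX => ?_⟩
  have hR' : (0:ℝ) < R := by exact_mod_cast hR
  have hΛ' : (0:ℝ) < Λ := by exact_mod_cast hΛ
  have e1 : B (a + t • v) = B a + t • B.linear v := map_line B.toAffineMap a v t
  have h1 : ‖B x - (B a + t • B.linear v)‖ ≤ Λ / R * u := by
    rw [← e1]
    have := hB.lip.dist_le_mul x (a + t • v)
    rw [dist_eq_norm, dist_eq_norm] at this
    push_cast at this
    exact this.trans (mul_le_mul_of_nonneg_left hxu (by positivity))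
  obtain ⟨k1, k2⟩ := key τ a1 a2 (B x) (mem_image_of_mem _ hx) t ht (Λ / R * u) (by
    calc (Λ:ℝ) / R * u ≤ Λ / R * (u0 * (R / Λ)) := mul_le_mul_of_nonneg_left hu (by positivity)
      _ = u0 := by field_simp) h1 (fun s hs => by
        have := hX s hs
        rwa [mul_assoc] at this)
  refine ⟨k1, ?_⟩
  filter_upwards [k2] with σ hσ
  have e2 : B (x + σ • v) = B x + σ • B.linear v := map_line B.toAffineMap x v σ
  show B.symm (e' (outer τ 1 (e (B (x + σ • v))))) = B.symm (e' (outer τ 1 (e (B x)))) + σ • v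
  rw [e2, hσ]
  apply B.injective
  rw [AffineEquiv.apply_symm_apply, show B (B.symm (e' (outer τ 1 (e (B x)))) + σ • v) =
    B (B.symm (e' (outer τ 1 (e (B x))))) + σ • B.linear v from map_line B.toAffineMap _ v σ,
    AffineEquiv.apply_symm_apply]

/-- the two parametrisations of a segment -/
lemma segment_param {a v b w : E3} (h : segment ℝ a (a + v) = segment ℝ b (b + w)) :
    (b = a ∧ w = v) ∨ (b = a + v ∧ w = -v) := by
  have hb : b ∈ segment ℝ a (a + v) := by rw [h]; exact left_mem_segment ℝ _ _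
  have hbw : b + w ∈ segment ℝ a (a + v) := by rw [h]; exact right_mem_segment ℝ _ _
  have ha : a ∈ segment ℝ b (b + w) := by rw [← h]; exact left_mem_segment ℝ _ _
  have hav : a + v ∈ segment ℝ b (b + w) := by rw [← h]; exact right_mem_segment ℝ _ _
  rw [segment_eq_image'] at hb hbw ha hav
  obtain ⟨s, hs, es⟩ := hb
  obtain ⟨t, ht, et⟩ := hbw
  obtain ⟨s', hs', es'⟩ := ha
  obtain ⟨t', ht', et'⟩ := hav
  simp only [add_sub_cancel_left] at es et es' et'
  -- `w = (t - s) v`, `v = (t' - s') w`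
  have e1 : w = (t - s) • v := by
    have : b + w - b = (a + t • v) - (a + s • v) := by rw [es, et]
    rw [add_sub_cancel_left] at this
    rw [this]; module
  have e2 : v = (t' - s') • w := by
    have : a + v - a = (b + t' • w) - (b + s' • w) := by rw [es', et']
    rw [add_sub_cancel_left] at this
    rw [this]; module
  rcases eq_or_ne v 0 with hv | hv
  · left
    refine ⟨?_, ?_⟩
    · rw [← es, hv, smul_zero, add_zero]
    · rw [e1, hv, smul_zero]
  · have e3 : (t' - s') * (t - s) = 1 := by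
      have h1 : ((t' - s') * (t - s)) • v = (1:ℝ) • v := by
        rw [← smul_smul, ← e1, ← e2, one_smul]
      exact smul_left_injective ℝ hv h1
    have b1 : |t - s| ≤ 1 := abs_le.2 ⟨by linarith [hs.2, ht.1], by linarith [hs.1, ht.2]⟩
    have b2 : |t' - s'| ≤ 1 := abs_le.2 ⟨by linarith [hs'.2, ht'.1], by linarith [hs'.1, ht'.2]⟩
    have b3 : |t' - s'| * |t - s| = 1 := by rw [← abs_mul, e3, abs_one]
    have b4 : |t - s| = 1 := by nlinarith [abs_nonneg (t - s), abs_nonneg (t' - s')]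
    rcases eq_or_eq_neg_of_abs_eq b4 with h1 | h1
    · left
      have hs0 : s = 0 := by linarith [hs.1, ht.2]
      refine ⟨by rw [← es, hs0, zero_smul, add_zero], by rw [e1, h1, one_smul]⟩
    · right
      have hs1 : s = 1 := by linarith [hs.2, ht.1]
      refine ⟨by rw [← es, hs1, one_smul], by rw [e1, h1, neg_smul, one_smul]⟩

end Crest.Agent.R096.Sq_55
end

-- ▼ part R096/Sq25_55
section

/-!
# R096 (row 96), SOBSQ, part 25 (helper55): the squeeze of a double pyramid near an edge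
-/

set_option autoImplicit false
set_option linter.unusedSectionVars false

open Set Metric Filter Topology

namespace Crest.Agent.R096.Sq_55

open Crest.Agent.R096.Ce_537 Crest.Agent.R096.Bd_416 Crest.Agent.R96.Hole_348
open Crest.Agent.R096.Sqt_143 (Tv map_line aff_sub fo OnC OnF CellT FaceT)
open Crest.Agent.R096.Msh_715 (P I Tiling I_sub_P isOpen_I isClosed_P convex_P mem_I_of_move
  disjoint_P_I isBall_P_top mem_I_small)
open scoped NNReal

namespace Dp

variable (D : Dp)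

lemma l_dir {a v : E3} (h0 : a ∈ D.F) (h1 : a + v ∈ D.F) : D.l v = 0 := by
  have e0 := D.pl _ h0
  have e1 := D.pl _ h1
  have : a + v - D.b = (a - D.b) + v := by abel
  rw [this, map_add, e0, zero_add] at e1
  exact e1

lemma t_add {x v : E3} (hv : D.l v = 0) (s : ℝ) : D.t (x + s • v) = D.t x := by
  have : D.l (x + s • v - D.b) = D.l (x - D.b) := by
    have : x + s • v - D.b = (x - D.b) + s • v := by abel
    rw [this, map_add, map_smul, hv, smul_zero, add_zero]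
  rw [t, t, this]

lemma w_add {x v : E3} (hv : D.l v = 0) (s : ℝ) : D.w (x + s • v) = D.w x + s • v := by
  rw [w, w, D.t_add hv]; abel

lemma t_face {y : E3} (hy : y ∈ D.F) : D.t y = 0 := by
  rw [t, D.pl y hy, neg_zero, pp_pos le_rfl, zero_div, zero_div, sub_zero]

lemma w_face {y : E3} (hy : y ∈ D.F) : D.w y = y - D.b := by
  rw [w, D.t_face hy, ax, neg_zero, pp_pos le_rfl, zero_smul, zero_smul, add_zero, sub_zero]

/-- the foot of the point in the plane of the face -/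
noncomputable def q (x : E3) : E3 := D.b + (1 - |D.t x|)⁻¹ • D.w x

lemma q_add {x v : E3} (hv : D.l v = 0) (s : ℝ) :
    D.q (x + s • v) = D.q x + (s * (1 - |D.t x|)⁻¹) • v := by
  rw [q, q, D.t_add hv, D.w_add hv, smul_add, smul_smul, mul_comm s, add_assoc]

lemma tl_ch' (x : E3) (h : 0 < 1 - |D.t x|) :
    tl (D.ch x) = (1 - |D.t x|) • D.e.g (D.q x) := by
  rw [tl_ch, con_pos (show 0 < (1 - |D.t x|, D.w x).1 from h)]
  rfl

/-- the squeeze in the chart -/
lemma ch'_fo {x : E3} (h : 0 < 1 - |D.t x|) (τ : ℝ) :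
    D.ch' (fo τ (D.ch x)) = D.b + D.ax (D.t x) +
      (1 - |D.t x|) • (D.e.f (outer τ 1 (D.e.g (D.q x))) - D.b) := by
  have e0 : fo τ (D.ch x) 0 = D.t x := rfl
  have e1 : tl (fo τ (D.ch x)) = (1 - |D.t x|) • outer τ 1 (D.e.g (D.q x)) := by
    show (1 - |D.ch x 0|) • outer τ 1 ((1 - |D.ch x 0|)⁻¹ • tl (D.ch x)) = _
    rw [D.ch_zero, D.tl_ch' x h, smul_smul, inv_mul_cancel₀ h.ne', one_smul]
  rw [ch', e0, e1, con_pos (show 0 < (1 - |D.t x|,
    (1 - |D.t x|) • outer τ 1 (D.e.g (D.q x))).1 from h)]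
  show D.b + D.ax (D.t x) + (1 - |D.t x|) • (D.e.f ((1 - |D.t x|)⁻¹ •
    ((1 - |D.t x|) • outer τ 1 (D.e.g (D.q x)))) - D.b) = _
  rw [smul_smul, inv_mul_cancel₀ h.ne', one_smul]

/-- the foot is near the point if the point is near the face -/
lemma norm_q_sub_le {r d : ℝ} (hr : 0 < r)
    (h1 : ∀ v, r * |D.l v| ≤ D.l (D.a - D.b) * ‖v‖)
    (h2 : ∀ v, r * |D.l v| ≤ -D.l (D.a' - D.b) * ‖v‖)
    (h3 : ‖D.a - D.b‖ ≤ d) (h4 : ‖D.a' - D.b‖ ≤ d) (h5 : ∀ y ∈ D.F, ‖y - D.b‖ ≤ d)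
    {x y : E3} (hx : x ∈ D.V) (hy : y ∈ D.F) :
    ‖D.q x - y‖ ≤ (1 + 2 * (d / r)) * ‖x - y‖ := by
  have hx1 : 0 < 1 - |D.t x| := hx.1
  have hd : 0 ≤ d := (norm_nonneg _).trans h3
  have ht := D.abs_t_sub_le h1 h2 hr x y
  rw [D.t_face hy, sub_zero] at ht
  have hax := D.norm_ax_sub_le h3 h4 (D.t x) (D.t y)
  rw [D.t_face hy, sub_zero] at hax
  have hw : D.w x - D.w y = (x - y) - (D.ax (D.t x) - D.ax 0) := by
    unfold w; rw [D.t_face hy]; abel
  have hq : D.q x - y = (D.w x - D.w y) + |D.t x| • (D.q x - D.b) := by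
    rw [D.w_face hy, q, add_sub_cancel_left, smul_smul]
    have e : |D.t x| * (1 - |D.t x|)⁻¹ = (1 - |D.t x|)⁻¹ - 1 := by field_simp; ring
    rw [e, sub_smul, one_smul]
    abel
  have hqF : ‖D.q x - D.b‖ ≤ d := h5 _ (D.sF hx.2)
  have hn := norm_nonneg (x - y)
  calc ‖D.q x - y‖ ≤ ‖D.w x - D.w y‖ + ‖|D.t x| • (D.q x - D.b)‖ := by
        rw [hq]; exact norm_add_le _ _
    _ ≤ (‖x - y‖ + d * |D.t x|) + |D.t x| * d := by
        refine add_le_add ?_ ?_
        · rw [hw]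
          exact (norm_sub_le _ _).trans (add_le_add le_rfl hax)
        · rw [norm_smul, Real.norm_eq_abs, abs_abs]
          exact mul_le_mul_of_nonneg_left hqF (abs_nonneg _)
    _ ≤ (‖x - y‖ + d * (r⁻¹ * ‖x - y‖)) + (r⁻¹ * ‖x - y‖) * d :=
        add_le_add (add_le_add le_rfl (mul_le_mul_of_nonneg_left ht hd))
          (mul_le_mul_of_nonneg_right ht hd)
    _ = (1 + 2 * (d / r)) * ‖x - y‖ := by ring

/-- **the squeeze of a double pyramid near an edge** from the chart of the face -/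
theorem tube {r d : ℝ} (hr : 0 < r)
    (h1 : ∀ v, r * |D.l v| ≤ D.l (D.a - D.b) * ‖v‖)
    (h2 : ∀ v, r * |D.l v| ≤ -D.l (D.a' - D.b) * ‖v‖)
    (h3 : ‖D.a - D.b‖ ≤ d) (h4 : ‖D.a' - D.b‖ ≤ d) (h5 : ∀ y ∈ D.F, ‖y - D.b‖ ≤ d)
    {a v : E3} (ha : ∀ t ∈ Icc (0:ℝ) 1, a + t • v ∈ D.F) {u0 β : ℝ} {N : ℕ}
    (h : CT D.oF D.e.g D.e.f a v u0 β N) :
    ∃ X : Finset ℝ, X.card ≤ N ∧ (∀ s ∈ X, s ∈ Icc (0:ℝ) 1) ∧
    ∀ τ : ℝ, 0 < τ → τ ≤ 1/2 → ∀ x ∈ D.V, ∀ t ∈ Icc (0:ℝ) 1, ∀ u ≤ u0 / (1 + 2 * (d / r)),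
      ‖x - (a + t • v)‖ ≤ u → (∀ s ∈ X, (β * (1 + 2 * (d / r))) * u < |t - s|) →
      (1/2) * (1 - |D.ch x 0|) < wid (D.ch x) ∧ Tv (fun y => D.ch' (fo τ (D.ch y))) x v v := by
  obtain ⟨X, hX1, hX2, key⟩ := h
  refine ⟨X, hX1, hX2, fun τ a1 a2 x hx t ht u hu hxu hX => ?_⟩
  have hd : 0 ≤ d := (norm_nonneg _).trans h3
  set κ : ℝ := 1 + 2 * (d / r) with hκ
  have hκ0 : 0 < κ := by positivity
  have hx1 : 0 < 1 - |D.t x| := hx.1
  have hlv : D.l v = 0 := D.l_dir (a := a) (by simpa using ha 0 (by simp))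
    (by simpa using ha 1 (by simp))
  have hq : ‖D.q x - (a + t • v)‖ ≤ κ * u :=
    (D.norm_q_sub_le hr h1 h2 h3 h4 h5 hx (ha t ht)).trans
      (mul_le_mul_of_nonneg_left hxu hκ0.le)
  obtain ⟨k1, k2⟩ := key τ a1 a2 (D.q x) hx.2 t ht (κ * u) (by
    rw [le_div_iff₀ hκ0] at hu; linarith) hq (fun s hs => by
      have := hX s hs
      rwa [mul_assoc] at this)
  constructor
  · rw [wid_eq, D.tl_ch' x hx1, D.ch_zero, norm_smul, Real.norm_eq_abs, abs_of_pos hx1]
    nlinarith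
  · have h6 : Tendsto (fun s : ℝ => s * (1 - |D.t x|)⁻¹) (𝓝 0) (𝓝 0) := by
      have : Continuous fun s : ℝ => s * (1 - |D.t x|)⁻¹ := by fun_prop
      simpa using this.tendsto 0
    filter_upwards [h6.eventually k2] with s hs
    have e1 : 0 < 1 - |D.t (x + s • v)| := by rw [D.t_add hlv]; exact hx1
    have hs' : D.e.f (outer τ 1 (D.e.g (D.q x + (s * (1 - |D.t x|)⁻¹) • v))) =
      D.e.f (outer τ 1 (D.e.g (D.q x))) + (s * (1 - |D.t x|)⁻¹) • v := hs
    show D.ch' (fo τ (D.ch (x + s • v))) = D.ch' (fo τ (D.ch x)) + s • v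
    rw [D.ch'_fo e1, D.ch'_fo hx1, D.t_add hlv, D.q_add hlv, hs']
    have e2 : (1 - |D.t x|) • ((s * (1 - |D.t x|)⁻¹) • v) = s • v := by
      rw [smul_smul]
      congr 1
      field_simp
    have e3 : D.e.f (outer τ 1 (D.e.g (D.q x))) + (s * (1 - |D.t x|)⁻¹) • v - D.b =
      (D.e.f (outer τ 1 (D.e.g (D.q x))) - D.b) + (s * (1 - |D.t x|)⁻¹) • v := by abel
    rw [e3, smul_add, e2]
    abel

end Dp

section tiling

variable {Om : Set E3} {ι : Type*} {T : Tiling Om ι} {c : ι → E3} {x : E3} {i j : ι} {D : Dp}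

/-- the double pyramid with a given chart of the face -/
theorem exists_dp_fg (T : Tiling Om ι) (c : ι → E3) (hc : ∀ i, c i ∈ I (T.H i)) {x : E3}
    (hx : x ∈ Om) (hd : T.dim x = 2) (e : PLEquiv (cube 2) (T.cc x))
    (he : e.f '' (Ce_537.sph 2) = T.cc x \ T.oc x) :
    ∃ i j D, IsDp T c x i j D ∧ D.e.f = e.f ∧ D.e.g = e.g := by
  obtain ⟨i, j, D, h⟩ := exists_dp T c hc hx hd
  obtain ⟨b, a, a', l, ha, ha', F, oF, cF, vF, sF, pl, bF, e0, sph0, O, hO, mO⟩ := D
  obtain ⟨ne, at_, ea, ea', eF, eoF⟩ := h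
  dsimp only at ea ea' eF eoF
  subst ea ea' eF eoF
  exact ⟨i, j, ⟨b, c i, c j, l, ha, ha', T.cc x, T.oc x, cF, vF, sF, pl, bF, e, he, O, hO, mO⟩,
    ⟨ne, at_, rfl, rfl, rfl, rfl⟩, rfl, rfl⟩

/-- the tube statement for all edges of the face -/
def FT (T : Tiling Om ι) (x : E3) (e : PLEquiv (cube 2) (T.cc x)) (κ : ℝ) (F : Face) : Prop :=
  ∀ a v : E3, (∀ t ∈ Icc (0:ℝ) 1, a + t • v ∈ T.cc x) → ∀ (u0 β : ℝ) (N : ℕ),
    CT (T.oc x) e.g e.f a v u0 β N → FaceT F a v (u0 / κ) (β * κ) N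

/-- **charts of the 2-cells, explicit constant, with the tube statement** -/
theorem exists_face_tube (hc : ∀ i, c i ∈ I (T.H i)) {x : E3} (hx : x ∈ Om) (hd : T.dim x = 2)
    (e : PLEquiv (cube 2) (T.cc x)) (he : e.f '' (Ce_537.sph 2) = T.cc x \ T.oc x)
    {ρ r d Lf Lg : ℝ≥0} (hρ : 0 < ρ) (hr : 0 < r)
    (hf : LipschitzOnWith Lf e.f (cube 2)) (hg : LipschitzOnWith Lg e.g (T.cc x))
    (hB : ∀ k ∈ T.at_ x, closedBall (c k) r ⊆ I (T.H k))
    (hd1 : ∀ k ∈ T.at_ x, ∀ y ∈ T.cc x, ‖c k - y‖ ≤ d)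
    (hd2 : ∀ y ∈ T.cc x, ∀ z ∈ T.cc x, ‖y - z‖ ≤ d) :
    ∃ F : Face, FaceOf T c x F ∧ F.ρ = ρ ∧ F.M = MF ρ r d Lf Lg ∧
      FT T x e (1 + 2 * (d / r)) F := by
  obtain ⟨i, j, D, h, ef, eg⟩ := exists_dp_fg T c hc hx hd e he
  have hf' : LipschitzOnWith Lf D.e.f (cube 2) := by rw [ef]; exact hf
  have hg' : LipschitzOnWith Lg D.e.g D.F := by rw [eg, h.F]; exact hg
  have hr' : (0:ℝ) < r := by exact_mod_cast hr
  have hbF : D.b ∈ T.cc x := by rw [← h.F]; exact D.sF D.bF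
  have q1 := h.ball_pos hx hr'.le (hB _ h.symm_mem.1)
  have q2 := h.ball_neg hx hr'.le (hB _ h.symm_mem.2)
  have q3 : ‖D.a - D.b‖ ≤ d := by rw [h.a]; exact hd1 _ h.symm_mem.1 _ hbF
  have q4 : ‖D.a' - D.b‖ ≤ d := by rw [h.a']; exact hd1 _ h.symm_mem.2 _ hbF
  have q5 : ∀ y ∈ D.F, ‖y - D.b‖ ≤ d := fun y hy => hd2 _ (by rw [← h.F]; exact hy) _ hbF
  have hL := D.cht_explicit hr q1 q2 q3 q4 q5 hf' hg'
  have hA := h.slab_explicit hx hr' hB hc
  set L := Lg + 2 * Lg * (d / r) + 1 / r with hL1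
  set L' := 2 * d + 2 * Lf with hL2
  set M : ℝ≥0 := MF ρ r d Lf Lg with hM
  have h1 : L ≤ M / ρ := by
    rw [le_div_iff₀ hρ]
    exact (le_max_left _ _).trans (le_max_right _ _)
  have h2 : L' ≤ M * ρ := by
    rw [← div_le_iff₀ hρ]
    exact (le_max_left _ _).trans ((le_max_right _ _).trans (le_max_right _ _))
  have h3 : ρ / r ≤ M := (le_max_right _ _).trans ((le_max_right _ _).trans (le_max_right _ _))
  refine ⟨⟨D.K, D.V, M, ρ, le_max_left _ _, hρ, D.ch, D.ch',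
    { hL with lip := hL.lip.weaken h1, lip' := hL.lip'.weaken h2 }⟩,
    ⟨i, j, D, h, rfl, rfl, fun y _ => rfl, fun k y hy hk z hz => ?_⟩, rfl, rfl, ?_⟩
  · have h5 := hA k y hy hk z hz
    have hρ' : (0:ℝ) ≤ ρ := ρ.coe_nonneg
    have h3' : (ρ:ℝ) / r ≤ M := by exact_mod_cast h3
    calc (ρ : ℝ) * |D.t y| ≤ ρ * ((r:ℝ)⁻¹ * ‖y - z‖) := mul_le_mul_of_nonneg_left h5 hρ'
      _ = (ρ / r) * ‖y - z‖ := by ring
      _ ≤ M * ‖y - z‖ := mul_le_mul_of_nonneg_right h3' (norm_nonneg _)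
  · intro a v hav u0 β N hCT
    refine D.tube hr' q1 q2 q3 q4 q5 (a := a) (v := v) (fun t ht => by rw [h.F]; exact hav t ht)
      (u0 := u0) (β := β) (N := N) ?_
    rw [ef, eg, h.oF]
    exact hCT

end tiling

end Crest.Agent.R096.Sq_55
end

-- ▼ part R096/Sq26_55
section

/-!
# R096 (row 96), SOBSQ, part 26 (helper55): charts chosen by shape, tube numbers of a shape
-/

set_option autoImplicit false
set_option linter.unusedSectionVars false

open Set Metric Filter Topology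

namespace Crest.Agent.R096.Sq_55

open Crest.Agent.R096.Ce_537 Crest.Agent.R096.Bd_416 Crest.Agent.R96.Hole_348
open Crest.Agent.R096.Sqt_143 (Tv map_line aff_sub fo OnC OnF CellT FaceT)
open Crest.Agent.R096.Msh_715 (P I Tiling I_sub_P isOpen_I isClosed_P convex_P mem_I_of_move
  disjoint_P_I isBall_P_top mem_I_small)
open scoped NNReal

/-! ### the chart of a shape -/

open Classical in
/-- the chart of a solid shape -/
noncomputable def eC (S : Set E3) : (E3 → E3) × (E3 → E3) :=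
  if h : ∃ q : (E3 → E3) × (E3 → E3),
    Cht S (interior S) (closedBall 0 1) (ball 0 1) q.1 q.2 (mC S) (mC S) then h.choose else (id, id)

lemma eC_spec {S : Set E3} (h : ∃ L L', CC3 S L L') :
    Cht S (interior S) (closedBall 0 1) (ball 0 1) (eC S).1 (eC S).2 (mC S) (mC S) := by
  obtain ⟨e, e', h1⟩ := CC3_mC h
  have h2 : ∃ q : (E3 → E3) × (E3 → E3),
    Cht S (interior S) (closedBall 0 1) (ball 0 1) q.1 q.2 (mC S) (mC S) := ⟨(e, e'), h1⟩
  rw [eC, dif_pos h2]
  exact h2.choose_spec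

/-- `(f, g)` is the chart of the flat shape `S` -/
def FCp (S : Set E3) (f : (Fin 2 → ℝ) → E3) (g : E3 → Fin 2 → ℝ) (Lf Lg : ℝ≥0) : Prop :=
  ∃ e : PLEquiv (cube 2) S, e.f = f ∧ e.g = g ∧ e.f '' (Ce_537.sph 2) = S \ rint S ∧
    LipschitzOnWith Lf e.f (cube 2) ∧ LipschitzOnWith Lg e.g S

open Classical in
/-- the chart of a flat shape -/
noncomputable def eF (S : Set E3) : ((Fin 2 → ℝ) → E3) × (E3 → Fin 2 → ℝ) :=
  if h : ∃ q : ((Fin 2 → ℝ) → E3) × (E3 → Fin 2 → ℝ), FCp S q.1 q.2 (mF S) (mF S) then h.choose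
  else (fun _ => 0, fun _ => 0)

lemma eF_spec {S : Set E3} (h : ∃ Lf Lg, FC S Lf Lg) : FCp S (eF S).1 (eF S).2 (mF S) (mF S) := by
  obtain ⟨e, h1, h2, h3⟩ := FC_mF h
  have h4 : ∃ q : ((Fin 2 → ℝ) → E3) × (E3 → Fin 2 → ℝ), FCp S q.1 q.2 (mF S) (mF S) :=
    ⟨(e.f, e.g), e, rfl, rfl, h1, h2, h3⟩
  rw [eF, dif_pos h4]
  exact h4.choose_spec

/-! ### the tube numbers of a shape -/

/-- `w` is a tube number of the solid shape `S` and the edge `E` -/
def NC (S E : Set E3) (w : ℝ≥0) : Prop := 0 < w ∧ ∀ a v, segment ℝ a (a + v) = E →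
  CT (interior S) (eC S).1 (eC S).2 a v (w : ℝ)⁻¹ w ⌊w⌋₊

/-- `w` is a tube number of the flat shape `S` and the edge `E` -/
def NF (S E : Set E3) (w : ℝ≥0) : Prop := 0 < w ∧ ∀ a v, segment ℝ a (a + v) = E →
  CT (rint S) (eF S).2 (eF S).1 a v (w : ℝ)⁻¹ w ⌊w⌋₊

lemma exists_num {n : ℕ} {U : Set E3} {e : E3 → Fin n → ℝ} {e' : (Fin n → ℝ) → E3} {E : Set E3}
    (h : ∀ a v, segment ℝ a (a + v) = E → ∃ c0 : ℝ, 0 < c0 ∧ ∃ C : ℝ, 0 < C ∧ ∃ N,
      CT U e e' a v c0 C N) : ∃ w : ℝ≥0, 0 < w ∧ ∀ a v, segment ℝ a (a + v) = E →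
        CT U e e' a v (w : ℝ)⁻¹ w ⌊w⌋₊ := by
  by_cases hE : ∃ a v, segment ℝ a (a + v) = E
  · obtain ⟨a0, v0, hE0⟩ := hE
    obtain ⟨c1, hc1, C1, hC1, N1, h1⟩ := h a0 v0 hE0
    obtain ⟨c2, hc2, C2, hC2, N2, h2⟩ := h (a0 + v0) (-v0) (by
      rw [add_neg_cancel_right, segment_symm]; exact hE0)
    set w : ℝ := max (max (max (1 / c1) (1 / c2)) (max C1 C2)) (max N1 N2) with hw
    have w1 : 1 / c1 ≤ w := (le_max_left _ _).trans ((le_max_left _ _).trans (le_max_left _ _))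
    have w2 : 1 / c2 ≤ w := (le_max_right _ _).trans ((le_max_left _ _).trans (le_max_left _ _))
    have w3 : C1 ≤ w := (le_max_left _ _).trans ((le_max_right _ _).trans (le_max_left _ _))
    have w4 : C2 ≤ w := (le_max_right _ _).trans ((le_max_right _ _).trans (le_max_left _ _))
    have w5 : (N1 : ℝ) ≤ w := (le_max_left _ _).trans (le_max_right _ _)
    have w6 : (N2 : ℝ) ≤ w := (le_max_right _ _).trans (le_max_right _ _)
    have w0 : 0 < w := hC1.trans_le w3
    have hcoe : ((w.toNNReal : ℝ≥0) : ℝ) = w := Real.coe_toNNReal _ w0.le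
    have hfl : ∀ N : ℕ, (N : ℝ) ≤ w → N ≤ ⌊w.toNNReal⌋₊ := by
      intro N hN
      refine Nat.le_floor ?_
      rw [← NNReal.coe_le_coe, hcoe]
      exact_mod_cast hN
    have hinv : ∀ c : ℝ, 0 < c → 1 / c ≤ w → ((w.toNNReal : ℝ≥0) : ℝ)⁻¹ ≤ c := by
      intro c hc hcw
      rw [hcoe]
      rw [inv_le_comm₀ w0 hc, ← one_div]
      exact hcw
    refine ⟨w.toNNReal, Real.toNNReal_pos.2 w0, fun a v hav => ?_⟩
    rcases segment_param (hE0.trans hav.symm) with ⟨rfl, rfl⟩ | ⟨rfl, rfl⟩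
    · exact h1.mono (hinv c1 hc1 w1) (by rw [hcoe]; exact w3) (hfl N1 w5)
    · exact h2.mono (hinv c2 hc2 w2) (by rw [hcoe]; exact w4) (hfl N2 w6)
  · exact ⟨1, one_pos, fun a v hav => absurd ⟨a, v, hav⟩ hE⟩

lemma seg_mem {a v : E3} {E : Set E3} (h : segment ℝ a (a + v) = E) {t : ℝ} (ht : t ∈ Icc (0:ℝ) 1) :
    a + t • v ∈ E := by
  rw [← h, segment_eq_image']
  exact ⟨t, ht, by simp⟩

lemma exists_NC {S E : Set E3} (h : ∃ L L', CC3 S L L') (hE : E ⊆ S)
    (hE' : Disjoint E (interior S)) : ∃ w, NC S E w := by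
  have c := eC_spec h
  refine exists_num fun a v hav => ?_
  obtain ⟨c0, h0, C, hC, X, hX, key⟩ := Sqt_143.cell_tube c (a := a) (v := v)
    (fun t ht => hE (seg_mem hav ht)) (fun t ht => Set.disjoint_left.1 hE' (seg_mem hav ht))
  exact ⟨c0, h0, C, hC, X.card, X, le_rfl, hX, key⟩

/-- a direction of the shape is allowed at the points of the relative interior -/
lemma rint_dir {S : Set E3} (hS : Convex ℝ S) {a v : E3} (ha : a ∈ S) (hav : a + v ∈ S) {y : E3}
    (hy : y ∈ rint S) : ∀ᶠ σ in 𝓝 (0:ℝ), y + σ • v ∈ S := by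
  have key : ∀ {a v : E3}, a ∈ S → a + v ∈ S → ∃ l : ℝ, 0 < l ∧ y + l • v ∈ S := by
    intro a v ha hav
    obtain ⟨s, hs, h1⟩ := hy.2 a ha
    refine ⟨s / (1 + s), by positivity, ?_⟩
    have h2 := hS h1 hav (a := 1 / (1 + s)) (b := s / (1 + s)) (by positivity) (by positivity)
      (by field_simp)
    have h3 : (1 + s) ≠ 0 := by positivity
    have e : (1 / (1 + s)) • (y + s • (y - a)) + (s / (1 + s)) • (a + v) =
        y + (s / (1 + s)) • v := by
      have e1 : (1 / (1 + s)) • (y + s • (y - a)) + (s / (1 + s)) • (a + v) =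
        ((1 / (1 + s)) * (1 + s)) • y + ((s / (1 + s)) - (1 / (1 + s)) * s) • a +
          (s / (1 + s)) • v := by module
      have e2 : 1 / (1 + s) * (1 + s) = 1 := by field_simp
      have e3 : s / (1 + s) - 1 / (1 + s) * s = 0 := by ring
      rw [e1, e2, e3, one_smul, zero_smul, add_zero]
    rwa [e] at h2
  obtain ⟨l1, hl1, m1⟩ := key ha hav
  obtain ⟨l2, hl2, m2⟩ := key (a := a + v) (v := -v) hav (by simpa using ha)
  have hI : Ioo (-l2) l1 ∈ 𝓝 (0:ℝ) := Ioo_mem_nhds (by linarith) hl1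
  filter_upwards [hI] with σ hσ
  rcases le_total 0 σ with h | h
  · have := hS hy.1 m1 (a := 1 - σ / l1) (b := σ / l1)
      (by rw [sub_nonneg, div_le_one hl1]; exact hσ.2.le) (by positivity) (by ring)
    have e : (1 - σ / l1) • y + (σ / l1) • (y + l1 • v) = y + σ • v := by
      have : (1 - σ / l1) • y + (σ / l1) • (y + l1 • v) = y + (σ / l1 * l1) • v := by module
      rw [this, div_mul_cancel₀ _ hl1.ne']
    rwa [e] at this
  · have := hS hy.1 m2 (a := 1 - (-σ) / l2) (b := (-σ) / l2)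
      (by rw [sub_nonneg, div_le_one hl2]; linarith [hσ.1])
      (div_nonneg (by linarith) hl2.le) (by ring)
    have e : (1 - (-σ) / l2) • y + ((-σ) / l2) • (y + l2 • -v) = y + σ • v := by
      have : (1 - (-σ) / l2) • y + ((-σ) / l2) • (y + l2 • -v) = y + (σ / l2 * l2) • v := by module
      rw [this, div_mul_cancel₀ _ hl2.ne']
    rwa [e] at this

lemma exists_NF {S E : Set E3} (h : ∃ Lf Lg, FC S Lf Lg) (hS : Convex ℝ S) (hE : E ⊆ S)
    (hE' : Disjoint E (rint S)) : ∃ w, NF S E w := by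
  obtain ⟨e, ef, eg, hsph, hf, hg⟩ := eF_spec h
  refine exists_num fun a v hav => ?_
  have hmem : ∀ x ∈ S, ‖e.g x‖ < 1 ↔ x ∈ rint S := by
    intro x hx
    have h1 : ‖e.g x‖ ≤ 1 := mem_closedBall_zero_iff.1 (e.mg hx)
    constructor
    · intro h2
      by_contra h3
      have h4 : x ∈ e.f '' (Ce_537.sph 2) := by rw [hsph]; exact ⟨hx, h3⟩
      obtain ⟨z, hz, hzx⟩ := h4
      have h5 : e.g x = z := by rw [← hzx, e.li z (sph_subset_cube hz)]
      have h6 : ‖z‖ = 1 := mem_sphere_zero_iff_norm.1 hz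
      rw [h5, h6] at h2
      exact lt_irrefl _ h2
    · intro h2
      refine lt_of_le_of_ne h1 fun h3 => ?_
      have h4 : e.f (e.g x) ∈ S \ rint S := by
        rw [← hsph]
        exact mem_image_of_mem _ (mem_sphere_zero_iff_norm.2 h3)
      rw [e.ri x hx] at h4
      exact h4.2 h2
  obtain ⟨c0, h0, C, hC, X, hX, key⟩ := rel_tube (n := 2) (K := S) (U := rint S) (e := e.g)
    (e' := e.f) e.pg e.pf hg hf e.mg e.ri (rint_sub S) hmem (a := a) (v := v)
    (fun x hx => rint_dir hS (hE (by simpa using seg_mem hav (t := 0) (by simp)))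
      (hE (by simpa using seg_mem hav (t := 1) (by simp))) hx)
    (fun t ht => hE (seg_mem hav ht)) (fun t ht => Set.disjoint_left.1 hE' (seg_mem hav ht))
  rw [ef, eg] at key
  exact ⟨c0, h0, C, hC, X.card, X, le_rfl, hX, key⟩

open Classical in
/-- the tube number of a solid shape -/
noncomputable def nuC (S E : Set E3) : ℝ≥0 := if h : ∃ w, NC S E w then h.choose else 0

open Classical in
/-- the tube number of a flat shape -/
noncomputable def nuF (S E : Set E3) : ℝ≥0 := if h : ∃ w, NF S E w then h.choose else 0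

lemma nuC_spec {S E : Set E3} (h : ∃ w, NC S E w) : NC S E (nuC S E) := by
  rw [nuC, dif_pos h]; exact h.choose_spec

lemma nuF_spec {S E : Set E3} (h : ∃ w, NF S E w) : NF S E (nuF S E) := by
  rw [nuF, dif_pos h]; exact h.choose_spec

lemma NC.mono {S E : Set E3} {w w' : ℝ≥0} (h : NC S E w) (hw : w ≤ w') : NC S E w' := by
  have h0 : (0:ℝ) < w := by exact_mod_cast h.1
  refine ⟨h.1.trans_le hw, fun a v hav => (h.2 a v hav).mono ?_ ?_ ?_⟩
  · exact inv_anti₀ h0 (by exact_mod_cast hw)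
  · exact_mod_cast hw
  · exact Nat.floor_mono hw

lemma NF.mono {S E : Set E3} {w w' : ℝ≥0} (h : NF S E w) (hw : w ≤ w') : NF S E w' := by
  have h0 : (0:ℝ) < w := by exact_mod_cast h.1
  refine ⟨h.1.trans_le hw, fun a v hav => (h.2 a v hav).mono ?_ ?_ ?_⟩
  · exact inv_anti₀ h0 (by exact_mod_cast hw)
  · exact_mod_cast hw
  · exact Nat.floor_mono hw

/-! ### real cells -/

lemma image_seg (B : E3 ≃ᵃ[ℝ] E3) (a v : E3) :
    B '' segment ℝ a (a + v) = segment ℝ (B a) (B a + B.linear v) := by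
  have e1 : B (a + v) = B a + B.linear v := by
    have := map_line B.toAffineMap a v 1
    simpa using this
  rw [← e1]
  exact image_segment ℝ B.toAffineMap a (a + v)

/-- from the shape to the real tube -/
lemma CT_real {n : ℕ} {U : Set E3} {e : E3 → Fin n → ℝ} {e' : (Fin n → ℝ) → E3} {a v : E3}
    {Λ R w : ℝ≥0} {B : E3 ≃ᵃ[ℝ] E3} (hB : Frm Λ R B) (hR : 0 < R) (hΛ : 0 < Λ) (hw : 0 < w)
    (hΛw : Λ ≤ w)
    (h : CT (B '' U) e e' (B a) (B.linear v) (w : ℝ)⁻¹ w ⌊w⌋₊) :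
    CT U (fun y => e (B y)) (fun z => B.symm (e' z)) a v (R / w^2) (w^2 / R) ⌊w⌋₊ := by
  have hR' : (0:ℝ) < R := by exact_mod_cast hR
  have hΛ' : (0:ℝ) < Λ := by exact_mod_cast hΛ
  have hw' : (0:ℝ) < w := by exact_mod_cast hw
  have hle : (Λ:ℝ) ≤ w := by exact_mod_cast hΛw
  refine (h.pull hB hR hΛ).mono ?_ ?_ le_rfl
  · rw [div_le_iff₀ (by positivity)]
    have e1 : (w:ℝ)⁻¹ * (R / Λ) * w^2 = R * (w / Λ) := by field_simp
    rw [e1]
    have : 1 ≤ (w:ℝ) / Λ := by rw [le_div_iff₀ hΛ']; linarith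
    nlinarith
  · have e1 : (w:ℝ) * (Λ / R) = (w * Λ) / R := by ring
    rw [e1]
    apply div_le_div_of_nonneg_right _ hR'.le
    nlinarith

/-- **cells with the chart of the shape**: the constants and the tube numbers come from the shape -/
theorem exists_cell_tube {H : Finset ((E3 →L[ℝ] ℝ) × ℝ)} (hc : IsCompact (P H))
    (hI : (I H).Nonempty) {Λ R : ℝ≥0} (hR : 0 < R) (hΛ : 0 < Λ) {B : E3 ≃ᵃ[ℝ] E3}
    (hB : Frm Λ R B) :
    ∃ C : Cell, C.P = P H ∧ C.U = I H ∧ C.R = R ∧ C.M = max 1 (Λ * mC (B '' P H)) ∧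
      ∀ a v : E3, segment ℝ a (a + v) ⊆ P H → Disjoint (segment ℝ a (a + v)) (I H) →
        ∀ w : ℝ≥0, Λ ≤ w → nuC (B '' P H) (B '' segment ℝ a (a + v)) ≤ w →
        CellT C a v (R / w^2) (w^2 / R) ⌊w⌋₊ := by
  obtain ⟨e0, e0', L, L', h⟩ := exists_cell_cht hc hI
  have h0 : CC3 (P H) L L' := ⟨e0, e0', by rw [interior_P_eq hI]; exact h⟩
  have hex : ∃ L L', CC3 (B '' P H) L L' := ⟨_, _, h0.map B hB.lip hB.lip'⟩
  have h1 := eC_spec hex
  set S := B '' P H with hS
  have hint : interior S = B '' I H := by rw [hS, ← image_interior_aff, interior_P_eq hI]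
  have hBS : ∀ {y}, y ∈ P H → B y ∈ S := fun hy => mem_image_of_mem _ hy
  have hS' : ∀ z ∈ S, B.symm z ∈ P H := by
    rintro _ ⟨y, hy, rfl⟩; simpa using hy
  have hcht : Cht (P H) (I H) (closedBall 0 1) (ball 0 1) (fun y => (eC S).1 (B y))
      (fun z => B.symm ((eC S).2 z)) (mC S * (Λ / R)) (Λ * R * mC S) :=
    { clK := isClosed_P H
      opU := isOpen_I H
      sub := I_sub_P H
      clK' := h1.clK'
      opU' := h1.opU'
      sub' := h1.sub'
      maps := fun y hy => h1.maps (hBS hy)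
      maps' := fun z hz => hS' _ (h1.maps' hz)
      inv := fun y hy => by
        show B.symm ((eC S).2 ((eC S).1 (B y))) = y
        rw [h1.inv _ (hBS hy), AffineEquiv.symm_apply_apply]
      inv' := fun z hz => by
        show (eC S).1 (B (B.symm ((eC S).2 z))) = z
        rw [AffineEquiv.apply_symm_apply, h1.inv' z hz]
      mem := fun y hy => by
        rw [h1.mem _ (hBS hy), hint]
        exact B.injective.mem_set_image
      pl := h1.pl.comp (f := fun y => B y) (plOn_affine B.toAffineMap _) fun y hy => hBS hy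
      pl' := pl_affine h1.pl' B.symm.toAffineMap (continuous_aff B.symm)
      lip := h1.lip.comp (hB.lip.lipschitzOnWith) fun y hy => hBS hy
      lip' := hB.lip'.comp_lipschitzOnWith h1.lip' }
  refine ⟨⟨P H, I H, max 1 (Λ * mC S), R, le_max_left _ _, hR, fun y => (eC S).1 (B y),
      fun z => B.symm ((eC S).2 z), { hcht with
        lip := hcht.lip.weaken ?_
        lip' := hcht.lip'.weaken ?_ }⟩, rfl, rfl, rfl, rfl, ?_⟩
  · rw [le_div_iff₀ hR, mul_assoc, div_mul_cancel₀ _ hR.ne', mul_comm]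
    exact le_max_right _ _
  · rw [mul_right_comm]
    exact mul_le_mul_left (le_max_right _ _) _
  · intro a v hseg hdis w hΛw hw
    have hE1 : B '' segment ℝ a (a + v) ⊆ S := image_mono hseg
    have hE2 : Disjoint (B '' segment ℝ a (a + v)) (interior S) := by
      rw [hint]; exact (Set.disjoint_image_iff B.injective).2 hdis
    have h2 := (nuC_spec (exists_NC hex hE1 hE2)).mono hw
    have h3 := h2.2 (B a) (B.linear v) (image_seg B a v).symm
    rw [hint] at h3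
    exact CT_real hB hR hΛ h2.1 hΛw h3

section tiling

variable {Om : Set E3} {ι : Type*} {T : Tiling Om ι}

/-- the real chart of a 2-cell: constants and tube numbers from the shape -/
theorem exists_flat {x : E3} (hx : x ∈ Om) (hd : T.dim x = 2) {Λ R : ℝ≥0} (hR : 0 < R)
    (hΛ : 0 < Λ) {B : E3 ≃ᵃ[ℝ] E3} (hB : Frm Λ R B) :
    ∃ e : PLEquiv (cube 2) (T.cc x), e.f '' (Ce_537.sph 2) = T.cc x \ T.oc x ∧
      LipschitzOnWith (Λ * R * mF (B '' T.cc x)) e.f (cube 2) ∧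
      LipschitzOnWith (mF (B '' T.cc x) * (Λ / R)) e.g (T.cc x) ∧
      ∀ a v : E3, segment ℝ a (a + v) ⊆ T.cc x → Disjoint (segment ℝ a (a + v)) (T.oc x) →
        ∀ w : ℝ≥0, Λ ≤ w → nuF (B '' T.cc x) (B '' segment ℝ a (a + v)) ≤ w →
        CT (T.oc x) e.g e.f a v (R / w^2) (w^2 / R) ⌊w⌋₊ := by
  obtain ⟨Lf, Lg, h0⟩ := exists_FC hx hd
  have hex : ∃ Lf Lg, FC (B '' T.cc x) Lf Lg := ⟨_, _, h0.map B hB.lip hB.lip'⟩
  have hconv : Convex ℝ (B '' T.cc x) := (T.convex_cc x).affine_image B.toAffineMap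
  obtain ⟨e, ef, eg, hsph, hf, hg⟩ := eF_spec hex
  have hBS : ∀ {y}, y ∈ T.cc x → B y ∈ B '' T.cc x := fun hy => mem_image_of_mem _ hy
  have hS' : ∀ z ∈ B '' T.cc x, B.symm z ∈ T.cc x := by
    rintro _ ⟨y, hy, rfl⟩; simpa using hy
  refine ⟨⟨fun z => B.symm (e.f z), fun y => e.g (B y), ?_, ?_, ?_, ?_, ?_, ?_⟩, ?_, ?_, ?_, ?_⟩
  · exact pl_affine e.pf B.symm.toAffineMap (continuous_aff B.symm)
  · exact e.pg.comp (f := fun y => B y) (plOn_affine B.toAffineMap _) fun y hy => hBS hy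
  · exact fun v hv => hS' _ (e.mf hv)
  · exact fun y hy => e.mg (hBS hy)
  · intro v hv
    show e.g (B (B.symm (e.f v))) = v
    rw [AffineEquiv.apply_symm_apply, e.li v hv]
  · intro y hy
    show B.symm (e.f (e.g (B y))) = y
    rw [e.ri _ (hBS hy), AffineEquiv.symm_apply_apply]
  · show (fun v => B.symm (e.f v)) '' _ = _
    have : (fun v => B.symm (e.f v)) '' (Ce_537.sph 2) = B.symm '' (e.f '' (Ce_537.sph 2)) := by
      rw [← image_comp]; rfl
    rw [this, hsph, image_sdiff B.symm.injective, image_rint, symm_image_image, oc_eq_rint hx]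
  · exact hB.lip'.comp_lipschitzOnWith hf
  · exact hg.comp (hB.lip.lipschitzOnWith) fun y hy => hBS hy
  · intro a v hseg hdis w hΛw hw
    have hE1 : B '' segment ℝ a (a + v) ⊆ B '' T.cc x := image_mono hseg
    have hE2 : Disjoint (B '' segment ℝ a (a + v)) (rint (B '' T.cc x)) := by
      rw [← image_rint, ← oc_eq_rint hx]; exact (Set.disjoint_image_iff B.injective).2 hdis
    have h2 := (nuF_spec (exists_NF hex hconv hE1 hE2)).mono hw
    have h3 := h2.2 (B a) (B.linear v) (image_seg B a v).symm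
    rw [← image_rint, ← oc_eq_rint hx, ← ef, ← eg] at h3
    exact CT_real hB hR hΛ h2.1 hΛw h3

end tiling

end Crest.Agent.R096.Sq_55
end

-- ▼ part R096/Sq27_55
section

/-!
# R096 (row 96), SOBSQ, part 27 (helper55): pairs (closed cell, closed 1-cell) of a tiling; the gap
-/

set_option autoImplicit false
set_option linter.unusedSectionVars false

open Set Metric Filter Topology

namespace Crest.Agent.R096.Sq_55

open Crest.Agent.R096.Ce_537 Crest.Agent.R096.Bd_416 Crest.Agent.R96.Hole_348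
open Crest.Agent.R096.Sqt_143 (Tv map_line aff_sub fo OnC OnF CellT FaceT)
open Crest.Agent.R096.Msh_715 (P I Tiling I_sub_P isOpen_I isClosed_P convex_P mem_I_of_move
  disjoint_P_I isBall_P_top mem_I_small)
open scoped NNReal

/-! ### a polyhedron and a segment which touch only in an end point -/

/-- near or not: one parametrisation -/
def PN1 (S : Set E3) (a v : E3) (w : ℝ) : Prop :=
  ∀ x ∈ S, ∀ t ∈ Icc (0:ℝ) 1, ∀ u ≤ w⁻¹, ‖x - (a + t • v)‖ ≤ u →
    (t ≤ w * u ∧ a ∈ S) ∨ (1 - t ≤ w * u ∧ a + v ∈ S)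

lemma PN1.mono {S : Set E3} {a v : E3} {w w' : ℝ} (h : PN1 S a v w) (h0 : 0 < w) (hw : w ≤ w') :
    PN1 S a v w' := by
  intro x hx t ht u hu hxu
  have hu0 : 0 ≤ u := (norm_nonneg _).trans hxu
  have h1 : w * u ≤ w' * u := mul_le_mul_of_nonneg_right hw hu0
  rcases h x hx t ht u (hu.trans (inv_anti₀ h0 hw)) hxu with h2 | h2
  · exact Or.inl ⟨h2.1.trans h1, h2.2⟩
  · exact Or.inr ⟨h2.1.trans h1, h2.2⟩

lemma PN1.symm {S : Set E3} {a v : E3} {w : ℝ} (h : PN1 S a v w) : PN1 S (a + v) (-v) w := by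
  intro x hx t ht u hu hxu
  have e : a + v + t • -v = a + (1 - t) • v := by module
  rw [e] at hxu
  rcases h x hx (1 - t) ⟨by linarith [ht.2], by linarith [ht.1]⟩ u hu hxu with h2 | h2
  · refine Or.inr ⟨h2.1, ?_⟩
    rw [add_neg_cancel_right]; exact h2.2
  · refine Or.inl ⟨by linarith [h2.1], h2.2⟩

/-- disjoint -/
lemma exists_PN1_disj {S : Set E3} (hS : IsClosed S) {a v : E3}
    (hd : Disjoint (segment ℝ a (a + v)) S) : ∃ w : ℝ, 0 < w ∧ PN1 S a v w := by
  have hc : IsCompact (segment ℝ a (a + v)) := by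
    rw [segment_eq_image']
    exact isCompact_Icc.image (by fun_prop)
  obtain ⟨δ, hδ, h⟩ := hd.exists_thickenings hc hS
  refine ⟨2 / δ, by positivity, fun x hx t ht u hu hxu => ?_⟩
  exfalso
  have h1 : a + t • v ∈ segment ℝ a (a + v) := seg_mem rfl ht
  have h2 : x ∈ thickening δ (segment ℝ a (a + v)) := by
    rw [mem_thickening_iff]
    refine ⟨_, h1, ?_⟩
    rw [dist_eq_norm]
    refine lt_of_le_of_lt (hxu.trans hu) ?_
    rw [inv_div]; linarith
  exact Set.disjoint_left.1 h h2 (self_subset_thickening hδ S hx)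

/-- a polyhedron which meets the segment only in `a` -/
lemma exists_PN1_end {H : Finset ((E3 →L[ℝ] ℝ) × ℝ)} {a v : E3} (ha : a ∈ P H)
    (h1 : ∀ t ∈ Icc (0:ℝ) 1, a + t • v ∈ P H → t = 0) : ∃ w : ℝ, 0 < w ∧ PN1 (P H) a v w := by
  obtain ⟨h, hh, ha1, hv1⟩ : ∃ h ∈ H, h.1 a = h.2 ∧ 0 < h.1 v := by
    by_contra hcon
    push Not at hcon
    have h2 : ∀ h ∈ H, ∀ᶠ t in 𝓝[>] (0:ℝ), h.1 (a + t • v) ≤ h.2 := by
      intro h hh
      rcases (ha h hh).lt_or_eq with e | e
      · have : Tendsto (fun t : ℝ => h.1 (a + t • v)) (𝓝 0) (𝓝 (h.1 (a + (0:ℝ) • v))) := by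
          apply Continuous.tendsto
          fun_prop
        rw [zero_smul, add_zero] at this
        exact ((this.eventually (gt_mem_nhds e)).filter_mono nhdsWithin_le_nhds).mono
          fun t ht => ht.le
      · filter_upwards [self_mem_nhdsWithin] with t ht
        have ht : (0:ℝ) < t := ht
        rw [map_add, map_smul, smul_eq_mul, e]
        nlinarith [hcon h hh e]
    have h3 := (Finset.eventually_all (l := 𝓝[>] (0:ℝ)) H
      (p := fun h t => h.1 (a + t • v) ≤ h.2)).2 h2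
    have h4 : ∀ᶠ t in 𝓝[>] (0:ℝ), t < 1 :=
      (gt_mem_nhds (zero_lt_one' ℝ)).filter_mono nhdsWithin_le_nhds
    obtain ⟨t, ⟨h5, h6⟩, h7⟩ := ((h3.and h4).and self_mem_nhdsWithin).exists
    have h7 : (0:ℝ) < t := h7
    exact h7.ne' (h1 t ⟨h7.le, h6.le⟩ h5)
  have hn : 0 < ‖h.1‖ := by
    rw [norm_pos_iff]
    intro h0
    rw [h0] at hv1
    simp at hv1
  refine ⟨‖h.1‖ / h.1 v, by positivity, fun x hx t ht u _ hxu => Or.inl ⟨?_, ha⟩⟩
  have h2 : t * h.1 v ≤ ‖h.1‖ * u := by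
    have e1 : h.1 (a + t • v) - h.1 x = h.1 (a + t • v - x) := by rw [map_sub]
    have e2 : h.1 (a + t • v) = h.2 + t * h.1 v := by rw [map_add, map_smul, smul_eq_mul, ha1]
    have h3 := hx h hh
    have h4 := (le_abs_self _).trans (h.1.le_opNorm (a + t • v - x))
    rw [norm_sub_rev] at h4
    have h5 := mul_le_mul_of_nonneg_left hxu hn.le
    linarith
  rw [div_mul_eq_mul_div, le_div_iff₀ hv1]
  exact h2

/-- number of the pair -/
def PN (S E : Set E3) (w : ℝ≥0) : Prop := 0 < w ∧ ∀ a v, segment ℝ a (a + v) = E →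
  E ⊆ S ∨ PN1 S a v w

/-- distance of disjoint compact sets -/
def GN (S S' : Set E3) (w : ℝ≥0) : Prop := 0 < w ∧ (Disjoint S S' → ∀ x ∈ S, ∀ y ∈ S',
  (w : ℝ)⁻¹ < ‖x - y‖)

lemma PN.mono {S E : Set E3} {w w' : ℝ≥0} (h : PN S E w) (hw : w ≤ w') : PN S E w' :=
  ⟨h.1.trans_le hw, fun a v hav => (h.2 a v hav).imp id fun h1 =>
    h1.mono (by exact_mod_cast h.1) (by exact_mod_cast hw)⟩

lemma GN.mono {S E : Set E3} {w w' : ℝ≥0} (h : GN S E w) (hw : w ≤ w') : GN S E w' :=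
  ⟨h.1.trans_le hw, fun hd x hx y hy =>
    (inv_anti₀ (by exact_mod_cast h.1) (by exact_mod_cast hw)).trans_lt (h.2 hd x hx y hy)⟩

lemma PN.map {S E : Set E3} {w L : ℝ≥0} (h : PN S E w) {B : E3 ≃ᵃ[ℝ] E3} (hL : 0 < L)
    (hB : LipschitzWith L B.symm) : PN (B '' S) (B '' E) (w * L) := by
  refine ⟨mul_pos h.1 hL, fun a' v' hav => ?_⟩
  have hw : (0:ℝ) < w := by exact_mod_cast h.1
  have hL' : (0:ℝ) < L := by exact_mod_cast hL
  obtain ⟨a, rfl⟩ := B.surjective a'
  obtain ⟨v, rfl⟩ := B.linear.surjective v'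
  have hE : segment ℝ a (a + v) = E := by
    rw [← image_seg] at hav
    exact B.injective.image_injective hav
  refine (h.2 a v hE).imp (fun h1 => image_mono h1) fun h1 => ?_
  rintro _ ⟨x, hx, rfl⟩ t ht u hu hxu
  have e1 : B a + t • B.linear v = B (a + t • v) := (map_line B.toAffineMap a v t).symm
  have e2 : B a + B.linear v = B (a + v) := by
    have := map_line B.toAffineMap a v 1
    simp only [one_smul] at this
    exact this.symm
  rw [e1] at hxu
  have h2 : ‖x - (a + t • v)‖ ≤ L * u := by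
    have := hB.dist_le_mul (B x) (B (a + t • v))
    rw [AffineEquiv.symm_apply_apply, AffineEquiv.symm_apply_apply, dist_eq_norm,
      dist_eq_norm] at this
    exact this.trans (mul_le_mul_of_nonneg_left hxu hL'.le)
  have h3 : (L:ℝ) * u ≤ (w:ℝ)⁻¹ := by
    push_cast at hu
    calc (L:ℝ) * u ≤ L * (w * L : ℝ)⁻¹ := mul_le_mul_of_nonneg_left hu hL'.le
      _ = (w:ℝ)⁻¹ := by field_simp
  rw [e2]
  push_cast
  rcases h1 x hx t ht _ h3 h2 with h4 | h4
  · exact Or.inl ⟨by linarith [h4.1], mem_image_of_mem _ h4.2⟩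
  · exact Or.inr ⟨by linarith [h4.1], mem_image_of_mem _ h4.2⟩

lemma GN.map {S E : Set E3} {w L : ℝ≥0} (h : GN S E w) {B : E3 ≃ᵃ[ℝ] E3} (hL : 0 < L)
    (hB : LipschitzWith L B.symm) : GN (B '' S) (B '' E) (w * L) := by
  have hw : (0:ℝ) < w := by exact_mod_cast h.1
  have hL' : (0:ℝ) < L := by exact_mod_cast hL
  refine ⟨mul_pos h.1 hL, fun hd => ?_⟩
  rintro _ ⟨x, hx, rfl⟩ _ ⟨y, hy, rfl⟩
  have h1 := h.2 ((Set.disjoint_image_iff B.injective).1 hd) x hx y hy
  have h2 := hB.dist_le_mul (B x) (B y)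
  rw [AffineEquiv.symm_apply_apply, AffineEquiv.symm_apply_apply, dist_eq_norm,
    dist_eq_norm] at h2
  push_cast
  rw [mul_inv, ← div_eq_mul_inv, div_lt_iff₀ hL']
  linarith

lemma exists_GN {S S' : Set E3} (hS : IsCompact S) (hS' : IsCompact S') : ∃ w, GN S S' w := by
  by_cases hd : Disjoint S S'
  · obtain ⟨δ, hδ, h⟩ := hd.exists_thickenings hS hS'.isClosed
    refine ⟨Real.toNNReal (2 / δ), Real.toNNReal_pos.2 (by positivity), fun _ x hx y hy => ?_⟩
    rw [Real.coe_toNNReal _ (by positivity), inv_div]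
    by_contra hlt
    push Not at hlt
    have h2 : y ∈ thickening δ S := by
      rw [mem_thickening_iff]
      refine ⟨x, hx, ?_⟩
      rw [dist_comm, dist_eq_norm]; linarith
    exact Set.disjoint_left.1 h h2 (self_subset_thickening hδ S' hy)
  · exact ⟨1, one_pos, fun h => absurd h hd⟩

open Classical in
/-- the pair number -/
noncomputable def nuP (S E : Set E3) : ℝ≥0 := if h : ∃ w, PN S E w then h.choose else 0

open Classical in
/-- the gap number -/
noncomputable def nuG (S E : Set E3) : ℝ≥0 := if h : ∃ w, GN S E w then h.choose else 0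

lemma nuP_spec {S E : Set E3} (h : ∃ w, PN S E w) : PN S E (nuP S E) := by
  rw [nuP, dif_pos h]; exact h.choose_spec

lemma nuG_spec {S E : Set E3} (h : ∃ w, GN S E w) : GN S E (nuG S E) := by
  rw [nuG, dif_pos h]; exact h.choose_spec

/-- the number of a pair of shapes -/
noncomputable def muP (S E : Set E3) : ℝ≥0 :=
  max (max (nuC S E) (nuF S E)) (max (nuP S E) (nuG S E))

/-- finite lists of shapes -/
lemma exists_muP_le {𝓕 : Set (Set E3)} (h : 𝓕.Finite) : ∃ v₀ : ℝ≥0, ∀ v, v₀ ≤ v →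
    ∀ S ∈ 𝓕, ∀ E ∈ 𝓕, muP S E ≤ v := by
  obtain ⟨b, hb⟩ := ((h.prod h).image fun q : Set E3 × Set E3 => muP q.1 q.2).bddAbove
  exact ⟨b, fun v hv S hS E hE => (hb ⟨(S, E), ⟨hS, hE⟩, rfl⟩).trans hv⟩

section tiling

variable {Om : Set E3} {ι : Type*} {T : Tiling Om ι}

lemma cc_poly {y : E3} (hy : y ∈ Om) : ∃ H : Finset ((E3 →L[ℝ] ℝ) × ℝ), T.cc y = P H := by
  classical
  refine ⟨T.Hx hy ∪ ((T.Hx hy).filter fun h => h.1 y = h.2).image fun h => (-h.1, -h.2), ?_⟩
  rw [← T.fc_Hx hy]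
  ext z
  constructor
  · intro h g hg
    rcases Finset.mem_union.1 hg with hg | hg
    · exact (h g hg).1
    · obtain ⟨g', hg', rfl⟩ := Finset.mem_image.1 hg
      obtain ⟨h1, h2⟩ := Finset.mem_filter.1 hg'
      show -(g'.1 z) ≤ -g'.2
      rw [(h g' h1).2 h2]
  · intro h g hg
    refine ⟨h g (Finset.mem_union_left _ hg), fun e => ?_⟩
    have h1 := h (-g.1, -g.2) (Finset.mem_union_right _ (Finset.mem_image_of_mem _
      (Finset.mem_filter.2 ⟨hg, e⟩)))
    have h2 : -(g.1 z) ≤ -g.2 := h1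
    exact le_antisymm (h g (Finset.mem_union_left _ hg)) (by linarith)

/-- the open cell of an edge -/
lemma edge_end {x a v : E3} (hx : x ∈ Om) (hd : T.dim x = 1) (hs : T.cc x = segment ℝ a (a + v)) :
    v ≠ 0 ∧ ∀ y ∈ T.cc x, y ∉ T.oc x → y = a ∨ y = a + v := by
  obtain ⟨b, b', hbb, h1, h2, -⟩ := T.edge_eq hx hd
  have e : b' = b + (b' - b) := by abel
  rw [e] at h1 h2
  have hne : b' - b ≠ 0 := sub_ne_zero.2 hbb.symm
  have key : ∀ y ∈ T.cc x, y ∉ T.oc x → y = b ∨ y = b + (b' - b) := by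
    intro y hy hyo
    rw [h1] at hy
    rw [h2] at hyo
    by_contra hcon
    push Not at hcon
    exact hyo (mem_openSegment_of_ne_left_right hcon.1.symm hcon.2.symm hy)
  rcases segment_param (hs.symm.trans h1) with ⟨rfl, e2⟩ | ⟨e1, e2⟩
  · rw [← e2]; exact ⟨hne, key⟩
  · have e3 : b + (b' - b) = a := by
      calc b + (b' - b) = (a + v) + -v := by rw [← e2, ← e1]
        _ = a := by abel
    refine ⟨fun h => hne (by rw [e2, h, neg_zero]), fun y hy hyo => ?_⟩
    rcases key y hy hyo with h | h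
    · exact Or.inr (h.trans e1)
    · exact Or.inl (h.trans e3)

lemma edge_cases {x a v : E3} (hx : x ∈ Om) (hd : T.dim x = 1)
    (hs : T.cc x = segment ℝ a (a + v)) (y : E3) :
    T.cc x ⊆ T.cc y ∨ Disjoint (T.cc x) (T.cc y) ∨
      (a ∈ T.cc y ∧ ∀ z ∈ T.cc x, z ∈ T.cc y → z = a) ∨
      (a + v ∈ T.cc y ∧ ∀ z ∈ T.cc x, z ∈ T.cc y → z = a + v) := by
  by_cases h0 : T.cc x ⊆ T.cc y
  · exact Or.inl h0
  right
  obtain ⟨hv, he⟩ := edge_end hx hd hs
  have h1 : ∀ z ∈ T.cc x, z ∈ T.cc y → z = a ∨ z = a + v := by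
    intro z hz hzy
    refine he z hz fun hzo => h0 ?_
    rw [← T.cc_eq_of_mem_oc hx hzo]
    exact T.cc_sub_of_mem hzy
  by_cases ha : a ∈ T.cc y
  · by_cases hav : a + v ∈ T.cc y
    · exfalso
      apply h0
      rw [hs]
      exact (T.convex_cc y).segment_subset ha hav
    · right; left
      refine ⟨ha, fun z hz hzy => ?_⟩
      rcases h1 z hz hzy with h | h
      · exact h
      · exact absurd (h ▸ hzy) hav
  · by_cases hav : a + v ∈ T.cc y
    · right; right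
      refine ⟨hav, fun z hz hzy => ?_⟩
      rcases h1 z hz hzy with h | h
      · exact absurd (h ▸ hzy) ha
      · exact h
    · left
      rw [Set.disjoint_left]
      intro z hz hzy
      rcases h1 z hz hzy with h | h
      · exact ha (h ▸ hzy)
      · exact hav (h ▸ hzy)

/-- **pair numbers exist** -/
lemma exists_PN {x y : E3} (hx : x ∈ Om) (hd : T.dim x = 1) (hy : y ∈ Om) :
    ∃ w, PN (T.cc y) (T.cc x) w := by
  obtain ⟨b, b', hbb, h1, -⟩ := T.edge_eq hx hd
  have e : b' = b + (b' - b) := by abel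
  rw [e] at h1
  set v0 := b' - b with hv0
  have hv : v0 ≠ 0 := sub_ne_zero.2 hbb.symm
  obtain ⟨H, hH⟩ := cc_poly (T := T) hy
  have key : T.cc x ⊆ T.cc y ∨ ∃ w : ℝ, 0 < w ∧ PN1 (T.cc y) b v0 w := by
    rcases edge_cases hx hd h1 y with h | h | h | h
    · exact Or.inl h
    · right
      exact exists_PN1_disj (T.isClosed_cc y) (by rw [← h1]; exact h)
    · right
      rw [hH] at h ⊢
      refine exists_PN1_end h.1 fun t ht hmem => ?_
      have h3 := h.2 _ (by rw [h1]; exact seg_mem rfl ht) hmem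
      have h4 : t • v0 = 0 := by
        have : b + t • v0 = b + 0 := by rw [h3, add_zero]
        exact add_left_cancel this
      exact (smul_eq_zero.1 h4).resolve_right hv
    · right
      rw [hH] at h ⊢
      obtain ⟨w, hw, h3⟩ := exists_PN1_end (H := H) (a := b + v0) (v := -v0) h.1
        fun t ht hmem => by
          have e1 : b + v0 + t • -v0 = b + (1 - t) • v0 := by module
          rw [e1] at hmem
          have h3 := h.2 _ (by rw [h1]; exact seg_mem rfl ⟨by linarith [ht.2], by linarith [ht.1]⟩)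
            hmem
          have h4 : t • v0 = 0 := by
            have h5 : b + (1 - t) • v0 = b + v0 - t • v0 := by module
            rw [h5] at h3
            have : b + v0 - t • v0 = b + v0 - 0 := by rw [h3, sub_zero]
            exact sub_right_injective this
          exact (smul_eq_zero.1 h4).resolve_right hv
      refine ⟨w, hw, ?_⟩
      have := h3.symm
      rwa [add_neg_cancel_right, neg_neg] at this
  rcases key with h | ⟨w, hw, h⟩
  · exact ⟨1, one_pos, fun a v hav => Or.inl h⟩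
  · refine ⟨w.toNNReal, Real.toNNReal_pos.2 hw, fun a v hav => Or.inr ?_⟩
    rw [Real.coe_toNNReal _ hw.le]
    rcases segment_param (h1.symm.trans hav.symm) with ⟨rfl, rfl⟩ | ⟨rfl, rfl⟩
    · exact h
    · exact h.symm

/-- `y` is in a tile which meets the tile `i` -/
def StarT (T : Tiling Om ι) (i : ι) (y : E3) : Prop :=
  ∃ l, y ∈ P (T.H l) ∧ (P (T.H l) ∩ P (T.H i)).Nonempty

/-- **the gap lemma**: all tiles at a point near the tile `i` meet the tile `i` -/
theorem gap_tile {i : ι} {g : ℝ} (hg : ∀ y, StarT T i y → Disjoint (T.cc y) (P (T.H i)) →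
    ∀ z ∈ T.cc y, ∀ p ∈ P (T.H i), g < ‖z - p‖) {x p : E3} (hp : p ∈ P (T.H i))
    (hxp : ‖x - p‖ ≤ g) {k : ι} (hk : x ∈ P (T.H k)) : (P (T.H k) ∩ P (T.H i)).Nonempty := by
  have hOi : P (T.H i) ⊆ Om := T.sub i
  have hfin : {l | (P (T.H l) ∩ P (T.H i)).Nonempty}.Finite := T.finite_tiles (T.cpt i) hOi
  set N : Set E3 := ⋃ l ∈ {l | (P (T.H l) ∩ P (T.H i)).Nonempty}, P (T.H l) with hN
  have hNc : IsClosed N := hfin.isClosed_biUnion fun l _ => isClosed_P _
  have hNO : N ⊆ Om := by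
    intro z hz
    simp only [hN, Set.mem_iUnion] at hz
    obtain ⟨l, _, hz⟩ := hz
    exact T.sub l hz
  -- points of `N` near the tile are interior points of `N`
  have key : ∀ z ∈ N, ‖z - p‖ ≤ g → (∀ l, z ∈ P (T.H l) → (P (T.H l) ∩ P (T.H i)).Nonempty) := by
    intro z hz hzp l hl
    by_contra hne
    simp only [hN, Set.mem_iUnion] at hz
    obtain ⟨q, hq, hzq⟩ := hz
    have h1 : T.cc z ⊆ P (T.H l) := T.cc_sub_tile hl
    have h2 : Disjoint (T.cc z) (P (T.H i)) := by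
      rw [Set.disjoint_left]
      intro y hy hyi
      exact hne ⟨y, h1 hy, hyi⟩
    have h3 := hg z ⟨q, hzq, hq⟩ h2 z (T.self_mem_cc z) p hp
    linarith
  have hnb : ∀ z ∈ N, ‖z - p‖ ≤ g → N ∈ 𝓝 z := by
    intro z hz hzp
    obtain ⟨r, hr, hrO, hr2⟩ := T.exists_ball (hNO hz)
    refine mem_of_superset (ball_mem_nhds z hr) fun y hy => ?_
    obtain ⟨l, hl⟩ := T.cov y (hrO hy)
    have h1 : l ∈ T.at_ z := hr2 y hy hl
    simp only [hN, Set.mem_iUnion]
    exact ⟨l, key z hz hzp l h1, hl⟩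
  -- the segment
  set γ : ℝ → E3 := fun s => p + s • (x - p) with hγ
  have hγc : Continuous γ := by fun_prop
  have hsub : Icc (0:ℝ) 1 ⊆ γ ⁻¹' N := by
    refine IsClosed.Icc_subset_of_forall_mem_nhdsWithin
      ((hNc.preimage hγc).inter isClosed_Icc) ?_ ?_
    · show γ 0 ∈ N
      simp only [hγ, zero_smul, add_zero, hN, Set.mem_iUnion]
      exact ⟨i, ⟨p, hp, hp⟩, hp⟩
    · rintro s ⟨hs, hs1⟩
      have h1 : ‖γ s - p‖ ≤ g := by
        simp only [hγ, add_sub_cancel_left, norm_smul, Real.norm_eq_abs, abs_of_nonneg hs1.1]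
        have := norm_nonneg (x - p)
        nlinarith [hs1.2]
      exact mem_nhdsWithin_of_mem_nhds (hγc.continuousAt.preimage_mem_nhds (hnb _ hs h1))
  have hx : x ∈ N := by
    have := hsub (show (1:ℝ) ∈ Icc (0:ℝ) 1 by simp)
    simpa [hγ] using this
  exact key x hx hxp k hk

end tiling

end Crest.Agent.R096.Sq_55
end

-- ▼ part R096/Sq28_55
section

/-!
# R096 (row 96), SOBSQ, part 28 (helper55): **the system of a tiling with uniform edges**
-/

set_option autoImplicit false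
set_option linter.unusedSectionVars false

open Set Metric Filter Topology

namespace Crest.Agent.R096.Sq_55

open Crest.Agent.R096.Ce_537 Crest.Agent.R096.Bd_416 Crest.Agent.R96.Hole_348
open Crest.Agent.R096.Sqt_143 (Tv map_line aff_sub fo OnC OnF CellT FaceT Edge)
open Crest.Agent.R096.Msh_715 (P I Tiling I_sub_P isOpen_I isClosed_P convex_P mem_I_of_move
  disjoint_P_I isBall_P_top mem_I_small)
open scoped NNReal

section tiling

variable {Om : Set E3} {ι : Type*} {T : Tiling Om ι}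

/-- the tile `i` has size `R` and, in the frame `B`, all cells of the tile and all pairs (cell of
the star, cell of the tile) have numbers `≤ v` -/
structure Shp2 (T : Tiling Om ι) (i : ι) (B : E3 ≃ᵃ[ℝ] E3) (R v : ℝ≥0) : Prop
    extends Shp T i B R v where
  st : ∀ y z, StarT T i y → z ∈ P (T.H i) → muP (B '' T.cc y) (B '' T.cc z) ≤ v

lemma starT_self {i : ι} {y : E3} (hy : y ∈ P (T.H i)) : StarT T i y := ⟨i, hy, y, hy, hy⟩

lemma StarT.om {i : ι} {y : E3} (h : StarT T i y) : y ∈ Om := by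
  obtain ⟨l, hl, -⟩ := h; exact T.sub l hl


namespace Shp2

variable {i : ι} {B : E3 ≃ᵃ[ℝ] E3} {R v : ℝ≥0}

lemma nuC_le (h : Shp2 T i B R v) {x : E3} (hx : x ∈ P (T.H i)) :
    nuC (B '' P (T.H i)) (B '' T.cc x) ≤ v := by
  obtain ⟨y, hy⟩ := T.ne i
  rw [← T.cc_eq_tile hy]
  exact ((le_max_left _ _).trans (le_max_left _ _)).trans
    (h.st y x (starT_self (I_sub_P _ hy)) hx)

lemma nuF_le (h : Shp2 T i B R v) {y x : E3} (hy : y ∈ P (T.H i)) (hx : x ∈ P (T.H i)) :
    nuF (B '' T.cc y) (B '' T.cc x) ≤ v :=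
  ((le_max_right _ _).trans (le_max_left _ _)).trans (h.st y x (starT_self hy) hx)

lemma coe_pos (h : Shp2 T i B R v) : (0:ℝ) < R ∧ (0:ℝ) < v :=
  ⟨by exact_mod_cast h.pos, by exact_mod_cast h.v_pos⟩

/-- real pair statement -/
lemma pn (h : Shp2 T i B R v) {x y : E3} (hx : x ∈ P (T.H i)) (hd : T.dim x = 1)
    (hy : StarT T i y) {a w : E3} (hs : T.cc x = segment ℝ a (a + w)) :
    T.cc x ⊆ T.cc y ∨ PN1 (T.cc y) a w (v^2 / R : ℝ≥0) := by
  have hxO : x ∈ Om := T.sub i hx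
  have hv := h.v_pos
  have hR := h.pos
  obtain ⟨w0, h0⟩ := exists_PN hxO hd hy.om
  have h1 : ∃ w, PN (B '' T.cc y) (B '' T.cc x) w :=
    ⟨_, h0.map (L := v * R) (by positivity) h.frm.lip'⟩
  have h2 := (nuP_spec h1).mono (((le_max_left _ _).trans (le_max_right _ _)).trans
    (h.st y x hy hx))
  have h3 := h2.map (B := B.symm) (L := v / R) (by positivity) h.frm.lip
  rw [symm_image_image, symm_image_image] at h3
  have e : v * (v / R) = v^2 / R := by ring
  rw [e] at h3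
  exact h3.2 a w hs.symm

/-- real gap statement -/
lemma gap (h : Shp2 T i B R v) (y : E3) (hy : StarT T i y)
    (hd : Disjoint (T.cc y) (P (T.H i))) (z : E3) (hz : z ∈ T.cc y) (p : E3)
    (hp : p ∈ P (T.H i)) : (R / v^2 : ℝ) < ‖z - p‖ := by
  obtain ⟨x, hx⟩ := T.ne i
  have hv := h.v_pos
  have hR := h.pos
  rw [← T.cc_eq_tile hx] at hd hp
  obtain ⟨w0, h0⟩ := exists_GN (T.isCompact_cc hy.om) (T.isCompact_cc (T.sub i (I_sub_P _ hx)))
  have h1 : ∃ w, GN (B '' T.cc y) (B '' T.cc x) w :=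
    ⟨_, h0.map (L := v * R) (by positivity) h.frm.lip'⟩
  have h2 := (nuG_spec h1).mono (((le_max_right _ _).trans (le_max_right _ _)).trans
    (h.st y x hy (I_sub_P _ hx)))
  have h3 := h2.map (B := B.symm) (L := v / R) (by positivity) h.frm.lip
  rw [symm_image_image, symm_image_image] at h3
  have h4 := h3.2 hd z hz p hp
  have e : ((v * (v / R) : ℝ≥0) : ℝ)⁻¹ = (R / v^2 : ℝ) := by
    push_cast
    rw [← mul_div_assoc, inv_div]
    ring
  rwa [e] at h4

end Shp2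

/-- points of a 1-cell are not in the interior of a tile -/
lemma edge_notMem {x y : E3} (hx : x ∈ Om) (hd : T.dim x = 1) (hy : y ∈ T.cc x) (k : ι) :
    y ∉ I (T.H k) := by
  intro hk
  have h1 := T.dim_le hy
  have h2 : T.V y = ⊤ := (T.V_eq_top_iff (T.cc_sub_Om hx hy)).2 ⟨k, hk⟩
  have h3 : T.dim y = 3 := by
    unfold Tiling.dim; rw [h2, finrank_top]; simp
  omega

lemma edge_notMem_oc {x x' y : E3} (hd : T.dim x = 1) (hx' : x' ∈ Om) (hd' : T.dim x' = 2)
    (hy : y ∈ T.cc x) : y ∉ T.oc x' := by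
  intro h
  have h1 := T.dim_le hy
  have h2 := T.dim_eq_of_mem_oc hx' h
  omega

/-- **charts of the 2-cells, constants and tube numbers from the shapes** -/
theorem exists_face_shape_tube {c : ι → E3} (hc : ∀ i, c i ∈ I (T.H i)) {x : E3} (hx : x ∈ Om)
    (hd : T.dim x = 2) {B : ι → E3 ≃ᵃ[ℝ] E3} {R : ι → ℝ≥0} {ρ v : ℝ≥0}
    (hS : ∀ k ∈ T.at_ x, Shp T k (B k) (R k) v) (hcB : ∀ k ∈ T.at_ x, c k = ctT T k (B k))
    (hR : ∀ k ∈ T.at_ x, R k ≤ v * ρ ∧ ρ ≤ v * R k) {i : ι} (hi : i ∈ T.at_ x) :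
    ∃ F : Face, FaceOf T c x F ∧ F.ρ = ρ ∧ F.M ≤ GG v ∧
      ∀ a v' : E3, segment ℝ a (a + v') ⊆ T.cc x → Disjoint (segment ℝ a (a + v')) (T.oc x) →
        ∀ w : ℝ≥0, v ≤ w → nuF (B i '' T.cc x) (B i '' segment ℝ a (a + v')) ≤ w →
        FaceT F a v' (R i / w^2 / (1 + 4 * v^6)) (w^2 / R i * (1 + 4 * v^6)) ⌊w⌋₊ := by
  have hv := (hS i hi).v_pos
  have hρ : 0 < ρ := by
    rcases eq_or_ne ρ 0 with h | h
    · have := (hR i hi).1
      rw [h, mul_zero] at this
      exact absurd (hS i hi).pos (not_lt.2 this)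
    · exact pos_iff_ne_zero.2 h
  obtain ⟨e, he, hf, hg, htube⟩ := exists_flat hx hd (hS i hi).pos hv (hS i hi).frm
  set w : ℝ≥0 := v^3 with hw
  have hw0 : 0 < w := by positivity
  have k1 : v * R i * mF (B i '' T.cc x) ≤ ρ * w := by
    calc v * R i * mF (B i '' T.cc x) ≤ v * (v * ρ) * v := by
          gcongr
          · exact (hR i hi).1
          · exact (hS i hi).mF_le hi
      _ = ρ * w := by rw [hw]; ring
  have k2 : mF (B i '' T.cc x) * (v / R i) ≤ w / ρ := by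
    have h1 : v / R i ≤ v * v / ρ := by
      rw [div_le_div_iff₀ (hS i hi).pos hρ]
      calc v * ρ ≤ v * (v * R i) := by gcongr; exact (hR i hi).2
        _ = v * v * R i := by ring
    calc mF (B i '' T.cc x) * (v / R i) ≤ v * (v * v / ρ) := by
          gcongr
          exact (hS i hi).mF_le hi
      _ = w / ρ := by rw [hw]; ring
  have g1 : ∀ k ∈ T.at_ x, closedBall (c k) (ρ / w : ℝ≥0) ⊆ I (T.H k) := by
    intro k hk
    rw [hcB k hk]
    refine (hS k hk).ball_sub ?_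
    calc ρ / w * (v * v) ≤ (v * R k) / w * (v * v) := by gcongr; exact (hR k hk).2
      _ = R k := by rw [hw]; field_simp
  have g2 : ∀ k ∈ T.at_ x, ∀ y ∈ T.cc x, ‖c k - y‖ ≤ (2 * (ρ * w) : ℝ≥0) := by
    intro k hk y hy
    rw [hcB k hk]
    refine ((hS k hk).norm_le (T.cc_sub_tile hk hy)).trans ?_
    have : v * v * R k ≤ 2 * (ρ * w) := by
      calc v * v * R k ≤ v * v * (v * ρ) := by gcongr; exact (hR k hk).1
        _ = ρ * w := by rw [hw]; ring
        _ ≤ 2 * (ρ * w) := by rw [two_mul]; exact le_self_add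
    exact_mod_cast this
  have g3 : ∀ y ∈ T.cc x, ∀ z ∈ T.cc x, ‖y - z‖ ≤ (2 * (ρ * w) : ℝ≥0) := by
    intro y hy z hz
    have a1 := (hS i hi).norm_le (T.cc_sub_tile hi hy)
    have a2 := (hS i hi).norm_le (T.cc_sub_tile hi hz)
    have a3 : ‖y - z‖ ≤ ‖ctT T i (B i) - y‖ + ‖ctT T i (B i) - z‖ := by
      have : y - z = (ctT T i (B i) - z) - (ctT T i (B i) - y) := by abel
      rw [this]
      refine (norm_sub_le _ _).trans (le_of_eq ?_)
      ring
    have : v * v * R i + v * v * R i ≤ 2 * (ρ * w) := by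
      have : v * v * R i ≤ ρ * w := by
        calc v * v * R i ≤ v * v * (v * ρ) := by gcongr; exact (hR i hi).1
          _ = ρ * w := by rw [hw]; ring
      rw [two_mul]; exact add_le_add this this
    refine a3.trans ((add_le_add a1 a2).trans ?_)
    exact_mod_cast this
  obtain ⟨F, h1, h2, h3, h4⟩ := exists_face_tube hc hx hd e he (ρ := ρ) (r := ρ / w)
    (d := 2 * (ρ * w)) hρ (by positivity) (hf.weaken k1) (hg.weaken k2) g1 g2 g3
  have e1 : 2 * (ρ * w) / (ρ / w) = 2 * w^2 := by field_simp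
  refine ⟨F, h1, h2, ?_, ?_⟩
  · rw [h3, MF]
    have e2 : (w / ρ + 2 * (w / ρ) * (2 * (ρ * w) / (ρ / w)) + 1 / (ρ / w)) * ρ =
        2 * w + 4 * w^3 := by
      rw [e1]; field_simp; ring
    have e3 : (2 * (2 * (ρ * w)) + 2 * (ρ * w)) / ρ = 6 * w := by field_simp; ring
    have e4 : ρ / (ρ / w) = w := by field_simp
    rw [e2, e3, e4, GG, hw]
    have e9 : (v^3)^3 = v^9 := by ring
    rw [e9]
    refine max_le ?_ (max_le ?_ (max_le ?_ ?_)) <;> rw [← NNReal.coe_le_coe] <;> push_cast <;>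
      nlinarith [pow_nonneg v.coe_nonneg 2, pow_nonneg v.coe_nonneg 3, pow_nonneg v.coe_nonneg 9]
  · intro a v' hsub hdis w' hvw hnu
    have h5 := htube a v' hsub hdis w' hvw hnu
    have h6 := h4 a v' (fun t ht => hsub (seg_mem rfl ht)) _ _ _ h5
    have e5 : (1 + 2 * (((2 * (ρ * w) : ℝ≥0) : ℝ) / ((ρ / w : ℝ≥0) : ℝ))) = 1 + 4 * (v:ℝ)^6 := by
      have := congrArg (fun z : ℝ≥0 => (z:ℝ)) e1
      push_cast at this ⊢
      rw [this, hw]
      push_cast
      ring
    rwa [e5] at h6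

/-- the foot of a point of a double pyramid -/
lemma IsDp.foot {c : ι → E3} (hc : ∀ i, c i ∈ I (T.H i)) {x : E3} {i j : ι} {D : Dp}
    (h : IsDp T c x i j D) {y p : E3} (hy : y ∈ D.K) {u r d : ℝ} (hu : ‖y - p‖ ≤ u)
    (hp : ∀ k, p ∉ I (T.H k))
    (hr : ∀ k ∈ T.at_ x, y ∈ P (T.H k) → u < r ∧ closedBall (c k) r ⊆ I (T.H k) ∧
      ∀ z ∈ T.cc x, ‖c k - z‖ ≤ d) :
    ∃ z ∈ T.cc x, ‖z - p‖ ≤ (1 + d / r) * u ∨ z = y ∧ ‖z - p‖ ≤ u := by
  have hu0 : 0 ≤ u := (norm_nonneg _).trans hu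
  have h0 : 0 ≤ 1 - |D.t y| := hy.1
  rcases lt_trichotomy (D.t y) 0 with ht | ht | ht
  · rw [abs_of_neg ht] at h0
    have hj := h.symm_mem.2
    rcases eq_or_lt_of_le h0 with h1 | h1
    · -- the apex
      exfalso
      have h2 : D.w y = 0 := hy.2.2 (by show 1 - |D.t y| = 0; rw [abs_of_neg ht]; exact h1.symm)
      have h3 := D.recon y
      rw [h2, add_zero, show D.t y = -1 by linarith, Dp.ax, Dp.pp_neg (by norm_num),
        Dp.pp_pos (by norm_num), zero_smul, zero_add, neg_neg, one_smul, add_sub_cancel, h.a'] at h3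
      obtain ⟨r1, r2, -⟩ := hr j hj (by rw [← h3]; exact I_sub_P _ (hc j))
      refine hp j (r2 ?_)
      rw [mem_closedBall, dist_comm, dist_eq_norm, h3]
      exact hu.trans r1.le
    · obtain ⟨h2, h3⟩ := h.repr_neg hy ht (by linarith)
      rw [h.F] at h2
      rw [h.a'] at h3
      set z := D.b + (1 + D.t y)⁻¹ • D.w y with hz
      have hyI : y ∈ I (T.H j) := by
        rw [h3]; exact mem_I_of_move (T.cc_sub_tile hj h2) (hc j) (by linarith) (by linarith)
      obtain ⟨r1, r2, r3⟩ := hr j hj (I_sub_P _ hyI)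
      have hr0 : 0 < r := hu0.trans_lt r1
      have h4 := dist_bdry r2 (by linarith : 0 < -D.t y) (by linarith) (T.cc_sub_tile hj h2) h3
        (hp j)
      refine ⟨z, h2, Or.inl ?_⟩
      have e1 : z - p = (y - p) - (-D.t y) • (c j - z) := by
        rw [show y - p = (z + (-D.t y) • (c j - z)) - p by rw [← h3]]; abel
      have hs : -D.t y ≤ u / r := by rw [le_div_iff₀ hr0]; linarith
      have hd0 : 0 ≤ ‖c j - z‖ := norm_nonneg _
      calc ‖z - p‖ ≤ ‖y - p‖ + ‖(-D.t y) • (c j - z)‖ := by rw [e1]; exact norm_sub_le _ _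
        _ ≤ u + u / r * d := by
            refine add_le_add hu ?_
            rw [norm_smul, Real.norm_eq_abs, abs_of_pos (by linarith)]
            exact mul_le_mul hs (r3 z h2) hd0 (by positivity)
        _ = (1 + d / r) * u := by ring
  · refine ⟨y, ?_, Or.inr ⟨rfl, hu⟩⟩
    have h1 := hy.2.1 (by show 0 < 1 - |D.t y|; rw [ht]; norm_num)
    have h3 := D.recon y
    rw [ht, Dp.ax, neg_zero, Dp.pp_pos le_rfl, zero_smul, zero_smul, add_zero, add_zero] at h3
    have h4 : (1 - |D.t y|)⁻¹ • D.w y = D.w y := by rw [ht, abs_zero, sub_zero, inv_one, one_smul]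
    have h5 : D.b + (1 - |D.t y|)⁻¹ • D.w y ∈ D.F := h1
    rw [h4, h3, h.F] at h5
    exact h5
  · rw [abs_of_pos ht] at h0
    have hi := h.symm_mem.1
    rcases eq_or_lt_of_le h0 with h1 | h1
    · exfalso
      have h2 : D.w y = 0 := hy.2.2 (by show 1 - |D.t y| = 0; rw [abs_of_pos ht]; exact h1.symm)
      have h3 := D.recon y
      rw [h2, add_zero, show D.t y = 1 by linarith, Dp.ax, Dp.pp_pos (by norm_num),
        Dp.pp_neg (by norm_num), zero_smul, add_zero, one_smul, add_sub_cancel, h.a] at h3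
      obtain ⟨r1, r2, -⟩ := hr i hi (by rw [← h3]; exact I_sub_P _ (hc i))
      refine hp i (r2 ?_)
      rw [mem_closedBall, dist_comm, dist_eq_norm, h3]
      exact hu.trans r1.le
    · obtain ⟨h2, h3⟩ := h.repr_pos hy ht (by linarith)
      rw [h.F] at h2
      rw [h.a] at h3
      set z := D.b + (1 - D.t y)⁻¹ • D.w y with hz
      have hyI : y ∈ I (T.H i) := by
        rw [h3]; exact mem_I_of_move (T.cc_sub_tile hi h2) (hc i) (by linarith) (by linarith)
      obtain ⟨r1, r2, r3⟩ := hr i hi (I_sub_P _ hyI)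
      have hr0 : 0 < r := hu0.trans_lt r1
      have h4 := dist_bdry r2 ht (by linarith) (T.cc_sub_tile hi h2) h3 (hp i)
      refine ⟨z, h2, Or.inl ?_⟩
      have e1 : z - p = (y - p) - (D.t y) • (c i - z) := by
        rw [show y - p = (z + (D.t y) • (c i - z)) - p by rw [← h3]]; abel
      have hs : D.t y ≤ u / r := by rw [le_div_iff₀ hr0]; linarith
      have hd0 : 0 ≤ ‖c i - z‖ := norm_nonneg _
      calc ‖z - p‖ ≤ ‖y - p‖ + ‖(D.t y) • (c i - z)‖ := by rw [e1]; exact norm_sub_le _ _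
        _ ≤ u + u / r * d := by
            refine add_le_add hu ?_
            rw [norm_smul, Real.norm_eq_abs, abs_of_pos ht]
            exact mul_le_mul hs (r3 z h2) hd0 (by positivity)
        _ = (1 + d / r) * u := by ring

end tiling

end Crest.Agent.R096.Sq_55
end

-- ▼ part R096/Sq29_55

/-!
# R096 (row 96), SOBSQ, part 29 (helper55): **`exists_sys_edge`**: for every tiling with finite shape
lists there is a system whose constants and whose edges (143's `Edge`) have uniform numbers.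
-/

set_option autoImplicit false
set_option linter.unusedSectionVars false

open Set Metric Filter Topology

namespace Crest.Agent.R096.Sq_55

open Crest.Agent.R096.Ce_537 Crest.Agent.R096.Bd_416 Crest.Agent.R96.Hole_348
open Crest.Agent.R096.Sqt_143 (Tv map_line aff_sub fo OnC OnF CellT FaceT Edge)
open Crest.Agent.R096.Msh_715 (P I Tiling I_sub_P isOpen_I isClosed_P convex_P mem_I_of_move
  disjoint_P_I isBall_P_top mem_I_small)
open scoped NNReal

section tiling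

variable {Om : Set E3} {ι : Type*} {T : Tiling Om ι}

/-- the data of the cell charts and of the face charts which are used for the edges -/
structure CF (T : Tiling Om ι) (A : Set ι) (B : ι → E3 ≃ᵃ[ℝ] E3) (R u : ι → ℝ≥0) (c : ι → E3)
    {s : Finset ι} {Fs : Finset E3} (C : s → Cell) (F : Fs → Face) : Prop where
  hS : ∀ i ∈ A, Shp2 T i (B i) (R i) (u i)
  hc : ∀ i, c i ∈ I (T.H i)
  hcB : ∀ i ∈ A, c i = ctT T i (B i)
  hsA : ∀ k ∈ s, k ∈ A
  hFs : ∀ x ∈ Fs, x ∈ Om ∧ T.dim x = 2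
  hFA : ∀ x ∈ Fs, ∀ k ∈ T.at_ x, k ∈ A
  CP : ∀ k : s, (C k).P = P (T.H k) ∧ (C k).U = I (T.H k)
  CT : ∀ k : s, ∀ a v : E3, segment ℝ a (a + v) ⊆ P (T.H k) →
    Disjoint (segment ℝ a (a + v)) (I (T.H k)) → ∀ w : ℝ≥0, u k ≤ w →
    nuC (B k '' P (T.H k)) (B k '' segment ℝ a (a + v)) ≤ w →
    CellT (C k) a v (R k / w^2) (w^2 / R k) ⌊w⌋₊
  FO : ∀ x : Fs, FaceOf T c (x : E3) (F x)
  FT : ∀ x : Fs, ∃ i ∈ T.at_ (x : E3), ∃ j ∈ T.at_ (x : E3), ∀ a v : E3,
    segment ℝ a (a + v) ⊆ T.cc (x : E3) →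
    Disjoint (segment ℝ a (a + v)) (T.oc (x : E3)) → ∀ w : ℝ≥0, max (u i) (u j) ≤ w →
    nuF (B i '' T.cc (x : E3)) (B i '' segment ℝ a (a + v)) ≤ w →
    FaceT (F x) a v (R i / w^2 / (1 + 4 * (max (u i) (u j) : ℝ≥0)^6))
      (w^2 / R i * (1 + 4 * (max (u i) (u j) : ℝ≥0)^6)) ⌊w⌋₊

/-- **the edges have uniform numbers** -/
theorem CF.edge {A : Set ι} {B : ι → E3 ≃ᵃ[ℝ] E3} {R u : ι → ℝ≥0} {c : ι → E3}
    {s : Finset ι} {Fs : Finset E3} {X : Sys s Fs} (G : CF T A B R u c X.C X.F) {i : ι}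
    {x a v : E3} {w : ℝ≥0} (hi : i ∈ A) (hxi : x ∈ P (T.H i)) (hd : T.dim x = 1)
    (hs : T.cc x = segment ℝ a (a + v)) (hw1 : 1 ≤ w)
    (hw : ∀ k ∈ A, (P (T.H k) ∩ P (T.H i)).Nonempty → u k ≤ w ∧ R k ≤ w * R i ∧ R i ≤ w * R k) :
    Edge X a v (R i / (8 * w^9)) (8 * w^9 / R i) ⌊w⌋₊ := by
  have hx : x ∈ Om := T.sub i hxi
  have hSi := G.hS i hi
  have hRi : (0:ℝ) < R i := hSi.coe_pos.1
  have hw0 : (1:ℝ) ≤ w := by exact_mod_cast hw1
  have hwp : (0:ℝ) < w := by linarith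
  have hii : (P (T.H i) ∩ P (T.H i)).Nonempty := ⟨x, hxi, hxi⟩
  have hui : u i ≤ w := (hw i hi hii).1
  -- all points of the edge
  have hEi : T.cc x ⊆ P (T.H i) := T.cc_sub_tile hxi
  have hpt : ∀ t ∈ Icc (0:ℝ) 1, a + t • v ∈ T.cc x := fun t ht => seg_mem hs.symm ht
  have haE : a ∈ T.cc x := by simpa using hpt 0 (by simp)
  have havE : a + v ∈ T.cc x := by simpa using hpt 1 (by simp)
  -- the gap
  have p8 : (1:ℝ) ≤ (w:ℝ)^7 := one_le_pow₀ hw0
  have hgap : ∀ y k, y ∈ P (T.H k) → ∀ t ∈ Icc (0:ℝ) 1, ‖y - (a + t • v)‖ ≤ R i / (8 * w^9) →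
      (P (T.H k) ∩ P (T.H i)).Nonempty := by
    intro y k hy t ht hyt
    refine gap_tile (g := R i / (u i)^2) (fun y hy hd z hz p hp => hSi.gap y hy hd z hz p hp)
      (hEi (hpt t ht)) (hyt.trans ?_) hy
    have hu0 := hSi.coe_pos.2
    have hu1 : (u i : ℝ) ≤ w := by exact_mod_cast hui
    apply div_le_div_of_nonneg_left hRi.le (by positivity)
    have h1 : (u i : ℝ)^2 ≤ (w:ℝ)^2 := by gcongr
    have h2 : (w:ℝ)^9 = w^2 * w^7 := by ring
    have h3 : 0 ≤ (w:ℝ)^2 := by positivity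
    nlinarith
  -- real pair statement with the number `w`
  have hpn : ∀ y, StarT T i y → T.cc x ⊆ T.cc y ∨ PN1 (T.cc y) a v (w^2 / R i) := by
    intro y hy
    refine (hSi.pn hxi hd hy hs).imp id fun h => ?_
    have hu0 := hSi.coe_pos.2
    have hu1 : (u i : ℝ) ≤ w := by exact_mod_cast hui
    refine h.mono ?_ ?_
    · push_cast; positivity
    · push_cast
      gcongr
  constructor
  · positivity
  · positivity
  · -- cells
    intro k
    obtain ⟨eP, eU⟩ := G.CP k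
    have hkA := G.hsA k k.2
    by_cases hE : T.cc x ⊆ P (T.H k)
    · left
      have hdis : Disjoint (T.cc x) (I (T.H k)) := by
        rw [Set.disjoint_left]; exact fun y hy => edge_notMem hx hd hy k
      refine ⟨fun t ht => ⟨by rw [eP]; exact hE (hpt t ht), by
        rw [eU]; exact edge_notMem hx hd (hpt t ht) k⟩, ?_⟩
      have hxk : x ∈ P (T.H k) := hE (T.self_mem_cc x)
      obtain ⟨w1, w2, w3⟩ := hw k hkA ⟨x, hxk, hxi⟩
      have h1 := G.CT k a v (by rw [← hs]; exact hE) (by rw [← hs]; exact hdis) w w1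
        (by rw [← hs]; exact ((G.hS k hkA).nuC_le hxk).trans w1)
      have hRk : (0:ℝ) < R k := (G.hS k hkA).coe_pos.1
      have w2' : (R k : ℝ) ≤ w * R i := by exact_mod_cast w2
      have w3' : (R i : ℝ) ≤ w * R k := by exact_mod_cast w3
      refine h1.mono ?_ ?_ le_rfl
      · rw [div_le_div_iff₀ (by positivity) (by positivity)]
        have e1 : (R k : ℝ) * (8 * w^9) = 8 * w^6 * ((w * R k) * w^2) := by ring
        have e2 : (1:ℝ) ≤ (w:ℝ)^6 := one_le_pow₀ hw0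
        rw [e1]
        have e3 : (R i : ℝ) * w^2 ≤ (w * R k) * w^2 := by gcongr
        have e4 : 0 ≤ ((w:ℝ) * R k) * w^2 := by positivity
        nlinarith
      · rw [div_le_div_iff₀ (by positivity) (by positivity)]
        have e1 : (8:ℝ) * w^9 * R k = 8 * w^6 * ((w * R k) * w^2) := by ring
        have e2 : (1:ℝ) ≤ (w:ℝ)^6 := one_le_pow₀ hw0
        rw [e1]
        have e3 : (w:ℝ)^2 * R i ≤ (w * R k) * w^2 := by
          have : (w:ℝ)^2 * R i ≤ w^2 * (w * R k) := by gcongr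
          linarith
        have e4 : 0 ≤ ((w:ℝ) * R k) * w^2 := by positivity
        nlinarith
    · right
      intro y hy t ht r hr hyr
      rw [eP] at hy
      obtain ⟨z0, hz0⟩ := T.ne (k : ι)
      have hk2 := hgap y k hy t ht (hyr.trans hr)
      have hst : StarT T i z0 := ⟨k, I_sub_P _ hz0, hk2⟩
      rcases hpn z0 hst with h1 | h1
      · rw [T.cc_eq_tile hz0] at h1
        exact absurd h1 hE
      · rw [T.cc_eq_tile hz0] at h1
        have hr0 : 0 ≤ r := (norm_nonneg _).trans hyr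
        have h2 : r ≤ ((w:ℝ)^2 / R i)⁻¹ := by
          rw [inv_div]
          refine hr.trans (div_le_div_of_nonneg_left hRi.le (by positivity) ?_)
          have h2 : (w:ℝ)^9 = w^2 * w^7 := by ring
          have h3 : 0 ≤ (w:ℝ)^2 := by positivity
          nlinarith
        have h3 : (w:ℝ)^2 / R i * r ≤ 8 * w^9 / R i * r := by
          refine mul_le_mul_of_nonneg_right (div_le_div_of_nonneg_right ?_ hRi.le) hr0
          have h2 : (w:ℝ)^9 = w^2 * w^7 := by ring
          have h3 : 0 ≤ (w:ℝ)^2 := by positivity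
          nlinarith
        rw [eP, eU]
        rcases h1 y hy t ht r h2 hyr with h4 | h4
        · exact Or.inl ⟨h4.1.trans h3, h4.2, edge_notMem hx hd haE k⟩
        · exact Or.inr ⟨h4.1.trans h3, h4.2, edge_notMem hx hd havE k⟩
  · -- faces
    intro j
    obtain ⟨hjO, hjd⟩ := G.hFs j j.2
    have hno : ∀ y ∈ T.cc x, y ∉ T.oc (j : E3) := fun y hy => edge_notMem_oc hd hjO hjd hy
    have hrim := (G.FO j).rim
    by_cases hE : T.cc x ⊆ T.cc (j : E3)
    · left
      constructor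
      · intro t ht
        have h1 : a + t • v ∈ (X.F j).rim := by
          rw [hrim]; exact ⟨hE (hpt t ht), hno _ (hpt t ht)⟩
        obtain ⟨z, ⟨hz0, hz1⟩, hz⟩ := h1
        have hzD : z ∈ Dc := Face.rim_mem hz0 hz1
        have e1 : (X.F j).e (a + t • v) = z := by rw [← hz, (X.F j).cht.inv' z hzD]
        refine ⟨by rw [← hz]; exact (X.F j).cht.maps' hzD, by rw [e1]; exact hz0,
          by rw [e1]; exact hz1⟩
      · obtain ⟨i1, hi1, j1, hj1, hFT⟩ := G.FT j
        have hxi1 : x ∈ P (T.H i1) := T.cc_sub_tile hi1 (hE (T.self_mem_cc x))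
        have hxj1 : x ∈ P (T.H j1) := T.cc_sub_tile hj1 (hE (T.self_mem_cc x))
        have hA1 := G.hFA j j.2 i1 hi1
        obtain ⟨w1, w2, w3⟩ := hw i1 hA1 ⟨x, hxi1, hxi⟩
        obtain ⟨w1', -, -⟩ := hw j1 (G.hFA j j.2 j1 hj1) ⟨x, hxj1, hxi⟩
        have hdis : Disjoint (T.cc x) (T.oc (j : E3)) := Set.disjoint_left.2 hno
        have h1 := hFT a v (by rw [← hs]; exact hE) (by rw [← hs]; exact hdis) w (max_le w1 w1')
          (by rw [← hs]; exact ((G.hS i1 hA1).nuF_le hi1 hxi1).trans w1)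
        have hR1 : (0:ℝ) < R i1 := (G.hS i1 hA1).coe_pos.1
        have w3' : (R i : ℝ) ≤ w * R i1 := by exact_mod_cast w3
        set m : ℝ≥0 := max (u i1) (u j1) with hm
        have hmw : (m:ℝ) ≤ w := by exact_mod_cast max_le w1 w1'
        have hm0 : (0:ℝ) ≤ m := m.coe_nonneg
        have k1 : 1 + 4 * (m:ℝ)^6 ≤ 5 * w^6 := by
          have : (m:ℝ)^6 ≤ w^6 := by gcongr
          have : (1:ℝ) ≤ (w:ℝ)^6 := one_le_pow₀ hw0
          linarith
        have k0 : 0 < 1 + 4 * (m:ℝ)^6 := by positivity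
        have hmm : ((max (u i1) (u j1) : ℝ≥0) : ℝ) = m := rfl
        refine h1.mono ?_ ?_ le_rfl
        · rw [div_div, div_le_div_iff₀ (by positivity) (by positivity)]
          have e1 : (R i : ℝ) * (w^2 * (1 + 4 * (m:ℝ)^6)) ≤ (w * R i1) * (w^2 * (5 * w^6)) := by
            gcongr
          have e2 : ((w:ℝ) * R i1) * (w^2 * (5 * w^6)) = 5 * (R i1 * w^9) := by ring
          have e3 : (0:ℝ) ≤ R i1 * w^9 := by positivity
          rw [hmm]
          linarith
        · rw [div_mul_eq_mul_div, div_le_div_iff₀ (by positivity) (by positivity)]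
          have e1 : (w:ℝ)^2 * (1 + 4 * (m:ℝ)^6) * R i ≤ w^2 * (5 * w^6) * (w * R i1) := by
            gcongr
          have e2 : (w:ℝ)^2 * (5 * w^6) * (w * R i1) = 5 * (w^9 * R i1) := by ring
          have e3 : (0:ℝ) ≤ w^9 * R i1 := by positivity
          rw [hmm]
          linarith
    · right
      intro y hy t ht r hr hyr
      have hr0 : 0 ≤ r := (norm_nonneg _).trans hyr
      obtain ⟨i1, j1, D, hD, hK, hV, he, -⟩ := G.FO j
      rw [hK] at hy
      -- the tiles at the point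
      have htile : ∀ k ∈ T.at_ (j : E3), y ∈ P (T.H k) → r < R i / (w^3) ∧
          closedBall (c k) (R i / (w^3)) ⊆ I (T.H k) ∧
          ∀ z ∈ T.cc (j : E3), ‖c k - z‖ ≤ w^3 * R i := by
        intro k hk hyk
        have hkA := G.hFA j j.2 k hk
        obtain ⟨w1, w2, w3⟩ := hw k hkA (hgap y k hyk t ht (hyr.trans hr))
        have hSk := (G.hS k hkA).toShp.mono w1
        have w2' : (R k : ℝ) ≤ w * R i := by exact_mod_cast w2
        have e7 : (1:ℝ) ≤ (w:ℝ)^6 := one_le_pow₀ hw0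
        refine ⟨?_, ?_, fun z hz => ?_⟩
        · refine lt_of_le_of_lt hr ?_
          apply div_lt_div_of_pos_left hRi (by positivity)
          have h2 : (w:ℝ)^9 = w^3 * w^6 := by ring
          have h3 : 0 < (w:ℝ)^3 := by positivity
          nlinarith
        · rw [G.hcB k hkA]
          have := hSk.ball_sub (r := R i / w^3) (by
            have hw3 : w ≠ 0 := (zero_lt_one.trans_le hw1).ne'
            calc R i / w^3 * (w * w) ≤ (w * R k) / w^3 * (w * w) := by gcongr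
              _ = R k := by field_simp)
          simpa using this
        · rw [G.hcB k hkA]
          refine (hSk.norm_le (T.cc_sub_tile hk hz)).trans ?_
          push_cast
          calc (w:ℝ) * w * R k ≤ w * w * (w * R i) := by gcongr
            _ = w^3 * R i := by ring
      obtain ⟨z, hz, hzp⟩ := hD.foot G.hc hy hyr (fun k => edge_notMem hx hd (hpt t ht) k) htile
      have hzp' : ‖z - (a + t • v)‖ ≤ (1 + w^6) * r := by
        have e : (w:ℝ)^3 * R i / (R i / w^3) = w^6 := by field_simp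
        rcases hzp with h1 | ⟨-, h1⟩
        · rwa [e] at h1
        · have : (0:ℝ) ≤ w^6 * r := by positivity
          linarith
      -- the star
      obtain ⟨k, hk, hyk⟩ : ∃ k ∈ T.at_ (j : E3), y ∈ P (T.H k) :=
        (G.FO j).sub G.hc (by rw [hK]; exact hy)
      have hst : StarT T i (j : E3) := ⟨k, hk, hgap y k hyk t ht (hyr.trans hr)⟩
      rcases hpn _ hst with h1 | h1
      · exact absurd h1 hE
      · have e6 : (1:ℝ) ≤ (w:ℝ)^6 := one_le_pow₀ hw0
        have e1 : (1:ℝ) ≤ (w:ℝ)^1 := one_le_pow₀ hw0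
        have h2 : (1 + (w:ℝ)^6) * r ≤ ((w:ℝ)^2 / R i)⁻¹ := by
          rw [inv_div, le_div_iff₀ (by positivity)]
          rw [le_div_iff₀ (by positivity)] at hr
          have : (1 + (w:ℝ)^6) * r * w^2 ≤ r * (8 * w^9) := by
            have e2 : (1 + (w:ℝ)^6) * r * w^2 = r * ((1 + w^6) * w^2) := by ring
            rw [e2]
            refine mul_le_mul_of_nonneg_left ?_ hr0
            have e3 : (w:ℝ)^9 = w * (w^6 * w^2) := by ring
            have e4 : (0:ℝ) < w^6 * w^2 := by positivity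
            have e5 : (w:ℝ)^2 ≤ w^6 * w^2 := by nlinarith [pow_pos hwp 2]
            nlinarith
          linarith
        have h3 : (w:ℝ)^2 / R i * ((1 + (w:ℝ)^6) * r) ≤ 8 * w^9 / R i * r := by
          have e2 : (w:ℝ)^2 / R i * ((1 + (w:ℝ)^6) * r) = (w^2 * (1 + w^6)) / R i * r := by ring
          rw [e2]
          refine mul_le_mul_of_nonneg_right (div_le_div_of_nonneg_right ?_ hRi.le) hr0
          have e3 : (w:ℝ)^9 = w * (w^6 * w^2) := by ring
          have e4 : (0:ℝ) < w^6 * w^2 := by positivity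
          have e5 : (w:ℝ)^2 ≤ w^6 * w^2 := by nlinarith [pow_pos hwp 2]
          nlinarith
        rw [hrim]
        rcases h1 z hz t ht _ h2 hzp' with h4 | h4
        · exact Or.inl ⟨h4.1.trans h3, h4.2, hno _ haE⟩
        · exact Or.inr ⟨h4.1.trans h3, h4.2, hno _ havE⟩

/-- **the system of a tiling, constants and edges from the shapes of the tiles** -/
theorem exists_sys_edge (T : Tiling Om ι) (A : Set ι) (B : ι → E3 ≃ᵃ[ℝ] E3) (R u : ι → ℝ≥0)
    (hS : ∀ i ∈ A, Shp2 T i (B i) (R i) (u i)) (s : Finset ι) (hsA : ∀ k ∈ s, k ∈ A)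
    (Fs : Finset E3) (hFs : ∀ x ∈ Fs, x ∈ Om ∧ T.dim x = 2) (hFA : ∀ x ∈ Fs, ∀ k ∈ T.at_ x, k ∈ A)
    (hne : ∀ x ∈ Fs, ∀ y ∈ Fs, x ≠ y → T.cc x ≠ T.cc y) (ρ : E3 → ℝ≥0)
    (hρ : ∀ x ∈ Fs, ∀ k ∈ T.at_ x, R k ≤ u k * ρ x ∧ ρ x ≤ u k * R k) (m : ι → ℝ≥0)
    (hm : ∀ k ∈ s, u k ≤ m k)
    (hm' : ∀ x ∈ Fs, ∀ k ∈ T.at_ x, k ∈ s → ∀ l ∈ T.at_ x, u l ≤ m k) (Z : Set E3)
    (hZ : ∀ k ∈ s, ∀ y ∈ P (T.H k) \ I (T.H k), y ∈ Z ∨ ∃ x ∈ Fs, y ∈ T.oc x) :
    ∃ c : ι → E3, (∀ i, c i ∈ I (T.H i)) ∧ ∃ X : Sys s Fs,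
      (∀ k : s, (X.C k).P = P (T.H k) ∧ (X.C k).U = I (T.H k) ∧ (X.C k).R = R k) ∧
      (∀ x : Fs, FaceOf T c (x : E3) (X.F x) ∧ (X.F x).ρ = ρ x) ∧ X.Z = Z ∧
      (∀ k : s, X.m k = GG (m k)) ∧
      ∀ (i : ι) (x a v : E3) (w : ℝ≥0), i ∈ A → x ∈ P (T.H i) → T.dim x = 1 →
        T.cc x = segment ℝ a (a + v) → 1 ≤ w →
        (∀ k ∈ A, (P (T.H k) ∩ P (T.H i)).Nonempty → u k ≤ w ∧ R k ≤ w * R i ∧ R i ≤ w * R k) →
        Edge X a v (R i / (8 * w^9)) (8 * w^9 / R i) ⌊w⌋₊ := by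
  classical
  have h0 : ∀ i, ∃ a ∈ I (T.H i), i ∈ A → a = ctT T i (B i) := by
    intro i
    by_cases hi : i ∈ A
    · exact ⟨_, (hS i hi).ctT_mem, fun _ => rfl⟩
    · obtain ⟨a, ha⟩ := T.ne i
      exact ⟨a, ha, fun h => absurd h hi⟩
  choose c hc hcA using h0
  refine ⟨c, hc, ?_⟩
  have h1 : ∀ k : s, ∃ C : Cell, C.P = P (T.H k) ∧ C.U = I (T.H k) ∧ C.R = R k ∧
      C.M ≤ GG (u k) ∧ ∀ a v : E3, segment ℝ a (a + v) ⊆ P (T.H k) →
      Disjoint (segment ℝ a (a + v)) (I (T.H k)) → ∀ w : ℝ≥0, u k ≤ w →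
      nuC (B k '' P (T.H k)) (B k '' segment ℝ a (a + v)) ≤ w →
      CellT C a v (R k / w^2) (w^2 / R k) ⌊w⌋₊ := by
    intro k
    have hk := (hS k (hsA k k.2)).toShp
    obtain ⟨C, e1, e2, e3, e4, e5⟩ := exists_cell_tube (T.cpt k) (T.ne k) hk.pos hk.v_pos hk.frm
    refine ⟨C, e1, e2, e3, ?_, e5⟩
    rw [e4]
    refine max_le (one_le_GG _) ?_
    calc u k * mC (B k '' P (T.H k)) ≤ u k * u k := by gcongr; exact hk.mC_le
      _ = (u k)^2 := by ring
      _ ≤ GG (u k) := by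
        rw [GG, add_assoc, add_assoc, ← add_assoc, add_comm 1, add_assoc]
        exact le_self_add
  choose C hC1 hC2 hC3 hC4 hC5 using h1
  have h2 : ∀ x : Fs, ∃ F : Face, FaceOf T c (x : E3) F ∧ F.ρ = ρ x ∧
      (∀ w, (∀ l ∈ T.at_ (x : E3), u l ≤ w) → F.M ≤ GG w) ∧
      ∃ i ∈ T.at_ (x : E3), ∃ j ∈ T.at_ (x : E3), ∀ a v : E3,
        segment ℝ a (a + v) ⊆ T.cc (x : E3) →
        Disjoint (segment ℝ a (a + v)) (T.oc (x : E3)) → ∀ w : ℝ≥0, max (u i) (u j) ≤ w →
        nuF (B i '' T.cc (x : E3)) (B i '' segment ℝ a (a + v)) ≤ w →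
        FaceT F a v (R i / w^2 / (1 + 4 * (max (u i) (u j) : ℝ≥0)^6))
          (w^2 / R i * (1 + 4 * (max (u i) (u j) : ℝ≥0)^6)) ⌊w⌋₊ := by
    intro x
    obtain ⟨hxO, hxd⟩ := hFs x x.2
    have h3 : Module.finrank ℝ E3 = 3 := by simp
    obtain ⟨i, j, -, hat, -⟩ := T.two_tiles hxO (by rw [hxd, h3])
    have hi : i ∈ T.at_ (x : E3) := by rw [hat]; exact mem_insert _ _
    have hj : j ∈ T.at_ (x : E3) := by rw [hat]; exact mem_insert_of_mem _ rfl
    have hv : ∀ l ∈ T.at_ (x : E3), u l ≤ max (u i) (u j) := by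
      intro l hl
      rw [hat] at hl
      rcases hl with rfl | rfl
      · exact le_max_left _ _
      · exact le_max_right _ _
    obtain ⟨F, e1, e2, e3, e4⟩ := exists_face_shape_tube (T := T) hc hxO hxd (B := B) (R := R)
      (ρ := ρ x) (v := max (u i) (u j))
      (fun k hk => ((hS k (hFA x x.2 k hk)).toShp).mono (hv k hk))
      (fun k hk => hcA k (hFA x x.2 k hk)) (fun k hk => by
        obtain ⟨r1, r2⟩ := hρ x x.2 k hk
        have := hv k hk
        exact ⟨r1.trans (by gcongr), r2.trans (by gcongr)⟩) hi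
    exact ⟨F, e1, e2, fun w hw => e3.trans (GG_mono (max_le (hw i hi) (hw j hj))), i, hi, j, hj,
      e4⟩
  choose F hF1 hF2 hF3 hF4 using h2
  refine ⟨mkSys hc s Fs (fun x hx => (hFs x hx).1) hne C (fun k => ⟨hC1 k, hC2 k⟩) F
    hF1 (fun k => GG (m k)) (fun k => (hC4 k).trans (GG_mono (hm k k.2)))
    (fun k x hk => hF3 x _ (hm' x x.2 k hk k.2)) Z hZ,
    fun k => ⟨hC1 k, hC2 k, hC3 k⟩, fun x => ⟨hF1 x, hF2 x⟩, rfl, fun _ => rfl, ?_⟩
  intro i x a v w hiA hxi hd hs hw1 hw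
  exact CF.edge (A := A) (B := B) (u := u) (c := c)
    { hS := hS, hc := hc, hcB := hcA, hsA := hsA, hFs := hFs, hFA := hFA
      CP := fun k => ⟨hC1 k, hC2 k⟩, CT := hC5, FO := hF1, FT := hF4 } hiA hxi hd hs hw1 hw

end tiling

end Crest.Agent.R096.Sq_55
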