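import Crest.Agent.R096.Sqt11_143
import Crest.Agent.R096.Str5_968

/-!
Row 96 (S0127), helper143.  SQ-TUBE, part 12 = TUBE-LIM: **near-optimality of `f ∘ chi` in the
direction of an edge in the limit `δ → 0`** (`near_lim`), from 968's `rhs_stripc`.
-/

set_option autoImplicit false
set_option linter.unusedSectionVars false

open Set Metric Filter Topology MeasureTheory

namespace Crest.Agent.R096.Sqt_143

open Crest.Agent.R096.Ce_537 Crest.Agent.R096.Bd_416 Crest.Agent.R96.Hole_348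
open Crest.Agent.R096.Sq_55 Crest.Agent.R096.Str_968 Crest.Agent.R096.Cob_622
open Crest.AnalysisR.VecCalc3 Crest.AnalysisR.Sobolev
open Crest.Agent.R096.Sk_962
open Crest.Agent.R96.Lu_538
open scoped NNReal ENNReal


/-- `tb` is 968's bracket -/
lemma tb_eq {κ ι : Type*} [Fintype κ] [Fintype ι] (X : Sys κ ι) (δ : ℝ) (k : κ) (E : Set E3)
    (u : ℝ) (g : E3 → ℝ≥0∞) : tb X δ k E u g =
      SBc X δ (11 * (X.m k : ℝ)^4 * (δ / (X.C k).R) * u) k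
        (cthickening (25 * (X.m k : ℝ)^4 * u) E) g := rfl

variable {κ ι : Type*} [Fintype κ] [Fintype ι] {X : Sys κ ι}

/-- the constant of the thickness -/
noncomputable def cu (X : Sys κ ι) (k : κ) (u : ℝ) : ℝ := 11 * (X.m k : ℝ)^4 * u / (X.C k).R

lemma cu_pos {k : κ} {u : ℝ} (hu : 0 < u) (hR : (0:ℝ) < (X.C k).R) : 0 < cu X k u := by
  have := Sys.m_one (X := X) k
  unfold cu
  positivity

/-- **the limit of `tb`** -/
theorem tb_lim {α β : Type*} [Fintype α] [Fintype β] {Om : Set R3} {g : R3 → ℝ≥0∞} {N₁ : Set E3}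
    (D : EFN X Om g N₁ α β) {k : κ} (hC : (X.C k).P ⊆ w2 ⁻¹' Om) {E : Set E3} {u s₀ : ℝ}
    (hR : (0:ℝ) < (X.C k).R) (hu : 0 < u) (hs₀ : 0 < s₀)
    (hN₁ : nb s₀ ((X.C k).P ∩ cthickening (25 * (X.m k : ℝ)^4 * u) E) ⊆ N₁) {ε : ℝ≥0∞}
    (hε : ε ≠ 0) :
    ∀ᶠ δ in 𝓝[>] (0:ℝ), tb X δ k E u (fun x => g (w2 x)) ≤
      D.J k (cthickening (25 * (X.m k : ℝ)^4 * u) E) (cu X k u) + ε := by
  filter_upwards [rhs_stripc D hC isClosed_cthickening hs₀ hN₁ (cu_pos hu hR) hε] with δ h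
  rw [tb_eq]
  have e : 11 * (X.m k : ℝ)^4 * (δ / (X.C k).R) * u = cu X k u * δ := by
    unfold cu
    field_simp
  rw [e]
  exact h

lemma Tb_ev {k : κ} {E : Set E3} {u : ℝ} (hρ : ∀ j, (0:ℝ) < (X.F j).ρ)
    (sz : ∀ j, ((X.F j).V ∩ (X.C k).P).Nonempty → (X.C k).R ≤ X.m k * (X.F j).ρ)
    (hE : IsCompact E) (EU : ∀ y ∈ E, y ∉ (X.C k).U) (EV : ∀ y ∈ E, ∀ j, y ∉ (X.F j).V)
    (u0 : 0 ≤ u) (uR : 40 * (X.m k : ℝ)^4 * u ≤ (X.C k).R) :
    ∀ᶠ δ in 𝓝[>] (0:ℝ), Tb X δ k E u := by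
  have h1 : ∀ᶠ δ in 𝓝[>] (0:ℝ), ∀ j, δ < ((X.F j).ρ : ℝ) / 4 := by
    refine eventually_all.2 fun j => ?_
    have h2 : (0:ℝ) < ((X.F j).ρ : ℝ) / 4 := by have := hρ j; positivity
    exact (eventually_lt_nhds h2).filter_mono nhdsWithin_le_nhds
  filter_upwards [h1] with δ h
  exact ⟨fun j => by have := h j; linarith, sz, hE, EU, EV, u0, uR⟩



end Crest.Agent.R096.Sqt_143
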