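import Crest.Agent.R096.Pas3_753
import Crest.Agent.R096.Vly1_186
import Crest.Agent.R096.Cbs1_296
import Crest.Agent.R096.Cob7_622
import Crest.Agent.R096.Cob8_622
import Crest.Agent.R096.Gsc3_476

-- ▼ part R096/Ou1_372
section

/-!
Row 96 (S0127), helper372.  (OU) of 753 #11736: the `Ly` clause and the last clause of `OutP`, from the
cell energies of composite B.  Part A: abstract.  Part B: layers of the blocks.  Part C: for the output of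
622's `cob_main` over 296's `SysOf (Te T)`.
-/

set_option autoImplicit false
set_option linter.style.longLine false
set_option linter.unusedSectionVars false

open MeasureTheory Set Filter Topology Metric
open scoped ENNReal NNReal

namespace Crest.Agent.R096.Ou_372

open Crest.AnalysisR.VecCalc3 Crest.AnalysisR.Sobolev
open Crest.Agent.R096.Msh_715 (Tiling P I)
open Crest.Agent.R096.Mal_874 (CB)
open Crest.Agent.R096.Br_695 (En)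
open Crest.Agent.R096.Pin_753
open Crest.Agent.R96.Coarse_538 (vt Cb)
open Crest.Agent.R096.Sq_55 (E3 Sys Face FaceOf w2 lint_w2)
open Crest.Agent.R096.Cob_622 (EF)
open Crest.Agent.R096.Efi_296 (Te reps)
open Crest.Agent.R096.Cbs_296 (SysOf)

noncomputable section

/-! ### Part A: abstract -/

section abstract_

variable {ι J : Type*} {Om : Set R3} {Pc : ι → Set R3} {e1 e2 : R3 → ℝ≥0∞} {Jf : ι → ℝ≥0∞}
  {C₀ Cu ε' e₀ : ℝ≥0∞}

/-- integral over a finite union -/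
theorem lint_cells (s₁ : Finset ι) (cells : ∀ k ∈ s₁, ∫⁻ x in Pc k, e2 x ≤ Jf k + ε') :
    ∫⁻ x in ⋃ k ∈ s₁, Pc k, e2 x ≤ (∑ k ∈ s₁, Jf k) + s₁.card * ε' := by
  classical
  have h1 : ∫⁻ x in ⋃ k ∈ s₁, Pc k, e2 x ≤ ∑ k ∈ s₁, ∫⁻ x in Pc k, e2 x := by
    have h := lintegral_iUnion_le (μ := (volume : Measure R3)) (fun k : s₁ => Pc k) e2
    rw [tsum_fintype, Finset.sum_coe_sort s₁ (fun k => ∫⁻ x in Pc k, e2 x)] at h
    have e : (⋃ k ∈ s₁, Pc k) = ⋃ k : s₁, Pc k := by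
      ext x; simp
    rw [e]
    exact h
  refine h1.trans ?_
  calc (∑ k ∈ s₁, ∫⁻ x in Pc k, e2 x) ≤ ∑ k ∈ s₁, (Jf k + ε') := Finset.sum_le_sum cells
    _ = (∑ k ∈ s₁, Jf k) + s₁.card * ε' := by
      rw [Finset.sum_add_distrib, Finset.sum_const, nsmul_eq_mul]

/-- **the last clause of `OutP`, abstract**: `s'` = all tiles of the system, `s₁` = those which are
not inside a block -/
theorem out_le {pJ : J → Prop} {N Kc : J → Set R3} (s' s₁ : Finset ι) (hOm : MeasurableSet Om)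
    (hPm : ∀ k ∈ s', MeasurableSet (Pc k)) (hNm : MeasurableSet (⋃ j ∈ {j | pJ j}, N j))
    (hKN : ∀ j, pJ j → Kc j ⊆ N j) (hs₁ : ∀ k ∈ s', k ∈ s₁ ∨ ∃ j, pJ j ∧ Pc k ⊆ N j)
    (cells : ∀ k ∈ s₁, ∫⁻ x in Pc k, e2 x ≤ Jf k + ε')
    (out : ∀ S : Set R3, MeasurableSet S → S ⊆ Om → (∀ x ∈ S, ∀ k ∈ s', x ∉ Pc k) →
      ∫⁻ x in S, e2 x ≤ C₀ * (∫⁻ x in S, e1 x) + ε')
    (hi : ∑ k ∈ s₁, Jf k ≤ Cu * (∫⁻ x in Om \ ⋃ j ∈ {j | pJ j}, Kc j, e1 x) + e₀) :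
    ∫⁻ x in Om \ ⋃ j ∈ {j | pJ j}, N j, (1 + e2 x) ≤
      (1 + C₀ + Cu) * (∫⁻ x in Om \ ⋃ j ∈ {j | pJ j}, Kc j, (1 + e1 x)) +
        (e₀ + (s₁.card + 1) * ε') := by
  classical
  have hsub : Om \ ⋃ j ∈ {j | pJ j}, N j ⊆ Om \ ⋃ j ∈ {j | pJ j}, Kc j := by
    refine sdiff_subset_sdiff_right ?_
    exact iUnion₂_mono fun j hj => hKN j hj
  set S : Set R3 := (Om \ ⋃ j ∈ {j | pJ j}, N j) \ ⋃ k ∈ s', Pc k with hS
  have hSm : MeasurableSet S :=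
    (hOm.diff hNm).diff (Finset.measurableSet_biUnion s' hPm)
  have hcov : Om \ ⋃ j ∈ {j | pJ j}, N j ⊆ (⋃ k ∈ s₁, Pc k) ∪ S := by
    intro x hx
    by_cases h : x ∈ ⋃ k ∈ s', Pc k
    · left
      obtain ⟨k, hk, hxk⟩ := mem_iUnion₂.1 h
      rcases hs₁ k hk with h1 | ⟨j, hj, hsub⟩
      · exact mem_iUnion₂.2 ⟨k, h1, hxk⟩
      · exact absurd (mem_iUnion₂.2 ⟨j, hj, hsub hxk⟩) hx.2
    · exact Or.inr ⟨hx, h⟩
  have h1 : ∫⁻ x in Om \ ⋃ j ∈ {j | pJ j}, N j, e2 x ≤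
      ((∑ k ∈ s₁, Jf k) + s₁.card * ε') + (C₀ * (∫⁻ x in S, e1 x) + ε') := by
    refine (lintegral_mono_set hcov).trans ((lintegral_union_le _ _ _).trans ?_)
    refine add_le_add (lint_cells s₁ cells) (out S hSm (fun x hx => hx.1.1) fun x hx k hk hxk => ?_)
    exact hx.2 (mem_iUnion₂.2 ⟨k, hk, hxk⟩)
  have h2 : ∫⁻ x in S, e1 x ≤ ∫⁻ x in Om \ ⋃ j ∈ {j | pJ j}, Kc j, e1 x :=
    lintegral_mono_set fun x hx => hsub hx.1
  rw [lintegral_add_left measurable_const, lintegral_add_left measurable_const]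
  simp only [lintegral_const, one_mul, Measure.restrict_apply MeasurableSet.univ, univ_inter]
  set V₁ := volume (Om \ ⋃ j ∈ {j | pJ j}, N j) with hV₁
  set V₂ := volume (Om \ ⋃ j ∈ {j | pJ j}, Kc j) with hV₂
  set A := ∫⁻ x in Om \ ⋃ j ∈ {j | pJ j}, Kc j, e1 x with hA
  have h3 : V₁ ≤ V₂ := measure_mono hsub
  calc V₁ + ∫⁻ x in Om \ ⋃ j ∈ {j | pJ j}, N j, e2 x
      ≤ V₂ + (((Cu * A + e₀) + s₁.card * ε') + (C₀ * A + ε')) := by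
        refine add_le_add h3 (h1.trans (add_le_add (add_le_add hi le_rfl) ?_))
        exact add_le_add (mul_le_mul_right h2 _) le_rfl
    _ = (V₂ + C₀ * A + Cu * A) + (e₀ + (s₁.card + 1) * ε') := by ring
    _ ≤ (1 + C₀ + Cu) * (V₂ + A) + (e₀ + (s₁.card + 1) * ε') := by
        refine add_le_add ?_ le_rfl
        calc V₂ + C₀ * A + Cu * A ≤ (V₂ + C₀ * A + Cu * A) + (A + C₀ * V₂ + Cu * V₂) := le_self_add
          _ = (1 + C₀ + Cu) * (V₂ + A) := by ring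

/-- **the `Ly` clause of `OutP`, abstract** -/
theorem ly_le [Countable J] {pJ : J → Prop} {Lj : J → Set R3} {ev : ℝ≥0∞} (s₂ : Finset ι)
    (hm : ∀ j, pJ j → MeasurableSet (Lj j))
    (hd : ∀ i j, pJ i → pJ j → i ≠ j → Disjoint (Lj i) (Lj j))
    (hL : ∀ j, pJ j → ∀ x ∈ Lj j, ∃ k ∈ s₂, x ∈ Pc k)
    (cells : ∀ k ∈ s₂, ∫⁻ x in Pc k, e2 x ≤ Jf k + ε') (hii : ∑ k ∈ s₂, Jf k ≤ e₀)
    (hv : ∑' j : {j // pJ j}, volume (Lj j) ≤ ev) :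
    ∑' j : {j // pJ j}, ∫⁻ x in Lj j, (1 + e2 x) ≤ ev + (e₀ + s₂.card * ε') := by
  have h1 : ∀ j : {j // pJ j}, ∫⁻ x in Lj j, (1 + e2 x) = volume (Lj j) + ∫⁻ x in Lj j, e2 x := by
    intro j
    rw [lintegral_add_left measurable_const]
    simp only [lintegral_const, one_mul, Measure.restrict_apply MeasurableSet.univ, univ_inter]
  simp_rw [h1]
  rw [ENNReal.tsum_add]
  refine add_le_add hv ?_
  rw [← lintegral_iUnion (fun j : {j // pJ j} => hm j j.2) (fun i j hij => hd i j i.2 j.2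
    (fun e => hij (Subtype.ext e)))]
  refine (lintegral_mono_set ?_).trans ((lint_cells s₂ cells).trans (add_le_add hii le_rfl))
  intro x hx
  obtain ⟨j, hj⟩ := mem_iUnion.1 hx
  obtain ⟨k, hk, hxk⟩ := hL j j.2 x hj
  exact mem_iUnion₂.2 ⟨k, hk, hxk⟩

end abstract_

/-! ### Part B: the layers of the blocks -/

section layers

variable {J : Type*} {κ s τ hh c1 θ0 θ1 c2 : ℝ} {Bs Nn : ℕ} {z0 : J → R3} {Qb : J → CB R3 3}
  {k0 : ℕ}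

/-- a point of the layer is near the wall -/
theorem ly_near {Q : CB R3 3} {r : ℝ} (hκ : 0 < κ) (hcnd : ∀ v, κ / 4 * ‖v‖ ≤ ‖Q.ψ v‖)
    {θ : ℝ} (hθ : 1 / 2 ^ k0 ≤ θ * s) (hr : 0 ≤ r) {y z : R3} (h : ‖Q.ψ y - Q.ψ z‖ ≤ r / 2 ^ k0) :
    dist y z ≤ 4 * r * κ⁻¹ * θ * s := by
  have h1 := hcnd (y - z)
  rw [map_sub] at h1
  have h2 : r / 2 ^ k0 ≤ r * (θ * s) := by
    rw [div_eq_mul_one_div]
    exact mul_le_mul_of_nonneg_left hθ hr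
  have h3 : κ * ‖y - z‖ ≤ 4 * r * (θ * s) := by linarith
  rw [dist_eq_norm]
  have h4 : ‖y - z‖ ≤ (4 * r * (θ * s)) / κ := by rw [le_div_iff₀' hκ]; exact h3
  refine h4.trans (le_of_eq ?_)
  field_simp

/-- **the layers are disjoint** -/
theorem ly_disj (hs : 0 < s) (hκ : 0 < κ) (hθ : 320 * θ0 < κ * c2) (h2 : 1 / 2 ^ k0 ≤ θ0 * s)
    (hb : ∀ j, ∀ v, κ / 4 * ‖v‖ ≤ ‖(Qb j).ψ v‖)
    (sep : ∀ i j, i ≠ j → ∀ x ∈ (Qb i).N, ∀ y ∈ (Qb j).N, c2 * s ≤ dist x y) (a : R3) {i j : J}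
    (hij : i ≠ j) : Disjoint (Ly ((Qb i).tr a) k0) (Ly ((Qb j).tr a) k0) := by
  rw [Set.disjoint_left]
  rintro y ⟨z1, hz1, h3⟩ ⟨z2, hz2, h4⟩
  have n1 : z1 - a ∈ (Qb i).N := ((Qb i).mem_N_tr a z1).1 (((Qb i).tr a).frontier_sub hz1)
  have n2 : z2 - a ∈ (Qb j).N := ((Qb j).mem_N_tr a z2).1 (((Qb j).tr a).frontier_sub hz2)
  have h5 := sep i j hij _ n1 _ n2
  rw [dist_sub_right] at h5
  have h6 := ly_near (Q := (Qb i).tr a) hκ (hb i) h2 (by norm_num) h3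
  have h7 := ly_near (Q := (Qb j).tr a) hκ (hb j) h2 (by norm_num) h4
  have h8 := dist_triangle z1 y z2
  rw [dist_comm z1 y] at h8
  have e : 4 * 40 * κ⁻¹ * θ0 * s + 4 * 40 * κ⁻¹ * θ0 * s = 320 * θ0 * κ⁻¹ * s := by ring
  have h9 : 320 * θ0 * κ⁻¹ < c2 := by
    rw [← div_eq_mul_inv, div_lt_iff₀ hκ]
    linarith
  have h10 : 320 * θ0 * κ⁻¹ * s < c2 * s := mul_lt_mul_of_pos_right h9 hs
  linarith

/-- **the volume of the layers** -/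
theorem ly_vol [Countable J] (hs : 0 < s) (hc1 : 0 < c1) (hθ : 40 * θ0 ≤ c1)
    (h2 : 1 / 2 ^ k0 ≤ θ0 * s) (hb : ∀ j, c1 * s ≤ 1 / 2 ^ (Qb j).kc) (hc2 : 0 < c2)
    (sep : ∀ i j, i ≠ j → ∀ x ∈ (Qb i).N, ∀ y ∈ (Qb j).N, c2 * s ≤ dist x y) {Om : Set R3}
    (hO : ∀ j, (Qb j).N ⊆ Om) (a : R3) :
    ∑' j, volume (Ly ((Qb j).tr a) k0) ≤ ENNReal.ofReal (7680 * θ0 / c1) * volume Om := by
  have hθ0 : 0 < θ0 := by
    have h3 : (0 : ℝ) < 1 / 2 ^ k0 := by positivity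
    by_contra hcon
    have : θ0 * s ≤ 0 := mul_nonpos_of_nonpos_of_nonneg (not_lt.1 hcon) hs.le
    linarith
  have hd : Pairwise fun i j => Disjoint (Qb i).N (Qb j).N := by
    intro i j hij
    rw [Set.disjoint_left]
    intro x hx hx'
    have h3 := sep i j hij x hx x hx'
    rw [dist_self] at h3
    have : 0 < c2 * s := by positivity
    linarith
  have hfr : 40 * θ0 / c1 ≤ 1 := by rw [div_le_one hc1]; exact hθ
  have hfr0 : 0 ≤ 40 * θ0 / c1 := by positivity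
  have hnum : 48 * (40 * θ0 / c1) * (1 + 40 * θ0 / c1) ^ 2 ≤ 7680 * θ0 / c1 := by
    have h3 : (1 + 40 * θ0 / c1) ^ 2 ≤ 4 := by nlinarith
    have e : 7680 * θ0 / c1 = 48 * (40 * θ0 / c1) * 4 := by ring
    rw [e]
    exact mul_le_mul_of_nonneg_left h3 (by positivity)
  calc ∑' j, volume (Ly ((Qb j).tr a) k0)
      ≤ ∑' j, ENNReal.ofReal (7680 * θ0 / c1) * volume (Qb j).N := by
        refine ENNReal.tsum_le_tsum fun j => ?_
        refine (Vly_186.vol_Ly ((Qb j).tr a) hc1 hs (hb j) h2).trans ?_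
        rw [Vly_186.vol_N_tr]
        exact mul_le_mul_left (ENNReal.ofReal_le_ofReal hnum) _
    _ = ENNReal.ofReal (7680 * θ0 / c1) * ∑' j, volume (Qb j).N := ENNReal.tsum_mul_left
    _ = ENNReal.ofReal (7680 * θ0 / c1) * volume (⋃ j, (Qb j).N) := by
        rw [measure_iUnion hd fun j => (Qb j).isCompact_N.measurableSet]
    _ ≤ _ := mul_le_mul_right (measure_mono (iUnion_subset hO)) _

/-- the layer is closed -/
theorem meas_ly (Q : CB R3 3) : MeasurableSet (Ly Q k0) := (Vly_186.isClosed_ly Q _).measurableSet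


/-- the core lies in the block -/
theorem Kc_sub_N (Q : CB R3 3) : Q.Kc ⊆ Q.N := by
  intro y hy
  rw [CB.mem_N]
  intro l
  have h : (Q.S.lo l : ℝ) ≤ Crest.Agent.R096.Msh_810.ps Q.a' Q.kc (Q.ψ y) l ∧
      Crest.Agent.R096.Msh_810.ps Q.a' Q.kc (Q.ψ y) l ≤ Q.S.hi l := hy l
  have hw := Q.w_real
  have ht : (0 : ℝ) < Q.S.t := by exact_mod_cast Q.S.t0
  constructor <;> linarith [h.1, h.2]

end layers

end

end Crest.Agent.R096.Ou_372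
end

-- ▼ part R096/Ou2_372
section

/-!
Row 96 (S0127), helper372.  (OU) of 753 #11736, part 2: the `Ly` clause and the last clause of `OutP` for
the output of 622's `cob_main` over 296's `SysOf (Te T)`, `T : Tiling Om ι` in `R3`.
-/

set_option autoImplicit false
set_option linter.style.longLine false
set_option linter.unusedSectionVars false

open MeasureTheory Set Filter Topology Metric
open scoped ENNReal NNReal

namespace Crest.Agent.R096.Ou_372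

open Crest.AnalysisR.VecCalc3 Crest.AnalysisR.Sobolev
open Crest.Agent.R096.Msh_715 (Tiling P I)
open Crest.Agent.R096.Mal_874 (CB)
open Crest.Agent.R096.Br_695 (En)
open Crest.Agent.R096.Pin_753
open Crest.Agent.R96.Intr_538 (cel)
open Crest.Agent.R96.Coarse_538 (vt Cb mem_cel)
open Crest.Agent.R096.Sq_55 (E3 Sys Face FaceOf w2 lint_w2)
open Crest.Agent.R096.Cob_622 (EF)
open Crest.Agent.R096.Efi_296 (Te reps)
open Crest.Agent.R096.Cbs_296 (SysOf)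
open Crest.Agent.R96.En10_199 (P3)

noncomputable section

/-! ### small things -/

/-- choice of the error of `cob_main` -/
theorem exists_eps (n : ℕ) {e : ℝ} (he : 0 < e) :
    ∃ ε : ℝ≥0∞, ε ≠ 0 ∧ ε ≠ ∞ ∧ ((n : ℝ≥0∞) + 1) * ε ≤ ENNReal.ofReal e := by
  have h1 : (0 : ℝ) < n + 1 := by positivity
  refine ⟨ENNReal.ofReal (e / (n + 1)), ?_, ENNReal.ofReal_ne_top, le_of_eq ?_⟩
  · rw [Ne, ENNReal.ofReal_eq_zero, not_le]
    positivity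
  · have e1 : ((n : ℝ≥0∞) + 1) = ENNReal.ofReal (n + 1) := by
      rw [ENNReal.ofReal_add (Nat.cast_nonneg n) zero_le_one, ENNReal.ofReal_natCast,
        ENNReal.ofReal_one]
    rw [e1, ← ENNReal.ofReal_mul h1.le, mul_div_cancel₀ _ h1.ne']

/-- the layer of a block in a good cube lies in the cube -/
theorem ly_sub_cel {κ s τ θ0 ra : ℝ} {k0 : ℕ} {z0 a : R3} {Q : CB R3 3} (hs : 0 < s) (hκ : 0 < κ)
    (hτ : τ < 1) (hb : ∀ v, κ / 4 * ‖v‖ ≤ ‖Q.ψ v‖) (h2 : 1 / 2 ^ k0 ≤ θ0 * s) (ha : ‖a‖ ≤ ra * s)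
    (hnum : ra + 160 * κ⁻¹ * θ0 ≤ τ) (hsub : Q.N ⊆ cel Cb z0 ((1 - τ) * s)) :
    Ly (Q.tr a) k0 ⊆ cel Cb z0 s := by
  rintro y ⟨z, hz, h⟩
  have h1 : z - a ∈ Q.N := (Q.mem_N_tr a z).1 ((Q.tr a).frontier_sub hz)
  have h3 := hsub h1
  rw [mem_cel (mul_pos (by linarith) hs)] at h3
  rw [mem_cel hs]
  have h6 := ly_near (Q := Q.tr a) hκ hb h2 (by norm_num) h
  intro i
  have h4 : |(y - (z - a)) i| ≤ ‖y - (z - a)‖ := by
    have := EuclideanSpace.norm_eq (y - (z - a))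
    rw [this]
    refine Real.abs_le_sqrt ?_
    have h7 := Finset.single_le_sum (f := fun i => ‖(y - (z - a)) i‖ ^ 2)
      (fun i _ => sq_nonneg _) (Finset.mem_univ i)
    simpa using h7
  have h5 : ‖y - (z - a)‖ ≤ dist y z + ‖a‖ := by
    have e : y - (z - a) = (y - z) + a := by abel
    rw [e, dist_eq_norm]
    exact norm_add_le _ _
  have h7 := h3 i
  have e1 : y i - z0 i = (y - (z - a)) i + ((z - a) i - z0 i) := by
    simp only [PiLp.sub_apply]; ring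
  rw [e1]
  refine (abs_add_le _ _).trans ?_
  have h8 : (ra + 160 * κ⁻¹ * θ0) * s ≤ τ * s := mul_le_mul_of_nonneg_right hnum hs.le
  have e2 : 4 * 40 * κ⁻¹ * θ0 * s = 160 * κ⁻¹ * θ0 * s := by ring
  rw [e2] at h6
  nlinarith

/-! ### tiles of the system -/

section sys

variable {p : ℝ} {Om : Set R3} {ι : Type*} {T : Tiling Om ι} {s : Finset ι}
  {pr : (Te T).Cell → Prop} {c : ι → E3} {R : ι → ℝ≥0} {ρ : E3 → ℝ≥0} {m : ι → ℝ≥0}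
  {X : Sys s (reps (Te T) s pr)} {α β : Type*} [Fintype α] [Fintype β] {G G₂ : Fin 3 → R3 → R3}

theorem mem_P_Te {i : ι} {y : E3} : y ∈ P ((Te T).H i) ↔ w2 y ∈ P (T.H i) :=
  Ttr_622.mem_P_tr (P3.symm : R3 ≃L[ℝ] E3) T

/-- the integral over a tile of `Te T` -/
theorem lint_tile (i : ι) (F : R3 → ℝ≥0∞) :
    ∫⁻ x in P ((Te T).H i), F (w2 x) = ∫⁻ x in P (T.H i), F x := by
  rw [lint_w2 (P (T.H i)) F]
  have e : P ((Te T).H i) = w2 ⁻¹' P (T.H i) := by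
    ext y; exact mem_P_Te
  rw [e]

theorem mem_cells (h : SysOf (Te T) s pr c R ρ m X) {x : R3} :
    x ∈ w2 '' (⋃ k, (X.C k).P) ↔ ∃ k : s, x ∈ P (T.H k) := by
  constructor
  · rintro ⟨y, hy, rfl⟩
    obtain ⟨k, hk⟩ := mem_iUnion.1 hy
    rw [h.eP k, mem_P_Te] at hk
    exact ⟨k, hk⟩
  · rintro ⟨k, hk⟩
    refine ⟨w2.symm x, mem_iUnion.2 ⟨k, ?_⟩, w2.apply_symm_apply x⟩
    rw [h.eP k, mem_P_Te, w2.apply_symm_apply]
    exact hk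

/-- the constant of the last clause of `OutP` -/
def Cout (p : ℝ) (K Cu : ℝ≥0) : ℝ≥0 := 1 + ((6:ℝ) ^ p * (3 * (9 * K) ^ p)).toNNReal + Cu

/-- **the last clause of `OutP`** from `cob_main`; `s₁` = the tiles which are not inside a block `j` with
`kk j ∈ Q` -/
theorem ou_clause (h : SysOf (Te T) s pr c R ρ m X) (D : EF X Om (En p G) α β) {K Cu : ℝ≥0}
    {ε : ℝ≥0∞} (hOm : MeasurableSet Om)
    (out : ∀ S : Set R3, MeasurableSet S → S ⊆ Om → (∀ x ∈ S, x ∉ w2 '' (⋃ k, (X.C k).P)) →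
      ∫⁻ x in S, En p G₂ x ≤
        ENNReal.ofReal ((6:ℝ)^p * (3 * (9 * K)^p)) * (∫⁻ x in S, En p G x) + ε)
    (cells : ∀ k, (p < 2 ∨ ∀ j, ¬ ((X.F j).V ∩ (X.C k).P).Nonempty) →
      ∫⁻ x in (X.C k).P, En p G₂ (w2 x) ≤ ENNReal.ofReal (Cob_622.CB p K (X.m k)) * D.J k + ε)
    {J : Type*} [Finite J] {kk : J → Fin 3 → ℤ} {Qb : J → CB R3 3} {Q : Finset (Fin 3 → ℤ)} {a : R3}
    (s₁ : Finset s) (hs₁ : ∀ k : s, k ∈ s₁ ∨ ∃ j, kk j ∈ Q ∧ P (T.H k) ⊆ ((Qb j).tr a).N)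
    (hsq : ∀ k ∈ s₁, p < 2 ∨ ∀ j, ¬ ((X.F j).V ∩ (X.C k).P).Nonempty) {e : ℝ} (he : 0 ≤ e)
    (hi : ∑ k ∈ s₁, ENNReal.ofReal (Cob_622.CB p K (X.m k)) * D.J k ≤
      Cu * (∫⁻ x in Om \ ⋃ j ∈ {j | kk j ∈ Q}, ((Qb j).tr a).Kc, En p G x) +
        ENNReal.ofReal (e / 2))
    (hε : ((s.card : ℝ≥0∞) + 1) * ε ≤ ENNReal.ofReal (e / 2)) :
    (∫⁻ x in Om \ ⋃ j ∈ {j | kk j ∈ Q}, ((Qb j).tr a).N, (1 + En p G₂ x)) ≤
      (Cout p K Cu : ℝ≥0∞) * (∫⁻ x in Om \ ⋃ j ∈ {j | kk j ∈ Q}, ((Qb j).tr a).Kc, (1 + En p G x)) +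
        ENNReal.ofReal e := by
  classical
  have h1 := out_le (Om := Om) (Pc := fun k : s => P (T.H k)) (e1 := En p G) (e2 := En p G₂)
    (Jf := fun k : s => ENNReal.ofReal (Cob_622.CB p K (X.m k)) * D.J k)
    (C₀ := ENNReal.ofReal ((6:ℝ)^p * (3 * (9 * K)^p))) (Cu := Cu) (ε' := ε)
    (e₀ := ENNReal.ofReal (e / 2)) (pJ := fun j => kk j ∈ Q) (N := fun j => ((Qb j).tr a).N)
    (Kc := fun j => ((Qb j).tr a).Kc) Finset.univ s₁ hOm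
    (fun k _ => (Msh_715.isClosed_P _).measurableSet)
    ((Set.toFinite {j | kk j ∈ Q}).measurableSet_biUnion fun j _ =>
      ((Qb j).tr a).isCompact_N.measurableSet)
    (fun j _ => Kc_sub_N _) (fun k _ => hs₁ k)
    (fun k hk => by
      have := cells k (hsq k hk)
      rw [h.eP k, lint_tile] at this
      exact this)
    (fun S hS hSO hx => out S hS hSO fun x hxS hxc => by
      obtain ⟨k, hk⟩ := (mem_cells h).1 hxc
      exact hx x hxS k (Finset.mem_univ k) hk)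
    hi
  refine h1.trans ?_
  have hC : (1 + ENNReal.ofReal ((6:ℝ)^p * (3 * (9 * K)^p)) + (Cu : ℝ≥0∞)) =
      (Cout p K Cu : ℝ≥0∞) := by
    unfold Cout
    push_cast
    rfl
  rw [hC]
  refine add_le_add le_rfl ?_
  have h2 : (s₁.card : ℝ≥0∞) ≤ s.card := by
    have h3 : s₁.card ≤ (Finset.univ : Finset s).card := Finset.card_le_univ s₁
    rw [Finset.card_univ, Fintype.card_coe] at h3
    exact_mod_cast h3
  calc ENNReal.ofReal (e / 2) + ((s₁.card : ℝ≥0∞) + 1) * ε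
      ≤ ENNReal.ofReal (e / 2) + ENNReal.ofReal (e / 2) :=
        add_le_add le_rfl ((mul_le_mul_left (add_le_add h2 le_rfl) _).trans hε)
    _ = ENNReal.ofReal e := by
        rw [← ENNReal.ofReal_add (by linarith) (by linarith), add_halves]

/-- **the `Ly` clause of `OutP`** from `cob_main`; `s₂` ⊇ the tiles which meet a layer `Ly ((Qb j).tr a)`,
`kk j ∈ Q` -/
theorem ly_clause (h : SysOf (Te T) s pr c R ρ m X) (D : EF X Om (En p G) α β) {K : ℝ≥0} {ε : ℝ≥0∞}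
    (cells : ∀ k, (p < 2 ∨ ∀ j, ¬ ((X.F j).V ∩ (X.C k).P).Nonempty) →
      ∫⁻ x in (X.C k).P, En p G₂ (w2 x) ≤ ENNReal.ofReal (Cob_622.CB p K (X.m k)) * D.J k + ε)
    {J : Type*} [Finite J] {kk : J → Fin 3 → ℤ} {Qb : J → CB R3 3} {Q : Finset (Fin 3 → ℤ)} {a : R3}
    {κ s' c1 c2 θ0 : ℝ} {k0 : ℕ} (hs : 0 < s') (hκ : 0 < κ) (hc1 : 0 < c1) (hc2 : 0 < c2)
    (hθ : 320 * θ0 < κ * c2) (hθ' : 40 * θ0 ≤ c1) (h2 : 1 / 2 ^ k0 ≤ θ0 * s')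
    (hb : ∀ j, ∀ v, κ / 4 * ‖v‖ ≤ ‖(Qb j).ψ v‖) (hb' : ∀ j, c1 * s' ≤ 1 / 2 ^ (Qb j).kc)
    (sep : ∀ i j, i ≠ j → ∀ x ∈ (Qb i).N, ∀ y ∈ (Qb j).N, c2 * s' ≤ dist x y)
    (hO : ∀ j, (Qb j).N ⊆ Om)
    (hT : ∀ j, kk j ∈ Q → Ly ((Qb j).tr a) k0 ⊆ Om) (s₂ : Finset s)
    (hs₂ : ∀ k : ι, ∀ j, kk j ∈ Q → (P (T.H k) ∩ Ly ((Qb j).tr a) k0).Nonempty →
      ∃ hk : k ∈ s, (⟨k, hk⟩ : s) ∈ s₂)
    (hsq : ∀ k ∈ s₂, p < 2 ∨ ∀ j, ¬ ((X.F j).V ∩ (X.C k).P).Nonempty) {e : ℝ} (he : 0 ≤ e)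
    (hii : ∑ k ∈ s₂, ENNReal.ofReal (Cob_622.CB p K (X.m k)) * D.J k ≤ ENNReal.ofReal (e / 3))
    (hε : ((s.card : ℝ≥0∞) + 1) * ε ≤ ENNReal.ofReal (e / 3))
    (hvol : ENNReal.ofReal (7680 * θ0 / c1) * volume Om ≤ ENNReal.ofReal (e / 3)) :
    (∑' j : {j // kk j ∈ Q}, ∫⁻ x in Ly ((Qb j).tr a) k0, (1 + En p G₂ x)) ≤ ENNReal.ofReal e := by
  classical
  have h1 := ly_le (Pc := fun k : s => P (T.H k)) (e2 := En p G₂)
    (Jf := fun k : s => ENNReal.ofReal (Cob_622.CB p K (X.m k)) * D.J k) (ε' := ε)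
    (e₀ := ENNReal.ofReal (e / 3)) (ev := ENNReal.ofReal (e / 3)) (pJ := fun j => kk j ∈ Q)
    (Lj := fun j => Ly ((Qb j).tr a) k0) s₂ (fun j _ => meas_ly _)
    (fun i j _ _ hij => ly_disj hs hκ hθ h2 hb sep a hij)
    (fun j hj x hx => by
      obtain ⟨k, hk⟩ := T.cov x (hT j hj hx)
      obtain ⟨hks, hk2⟩ := hs₂ k j hj ⟨x, hk, hx⟩
      exact ⟨⟨k, hks⟩, hk2, hk⟩)
    (fun k hk => by
      have := cells k (hsq k hk)
      rw [h.eP k, lint_tile] at this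
      exact this)
    hii
    ((ENNReal.tsum_comp_le_tsum_of_injective Subtype.val_injective
      (fun j => volume (Ly ((Qb j).tr a) k0))).trans
      ((ly_vol hs hc1 hθ' h2 hb' hc2 sep hO a).trans hvol))
  refine h1.trans ?_
  have h3 : (s₂.card : ℝ≥0∞) ≤ s.card := by
    have h3 : s₂.card ≤ (Finset.univ : Finset s).card := Finset.card_le_univ s₂
    rw [Finset.card_univ, Fintype.card_coe] at h3
    exact_mod_cast h3
  calc ENNReal.ofReal (e / 3) + (ENNReal.ofReal (e / 3) + (s₂.card : ℝ≥0∞) * ε)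
      ≤ ENNReal.ofReal (e / 3) + (ENNReal.ofReal (e / 3) + ENNReal.ofReal (e / 3)) :=
        add_le_add le_rfl (add_le_add le_rfl
          ((mul_le_mul_left (h3.trans le_self_add) _).trans hε))
    _ = ENNReal.ofReal e := by
        rw [← ENNReal.ofReal_add (by linarith) (by linarith),
          ← ENNReal.ofReal_add (by linarith) (by linarith)]
        congr 1
        ring

end sys

end

end Crest.Agent.R096.Ou_372
end

-- ▼ part R096/Ca20_855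

/-!
# Row 96 (S0127), helper855: [S1] of 622: the tiles of `h.T a` which are not deep in a block of `Q`; the
finsets `s₁`, `s₂` of 372's `ou_clause`, `ly_clause`.
-/

set_option autoImplicit false
set_option linter.unusedSectionVars false
set_option linter.style.longLine false

open Set Metric Topology Filter MeasureTheory
open scoped ENNReal NNReal

namespace Crest.Agent.R096.Ca_855

open Crest.AnalysisR.VecCalc3
open Crest.Agent.R096.Msh_715 (Tiling P I)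
open Crest.Agent.R096.Mal_874 (CB)
open Crest.Agent.R096.Pin_753 (Ly)
open Crest.Agent.R096.Sq_55 (E3 Sys Face FaceOf w2)
open Crest.Agent.R096.Efi_296 (Te reps mem_reps)
open Crest.Agent.R096.Cbs_296 (SysOf)
open Crest.Agent.R096.Gsc_476 (sclT Bk_eq)

noncomputable section

variable {Om W : Set R3} {ρ₀ : R3 → ℝ} {J : Type} {Qb : J → CB R3 3} {k0 : ℕ} {σ : ℝ}
  [Finite J]

/-- **a tile of block `j` of scale `≤ k0 - K1` is far from the wall of the block** -/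
theorem far_deepT (h : MIn Om W ρ₀ Qb k0 σ) {a : R3} (ha : ‖a‖ ≤ σ / 8) {j : J} {t : h.ιT a}
    (hN : P ((h.T a).H t) ⊆ ((Qb j).tr a).N) {K1 : ℕ} (hs : sclT h a t + K1 ≤ k0) (hK : 2 ≤ K1)
    {x : R3} (hx : x ∈ P ((h.T a).H t)) {z : R3} (hz : z ∈ frontier ((Qb j).tr a).N) :
    3 * 2 ^ K1 / 2 ^ k0 ≤ ‖(Qb j).ψ x - (Qb j).ψ z‖ := by
  rw [← Bk_eq h ha j] at hN hz
  have h1 := (Gsc_476.scl_K h.M h.sc (0 + h.M.φ (h.cl a)) (h.adm a) hN hx).2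
  set Q' := h.M.Bk (fun _ => h.cl a) j with hQ'
  set D := Q'.D k0 (h.sc.kc j) with hD
  have h1' : Msh_810.K D ((Qb j).ψ x) ≤ sclT h a t + 1 := h1
  set κ := Msh_810.K D ((Qb j).ψ x) with hκ
  have h2 : (6:ℝ) ≤ 2 ^ κ * D.ρ ((Qb j).ψ x) :=
    Msh_810.K_lower (D := D) (x := (Qb j).ψ x) (Mal_874.blkE_pos _)
  have h3 : D.ρ ((Qb j).ψ x) =
      max (6 / 2 ^ k0) (min (6 / 2 ^ Q'.kc) (infDist ((Qb j).ψ x) Q'.W)) := rfl
  have hz2 : (Qb j).ψ z ∈ Q'.W := by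
    rw [Q'.frontier_N] at hz
    exact hz
  have h4 : infDist ((Qb j).ψ x) Q'.W ≤ ‖(Qb j).ψ x - (Qb j).ψ z‖ := by
    rw [← dist_eq_norm]
    exact infDist_le_dist_of_mem hz2
  refine le_trans ?_ h4
  have hpk : (0:ℝ) < 2 ^ κ := by positivity
  have hp0 : (0:ℝ) < 2 ^ k0 := by positivity
  have h5 : (2:ℝ) ^ κ * 2 ^ K1 ≤ 2 * 2 ^ k0 := by
    rw [← pow_add, ← pow_succ']
    exact pow_le_pow_right₀ one_le_two (by omega)
  have h6 : (6:ℝ) ≤ 2 ^ κ * (min (6 / 2 ^ Q'.kc) (infDist ((Qb j).ψ x) Q'.W)) := by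
    rw [h3] at h2
    rcases le_total (6 / 2 ^ k0 : ℝ) (min (6 / 2 ^ Q'.kc) (infDist ((Qb j).ψ x) Q'.W))
      with h7 | h7
    · rwa [max_eq_right h7] at h2
    · exfalso
      rw [max_eq_left h7] at h2
      have h8 : (2:ℝ) ^ κ < 2 ^ k0 := pow_lt_pow_right₀ one_lt_two (by omega)
      rw [← mul_div_assoc, le_div_iff₀ hp0] at h2
      linarith
  have h7 : (6:ℝ) ≤ 2 ^ κ * infDist ((Qb j).ψ x) Q'.W :=
    h6.trans (mul_le_mul_of_nonneg_left (min_le_right _ _) hpk.le)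
  have h8 : 0 ≤ infDist ((Qb j).ψ x) Q'.W := infDist_nonneg
  rw [div_le_iff₀ hp0]
  have h9 : (6:ℝ) * 2 ^ K1 ≤ (2 ^ κ * 2 ^ K1) * infDist ((Qb j).ψ x) Q'.W := by
    have := mul_le_mul_of_nonneg_right h7 (by positivity : (0:ℝ) ≤ 2 ^ K1)
    calc (6:ℝ) * 2 ^ K1 ≤ 2 ^ κ * infDist ((Qb j).ψ x) Q'.W * 2 ^ K1 := this
      _ = _ := by ring
  have h10 : (2 ^ κ * 2 ^ K1) * infDist ((Qb j).ψ x) Q'.W ≤
      (2 * 2 ^ k0) * infDist ((Qb j).ψ x) Q'.W := mul_le_mul_of_nonneg_right h5 h8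
  linarith

/-- the tiles deep in a block of `Q` -/
def deepT (h : MIn Om W ρ₀ Qb k0 σ) (a : R3) (kk : J → Fin 3 → ℤ) (Q : Finset (Fin 3 → ℤ)) (K1 : ℕ) :
    Set (h.ιT a) :=
  {t | ∃ j, kk j ∈ Q ∧ P ((h.T a).H t) ⊆ ((Qb j).tr a).N ∧ sclT h a t + K1 ≤ k0}

/-- **deep tiles do not meet the layers** -/
theorem deep_not_ly (h : MIn Om W ρ₀ Qb k0 σ) {a : R3} (ha : ‖a‖ ≤ σ / 8) {kk : J → Fin 3 → ℤ}
    {Q : Finset (Fin 3 → ℤ)} {K1 : ℕ} (hK : 4 ≤ K1) {κ s' c2 θ0 : ℝ} (hs : 0 < s') (hκ : 0 < κ)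
    (hθ : 320 * θ0 < κ * c2) (h2 : 1 / 2 ^ k0 ≤ θ0 * s')
    (hb : ∀ j, ∀ v, κ / 4 * ‖v‖ ≤ ‖(Qb j).ψ v‖)
    (sep : ∀ i j, i ≠ j → ∀ x ∈ (Qb i).N, ∀ y ∈ (Qb j).N, c2 * s' ≤ dist x y)
    {t : h.ιT a} (ht : t ∈ deepT h a kk Q K1) (j : J) :
    Disjoint (P ((h.T a).H t)) (Ly ((Qb j).tr a) k0) := by
  obtain ⟨l, -, hN, hsc⟩ := ht
  rw [Set.disjoint_left]
  rintro x hx ⟨z, hz, hxz⟩
  have hθ0 : 0 < θ0 := by
    by_contra hcon
    have h3 : (0:ℝ) < 1 / 2 ^ k0 := by positivity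
    have : θ0 * s' ≤ 0 := mul_nonpos_of_nonpos_of_nonneg (not_lt.1 hcon) hs.le
    linarith
  by_cases hlj : l = j
  · subst hlj
    have h3 := far_deepT h ha hN hsc (by omega) hx hz
    have h4 : (16:ℝ) ≤ 2 ^ K1 := by
      have : (2:ℝ) ^ 4 ≤ 2 ^ K1 := pow_le_pow_right₀ one_le_two hK
      linarith
    have h5 : (40:ℝ) / 2 ^ k0 < 3 * 2 ^ K1 / 2 ^ k0 :=
      div_lt_div_of_pos_right (by linarith) (by positivity)
    have hxz' : ‖(Qb l).ψ x - (Qb l).ψ z‖ ≤ 40 / 2 ^ k0 := hxz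
    linarith
  · have n1 : x - a ∈ (Qb l).N := ((Qb l).mem_N_tr a x).1 (hN hx)
    have n2 : z - a ∈ (Qb j).N := ((Qb j).mem_N_tr a z).1 (((Qb j).tr a).frontier_sub hz)
    have h5 := sep l j hlj _ n1 _ n2
    rw [dist_sub_right] at h5
    have h6 := Ou_372.ly_near (Q := (Qb j).tr a) hκ (hb j) h2 (by norm_num) hxz
    have h9 : 160 * θ0 * κ⁻¹ < c2 := by
      rw [← div_eq_mul_inv, div_lt_iff₀ hκ]
      linarith
    have h10 : 160 * θ0 * κ⁻¹ * s' < c2 * s' := mul_lt_mul_of_pos_right h9 hs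
    have e : 4 * 40 * κ⁻¹ * θ0 * s' = 160 * θ0 * κ⁻¹ * s' := by ring
    linarith

/-- **a cell of the system which is not deep meets no squeezed face** (or `q`) -/
theorem nosq {ι : Type*} {T : Tiling Om ι} {s : Finset ι} {pr : (Te T).Cell → Prop} {c : ι → E3}
    {R : ι → ℝ≥0} {ρ : E3 → ℝ≥0} {m : ι → ℝ≥0} {X : Sys s (reps (Te T) s pr)}
    (hX : SysOf (Te T) s pr c R ρ m X) {q : Prop} {deep : Set ι}
    (hpr : ∀ c : (Te T).Cell, pr c → q ∨ ∀ k ∈ (Te T).at_ c.pt, k ∈ deep) {k : s}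
    (hk : (k : ι) ∉ deep) : q ∨ ∀ x, ¬ ((X.F x).V ∩ (X.C k).P).Nonempty := by
  by_cases hq : q
  · exact Or.inl hq
  refine Or.inr fun x hne => hk ?_
  have h1 := hX.at_of_V hne
  obtain ⟨c, -, hc, hcx⟩ := mem_reps.1 x.2
  rw [← hcx] at h1
  exact (hpr c hc).resolve_left hq k h1

open Classical in
/-- the tiles which are not inside a block of `Q` -/
def s1T (h : MIn Om W ρ₀ Qb k0 σ) (a : R3) (kk : J → Fin 3 → ℤ) (Q : Finset (Fin 3 → ℤ))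
    (s : Finset (h.ιT a)) : Finset s :=
  Finset.univ.filter fun k => ¬ ∃ j, kk j ∈ Q ∧ P ((h.T a).H k) ⊆ ((Qb j).tr a).N

open Classical in
/-- the tiles which meet a layer of a block of `Q` -/
def s2T (h : MIn Om W ρ₀ Qb k0 σ) (a : R3) (kk : J → Fin 3 → ℤ) (Q : Finset (Fin 3 → ℤ))
    (s : Finset (h.ιT a)) : Finset s :=
  Finset.univ.filter fun k => ∃ j, kk j ∈ Q ∧ (P ((h.T a).H k) ∩ Ly ((Qb j).tr a) k0).Nonempty

section sys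

variable (h : MIn Om W ρ₀ Qb k0 σ) {a : R3} {kk : J → Fin 3 → ℤ} {Q : Finset (Fin 3 → ℤ)}
  {s : Finset (h.ιT a)} {pr : (Te (h.T a)).Cell → Prop} {c : h.ιT a → E3} {R : h.ιT a → ℝ≥0}
  {ρ : E3 → ℝ≥0} {m : h.ιT a → ℝ≥0} {X : Sys s (reps (Te (h.T a)) s pr)}

theorem mem_s1T {k : s} : k ∈ s1T h a kk Q s ↔
    ¬ ∃ j, kk j ∈ Q ∧ P ((h.T a).H k) ⊆ ((Qb j).tr a).N := by
  unfold s1T; simp

theorem mem_s2T {k : s} : k ∈ s2T h a kk Q s ↔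
    ∃ j, kk j ∈ Q ∧ (P ((h.T a).H k) ∩ Ly ((Qb j).tr a) k0).Nonempty := by
  unfold s2T; simp

/-- `hs₁` of `ou_clause` -/
theorem hs1T (k : s) : k ∈ s1T h a kk Q s ∨
    ∃ j, kk j ∈ Q ∧ P ((h.T a).H k) ⊆ ((Qb j).tr a).N := by
  rw [mem_s1T]
  exact (em _).symm

/-- `hsq` of `ou_clause` -/
theorem hsq1T (hX : SysOf (Te (h.T a)) s pr c R ρ m X) {q : Prop} {K1 : ℕ}
    (hpr : ∀ c : (Te (h.T a)).Cell, pr c → q ∨ ∀ k ∈ (Te (h.T a)).at_ c.pt, k ∈ deepT h a kk Q K1) :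
    ∀ k ∈ s1T h a kk Q s, q ∨ ∀ x, ¬ ((X.F x).V ∩ (X.C k).P).Nonempty := by
  intro k hk
  refine nosq hX hpr fun hd => ?_
  obtain ⟨j, hj, hN, -⟩ := hd
  exact (mem_s1T h).1 hk ⟨j, hj, hN⟩

/-- `hs₂` of `ly_clause` -/
theorem hs2T {K₀ : Set R3} (hs : ∀ i, (P ((h.T a).H i) ∩ K₀).Nonempty → i ∈ s)
    (hL : ∀ j, kk j ∈ Q → Ly ((Qb j).tr a) k0 ⊆ K₀) (k : h.ιT a) (j : J) (hj : kk j ∈ Q)
    (hne : (P ((h.T a).H k) ∩ Ly ((Qb j).tr a) k0).Nonempty) :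
    ∃ hk : k ∈ s, (⟨k, hk⟩ : s) ∈ s2T h a kk Q s := by
  obtain ⟨x, hx1, hx2⟩ := hne
  refine ⟨hs k ⟨x, hx1, hL j hj hx2⟩, ?_⟩
  rw [mem_s2T]
  exact ⟨j, hj, x, hx1, hx2⟩

/-- `hsq` of `ly_clause` -/
theorem hsq2T (ha : ‖a‖ ≤ σ / 8) (hX : SysOf (Te (h.T a)) s pr c R ρ m X) {q : Prop} {K1 : ℕ}
    (hK : 4 ≤ K1) {κ s' c2 θ0 : ℝ} (hs : 0 < s') (hκ : 0 < κ)
    (hθ : 320 * θ0 < κ * c2) (h2 : 1 / 2 ^ k0 ≤ θ0 * s')
    (hb : ∀ j, ∀ v, κ / 4 * ‖v‖ ≤ ‖(Qb j).ψ v‖)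
    (sep : ∀ i j, i ≠ j → ∀ x ∈ (Qb i).N, ∀ y ∈ (Qb j).N, c2 * s' ≤ dist x y)
    (hpr : ∀ c : (Te (h.T a)).Cell, pr c → q ∨ ∀ k ∈ (Te (h.T a)).at_ c.pt, k ∈ deepT h a kk Q K1) :
    ∀ k ∈ s2T h a kk Q s, q ∨ ∀ x, ¬ ((X.F x).V ∩ (X.C k).P).Nonempty := by
  intro k hk
  obtain ⟨j, -, hne⟩ := (mem_s2T h).1 hk
  exact nosq hX hpr fun hd =>
    Set.not_disjoint_iff_nonempty_inter.2 hne (deep_not_ly h ha hK hs hκ hθ h2 hb sep hd j)

end sys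

end

end Crest.Agent.R096.Ca_855
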