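import Crest.Agent.R096.Coh6_184
import Crest.Agent.R096.St1_147
import Mathlib
import Crest.Agent.R096.Agl7_543
import Crest.Agent.R096.Ginv1_543

-- ▼ part R096/Loc3_965
section

/-! Row 96, P1-LOC (helper965), part 3: the frozen far part of a sheet pattern (184's `Pat`).
If every cycle of chords near the cells `N` bounds tiles in cells of `Q ⊇ N`, then all points of a
connected pattern which lie on a cell outside `Q` are connected to each other through chords which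
have a cell outside `N`. -/

set_option autoImplicit false
set_option linter.unusedSectionVars false

open Set

namespace Crest.Agent.R096.Loc_965

open Crest.Agent.R096.Coh_184

variable {ι V E : Type*} (A : Pat ι V E)

/-- `w` is reached from `m` by chords having a cell outside `N` -/
inductive Reach (N : Set ι) (m : V) : V → Prop
  | base : Reach N m m
  | step {v w : V} (e : E) {q : ι} : Reach N m v → v ∈ A.ends e → w ∈ A.ends e → q ∈ A.cells e →
      q ∉ N → Reach N m w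

/-- local filling property -/
def Fills [Fintype V] [Fintype E] (N Q : Set ι) : Prop :=
  ∀ z : E → ZMod 2, (∀ e, (∀ q ∈ A.cells e, q ∉ N) → z e = 0) →
    (∀ v, ∑ e, z e * A.b e v = 0) →
    ∃ w : A.Tile → ZMod 2, (∀ f, A.cell f ∉ Q → w f = 0) ∧ ∀ e, z e = ∑ f, w f * A.a f e

variable {A}

theorem Reach.trans {N : Set ι} {m v w : V} (h1 : Reach A N m v) (h2 : Reach A N v w) :
    Reach A N m w := by
  induction h2 with
  | base => exact h1
  | step e _ h3 h4 h5 h6 ih => exact ih.step e h3 h4 h5 h6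

theorem Reach.symm {N : Set ι} {m v : V} (h : Reach A N m v) : Reach A N v m := by
  induction h with
  | base => exact Reach.base
  | step e _ h3 h4 h5 h6 ih => exact Reach.trans (Reach.base.step e h4 h3 h5 h6) ih

/-- all points of a tile outside `N` are connected by its chords -/
theorem reach_tile {N : Set ι} {m : V} {f : A.Tile} (hf : A.cell f ∉ N) {e e' : E}
    (he : A.On f e) (he' : A.On f e') {v v' : V} (hv : v ∈ A.ends e) (hv' : v' ∈ A.ends e')
    (h : Reach A N m v) : Reach A N m v' := by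
  have key : ∀ e e' v, A.cell f ∈ A.cells e → A.cell f ∈ A.cells e' → v ∈ A.ends e →
      v ∈ A.ends e' → ((∀ u ∈ A.ends e, Reach A N m u) ↔ (∀ u ∈ A.ends e', Reach A N m u)) := by
    intro e e' v hq hq' hv hv'
    constructor
    · intro h u hu
      exact (h v hv).step e' hv' hu hq' hf
    · intro h u hu
      exact (h v hv').step e hv hu hq hf
  have h1 : ∀ u ∈ A.ends e, Reach A N m u := fun u hu => h.step e hv hu he.cell_mem hf
  exact ((he.induction (Q := fun e => ∀ u ∈ A.ends e, Reach A N m u) key he').1 h1) v' hv'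

section

variable [Fintype V] [Fintype E]

/-- a function on the tiles without jump is constant on a connected part -/
theorem const_of_closed {U : Set V}
    (hconn : ∀ X : Set V, X ⊆ U → A.Closed X → X.Nonempty → X = U)
    (hU : A.Closed U) (hlink : ∀ v, A.Linked v) {c : A.Tile → ZMod 2}
    (hc : ∀ e, ∑ f, c f * A.a f e = 0) {f g : A.Tile} {e e' : E} {v v' : V} (hf : A.On f e)
    (hg : A.On g e') (hv : v ∈ A.ends e) (hv' : v' ∈ A.ends e') (hvU : v ∈ U) (hvU' : v' ∈ U) :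
    c f = c g := by
  -- no jump across chords
  have h1 : ∀ e f g, A.On f e → A.On g e → c f = c g := by
    intro e f g hf hg
    obtain ⟨f1, f2, hne, _, hall⟩ := A.exists_two e
    have := A.sum_a_mul e hne hall c
    rw [hc e] at this
    have h12 : c f1 = c f2 := by
      have h2 : c f1 + c f2 = 0 := this.symm
      exact CharTwo.add_eq_zero.1 h2
    rcases (hall f).1 hf with rfl | rfl <;> rcases (hall g).1 hg with rfl | rfl
    · rfl
    · exact h12
    · exact h12.symm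
    · rfl
  -- no jump at points
  have h2 : ∀ (v : V) (f g : A.Tile) (e e' : E), A.On f e → A.On g e' → v ∈ A.ends e →
      v ∈ A.ends e' → c f = c g := by
    intro v f g e e' hf hg hv hv'
    have := (hlink v).link (X := {t | c t = c f})
      (fun e _ f1 g1 hf1 hg1 hX => (h1 e g1 f1 hg1 hf1).trans hX) hf hv hg hv' rfl
    exact this.symm
  -- the set of points with value `c f`
  have h3 := hconn {u | u ∈ U ∧ ∀ t e, A.On t e → u ∈ A.ends e → c t = c f} (fun u hu => hu.1) ?_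
    ⟨v, hvU, fun t e' ht hte => h2 v t f e' e ht hf hte hv⟩
  · have h4 : v' ∈ {u | u ∈ U ∧ ∀ t e, A.On t e → u ∈ A.ends e → c t = c f} := by
      rw [h3]; exact hvU'
    exact (h4.2 g e' hg hv').symm
  · intro e1 u hu u' hu' ⟨huU, hut⟩
    refine ⟨hU e1 u hu u' hu' huU, ?_⟩
    intro t e2 ht hte
    obtain ⟨f1, _, _, _, hall⟩ := A.exists_two e1
    have hf1 : A.On f1 e1 := (hall f1).2 (Or.inl rfl)
    rw [h2 u' t f1 e2 e1 ht hf1 hte hu']
    exact hut f1 e1 hf1 hu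


end

end Crest.Agent.R096.Loc_965
end

-- ▼ part R096/Loc4_965
section

/-! Row 96, P1-LOC (helper965), part 4: the far part, several blobs at once.  `N k` = the cells near
the blob `k`, `Q k ⊇ N k` the cells of its strip.  Every point of a connected sheet is either
connected to the marked point `m` by chords having a cell outside all `N k`, or all cells at it
lie in one `Q k`. -/

set_option autoImplicit false
set_option linter.unusedSectionVars false

open Set

namespace Crest.Agent.R096.Loc_965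

open Crest.Agent.R096.Coh_184

variable {ι V E : Type*} {A : Pat ι V E} [Fintype V] [Fintype E]

/-- a chord with a cell in `N` -/
def Nr (A : Pat ι V E) (N : Set ι) (e : E) : Prop := ∃ q ∈ A.cells e, q ∈ N

/-- FAR PART, several blobs -/
theorem far_fam {U : Set V} (hconn : ∀ X : Set V, X ⊆ U → A.Closed X → X.Nonempty → X = U)
    (hU : A.Closed U) (hlink : ∀ v, A.Linked v) {K : Type*} (KK : Finset K) {N Q : K → Set ι}
    (hfill : ∀ k ∈ KK, Fills A (N k) (Q k)) (hNQ : ∀ k ∈ KK, N k ⊆ Q k)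
    (hdis : ∀ k ∈ KK, ∀ k' ∈ KK, ∀ v e e', v ∈ A.ends e → v ∈ A.ends e' → Nr A (N k) e →
      Nr A (N k') e' → k = k')
    {m : V} (hmU : m ∈ U) {em : E} (hme : m ∈ A.ends em) {qm : ι}
    (hqm : qm ∈ A.cells em) (hqmQ : ∀ k ∈ KK, qm ∉ Q k) {v : V} (hvU : v ∈ U) :
    Reach A {q | ∃ k ∈ KK, q ∈ N k} m v ∨
      ∃ k ∈ KK, ∀ e, v ∈ A.ends e → ∀ q ∈ A.cells e, q ∈ Q k := by
  classical
  set N0 : Set ι := {q | ∃ k ∈ KK, q ∈ N k} with hN0
  by_cases hvr : Reach A N0 m v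
  · exact Or.inl hvr
  right
  let χ : A.Tile → ZMod 2 := fun f =>
    if A.cell f ∉ N0 ∧ ∃ e u, A.On f e ∧ u ∈ A.ends e ∧ Reach A N0 m u then 1 else 0
  have hχ1 : ∀ f e u, A.cell f ∉ N0 → A.On f e → u ∈ A.ends e → Reach A N0 m u → χ f = 1 :=
    fun f e u h1 h2 h3 h4 => if_pos ⟨h1, e, u, h2, h3, h4⟩
  have hχ2 : ∀ f e u, χ f = 1 → A.On f e → u ∈ A.ends e → Reach A N0 m u := by
    intro f e u h1 h2 h3
    by_cases hh : A.cell f ∉ N0 ∧ ∃ e u, A.On f e ∧ u ∈ A.ends e ∧ Reach A N0 m u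
    · obtain ⟨hN, e', u', h4, h5, h6⟩ := hh
      exact reach_tile hN h4 h2 h5 h3 h6
    · have : χ f = 0 := if_neg hh
      rw [this] at h1
      exact absurd h1 (by decide)
  have hχ01 : ∀ f, χ f = 0 ∨ χ f = 1 := by
    intro f
    by_cases hh : A.cell f ∉ N0 ∧ ∃ e u, A.On f e ∧ u ∈ A.ends e ∧ Reach A N0 m u
    · exact Or.inr (if_pos hh)
    · exact Or.inl (if_neg hh)
  have hend : ∀ e, ∃ u, u ∈ A.ends e := by
    intro e
    induction h : A.ends e using Sym2.ind with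
    | _ a b => exact ⟨a, Sym2.mem_mk_left _ _⟩
  let z : E → ZMod 2 := fun e => ∑ f, χ f * A.a f e
  have hz0 : ∀ e, z e = ∑ f, χ f * A.a f e := fun _ => rfl
  have hz1 : ∀ e, z e ≠ 0 → ∃ k ∈ KK, Nr A (N k) e := by
    intro e he
    by_contra hcon
    apply he
    obtain ⟨f, g, hne, hcells, hall⟩ := A.exists_two e
    have h1 : z e = χ f + χ g := A.sum_a_mul e hne hall χ
    have hf : A.On f e := (hall f).2 (Or.inl rfl)
    have hg : A.On g e := (hall g).2 (Or.inr rfl)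
    have hq : ∀ q ∈ A.cells e, q ∉ N0 := fun q hq ⟨k, hk, hqk⟩ => hcon ⟨k, hk, q, hq, hqk⟩
    have hfN := hq _ hf.cell_mem
    have hgN := hq _ hg.cell_mem
    obtain ⟨u, hu⟩ := hend e
    have h2 : χ f = χ g := by
      rcases hχ01 f with h0 | h0
      · rcases hχ01 g with h3 | h3
        · rw [h0, h3]
        · rw [hχ1 f e u hfN hf hu (hχ2 g e u h3 hg hu), h3]
      · rw [h0, hχ1 g e u hgN hg hu (hχ2 f e u h0 hf hu)]
    rw [h1, h2, CharTwo.add_self_eq_zero]
  have hz2 : ∀ v, ∑ e, z e * A.b e v = 0 := by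
    intro v
    have : ∑ e, z e * A.b e v = ∑ f, χ f * ∑ e, A.a f e * A.b e v := by
      simp only [z, Finset.sum_mul, Finset.mul_sum]
      rw [Finset.sum_comm]
      refine Finset.sum_congr rfl fun f _ => Finset.sum_congr rfl fun e _ => ?_
      ring
    rw [this]
    refine Finset.sum_eq_zero fun f _ => ?_
    rw [A.sum_ab f v, mul_zero]
  -- the part of `z` near the blob `k`
  let zk : K → E → ZMod 2 := fun k e => if Nr A (N k) e then z e else 0
  have hzk1 : ∀ k e, Nr A (N k) e → zk k e = z e := fun k e h => if_pos h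
  have hzk2 : ∀ k e, ¬ Nr A (N k) e → zk k e = 0 := fun k e h => if_neg h
  have hcyc : ∀ k ∈ KK, ∀ u, ∑ e, zk k e * A.b e u = 0 := by
    intro k hk u
    by_cases hex : ∃ e, Nr A (N k) e ∧ u ∈ A.ends e
    · obtain ⟨e0, he0, hu0⟩ := hex
      rw [← hz2 u]
      refine Finset.sum_congr rfl fun e _ => ?_
      by_cases hu : u ∈ A.ends e
      · by_cases hze : z e = 0
        · by_cases hn : Nr A (N k) e
          · rw [hzk1 k e hn]
          · rw [hzk2 k e hn, hze]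
        · obtain ⟨k', hk', hn'⟩ := hz1 e hze
          have := hdis k hk k' hk' u e0 e hu0 hu he0 hn'
          subst this
          rw [hzk1 k e hn']
      · rw [Pat.b_of_not hu, mul_zero, mul_zero]
    · refine Finset.sum_eq_zero fun e _ => ?_
      by_cases hn : Nr A (N k) e
      · rw [Pat.b_of_not (fun hu => hex ⟨e, hn, hu⟩), mul_zero]
      · rw [hzk2 k e hn, zero_mul]
  have hsum : ∀ e, z e = ∑ k ∈ KK, zk k e := by
    intro e
    by_cases hze : z e = 0
    · rw [hze]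
      symm
      refine Finset.sum_eq_zero fun k _ => ?_
      by_cases hn : Nr A (N k) e
      · rw [hzk1 k e hn, hze]
      · exact hzk2 k e hn
    · obtain ⟨k, hk, hn⟩ := hz1 e hze
      obtain ⟨u, hu⟩ := hend e
      rw [Finset.sum_eq_single_of_mem k hk, hzk1 k e hn]
      intro k' hk' hne
      apply hzk2
      intro hn'
      exact hne (hdis k' hk' k hk u e e hu hu hn' hn)
  have hfills : ∀ k, ∃ w : A.Tile → ZMod 2, k ∈ KK → (∀ f, A.cell f ∉ Q k → w f = 0) ∧
      ∀ e, zk k e = ∑ f, w f * A.a f e := by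
    intro k
    by_cases hk : k ∈ KK
    · obtain ⟨w, hw⟩ := hfill k hk (zk k)
        (fun e he => hzk2 k e fun ⟨q, hq, hqN⟩ => he q hq hqN) (hcyc k hk)
      exact ⟨w, fun _ => hw⟩
    · exact ⟨0, fun h => (hk h).elim⟩
  choose w hw using hfills
  have hc : ∀ e, ∑ f, (χ f + ∑ k ∈ KK, w k f) * A.a f e = 0 := by
    intro e
    have h2 : ∑ f, (∑ k ∈ KK, w k f) * A.a f e = z e := by
      rw [hsum e]
      simp only [Finset.sum_mul]
      rw [Finset.sum_comm]
      exact Finset.sum_congr rfl fun k hk => ((hw k hk).2 e).symm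
    have h3 : ∑ f, (χ f + ∑ k ∈ KK, w k f) * A.a f e = z e + z e := by
      have h1 : ∑ f, (χ f + ∑ k ∈ KK, w k f) * A.a f e =
          (∑ f, χ f * A.a f e) + ∑ f, (∑ k ∈ KK, w k f) * A.a f e := by
        simp only [add_mul, Finset.sum_add_distrib]
      rw [h1, ← hz0 e, h2]
    rw [h3, CharTwo.add_self_eq_zero]
  -- a chord at `v`
  have hve : ∃ e, v ∈ A.ends e := by
    by_contra hcon
    push Not at hcon
    have h1 := hconn {v} (by intro x hx; rw [mem_singleton_iff.1 hx]; exact hvU)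
      (fun e u hu u' _ hu1 => by
        rw [mem_singleton_iff] at hu1
        subst hu1
        exact (hcon e hu).elim) ⟨v, rfl⟩
    have h2 : m ∈ ({v} : Set V) := by rw [h1]; exact hmU
    rw [mem_singleton_iff] at h2
    subst h2
    exact hvr Reach.base
  obtain ⟨e, hve⟩ := hve
  obtain ⟨q, hq⟩ : ∃ q, q ∈ A.cells e := by
    induction h : A.cells e using Sym2.ind with
    | _ a b => exact ⟨a, Sym2.mem_mk_left _ _⟩
  obtain ⟨fm, hfm, hfmq⟩ := A.exists_tile hqm
  obtain ⟨f, hf, hfq⟩ := A.exists_tile hq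
  have h5 := const_of_closed (c := fun f => χ f + ∑ k ∈ KK, w k f) hconn hU hlink hc hfm hf hme hve
    hmU hvU
  have h6 : χ fm = 1 := hχ1 fm em m (by
    rw [hfmq]; rintro ⟨k, hk, hqk⟩; exact hqmQ k hk (hNQ k hk hqk)) hfm hme Reach.base
  have h7 : ∑ k ∈ KK, w k fm = 0 := Finset.sum_eq_zero fun k hk =>
    (hw k hk).1 fm (by rw [hfmq]; exact hqmQ k hk)
  -- no tile at `v` has value 1
  have hχv : ∀ g e', A.On g e' → v ∈ A.ends e' → χ g = 0 := by
    intro g e' hg hv'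
    rcases hχ01 g with h | h
    · exact h
    · exact (hvr (hχ2 g e' v h hg hv')).elim
  have h8 : ∑ k ∈ KK, w k f = 1 := by
    simp only [h6, h7, hχv f e hf hve, add_zero, zero_add] at h5
    exact h5.symm
  obtain ⟨k, hk, hwk⟩ : ∃ k ∈ KK, w k f ≠ 0 := by
    by_contra hcon
    push Not at hcon
    rw [Finset.sum_eq_zero hcon] at h8
    exact absurd h8 (by decide)
  refine ⟨k, hk, fun e' hv' q' hq' => ?_⟩
  obtain ⟨g, hg, hgq⟩ := A.exists_tile hq'
  have h9 : g ∈ {t | w k t ≠ 0} := by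
    refine (hlink v).link (X := {t | w k t ≠ 0}) ?_ hf hve hg hv' hwk
    intro e1 hv1 f1 g1 hf1 hg1 hX
    obtain ⟨t1, t2, hne, _, hall⟩ := A.exists_two e1
    have h10 : zk k e1 = w k t1 + w k t2 := by
      rw [(hw k hk).2 e1]; exact A.sum_a_mul e1 hne hall (w k)
    have h11 : z e1 = χ t1 + χ t2 := A.sum_a_mul e1 hne hall χ
    have h12 : z e1 = 0 := by
      rw [h11, hχv t1 e1 ((hall t1).2 (Or.inl rfl)) hv1,
        hχv t2 e1 ((hall t2).2 (Or.inr rfl)) hv1, add_zero]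
    have h13 : zk k e1 = 0 := by
      by_cases hn : Nr A (N k) e1
      · rw [hzk1 k e1 hn, h12]
      · exact hzk2 k e1 hn
    rw [h13] at h10
    have h14 : w k t1 = w k t2 := CharTwo.add_eq_zero.1 h10.symm
    have h15 : w k f1 = w k g1 := by
      rcases (hall f1).1 hf1 with rfl | rfl <;> rcases (hall g1).1 hg1 with rfl | rfl
      · rfl
      · exact h14
      · exact h14.symm
      · rfl
    show w k g1 ≠ 0
    rw [← h15]
    exact hX
  by_contra hcon
  exact h9 ((hw k hk).1 g (by rw [hgq]; exact hcon))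

end Crest.Agent.R096.Loc_965
end

-- ▼ part R096/Loc5_965
section

/-! Row 96, P1-LOC (helper965), part 5: one sheet over a mesh (points `P`, partners `mu`), its local
`H¹` near a blob, and the far part `far` with everything the state of P3/SEQ asks. -/

set_option autoImplicit false
set_option linter.unusedSectionVars false

open Set

namespace Crest.Agent.R096.Loc_965

open Crest.Agent.R096.Coh_184 Crest.Agent.R096.St_147

variable {ι Φ W : Type} {M : MeshC ι Φ W}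

/-- one sheet over the mesh `M`: crossing points `P` and partners -/
structure Sht (M : MeshC ι Φ W) where
  P : Finset W
  mu : Φ → W → W
  mu_mem : ∀ {F : Φ} {w : W}, w ∈ P → w ∈ M.On F → mu F w ∈ P ∧ mu F w ∈ M.On F
  mu_ne : ∀ {F : Φ} {w : W}, w ∈ P → w ∈ M.On F → mu F w ≠ w
  mu_mu : ∀ {F : Φ} {w : W}, w ∈ P → w ∈ M.On F → mu F (mu F w) = w

namespace Sht

variable (s : Sht M)

/-- local `H¹`: a function on the chords which is exact in every cell of `Q` is exact on the chords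
having a cell in `N` -/
def LocH1 (N Q : Set ι) : Prop :=
  ∀ κ : Φ → W → ZMod 2,
    (∀ q ∈ Q, ∃ ψ : W → ZMod 2, ∀ F w, q ∈ M.side F → w ∈ s.P → w ∈ M.On F →
      κ F w = ψ w + ψ (s.mu F w)) →
    ∃ Ψ : W → ZMod 2, ∀ F w, w ∈ s.P → w ∈ M.On F → (∃ q ∈ M.side F, q ∈ N) →
      κ F w = Ψ w + Ψ (s.mu F w)

/-- the sheet is connected -/
def Cn : Prop :=
  ∀ X : Set W, (∀ F w, w ∈ X → w ∈ s.P → w ∈ M.On F → s.mu F w ∈ X) →
    ∀ w ∈ X, w ∈ s.P → ∀ w' ∈ s.P, w' ∈ X

/-- points of the sheet -/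
abbrev V := {w // w ∈ s.P}

/-- being a chord -/
def IsCh (x : Φ × Sym2 s.V) : Prop :=
  ∃ (w : s.V) (h : w.1 ∈ M.On x.1), x.2 = s(w, ⟨s.mu x.1 w.1, (s.mu_mem w.2 h).1⟩)

/-- chords of the sheet -/
def Ch := {x : Φ × Sym2 s.V // s.IsCh x}

/-- the chord of the point `w` on the face `F` -/
def ch (F : Φ) (w : s.V) (h : w.1 ∈ M.On F) : s.Ch :=
  ⟨(F, s(w, ⟨s.mu F w.1, (s.mu_mem w.2 h).1⟩)), w, h, rfl⟩

variable {s}

theorem ch_mu {F : Φ} {w : s.V} (h : w.1 ∈ M.On F) :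
    s.ch F ⟨s.mu F w.1, (s.mu_mem w.2 h).1⟩ (s.mu_mem w.2 h).2 = s.ch F w h := by
  apply Subtype.ext
  show (F, _) = (F, _)
  congr 1
  rw [Sym2.eq_iff]
  right
  exact ⟨rfl, Subtype.ext (s.mu_mu w.2 h)⟩

/-- every chord containing `w` is the chord of `w` on its face -/
theorem eq_ch {e : s.Ch} {w : s.V} (hw : w ∈ e.1.2) : ∃ h : w.1 ∈ M.On e.1.1, e = s.ch e.1.1 w h := by
  obtain ⟨u, hu, hy⟩ := e.2
  have he : e = s.ch e.1.1 u hu := Subtype.ext (Prod.ext rfl hy)
  rw [hy] at hw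
  rcases Sym2.mem_iff.1 hw with rfl | rfl
  · exact ⟨hu, he⟩
  · exact ⟨(s.mu_mem u.2 hu).2, he.trans (ch_mu hu).symm⟩

theorem mem_ch {F : Φ} {w : s.V} (h : w.1 ∈ M.On F) : w ∈ (s.ch F w h).1.2 := Sym2.mem_mk_left _ _

theorem ch_inj {F F' : Φ} {w : s.V} {h : w.1 ∈ M.On F} {h' : w.1 ∈ M.On F'}
    (he : s.ch F w h = s.ch F' w h') : F = F' := congrArg (fun e : s.Ch => e.1.1) he

instance : Finite s.Ch := by
  have h1 : ∀ w : s.V, Finite {F : Φ // w.1 ∈ M.On F} := fun w => M.fin w.1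
  have h2 : Function.Surjective
      (fun x : (w : s.V) × {F : Φ // w.1 ∈ M.On F} => s.ch x.2.1 x.1 x.2.2) := by
    intro e
    obtain ⟨w, hw, h⟩ := e.2
    refine ⟨⟨w, e.1.1, hw⟩, ?_⟩
    apply Subtype.ext
    exact Prod.ext rfl h.symm
  exact Finite.of_surjective _ h2

noncomputable instance : Fintype s.Ch := Fintype.ofFinite _

variable (s)

/-- the sheet pattern -/
def pat : Pat ι s.V s.Ch where
  cells := fun e => M.side e.1.1
  ends := fun e => e.1.2
  cells_nd := fun e => M.side_nd _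
  ends_nd := by
    intro e
    obtain ⟨w, hw, h⟩ := e.2
    rw [h]
    intro hd
    have := Sym2.mk_isDiag_iff.1 hd
    exact s.mu_ne w.2 hw (congrArg Subtype.val this).symm
  deg := by
    intro q v
    have h1 : {e : s.Ch | q ∈ M.side e.1.1 ∧ v ∈ e.1.2}.ncard =
        {F | q ∈ M.side F ∧ v.1 ∈ M.On F}.ncard := by
      symm
      refine Set.ncard_congr (fun F hF => s.ch F v hF.2) ?_ ?_ ?_
      · intro F hF
        exact ⟨hF.1, mem_ch hF.2⟩
      · intro F F' hF hF' he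
        exact ch_inj he
      · intro e he
        obtain ⟨h, he'⟩ := eq_ch he.2
        exact ⟨e.1.1, ⟨he.1, h⟩, he'.symm⟩
    rw [h1]
    exact M.deg q v.1

theorem ends_ch {F : Φ} {w : s.V} (h : w.1 ∈ M.On F) :
    s.pat.ends (s.ch F w h) = s(w, ⟨s.mu F w.1, (s.mu_mem w.2 h).1⟩) := rfl

theorem linked (v : s.V) : s.pat.Linked v := by
  intro X q hq ⟨e, hqe, hve⟩ hX q' ⟨e', hqe', hve'⟩
  obtain ⟨h, he⟩ := eq_ch hve
  obtain ⟨h', he'⟩ := eq_ch hve'
  refine M.link v.1 X ?_ e.1.1 h q hqe hq e'.1.1 h' q' hqe'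
  intro F hF q1 hq1 q2 hq2 hq1X
  exact hX (s.ch F v hF) (mem_ch hF) q1 hq1 q2 hq2 hq1X

variable {s}

/-- local `H¹` implies local filling -/
theorem LocH1.fills {N Q : Set ι} (h : s.LocH1 N Q) : Fills s.pat N Q := by
  classical
  intro z hz1 hz2
  refine homology_of_cohomology s.pat.a s.pat.b (fun f => s.pat.cell f ∈ Q)
    (fun e => Nr s.pat N e) (fun κ hκ => ?_) z ?_ hz2
  · have h1 : ∀ q ∈ Q, ∃ ψ : s.V → ZMod 2, ∀ e, q ∈ s.pat.cells e →
        κ e = ∑ v, s.pat.b e v * ψ v := fun q hq =>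
      s.pat.exact_in_cell fun f hf => hκ f (by rw [hf]; exact hq)
    let κ' : Φ → W → ZMod 2 := fun F w =>
      if hh : ∃ h1 : w ∈ s.P, w ∈ M.On F then κ (s.ch F ⟨w, hh.1⟩ hh.2) else 0
    have hκ' : ∀ F (w : s.V) (h : w.1 ∈ M.On F), κ' F w.1 = κ (s.ch F w h) := fun F w h =>
      dif_pos ⟨w.2, h⟩
    obtain ⟨Ψ, hΨ⟩ := h κ' (by
      intro q hq
      obtain ⟨ψ, hψ⟩ := h1 q hq
      refine ⟨fun w => if hw : w ∈ s.P then ψ ⟨w, hw⟩ else 0, fun F w hqF hw hwF => ?_⟩
      rw [hκ' F ⟨w, hw⟩ hwF, hψ (s.ch F ⟨w, hw⟩ hwF) hqF,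
        s.pat.sum_b_mul _ (s.ends_ch (w := ⟨w, hw⟩) hwF)]
      simp only [dif_pos hw, dif_pos (s.mu_mem hw hwF).1])
    refine ⟨fun v => Ψ v.1, fun e he => ?_⟩
    obtain ⟨w, hw, hw2⟩ := e.2
    have he2 : w ∈ e.1.2 := by rw [hw2]; exact Sym2.mem_mk_left _ _
    obtain ⟨h3, h4⟩ := eq_ch he2
    rw [h4, s.pat.sum_b_mul _ (s.ends_ch (w := w) h3), ← hκ' e.1.1 w h3]
    exact hΨ e.1.1 w.1 w.2 h3 he
  · intro e he
    exact hz1 e fun q hq hqN => he ⟨q, hq, hqN⟩

/-- reaching through chords with a cell outside `N`, in the language of the mesh -/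
theorem reach_ind {N : Set ι} {m v : s.V} (h : Reach s.pat N m v) {X : Set W} (hm : m.1 ∈ X)
    (hX : ∀ F (w : s.V), Reach s.pat N m w → w.1 ∈ M.On F → (∃ q ∈ M.side F, q ∉ N) → w.1 ∈ X →
      s.mu F w.1 ∈ X) : v.1 ∈ X := by
  induction h with
  | base => exact hm
  | @step v w e q h1 hv hw hq hqN ih =>
    obtain ⟨h3, h4⟩ := eq_ch hv
    have hw' : w ∈ s.pat.ends (s.ch e.1.1 v h3) := by rw [← h4]; exact hw
    rcases Sym2.mem_iff.1 hw' with rfl | rfl
    · exact ih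
    · exact hX e.1.1 v h1 h3 ⟨q, hq, hqN⟩ ih

/-- THE FAR PART OF A SHEET.  `K` = finite set of blobs, `N k` = cells near the blob `k`,
`Q k` = cells of its strip, `m` = a point on a face with a side outside all strips. -/
theorem far (hconn : s.Cn) {K : Type*} (KK : Finset K) {N Q : K → Set ι}
    (hloc : ∀ k ∈ KK, s.LocH1 (N k) (Q k)) (hNQ : ∀ k ∈ KK, N k ⊆ Q k)
    (hdis : ∀ k ∈ KK, ∀ k' ∈ KK, ∀ w ∈ s.P, ∀ F F', w ∈ M.On F → w ∈ M.On F' →
      ∀ q ∈ M.side F, ∀ q' ∈ M.side F', q ∈ N k → q' ∈ N k' → k = k')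
    {m : W} (hm : m ∈ s.P) {Fm : Φ} (hmF : m ∈ M.On Fm) {qm : ι}
    (hqm : qm ∈ M.side Fm) (hqmQ : ∀ k ∈ KK, qm ∉ Q k) :
    ∃ far : Set W, m ∈ far ∧ (∀ w ∈ far, w ∈ s.P) ∧
      (∀ w ∈ s.P, w ∉ far → ∃ k ∈ KK, ∀ F, w ∈ M.On F → ∀ q ∈ M.side F, q ∈ Q k) ∧
      (∀ F w, w ∈ far → w ∈ M.On F → (∃ q ∈ M.side F, ∀ k ∈ KK, q ∉ N k) → s.mu F w ∈ far) ∧
      (∀ X : Set W, (∀ F w, w ∈ X → w ∈ far → w ∈ M.On F → s.mu F w ∈ far →
        (∃ q ∈ M.side F, ∀ k ∈ KK, q ∉ N k) → s.mu F w ∈ X) → ∀ w ∈ X, w ∈ far → far ⊆ X) := by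
  classical
  set N0 : Set ι := {q | ∃ k ∈ KK, q ∈ N k} with hN0
  let m' : s.V := ⟨m, hm⟩
  have hN : ∀ F, (∃ q ∈ M.side F, ∀ k ∈ KK, q ∉ N k) ↔ ∃ q ∈ M.side F, q ∉ N0 := by
    intro F
    constructor
    · rintro ⟨q, hq, h⟩; exact ⟨q, hq, fun ⟨k, hk, h'⟩ => h k hk h'⟩
    · rintro ⟨q, hq, h⟩; exact ⟨q, hq, fun k hk h' => h ⟨k, hk, h'⟩⟩
  have hstep : ∀ F (w : s.V) (h : w.1 ∈ M.On F), Reach s.pat N0 m' w →
      (∃ q ∈ M.side F, q ∉ N0) → Reach s.pat N0 m' ⟨s.mu F w.1, (s.mu_mem w.2 h).1⟩ := by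
    intro F w h hr ⟨q, hq, hqN⟩
    exact hr.step (s.ch F w h) (Sym2.mem_mk_left _ _) (Sym2.mem_mk_right _ _) hq hqN
  refine ⟨{w | ∃ h : w ∈ s.P, Reach s.pat N0 m' ⟨w, h⟩}, ⟨hm, Reach.base⟩, fun w hw => hw.1,
    ?_, ?_, ?_⟩
  · intro w hw hwf
    have h1 := far_fam (A := s.pat) (U := univ) (fun X _ hX hne => ?_) (fun _ _ _ _ _ _ => trivial)
      s.linked KK (N := N) (Q := Q) (fun k hk => (hloc k hk).fills) hNQ ?_ (m := m') trivial
      (em := s.ch Fm m' hmF) (mem_ch hmF) hqm hqmQ (v := ⟨w, hw⟩) trivial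
    · rcases h1 with h1 | ⟨k, hk, h1⟩
      · exact (hwf ⟨hw, h1⟩).elim
      · exact ⟨k, hk, fun F hF q hq => h1 (s.ch F ⟨w, hw⟩ hF) (mem_ch hF) q hq⟩
    · obtain ⟨u, hu⟩ := hne
      rw [eq_univ_iff_forall]
      intro x
      have := hconn {y | ∃ h : y ∈ s.P, (⟨y, h⟩ : s.V) ∈ X} ?_ u.1 ⟨u.2, hu⟩ u.2 x.1 x.2
      · exact this.2
      · rintro F y ⟨hy, hyX⟩ _ hyF
        exact ⟨(s.mu_mem hy hyF).1, hX (s.ch F ⟨y, hy⟩ hyF) ⟨y, hy⟩ (mem_ch hyF) _
          (Sym2.mem_mk_right _ _) hyX⟩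
    · rintro k hk k' hk' v e e' hv hv' ⟨q, hq, hqN⟩ ⟨q', hq', hqN'⟩
      obtain ⟨h3, h4⟩ := eq_ch hv
      obtain ⟨h5, h6⟩ := eq_ch hv'
      exact hdis k hk k' hk' v.1 v.2 e.1.1 e'.1.1 h3 h5 q hq q' hq' hqN hqN'
  · rintro F w ⟨hw, hwr⟩ hwF hq
    exact ⟨(s.mu_mem hw hwF).1, hstep F ⟨w, hw⟩ hwF hwr ((hN F).1 hq)⟩
  · intro X hX w hwX ⟨hw, hwr⟩ w' ⟨hw', hwr'⟩
    have h1 : Reach s.pat N0 ⟨w, hw⟩ ⟨w', hw'⟩ := Reach.trans hwr.symm hwr'
    refine reach_ind h1 hwX ?_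
    intro F y hy hyF hq hyX
    have h2 : Reach s.pat N0 m' y := Reach.trans hwr hy
    exact hX F y.1 hyX ⟨y.2, h2⟩ hyF ⟨(s.mu_mem y.2 hyF).1, hstep F y hyF h2 hq⟩ ((hN F).2 hq)

end Sht

end Crest.Agent.R096.Loc_965
end

-- ▼ part R096/Agl9_543
section

/-! # A-STATE 5 (row 96, helper543): relative `H1` of a sheet of the state (`LocH1` of 965) -/

set_option autoImplicit false

open Set Filter Topology Metric

namespace Crest.Agent.R096.Agl9_543

open Crest.Agent.R096.Msh_715 Crest.Agent.R096.Agl4_543 Crest.Agent.R096.Agl5_543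
  Crest.Agent.R096.Agl6_543 Crest.Agent.R096.Agl7_543 Crest.Agent.R096.Loc_965
  Crest.Agent.R096.Pat5_543 Crest.Agent.R096.St_147 Crest.Agent.R096.Coh_184

/-- one sheet of a state -/
noncomputable def stSht {ι Φ W : Type} {M : MeshC ι Φ W} {I : Type} {col : I → Bool}
    (s : St M col) (i : I) : Sht M := by
  classical
  exact
  { P := s.P.filter (fun w => s.lab w = i)
    mu := s.mu
    mu_mem := fun {F w} hw hF => by
      rw [Finset.mem_filter] at hw ⊢
      exact ⟨⟨(s.mu_mem hw.1 hF).1, by rw [s.mu_lab hw.1 hF]; exact hw.2⟩, (s.mu_mem hw.1 hF).2⟩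
    mu_ne := fun hw hF => s.mu_ne (Finset.mem_filter.1 hw).1 hF
    mu_mu := fun hw hF => s.mu_mu (Finset.mem_filter.1 hw).1 hF }

theorem mem_stSht {ι Φ W : Type} {M : MeshC ι Φ W} {I : Type} {col : I → Bool}
    {s : St M col} {i : I} {w : W} : w ∈ (stSht s i).P ↔ w ∈ s.P ∧ s.lab w = i := by
  classical
  exact Finset.mem_filter


variable {E : Type} [NormedAddCommGroup E] [NormedSpace ℝ E] [FiniteDimensional ℝ E]
variable {Om : Set E} {ι : Type} {T : Tiling Om ι}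
variable {I : Type} {u : I → E → ℝ} {c : I → ℝ} {S : I → Set E} {col : I → Bool}

/-- **relative exactness**: `S' ⊆ S i` compact with trivial torsors, `κ` exact in every tile
meeting `S'`: then `κ` is exact on the chords whose component lies in `S'`. -/
theorem Fam.relH1 [Nonempty I] (h : Fam T u c S col) (h3 : Module.finrank ℝ E = 3) (i : I)
    {S' : Set E} (hS' : IsCompact S') (hsub : S' ⊆ S i) (ht : TrivF (ZMod 2) S') {Q : Set ι}
    (hQ : ∀ q, (S' ∩ Msh_715.P (T.H q)).Nonempty → q ∈ Q) (κ : C2 T → E → ZMod 2)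
    (hκ : ∀ q ∈ Q, ∃ ψ : E → ZMod 2, ∀ (F : C2 T) (w : E), q ∈ F.side h3 → w ∈ h.pts →
      w ∈ F.On → labf S w = i → κ F w = ψ w + ψ (h.mu h3 F w)) :
    ∃ Ψ : E → ZMod 2, ∀ (F : C2 T) (w : E), w ∈ h.pts → w ∈ F.On → labf S w = i →
      connectedComponentIn (S i ∩ F.set) w ⊆ S' → κ F w = Ψ w + Ψ (h.mu h3 F w) := by
  classical
  have hlev := h.lev i
  have hfinP := hlev.finite_P h3
  set P : Finset E := hfinP.toFinset with hP
  have memP : ∀ x, x ∈ P ↔ x ∈ S i ∧ T.dim x ≤ 1 := fun x => by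
    rw [hP, hfinP.mem_toFinset]; rfl
  have hsh := hlev.sheetHyp h3 memP
  -- the cochain on pairs of tiles
  let κ2 : Sym2 ι → E → E → ZMod 2 := fun t p p' =>
    if hh : p ≠ p' ∧ ∃ F : C2 T, F.side h3 = t ∧ p ∈ P ∧ p ∈ F.On ∧ h.mu h3 F p = p' then
      κ hh.2.choose p else 0
  have hκ2 : ∀ (F : C2 T) (p : E), p ∈ P → p ∈ F.On →
      κ2 (F.side h3) p (h.mu h3 F p) = κ F p := by
    intro F p hp hF
    have hp' : p ∈ h.pts := h.mem_pts.2 ⟨i, (memP p).1 hp⟩
    have hne : p ≠ h.mu h3 F p := (h.mu_spec h3 hp' hF).1.1.symm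
    have hh : p ≠ h.mu h3 F p ∧ ∃ G : C2 T, G.side h3 = F.side h3 ∧ p ∈ P ∧ p ∈ G.On ∧
        h.mu h3 G p = h.mu h3 F p := ⟨hne, F, rfl, hp, hF, rfl⟩
    have e1 : κ2 (F.side h3) p (h.mu h3 F p) = κ hh.2.choose p := dif_pos hh
    rw [e1]
    have h5 := hh.2.choose_spec.1
    have h6 : hh.2.choose = F := by
      obtain ⟨x, h7, -, h8⟩ := F.exists_side h3
      apply C2.ext
      have h9 : ∀ q q' : ι, F.side h3 = s(q, q') → (hh.2.choose).set = F.set := by
        intro q q' hqq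
        rw [C2.set_inter hqq, C2.set_inter (h5.trans hqq)]
      exact h9 _ _ rfl
    rw [h6]
  choose! ψ hψ using hκ
  obtain ⟨Ψ, hΨ⟩ := coh' (A := ZMod 2) hS' ht hsh.closed (hsub.trans hsh.cov)
    (hsh.fin.subset fun q hq => hq.mono (inter_subset_inter_left _ hsub))
    (P := P.filter (fun x => x ∈ S'))
    (fun x hx => (Finset.mem_filter.1 (Finset.mem_coe.1 hx)).2)
    (fun q q' q'' h1 h2 h4 x hx => by
      rw [Finset.mem_coe, Finset.mem_filter]
      exact ⟨hsh.trip q q' q'' h1 h2 h4 ⟨hsub hx.1, hx.2⟩, hx.1⟩)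
    (κ := fun q q' p p' => κ2 s(q, q') p p')
    (fun q q' p p' => by
      show κ2 s(q', q) p p' = κ2 s(q, q') p p'
      rw [Sym2.eq_swap]) (ψ := ψ)
    (fun q q' p p' hch0 => by
      show ψ q p - ψ q p' = κ2 s(q, q') p p'
      have hqQ : q ∈ Q := hQ q ⟨p, hch0.mem.1, hch0.mem.2.1⟩
      have hch : Chord (S i) (fun i => Msh_715.P (T.H i)) P q q' p p' :=
        hch0.mono hsub (Finset.filter_subset _ _)
      by_cases hpp : p = p'
      · subst hpp
        have e1 : κ2 s(q, q') p p = 0 := dif_neg fun h' => h'.1 rfl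
        rw [e1, sub_self]
      · obtain ⟨x, hx, hd, hat, hcc⟩ := hlev.chord_cell h3 memP (Ne.symm hpp) hch
        set F : C2 T := mk2 T hx hd with hFdef
        have hFset : F.set = T.cc x := rfl
        have hFpt : F.pt ∈ T.oc x := T.pt_cl hx
        have hp := (memP p).1 hch.left
        have hp' := (memP p').1 hch.right
        have hpO : p ∈ F.On := by
          refine ⟨by rw [hFset, hcc]; exact hch.mem.2, ?_⟩
          have := hlev.vert p hp.1
          have := hp.2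
          omega
        have hpO' : p' ∈ F.On := by
          refine ⟨by rw [hFset, hcc]; exact hch.mem_right.2, ?_⟩
          have := hlev.vert p' hp'.1
          have := hp'.2
          omega
        have hpp' : p ∈ h.pts := h.mem_pts.2 ⟨i, hp⟩
        have hlab : labf S p = i := h.lab_eq hp.1 hp.2
        have hmu : h.mu h3 F p = p' := by
          refine ((h.mu_spec h3 hpp' hpO).2 p' (Ne.symm hpp) (by rw [hlab]; exact hp'.1) hpO'
            ?_).symm
          rw [hlab, hFset, hcc]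
          exact hch.conn
        have hside : F.side h3 = s(q, q') := by
          have h6 : ∀ m, m ∈ F.side h3 ↔ m = q ∨ m = q' := by
            intro m
            rw [C2.mem_side, T.at_eq_of_mem_oc hx hFpt, hat]
            rfl
          refine ((Sym2.mem_and_mem_iff hch.ne).1 ⟨(h6 q).2 (Or.inl rfl), (h6 q').2 (Or.inr rfl)⟩)
        have h7 := hκ2 F p hch.left hpO
        rw [hside, hmu] at h7
        rw [h7]
        have h8 := hψ q hqQ F p (by rw [hside]; exact Sym2.mem_mk_left _ _) hpp' hpO hlab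
        rw [h8, hmu, CharTwo.sub_eq_add])
  refine ⟨Ψ, ?_⟩
  intro F w hw1 hw2 hi' hcS
  have hs := (h.mu_spec h3 hw1 hw2).1
  rw [hi'] at hs
  have hwS : w ∈ S i := by
    have := h.mem_lab hw1
    rwa [hi'] at this
  obtain ⟨x, h7, h8, h9⟩ := F.exists_side h3
  have hside : F.side h3 = s(x.1, x.2) := by
    refine ((Sym2.mem_and_mem_iff h7).1 ⟨?_, ?_⟩)
    · rw [C2.mem_side, h8]; exact Or.inl rfl
    · rw [C2.mem_side, h8]; exact Or.inr rfl
  have hwP : w ∈ P := (memP w).2 ⟨hwS, hw2.2.le⟩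
  have hch : Chord (S i) (fun i => Msh_715.P (T.H i)) P x.1 x.2 w (h.mu h3 F w) := by
    refine ⟨h7, hwP, (memP _).2 ⟨hs.2.1.1, hs.2.1.2.2.le⟩, ?_, ?_⟩
    · refine ⟨hwS, ?_⟩
      rw [← h9]; exact hw2.1
    · rw [← h9]; exact hs.2.2
  have hch' : Chord S' (fun i => Msh_715.P (T.H i)) (P.filter (fun x => x ∈ S')) x.1 x.2 w
      (h.mu h3 F w) := by
    refine hch.restrict ?_ fun y hy hy' => Finset.mem_filter.2 ⟨hy, hy'⟩
    show connectedComponentIn (S i ∩ (Msh_715.P (T.H x.1) ∩ Msh_715.P (T.H x.2))) w ⊆ S'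
    rw [← h9]
    exact hcS
  have h10 := hΨ x.1 x.2 w (h.mu h3 F w) hch'
  have h11 := hκ2 F w hwP hw2
  rw [hside] at h11
  have h12 : Ψ w - Ψ (h.mu h3 F w) = κ2 s(x.1, x.2) w (h.mu h3 F w) := h10
  rw [h11, CharTwo.sub_eq_add] at h12
  exact h12.symm

/-- **965's local `H1`** of a sheet of the state -/
theorem Fam.locH1 [Nonempty I] (h : Fam T u c S col) (h3 : Module.finrank ℝ E = 3) (i : I)
    {S' : Set E} (hS' : IsCompact S') (hsub : S' ⊆ S i) (ht : TrivF (ZMod 2) S') {N Q : Set ι}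
    (hQ : ∀ q, (S' ∩ Msh_715.P (T.H q)).Nonempty → q ∈ Q)
    (hN : ∀ (F : C2 T) (w : E), w ∈ S i → w ∈ F.On → (∃ q ∈ F.side h3, q ∈ N) →
      connectedComponentIn (S i ∩ F.set) w ⊆ S') :
    (stSht (h.st h3) i).LocH1 N Q := by
  intro κ hκ
  obtain ⟨Ψ, hΨ⟩ := Fam.relH1 h h3 i hS' hsub ht hQ κ (fun q hq => by
    obtain ⟨ψ, hψ⟩ := hκ q hq
    exact ⟨ψ, fun F w hqF hw hF hi => hψ F w hqF (mem_stSht.2 ⟨hw, hi⟩) hF⟩)
  refine ⟨Ψ, fun F w hw hF hq => ?_⟩
  have hw' := mem_stSht.1 hw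
  have hwS : w ∈ S i := by
    have := h.mem_lab (show w ∈ h.pts from hw'.1)
    have h2 : labf S w = i := hw'.2
    rwa [h2] at this
  exact hΨ F w hw'.1 hF hw'.2 (hN F w hwS hF hq)

end Crest.Agent.R096.Agl9_543
end

-- ▼ part R096/Ginv2_543

/-! # GINV 2 (row 96, helper543): relative `H1` of the global state, and the invariant `Inv` of 213
from geometric hypotheses (with the far part of 965) -/

set_option autoImplicit false

open Set Filter Topology Metric

namespace Crest.Agent.R096.Ginv_543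

open Crest.Agent.R096.Msh_715 Crest.Agent.R096.Agl4_543 Crest.Agent.R096.Agl5_543
  Crest.Agent.R096.Agl6_543 Crest.Agent.R096.Loc_965
  Crest.Agent.R096.Pat5_543 Crest.Agent.R096.St_147 Crest.Agent.R096.Coh_184
  Crest.Agent.R096.Seq_213

variable {E : Type} [NormedAddCommGroup E] [NormedSpace ℝ E] [FiniteDimensional ℝ E]
variable {Om : Set E} {ι : Type} {T : Tiling Om ι}
variable {J C K : Type} {u : J → E → ℝ} {c : J → ℝ} {S : J → Set E} {fam : J → C}

namespace GFam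

/-- **relative exactness**: `S' ⊆ S i` compact with trivial torsors, `κ` exact in every tile
meeting `S'`: then `κ` is exact on the chords whose component lies in `S'`. -/
theorem relH1 [Nonempty J] (h : GFam T u c S fam) (h3 : Module.finrank ℝ E = 3) (i : J)
    {S' : Set E} (hS' : IsCompact S') (hsub : S' ⊆ S i) (ht : TrivF (ZMod 2) S') {Q : Set ι}
    (hQ : ∀ q, (S' ∩ Msh_715.P (T.H q)).Nonempty → q ∈ Q) (κ : C2 T → E → ZMod 2)
    (hκ : ∀ q ∈ Q, ∃ ψ : E → ZMod 2, ∀ (F : C2 T) (w : E), q ∈ F.side h3 → w ∈ h.pts →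
      w ∈ F.On → labf S w = i → κ F w = ψ w + ψ (h.mu h3 F w)) :
    ∃ Ψ : E → ZMod 2, ∀ (F : C2 T) (w : E), w ∈ h.pts → w ∈ F.On → labf S w = i →
      connectedComponentIn (S i ∩ F.set) w ⊆ S' → κ F w = Ψ w + Ψ (h.mu h3 F w) := by
  classical
  have hlev := h.lev i
  have hfinP := hlev.finite_P h3
  set P : Finset E := hfinP.toFinset with hP
  have memP : ∀ x, x ∈ P ↔ x ∈ S i ∧ T.dim x ≤ 1 := fun x => by
    rw [hP, hfinP.mem_toFinset]; rfl
  have hsh := hlev.sheetHyp h3 memP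
  -- the cochain on pairs of tiles
  let κ2 : Sym2 ι → E → E → ZMod 2 := fun t p p' =>
    if hh : p ≠ p' ∧ ∃ F : C2 T, F.side h3 = t ∧ p ∈ P ∧ p ∈ F.On ∧ h.mu h3 F p = p' then
      κ hh.2.choose p else 0
  have hκ2 : ∀ (F : C2 T) (p : E), p ∈ P → p ∈ F.On →
      κ2 (F.side h3) p (h.mu h3 F p) = κ F p := by
    intro F p hp hF
    have hp' : p ∈ h.pts := ⟨i, (memP p).1 hp⟩
    have hne : p ≠ h.mu h3 F p := (h.mu_spec h3 hp' hF).1.1.symm
    have hh : p ≠ h.mu h3 F p ∧ ∃ G : C2 T, G.side h3 = F.side h3 ∧ p ∈ P ∧ p ∈ G.On ∧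
        h.mu h3 G p = h.mu h3 F p := ⟨hne, F, rfl, hp, hF, rfl⟩
    have e1 : κ2 (F.side h3) p (h.mu h3 F p) = κ hh.2.choose p := dif_pos hh
    rw [e1]
    have h5 := hh.2.choose_spec.1
    have h6 : hh.2.choose = F := by
      obtain ⟨x, h7, -, h8⟩ := F.exists_side h3
      apply C2.ext
      have h9 : ∀ q q' : ι, F.side h3 = s(q, q') → (hh.2.choose).set = F.set := by
        intro q q' hqq
        rw [C2.set_inter hqq, C2.set_inter (h5.trans hqq)]
      exact h9 _ _ rfl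
    rw [h6]
  choose! ψ hψ using hκ
  obtain ⟨Ψ, hΨ⟩ := coh' (A := ZMod 2) hS' ht hsh.closed (hsub.trans hsh.cov)
    (hsh.fin.subset fun q hq => hq.mono (inter_subset_inter_left _ hsub))
    (P := P.filter (fun x => x ∈ S'))
    (fun x hx => (Finset.mem_filter.1 (Finset.mem_coe.1 hx)).2)
    (fun q q' q'' h1 h2 h4 x hx => by
      rw [Finset.mem_coe, Finset.mem_filter]
      exact ⟨hsh.trip q q' q'' h1 h2 h4 ⟨hsub hx.1, hx.2⟩, hx.1⟩)
    (κ := fun q q' p p' => κ2 s(q, q') p p')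
    (fun q q' p p' => by
      show κ2 s(q', q) p p' = κ2 s(q, q') p p'
      rw [Sym2.eq_swap]) (ψ := ψ)
    (fun q q' p p' hch0 => by
      show ψ q p - ψ q p' = κ2 s(q, q') p p'
      have hqQ : q ∈ Q := hQ q ⟨p, hch0.mem.1, hch0.mem.2.1⟩
      have hch : Chord (S i) (fun i => Msh_715.P (T.H i)) P q q' p p' :=
        hch0.mono hsub (Finset.filter_subset _ _)
      by_cases hpp : p = p'
      · subst hpp
        have e1 : κ2 s(q, q') p p = 0 := dif_neg fun h' => h'.1 rfl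
        rw [e1, sub_self]
      · obtain ⟨x, hx, hd, hat, hcc⟩ := hlev.chord_cell h3 memP (Ne.symm hpp) hch
        set F : C2 T := mk2 T hx hd with hFdef
        have hFset : F.set = T.cc x := rfl
        have hFpt : F.pt ∈ T.oc x := T.pt_cl hx
        have hp := (memP p).1 hch.left
        have hp' := (memP p').1 hch.right
        have hpO : p ∈ F.On := by
          refine ⟨by rw [hFset, hcc]; exact hch.mem.2, ?_⟩
          have := hlev.vert p hp.1
          have := hp.2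
          omega
        have hpO' : p' ∈ F.On := by
          refine ⟨by rw [hFset, hcc]; exact hch.mem_right.2, ?_⟩
          have := hlev.vert p' hp'.1
          have := hp'.2
          omega
        have hpp' : p ∈ h.pts := ⟨i, hp⟩
        have hlab : labf S p = i := h.lab_eq hp.1 hp.2
        have hmu : h.mu h3 F p = p' := by
          refine ((h.mu_spec h3 hpp' hpO).2 p' (Ne.symm hpp) (by rw [hlab]; exact hp'.1) hpO'
            ?_).symm
          rw [hlab, hFset, hcc]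
          exact hch.conn
        have hside : F.side h3 = s(q, q') := by
          have h6 : ∀ m, m ∈ F.side h3 ↔ m = q ∨ m = q' := by
            intro m
            rw [C2.mem_side, T.at_eq_of_mem_oc hx hFpt, hat]
            rfl
          refine ((Sym2.mem_and_mem_iff hch.ne).1 ⟨(h6 q).2 (Or.inl rfl), (h6 q').2 (Or.inr rfl)⟩)
        have h7 := hκ2 F p hch.left hpO
        rw [hside, hmu] at h7
        rw [h7]
        have h8 := hψ q hqQ F p (by rw [hside]; exact Sym2.mem_mk_left _ _) hpp' hpO hlab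
        rw [h8, hmu, CharTwo.sub_eq_add])
  refine ⟨Ψ, ?_⟩
  intro F w hw1 hw2 hi' hcS
  have hs := (h.mu_spec h3 hw1 hw2).1
  rw [hi'] at hs
  have hwS : w ∈ S i := by
    have := h.mem_lab hw1
    rwa [hi'] at this
  obtain ⟨x, h7, h8, h9⟩ := F.exists_side h3
  have hside : F.side h3 = s(x.1, x.2) := by
    refine ((Sym2.mem_and_mem_iff h7).1 ⟨?_, ?_⟩)
    · rw [C2.mem_side, h8]; exact Or.inl rfl
    · rw [C2.mem_side, h8]; exact Or.inr rfl
  have hwP : w ∈ P := (memP w).2 ⟨hwS, hw2.2.le⟩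
  have hch : Chord (S i) (fun i => Msh_715.P (T.H i)) P x.1 x.2 w (h.mu h3 F w) := by
    refine ⟨h7, hwP, (memP _).2 ⟨hs.2.1.1, hs.2.1.2.2.le⟩, ?_, ?_⟩
    · refine ⟨hwS, ?_⟩
      rw [← h9]; exact hw2.1
    · rw [← h9]; exact hs.2.2
  have hch' : Chord S' (fun i => Msh_715.P (T.H i)) (P.filter (fun x => x ∈ S')) x.1 x.2 w
      (h.mu h3 F w) := by
    refine hch.restrict ?_ fun y hy hy' => Finset.mem_filter.2 ⟨hy, hy'⟩
    show connectedComponentIn (S i ∩ (Msh_715.P (T.H x.1) ∩ Msh_715.P (T.H x.2))) w ⊆ S'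
    rw [← h9]
    exact hcS
  have h10 := hΨ x.1 x.2 w (h.mu h3 F w) hch'
  have h11 := hκ2 F w hwP hw2
  rw [hside] at h11
  have h12 : Ψ w - Ψ (h.mu h3 F w) = κ2 s(x.1, x.2) w (h.mu h3 F w) := h10
  rw [h11, CharTwo.sub_eq_add] at h12
  exact h12.symm

/-- **`H1` of every sheet of the global state** -/
theorem H1 [Nonempty J] (h : GFam T u c S fam) (h3 : Module.finrank ℝ E = 3) (i : J)
    (ht : TrivF (ZMod 2) (S i)) : (h.gst h3).H1 i := by
  intro κ hκ
  obtain ⟨Ψ, hΨ⟩ := h.relH1 h3 i (h.lev i).cpt Subset.rfl ht (Q := univ) (fun _ _ => mem_univ _) κ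
    (fun q _ => by
      obtain ⟨ψ, hψ⟩ := hκ q
      exact ⟨ψ, fun F w hq hw hF hi => hψ F w hq ⟨hw, hF⟩ hi⟩)
  exact ⟨Ψ, fun F w hw hi => hΨ F w hw.1 hw.2 hi
    fun y hy => (connectedComponentIn_subset _ _ hy).1⟩

end GFam

/-! ### the sheet of a global state -/

section sht

variable {Φ W : Type} {M : MeshC ι Φ W}

theorem fin_sheet (s : GSt M fam) (i : J) : {w | w ∈ s.P ∧ s.lab w = i}.Finite :=
  (s.fin (fam i)).subset fun w hw => ⟨hw.1, by rw [hw.2]⟩

/-- one sheet of a global state -/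
noncomputable def gSht (s : GSt M fam) (i : J) : Sht M := by
  classical
  exact
  { P := (fin_sheet s i).toFinset
    mu := s.mu
    mu_mem := fun {F w} hw hF => by
      rw [Set.Finite.mem_toFinset] at hw ⊢
      exact ⟨⟨(s.mu_mem hw.1 hF).1, by rw [s.mu_lab hw.1 hF]; exact hw.2⟩, (s.mu_mem hw.1 hF).2⟩
    mu_ne := fun {F w} hw hF => by
      rw [Set.Finite.mem_toFinset] at hw
      exact s.mu_ne hw.1 hF
    mu_mu := fun {F w} hw hF => by
      rw [Set.Finite.mem_toFinset] at hw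
      exact s.mu_mu hw.1 hF }

theorem mem_gSht {s : GSt M fam} {i : J} {w : W} : w ∈ (gSht s i).P ↔ w ∈ s.P ∧ s.lab w = i := by
  unfold gSht
  exact Set.Finite.mem_toFinset _

theorem gSht_cn {s : GSt M fam} {i : J} (h : s.Conn i) : (gSht s i).Cn := by
  intro X hX w hwX hw w' hw'
  have h1 := mem_gSht.1 hw
  have h2 := mem_gSht.1 hw'
  exact h.2 X (fun F v hv hat hi => hX F v hv (mem_gSht.2 ⟨hat.1, hi⟩) hat.2) w hwX h1.1 h1.2 w'
    h2.1 h2.2

/-- local `H1` passes to a restriction -/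
theorem locH1_restrict {s : GSt M fam} {X : Set W}
    {hX : ∀ {F : Φ} {w : W}, w ∈ X → s.At F w → s.mu F w ∈ X} {i : J} {N Q : Set ι}
    (h : (gSht s i).LocH1 N Q) : (gSht (grestrict s X hX) i).LocH1 N Q := by
  classical
  intro κ hκ
  have h1 := h (fun F w => if w ∈ X then κ F w else 0) ?_
  · obtain ⟨Ψ, hΨ⟩ := h1
    refine ⟨Ψ, fun F w hw hF hq => ?_⟩
    have hw' := mem_gSht.1 hw
    have := hΨ F w (mem_gSht.2 ⟨hw'.1.1, hw'.2⟩) hF hq
    rw [if_pos hw'.1.2] at this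
    exact this
  · intro q hq
    obtain ⟨ψ, hψ⟩ := hκ q hq
    refine ⟨fun w => if w ∈ X then ψ w else 0, fun F w hqF hw hF => ?_⟩
    have hw' := mem_gSht.1 hw
    have hat : s.At F w := ⟨hw'.1, hF⟩
    show (if w ∈ X then κ F w else 0) =
      (if w ∈ X then ψ w else 0) + (if s.mu F w ∈ X then ψ (s.mu F w) else 0)
    by_cases hwX : w ∈ X
    · have h2 := hψ F w hqF (mem_gSht.2 ⟨⟨hw'.1, hwX⟩, hw'.2⟩) hF
      have h3 : s.mu F w ∈ X := hX hwX hat
      rw [if_pos hwX, if_pos hwX, if_pos h3]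
      exact h2
    · have h3 : s.mu F w ∉ X := fun h3 => hwX ((mu_mem_iff hX hat).1 h3)
      rw [if_neg hwX, if_neg hwX, if_neg h3, add_zero]

end sht

namespace GFam

/-- 965's local `H1` for the sheets of the global state -/
theorem locH1 [Nonempty J] (h : GFam T u c S fam) (h3 : Module.finrank ℝ E = 3) (i : J)
    {S' : Set E} (hS' : IsCompact S') (hsub : S' ⊆ S i) (ht : TrivF (ZMod 2) S') {N Q : Set ι}
    (hQ : ∀ q, (S' ∩ Msh_715.P (T.H q)).Nonempty → q ∈ Q)
    (hN : ∀ (F : C2 T) (w : E), w ∈ S i → w ∈ F.On → (∃ q ∈ F.side h3, q ∈ N) →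
      connectedComponentIn (S i ∩ F.set) w ⊆ S') :
    (gSht (h.gst h3) i).LocH1 N Q := by
  intro κ hκ
  obtain ⟨Ψ, hΨ⟩ := h.relH1 h3 i hS' hsub ht hQ κ (fun q hq => by
    obtain ⟨ψ, hψ⟩ := hκ q hq
    exact ⟨ψ, fun F w hqF hw hF hi => hψ F w hqF (mem_gSht.2 ⟨hw, hi⟩) hF⟩)
  refine ⟨Ψ, fun F w hw hF hq => ?_⟩
  have hw' := mem_gSht.1 hw
  have hwS : w ∈ S i := by
    have := h.mem_lab (show w ∈ h.pts from hw'.1)
    have h2 : labf S w = i := hw'.2
    rwa [h2] at this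
  exact hΨ F w hw'.1 hF hw'.2 (hN F w hwS hF hq)

end GFam

/-- **Geometric data for the invariant**: base points `b`, for every sheet `j` and every quad `k`
of its family a strip `S' j k` with trivial torsors. `Nr j k` = tiles near a crossing of the sheet
`j` with the other family of `k`. -/
structure GeoInv (h3 : Module.finrank ℝ E = 3) (T : Tiling Om ι) (S : J → Set E) (fam : J → C)
    (Q : Quads ι C K) (b : J → E) (S' : J → K → Set E) (Nr : J → K → Set ι) : Prop where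
  triv : ∀ j, TrivF (ZMod 2) (S j)
  base : ∀ j, b j ∈ S j ∧ T.dim (b j) = 1 ∧ ∃ q, b j ∈ Msh_715.P (T.H q) ∧
    ∀ k, Q.In k (fam j) → q ∉ Q.Act k
  cpt : ∀ j k, Q.In k (fam j) → IsCompact (S' j k)
  sub : ∀ j k, Q.In k (fam j) → S' j k ⊆ S j
  triv' : ∀ j k, Q.In k (fam j) → TrivF (ZMod 2) (S' j k)
  act : ∀ j k, Q.In k (fam j) → ∀ q, (S' j k ∩ Msh_715.P (T.H q)).Nonempty → q ∈ Q.Act k
  nr_act : ∀ j k, Q.In k (fam j) → Nr j k ⊆ Q.Act k
  /-- chords of a tile near a crossing stay in the strip -/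
  chord : ∀ j k, Q.In k (fam j) → ∀ (F : C2 T) (w : E), w ∈ S j → w ∈ F.On →
    (∃ q ∈ F.side h3, q ∈ Nr j k) → connectedComponentIn (S j ∩ F.set) w ⊆ S' j k
  /-- a point is near the crossings of one quad only -/
  one : ∀ j k k', Q.In k (fam j) → Q.In k' (fam j) → ∀ w ∈ S j, ∀ q ∈ Nr j k, ∀ q' ∈ Nr j k',
    w ∈ Msh_715.P (T.H q) → w ∈ Msh_715.P (T.H q') → k = k'
  /-- crossings of the two families of `k` over a face inside `Act k` -/
  cross : ∀ j j' k, Q.In k (fam j) → Q.In k (fam j') → fam j' ≠ fam j → ∀ F : C2 T,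
    (∀ q ∈ F.side h3, q ∈ Q.Act k) → (F.set ∩ (S j ∩ S j')).Nonempty →
    ∀ q ∈ F.side h3, q ∈ Nr j k
  /-- over a face inside `Act k` only the two families of `k` are present -/
  only : ∀ j k, ∀ F : C2 T, (∀ q ∈ F.side h3, q ∈ Q.Act k) → (F.On ∩ S j).Nonempty →
    Q.In k (fam j)

/-- **GINV: levels of all families give a global state with the invariant `Inv` of 213.** -/
theorem exists_inv [Nonempty J] (h3 : Module.finrank ℝ E = 3) (h : GFam T u c S fam)
    (Q : Quads ι C K) {b : J → E} {S' : J → K → Set E} {Nr : J → K → Set ι}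
    (g : GeoInv h3 T S fam Q b S' Nr) :
    ∃ far : J → Set E, (gmain (h.gst h3) b).Inv Q far ∧ ∀ j, b j ∈ far j := by
  classical
  have hb : ∀ i, b i ∈ (h.gst h3).P ∧ (h.gst h3).lab (b i) = i := fun i =>
    (h.mem_pts_iff (w := b i)).2 ⟨(g.base i).1, (g.base i).2.1.le⟩
  set s := gmain (h.gst h3) b with hs
  have hconn : ∀ i, s.Conn i := fun i => gconn_main hb i
  -- points of the state
  have hpt : ∀ {w : E}, w ∈ s.P → w ∈ S (s.lab w) := fun {w} hw => h.mem_lab hw.1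
  -- the far part of every sheet
  have hfar : ∀ j, ∃ far : Set E, b j ∈ far ∧ (∀ w ∈ far, w ∈ (gSht s j).P) ∧
      (∀ w ∈ (gSht s j).P, w ∉ far → ∃ k, Q.In k (fam j) ∧
        ∀ F, w ∈ (meshC T h3).On F → ∀ q ∈ (meshC T h3).side F, q ∈ Q.Act k) ∧
      (∀ X : Set E, (∀ F w, w ∈ X → w ∈ far → w ∈ (meshC T h3).On F → s.mu F w ∈ far →
        (∃ q ∈ (meshC T h3).side F, ∀ k, Q.In k (fam j) → q ∉ Nr j k) → s.mu F w ∈ X) →
        ∀ w ∈ X, w ∈ far → far ⊆ X) := by
    intro j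
    have hKfin : {k | Q.In k (fam j)}.Finite := Q.finK (fam j)
    obtain ⟨hbS, hbd, q, hbq, hqA⟩ := g.base j
    -- a face through `b j` on the tile `q`
    have hbO : b j ∈ Om := (h.lev j).sub hbS
    obtain ⟨x, hx, -, -, hdx, -, hqx, -, hbx, -⟩ :=
      Agl3_543.two_cells T h3 hbO hbd (show q ∈ T.at_ (b j) from hbq)
    set Fm : C2 T := mk2 T hx hdx with hFm
    have hside : q ∈ (meshC T h3).side Fm := by
      show q ∈ Fm.side h3
      rw [C2.mem_side]
      have h5 : Fm.pt ∈ T.oc x := T.pt_cl hx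
      rw [T.at_eq_of_mem_oc hx h5]
      exact hqx
    obtain ⟨far, f1, f2, f3, -, f5⟩ := (gSht s j).far (gSht_cn (hconn j))
      (KK := hKfin.toFinset) (N := Nr j) (Q := Q.Act)
      (fun k hk => locH1_restrict (h.locH1 h3 j (g.cpt j k (hKfin.mem_toFinset.1 hk))
        (g.sub j k (hKfin.mem_toFinset.1 hk)) (g.triv' j k (hKfin.mem_toFinset.1 hk))
        (g.act j k (hKfin.mem_toFinset.1 hk)) (g.chord j k (hKfin.mem_toFinset.1 hk))))
      (fun k hk => g.nr_act j k (hKfin.mem_toFinset.1 hk))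
      (fun k hk k' hk' w hw F F' hF hF' q hq q' hq' hN hN' => by
        have hw' := mem_gSht.1 hw
        have hwS : w ∈ S j := by
          have := hpt hw'.1
          rwa [hw'.2] at this
        exact g.one j k k' (hKfin.mem_toFinset.1 hk) (hKfin.mem_toFinset.1 hk') w hwS q hN q' hN'
          (C2.sub_tile (h3 := h3) hq hF.1) (C2.sub_tile (h3 := h3) hq' hF'.1))
      (m := b j) (mem_gSht.2 ⟨⟨(hb j).1, j, Relation.ReflTransGen.refl⟩, (hb j).2⟩)
      (Fm := Fm) ⟨hbx, hbd⟩ hside (fun k hk => hqA k (hKfin.mem_toFinset.1 hk))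
    refine ⟨far, f1, f2, fun w hw hwf => ?_, fun X hX => f5 X fun F w hwX hwf hF hm hq => ?_⟩
    · obtain ⟨k, hk, h6⟩ := f3 w hw hwf
      exact ⟨k, hKfin.mem_toFinset.1 hk, h6⟩
    · obtain ⟨q', hq', h7⟩ := hq
      exact hX F w hwX hwf hF hm ⟨q', hq', fun k hk => h7 k (hKfin.mem_toFinset.2 hk)⟩
  choose far f1 f2 f3 f5 using hfar
  refine ⟨far, ⟨fun j => gH1_main (h.H1 h3 j (g.triv j)), hconn, ?_, fun j => ⟨b j, f1 j⟩, ?_, ?_,
    ?_⟩, f1⟩
  · intro j w hw
    exact mem_gSht.1 (f2 j w hw)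
  · -- only
    intro k F w hat hin
    exact g.only (s.lab w) k F hin ⟨w, hat.2, hpt hat.1⟩
  · -- loc
    intro w hw
    by_cases hwf : w ∈ far (s.lab w)
    · exact Or.inl hwf
    · right
      obtain ⟨k, hk, h6⟩ := f3 (s.lab w) w (mem_gSht.2 ⟨hw, rfl⟩) hwf
      refine ⟨k, hk, ?_, h6⟩
      -- `w` lies on a face
      obtain ⟨i, hwi, hwd⟩ := hw.1
      have hwO : w ∈ Om := (h.lev i).sub hwi
      have hw1 : T.dim w = 1 := by
        have := (h.lev i).vert w hwi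
        omega
      obtain ⟨q, hq⟩ := T.at_nonempty hwO
      obtain ⟨x, hx, -, -, hdx, -, -, -, hwx, -⟩ := Agl3_543.two_cells T h3 hwO hw1 hq
      exact ⟨mk2 T hx hdx, hwx, hw1⟩
  · -- gc
    intro j X hX w hwX hwf
    refine f5 j X (fun F w' hwX' hwf' hF hm hq => ?_) w hwX hwf
    obtain ⟨q, hq, hqN⟩ := hq
    have hw' := mem_gSht.1 (f2 j w' hwf')
    refine hX F w' hwX' hwf' ⟨hw'.1, hF⟩ hm ?_
    -- the chord is free in its own quad
    intro k hk hin x hx hxk hne hl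
    rw [hw'.2] at hk hne
    have hwp : w' ∈ h.pts := hw'.1.1
    have hxp : x ∈ h.pts := hx.1.1
    have hlw : labf S w' = j := hw'.2
    have hlx : labf S x = s.lab x := rfl
    have hxw : x ≠ w' := by
      intro e
      apply hne
      rw [e, hw'.2]
    have hxm : x ≠ h.mu h3 F w' := by
      intro e
      apply hne
      have h8 := h.mu_lab h3 hwp (F := F) hF
      have h9 : s.lab x = j := by
        show labf S x = j
        rw [e, h8, hlw]
      rw [h9]
    obtain ⟨z, hz1, hz2⟩ := h.meet_of_lace h3 hwp hF hxp hx.2 hxw hxm hl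
    have hz1' := connectedComponentIn_subset _ _ hz1
    have hz2' := connectedComponentIn_subset _ _ hz2
    rw [hlw] at hz1'
    have := g.cross j (s.lab x) k hk hxk hne F hin ⟨z, hz1'.2, hz1'.1, hz2'.1⟩ q hq
    exact hqN k hk this

end Crest.Agent.R096.Ginv_543
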