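import Crest.Agent.R096.St1_147

-- ▼ part R096/Seq1_213
section

/-!
# R096 / SEQ, part 1: "no closed double curve" only depends on the faces that touch `Act`

Two states which agree on all faces with a side in `Act` have the same double arcs there.
-/

set_option autoImplicit false

namespace Crest.Agent.R096.Seq_213
open Crest.Agent.R096.St_147

variable {ι Φ W I : Type} {M : MeshC ι Φ W} {col : I → Bool}

/-- the face `F` has a side in `Act` -/
def Tch (M : MeshC ι Φ W) (Act : Set ι) (F : Φ) : Prop := ∃ q ∈ M.side F, q ∈ Act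

/-- the two states have the same points, names and partners on every face touching `Act` -/
def Agr (s t : St M col) (Act : Set ι) : Prop :=
  ∀ F, Tch M Act F → ∀ w, (s.At F w ↔ t.At F w) ∧ (s.At F w → s.mu F w = t.mu F w ∧ s.lab w = t.lab w)

/-- no closed double curve in `Act`, whatever arcs are chosen -/
def NoClosed (s : St M col) (Act : Set ι) : Prop :=
  ∀ (A : s.Arcs Act) (G : Set s.Dbl), A.Closed G → G = ∅

theorem Agr.symm {s t : St M col} {Act : Set ι} (h : Agr s t Act) : Agr t s Act := by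
  intro F hF w
  obtain ⟨h1, h2⟩ := h F hF w
  refine ⟨h1.symm, fun ht => ?_⟩
  obtain ⟨h3, h4⟩ := h2 (h1.2 ht)
  exact ⟨h3.symm, h4.symm⟩

theorem Dbl.ext' {s : St M col} {z z' : s.Dbl} (h1 : z.F = z'.F) (h2 : z.e = z'.e) : z = z' := by
  cases z; cases z'
  cases h1; cases h2
  rfl

namespace Agr

variable {s t : St M col} {Act : Set ι}

/-- transport of a double point -/
def T (h : Agr s t Act) (z : s.Dbl) (hz : Tch M Act z.F) : t.Dbl where
  F := z.F
  e := z.e
  at_ := fun x => ((h _ hz _).1).1 (z.at_ x)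
  low := fun x => by rw [← ((h _ hz _).2 (z.at_ x)).1]; exact z.low x
  colr := fun x => by rw [← ((h _ hz _).2 (z.at_ x)).2]; exact z.colr x
  lace := by
    rw [← ((h _ hz _).2 (z.at_ true)).1, ← ((h _ hz _).2 (z.at_ false)).1]; exact z.lace

theorem T_F (h : Agr s t Act) (z : s.Dbl) (hz : Tch M Act z.F) : (h.T z hz).F = z.F := rfl

theorem T_e (h : Agr s t Act) (z : s.Dbl) (hz : Tch M Act z.F) : (h.T z hz).e = z.e := rfl

theorem T_T (h : Agr s t Act) (z : s.Dbl) (hz : Tch M Act z.F) :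
    h.symm.T (h.T z hz) hz = z := Dbl.ext' rfl rfl

theorem T_inj (h : Agr s t Act) {z z' : s.Dbl} (hz : Tch M Act z.F) (hz' : Tch M Act z'.F)
    (he : h.T z hz = h.T z' hz') : z = z' := by
  have h1 : (h.T z hz).F = (h.T z' hz').F := by rw [he]
  have h2 : (h.T z hz).e = (h.T z' hz').e := by rw [he]
  exact Dbl.ext' h1 h2

theorem T_key (h : Agr s t Act) (z : s.Dbl) (hz : Tch M Act z.F) (x : Bool) :
    (h.T z hz).key x = z.key x := by
  unfold St.Dbl.key
  simp only [T_F, T_e]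
  rw [((h _ hz _).2 (z.at_ x)).1, ((h _ hz _).2 (z.at_ (!x))).1]
  congr

open Classical in
/-- pull back of a function on sub-chords -/
noncomputable def pull (h : Agr s t Act) (x : Bool) (φ : t.Sub x → ZMod 2) : s.Sub x → ZMod 2 :=
  fun p => match p with
  | .inl a => if hF : Tch M Act a.1.1 then φ (Sum.inl ⟨a.1, ((h _ hF _).1).1 a.2.1,
      by rw [← ((h _ hF _).2 a.2.1).1]; exact a.2.2.1,
      by rw [← ((h _ hF _).2 a.2.1).2]; exact a.2.2.2⟩) else 0
  | .inr z => if hF : Tch M Act z.F then φ (Sum.inr (h.T z hF)) else 0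

theorem pull_inr (h : Agr s t Act) (x : Bool) (φ : t.Sub x → ZMod 2) (z : s.Dbl)
    (hz : Tch M Act z.F) : h.pull x φ (Sum.inr z) = φ (Sum.inr (h.T z hz)) := by
  simp only [pull, dif_pos hz]

theorem pull_inl (h : Agr s t Act) (x : Bool) (φ : t.Sub x → ZMod 2)
    (a : {p : Φ × W // s.At p.1 p.2 ∧ M.pos p.1 p.2 < M.pos p.1 (s.mu p.1 p.2) ∧
      col (s.lab p.2) = x}) (ha : Tch M Act a.1.1) :
    h.pull x φ (Sum.inl a) = φ (Sum.inl ⟨a.1, ((h _ ha _).1).1 a.2.1,
      by rw [← ((h _ ha _).2 a.2.1).1]; exact a.2.2.1,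
      by rw [← ((h _ ha _).2 a.2.1).2]; exact a.2.2.2⟩) := by
  simp only [pull, dif_pos ha]

/-- the piece below a double point is transported -/
theorem pull_below (h : Agr s t Act) (x : Bool) (φ : t.Sub x → ZMod 2) {p : s.Sub x} {u : s.Dbl}
    (hu : Tch M Act u.F) (hp : p.Below u) :
    ∃ p' : t.Sub x, p'.Below (h.T u hu) ∧ h.pull x φ p = φ p' := by
  cases p with
  | inl a =>
    obtain ⟨h1, h2, h3⟩ := hp
    have ha : Tch M Act a.1.1 := by rw [h1]; exact hu
    refine ⟨_, ?_, h.pull_inl x φ a ha⟩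
    refine ⟨h1, h2, ?_⟩
    intro v hv hv2
    have hv' : Tch M Act v.F := by rw [hv]; exact hu
    have := h3 (h.symm.T v hv') hv hv2
    rwa [T_key, ← h.T_key u hu] at this
  | inr y =>
    obtain ⟨h1, h2, h3, h4⟩ := hp
    have hy : Tch M Act y.F := by rw [← h1]; exact hu
    refine ⟨_, ?_, h.pull_inr x φ y hy⟩
    refine ⟨h1, h2, ?_, ?_⟩
    · rw [T_key, T_key]; exact h3
    · intro v hv hv2
      have hv' : Tch M Act v.F := by rw [hv]; exact hy
      have := h4 (h.symm.T v hv') hv hv2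
      rwa [T_key, ← h.T_key u hu, ← h.T_key y hy] at this

/-- the end pieces are transported -/
theorem pull_end (h : Agr s t Act) (x : Bool) (φ : t.Sub x → ZMod 2) {p : s.Sub x} {F : Φ} {w : W}
    (hF : Tch M Act F) (hp : p.End F w) :
    ∃ p' : t.Sub x, p'.End F w ∧ h.pull x φ p = φ p' := by
  obtain ⟨hat, hp⟩ := hp
  have hmu := ((h F hF w).2 hat).1
  have hat' := ((h F hF w).1).1 hat
  rcases hp with ⟨h1, a, rfl, ha⟩ | ⟨h1, hp⟩
  · have haF : a.1.1 = F := by rw [ha]
    refine ⟨_, ?_, h.pull_inl x φ a (by rw [haF]; exact hF)⟩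
    refine ⟨hat', Or.inl ⟨by rw [← hmu]; exact h1, _, rfl, ha⟩⟩
  · cases p with
    | inl a =>
      obtain ⟨h2, h3⟩ := hp
      have haF : a.1.1 = F := by rw [h2]
      refine ⟨_, ?_, h.pull_inl x φ a (by rw [haF]; exact hF)⟩
      refine ⟨hat', Or.inr ⟨by rw [← hmu]; exact h1, ?_⟩⟩
      refine ⟨by rw [← hmu]; exact h2, ?_⟩
      intro v hv
      have hv' : Tch M Act v.F := by rw [hv]; exact hF
      rw [← hmu]
      exact h3 (h.symm.T v hv') hv
    | inr y =>
      obtain ⟨h2, h3, h4⟩ := hp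
      have hy : Tch M Act y.F := by rw [h2]; exact hF
      refine ⟨_, ?_, h.pull_inr x φ y hy⟩
      refine ⟨hat', Or.inr ⟨by rw [← hmu]; exact h1, ?_⟩⟩
      refine ⟨h2, by rw [← hmu]; exact h3, ?_⟩
      intro v hv hv2
      have hv' : Tch M Act v.F := by rw [hv]; exact hF
      have := h4 (h.symm.T v hv') hv (by rw [hmu]; exact hv2)
      rwa [T_key, ← h.T_key y hy] at this

open Classical in
/-- the transported arc map -/
noncomputable def arcF (h : Agr s t Act) (A : t.Arcs Act) (q : ι) (z : s.Dbl) : s.Dbl :=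
  if hq : q ∈ Act ∧ q ∈ M.side z.F then
      h.symm.T (A.arc q (h.T z ⟨q, hq.2, hq.1⟩))
        ⟨q, A.mem (z := h.T z ⟨q, hq.2, hq.1⟩) hq.1 hq.2, hq.1⟩ else z

theorem arcF_pos (h : Agr s t Act) (A : t.Arcs Act) {q : ι} {z : s.Dbl} (h1 : q ∈ Act)
    (h2 : q ∈ M.side z.F) : h.arcF A q z =
      h.symm.T (A.arc q (h.T z ⟨q, h2, h1⟩))
        ⟨q, A.mem (z := h.T z ⟨q, h2, h1⟩) h1 h2, h1⟩ := by
  simp only [arcF]
  rw [dif_pos ⟨h1, h2⟩]

theorem arcF_mem (h : Agr s t Act) (A : t.Arcs Act) {q : ι} {z : s.Dbl} (h1 : q ∈ Act)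
    (h2 : q ∈ M.side z.F) : q ∈ M.side (h.arcF A q z).F := by
  rw [arcF_pos h A h1 h2]
  exact A.mem (z := h.T z ⟨q, h2, h1⟩) h1 h2

theorem T_arcF (h : Agr s t Act) (A : t.Arcs Act) {q : ι} {z : s.Dbl} (h1 : q ∈ Act)
    (h2 : q ∈ M.side z.F) (hm : Tch M Act (h.arcF A q z).F) :
    h.T (h.arcF A q z) hm = A.arc q (h.T z ⟨q, h2, h1⟩) := by
  apply Dbl.ext'
  · show (h.arcF A q z).F = _
    rw [arcF_pos h A h1 h2]; rfl
  · show (h.arcF A q z).e = _
    rw [arcF_pos h A h1 h2]; rfl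

/-- transport of a choice of arcs -/
noncomputable def arcs (h : Agr s t Act) (A : t.Arcs Act) : s.Arcs Act where
  arc := h.arcF A
  mem := by
    intro q z h1 h2
    exact arcF_mem h A h1 h2
  ne := by
    intro q z h1 h2 he
    have hz : Tch M Act z.F := ⟨q, h2, h1⟩
    apply A.ne (z := h.T z hz) h1 h2
    have hm : Tch M Act (h.arcF A q z).F := ⟨q, arcF_mem h A h1 h2, h1⟩
    rw [← h.T_arcF A h1 h2 hm]
    exact Dbl.ext' (by show (h.arcF A q z).F = z.F; rw [he])
      (by show (h.arcF A q z).e = z.e; rw [he])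
  inv := by
    intro q z h1 h2
    have hz : Tch M Act z.F := ⟨q, h2, h1⟩
    have hm : Tch M Act (h.arcF A q z).F := ⟨q, arcF_mem h A h1 h2, h1⟩
    have hm2 : Tch M Act (h.arcF A q (h.arcF A q z)).F :=
      ⟨q, arcF_mem h A h1 (arcF_mem h A h1 h2), h1⟩
    apply h.T_inj hm2 hz
    rw [h.T_arcF A h1 (arcF_mem h A h1 h2) hm2, h.T_arcF A h1 h2 hm]
    exact A.inv (z := h.T z hz) h1 h2
  side := by
    intro q z x h1 h2
    have hz : Tch M Act z.F := ⟨q, h2, h1⟩
    have hm : Tch M Act (h.arcF A q z).F := ⟨q, arcF_mem h A h1 h2, h1⟩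
    obtain ⟨φ, a1, a2, a3⟩ := A.side (z := h.T z hz) x h1 h2
    refine ⟨h.pull x φ, ?_, ?_, ?_⟩
    · intro F F' w p p' b1 b2 b3 b4
      obtain ⟨p2, c1, c2⟩ := h.pull_end x φ ⟨q, b1, h1⟩ b3
      obtain ⟨p3, d1, d2⟩ := h.pull_end x φ ⟨q, b2, h1⟩ b4
      rw [c2, d2]
      exact a1 F F' w p2 p3 b1 b2 c1 d1
    · intro u p p' b1 b2 b3
      have hu : Tch M Act u.F := ⟨q, b1, h1⟩
      obtain ⟨p2, c1, c2⟩ := h.pull_below x φ hu b2
      have c3 : p' = Sum.inr u := b3
      rw [c2, c3, h.pull_inr x φ u hu, a2 (h.T u hu) p2 (Sum.inr (h.T u hu)) b1 c1 rfl,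
        ← h.T_arcF A h1 h2 hm]
      constructor
      · rintro (e | e)
        · left; exact h.T_inj hu hz e
        · right; exact h.T_inj hu hm e
      · rintro (e | e)
        · left; subst e; rfl
        · right
          exact Dbl.ext' (by show u.F = (h.arcF A q z).F; rw [e])
            (by show u.e = (h.arcF A q z).e; rw [e])
    · intro u b1 b2 b3
      have hu : Tch M Act u.F := ⟨q, b1, h1⟩
      have hmu : Tch M Act (h.arcF A q u).F := ⟨q, arcF_mem h A h1 b1, h1⟩
      rw [h.pull_inr x φ u hu, h.pull_inr x φ _ hmu, h.T_arcF A h1 b1 hmu]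
      apply a3 (h.T u hu) b1
      · intro e; exact b2 (h.T_inj hu hz e)
      · intro e
        apply b3
        rw [← h.T_arcF A h1 h2 hm] at e
        exact h.T_inj hu hm e
  same := by
    intro q z x h1 h2 φ a1 a2
    have hz : Tch M Act z.F := ⟨q, h2, h1⟩
    have hm : Tch M Act (h.arcF A q z).F := ⟨q, arcF_mem h A h1 h2, h1⟩
    have hmm : Tch M Act (A.arc q (h.T z hz)).F := ⟨q, A.mem (z := h.T z hz) h1 h2, h1⟩
    have key := A.same (z := h.T z hz) x h1 h2 (h.symm.pull x φ) ?_ ?_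
    · rw [h.symm.pull_inr x φ (h.T z hz) hz, h.symm.pull_inr x φ _ hmm, T_T] at key
      rw [arcF_pos h A h1 h2]
      exact key
    · intro F F' w p p' b1 b2 b3 b4
      obtain ⟨p2, c1, c2⟩ := h.symm.pull_end x φ ⟨q, b1, h1⟩ b3
      obtain ⟨p3, d1, d2⟩ := h.symm.pull_end x φ ⟨q, b2, h1⟩ b4
      rw [c2, d2]
      exact a1 F F' w p2 p3 b1 b2 c1 d1
    · intro u p p' b1 b2 b3
      have hu : Tch M Act u.F := ⟨q, b1, h1⟩
      obtain ⟨p2, c1, c2⟩ := h.symm.pull_below x φ hu b2
      have c3 : p' = Sum.inr u := b3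
      rw [c2, c3, h.symm.pull_inr x φ u hu]
      exact a2 (h.symm.T u hu) p2 (Sum.inr (h.symm.T u hu)) b1 c1 rfl

/-- **transfer**: closed double curves only see the faces that touch `Act`. -/
theorem noClosed (h : Agr s t Act) (hs : NoClosed s Act) : NoClosed t Act := by
  intro A G hG
  have hG' := hs (h.arcs A) {z | ∃ hz : Tch M Act z.F, h.T z hz ∈ G} ?_
  · ext z
    simp only [Set.mem_empty_iff_false, iff_false]
    intro hz
    have hs1 : ∃ q, q ∈ M.side z.F := by
      induction hh : M.side z.F using Sym2.ind with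
      | _ a b => exact ⟨a, by simp⟩
    obtain ⟨q, hq⟩ := hs1
    have hzt : Tch M Act z.F := ⟨q, hq, (hG z hz q hq).1⟩
    have : h.symm.T z hzt ∈ ({z | ∃ hz : Tch M Act z.F, h.T z hz ∈ G} : Set s.Dbl) := by
      refine ⟨hzt, ?_⟩
      have e1 : h.T (h.symm.T z hzt) hzt = z := Dbl.ext' rfl rfl
      rw [e1]; exact hz
    rw [hG'] at this
    exact this
  · rintro z ⟨hz, hzG⟩ q hq
    obtain ⟨h1, h2⟩ := hG _ hzG q hq
    refine ⟨h1, ?_⟩
    have hm : Tch M Act (h.arcF A q z).F := ⟨q, arcF_mem h A h1 hq, h1⟩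
    refine ⟨hm, ?_⟩
    show h.T (h.arcF A q z) hm ∈ G
    rw [h.T_arcF A h1 hq hm]
    exact h2

end Agr

end Crest.Agent.R096.Seq_213
private theorem rz_9f088cd419 : type_of% @_root_.Crest.Agent.R096.Seq_213.Agr.pull.eq_1 := @_root_.Crest.Agent.R096.Seq_213.Agr.pull.eq_1 -- L75
end

-- ▼ part R096/Seq2_213

/-!
# R096 / SEQ, part 2: global states, restriction to a quad, gluing, the invariant

`GSt M fam` : a state with any number of families (`fam : J → C` = family of a sheet).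
`Quads`     : quads `k` with two families `pr k true`, `pr k false` and disjoint finite `Act k`.
-/

set_option autoImplicit false

namespace Crest.Agent.R096.Seq_213
open Crest.Agent.R096.St_147 Crest.Agent.R096.St_147.St

/-! ### order lemmas -/

theorem lace_swap_left {ι Φ W : Type} (M : MeshC ι Φ W) (F : Φ) (u v x y : W) :
    M.Lace F u v x y ↔ M.Lace F v u x y := by
  unfold MeshC.Lace MeshC.Btw
  rw [or_comm (a := M.pos F u < M.pos F x ∧ M.pos F x < M.pos F v),
    or_comm (a := M.pos F u < M.pos F y ∧ M.pos F y < M.pos F v)]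

theorem lace_swap_right {ι Φ W : Type} (M : MeshC ι Φ W) (F : Φ) (u v x y : W) :
    M.Lace F u v x y ↔ M.Lace F u v y x := by
  unfold MeshC.Lace
  rw [not_iff_not]
  exact Iff.comm

theorem lace_real {a b c d : ℝ} (hac : a ≠ c) (had : a ≠ d) (hbc : b ≠ c)
    (hbd : b ≠ d)
    (h : ¬ ((a < c ∧ c < b ∨ b < c ∧ c < a) ↔ (a < d ∧ d < b ∨ b < d ∧ d < a))) :
    ¬ ((c < a ∧ a < d ∨ d < a ∧ a < c) ↔ (c < b ∧ b < d ∨ d < b ∧ b < c)) := by
  intro h'
  apply h
  clear h
  rcases lt_or_gt_of_ne hac with h1 | h1 <;> rcases lt_or_gt_of_ne had with h2 | h2 <;>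
    rcases lt_or_gt_of_ne hbc with h3 | h3 <;> rcases lt_or_gt_of_ne hbd with h4 | h4 <;>
    simp_all [lt_asymm]

theorem lace_symm {ι Φ W : Type} (M : MeshC ι Φ W) (F : Φ) {u v x y : W}
    (hu : u ∈ M.On F) (hv : v ∈ M.On F) (hx : x ∈ M.On F) (hy : y ∈ M.On F)
    (h1 : u ≠ x) (h2 : u ≠ y) (h3 : v ≠ x) (h4 : v ≠ y)
    (h : M.Lace F u v x y) : M.Lace F x y u v := by
  unfold MeshC.Lace MeshC.Btw at h ⊢
  exact lace_real (fun e => h1 (M.pos_inj F hu hx e)) (fun e => h2 (M.pos_inj F hu hy e))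
    (fun e => h3 (M.pos_inj F hv hx e)) (fun e => h4 (M.pos_inj F hv hy e)) h

/-! ### facts on one state -/
section St
variable {ι Φ W I : Type} {M : MeshC ι Φ W} {col : I → Bool}

theorem lo_cases (s : St M col) (F : Φ) (w : W) : s.lo F w = w ∨ s.lo F w = s.mu F w := by
  unfold St.lo; split_ifs
  · exact Or.inl rfl
  · exact Or.inr rfl

theorem lo_at (s : St M col) {F : Φ} {w : W} (h : s.At F w) : s.At F (s.lo F w) := by
  rcases lo_cases s F w with e | e <;> rw [e]
  · exact h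
  · exact s.mu_mem h.1 h.2

theorem lo_lab (s : St M col) {F : Φ} {w : W} (h : s.At F w) : s.lab (s.lo F w) = s.lab w := by
  rcases lo_cases s F w with e | e <;> rw [e]
  exact s.mu_lab h.1 h.2

theorem lo_lt (s : St M col) {F : Φ} {w : W} (h : s.At F w) :
    M.pos F (s.lo F w) < M.pos F (s.mu F (s.lo F w)) := by
  have hne : M.pos F w ≠ M.pos F (s.mu F w) := fun e =>
    s.mu_ne h.1 h.2 (M.pos_inj F h.2 (s.mu_mem h.1 h.2).2 e).symm
  unfold St.lo; split_ifs with h1
  · exact lt_of_le_of_ne h1 hne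
  · rw [s.mu_mu h.1 h.2]; exact not_le.1 h1

theorem lace_lo_left (s : St M col) {F : Φ} {w : W} (h : s.At F w) (x y : W) :
    M.Lace F (s.lo F w) (s.mu F (s.lo F w)) x y ↔ M.Lace F w (s.mu F w) x y := by
  rcases lo_cases s F w with e | e <;> rw [e]
  rw [s.mu_mu h.1 h.2, lace_swap_left]

theorem lace_lo_right (s : St M col) {F : Φ} {x : W} (h : s.At F x) (u v : W) :
    M.Lace F u v (s.lo F x) (s.mu F (s.lo F x)) ↔ M.Lace F u v x (s.mu F x) := by
  rcases lo_cases s F x with e | e <;> rw [e]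
  rw [s.mu_mu h.1 h.2, lace_swap_right]

/-- lacing of chords of two sheets is symmetric -/
theorem lace_comm (s : St M col) {F : Φ} {w x : W} (hw : s.At F w) (hx : s.At F x)
    (hne : s.lab w ≠ s.lab x) (h : M.Lace F w (s.mu F w) x (s.mu F x)) :
    M.Lace F x (s.mu F x) w (s.mu F w) := by
  have e1 := s.mu_lab hw.1 hw.2
  have e2 := s.mu_lab hx.1 hx.2
  refine lace_symm M F hw.2 (s.mu_mem hw.1 hw.2).2 hx.2 (s.mu_mem hx.1 hx.2).2 ?_ ?_ ?_ ?_ h
  · intro e; exact hne (by rw [e])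
  · intro e; exact hne (by rw [← e2, ← e])
  · intro e; exact hne (by rw [← e1, e])
  · intro e; exact hne (by rw [← e1, ← e2, e])

/-- two crossing chords of different colours give a double point -/
theorem exists_dbl (s : St M col) {F : Φ} {w x : W} (hw : s.At F w) (hx : s.At F x)
    (hc : col (s.lab x) ≠ col (s.lab w)) (hl : M.Lace F w (s.mu F w) x (s.mu F x)) :
    ∃ z : s.Dbl, z.F = F ∧ z.e (col (s.lab w)) = s.lo F w ∧ z.e (col (s.lab x)) = s.lo F x := by
  classical
  have hl' := lace_comm s hw hx (fun e => hc (by rw [e])) hl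
  have hcx : col (s.lab x) = !(col (s.lab w)) := by
    cases h1 : col (s.lab x) <;> cases h2 : col (s.lab w) <;> simp_all
  cases hcw : col (s.lab w) with
  | true =>
    refine ⟨⟨F, fun b => if b then s.lo F w else s.lo F x, ?_, ?_, ?_, ?_⟩, rfl, ?_, ?_⟩
    · intro b; cases b
      · simpa using lo_at s hx
      · simpa using lo_at s hw
    · intro b; cases b
      · simpa using lo_lt s hx
      · simpa using lo_lt s hw
    · intro b; cases b
      · simp only [Bool.false_eq_true, if_false]; rw [lo_lab s hx, hcx, hcw]; rfl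
      · simp only [if_true]; rw [lo_lab s hw, hcw]
    · simp only [if_true, Bool.false_eq_true, if_false]
      rw [lace_lo_left s hw, lace_lo_right s hx]; exact hl
    · simp
    · simp [hcx, hcw]
  | false =>
    refine ⟨⟨F, fun b => if b then s.lo F x else s.lo F w, ?_, ?_, ?_, ?_⟩, rfl, ?_, ?_⟩
    · intro b; cases b
      · simpa using lo_at s hw
      · simpa using lo_at s hx
    · intro b; cases b
      · simpa using lo_lt s hw
      · simpa using lo_lt s hx
    · intro b; cases b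
      · simp only [Bool.false_eq_true, if_false]; rw [lo_lab s hw, hcw]
      · simp only [if_true]; rw [lo_lab s hx, hcx, hcw]; rfl
    · simp only [if_true, Bool.false_eq_true, if_false]
      rw [lace_lo_left s hx, lace_lo_right s hw]; exact hl'
    · simp
    · simp [hcx, hcw]

theorem free_iff (s : St M col) {F : Φ} {w : W} (hw : s.At F w) :
    s.Free F w ↔ ∀ x, s.At F x → col (s.lab x) ≠ col (s.lab w) →
      ¬ M.Lace F w (s.mu F w) x (s.mu F x) := by
  classical
  constructor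
  · intro hf x hx hc hl
    obtain ⟨z, h1, h2, _⟩ := exists_dbl s hw hx hc hl
    exact hf z h1 _ h2
  · intro h z hz b hb
    subst hz
    have hbw : col (s.lab w) = b := by
      rw [← lo_lab s hw, ← hb]; exact z.colr b
    have hne : s.lab (z.e true) ≠ s.lab (z.e false) := by
      intro e
      have h1 := z.colr true
      have h2 := z.colr false
      rw [e, h2] at h1
      exact absurd h1 (by simp)
    cases b with
    | true =>
      refine h (z.e false) (z.at_ false) ?_ ?_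
      · rw [z.colr false, hbw]; simp
      · have := z.lace
        rw [hb, lace_lo_left s hw] at this
        exact this
    | false =>
      refine h (z.e true) (z.at_ true) ?_ ?_
      · rw [z.colr true, hbw]; simp
      · have := lace_comm s (z.at_ true) (z.at_ false) hne z.lace
        rw [hb, lace_lo_left s hw] at this
        exact this

end St

/-! ### global states -/

variable {ι Φ W J C K : Type}

/-- A global state: any number of families of sheets. -/
structure GSt (M : MeshC ι Φ W) (fam : J → C) where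
  P : Set W
  lab : W → J
  mu : Φ → W → W
  mu_mem : ∀ {F : Φ} {w : W}, w ∈ P → w ∈ M.On F → mu F w ∈ P ∧ mu F w ∈ M.On F
  mu_ne : ∀ {F : Φ} {w : W}, w ∈ P → w ∈ M.On F → mu F w ≠ w
  mu_mu : ∀ {F : Φ} {w : W}, w ∈ P → w ∈ M.On F → mu F (mu F w) = w
  mu_lab : ∀ {F : Φ} {w : W}, w ∈ P → w ∈ M.On F → lab (mu F w) = lab w
  nc : ∀ {F : Φ} {w x : W}, w ∈ P → w ∈ M.On F → x ∈ P → x ∈ M.On F →
    fam (lab w) = fam (lab x) → x ≠ w → x ≠ mu F w → ¬ M.Lace F w (mu F w) x (mu F x)
  fin : ∀ c, {w | w ∈ P ∧ fam (lab w) = c}.Finite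

/-- The quads. -/
structure Quads (ι C K : Type) where
  pr : K → Bool → C
  ne : ∀ k, pr k true ≠ pr k false
  Act : K → Set ι
  fin : ∀ k, (Act k).Finite
  disj : ∀ k l, k ≠ l → Disjoint (Act k) (Act l)
  finK : ∀ c, {k | ∃ b, pr k b = c}.Finite

namespace Quads

/-- `c` is one of the two families of the quad `k` -/
def In (Q : Quads ι C K) (k : K) (c : C) : Prop := ∃ b, Q.pr k b = c

/-- the sheets of the two families of the quad `k` -/
def Nm (Q : Quads ι C K) (fam : J → C) (k : K) : Type := {j : J // Q.In k (fam j)}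

open Classical in
/-- colour of a sheet for the quad `k` -/
noncomputable def cl (Q : Quads ι C K) (fam : J → C) (k : K) : Q.Nm fam k → Bool :=
  fun j => decide (fam j.1 = Q.pr k true)

theorem cl_iff (Q : Quads ι C K) (fam : J → C) (k : K) (j : Q.Nm fam k) (b : Bool) :
    Q.cl fam k j = b ↔ fam j.1 = Q.pr k b := by
  classical
  obtain ⟨b', hb'⟩ := j.2
  unfold cl
  cases b with
  | true => simp
  | false =>
    rw [decide_eq_false_iff_not]
    cases b' with
    | true =>
      constructor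
      · intro h; exact absurd hb'.symm h
      · intro h h'; exact Q.ne k (h'.symm.trans h)
    | false =>
      constructor
      · intro _; exact hb'.symm
      · intro h h'; exact Q.ne k (h'.symm.trans h)

theorem cl_eq_iff (Q : Quads ι C K) (fam : J → C) (k : K) (j j' : Q.Nm fam k) :
    Q.cl fam k j = Q.cl fam k j' ↔ fam j.1 = fam j'.1 := by
  constructor
  · intro h
    have h1 := (Q.cl_iff fam k j _).1 rfl
    have h2 := (Q.cl_iff fam k j' _).1 rfl
    rw [h1, h2, h]
  · intro h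
    rw [Q.cl_iff, h]
    exact (Q.cl_iff fam k j' _).1 rfl

end Quads

/-- all sides of the face `F` lie in `A` -/
def Inner (M : MeshC ι Φ W) (A : Set ι) (F : Φ) : Prop := ∀ q ∈ M.side F, q ∈ A

/-- the point `w` lies in the interior of the cells `A` -/
def Int (M : MeshC ι Φ W) (A : Set ι) (w : W) : Prop :=
  (∃ F, w ∈ M.On F) ∧ ∀ F, w ∈ M.On F → Inner M A F

theorem not_inner {M : MeshC ι Φ W} {A : Set ι} {F : Φ} : ¬ Inner M A F ↔ Frozen M A F := by
  unfold Inner Frozen; simp only [not_forall, exists_prop]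

theorem not_frozen {M : MeshC ι Φ W} {A : Set ι} {F : Φ} : ¬ Frozen M A F ↔ Inner M A F := by
  rw [← not_inner, not_not]

theorem side_ex (M : MeshC ι Φ W) (F : Φ) : ∃ q, q ∈ M.side F := by
  induction hh : M.side F using Sym2.ind with
  | _ a b => exact ⟨a, by simp⟩

theorem Quads.frozen_of_inner (Q : Quads ι C K) {M : MeshC ι Φ W} {k l : K} (hkl : k ≠ l)
    {F : Φ} (h : Inner M (Q.Act k) F) : Frozen M (Q.Act l) F := by
  obtain ⟨q, hq⟩ := side_ex M F
  exact ⟨q, hq, fun h' => Set.disjoint_left.1 (Q.disj k l hkl) (h q hq) h'⟩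

theorem Quads.frozen_of_tch (Q : Quads ι C K) {M : MeshC ι Φ W} {k l : K} (hkl : k ≠ l)
    {F : Φ} (h : Tch M (Q.Act k) F) : Frozen M (Q.Act l) F := by
  obtain ⟨q, hq, hq'⟩ := h
  exact ⟨q, hq, fun h' => Set.disjoint_left.1 (Q.disj k l hkl) hq' h'⟩

variable {M : MeshC ι Φ W} {fam : J → C}

namespace GSt

def At (s : GSt M fam) (F : Φ) (w : W) : Prop := w ∈ s.P ∧ w ∈ M.On F

/-- `H¹ = 0` of the sheet `i`, as in `St.H1` -/
def H1 (s : GSt M fam) (i : J) : Prop :=
  ∀ κ : Φ → W → ZMod 2,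
    (∀ q : ι, ∃ ψ : W → ZMod 2, ∀ F w, q ∈ M.side F → s.At F w → s.lab w = i →
      κ F w = ψ w + ψ (s.mu F w)) →
    ∃ Ψ : W → ZMod 2, ∀ F w, s.At F w → s.lab w = i → κ F w = Ψ w + Ψ (s.mu F w)

/-- the sheet `i` is connected and not empty, as in `St.Conn` -/
def Conn (s : GSt M fam) (i : J) : Prop :=
  (∃ w ∈ s.P, s.lab w = i) ∧
  ∀ X : Set W, (∀ F w, w ∈ X → s.At F w → s.lab w = i → s.mu F w ∈ X) →
    ∀ w ∈ X, w ∈ s.P → s.lab w = i → ∀ w' ∈ s.P, s.lab w' = i → w' ∈ X

/-- the chord `(F,w)` does not cross the other family of the quad `k` -/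
def Free (s : GSt M fam) (Q : Quads ι C K) (k : K) (F : Φ) (w : W) : Prop :=
  ∀ x, s.At F x → Q.In k (fam (s.lab x)) → fam (s.lab x) ≠ fam (s.lab w) →
    ¬ M.Lace F w (s.mu F w) x (s.mu F x)

/-- the chord `(F,w)` is free in its own quad (if its face is inner to a quad) -/
def OK (s : GSt M fam) (Q : Quads ι C K) (F : Φ) (w : W) : Prop :=
  ∀ k, Q.In k (fam (s.lab w)) → Inner M (Q.Act k) F → s.Free Q k F w

theorem finP (s : GSt M fam) (Q : Quads ι C K) (k : K) :
    {w | w ∈ s.P ∧ Q.In k (fam (s.lab w))}.Finite := by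
  refine ((s.fin (Q.pr k true)).union (s.fin (Q.pr k false))).subset ?_
  rintro w ⟨hw, b, hb⟩
  cases b
  · right; exact ⟨hw, hb.symm⟩
  · left; exact ⟨hw, hb.symm⟩

open Classical in
/-- restriction of a global state to the two families of a quad -/
noncomputable def res (s : GSt M fam) (Q : Quads ι C K) (k : K) (i0 : Q.Nm fam k) :
    St M (Q.cl fam k) where
  P := (s.finP Q k).toFinset
  lab := fun w => if h : Q.In k (fam (s.lab w)) then ⟨s.lab w, h⟩ else i0
  mu := s.mu
  mu_mem := by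
    intro F w hw hF
    rw [Set.Finite.mem_toFinset] at hw ⊢
    obtain ⟨h1, h2⟩ := s.mu_mem hw.1 hF
    exact ⟨⟨h1, by rw [s.mu_lab hw.1 hF]; exact hw.2⟩, h2⟩
  mu_ne := by
    intro F w hw hF
    rw [Set.Finite.mem_toFinset] at hw
    exact s.mu_ne hw.1 hF
  mu_mu := by
    intro F w hw hF
    rw [Set.Finite.mem_toFinset] at hw
    exact s.mu_mu hw.1 hF
  mu_lab := by
    intro F w hw hF
    rw [Set.Finite.mem_toFinset] at hw
    simp only [s.mu_lab hw.1 hF]
  nc := by
    intro F w x hw hF hx hF' hc hne hne'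
    rw [Set.Finite.mem_toFinset] at hw hx
    rw [dif_pos hw.2, dif_pos hx.2, Q.cl_eq_iff] at hc
    exact s.nc hw.1 hF hx.1 hF' hc hne hne'

theorem mem_res {s : GSt M fam} {Q : Quads ι C K} {k : K} {i0 : Q.Nm fam k} {w : W} :
    w ∈ (s.res Q k i0).P ↔ w ∈ s.P ∧ Q.In k (fam (s.lab w)) := by
  simp only [res, Set.Finite.mem_toFinset]; exact Iff.rfl

theorem res_mu {s : GSt M fam} {Q : Quads ι C K} {k : K} {i0 : Q.Nm fam k} (F : Φ) (w : W) :
    (s.res Q k i0).mu F w = s.mu F w := rfl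

theorem res_lab {s : GSt M fam} {Q : Quads ι C K} {k : K} {i0 : Q.Nm fam k} {w : W}
    (h : Q.In k (fam (s.lab w))) : (s.res Q k i0).lab w = ⟨s.lab w, h⟩ := by
  simp only [res, dif_pos h]

theorem res_lab_iff {s : GSt M fam} {Q : Quads ι C K} {k : K} {i0 i : Q.Nm fam k} {w : W}
    (h : Q.In k (fam (s.lab w))) : (s.res Q k i0).lab w = i ↔ s.lab w = i.1 := by
  rw [res_lab h]
  constructor
  · intro e; rw [← e]
  · intro e; exact Subtype.ext e

theorem res_at {s : GSt M fam} {Q : Quads ι C K} {k : K} {i0 : Q.Nm fam k} {F : Φ} {w : W} :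
    (s.res Q k i0).At F w ↔ s.At F w ∧ Q.In k (fam (s.lab w)) := by
  unfold St.At At
  rw [mem_res]; tauto

theorem res_H1 {s : GSt M fam} {Q : Quads ι C K} {k : K} {i0 : Q.Nm fam k} (i : Q.Nm fam k)
    (h : s.H1 i.1) : (s.res Q k i0).H1 i := by
  intro κ hκ
  obtain ⟨Ψ, hΨ⟩ := h κ (fun q => by
    obtain ⟨ψ, hψ⟩ := hκ q
    refine ⟨ψ, fun F w hq hw hl => ?_⟩
    have hin : Q.In k (fam (s.lab w)) := by rw [hl]; exact i.2
    exact hψ F w hq (res_at.2 ⟨hw, hin⟩) ((res_lab_iff hin).2 hl))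
  refine ⟨Ψ, fun F w hw hl => ?_⟩
  obtain ⟨h1, h2⟩ := res_at.1 hw
  exact hΨ F w h1 ((res_lab_iff h2).1 hl)

theorem res_Conn {s : GSt M fam} {Q : Quads ι C K} {k : K} {i0 : Q.Nm fam k} (i : Q.Nm fam k)
    (h : s.Conn i.1) : (s.res Q k i0).Conn i := by
  obtain ⟨⟨w, hw, hl⟩, h2⟩ := h
  refine ⟨⟨w, mem_res.2 ⟨hw, by rw [hl]; exact i.2⟩, (res_lab_iff (by rw [hl]; exact i.2)).2 hl⟩, ?_⟩
  intro X hX a ha haP hal b hbP hbl
  have ha1 := mem_res.1 haP
  have hb1 := mem_res.1 hbP
  refine h2 X ?_ a ha ha1.1 ((res_lab_iff ha1.2).1 hal) b hb1.1 ((res_lab_iff hb1.2).1 hbl)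
  intro F u hu hat hul
  have hin : Q.In k (fam (s.lab u)) := by rw [hul]; exact i.2
  exact hX F u hu (res_at.2 ⟨hat, hin⟩) ((res_lab_iff hin).2 hul)

theorem res_free {s : GSt M fam} {Q : Quads ι C K} {k : K} {i0 : Q.Nm fam k} {F : Φ} {w : W}
    (hw : s.At F w) (hin : Q.In k (fam (s.lab w))) :
    (s.res Q k i0).Free F w ↔ s.Free Q k F w := by
  rw [free_iff _ (res_at.2 ⟨hw, hin⟩)]
  constructor
  · intro h x hx hxin hne
    refine h x (res_at.2 ⟨hx, hxin⟩) ?_
    rw [res_lab hin, res_lab hxin, Ne, Q.cl_eq_iff]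
    exact hne
  · intro h x hx hne
    obtain ⟨hx1, hx2⟩ := res_at.1 hx
    rw [res_lab hin, res_lab hx2, Ne, Q.cl_eq_iff] at hne
    exact h x hx1 hx2 hne

open Classical in
/-- replace the two families of the quad `k` -/
noncomputable def glue (s : GSt M fam) (Q : Quads ι C K) (k : K) (i0 : Q.Nm fam k)
    (t : St M (Q.cl fam k)) (ht : t.P ⊆ (s.res Q k i0).P) : GSt M fam where
  P := {w | (w ∈ s.P ∧ ¬ Q.In k (fam (s.lab w))) ∨ w ∈ t.P}
  lab := fun w => if w ∈ t.P then (t.lab w).1 else s.lab w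
  mu := fun F w => if w ∈ t.P then t.mu F w else s.mu F w
  mu_mem := by
    intro F w hw hF
    by_cases h : w ∈ t.P
    · simp only [if_pos h]
      exact ⟨Or.inr (t.mu_mem h hF).1, (t.mu_mem h hF).2⟩
    · simp only [if_neg h]
      have h1 : w ∈ s.P ∧ ¬ Q.In k (fam (s.lab w)) := hw.resolve_right h
      refine ⟨Or.inl ⟨(s.mu_mem h1.1 hF).1, ?_⟩, (s.mu_mem h1.1 hF).2⟩
      rw [s.mu_lab h1.1 hF]; exact h1.2
  mu_ne := by
    intro F w hw hF
    by_cases h : w ∈ t.P
    · simp only [if_pos h]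
      exact t.mu_ne h hF
    · simp only [if_neg h]
      exact s.mu_ne (hw.resolve_right h).1 hF
  mu_mu := by
    intro F w hw hF
    by_cases h : w ∈ t.P
    · simp only [if_pos h, if_pos (t.mu_mem h hF).1]
      exact t.mu_mu h hF
    · have h1 : w ∈ s.P ∧ ¬ Q.In k (fam (s.lab w)) := hw.resolve_right h
      have h2 : s.mu F w ∉ t.P := by
        intro h3
        have := (mem_res.1 (ht h3)).2
        rw [s.mu_lab h1.1 hF] at this
        exact h1.2 this
      simp only [if_neg h, if_neg h2]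
      exact s.mu_mu h1.1 hF
  mu_lab := by
    intro F w hw hF
    by_cases h : w ∈ t.P
    · simp only [if_pos h, if_pos (t.mu_mem h hF).1]
      rw [t.mu_lab h hF]
    · have h1 : w ∈ s.P ∧ ¬ Q.In k (fam (s.lab w)) := hw.resolve_right h
      have h2 : s.mu F w ∉ t.P := by
        intro h3
        have := (mem_res.1 (ht h3)).2
        rw [s.mu_lab h1.1 hF] at this
        exact h1.2 this
      simp only [if_neg h, if_neg h2]
      exact s.mu_lab h1.1 hF
  nc := by
    intro F w x hw hF hx hF' hc hne hne'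
    by_cases h : w ∈ t.P <;> by_cases h' : x ∈ t.P
    · simp only [if_pos h, if_pos h'] at hc hne' ⊢
      exact t.nc h hF h' hF' ((Q.cl_eq_iff fam k _ _).2 hc) hne hne'
    · simp only [if_pos h, if_neg h'] at hc
      exact absurd (hc ▸ (t.lab w).2) (hx.resolve_right h').2
    · simp only [if_neg h, if_pos h'] at hc
      exact absurd (hc ▸ (t.lab x).2) (hw.resolve_right h).2
    · simp only [if_neg h, if_neg h'] at hc hne' ⊢
      exact s.nc (hw.resolve_right h).1 hF (hx.resolve_right h').1 hF' hc hne hne'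
  fin := by
    intro c
    refine ((s.fin c).union t.P.finite_toSet).subset ?_
    rintro w ⟨hw, hc⟩
    by_cases h : w ∈ t.P
    · right; exact h
    · left
      simp only [if_neg h] at hc
      exact ⟨(hw.resolve_right h).1, hc⟩

section glue
variable {s : GSt M fam} {Q : Quads ι C K} {k : K} {i0 : Q.Nm fam k}
  {t : St M (Q.cl fam k)} {ht : t.P ⊆ (s.res Q k i0).P}

theorem mem_glue {w : W} : w ∈ (s.glue Q k i0 t ht).P ↔
    (w ∈ s.P ∧ ¬ Q.In k (fam (s.lab w))) ∨ w ∈ t.P := Iff.rfl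

theorem glue_lab_pos {w : W} (h : w ∈ t.P) : (s.glue Q k i0 t ht).lab w = (t.lab w).1 := by
  simp only [glue, if_pos h]

theorem glue_lab_neg {w : W} (h : w ∉ t.P) : (s.glue Q k i0 t ht).lab w = s.lab w := by
  simp only [glue, if_neg h]

theorem glue_mu_pos {F : Φ} {w : W} (h : w ∈ t.P) :
    (s.glue Q k i0 t ht).mu F w = t.mu F w := by
  simp only [glue, if_pos h]

theorem glue_mu_neg {F : Φ} {w : W} (h : w ∉ t.P) :
    (s.glue Q k i0 t ht).mu F w = s.mu F w := by
  simp only [glue, if_neg h]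

theorem glue_sub : (s.glue Q k i0 t ht).P ⊆ s.P := by
  intro w hw
  rcases mem_glue.1 hw with h | h
  · exact h.1
  · exact (mem_res.1 (ht h)).1

/-- in the glued state, points with names of the quad are the points of `t` -/
theorem glue_in {w : W} (hw : w ∈ (s.glue Q k i0 t ht).P) :
    Q.In k (fam ((s.glue Q k i0 t ht).lab w)) ↔ w ∈ t.P := by
  constructor
  · intro h
    by_contra h'
    rw [glue_lab_neg h'] at h
    exact ((mem_glue.1 hw).resolve_right h').2 h
  · intro h
    rw [glue_lab_pos h]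
    exact (t.lab w).2

/-- the restriction of the glued state is `t` -/
theorem glue_agr (i1 : Q.Nm fam k) (A : Set ι) : Agr t ((s.glue Q k i0 t ht).res Q k i1) A := by
  intro F _ w
  constructor
  · rw [res_at]
    constructor
    · intro h
      have hg : w ∈ (s.glue Q k i0 t ht).P := mem_glue.2 (Or.inr h.1)
      exact ⟨⟨hg, h.2⟩, (glue_in hg).2 h.1⟩
    · rintro ⟨⟨h1, h2⟩, h3⟩
      exact ⟨(glue_in h1).1 h3, h2⟩
  · intro h
    have hg : w ∈ (s.glue Q k i0 t ht).P := mem_glue.2 (Or.inr h.1)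
    refine ⟨by rw [res_mu, glue_mu_pos h.1], ?_⟩
    have h2 := (glue_in hg).2 h.1
    symm
    rw [res_lab_iff h2, glue_lab_pos h.1]

end glue

/-- Invariant of the sequence of exchanges. `far j` = marked points of the sheet `j`. -/
structure Inv (s : GSt M fam) (Q : Quads ι C K) (far : J → Set W) : Prop where
  h1 : ∀ j, s.H1 j
  conn : ∀ j, s.Conn j
  far_mem : ∀ {j w}, w ∈ far j → w ∈ s.P ∧ s.lab w = j
  far_ne : ∀ j, (far j).Nonempty
  /-- over a quad only the two families of the quad are present -/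
  only : ∀ {k F w}, s.At F w → Inner M (Q.Act k) F → Q.In k (fam (s.lab w))
  /-- unmarked points lie inside the quads -/
  loc : ∀ {w}, w ∈ s.P → w ∈ far (s.lab w) ∨
    ∃ k, Q.In k (fam (s.lab w)) ∧ Int M (Q.Act k) w
  /-- the marked points are connected by chords which are free in their own quad -/
  gc : ∀ (j : J) (X : Set W),
    (∀ F w, w ∈ X → w ∈ far j → s.At F w → s.mu F w ∈ far j → s.OK Q F w → s.mu F w ∈ X) →
    ∀ w ∈ X, w ∈ far j → far j ⊆ X

end GSt

end Crest.Agent.R096.Seq_213
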