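import Crest.Agent.R096.Lab4_184
import Crest.Agent.R096.Agl5_543
import Crest.Agent.R096.Seq2_213
import Crest.Agent.R096.Lab6_184
import Crest.Agent.R096.Bd8_416

-- ▼ part R096/Cm1_117
section

/-!
# R096 (row 96), CMB, part 1: labels at all points of the 1-skeleton (helper117)

`nQ Q X` = number mod 2 of the points of `Q` in `X`.  `XL T Q lam K` : `lam` is a label function of
`Q` on the 1-cells of `K`, at all points outside `Q` (not only at the vertices).
-/

set_option autoImplicit false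
set_option linter.unusedSectionVars false

open Set Topology Filter Metric Module

namespace Crest.Agent.R096.Cm_117

open Crest.Agent.R096.Msh_715 Crest.Agent.R096.Lab_184 Crest.Agent.R096.Agl5_543
  Crest.Agent.R096.Pat5_543 Crest.Agent.R096.Coh_184

variable {E : Type} [NormedAddCommGroup E] [NormedSpace ℝ E]

open Classical in
/-- number mod 2 of the points of `Q` in `X` -/
noncomputable def nQ (Q : Finset E) (X : Set E) : ZMod 2 := ∑ w ∈ Q, if w ∈ X then 1 else 0

lemma nQ_ncard (Q : Finset E) (X : Set E) : nQ Q X = (((Q : Set E) ∩ X).ncard : ZMod 2) := by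
  classical
  unfold nQ
  rw [← Finset.sum_filter, Finset.sum_const, nsmul_eq_mul, mul_one]
  congr 1
  rw [← Set.ncard_coe_finset]
  congr 1
  ext w; simp


lemma nQ_empty {Q : Finset E} {X : Set E} (h : ∀ w ∈ Q, w ∉ X) : nQ Q X = 0 := by
  classical
  unfold nQ
  apply Finset.sum_eq_zero
  intro w hw
  rw [if_neg (h w hw)]

lemma nQ_union {Q : Finset E} {X Y Z : Set E} (h : ∀ w ∈ Q, (w ∈ Z ↔ (w ∈ X ∨ w ∈ Y)))
    (hd : ∀ w ∈ Q, ¬ (w ∈ X ∧ w ∈ Y)) : nQ Q Z = nQ Q X + nQ Q Y := by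
  classical
  unfold nQ
  rw [← Finset.sum_add_distrib]
  apply Finset.sum_congr rfl
  intro w hw
  have h1 := h w hw
  have h2 := hd w hw
  by_cases hX : w ∈ X <;> by_cases hY : w ∈ Y <;> simp_all

lemma add_self (a : ZMod 2) : a + a = 0 := CharTwo.add_self_eq_zero a

lemma nQ_split {Q : Finset E} {p a b : E} (h : a ∈ segment ℝ p b) (ha : a ∉ Q) :
    nQ Q (segment ℝ p b) = nQ Q (segment ℝ p a) + nQ Q (segment ℝ a b) := by
  by_cases hpb : p = b
  · subst hpb
    rw [segment_same, mem_singleton_iff] at h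
    subst h
    have : nQ Q (segment ℝ a a) = 0 := nQ_empty fun w hw h' => by
      rw [segment_same, mem_singleton_iff] at h'
      subst h'; exact ha hw
    rw [this, add_zero]
  · rw [segment_eq_image_lineMap] at h
    obtain ⟨s, hs, rfl⟩ := h
    have hinj : Function.Injective (AffineMap.lineMap p b : ℝ → E) :=
      AffineMap.lineMap_injective ℝ hpb
    have e0 : segment ℝ p b = AffineMap.lineMap p b '' Icc (0:ℝ) 1 :=
      segment_eq_image_lineMap ℝ p b
    have key : ∀ x y : ℝ, x ≤ y → segment ℝ (AffineMap.lineMap p b x) (AffineMap.lineMap p b y) =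
        AffineMap.lineMap p b '' Icc x y := by
      intro x y hxy
      have h1 : (AffineMap.lineMap p b : ℝ →ᵃ[ℝ] E) '' segment ℝ x y =
          segment ℝ (AffineMap.lineMap p b x) (AffineMap.lineMap p b y) :=
        image_segment ℝ (AffineMap.lineMap p b : ℝ →ᵃ[ℝ] E) x y
      rw [← h1, segment_eq_Icc hxy]
    have e1 : segment ℝ p (AffineMap.lineMap p b s) = AffineMap.lineMap p b '' Icc (0:ℝ) s := by
      have := key 0 s hs.1
      rwa [AffineMap.lineMap_apply_zero] at this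
    have e2 : segment ℝ (AffineMap.lineMap p b s) b = AffineMap.lineMap p b '' Icc s 1 := by
      have := key s 1 hs.2
      rwa [AffineMap.lineMap_apply_one] at this
    apply nQ_union
    · intro w _
      rw [e0, e1, e2, ← mem_union, ← image_union, Icc_union_Icc_eq_Icc hs.1 hs.2]
    · rintro w hw ⟨h1, h2⟩
      rw [e1] at h1
      rw [e2] at h2
      obtain ⟨x, hx, rfl⟩ := h1
      obtain ⟨y, hy, hxy⟩ := h2
      have := hinj hxy
      subst this
      have : y = s := le_antisymm hx.2 hy.1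
      subst this
      exact ha hw

/-- a function on a segment counting from an end is a label -/
lemma nQ_three {Q : Finset E} {p q a b : E} (ha : a ∈ segment ℝ p q) (hb : b ∈ segment ℝ p q)
    (haQ : a ∉ Q) (hbQ : b ∉ Q) :
    nQ Q (segment ℝ p a) + nQ Q (segment ℝ p b) = nQ Q (segment ℝ a b) := by
  have main : ∀ a b : E, a ∈ segment ℝ p b → a ∉ Q →
      nQ Q (segment ℝ p a) + nQ Q (segment ℝ p b) = nQ Q (segment ℝ a b) := by
    intro a b h1 h2
    rw [nQ_split h1 h2, ← add_assoc, add_self, zero_add]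
  have hord : a ∈ segment ℝ p b ∨ b ∈ segment ℝ p a := by
    rw [segment_eq_image_lineMap] at ha hb
    obtain ⟨s, hs, rfl⟩ := ha
    obtain ⟨t, ht, rfl⟩ := hb
    have key : ∀ x y : ℝ, 0 ≤ x → x ≤ y →
        AffineMap.lineMap p q x ∈ segment ℝ p (AffineMap.lineMap p q y) := by
      intro x y hx hxy
      have h1 : (AffineMap.lineMap p q : ℝ →ᵃ[ℝ] E) '' segment ℝ 0 y =
          segment ℝ (AffineMap.lineMap p q (0:ℝ)) (AffineMap.lineMap p q y) :=
        image_segment ℝ (AffineMap.lineMap p q : ℝ →ᵃ[ℝ] E) 0 y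
      rw [AffineMap.lineMap_apply_zero] at h1
      rw [← h1, segment_eq_Icc (hx.trans hxy)]
      exact ⟨x, ⟨hx, hxy⟩, rfl⟩
    rcases le_total s t with h | h
    · exact Or.inl (key s t hs.1 h)
    · exact Or.inr (key t s ht.1 h)
  rcases hord with h | h
  · exact main a b h haQ
  · rw [add_comm, main b a h hbQ, segment_symm]

variable {Om : Set E} {ι : Type}

/-- `lam` is an extended label function of `Q` on the 1-cells of `K` -/
def XL (T : Tiling Om ι) (Q : Finset E) (lam : E → ZMod 2) (K : Set E) : Prop :=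
  ∀ e ∈ K, T.dim e = 1 → ∀ a ∈ T.cc e, ∀ b ∈ T.cc e, a ∉ Q → b ∉ Q →
    lam a + lam b = nQ Q (segment ℝ a b)

variable {T : Tiling Om ι}

lemma XL.mono {Q : Finset E} {lam : E → ZMod 2} {K K' : Set E} (h : XL T Q lam K) (hK : K' ⊆ K) :
    XL T Q lam K' := fun e he => h e (hK he)

lemma XL.add_const {Q : Finset E} {lam : E → ZMod 2} {K : Set E} (h : XL T Q lam K) (c : ZMod 2) :
    XL T Q (fun v => lam v + c) K := by
  intro e he h1 a ha b hb haQ hbQ
  rw [← h e he h1 a ha b hb haQ hbQ]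
  have := add_self c
  linear_combination this

/-- only the points of `Q` in `K` matter -/
lemma XL.congr {Q Q' : Finset E} {lam : E → ZMod 2} {K : Set E} (h : XL T Q lam K)
    (hK : ∀ x ∈ K, T.cc x ⊆ K) (hQ : ∀ w ∈ K, (w ∈ Q ↔ w ∈ Q')) : XL T Q' lam K := by
  classical
  intro e he h1 a ha b hb haQ hbQ
  have haK := hK e he ha
  have hbK := hK e he hb
  rw [h e he h1 a ha b hb (fun h' => haQ ((hQ a haK).1 h')) (fun h' => hbQ ((hQ b hbK).1 h'))]
  rw [nQ_ncard, nQ_ncard]
  congr 2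
  ext w
  constructor
  · rintro ⟨h2, h3⟩
    have : w ∈ K := hK e he ((T.convex_cc e).segment_subset ha hb h3)
    exact ⟨(hQ w this).1 h2, h3⟩
  · rintro ⟨h2, h3⟩
    have : w ∈ K := hK e he ((T.convex_cc e).segment_subset ha hb h3)
    exact ⟨(hQ w this).2 h2, h3⟩

section fd

variable [FiniteDimensional ℝ E]

/-- **uniqueness** -/
theorem XL.unique {Q : Finset E} {lam lam' : E → ZMod 2} {C : Set E} (h : XL T Q lam C)
    (h' : XL T Q lam' C) (hQ : ∀ w ∈ Q, T.dim w = 1) (hC : IsPreconnected C) (hCO : C ⊆ Om)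
    (hcc : ∀ x ∈ C, T.cc x ⊆ C) {v w : E} (hv : v ∈ C) (hw : w ∈ C) (hv1 : T.dim v ≤ 1)
    (hw1 : T.dim w ≤ 1) (hvQ : v ∉ Q) (hwQ : w ∉ Q) :
    lam v + lam' v = lam w + lam' w := by
  have hends : ∀ e ∈ C, T.dim e = 1 → ∀ a ∈ T.cc e, ∀ b ∈ T.cc e, a ∉ Q → b ∉ Q →
      lam a + lam' a = lam b + lam' b := by
    intro e he h1 a ha b hb haQ hbQ
    have e1 := h e he h1 a ha b hb haQ hbQ
    have e2 := h' e he h1 a ha b hb haQ hbQ
    have e3 := e1.trans e2.symm
    have e4 : ∀ a b c d : ZMod 2, a + b = c + d → a + c = b + d := by decide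
    exact e4 _ _ _ _ e3
  have hv0Q : ∀ v, T.dim v = 0 → v ∉ Q := fun v h0 hvQ => by
    have := hQ v hvQ; omega
  -- vertices
  have h0 := T.const_of_preconnected (φ := fun z => lam z + lam' z) hC hCO hcc
    (fun e he h1 a b hab => by
      obtain ⟨-, ha0, hb0, -⟩ := ends_of_segment (hCO he) h1 hab
      exact hends e he h1 a (by rw [hab]; exact left_mem_segment ℝ a b) b
        (by rw [hab]; exact right_mem_segment ℝ a b) (hv0Q a ha0) (hv0Q b hb0))
  have hnear : ∀ v ∈ C, T.dim v ≤ 1 → v ∉ Q → ∃ p ∈ C, T.dim p = 0 ∧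
      lam v + lam' v = lam p + lam' p := by
    intro v hv hv1 hvQ
    rcases Nat.eq_zero_or_pos (T.dim v) with h2 | h2
    · exact ⟨v, hv, h2, rfl⟩
    · have h3 : T.dim v = 1 := by omega
      obtain ⟨p, hp, hp0⟩ := T.exists_vertex (hCO hv)
      exact ⟨p, hcc v hv hp, hp0, hends v hv h3 v (T.self_mem_cc v) p hp hvQ (hv0Q p hp0)⟩
  obtain ⟨p, hp, hp0, e1⟩ := hnear v hv hv1 hvQ
  obtain ⟨p', hp', hp0', e2⟩ := hnear w hw hw1 hwQ
  rw [e1, e2]
  exact h0 p hp p' hp' hp0 hp0'

open Classical in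
/-- an end of the 1-cell of a point -/
noncomputable def vx (T : Tiling Om ι) (w : E) : E :=
  if h : w ∈ Om then (T.exists_vertex h).choose else w

lemma vx_spec {w : E} (h : w ∈ Om) : vx T w ∈ T.cc w ∧ T.dim (vx T w) = 0 := by
  unfold vx
  rw [dif_pos h]
  exact (T.exists_vertex h).choose_spec

open Classical in
/-- extension of a vertex label to the 1-skeleton -/
noncomputable def xt (T : Tiling Om ι) (Q : Finset E) (lam : E → ZMod 2) (w : E) : ZMod 2 :=
  if T.dim w = 0 then lam w else lam (vx T w) + nQ Q (segment ℝ (vx T w) w)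

lemma xt_zero {Q : Finset E} {lam : E → ZMod 2} {w : E} (h : T.dim w = 0) : xt T Q lam w = lam w := by
  unfold xt; rw [if_pos h]

/-- **extension** -/
theorem xl_of_exact {Q : Finset E} {lam : E → ZMod 2} {K : Set E} (hKO : K ⊆ Om)
    (hQ : ∀ w ∈ Q, T.dim w = 1) (h : T.Exact (kap T Q) lam K) : XL T Q (xt T Q lam) K := by
  rw [exact_kap_iff] at h
  intro e he h1 a ha b hb haQ hbQ
  obtain ⟨p, q, hpq, e1, e2, hp0, hq0, hp, hq⟩ := T.edge_eq (hKO he) h1
  have hv0Q : ∀ v, T.dim v = 0 → v ∉ Q := fun v h0 hvQ => by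
    have := hQ v hvQ; omega
  have h2 := h e he h1 p q e1
  rw [← nQ_ncard, e1] at h2
  have key : ∀ w ∈ T.cc e, w ∉ Q → xt T Q lam w = lam p + nQ Q (segment ℝ p w) := by
    intro w hw hwQ
    by_cases hw0 : T.dim w = 0
    · rw [xt_zero hw0]
      rcases T.vertex_of_edge (hKO he) h1 e1 hw hw0 with rfl | rfl
      · have : nQ Q (segment ℝ w w) = 0 := nQ_empty fun u hu h' => by
          rw [segment_same, mem_singleton_iff] at h'
          subst h'; exact hwQ hu
        rw [this, add_zero]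
      · rw [← h2, ← add_assoc, add_self, zero_add]
    · have hwoc : w ∈ T.oc e := by
        by_contra hn
        have h3 := T.dim_lt hw hn
        omega
      have hcc : T.cc w = T.cc e := T.cc_eq_of_mem_oc (hKO he) hwoc
      have hwO : w ∈ Om := T.cc_sub_Om (hKO he) hw
      obtain ⟨h3, h4⟩ := vx_spec (T := T) hwO
      rw [hcc] at h3
      unfold xt
      rw [if_neg hw0]
      rcases T.vertex_of_edge (hKO he) h1 e1 h3 h4 with h5 | h5
      · rw [h5]
      · rw [h5]
        have h6 : w ∈ segment ℝ p q := e1 ▸ hw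
        have h7 := nQ_split h6 hwQ
        rw [h7] at h2
        have h8 : lam q = lam p + (nQ Q (segment ℝ p w) + nQ Q (segment ℝ w q)) := by
          rw [← h2, ← add_assoc, add_self, zero_add]
        rw [h8, segment_symm ℝ q w, add_assoc, add_assoc, add_self, add_zero]
  rw [key a ha haQ, key b hb hbQ]
  have h3 := nQ_three (p := p) (q := q) (e1 ▸ ha) (e1 ▸ hb) haQ hbQ
  rw [← h3]
  have := add_self (lam p)
  linear_combination this

end fd

/-! ### positions on a 2-cell -/

theorem loop_rev {X : Type*} [TopologicalSpace X] {γ : ℝ → X} {C : Set X} (h : Loop γ C) :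
    Loop (fun θ => γ (1 - θ)) C := by
  have hper' : ∀ θ, γ (θ - 2) = γ θ := fun θ => by
    rw [← h.per (θ - 2)]; congr 1; ring
  refine ⟨h.cont.comp (by fun_prop), ?_, ?_, ?_⟩
  · intro θ
    show γ (1 - (θ + 2)) = γ (1 - θ)
    rw [← h.per (1 - (θ + 2))]
    congr 1; ring
  · -- reduce to `[0,2)`
    have key : ∀ θ ∈ Ico (0:ℝ) 2, ∃ t ∈ Ico (0:ℝ) 2, γ (1 - θ) = γ t ∧
        ((θ ≤ 1 ∧ t = 1 - θ) ∨ (1 < θ ∧ t = 3 - θ)) := by
      intro θ hθ
      rcases le_or_gt θ 1 with h1 | h1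
      · exact ⟨1 - θ, ⟨by linarith, by linarith [hθ.1]⟩, rfl, Or.inl ⟨h1, rfl⟩⟩
      · refine ⟨3 - θ, ⟨by linarith [hθ.2], by linarith⟩, ?_, Or.inr ⟨h1, rfl⟩⟩
        rw [← h.per (1 - θ)]
        congr 1; ring
    intro s hs t ht hst
    obtain ⟨a, ha, ea, ca⟩ := key s hs
    obtain ⟨b, hb, eb, cb⟩ := key t ht
    have hst' : γ (1 - s) = γ (1 - t) := hst
    rw [ea, eb] at hst'
    have hab := h.inj ha hb hst'
    rcases ca with ⟨c1, c2⟩ | ⟨c1, c2⟩ <;> rcases cb with ⟨d1, d2⟩ | ⟨d1, d2⟩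
    · linarith
    · exfalso
      have h3 := hs.1
      have h4 := ht.2
      linarith
    · exfalso
      have h3 := hs.2
      have h4 := ht.1
      linarith
    · linarith
  · rw [← h.img]
    apply Subset.antisymm
    · rintro _ ⟨θ, hθ, rfl⟩
      rcases le_or_gt θ 1 with h1 | h1
      · exact ⟨1 - θ, ⟨by linarith, by linarith [hθ.1]⟩, rfl⟩
      · refine ⟨3 - θ, ⟨by linarith [hθ.2], by linarith⟩, ?_⟩
        show γ (3 - θ) = γ (1 - θ)
        rw [← h.per (1 - θ)]
        congr 1; ring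
    · rintro _ ⟨t, ht, rfl⟩
      rcases le_or_gt t 1 with h1 | h1
      · refine ⟨1 - t, ⟨by linarith, by linarith [ht.1]⟩, ?_⟩
        show γ (1 - (1 - t)) = γ t
        congr 1; ring
      · refine ⟨3 - t, ⟨by linarith [ht.2], by linarith⟩, ?_⟩
        show γ (1 - (3 - t)) = γ t
        rw [← h.per (1 - (3 - t))]
        congr 1; ring

variable [FiniteDimensional ℝ E]

/-- the boundary loop of a 2-cell with `pos` as (reversed) position -/
noncomputable def gam (F : C2 T) (θ : ℝ) : E :=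
  F.par (Complex.exp (Real.pi * ((1 - θ : ℝ) : ℂ) * Complex.I))

theorem loop_gam (F : C2 T) : Loop (gam F) F.bd :=
  loop_rev (loop_of_disc F.isDisc)

theorem lpos_gam (F : C2 T) {p : E} (hp : p ∈ F.bd) : lpos (gam F) p = 1 - F.pos p / Real.pi := by
  have hpi := Real.pi_pos
  have h1 : (1 - F.pos p / Real.pi) ∈ Ico (0:ℝ) 2 := by
    have h2 := Complex.arg_le_pi (F.inv p)
    have h3 := Complex.neg_pi_lt_arg (F.inv p)
    have h4 : F.pos p / Real.pi ≤ 1 := by
      rw [div_le_one hpi]; exact h2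
    have h5 : -1 < F.pos p / Real.pi := by
      rw [lt_div_iff₀ hpi]
      have : F.pos p = Complex.arg (F.inv p) := rfl
      linarith
    exact ⟨by linarith, by linarith⟩
  have h2 : gam F (1 - F.pos p / Real.pi) = p := by
    unfold gam
    have h3 : (Real.pi : ℂ) * ((1 - (1 - F.pos p / Real.pi) : ℝ) : ℂ) * Complex.I =
        (F.pos p : ℝ) * Complex.I := by
      push_cast
      have : (Real.pi : ℂ) ≠ 0 := by exact_mod_cast Real.pi_ne_zero
      field_simp
      ring
    rw [h3, F.exp_pos hp]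
    exact (F.inv_mem (F.bd_sub hp)).2
  have h3 := (loop_gam F).lpos_eq h1
  rw [h2] at h3
  exact h3

open Classical in
/-- number mod 2 of the points of `Q` on `F` below the position of `p` -/
noncomputable def lamF (F : C2 T) (Q : Finset E) (p : E) : ZMod 2 :=
  ∑ w ∈ Q, if w ∈ F.set ∧ F.pos w < F.pos p then 1 else 0

/-- **the positions of a 2-cell give the labels on its boundary** -/
theorem xl_lamF (F : C2 T) {Q : Finset E} (hQ : ∀ w ∈ Q, T.dim w = 1)
    (heven : nQ Q F.set = 0) : XL T Q (lamF F Q) F.set := by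
  classical
  have hpi := Real.pi_pos
  set Q' : Finset E := Q.filter (· ∈ F.set) with hQ'
  have hQ'C : (Q' : Set E) ⊆ F.bd := by
    intro w hw
    obtain ⟨h1, h2⟩ := Finset.mem_filter.1 (Finset.mem_coe.1 hw)
    exact (F.mem_bd_iff h2).2 (hQ w h1).le
  have hcard : Even Q'.card := by
    have h1 : ((Q'.card : ℕ) : ZMod 2) = 0 := by
      rw [← heven]
      unfold nQ
      rw [← Finset.sum_filter, Finset.sum_const, nsmul_eq_mul, mul_one]
    rwa [ZMod.natCast_eq_zero_iff_even] at h1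
  intro e he h1 a ha b hb haQ hbQ
  have hFcc : T.cc e ⊆ F.set := by
    rw [F.set_eq] at he ⊢
    exact T.cc_sub_of_mem he
  have hbd : ∀ u ∈ T.cc e, u ∈ F.bd := fun u hu =>
    (F.mem_bd_iff (hFcc hu)).2 ((T.dim_le hu).trans h1.le)
  -- labels in terms of the counting function
  have hlam : ∀ u, u ∈ F.bd → u ∉ Q → lamF F Q u = ((cnt (gam F) Q' u : ℕ) : ZMod 2) := by
    intro u hu huQ
    unfold lamF cnt
    rw [hQ', Finset.filter_filter, Finset.card_filter, Nat.cast_sum]
    -- the sum of both is the total number on `F`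
    have h2 : ∀ w ∈ Q, (if w ∈ F.set ∧ F.pos w < F.pos u then (1 : ZMod 2) else 0) +
        (((if w ∈ F.set ∧ lpos (gam F) w < lpos (gam F) u then 1 else 0 : ℕ) : ℕ) : ZMod 2) =
        if w ∈ F.set then 1 else 0 := by
      intro w hw
      by_cases hwF : w ∈ F.set
      · have hwb : w ∈ F.bd := (F.mem_bd_iff hwF).2 (hQ w hw).le
        have hne : F.pos w ≠ F.pos u := fun h => huQ (by
          rw [← F.pos_injOn hwb hu h]; exact hw)
        have hiff : lpos (gam F) w < lpos (gam F) u ↔ F.pos u < F.pos w := by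
          rw [lpos_gam F hwb, lpos_gam F hu, sub_lt_sub_iff_left, div_lt_div_iff_of_pos_right hpi]
        rcases lt_or_gt_of_ne hne with h3 | h3
        · rw [if_pos ⟨hwF, h3⟩, if_neg (fun h => lt_asymm h3 (hiff.1 h.2)), if_pos hwF]
          simp
        · rw [if_neg (fun h => lt_asymm h3 h.2), if_pos ⟨hwF, hiff.2 h3⟩, if_pos hwF]
          simp
      · rw [if_neg (fun h => hwF h.1), if_neg (fun h => hwF h.1), if_neg hwF]
        simp
    have h3 := Finset.sum_congr rfl h2
    rw [Finset.sum_add_distrib] at h3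
    have h4 : (∑ w ∈ Q, if w ∈ F.set then (1 : ZMod 2) else 0) = 0 := heven
    rw [h4] at h3
    have e4 : ∀ a b : ZMod 2, a + b = 0 → a = b := by decide
    exact e4 _ _ h3
  rw [hlam a (hbd a ha) haQ, hlam b (hbd b hb) hbQ]
  by_cases hab : a = b
  · subst hab
    rw [add_self]
    symm
    apply nQ_empty
    intro w hw h'
    rw [segment_same, mem_singleton_iff] at h'
    subst h'
    exact haQ hw
  have hJ : segment ℝ a b ⊆ T.cc e := (T.convex_cc e).segment_subset ha hb
  have hop : segment ℝ a b \ {a, b} = openSegment ℝ a b := by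
    rw [← insert_endpoints_openSegment]
    ext y
    simp only [Set.mem_sdiff, mem_insert_iff, mem_singleton_iff]
    constructor
    · rintro ⟨h7 | h7 | h7, h8⟩
      · exact absurd (Or.inl h7) h8
      · exact absurd (Or.inr h7) h8
      · exact h7
    · intro h7
      refine ⟨Or.inr (Or.inr h7), ?_⟩
      rintro (rfl | rfl)
      · exact hab (left_mem_openSegment_iff.1 h7)
      · exact hab (right_mem_openSegment_iff.1 h7)
  have h2 := (loop_gam F).arc_count (Q := Q') hQ'C hcard hab (J := segment ℝ a b)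
    (convex_segment a b).isPreconnected (left_mem_segment ℝ a b) (right_mem_segment ℝ a b)
    (fun h => haQ (Finset.mem_filter.1 h).1) (fun h => hbQ (Finset.mem_filter.1 h).1)
    (fun u hu => hbd u (hJ hu)) (by rw [hop]; exact (convex_openSegment a b).isPreconnected)
  rw [h2, nQ_ncard, ← Set.ncard_coe_finset]
  congr 2
  ext u
  simp only [hQ', Finset.coe_filter, Finset.mem_filter, mem_ofPred_eq, mem_inter_iff,
    Finset.mem_coe]
  constructor
  · rintro ⟨⟨h2, h3⟩, h4⟩; exact ⟨h2, h4⟩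
  · rintro ⟨h2, h4⟩; exact ⟨⟨h2, hFcc (hJ h4)⟩, h4⟩

end Crest.Agent.R096.Cm_117
end

-- ▼ part R096/Cm2_117
section

/-!
# R096 (row 96), CMB, part 2: existence of extended labels on a cell; the pieces of a global state
in a cell (helper117)
-/

set_option autoImplicit false
set_option linter.unusedSectionVars false

open Set Topology Filter Metric Module

namespace Crest.Agent.R096.Cm_117

open Crest.Agent.R096.Msh_715 Crest.Agent.R096.Lab_184 Crest.Agent.R096.Agl5_543
  Crest.Agent.R096.Pat5_543 Crest.Agent.R096.Coh_184 Crest.Agent.R096.Seq_213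

variable {E : Type} [NormedAddCommGroup E] [NormedSpace ℝ E]
variable {Om : Set E} {ι : Type} {T : Tiling Om ι}

section fd

variable [FiniteDimensional ℝ E]

/-- the 2-cell of a cell of dimension two -/
def toC2 (c : T.Cell) (h : c.dim = 2) : C2 T := ⟨c, h⟩

/-- **existence of extended labels on a cell** -/
theorem exists_xl (h3 : finrank ℝ E = 3) (c : T.Cell) {Q : Finset E}
    (hQ : ∀ w ∈ Q, T.dim w = 1) (heven : ∀ F : C2 T, F.set ⊆ c.set → nQ Q F.set = 0) :
    ∃ lam : E → ZMod 2, XL T Q lam c.set := by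
  have hle : T.dim c.pt ≤ 3 := by rw [← h3]; exact T.dim_le_finrank c.pt
  have hset := c.set_eq
  have hO := c.pt_mem
  rcases Nat.lt_or_ge (T.dim c.pt) 1 with h | h
  · -- a vertex
    refine ⟨fun _ => 0, fun e he h1 => ?_⟩
    exfalso
    have h2 : T.dim c.pt = 0 := by omega
    have h4 := T.cc_eq_singleton (T.dim_eq_zero_iff.1 h2)
    rw [hset, h4, mem_singleton_iff] at he
    rw [he] at h1
    omega
  rcases Nat.lt_or_ge (T.dim c.pt) 2 with h' | h'
  · -- an edge
    have h2 : T.dim c.pt = 1 := by omega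
    obtain ⟨p, q, hpq, e1, e2, hp0, hq0, hp, hq⟩ := T.edge_eq hO h2
    refine ⟨fun w => nQ Q (segment ℝ p w), fun e he h1 a ha b hb haQ hbQ => ?_⟩
    rw [hset] at he
    have hsub := T.cc_sub_of_mem he
    exact nQ_three (q := q) (e1 ▸ hsub ha) (e1 ▸ hsub hb) haQ hbQ
  rcases Nat.lt_or_ge (T.dim c.pt) 3 with h'' | h''
  · -- a 2-cell
    have h2 : c.dim = 2 := by
      show T.dim c.pt = 2
      omega
    exact ⟨_, xl_lamF (toC2 c h2) hQ (heven (toC2 c h2) (Subset.refl _))⟩
  · -- a tile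
    have h2 : T.dim c.pt = 3 := by omega
    have hV : T.V c.pt = ⊤ := by
      apply Submodule.eq_top_of_finrank_eq
      rw [h3]; exact h2
    obtain ⟨i, hi⟩ := (T.V_eq_top_iff hO).1 hV
    have hP := T.cc_eq_tile hi
    rw [hset, hP]
    obtain ⟨lam, hlam⟩ := exact_tile2 (T := T) h3 hQ i (fun x hx hd => by
      have h4 := heven (mk2 T (T.sub i hx) hd) (by
        rw [mk2_set, hset, hP]
        exact T.cc_sub_tile hx)
      rw [mk2_set, nQ_ncard] at h4
      rwa [ZMod.natCast_eq_zero_iff_even] at h4)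
    exact ⟨_, xl_of_exact (T.sub i) hQ hlam⟩

/-- the base vertex of a cell -/
noncomputable def bv (c : T.Cell) : E := (T.exists_vertex c.pt_mem).choose

lemma bv_mem (c : T.Cell) : bv c ∈ c.set := by
  rw [c.set_eq]; exact (T.exists_vertex c.pt_mem).choose_spec.1

lemma bv_dim (c : T.Cell) : T.dim (bv c) = 0 := (T.exists_vertex c.pt_mem).choose_spec.2

lemma cell_sub (c : T.Cell) : c.set ⊆ Om := by
  rw [c.set_eq]; exact T.cc_sub_Om c.pt_mem

lemma cell_cc (c : T.Cell) : ∀ x ∈ c.set, T.cc x ⊆ c.set := by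
  intro x hx
  rw [c.set_eq] at hx ⊢
  exact T.cc_sub_of_mem hx

lemma cell_conn (c : T.Cell) : IsPreconnected c.set := by
  rw [c.set_eq]; exact (T.convex_cc _).isPreconnected

/-- **normalised extended labels of a set of points on a cell** -/
theorem exists_nlab (h3 : finrank ℝ E = 3) (c : T.Cell) {Q : Finset E}
    (hQ : ∀ w ∈ Q, T.dim w = 1) (heven : ∀ F : C2 T, F.set ⊆ c.set → nQ Q F.set = 0) :
    ∃ lam : E → ZMod 2, XL T Q lam c.set ∧ lam (bv c) = 0 := by
  obtain ⟨lam, h⟩ := exists_xl h3 c hQ heven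
  exact ⟨fun v => lam v + lam (bv c), h.add_const _, add_self _⟩


end fd

/-! ### pieces -/

variable {h3 : finrank ℝ E = 3} [FiniteDimensional ℝ E] {J C : Type} {fam : J → C}

/-- the points of the state in the cell `c` -/
abbrev Pt (s : GSt (meshC T h3) fam) (c : T.Cell) : Type :=
  {w : E // w ∈ s.P ∧ w ∈ c.set ∧ T.dim w = 1}

/-- `w'` is the partner of `w` on a 2-cell of `c` -/
def Rel (s : GSt (meshC T h3) fam) (c : T.Cell) (w w' : Pt s c) : Prop :=
  ∃ F : C2 T, F.set ⊆ c.set ∧ w.1 ∈ F.set ∧ w'.1 = s.mu F w.1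

/-- the pieces of the state in the cell `c` -/
def Pc (s : GSt (meshC T h3) fam) (c : T.Cell) : Type := Quot (Rel s c)

variable (s : GSt (meshC T h3) fam)

lemma mem_On {F : C2 T} {w : E} (hw : w ∈ F.set) (h1 : T.dim w = 1) :
    w ∈ (meshC T h3).On F := ⟨hw, h1⟩

/-- sheet of a piece -/
def pcol (c : T.Cell) : Pc s c → J := Quot.lift (fun w => s.lab w.1) (by
  rintro w w' ⟨F, hF, hw, h⟩
  show s.lab w.1 = s.lab w'.1
  rw [h]
  exact (s.mu_lab w.2.1 (mem_On hw w.2.2.2)).symm)

/-- inclusion of points -/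
def pin {c d : T.Cell} (h : c ≤ d) (w : Pt s c) : Pt s d := ⟨w.1, w.2.1, h w.2.2.1, w.2.2.2⟩

/-- the piece of the bigger cell -/
def pup {c d : T.Cell} (h : c ≤ d) : Pc s c → Pc s d :=
  Quot.lift (fun w => Quot.mk _ (pin s h w)) (by
    rintro w w' ⟨F, hF, hw, h'⟩
    exact Quot.sound ⟨F, hF.trans h, hw, h'⟩)


lemma pcol_pup {c d : T.Cell} (h : c ≤ d) (y : Pc s c) : pcol s d (pup s h y) = pcol s c y := by
  induction y using Quot.ind with
  | mk w => rfl

lemma pup_pup {c d e : T.Cell} (h : c ≤ d) (h' : d ≤ e) (y : Pc s c) :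
    pup s (h.trans h') y = pup s h' (pup s h y) := by
  induction y using Quot.ind with
  | mk w => rfl

/-- local finiteness of the state -/
def LF : Prop := ∀ c : T.Cell, {w | w ∈ s.P ∧ w ∈ c.set}.Finite

variable {s}

lemma LF.pt (h : LF s) (c : T.Cell) : Finite (Pt s c) := by
  have := (h c).to_subtype
  exact Finite.of_injective (β := {w | w ∈ s.P ∧ w ∈ c.set}) (fun w => ⟨w.1, w.2.1, w.2.2.1⟩)
    (fun a b hab => Subtype.ext (Subtype.mk.inj hab))

lemma LF.pc (h : LF s) (c : T.Cell) : Finite (Pc s c) := by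
  have := h.pt c
  exact Finite.of_surjective (Quot.mk (Rel s c)) Quot.mk_surjective

open Classical in
/-- the points of a piece -/
noncomputable def pts (h : LF s) (c : T.Cell) (x : Pc s c) : Finset E :=
  ((h c).subset (fun w (hw : w ∈ {w | ∃ h' : w ∈ s.P ∧ w ∈ c.set ∧ T.dim w = 1,
    (Quot.mk _ ⟨w, h'⟩ : Pc s c) = x}) => ⟨hw.1.1, hw.1.2.1⟩)).toFinset

lemma mem_pts {h : LF s} {c : T.Cell} {x : Pc s c} {w : E} :
    w ∈ pts h c x ↔ ∃ h' : w ∈ s.P ∧ w ∈ c.set ∧ T.dim w = 1,
      (Quot.mk _ ⟨w, h'⟩ : Pc s c) = x := by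
  unfold pts
  rw [Set.Finite.mem_toFinset]
  rfl

lemma pts_dim {h : LF s} {c : T.Cell} {x : Pc s c} : ∀ w ∈ pts h c x, T.dim w = 1 := by
  intro w hw
  obtain ⟨h', -⟩ := mem_pts.1 hw
  exact h'.2.2

lemma pts_ne {h : LF s} {c : T.Cell} (x : Pc s c) : ∃ w, w ∈ pts h c x := by
  obtain ⟨w, rfl⟩ := Quot.exists_rep x
  exact ⟨w.1, mem_pts.2 ⟨w.2, rfl⟩⟩

lemma pts_disj {h : LF s} {c : T.Cell} {x y : Pc s c} {w : E} (hx : w ∈ pts h c x)
    (hy : w ∈ pts h c y) : x = y := by
  obtain ⟨h1, e1⟩ := mem_pts.1 hx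
  obtain ⟨h2, e2⟩ := mem_pts.1 hy
  rw [← e1, ← e2]

/-- partners stay in the piece -/
lemma mu_pts {h : LF s} {c : T.Cell} {x : Pc s c} {w : E} (hw : w ∈ pts h c x) {F : C2 T}
    (hF : F.set ⊆ c.set) (hwF : w ∈ F.set) : s.mu F w ∈ pts h c x := by
  obtain ⟨h', hx⟩ := mem_pts.1 hw
  have h1 := s.mu_mem h'.1 (mem_On hwF h'.2.2)
  have h2 : s.mu F w ∈ s.P ∧ s.mu F w ∈ c.set ∧ T.dim (s.mu F w) = 1 :=
    ⟨h1.1, hF h1.2.1, h1.2.2⟩
  refine mem_pts.2 ⟨h2, ?_⟩
  rw [← hx]
  exact (Quot.sound ⟨F, hF, hwF, rfl⟩).symm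

/-- a piece meets every 2-cell in an even number of points -/
lemma even_pts {h : LF s} {c : T.Cell} {x : Pc s c} {F : C2 T} (hF : F.set ⊆ c.set) :
    nQ (pts h c x) F.set = 0 := by
  classical
  unfold nQ
  rw [← Finset.sum_filter]
  have hpar : ∀ w ∈ (pts h c x).filter (· ∈ F.set), s.mu F w ∈ (pts h c x).filter (· ∈ F.set) := by
    intro w hw
    obtain ⟨h1, h2⟩ := Finset.mem_filter.1 hw
    refine Finset.mem_filter.2 ⟨mu_pts h1 hF h2, ?_⟩
    obtain ⟨h', -⟩ := mem_pts.1 h1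
    exact (s.mu_mem h'.1 (mem_On h2 h'.2.2)).2.1
  refine Finset.sum_involution (fun w _ => s.mu F w) ?_ ?_ ?_ ?_
  · intro w _; decide
  · intro w hw _
    obtain ⟨h1, h2⟩ := Finset.mem_filter.1 hw
    obtain ⟨h', -⟩ := mem_pts.1 h1
    exact s.mu_ne h'.1 (mem_On h2 h'.2.2)
  · intro w hw
    exact hpar w hw
  · intro w hw
    obtain ⟨h1, h2⟩ := Finset.mem_filter.1 hw
    obtain ⟨h', -⟩ := mem_pts.1 h1
    exact s.mu_mu h'.1 (mem_On h2 h'.2.2)

/-- the points of a piece on a smaller cell are the points of the pieces over it -/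
lemma mem_pts_pup {h : LF s} {c d : T.Cell} (hcd : c ≤ d) {x : Pc s d} {w : E} (hw : w ∈ c.set) :
    w ∈ pts h d x ↔ ∃ y : Pc s c, pup s hcd y = x ∧ w ∈ pts h c y := by
  constructor
  · intro hx
    obtain ⟨h', e⟩ := mem_pts.1 hx
    refine ⟨Quot.mk _ ⟨w, h'.1, hw, h'.2.2⟩, ?_, mem_pts.2 ⟨⟨h'.1, hw, h'.2.2⟩, rfl⟩⟩
    rw [← e]; rfl
  · rintro ⟨y, rfl, hy⟩
    obtain ⟨h', rfl⟩ := mem_pts.1 hy
    exact mem_pts.2 ⟨⟨h'.1, hcd h'.2.1, h'.2.2⟩, rfl⟩

end Crest.Agent.R096.Cm_117
end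

-- ▼ part R096/Cm3_117

/-!
# R096 (row 96), CMB, part 3: the discrete input `Bd_416.Cmb` of P4-MESH from a global state
(helper117)
-/

set_option autoImplicit false
set_option linter.unusedSectionVars false

open Set Topology Filter Metric Module

namespace Crest.Agent.R096.Cm_117

open Crest.Agent.R096.Msh_715 Crest.Agent.R096.Lab_184 Crest.Agent.R096.Agl5_543
  Crest.Agent.R096.Pat5_543 Crest.Agent.R096.Coh_184 Crest.Agent.R096.Seq_213
  Crest.Agent.R096.Bd_416 Crest.Agent.R096.St_147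

variable {E : Type} [NormedAddCommGroup E] [NormedSpace ℝ E]
variable {Om : Set E} {ι : Type} {T : Tiling Om ι}
variable [FiniteDimensional ℝ E] {h3 : finrank ℝ E = 3} {J C : Type} {fam : J → C}
variable {s : GSt (meshC T h3) fam}

/-- the normalised label function of a piece -/
noncomputable def nl (h : LF s) (c : T.Cell) (x : Pc s c) : E → ZMod 2 :=
  (exists_nlab h3 c (pts_dim (h := h) (x := x)) (fun _ hF => even_pts hF)).choose

lemma nl_xl (h : LF s) (c : T.Cell) (x : Pc s c) : XL T (pts h c x) (nl h c x) c.set :=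
  (exists_nlab h3 c (pts_dim (h := h) (x := x)) (fun _ hF => even_pts hF)).choose_spec.1

lemma nl_bv (h : LF s) (c : T.Cell) (x : Pc s c) : nl h c x (bv c) = 0 :=
  (exists_nlab h3 c (pts_dim (h := h) (x := x)) (fun _ hF => even_pts hF)).choose_spec.2

lemma not_pts_of_dim {h : LF s} {c : T.Cell} {x : Pc s c} {v : E} (hv : T.dim v = 0) :
    v ∉ pts h c x := fun h' => by
  have := pts_dim v h'
  omega

open Classical in
/-- a family of pieces of `c` as a set of points -/
lemma nQ_pieces {h : LF s} {c : T.Cell} {Q : Finset E} (Y : Finset (Pc s c))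
    (hQ : ∀ w ∈ c.set, (w ∈ Q ↔ ∃ y ∈ Y, w ∈ pts h c y)) {X : Set E} (hX : X ⊆ c.set) :
    nQ Q X = ∑ y ∈ Y, nQ (pts h c y) X := by
  unfold nQ
  have e1 : ∑ w ∈ Q, (if w ∈ X then (1 : ZMod 2) else 0) =
      ∑ w ∈ Q.filter (· ∈ c.set), (if w ∈ X then (1 : ZMod 2) else 0) := by
    rw [Finset.sum_filter]
    apply Finset.sum_congr rfl
    intro w _
    by_cases hw : w ∈ c.set
    · rw [if_pos hw]
    · rw [if_neg hw, if_neg (fun h' => hw (hX h'))]
  have e2 : Q.filter (· ∈ c.set) = Y.biUnion (fun y => pts h c y) := by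
    ext w
    rw [Finset.mem_filter, Finset.mem_biUnion]
    constructor
    · rintro ⟨h1, h2⟩
      exact (hQ w h2).1 h1
    · rintro ⟨y, hy, hw⟩
      obtain ⟨h', -⟩ := mem_pts.1 hw
      exact ⟨(hQ w h'.2.1).2 ⟨y, hy, hw⟩, h'.2.1⟩
  rw [e1, e2, Finset.sum_biUnion]
  intro y _ y' _ hne
  simp only [Function.onFun]
  rw [Finset.disjoint_left]
  intro w h1 h2
  exact hne (pts_disj h1 h2)

/-- the sum of the labels of a family of pieces of `c` is a label -/
lemma xl_sum {h : LF s} {c : T.Cell} {Q : Finset E} (Y : Finset (Pc s c))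
    (hQ : ∀ w ∈ c.set, (w ∈ Q ↔ ∃ y ∈ Y, w ∈ pts h c y)) :
    XL T Q (fun v => ∑ y ∈ Y, nl h c y v) c.set := by
  intro e he h1 a ha b hb haQ hbQ
  have hac := cell_cc c e he ha
  have hbc := cell_cc c e he hb
  have hX : segment ℝ a b ⊆ c.set :=
    ((T.convex_cc e).segment_subset ha hb).trans (cell_cc c e he)
  show ∑ y ∈ Y, nl h c y a + ∑ y ∈ Y, nl h c y b = _
  rw [nQ_pieces Y hQ hX, ← Finset.sum_add_distrib]
  apply Finset.sum_congr rfl
  intro y hy
  exact nl_xl h c y e he h1 a ha b hb (fun h' => haQ ((hQ a hac).2 ⟨y, hy, h'⟩))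
    (fun h' => hbQ ((hQ b hbc).2 ⟨y, hy, h'⟩))

open Classical in
/-- **the cocycle rule** at all points of the 1-skeleton -/
lemma nl_coc {h : LF s} {c d : T.Cell} (hcd : c ≤ d) (x : Pc s d) [Fintype (Pc s c)] {v : E}
    (hv : v ∈ c.set) (hv1 : T.dim v ≤ 1) (hvQ : v ∉ pts h d x) :
    nl h d x v = nl h d x (bv c) + ∑ y : Pc s c with pup s hcd y = x, nl h c y v := by
  have h1 := (nl_xl h d x).mono (Tiling.Cell.le_def.1 hcd)
  have h2 := xl_sum (h := h) (c := c) (Q := pts h d x)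
    (Finset.univ.filter (fun y : Pc s c => pup s hcd y = x)) (fun w hw => by
      rw [mem_pts_pup hcd hw]
      constructor
      · rintro ⟨y, h4, h5⟩
        exact ⟨y, Finset.mem_filter.2 ⟨Finset.mem_univ _, h4⟩, h5⟩
      · rintro ⟨y, h4, h5⟩
        exact ⟨y, (Finset.mem_filter.1 h4).2, h5⟩)
  have h4 := h1.unique h2 pts_dim (cell_conn c) (cell_sub c) (cell_cc c) hv (bv_mem c) hv1
    (by rw [bv_dim]; omega) hvQ (not_pts_of_dim (bv_dim c))
  have h5 : ∑ y : Pc s c with pup s hcd y = x, nl h c y (bv c) = 0 :=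
    Finset.sum_eq_zero fun y _ => nl_bv h c y
  rw [h5, add_zero] at h4
  have e4 : ∀ a b c : ZMod 2, a + b = c → a = c + b := by decide
  exact e4 _ _ _ h4

/-! ### sides -/

/-- non crossing: both ends of a chord are on the same side of another piece of the family -/
lemma nl_mu {h : LF s} {c : T.Cell} {x : Pc s c} {F : C2 T} (hF : F.set ⊆ c.set) {w : E}
    (hw : w ∈ s.P) (hwF : w ∈ F.set) (hw1 : T.dim w = 1) (hwx : w ∉ pts h c x)
    (hfam : fam (s.lab w) = fam (pcol s c x)) : nl h c x (s.mu F w) = nl h c x w := by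
  classical
  have hmu := s.mu_mem hw (mem_On hwF hw1)
  have hmF : s.mu F w ∈ F.set := hmu.2.1
  have hm1 : T.dim (s.mu F w) = 1 := hmu.2.2
  have hmx : s.mu F w ∉ pts h c x := fun h' => hwx (by
    have h1 := mu_pts h' hF hmF
    rwa [s.mu_mu hw (mem_On hwF hw1)] at h1)
  have hFcc : ∀ z ∈ F.set, T.cc z ⊆ F.set := cell_cc F.1
  have h1 := ((nl_xl h c x).mono hF).unique (xl_lamF F pts_dim (even_pts hF)) pts_dim
    (cell_conn F.1) (cell_sub F.1) hFcc hmF hwF hm1.le hw1.le hmx hwx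
  -- the two counts agree
  have h2 : lamF F (pts h c x) (s.mu F w) + lamF F (pts h c x) w = 0 := by
    unfold lamF
    rw [← Finset.sum_add_distrib]
    have hin : ∀ v ∈ pts h c x, ((if v ∈ F.set ∧ F.pos v < F.pos (s.mu F w) then (1 : ZMod 2) else 0)
        + if v ∈ F.set ∧ F.pos v < F.pos w then 1 else 0) =
        if v ∈ F.set ∧ (meshC T h3).Btw F w (s.mu F w) v then 1 else 0 := by
      intro v hv
      by_cases hvF : v ∈ F.set
      · have hv1 := pts_dim v hv
        have hne : F.pos v ≠ F.pos w := fun h' => by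
          have := F.pos_injOn (F.on_sub_bd ⟨hvF, hv1⟩) (F.on_sub_bd ⟨hwF, hw1⟩) h'
          subst this; exact hwx hv
        have hne' : F.pos v ≠ F.pos (s.mu F w) := fun h' => by
          have := F.pos_injOn (F.on_sub_bd ⟨hvF, hv1⟩) (F.on_sub_bd ⟨hmF, hm1⟩) h'
          rw [this] at hv; exact hmx hv
        have e1 : (meshC T h3).Btw F w (s.mu F w) v ↔
            ((F.pos w < F.pos v ∧ F.pos v < F.pos (s.mu F w)) ∨
              (F.pos (s.mu F w) < F.pos v ∧ F.pos v < F.pos w)) := Iff.rfl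
        rcases lt_or_gt_of_ne hne with g1 | g1 <;> rcases lt_or_gt_of_ne hne' with g2 | g2
        · rw [if_pos ⟨hvF, g2⟩, if_pos ⟨hvF, g1⟩, if_neg]
          · decide
          · rintro ⟨-, h'⟩
            rcases e1.1 h' with h' | h'
            · exact lt_asymm g1 h'.1
            · exact lt_asymm g2 h'.1
        · rw [if_neg (fun h' => lt_asymm g2 h'.2), if_pos ⟨hvF, g1⟩,
            if_pos ⟨hvF, e1.2 (Or.inr ⟨g2, g1⟩)⟩, zero_add]
        · rw [if_pos ⟨hvF, g2⟩, if_neg (fun h' => lt_asymm g1 h'.2),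
            if_pos ⟨hvF, e1.2 (Or.inl ⟨g1, g2⟩)⟩, add_zero]
        · rw [if_neg (fun h' => lt_asymm g2 h'.2), if_neg (fun h' => lt_asymm g1 h'.2), if_neg]
          · decide
          · rintro ⟨-, h'⟩
            rcases e1.1 h' with h' | h'
            · exact lt_asymm g2 h'.2
            · exact lt_asymm g1 h'.2
      · rw [if_neg (fun h' => hvF h'.1), if_neg (fun h' => hvF h'.1), if_neg (fun h' => hvF h'.1)]
        decide
    rw [Finset.sum_congr rfl hin, ← Finset.sum_filter]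
    have hcl : ∀ v ∈ (pts h c x).filter (fun v => v ∈ F.set ∧
        (meshC T h3).Btw F w (s.mu F w) v), s.mu F v ∈ (pts h c x).filter (fun v => v ∈ F.set ∧
        (meshC T h3).Btw F w (s.mu F w) v) := by
      intro v hv
      obtain ⟨hvm, hvF, hb⟩ := Finset.mem_filter.1 hv
      obtain ⟨hv', hvx⟩ := mem_pts.1 hvm
      have hvOn := mem_On (h3 := h3) hvF hv'.2.2
      have hm := s.mu_mem hv'.1 hvOn
      refine Finset.mem_filter.2 ⟨mu_pts hvm hF hvF, hm.2.1, ?_⟩
      have hfv : fam (s.lab w) = fam (s.lab v) := by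
        rw [hfam, ← hvx]; rfl
      have hnc := s.nc hw (mem_On hwF hw1) hv'.1 hvOn hfv
        (fun h' => hwx (h' ▸ hvm)) (fun h' => hmx (h' ▸ hvm))
      unfold MeshC.Lace at hnc
      rw [not_not] at hnc
      exact hnc.1 hb
    refine Finset.sum_involution (fun v _ => s.mu F v) ?_ ?_ ?_ ?_
    · intro v _; decide
    · intro v hv _
      obtain ⟨hv, hvF, hb⟩ := Finset.mem_filter.1 hv
      obtain ⟨hv', hvx⟩ := mem_pts.1 hv
      exact s.mu_ne hv'.1 (mem_On hvF hv'.2.2)
    · intro v hv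
      exact hcl v hv
    · intro v hv
      obtain ⟨hv, hvF, hb⟩ := Finset.mem_filter.1 hv
      obtain ⟨hv', hvx⟩ := mem_pts.1 hv
      exact s.mu_mu hv'.1 (mem_On hvF hv'.2.2)
  have e4 : ∀ a b c d : ZMod 2, a + b = c + d → b + d = 0 → a = c := by decide
  exact e4 _ _ _ _ h1 h2

/-- a point of a piece -/
noncomputable def rep (h : LF s) {c : T.Cell} (x : Pc s c) : E := (pts_ne (h := h) x).choose

lemma rep_mem (h : LF s) {c : T.Cell} (x : Pc s c) : rep h x ∈ pts h c x :=
  (pts_ne (h := h) x).choose_spec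

/-- the side of a piece with respect to another one: at any of its points -/
lemma side_const {h : LF s} {c : T.Cell} {x x' : Pc s c} (hne : x ≠ x')
    (hfam : fam (pcol s c x) = fam (pcol s c x')) {w w' : E} (hw : w ∈ pts h c x)
    (hw' : w' ∈ pts h c x) : nl h c x' w = nl h c x' w' := by
  classical
  obtain ⟨h1, e1⟩ := mem_pts.1 hw
  obtain ⟨h2, e2⟩ := mem_pts.1 hw'
  -- a function on pieces
  have key : ∀ a b : Pt s c, Rel s c a b → (if (Quot.mk _ a : Pc s c) = x then nl h c x' a.1 else 0)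
      = (if (Quot.mk _ b : Pc s c) = x then nl h c x' b.1 else 0) := by
    intro a b hab
    have hmk : (Quot.mk _ a : Pc s c) = Quot.mk _ b := Quot.sound hab
    by_cases hx : (Quot.mk _ a : Pc s c) = x
    · rw [if_pos hx, if_pos (hmk ▸ hx)]
      obtain ⟨F, hF, haF, hb⟩ := hab
      rw [hb]
      refine (nl_mu hF a.2.1 haF a.2.2.2 ?_ ?_).symm
      · intro h'
        exact hne (pts_disj (mem_pts.2 ⟨a.2, hx⟩) h')
      · rw [← hfam, ← hx]; rfl
    · rw [if_neg hx, if_neg (fun h' => hx (hmk.trans h'))]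
  let g : Pc s c → ZMod 2 := Quot.lift
    (fun a => if (Quot.mk _ a : Pc s c) = x then nl h c x' a.1 else 0) key
  have g1 : g (Quot.mk _ ⟨w, h1⟩) = nl h c x' w := by
    show (if (Quot.mk _ ⟨w, h1⟩ : Pc s c) = x then nl h c x' w else 0) = _
    rw [if_pos e1]
  have g2 : g (Quot.mk _ ⟨w', h2⟩) = nl h c x' w' := by
    show (if (Quot.mk _ ⟨w', h2⟩ : Pc s c) = x then nl h c x' w' else 0) = _
    rw [if_pos e2]
  rw [← g1, ← g2, e1, e2]

/-! ### edges and vertices -/

lemma cell_dim_set (c : T.Cell) {v : E} (hv : v ∈ c.set) : T.dim v ≤ c.dim := by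
  rw [c.set_eq] at hv
  exact T.dim_le hv

lemma vertex_set {c : T.Cell} (h : c.dim = 0) : c.set = {c.pt} := by
  rw [c.set_eq]
  exact T.cc_eq_singleton (T.dim_eq_zero_iff.1 h)

lemma bv_vertex {c : T.Cell} (h : c.dim = 0) : bv c = c.pt := by
  have h1 := bv_mem c
  rw [vertex_set h] at h1
  exact h1

/-- the cell of the base vertex -/
noncomputable def bc (c : T.Cell) : T.Cell := T.cl (cell_sub c (bv_mem c))

lemma bc_dim (c : T.Cell) : (bc c).dim = 0 := by
  unfold bc
  rw [T.dim_cl]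
  exact bv_dim c

lemma bc_set (c : T.Cell) : (bc c).set = {bv c} := by
  unfold bc
  rw [T.cl_set]
  exact T.cc_eq_singleton (T.dim_eq_zero_iff.1 (bv_dim c))

lemma bv_bc (c : T.Cell) : bv (bc c) = bv c := by
  have h1 := bv_mem (bc c)
  rw [bc_set] at h1
  exact h1

lemma bc_lt {c : T.Cell} (h : 1 ≤ c.dim) : bc c < c := by
  rw [lt_iff_le_and_ne]
  refine ⟨?_, ?_⟩
  · rw [Tiling.Cell.le_def, bc_set, singleton_subset_iff]
    exact bv_mem c
  · intro h'
    have := bc_dim c
    rw [h'] at this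
    omega

lemma dim_lt_cell {c d : T.Cell} (h : c < d) : c.dim < d.dim := by
  obtain ⟨h1, h2⟩ := Tiling.Cell.lt_iff.1 h
  rw [d.set_eq] at h1
  exact T.dim_lt h1 h2

/-- the pieces of an edge are points -/
lemma pts_edge {h : LF s} {c : T.Cell} (hc : c.dim = 1) (x : Pc s c) {w w' : E}
    (hw : w ∈ pts h c x) (hw' : w' ∈ pts h c x) : w = w' := by
  obtain ⟨h1, e1⟩ := mem_pts.1 hw
  obtain ⟨h2, e2⟩ := mem_pts.1 hw'
  let g : Pc s c → E := Quot.lift (fun a => a.1) (by
    rintro a b ⟨F, hF, -, -⟩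
    exfalso
    have h4 := cell_dim_set c (hF (by
      show F.pt ∈ F.set
      rw [F.set_eq]; exact T.self_mem_cc _))
    rw [hc, F.dim_pt] at h4
    omega)
  have g1 : g (Quot.mk _ ⟨w, h1⟩) = w := rfl
  have g2 : g (Quot.mk _ ⟨w', h2⟩) = w' := rfl
  rw [← g1, ← g2, e1, e2]

open Classical in
/-- **CMB**: the discrete input of P4-MESH -/
noncomputable def cmb (h : LF s) (hon : ∀ w ∈ s.P, w ∈ Om ∧ T.dim w = 1) (Lam : J → E → ZMod 2)
    (hLam : ∀ j, ∀ e ∈ Om, T.dim e = 1 → ∀ a b, T.cc e = segment ℝ a b →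
      Lam j a + Lam j b = (((gPts s j : Set E) ∩ T.cc e).ncard : ZMod 2)) :
    Cmb T.Cell (fun c => c.dim) J C where
  I := fun c => Pc s c
  fin := fun c => by
    have := h.pc c
    exact Fintype.ofFinite _
  col := fun c x => pcol s c x
  fam := fam
  up := fun hcd y => pup s hcd.le y
  col_up := fun hcd y => pcol_pup s hcd.le y
  up_up := fun h1 h2 y => pup_pup s h1.le h2.le y
  vert := fun c hc => by
    refine ⟨fun x => ?_⟩
    obtain ⟨w, -⟩ := Quot.exists_rep x
    have h1 := cell_dim_set c w.2.2.1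
    have h2 := w.2.2.2
    have h4 : c.dim = 0 := hc
    omega
  s := fun {c d} _ x => nl h d x (bv c)
  coc := fun {p r q} h1 h2 x => by
    have := h.pc r
    let _ : Fintype (Pc s r) := Fintype.ofFinite _
    refine (nl_coc (h := h) h2.le x (Tiling.Cell.le_def.1 h1.le (bv_mem p)) (by rw [bv_dim]; omega)
      (not_pts_of_dim (bv_dim p))).trans ?_
    congr 1
  o := fun c => bc c
  o_dim := fun c _ => bc_dim c
  o_lt := fun c hc => bc_lt hc
  s_o := fun c hc x => by
    show nl h c x (bv (bc c)) = 0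
    rw [bv_bc]
    exact nl_bv h c x
  Lab := fun j c => Lam j (bv c)
  lab_eq := fun {p q} hpq j => by
    have := h.pc q
    let _ : Fintype (Pc s q) := Fintype.ofFinite _
    have hx1 : XL T (gPts s j) (xt T (gPts s j) (Lam j)) Om :=
      xl_of_exact (Subset.refl _) (fun w hw => (hon w (mem_gPts.1 hw).1).2)
        (exact_kap_iff.2 (hLam j))
    have hx2 := xl_sum (h := h) (c := q) (Q := gPts s j)
      (Finset.univ.filter (fun x : Pc s q => pcol s q x = j)) (fun w hw => by
        rw [mem_gPts]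
        constructor
        · rintro ⟨h4, h5⟩
          refine ⟨Quot.mk _ ⟨w, h4, hw, (hon w h4).2⟩, Finset.mem_filter.2
            ⟨Finset.mem_univ _, h5⟩, mem_pts.2 ⟨_, rfl⟩⟩
        · rintro ⟨x, hx, hwx⟩
          obtain ⟨h4, e4⟩ := mem_pts.1 hwx
          refine ⟨h4.1, ?_⟩
          have h5 := (Finset.mem_filter.1 hx).2
          rw [← e4] at h5
          exact h5)
    have hQ0 : ∀ v, T.dim v = 0 → v ∉ gPts s j := fun v h0 h' => by
      have := (hon v (mem_gPts.1 h').1).2
      omega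
    have h4 := (hx1.mono (cell_sub q)).unique hx2
      (fun w hw => (hon w (mem_gPts.1 hw).1).2) (cell_conn q) (cell_sub q) (cell_cc q)
      (Tiling.Cell.le_def.1 hpq.le (bv_mem p)) (bv_mem q) (by rw [bv_dim]; omega) (by rw [bv_dim]; omega)
      (hQ0 _ (bv_dim p)) (hQ0 _ (bv_dim q))
    have h5 : ∑ x : Pc s q with pcol s q x = j, nl h q x (bv q) = 0 :=
      Finset.sum_eq_zero fun y _ => nl_bv h q y
    rw [h5, add_zero, xt_zero (bv_dim p), xt_zero (bv_dim q)] at h4
    have e4 : ∀ a b c : ZMod 2, a + b = c → a = c + b := by decide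
    refine (e4 _ _ _ h4).trans ?_
    congr 1
  side := fun c x x' => nl h c x' (rep h x)
  side_up := fun {p q} hpq y x' hne hfam => by
    have := h.pc p
    let _ : Fintype (Pc s p) := Fintype.ofFinite _
    have h1 : rep h y ∈ pts h q (pup s hpq.le y) :=
      (mem_pts_pup hpq.le (mem_pts.1 (rep_mem h y)).1.2.1).2 ⟨y, rfl, rep_mem h y⟩
    have hfam' : fam (pcol s q (pup s hpq.le y)) = fam (pcol s q x') := by
      rw [pcol_pup]; exact hfam
    have h2 := side_const (h := h) (Ne.symm hne) hfam' (rep_mem h (pup s hpq.le y)) h1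
    have h4 := nl_coc (h := h) hpq.le x' (mem_pts.1 (rep_mem h y)).1.2.1
      (pts_dim _ (rep_mem h y)).le (fun h' => hne (pts_disj h' h1))
    refine (h2.trans h4).trans ?_
    congr 1
  s_edge := fun {v q} hvq hq hne x => by
    have hq' : q.dim = 1 := hq
    have hv0 : v.dim = 0 := by
      have := dim_lt_cell hvq
      omega
    have hbvv := bv_vertex hv0
    have hvm : bv v ∈ q.set := Tiling.Cell.le_def.1 hvq.le (bv_mem v)
    obtain ⟨a, b, hab, e1, e2, ha0, hb0, ha, hb⟩ := T.edge_eq q.pt_mem hq'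
    have hset := q.set_eq
    have hne' : bv v ≠ bv q := by
      intro h'
      apply hne
      apply Tiling.Cell.ext
      show v.set = (bc q).set
      rw [bc_set, vertex_set hv0, ← hbvv, h']
    have hends : segment ℝ (bv v) (bv q) = q.set := by
      rw [hset] at hvm ⊢
      have hqm := bv_mem q
      rw [hset] at hqm
      rcases T.vertex_of_edge q.pt_mem hq' e1 hvm (bv_dim v) with h5 | h5 <;>
        rcases T.vertex_of_edge q.pt_mem hq' e1 hqm (bv_dim q) with h6 | h6
      · exact absurd (h5.trans h6.symm) hne'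
      · rw [h5, h6, e1]
      · rw [h5, h6, e1, segment_symm]
      · exact absurd (h5.trans h6.symm) hne'
    have h1 := nl_xl h q x q.pt (by rw [hset]; exact T.self_mem_cc _) hq' (bv v)
      (by rw [← hset]; exact hvm) (bv q) (by rw [← hset]; exact bv_mem q)
      (not_pts_of_dim (bv_dim v)) (not_pts_of_dim (bv_dim q))
    rw [nl_bv, add_zero, hends] at h1
    show nl h q x (bv v) = 1
    rw [h1]
    obtain ⟨w, hw⟩ := pts_ne (h := h) x
    have h2 : pts h q x = {w} := by
      ext u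
      rw [Finset.mem_singleton]
      exact ⟨fun hu => pts_edge hq' x hu hw, fun hu => hu ▸ hw⟩
    unfold nQ
    rw [h2, Finset.sum_singleton, if_pos]
    rw [h2] at hw
    exact (mem_pts.1 (h2 ▸ hw : w ∈ pts h q x)).1.2.1

end Crest.Agent.R096.Cm_117
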