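import Crest.Agent.R096.Cp2_298
import Crest.Agent.R096.Seq3_213
import Crest.Agent.R096.Cp4_298

-- ▼ part R096/Cp3_298
section

/-!
# R096 / COPY, part 3 (helper298): the state of the copies has the invariant of the sequence
-/

set_option autoImplicit false

namespace Crest.Agent.R096.Cp_298
open Crest.Agent.R096.St_147 Crest.Agent.R096.Seq_213

variable {ι Φ W J C K : Type} {M : MeshC ι Φ W} {fam : J → C}
variable {O : Ori M} {s : GSt M fam} {σ : W → ZMod 2} {r : C → ℕ} {R : W → W → Prop}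
variable {hσ : TS s O σ} {hr : ∀ c, 0 < r c} {π : Par M O s.P (num s r) R}


theorem cp_mem {w : W} {l : ℕ} (hw : w ∈ s.P) (hl : l < num s r w) :
    place σ π w l ∈ (cp s σ hσ hr π).P := place_mem π hw hl

theorem cp_cases {x : W} (hx : x ∈ (cp s σ hσ hr π).P) :
    ∃ w ∈ s.P, ∃ l < num s r w, x = place σ π w l := hx

theorem cp_at {F : Φ} {w : W} {l : ℕ} (hw : w ∈ s.P) (hl : l < num s r w) :
    (cp s σ hσ hr π).At F (place σ π w l) ↔ s.At F w := by
  constructor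
  · rintro ⟨_, h⟩
    exact ⟨hw, (place_on π F hw hl).1 h⟩
  · rintro ⟨_, h⟩
    exact ⟨place_mem π hw hl, (place_on π F hw hl).2 h⟩

theorem cp_mu {F : Φ} {w : W} {l : ℕ} (hw : s.At F w) (hl : l < num s r w) :
    (cp s σ hσ hr π).mu F (place σ π w l) = place σ π (s.mu F w) l := by
  classical
  show (if place σ π w l ∈ cpP σ π ∧ place σ π w l ∈ M.On F then _ else _) = _
  rw [if_pos ⟨place_mem π hw.1 hl, (place_on π F hw.1 hl).2 hw.2⟩, base_place π hw.1 hl,
    idx_place π hw.1 hl]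

theorem cp_lab {w : W} {l : ℕ} (hw : w ∈ s.P) (hl : l < num s r w) :
    (cp s σ hσ hr π).lab (place σ π w l) = ⟨s.lab w, ⟨l, hl⟩⟩ := by
  refine nm_ext ?_ ?_
  · show s.lab (base σ π (place σ π w l)) = s.lab w
    rw [base_place π hw hl]
  · show idx σ π (place σ π w l) = l
    rw [idx_place π hw hl]

theorem cp_lab_fst {w : W} {l : ℕ} (hw : w ∈ s.P) (hl : l < num s r w) :
    ((cp s σ hσ hr π).lab (place σ π w l)).1 = s.lab w := by
  rw [cp_lab hw hl]

/-- a point of the copy with a given name -/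
theorem cp_named {x : W} {j' : Nm' fam r} (hx : x ∈ (cp s σ hσ hr π).P)
    (hl : (cp s σ hσ hr π).lab x = j') :
    ∃ w ∈ s.P, s.lab w = j'.1 ∧ (j'.2 : ℕ) < num s r w ∧ x = place σ π w j'.2 := by
  obtain ⟨w, hw, l, hlt, rfl⟩ := hx
  rw [cp_lab hw hlt] at hl
  subst hl
  exact ⟨w, hw, rfl, hlt, rfl⟩

theorem num_of_lab {w : W} {j' : Nm' fam r} (h : s.lab w = j'.1) :
    (j'.2 : ℕ) < num s r w := by
  unfold num; rw [h]; exact j'.2.2

theorem cp_lab_of {w : W} {j' : Nm' fam r} (hw : w ∈ s.P) (h : s.lab w = j'.1) :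
    (cp s σ hσ hr π).lab (place σ π w j'.2) = j' := by
  rw [cp_lab hw (num_of_lab h)]
  exact nm_ext h rfl

/-- `H¹ = 0` for the copies -/
theorem cp_H1 {j' : Nm' fam r} (h : s.H1 j'.1) : (cp s σ hσ hr π).H1 j' := by
  intro κ hκ
  obtain ⟨Ψ, hΨ⟩ := h (fun F w => κ F (place σ π w j'.2)) (by
    intro q
    obtain ⟨ψ, hψ⟩ := hκ q
    refine ⟨fun w => ψ (place σ π w j'.2), fun F w hq hw hl => ?_⟩
    have hlt := num_of_lab hl
    have := hψ F (place σ π w j'.2) hq ((cp_at hw.1 hlt).2 hw) (cp_lab_of hw.1 hl)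
    rw [cp_mu hw hlt] at this
    exact this)
  refine ⟨fun x => Ψ (base σ π x), fun F x hx hl => ?_⟩
  obtain ⟨w, hw, hlw, hlt, rfl⟩ := cp_named hx.1 hl
  have hat := (cp_at hw hlt).1 hx
  have hltm : (j'.2 : ℕ) < num s r (s.mu F w) := by rw [num_mu hat]; exact hlt
  rw [cp_mu hat hlt]
  show κ F (place σ π w j'.2) = Ψ (base σ π (place σ π w j'.2)) +
    Ψ (base σ π (place σ π (s.mu F w) j'.2))
  rw [base_place π hw hlt, base_place π (mu_at hat).1 hltm]
  exact hΨ F w hat hlw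

/-- the copies are connected -/
theorem cp_Conn {j' : Nm' fam r} (h : s.Conn j'.1) : (cp s σ hσ hr π).Conn j' := by
  obtain ⟨⟨w0, hw0, hl0⟩, hc⟩ := h
  refine ⟨⟨place σ π w0 j'.2, cp_mem hw0 (num_of_lab hl0), cp_lab_of hw0 hl0⟩, ?_⟩
  intro X hX x hxX hx hlx y hy hly
  obtain ⟨w, hw, hlw, hlt, rfl⟩ := cp_named hx hlx
  obtain ⟨v, hv, hlv, hlt', rfl⟩ := cp_named hy hly
  refine hc {w | place σ π w j'.2 ∈ X} ?_ w hxX hw hlw v hv hlv
  intro F u hu hat hlu
  have := hX F (place σ π u j'.2) hu ((cp_at hat.1 (num_of_lab hlu)).2 hat)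
    (cp_lab_of hat.1 hlu)
  rw [cp_mu hat (num_of_lab hlu)] at this
  exact this


/-- crossings of different families come from crossings -/
theorem cp_lace {F : Φ} {w v : W} {l l' : ℕ} (hw : s.At F w) (hv : s.At F v)
    (hl : l < num s r w) (hl' : l' < num s r v) (hne : s.lab v ≠ s.lab w) :
    M.Lace F (place σ π w l) ((cp s σ hσ hr π).mu F (place σ π w l)) (place σ π v l')
      ((cp s σ hσ hr π).mu F (place σ π v l')) ↔ M.Lace F w (s.mu F w) v (s.mu F v) := by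
  have hlm : l < num s r (s.mu F w) := by rw [num_mu hw]; exact hl
  have hlm' : l' < num s r (s.mu F v) := by rw [num_mu hv]; exact hl'
  have e1 := s.mu_lab hw.1 hw.2
  have e2 := s.mu_lab hv.1 hv.2
  rw [cp_mu hw hl, cp_mu hv hl']
  refine lace_iff π hw (mu_at hw) hv (mu_at hv) hl hlm hl' hlm' ?_ ?_ ?_ ?_
  · intro e; exact hne (by rw [e])
  · intro e; exact hne (by rw [← e1, ← e])
  · intro e; exact hne (by rw [← e2, e])
  · intro e; exact hne (by rw [← e1, ← e, e2])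

theorem cp_free {Q : Quads ι C K} {k : K} {F : Φ} {w : W} {l : ℕ} (hw : s.At F w)
    (hl : l < num s r w) :
    (cp s σ hσ hr π).Free Q k F (place σ π w l) ↔ s.Free Q k F w := by
  constructor
  · intro h v hv hin hne hla
    have hl' : 0 < num s r v := hr _
    refine h (place σ π v 0) ((cp_at hv.1 hl').2 hv) ?_ ?_ ?_
    · simp only [fam', cp_lab_fst hv.1 hl']; exact hin
    · simp only [fam', cp_lab_fst hv.1 hl', cp_lab_fst hw.1 hl]; exact hne
    · exact (cp_lace hw hv hl hl' (fun e => hne (by rw [e]))).2 hla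
  · intro h x hx hin hne hla
    obtain ⟨v, hv, l', hl', rfl⟩ := cp_cases hx.1
    have hat := (cp_at hv hl').1 hx
    simp only [fam', cp_lab_fst hv hl'] at hin
    simp only [fam', cp_lab_fst hv hl', cp_lab_fst hw.1 hl] at hne
    exact h v hat hin hne ((cp_lace hw hat hl hl' (fun e => hne (by rw [e]))).1 hla)

theorem cp_OK {Q : Quads ι C K} {F : Φ} {w : W} {l : ℕ} (hw : s.At F w)
    (hl : l < num s r w) :
    (cp s σ hσ hr π).OK Q F (place σ π w l) ↔ s.OK Q F w := by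
  unfold GSt.OK
  simp only [fam', cp_lab_fst hw.1 hl, cp_free hw hl]

/-- the marked points of the copies -/
def cpFar (σ : W → ZMod 2) (π : Par M O s.P (num s r) R) (far : J → Set W) :
    Nm' fam r → Set W := fun j' => {x | ∃ w ∈ far j'.1, x = place σ π w j'.2}

/-- **the invariant of the copies** -/
theorem cp_Inv {Q : Quads ι C K} {far : J → Set W} (h : s.Inv Q far) :
    (cp s σ hσ hr π).Inv Q (cpFar σ π far) := by
  constructor
  · intro j'; exact cp_H1 (h.h1 j'.1)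
  · intro j'; exact cp_Conn (h.conn j'.1)
  · rintro j' x ⟨w, hw, rfl⟩
    obtain ⟨h1, h2⟩ := h.far_mem hw
    exact ⟨cp_mem h1 (num_of_lab h2), cp_lab_of h1 h2⟩
  · intro j'
    obtain ⟨w, hw⟩ := h.far_ne j'.1
    exact ⟨_, w, hw, rfl⟩
  · intro k F x hx hin
    obtain ⟨w, hw, l, hl, rfl⟩ := cp_cases hx.1
    simp only [fam', cp_lab_fst hw hl]
    exact h.only ((cp_at hw hl).1 hx) hin
  · intro x hx
    obtain ⟨w, hw, l, hl, rfl⟩ := cp_cases hx
    rcases h.loc hw with h1 | ⟨k, h1, h2⟩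
    · left
      rw [cp_lab hw hl]
      exact ⟨w, h1, rfl⟩
    · right
      refine ⟨k, ?_, ?_, ?_⟩
      · simp only [fam', cp_lab_fst hw hl]; exact h1
      · obtain ⟨F, hF⟩ := h2.1
        exact ⟨F, (place_on π F hw hl).2 hF⟩
      · intro F hF
        exact h2.2 F ((place_on π F hw hl).1 hF)
  · intro j' X hX x hxX hx y hy
    obtain ⟨w, hw, rfl⟩ := hx
    obtain ⟨v, hv, rfl⟩ := hy
    refine h.gc j'.1 {w | place σ π w j'.2 ∈ X} ?_ w hxX hw hv
    intro F u hu hfu hat hmu hOK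
    have hlu := (h.far_mem hfu).2
    have hlt := num_of_lab hlu
    have := hX F (place σ π u j'.2) hu ⟨u, hfu, rfl⟩ ((cp_at hat.1 hlt).2 hat) (by
      rw [cp_mu hat hlt]
      exact ⟨_, hmu, rfl⟩) ((cp_OK hat hlt).2 hOK)
    rw [cp_mu hat hlt] at this
    exact this


end Crest.Agent.R096.Cp_298
end

-- ▼ part R096/Seq4_213
section

/-!
# R096 / SEQ, part 4: the limit of the sequence and the main theorem `GSt.seq`
-/

set_option autoImplicit false

namespace Crest.Agent.R096.Seq_213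
open Crest.Agent.R096.St_147 Crest.Agent.R096.St_147.St

variable {ι Φ W J C K : Type} {M : MeshC ι Φ W} {fam : J → C}

namespace GSt

/-- the family `c` is the same in both states -/
def Same (c : C) (s s' : GSt M fam) : Prop :=
  (∀ w, (w ∈ s.P ∧ fam (s.lab w) = c) ↔ (w ∈ s'.P ∧ fam (s'.lab w) = c)) ∧
  (∀ w, w ∈ s.P → fam (s.lab w) = c → s'.lab w = s.lab w ∧ ∀ F, s'.mu F w = s.mu F w)

theorem Same.refl (c : C) (s : GSt M fam) : Same c s s :=
  ⟨fun _ => Iff.rfl, fun _ _ _ => ⟨rfl, fun _ => rfl⟩⟩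

theorem Same.symm {c : C} {s s' : GSt M fam} (h : Same c s s') : Same c s' s := by
  refine ⟨fun w => (h.1 w).symm, fun w hw hc => ?_⟩
  obtain ⟨h1, h2⟩ := (h.1 w).2 ⟨hw, hc⟩
  obtain ⟨h3, h4⟩ := h.2 w h1 h2
  exact ⟨h3.symm, fun F => (h4 F).symm⟩

theorem Same.trans {c : C} {s s' s'' : GSt M fam} (h : Same c s s') (h' : Same c s' s'') :
    Same c s s'' := by
  refine ⟨fun w => (h.1 w).trans (h'.1 w), fun w hw hc => ?_⟩
  obtain ⟨h3, h4⟩ := h.2 w hw hc
  obtain ⟨h5, h6⟩ := (h.1 w).1 ⟨hw, hc⟩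
  obtain ⟨h7, h8⟩ := h'.2 w h5 h6
  exact ⟨h7.trans h3, fun F => (h8 F).trans (h4 F)⟩

theorem Same.mem {c : C} {s s' : GSt M fam} (h : Same c s s') {w : W} (hw : w ∈ s.P)
    (hc : fam (s.lab w) = c) : w ∈ s'.P ∧ s'.lab w = s.lab w ∧ ∀ F, s'.mu F w = s.mu F w :=
  ⟨((h.1 w).1 ⟨hw, hc⟩).1, (h.2 w hw hc).1, (h.2 w hw hc).2⟩

theorem Same.h1 {j : J} {s s' : GSt M fam} (h : Same (fam j) s s') (hs : s.H1 j) : s'.H1 j := by
  intro κ hκ
  obtain ⟨Ψ, hΨ⟩ := hs κ (fun q => by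
    obtain ⟨ψ, hψ⟩ := hκ q
    refine ⟨ψ, fun F w hq hw hl => ?_⟩
    obtain ⟨h1, h2, h3⟩ := h.mem hw.1 (by rw [hl])
    rw [← h3]
    exact hψ F w hq ⟨h1, hw.2⟩ (h2.trans hl))
  refine ⟨Ψ, fun F w hw hl => ?_⟩
  obtain ⟨h1, h2, h3⟩ := h.symm.mem hw.1 (by rw [hl])
  rw [← h3]
  exact hΨ F w ⟨h1, hw.2⟩ (h2.trans hl)

theorem Same.conn {j : J} {s s' : GSt M fam} (h : Same (fam j) s s') (hs : s.Conn j) :
    s'.Conn j := by
  obtain ⟨⟨w, hw, hl⟩, hc⟩ := hs
  obtain ⟨h1, h2, _⟩ := h.mem hw (by rw [hl])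
  refine ⟨⟨w, h1, h2.trans hl⟩, ?_⟩
  intro X hX a ha haP hal b hbP hbl
  obtain ⟨a1, a2, _⟩ := h.symm.mem haP (by rw [hal])
  obtain ⟨b1, b2, _⟩ := h.symm.mem hbP (by rw [hbl])
  refine hc X ?_ a ha a1 (a2.trans hal) b b1 (b2.trans hbl)
  intro F u hu hat hul
  obtain ⟨u1, u2, u3⟩ := h.mem hat.1 (by rw [hul])
  have := hX F u hu ⟨u1, hat.2⟩ (u2.trans hul)
  rw [u3] at this
  exact this

theorem OK_same {Q : Quads ι C K} {s s' : GSt M fam} {F : Φ} {u : W} (hu : s.At F u)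
    (hc : Same (fam (s.lab u)) s s')
    (h : ∀ k, Q.In k (fam (s.lab u)) → ∀ b, Same (Q.pr k b) s s') (hok : s.OK Q F u) :
    s'.OK Q F u := by
  obtain ⟨_, h2, h3⟩ := hc.mem hu.1 rfl
  intro k hk hF x hx hxin hne
  rw [h2] at hk hne
  obtain ⟨b, hb⟩ := hxin
  obtain ⟨x1, x2, x3⟩ := (h k hk b).symm.mem hx.1 hb.symm
  rw [h3, ← x3]
  rw [← x2] at hne
  exact hok k hk hF x ⟨x1, hx.2⟩ ⟨b, by rw [x2]; exact hb⟩ hne

theorem agr_same {Q : Quads ι C K} {s s' : GSt M fam} {k : K} (i : Q.Nm fam k)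
    (h : ∀ b, Same (Q.pr k b) s s') (A : Set ι) : Agr (s.res Q k i) (s'.res Q k i) A := by
  intro F _ w
  constructor
  · rw [res_at, res_at]
    constructor
    · rintro ⟨h1, b, hb⟩
      obtain ⟨h3, h4, _⟩ := (h b).mem h1.1 hb.symm
      exact ⟨⟨h3, h1.2⟩, b, by rw [h4]; exact hb⟩
    · rintro ⟨h1, b, hb⟩
      obtain ⟨h3, h4, _⟩ := (h b).symm.mem h1.1 hb.symm
      exact ⟨⟨h3, h1.2⟩, b, by rw [h4]; exact hb⟩
  · intro hw
    obtain ⟨h1, h2⟩ := res_at.1 hw
    obtain ⟨b, hb⟩ := h2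
    obtain ⟨h3, h4, h5⟩ := (h b).mem h1.1 hb.symm
    refine ⟨by rw [res_mu, res_mu, h5], ?_⟩
    rw [res_lab ⟨b, hb⟩]
    symm
    rw [res_lab_iff (by rw [h4]; exact ⟨b, hb⟩)]
    exact h4

/-! ### the limit of a sequence in which every family changes only finitely often -/
section lim
variable (S : ℕ → GSt M fam) (N : C → ℕ)

theorem same_le (hS : ∀ c n, N c ≤ n → Same c (S n) (S (n + 1))) {c : C} {n m : ℕ}
    (h1 : N c ≤ n) (h2 : n ≤ m) : Same c (S n) (S m) := by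
  induction m, h2 using Nat.le_induction with
  | base => exact Same.refl _ _
  | succ m hm ih => exact ih.trans (hS c m (h1.trans hm))

theorem same_any (hS : ∀ c n, N c ≤ n → Same c (S n) (S (n + 1))) {c : C} {n m : ℕ}
    (h1 : N c ≤ n) (h2 : N c ≤ m) : Same c (S n) (S m) := by
  rcases le_total n m with h | h
  · exact same_le S N hS h1 h
  · exact (same_le S N hS h2 h).symm

/-- points of the limit -/
def LP : Set W := {w | ∃ c, w ∈ (S (N c)).P ∧ fam ((S (N c)).lab w) = c}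

open Classical in
/-- the stage from which on the point `w` does not change -/
noncomputable def stg (w : W) : ℕ :=
  if h : ∃ c, w ∈ (S (N c)).P ∧ fam ((S (N c)).lab w) = c then N (Classical.choose h) else 0

theorem stg_spec (hS : ∀ c n, N c ≤ n → Same c (S n) (S (n + 1))) {c : C} {n : ℕ} {w : W}
    (hn : N c ≤ n) (hw : w ∈ (S n).P) (hc : fam ((S n).lab w) = c) :
    w ∈ LP S N ∧ (S (stg S N w)).lab w = (S n).lab w ∧
      ∀ F, (S (stg S N w)).mu F w = (S n).mu F w := by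
  obtain ⟨h1, h2, _⟩ := (same_any S N hS hn le_rfl).mem hw hc
  have hex : ∃ c, w ∈ (S (N c)).P ∧ fam ((S (N c)).lab w) = c := ⟨c, h1, by rw [h2, hc]⟩
  refine ⟨hex, ?_⟩
  obtain ⟨h4, h5⟩ := Classical.choose_spec hex
  have hstg : stg S N w = N (Classical.choose hex) := dif_pos hex
  obtain ⟨_, a2, a3⟩ := (same_any S N hS hn
    (hn.trans (le_max_left n (N (Classical.choose hex))))).mem hw hc
  obtain ⟨_, b2, b3⟩ := (same_any S N hS le_rfl
    (le_max_right n (N (Classical.choose hex)))).mem h4 h5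
  rw [hstg]
  exact ⟨b2.symm.trans a2, fun F => (b3 F).symm.trans (a3 F)⟩

theorem LP_spec (hS : ∀ c n, N c ≤ n → Same c (S n) (S (n + 1))) {w : W} (hw : w ∈ LP S N) :
    ∃ c, ∀ n, N c ≤ n → w ∈ (S n).P ∧ fam ((S n).lab w) = c ∧
      (S (stg S N w)).lab w = (S n).lab w ∧ ∀ F, (S (stg S N w)).mu F w = (S n).mu F w := by
  obtain ⟨c, h1, h2⟩ := hw
  refine ⟨c, fun n hn => ?_⟩
  obtain ⟨a1, a2, _⟩ := (same_any S N hS le_rfl hn).mem h1 h2
  have h3 : fam ((S n).lab w) = c := by rw [a2, h2]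
  obtain ⟨_, b2, b3⟩ := stg_spec S N hS hn a1 h3
  exact ⟨a1, h3, b2, b3⟩

/-- the limit -/
noncomputable def lim (hS : ∀ c n, N c ≤ n → Same c (S n) (S (n + 1))) : GSt M fam where
  P := LP S N
  lab := fun w => (S (stg S N w)).lab w
  mu := fun F w => (S (stg S N w)).mu F w
  mu_mem := by
    intro F w hw hF
    obtain ⟨c, hc⟩ := LP_spec S N hS hw
    obtain ⟨h1, h2, _, h4⟩ := hc (N c) le_rfl
    have h5 := (S (N c)).mu_mem h1 hF
    have h6 := stg_spec S N hS le_rfl h5.1 (by rw [(S (N c)).mu_lab h1 hF, h2])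
    simp only [h4]
    exact ⟨h6.1, h5.2⟩
  mu_ne := by
    intro F w hw hF
    obtain ⟨c, hc⟩ := LP_spec S N hS hw
    obtain ⟨h1, h2, _, h4⟩ := hc (N c) le_rfl
    simp only [h4]
    exact (S (N c)).mu_ne h1 hF
  mu_mu := by
    intro F w hw hF
    obtain ⟨c, hc⟩ := LP_spec S N hS hw
    obtain ⟨h1, h2, _, h4⟩ := hc (N c) le_rfl
    have h5 := (S (N c)).mu_mem h1 hF
    have h6 := stg_spec S N hS le_rfl h5.1 (by rw [(S (N c)).mu_lab h1 hF, h2])
    simp only [h4, h6.2.2]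
    exact (S (N c)).mu_mu h1 hF
  mu_lab := by
    intro F w hw hF
    obtain ⟨c, hc⟩ := LP_spec S N hS hw
    obtain ⟨h1, h2, h3, h4⟩ := hc (N c) le_rfl
    have h5 := (S (N c)).mu_mem h1 hF
    have h6 := stg_spec S N hS le_rfl h5.1 (by rw [(S (N c)).mu_lab h1 hF, h2])
    simp only [h4, h6.2.1, h3]
    exact (S (N c)).mu_lab h1 hF
  nc := by
    intro F w x hw hF hx hF' hc hne hne'
    obtain ⟨c, hcw⟩ := LP_spec S N hS hw
    obtain ⟨d, hdx⟩ := LP_spec S N hS hx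
    obtain ⟨h1, h2, h3, h4⟩ := hcw (N c) le_rfl
    obtain ⟨k1, k2, k3, k4⟩ := hdx (N d) le_rfl
    have hcd : c = d := by
      rw [← h2, ← k2, ← h3, ← k3]; exact hc
    subst hcd
    simp only [h4] at hne' ⊢
    simp only [k4]
    exact (S (N c)).nc h1 hF k1 hF' (h2.trans k2.symm) hne hne'
  fin := by
    intro c
    refine ((S (N c)).fin c).subset ?_
    rintro w ⟨hw, hc⟩
    obtain ⟨d, hd⟩ := LP_spec S N hS hw
    obtain ⟨h1, h2, h3, _⟩ := hd (N d) le_rfl
    have hcd : d = c := by rw [← h2, ← h3]; exact hc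
    subst hcd
    exact ⟨h1, h2⟩

theorem lim_same (hS : ∀ c n, N c ≤ n → Same c (S n) (S (n + 1))) {c : C} {n : ℕ}
    (hn : N c ≤ n) : Same c (S n) (lim S N hS) := by
  constructor
  · intro w
    constructor
    · rintro ⟨h1, h2⟩
      obtain ⟨h3, h4, _⟩ := stg_spec S N hS hn h1 h2
      exact ⟨h3, by show fam ((S (stg S N w)).lab w) = c; rw [h4, h2]⟩
    · rintro ⟨h1, h2⟩
      obtain ⟨d, hd⟩ := LP_spec S N hS h1
      have hdc : d = c := by
        obtain ⟨_, h4, h5, _⟩ := hd (N d) le_rfl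
        rw [← h4, ← h5]; exact h2
      subst hdc
      obtain ⟨h3, h4, _⟩ := hd n hn
      exact ⟨h3, h4⟩
  · intro w h1 h2
    exact (stg_spec S N hS hn h1 h2).2


end lim

/-! ### the sequence -/

/-- one step of the sequence: the quad number `n` -/
structure Nxt (Q : Quads ι C K) (far : J → Set W) (enc : K → ℕ) (n : ℕ) (s s' : GSt M fam) :
    Prop where
  pos : ∀ k, enc k = n → ∀ _ : Q.Nm fam k, Step Q far k s s' ∧
    ∀ i1, NoClosed (s'.res Q k i1) (Q.Act k)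
  neg : (∀ k, enc k = n → IsEmpty (Q.Nm fam k)) → s' = s


section Nxt
variable {Q : Quads ι C K} {far : J → Set W} {enc : K → ℕ} {n : ℕ} {s s' : GSt M fam}

theorem Nxt.cases (h : Nxt Q far enc n s s') : (∃ k, enc k = n ∧ Step Q far k s s') ∨ s' = s := by
  by_cases hh : ∃ k, enc k = n ∧ Nonempty (Q.Nm fam k)
  · obtain ⟨k, hk, ⟨i0⟩⟩ := hh
    exact Or.inl ⟨k, hk, (h.pos k hk i0).1⟩
  · exact Or.inr (h.neg (fun k hk => not_nonempty_iff.1 (fun h' => hh ⟨k, hk, h'⟩)))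

theorem Nxt.sub (h : Nxt Q far enc n s s') : s'.P ⊆ s.P := by
  rcases h.cases with ⟨k, _, hs⟩ | rfl
  · exact hs.P_sub
  · exact le_rfl

theorem Nxt.same (h : Nxt Q far enc n s s') {c : C} (hc : ∀ k, enc k = n → ¬ Q.In k c) :
    Same c s s' := by
  rcases h.cases with ⟨k, hk, hs⟩ | rfl
  · have hkc := hc k hk
    refine ⟨fun w => ⟨?_, ?_⟩, ?_⟩
    · rintro ⟨h1, h2⟩
      obtain ⟨h3, h4, _⟩ := hs.off h1 (by rw [h2]; exact hkc)
      exact ⟨h3, by rw [h4, h2]⟩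
    · rintro ⟨h1, h2⟩
      have h3 : ¬ Q.In k (fam (s.lab w)) := by rw [← hs.inn h1, h2]; exact hkc
      obtain ⟨_, h4, _⟩ := hs.off (hs.P_sub h1) h3
      exact ⟨hs.P_sub h1, by rw [← h4, h2]⟩
    · intro w h1 h2
      obtain ⟨_, h4, h5⟩ := hs.off h1 (by rw [h2]; exact hkc)
      exact ⟨h4, h5⟩
  · exact Same.refl _ _

theorem Nxt.frozen (h : Nxt Q far enc n s s') {F : Φ} {w : W}
    (hF : ∀ k, Frozen M (Q.Act k) F) (hw : w ∈ M.On F) : (w ∈ s'.P ↔ w ∈ s.P) ∧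
    (w ∈ s.P → s'.lab w = s.lab w ∧ s'.mu F w = s.mu F w) := by
  rcases h.cases with ⟨k, _, hs⟩ | rfl
  · exact hs.frozen (hF k) hw
  · exact ⟨Iff.rfl, fun _ => ⟨rfl, rfl⟩⟩

theorem Nxt.cross (h : Nxt Q far enc n s s') {F : Φ} {w x : W} (hw : s'.At F w)
    (hx : s'.At F x) (hne : fam (s'.lab w) ≠ fam (s'.lab x))
    (hl : M.Lace F w (s'.mu F w) x (s'.mu F x)) : ∃ w' x', s.At F w' ∧ s.At F x' ∧
      s.lab w' = s'.lab w ∧ s.lab x' = s'.lab x ∧ M.Lace F w' (s.mu F w') x' (s.mu F x') := by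
  rcases h.cases with ⟨k, _, hs⟩ | rfl
  · exact hs.cross hw hx hne hl
  · exact ⟨w, x, hw, hx, rfl, rfl, hl⟩

theorem Nxt.ok (h : Nxt Q far enc n s s') {F : Φ} {u : W} (hu : s.At F u)
    (h1 : u ∈ far (s.lab u)) (h2 : s.mu F u ∈ far (s.lab u)) (h3 : s.OK Q F u) :
    s'.mu F u = s.mu F u ∧ s'.OK Q F u := by
  rcases h.cases with ⟨k, _, hs⟩ | rfl
  · exact hs.ok hu h1 h2 h3
  · exact ⟨rfl, h3⟩

theorem Nxt.noClosed (h : Nxt Q far enc n s s') {l : K} (hl : enc l ≠ n) {i : Q.Nm fam l}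
    (hs : NoClosed (s.res Q l i) (Q.Act l)) : NoClosed (s'.res Q l i) (Q.Act l) := by
  rcases h.cases with ⟨k, hk, hst⟩ | rfl
  · exact hst.noClosed (fun e => hl (by rw [e, hk])) hs
  · exact hs

end Nxt


end GSt

end Crest.Agent.R096.Seq_213
end

-- ▼ part R096/Cp5_298
section

/-!
# R096 / COPY, part 5 (helper298): copies have no closed double curves; renaming of sheets
-/

set_option autoImplicit false

namespace Crest.Agent.R096.Cp_298
open Crest.Agent.R096.St_147 Crest.Agent.R096.Seq_213 Crest.Agent.R096.Seq_213.GSt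

variable {ι Φ W J C K : Type} {M : MeshC ι Φ W} {fam : J → C}

section copy

variable {O : Ori M} {s : GSt M fam} {σ : W → ZMod 2} {r : C → ℕ} {R : W → W → Prop}
variable {hσ : TS s O σ} {hr : ∀ c, 0 < r c} {π : Par M O s.P (num s r) R}

/-- the section of the copies with the numbers `ℓ` -/
noncomputable def secE (Q : Quads ι C K) (k : K) (i : Q.Nm fam k)
    (i' : Q.Nm (fam' fam r) k) (ℓ : ∀ j : J, Fin (r (fam j))) :
    Emb (s.res Q k i) ((cp s σ hσ hr π).res Q k i') where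
  pt := fun w => place σ π w (ℓ (s.lab w))
  nu := fun j => ⟨⟨j.1, ℓ j.1⟩, j.2⟩
  mem := by
    intro w hw
    obtain ⟨h1, h2⟩ := mem_res.1 hw
    have hl : ((ℓ (s.lab w)) : ℕ) < num s r w := (ℓ (s.lab w)).2
    refine mem_res.2 ⟨cp_mem h1 hl, ?_⟩
    simp only [fam', cp_lab_fst h1 hl]; exact h2
  on := by
    intro w F hw
    obtain ⟨h1, _⟩ := mem_res.1 hw
    exact place_on π F h1 (ℓ (s.lab w)).2
  inj := by
    intro w v hw hv h
    obtain ⟨h1, _⟩ := mem_res.1 hw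
    obtain ⟨h2, _⟩ := mem_res.1 hv
    exact (place_inj π h1 h2 (ℓ (s.lab w)).2 (ℓ (s.lab v)).2 h).1
  mu := by
    intro F w hw
    obtain ⟨h1, _⟩ := res_at.1 hw
    have hl : ((ℓ (s.lab w)) : ℕ) < num s r w := (ℓ (s.lab w)).2
    simp only [res_mu]
    rw [cp_mu h1 hl, s.mu_lab h1.1 h1.2]
  lab := by
    intro w hw
    obtain ⟨h1, h2⟩ := mem_res.1 hw
    have hl : ((ℓ (s.lab w)) : ℕ) < num s r w := (ℓ (s.lab w)).2
    have h3 : (cp s σ hσ hr π).lab (place σ π w (ℓ (s.lab w))) = ⟨s.lab w, ℓ (s.lab w)⟩ :=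
      cp_lab h1 hl
    have h4 : Q.In k (fam' fam r ((cp s σ hσ hr π).lab (place σ π w (ℓ (s.lab w))))) := by
      rw [h3]; exact h2
    rw [res_lab h4, res_lab h2]
    exact Subtype.ext h3
  col_eq := by
    intro j
    rfl
  surj := by
    rintro x hx ⟨j, hj⟩
    obtain ⟨h1, h2⟩ := mem_res.1 hx
    rw [res_lab h2] at hj
    have h3 : (cp s σ hσ hr π).lab x = ⟨j.1, ℓ j.1⟩ := congrArg Subtype.val hj
    obtain ⟨w, hw, hlw, hlt, he⟩ := cp_named h1 h3
    have hlw' : s.lab w = j.1 := hlw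
    refine ⟨w, mem_res.2 ⟨hw, by rw [hlw']; exact j.2⟩, ?_⟩
    have he' : x = place σ π w (ℓ j.1) := he
    rw [he', hlw']
  lt := by
    intro F w v hw hv h
    obtain ⟨h1, _⟩ := res_at.1 hw
    obtain ⟨h2, _⟩ := res_at.1 hv
    have hne : w ≠ v := by rintro rfl; exact lt_irrefl _ h
    exact (place_lt_iff π h1 h2 (ℓ (s.lab w)).2 (ℓ (s.lab v)).2 hne).2 h

/-- **copies have no closed double curve** -/
theorem cp_noClosed (Q : Quads ι C K) (k : K) (i : Q.Nm fam k) (i' : Q.Nm (fam' fam r) k)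
    {Act : Set ι} (h : NoClosed (s.res Q k i) Act) :
    NoClosed ((cp s σ hσ hr π).res Q k i') Act := by
  classical
  refine noClosed_of_emb (fun z' => ?_) h
  have hP : ∀ x, z'.e x ∈ (cp s σ hσ hr π).P ∧
      Q.In k (fam' fam r ((cp s σ hσ hr π).lab (z'.e x))) := fun x => mem_res.1 (z'.at_ x).1
  let jj : Bool → Nm' fam r := fun x => (cp s σ hσ hr π).lab (z'.e x)
  have hlab : ∀ x, ((cp s σ hσ hr π).res Q k i').lab (z'.e x) = ⟨jj x, (hP x).2⟩ := fun x =>
    res_lab (hP x).2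
  have hne : (jj true).1 ≠ (jj false).1 := by
    intro he
    have h1 := z'.colr true
    have h2 := z'.colr false
    rw [hlab] at h1 h2
    have h3 : Q.cl (fam' fam r) k ⟨jj true, (hP true).2⟩ =
        Q.cl (fam' fam r) k ⟨jj false, (hP false).2⟩ := by
      rw [Q.cl_eq_iff]
      show fam (jj true).1 = fam (jj false).1
      rw [he]
    rw [h1, h2] at h3
    exact absurd h3 (by decide)
  let ℓ : ∀ j : J, Fin (r (fam j)) := fun j =>
    if h : j = (jj true).1 then h ▸ (jj true).2 else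
      if h : j = (jj false).1 then h ▸ (jj false).2 else ⟨0, hr _⟩
  have hℓ : ∀ x, jj x = ⟨(jj x).1, ℓ (jj x).1⟩ := by
    intro x
    cases x with
    | true =>
      have : ℓ (jj true).1 = (jj true).2 := by
        show (if h : (jj true).1 = (jj true).1 then h ▸ (jj true).2 else _) = _
        rw [dif_pos rfl]
      rw [this]
    | false =>
      have : ℓ (jj false).1 = (jj false).2 := by
        show (if h : (jj false).1 = (jj true).1 then h ▸ (jj true).2 else _) = _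
        rw [dif_neg hne.symm, dif_pos rfl]
      rw [this]
  refine ⟨secE Q k i i' ℓ, (secE Q k i i' ℓ).T_surj (fun x => ?_)⟩
  refine ⟨⟨(jj x).1, (hP x).2⟩, ?_⟩
  rw [hlab]
  exact Subtype.ext (hℓ x)

end copy

/-! ### renaming of sheets -/

section push

variable {J' : Type} {fam1 : J' → C}

/-- renaming of the sheets along `ν` -/
def push (ν : J' → J) (hf : ∀ j', fam (ν j') = fam1 j') (s : GSt M fam1) : GSt M fam where
  P := s.P
  lab := fun w => ν (s.lab w)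
  mu := s.mu
  mu_mem := s.mu_mem
  mu_ne := s.mu_ne
  mu_mu := s.mu_mu
  mu_lab := fun hw hF => by rw [s.mu_lab hw hF]
  nc := by
    intro F w x hw hF hx hF' hc
    rw [hf, hf] at hc
    exact s.nc hw hF hx hF' hc
  fin := by
    intro c
    simp only [hf]
    exact s.fin c

variable {ν : J' → J} {hf : ∀ j', fam (ν j') = fam1 j'} {s : GSt M fam1}


theorem push_H1 (hν : Function.Injective ν) {j' : J'} :
    (push ν hf s).H1 (ν j') ↔ s.H1 j' := by
  unfold GSt.H1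
  have e : ∀ w, (push ν hf s).lab w = ν j' ↔ s.lab w = j' := fun w => hν.eq_iff
  simp only [e]
  exact Iff.rfl

theorem push_Conn (hν : Function.Injective ν) {j' : J'} :
    (push ν hf s).Conn (ν j') ↔ s.Conn j' := by
  unfold GSt.Conn
  have e : ∀ w, (push ν hf s).lab w = ν j' ↔ s.lab w = j' := fun w => hν.eq_iff
  simp only [e]
  exact Iff.rfl


theorem push_Free {Q : Quads ι C K} {k : K} {F : Φ} {w : W} :
    (push ν hf s).Free Q k F w ↔ s.Free Q k F w := by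
  have e : ∀ w, fam ((push ν hf s).lab w) = fam1 (s.lab w) := fun w => hf _
  unfold GSt.Free
  simp only [e]
  exact Iff.rfl

theorem push_OK {Q : Quads ι C K} {F : Φ} {w : W} :
    (push ν hf s).OK Q F w ↔ s.OK Q F w := by
  have e : ∀ w, fam ((push ν hf s).lab w) = fam1 (s.lab w) := fun w => hf _
  unfold GSt.OK
  simp only [push_Free, e]

/-- the invariant for the names in `A` -/
structure InvOn (s : GSt M fam) (Q : Quads ι C K) (far : J → Set W) (A : Set J) : Prop where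
  lab_mem : ∀ {w}, w ∈ s.P → s.lab w ∈ A
  h1 : ∀ j ∈ A, s.H1 j
  conn : ∀ j ∈ A, s.Conn j
  far_mem : ∀ {j w}, j ∈ A → w ∈ far j → w ∈ s.P ∧ s.lab w = j
  far_ne : ∀ j ∈ A, (far j).Nonempty
  only : ∀ {k F w}, s.At F w → Inner M (Q.Act k) F → Q.In k (fam (s.lab w))
  loc : ∀ {w}, w ∈ s.P → w ∈ far (s.lab w) ∨
    ∃ k, Q.In k (fam (s.lab w)) ∧ Int M (Q.Act k) w
  gc : ∀ j ∈ A, ∀ (X : Set W),
    (∀ F w, w ∈ X → w ∈ far j → s.At F w → s.mu F w ∈ far j → s.OK Q F w → s.mu F w ∈ X) →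
    ∀ w ∈ X, w ∈ far j → far j ⊆ X



/-- the renamed state contains the old one -/
noncomputable def pushE (ν : J' → J) (hf : ∀ j', fam (ν j') = fam1 j')
    (hν : Function.Injective ν) (s : GSt M fam1) (Q : Quads ι C K) (k : K)
    (i : Q.Nm fam1 k) (i' : Q.Nm fam k) :
    Emb (s.res Q k i) ((push ν hf s).res Q k i') where
  pt := id
  nu := fun j => ⟨ν j.1, by rw [hf]; exact j.2⟩
  mem := by
    intro w hw
    obtain ⟨h1, h2⟩ := mem_res.1 hw
    refine mem_res.2 ⟨h1, ?_⟩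
    show Q.In k (fam (ν (s.lab w)))
    rw [hf]; exact h2
  on := fun _ _ => Iff.rfl
  inj := fun _ _ h => h
  mu := fun _ => rfl
  lab := by
    intro w hw
    obtain ⟨h1, h2⟩ := mem_res.1 hw
    have h4 : Q.In k (fam ((push ν hf s).lab w)) := by
      show Q.In k (fam (ν (s.lab w)))
      rw [hf]; exact h2
    show ((push ν hf s).res Q k i').lab w = _
    rw [res_lab h4, res_lab h2]
    rfl
  col_eq := by
    intro j
    rw [Q.cl_iff]
    show fam (ν j.1) = _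
    rw [hf]
    exact (Q.cl_iff fam1 k j _).1 rfl
  surj := by
    rintro x hx ⟨j, hj⟩
    obtain ⟨h1, h2⟩ := mem_res.1 hx
    rw [res_lab h2] at hj
    have h3 : ν (s.lab x) = ν j.1 := congrArg Subtype.val hj
    refine ⟨x, mem_res.2 ⟨h1, ?_⟩, rfl⟩
    rw [hν h3]; exact j.2
  lt := fun _ _ h => h

theorem push_noClosed (hν : Function.Injective ν) {Q : Quads ι C K} {k : K} {i : Q.Nm fam1 k}
    {i' : Q.Nm fam k} {Act : Set ι} (h : NoClosed (s.res Q k i) Act) :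
    NoClosed ((push ν hf s).res Q k i') Act := by
  refine noClosed_of_emb (fun z' => ?_) h
  refine ⟨pushE ν hf hν s Q k i i', (pushE ν hf hν s Q k i i').T_surj (fun x => ?_)⟩
  obtain ⟨h1, h2⟩ := mem_res.1 (z'.at_ x).1
  have h2' : Q.In k (fam1 (s.lab (z'.e x))) := by
    rw [← hf]; exact h2
  refine ⟨⟨s.lab (z'.e x), h2'⟩, ?_⟩
  rw [res_lab h2]
  rfl

end push

/-! ### pulling back the names -/

section pull

variable {J' : Type} {fam1 : J' → C}

open Classical in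
/-- the state with its names in the range of `ν` -/
noncomputable def pull (ν : J' → J) (hf : ∀ j', fam (ν j') = fam1 j') (d : J → J')
    (s : GSt M fam) (hs : ∀ w ∈ s.P, s.lab w ∈ Set.range ν) : GSt M fam1 where
  P := s.P
  lab := fun w => if h : s.lab w ∈ Set.range ν then h.choose else d (s.lab w)
  mu := s.mu
  mu_mem := s.mu_mem
  mu_ne := s.mu_ne
  mu_mu := s.mu_mu
  mu_lab := fun hw hF => by simp only [s.mu_lab hw hF]
  nc := by
    intro F w x hw hF hx hF' hc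
    rw [dif_pos (hs w hw), dif_pos (hs x hx), ← hf, ← hf, (hs w hw).choose_spec,
      (hs x hx).choose_spec] at hc
    exact s.nc hw hF hx hF' hc
  fin := by
    intro c
    refine (s.fin c).subset ?_
    rintro w ⟨h1, h2⟩
    rw [dif_pos (hs w h1), ← hf, (hs w h1).choose_spec] at h2
    exact ⟨h1, h2⟩

variable {ν : J' → J} {hf : ∀ j', fam (ν j') = fam1 j'} {d : J → J'} {s : GSt M fam}
  {hs : ∀ w ∈ s.P, s.lab w ∈ Set.range ν}



end pull

end Crest.Agent.R096.Cp_298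
end

-- ▼ part R096/Cp6_298

/-!
# R096 / COPY, part 6 (helper298): the relation `Cps` between a state and a later state with copies

`p : J1 → J` original sheet, `m : J1 → ℕ` number of the copy, `β x` original crossing point.
-/

set_option autoImplicit false

namespace Crest.Agent.R096.Cp_298
open Crest.Agent.R096.St_147 Crest.Agent.R096.Seq_213 Crest.Agent.R096.Seq_213.GSt

variable {ι Φ W J C K : Type} {M : MeshC ι Φ W} {fam : J → C}
variable {J1 : Type} {fam1 : J1 → C}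

/-- the state `s` is obtained from `s₀` by copies and exchanges -/
structure Cps (O : Ori M) (Q : Quads ι C K) (Rel : W → W → Prop) (s₀ : GSt M fam)
    (far₀ : J → Set W) (σ₀ : W → ZMod 2) (p : J1 → J) (m : J1 → ℕ) (s : GSt M fam1)
    (far : J1 → Set W) (β : W → W) : Prop where
  mem : ∀ {x}, x ∈ s.P → β x ∈ s₀.P
  rel : ∀ {x}, x ∈ s.P → Rel x (β x)
  on : ∀ {x} (F : Φ), x ∈ s.P → (x ∈ M.On F ↔ β x ∈ M.On F)
  dir : ∀ {F x}, s.At F x → O.dir F x = O.dir F (β x)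
  lt : ∀ {F x y}, s.At F x → s.At F y → M.pos F (β x) < M.pos F (β y) → M.pos F x < M.pos F y
  far_mem : ∀ {j x}, x ∈ far j → β x ∈ far₀ (p j)
  far_ex : ∀ {j w}, w ∈ far₀ (p j) → ∃ x ∈ far j, β x = w
  far_uniq : ∀ {j x y}, x ∈ far j → y ∈ far j → β x = β y → x = y
  far_ord : ∀ {j j' x y F}, p j = p j' → m j < m j' → x ∈ far j → y ∈ far j' → β x = β y →
    x ∈ M.On F → (σ₀ (β x) + O.dir F (β x) = 0 → M.pos F x < M.pos F y) ∧
      (σ₀ (β x) + O.dir F (β x) = 1 → M.pos F y < M.pos F x)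
  ok : ∀ {j x F}, x ∈ far j → s₀.At F (β x) → s₀.mu F (β x) ∈ far₀ (p j) →
    s₀.OK Q F (β x) → β (s.mu F x) = s₀.mu F (β x) ∧ s.mu F x ∈ far j ∧ s.OK Q F x
  cross : ∀ {F x y}, s.At F x → s.At F y → fam1 (s.lab x) ≠ fam1 (s.lab y) →
    M.Lace F x (s.mu F x) y (s.mu F y) → ∃ w v, s₀.At F w ∧ s₀.At F v ∧
      s₀.lab w = p (s.lab x) ∧ s₀.lab v = p (s.lab y) ∧ M.Lace F w (s₀.mu F w) v (s₀.mu F v)

section
variable {O : Ori M} {Q : Quads ι C K} {Rel : W → W → Prop} {s₀ : GSt M fam}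
  {far₀ : J → Set W} {σ₀ : W → ZMod 2} {p : J1 → J} {m : J1 → ℕ} {s : GSt M fam1}
  {far : J1 → Set W} {β : W → W}

/-- the beginning -/
theorem Cps.refl (hrel : ∀ x, Rel x x) (hI : s₀.Inv Q far₀) :
    Cps O Q Rel s₀ far₀ σ₀ (id : J → J) (fun _ => 0) s₀ far₀ id where
  mem := fun h => h
  rel := fun _ => hrel _
  on := fun _ _ => Iff.rfl
  dir := fun _ => rfl
  lt := fun _ _ h => h
  far_mem := fun h => h
  far_ex := fun h => ⟨_, h, rfl⟩
  far_uniq := fun _ _ h => h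
  far_ord := fun _ h => absurd h (lt_irrefl _)
  ok := fun _ _ h2 h3 => ⟨rfl, h2, h3⟩
  cross := fun hx hy _ hl => ⟨_, _, hx, hy, rfl, rfl, hl⟩

/-- names of points and of their originals -/
theorem Cps.nm (h : Cps O Q Rel s₀ far₀ σ₀ p m s far β) (hp : ∀ j, fam (p j) = fam1 j)
    (h₀ : s₀.Inv Q far₀) (hI : s.Inv Q far) {x : W} (hx : x ∈ s.P) :
    (x ∈ far (s.lab x) ∧ s₀.lab (β x) = p (s.lab x)) ∨
      ∃ k, Int M (Q.Act k) x ∧ Q.In k (fam1 (s.lab x)) ∧ Q.In k (fam (s₀.lab (β x))) := by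
  rcases hI.loc hx with h1 | ⟨k, h1, h2⟩
  · left
    exact ⟨h1, (h₀.far_mem (h.far_mem h1)).2⟩
  · right
    refine ⟨k, h2, h1, ?_⟩
    obtain ⟨F, hF⟩ := h2.1
    have hF' := (h.on F hx).1 hF
    exact h₀.only ⟨h.mem hx, hF'⟩ (h2.2 F hF)

/-- finitely many points on every face -/
theorem Cps.finite (h : Cps O Q Rel s₀ far₀ σ₀ p m s far β) (hp : ∀ j, fam (p j) = fam1 j)
    (h₀ : s₀.Inv Q far₀) (hI : s.Inv Q far) {F : Φ} (hfin : (s₀.P ∩ M.On F).Finite) :
    (s.P ∩ M.On F).Finite := by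
  classical
  set C0 : Set C := (fun w => fam (s₀.lab w)) '' (s₀.P ∩ M.On F) with hC0
  have hC0f : C0.Finite := hfin.image _
  set C1 : Set C := C0 ∪ ⋃ c ∈ C0, ⋃ k ∈ {k | Q.In k c}, {c' | Q.In k c'} with hC1
  have hIn : ∀ k, {c' | Q.In k c'}.Finite := by
    intro k
    refine (Set.finite_range (Q.pr k)).subset ?_
    rintro c' ⟨b, hb⟩
    exact ⟨b, hb⟩
  have hC1f : C1.Finite := by
    refine hC0f.union (hC0f.biUnion fun c _ => ?_)
    exact (Q.finK c).biUnion fun k _ => hIn k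
  refine (hC1f.biUnion (t := fun c => {x | x ∈ s.P ∧ fam1 (s.lab x) = c})
    fun c _ => s.fin c).subset ?_
  rintro x ⟨hx, hxF⟩
  rw [Set.mem_iUnion₂]
  have hb : β x ∈ s₀.P ∩ M.On F := ⟨h.mem hx, (h.on F hx).1 hxF⟩
  refine ⟨fam1 (s.lab x), ?_, hx, rfl⟩
  rcases h.nm hp h₀ hI hx with ⟨_, h1⟩ | ⟨k, _, h2, h3⟩
  · left
    refine ⟨β x, hb, ?_⟩
    simp only [h1, hp]
  · right
    simp only [Set.mem_iUnion]
    exact ⟨fam (s₀.lab (β x)), ⟨β x, hb, rfl⟩, k, h3, h2⟩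

/-- **the transversal orientation of the later state, equal to the old one at marked points** -/
theorem Cps.exists_sigma (h : Cps O Q Rel s₀ far₀ σ₀ p m s far β)
    (h₀ : s₀.Inv Q far₀) (hσ₀ : TS s₀ O σ₀) (hI : s.Inv Q far) :
    ∃ σ, TS s O σ ∧ ∀ j x, x ∈ far j → σ x = σ₀ (β x) := by
  choose w0 hw0 using hI.far_ne
  obtain ⟨σ, hσ, hv⟩ := exists_ts s O hI.h1 w0 (fun j => σ₀ (β (w0 j)))
    (fun j => (hI.far_mem (hw0 j)).2)
  refine ⟨σ, hσ, fun j x hx => ?_⟩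
  have key := h₀.gc (p j) {w | ∀ x ∈ far j, β x = w → σ x = σ₀ w} ?_ (β (w0 j)) ?_
    (h.far_mem (hw0 j))
  · exact key (h.far_mem hx) x hx rfl
  · intro F w hw hwf hat hmf hok y hy hyw
    obtain ⟨x, hx, rfl⟩ := h.far_ex hwf
    obtain ⟨h1, h2, _⟩ := h.ok hx hat hmf hok
    have hy' : y = s.mu F x := h.far_uniq hy h2 (hyw.trans h1.symm)
    subst hy'
    have hxl := (hI.far_mem hx)
    have hxat : s.At F x := ⟨hxl.1, (h.on F hxl.1).2 hat.2⟩
    have hxm : s.At F (s.mu F x) := s.mu_mem hxat.1 hxat.2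
    have e1 := hσ F x hxat
    have e2 := hσ₀ F (β x) hat
    rw [h.dir hxat, h.dir hxm, h1, hw x hx rfl] at e1
    rw [← e2] at e1
    exact add_left_cancel (add_right_cancel e1)
  · intro y hy hyw
    rw [h.far_uniq hy (hw0 j) hyw]
    exact hv j

end

/-! ### the copy step -/

section copy
variable {O : Ori M} {Q : Quads ι C K} {Rel : W → W → Prop} {s₀ : GSt M fam}
  {far₀ : J → Set W} {σ₀ : W → ZMod 2} {p : J1 → J} {m : J1 → ℕ} {s : GSt M fam1}
  {far : J1 → Set W} {β : W → W} {σ : W → ZMod 2} {r : C → ℕ}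
  {hσ : TS s O σ} {hr : ∀ c, 0 < r c} {π : Par M O s.P (num s r) Rel}

/-- number of a copy of a copy -/
def cpm (m : J1 → ℕ) (r : C → ℕ) (x : Nm' fam1 r) : ℕ := m x.1 * r (fam1 x.1) + x.2

theorem nat_lt {a a' R R' l l' : ℕ} (hR : R = R') (hl' : l' < R')
    (h : a * R + l < a' * R' + l') : a < a' ∨ (a = a' ∧ l < l') := by
  subst hR
  rcases lt_trichotomy a a' with h1 | h1 | h1
  · exact Or.inl h1
  · right
    subst h1
    exact ⟨rfl, by omega⟩
  · exfalso
    have h3 : a' * R + R ≤ a * R := by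
      calc a' * R + R = (a' + 1) * R := by ring
        _ ≤ a * R := Nat.mul_le_mul_right _ h1
    omega

theorem nat_inj {a a' R R' l l' : ℕ} (hR : R = R') (hl : l < R) (hl' : l' < R')
    (h : a * R + l = a' * R' + l') : a = a' ∧ l = l' := by
  subst hR
  have e1 : (a * R + l) / R = a := by
    rw [mul_comm, Nat.mul_add_div (by omega), Nat.div_eq_of_lt hl, add_zero]
  have e2 : (a' * R + l') / R = a' := by
    rw [mul_comm, Nat.mul_add_div (by omega), Nat.div_eq_of_lt hl', add_zero]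
  have h5 : a = a' := by rw [← e1, h, e2]
  subst h5
  exact ⟨rfl, by omega⟩

theorem cpm_lt {m : J1 → ℕ} {r : C → ℕ} {x y : Nm' fam1 r} (hf : fam1 x.1 = fam1 y.1)
    (h : cpm m r x < cpm m r y) : m x.1 < m y.1 ∨ (m x.1 = m y.1 ∧ (x.2 : ℕ) < y.2) :=
  nat_lt (congrArg r hf) y.2.2 h

theorem cpm_inj {m : J1 → ℕ} {r : C → ℕ} {p : J1 → J}
    (hp : ∀ j, fam (p j) = fam1 j)
    (hinj : ∀ j j', p j = p j' → m j = m j' → j = j') {x y : Nm' fam1 r}
    (h1 : p x.1 = p y.1) (h2 : cpm m r x = cpm m r y) : x = y := by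
  have hf : fam1 x.1 = fam1 y.1 := by rw [← hp, ← hp, h1]
  obtain ⟨h5, h6⟩ := nat_inj (congrArg r hf) x.2.2 y.2.2 h2
  exact nm_ext (hinj _ _ h1 h5) h6

/-- **the copy step** -/
theorem Cps.copy (h : Cps O Q Rel s₀ far₀ σ₀ p m s far β) (hp : ∀ j, fam (p j) = fam1 j)
    (hinj : ∀ j j', p j = p j' → m j = m j' → j = j')
    (htr : ∀ x y z, Rel x y → Rel y z → Rel x z) (hI : s.Inv Q far)
    (hs : ∀ j x, x ∈ far j → σ x = σ₀ (β x)) :
    Cps O Q Rel s₀ far₀ σ₀ (fun x : Nm' fam1 r => p x.1) (cpm m r) (cp s σ hσ hr π)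
      (cpFar σ π far) (fun x => β (base σ π x)) where
  mem := by
    intro x hx
    obtain ⟨w, hw, l, hl, rfl⟩ := cp_cases hx
    rw [base_place π hw hl]
    exact h.mem hw
  rel := by
    intro x hx
    obtain ⟨w, hw, l, hl, rfl⟩ := cp_cases hx
    rw [base_place π hw hl]
    exact htr _ _ _ (place_rel π hw hl) (h.rel hw)
  on := by
    intro x F hx
    obtain ⟨w, hw, l, hl, rfl⟩ := cp_cases hx
    rw [base_place π hw hl, place_on π F hw hl]
    exact h.on F hw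
  dir := by
    intro F x hx
    obtain ⟨w, hw, l, hl, rfl⟩ := cp_cases hx.1
    have hat := (cp_at hw hl).1 hx
    rw [base_place π hw hl, place_dir π hw hl hat.2]
    exact h.dir hat
  lt := by
    intro F x y hx hy hlt
    obtain ⟨w, hw, l, hl, rfl⟩ := cp_cases hx.1
    obtain ⟨v, hv, l', hl', rfl⟩ := cp_cases hy.1
    have hat := (cp_at hw hl).1 hx
    have hat' := (cp_at hv hl').1 hy
    rw [base_place π hw hl, base_place π hv hl'] at hlt
    have h1 := h.lt hat hat' hlt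
    exact (place_lt_iff π hat hat' hl hl' (by rintro rfl; exact lt_irrefl _ h1)).2 h1
  far_mem := by
    rintro j x ⟨w, hw, rfl⟩
    obtain ⟨h1, h2⟩ := hI.far_mem hw
    rw [base_place π h1 (num_of_lab h2)]
    exact h.far_mem hw
  far_ex := by
    intro j w hw
    obtain ⟨x, hx, rfl⟩ := h.far_ex hw
    obtain ⟨h1, h2⟩ := hI.far_mem hx
    exact ⟨place σ π x j.2, ⟨x, hx, rfl⟩, by rw [base_place π h1 (num_of_lab h2)]⟩
  far_uniq := by
    rintro j x y ⟨w, hw, rfl⟩ ⟨v, hv, rfl⟩ he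
    obtain ⟨h1, h2⟩ := hI.far_mem hw
    obtain ⟨h3, h4⟩ := hI.far_mem hv
    rw [base_place π h1 (num_of_lab h2), base_place π h3 (num_of_lab h4)] at he
    rw [h.far_uniq hw hv he]
  far_ord := by
    rintro j j' x y F hpj hm ⟨w, hw, rfl⟩ ⟨v, hv, rfl⟩ he hF
    obtain ⟨h1, h2⟩ := hI.far_mem hw
    obtain ⟨h3, h4⟩ := hI.far_mem hv
    have hlw := num_of_lab (r := r) h2
    have hlv := num_of_lab (r := r) h4
    have hwF : w ∈ M.On F := (place_on π F h1 hlw).1 hF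
    have hat : s.At F w := ⟨h1, hwF⟩
    have he' : β w = β v := by
      rw [base_place π h1 hlw, base_place π h3 hlv] at he
      exact he
    have hat' : s.At F v := ⟨h3, (h.on F h3).2 (by rw [← he']; exact (h.on F h1).1 hwF)⟩
    rw [base_place π h1 hlw]
    have hf : fam1 j.1 = fam1 j'.1 := by
      rw [← hp, ← hp]; exact congrArg fam hpj
    rcases cpm_lt hf hm with hlt | ⟨heq, hlt⟩
    · obtain ⟨h5, h6⟩ := h.far_ord hpj hlt hw hv he' hwF
      refine ⟨fun e => ?_, fun e => ?_⟩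
      · have h7 := h5 e
        exact (place_lt_iff π hat hat' hlw hlv (by rintro rfl; exact lt_irrefl _ h7)).2 h7
      · have h7 := h6 e
        exact (place_lt_iff π hat' hat hlv hlw (by rintro rfl; exact lt_irrefl _ h7)).2 h7
    · have hjj : j.1 = j'.1 := hinj _ _ hpj heq
      have hwv : w = v := by
        refine h.far_uniq hw ?_ he'
        rw [hjj]; exact hv
      subst hwv
      have hlv' : (j'.2 : ℕ) < num s r w := hlv
      refine ⟨fun e => ?_, fun e => ?_⟩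
      · refine place_up π hat hlt hlv' ?_
        rw [hs _ _ hw, h.dir hat]; exact e
      · refine place_down π hat hlt hlv' ?_
        rw [hs _ _ hw, h.dir hat]; exact e
  ok := by
    rintro j x F ⟨w, hw, rfl⟩ hat hmf hok
    obtain ⟨h1, h2⟩ := hI.far_mem hw
    have hlw := num_of_lab (r := r) h2
    rw [base_place π h1 hlw] at hat hmf hok ⊢
    obtain ⟨h3, h4, h5⟩ := h.ok hw hat hmf hok
    have hwat : s.At F w := ⟨h1, (h.on F h1).2 hat.2⟩
    have hlm : (j.2 : ℕ) < num s r (s.mu F w) := by rw [num_mu hwat]; exact hlw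
    rw [cp_mu hwat hlw, base_place π (s.mu_mem h1 hwat.2).1 hlm]
    exact ⟨h3, ⟨_, h4, rfl⟩, (cp_OK hwat hlw).2 h5⟩
  cross := by
    intro F x y hx hy hne hla
    obtain ⟨w, hw, l, hl, rfl⟩ := cp_cases hx.1
    obtain ⟨v, hv, l', hl', rfl⟩ := cp_cases hy.1
    have hat := (cp_at hw hl).1 hx
    have hat' := (cp_at hv hl').1 hy
    simp only [fam', cp_lab_fst hw hl, cp_lab_fst hv hl'] at hne
    rw [cp_lace hat hat' hl hl' (fun e => hne (by rw [e]))] at hla
    simp only [cp_lab_fst hw hl, cp_lab_fst hv hl']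
    exact h.cross hat hat' hne hla

end copy

/-! ### the exchange step -/

theorem Cps.step {O : Ori M} {Q : Quads ι C K} {Rel : W → W → Prop} {s₀ : GSt M fam}
    {far₀ : J → Set W} {σ₀ : W → ZMod 2} {p : J1 → J} {m : J1 → ℕ} {s s' : GSt M fam1}
    {far : J1 → Set W} {β : W → W} (h : Cps O Q Rel s₀ far₀ σ₀ p m s far β)
    (hI : s.Inv Q far) {k : K} (hst : Step Q far k s s') :
    Cps O Q Rel s₀ far₀ σ₀ p m s' far β where
  mem := fun hx => h.mem (hst.P_sub hx)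
  rel := fun hx => h.rel (hst.P_sub hx)
  on := fun F hx => h.on F (hst.P_sub hx)
  dir := fun hx => h.dir ⟨hst.P_sub hx.1, hx.2⟩
  lt := fun hx hy => h.lt ⟨hst.P_sub hx.1, hx.2⟩ ⟨hst.P_sub hy.1, hy.2⟩
  far_mem := h.far_mem
  far_ex := h.far_ex
  far_uniq := h.far_uniq
  far_ord := h.far_ord
  ok := by
    intro j x F hx hat hmf hok
    obtain ⟨h1, h2, h3⟩ := h.ok hx hat hmf hok
    obtain ⟨h4, h5⟩ := hI.far_mem hx
    have hxat : s.At F x := ⟨h4, (h.on F h4).2 hat.2⟩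
    obtain ⟨h6, h7⟩ := hst.ok hxat (by rw [h5]; exact hx) (by rw [h5]; exact h2) h3
    rw [h6]
    exact ⟨h1, h2, h7⟩
  cross := by
    intro F x y hx hy hne hl
    obtain ⟨w', x', k1, k2, k3, k4, k5⟩ := hst.cross hx hy hne hl
    obtain ⟨w, v, l1, l2, l3, l4, l5⟩ := h.cross k1 k2 (by rw [k3, k4]; exact hne) k5
    exact ⟨w, v, l1, l2, by rw [l3, k3], by rw [l4, k4], l5⟩

end Crest.Agent.R096.Cp_298
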