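import Mathlib
import Crest.Agent.R096.Main1_4
import Crest.Agent.R096.Lab5_184
import Crest.Agent.R096.Ginv1_543

-- ▼ part R096/Main2_4
section

/-! # Row 96, P1-MAIN (helper4), part 2: the sign of `u - c` labels a regular level. -/

set_option autoImplicit false

open Set Filter Topology Metric

namespace Crest.Agent.R096.Main_4

open Crest.Agent.R096.Msh_715 Crest.Agent.R096.Agl2_543 Crest.Agent.R096.Agl3_543
  Crest.Agent.R096.Agl4_543 Crest.Agent.R096.Coh_184
  Crest.Agent.R096.Jn_890 Crest.Agent.R096.Pat4_543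

/-- constant sign on connected sets without zeros -/
theorem sign_const {X : Type*} [TopologicalSpace X] {g : X → ℝ} {I : Set X}
    (hI : IsPreconnected I) (hg : ContinuousOn g I)
    (h0 : ∀ t ∈ I, g t ≠ 0) {s t : X} (hs : s ∈ I) (ht : t ∈ I) : g s < 0 → g t < 0 := by
  intro h1
  by_contra h2
  push Not at h2
  obtain ⟨x, hx, hx0⟩ := hI.intermediate_value hs ht hg (show (0 : ℝ) ∈ Icc (g s) (g t) from
    ⟨h1.le, h2⟩)
  exact h0 x hx hx0

open Classical in
/-- sign bit -/
noncomputable def sb (x : ℝ) : ZMod 2 := if x < 0 then 1 else 0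

/-- parity of the number of crossings on an interval -/
theorem parity_Icc (g : ℝ → ℝ) (a : ℝ) : ∀ (n : ℕ) (b : ℝ) (Z : Finset ℝ), Z.card = n →
    a < b → ContinuousOn g (Icc a b) → (∀ t, t ∈ Z ↔ t ∈ Icc a b ∧ g t = 0) → g a ≠ 0 → g b ≠ 0 →
    (∀ t ∈ Z, t ∈ closure {s | s ∈ Icc a b ∧ 0 < g s} ∧ t ∈ closure {s | s ∈ Icc a b ∧ g s < 0}) →
    sb (g a) + sb (g b) = (n : ZMod 2) := by
  classical
  intro n
  induction n with
  | zero =>
    intro b Z hZ hab hg hZm ha hb _
    have hZ0 : Z = ∅ := Finset.card_eq_zero.1 hZ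
    have h0 : ∀ t ∈ Icc a b, g t ≠ 0 := by
      intro t ht h1
      have := (hZm t).2 ⟨ht, h1⟩
      rw [hZ0] at this
      exact absurd this (Finset.notMem_empty _)
    have haI : a ∈ Icc a b := ⟨le_rfl, hab.le⟩
    have hbI : b ∈ Icc a b := ⟨hab.le, le_rfl⟩
    have e1 : g a < 0 ↔ g b < 0 :=
      ⟨sign_const isPreconnected_Icc hg h0 haI hbI, sign_const isPreconnected_Icc hg h0 hbI haI⟩
    rw [Nat.cast_zero]
    by_cases h : g a < 0
    · simp only [sb, h, e1.1 h, if_true]; decide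
    · have h' : ¬ g b < 0 := fun h' => h (e1.2 h')
      simp only [sb, h, h', if_false]; decide
  | succ n ih =>
    intro b Z hZ hab hg hZm ha hb hcr
    have hne : Z.Nonempty := by rw [← Finset.card_pos, hZ]; omega
    set z := Z.max' hne with hzdef
    have hzZ : z ∈ Z := Z.max'_mem hne
    obtain ⟨hzI, hz0⟩ := (hZm z).1 hzZ
    have hza : a < z := lt_of_le_of_ne hzI.1 (fun e => ha (by rw [e]; exact hz0))
    have hzb : z < b := lt_of_le_of_ne hzI.2 (fun e => hb (by rw [← e]; exact hz0))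
    -- the last point before z
    set W := insert a (Z.erase z) with hW
    have hWne : W.Nonempty := ⟨a, Finset.mem_insert_self _ _⟩
    set m := W.max' hWne with hm
    have hmz : m < z := by
      have h1 : m ∈ W := W.max'_mem hWne
      rcases Finset.mem_insert.1 h1 with h1 | h1
      · rw [h1]; exact hza
      · obtain ⟨h2, h3⟩ := Finset.mem_erase.1 h1
        exact lt_of_le_of_ne (Z.le_max' _ h3) h2
    have ham : a ≤ m := W.le_max' _ (Finset.mem_insert_self _ _)
    set b' := (m + z) / 2 with hb'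
    have hb1 : m < b' := by rw [hb']; linarith
    have hb2 : b' < z := by rw [hb']; linarith
    have hab' : a < b' := by linarith
    have hsub : Icc a b' ⊆ Icc a b := Icc_subset_Icc le_rfl (by linarith)
    -- no zeros in [b', z) and (z, b]
    have hz1 : ∀ t ∈ Ico b' z, g t ≠ 0 := by
      intro t ht h1
      have h2 : t ∈ Z := (hZm t).2 ⟨⟨by linarith [ht.1], by linarith [ht.2]⟩, h1⟩
      have h3 : t ∈ W := Finset.mem_insert_of_mem (Finset.mem_erase.2 ⟨ht.2.ne, h2⟩)
      have h4 := W.le_max' t h3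
      have := ht.1
      rw [← hm] at h4
      linarith
    have hz2 : ∀ t ∈ Ioc z b, g t ≠ 0 := by
      intro t ht h1
      have h2 : t ∈ Z := (hZm t).2 ⟨⟨by linarith [ht.1], ht.2⟩, h1⟩
      have h3 := Z.le_max' t h2
      rw [← hzdef] at h3
      exact absurd ht.1 (not_lt.2 h3)
    have hc1 : ContinuousOn g (Ico b' z) := hg.mono fun t ht => ⟨by linarith [ht.1], by linarith [ht.2]⟩
    have hc2 : ContinuousOn g (Ioc z b) := hg.mono fun t ht => ⟨by linarith [ht.1], ht.2⟩
    have hbI : b ∈ Ioc z b := ⟨hzb, le_rfl⟩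
    have hbI' : b' ∈ Ico b' z := ⟨le_rfl, hb2⟩
    have hgb' : g b' ≠ 0 := hz1 b' hbI'
    -- opposite signs
    have hopp : (g b' < 0) ↔ ¬ (g b < 0) := by
      constructor
      · intro h1 h2
        -- positive points near z : contradiction
        have h3 := (hcr z hzZ).1
        rw [mem_closure_iff_nhds] at h3
        obtain ⟨s, hs1, hs2, hs3⟩ := h3 (Ioo b' b) (Ioo_mem_nhds hb2 hzb)
        rcases lt_trichotomy s z with h | h | h
        · have := sign_const isPreconnected_Ico hc1 hz1 hbI' (show s ∈ Ico b' z from ⟨hs1.1.le, h⟩) h1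
          linarith
        · rw [h, hz0] at hs3; exact lt_irrefl _ hs3
        · have := sign_const isPreconnected_Ioc hc2 hz2 hbI (show s ∈ Ioc z b from ⟨h, hs1.2.le⟩) h2
          linarith
      · intro h2
        have h3 := (hcr z hzZ).2
        rw [mem_closure_iff_nhds] at h3
        obtain ⟨s, hs1, hs2, hs3⟩ := h3 (Ioo b' b) (Ioo_mem_nhds hb2 hzb)
        rcases lt_trichotomy s z with h | h | h
        · exact sign_const isPreconnected_Ico hc1 hz1 (show s ∈ Ico b' z from ⟨hs1.1.le, h⟩) hbI' hs3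
        · rw [h, hz0] at hs3; exact absurd hs3 (lt_irrefl _)
        · exact absurd (sign_const isPreconnected_Ioc hc2 hz2 (show s ∈ Ioc z b from ⟨h, hs1.2.le⟩)
            hbI hs3) h2
    have hih := ih b' (Z.erase z) (by rw [Finset.card_erase_of_mem hzZ, hZ]; rfl) hab'
      (hg.mono hsub) (fun t => by
        rw [Finset.mem_erase, hZm]
        constructor
        · rintro ⟨h1, h2, h3⟩
          refine ⟨⟨h2.1, ?_⟩, h3⟩
          have h4 : t ∈ W := Finset.mem_insert_of_mem (Finset.mem_erase.2 ⟨h1, (hZm t).2 ⟨h2, h3⟩⟩)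
          have h5 := W.le_max' t h4
          rw [← hm] at h5
          linarith
        · rintro ⟨h2, h3⟩
          exact ⟨by have := h2.2; intro e; linarith, hsub h2, h3⟩) ha hgb' (fun t ht => by
        obtain ⟨h1, h2⟩ := Finset.mem_erase.1 ht
        have h4 : t ∈ W := Finset.mem_insert_of_mem ht
        have h5 := W.le_max' t h4
        rw [← hm] at h5
        have htb : t < b' := by linarith
        have key : ∀ A : Set ℝ, t ∈ closure {s | s ∈ Icc a b ∧ s ∈ A} →
            t ∈ closure {s | s ∈ Icc a b' ∧ s ∈ A} := by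
          intro A hA
          rw [mem_closure_iff_nhds] at hA ⊢
          intro U hU
          obtain ⟨s, ⟨hs1, hs4⟩, hs2, hs3⟩ := hA (U ∩ Iio b') (inter_mem hU (Iio_mem_nhds htb))
          exact ⟨s, hs1, ⟨hs2.1, le_of_lt hs4⟩, hs3⟩
        exact ⟨key {s | 0 < g s} (hcr t h2).1, key {s | g s < 0} (hcr t h2).2⟩)
    rw [Nat.cast_succ, ← hih]
    by_cases h : g b < 0
    · have h' : ¬ g b' < 0 := fun h' => (hopp.1 h') h
      simp only [sb, h, h', if_true, if_false]
      by_cases h'' : g a < 0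
      · simp only [h'', if_true]; decide
      · simp only [h'', if_false]; decide
    · have h' : g b' < 0 := hopp.2 h
      simp only [sb, h, h', if_true, if_false]
      by_cases h'' : g a < 0
      · simp only [h'', if_true]; decide
      · simp only [h'', if_false]; decide

variable {E : Type*} [NormedAddCommGroup E] [NormedSpace ℝ E]
variable {Om : Set E} {ι : Type*}

/-- crossing points on a 1-cell, from regularity on a 2-cell -/
theorem crossing {T : Tiling Om ι} [FiniteDimensional ℝ E] (h3 : Module.finrank ℝ E = 3)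
    {u : E → ℝ} {c : ℝ} {S : Set E} (h : RegLevel T u c S) {w p : E} (hw : w ∈ Om)
    (hd : T.dim w = 1) (hp : p ∈ S) (hpw : p ∈ T.cc w) :
    p ∈ closure {y | y ∈ T.cc w ∧ c < u y} ∧ p ∈ closure {y | y ∈ T.cc w ∧ u y < c} := by
  have hpO := h.sub hp
  have hp1 : T.dim p = 1 := by
    have h1 := h.vert p hp
    have h2 := T.dim_le hpw
    omega
  obtain ⟨q, hq⟩ := T.at_nonempty hpO
  obtain ⟨x, hx, -, -, hdx, -, -, -, hpx, -⟩ := two_cells T h3 hpO hp1 hq
  have hne : (T.cc x ∩ S).Nonempty := ⟨p, hpx, hp⟩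
  have hreg := h.reg x hx hdx hne
  have hpC : p ∈ T.cc x \ T.oc x := (mem_bd_iff hx hdx hpx).2 hp1.le
  have hup : u p = c := (h.lev x hx hdx hne p hpx).1 hp
  obtain ⟨r, hr, hrO, hb⟩ := good_ball T hpO
  -- near `p` the boundary of the 2-cell lies in the 1-cell
  have hpw' : T.cc p = T.cc w := by
    rw [T.cc_eq_iff hw]
    by_contra hn
    have := T.dim_lt hpw hn
    omega
  have key : ∀ y ∈ ball p r, y ∈ T.cc x \ T.oc x → y ∈ T.cc w := by
    intro y hy hyC
    have h1 : p ∈ T.cc y := mem_cc_of_good T hb hy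
    have h2 : T.dim y ≤ 1 := (mem_bd_iff hx hdx hyC.1).1 hyC
    have hyO : y ∈ Om := hrO hy
    have h4 : p ∈ T.oc y := by
      by_contra hn
      have := T.dim_lt h1 hn
      omega
    have h5 : T.cc p = T.cc y := T.cc_eq_of_mem_oc hyO h4
    rw [← hpw', h5]
    exact T.self_mem_cc y
  have mono : ∀ A : Set E, p ∈ closure {y | y ∈ T.cc x \ T.oc x ∧ y ∈ A} →
      p ∈ closure {y | y ∈ T.cc w ∧ y ∈ A} := by
    intro A hA
    rw [mem_closure_iff_nhds] at hA ⊢
    intro U hU
    obtain ⟨s, ⟨hs1, hs4⟩, hs2, hs3⟩ := hA (U ∩ ball p r) (inter_mem hU (ball_mem_nhds p hr))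
    exact ⟨s, hs1, key s hs4 hs2, hs3⟩
  exact ⟨mono {y | c < u y} (hreg.up p hpC hup), mono {y | u y < c} (hreg.down p hpC hup)⟩

open Classical in
/-- **the sign of `u - c` is a label of the level** -/
theorem chi_isLab {T : Tiling Om ι} [FiniteDimensional ℝ E] (h3 : Module.finrank ℝ E = 3)
    {u : E → ℝ} {c : ℝ} {S : Set E} (h : RegLevel T u c S) (hu : ContinuousOn u Om)
    (hfull : ∀ x ∈ Om, u x = c → x ∈ S) {P : Finset E}
    (hP : ∀ x, x ∈ P ↔ x ∈ S ∧ T.dim x ≤ 1) : IsLab T P (fun v => sb (u v - c)) := by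
  intro w hw hd v v' hc
  -- all points of `S` in the 1-cell are on the level
  have hlev : ∀ y ∈ T.cc w, y ∈ S → u y = c := by
    intro y hy hyS
    have hyO := h.sub hyS
    have hy1 : T.dim y = 1 := by
      have h1 := h.vert y hyS
      have h2 := T.dim_le hy
      omega
    obtain ⟨q, hq⟩ := T.at_nonempty hyO
    obtain ⟨x, hx, -, -, hdx, -, -, -, hyx, -⟩ := two_cells T h3 hyO hy1 hq
    exact (h.lev x hx hdx ⟨y, hyx, hyS⟩ y hyx).1 hyS
  have hne : v ≠ v' := by
    rintro rfl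
    obtain ⟨a, b, hab, hab', -, -, -, ha, hb⟩ := T.edge_eq hw hd
    rw [segment_same] at hc
    rw [hc] at ha hb
    exact hab ((mem_singleton_iff.1 ha).trans (mem_singleton_iff.1 hb).symm)
  -- the end points are vertices
  obtain ⟨a, b, hab, hab', -, hda, hdb, haw, hbw⟩ := T.edge_eq hw hd
  have hext : ∀ x, x = v ∨ x = v' → x ∉ S := by
    -- `v`, `v'` are extreme points of the segment, hence equal to `a`, `b`
    have hseg : segment ℝ v v' = segment ℝ a b := by rw [← hc, hab']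
    have hv : v = a ∨ v = b := by
      have h1 : v ∈ segment ℝ a b := by rw [← hseg]; exact left_mem_segment ℝ v v'
      have h2 : a ∈ segment ℝ v v' := by rw [hseg]; exact left_mem_segment ℝ a b
      have h4 : b ∈ segment ℝ v v' := by rw [hseg]; exact right_mem_segment ℝ a b
      rw [segment_eq_image_lineMap] at h1 h2 h4
      obtain ⟨t, ht, e1⟩ := h1
      obtain ⟨s, hs, e2⟩ := h2
      obtain ⟨r, hr, e3⟩ := h4
      have e4 : AffineMap.lineMap v v' ((1 - t) * s + t * r) = AffineMap.lineMap v v' (0 : ℝ) := by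
        rw [AffineMap.lineMap_apply_zero]
        conv_rhs => rw [← e1, ← e2, ← e3]
        simp only [AffineMap.lineMap_apply_module]
        module
      have e5 := AffineMap.lineMap_injective ℝ hne e4
      rcases eq_or_lt_of_le ht.1 with h5 | h5
      · left; rw [← e1, ← h5, AffineMap.lineMap_apply_zero]
      · rcases eq_or_lt_of_le ht.2 with h6 | h6
        · right; rw [← e1, h6, AffineMap.lineMap_apply_one]
        · exfalso
          have h7 : 0 ≤ (1 - t) * s := mul_nonneg (by linarith) hs.1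
          have h8 : 0 ≤ t * r := mul_nonneg ht.1 hr.1
          have h9 : (1 - t) * s = 0 := by linarith
          have h10 : t * r = 0 := by linarith
          have h11 : s = 0 := by
            rcases mul_eq_zero.1 h9 with h | h
            · linarith
            · exact h
          have h12 : r = 0 := by
            rcases mul_eq_zero.1 h10 with h | h
            · linarith
            · exact h
          rw [h11] at e2
          rw [h12] at e3
          exact hab (e2.symm.trans e3)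
    have hv' : v' = a ∨ v' = b := by
      have h1 : v' ∈ segment ℝ a b := by rw [← hseg]; exact right_mem_segment ℝ v v'
      have h2 : a ∈ segment ℝ v v' := by rw [hseg]; exact left_mem_segment ℝ a b
      have h4 : b ∈ segment ℝ v v' := by rw [hseg]; exact right_mem_segment ℝ a b
      rw [segment_eq_image_lineMap] at h1 h2 h4
      obtain ⟨t, ht, e1⟩ := h1
      obtain ⟨s, hs, e2⟩ := h2
      obtain ⟨r, hr, e3⟩ := h4
      have e4 : AffineMap.lineMap v v' ((1 - t) * s + t * r) = AffineMap.lineMap v v' (1 : ℝ) := by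
        rw [AffineMap.lineMap_apply_one]
        conv_rhs => rw [← e1, ← e2, ← e3]
        simp only [AffineMap.lineMap_apply_module]
        module
      have e5 := AffineMap.lineMap_injective ℝ hne e4
      rcases eq_or_lt_of_le ht.1 with h5 | h5
      · left; rw [← e1, ← h5, AffineMap.lineMap_apply_zero]
      · rcases eq_or_lt_of_le ht.2 with h6 | h6
        · right; rw [← e1, h6, AffineMap.lineMap_apply_one]
        · exfalso
          have h7 : (1 - t) * s ≤ (1 - t) * 1 := mul_le_mul_of_nonneg_left hs.2 (by linarith)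
          have h8 : t * r ≤ t * 1 := mul_le_mul_of_nonneg_left hr.2 ht.1
          have h9 : (1 - t) * (1 - s) = 0 := by nlinarith
          have h10 : t * (1 - r) = 0 := by nlinarith
          have h11 : s = 1 := by
            rcases mul_eq_zero.1 h9 with h | h <;> linarith
          have h12 : r = 1 := by
            rcases mul_eq_zero.1 h10 with h | h <;> linarith
          rw [h11] at e2
          rw [h12] at e3
          exact hab (e2.symm.trans e3)
    have hnS : ∀ y, T.dim y = 0 → y ∉ S := fun y hy hyS => h.vert y hyS hy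
    rintro x (rfl | rfl)
    · rcases hv with e | e <;> rw [e]
      · exact hnS a hda
      · exact hnS b hdb
    · rcases hv' with e | e <;> rw [e]
      · exact hnS a hda
      · exact hnS b hdb
  have hO : T.cc w ⊆ Om := T.cc_sub_Om hw
  have hvw : v ∈ T.cc w := by rw [hc]; exact left_mem_segment ℝ v v'
  have hvw' : v' ∈ T.cc w := by rw [hc]; exact right_mem_segment ℝ v v'
  -- parametrize
  let L : ℝ → E := fun t => AffineMap.lineMap v v' t
  have hLinj : Function.Injective L := AffineMap.lineMap_injective ℝ hne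
  have hLc : Continuous L := AffineMap.lineMap_continuous
  have hLi : T.cc w = L '' Icc 0 1 := by rw [hc, segment_eq_image_lineMap]
  let g : ℝ → ℝ := fun t => u (L t) - c
  have hg : ContinuousOn g (Icc 0 1) := by
    refine ContinuousOn.sub ?_ continuousOn_const
    refine (hu.mono hO).comp hLc.continuousOn ?_
    intro t ht
    rw [hLi]
    exact mem_image_of_mem _ ht
  let Z : Finset ℝ := (P.filter (fun y => y ∈ T.cc w)).preimage L hLinj.injOn
  have hZ : ∀ t, t ∈ Z ↔ t ∈ Icc (0 : ℝ) 1 ∧ g t = 0 := by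
    intro t
    simp only [Z, Finset.mem_preimage, Finset.mem_filter]
    constructor
    · rintro ⟨h1, h2⟩
      refine ⟨?_, ?_⟩
      · rw [hLi] at h2
        obtain ⟨s, hs, e⟩ := h2
        rwa [← hLinj e]
      · show u (L t) - c = 0
        rw [hlev _ h2 ((hP _).1 h1).1, sub_self]
    · rintro ⟨h1, h2⟩
      have h4 : L t ∈ T.cc w := by rw [hLi]; exact mem_image_of_mem _ h1
      have h5 : L t ∈ S := hfull _ (hO h4) (by have : u (L t) - c = 0 := h2; linarith)
      refine ⟨(hP _).2 ⟨h5, ?_⟩, h4⟩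
      have := T.dim_le h4
      omega
  have hcard : Z.card = (P.filter (fun y => y ∈ T.cc w)).card := by
    rw [← Finset.card_image_of_injective Z hLinj]
    congr 1
    rw [Finset.image_preimage]
    rw [Finset.filter_eq_self]
    intro y hy
    have h1 := (Finset.mem_filter.1 hy).2
    rw [hLi] at h1
    obtain ⟨s, -, e⟩ := h1
    exact ⟨s, e⟩
  have hL0 : L 0 = v := AffineMap.lineMap_apply_zero _ _
  have hL1 : L 1 = v' := AffineMap.lineMap_apply_one _ _
  have hg0 : g 0 ≠ 0 := by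
    intro e
    have e' : u (L 0) - c = 0 := e
    rw [hL0] at e'
    exact hext v (Or.inl rfl) (hfull v (hO hvw) (by linarith))
  have hg1 : g 1 ≠ 0 := by
    intro e
    have e' : u (L 1) - c = 0 := e
    rw [hL1] at e'
    exact hext v' (Or.inr rfl) (hfull v' (hO hvw') (by linarith))
  have hcl : ∀ t ∈ Z, ∀ A : Set E, L t ∈ closure {y | y ∈ T.cc w ∧ y ∈ A} →
      t ∈ closure {s | s ∈ Icc (0 : ℝ) 1 ∧ L s ∈ A} := by
    intro t ht A hA
    -- `L` is a closed embedding of the line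
    have hemb : IsClosedEmbedding L := by
      have h1 : L = fun t : ℝ => t • (v' - v) + v := by
        funext t
        simp only [L, AffineMap.lineMap_apply, vsub_eq_sub, vadd_eq_add]
      rw [h1]
      have h2 : IsClosedEmbedding (fun t : ℝ => t • (v' - v)) :=
        isClosedEmbedding_smul_left (sub_ne_zero.2 hne.symm)
      exact (Homeomorph.addRight v).isClosedEmbedding.comp h2
    have h1 : {y | y ∈ T.cc w ∧ y ∈ A} = L '' {s | s ∈ Icc (0 : ℝ) 1 ∧ L s ∈ A} := by
      ext y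
      constructor
      · rintro ⟨h1, h2⟩
        rw [hLi] at h1
        obtain ⟨s, hs, rfl⟩ := h1
        exact ⟨s, ⟨hs, h2⟩, rfl⟩
      · rintro ⟨s, ⟨hs, h2⟩, rfl⟩
        exact ⟨by rw [hLi]; exact mem_image_of_mem _ hs, h2⟩
    rw [h1, hemb.closure_image_eq] at hA
    obtain ⟨s, hs, e⟩ := hA
    rwa [← hLinj e]
  have hfin := parity_Icc g 0 Z.card 1 Z rfl one_pos hg hZ hg0 hg1 (fun t ht => by
    have ht' := (hZ t).1 ht
    have hLt : L t ∈ T.cc w := by rw [hLi]; exact mem_image_of_mem _ ht'.1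
    have hLS : L t ∈ S := hfull _ (hO hLt) (by have : u (L t) - c = 0 := ht'.2; linarith)
    obtain ⟨c1, c2⟩ := crossing h3 h hw hd hLS hLt
    refine ⟨closure_mono ?_ (hcl t ht {y | c < u y} c1),
      closure_mono ?_ (hcl t ht {y | u y < c} c2)⟩
    · rintro s ⟨hs1, hs2⟩
      have hs2' : c < u (L s) := hs2
      exact ⟨hs1, show 0 < u (L s) - c by linarith⟩
    · rintro s ⟨hs1, hs2⟩
      have hs2' : u (L s) < c := hs2
      exact ⟨hs1, show u (L s) - c < 0 by linarith⟩)
  show sb (u v - c) + sb (u v' - c) = _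
  have e1 : g 0 = u v - c := by show u (L 0) - c = _; rw [hL0]
  have e2 : g 1 = u v' - c := by show u (L 1) - c = _; rw [hL1]
  rw [e1, e2] at hfin
  rw [hfin, hcard]

end Crest.Agent.R096.Main_4
end

-- ▼ part R096/Main3_4

/-! # Row 96, P1-MAIN (helper4), part 3: the main class of a level of a homeomorphism; reach, low,
high, nested; base points; comparison with the chord components of 543's global state. -/

set_option autoImplicit false

open Set Filter Topology Metric

namespace Crest.Agent.R096.Main_4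

open Crest.Agent.R096.Msh_715 Crest.Agent.R096.Agl4_543 Crest.Agent.R096.Coh_184
  Crest.Agent.R096.Jn_890 Crest.Agent.R096.Lab_184

/-- vertices of the tiles which meet `K` -/
def VM {E : Type*} [NormedAddCommGroup E] [NormedSpace ℝ E] {Om : Set E} {ι : Type*}
    (T : Tiling Om ι) (K : Set E) : Set E :=
  {v | T.dim v = 0 ∧ ∃ i, (Msh_715.P (T.H i) ∩ K).Nonempty ∧ v ∈ Msh_715.P (T.H i)}

section geom

variable {E : Type*} [NormedAddCommGroup E] [NormedSpace ℝ E]
variable {Om : Set E} {ι : Type*} {T : Tiling Om ι}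

theorem mem_VM {K : Set E} {i : ι} {x v : E} (hx : x ∈ Msh_715.P (T.H i)) (hxK : x ∈ K)
    (hv : v ∈ Msh_715.P (T.H i)) (h0 : T.dim v = 0) : v ∈ VM T K :=
  ⟨h0, i, ⟨x, hx, hxK⟩, hv⟩

theorem VM_mono {K K' : Set E} (h : K ⊆ K') : VM T K ⊆ VM T K' := by
  rintro v ⟨h0, i, hi, hv⟩
  exact ⟨h0, i, hi.mono (inter_subset_inter_right _ h), hv⟩

theorem self_mem_VM {K : Set E} {v : E} (hv : v ∈ Om) (h0 : T.dim v = 0) (hK : v ∈ K) :
    v ∈ VM T K := by
  obtain ⟨i, hi⟩ := T.cov v hv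
  exact mem_VM hi hK hi h0

/-- every tile has a vertex -/
theorem exists_vertex_tile [FiniteDimensional ℝ E] {i : ι} {x : E} (hx : x ∈ Msh_715.P (T.H i)) :
    ∃ v ∈ Msh_715.P (T.H i), T.dim v = 0 := by
  obtain ⟨v, hv, h0⟩ := T.exists_vertex (T.sub i hx)
  exact ⟨v, T.cc_sub_tile hx hv, h0⟩

variable [FiniteDimensional ℝ E]

theorem edg_VM {K : Set E} (hK : IsPreconnected K) (hKO : K ⊆ Om) {v w : E} (hv : v ∈ VM T K)
    (hw : w ∈ VM T K) :
    Relation.ReflTransGen (Edg T {i | (Msh_715.P (T.H i) ∩ K).Nonempty}) v w :=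
  edg_path hK hKO hv.2 hw.2 hv.1 hw.1

/-- **LOW / HIGH**: without points of the pattern in the tiles meeting a connected set the label is
constant on their vertices -/
theorem IsLab.const_geom {Q : Finset E} {lam : E → ZMod 2} (h : IsLab T Q lam) {K : Set E}
    (hK : IsPreconnected K) (hKO : K ⊆ Om)
    (hQ : ∀ i, (Msh_715.P (T.H i) ∩ K).Nonempty → ∀ u ∈ Q, u ∉ Msh_715.P (T.H i)) {v w : E}
    (hv : v ∈ VM T K) (hw : w ∈ VM T K) : lam v = lam w :=
  h.const (W := {i | (Msh_715.P (T.H i) ∩ K).Nonempty}) (fun i hi u hu => hQ i hi u hu)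
    (edg_VM hK hKO hv hw)

/-- **REACH** -/
theorem IsLab.reach_geom {Q : Finset E} {lam : E → ZMod 2} (h : IsLab T Q lam) {K : Set E}
    (hK : IsPreconnected K) (hKO : K ⊆ Om) {v w : E} (hv : v ∈ VM T K) (hw : w ∈ VM T K)
    (hne : lam v ≠ lam w) :
    ∃ i, (Msh_715.P (T.H i) ∩ K).Nonempty ∧ ∃ u ∈ Q, u ∈ Msh_715.P (T.H i) := by
  obtain ⟨i, hi, h1⟩ := h.reach (edg_VM hK hKO hv hw) hne
  exact ⟨i, hi, h1⟩



end geom

section homeo

open Crest.AnalysisR.VecCalc3 Crest.AnalysisR.Sobolev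

variable {f : R3 → R3} {Om La : Set R3} {ι : Type*} {T : Tiling Om ι}

theorem isPreconnected_preimage (hf : IsHomeomorphOn f Om La) {D : Set R3}
    (hD : IsPreconnected D) (hDL : D ⊆ La) : IsPreconnected (Om ∩ f ⁻¹' D) := by
  obtain ⟨g, a1, a2, a3, a4, a5, a6⟩ := hf
  have he : Om ∩ f ⁻¹' D = g '' D := by
    ext x
    constructor
    · rintro ⟨hx, hxD⟩; exact ⟨f x, hxD, a3 x hx⟩
    · rintro ⟨y, hy, rfl⟩
      refine ⟨a2 (hDL hy), ?_⟩
      show f (g y) ∈ D
      rw [a4 y (hDL hy)]; exact hy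
  rw [he]; exact hD.image _ (a6.mono hDL)

theorem exists_preimage (hf : IsHomeomorphOn f Om La) {y : R3} (hy : y ∈ La) :
    ∃ x ∈ Om, f x = y := by
  obtain ⟨g, a1, a2, a3, a4, a5, a6⟩ := hf
  exact ⟨g y, a2 hy, a4 y hy⟩

/-- the label of a class: 0 at all tiles which are not deep inside `f⁻¹ D` -/
structure FarLab (T : Tiling Om ι) (f : R3 → R3) (D : Set R3) (Q : Finset R3)
    (lam : R3 → ZMod 2) : Prop where
  lab : IsLab T Q lam
  out : ∀ v, ¬ (v ∈ Om ∧ f v ∈ D) → lam v = 0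
  far : ∀ q, ¬ Msh_715.P (T.H q) ⊆ f ⁻¹' interior D → ∀ v ∈ Msh_715.P (T.H q), lam v = 0

/-- every set of points of a level closed under chords has a far label -/
theorem exists_farLab (hLa : IsOpen La) (hf : IsHomeomorphOn f Om La) {D : Set R3}
    (hD : IsCompact D) (hDc : Convex ℝ D) (hDn : (interior D).Nonempty) (hDL : D ⊆ La)
    {Q : Finset R3} (hQ : EvenPat T Q)
    (hsupp : ∀ w ∈ Q, ∀ q, w ∈ Msh_715.P (T.H q) → Msh_715.P (T.H q) ⊆ f ⁻¹' interior D) :
    ∃ lam : R3 → ZMod 2, FarLab T f D Q lam := by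
  obtain ⟨lam, h1, h2, h3⟩ := isLab_homeo hLa hf hD hDc hDn hDL hQ hsupp
  exact ⟨lam, h1, h2, h3⟩

/-- **EXISTENCE OF THE MAIN CLASS** of a full level `S = {u = c}` of a homeomorphism, `u < c` at
the core vertex `v₀`, `c ≤ u` at the tiles which are not inside `f⁻¹ (int D)`. -/
theorem exists_main_homeo (hLa : IsOpen La) (hf : IsHomeomorphOn f Om La) {D : Set R3}
    (hD : IsCompact D) (hDc : Convex ℝ D) (hDn : (interior D).Nonempty) (hDL : D ⊆ La)
    {u : R3 → ℝ} {c : ℝ} {S : Set R3} (h : RegLevel T u c S) (hu : ContinuousOn u Om)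
    (hfull : ∀ x ∈ Om, u x = c → x ∈ S) {P : Finset R3}
    (hP : ∀ x, x ∈ P ↔ x ∈ S ∧ T.dim x ≤ 1)
    (hsupp : ∀ w ∈ S, ∀ q, w ∈ Msh_715.P (T.H q) → Msh_715.P (T.H q) ⊆ f ⁻¹' interior D)
    (hout : ∀ q, ¬ Msh_715.P (T.H q) ⊆ f ⁻¹' interior D → ∀ v ∈ Msh_715.P (T.H q), c ≤ u v)
    {v₀ : R3} (hv₀ : v₀ ∈ Om) (hd₀ : T.dim v₀ = 0) (h0 : u v₀ < c) :
    ∃ p ∈ P, ∃ lam, FarLab T f D (cls T S P p) lam ∧ lam v₀ = 1 := by
  classical
  have h3 : Module.finrank ℝ R3 = 3 := by simp
  -- labels of all classes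
  have hl : ∀ p ∈ P, ∃ lam, FarLab T f D (cls T S P p) lam := fun p hp =>
    exists_farLab hLa hf hD hDc hDn hDL (cls_even h3 h hP p)
      (fun w hw q hq => hsupp w ((hP w).1 (cls_sub p hw)).1 q hq)
  choose! lam hlam using hl
  -- the core vertex lies inside
  obtain ⟨q₀, hq₀⟩ := T.cov v₀ hv₀
  have hq₀' : Msh_715.P (T.H q₀) ⊆ f ⁻¹' interior D := by
    by_contra hcon
    exact absurd (hout q₀ hcon v₀ hq₀) (not_le.2 h0)
  have hfv₀ : f v₀ ∈ D := interior_subset (hq₀' hq₀)
  -- a far vertex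
  have hfr : (frontier D).Nonempty := by
    obtain ⟨x, hx⟩ := hDn
    by_contra hne
    rw [not_nonempty_iff_eq_empty] at hne
    have h1 : IsClopen D := isClopen_iff_frontier_eq_empty.2 hne
    rcases isClopen_iff.1 h1 with h2 | h2
    · rw [h2] at hx; simp at hx
    · rw [h2] at hD
      exact noncompact_univ R3 hD
  obtain ⟨y₁, hy₁⟩ := hfr
  have hy₁D : y₁ ∈ D := hD.isClosed.frontier_subset hy₁
  obtain ⟨x₁, hx₁, hfx₁⟩ := exists_preimage hf (hDL hy₁D)
  obtain ⟨q₁, hq₁⟩ := T.cov x₁ hx₁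
  have hq₁' : ¬ Msh_715.P (T.H q₁) ⊆ f ⁻¹' interior D := by
    intro h4
    have h5 : f x₁ ∈ interior D := h4 hq₁
    rw [hfx₁] at h5
    rw [hD.isClosed.frontier_eq] at hy₁
    exact hy₁.2 h5
  obtain ⟨v₁, hv₁, hd₁⟩ := exists_vertex_tile hq₁
  set K : Set R3 := Om ∩ f ⁻¹' D with hK
  have hKc : IsPreconnected K := isPreconnected_preimage hf hDc.isPreconnected hDL
  have hp := edg_VM (T := T) hKc inter_subset_left
    (self_mem_VM hv₀ hd₀ (show v₀ ∈ K from ⟨hv₀, hfv₀⟩))
    (mem_VM hq₁ (show x₁ ∈ K from ⟨hx₁, by show f x₁ ∈ D; rw [hfx₁]; exact hy₁D⟩) hv₁ hd₁)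
  have hp' : Relation.ReflTransGen (Edg T univ) v₀ v₁ := by
    clear * - hp
    induction hp with
    | refl => exact .refl
    | tail _ hs ih => exact ih.tail (hs.mono (subset_univ _))
  have hχ := chi_isLab h3 h hu hfull hP
  have e0 : sb (u v₀ - c) = 1 := if_pos (by linarith)
  have e1 : sb (u v₁ - c) = 0 := if_neg (by have := hout q₁ hq₁' v₁ hv₁; linarith)
  obtain ⟨p, hp, hp1⟩ := exists_main hχ e0 e1 hp' (lam := lam)
    (fun p hp => (hlam p hp).lab) (fun p hp => (hlam p hp).far q₁ hq₁' v₁ hv₁)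
  exact ⟨p, hp, lam p, hlam p hp, hp1⟩

/-- **BASE POINT**: the main class has a point in a tile which meets a given connected set `K`
from a tile with the core vertex `v₀` to a tile which is not deep inside `f⁻¹ D`. -/
theorem exists_base (hLa : IsOpen La) (hf : IsHomeomorphOn f Om La) {D : Set R3}
    (hD : IsCompact D) (hDc : Convex ℝ D) (hDn : (interior D).Nonempty) (hDL : D ⊆ La)
    {u : R3 → ℝ} {c : ℝ} {S : Set R3} (h : RegLevel T u c S) (hu : ContinuousOn u Om)
    (hfull : ∀ x ∈ Om, u x = c → x ∈ S) {P : Finset R3}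
    (hP : ∀ x, x ∈ P ↔ x ∈ S ∧ T.dim x ≤ 1)
    (hsupp : ∀ w ∈ S, ∀ q, w ∈ Msh_715.P (T.H q) → Msh_715.P (T.H q) ⊆ f ⁻¹' interior D)
    (hout : ∀ q, ¬ Msh_715.P (T.H q) ⊆ f ⁻¹' interior D → ∀ v ∈ Msh_715.P (T.H q), c ≤ u v)
    {v₀ : R3} (hv₀ : v₀ ∈ Om) (hd₀ : T.dim v₀ = 0) (h0 : u v₀ < c)
    {K : Set R3} (hK : IsPreconnected K) (hKO : K ⊆ Om) (hKv : v₀ ∈ VM T K)
    (hKf : ∃ q, ¬ Msh_715.P (T.H q) ⊆ f ⁻¹' interior D ∧ (Msh_715.P (T.H q) ∩ K).Nonempty) :
    ∃ b ∈ P, (∃ i, (Msh_715.P (T.H i) ∩ K).Nonempty ∧ b ∈ Msh_715.P (T.H i)) ∧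
      ∃ lam, FarLab T f D (cls T S P b) lam ∧ lam v₀ = 1 := by
  obtain ⟨p, hp, lam, h1, h2⟩ := exists_main_homeo hLa hf hD hDc hDn hDL h hu hfull hP hsupp hout
    hv₀ hd₀ h0
  obtain ⟨q, hq, x, hx, hxK⟩ := hKf
  obtain ⟨v₁, hv₁, hd₁⟩ := exists_vertex_tile hx
  have h4 : lam v₁ = 0 := h1.far q hq v₁ hv₁
  obtain ⟨i, hi, b, hb, hbi⟩ := h1.lab.reach_geom hK hKO hKv (mem_VM hx hxK hv₁ hd₁)
    (by rw [h2, h4]; exact one_ne_zero)
  exact ⟨b, cls_sub p hb, ⟨i, hi, hbi⟩, lam, by rw [cls_eq hb]; exact h1, h2⟩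

/-- **DENSITY of the main class in the target**: `Γ ⊆ Λ` connected through the image of a tile
with a vertex of label 1 and the image of a tile with a vertex of label 0. -/
theorem FarLab.reach_target (hf : IsHomeomorphOn f Om La) {D : Set R3} {Q : Finset R3}
    {lam : R3 → ZMod 2} (h : FarLab T f D Q lam) {G : Set R3} (hG : IsPreconnected G)
    (hGL : G ⊆ La) {q₀ q₁ : ι} {x₀ x₁ v₀ v₁ : R3} (h1 : x₀ ∈ Msh_715.P (T.H q₀)) (h2 : f x₀ ∈ G)
    (h3 : v₀ ∈ Msh_715.P (T.H q₀)) (h4 : T.dim v₀ = 0) (h5 : x₁ ∈ Msh_715.P (T.H q₁))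
    (h6 : f x₁ ∈ G) (h7 : v₁ ∈ Msh_715.P (T.H q₁)) (h8 : T.dim v₁ = 0) (hne : lam v₀ ≠ lam v₁) :
    ∃ w ∈ Q, ∃ q, w ∈ Msh_715.P (T.H q) ∧ (f '' Msh_715.P (T.H q) ∩ G).Nonempty := by
  obtain ⟨i, ⟨x, hx1, hx2⟩, w, hw, hwi⟩ := h.lab.reach_geom
    (isPreconnected_preimage hf hG hGL) inter_subset_left
    (mem_VM h1 ⟨T.sub _ h1, h2⟩ h3 h4) (mem_VM h5 ⟨T.sub _ h5, h6⟩ h7 h8) hne
  exact ⟨w, hw, i, hwi, f x, mem_image_of_mem _ hx1, hx2.2⟩

end homeo

/-! ### comparison with 543's global state -/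

section gst

open Crest.Agent.R096.Ginv_543 Crest.Agent.R096.Agl5_543 Crest.Agent.R096.Agl6_543

variable {E : Type} [NormedAddCommGroup E] [NormedSpace ℝ E] [FiniteDimensional ℝ E]
variable {Om : Set E} {ι : Type} {T : Tiling Om ι}
variable {J C : Type} {u : J → E → ℝ} {c : J → ℝ} {S : J → Set E} {fam : J → C} [Nonempty J]

/-- a step of the global state is a chord of the level -/
theorem st_of_gstep (h : GFam T u c S fam) (h3 : Module.finrank ℝ E = 3) {i : J} {P : Finset E}
    (hP : ∀ x, x ∈ P ↔ x ∈ S i ∧ T.dim x ≤ 1) {a b : E} (ha : a ∈ S i)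
    (hs : GStep (h.gst h3) a b) : St T (S i) P a b ∧ b ∈ S i := by
  obtain ⟨F, ⟨hat1, hat2⟩, rfl⟩ := hs
  have hpts : a ∈ h.pts := hat1
  have hF : a ∈ F.On := hat2
  have hsp := (h.mu_spec h3 hpts hF).1
  have hlab : labf S a = i := h.lab_eq ha hF.2.le
  rw [hlab] at hsp
  obtain ⟨x, h7, h8, h9⟩ := F.exists_side h3
  refine ⟨⟨x.1, x.2, h7, (hP a).2 ⟨ha, hF.2.le⟩, (hP _).2 ⟨hsp.2.1.1, hsp.2.1.2.2.le⟩, ?_, ?_⟩,
    hsp.2.1.1⟩
  · refine ⟨ha, ?_⟩
    have := hF.1
    rwa [h9] at this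
  · have := hsp.2.2
    rwa [h9] at this

/-- a chord of the level is a step of the global state -/
theorem gstep_of_st (h : GFam T u c S fam) (h3 : Module.finrank ℝ E = 3) {i : J} {P : Finset E}
    (hP : ∀ x, x ∈ P ↔ x ∈ S i ∧ T.dim x ≤ 1) {a b : E} (hne : a ≠ b)
    (hs : St T (S i) P a b) : GStep (h.gst h3) a b := by
  obtain ⟨q, q', hch⟩ := hs
  obtain ⟨x, hx, hd, hat, hcc⟩ := (h.lev i).chord_cell h3 hP (Ne.symm hne) hch
  set F : C2 T := mk2 T hx hd with hFdef
  have hFset : F.set = T.cc x := rfl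
  have ha := (hP a).1 hch.left
  have hb := (hP b).1 hch.right
  have haF : a ∈ F.On := by
    refine ⟨by rw [hFset, hcc]; exact hch.mem.2, ?_⟩
    have := (h.lev i).vert a ha.1
    have := ha.2
    omega
  have hbF : b ∈ F.On := by
    refine ⟨by rw [hFset, hcc]; exact hch.mem_right.2, ?_⟩
    have := (h.lev i).vert b hb.1
    have := hb.2
    omega
  have hlab : labf S a = i := h.lab_eq ha.1 ha.2
  have hmu : b = h.mu h3 F a := by
    refine (h.mu_spec h3 ⟨i, ha⟩ haF).2 b (Ne.symm hne) (by rw [hlab]; exact hb.1) hbF ?_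
    rw [hlab, hFset, hcc]
    exact hch.conn
  exact ⟨F, ⟨⟨i, ha⟩, haF⟩, hmu⟩

/-- the chord component of `b` in the global state is the class of `b` -/
theorem reflTransGen_gstep_iff (h : GFam T u c S fam) (h3 : Module.finrank ℝ E = 3) {i : J}
    {P : Finset E} (hP : ∀ x, x ∈ P ↔ x ∈ S i ∧ T.dim x ≤ 1) {b w : E} (hb : b ∈ P) :
    Relation.ReflTransGen (GStep (h.gst h3)) b w ↔ w ∈ cls T (S i) P b := by
  constructor
  · intro hw
    have key : w ∈ S i ∧ w ∈ cls T (S i) P b := by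
      induction hw with
      | refl => exact ⟨((hP b).1 hb).1, self_mem_cls hb⟩
      | tail _ hs ih =>
        obtain ⟨h4, h5⟩ := st_of_gstep h h3 hP ih.1 hs
        exact ⟨h5, cls_closed ih.2 h4⟩
    exact key.2
  · intro hw
    have h1 := (mem_cls.1 hw).2
    clear hw
    induction h1 with
    | refl => exact .refl
    | @tail x y _ hs ih =>
      by_cases hxy : x = y
      · rw [← hxy]; exact ih
      · exact ih.tail (gstep_of_st h h3 hP hxy hs)

end gst

end Crest.Agent.R096.Main_4
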