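import Mathlib
import Crest.Agent.R096.Agl5_543
import Crest.Agent.R096.Cp2_298
import Crest.Agent.R096.Lab3_184

-- ▼ part R096/Ori1_543
section

/-! # Orientation 1 (row 96, helper543): cross products, sectors and the position `pos` on the
boundary of a 2-cell; parity counting along an edge -/

set_option autoImplicit false
set_option linter.unusedSectionVars false

open Set Filter Topology Metric

namespace Crest.Agent.R096.Ori_543

open Crest.Agent.R096.Msh_715 Crest.Agent.R096.Agl5_543 Crest.Agent.R096.St_147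
open Complex (arg)

/-! ### cross products and arguments -/

/-- the cross product -/
def cr (u v : ℂ) : ℝ := u.re * v.im - u.im * v.re

theorem cr_swap (u v : ℂ) : cr v u = - cr u v := by unfold cr; ring

theorem cr_self (u : ℂ) : cr u u = 0 := by unfold cr; ring

theorem cr_eq (u v : ℂ) : cr u v = ‖u‖ * ‖v‖ * Real.sin (arg v - arg u) := by
  have h1 : u.re = ‖u‖ * Real.cos (arg u) := (Complex.norm_mul_cos_arg u).symm
  have h2 : u.im = ‖u‖ * Real.sin (arg u) := (Complex.norm_mul_sin_arg u).symm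
  have h3 : v.re = ‖v‖ * Real.cos (arg v) := (Complex.norm_mul_cos_arg v).symm
  have h4 : v.im = ‖v‖ * Real.sin (arg v) := (Complex.norm_mul_sin_arg v).symm
  unfold cr
  rw [Real.sin_sub, h1, h2, h3, h4]
  ring

theorem sin_pos_iff {x : ℝ} (h1 : -(2 * Real.pi) < x) (h2 : x < 2 * Real.pi) :
    0 < Real.sin x ↔ (0 < x ∧ x < Real.pi) ∨ x < -Real.pi := by
  have hp := Real.pi_pos
  constructor
  · intro h
    by_contra hcon
    push Not at hcon
    obtain ⟨h3, h4⟩ := hcon
    rcases le_or_gt x 0 with h5 | h5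
    · have := Real.sin_nonpos_of_nonpos_of_neg_pi_le h5 h4
      linarith
    · have h6 := h3 h5
      have h7 : Real.sin (x - Real.pi) = - Real.sin x := Real.sin_sub_pi x
      have h8 : 0 ≤ Real.sin (x - Real.pi) :=
        Real.sin_nonneg_of_nonneg_of_le_pi (by linarith) (by linarith)
      linarith
  · rintro (⟨h3, h4⟩ | h3)
    · exact Real.sin_pos_of_pos_of_lt_pi h3 h4
    · have h7 : Real.sin (x + 2 * Real.pi) = Real.sin x := Real.sin_add_two_pi x
      rw [← h7]
      exact Real.sin_pos_of_pos_of_lt_pi (by linarith) (by linarith)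

theorem cr_pos_iff {u v : ℂ} (hu : u ≠ 0) (hv : v ≠ 0) :
    0 < cr u v ↔ (arg u < arg v ∧ arg v < arg u + Real.pi) ∨ arg v < arg u - Real.pi := by
  have h1 : 0 < ‖u‖ * ‖v‖ := mul_pos (norm_pos_iff.2 hu) (norm_pos_iff.2 hv)
  rw [cr_eq, mul_pos_iff_of_pos_left h1]
  have hp := Real.pi_pos
  have a1 := Complex.neg_pi_lt_arg u
  have a2 := Complex.arg_le_pi u
  have a3 := Complex.neg_pi_lt_arg v
  have a4 := Complex.arg_le_pi v
  rw [sin_pos_iff (by linarith) (by linarith)]
  constructor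
  · rintro (⟨h2, h3⟩ | h2)
    · left; constructor <;> linarith
    · right; linarith
  · rintro (⟨h2, h3⟩ | h2)
    · left; constructor <;> linarith
    · right; linarith

/-- the open sector from `u` to `w` in terms of arguments -/
theorem sector_iff {u v w : ℂ} (hu : u ≠ 0) (hv : v ≠ 0) (hw : w ≠ 0) (huw : 0 < cr u w) :
    (0 < cr u v ∧ 0 < cr v w) ↔
      ((arg u < arg w ∧ arg u < arg v ∧ arg v < arg w) ∨
        (arg w < arg u ∧ (arg u < arg v ∨ arg v < arg w))) := by
  have hp := Real.pi_pos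
  have a1 := Complex.neg_pi_lt_arg u
  have a2 := Complex.arg_le_pi u
  have a3 := Complex.neg_pi_lt_arg v
  have a4 := Complex.arg_le_pi v
  have a5 := Complex.neg_pi_lt_arg w
  have a6 := Complex.arg_le_pi w
  rw [cr_pos_iff hu hw] at huw
  rw [cr_pos_iff hu hv, cr_pos_iff hv hw]
  constructor
  · rintro ⟨(⟨h1, h2⟩ | h1), (⟨h3, h4⟩ | h3)⟩
    · left; refine ⟨by linarith, h1, h3⟩
    · rcases huw with ⟨h5, h6⟩ | h5
      · exfalso; linarith
      · right; exact ⟨by linarith, Or.inl h1⟩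
    · rcases huw with ⟨h5, h6⟩ | h5
      · exfalso; linarith
      · right; exact ⟨by linarith, Or.inr h3⟩
    · exfalso; linarith
  · rintro (⟨h1, h2, h3⟩ | ⟨h1, h2 | h2⟩)
    · rcases huw with ⟨h5, h6⟩ | h5
      · exact ⟨Or.inl ⟨h2, by linarith⟩, Or.inl ⟨h3, by linarith⟩⟩
      · exfalso; linarith
    · rcases huw with ⟨h5, h6⟩ | h5
      · exfalso; linarith
      · exact ⟨Or.inl ⟨h2, by linarith⟩, Or.inr (by linarith)⟩
    · rcases huw with ⟨h5, h6⟩ | h5
      · exfalso; linarith
      · exact ⟨Or.inr (by linarith), Or.inl ⟨h2, by linarith⟩⟩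

/-- a vector in the open sector is a positive combination of the two sides -/
theorem exists_comb {u v w : ℂ} (huw : 0 < cr u w) (h1 : 0 < cr u v) (h2 : 0 < cr v w) :
    ∃ s t : ℝ, 0 < s ∧ 0 < t ∧ v = s • u + t • w := by
  refine ⟨cr v w / cr u w, cr u v / cr u w, div_pos h2 huw, div_pos h1 huw, ?_⟩
  have hne : cr u w ≠ 0 := huw.ne'
  have key : (cr u w) • v = (cr v w) • u + (cr u v) • w := by
    apply Complex.ext
    · simp only [Complex.real_smul, Complex.add_re, Complex.mul_re, Complex.ofReal_re,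
        Complex.ofReal_im, zero_mul, sub_zero]
      unfold cr; ring
    · simp only [Complex.real_smul, Complex.add_im, Complex.mul_im, Complex.ofReal_re,
        Complex.ofReal_im, zero_mul, add_zero]
      unfold cr; ring
  have h3 : v = (cr u w)⁻¹ • ((cr v w) • u + (cr u v) • w) := by
    rw [← key, smul_smul, inv_mul_cancel₀ hne, one_smul]
  refine h3.trans ?_
  rw [smul_add, smul_smul, smul_smul, div_eq_inv_mul, div_eq_inv_mul]

/-! ### coordinates on a 2-cell -/

variable {E : Type} [NormedAddCommGroup E] [NormedSpace ℝ E] [FiniteDimensional ℝ E]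
variable {Om : Set E} {ι : Type} {T : Tiling Om ι}

/-- the complex coordinate of a point of a 2-cell, centred at `F.pt` -/
noncomputable def crd (F : C2 T) (x : E) : ℂ := by
  classical
  exact if h : x - F.pt ∈ T.V F.pt then F.lin.symm ⟨x - F.pt, h⟩ else 0

theorem crd_eq (F : C2 T) {x : E} (h : x - F.pt ∈ T.V F.pt) :
    crd F x = F.lin.symm ⟨x - F.pt, h⟩ := by
  unfold crd
  rw [dif_pos h]

theorem pos_eq (F : C2 T) {x : E} (h : x ∈ F.set) : F.pos x = arg (crd F x) := by
  rw [F.pos_eq_arg h, crd_eq F (F.sub_mem_V h)]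


theorem crd_comb (F : C2 T) {x y : E} (hx : x ∈ F.set) (hy : y ∈ F.set) {a b : ℝ}
    (hab : a + b = 1) : crd F (a • x + b • y) = a • crd F x + b • crd F y := by
  have h1 := F.sub_mem_V hx
  have h2 := F.sub_mem_V hy
  have h3 : a • x + b • y - F.pt = a • (x - F.pt) + b • (y - F.pt) := by
    have : F.pt = a • F.pt + b • F.pt := by rw [← add_smul, hab, one_smul]
    nth_rewrite 1 [this]
    rw [smul_sub, smul_sub]; abel
  have h4 : a • x + b • y - F.pt ∈ T.V F.pt := by
    rw [h3]
    exact (T.V F.pt).add_mem ((T.V F.pt).smul_mem _ h1) ((T.V F.pt).smul_mem _ h2)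
  rw [crd_eq F h4, crd_eq F h1, crd_eq F h2, ← map_smul, ← map_smul, ← map_add]
  congr 1
  exact Subtype.ext h3

theorem pt_mem_opn (F : C2 T) : F.pt ∈ F.1.opn := T.self_mem_oc _

theorem pt_notMem_bd (F : C2 T) : F.pt ∉ F.bd := fun h => h.2 (pt_mem_opn F)

theorem crd_ne (F : C2 T) {x : E} (hx : x ∈ F.bd) : crd F x ≠ 0 := by
  intro h
  have hxs := F.bd_sub hx
  rw [crd_eq F (F.sub_mem_V hxs)] at h
  have h1 : (⟨x - F.pt, F.sub_mem_V hxs⟩ : T.V F.pt) = 0 := by
    have := congrArg F.lin h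
    rwa [F.lin.apply_symm_apply, map_zero] at this
  have h2 : x - F.pt = 0 := congrArg Subtype.val h1
  rw [sub_eq_zero] at h2
  rw [h2] at hx
  exact pt_notMem_bd F hx

/-- the ends of a segment in the boundary are independent -/
theorem cr_ne (F : C2 T) {x y : E} (hs : segment ℝ x y ⊆ F.bd) (hne : x ≠ y) :
    cr (crd F x) (crd F y) ≠ 0 := by
  intro h
  have hx : x ∈ F.bd := hs (left_mem_segment ℝ x y)
  have hy : y ∈ F.bd := hs (right_mem_segment ℝ x y)
  have hxs := F.bd_sub hx
  have hys := F.bd_sub hy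
  set u := crd F x with hu
  set v := crd F y with hv
  have hu0 : u ≠ 0 := crd_ne F hx
  have hv0 : v ≠ 0 := crd_ne F hy
  -- `v = l • u`
  obtain ⟨l, hl⟩ : ∃ l : ℝ, v = l • u := by
    by_cases h1 : u.re = 0
    · have h2 : u.im ≠ 0 := fun h2 => hu0 (Complex.ext h1 h2)
      refine ⟨v.im / u.im, Complex.ext ?_ ?_⟩
      · have h3 : u.im * v.re = 0 := by
          unfold cr at h; rw [h1] at h; linarith
        have h4 : v.re = 0 := by
          rcases mul_eq_zero.1 h3 with h5 | h5
          · exact absurd h5 h2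
          · exact h5
        simp [h1, h4]
      · simp [div_mul_cancel₀ _ h2]
    · refine ⟨v.re / u.re, Complex.ext ?_ ?_⟩
      · simp [div_mul_cancel₀ _ h1]
      · unfold cr at h
        have h3 : v.im = v.re / u.re * u.im := by
          field_simp
          linarith
        simp [h3]
  have hl0 : l ≠ 0 := by
    rintro rfl
    rw [zero_smul] at hl
    exact hv0 hl
  rcases lt_or_gt_of_ne hl0 with h1 | h1
  · -- the segment passes through `F.pt`
    have hm : (1 - 1 / (1 - l)) + 1 / (1 - l) = 1 := by ring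
    have h1l : 0 < 1 - l := by linarith
    have hpos : 0 ≤ 1 / (1 - l) := by positivity
    have hle : 1 / (1 - l) ≤ 1 := by rw [div_le_one h1l]; linarith
    have hseg : (1 - 1 / (1 - l)) • x + (1 / (1 - l)) • y ∈ segment ℝ x y :=
      ⟨1 - 1 / (1 - l), 1 / (1 - l), by linarith, hpos, hm, rfl⟩
    have h2 := crd_comb F hxs hys hm
    have h3 : crd F ((1 - 1 / (1 - l)) • x + (1 / (1 - l)) • y) = 0 := by
      rw [h2, ← hu, ← hv, hl, smul_smul, ← add_smul]
      have : 1 - 1 / (1 - l) + 1 / (1 - l) * l = 0 := by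
        field_simp; ring
      rw [this, zero_smul]
    exact crd_ne F (hs hseg) h3
  · -- the arguments agree
    have h2 : F.pos x = F.pos y := by
      rw [pos_eq F hxs, pos_eq F hys, ← hu, ← hv, hl]
      rw [show l • u = ((l : ℝ) : ℂ) * u from by rw [Complex.real_smul], Complex.arg_real_mul _ h1]
    exact hne (F.pos_injOn hx hy h2)

/-- boundary points in the open sector over a boundary segment lie on the segment -/
theorem mem_openSegment_iff (F : C2 T) {x y v : E} (hs : segment ℝ x y ⊆ F.bd)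
    (hxy : 0 < cr (crd F x) (crd F y)) (hv : v ∈ F.bd) :
    v ∈ openSegment ℝ x y ↔ (0 < cr (crd F x) (crd F v) ∧ 0 < cr (crd F v) (crd F y)) := by
  have hx : x ∈ F.bd := hs (left_mem_segment ℝ x y)
  have hy : y ∈ F.bd := hs (right_mem_segment ℝ x y)
  have hxs := F.bd_sub hx
  have hys := F.bd_sub hy
  constructor
  · rintro ⟨a, b, ha, hb, hab, rfl⟩
    have h1 := crd_comb F hxs hys hab
    rw [h1]
    have e1 : cr (crd F x) (a • crd F x + b • crd F y) = b * cr (crd F x) (crd F y) := by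
      unfold cr
      simp only [Complex.real_smul, Complex.add_im, Complex.add_re, Complex.mul_im,
        Complex.mul_re, Complex.ofReal_re, Complex.ofReal_im, zero_mul, add_zero, sub_zero]
      ring
    have e2 : cr (a • crd F x + b • crd F y) (crd F y) = a * cr (crd F x) (crd F y) := by
      unfold cr
      simp only [Complex.real_smul, Complex.add_im, Complex.add_re, Complex.mul_im,
        Complex.mul_re, Complex.ofReal_re, Complex.ofReal_im, zero_mul, add_zero, sub_zero]
      ring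
    rw [e1, e2]
    exact ⟨mul_pos hb hxy, mul_pos ha hxy⟩
  · rintro ⟨h1, h2⟩
    obtain ⟨s, t, hs0, ht0, hv'⟩ := exists_comb hxy h1 h2
    have hst : 0 < s + t := by linarith
    have hab : s / (s + t) + t / (s + t) = 1 := by field_simp
    set z := (s / (s + t)) • x + (t / (s + t)) • y with hz
    have hzseg : z ∈ openSegment ℝ x y :=
      ⟨s / (s + t), t / (s + t), by positivity, by positivity, hab, rfl⟩
    have hzbd : z ∈ F.bd := hs (openSegment_subset_segment ℝ x y hzseg)
    have h3 : crd F v = (s + t) • crd F z := by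
      rw [hz, crd_comb F hxs hys hab, smul_add, smul_smul, smul_smul,
        mul_div_cancel₀ _ hst.ne', mul_div_cancel₀ _ hst.ne']
      exact hv'
    have h4 : F.pos v = F.pos z := by
      rw [pos_eq F (F.bd_sub hv), pos_eq F (F.bd_sub hzbd), h3]
      rw [show (s + t) • crd F z = (((s + t : ℝ)) : ℂ) * crd F z from by rw [Complex.real_smul],
        Complex.arg_real_mul _ hst]
    rw [F.pos_injOn hv hzbd h4]
    exact hzseg

/-- the open segment in terms of positions -/
theorem mem_openSegment_iff' (F : C2 T) {x y v : E} (hs : segment ℝ x y ⊆ F.bd)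
    (hxy : 0 < cr (crd F x) (crd F y)) (hv : v ∈ F.bd) :
    v ∈ openSegment ℝ x y ↔ ((F.pos x < F.pos y ∧ F.pos x < F.pos v ∧ F.pos v < F.pos y) ∨
        (F.pos y < F.pos x ∧ (F.pos x < F.pos v ∨ F.pos v < F.pos y))) := by
  have hx : x ∈ F.bd := hs (left_mem_segment ℝ x y)
  have hy : y ∈ F.bd := hs (right_mem_segment ℝ x y)
  rw [mem_openSegment_iff F hs hxy hv, sector_iff (crd_ne F hx) (crd_ne F hv) (crd_ne F hy) hxy,
    ← pos_eq F (F.bd_sub hx), ← pos_eq F (F.bd_sub hy), ← pos_eq F (F.bd_sub hv)]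

/-! ### parity counting -/

open Classical in
/-- number mod 2 of the points of `Y` on `F` with position `< t` (`cntP` of 117) -/
noncomputable def cnt (F : C2 T) (Y : Finset E) (t : ℝ) : ZMod 2 :=
  ((Y.filter (fun v => v ∈ F.On ∧ F.pos v < t)).card : ZMod 2)


end Crest.Agent.R096.Ori_543
end

-- ▼ part R096/Ori2_543
section

/-! # Orientation 2 (row 96, helper543): the two faces of a tile at an edge are oppositely
oriented along the edge -/

set_option autoImplicit false
set_option linter.unusedSectionVars false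

open Set Filter Topology Metric

namespace Crest.Agent.R096.Ori_543

open Crest.Agent.R096.Msh_715 Crest.Agent.R096.Agl5_543 Crest.Agent.R096.St_147
  Crest.Agent.R096.Agl3_543

variable {E : Type} [NormedAddCommGroup E] [NormedSpace ℝ E] [FiniteDimensional ℝ E]
variable {Om : Set E} {ι : Type} {T : Tiling Om ι}

section vol

variable (h3 : Module.finrank ℝ E = 3)

/-- coordinates in a fixed basis -/
noncomputable def co (i : Fin 3) : E →ₗ[ℝ] ℝ := (Module.finBasisOfFinrankEq ℝ E h3).coord i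

/-- a fixed volume form -/
noncomputable def vol (a b c : E) : ℝ :=
  co h3 0 a * (co h3 1 b * co h3 2 c - co h3 2 b * co h3 1 c)
    - co h3 1 a * (co h3 0 b * co h3 2 c - co h3 2 b * co h3 0 c)
    + co h3 2 a * (co h3 0 b * co h3 1 c - co h3 1 b * co h3 0 c)

theorem co_ext {v w : E} (h : ∀ i, co h3 i v = co h3 i w) : v = w :=
  (Module.finBasisOfFinrankEq ℝ E h3).ext_elem fun i => h i

theorem exists_rel {a b c : E} (h : vol h3 a b c = 0) :
    ∃ s t r : ℝ, (s ≠ 0 ∨ t ≠ 0 ∨ r ≠ 0) ∧ s • a + t • b + r • c = 0 := by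
  let M : Matrix (Fin 3) (Fin 3) ℝ := Matrix.of ![fun j => co h3 j a, fun j => co h3 j b,
    fun j => co h3 j c]
  have hdet : M.det = 0 := by
    rw [Matrix.det_fin_three]
    simp only [M, Matrix.of_apply, Matrix.cons_val_zero, Matrix.cons_val_one, Matrix.cons_val]
    unfold vol at h
    linarith
  obtain ⟨v, hv, hv0⟩ := Matrix.exists_vecMul_eq_zero_iff.2 hdet
  refine ⟨v 0, v 1, v 2, ?_, ?_⟩
  · by_contra hcon
    push Not at hcon
    apply hv
    ext i
    fin_cases i
    · exact hcon.1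
    · exact hcon.2.1
    · exact hcon.2.2
  · apply co_ext h3
    intro i
    have h1 := congrFun hv0 i
    simp only [Matrix.vecMul, dotProduct, Fin.sum_univ_three, Pi.zero_apply, M, Matrix.of_apply,
      Matrix.cons_val_zero, Matrix.cons_val_one, Matrix.cons_val] at h1
    rw [map_add, map_add, map_smul, map_smul, map_smul, map_zero]
    simp only [smul_eq_mul]
    exact h1

/-- Cramer's rule -/
theorem cramer (a b c v : E) : vol h3 a b c • v =
    vol h3 v b c • a + vol h3 a v c • b + vol h3 a b v • c := by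
  apply co_ext h3
  intro i
  rw [map_add, map_add, map_smul, map_smul, map_smul, map_smul]
  simp only [smul_eq_mul]
  unfold vol
  fin_cases i <;> · simp only [Fin.zero_eta, Fin.mk_one, Fin.reduceFinMk]; ring






/-- the volume over the plane of a 2-cell -/
theorem vol_face (F : C2 T) {x y : E} (hx : x ∈ F.set) (hy : y ∈ F.set) (n : E) :
    vol h3 (x - F.pt) (y - F.pt) n = cr (crd F x) (crd F y) *
      vol h3 ((F.lin 1 : T.V F.pt) : E) ((F.lin Complex.I : T.V F.pt) : E) n := by
  have key : ∀ {v : E}, v ∈ F.set → v - F.pt = (crd F v).re • ((F.lin 1 : T.V F.pt) : E) +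
      (crd F v).im • ((F.lin Complex.I : T.V F.pt) : E) := by
    intro v hv
    have h1 : (⟨v - F.pt, F.sub_mem_V hv⟩ : T.V F.pt) = F.lin (crd F v) := by
      rw [crd_eq F (F.sub_mem_V hv), F.lin.apply_symm_apply]
    have h2 : crd F v = (crd F v).re • (1 : ℂ) + (crd F v).im • Complex.I := by
      apply Complex.ext <;> simp
    have h4 := congrArg Subtype.val h1
    rw [h2, map_add, map_smul, map_smul] at h4
    exact h4
  rw [key hx, key hy]
  unfold vol cr
  simp only [map_add, map_smul, smul_eq_mul]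
  ring

end vol

/-! ### the wedge of a tile at an edge -/

/-- an interior point of a tile -/
noncomputable def cen (T : Tiling Om ι) (q : ι) : E := (T.ne q).choose

theorem cen_mem (T : Tiling Om ι) (q : ι) : cen T q ∈ Msh_715.I (T.H q) := (T.ne q).choose_spec

/-- an active functional of the tile along a side -/
theorem exists_act (h3 : Module.finrank ℝ E = 3) {F : C2 T} {q : ι} (hq : q ∈ F.side h3) :
    ∃ h ∈ T.H q, ∀ y ∈ F.set, h.1 y = h.2 := by
  have hq' : q ∈ T.at_ F.pt := C2.mem_side.1 hq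
  obtain ⟨h, hh, he⟩ := exists_active T F.pt_mem (by rw [F.dim_pt, h3]; norm_num) hq'
  refine ⟨h, hh, fun y hy => ?_⟩
  rw [F.set_eq] at hy
  exact (hy q hq' h hh).2 he

/-- functionals active at `w` vanish on the direction of the edge -/
theorem act_dir {w x y : E} (hx : x ∈ T.cc w) (hy : y ∈ T.cc w) {q : ι} (hq : q ∈ T.at_ w)
    {h : (E →L[ℝ] ℝ) × ℝ} (hh : h ∈ T.H q) (he : h.1 w = h.2) : h.1 (y - x) = 0 := by
  rw [map_sub, (hx q hq h hh).2 he, (hy q hq h hh).2 he, sub_self]

/-- the direction space of a one-dimensional cell -/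
theorem mem_V_line {w x y : E} (hw : T.dim w = 1) (hx : x ∈ T.cc w) (hy : y ∈ T.cc w)
    (hxy : x ≠ y) {v : E} (hv : v ∈ T.V w) : ∃ r : ℝ, v = r • (y - x) := by
  have h1 : y - x ∈ T.V w := T.sub_mem_V' hy hx
  have h2 : (⟨y - x, h1⟩ : T.V w) ≠ 0 := by
    intro h
    exact hxy (sub_eq_zero.1 (congrArg Subtype.val h)).symm
  obtain ⟨r, hr⟩ := (finrank_eq_one_iff_of_nonzero' (⟨y - x, h1⟩ : T.V w) h2).1 hw ⟨v, hv⟩
  exact ⟨r, (congrArg Subtype.val hr).symm⟩

/-- the centre of a 2-cell does not lie on the line of an edge of it -/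
theorem pt_notMem_line {F : C2 T} {w : E} (hwF : w ∈ F.On) : F.pt - w ∉ T.V w := by
  intro hv
  have hwO := F.set_sub hwF.1
  have hwcc : w ∈ T.cc F.pt := by rw [← F.set_eq]; exact hwF.1
  obtain ⟨r, hr, hb⟩ := T.exists_ball_oc hwO
  -- a small move towards the centre
  obtain ⟨s, hs0, hs1, hs2⟩ : ∃ s : ℝ, 0 < s ∧ s ≤ 1 ∧ ‖s • (F.pt - w)‖ < r := by
    refine ⟨min 1 (r / (2 * (‖F.pt - w‖ + 1))), lt_min one_pos (by positivity), min_le_left _ _,
      ?_⟩
    rw [norm_smul, Real.norm_of_nonneg (le_min zero_le_one (by positivity))]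
    have h1 : min 1 (r / (2 * (‖F.pt - w‖ + 1))) ≤ r / (2 * (‖F.pt - w‖ + 1)) := min_le_right _ _
    have h2 : min 1 (r / (2 * (‖F.pt - w‖ + 1))) * ‖F.pt - w‖ ≤
        r / (2 * (‖F.pt - w‖ + 1)) * ‖F.pt - w‖ := mul_le_mul_of_nonneg_right h1 (norm_nonneg _)
    have h4 : r / (2 * (‖F.pt - w‖ + 1)) * ‖F.pt - w‖ < r := by
      rw [div_mul_eq_mul_div, div_lt_iff₀ (by positivity)]
      nlinarith [norm_nonneg (F.pt - w)]
    linarith
  have h1 := hb (s • (F.pt - w)) ((T.V w).smul_mem _ hv) hs2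
  have h2 := T.move_mem_oc hwcc hs0 hs1
  have d1 := T.dim_eq_of_mem_oc hwO h1
  have d2 := T.dim_eq_of_mem_oc F.pt_mem h2
  rw [d1, F.dim_pt, hwF.2] at d2
  omega

variable (h3 : Module.finrank ℝ E = 3)

/-- the wedge volume of a side at an edge point -/
theorem wedge_ne {F : C2 T} {q : ι} (hq : q ∈ F.side h3) {w x y : E} (hw : w ∈ F.On)
    (hx : x ∈ T.cc w) (hy : y ∈ T.cc w) (hxy : x ≠ y) :
    vol h3 (w - cen T q) (y - x) (F.pt - w) ≠ 0 := by
  intro h0
  obtain ⟨s, t, r, hne, hrel⟩ := exists_rel h3 h0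
  obtain ⟨h, hh, he⟩ := exists_act h3 hq
  have hqw : q ∈ T.at_ w := C2.sub_tile hq hw.1
  have hFpt : F.pt ∈ F.set := by rw [F.set_eq]; exact T.self_mem_cc _
  have e1 : h.1 (y - x) = 0 := act_dir hx hy hqw hh (he w hw.1)
  have e2 : h.1 (F.pt - w) = 0 := by rw [map_sub, he _ hFpt, he _ hw.1, sub_self]
  have e3 : 0 < h.1 (w - cen T q) := by
    rw [map_sub, he _ hw.1]
    have := cen_mem T q h hh
    linarith
  have h4 := congrArg h.1 hrel
  rw [map_add, map_add, map_smul, map_smul, map_smul, e1, e2, map_zero] at h4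
  simp only [smul_eq_mul, mul_zero, add_zero] at h4
  have hs : s = 0 := by
    rcases mul_eq_zero.1 h4 with h5 | h5
    · exact h5
    · exact absurd h5 e3.ne'
  rw [hs, zero_smul, zero_add] at hrel
  by_cases hr : r = 0
  · rw [hr, zero_smul, add_zero] at hrel
    have ht : t ≠ 0 := by
      rcases hne with h5 | h5 | h5
      · exact absurd hs h5
      · exact h5
      · exact absurd hr h5
    have := (smul_eq_zero.1 hrel).resolve_left ht
    exact hxy (sub_eq_zero.1 this).symm
  · apply pt_notMem_line hw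
    have h5 : F.pt - w = (-(t / r)) • (y - x) := by
      have h6 : r • (F.pt - w) = -(t • (y - x)) := by
        rw [eq_neg_iff_add_eq_zero, add_comm]; exact hrel
      have h7 : F.pt - w = r⁻¹ • (r • (F.pt - w)) := by
        rw [smul_smul, inv_mul_cancel₀ hr, one_smul]
      rw [h7, h6, smul_neg, smul_smul, neg_smul, div_eq_inv_mul]
    rw [h5]
    exact (T.V w).smul_mem _ (T.sub_mem_V' hy hx)

/-- **the two sides of a tile at an edge lie on opposite sides of the plane through the edge and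
the centre of the tile** -/
theorem wedge_opp {F F' : C2 T} {q : ι} (hq : q ∈ F.side h3) (hq' : q ∈ F'.side h3)
    (hne : F ≠ F') {w x y : E} (hw : w ∈ F.On) (hw' : w ∈ F'.On)
    (hx : x ∈ T.cc w) (hy : y ∈ T.cc w) (hxy : x ≠ y) :
    vol h3 (w - cen T q) (y - x) (F.pt - w) * vol h3 (w - cen T q) (y - x) (F'.pt - w) < 0 := by
  by_contra hcon
  push Not at hcon
  set a := w - cen T q with ha
  set e := y - x with he
  have hD := wedge_ne h3 hq hw hx hy hxy
  have hD' := wedge_ne h3 hq' hw' hx hy hxy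
  have hqw : q ∈ T.at_ w := C2.sub_tile hq hw.1
  have hwO := F.set_sub hw.1
  have hFpt : F.pt ∈ F.set := by rw [F.set_eq]; exact T.self_mem_cc _
  have hFpt' : F'.pt ∈ F'.set := by rw [F'.set_eq]; exact T.self_mem_cc _
  have hwcc : w ∈ T.cc F.pt := by rw [← F.set_eq]; exact hw.1
  have hwcc' : w ∈ T.cc F'.pt := by rw [← F'.set_eq]; exact hw'.1
  -- expansion
  have hcr := cramer h3 a e (F.pt - w) (F'.pt - w)
  set D := vol h3 a e (F.pt - w) with hDdef
  obtain ⟨l, n, m, hm, hexp⟩ : ∃ l n m : ℝ, 0 < m ∧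
      F'.pt - w = l • a + n • e + m • (F.pt - w) := by
    refine ⟨vol h3 (F'.pt - w) e (F.pt - w) / D, vol h3 a (F'.pt - w) (F.pt - w) / D,
      vol h3 a e (F'.pt - w) / D, ?_, ?_⟩
    · have h1 : 0 < D * vol h3 a e (F'.pt - w) :=
        lt_of_le_of_ne hcon (Ne.symm (mul_ne_zero hD hD'))
      rcases mul_pos_iff.1 h1 with ⟨h2, h4⟩ | ⟨h2, h4⟩
      · exact div_pos h4 h2
      · exact div_pos_of_neg_of_neg h4 h2
    · have h1 : F'.pt - w = D⁻¹ • (D • (F'.pt - w)) := by
        rw [smul_smul, inv_mul_cancel₀ hD, one_smul]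
      refine h1.trans ?_
      rw [hcr, smul_add, smul_add, smul_smul, smul_smul, smul_smul, div_eq_inv_mul,
        div_eq_inv_mul, div_eq_inv_mul]
  -- the functionals
  obtain ⟨h, hh, hact⟩ := exists_act h3 hq
  obtain ⟨h', hh', hact'⟩ := exists_act h3 hq'
  have hP : ∀ {v : E} {g : (E →L[ℝ] ℝ) × ℝ}, v ∈ Msh_715.P (T.H q) → g ∈ T.H q →
      g.1 w = g.2 → g.1 (v - w) ≤ 0 := by
    intro v g hv hg hgw
    rw [map_sub, hgw]
    have := hv g hg
    linarith
  have hA : ∀ {g : (E →L[ℝ] ℝ) × ℝ}, g ∈ T.H q → g.1 w = g.2 → 0 < g.1 a := by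
    intro g hg hgw
    rw [ha, map_sub, hgw]
    have := cen_mem T q g hg
    linarith
  have hE : ∀ {g : (E →L[ℝ] ℝ) × ℝ}, g ∈ T.H q → g.1 w = g.2 → g.1 e = 0 := fun hg hgw =>
    act_dir hx hy hqw hg hgw
  have hl : l = 0 := by
    apply le_antisymm
    · -- from `h`
      have h1 := congrArg h.1 hexp
      rw [map_add, map_add, map_smul, map_smul, map_smul, hE hh (hact w hw.1)] at h1
      have h2 : h.1 (F.pt - w) = 0 := by rw [map_sub, hact _ hFpt, hact _ hw.1, sub_self]
      rw [h2] at h1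
      simp only [smul_eq_mul, mul_zero, add_zero] at h1
      have h4 := hP (C2.sub_tile hq' hFpt') hh (hact w hw.1)
      have h5 := hA hh (hact w hw.1)
      rw [h1] at h4
      by_contra hlt
      push Not at hlt
      have := mul_pos hlt h5
      linarith
    · -- from `h'`
      have h1 := congrArg h'.1 hexp
      rw [map_add, map_add, map_smul, map_smul, map_smul, hE hh' (hact' w hw'.1)] at h1
      have h2 : h'.1 (F'.pt - w) = 0 := by rw [map_sub, hact' _ hFpt', hact' _ hw'.1, sub_self]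
      rw [h2] at h1
      simp only [smul_eq_mul, mul_zero, add_zero] at h1
      have h4 := hP (C2.sub_tile hq hFpt) hh' (hact' w hw'.1)
      have h5 := hA hh' (hact' w hw'.1)
      by_contra hlt
      push Not at hlt
      have h6 := mul_neg_of_neg_of_pos hlt h5
      have h7 : m * h'.1 (F.pt - w) ≤ 0 := mul_nonpos_of_nonneg_of_nonpos hm.le h4
      linarith
  rw [hl, zero_smul, zero_add] at hexp
  -- the two open cells meet
  obtain ⟨r, hr, hb⟩ := T.exists_ball_oc hwO
  obtain ⟨s, hs0, hs1, hs2, hs3⟩ : ∃ s : ℝ, 0 < s ∧ s ≤ 1 ∧ s * m ≤ 1 / 2 ∧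
      s * (2 * ‖n • e‖) < r := by
    refine ⟨min 1 (min (1 / (2 * m)) (r / (2 * (2 * ‖n • e‖ + 1)))), by positivity,
      min_le_left _ _, ?_, ?_⟩
    · have h1 : min 1 (min (1 / (2 * m)) (r / (2 * (2 * ‖n • e‖ + 1)))) ≤ 1 / (2 * m) :=
        (min_le_right _ _).trans (min_le_left _ _)
      calc _ ≤ 1 / (2 * m) * m := mul_le_mul_of_nonneg_right h1 hm.le
        _ = 1 / 2 := by field_simp
    · have h1 : min 1 (min (1 / (2 * m)) (r / (2 * (2 * ‖n • e‖ + 1)))) ≤
          r / (2 * (2 * ‖n • e‖ + 1)) := (min_le_right _ _).trans (min_le_right _ _)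
      calc _ ≤ r / (2 * (2 * ‖n • e‖ + 1)) * (2 * ‖n • e‖) :=
            mul_le_mul_of_nonneg_right h1 (by positivity)
        _ < r := by
          rw [div_mul_eq_mul_div, div_lt_iff₀ (by positivity)]
          nlinarith [norm_nonneg (n • e)]
  have h1m : 0 < 1 - s * m := by linarith
  set u := w + (s / (1 - s * m)) • (n • e) with hu
  have hedir : n • e ∈ T.V w := (T.V w).smul_mem _ (T.sub_mem_V' hy hx)
  have huoc : u ∈ T.oc w := by
    refine hb _ ((T.V w).smul_mem _ hedir) ?_
    rw [norm_smul, Real.norm_of_nonneg (by positivity)]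
    have h4 : s / (1 - s * m) ≤ s * 2 := by
      rw [div_le_iff₀ h1m]
      nlinarith
    calc _ ≤ s * 2 * ‖n • e‖ := mul_le_mul_of_nonneg_right h4 (norm_nonneg _)
      _ = s * (2 * ‖n • e‖) := by ring
      _ < r := hs3
  have hucc : u ∈ T.cc F.pt := T.cc_sub_of_mem hwcc (T.oc_sub_cc w huoc)
  have p1 := T.move_mem_oc hucc (s := s * m) (by positivity) (by linarith)
  have p2 := T.move_mem_oc hwcc' hs0 hs1
  have heq : u + (s * m) • (F.pt - u) = w + s • (F'.pt - w) := by
    rw [hexp, hu]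
    generalize n • e = g
    have h5 : s • g = (1 - s * m) • ((s / (1 - s * m)) • g) := by
      rw [smul_smul, mul_div_cancel₀ _ h1m.ne']
    generalize (s / (1 - s * m)) • g = g' at h5 ⊢
    rw [smul_add, h5]
    module
  rw [heq] at p1
  have h6 : T.oc F.pt = T.oc F'.pt := by
    rcases T.oc_disjoint_or_eq F.pt_mem F'.pt_mem with h7 | h7
    · exact absurd p2 (disjoint_left.1 h7 p1)
    · exact h7
  apply hne
  apply C2.ext
  rw [F.set_eq, F'.set_eq]
  refine (T.cc_eq_iff F'.pt_mem).2 ?_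
  rw [← h6]
  exact T.self_mem_oc _

/-- orientation number of a side of a tile: the sign of this number compares the coordinates of
the face with the outward direction -/
noncomputable def epsR (q : ι) (F : C2 T) : ℝ :=
  vol h3 ((F.lin 1 : T.V F.pt) : E) ((F.lin Complex.I : T.V F.pt) : E) (F.pt - cen T q)

/-- **opposite orientations along the common edge** -/
theorem eps_opp {F F' : C2 T} {q : ι} (hq : q ∈ F.side h3) (hq' : q ∈ F'.side h3)
    (hne : F ≠ F') {w x y : E} (hw : w ∈ F.On) (hw' : w ∈ F'.On)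
    (hx : x ∈ T.cc w) (hy : y ∈ T.cc w) (hxy : x ≠ y) :
    (epsR h3 q F * cr (crd F x) (crd F y)) * (epsR h3 q F' * cr (crd F' x) (crd F' y)) < 0 := by
  have key : ∀ {G : C2 T}, w ∈ G.On → epsR h3 q G * cr (crd G x) (crd G y) =
      vol h3 (w - cen T q) (y - x) (G.pt - w) := by
    intro G hwG
    have hsub : T.cc w ⊆ G.set := by
      rw [G.set_eq]
      refine T.cc_sub_of_mem ?_
      rw [← G.set_eq]; exact hwG.1
    have h1 := vol_face h3 G (hsub hx) (hsub hy) (G.pt - cen T q)
    rw [mul_comm]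
    unfold epsR
    rw [← h1]
    -- `x = w + s e`
    obtain ⟨s, hs⟩ := mem_V_line hwG.2 hx hy hxy (T.sub_mem_V' hx (T.self_mem_cc w))
    have e1 : x - G.pt = s • (y - x) + (w - cen T q) - (G.pt - cen T q) := by rw [← hs]; abel
    have e2 : y - G.pt = (y - x) + (x - G.pt) := by abel
    have e3 : G.pt - w = (G.pt - cen T q) - (w - cen T q) := by abel
    rw [e2, e1, e3]
    unfold vol
    simp only [map_add, map_sub, map_smul, smul_eq_mul]
    ring
  rw [key hw, key hw']
  exact wedge_opp h3 hq hq' hne hw hw' hx hy hxy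

end Crest.Agent.R096.Ori_543
end

-- ▼ part R096/Ori3_543

/-! # Orientation 3 (row 96, helper543): `pos` along an edge, the orientation data `Cp_298.Ori` of
the mesh of a tiling, parallel points `Cp_298.Par`, counting along an edge -/

set_option autoImplicit false
set_option linter.unusedSectionVars false

open Set Filter Topology Metric

namespace Crest.Agent.R096.Ori_543

open Crest.Agent.R096.Msh_715 Crest.Agent.R096.Agl5_543 Crest.Agent.R096.St_147
  Crest.Agent.R096.Agl1_543 Crest.Agent.R096.Agl2_543 Crest.Agent.R096.Agl3_543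

variable {E : Type} [NormedAddCommGroup E] [NormedSpace ℝ E] [FiniteDimensional ℝ E]
variable {Om : Set E} {ι : Type} {T : Tiling Om ι}

/-! ### positions along an edge -/

theorem cc_sub_set {F : C2 T} {w : E} (hw : w ∈ F.On) : T.cc w ⊆ F.set := by
  rw [F.set_eq]
  refine T.cc_sub_of_mem ?_
  rw [← F.set_eq]; exact hw.1

theorem on_oc {F : C2 T} {w x : E} (hw : w ∈ F.On) (hx : x ∈ T.oc w) : x ∈ F.On := by
  have hwO := F.set_sub hw.1
  refine ⟨cc_sub_set hw (T.oc_sub_cc w hx), ?_⟩
  rw [T.dim_eq_of_mem_oc hwO hx]; exact hw.2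

theorem mem_oc_symm {w x : E} (hw : w ∈ Om) (hx : x ∈ T.oc w) : w ∈ T.oc x := by
  rw [T.oc_eq_of_mem hw hx]; exact T.self_mem_oc w

theorem on_iff_oc {F : C2 T} {w x : E} (hw : w ∈ Om) (hx : x ∈ T.oc w) :
    x ∈ F.On ↔ w ∈ F.On :=
  ⟨fun h => on_oc h (mem_oc_symm hw hx), fun h => on_oc h hx⟩

theorem cc_sub_bd {F : C2 T} {w : E} (hw : w ∈ F.On) : T.cc w ⊆ F.bd := by
  intro z hz
  refine (F.mem_bd_iff (cc_sub_set hw hz)).2 ?_
  have h1 := T.dim_le hz
  rw [hw.2] at h1
  exact h1

theorem seg_bd {F : C2 T} {w x y : E} (hw : w ∈ F.On) (hx : x ∈ T.cc w) (hy : y ∈ T.cc w) :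
    segment ℝ x y ⊆ F.bd :=
  ((T.convex_cc w).segment_subset hx hy).trans (cc_sub_bd hw)

/-- **positions along an edge** -/
theorem pos_lt_iff {F : C2 T} {w x y : E} (hw : w ∈ F.On) (hx : x ∈ T.oc w) (hy : y ∈ T.oc w) :
    F.pos x < F.pos y ↔ 0 < cr (crd F x) (crd F y) := by
  have key : ∀ x y, x ∈ T.oc w → y ∈ T.oc w → 0 < cr (crd F x) (crd F y) →
      F.pos x < F.pos y := by
    intro x y hx hy h
    have hseg := seg_bd hw (T.oc_sub_cc w hx) (T.oc_sub_cc w hy)
    by_contra hcon
    push Not at hcon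
    have hne : x ≠ y := by
      rintro rfl
      rw [cr_self] at h; exact lt_irrefl _ h
    have hxb : x ∈ F.bd := hseg (left_mem_segment ℝ x y)
    have hyb : y ∈ F.bd := hseg (right_mem_segment ℝ x y)
    have hlt : F.pos y < F.pos x :=
      lt_of_le_of_ne hcon fun e => hne (F.pos_injOn hxb hyb e.symm)
    have h1 : F.cut ∈ openSegment ℝ x y := (mem_openSegment_iff' F hseg h F.cut_bd).2
      (Or.inr ⟨hlt, Or.inl (by rw [F.pos_cut]; exact F.pos_lt_pi (on_oc hw hx))⟩)
    have h2 : F.cut ∈ T.oc w := (T.convex_oc w).openSegment_subset hx hy h1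
    have h3 := (on_oc hw h2).2
    rw [F.dim_cut] at h3
    exact absurd h3 (by norm_num)
  refine ⟨fun h => ?_, key x y hx hy⟩
  have hseg := seg_bd hw (T.oc_sub_cc w hx) (T.oc_sub_cc w hy)
  have hne : x ≠ y := by
    rintro rfl
    exact lt_irrefl _ h
  rcases lt_or_gt_of_ne (cr_ne F hseg hne) with h1 | h1
  · exfalso
    have h2 := key y x hy hx (by rw [cr_swap]; linarith)
    exact lt_asymm h h2
  · exact h1

/-- the open segment between two points of one edge, in terms of positions -/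
theorem mem_openSegment_pos {F : C2 T} {w x y v : E} (hw : w ∈ F.On) (hx : x ∈ T.oc w)
    (hy : y ∈ T.oc w) (hxy : F.pos x < F.pos y) (hv : v ∈ F.bd) :
    v ∈ openSegment ℝ x y ↔ F.pos x < F.pos v ∧ F.pos v < F.pos y := by
  have hseg := seg_bd hw (T.oc_sub_cc w hx) (T.oc_sub_cc w hy)
  rw [mem_openSegment_iff' F hseg ((pos_lt_iff hw hx hy).1 hxy) hv]
  constructor
  · rintro (h | h)
    · exact ⟨h.2.1, h.2.2⟩
    · exact absurd h.1 (not_lt.2 hxy.le)
  · intro h
    exact Or.inl ⟨hxy, h.1, h.2⟩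

/-- positions on two different edges are not mixed -/
theorem pos_sep {F : C2 T} {w w' x x' : E} (hw : w ∈ F.On) (hw' : w' ∈ F.On)
    (hne : T.oc w ≠ T.oc w') (hlt : F.pos w < F.pos w') (hx : x ∈ T.oc w) (hx' : x' ∈ T.oc w') :
    F.pos x < F.pos x' := by
  have hwO := F.set_sub hw.1
  have hwO' := F.set_sub hw'.1
  have hdis : Disjoint (T.oc w) (T.oc w') := by
    rcases T.oc_disjoint_or_eq hwO hwO' with h | h
    · exact h
    · exact absurd h hne
  have key : ∀ {u y z v : E}, u ∈ F.On → y ∈ T.oc u → z ∈ T.oc u → v ∈ F.bd →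
      v ∉ T.oc u → F.pos y < F.pos v → F.pos z < F.pos v := by
    intro u y z v hu hy hz hv hvu h1
    have hzb := cc_sub_bd hu (T.oc_sub_cc u hz)
    by_contra hcon
    push Not at hcon
    have hzv : F.pos v < F.pos z := lt_of_le_of_ne hcon fun e =>
      hvu (by rw [F.pos_injOn hv hzb e]; exact hz)
    have h2 := (mem_openSegment_pos hu hy hz (h1.trans hzv) hv).2 ⟨h1, hzv⟩
    exact hvu ((T.convex_oc u).openSegment_subset hy hz h2)
  have hb' : w' ∈ F.bd := F.on_sub_bd hw'
  have h1 : F.pos x < F.pos w' := key hw (T.self_mem_oc w) hx hb'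
    (fun h => disjoint_left.1 hdis h (T.self_mem_oc w')) hlt
  have hxb : x ∈ F.bd := F.on_sub_bd (on_oc hw hx)
  by_contra hcon
  push Not at hcon
  have hne' : F.pos x' ≠ F.pos x := fun e => by
    have h2 := F.pos_injOn (F.on_sub_bd (on_oc hw' hx')) hxb e
    rw [h2] at hx'
    exact disjoint_left.1 hdis hx hx'
  have h3 : F.pos x' < F.pos x := lt_of_le_of_ne hcon hne'
  have h4 := key hw' hx' (T.self_mem_oc w') hxb (fun h => disjoint_left.1 hdis hx h) h3
  exact lt_asymm h1 h4

/-! ### the direction of an edge -/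

/-- chosen end points of a segment -/
noncomputable def ed1 (c : Set E) : E × E := by
  classical
  exact if h : ∃ p : E × E, p.1 ≠ p.2 ∧ c = segment ℝ p.1 p.2 then h.choose else (0, 0)

theorem ed1_spec {w : E} (hw : w ∈ Om) (hd : T.dim w = 1) :
    (ed1 (T.cc w)).1 ≠ (ed1 (T.cc w)).2 ∧
      T.cc w = segment ℝ (ed1 (T.cc w)).1 (ed1 (T.cc w)).2 := by
  classical
  obtain ⟨a, b, hne, h1, -⟩ := T.edge_eq hw hd
  have h : ∃ p : E × E, p.1 ≠ p.2 ∧ T.cc w = segment ℝ p.1 p.2 := ⟨(a, b), hne, h1⟩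
  have e : ed1 (T.cc w) = h.choose := by
    unfold ed1
    rw [dif_pos h]
  rw [e]
  exact h.choose_spec

theorem ed1_mem {w : E} (hw : w ∈ Om) (hd : T.dim w = 1) :
    (ed1 (T.cc w)).1 ∈ T.cc w ∧ (ed1 (T.cc w)).2 ∈ T.cc w := by
  obtain ⟨-, h⟩ := ed1_spec hw hd
  have h1 : (ed1 (T.cc w)).1 ∈ segment ℝ (ed1 (T.cc w)).1 (ed1 (T.cc w)).2 :=
    left_mem_segment ℝ _ _
  have h2 : (ed1 (T.cc w)).2 ∈ segment ℝ (ed1 (T.cc w)).1 (ed1 (T.cc w)).2 :=
    right_mem_segment ℝ _ _
  rw [← h] at h1 h2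
  exact ⟨h1, h2⟩

/-- the direction vector of the 1-cell of `w` -/
noncomputable def dv (T : Tiling Om ι) (w : E) : E := (ed1 (T.cc w)).2 - (ed1 (T.cc w)).1

theorem dv_ne {w : E} (hw : w ∈ Om) (hd : T.dim w = 1) : dv T w ≠ 0 := fun h =>
  (ed1_spec hw hd).1 (sub_eq_zero.1 h).symm

theorem dv_mem {w : E} (hw : w ∈ Om) (hd : T.dim w = 1) : dv T w ∈ T.V w :=
  T.sub_mem_V' (ed1_mem hw hd).2 (ed1_mem hw hd).1

theorem dv_oc {w x : E} (hw : w ∈ Om) (hx : x ∈ T.oc w) : dv T x = dv T w := by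
  unfold dv
  rw [T.cc_eq_of_mem_oc hw hx]

/-- the sign of the direction of the edge of `w` in the coordinates of `F` -/
noncomputable def sg (F : C2 T) (w : E) : ℝ :=
  cr (crd F (ed1 (T.cc w)).1) (crd F (ed1 (T.cc w)).2)

theorem sg_ne {F : C2 T} {w : E} (hw : w ∈ F.On) : sg F w ≠ 0 := by
  have hwO := F.set_sub hw.1
  obtain ⟨h1, h2⟩ := ed1_mem hwO hw.2
  exact cr_ne F (seg_bd hw h1 h2) (ed1_spec hwO hw.2).1

theorem sg_oc {F : C2 T} {w x : E} (hw : w ∈ Om) (hx : x ∈ T.oc w) : sg F x = sg F w := by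
  unfold sg
  rw [T.cc_eq_of_mem_oc hw hx]

/-- cross products of points of a line -/
theorem cr_line (F : C2 T) {w : E} (hw : w ∈ F.On) {a b : ℝ}
    (ha : w + a • dv T w ∈ T.cc w) (hb : w + b • dv T w ∈ T.cc w) :
    cr (crd F (w + a • dv T w)) (crd F (w + b • dv T w)) = (b - a) * sg F w := by
  have hwO := F.set_sub hw.1
  obtain ⟨h1, h2⟩ := ed1_mem hwO hw.2
  have hne := (ed1_spec hwO hw.2).1
  set p := (ed1 (T.cc w)).1 with hp
  set q := (ed1 (T.cc w)).2 with hq
  have hdv : dv T w = q - p := rfl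
  have hsg : sg F w = cr (crd F p) (crd F q) := rfl
  rw [hdv] at ha hb ⊢
  rw [hsg]
  have hsub := cc_sub_set hw
  obtain ⟨s, hs⟩ := mem_V_line hw.2 h1 h2 hne (T.sub_mem_V' (T.self_mem_cc w) h1)
  have key : ∀ {c : ℝ}, w + c • (q - p) ∈ T.cc w →
      crd F (w + c • (q - p)) = (1 - (s + c)) • crd F p + (s + c) • crd F q := by
    intro c hc
    have e : w + c • (q - p) = (1 - (s + c)) • p + (s + c) • q := by
      have : w = p + s • (q - p) := by rw [← hs]; abel
      nth_rewrite 1 [this]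
      module
    rw [e]
    exact crd_comb F (hsub h1) (hsub h2) (by ring)
  rw [key ha, key hb]
  unfold cr
  simp only [Complex.real_smul, Complex.add_im, Complex.add_re, Complex.mul_im,
    Complex.mul_re, Complex.ofReal_re, Complex.ofReal_im, zero_mul, add_zero, sub_zero]
  ring

open Classical in
/-- discrete direction -/
noncomputable def dirZ (F : C2 T) (w : E) : ZMod 2 := if 0 < sg F w then 0 else 1

open Classical in
/-- discrete orientation of a side -/
noncomputable def epsZ (h3 : Module.finrank ℝ E = 3) (q : ι) (F : C2 T) : ZMod 2 :=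
  if 0 < epsR h3 q F then 0 else 1

/-- **the orientation data of the mesh of a three-dimensional tiling** -/
noncomputable def oriM (h3 : Module.finrank ℝ E = 3) : Cp_298.Ori (meshC T h3) where
  dir := fun F w => dirZ F w
  eps := fun q F => epsZ h3 q F
  comp := by
    classical
    intro q F F' w hq hq' hw hw' hne
    have hwO := C2.set_sub F hw.1
    obtain ⟨h1, h2⟩ := ed1_mem hwO hw.2
    have h := eps_opp h3 hq hq' hne hw hw' h1 h2 (ed1_spec hwO hw.2).1
    have hs : cr (crd F (ed1 (T.cc w)).1) (crd F (ed1 (T.cc w)).2) = sg F w := rfl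
    have hs' : cr (crd F' (ed1 (T.cc w)).1) (crd F' (ed1 (T.cc w)).2) = sg F' w := rfl
    rw [hs, hs'] at h
    show epsZ h3 q F + dirZ F w + (epsZ h3 q F' + dirZ F' w) = 1
    unfold epsZ dirZ
    generalize epsR h3 q F = A at h ⊢
    generalize epsR h3 q F' = B at h ⊢
    generalize sg F w = C at h ⊢
    generalize sg F' w = D at h ⊢
    rcases mul_neg_iff.1 h with ⟨h4, h5⟩ | ⟨h4, h5⟩
    · rcases pos_and_pos_or_neg_and_neg_of_mul_pos h4 with ⟨h6, h7⟩ | ⟨h6, h7⟩ <;>
      rcases mul_neg_iff.1 h5 with ⟨h8, h9⟩ | ⟨h8, h9⟩ <;>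
      simp only [h6, h7, h8, h9, not_lt.2 h6.le, not_lt.2 h7.le, not_lt.2 h8.le, not_lt.2 h9.le,
        if_true, if_false] <;> decide
    · rcases pos_and_pos_or_neg_and_neg_of_mul_pos h5 with ⟨h6, h7⟩ | ⟨h6, h7⟩ <;>
      rcases mul_neg_iff.1 h4 with ⟨h8, h9⟩ | ⟨h8, h9⟩ <;>
      simp only [h6, h7, h8, h9, not_lt.2 h6.le, not_lt.2 h7.le, not_lt.2 h8.le, not_lt.2 h9.le,
        if_true, if_false] <;> decide

theorem dirZ_oc {F : C2 T} {w x : E} (hw : w ∈ Om) (hx : x ∈ T.oc w) : dirZ F x = dirZ F w := by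
  unfold dirZ
  rw [sg_oc hw hx]

/-- points of the edge in the direction `dv` -/
theorem pos_line {F : C2 T} {w : E} (hw : w ∈ F.On) {a b : ℝ} (hab : a < b)
    (ha : w + a • dv T w ∈ T.oc w) (hb : w + b • dv T w ∈ T.oc w) :
    (dirZ F w = 0 → F.pos (w + a • dv T w) < F.pos (w + b • dv T w)) ∧
      (dirZ F w = 1 → F.pos (w + b • dv T w) < F.pos (w + a • dv T w)) := by
  classical
  have h1 := cr_line F hw (T.oc_sub_cc w ha) (T.oc_sub_cc w hb)
  have h2 := cr_line F hw (T.oc_sub_cc w hb) (T.oc_sub_cc w ha)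
  constructor
  · intro h
    rw [pos_lt_iff hw ha hb, h1]
    unfold dirZ at h
    split_ifs at h with h5
    · exact mul_pos (by linarith) h5
    · exact absurd h (by decide)
  · intro h
    rw [pos_lt_iff hw hb ha, h2]
    unfold dirZ at h
    split_ifs at h with h5
    · exact absurd h (by decide)
    · have h6 : sg F w < 0 := lt_of_le_of_ne (not_lt.1 h5) (sg_ne hw)
      exact mul_pos_of_neg_of_neg (by linarith) h6

/-! ### parallel points -/

/-- nearness: the same open mesh edge and distance `< δ` -/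
def Near (T : Tiling Om ι) (δ : E → ℝ) (x w : E) : Prop := x ∈ T.oc w ∧ dist x w < δ w

theorem exists_on (h3 : Module.finrank ℝ E = 3) {w : E} (hw : w ∈ Om) (hd : T.dim w = 1) :
    ∃ F : C2 T, w ∈ F.On := by
  obtain ⟨q, hq⟩ := T.at_nonempty hw
  obtain ⟨x₁, hx1, x₂, hx2, hd1, hd2, hq1, hq2, hp1, hp2, hne, huniq⟩ :=
    two_cells T h3 hw hd hq
  exact ⟨mk2 T hx1 hd1, hp1, hd⟩

/-- the radius of a point -/
theorem exists_rad (h3 : Module.finrank ℝ E = 3) {P : Set E}
    (hP : ∀ F : C2 T, (P ∩ F.On).Finite) {δ : E → ℝ} (hδ : ∀ w, 0 < δ w) {w : E} (hw : w ∈ Om)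
    (hd : T.dim w = 1) : ∃ τ > 0, (∀ v ∈ T.V w, ‖v‖ < τ → w + v ∈ T.oc w) ∧ τ ≤ δ w ∧
      ∀ w' ∈ P, w' ∈ T.oc w → w' ≠ w → τ ≤ dist w w' / 2 := by
  obtain ⟨F, hF⟩ := exists_on h3 hw hd
  obtain ⟨r, hr, hb⟩ := T.exists_ball_oc hw
  have hfin : ((P ∩ T.oc w) \ {w}).Finite := by
    refine (hP F).subset ?_
    rintro x ⟨⟨h1, h2⟩, -⟩
    exact ⟨h1, on_oc hF h2⟩
  obtain ⟨τ, hτ, h⟩ : ∃ τ > 0, ∀ w' ∈ (P ∩ T.oc w) \ {w}, τ ≤ dist w w' / 2 := by
    rcases ((P ∩ T.oc w) \ {w}).eq_empty_or_nonempty with he | hne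
    · exact ⟨1, one_pos, fun w' hw' => by rw [he] at hw'; exact absurd hw' (notMem_empty _)⟩
    · obtain ⟨z, hz, hmin⟩ := hfin.exists_minimalFor (fun w' => dist w w' / 2) _ hne
      refine ⟨dist w z / 2, ?_, fun w' hw' => ?_⟩
      · have : w ≠ z := fun e => hz.2 (by rw [mem_singleton_iff]; exact e.symm)
        have := dist_pos.2 this
        linarith
      · by_contra hcon
        push Not at hcon
        have := hmin hw' hcon.le
        linarith
  refine ⟨min τ (min r (δ w)), lt_min hτ (lt_min hr (hδ w)), fun v hv hn => ?_, ?_, ?_⟩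
  · exact hb v hv (hn.trans_le ((min_le_right _ _).trans (min_le_left _ _)))
  · exact (min_le_right _ _).trans (min_le_right _ _)
  · intro w' h1 h2 h4
    exact (min_le_left _ _).trans (h w' ⟨⟨h1, h2⟩, h4⟩)

/-- **parallel points exist** -/
theorem exists_par (h3 : Module.finrank ℝ E = 3) {P : Set E}
    (hP : ∀ F : C2 T, (P ∩ F.On).Finite) (hP1 : ∀ w ∈ P, w ∈ Om ∧ T.dim w = 1) (n : E → ℕ)
    (δ : E → ℝ) (hδ : ∀ w, 0 < δ w) :
    Nonempty (Cp_298.Par (meshC T h3) (oriM h3) P n (Near T δ)) := by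
  classical
  have hex : ∀ w, ∃ τ : ℝ, w ∈ P → 0 < τ ∧ (∀ v ∈ T.V w, ‖v‖ < τ → w + v ∈ T.oc w) ∧ τ ≤ δ w ∧
      ∀ w' ∈ P, w' ∈ T.oc w → w' ≠ w → τ ≤ dist w w' / 2 := by
    intro w
    by_cases h : w ∈ P
    · obtain ⟨τ, h1, h2⟩ := exists_rad h3 hP hδ (hP1 w h).1 (hP1 w h).2
      exact ⟨τ, fun _ => ⟨h1, h2⟩⟩
    · exact ⟨0, fun h' => absurd h' h⟩
  choose τ hτ using hex
  let t : E → ℝ := fun w => τ w / ((n w + 1) * ‖dv T w‖)
  let c : E → ℕ → E := fun w k => w + ((k : ℝ) * t w) • dv T w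
  have hn : ∀ {w}, w ∈ P → 0 < ‖dv T w‖ := fun {w} h =>
    norm_pos_iff.2 (dv_ne (hP1 w h).1 (hP1 w h).2)
  have ht : ∀ {w}, w ∈ P → 0 < t w := fun {w} h => div_pos (hτ w h).1 (mul_pos (by positivity) (hn h))
  have hlen : ∀ {w k}, w ∈ P → k < n w → (k : ℝ) * t w * ‖dv T w‖ < τ w := by
    intro w k h hk
    have h1 := hn h
    have h2 := (hτ w h).1
    have e : (k : ℝ) * t w * ‖dv T w‖ = (k : ℝ) * τ w / (n w + 1) := by
      show (k : ℝ) * (τ w / ((n w + 1) * ‖dv T w‖)) * ‖dv T w‖ = _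
      field_simp
    rw [e, div_lt_iff₀ (by positivity)]
    have h4 : (k : ℝ) < n w + 1 := by
      have : (k : ℝ) < n w := by exact_mod_cast hk
      linarith
    nlinarith
  have hnorm : ∀ {w k}, w ∈ P → k < n w → ‖((k : ℝ) * t w) • dv T w‖ < τ w := by
    intro w k h hk
    rw [norm_smul, Real.norm_of_nonneg (mul_nonneg (Nat.cast_nonneg _) (ht h).le)]
    exact hlen h hk
  have hoc : ∀ {w k}, w ∈ P → k < n w → c w k ∈ T.oc w := by
    intro w k h hk
    exact (hτ w h).2.1 _ ((T.V w).smul_mem _ (dv_mem (hP1 w h).1 (hP1 w h).2)) (hnorm h hk)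
  have hdist : ∀ {w k}, w ∈ P → k < n w → dist (c w k) w < τ w := by
    intro w k h hk
    show dist (w + ((k : ℝ) * t w) • dv T w) w < τ w
    rw [dist_eq_norm, add_sub_cancel_left]
    exact hnorm h hk
  -- points in the same edge
  have hline : ∀ {w w'}, w ∈ P → w' ∈ P → w' ∈ T.oc w → ∃ s : ℝ, w' = w + s • dv T w ∧
      dist w w' = |s| * ‖dv T w‖ := by
    intro w w' h h' hw'
    have h1 := ed1_mem (hP1 w h).1 (hP1 w h).2
    obtain ⟨s, hs⟩ := mem_V_line (hP1 w h).2 h1.1 h1.2 (ed1_spec (hP1 w h).1 (hP1 w h).2).1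
      (T.sub_mem_V' (T.oc_sub_cc w hw') (T.self_mem_cc w))
    have e : w' = w + s • dv T w := by
      rw [show s • dv T w = w' - w from hs.symm]; abel
    refine ⟨s, e, ?_⟩
    rw [dist_comm, dist_eq_norm, hs, norm_smul, Real.norm_eq_abs]
    rfl
  refine ⟨{ c := c
            on := ?_
            inj := ?_
            sep := ?_
            up := ?_
            down := ?_
            dir := ?_
            rel := ?_ }⟩
  · intro w k F hw hk
    exact on_iff_oc (hP1 w hw).1 (hoc hw hk)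
  · intro w w' k k' hw hw' hk hk' he
    have hO := (hP1 w hw).1
    have hO' := (hP1 w' hw').1
    by_cases hww : w = w'
    · subst hww
      refine ⟨rfl, ?_⟩
      have h1 : ((k : ℝ) * t w) • dv T w = ((k' : ℝ) * t w) • dv T w := add_left_cancel he
      have h2 := smul_left_injective ℝ (norm_pos_iff.1 (hn hw)) h1
      have h4 : (k : ℝ) = k' := mul_right_cancel₀ (ht hw).ne' h2
      exact_mod_cast h4
    · exfalso
      have h1 := hoc hw hk
      have h2 := hoc hw' hk'
      rw [he] at h1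
      have h4 : T.oc w = T.oc w' := by
        rcases T.oc_disjoint_or_eq hO hO' with h | h
        · exact absurd h2 (disjoint_left.1 h h1)
        · exact h
      have h5 : w' ∈ T.oc w := by rw [h4]; exact T.self_mem_oc w'
      have h6 : w ∈ T.oc w' := by rw [← h4]; exact T.self_mem_oc w
      have h7 := (hτ w hw).2.2.2 w' hw' h5 (Ne.symm hww)
      have h8 := (hτ w' hw').2.2.2 w hw h6 hww
      have h9 := hdist hw hk
      have h10 := hdist hw' hk'
      rw [he] at h9
      have h11 := dist_triangle w (c w' k') w'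
      rw [dist_comm w (c w' k')] at h11
      rw [dist_comm w' w] at h8
      linarith
  · intro F w w' k k' hw hw' hk hk' hF hF' hlt
    have hO := (hP1 w hw).1
    have hO' := (hP1 w' hw').1
    by_cases hoo : T.oc w = T.oc w'
    · have h5 : w' ∈ T.oc w := by rw [hoo]; exact T.self_mem_oc w'
      have h6 : w ∈ T.oc w' := by rw [← hoo]; exact T.self_mem_oc w
      have hww : w ≠ w' := by
        rintro rfl
        exact lt_irrefl _ hlt
      obtain ⟨s, hs, hds⟩ := hline hw hw' h5
      have hdv : dv T w' = dv T w := dv_oc hO h5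
      have h7 := (hτ w hw).2.2.2 w' hw' h5 (Ne.symm hww)
      have h8 := (hτ w' hw').2.2.2 w hw h6 hww
      rw [dist_comm w' w] at h8
      rw [hds] at h7 h8
      have h9 := hlen hw hk
      have h10 := hlen hw' hk'
      rw [hdv] at h10
      have hnp := hn hw
      set a := (k : ℝ) * t w with ha
      set b := (k' : ℝ) * t w' with hb
      have ha0 : 0 ≤ a := mul_nonneg (Nat.cast_nonneg _) (ht hw).le
      have hb0 : 0 ≤ b := mul_nonneg (Nat.cast_nonneg _) (ht hw').le
      have ha1 : a < |s| / 2 := by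
        by_contra hcon
        push Not at hcon
        have := mul_le_mul_of_nonneg_right hcon hnp.le
        linarith
      have hb1 : b < |s| / 2 := by
        by_contra hcon
        push Not at hcon
        have := mul_le_mul_of_nonneg_right hcon hnp.le
        linarith
      have e1 : c w k = w + a • dv T w := rfl
      have e2 : c w' k' = w + (s + b) • dv T w := by
        show w' + b • dv T w' = _
        rw [hdv]
        nth_rewrite 1 [hs]
        module
      have m1 : w + a • dv T w ∈ T.oc w := by rw [← e1]; exact hoc hw hk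
      have m2 : w + (s + b) • dv T w ∈ T.oc w := by rw [← e2, hoo]; exact hoc hw' hk'
      have m0 : w + (0 : ℝ) • dv T w ∈ T.oc w := by
        rw [zero_smul, add_zero]; exact T.self_mem_oc w
      have ms : w + s • dv T w ∈ T.oc w := by rw [← hs]; exact h5
      have hs0 : s ≠ 0 := by
        rintro rfl
        rw [zero_smul, add_zero] at hs
        exact hww hs.symm
      have hlt' : F.pos (w + (0 : ℝ) • dv T w) < F.pos (w + s • dv T w) := by
        rw [zero_smul, add_zero, ← hs]; exact hlt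
      show F.pos (c w k) < F.pos (c w' k')
      rw [e1, e2]
      rcases Cp_298.z2_cases (dirZ F w) with hz | hz
      · have hs1 : 0 < s := by
          by_contra hcon
          push Not at hcon
          have h11 := (pos_line hF (lt_of_le_of_ne hcon hs0) ms m0).1 hz
          exact lt_asymm h11 hlt'
        rw [abs_of_pos hs1] at ha1 hb1
        exact (pos_line hF (by linarith) m1 m2).1 hz
      · have hs1 : s < 0 := by
          by_contra hcon
          push Not at hcon
          have h11 := (pos_line hF (lt_of_le_of_ne hcon hs0.symm) m0 ms).2 hz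
          exact lt_asymm h11 hlt'
        rw [abs_of_neg hs1] at ha1 hb1
        exact (pos_line hF (by linarith) m2 m1).2 hz
    · exact pos_sep hF hF' hoo hlt (hoc hw hk) (hoc hw' hk')
  · intro F w k k' hw hkk hk' hF hz
    have hlt : (k : ℝ) * t w < (k' : ℝ) * t w :=
      mul_lt_mul_of_pos_right (by exact_mod_cast hkk) (ht hw)
    exact (pos_line hF hlt (hoc hw (hkk.trans hk')) (hoc hw hk')).1 hz
  · intro F w k k' hw hkk hk' hF hz
    have hlt : (k : ℝ) * t w < (k' : ℝ) * t w :=
      mul_lt_mul_of_pos_right (by exact_mod_cast hkk) (ht hw)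
    exact (pos_line hF hlt (hoc hw (hkk.trans hk')) (hoc hw hk')).2 hz
  · intro F w k hw hk hF
    exact dirZ_oc (hP1 w hw).1 (hoc hw hk)
  · intro w k hw hk
    exact ⟨hoc hw hk, (hdist hw hk).trans_le (hτ w hw).2.2.1⟩

/-! ### parity counting along an edge -/



end Crest.Agent.R096.Ori_543
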