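import Crest.Agent.R096.Clo5_441
import Crest.Agent.R096.Main1_4
import Crest.Agent.R096.Lab6_184
import Crest.Agent.R096.Agl5_543
import Crest.Agent.R096.Cp6_298
import Crest.Agent.R096.Ori3_543
import Crest.Agent.R096.Cm3_117
import Crest.Agent.R096.Main3_4
import Crest.Agent.R096.Mg2_441
import Crest.Agent.R096.Lab5_184

-- ▼ part R096/Fin1_441
section

/-!
# Row 96, FINLAB (helper441), part 1: labels of two states along ropes

* `fam_of_final`, `no_final` : where the final state can have points of a family.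
* `rope_cells`, `rope_tiles`, `rope_union` : the sum of the labels of two patterns is constant along a
  rope on which both patterns have the same parities.
-/

set_option autoImplicit false
set_option linter.unusedSectionVars false

open Set Metric Relation

namespace Crest.Agent.R096.Fin_441

open Crest.Agent.R096.Msh_715 Crest.Agent.R096.Main_4 Crest.Agent.R096.Agl5_543
  Crest.Agent.R096.St_147 Crest.Agent.R096.Seq_213 Crest.Agent.R096.Clo_441

section states

variable {E : Type} [NormedAddCommGroup E] [NormedSpace ℝ E] [FiniteDimensional ℝ E]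
variable {Om : Set E} {ι J C K : Type} {T : Tiling Om ι} {h3 : Module.finrank ℝ E = 3}
variable {fam : J → C}

/-- every tile at a point of a 1-cell has a 2-cell through this point -/
theorem exists_face {w : E} (hw : w ∈ Om) (hd : T.dim w = 1) {q : ι} (hq : w ∈ P (T.H q)) :
    ∃ F : C2 T, w ∈ (meshC T h3).On F ∧ q ∈ (meshC T h3).side F := by
  obtain ⟨x, hx, -, -, hd1, -, hq1, -, hp1, -⟩ := Agl3_543.two_cells T h3 hw hd hq
  refine ⟨mk2 T hx hd1, ⟨?_, hd⟩, ?_⟩
  · rw [mk2_set]; exact hp1
  · show q ∈ (mk2 T hx hd1).side h3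
    rw [C2.mem_side]
    have h5 : (mk2 T hx hd1).pt ∈ T.oc x := T.pt_cl hx
    rw [T.at_eq_of_mem_oc hx h5]
    exact hq1


end states

section general

variable {ι Φ W J C K : Type} {M : MeshC ι Φ W} {fam : J → C}


end general

section states2

variable {E : Type} [NormedAddCommGroup E] [NormedSpace ℝ E] [FiniteDimensional ℝ E]
variable {Om : Set E} {ι J C K : Type} {T : Tiling Om ι} {h3 : Module.finrank ℝ E = 3}
variable {fam : J → C}


end states2

section ropes

variable {E : Type*} [NormedAddCommGroup E] [NormedSpace ℝ E] [FiniteDimensional ℝ E]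
variable {Om : Set E} {ι : Type*} {T : Tiling Om ι}

open Classical in
/-- parity of the number of points of `Q` on the 1-cell of `w` -/
noncomputable def par (T : Tiling Om ι) (Q : Finset E) (w : E) : ZMod 2 :=
  ((Q.filter (fun u => u ∈ T.cc w)).card : ZMod 2)







end ropes

end Crest.Agent.R096.Fin_441
end

-- ▼ part R096/Mv1_441
section

/-!
# Row 96 (helper441): the cyclic order `pos F` of 543's `meshC` and the 1-cells of `F`

* `lace_iff`   : on a 1-cell of `F` the cyclic order is the linear order of the segment.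
* `btw_parity` : parity of the number of points of an even set between two points of a 1-cell.
* `sgn_label`  : a label of `Q` on `∂F` is the counting function of `Q` in the cyclic order.
-/

set_option autoImplicit false
set_option linter.unusedSectionVars false

open Set Metric Relation

namespace Crest.Agent.R096.Mv_441

open Crest.Agent.R096.Msh_715 Crest.Agent.R096.Main_4 Crest.Agent.R096.Agl5_543
  Crest.Agent.R096.St_147 Crest.Agent.R096.Clo_441

variable {E : Type} [NormedAddCommGroup E] [NormedSpace ℝ E] [FiniteDimensional ℝ E]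
variable {Om : Set E} {ι : Type} {T : Tiling Om ι}

/-- `x` is between `u` and `v` in the cut open cyclic order of `∂F` -/
def Btw (F : C2 T) (u v x : E) : Prop :=
  (F.pos u < F.pos x ∧ F.pos x < F.pos v) ∨ (F.pos v < F.pos x ∧ F.pos x < F.pos u)

/-- the open segment from a point of a closed cell to a point of the open cell is in the open cell -/
theorem openSegment_sub_oc {x u p : E} (hu : u ∈ T.cc x) (hp : p ∈ T.oc x) :
    openSegment ℝ u p ⊆ T.oc x := by
  rintro y ⟨s, t, hs, ht, hst, rfl⟩ i hi h hh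
  obtain ⟨h1, h2⟩ := hu i hi h hh
  obtain ⟨h3, h4⟩ := hp i hi h hh
  have e : h.1 (s • u + t • p) = s * h.1 u + t * h.1 p := by
    rw [map_add, map_smul, map_smul]; rfl
  have hs' : s = 1 - t := by linarith
  by_cases hx : h.1 x = h.2
  · have e1 := h2 hx
    have e2 := h4.2 hx
    rw [e, e1, e2, hs']
    refine ⟨by linarith, ⟨fun _ => hx, fun _ => by ring⟩⟩
  · have e2 : h.1 p < h.2 := lt_of_le_of_ne h3 fun h => hx (h4.1 h)
    have e3 : s * h.1 u + t * h.1 p < h.2 := by
      rw [hs'] at hs ⊢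
      nlinarith
    rw [e]
    exact ⟨e3.le, ⟨fun h => absurd h e3.ne, fun h => absurd h hx⟩⟩

namespace C2

/-- the broken line through the centre -/
def star (F : C2 T) (u v : E) : Set E := segment ℝ u F.pt ∪ segment ℝ v F.pt

theorem star_sub (F : C2 T) {u v : E} (hu : u ∈ F.set) (hv : v ∈ F.set) : star F u v ⊆ F.set := by
  have hc : Convex ℝ F.set := by rw [F.set_eq]; exact T.convex_cc _
  have hp : F.pt ∈ F.set := by rw [F.set_eq]; exact T.self_mem_cc _
  exact union_subset (hc.segment_subset hu hp) (hc.segment_subset hv hp)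

theorem star_compact (F : C2 T) (u v : E) : IsCompact (star F u v) := by
  have h : ∀ a b : E, IsCompact (segment ℝ a b) := by
    intro a b
    rw [segment_eq_image_lineMap]
    exact isCompact_Icc.image (AffineMap.lineMap_continuous)
  exact (h _ _).union (h _ _)

theorem star_preconnected (F : C2 T) (u v : E) : IsPreconnected (star F u v) :=
  IsPreconnected.union F.pt (right_mem_segment ℝ _ _) (right_mem_segment ℝ _ _)
    (convex_segment _ _).isPreconnected (convex_segment _ _).isPreconnected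

theorem star_bd (F : C2 T) {u v z : E} (hu : u ∈ F.set) (hv : v ∈ F.set) (hz : z ∈ star F u v)
    (hzb : z ∈ F.bd) : z = u ∨ z = v := by
  rw [F.set_eq] at hu hv
  rw [F.bd_eq] at hzb
  have hp : F.pt ∈ T.oc F.pt := T.self_mem_oc _
  have key : ∀ {a : E}, a ∈ T.cc F.pt → z ∈ segment ℝ a F.pt → z = a := by
    intro a ha hz
    by_contra hne
    rw [← insert_endpoints_openSegment] at hz
    rcases hz with h | h | h
    · exact hne h
    · exact hzb.2 (by rw [h]; exact hp)
    · exact hzb.2 (openSegment_sub_oc ha hp h)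
  rcases hz with h | h
  · exact Or.inl (key hu h)
  · exact Or.inr (key hv h)

end C2

/-- order lemma: of the three pairings of four distinct reals exactly one is interlaced -/
theorem pairing {X Y Z U : ℝ} (h1 : X ≠ Y) (h2 : X ≠ Z) (h3 : X ≠ U) (h4 : Y ≠ Z) (h5 : Y ≠ U)
    (h6 : Z ≠ U)
    (ha : (X < Y ∧ Y < Z ∨ Z < Y ∧ Y < X) ↔ (X < U ∧ U < Z ∨ Z < U ∧ U < X))
    (hb : (X < Z ∧ Z < U ∨ U < Z ∧ Z < X) ↔ (X < Y ∧ Y < U ∨ U < Y ∧ Y < X)) :
    ¬ ((X < Z ∧ Z < Y ∨ Y < Z ∧ Z < X) ↔ (X < U ∧ U < Y ∨ Y < U ∧ U < X)) := by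
  rcases lt_or_gt_of_ne h1 with a1 | a1 <;> rcases lt_or_gt_of_ne h2 with a2 | a2 <;>
    rcases lt_or_gt_of_ne h3 with a3 | a3 <;> rcases lt_or_gt_of_ne h4 with a4 | a4 <;>
    rcases lt_or_gt_of_ne h5 with a5 | a5 <;> rcases lt_or_gt_of_ne h6 with a6 | a6 <;>
    first
    | (exfalso; linarith)
    | (simp_all [lt_asymm])

section edge

variable {F : C2 T} {w₀ a b : E}

/-- a 1-cell of `F` lies in the boundary -/
theorem edge_sub_bd (hw : w₀ ∈ F.set) (hd : T.dim w₀ = 1) : T.cc w₀ ⊆ F.bd := by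
  intro y hy
  have hw' := hw
  rw [F.set_eq] at hw'
  have hyF : y ∈ F.set := by rw [F.set_eq]; exact T.cc_sub_of_mem hw' hy
  have hwO : w₀ ∈ Om := F.set_sub hw
  refine (F.mem_bd_iff hyF).2 ?_
  by_cases h : y ∈ T.oc w₀
  · rw [T.dim_eq_of_mem_oc hwO h]; omega
  · have := T.dim_lt hy h
    omega

theorem not_lace_of_disj {u v x y : E} {K K' : Set E} (hK : IsPreconnected K)
    (hK' : IsPreconnected K') (hKc : IsCompact K) (hKc' : IsCompact K') (hKF : K ⊆ F.set)
    (hKF' : K' ⊆ F.set) (hu : u ∈ F.bd) (hv : v ∈ F.bd) (hx : x ∈ F.bd) (hy : y ∈ F.bd)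
    (hux : u ≠ x) (huy : u ≠ y) (hvx : v ≠ x) (hvy : v ≠ y) (mu : u ∈ K) (mv : v ∈ K)
    (mx : x ∈ K') (my : y ∈ K') (hd : Disjoint K K') : Btw F u v x ↔ Btw F u v y := by
  by_contra h
  obtain ⟨z, h1, h2⟩ := F.meet_of_lace hK hK' hKc hKc' hKF hKF' hu hv hx hy hux huy hvx hvy mu mv
    mx my h
  exact Set.disjoint_left.1 hd h1 h2

theorem isCompact_segment (x y : E) : IsCompact (segment ℝ x y) := by
  rw [segment_eq_image_lineMap]
  exact isCompact_Icc.image (AffineMap.lineMap_continuous)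

/-- **(MV1)** on a 1-cell of `F` -/
theorem lace_iff (hw : w₀ ∈ F.set) (hd : T.dim w₀ = 1) {x y z u : E} (hx : x ∈ T.cc w₀)
    (hy : y ∈ T.cc w₀) (hxy : x ≠ y) (hz : z ∈ F.bd) (hu : u ∈ F.bd) (hzx : z ≠ x) (hzy : z ≠ y)
    (hux : u ≠ x) (huy : u ≠ y) :
    (Btw F x y z ↔ Btw F x y u) ↔ (z ∈ openSegment ℝ x y ↔ u ∈ openSegment ℝ x y) := by
  have hsub := edge_sub_bd hw hd
  have hconv : Convex ℝ (T.cc w₀) := T.convex_cc _
  have hseg : segment ℝ x y ⊆ T.cc w₀ := hconv.segment_subset hx hy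
  have hosub : openSegment ℝ x y ⊆ segment ℝ x y := openSegment_subset_segment ℝ x y
  have hxb := hsub hx
  have hyb := hsub hy
  have hcase : ∀ {t : E}, t ≠ x → t ≠ y → (t ∈ segment ℝ x y ↔ t ∈ openSegment ℝ x y) := by
    intro t h1 h2
    rw [← insert_endpoints_openSegment]
    constructor
    · rintro (h | h | h)
      · exact absurd h h1
      · exact absurd h h2
      · exact h
    · intro h; exact Or.inr (Or.inr h)
  -- both inside
  have hin : ∀ {z u : E}, z ∈ openSegment ℝ x y → u ∈ openSegment ℝ x y → z ≠ x → z ≠ y → u ≠ x →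
      u ≠ y → (Btw F x y z ↔ Btw F x y u) := by
    intro z u hz hu hzx hzy hux huy
    have hzu : segment ℝ z u ⊆ openSegment ℝ x y := (convex_openSegment x y).segment_subset hz hu
    refine not_lace_of_disj (K := C2.star F x y) (K' := segment ℝ z u)
      (C2.star_preconnected F x y) (convex_segment _ _).isPreconnected (C2.star_compact F x y)
      (isCompact_segment z u) (C2.star_sub F (F.bd_sub hxb) (F.bd_sub hyb))
      (hzu.trans (hosub.trans (hseg.trans (hsub.trans F.bd_sub)))) hxb hyb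
      (hsub (hseg (hosub hz))) (hsub (hseg (hosub hu))) hzx.symm hux.symm hzy.symm huy.symm
      (Or.inl (left_mem_segment ℝ _ _)) (Or.inr (left_mem_segment ℝ _ _))
      (left_mem_segment ℝ _ _) (right_mem_segment ℝ _ _) ?_
    rw [Set.disjoint_left]
    intro p hp1 hp2
    have hp3 := hzu hp2
    rcases C2.star_bd F (F.bd_sub hxb) (F.bd_sub hyb) hp1 (hsub (hseg (hosub hp3))) with h | h
    · rw [h] at hp3
      exact hxy (left_mem_openSegment_iff.1 hp3)
    · rw [h] at hp3
      exact hxy (right_mem_openSegment_iff.1 hp3)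
  -- both outside
  have hout : ∀ {z u : E}, z ∈ F.bd → u ∈ F.bd → z ∉ segment ℝ x y → u ∉ segment ℝ x y →
      (Btw F x y z ↔ Btw F x y u) := by
    intro z u hz hu hzs hus
    refine not_lace_of_disj (K := segment ℝ x y) (K' := C2.star F z u)
      (convex_segment _ _).isPreconnected (C2.star_preconnected F z u) (isCompact_segment x y)
      (C2.star_compact F z u) (hseg.trans (hsub.trans F.bd_sub))
      (C2.star_sub F (F.bd_sub hz) (F.bd_sub hu)) hxb hyb hz hu ?_ ?_ ?_ ?_
      (left_mem_segment ℝ _ _) (right_mem_segment ℝ _ _) (Or.inl (left_mem_segment ℝ _ _))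
      (Or.inr (left_mem_segment ℝ _ _)) ?_
    · rintro rfl; exact hzs (left_mem_segment ℝ _ _)
    · rintro rfl; exact hus (left_mem_segment ℝ _ _)
    · rintro rfl; exact hzs (right_mem_segment ℝ _ _)
    · rintro rfl; exact hus (right_mem_segment ℝ _ _)
    · rw [Set.disjoint_left]
      intro p hp1 hp2
      rcases C2.star_bd F (F.bd_sub hz) (F.bd_sub hu) hp2 (hsub (hseg hp1)) with h | h
      · exact hzs (h ▸ hp1)
      · exact hus (h ▸ hp1)
  -- one inside, one outside
  have hmix : ∀ {z u : E}, z ∈ openSegment ℝ x y → u ∈ F.bd → u ∉ segment ℝ x y → z ≠ x → z ≠ y →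
      ¬ (Btw F x y z ↔ Btw F x y u) := by
    intro z u hz hu hus hzx hzy
    have hzb : z ∈ F.bd := hsub (hseg (hosub hz))
    have hux : u ≠ x := by rintro rfl; exact hus (left_mem_segment ℝ _ _)
    have huy : u ≠ y := by rintro rfl; exact hus (right_mem_segment ℝ _ _)
    have huz : u ≠ z := by rintro rfl; exact hus (hosub hz)
    have hinj := F.pos_injOn
    have h1 : segment ℝ x z ⊆ segment ℝ x y :=
      (convex_segment x y).segment_subset (left_mem_segment ℝ _ _) (hosub hz)
    have h2 : segment ℝ z y ⊆ segment ℝ x y :=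
      (convex_segment x y).segment_subset (hosub hz) (right_mem_segment ℝ _ _)
    have hy1 : y ∉ segment ℝ x z := by
      intro h
      obtain ⟨s, t, hs, ht, hst, rfl⟩ := hz
      obtain ⟨s', t', hs', ht', hst', h3⟩ := h
      have h4 : (1 - t' * t) • (y - x) = 0 := by
        have e1 : s' • x + t' • (s • x + t • y) = y := h3
        have e2 : s = 1 - t := by linarith
        have e3 : s' = 1 - t' := by linarith
        rw [e2, e3] at e1
        have e4 : (1 - t' * t) • (y - x) = y - ((1 - t') • x + t' • ((1 - t) • x + t • y)) := by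
          module
        rw [e4, e1, sub_self]
      rcases smul_eq_zero.1 h4 with h5 | h5
      · nlinarith
      · exact hxy (sub_eq_zero.1 h5).symm
    have hx1 : x ∉ segment ℝ z y := by
      intro h
      obtain ⟨s, t, hs, ht, hst, rfl⟩ := hz
      obtain ⟨s', t', hs', ht', hst', h3⟩ := h
      have h4 : (1 - s' * s) • (x - y) = 0 := by
        have e1 : s' • (s • x + t • y) + t' • y = x := h3
        have e2 : t = 1 - s := by linarith
        have e3 : t' = 1 - s' := by linarith
        rw [e2, e3] at e1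
        have e4 : (1 - s' * s) • (x - y) = x - (s' • (s • x + (1 - s) • y) + (1 - s') • y) := by
          module
        rw [e4, e1, sub_self]
      rcases smul_eq_zero.1 h4 with h5 | h5
      · nlinarith
      · exact hxy (sub_eq_zero.1 h5)
    refine pairing (fun h => hxy (hinj hxb hyb h)) (fun h => hzx.symm (hinj hxb hzb h))
      (fun h => hux.symm (hinj hxb hu h)) (fun h => hzy.symm (hinj hyb hzb h))
      (fun h => huy.symm (hinj hyb hu h)) (fun h => huz.symm (hinj hzb hu h)) ?_ ?_
    · -- pairs {x, z} and {y, u}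
      refine not_lace_of_disj (K := segment ℝ x z) (K' := C2.star F y u)
        (convex_segment _ _).isPreconnected (C2.star_preconnected F y u) (isCompact_segment x z)
        (C2.star_compact F y u) (h1.trans (hseg.trans (hsub.trans F.bd_sub)))
        (C2.star_sub F (F.bd_sub hyb) (F.bd_sub hu)) hxb hzb hyb hu hxy hux.symm hzy huz.symm
        (left_mem_segment ℝ _ _) (right_mem_segment ℝ _ _) (Or.inl (left_mem_segment ℝ _ _))
        (Or.inr (left_mem_segment ℝ _ _)) ?_
      rw [Set.disjoint_left]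
      intro p hp1 hp2
      rcases C2.star_bd F (F.bd_sub hyb) (F.bd_sub hu) hp2 (hsub (hseg (h1 hp1))) with h | h
      · exact hy1 (h ▸ hp1)
      · exact hus (h ▸ h1 hp1)
    · -- pairs {x, u} and {z, y}
      refine not_lace_of_disj (K := C2.star F x u) (K' := segment ℝ z y)
        (C2.star_preconnected F x u) (convex_segment _ _).isPreconnected (C2.star_compact F x u)
        (isCompact_segment z y) (C2.star_sub F (F.bd_sub hxb) (F.bd_sub hu))
        (h2.trans (hseg.trans (hsub.trans F.bd_sub))) hxb hu hzb hyb hzx.symm hxy huz huy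
        (Or.inl (left_mem_segment ℝ _ _)) (Or.inr (left_mem_segment ℝ _ _))
        (left_mem_segment ℝ _ _) (right_mem_segment ℝ _ _) ?_
      rw [Set.disjoint_left]
      intro p hp1 hp2
      rcases C2.star_bd F (F.bd_sub hxb) (F.bd_sub hu) hp1 (hsub (hseg (h2 hp2))) with h | h
      · exact hx1 (h ▸ hp2)
      · exact hus (h ▸ h2 hp2)
  by_cases h1 : z ∈ openSegment ℝ x y <;> by_cases h2 : u ∈ openSegment ℝ x y
  · exact ⟨fun _ => ⟨fun _ => h2, fun _ => h1⟩, fun _ => hin h1 h2 hzx hzy hux huy⟩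
  · have hus : u ∉ segment ℝ x y := fun h => h2 ((hcase hux huy).1 h)
    exact ⟨fun h => absurd h (hmix h1 hu hus hzx hzy), fun h => absurd (h.1 h1) h2⟩
  · have hzs : z ∉ segment ℝ x y := fun h => h1 ((hcase hzx hzy).1 h)
    exact ⟨fun h => absurd (Iff.symm h) (hmix h2 hz hzs hux huy), fun h => absurd (h.2 h2) h1⟩
  · have hus : u ∉ segment ℝ x y := fun h => h2 ((hcase hux huy).1 h)
    have hzs : z ∉ segment ℝ x y := fun h => h1 ((hcase hzx hzy).1 h)
    exact ⟨fun _ => ⟨fun h => absurd h h1, fun h => absurd h h2⟩, fun _ => hout hz hu hzs hus⟩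

end edge

end Crest.Agent.R096.Mv_441
end

-- ▼ part R096/Mv2_441
section

/-!
# Row 96 (helper441): parity along the boundary of a 2-cell, labels, side function of points
-/

set_option autoImplicit false
set_option linter.unusedSectionVars false

open Set Metric Relation

namespace Crest.Agent.R096.Mv_441

open Crest.Agent.R096.Msh_715 Crest.Agent.R096.Main_4 Crest.Agent.R096.Agl5_543
  Crest.Agent.R096.St_147 Crest.Agent.R096.Clo_441

variable {E : Type} [NormedAddCommGroup E] [NormedSpace ℝ E] [FiniteDimensional ℝ E]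
variable {Om : Set E} {ι : Type} {T : Tiling Om ι}

open Classical in
/-- number of points of `Q` on `F` between `u` and `v`, mod 2 -/
noncomputable def bet (F : C2 T) (Q : Finset E) (u v : E) : ZMod 2 :=
  ((Q.filter (fun q => q ∈ F.set ∧ Btw F u v q)).card : ZMod 2)

open Classical in
/-- number of points of `Q` on the segment `[u,v]`, mod 2 -/
noncomputable def ons (Q : Finset E) (u v : E) : ZMod 2 :=
  ((Q.filter (fun q => q ∈ segment ℝ u v)).card : ZMod 2)

open Classical in
/-- number of points of `Q` on `F` before `w`, mod 2 -/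
noncomputable def sgn (F : C2 T) (Q : Finset E) (w : E) : ZMod 2 :=
  ((Q.filter (fun q => q ∈ F.set ∧ F.pos q < F.pos w)).card : ZMod 2)

theorem even_face {Q : Finset E} (hQ : EvenPat T Q) (F : C2 T) :
    open Classical in Even (Q.filter (fun q => q ∈ F.set)).card := by
  classical
  have h := hQ.even F.pt F.pt_mem F.dim_pt
  have e : Q.filter (fun q => q ∈ F.set) = Q.filter (fun w => w ∈ T.cc F.pt) := by
    ext q; simp only [Finset.mem_filter, F.set_eq]
  rw [e]
  convert h

theorem on_bd {Q : Finset E} (hQ : EvenPat T Q) {F : C2 T} {q : E} (hq : q ∈ Q) (hF : q ∈ F.set) :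
    q ∈ F.bd := F.on_sub_bd ⟨hF, (hQ.on q hq).2⟩

theorem iff_aux1 {p q r s : Prop} (h : (p ↔ q) ↔ (r ↔ s)) (hc : q ↔ s) : p ↔ r := by
  by_cases hp : p <;> by_cases hq : q <;> by_cases hr : r <;> by_cases hs : s <;> simp_all

theorem iff_aux2 {p q r s : Prop} (h : (p ↔ q) ↔ (r ↔ s)) (hc : ¬ (q ↔ s)) : p ↔ ¬ r := by
  by_cases hp : p <;> by_cases hq : q <;> by_cases hr : r <;> by_cases hs : s <;> simp_all

/-- **(MV2)** -/
theorem btw_parity {Q : Finset E} (hQ : EvenPat T Q) {F : C2 T} {w₀ : E} (hw : w₀ ∈ F.set)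
    (hd : T.dim w₀ = 1) {x y : E} (hx : x ∈ T.cc w₀) (hy : y ∈ T.cc w₀) (hxy : x ≠ y)
    (hxQ : x ∉ Q) (hyQ : y ∉ Q) : bet F Q x y = ons Q x y := by
  classical
  have hsub := edge_sub_bd hw hd
  have hseg : segment ℝ x y ⊆ T.cc w₀ := (T.convex_cc _).segment_subset hx hy
  have hcase : ∀ {t : E}, t ≠ x → t ≠ y → (t ∈ segment ℝ x y ↔ t ∈ openSegment ℝ x y) := by
    intro t h1 h2
    rw [← insert_endpoints_openSegment]
    constructor
    · rintro (h | h | h)
      · exact absurd h h1
      · exact absurd h h2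
      · exact h
    · intro h; exact Or.inr (Or.inr h)
  have hne : ∀ {q : E}, q ∈ Q → q ≠ x ∧ q ≠ y := fun hq =>
    ⟨fun h => hxQ (h ▸ hq), fun h => hyQ (h ▸ hq)⟩
  set QF := Q.filter (fun q => q ∈ F.set) with hQF
  have hev : Even QF.card := even_face hQ F
  have e1 : Q.filter (fun q => q ∈ F.set ∧ Btw F x y q) = QF.filter (fun q => Btw F x y q) := by
    rw [hQF, Finset.filter_filter]
  have e2 : Q.filter (fun q => q ∈ segment ℝ x y) = QF.filter (fun q => q ∈ openSegment ℝ x y) := by
    rw [hQF, Finset.filter_filter]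
    ext q
    simp only [Finset.mem_filter]
    constructor
    · rintro ⟨h1, h2⟩
      exact ⟨h1, F.bd_sub (hsub (hseg h2)), (hcase (hne h1).1 (hne h1).2).1 h2⟩
    · rintro ⟨h1, -, h2⟩
      exact ⟨h1, openSegment_subset_segment ℝ x y h2⟩
  unfold bet ons
  rw [e1, e2]
  rcases QF.eq_empty_or_nonempty with h0 | ⟨q0, hq0⟩
  · rw [h0]; simp
  have hl : ∀ q ∈ QF, ((Btw F x y q ↔ Btw F x y q0) ↔
      (q ∈ openSegment ℝ x y ↔ q0 ∈ openSegment ℝ x y)) := by
    intro q hq
    obtain ⟨h1, h2⟩ := Finset.mem_filter.1 hq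
    obtain ⟨h3, h4⟩ := Finset.mem_filter.1 hq0
    exact lace_iff hw hd hx hy hxy (on_bd hQ h1 h2) (on_bd hQ h3 h4) (hne h1).1 (hne h1).2
      (hne h3).1 (hne h3).2
  by_cases hc : (Btw F x y q0 ↔ q0 ∈ openSegment ℝ x y)
  · have e3 : QF.filter (fun q => Btw F x y q) = QF.filter (fun q => q ∈ openSegment ℝ x y) := by
      refine Finset.filter_congr fun q hq => ?_
      exact iff_aux1 (hl q hq) hc
    rw [e3]
  · have e3 : QF.filter (fun q => Btw F x y q) = QF.filter (fun q => ¬ q ∈ openSegment ℝ x y) := by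
      refine Finset.filter_congr fun q hq => ?_
      exact iff_aux2 (hl q hq) hc
    have e4 := Finset.card_filter_add_card_filter_not (s := QF)
      (fun q => q ∈ openSegment ℝ x y)
    rw [e3]
    have e5 : ((QF.filter (fun q => q ∈ openSegment ℝ x y)).card : ZMod 2) +
        ((QF.filter (fun q => ¬ q ∈ openSegment ℝ x y)).card : ZMod 2) = 0 := by
      rw [← Nat.cast_add, e4]
      exact (ZMod.natCast_eq_zero_iff_even).2 hev
    exact (CharTwo.add_eq_zero.1 e5).symm

theorem btw_symm (F : C2 T) (u v x : E) : Btw F u v x ↔ Btw F v u x := by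
  unfold Btw; exact or_comm

theorem sgn_add {Q : Finset E} (hQ : EvenPat T Q) {F : C2 T} {w w' : E} (hw : w ∈ F.bd)
    (hw' : w' ∈ F.bd) (hwQ : w ∉ Q) (hwQ' : w' ∉ Q) :
    sgn F Q w + sgn F Q w' = bet F Q w w' := by
  classical
  have key : ∀ {w w' : E}, w ∈ F.bd → w' ∈ F.bd → w ∉ Q → w' ∉ Q → F.pos w < F.pos w' →
      sgn F Q w + sgn F Q w' = bet F Q w w' := by
    intro w w' hw hw' hwQ hwQ' hlt
    have e1 : Q.filter (fun q => q ∈ F.set ∧ F.pos q < F.pos w') =
        Q.filter (fun q => q ∈ F.set ∧ F.pos q < F.pos w) ∪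
          Q.filter (fun q => q ∈ F.set ∧ Btw F w w' q) := by
      ext q
      simp only [Finset.mem_union, Finset.mem_filter]
      constructor
      · rintro ⟨h1, h2, h3⟩
        rcases lt_trichotomy (F.pos q) (F.pos w) with h | h | h
        · exact Or.inl ⟨h1, h2, h⟩
        · exact absurd (F.pos_injOn (on_bd hQ h1 h2) hw h ▸ h1) hwQ
        · exact Or.inr ⟨h1, h2, Or.inl ⟨h, h3⟩⟩
      · rintro (⟨h1, h2, h3⟩ | ⟨h1, h2, h3⟩)
        · exact ⟨h1, h2, h3.trans hlt⟩
        · rcases h3 with h3 | h3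
          · exact ⟨h1, h2, h3.2⟩
          · exact ⟨h1, h2, by linarith⟩
    have hd : Disjoint (Q.filter (fun q => q ∈ F.set ∧ F.pos q < F.pos w))
        (Q.filter (fun q => q ∈ F.set ∧ Btw F w w' q)) := by
      rw [Finset.disjoint_left]
      intro q h1 h2
      obtain ⟨-, -, h3⟩ := Finset.mem_filter.1 h1
      obtain ⟨-, -, h4⟩ := Finset.mem_filter.1 h2
      rcases h4 with h4 | h4 <;> linarith
    unfold sgn bet
    rw [e1, Finset.card_union_of_disjoint hd, Nat.cast_add, ← add_assoc, CharTwo.add_self_eq_zero,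
      zero_add]
  have hsymm : bet F Q w w' = bet F Q w' w := by
    unfold bet
    simp only [btw_symm F w w']
  rcases lt_trichotomy (F.pos w) (F.pos w') with h | h | h
  · exact key hw hw' hwQ hwQ' h
  · have : w = w' := F.pos_injOn hw hw' h
    subst this
    rw [CharTwo.add_self_eq_zero]
    unfold bet
    have e : Q.filter (fun q => q ∈ F.set ∧ Btw F w w q) = ∅ := by
      rw [Finset.filter_eq_empty_iff]
      rintro q - ⟨-, h | h⟩ <;> linarith [h.1, h.2]
    rw [e]; simp
  · rw [add_comm, hsymm]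
    exact key hw' hw hwQ' hwQ h

theorem isPreconnected_bd (F : C2 T) : IsPreconnected F.bd := by
  rw [← F.isDisc.bd]
  refine IsPreconnected.image ?_ _ (F.isDisc.cont.mono sphere_subset_closedBall)
  exact isPreconnected_sphere (by rw [Complex.rank_real_complex]; norm_num) 0 1

theorem isCompact_bd (F : C2 T) : IsCompact F.bd := by
  rw [← F.isDisc.bd]
  exact (isCompact_sphere 0 1).image_of_continuousOn
    (F.isDisc.cont.mono sphere_subset_closedBall)

theorem cc_sub_bd (F : C2 T) {x : E} (hx : x ∈ F.bd) : T.cc x ⊆ F.bd := by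
  intro y hy
  have hxF := F.bd_sub hx
  have hx1 : T.dim x ≤ 1 := (F.mem_bd_iff hxF).1 hx
  have hyF : y ∈ F.set := by
    rw [F.set_eq] at hxF ⊢
    exact T.cc_sub_of_mem hxF hy
  refine (F.mem_bd_iff hyF).2 ?_
  by_cases h : y ∈ T.oc x
  · rw [T.dim_eq_of_mem_oc (F.set_sub hxF) h]; exact hx1
  · have := T.dim_lt hy h
    omega

/-- the label of the vertices of `F` is the counting function of the cyclic order -/
theorem sgn_label {Q : Finset E} (hQ : EvenPat T Q) {lam : E → ZMod 2} (h : IsLab T Q lam)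
    (F : C2 T) {v v' : E} (hv : v ∈ F.set) (hv0 : T.dim v = 0) (hv' : v' ∈ F.set)
    (hv0' : T.dim v' = 0) : lam v + sgn F Q v = lam v' + sgn F Q v' := by
  classical
  have hb : ∀ {v : E}, v ∈ F.set → T.dim v = 0 → v ∈ F.bd := fun hv hv0 =>
    (F.mem_bd_iff hv).2 (by omega)
  have hnQ : ∀ {v : E}, T.dim v = 0 → v ∉ Q := by
    intro v hv0 hvQ
    have := (hQ.on v hvQ).2
    omega
  refine tiling_const T (isCompact_bd F) (isPreconnected_bd F) (F.bd_sub.trans F.set_sub)
    (fun x hx => cc_sub_bd F hx) (lam := fun v => lam v + sgn F Q v) ?_ (hb hv hv0) hv0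
    (hb hv' hv0') hv0'
  intro w hw hw1 p hp q hq hp0 hq0
  by_cases hpq : p = q
  · rw [hpq]
  have hwO : w ∈ Om := F.set_sub (F.bd_sub hw)
  obtain ⟨a, b, hab, hseg, -, ha0, hb0, ha, hb'⟩ := T.edge_eq hwO hw1
  have hcc : T.cc w = segment ℝ p q := by
    rcases ends_unique T hwO hw1 hseg ha0 hb0 hp hp0 with h1 | h1 <;>
      rcases ends_unique T hwO hw1 hseg ha0 hb0 hq hq0 with h2 | h2
    · exact absurd (h1.trans h2.symm) hpq
    · rw [h1, h2]; exact hseg
    · rw [h1, h2, segment_symm]; exact hseg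
    · exact absurd (h1.trans h2.symm) hpq
  have e1 := h w hwO hw1 p q hcc
  have e2 : ((Q.filter (fun u => u ∈ T.cc w)).card : ZMod 2) = ons Q p q := by
    unfold ons; rw [hcc]
  have e3 := btw_parity hQ (F.bd_sub hw) hw1 hp hq hpq (hnQ hp0) (hnQ hq0)
  have hpb : p ∈ F.bd := cc_sub_bd F hw hp
  have hqb : q ∈ F.bd := cc_sub_bd F hw hq
  have e4 := sgn_add hQ hpb hqb (hnQ hp0) (hnQ hq0)
  have e5 : lam p + lam q = sgn F Q p + sgn F Q q := by
    rw [e4, e3, ← e2]; convert e1
  have e6 : ∀ a b c d : ZMod 2, a + b = c + d → a + c = b + d := by decide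
  exact e6 _ _ _ _ e5

/-- the side of a point `w` of a 1-cell, computed from the end point `a` -/
theorem side_sgn {Q : Finset E} (hQ : EvenPat T Q) {lam : E → ZMod 2} (h : IsLab T Q lam)
    (F : C2 T) {w a b v : E} (hw : w ∈ F.On) (hwQ : w ∉ Q) (hseg : T.cc w = segment ℝ a b)
    (ha0 : T.dim a = 0) (hv : v ∈ F.set) (hv0 : T.dim v = 0) :
    lam a + ons Q a w = lam v + sgn F Q v + sgn F Q w := by
  classical
  have hwF := hw.1
  have hw1 := hw.2
  have hwb := F.on_sub_bd hw
  have ha : a ∈ T.cc w := by rw [hseg]; exact left_mem_segment ℝ a b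
  have haF : a ∈ F.set := F.bd_sub (cc_sub_bd F hwb ha)
  have hab : a ∈ F.bd := cc_sub_bd F hwb ha
  have haQ : a ∉ Q := fun hQ' => by have := (hQ.on a hQ').2; omega
  have haw : a ≠ w := fun h => by rw [h] at ha0; omega
  have e1 := btw_parity hQ hwF hw1 ha (T.self_mem_cc w) haw haQ hwQ
  have e2 := sgn_add hQ hab hwb haQ hwQ
  have e3 := sgn_label hQ h F haF ha0 hv hv0
  rw [← e1, ← e2, ← add_assoc, e3]

open Classical in
/-- **side of the point `w` with respect to the pattern `Q` with label `lam`** -/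
noncomputable def sd (T : Tiling Om ι) (Q : Finset E) (lam : E → ZMod 2) (w : E) : ZMod 2 :=
  if h : w ∈ Om ∧ T.dim w = 1 then
    lam (T.edge_eq h.1 h.2).choose + ons Q (T.edge_eq h.1 h.2).choose w else 0

theorem sd_spec (T : Tiling Om ι) (Q : Finset E) (lam : E → ZMod 2) {w : E} (hw : w ∈ Om)
    (hd : T.dim w = 1) : ∃ a b, T.cc w = segment ℝ a b ∧ T.dim a = 0 ∧ T.dim b = 0 ∧
      sd T Q lam w = lam a + ons Q a w := by
  have h := (T.edge_eq hw hd).choose_spec
  obtain ⟨b, -, h2, -, h4, h5, -⟩ := h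
  refine ⟨_, b, h2, h4, h5, ?_⟩
  unfold sd
  rw [dif_pos ⟨hw, hd⟩]

/-- every 2-cell contains a vertex -/
theorem exists_vertex_face (F : C2 T) : ∃ v ∈ F.set, T.dim v = 0 := by
  obtain ⟨p, h1, h2⟩ := T.exists_vertex F.pt_mem
  exact ⟨p, by rw [F.set_eq]; exact h1, h2⟩

/-- **(MV3)**: the sides of two points of `∂F` differ by the number of points of `Q` between them -/
theorem sd_add {Q : Finset E} (hQ : EvenPat T Q) {lam : E → ZMod 2} (h : IsLab T Q lam)
    (F : C2 T) {w w' : E} (hw : w ∈ F.On) (hw' : w' ∈ F.On) (hwQ : w ∉ Q) (hwQ' : w' ∉ Q) :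
    sd T Q lam w + sd T Q lam w' = bet F Q w w' := by
  obtain ⟨v, hv, hv0⟩ := exists_vertex_face F
  obtain ⟨a, b, h1, h2, -, h4⟩ := sd_spec T Q lam (F.set_sub hw.1) hw.2
  obtain ⟨a', b', h1', h2', -, h4'⟩ := sd_spec T Q lam (F.set_sub hw'.1) hw'.2
  rw [h4, h4', side_sgn hQ h F hw hwQ h1 h2 hv hv0, side_sgn hQ h F hw' hwQ' h1' h2' hv hv0,
    ← sgn_add hQ (F.on_sub_bd hw) (F.on_sub_bd hw') hwQ hwQ']
  have e : ∀ a b c : ZMod 2, a + b + (a + c) = b + c := by decide
  exact e _ _ _

/-- the side can be computed from any end point of the 1-cell -/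
theorem sd_eq (h3 : Module.finrank ℝ E = 3) {Q : Finset E} (hQ : EvenPat T Q)
    {lam : E → ZMod 2} (h : IsLab T Q lam) {w : E} (hwO : w ∈ Om) (hd : T.dim w = 1) (hwQ : w ∉ Q)
    {a b : E} (hseg : T.cc w = segment ℝ a b) (ha0 : T.dim a = 0) :
    sd T Q lam w = lam a + ons Q a w := by
  obtain ⟨q, hq⟩ := T.at_nonempty hwO
  obtain ⟨x, hx, -, -, hd1, -, -, -, hp1, -⟩ := Agl3_543.two_cells T h3 hwO hd hq
  set F : C2 T := mk2 T hx hd1 with hF
  have hwF : w ∈ F.On := ⟨by rw [hF, mk2_set]; exact hp1, hd⟩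
  obtain ⟨v, hv, hv0⟩ := exists_vertex_face F
  obtain ⟨a', b', h1, h2, -, h4⟩ := sd_spec T Q lam hwO hd
  rw [h4, side_sgn hQ h F hwF hwQ h1 h2 hv hv0, side_sgn hQ h F hwF hwQ hseg ha0 hv hv0]

end Crest.Agent.R096.Mv_441
end

-- ▼ part R096/Fin2_441
section

/-!
# Row 96, FINLAB (helper441), part 2: NEST.  Two sheets of the same family do not cross, so the side
of the points of one sheet with respect to the other one is constant; sheets are nested.
-/

set_option autoImplicit false
set_option linter.unusedSectionVars false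

open Set Metric Relation

namespace Crest.Agent.R096.Fin_441

open Crest.Agent.R096.Msh_715 Crest.Agent.R096.Main_4 Crest.Agent.R096.Agl5_543
  Crest.Agent.R096.St_147 Crest.Agent.R096.Seq_213 Crest.Agent.R096.Clo_441
  Crest.Agent.R096.Lab_184 Crest.Agent.R096.Mv_441

variable {E : Type} [NormedAddCommGroup E] [NormedSpace ℝ E] [FiniteDimensional ℝ E]
variable {Om : Set E} {ι J C K : Type} {T : Tiling Om ι} {h3 : Module.finrank ℝ E = 3}
variable {fam : J → C}

/-- a chord of `j'` on `F` separates an even number of points of the sheet `j` of the same family -/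
theorem bet_chord {s : GSt (meshC T h3) fam} {j j' : J} (hfam : fam j = fam j') (hne : j ≠ j')
    {F : C2 T} {w : E} (hw : w ∈ s.P) (hwF : w ∈ (meshC T h3).On F) (hwj : s.lab w = j')
    (hP : ∀ w ∈ s.P, w ∈ Om ∧ T.dim w = 1) : bet F (gPts s j) w (s.mu F w) = 0 := by
  classical
  unfold bet
  have hon : ∀ q ∈ (gPts s j).filter (fun q => q ∈ F.set ∧ Btw F w (s.mu F w) q),
      q ∈ s.P ∧ s.lab q = j ∧ q ∈ (meshC T h3).On F := by
    intro q hq
    obtain ⟨h1, h2, -⟩ := Finset.mem_filter.1 hq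
    obtain ⟨h4, h5⟩ := mem_gPts.1 h1
    exact ⟨h4, h5, h2, (hP q h4).2⟩
  have hmw := s.mu_mem hw hwF
  have hmlab := s.mu_lab hw hwF
  have h1 : ∑ _q ∈ (gPts s j).filter (fun q => q ∈ F.set ∧ Btw F w (s.mu F w) q),
      (1 : ZMod 2) = 0 := by
    refine Finset.sum_involution (fun q _ => s.mu F q) (fun q hq => by decide)
      (fun q hq _ => ?_) (fun q hq => ?_) (fun q hq => ?_)
    · obtain ⟨a1, a2, a3⟩ := hon q hq
      exact s.mu_ne a1 a3
    · obtain ⟨a1, a2, a3⟩ := hon q hq
      obtain ⟨b1, b2⟩ := s.mu_mem a1 a3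
      have b3 := s.mu_lab a1 a3
      have hnl : ¬ (meshC T h3).Lace F w (s.mu F w) q (s.mu F q) := by
        refine s.nc hw hwF a1 a3 (by rw [hwj, a2, hfam]) ?_ ?_
        · rintro rfl; exact hne (a2.symm.trans hwj)
        · rintro rfl
          exact hne (a2.symm.trans (hmlab.trans hwj))
      have hl : (Btw F w (s.mu F w) q ↔ Btw F w (s.mu F w) (s.mu F q)) := by
        by_contra hcon
        exact hnl hcon
      obtain ⟨-, -, hq3⟩ := Finset.mem_filter.1 hq
      exact Finset.mem_filter.2 ⟨mem_gPts.2 ⟨b1, b3.trans a2⟩, b2.1, hl.1 hq3⟩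
    · obtain ⟨a1, a2, a3⟩ := hon q hq
      exact s.mu_mu a1 a3
  rw [Finset.sum_const, nsmul_eq_mul, mul_one] at h1
  exact h1

/-- **(FL5) the side of the points of the sheet `j'` with respect to the sheet `j` of the same family
is constant** -/
theorem side_const {s : GSt (meshC T h3) fam} {j j' : J} (hfam : fam j = fam j') (hne : j ≠ j')
    (hP : ∀ w ∈ s.P, w ∈ Om ∧ T.dim w = 1) (hconn : s.Conn j') {lam : E → ZMod 2}
    (h : IsLab T (gPts s j) lam) {w w' : E} (hw : w ∈ s.P) (hwj : s.lab w = j') (hw' : w' ∈ s.P)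
    (hwj' : s.lab w' = j') : sd T (gPts s j) lam w = sd T (gPts s j) lam w' := by
  have hQ : EvenPat T (gPts s j) := gst_even s j fun w hw _ => hP w hw
  have hnot : ∀ {u : E}, s.lab u = j' → u ∉ gPts s j := fun hu hu' =>
    hne ((mem_gPts.1 hu').2.symm.trans hu)
  refine (hconn.2 {u | sd T (gPts s j) lam u = sd T (gPts s j) lam w} ?_ w rfl hw hwj w' hw'
    hwj').symm
  rintro F u hu hat hul
  have hm := s.mu_mem hat.1 hat.2
  have hml : s.lab (s.mu F u) = j' := (s.mu_lab hat.1 hat.2).trans hul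
  have e1 := sd_add hQ h F hat.2 hm.2 (hnot hul) (hnot hml)
  rw [bet_chord hfam hne hat.1 hat.2 hul hP] at e1
  show sd T (gPts s j) lam (s.mu F u) = sd T (gPts s j) lam w
  rw [← CharTwo.add_eq_zero.1 e1]
  exact hu

open Classical in
/-- **first point on an edge**: if `[a,b]` is a 1-cell with a point of `Q ∪ Q'`, then there is a point
`w` of `Q ∪ Q'` with no point of `Q ∪ Q'` on `[a,w)`. -/
theorem exists_first (R : Finset E) {a b : E}
    (hne : (R.filter (fun u => u ∈ segment ℝ a b)).Nonempty) :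
    ∃ w ∈ R, w ∈ segment ℝ a b ∧ ∀ u ∈ R, u ∈ segment ℝ a w → u = w := by
  obtain ⟨w, hw, hmin⟩ := (R.filter (fun u => u ∈ segment ℝ a b)).exists_min_image
    (fun u => dist a u) hne
  obtain ⟨h1, h2⟩ := Finset.mem_filter.1 hw
  refine ⟨w, h1, h2, fun u hu hua => ?_⟩
  have hub : u ∈ segment ℝ a b :=
    (convex_segment a b).segment_subset (left_mem_segment ℝ a b) h2 hua
  have h3 := hmin u (Finset.mem_filter.2 ⟨hu, hub⟩)
  -- `u` on `[a,w]`, `dist a w ≤ dist a u`
  have h4 : dist a u + dist u w = dist a w := by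
    obtain ⟨s, t, hs, ht, hst, rfl⟩ := hua
    have e1 : s = 1 - t := by linarith
    have e2 : a - (s • a + t • w) = t • (a - w) := by rw [e1]; module
    have e3 : (s • a + t • w) - w = (1 - t) • (a - w) := by rw [e1]; module
    rw [dist_eq_norm, dist_eq_norm, dist_eq_norm, e2, e3, norm_smul, norm_smul, Real.norm_eq_abs,
      Real.norm_eq_abs, abs_of_nonneg ht, abs_of_nonneg (by linarith)]
    ring
  have h5 : dist u w = 0 := by linarith [dist_nonneg (x := u) (y := w)]
  exact dist_eq_zero.1 h5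

/-- **(FL5) NEST**: `j` inner, `j'` outer sheet of one family: points of `j'` are outside `j`, points
of `j` are inside `j'`, both labels vanish at a vertex which is joined with `v` by 1-cells: then
`lam j v = 1` implies `lam j' v = 1`. -/
theorem nest {Q Q' : Finset E} (hQ : EvenPat T Q) (hQ' : EvenPat T Q') {lam lam' : E → ZMod 2}
    (h3 : Module.finrank ℝ E = 3)
    (h : IsLab T Q lam) (h' : IsLab T Q' lam') (hdis : ∀ w ∈ Q, w ∉ Q')
    (hout : ∀ w ∈ Q', sd T Q lam w = 0) (hin : ∀ w ∈ Q, sd T Q' lam' w = 1)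
    {W : Set ι} {v v₁ : E} (hp : ReflTransGen (Edg T W) v v₁) (h1 : lam v₁ = 0)
    (hv : lam v = 1) : lam' v = 1 := by
  classical
  by_contra hv'
  have hz : ∀ x : ZMod 2, x ≠ 1 → x = 0 := by decide
  have hv0 : lam' v = 0 := hz _ hv'
  have key : lam v₁ = 1 ∧ lam' v₁ = 0 := by
    clear h1
    induction hp with
    | refl => exact ⟨hv, hv0⟩
    | @tail a b _ hs ih =>
      obtain ⟨w₀, hw₀, hd, hseg, -⟩ := hs
      obtain ⟨i1, i2⟩ := ih
      -- end points of the 1-cell
      obtain ⟨p, q, hpq, hseg', hoc, hp0, hq0, -, -⟩ := T.edge_eq hw₀ hd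
      have hend : ∀ {x : E}, x ∈ segment ℝ a b → T.dim x ≠ 0 → x ∈ T.oc w₀ := by
        intro x hx hx0
        rw [hoc]
        rw [← hseg, hseg'] at hx
        refine mem_openSegment_of_ne_left_right ?_ ?_ hx
        · rintro rfl; exact hx0 hp0
        · rintro rfl; exact hx0 hq0
      have hab : a ≠ b := by
        rintro rfl
        rw [hseg', segment_same] at hseg
        have e1 : p ∈ ({a} : Set E) := hseg ▸ left_mem_segment ℝ p q
        have e2 : q ∈ ({a} : Set E) := hseg ▸ right_mem_segment ℝ p q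
        exact hpq ((mem_singleton_iff.1 e1).trans (mem_singleton_iff.1 e2).symm)
      have ha0 : T.dim a = 0 := by
        by_contra hne
        have hx := hend (left_mem_segment ℝ a b) hne
        rw [hoc] at hx
        obtain ⟨s, t, hs, ht, hst, hx⟩ := hx
        -- `a` extreme point of the segment `[a,b] = [p,q]`
        have hpe : p ∈ segment ℝ a b := by rw [← hseg, hseg']; exact left_mem_segment ℝ p q
        have hqe : q ∈ segment ℝ a b := by rw [← hseg, hseg']; exact right_mem_segment ℝ p q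
        obtain ⟨s1, t1, hs1, ht1, hst1, hp1⟩ := hpe
        obtain ⟨s2, t2, hs2, ht2, hst2, hq2⟩ := hqe
        have e1 : s1 = 1 - t1 := by linarith
        have e2 : s2 = 1 - t2 := by linarith
        have e3 : s = 1 - t := by linarith
        have e4 : ((1 - t) * t1 + t * t2) • (b - a) = 0 := by
          have : ((1 - t) * t1 + t * t2) • (b - a) = (s • p + t • q) - a := by
            rw [← hp1, ← hq2, e1, e2, e3]; module
          rw [this, hx, sub_self]
        rcases smul_eq_zero.1 e4 with e5 | e5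
        · have f1 : t1 = 0 := by nlinarith [mul_nonneg ht.le ht2, mul_nonneg hs.le ht1]
          have f2 : t2 = 0 := by nlinarith [mul_nonneg ht.le ht2, mul_nonneg hs.le ht1]
          apply hpq
          rw [← hp1, ← hq2, e1, e2, f1, f2]
        · exact hab (sub_eq_zero.1 e5).symm
      -- no point of `Q ∪ Q'` on the edge
      have hno : ((Q ∪ Q').filter (fun u => u ∈ segment ℝ a b)) = ∅ := by
        by_contra hne
        obtain ⟨w, hwR, hws, hfirst⟩ := exists_first (Q ∪ Q')
          (Finset.nonempty_iff_ne_empty.2 hne)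
        have hwd : w ∈ Om ∧ T.dim w = 1 := by
          rcases Finset.mem_union.1 hwR with h | h
          · exact hQ.on w h
          · exact hQ'.on w h
        have hwoc : w ∈ T.oc w₀ := hend hws (by rw [hwd.2]; exact one_ne_zero)
        have hcc : T.cc w = segment ℝ a b := by
          rw [← hseg]; exact T.cc_eq_of_mem_oc hw₀ hwoc
        rcases Finset.mem_union.1 hwR with hwQ | hwQ'
        · have e1 := hin w hwQ
          rw [sd_eq h3 hQ' h' hwd.1 hwd.2 (hdis w hwQ) hcc ha0, i2, zero_add] at e1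
          have e2 : ons Q' a w = 0 := by
            unfold ons
            rw [Finset.filter_eq_empty_iff.2]
            · simp
            · intro u hu hua
              have := hfirst u (Finset.mem_union_right _ hu) hua
              exact hdis w hwQ (this ▸ hu)
          rw [e2] at e1
          exact absurd e1 (by decide)
        · have hwQ : w ∉ Q := fun h => hdis w h hwQ'
          have e1 := hout w hwQ'
          rw [sd_eq h3 hQ h hwd.1 hwd.2 hwQ hcc ha0, i1] at e1
          have e2 : ons Q a w = 0 := by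
            unfold ons
            rw [Finset.filter_eq_empty_iff.2]
            · simp
            · intro u hu hua
              have := hfirst u (Finset.mem_union_left _ hu) hua
              exact hwQ (this ▸ hu)
          rw [e2] at e1
          exact absurd e1 (by decide)
      have hq1 : Q.filter (fun u => u ∈ T.cc w₀) = ∅ := by
        rw [Finset.filter_eq_empty_iff]
        intro u hu hc
        rw [hseg] at hc
        have : u ∈ ((Q ∪ Q').filter (fun u => u ∈ segment ℝ a b)) :=
          Finset.mem_filter.2 ⟨Finset.mem_union_left _ hu, hc⟩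
        rw [hno] at this
        exact absurd this (Finset.notMem_empty u)
      have hq2 : Q'.filter (fun u => u ∈ T.cc w₀) = ∅ := by
        rw [Finset.filter_eq_empty_iff]
        intro u hu hc
        rw [hseg] at hc
        have : u ∈ ((Q ∪ Q').filter (fun u => u ∈ segment ℝ a b)) :=
          Finset.mem_filter.2 ⟨Finset.mem_union_right _ hu, hc⟩
        rw [hno] at this
        exact absurd this (Finset.notMem_empty u)
      have e1 := h w₀ hw₀ hd a b hseg
      have e2 := h' w₀ hw₀ hd a b hseg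
      have e3 : ((Q.filter (fun u => u ∈ T.cc w₀)).card : ZMod 2) = 0 := by rw [hq1]; simp
      have e4 : ((Q'.filter (fun u => u ∈ T.cc w₀)).card : ZMod 2) = 0 := by rw [hq2]; simp
      have e5 : lam a + lam b = 0 := e1.trans (by convert e3)
      have e6 : lam' a + lam' b = 0 := e2.trans (by convert e4)
      exact ⟨(CharTwo.add_eq_zero.1 e5).symm.trans i1, (CharTwo.add_eq_zero.1 e6).symm.trans i2⟩
  rw [h1] at key
  exact absurd key.1 (by decide)

end Crest.Agent.R096.Fin_441
end

-- ▼ part R096/Gs1_422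
section

/-!
# R096 (row 96), GLUE-STATE part 1 (helper422): what a later state with copies (`Cps` of 298) over the
mesh of a tiling gives: points, local finiteness, parities and labels of the final sheets in the
tiles which are active in no quad of the family.
-/

set_option autoImplicit false
set_option linter.unusedSectionVars false

open Set Metric Relation

namespace Crest.Agent.R096.Gs_422

open Crest.Agent.R096.Msh_715 Crest.Agent.R096.Agl5_543 Crest.Agent.R096.St_147
  Crest.Agent.R096.Seq_213 Crest.Agent.R096.Lab_184 Crest.Agent.R096.Cp_298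
  Crest.Agent.R096.Ori_543

variable {E : Type} [NormedAddCommGroup E] [NormedSpace ℝ E] [FiniteDimensional ℝ E]
variable {Om : Set E} {ι J J1 C K : Type} {T : Tiling Om ι} {h3 : Module.finrank ℝ E = 3}
variable {fam : J → C} {fam1 : J1 → C}

/-- the tile `q` is active in no quad of the family `c` -/
def CFr (Q : Quads ι C K) (c : C) (q : ι) : Prop := ∀ k, Q.In k c → q ∉ Q.Act k



section cps

variable {Q : Quads ι C K} {δ : E → ℝ} {s₀ : GSt (meshC T h3) fam} {far₀ : J → Set E}
  {σ₀ : E → ZMod 2} {p : J1 → J} {m : J1 → ℕ} {s : GSt (meshC T h3) fam1} {far : J1 → Set E}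
  {β : E → E}

variable (h : Cps (oriM h3) Q (Near T δ) s₀ far₀ σ₀ p m s far β)
  (hP0 : ∀ w ∈ s₀.P, w ∈ Om ∧ T.dim w = 1)
include h hP0










end cps

/-! ### labels along paths of 1-cells -/


section cps2

variable {Q : Quads ι C K} {δ : E → ℝ} {s₀ : GSt (meshC T h3) fam} {far₀ : J → Set E}
  {σ₀ : E → ZMod 2} {p : J1 → J} {m : J1 → ℕ} {s : GSt (meshC T h3) fam1} {far : J1 → Set E}
  {β : E → E}



end cps2

end Crest.Agent.R096.Gs_422
end

-- ▼ part R096/Gs2_422
section

/-!
# R096 (row 96), GLUE-STATE part 2 (helper422): NEST.  The sheets of one family of a global state over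
the mesh of a tiling are totally ordered by inclusion of their insides, as soon as all labels are 1
at one vertex and 0 at another one (joined by 1-cells).
-/

set_option autoImplicit false
set_option linter.unusedSectionVars false

open Set Metric Relation

namespace Crest.Agent.R096.Gs_422

open Crest.Agent.R096.Msh_715 Crest.Agent.R096.Agl5_543 Crest.Agent.R096.St_147
  Crest.Agent.R096.Seq_213 Crest.Agent.R096.Lab_184 Crest.Agent.R096.Mv_441
  Crest.Agent.R096.Main_4

variable {E : Type} [NormedAddCommGroup E] [NormedSpace ℝ E] [FiniteDimensional ℝ E]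
variable {Om : Set E} {ι J C : Type} {T : Tiling Om ι} {h3 : Module.finrank ℝ E = 3}
variable {fam : J → C}

theorem edg_symm {W : Set ι} {v v' : E} (h : ReflTransGen (Edg T W) v v') :
    ReflTransGen (Edg T W) v' v := by
  induction h with
  | refl => exact .refl
  | tail _ h ih => exact .head h.symm ih

/-- **FIRST POINT**: if a property of the labels of finitely many sheets changes along a path of
1-cells, there is a vertex `a` with the property and a point `w` of one of the sheets for which the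
sides with respect to the other sheets are their labels at `a`. -/
theorem first_pt {s : GSt (meshC T h3) fam} (hon : ∀ w ∈ s.P, w ∈ Om ∧ T.dim w = 1)
    {I : Finset J} {lam : J → E → ZMod 2} (hl : ∀ i ∈ I, IsLab T (gPts s i) (lam i))
    {A : (J → ZMod 2) → Prop} (hA : ∀ x y, (∀ i ∈ I, x i = y i) → A x → A y) {W : Set ι}
    {v v' : E} (hp : ReflTransGen (Edg T W) v v') (h1 : A (fun i => lam i v))
    (h2 : ¬ A (fun i => lam i v')) :
    ∃ a, A (fun i => lam i a) ∧ ∃ w ∈ s.P, s.lab w ∈ I ∧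
      ∀ i' ∈ I, i' ≠ s.lab w → sd T (gPts s i') (lam i') w = lam i' a := by
  classical
  induction hp with
  | refl => exact absurd h1 h2
  | @tail a b _ hs ih =>
    by_cases ha : A (fun i => lam i a)
    swap
    · exact ih ha
    obtain ⟨w₀, hw₀, hd, hseg, -⟩ := hs
    obtain ⟨hab, ha0, hb0, hoc⟩ := ends_of_segment hw₀ hd hseg
    have hQ : ∀ i, EvenPat T (gPts s i) := fun i => gst_even s i fun w hw _ => hon w hw
    set R : Finset E := I.biUnion (gPts s) with hR
    have hne : (R.filter (fun u => u ∈ segment ℝ a b)).Nonempty := by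
      by_contra hcon
      rw [Finset.not_nonempty_iff_eq_empty] at hcon
      refine h2 (hA _ _ (fun i hi => ?_) ha)
      have e1 := hl i hi w₀ hw₀ hd a b hseg
      have e2 : (gPts s i).filter (fun u => u ∈ T.cc w₀) = ∅ := by
        rw [Finset.filter_eq_empty_iff]
        intro u hu hc
        rw [hseg] at hc
        have : u ∈ R.filter (fun u => u ∈ segment ℝ a b) :=
          Finset.mem_filter.2 ⟨Finset.mem_biUnion.2 ⟨i, hi, hu⟩, hc⟩
        rw [hcon] at this
        exact absurd this (Finset.notMem_empty u)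
      have e3 : (((gPts s i).filter (fun u => u ∈ T.cc w₀)).card : ZMod 2) = 0 := by rw [e2]; simp
      exact CharTwo.add_eq_zero.1 (e1.trans (by convert e3))
    obtain ⟨w, hwR, hws, hfirst⟩ := Fin_441.exists_first R hne
    obtain ⟨i, hi, hwi⟩ := Finset.mem_biUnion.1 hwR
    obtain ⟨hwP, hwl⟩ := mem_gPts.1 hwi
    obtain ⟨hwO, hw1⟩ := hon w hwP
    have hwcc : w ∈ T.cc w₀ := by rw [hseg]; exact hws
    have hwoc : w ∈ T.oc w₀ := by
      by_contra hn
      have := T.dim_lt hwcc hn
      omega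
    have hcc : T.cc w = segment ℝ a b := by
      rw [← hseg]; exact T.cc_eq_of_mem_oc hw₀ hwoc
    refine ⟨a, ha, w, hwP, by rw [hwl]; exact hi, fun i' hi' hne' => ?_⟩
    have hwQ : w ∉ gPts s i' := fun h => hne' (mem_gPts.1 h).2.symm
    rw [sd_eq h3 (hQ i') (hl i' hi') hwO hw1 hwQ hcc ha0]
    have e4 : ons (gPts s i') a w = 0 := by
      unfold ons
      rw [Finset.filter_eq_empty_iff.2]
      · simp
      · intro u hu hua
        have := hfirst u (Finset.mem_biUnion.2 ⟨i', hi', hu⟩) hua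
        exact hwQ (this ▸ hu)
    rw [e4, add_zero]

/-- the sheet `j` lies inside the sheet `j'` -/
def Ins (s : GSt (meshC T h3) fam) (lam : J → E → ZMod 2) (j j' : J) : Prop :=
  ∀ w ∈ s.P, s.lab w = j → sd T (gPts s j') (lam j') w = 1

/-- the sheet `j` lies outside the sheet `j'` -/
def Out (s : GSt (meshC T h3) fam) (lam : J → E → ZMod 2) (j j' : J) : Prop :=
  ∀ w ∈ s.P, s.lab w = j → sd T (gPts s j') (lam j') w = 0

/-- labelled sheets of the family `c`: label 1 at `v₀`, 0 at `v₁` -/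
structure Lbd (s : GSt (meshC T h3) fam) (c : C) (lam : J → E → ZMod 2) (v₀ v₁ : E) : Prop where
  on : ∀ w ∈ s.P, w ∈ Om ∧ T.dim w = 1
  conn : ∀ j, fam j = c → s.Conn j
  lab : ∀ j, fam j = c → IsLab T (gPts s j) (lam j)
  one : ∀ j, fam j = c → lam j v₀ = 1
  zero : ∀ j, fam j = c → lam j v₁ = 0
  path : ∃ W : Set ι, ReflTransGen (Edg T W) v₀ v₁

variable {s : GSt (meshC T h3) fam} {c : C} {lam : J → E → ZMod 2} {v₀ v₁ : E}

theorem Lbd.ins_of_pt (h : Lbd s c lam v₀ v₁) {j j' : J} (hj : fam j = c) (hj' : fam j' = c)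
    (hne : j' ≠ j) {w : E} (hw : w ∈ s.P) (hl : s.lab w = j)
    (h1 : sd T (gPts s j') (lam j') w = 1) : Ins s lam j j' := by
  intro w' hw' hl'
  rw [← h1]
  exact Fin_441.side_const (hj'.trans hj.symm) hne h.on (h.conn j hj) (h.lab j' hj') hw' hl' hw hl

theorem Lbd.out_of_pt (h : Lbd s c lam v₀ v₁) {j j' : J} (hj : fam j = c) (hj' : fam j' = c)
    (hne : j' ≠ j) {w : E} (hw : w ∈ s.P) (hl : s.lab w = j)
    (h1 : sd T (gPts s j') (lam j') w = 0) : Out s lam j j' := by
  intro w' hw' hl'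
  rw [← h1]
  exact Fin_441.side_const (hj'.trans hj.symm) hne h.on (h.conn j hj) (h.lab j' hj') hw' hl' hw hl

theorem Lbd.not_both (h : Lbd s c lam v₀ v₁) {j j' : J} (hj : fam j = c)
    (h1 : Ins s lam j j') (h2 : Out s lam j j') : False := by
  obtain ⟨⟨w, hw, hl⟩, -⟩ := h.conn j hj
  have e1 := h1 w hw hl
  rw [h2 w hw hl] at e1
  exact absurd e1 (by decide)

/-- a nonempty finite set of sheets of the family has an innermost sheet -/
theorem Lbd.inner (h : Lbd s c lam v₀ v₁) {I : Finset J} (hI : I.Nonempty)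
    (hf : ∀ i ∈ I, fam i = c) : ∃ i ∈ I, ∀ i' ∈ I, i' ≠ i → Ins s lam i i' := by
  obtain ⟨W, hW⟩ := h.path
  obtain ⟨i₀, hi₀⟩ := hI
  obtain ⟨a, ha, w, hw, hwI, h1⟩ := first_pt h.on (I := I) (fun i hi => h.lab i (hf i hi))
    (A := fun x => ∀ i ∈ I, x i = 1) (fun x y hxy hx i hi => by rw [← hxy i hi]; exact hx i hi) hW
    (fun i hi => h.one i (hf i hi))
    (fun hcon => by
      have e1 : lam i₀ v₁ = 1 := hcon i₀ hi₀
      have e2 := h.zero i₀ (hf i₀ hi₀)
      rw [e2] at e1
      exact absurd e1 (by decide))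
  refine ⟨s.lab w, hwI, fun i' hi' hne => ?_⟩
  exact h.ins_of_pt (hf _ hwI) (hf i' hi') hne hw rfl (by rw [h1 i' hi' hne]; exact ha i' hi')

/-- a nonempty finite set of sheets of the family has an outermost sheet -/
theorem Lbd.outer (h : Lbd s c lam v₀ v₁) {I : Finset J} (hI : I.Nonempty)
    (hf : ∀ i ∈ I, fam i = c) : ∃ i ∈ I, ∀ i' ∈ I, i' ≠ i → Out s lam i i' := by
  obtain ⟨W, hW⟩ := h.path
  obtain ⟨i₀, hi₀⟩ := hI
  obtain ⟨a, ha, w, hw, hwI, h1⟩ := first_pt h.on (I := I) (fun i hi => h.lab i (hf i hi))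
    (A := fun x => ∀ i ∈ I, x i = 0) (fun x y hxy hx i hi => by rw [← hxy i hi]; exact hx i hi)
    (edg_symm hW) (fun i hi => h.zero i (hf i hi))
    (fun hcon => by
      have e1 : lam i₀ v₀ = 0 := hcon i₀ hi₀
      have e2 := h.one i₀ (hf i₀ hi₀)
      rw [e2] at e1
      exact absurd e1 (by decide))
  refine ⟨s.lab w, hwI, fun i' hi' hne => ?_⟩
  exact h.out_of_pt (hf _ hwI) (hf i' hi') hne hw rfl (by rw [h1 i' hi' hne]; exact ha i' hi')

/-- **two sheets of the family are nested** -/
theorem Lbd.tri (h : Lbd s c lam v₀ v₁) {j j' : J} (hj : fam j = c) (hj' : fam j' = c)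
    (hne : j ≠ j') : (Ins s lam j j' ∧ Out s lam j' j) ∨ (Ins s lam j' j ∧ Out s lam j j') := by
  classical
  have hf : ∀ i ∈ ({j, j'} : Finset J), fam i = c := by
    intro i hi
    rcases Finset.mem_insert.1 hi with rfl | hi
    · exact hj
    · rw [Finset.mem_singleton.1 hi]; exact hj'
  have hn : ({j, j'} : Finset J).Nonempty := ⟨j, Finset.mem_insert_self _ _⟩
  have hjI : j ∈ ({j, j'} : Finset J) := Finset.mem_insert_self _ _
  have hjI' : j' ∈ ({j, j'} : Finset J) := Finset.mem_insert_of_mem (Finset.mem_singleton_self _)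
  have h1 : Ins s lam j j' ∨ Ins s lam j' j := by
    obtain ⟨i, hi, h1⟩ := h.inner hn hf
    rcases Finset.mem_insert.1 hi with rfl | hi
    · exact Or.inl (h1 j' hjI' hne.symm)
    · rw [Finset.mem_singleton.1 hi] at h1
      exact Or.inr (h1 j hjI hne)
  have h2 : Out s lam j j' ∨ Out s lam j' j := by
    obtain ⟨i, hi, h1⟩ := h.outer hn hf
    rcases Finset.mem_insert.1 hi with rfl | hi
    · exact Or.inl (h1 j' hjI' hne.symm)
    · rw [Finset.mem_singleton.1 hi] at h1
      exact Or.inr (h1 j hjI hne)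
  rcases h1 with h1 | h1
  · rcases h2 with h2 | h2
    · exact (h.not_both hj h1 h2).elim
    · exact Or.inl ⟨h1, h2⟩
  · rcases h2 with h2 | h2
    · exact Or.inr ⟨h1, h2⟩
    · exact (h.not_both hj' h1 h2).elim

theorem Lbd.asymm (h : Lbd s c lam v₀ v₁) {j j' : J} (hj : fam j = c) (hj' : fam j' = c)
    (hne : j ≠ j') (h1 : Ins s lam j j') : ¬ Ins s lam j' j := by
  intro h2
  rcases h.tri hj hj' hne with ⟨-, h4⟩ | ⟨-, h4⟩
  · exact h.not_both hj' h2 h4
  · exact h.not_both hj h1 h4

theorem Lbd.out_of_not (h : Lbd s c lam v₀ v₁) {j j' : J} (hj : fam j = c) (hj' : fam j' = c)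
    (hne : j ≠ j') (h1 : ¬ Ins s lam j j') : Ins s lam j' j ∧ Out s lam j j' := by
  rcases h.tri hj hj' hne with ⟨h2, -⟩ | h2
  · exact absurd h2 h1
  · exact h2

/-- **transitivity** -/
theorem Lbd.trans (h : Lbd s c lam v₀ v₁) {j j' j'' : J} (hj : fam j = c) (hj' : fam j' = c)
    (hj'' : fam j'' = c) (n1 : j ≠ j') (n2 : j' ≠ j'') (h1 : Ins s lam j j')
    (h2 : Ins s lam j' j'') : j ≠ j'' ∧ Ins s lam j j'' := by
  classical
  have n3 : j ≠ j'' := by
    rintro rfl
    exact h.asymm hj hj' n1 h1 h2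
  refine ⟨n3, ?_⟩
  by_contra hcon
  have hf : ∀ i ∈ ({j, j', j''} : Finset J), fam i = c := by
    intro i hi
    simp only [Finset.mem_insert, Finset.mem_singleton] at hi
    rcases hi with rfl | rfl | rfl
    · exact hj
    · exact hj'
    · exact hj''
  obtain ⟨i, hi, h4⟩ := h.inner (I := {j, j', j''}) ⟨j, by simp⟩ hf
  simp only [Finset.mem_insert, Finset.mem_singleton] at hi h4
  rcases hi with rfl | rfl | rfl
  · exact hcon (h4 j'' (Or.inr (Or.inr rfl)) n3.symm)
  · exact h.asymm hj hj' n1 h1 (h4 j (Or.inl rfl) n1)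
  · exact h.asymm hj' hj'' n2 h2 (h4 j' (Or.inr (Or.inl rfl)) n2)

/-- **labels are nested** -/
theorem Lbd.mono (h : Lbd s c lam v₀ v₁) {j j' : J} (hj : fam j = c) (hj' : fam j' = c)
    (hne : j ≠ j') (h1 : Ins s lam j j') {W : Set ι} {v : E}
    (hv : ReflTransGen (Edg T W) v v₁) (hv1 : lam j v = 1) : lam j' v = 1 := by
  classical
  by_contra hcon
  have hz : ∀ x : ZMod 2, x ≠ 1 → x = 0 := by decide
  have hcon0 := hz _ hcon
  have hf : ∀ i ∈ ({j, j'} : Finset J), fam i = c := by
    intro i hi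
    rcases Finset.mem_insert.1 hi with rfl | hi
    · exact hj
    · rw [Finset.mem_singleton.1 hi]; exact hj'
  have hjI : j ∈ ({j, j'} : Finset J) := Finset.mem_insert_self _ _
  have hjI' : j' ∈ ({j, j'} : Finset J) := Finset.mem_insert_of_mem (Finset.mem_singleton_self _)
  obtain ⟨a, ha, w, hw, hwI, h4⟩ := first_pt h.on (I := {j, j'})
    (fun i hi => h.lab i (hf i hi)) (A := fun x => x j = 1 ∧ x j' = 0)
    (fun x y hxy hx => ⟨by rw [← hxy j hjI]; exact hx.1, by rw [← hxy j' hjI']; exact hx.2⟩) hv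
    ⟨hv1, hcon0⟩ (fun hcon => by
      have e1 : lam j v₁ = 1 := hcon.1
      rw [h.zero j hj] at e1
      exact absurd e1 (by decide))
  have ha1 : lam j a = 1 := ha.1
  have ha2 : lam j' a = 0 := ha.2
  rcases Finset.mem_insert.1 hwI with e | e
  · have e1 := h4 j' hjI' (by rw [e]; exact hne.symm)
    rw [h1 w hw e, ha2] at e1
    exact absurd e1 (by decide)
  · have e' := Finset.mem_singleton.1 e
    have e1 := h4 j hjI (by rw [e']; exact hne)
    have h5 : Out s lam j' j := by
      rcases h.tri hj hj' hne with ⟨-, h5⟩ | ⟨h5, -⟩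
      · exact h5
      · exact absurd h5 (h.asymm hj hj' hne h1)
    rw [h5 w hw e', ha1] at e1
    exact absurd e1 (by decide)

/-! ### the order number -/

open Classical in
/-- number of the sheets of the family outside `j` -/
noncomputable def ord (s : GSt (meshC T h3) fam) (lam : J → E → ZMod 2) (A : Finset J) (j : J) : ℕ :=
  (A.filter (fun j' => j' ≠ j ∧ Ins s lam j j')).card

theorem Lbd.ord_lt (h : Lbd s c lam v₀ v₁) {A : Finset J} (hA : ∀ j ∈ A, fam j = c) {j j' : J}
    (hj : j ∈ A) (hj' : j' ∈ A) (hne : j ≠ j') (h1 : Ins s lam j j') :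
    ord s lam A j' < ord s lam A j := by
  classical
  unfold ord
  refine Finset.card_lt_card ⟨?_, ?_⟩
  · intro i hi
    obtain ⟨hiA, hi1, hi2⟩ := Finset.mem_filter.1 hi
    obtain ⟨h4, h5⟩ := h.trans (hA j hj) (hA j' hj') (hA i hiA) hne hi1.symm h1 hi2
    exact Finset.mem_filter.2 ⟨hiA, h4.symm, h5⟩
  · intro hsub
    have h2 : j' ∈ A.filter (fun i => i ≠ j ∧ Ins s lam j i) :=
      Finset.mem_filter.2 ⟨hj', hne.symm, h1⟩
    have h4 := hsub h2
    exact (Finset.mem_filter.1 h4).2.1 rfl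



end Crest.Agent.R096.Gs_422
end

-- ▼ part R096/Mg3_441
section

/-!
# R096 (row 96), MERGE (helper441), part 3: the discrete input `cmb` (helper117) of a global state

* `lbl_cmb`   : the label of a piece is the (extended) label of any of its points;
* `connC_cmb` : connected sheets have connected pieces;
* `ord_cmb`   : order of the sheets of a family from one point of every sheet.
-/

set_option autoImplicit false
set_option linter.unusedSectionVars false

open Set Relation Module

namespace Crest.Agent.R096.Mg_441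

open Crest.Agent.R096.Msh_715 Crest.Agent.R096.Lab_184 Crest.Agent.R096.Agl5_543
  Crest.Agent.R096.Pat5_543 Crest.Agent.R096.Coh_184 Crest.Agent.R096.Seq_213
  Crest.Agent.R096.Bd_416 Crest.Agent.R096.St_147 Crest.Agent.R096.Cm_117

variable {E : Type} [NormedAddCommGroup E] [NormedSpace ℝ E] [FiniteDimensional ℝ E]
variable {Om : Set E} {ι : Type} {T : Tiling Om ι} {h3 : finrank ℝ E = 3} {J Cc : Type}
variable {fam : J → Cc} {s : GSt (meshC T h3) fam}

/-- the extended label of a sheet from the vertex labels -/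
theorem xl_sheet (hon : ∀ w ∈ s.P, w ∈ Om ∧ T.dim w = 1) {Lam : J → E → ZMod 2}
    (hLam : ∀ j, ∀ e ∈ Om, T.dim e = 1 → ∀ a b, T.cc e = segment ℝ a b →
      Lam j a + Lam j b = (((gPts s j : Set E) ∩ T.cc e).ncard : ZMod 2)) (j : J) :
    XL T (gPts s j) (xt T (gPts s j) (Lam j)) Om :=
  xl_of_exact (Subset.refl _) (fun w hw => (hon w (mem_gPts.1 hw).1).2) (exact_kap_iff.2 (hLam j))

/-- the extended label of a point from an end of its 1-cell -/
theorem xt_end (hon : ∀ w ∈ s.P, w ∈ Om ∧ T.dim w = 1) {Lam : J → E → ZMod 2}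
    (hLam : ∀ j, ∀ e ∈ Om, T.dim e = 1 → ∀ a b, T.cc e = segment ℝ a b →
      Lam j a + Lam j b = (((gPts s j : Set E) ∩ T.cc e).ncard : ZMod 2)) {j : J} {w a : E}
    (hw : w ∈ Om) (hw1 : T.dim w = 1) (hwj : w ∉ gPts s j) (ha : a ∈ T.cc w) (ha0 : T.dim a = 0) :
    xt T (gPts s j) (Lam j) w = Lam j a + nQ (gPts s j) (segment ℝ a w) := by
  have haQ : a ∉ gPts s j := fun h => by
    have := (hon a (mem_gPts.1 h).1).2
    omega
  have h1 := xl_sheet hon hLam j w hw hw1 a ha w (T.self_mem_cc w) haQ hwj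
  rw [xt_zero ha0] at h1
  have e : ∀ a b c : ZMod 2, a + b = c → b = a + c := by decide
  exact e _ _ _ h1

variable (h : LF s) (hon : ∀ w ∈ s.P, w ∈ Om ∧ T.dim w = 1) (Lam : J → E → ZMod 2)
    (hLam : ∀ j, ∀ e ∈ Om, T.dim e = 1 → ∀ a b, T.cc e = segment ℝ a b →
      Lam j a + Lam j b = (((gPts s j : Set E) ∩ T.cc e).ncard : ZMod 2))


/-- the piece of a point in a cell -/
def pp (c : T.Cell) {w : E} (hw : w ∈ s.P ∧ w ∈ c.set ∧ T.dim w = 1) :
    Σ q, (cmb h hon Lam hLam).I q := ⟨c, (Quot.mk _ ⟨w, hw⟩ : Pc s c)⟩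






end Crest.Agent.R096.Mg_441
end

-- ▼ part R096/Gs3_422

/-!
# R096 (row 96), GLUE-STATE part 3 (helper422): labels of the final sheets

`LabIn` = label data of the initial state (bodies `D c`, labels, a deep vertex and a far vertex
joined by 1-cells of tiles active in no quad of the family); `exists_lam` = labels of the sheets of a
later state with copies (`LabOut`); their values at frozen / empty places; the order of the sheets of
a family in the form of `Mg_441.ord_cmb`.
-/

set_option autoImplicit false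
set_option linter.unusedSectionVars false

open Set Metric Relation

namespace Crest.Agent.R096.Gs_422

open Crest.Agent.R096.Msh_715 Crest.Agent.R096.Agl5_543 Crest.Agent.R096.St_147
  Crest.Agent.R096.Seq_213 Crest.Agent.R096.Lab_184 Crest.Agent.R096.Cp_298
  Crest.Agent.R096.Ori_543 Crest.Agent.R096.Mv_441 Crest.Agent.R096.Main_4
  Crest.Agent.R096.Coh_184

variable {E : Type} [NormedAddCommGroup E] [NormedSpace ℝ E] [FiniteDimensional ℝ E]
variable {Om : Set E} {ι J J1 C K : Type} {T : Tiling Om ι} {h3 : Module.finrank ℝ E = 3}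
variable {fam : J → C} {fam1 : J1 → C}

/-- **label data of the initial state**: `D c` body of the family `c`, `v₀ c` deep vertex, `v₁ c`
far vertex -/
structure LabIn (Q : Quads ι C K) (s₀ : GSt (meshC T h3) fam) (D : C → Set E)
    (lam₀ : J → E → ZMod 2) (v₀ v₁ : C → E) : Prop where
  cpt : ∀ j, IsCompact (D (fam j))
  sub : ∀ j, D (fam j) ⊆ Om
  fr : ∀ j, IsPreconnected (frontier (D (fam j)))
  triv : ∀ j, TrivF (ZMod 2) (D (fam j))
  supp : ∀ w ∈ s₀.P, ∀ q, w ∈ Msh_715.P (T.H q) →
    Msh_715.P (T.H q) ⊆ interior (D (fam (s₀.lab w)))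
  act : ∀ j k, Q.In k (fam j) → ∀ q ∈ Q.Act k, Msh_715.P (T.H q) ⊆ interior (D (fam j))
  lab : ∀ j, IsLab T (gPts s₀ j) (lam₀ j)
  one : ∀ j, lam₀ j (v₀ (fam j)) = 1
  zero : ∀ j, lam₀ j (v₁ (fam j)) = 0
  far : ∀ j, ∃ q, v₁ (fam j) ∈ Msh_715.P (T.H q) ∧ ¬ Msh_715.P (T.H q) ⊆ interior (D (fam j))
  rope : ∀ j, ReflTransGen (Edg T {q | CFr Q (fam j) q}) (v₀ (fam j)) (v₁ (fam j))

/-- **labels of the final sheets** -/
structure LabOut (Q : Quads ι C K) (s : GSt (meshC T h3) fam1) (D : C → Set E) (p : J1 → J)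
    (lam₀ : J → E → ZMod 2) (v₀ v₁ : C → E) (lam : J1 → E → ZMod 2) : Prop where
  on : ∀ w ∈ s.P, w ∈ Om ∧ T.dim w = 1
  conn : ∀ j, s.Conn j
  lab : ∀ j, IsLab T (gPts s j) (lam j)
  out : ∀ j v, v ∉ D (fam1 j) → lam j v = 0
  far : ∀ j q, ¬ Msh_715.P (T.H q) ⊆ interior (D (fam1 j)) → ∀ v ∈ Msh_715.P (T.H q), lam j v = 0
  one : ∀ j, lam j (v₀ (fam1 j)) = 1
  zero : ∀ j, lam j (v₁ (fam1 j)) = 0
  rope : ∀ j, ReflTransGen (Edg T {q | CFr Q (fam1 j) q}) (v₀ (fam1 j)) (v₁ (fam1 j))
  frz : ∀ j v, ReflTransGen (Edg T {q | CFr Q (fam1 j) q}) (v₀ (fam1 j)) v →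
    lam j v = lam₀ (p j) v

section cps

variable {Q : Quads ι C K} {δ : E → ℝ} {s₀ : GSt (meshC T h3) fam} {far₀ : J → Set E}
  {σ₀ : E → ZMod 2} {p : J1 → J} {m : J1 → ℕ} {s : GSt (meshC T h3) fam1} {far : J1 → Set E}
  {β : E → E} {D : C → Set E} {lam₀ : J → E → ZMod 2} {v₀ v₁ : C → E}


end cps

section out

variable {Q : Quads ι C K} {s : GSt (meshC T h3) fam1} {p : J1 → J}
  {D : C → Set E} {lam₀ : J → E → ZMod 2} {v₀ v₁ : C → E} {lam : J1 → E → ZMod 2}

theorem LabOut.lbd (L : LabOut Q s D p lam₀ v₀ v₁ lam) (j₀ : J1) :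
    Lbd s (fam1 j₀) lam (v₀ (fam1 j₀)) (v₁ (fam1 j₀)) where
  on := L.on
  conn := fun j _ => L.conn j
  lab := fun j _ => L.lab j
  one := fun j hj => by rw [← hj]; exact L.one j
  zero := fun j hj => by rw [← hj]; exact L.zero j
  path := ⟨_, L.rope j₀⟩

/-- labels with `ncard` (input `hLam` of `Cm_117.cmb`) -/
theorem LabOut.hLam (L : LabOut Q s D p lam₀ v₀ v₁ lam) : ∀ j, ∀ e ∈ Om, T.dim e = 1 →
    ∀ a b, T.cc e = segment ℝ a b →
      lam j a + lam j b = (((gPts s j : Set E) ∩ T.cc e).ncard : ZMod 2) :=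
  fun j => isLab_iff.1 (L.lab j)




/-- side of a point = extended label -/
theorem LabOut.sd_xt (L : LabOut Q s D p lam₀ v₀ v₁ lam) {j : J1} {w : E} (hw : w ∈ s.P)
    (hne : s.lab w ≠ j) :
    sd T (gPts s j) (lam j) w = Cm_117.xt T (gPts s j) (lam j) w := by
  classical
  obtain ⟨hO, h1⟩ := L.on w hw
  have hwQ : w ∉ gPts s j := fun h => hne (mem_gPts.1 h).2
  obtain ⟨a, b, hab, hseg, hoc, ha0, hb0, ha, hb⟩ := T.edge_eq hO h1
  have haw : a ∈ T.cc w := by rw [hseg]; exact left_mem_segment ℝ a b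
  rw [sd_eq h3 (gst_even s j fun w hw _ => L.on w hw) (L.lab j) hO h1 hwQ hseg ha0,
    Mg_441.xt_end L.on L.hLam hO h1 hwQ haw ha0]
  congr 1
  unfold ons Cm_117.nQ
  rw [← Finset.sum_filter, Finset.sum_const, nsmul_eq_mul, mul_one]

/-- the sheets of the family of `j` -/
noncomputable def sib (hfin : ∀ a, {j | fam1 j = a}.Finite) (j : J1) : Finset J1 :=
  (hfin (fam1 j)).toFinset

theorem mem_sib {hfin : ∀ a, {j | fam1 j = a}.Finite} {j i : J1} :
    i ∈ sib hfin j ↔ fam1 i = fam1 j := by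
  unfold sib; rw [Finite.mem_toFinset]; rfl

/-- the number of the sheets of the family outside `j` -/
noncomputable def rk (s : GSt (meshC T h3) fam1) (lam : J1 → E → ZMod 2)
    (hfin : ∀ a, {j | fam1 j = a}.Finite) (j : J1) : ℕ := ord s lam (sib hfin j) j

theorem sib_congr {hfin : ∀ a, {j | fam1 j = a}.Finite} {j j' : J1} (h : fam1 j = fam1 j') :
    sib hfin j = sib hfin j' := by
  ext i
  rw [mem_sib, mem_sib, h]

/-- **order**: `j` lies inside `j'` iff its number is larger -/
theorem LabOut.ins_iff (L : LabOut Q s D p lam₀ v₀ v₁ lam)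
    (hfin : ∀ a, {j | fam1 j = a}.Finite) {j j' : J1} (hf : fam1 j = fam1 j') (hne : j ≠ j') :
    Ins s lam j j' ↔ rk s lam hfin j' < rk s lam hfin j := by
  have B := L.lbd j
  have hA : ∀ i ∈ sib hfin j, fam1 i = fam1 j := fun i hi => mem_sib.1 hi
  have hj : j ∈ sib hfin j := mem_sib.2 rfl
  have hj' : j' ∈ sib hfin j := mem_sib.2 hf.symm
  unfold rk
  rw [sib_congr hf.symm]
  constructor
  · intro h
    exact B.ord_lt hA hj hj' hne h
  · intro h
    by_contra hcon
    obtain ⟨h1, -⟩ := B.out_of_not rfl hf.symm hne hcon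
    exact absurd (B.ord_lt hA hj' hj hne.symm h1) (not_lt.2 h.le)

theorem LabOut.rk_inj (L : LabOut Q s D p lam₀ v₀ v₁ lam)
    (hfin : ∀ a, {j | fam1 j = a}.Finite) {j j' : J1} (hf : fam1 j = fam1 j')
    (h : rk s lam hfin j = rk s lam hfin j') : j = j' := by
  by_contra hne
  by_cases h1 : Ins s lam j j'
  · have := (L.ins_iff hfin hf hne).1 h1
    omega
  · obtain ⟨h2, -⟩ := (L.lbd j).out_of_not rfl hf.symm hne h1
    have := (L.ins_iff hfin hf.symm (Ne.symm hne)).1 h2
    omega

/-- the side of any point of `j` with respect to `j'` -/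
theorem LabOut.sd_iff (L : LabOut Q s D p lam₀ v₀ v₁ lam)
    (hfin : ∀ a, {j | fam1 j = a}.Finite) {j j' : J1} (hf : fam1 j = fam1 j') (hne : j ≠ j')
    {w : E} (hw : w ∈ s.P) (hl : s.lab w = j) :
    sd T (gPts s j') (lam j') w = 1 ↔ rk s lam hfin j' < rk s lam hfin j := by
  rw [← L.ins_iff hfin hf hne]
  constructor
  · intro h
    exact (L.lbd j).ins_of_pt rfl hf.symm hne.symm hw hl h
  · intro h
    exact h w hw hl

/-- **input `hlev` of `Mg_441.ord_cmb`** -/
theorem LabOut.hlev (L : LabOut Q s D p lam₀ v₀ v₁ lam)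
    (hfin : ∀ a, {j | fam1 j = a}.Finite) : ∀ j j', j ≠ j' → fam1 j = fam1 j' →
      ∃ w ∈ s.P, s.lab w = j ∧ (Cm_117.xt T (gPts s j') (lam j') w = 1 ↔
        (rk s lam hfin j' : ℝ) < rk s lam hfin j) := by
  intro j j' hne hf
  obtain ⟨⟨w, hw, hl⟩, -⟩ := L.conn j
  refine ⟨w, hw, hl, ?_⟩
  rw [← L.sd_xt hw (by rw [hl]; exact hne), L.sd_iff hfin hf hne hw hl, Nat.cast_lt]


end out

section pieces

variable {s : GSt (meshC T h3) fam1}


end pieces

end Crest.Agent.R096.Gs_422
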