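import Mathlib
import Crest.Agent.R096.Init4_543
import Crest.Agent.R096.Init7_543

-- ▼ part R096/Init5_543
section

/-! # INIT 5 (row 96, helper543): forests of chords on a tile (`Leaf`) -/

set_option autoImplicit false
set_option linter.unusedSectionVars false

open Set Filter Topology Metric

namespace Crest.Agent.R096.Init_543

open Crest.Agent.R096.Coh_184 Crest.Agent.R096.Msh_715 Crest.Agent.R096.Agl4_543
  Crest.Agent.R096.Agl5_543 Crest.Agent.R096.Agl6_543 Crest.Agent.R096.Ginv_543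
  Crest.Agent.R096.Pat5_543

/-! ### a graph lemma -/

/-- **Duality.** `W` with two flags at each point, `inv` the partner of a flag; if there is no
nonzero even set of chords inside `A`, every symmetric function is exact on the chords in `A`. -/
theorem exact_of_noCycle {W : Type} [Fintype W] [DecidableEq W] (inv : W × Bool → W × Bool)
    (hinv : ∀ p, inv (inv p) = p) (hne : ∀ p, (inv p).1 ≠ p.1) (A : Set (W × Bool))
    (hA : ∀ d : W × Bool → ZMod 2, (∀ p, d (inv p) = d p) → (∀ p, p ∉ A → d p = 0) →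
      (∀ w, d (w, true) = d (w, false)) → ∀ p, d p = 0)
    (hAs : ∀ p, p ∈ A → inv p ∈ A)
    (κ : W × Bool → ZMod 2) (hκ : ∀ p, κ (inv p) = κ p) :
    ∃ ψ : W → ZMod 2, ∀ p ∈ A, κ p = ψ p.1 + ψ (inv p).1 := by
  classical
  let U : Submodule (ZMod 2) (W × Bool → ZMod 2) :=
    { carrier := {κ | ∃ ψ : W → ZMod 2, ∀ p ∈ A, κ p = ψ p.1 + ψ (inv p).1}
      add_mem' := by
        rintro a b ⟨ψ, h1⟩ ⟨ψ', h2⟩
        refine ⟨ψ + ψ', fun p hp => ?_⟩
        simp only [Pi.add_apply, h1 p hp, h2 p hp]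
        ring
      zero_mem' := ⟨0, fun p _ => by simp⟩
      smul_mem' := by
        rintro c a ⟨ψ, h1⟩
        refine ⟨c • ψ, fun p hp => ?_⟩
        simp only [Pi.smul_apply, h1 p hp, smul_eq_mul]
        ring }
  by_contra hcon
  have hn : κ ∉ U := fun h => hcon h
  obtain ⟨φ, hφκ, hφU⟩ := Submodule.exists_le_ker_of_notMem hn
  -- the coefficients
  let c : W × Bool → ZMod 2 := fun p => φ (Pi.single p 1)
  have hφ : ∀ x : W × Bool → ZMod 2, φ x = ∑ p, x p * c p := by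
    intro x
    have e1 : x = ∑ p, x p • Pi.single p (1 : ZMod 2) := by
      funext q
      simp [Finset.sum_apply, Pi.single_apply]
    conv_lhs => rw [e1]
    rw [map_sum]
    exact Finset.sum_congr rfl fun p _ => by rw [map_smul, smul_eq_mul]
  have hφ0 : ∀ x ∈ U, ∑ p, x p * c p = 0 := by
    intro x hx
    rw [← hφ x]
    exact hφU hx
  have hc0 : ∀ p, p ∉ A → c p = 0 := by
    intro p hp
    have h1 : (Pi.single p (1 : ZMod 2) : W × Bool → ZMod 2) ∈ U := by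
      refine ⟨0, fun q hq => ?_⟩
      have : q ≠ p := fun e => hp (e ▸ hq)
      simp [this]
    have h2 := hφU h1
    exact h2
  let E : (W × Bool) ≃ (W × Bool) := ⟨inv, inv, hinv, hinv⟩
  let d : W × Bool → ZMod 2 := fun p => c p + c (inv p)
  have hd1 : ∀ p, d (inv p) = d p := by
    intro p
    show c (inv p) + c (inv (inv p)) = c p + c (inv p)
    rw [hinv, add_comm]
  have hd2 : ∀ p, p ∉ A → d p = 0 := by
    intro p hp
    have h1 : inv p ∉ A := fun h => hp (by have := hAs _ h; rwa [hinv] at this)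
    show c p + c (inv p) = 0
    rw [hc0 p hp, hc0 _ h1, add_zero]
  have hd3 : ∀ w, d (w, true) = d (w, false) := by
    intro w
    have h1 : (fun p : W × Bool => (if p.1 = w then (1 : ZMod 2) else 0) +
        (if (inv p).1 = w then 1 else 0)) ∈ U :=
      ⟨fun v => if v = w then 1 else 0, fun p _ => rfl⟩
    have h2 := hφ0 _ h1
    have h3 : ∑ p : W × Bool, ((if p.1 = w then (1 : ZMod 2) else 0) +
        (if (inv p).1 = w then 1 else 0)) * c p =
        ∑ p : W × Bool, (if p.1 = w then (1 : ZMod 2) else 0) * d p := by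
      have h4 : ∑ p : W × Bool, (if (inv p).1 = w then (1 : ZMod 2) else 0) * c p =
          ∑ p : W × Bool, (if p.1 = w then (1 : ZMod 2) else 0) * c (inv p) := by
        rw [← Equiv.sum_comp E]
        refine Finset.sum_congr rfl fun p _ => ?_
        show (if (inv (inv p)).1 = w then (1 : ZMod 2) else 0) * c (inv p) = _
        rw [hinv]
      simp only [add_mul, Finset.sum_add_distrib]
      rw [h4, ← Finset.sum_add_distrib]
      exact Finset.sum_congr rfl fun p _ => by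
        show _ = (if p.1 = w then (1 : ZMod 2) else 0) * (c p + c (inv p))
        ring
    rw [h3, Fintype.sum_prod_type] at h2
    have h5 : ∀ v : W, ∑ β : Bool, (if (v, β).1 = w then (1 : ZMod 2) else 0) * d (v, β) =
        if v = w then d (v, true) + d (v, false) else 0 := by
      intro v
      simp only [Fintype.sum_bool]
      by_cases hv : v = w
      · simp [hv]
      · simp [hv]
    rw [Finset.sum_congr rfl fun v _ => h5 v, Finset.sum_ite_eq' Finset.univ w] at h2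
    simp only [Finset.mem_univ, if_true] at h2
    exact CharTwo.add_eq_zero.1 h2
  have hd := hA d hd1 hd2 hd3
  have hcs : ∀ p, c (inv p) = c p := fun p => (CharTwo.add_eq_zero.1 (hd p)).symm
  apply hφκ
  rw [hφ κ]
  refine Finset.sum_involution (fun p _ => inv p) (fun p _ => ?_) (fun p _ _ h => hne p ?_)
    (fun p _ => Finset.mem_univ _) (fun p _ => hinv p)
  · rw [hκ, hcs]
    exact CharTwo.add_self_eq_zero _
  · rw [h]

/-- a height function: every point of a chord of `A` has a partner which is higher -/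
theorem exact_of_height {W : Type} [Fintype W] [DecidableEq W] (inv : W × Bool → W × Bool)
    (hinv : ∀ p, inv (inv p) = p) (hne : ∀ p, (inv p).1 ≠ p.1) (A : Set (W × Bool))
    (hAs : ∀ p, p ∈ A → inv p ∈ A) (φ : W → ℝ)
    (hφ : ∀ w, (∃ β, (w, β) ∈ A) → ∃ β, φ w < φ (inv (w, β)).1)
    (κ : W × Bool → ZMod 2) (hκ : ∀ p, κ (inv p) = κ p) :
    ∃ ψ : W → ZMod 2, ∀ p ∈ A, κ p = ψ p.1 + ψ (inv p).1 := by
  classical
  refine exact_of_noCycle inv hinv hne A ?_ hAs κ hκ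
  intro d h1 h2 h3
  by_contra hcon
  push Not at hcon
  obtain ⟨p0, hp0⟩ := hcon
  have hb : ∀ (w : W) (β : Bool), d (w, β) = d (w, true) := by
    intro w β
    cases β
    · exact (h3 w).symm
    · rfl
  have hne0 : (Finset.univ.filter fun w : W => d (w, true) ≠ 0).Nonempty :=
    ⟨p0.1, Finset.mem_filter.2 ⟨Finset.mem_univ _, by rw [← hb p0.1 p0.2]; exact hp0⟩⟩
  obtain ⟨w, hw, hmax⟩ := Finset.exists_max_image _ φ hne0
  have hw' := (Finset.mem_filter.1 hw).2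
  have hwA : (w, true) ∈ A := by
    by_contra h
    exact hw' (h2 _ h)
  obtain ⟨β, hβ⟩ := hφ w ⟨true, hwA⟩
  have h4 : d (inv (w, β)) ≠ 0 := by rw [h1, hb]; exact hw'
  have h5 : (inv (w, β)).1 ∈ Finset.univ.filter fun w : W => d (w, true) ≠ 0 := by
    refine Finset.mem_filter.2 ⟨Finset.mem_univ _, ?_⟩
    have : d ((inv (w, β)).1, (inv (w, β)).2) ≠ 0 := h4
    rwa [hb] at this
  exact absurd (hmax _ h5) (not_le.2 hβ)


/-! ### chords on a tile -/

variable {E : Type} [NormedAddCommGroup E] [NormedSpace ℝ E] [FiniteDimensional ℝ E]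
variable {Om : Set E} {ι : Type} {T : Tiling Om ι}
variable {J C : Type} {u : J → E → ℝ} {c : J → ℝ} {S : J → Set E} {fam : J → C}

/-- the two faces of the tile `q` through a point of an open edge -/
theorem exists_faces (h3 : Module.finrank ℝ E = 3) {w : E} (hw : w ∈ Om) (hd : T.dim w = 1) {q : ι}
    (hq : w ∈ Msh_715.P (T.H q)) :
    ∃ fc : Bool → C2 T, (∀ β, q ∈ (fc β).side h3 ∧ w ∈ (fc β).On) ∧ fc true ≠ fc false ∧
      ∀ F : C2 T, q ∈ F.side h3 → w ∈ F.On → ∃ β, F = fc β := by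
  obtain ⟨x₁, hx1, x₂, hx2, hd1, hd2, hq1, hq2, hw1, hw2, hne, huniq⟩ :=
    Agl3_543.two_cells T h3 hw hd (show q ∈ T.at_ w from hq)
  have hside : ∀ {x : E} (hx : x ∈ Om) (hdx : T.dim x = 2), q ∈ T.at_ x →
      q ∈ (mk2 T hx hdx).side h3 := by
    intro x hx hdx hqx
    rw [C2.mem_side]
    have h5 : (mk2 T hx hdx).pt ∈ T.oc x := T.pt_cl hx
    rw [T.at_eq_of_mem_oc hx h5]
    exact hqx
  refine ⟨fun β => if β then mk2 T hx1 hd1 else mk2 T hx2 hd2, ?_, ?_, ?_⟩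
  · intro β
    cases β
    · exact ⟨hside hx2 hd2 hq2, hw2, hd⟩
    · exact ⟨hside hx1 hd1 hq1, hw1, hd⟩
  · intro h
    apply hne
    have h' : mk2 T hx1 hd1 = mk2 T hx2 hd2 := by simpa using h
    have := congrArg C2.set h'
    exact this
  · intro F hF hwF
    have h6 : q ∈ T.at_ F.pt := C2.mem_side.1 hF
    have h7 : w ∈ T.cc F.pt := by rw [← F.set_eq]; exact hwF.1
    rcases huniq F.pt F.pt_mem F.dim_pt h6 h7 with h | h
    · exact ⟨true, by
        have : F = mk2 T hx1 hd1 := C2.ext (by rw [F.set_eq, h, mk2_set])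
        simpa using this⟩
    · exact ⟨false, by
        have : F = mk2 T hx2 hd2 := C2.ext (by rw [F.set_eq, h, mk2_set])
        simpa using this⟩

/-- reduction of `Leaf` to the graph of chords on the tile `q` -/
theorem leaf_aux [Nonempty J] (h : GFam T u c S fam) (h3 : Module.finrank ℝ E = 3) (i : J)
    {S' : Set E} {q : ι}
    (hG : ∀ (W : Type) [Fintype W] [DecidableEq W] (pt : W → E) (fc : W → Bool → C2 T)
      (inv : W × Bool → W × Bool), Function.Injective pt →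
      (∀ w, pt w ∈ S i ∧ T.dim (pt w) = 1 ∧ pt w ∈ Msh_715.P (T.H q)) →
      (∀ x, x ∈ S i → T.dim x = 1 → x ∈ Msh_715.P (T.H q) → ∃ w, pt w = x) →
      (∀ w β, q ∈ (fc w β).side h3 ∧ pt w ∈ (fc w β).On) →
      (∀ w, fc w true ≠ fc w false) →
      (∀ w (F : C2 T), q ∈ F.side h3 → pt w ∈ F.On → ∃ β, F = fc w β) →
      (∀ p : W × Bool, pt (inv p).1 = h.mu h3 (fc p.1 p.2) (pt p.1) ∧
        fc (inv p).1 (inv p).2 = fc p.1 p.2) →
      (∀ p, inv (inv p) = p) → (∀ p, (inv p).1 ≠ p.1) →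
      ∀ κ : W × Bool → ZMod 2, (∀ p, κ (inv p) = κ p) →
      ∃ ψ : W → ZMod 2, ∀ p : W × Bool, pt p.1 ∈ S' → pt (inv p).1 ∈ S' →
        κ p = ψ p.1 + ψ (inv p).1) :
    h.Leaf h3 i S' q := by
  classical
  intro κ hκ
  have hfin : {x | x ∈ S i ∧ T.dim x = 1 ∧ x ∈ Msh_715.P (T.H q)}.Finite :=
    ((h.lev i).finite_P h3).subset fun x hx => ⟨hx.1, hx.2.1.le⟩
  let W : Type := {x | x ∈ S i ∧ T.dim x = 1 ∧ x ∈ Msh_715.P (T.H q)}
  have _ : Fintype W := hfin.fintype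
  have hO : ∀ w : W, w.1 ∈ Om := fun w => (h.lev i).sub w.2.1
  have hpts : ∀ w : W, w.1 ∈ h.pts ∧ labf S w.1 = i := fun w =>
    (h.mem_pts_iff (w := w.1)).2 ⟨w.2.1, w.2.2.1.le⟩
  choose fc f1 f2 f3 using fun w : W => exists_faces (T := T) h3 (hO w) w.2.2.1 w.2.2.2
  -- the partner
  have hmem : ∀ p : W × Bool, h.mu h3 (fc p.1 p.2) p.1.1 ∈ S i ∧
      T.dim (h.mu h3 (fc p.1 p.2) p.1.1) = 1 ∧
      h.mu h3 (fc p.1 p.2) p.1.1 ∈ Msh_715.P (T.H q) := by
    intro p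
    have hs := (h.mu_spec h3 (hpts p.1).1 (f1 p.1 p.2).2).1
    rw [(hpts p.1).2] at hs
    exact ⟨hs.2.1.1, hs.2.1.2.2, C2.sub_tile (h3 := h3) (f1 p.1 p.2).1 hs.2.1.2.1⟩
  have hmuOn : ∀ p : W × Bool, h.mu h3 (fc p.1 p.2) p.1.1 ∈ (fc p.1 p.2).On := fun p =>
    (h.mu_spec h3 (hpts p.1).1 (f1 p.1 p.2).2).1.2.1.2
  choose β' hβ' using fun p : W × Bool =>
    f3 ⟨h.mu h3 (fc p.1 p.2) p.1.1, hmem p⟩ (fc p.1 p.2) (f1 p.1 p.2).1 (hmuOn p)
  let inv : W × Bool → W × Bool := fun p => (⟨h.mu h3 (fc p.1 p.2) p.1.1, hmem p⟩, β' p)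
  have hinv1 : ∀ p : W × Bool, ((inv p).1 : E) = h.mu h3 (fc p.1 p.2) p.1.1 := fun p => rfl
  have hinv2 : ∀ p : W × Bool, fc (inv p).1 (inv p).2 = fc p.1 p.2 := fun p => (hβ' p).symm
  have hinv : ∀ p, inv (inv p) = p := by
    intro p
    have e1 : (inv (inv p)).1 = p.1 := by
      apply Subtype.ext
      rw [hinv1, hinv2, hinv1]
      exact h.mu_mu h3 (hpts p.1).1 (f1 p.1 p.2).2
    have e2 : fc p.1 (inv (inv p)).2 = fc p.1 p.2 := by
      have := hinv2 (inv p)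
      rw [e1, hinv2 p] at this
      exact this
    have e3 : (inv (inv p)).2 = p.2 := by
      have h4 := f2 p.1
      rcases hb : (inv (inv p)).2 with _ | _ <;> rcases hc : p.2 with _ | _
      · rfl
      · rw [hb, hc] at e2; exact (h4 e2.symm).elim
      · rw [hb, hc] at e2; exact (h4 e2).elim
      · rfl
    exact Prod.ext e1 e3
  have hne : ∀ p, (inv p).1 ≠ p.1 := by
    intro p he
    have h4 := (h.mu_spec h3 (hpts p.1).1 (f1 p.1 p.2).2).1.1
    exact h4 (congrArg Subtype.val he)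
  obtain ⟨ψ, hψ⟩ := hG W (fun w => w.1) fc inv Subtype.val_injective (fun w => w.2)
    (fun x h1 h2 h4 => ⟨⟨x, h1, h2, h4⟩, rfl⟩) f1 f2 f3 (fun p => ⟨rfl, hinv2 p⟩) hinv hne
    (fun p => κ (fc p.1 p.2) p.1.1) (fun p => by
      show κ (fc (inv p).1 (inv p).2) (inv p).1.1 = κ (fc p.1 p.2) p.1.1
      rw [hinv2, hinv1]
      exact hκ _ _ (hpts p.1).1 (f1 p.1 p.2).2 (hpts p.1).2)
  refine ⟨fun x => if hx : x ∈ S i ∧ T.dim x = 1 ∧ x ∈ Msh_715.P (T.H q) then ψ ⟨x, hx⟩ else 0,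
    fun F w hqF hw hF hi hmu => ?_⟩
  have hwS : w ∈ S i := by
    have := h.mem_lab hw
    rwa [hi] at this
  have hwW : w ∈ S i ∧ T.dim w = 1 ∧ w ∈ Msh_715.P (T.H q) :=
    ⟨hwS, hF.2, C2.sub_tile (h3 := h3) hqF hF.1⟩
  obtain ⟨β, hβ⟩ := f3 ⟨w, hwW⟩ F hqF hF
  have hmW := hmem (⟨w, hwW⟩, β)
  have e1 : h.mu h3 (fc ⟨w, hwW⟩ β) w = h.mu h3 F w := by rw [hβ]
  have hwS' : w ∈ S' := by
    by_contra hn
    have : connectedComponentIn (S' ∩ F.set) w = ∅ :=
      connectedComponentIn_eq_empty fun h => hn h.1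
    rw [this] at hmu
    exact hmu
  have hmS' : h.mu h3 F w ∈ S' := (connectedComponentIn_subset _ _ hmu).1
  have h5 := hψ (⟨w, hwW⟩, β) hwS' (by
    show h.mu h3 (fc ⟨w, hwW⟩ β) w ∈ S'
    rw [e1]; exact hmS')
  have hmW' : h.mu h3 F w ∈ S i ∧ T.dim (h.mu h3 F w) = 1 ∧
      h.mu h3 F w ∈ Msh_715.P (T.H q) := by
    rw [← e1]; exact hmW
  beta_reduce
  rw [dif_pos hwW, dif_pos hmW']
  have e2 : (inv (⟨w, hwW⟩, β)).1 = ⟨h.mu h3 F w, hmW'⟩ := Subtype.ext e1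
  rw [e2] at h5
  rw [← h5]
  show κ F w = κ (fc ⟨w, hwW⟩ β) w
  rw [hβ]

/-- **LEAF from a height function** on the points of the sheet on the tile: every point in `S'` has
a partner which is higher. -/
theorem leaf_of_height [Nonempty J] (h : GFam T u c S fam) (h3 : Module.finrank ℝ E = 3) (i : J)
    {S' : Set E} {q : ι} (φ : E → ℝ)
    (hφ : ∀ w ∈ S i, T.dim w = 1 → w ∈ Msh_715.P (T.H q) → w ∈ S' →
      ∃ F : C2 T, q ∈ F.side h3 ∧ w ∈ F.On ∧ φ w < φ (h.mu h3 F w)) :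
    h.Leaf h3 i S' q := by
  classical
  refine leaf_aux h h3 i ?_
  intro W _ _ pt fc inv hpi hp1 hp2 hfc hfne hfu hi1 hinv hne κ hκ
  obtain ⟨ψ, hψ⟩ := exact_of_height inv hinv hne {p | pt p.1 ∈ S' ∧ pt (inv p).1 ∈ S'}
    (fun p hp => ⟨hp.2, by rw [hinv]; exact hp.1⟩) (fun w => φ (pt w)) (by
      rintro w ⟨β, hβ, -⟩
      obtain ⟨F, h4, h5, h6⟩ := hφ (pt w) (hp1 w).1 (hp1 w).2.1 (hp1 w).2.2 hβ
      obtain ⟨β', hβ'⟩ := hfu w F h4 h5
      refine ⟨β', ?_⟩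
      show φ (pt w) < φ (pt (inv (w, β')).1)
      rw [(hi1 (w, β')).1, ← hβ']
      exact h6) κ hκ
  exact ⟨ψ, fun p h1 h2 => hψ p ⟨h1, h2⟩⟩


end Crest.Agent.R096.Init_543
end

-- ▼ part R096/Init8_543

/-! # INIT 8 (row 96, helper543): the initial state in 961's format -/

set_option autoImplicit false
set_option linter.unusedSectionVars false

open Set Filter Topology Metric
open Crest.Agent.R96

namespace Crest.Agent.R096.Init_543

open Crest.Agent.R096.Brk1_582 Crest.Agent.R096.Brk2_582 Crest.Agent.R096.Coh_184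
  Crest.Agent.R096.Vb_965 Crest.Agent.R96.Push_899 Crest.Agent.R096.SkC1_961
  Crest.Agent.R096.Bsp_628 Crest.Agent.R096.Brk3_582 Crest.Agent.R096.Brk5_582
  Crest.Agent.R096.Msh_715 Crest.Agent.R096.Agl4_543 Crest.Agent.R096.Agl5_543
  Crest.Agent.R096.Agl8_543 Crest.Agent.R096.Ginv_543 Crest.Agent.R096.Pat4_543
  Crest.Agent.R096.Pat5_543 Crest.Agent.R096.Pat6_543

/-! ### all but countably many levels are regular -/

section bad

variable {E V : Type} [NormedAddCommGroup E] [NormedSpace ℝ E] [FiniteDimensional ℝ E]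
  [NormedAddCommGroup V] [NormedSpace ℝ V] [FiniteDimensional ℝ V]
variable {I ι : Type} {Om : Set E} {La : Set V} {P : I → Set V} {b : Set I → V} {N : ℕ}
  {R : V → V} {f : E → V} {g : V → E}

/-- **regular levels**: outside a countable set every level which avoids the vertices and is finite
on the edges is regular -/
theorem exists_bad (H : Hm f g Om La) (F : Foam La P b N) (hR : Ret La P R) (T : Tiling Om ι)
    (a : I) : ∃ Z : Set ℝ, Z.Countable ∧ ∀ t, t ∉ Z → t ∈ Ioo (0 : ℝ) 1 →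
      (∀ x ∈ Om, T.dim x = 0 → va P b R f a x ≠ t) →
      (∀ x ∈ Om, T.dim x = 1 → {y | y ∈ T.cc x ∧ va P b R f a y = t}.Finite) →
      RegLevel T (va P b R f a) t (sheet Om P b R f a t) := by
  have hu := continuousOn_va H F hR a (b := b)
  have h2 : (⋃ F : C2 T, {c | {x | x ∈ F.bd ∧ va P b R f a x = c}.Finite ∧
      ¬ RegOn (va P b R f a) F.bd c}).Countable :=
    countable_iUnion fun F => countable_not_reg _ F.bd
  have h3 : (⋃ F : C2 T, BadF (va P b R f a) F.set F.bd).Countable :=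
    countable_iUnion fun F => F.isDisc.countable_badF (hu.mono F.set_sub)
  refine ⟨_, h2.union h3, fun t ht ht01 hv hf => ?_⟩
  refine regLevel_of T (isCompact_sheet H F hR ht01.1 ht01.2) (fun x hx => hx.1)
    (fun x hx hd => hv x hx.1 hd hx.2) fun F _ => ?_
  refine ⟨hu.mono F.set_sub, fun y hy => ⟨fun h => h.2, fun h => ⟨F.set_sub hy, h⟩⟩, ?_, ?_⟩
  · by_contra hn
    exact ht (Or.inl (mem_iUnion.2 ⟨F, finite_bd T F fun x hx hd => hf x (F.set_sub hx) hd, hn⟩))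
  · intro hb
    exact ht (Or.inr (mem_iUnion.2 ⟨F, hb⟩))

end bad

/-! ### interiors of the tiles -/

section tile

variable {E : Type} [NormedAddCommGroup E] [NormedSpace ℝ E] {Om : Set E} {ι : Type}
  {T : Tiling Om ι}

theorem not_mem_I {q i : ι} (hne : q ≠ i) {x : E} (hx : x ∈ Msh_715.P (T.H q)) :
    x ∉ Msh_715.I (T.H i) := fun h =>
  disjoint_left.1 (disjoint_P_I (T.ne q) (T.dis q i hne)) hx h

theorem dim_I [FiniteDimensional ℝ E] {i : ι} {x : E} (hx : x ∈ Msh_715.I (T.H i)) :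
    T.dim x = Module.finrank ℝ E := by
  have hO : x ∈ Om := T.sub i (I_sub_P _ hx)
  have h1 := (T.V_eq_top_iff hO).2 ⟨i, hx⟩
  unfold Tiling.dim
  rw [h1]
  exact finrank_top ℝ E

theorem interior_sub_I {H : Finset ((E →L[ℝ] ℝ) × ℝ)} (hne : (Msh_715.I H).Nonempty) {x : E}
    (hx : x ∈ interior (Msh_715.P H)) : x ∈ Msh_715.I H := by
  obtain ⟨z, hz⟩ := hne
  intro h hh
  refine lt_of_le_of_ne (interior_subset hx h hh) fun he => ?_
  have hc : Continuous fun s : ℝ => x - s • (z - x) := by fun_prop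
  have h1 : Tendsto (fun s : ℝ => x - s • (z - x)) (𝓝[>] 0) (𝓝 x) := by
    have := (hc.tendsto 0).mono_left (nhdsWithin_le_nhds (s := Ioi (0 : ℝ)))
    simpa using this
  have h2 := h1.eventually (mem_interior_iff_mem_nhds.1 hx)
  obtain ⟨s, hs1, hs2⟩ := (h2.and self_mem_nhdsWithin).exists
  have h3 := hs1 h hh
  have h4 := hz h hh
  have h5 : (0 : ℝ) < s := hs2
  simp only [map_sub, map_smul, smul_eq_mul] at h3
  nlinarith

end tile

/-! ### 961's format -/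

section mach

variable {δ κ0 R c0 : ℝ} {La Om : Set E3} {ι : Type} (Φ : FoamD δ κ0 R c0 La)
  {T : Tiling Om ι} {f g : E3 → E3} {ct : Φ.F → ι}

/-- the preimages of the holes lie in the interiors of the core tiles -/
def HoleIn (Φ : FoamD δ κ0 R c0 La) (T : Tiling Om ι) (f : E3 → E3) (ct : Φ.F → ι) : Prop :=
  ∀ c, ∀ x ∈ Om, f x ∈ (Φ.B c).S → x ∈ Msh_715.I (T.H (ct c))

theorem exists_hm3 (h : Hom3 f Om La) : ∃ g, Hm f g Om La := by
  obtain ⟨g, a1, a2, a3, a4, a5, a6⟩ := h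
  exact ⟨g, a1, a2, a3, a4, a5, a6⟩


/-- cut-offs inside the core tiles -/
theorem exists_r0 (hLa : IsOpen La) (H : Hm f g Om La) (hH : HoleIn Φ T f ct) :
    ∃ r₀ : Φ.F → ℝ, (∀ c, 0 < r₀ c) ∧ (∀ c, r₀ c ≤ 1) ∧
      ∀ c, ∀ x ∈ Om, f x ∈ Pc Φ.F c → x ∉ Msh_715.I (T.H (ct c)) → r₀ c ≤ rdF Φ c (f x) := by
  have F := foam4 Φ hLa
  have hRR := raysF Φ hLa
  have key : ∀ c : Φ.F, ∃ r : ℝ, 0 < r ∧ r ≤ 1 ∧
      ∀ x ∈ Om, f x ∈ Pc Φ.F c → x ∉ Msh_715.I (T.H (ct c)) → r ≤ rdF Φ c (f x) := by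
    intro c
    set K : Set E3 := Pc Φ.F c ∩ g ⁻¹' (Msh_715.I (T.H (ct c)))ᶜ with hK
    have hKc : IsCompact K := by
      refine (F.cpt c).of_isClosed_subset ?_ inter_subset_left
      exact (H.gc.mono (F.sub c)).preimage_isClosed_of_isClosed (F.cpt c).isClosed
        (isOpen_I _).isClosed_compl
    have hpos : ∀ y ∈ K, 0 < rdF Φ c y := by
      rintro y ⟨hy, hyI⟩
      have hyL := F.sub c hy
      refine (hRR.rad_mem c y ⟨hy, fun h => hyI ?_⟩).1
      refine hH c (g y) (H.gm hyL) ?_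
      rw [H.fg y hyL]; exact h
    rcases K.eq_empty_or_nonempty with he | hne
    · refine ⟨1, one_pos, le_rfl, fun x hx hfx hxI => ?_⟩
      exfalso
      have : f x ∈ K := ⟨hfx, by
        show g (f x) ∉ Msh_715.I (T.H (ct c))
        rw [H.gf x hx]; exact hxI⟩
      rw [he] at this
      exact this
    · obtain ⟨y0, hy0, hmin⟩ := hKc.exists_isMinOn hne ((hRR.crad c).mono inter_subset_left)
      refine ⟨min 1 (rdF Φ c y0), lt_min one_pos (hpos y0 hy0), min_le_left _ _,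
        fun x hx hfx hxI => (min_le_right _ _).trans ?_⟩
      exact hmin (show f x ∈ K from ⟨hfx, by
        show g (f x) ∉ Msh_715.I (T.H (ct c))
        rw [H.gf x hx]; exact hxI⟩)
  choose r h1 h2 h3 using key
  exact ⟨r, h1, h2, h3⟩

/-- 961's levels at the points outside the interiors of the core tiles; two cells -/
theorem va_eq (hLa : IsOpen La) (H : Hm f g Om La) {r₀ : Φ.F → ℝ} (h0 : ∀ c, 0 < r₀ c)
    (h1 : ∀ c, r₀ c ≤ 1)
    (h2 : ∀ c, ∀ x ∈ Om, f x ∈ Pc Φ.F c → x ∉ Msh_715.I (T.H (ct c)) → r₀ c ≤ rdF Φ c (f x))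
    {x : E3} (hx : x ∈ Om) (hxI : ∀ c, x ∉ Msh_715.I (T.H (ct c))) :
    (∀ a, va (Pc Φ.F) (bc (F := Φ.F)) (RF Φ r₀) f a x = Φ.lev a (f x)) ∧
      ∃ c c', c ≠ c' ∧ RF Φ r₀ (f x) ∈ Pc Φ.F c ∧ RF Φ r₀ (f x) ∈ Pc Φ.F c' := by
  obtain ⟨c, hc⟩ := (foam4 Φ hLa).cov (f x) (H.fm hx)
  obtain ⟨e1, c', hne, h4, h5⟩ := RF_eq Φ hLa h0 h1 hc (h2 c x hx hc (hxI c))
  refine ⟨fun a => ?_, c, c', hne.symm, by rw [e1]; exact h4, by rw [e1]; exact h5⟩
  show sc (Pc Φ.F) (bc (F := Φ.F)) (RF Φ r₀ (f x)) a = _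
  rw [e1]; rfl




/-- index set of the sheets -/
abbrev JJ (L : Φ.F → Finset ℝ) : Type := Σ c : Φ.F, {t // t ∈ L c}

/-- **the global family of sheets in 961's format** -/
theorem gfamF (hLa : IsOpen La) (H : Hm f g Om La) {r₀ : Φ.F → ℝ} (h0 : ∀ c, 0 < r₀ c)
    (h1 : ∀ c, r₀ c ≤ 1)
    (h2 : ∀ c, ∀ x ∈ Om, f x ∈ Pc Φ.F c → x ∉ Msh_715.I (T.H (ct c)) → r₀ c ≤ rdF Φ c (f x)) :
    ∃ Z : Φ.F → Set ℝ, (∀ c, (Z c).Countable) ∧ ∀ L : Φ.F → Finset ℝ,
      (∀ c, ∀ t ∈ L c, t ∈ Ioo (0 : ℝ) 1) → (∀ c, ∀ t ∈ L c, t ∉ Z c) →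
      (∀ c, ∀ t ∈ L c, ∀ x ∈ Om, T.dim x = 0 → Φ.lev c (f x) ≠ t) →
      (∀ c, ∀ t ∈ L c, ∀ x ∈ Om, T.dim x = 1 → {y ∈ T.cc x | Φ.lev c (f y) = t}.Finite) →
      (∀ c c', c ≠ c' → ∀ t ∈ L c, ∀ t' ∈ L c', ∀ x ∈ Om, T.dim x = 1 →
        ¬ (Φ.lev c (f x) = t ∧ Φ.lev c' (f x) = t')) →
      GFam T (fun j : JJ Φ L => va (Pc Φ.F) (bc (F := Φ.F)) (RF Φ r₀) f j.1) (fun j => j.2.1)
        (shS Om (Pc Φ.F) (bc (F := Φ.F)) (RF Φ r₀) f (fun j : JJ Φ L => j.1) (fun j => j.2.1))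
        (fun j => j.1) := by
  have F := foam4 Φ hLa
  have hR := retF Φ hLa h0 h1
  choose Z hZ1 hZ2 using fun c : Φ.F => exists_bad H F hR T c
  refine ⟨Z, hZ1, fun L hL1 hL2 hv hf hs => ?_⟩
  have h3 : Module.finrank ℝ E3 = 3 := by simp
  have hlow : ∀ x ∈ Om, T.dim x ≤ 2 → ∀ a,
      va (Pc Φ.F) (bc (F := Φ.F)) (RF Φ r₀) f a x = Φ.lev a (f x) := by
    intro x hx hd
    refine (va_eq Φ hLa H h0 h1 h2 hx fun c hc => ?_).1
    have := dim_I hc
    rw [h3] at this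
    omega
  refine gfam (fun j => ?_) ?_ ?_ ?_
  · refine hZ2 j.1 j.2.1 (hL2 _ _ j.2.2) (hL1 _ _ j.2.2) (fun x hx hd => ?_) (fun x hx hd => ?_)
    · rw [hlow x hx (by omega)]
      exact hv _ _ j.2.2 x hx hd
    · refine (hf _ _ j.2.2 x hx hd).subset ?_
      rintro y ⟨hy, hyt⟩
      refine ⟨hy, ?_⟩
      rw [← hlow y (T.cc_sub_Om hx hy) (by have := T.dim_le hy; omega)]
      exact hyt
  · rintro ⟨c, t, ht⟩ ⟨c', t', ht'⟩ x ⟨hx, h4⟩ ⟨-, h5⟩ hd
    have e1 : Φ.lev c (f x) = t := by rw [← hlow x hx (by omega)]; exact h4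
    have e2 : Φ.lev c' (f x) = t' := by rw [← hlow x hx (by omega)]; exact h5
    have hd1 : T.dim x = 1 := by
      rcases Nat.lt_or_ge (T.dim x) 1 with h6 | h6
      · exact (hv c t ht x hx (by omega) e1).elim
      · omega
    by_cases hcc : c = c'
    · subst hcc
      have : t = t' := e1.symm.trans e2
      subst this
      rfl
    · exact (hs c c' hcc t ht t' ht' x hx hd1 ⟨e1, e2⟩).elim
  · rintro ⟨c, t, ht⟩ ⟨c', t', ht'⟩ h4 h5
    simp only at h4 h5
    subst h4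
    subst h5
    rfl
  · intro a
    have : {j : JJ Φ L | j.1 = a} ⊆ range (fun t : {t // t ∈ L a} => (⟨a, t⟩ : JJ Φ L)) := by
      rintro ⟨c, t⟩ hc
      simp only [mem_ofPred_eq] at hc
      subst hc
      exact ⟨t, rfl⟩
    exact (Set.finite_range _).subset this

end mach

end Crest.Agent.R096.Init_543
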