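import Mathlib
import Crest.Agent.R096.Init9_543
import Crest.Agent.R096.Gs3_422
import Crest.Agent.R096.Init8_543
import Crest.Agent.R096.Mbf_337

-- ▼ part R096/Init10_543
section

/-! # Row 96, INIT (helper543), part 10: the main class of every sheet, its label, the ropes, the
base points; **the initial state with its labels** (`LabIn` of helper422). -/

set_option autoImplicit false
set_option linter.unusedSectionVars false

open Set Topology Filter Relation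

namespace Crest.Agent.R096.Init_543

open Crest.Agent.R096.Coh_184 Crest.Agent.R096.Brk1_582 Crest.Agent.R096.Brk2_582
  Crest.Agent.R096.Lab_184 Crest.Agent.R096.Main_4 Crest.Agent.R096.Msh_715
  Crest.Agent.R096.Agl4_543 Crest.Agent.R096.Agl5_543 Crest.Agent.R096.Agl6_543
  Crest.Agent.R096.Ginv_543 Crest.Agent.R096.Seq_213 Crest.Agent.R096.Seq_213.GSt
  Crest.Agent.R096.St_147 Crest.Agent.R096.Gs_422

/-! ### the main class of one level -/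

section main

variable {E : Type*} [NormedAddCommGroup E] [NormedSpace ℝ E] [FiniteDimensional ℝ E]
  {Om : Set E} {ι : Type*} {T : Tiling Om ι}

/-- label of a set of points, vanishing outside the body `D` -/
structure FarL (T : Tiling Om ι) (D : Set E) (Q : Finset E) (lam : E → ZMod 2) : Prop where
  lab : IsLab T Q lam
  out : ∀ v ∉ D, lam v = 0
  far : ∀ q, ¬ Msh_715.P (T.H q) ⊆ interior D → ∀ v ∈ Msh_715.P (T.H q), lam v = 0

/-- **THE MAIN CLASS** of a full level: its label is `1` at `v₀` and `0` at `v₁`, it has a point in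
a tile which meets the rope `K` -/
theorem main_class (h3 : Module.finrank ℝ E = 3) {u : E → ℝ} {c : ℝ} {S : Set E}
    (h : RegLevel T u c S) (hu : ContinuousOn u Om) (hfull : ∀ x ∈ Om, u x = c → x ∈ S)
    {Pt : Finset E} (hP : ∀ x, x ∈ Pt ↔ x ∈ S ∧ T.dim x ≤ 1) {D : Set E} (hD : IsCompact D)
    (hDO : D ⊆ Om) (hfr : IsPreconnected (frontier D)) (htr : TrivF (ZMod 2) D)
    (hsupp : ∀ w ∈ S, ∀ q, w ∈ Msh_715.P (T.H q) → Msh_715.P (T.H q) ⊆ interior D)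
    {v₀ v₁ : E} (h0 : u v₀ < c) (h1 : c ≤ u v₁)
    (hfar : ∃ q, v₁ ∈ Msh_715.P (T.H q) ∧ ¬ Msh_715.P (T.H q) ⊆ interior D)
    {K : Set E} (hK : IsPreconnected K) (hKO : K ⊆ Om) (hv₀ : v₀ ∈ VM T K) (hv₁ : v₁ ∈ VM T K) :
    ∃ p ∈ Pt, (∃ i, (Msh_715.P (T.H i) ∩ K).Nonempty ∧ p ∈ Msh_715.P (T.H i)) ∧
      ∃ lam, FarL T D (cls T S Pt p) lam ∧ lam v₀ = 1 ∧ lam v₁ = 0 := by
  classical
  have hl : ∀ p ∈ Pt, ∃ lam, FarL T D (cls T S Pt p) lam := fun p hp => by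
    obtain ⟨lam, g1, g2, g3⟩ := isLab_of_even h3 (cls_even h3 h hP p) hD hDO hfr htr
      (fun w hw q hq => hsupp w ((hP w).1 (cls_sub p hw)).1 q hq)
    exact ⟨lam, g1, g2, g3⟩
  choose! lam hlam using hl
  obtain ⟨q₁, hq₁, hq₁'⟩ := hfar
  have hp := edg_VM (T := T) hK hKO hv₀ hv₁
  have hp' : Relation.ReflTransGen (Edg T univ) v₀ v₁ := by
    clear * - hp
    induction hp with
    | refl => exact .refl
    | tail _ hs ih => exact ih.tail (hs.mono (subset_univ _))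
  have hχ := chi_isLab h3 h hu hfull hP
  have e0 : sb (u v₀ - c) = 1 := if_pos (by linarith)
  have e1 : sb (u v₁ - c) = 0 := if_neg (by linarith)
  obtain ⟨p, hp, hp1⟩ := exists_main hχ e0 e1 hp' (lam := lam)
    (fun p hp => (hlam p hp).lab) (fun p hp => (hlam p hp).far q₁ hq₁' v₁ hq₁)
  have h4 : lam p v₁ = 0 := (hlam p hp).far q₁ hq₁' v₁ hq₁
  obtain ⟨i, hi, b, hb, hbi⟩ := (hlam p hp).lab.reach_geom hK hKO hv₀ hv₁
    (by rw [hp1, h4]; exact one_ne_zero)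
  exact ⟨b, cls_sub p hb, ⟨i, hi, hbi⟩, lam p, by rw [cls_eq hb]; exact hlam p hp, hp1, h4⟩

end main

/-! ### the points of the main state -/

section gmain

variable {E : Type} [NormedAddCommGroup E] [NormedSpace ℝ E] [FiniteDimensional ℝ E]
  {Om : Set E} {ι : Type} {T : Tiling Om ι} {J C : Type} {u : J → E → ℝ} {c : J → ℝ}
  {S : J → Set E} {fam : J → C} [Nonempty J]

theorem gmain_gPts (h : GFam T u c S fam) (h3 : Module.finrank ℝ E = 3) {bp : J → E}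
    (hbp : ∀ j, bp j ∈ S j ∧ T.dim (bp j) ≤ 1) (j : J) {Pt : Finset E}
    (hP : ∀ x, x ∈ Pt ↔ x ∈ S j ∧ T.dim x ≤ 1) :
    gPts (gmain (h.gst h3) bp) j = cls T (S j) Pt (bp j) := by
  have hb : ∀ i, bp i ∈ (h.gst h3).P ∧ (h.gst h3).lab (bp i) = i := fun i =>
    h.mem_pts_iff.2 (hbp i)
  have hbP : bp j ∈ Pt := (hP _).2 (hbp j)
  ext w
  rw [mem_gPts, ← reflTransGen_gstep_iff h h3 hP hbP]
  constructor
  · rintro ⟨⟨h1, i, hi⟩, h2⟩
    have h4 := (gcomp_lab hb hi).2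
    have h5 : (h.gst h3).lab w = j := h2
    rw [h4] at h5
    rw [← h5]
    exact hi
  · intro hw
    have h4 := gcomp_lab hb hw
    exact ⟨⟨h4.1, j, hw⟩, h4.2⟩

end gmain

/-! ### the initial state -/

section init

variable {E V : Type} [NormedAddCommGroup E] [NormedSpace ℝ E] [FiniteDimensional ℝ E]
  [NormedAddCommGroup V] [NormedSpace ℝ V] [FiniteDimensional ℝ V]
variable {I ι J : Type} {Om : Set E} {La : Set V} {P : I → Set V} {b : Set I → V}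
  {R : V → V} {f : E → V} {g : V → E}

theorem star_of_lt {N : ℕ} (H : Hm f g Om La) (F : Foam La P b N) (hR : Ret La P R) {x : E}
    (hx : x ∈ Om) {a c : I} (hc : f x ∈ P c) (h1 : va P b R f a x < 1) :
    (P c ∩ P a).Nonempty := by
  have hcs : CompleteSpace V := FiniteDimensional.complete ℝ V
  have hy : R (f x) ∈ La := hR.mapsTo F (H.fm hx)
  obtain ⟨z, hz⟩ := F.sc_lt_one_fc hy
  refine ⟨z, mem_fc.1 hz c ?_, mem_fc.1 hz a h1⟩
  show sc P b (R (f x)) c < 1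
  rw [(F.sc_eq_zero hy).2 (hR.cell c hc)]
  exact one_pos

/-- **ROPE in the source**: connected set from a vertex with `v_a ≤ ε` to a vertex with
`v_a ≥ 1 - ε` outside the body of `a`, all tiles which meet it are active in no quad of `a` -/
theorem exists_ends (H : Hm f g Om La) (F : Foam La P b 4) (hR : Ret La P R)
    (hLa : IsPreconnected La) (hne : ∀ c, (P c).Nonempty) {T : Tiling Om ι} {Kor : Set ι} {ε : ℝ}
    (hM : Mesh0 T P b R f Kor ε) (hcore : ∀ q ∈ Kor, ∃ c, ∀ x ∈ Msh_715.P (T.H q), f x ∈ P c)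
    {s₁ : ℝ} (hε0 : 0 ≤ ε) (hε : ε < s₁) {a : I} {D : Set E} (hD : Body Om f P a D) :
    ∃ (K : Set E) (v₀ v₁ : E), IsPreconnected K ∧ K ⊆ Om ∧ v₀ ∈ VM T K ∧ v₁ ∈ VM T K ∧
      va P b R f a v₀ ≤ ε ∧ 1 - ε ≤ va P b R f a v₁ ∧
      (∃ q, v₁ ∈ Msh_715.P (T.H q) ∧ ¬ Msh_715.P (T.H q) ⊆ interior D) ∧
      (∀ q, (Msh_715.P (T.H q) ∩ K).Nonempty → ∀ k : QK P, a ∈ k.B →
        q ∉ Act0 T P b R f Kor s₁ k) ∧
      ∃ q, v₀ ∈ Msh_715.P (T.H q) ∧ ∃ x ∈ Msh_715.P (T.H q), f x ∈ P a := by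
  have hcs : CompleteSpace V := FiniteDimensional.complete ℝ V
  have hfc1 : ∀ c, (fc P {c}).Nonempty := fun c => by
    obtain ⟨y, hy⟩ := hne c
    exact ⟨y, mem_fc.2 fun d hd => by rw [mem_singleton_iff.1 hd]; exact hy⟩
  have hb1 : ∀ c, b {c} ∈ P c := fun c =>
    mem_fc.1 (F.mem _ (singleton_nonempty c) (hfc1 c)) c rfl
  have hact : ∀ c d, b {c} ∈ P d → d = c := fun c d hd => by
    have h1 := F.act_b (singleton_nonempty c) (hfc1 c)
    have h2 : d ∈ act P (b {c}) := hd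
    rw [h1] at h2
    exact h2
  obtain ⟨e, he⟩ := hD.far
  obtain ⟨G, hG1, hG2, hG3, hG4, hG5, hG6⟩ := exists_rope F hLa hne a e
  -- a point over the centre of a cell lies in this cell
  have hpt : ∀ c, ∃ x ∈ Om, R (f x) = b {c} ∧ f x ∈ P c := by
    intro c
    obtain ⟨y, hy, hye⟩ := hR.surj (b {c}) (F.sub c (hb1 c))
    refine ⟨g y, H.gm hy, by rw [H.fg y hy]; exact hye, ?_⟩
    rw [H.fg y hy]
    obtain ⟨d, hd⟩ := F.cov y hy
    have h1 := hR.cell d hd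
    rw [hye] at h1
    rw [← hact c d h1]; exact hd
  -- a core tile over the centre of a cell
  have hcc : ∀ c q x, q ∈ Kor → x ∈ Msh_715.P (T.H q) → R (f x) = b {c} →
      ∀ z ∈ Msh_715.P (T.H q), R (f z) ∈ P c := by
    intro c q x hq hx hxc z hz
    obtain ⟨d, hd⟩ := hcore q hq
    have h1 := hR.cell d (hd x hx)
    rw [hxc] at h1
    have h2 := hR.cell d (hd z hz)
    rw [hact c d h1] at h2
    exact h2
  obtain ⟨x₀, hx₀, hx₀R, hx₀P⟩ := hpt a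
  obtain ⟨x₁, hx₁, hx₁R, hx₁P⟩ := hpt e
  obtain ⟨q₀, hq₀⟩ := T.cov x₀ hx₀
  obtain ⟨q₁, hq₁⟩ := T.cov x₁ hx₁
  obtain ⟨v₀, hv₀, hd₀⟩ := exists_vertex_tile hq₀
  obtain ⟨v₁, hv₁, hd₁⟩ := exists_vertex_tile hq₁
  have hKm : ∀ x ∈ Om, R (f x) ∈ G → x ∈ Om ∩ f ⁻¹' rpre La R G := fun x hx hxG =>
    ⟨hx, H.fm hx, hxG⟩
  -- `e` does not touch `a`
  have hea : ¬ (P e ∩ P a).Nonempty := by
    intro h
    exact he x₁ (interior_subset (hD.star e h x₁ hx₁ hx₁P)) hx₁P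
  refine ⟨Om ∩ f ⁻¹' rpre La R G, v₀, v₁,
    H.preconn_pre (fun y hy => hy.1) (hR.preconn_pre F hG1 hG3 hG2), inter_subset_left,
    mem_VM hq₀ (hKm x₀ hx₀ (by rw [hx₀R]; exact hG4)) hv₀ hd₀,
    mem_VM hq₁ (hKm x₁ hx₁ (by rw [hx₁R]; exact hG5)) hv₁ hd₁, ?_, ?_, ?_, ?_,
    ⟨q₀, hv₀, x₀, hq₀, hx₀P⟩⟩
  · by_cases hqK : q₀ ∈ Kor
    · have h1 := hcc a q₀ x₀ hqK hq₀ hx₀R v₀ hv₀
      have h2 : va P b R f a v₀ = 0 := (F.sc_eq_zero (F.sub a h1)).2 h1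
      rw [h2]; exact hε0
    · have h1 : va P b R f a x₀ = 0 := by
        show sc P b (R (f x₀)) a = 0
        rw [hx₀R]; exact (F.sc_eq_zero (F.sub a (hb1 a))).2 (hb1 a)
      have h2 := abs_le.1 (hM.osc q₀ hqK v₀ hv₀ x₀ hq₀ a)
      linarith [h2.2]
  · by_cases hqK : q₁ ∈ Kor
    · have h1 := hcc e q₁ x₁ hqK hq₁ hx₁R v₁ hv₁
      by_contra hcon
      push Not at hcon
      refine hea ?_
      obtain ⟨d, hd⟩ := hcore q₁ hqK
      have h4 := hR.cell d (hd x₁ hq₁)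
      rw [hx₁R] at h4
      have h5 := hact e d h4
      rw [h5] at hd
      exact star_of_lt H F hR (T.sub q₁ hv₁) (hd v₁ hv₁) (by linarith)
    · have h1 : va P b R f a x₁ = 1 := by
        show sc P b (R (f x₁)) a = 1
        by_contra hne1
        refine hea (star_of_lt H F hR hx₁ hx₁P ?_)
        exact lt_of_le_of_ne (F.sc_le_one (hR.mapsTo F (H.fm hx₁)) a) hne1
      have h2 := abs_le.1 (hM.osc q₁ hqK x₁ hq₁ v₁ hv₁ a)
      linarith [h2.2]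
  · refine ⟨q₁, hv₁, fun h => ?_⟩
    exact he x₁ (interior_subset (h hq₁)) hx₁P
  · rintro q ⟨x, hxq, hxO, hxL, hxG⟩ k hk ⟨hqK, x', hx', h1, h2⟩
    have hfree := hG6 (R (f x)) hxG
    have hin : ∀ a' ∈ k.B, 0 < va P b R f a' x ∧ va P b R f a' x < 1 := by
      intro a' ha'
      have h4 := abs_le.1 (hM.osc q hqK x hxq x' hx' a')
      have h5 := h1 a' ha'
      constructor
      · linarith [h5.1, h4.1]
      · linarith [h5.2, h4.2]
    rcases hfree with h4 | h4 | h4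
    · exact (hin a hk).1.ne' h4
    · exact (hin a hk).2.ne h4
    · obtain ⟨a', haa, ha', -⟩ := k.exists_other hk
      rcases h4 a' (Ne.symm haa) with h5 | h5
      · exact (hin a' ha').1.ne' h5
      · exact (hin a' ha').2.ne h5

/-- tiles with a point on which `v_a ≤ 1 - s`, `ε < s`, lie inside the body of `a` -/
theorem tile_in_body (H : Hm f g Om La) (F : Foam La P b 4) (hR : Ret La P R)
    {T : Tiling Om ι} {Kor : Set ι} {ε : ℝ}
    (hM : Mesh0 T P b R f Kor ε) (hcore : ∀ q ∈ Kor, ∃ c, ∀ x ∈ Msh_715.P (T.H q), f x ∈ P c)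
    (hε0 : 0 ≤ ε) {a : I} {D : Set E} (hD : Body Om f P a D) {q : ι} {w : E}
    (hw : w ∈ Msh_715.P (T.H q)) (h1 : va P b R f a w < 1 - ε) :
    Msh_715.P (T.H q) ⊆ interior D := by
  intro x hx
  have hxO := T.sub q hx
  by_cases hqK : q ∈ Kor
  · obtain ⟨c, hc⟩ := hcore q hqK
    exact hD.star c (star_of_lt H F hR (T.sub q hw) (hc w hw) (by linarith)) x hxO (hc x hx)
  · obtain ⟨c, hc⟩ := F.cov (f x) (H.fm hxO)
    refine hD.star c (star_of_lt H F hR hxO hc ?_) x hxO hc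
    have h2 := abs_le.1 (hM.osc q hqK x hx w hw a)
    linarith [h2.2]

/-- **THE INITIAL STATE WITH ITS LABELS** (no condition on the core tiles). Levels in
`[s₀, 1 - s₀]`, `ε < s₁`, `ε < s₀`. -/
theorem exists_lab [Nonempty J] (H : Hm f g Om La) (F : Foam La P b 4) (hR : Ret La P R)
    (h3 : Module.finrank ℝ E = 3) (hLa : IsPreconnected La)
    (hne : ∀ c, (P c).Nonempty) {T : Tiling Om ι} {Kor : Set ι} {ε : ℝ}
    (hM : Mesh0 T P b R f Kor ε) (hcore : ∀ q ∈ Kor, ∃ c, ∀ x ∈ Msh_715.P (T.H q), f x ∈ P c)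
    {s₁ s₀ : ℝ} (hε0 : 0 ≤ ε) (hε : ε < s₁) (hε1 : ε < 1) (hs₀ : ε < s₀)
    {fam : J → I} {t : J → ℝ} (ht : ∀ j, t j ∈ Icc s₀ (1 - s₀))
    (h : GFam T (fun j => va P b R f (fam j)) t (shS Om P b R f fam t) fam)
    {D : I → Set E} (hD : ∀ a, Body Om f P a (D a)) :
    ∃ (bp : J → E) (lam₀ : J → E → ZMod 2) (v₀ v₁ : I → E),
      LabIn (quads H F hR hM hε hε1) (gmain (h.gst h3) bp) D lam₀ v₀ v₁ ∧
      (∀ j, FarL T (D (fam j)) (gPts (gmain (h.gst h3) bp) j) (lam₀ j)) ∧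
      (∀ j, bp j ∈ shS Om P b R f fam t j ∧ T.dim (bp j) = 1 ∧
        ∃ q, bp j ∈ Msh_715.P (T.H q) ∧ ∀ k : QK P, fam j ∈ k.B → q ∉ Act0 T P b R f Kor s₁ k) ∧
      (∀ a, v₀ a ∈ Om ∧ T.dim (v₀ a) = 0 ∧ va P b R f a (v₀ a) ≤ ε) ∧
      (∀ a, v₁ a ∈ Om ∧ T.dim (v₁ a) = 0 ∧ 1 - ε ≤ va P b R f a (v₁ a)) ∧
      (∀ a, ∃ q, v₀ a ∈ Msh_715.P (T.H q) ∧ ∃ x ∈ Msh_715.P (T.H q), f x ∈ P a) := by
  classical
  have hends := fun a => exists_ends H F hR hLa hne hM hcore hε0 hε (hD a)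
  choose K v₀ v₁ k1 k2 k3 k4 k5 k6 k7 k8 k9 using hends
  have hfin := fun j => (h.lev j).finite_P h3
  have hP : ∀ j, ∀ x, x ∈ (hfin j).toFinset ↔ x ∈ shS Om P b R f fam t j ∧ T.dim x ≤ 1 := by
    intro j x
    rw [Set.Finite.mem_toFinset]; rfl
  have hsupp : ∀ j, ∀ w ∈ shS Om P b R f fam t j, ∀ q, w ∈ Msh_715.P (T.H q) →
      Msh_715.P (T.H q) ⊆ interior (D (fam j)) := by
    intro j w hw q hq
    refine tile_in_body H F hR hM hcore hε0 (hD (fam j)) hq ?_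
    have h1 : va P b R f (fam j) w = t j := hw.2
    rw [h1]
    have := (ht j).2
    linarith
  have hmain : ∀ j, ∃ p ∈ (hfin j).toFinset,
      (∃ i, (Msh_715.P (T.H i) ∩ K (fam j)).Nonempty ∧ p ∈ Msh_715.P (T.H i)) ∧
      ∃ lam, FarL T (D (fam j)) (cls T (shS Om P b R f fam t j) (hfin j).toFinset p) lam ∧
        lam (v₀ (fam j)) = 1 ∧ lam (v₁ (fam j)) = 0 := by
    intro j
    refine main_class h3 (h.lev j) (continuousOn_va H F hR (fam j)) (fun x hx hxt => ⟨hx, hxt⟩)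
      (hP j) (hD (fam j)).cpt (hD (fam j)).sub (hD (fam j)).fr (hD (fam j)).triv (hsupp j)
      (v₀ := v₀ (fam j)) (v₁ := v₁ (fam j)) ?_ ?_ (k7 (fam j)) (k1 (fam j)) (k2 (fam j))
      (k3 (fam j)) (k4 (fam j))
    · have := k5 (fam j)
      have := (ht j).1
      linarith
    · have := k6 (fam j)
      have := (ht j).2
      linarith
  choose bp hbp1 hbp2 lam hlam1 hlam2 hlam3 using hmain
  have hbS : ∀ j, bp j ∈ shS Om P b R f fam t j ∧ T.dim (bp j) ≤ 1 := fun j =>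
    (hP j _).1 (hbp1 j)
  have hbd : ∀ j, T.dim (bp j) = 1 := fun j => by
    have h1 := (h.lev j).vert _ (hbS j).1
    have h2 := (hbS j).2
    omega
  have hgp : ∀ j, gPts (gmain (h.gst h3) bp) j =
      cls T (shS Om P b R f fam t j) (hfin j).toFinset (bp j) := fun j =>
    gmain_gPts h h3 hbS j (hP j)
  have hfarL : ∀ j, FarL T (D (fam j)) (gPts (gmain (h.gst h3) bp) j) (lam j) := fun j => by
    rw [hgp j]; exact hlam1 j
  have hQin : ∀ {k : QK P} {c : I}, (quads H F hR hM hε hε1).In k c → c ∈ k.B :=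
    fun h => (quads_in H F hR hM hε hε1).1 h
  refine ⟨bp, lam, v₀, v₁, ⟨fun j => (hD _).cpt, fun j => (hD _).sub,
    fun j => (hD _).fr, fun j => (hD _).triv, ?_, ?_, fun j => (hfarL j).lab, hlam2, hlam3,
    fun j => k7 (fam j), ?_⟩, hfarL, fun j => ?_, ?_, ?_, k9⟩
  · -- tiles with points of the state
    rintro w hw q hq
    have h1 : w ∈ shS Om P b R f fam t ((gmain (h.gst h3) bp).lab w) := h.mem_lab hw.1
    exact hsupp _ w h1 q hq
  · -- active tiles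
    rintro j k hk q ⟨-, x, hx, h1, -⟩
    refine tile_in_body H F hR hM hcore hε0 (hD (fam j)) hx ?_
    have := (h1 (fam j) (hQin hk)).2
    linarith
  · -- the rope
    intro j
    have hp := edg_VM (T := T) (k1 (fam j)) (k2 (fam j)) (k3 (fam j)) (k4 (fam j))
    have hsub : {i | (Msh_715.P (T.H i) ∩ K (fam j)).Nonempty} ⊆
        {q | CFr (quads H F hR hM hε hε1) (fam j) q} := fun q hq k hk =>
      k8 (fam j) q hq k (hQin hk)
    exact ReflTransGen.mono (fun x y (hs : Edg T _ x y) => hs.mono hsub) _ _ hp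
  · obtain ⟨i, hi, hpi⟩ := hbp2 j
    exact ⟨(hbS j).1, hbd j, i, hpi, fun k hk => k8 (fam j) i hi k hk⟩
  · intro a
    obtain ⟨g1, i, -, g2⟩ := k3 a
    exact ⟨T.sub i g2, g1, k5 a⟩
  · intro a
    obtain ⟨g1, i, -, g2⟩ := k4 a
    exact ⟨T.sub i g2, g1, k6 a⟩


end init

end Crest.Agent.R096.Init_543
end

-- ▼ part R096/Init11_543

/-! # Row 96, INIT (helper543), part 11: **the initial state from the literal data of `MachBF`**
(`Mbf_337`: `Star`, `Cores`, `Fine`, `Levels`). -/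

set_option autoImplicit false
set_option linter.unusedSectionVars false

open Set Topology Filter Relation MeasureTheory

namespace Crest.Agent.R096.Init_543

open Crest.Agent.R096.Coh_184 Crest.Agent.R096.Brk1_582 Crest.Agent.R096.Brk2_582
  Crest.Agent.R096.Brk3_582 Crest.Agent.R096.Brk5_582 Crest.Agent.R096.Bsp_628
  Crest.Agent.R096.Lab_184 Crest.Agent.R096.Main_4 Crest.Agent.R096.Msh_715
  Crest.Agent.R096.Agl4_543 Crest.Agent.R096.Agl5_543 Crest.Agent.R096.Agl6_543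
  Crest.Agent.R096.Ginv_543 Crest.Agent.R096.Seq_213 Crest.Agent.R096.Seq_213.GSt
  Crest.Agent.R096.St_147 Crest.Agent.R096.Gs_422 Crest.Agent.R96.Push_899

open Crest.Agent.R096.SkC1_961 (E3 Hom3 IsPush FoamD Cfg th)

section mach

variable {δ κ0 R c0 : ℝ} {La Om : Set E3} {ι : Type} (Φ : FoamD δ κ0 R c0 La)
  {T : Tiling Om ι} {f g : E3 → E3}

/-- all tiles near the holes -/
def KorJ (J0 : Φ.F → Set ι) : Set ι := {q | ∃ c, q ∈ J0 c}

/-- the preimage of every hole lies in an open tile of `J0` -/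
def HoleJ (Φ : FoamD δ κ0 R c0 La) (T : Tiling Om ι) (f : E3 → E3) (J0 : Φ.F → Set ι) : Prop :=
  ∀ c, ∃ i ∈ J0 c, ∀ x ∈ Om, f x ∈ (Φ.B c).S → x ∈ Msh_715.I (T.H i)

/-- exact cores: the preimage of the hole lies in the open core tile -/
theorem exact_hole {κ1 κ2 lam : ℝ} {c : Φ.F} {i : ι} {A : E3 ≃ᵃ[ℝ] E3} {z : E3}
    (hE : Mbf_337.Exact Φ T f κ1 κ2 c i A lam z) (hκ1 : 0 ≤ κ1) (hκ : κ1 * κ0 < κ2)
    (hκ2 : 0 ≤ κ2) {x : E3} (hx : x ∈ Om) (hfx : f x ∈ (Φ.B c).S) : x ∈ Msh_715.I (T.H i) := by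
  have hlam := hE.lam0
  have hpos := Φ.bf.pos c.1 c.2
  have hasp := Φ.bf.asp c.1 c.2
  have hside : ∀ k, 0 < c.1.side k := fun k => Bx.side_pos hpos k
  have hxP : x ∈ Msh_715.P (T.H i) := by
    by_contra hn
    exact hE.miss x hx hn hfx
  by_contra hxI
  have hint : x ∉ interior (Msh_715.P (T.H i)) := fun h => hxI (interior_sub_I (T.ne i) h)
  have hbox : ∀ k, z k + lam * c.1.lo k ≤ A x k ∧ A x k ≤ z k + lam * c.1.hi k := by
    have h1 := hxP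
    rw [hE.tile] at h1
    exact h1
  have hm : ∀ k, 0 ≤ κ2 * (lam * c.1.side k) := fun k =>
    mul_nonneg hκ2 (mul_nonneg hlam.le (hside k).le)
  have hnb := (hE.nbd x (fun k => ⟨by linarith [(hbox k).1, hm k],
    by linarith [(hbox k).2, hm k]⟩)).2 hint
  have hcomp : ∀ k, |f x k - A x k| ≤ κ1 * (lam * c.1.sz) := by
    intro k
    have := (norm_le_pi_norm (f x - A x) k).trans hnb
    simpa using this
  have hgap : ∀ k, κ1 * (lam * c.1.sz) < κ2 * (lam * c.1.side k) := by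
    intro k
    have h1 := hasp k
    have h2 : κ1 * (lam * c.1.sz) ≤ κ1 * (lam * (κ0 * c.1.side k)) :=
      mul_le_mul_of_nonneg_left (mul_le_mul_of_nonneg_left h1 hlam.le) hκ1
    have h3 : κ1 * (lam * (κ0 * c.1.side k)) = κ1 * κ0 * (lam * c.1.side k) := by ring
    rw [h3] at h2
    exact h2.trans_lt (mul_lt_mul_of_pos_right hκ (mul_pos hlam (hside k)))
  have hop : ∀ k, z k + lam * c.1.lo k < A x k ∧ A x k < z k + lam * c.1.hi k := by
    intro k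
    have h1 := abs_le.1 (hcomp k)
    have h2 := hE.hole k
    have h3 := hfx k
    have h4 := hgap k
    constructor
    · linarith [h1.1, h1.2, h2.1, h3.1]
    · linarith [h1.1, h1.2, h2.2, h3.2]
  -- open box
  have hopen : IsOpen (A ⁻¹' {y : E3 | ∀ k, z k + lam * c.1.lo k < y k ∧
      y k < z k + lam * c.1.hi k}) := by
    refine IsOpen.preimage A.continuous_of_finiteDimensional ?_
    simp only [ofPred_forall]
    refine isOpen_iInter_of_finite fun k => ?_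
    exact (isOpen_lt continuous_const (continuous_apply k)).inter
      (isOpen_lt (continuous_apply k) continuous_const)
  refine hint ?_
  rw [hE.tile]
  refine mem_interior.2 ⟨_, ?_, hopen, hop⟩
  intro y hy k
  exact ⟨(hy k).1.le, (hy k).2.le⟩

/-- **holes**: from `Cores` and 'the preimages of the point holes lie in open tiles' -/
theorem holeJ_of_cores (H : Hm f g Om La) {κ1 κ2 : ℝ} {X : Set Φ.F} {J0 J V : Φ.F → Set ι}
    {ct : Φ.F → ι} {A : Φ.F → E3 ≃ᵃ[ℝ] E3} {lam : Φ.F → ℝ} {z : Φ.F → E3} {θ : Φ.F → E3 → E3}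
    {φ : Φ.F → E3 → ℝ} (hC : Mbf_337.Cores Φ T f κ1 κ2 X J0 J V ct A lam z θ φ) (hκ1 : 0 ≤ κ1)
    (hκ : κ1 * κ0 < κ2) (hκ2 : 0 ≤ κ2)
    (hmem : ∀ c ∉ X, ∃ i ∈ J0 c, ∃ x ∈ Msh_715.I (T.H i), f x = (Φ.B c).lo) :
    HoleJ Φ T f J0 := by
  intro c
  by_cases hc : c ∈ X
  · refine ⟨ct c, by rw [(hC.one c hc).1]; rfl, fun x hx hfx => ?_⟩
    exact exact_hole Φ (hC.exact_ c hc) hκ1 hκ hκ2 hx hfx
  · obtain ⟨i, hi, x0, hx0, he⟩ := hmem c hc
    refine ⟨i, hi, fun x hx hfx => ?_⟩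
    have h1 : f x = (Φ.B c).lo := by
      funext k
      have h2 := hfx k
      have h3 := congrFun (hC.tiny c hc).pt k
      exact le_antisymm (by rw [h3]; exact h2.2) h2.1
    have hx0O : x0 ∈ Om := T.sub _ (I_sub_P _ hx0)
    have h4 : x = x0 := by
      rw [← H.gf x hx, ← H.gf x0 hx0O, h1, he]
    rw [h4]; exact hx0

/-- the tiles near the holes are mapped into single bricks -/
theorem core_sub {κ1 κ2 : ℝ} {X : Set Φ.F} {J0 J V : Φ.F → Set ι}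
    {ct : Φ.F → ι} {A : Φ.F → E3 ≃ᵃ[ℝ] E3} {lam : Φ.F → ℝ} {z : Φ.F → E3} {θ : Φ.F → E3 → E3}
    {φ : Φ.F → E3 → ℝ} (hC : Mbf_337.Cores Φ T f κ1 κ2 X J0 J V ct A lam z θ φ) :
    ∀ q ∈ KorJ Φ J0, ∃ c, ∀ x ∈ Msh_715.P (T.H q), f x ∈ Pc Φ.F c := by
  rintro q ⟨c, hq⟩
  refine ⟨c, fun x hx => ?_⟩
  have h1 : ∀ k, c.1.lo k < f x k ∧ f x k < c.1.hi k := by
    by_cases hc : c ∈ X
    · rw [(hC.one c hc).1] at hq
      rw [Set.mem_singleton_iff.1 hq] at hx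
      exact (hC.exact_ c hc).inside x hx
    · have hT := hC.tiny c hc
      exact hT.inside x (mem_biUnion (hT.sub (hT.sub0 hq)) hx)
  exact ⟨fun k => (h1 k).1.le, fun k => (h1 k).2.le⟩

/-- **MESH0 in the form of `Mbf_337`** -/
theorem mesh0J (hLa : IsOpen La) (H : Hm f g Om La) {J0 : Φ.F → Set ι} {ct' : Φ.F → ι}
    (hct : ∀ c, ct' c ∈ J0 c) {r₀ : Φ.F → ℝ} (h0 : ∀ c, 0 < r₀ c) (h1 : ∀ c, r₀ c ≤ 1)
    (h2 : ∀ c, ∀ x ∈ Om, f x ∈ Pc Φ.F c → x ∉ Msh_715.I (T.H (ct' c)) → r₀ c ≤ rdF Φ c (f x))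
    {ε : ℝ} (hF : Mbf_337.Fine Φ T f ε J0) :
    Mesh0 T (Pc Φ.F) (bc (F := Φ.F)) (RF Φ r₀) f (KorJ Φ J0) ε := by
  have hnc : ∀ {q : ι}, q ∉ KorJ Φ J0 → ∀ {x : E3}, x ∈ Msh_715.P (T.H q) → ∀ c : Φ.F,
      x ∉ Msh_715.I (T.H (ct' c)) := by
    intro q hq x hx c
    refine not_mem_I (fun e => hq ⟨c, ?_⟩) hx
    rw [e]; exact hct c
  refine ⟨fun q hq x hx => ?_, fun q hq x hx x' hx' a => ?_⟩
  · exact (va_eq Φ hLa H h0 h1 h2 (T.sub q hx) fun c => hnc hq hx c).2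
  · rw [(va_eq Φ hLa H h0 h1 h2 (T.sub q hx) fun c => hnc hq hx c).1,
      (va_eq Φ hLa H h0 h1 h2 (T.sub q hx') fun c => hnc hq hx' c).1]
    exact hF.lev q (fun c hc => hq ⟨c, hc⟩) x' hx' x hx a

/-- bodies from `Star` -/
theorem exists_bodies (hLa : IsOpen La) (H : Hm f g Om La) (hS : Mbf_337.Star Φ)
    (hOm : IsOpen Om) : ∃ D : Φ.F → Set E3, ∀ a, Body Om f (Pc Φ.F) a (D a) := by
  have F := foam4 Φ hLa
  choose D h1 h2 h3 h4 using hS
  refine ⟨fun a => Om ∩ f ⁻¹' D a, fun a => ?_⟩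
  have hV : Module.finrank ℝ E3 = 3 := by simp
  refine exists_body hV hOm H F (a := a) ?_ (h1 a) (h2 a) (h3 a) (fun c hc => h4 a c hc)
  exact ⟨a.1.lo, fun k => le_rfl, fun k => (Φ.bf.pos a.1 a.2 k).le⟩

/-- the objects of INIT: inverse, cut-offs, hole tiles -/
structure InitR (Φ : FoamD δ κ0 R c0 La) (T : Tiling Om ι) (f g : E3 → E3) (J0 : Φ.F → Set ι)
    (ct' : Φ.F → ι) (r₀ : Φ.F → ℝ) : Prop where
  hm : Hm f g Om La
  ct : ∀ c, ct' c ∈ J0 c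
  pos : ∀ c, 0 < r₀ c
  le_one : ∀ c, r₀ c ≤ 1
  out : ∀ c, ∀ x ∈ Om, f x ∈ Pc Φ.F c → x ∉ Msh_715.I (T.H (ct' c)) → r₀ c ≤ rdF Φ c (f x)

theorem exists_initR (hLa : IsOpen La) (hf : Hom3 f Om La) {J0 : Φ.F → Set ι}
    (hH : HoleJ Φ T f J0) : ∃ (g : E3 → E3) (ct' : Φ.F → ι) (r₀ : Φ.F → ℝ),
      InitR Φ T f g J0 ct' r₀ := by
  obtain ⟨g, H⟩ := exists_hm3 hf
  choose ct' h1 h2 using hH
  obtain ⟨r₀, h4, h5, h6⟩ := exists_r0 Φ hLa H (ct := ct') (fun c x hx hfx => h2 c x hx hfx)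
  exact ⟨g, ct', r₀, H, h1, h4, h5, h6⟩

/-- the continuous level functions of INIT -/
noncomputable def vF (r₀ : Φ.F → ℝ) (f : E3 → E3) (a : Φ.F) : E3 → ℝ :=
  va (Pc Φ.F) (bc (F := Φ.F)) (RF Φ r₀) f a

/-- **they are the levels of the machine** outside the open hole tiles -/
theorem InitR.v_eq (hLa : IsOpen La) {J0 : Φ.F → Set ι} {ct' : Φ.F → ι} {r₀ : Φ.F → ℝ}
    (hR : InitR Φ T f g J0 ct' r₀) {x : E3} (hx : x ∈ Om)
    (hxI : ∀ c, x ∉ Msh_715.I (T.H (ct' c))) (a : Φ.F) : vF Φ r₀ f a x = Φ.lev a (f x) :=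
  (va_eq Φ hLa hR.hm hR.pos hR.le_one hR.out hx hxI).1 a

theorem InitR.v_eq' (hLa : IsOpen La) {J0 : Φ.F → Set ι} {ct' : Φ.F → ι} {r₀ : Φ.F → ℝ}
    (hR : InitR Φ T f g J0 ct' r₀) {x : E3} (hx : x ∈ Om) (hd : T.dim x ≤ 2) (a : Φ.F) :
    vF Φ r₀ f a x = Φ.lev a (f x) := by
  refine hR.v_eq Φ hLa hx (fun c hc => ?_) a
  have := dim_I hc
  have h3 : Module.finrank ℝ E3 = 3 := by simp
  rw [h3] at this
  omega

/-- the family of sheets -/
abbrev GF (r₀ : Φ.F → ℝ) (T : Tiling Om ι) (f : E3 → E3) (L : Φ.F → Finset ℝ) : Prop :=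
  GFam T (fun j : JJ Φ L => va (Pc Φ.F) (bc (F := Φ.F)) (RF Φ r₀) f j.1) (fun j => j.2.1)
    (shS Om (Pc Φ.F) (bc (F := Φ.F)) (RF Φ r₀) f (fun j : JJ Φ L => j.1) (fun j => j.2.1))
    (fun j => j.1)

/-- **exceptional null sets** -/
theorem exists_Z (hLa : IsOpen La) {J0 : Φ.F → Set ι} {ct' : Φ.F → ι} {r₀ : Φ.F → ℝ}
    (hR : InitR Φ T f g J0 ct' r₀) : ∃ Z : Φ.F → Set ℝ, (∀ c, (Z c).Countable) ∧
      (∀ c, volume (Z c) = 0) ∧ ∀ (κp μ κ3 : ℝ) (Z' : Φ.F → Set ℝ) (m0 κ : Φ.F → ℕ)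
        (L : Φ.F → Finset ℝ), 0 < μ → (∀ c, Z c ⊆ Z' c) →
        Mbf_337.Levels Φ T f κp μ κ3 Z' m0 κ L → GF Φ r₀ T f L := by
  obtain ⟨Z, hZ1, hZ2⟩ := gfamF (T := T) Φ hLa hR.hm hR.pos hR.le_one hR.out
  refine ⟨Z, hZ1, fun c => (hZ1 c).measure_zero volume, fun κp μ κ3 Z' m0 κ L hμ hZ hL => ?_⟩
  refine hZ2 L (fun c t ht => ?_) (fun c t ht h => hL.off c t ht (hZ c h)) hL.vert hL.fin hL.sep
  obtain ⟨h1, h2⟩ := hL.marg c t ht
  exact ⟨by linarith, by linarith⟩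

end mach

end Crest.Agent.R096.Init_543
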