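import Crest.Agent.R096.Vb4_965
import Crest.Agent.R096.SkC1_961
import Crest.Agent.R96.Push18_899

-- ▼ part R096/Vb5_965
section

/-! Row 96, P1-TRIV (helper965), part 5: pushes, the functions `uh`, the exact sheets -/

set_option autoImplicit false
set_option linter.unusedSectionVars false
set_option linter.style.haveILetI false

open Set Topology Filter

namespace Crest.Agent.R096.Vb_965

open Crest.Agent.R096.Coh_184 Crest.Agent.R096.Brk1_582 Crest.Agent.R096.Brk2_582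

variable {E : Type*} [NormedAddCommGroup E] [NormedSpace ℝ E] [CompleteSpace E] {I : Type*}

/-- push data of a foam: `μ = 1` and `Ψ = id` on the walls, `Ψ` pushes `{μ > 0}` to the walls,
`(Ψ, μ)` are coordinates of a cell minus its centre -/
structure Push (La : Set E) (P : I → Set E) (Ψ : E → E) (μ : E → ℝ) : Prop where
  mu_cont : ContinuousOn μ La
  mu_mem : ∀ y ∈ La, 0 ≤ μ y ∧ μ y ≤ 1
  wall : ∀ c c', c' ≠ c → ∀ y ∈ P c, y ∈ P c' → μ y = 1 ∧ Ψ y = y
  cont : ContinuousOn Ψ (La ∩ {y | 0 < μ y})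
  mem : ∀ c, ∀ y ∈ P c, 0 < μ y → Ψ y ∈ P c ∧ ∃ c', c' ≠ c ∧ Ψ y ∈ P c'
  inj : ∀ c, ∀ y ∈ P c, ∀ z ∈ P c, 0 < μ y → μ y = μ z → Ψ y = Ψ z → y = z
  surj : ∀ c c', c' ≠ c → ∀ p ∈ P c, p ∈ P c' → ∀ m ∈ Ioc (0 : ℝ) 1, ∃ y ∈ P c, Ψ y = p ∧ μ y = m

/-- `s_c ∘ Ψ`, closed near the centres -/
noncomputable def Gx (P : I → Set E) (b : Set I → E) (Ψ : E → E) (μ : E → ℝ) (ε : ℝ) (c : I)
    (y : E) : ℝ := max (sc P b (Ψ y) c) (1 - μ y / ε)



variable {La : Set E} {P : I → Set E} {b : Set I → E} {N : ℕ} {Ψ : E → E} {μ : E → ℝ} {ε : ℝ}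
variable {c d : I} {y : E}






variable (F : Foam La P b N) (hp : Push La P Ψ μ) (hε : 0 < ε) (hε1 : ε ≤ 1)

include F hp hε hε1







end Crest.Agent.R096.Vb_965
end

-- ▼ part R096/Vb6_965
section

/-! Row 96, P1-TRIV (helper965), part 6: the retraction of an exact sheet onto the level sphere -/

set_option autoImplicit false
set_option linter.unusedSectionVars false
set_option linter.style.haveILetI false

open Set Topology Filter

namespace Crest.Agent.R096.Vb_965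

open Crest.Agent.R096.Coh_184 Crest.Agent.R096.Brk1_582 Crest.Agent.R096.Brk2_582

variable {E : Type*} [NormedAddCommGroup E] [NormedSpace ℝ E] [CompleteSpace E] {I : Type*}

/-- the scaling factor -/
noncomputable def lam (P : I → Set E) (b : Set I → E) (Ψ : E → E) (c : I) (s : ℝ) (y : E) : ℝ :=
  (1 - s) / (1 - sc P b (Ψ y) c)

/-- the retraction on the cell `d` -/
noncomputable def Phd (P : I → Set E) (b : Set I → E) (Ψ : E → E) (c : I) (s : ℝ) (d : I)
    (y : E) : E := b {d} + lam P b Ψ c s y • (Ψ y - b {d})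

open Classical in
/-- **the retraction `Φ` of the exact sheet `(c, s)` onto the level sphere `{s_c = s}`** -/
noncomputable def Phi (P : I → Set E) (b : Set I → E) (Ψ : E → E) (c : I) (s : ℝ) (y : E) : E :=
  if h : ∃ d, y ∈ P d then Phd P b Ψ c s h.choose y else y

variable {La : Set E} {P : I → Set E} {b : Set I → E} {N : ℕ} {Ψ : E → E} {μ : E → ℝ} {ε : ℝ}
variable {c d : I} {y : E} {s : ℝ}


variable (F : Foam La P b N) (hp : Push La P Ψ μ) (hε : 0 < ε) (hε1 : ε ≤ 1)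
  (hs0 : 0 < s) (hs1 : s < 1)

include F hp hε hε1 hs0 hs1










/-- the arc over a wall point in the cell `e` -/
def arcF (P : I → Set E) (Ψ : E → E) (μ : E → ℝ) (m : ℝ) (q : E) (e : I) : Set E :=
  {y ∈ P e | Ψ y = q ∧ m ≤ μ y}

omit hε hε1 hs0 hs1 in
theorem isCompact_arcF {m : ℝ} (hm : 0 < m) (q : E) (e : I) : IsCompact (arcF P Ψ μ m q e) := by
  have h1 : IsCompact (P e ∩ μ ⁻¹' Ici m) :=
    (F.cpt e).of_isClosed_subset ((hp.mu_cont.mono (F.sub e)).preimage_isClosed_of_isClosed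
      (F.cpt e).isClosed isClosed_Ici) inter_subset_left
  have h2 : ContinuousOn Ψ (P e ∩ μ ⁻¹' Ici m) :=
    hp.cont.mono fun y hy => ⟨F.sub e hy.1, hm.trans_le hy.2⟩
  have h3 : arcF P Ψ μ m q e = (P e ∩ μ ⁻¹' Ici m) ∩ Ψ ⁻¹' {q} := by
    ext y
    exact ⟨fun h => ⟨⟨h.1, h.2.2⟩, h.2.1⟩, fun h => ⟨h.1.1, h.2, h.1.2⟩⟩
  rw [h3]
  exact h1.of_isClosed_subset (h2.preimage_isClosed_of_isClosed h1.isClosed isClosed_singleton)
    inter_subset_left

omit hε hε1 hs0 hs1 in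
theorem arcF_spec {A : Type*} [AddCommGroup A] {m : ℝ} (hm : 0 < m) {q : E} {e e' : I}
    (hne : e' ≠ e) (hq : q ∈ P e) (hq' : q ∈ P e') : IsPreconnected (arcF P Ψ μ m q e) ∧
      TrivF A (arcF P Ψ μ m q e) := by
  refine arc_of_injOn (isCompact_arcF F hp hm q e)
    (hp.mu_cont.mono fun y hy => F.sub e hy.1) (a := m) (b := 1) ?_ ?_
  · intro y hy z hz h
    exact hp.inj e y hy.1 z hz.1 (hm.trans_le hy.2.2) h (hy.2.1.trans hz.2.1.symm)
  · ext t
    constructor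
    · rintro ⟨y, hy, rfl⟩
      exact ⟨hy.2.2, (hp.mu_mem y (F.sub e hy.1)).2⟩
    · intro ht
      obtain ⟨y, hy, h1, h2⟩ := hp.surj e e' hne q hq hq' t ⟨hm.trans_le ht.1, ht.2⟩
      exact ⟨y, ⟨hy, h1, h2 ▸ ht.1⟩, h2⟩




variable {A : Type*} [AddCommGroup A]







end Crest.Agent.R096.Vb_965
end

-- ▼ part R096/Vb7_965
section

/-! Row 96, P1-TRIV (helper965), part 7: ONE continuous map `RR : La → La` (form of 543 #9494):
`RR y = b {d} + min 1 (μ y / ε) • (Ψ y - b {d})` on the cell `d`; preimages of compact sets with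
trivial torsors have trivial torsors -/

set_option autoImplicit false
set_option linter.unusedSectionVars false
set_option linter.style.haveILetI false

open Set Topology Filter

namespace Crest.Agent.R096.Vb_965

open Crest.Agent.R096.Coh_184 Crest.Agent.R096.Brk1_582 Crest.Agent.R096.Brk2_582

variable {E : Type*} [NormedAddCommGroup E] [NormedSpace ℝ E] [CompleteSpace E] {I : Type*}

/-- the radius on the image side -/
noncomputable def rr (μ : E → ℝ) (ε : ℝ) (y : E) : ℝ := min 1 (μ y / ε)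

/-- the map on the cell `d` -/
noncomputable def Rd (b : Set I → E) (Ψ : E → E) (μ : E → ℝ) (ε : ℝ) (d : I) (y : E) : E :=
  b {d} + rr μ ε y • (Ψ y - b {d})

open Classical in
/-- **the map `R`** -/
noncomputable def RR (P : I → Set E) (b : Set I → E) (Ψ : E → E) (μ : E → ℝ) (ε : ℝ) (y : E) : E :=
  if h : ∃ d, y ∈ P d then Rd b Ψ μ ε h.choose y else y

variable {La : Set E} {P : I → Set E} {b : Set I → E} {N : ℕ} {Ψ : E → E} {μ : E → ℝ} {ε : ℝ}
variable {c d : I} {y : E}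

theorem Rd_of_rr (h : rr μ ε y = 1) : Rd b Ψ μ ε d y = Ψ y := by
  unfold Rd; rw [h]; simp

variable (F : Foam La P b N) (hp : Push La P Ψ μ) (hε : 0 < ε) (hε1 : ε ≤ 1)

include F hp hε hε1

theorem rr_mem (hy : y ∈ La) : 0 ≤ rr μ ε y ∧ rr μ ε y ≤ 1 :=
  ⟨le_min zero_le_one (div_nonneg (hp.mu_mem y hy).1 hε.le), min_le_left _ _⟩

theorem rr_wall {c' : I} (h : c' ≠ c) (hy : y ∈ P c) (hy' : y ∈ P c') :
    rr μ ε y = 1 ∧ Ψ y = y := by
  obtain ⟨h1, h2⟩ := hp.wall c c' h y hy hy'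
  refine ⟨?_, h2⟩
  unfold rr
  rw [h1]
  exact min_eq_left (by rw [le_div_iff₀ hε]; linarith)

theorem RR_eq (hd : y ∈ P d) : RR P b Ψ μ ε y = Rd b Ψ μ ε d y := by
  have h : ∃ d, y ∈ P d := ⟨d, hd⟩
  unfold RR
  rw [dif_pos h]
  by_cases hde : h.choose = d
  · rw [hde]
  · have h2 := (rr_wall F hp hε hε1 hde hd h.choose_spec).1
    rw [Rd_of_rr h2, Rd_of_rr h2]

theorem RR_wall {c' : I} (h : c' ≠ c) (hy : y ∈ P c) (hy' : y ∈ P c') :
    RR P b Ψ μ ε y = y := by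
  obtain ⟨h1, h2⟩ := rr_wall F hp hε hε1 h hy hy'
  rw [RR_eq F hp hε hε1 hy, Rd_of_rr h1, h2]

/-- off the centres (`μ ≥ ε`) `RR = Ψ` -/
theorem RR_eq_Psi (hy : y ∈ La) (h : ε ≤ μ y) : RR P b Ψ μ ε y = Ψ y := by
  obtain ⟨d, hd⟩ := F.cov y hy
  rw [RR_eq F hp hε hε1 hd, Rd_of_rr]
  exact min_eq_left (by rw [le_div_iff₀ hε]; linarith)

theorem Rd_mem (hd : y ∈ P d) : Rd b Ψ μ ε d y ∈ P d := by
  have hb : b {d} ∈ P d := (cell_nonempty_of_b F ⟨y, hd⟩).1
  have h1 := rr_mem F hp hε hε1 (F.sub d hd)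
  by_cases h0 : 0 < μ y
  · exact (F.cvx d).add_smul_sub_mem hb (hp.mem d y hd h0).1 h1
  · have h2 : μ y = 0 := le_antisymm (not_lt.1 h0) (hp.mu_mem y (F.sub d hd)).1
    have h3 : rr μ ε y = 0 := by unfold rr; rw [h2]; simp
    unfold Rd; rw [h3]; simpa using hb

theorem RR_mem (hd : y ∈ P d) : RR P b Ψ μ ε y ∈ P d := by
  rw [RR_eq F hp hε hε1 hd]; exact Rd_mem F hp hε hε1 hd

theorem RR_mem_La (hy : y ∈ La) : RR P b Ψ μ ε y ∈ La := by
  obtain ⟨d, hd⟩ := F.cov y hy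
  exact F.sub d (RR_mem F hp hε hε1 hd)

theorem continuousOn_rr : ContinuousOn (rr μ ε) La :=
  fun y hy => (continuousWithinAt_const (b := (1 : ℝ))).min ((hp.mu_cont y hy).div_const ε)

theorem continuousOn_Rd : ContinuousOn (Rd b Ψ μ ε d) (P d) := by
  intro y0 hy0
  have hL := F.sub d hy0
  have hr : ContinuousWithinAt (rr μ ε) (P d) y0 :=
    (continuousOn_rr F hp hε hε1 y0 hL).mono (F.sub d)
  have hb : b {d} ∈ P d := (cell_nonempty_of_b F ⟨y0, hy0⟩).1
  rcases (hp.mu_mem y0 hL).1.eq_or_lt with h0 | h0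
  · -- `μ = 0`
    have h1 : rr μ ε y0 = 0 := by unfold rr; rw [← h0]; simp
    obtain ⟨R, hR⟩ := (F.cpt d).isBounded.exists_norm_le
    have hval : Rd b Ψ μ ε d y0 = b {d} := by unfold Rd; rw [h1]; simp
    unfold ContinuousWithinAt
    rw [hval, tendsto_iff_norm_sub_tendsto_zero]
    have h2 : Tendsto (fun y => rr μ ε y * (R + ‖b {d}‖)) (𝓝[P d] y0) (𝓝 0) := by
      have h3 : Tendsto (rr μ ε) (𝓝[P d] y0) (𝓝 (rr μ ε y0)) := hr
      rw [h1] at h3
      simpa using h3.mul_const (R + ‖b {d}‖)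
    refine squeeze_zero' (Eventually.of_forall fun y => norm_nonneg _) ?_ h2
    filter_upwards [self_mem_nhdsWithin] with y hy
    have h4 := rr_mem F hp hε hε1 (F.sub d hy)
    have h5 : Rd b Ψ μ ε d y - b {d} = rr μ ε y • (Ψ y - b {d}) := by unfold Rd; abel
    rw [h5, norm_smul, Real.norm_of_nonneg h4.1]
    by_cases h6 : 0 < μ y
    · refine mul_le_mul_of_nonneg_left ?_ h4.1
      exact (norm_sub_le _ _).trans (add_le_add (hR _ (hp.mem d y hy h6).1) le_rfl)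
    · have h7 : μ y = 0 := le_antisymm (not_lt.1 h6) (hp.mu_mem y (F.sub d hy)).1
      have h8 : rr μ ε y = 0 := by unfold rr; rw [h7]; simp
      rw [h8]; simp
  · have hΨ : ContinuousWithinAt Ψ (P d) y0 := by
      have h1 := hp.cont y0 ⟨hL, h0⟩
      refine h1.mono_of_mem_nhdsWithin ?_
      have h2 : ∀ᶠ y in 𝓝[P d] y0, 0 < μ y :=
        ((hp.mu_cont y0 hL).mono (F.sub d)).eventually_const_lt h0
      filter_upwards [h2, self_mem_nhdsWithin] with y h2 h3 using ⟨F.sub d h3, h2⟩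
    exact continuousWithinAt_const.add (hr.smul (hΨ.sub continuousWithinAt_const))

/-- **`RR` is continuous** -/
theorem continuousOn_RR : ContinuousOn (RR P b Ψ μ ε) La := by
  intro y0 hy0
  obtain ⟨r, hr, hfin⟩ := F.lf y0 hy0
  have hnh0 : La ∩ Metric.ball y0 r ∈ 𝓝[La] y0 :=
    inter_mem self_mem_nhdsWithin (nhdsWithin_le_nhds (Metric.ball_mem_nhds y0 hr))
  have h0 : ContinuousWithinAt (RR P b Ψ μ ε)
      (⋃ d ∈ {d | (P d ∩ Metric.ball y0 r).Nonempty}, P d) y0 := by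
    unfold ContinuousWithinAt
    rw [nhdsWithin_biUnion hfin]
    simp only [tendsto_iSup]
    intro d hd
    by_cases hyd : y0 ∈ P d
    · have h1 := continuousOn_Rd F hp hε hε1 (d := d) y0 hyd
      unfold ContinuousWithinAt at h1
      rw [RR_eq F hp hε hε1 hyd]
      refine h1.congr' ?_
      filter_upwards [self_mem_nhdsWithin] with y hy
      exact (RR_eq F hp hε hε1 hy).symm
    · have h2 : 𝓝[P d] y0 = ⊥ := by
        rw [← notMem_closure_iff_nhdsWithin_eq_bot]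
        intro h
        exact hyd ((F.cpt d).isClosed.closure_subset h)
      rw [h2]; exact tendsto_bot
  refine h0.mono_of_mem_nhdsWithin ?_
  filter_upwards [hnh0] with y hy
  obtain ⟨d, hd⟩ := F.cov y hy.1
  exact mem_biUnion (show d ∈ {d | (P d ∩ Metric.ball y0 r).Nonempty} from ⟨y, hd, hy.2⟩) hd


/-- the fibre over a wall point -/
theorem fibreR_wall {q : E} {e e' : I} (hne : e' ≠ e) (he : q ∈ P e)
    (he' : q ∈ P e') : {y ∈ La | RR P b Ψ μ ε y = q} =
      ⋃ e1 ∈ (F.finite_act (F.sub e he)).toFinset, arcF P Ψ μ ε q e1 := by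
  ext y
  constructor
  · rintro ⟨hy, hyq⟩
    obtain ⟨d, hd⟩ := F.cov y hy
    have hqd : q ∈ P d := by rw [← hyq]; exact RR_mem F hp hε hε1 hd
    rw [RR_eq F hp hε hε1 hd] at hyq
    have hr := rr_mem F hp hε hε1 hy
    have h0 : 0 < μ y := by
      by_contra h6
      have h7 : μ y = 0 := le_antisymm (not_lt.1 h6) (hp.mu_mem y hy).1
      have h8 : rr μ ε y = 0 := by unfold rr; rw [h7]; simp
      have h9 : q = b {d} := by rw [← hyq]; unfold Rd; rw [h8]; simp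
      have h10 := (cell_nonempty_of_b F ⟨y, hd⟩).2
      rw [← h9] at h10
      exact hne ((h10 e' he').trans (h10 e he).symm)
    have hΨ := (hp.mem d y hd h0).1
    have hr1 : rr μ ε y = 1 := by
      by_contra h
      have h4 := F.rel {d} (singleton_nonempty d) (Ψ y) (by simpa [fc] using hΨ)
        (rr μ ε y) ⟨hr.1, lt_of_le_of_ne hr.2 h⟩
      have h5 : act P q = {d} := by rw [← hyq]; exact h4
      have h6 : e ∈ act P q := he
      have h7 : e' ∈ act P q := he'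
      rw [h5] at h6 h7
      exact hne (h7.trans h6.symm)
    rw [Rd_of_rr hr1] at hyq
    refine mem_biUnion (x := d) ?_ ⟨hd, hyq, ?_⟩
    · show d ∈ (F.finite_act (F.sub e he)).toFinset
      rw [Finite.mem_toFinset]
      exact hqd
    · have h8 : 1 ≤ μ y / ε := by
        have : min 1 (μ y / ε) = 1 := hr1
        exact min_eq_left_iff.1 this
      rw [le_div_iff₀ hε] at h8
      linarith
  · intro hy
    obtain ⟨d, hd, hyd, hΨ, hm⟩ := mem_iUnion₂.1 hy
    refine ⟨F.sub d hyd, ?_⟩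
    rw [RR_eq_Psi F hp hε hε1 (F.sub d hyd) hm, hΨ]

/-- the fibre over a point of one cell only, different from the centre -/
theorem fibreR_cell {q : E} (hd : q ∈ P d) (hone : ∀ e, q ∈ P e → e = d) (hqb : q ≠ b {d}) :
    ∃ y0, {y ∈ La | RR P b Ψ μ ε y = q} = {y0} := by
  have hqL := F.sub d hd
  have hact : act P q = {d} := by
    ext e; exact ⟨fun h => hone e h, fun h => by rw [mem_singleton_iff.1 h]; exact hd⟩
  have hqb' : q ≠ b (act P q) := by rw [hact]; exact hqb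
  obtain ⟨z, hz, l0, hl0, hzact, hqz⟩ := F.exists_exit hqL hqb'
  rw [hact] at hz hzact hqz
  have hzd : z ∈ P d := by simpa [fc] using hz
  have hz2 : ∃ c', c' ≠ d ∧ z ∈ P c' := by
    by_contra hno
    push Not at hno
    apply hzact
    ext e
    exact ⟨fun h => by by_contra hne; exact hno e hne h,
      fun h => by rw [mem_singleton_iff.1 h]; exact hzd⟩
  obtain ⟨c', hc'd, hzc'⟩ := hz2
  have hm : ε * l0 ∈ Ioc (0 : ℝ) 1 := ⟨mul_pos hε hl0.1, by nlinarith [hl0.1, hl0.2]⟩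
  obtain ⟨y0, hy0, hΨ0, hμ0⟩ := hp.surj d c' hc'd z hzd hzc' (ε * l0) hm
  have hr0 : rr μ ε y0 = l0 := by
    unfold rr
    rw [hμ0, mul_div_cancel_left₀ _ hε.ne']
    exact min_eq_right hl0.2.le
  refine ⟨y0, ?_⟩
  ext y
  constructor
  · rintro ⟨hy, hyq⟩
    obtain ⟨e, he⟩ := F.cov y hy
    have hP := RR_eq F hp hε hε1 he
    have hed : e = d := by
      apply hone
      rw [← hyq]
      exact RR_mem F hp hε hε1 he
    subst hed
    rw [hP] at hyq
    have h0 : 0 < μ y := by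
      by_contra h6
      have h7 : μ y = 0 := le_antisymm (not_lt.1 h6) (hp.mu_mem y hy).1
      have h8 : rr μ ε y = 0 := by unfold rr; rw [h7]; simp
      apply hqb
      rw [← hyq]; unfold Rd; rw [h8]; simp
    have hr : 0 < rr μ ε y := lt_min one_pos (div_pos h0 hε)
    have heq : b {e} + rr μ ε y • (Ψ y - b {e}) = b {e} + l0 • (z - b {e}) := by
      rw [← hqz]; exact hyq
    have hrel := F.rel {e} (singleton_nonempty e)
    obtain ⟨hΨ, c2, hc2, hΨ2⟩ := hp.mem e y he h0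
    have hΨact : act P (Ψ y) ≠ {e} := by
      intro h4
      have : c2 ∈ act P (Ψ y) := hΨ2
      rw [h4] at this
      exact hc2 this
    have a1 : l0 ≤ rr μ ε y :=
      Foam.smul_unique hrel (by simpa [fc] using hΨ) hzact hr.le hl0.1 heq
    have a2 : rr μ ε y ≤ l0 :=
      Foam.smul_unique hrel hz hΨact hl0.1.le hr heq.symm
    have a3 : rr μ ε y = l0 := le_antisymm a2 a1
    rw [a3] at heq
    have a4 : Ψ y = z := by
      have h5 := add_left_cancel heq
      have h6 := smul_right_injective E hl0.1.ne' h5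
      exact sub_left_injective h6
    have a5 : μ y = ε * l0 := by
      have h6 : min 1 (μ y / ε) = l0 := a3
      rcases min_choice 1 (μ y / ε) with h7 | h7
      · rw [h7] at h6
        exact absurd h6.symm hl0.2.ne
      · rw [h7] at h6
        rw [← h6]; field_simp
    exact hp.inj e y he y0 hy0 h0 (a5.trans hμ0.symm) (a4.trans hΨ0.symm)
  · intro hy
    rw [mem_singleton_iff.1 hy]
    refine ⟨F.sub d hy0, ?_⟩
    rw [RR_eq F hp hε hε1 hy0, hqz]
    unfold Rd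
    rw [hr0, hΨ0]

theorem fibreR_spec {A : Type*} [AddCommGroup A] {q : E} (hq : q ∈ La) (hqb : ∀ d, q ≠ b {d}) :
    ({y ∈ La | RR P b Ψ μ ε y = q}).Nonempty ∧
    IsPreconnected {y ∈ La | RR P b Ψ μ ε y = q} ∧
      TrivF A {y ∈ La | RR P b Ψ μ ε y = q} := by
  obtain ⟨d, hd⟩ := F.cov q hq
  by_cases h : ∃ e, e ≠ d ∧ q ∈ P e
  · obtain ⟨e, hed, he⟩ := h
    rw [fibreR_wall F hp hε hε1 hed hd he]
    have key : ∀ e ∈ (F.finite_act hq).toFinset, q ∈ P e ∧ ∃ e', e' ≠ e ∧ q ∈ P e' := by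
      intro e1 he1
      have he1' : q ∈ P e1 := (Finite.mem_toFinset (F.finite_act hq)).1 he1
      refine ⟨he1', ?_⟩
      by_cases h : e1 = d
      · exact ⟨e, by rw [h]; exact hed, he⟩
      · exact ⟨d, fun h' => h h'.symm, hd⟩
    have hqa : ∀ e ∈ (F.finite_act hq).toFinset, q ∈ arcF P Ψ μ ε q e := by
      intro e1 he1
      obtain ⟨h1, e', hne, h2⟩ := key e1 he1
      obtain ⟨h4, h5⟩ := hp.wall e1 e' hne q h1 h2
      exact ⟨h1, h5, by rw [h4]; exact hε1⟩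
    have hdm : d ∈ (F.finite_act hq).toFinset := (Finite.mem_toFinset _).2 hd
    have h7 := trivF_star (A := A) (F.finite_act hq).toFinset
      (fun e => arcF P Ψ μ ε q e) q ⟨d, hdm⟩ hqa
      (fun e _ => (isCompact_arcF F hp hε q e).isClosed)
      (fun e he => by
        obtain ⟨h1, e', hne, h2⟩ := key e he
        exact (arcF_spec (A := A) F hp hε hne h1 h2).1)
      (fun e he => by
        obtain ⟨h1, e', hne, h2⟩ := key e he
        exact (arcF_spec (A := A) F hp hε hne h1 h2).2)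
      (by
        rintro e1 - e2 - hne y ⟨hy1, hy2⟩
        have h8 := (hp.wall e1 e2 hne.symm y hy1.1 hy2.1).2
        show y = q
        rw [← h8]; exact hy1.2.1)
    exact ⟨⟨q, mem_biUnion hdm (hqa d hdm)⟩, h7⟩
  · push Not at h
    obtain ⟨y0, hy0⟩ := fibreR_cell F hp hε hε1 hd (fun e he => by
      by_contra hne
      exact h e hne he) (hqb d)
    rw [hy0]
    exact ⟨singleton_nonempty y0, isPreconnected_singleton, trivF_singleton y0⟩

theorem isCompact_RR {D : Set E} (hD : IsCompact D) (hDL : D ⊆ La) :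
    IsCompact {y ∈ La | RR P b Ψ μ ε y ∈ D} := by
  have hfin : {d | (P d ∩ D).Nonempty}.Finite := F.finite_meet hD hDL
  have hK : IsCompact (⋃ d ∈ {d | (P d ∩ D).Nonempty}, P d) :=
    hfin.isCompact_biUnion fun d _ => F.cpt d
  have hKL : (⋃ d ∈ {d | (P d ∩ D).Nonempty}, P d) ⊆ La := iUnion₂_subset fun d _ => F.sub d
  have h1 : {y ∈ La | RR P b Ψ μ ε y ∈ D} =
      (⋃ d ∈ {d | (P d ∩ D).Nonempty}, P d) ∩ RR P b Ψ μ ε ⁻¹' D := by
    ext y
    constructor
    · rintro ⟨hy, hyD⟩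
      obtain ⟨d, hd⟩ := F.cov y hy
      exact ⟨mem_biUnion (show d ∈ {d | (P d ∩ D).Nonempty} from
        ⟨_, RR_mem F hp hε hε1 hd, hyD⟩) hd, hyD⟩
    · rintro ⟨hy, hy2⟩
      exact ⟨hKL hy, hy2⟩
  rw [h1]
  exact hK.of_isClosed_subset (((continuousOn_RR F hp hε hε1).mono hKL).preimage_isClosed_of_isClosed
    hK.isClosed hD.isClosed) inter_subset_left

variable {A : Type*} [AddCommGroup A]

/-- **TRIV for `RR`** -/
theorem trivF_RR {D : Set E} (hD : IsCompact D) (hDL : D ⊆ La) (hb : ∀ d, b {d} ∉ D)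
    (hT : TrivF A D) : TrivF A {y ∈ La | RR P b Ψ μ ε y ∈ D} := by
  intro n
  have hS := isCompact_RR F hp hε hε1 hD hDL
  have hfib : ∀ z ∈ D, {y ∈ La | RR P b Ψ μ ε y ∈ D} ∩ RR P b Ψ μ ε ⁻¹' {z} =
      {y ∈ La | RR P b Ψ μ ε y = z} := by
    intro z hz
    ext y
    refine ⟨fun h => ⟨h.1.1, h.2⟩, fun h => ⟨⟨h.1, ?_⟩, h.2⟩⟩
    rw [h.2]; exact hz
  have hzb : ∀ z ∈ D, ∀ d, z ≠ b {d} := fun z hz d h => hb d (h ▸ hz)
  refine TrivAll.of_fibres hS hS.isClosed (T := D) ((continuousOn_RR F hp hε hε1).mono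
    fun y hy => hy.1) ?_ ?_ ?_ hT
  · ext z
    constructor
    · rintro ⟨y, hy, rfl⟩; exact hy.2
    · intro hz
      obtain ⟨y, hy, hyz⟩ := (fibreR_spec (A := A) F hp hε hε1 (hDL hz) (hzb z hz)).1
      exact ⟨y, ⟨hy, by rw [hyz]; exact hz⟩, hyz⟩
  · intro z hz
    rw [hfib z hz]
    exact (fibreR_spec (A := A) F hp hε hε1 (hDL hz) (hzb z hz)).2.1
  · intro z hz
    rw [hfib z hz]
    exact (fibreR_spec (A := A) F hp hε hε1 (hDL hz) (hzb z hz)).2.2 n


theorem b_not_mem_Lset {a : I} {t : ℝ} (ht0 : 0 < t) (ht1 : t < 1) (hne : ∀ d, (P d).Nonempty)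
    (d : I) : b {d} ∉ Lset La P b a t := by
  classical
  intro h
  have h1 := F.sc_b (singleton_nonempty d) (A := {d}) (by simpa [fc] using hne d) a
  rw [h.2.1] at h1
  split_ifs at h1
  · exact ht0.ne' h1
  · exact ht1.ne h1

/-- **the sheets `{sc (RR y) a = t}`** -/
theorem trivF_sheet [FiniteDimensional ℝ E] (h3 : Module.finrank ℝ E = 3)
    (hne : ∀ d, (P d).Nonempty) {a : I} {t : ℝ} (ht0 : 0 < t) (ht1 : t < 1) :
    TrivF A {y ∈ La | RR P b Ψ μ ε y ∈ Lset La P b a t} :=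
  trivF_RR F hp hε hε1 (isCompact_Lset F a ht0.le ht1) (fun _ h => h.1)
    (b_not_mem_Lset F hp hε hε1 ht0 ht1 hne) (trivF_Lset F h3 (hne a) ht0.le ht1)


end Crest.Agent.R096.Vb_965
end

-- ▼ part R096/Vb8_965

/-! Row 96, P1-TRIV (helper965), part 8: the pushes of 899 / `FoamD` of 961 are `Push`es -/

set_option autoImplicit false
set_option linter.unusedSectionVars false
set_option linter.style.haveILetI false

open Set Topology Filter

namespace Crest.Agent.R096.Vb_965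

open Crest.Agent.R096.Coh_184 Crest.Agent.R096.Brk1_582 Crest.Agent.R096.Brk2_582
open Crest.Agent.R096.Bsp_628 Crest.Agent.R096.Brk3_582
open Crest.Agent.R96.Push_899 Crest.Agent.R096.SkC1_961

section box

variable {ι : Type*} [Fintype ι] [Nonempty ι] [DecidableEq ι]

/-- push data of one box -/
structure BoxPush (Q B : Box ι) (pu : (ι → ℝ) → ι → ℝ) (m : (ι → ℝ) → ℝ) : Prop where
  cont_m : Continuous m
  m_mem : ∀ y ∈ Q.S, 0 ≤ m y ∧ m y ≤ 1
  m_pos : ∀ y ∈ Q.S, 0 < m y ↔ y ∉ B.S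
  m_bd : ∀ y ∈ Q.S, y ∉ Q.I → m y = 1 ∧ pu y = y
  cont : ContinuousOn pu (Q.S ∩ {y | 0 < m y})
  mem : ∀ y ∈ Q.S, 0 < m y → pu y ∈ Q.S ∧ pu y ∉ Q.I
  inj : ∀ y ∈ Q.S, ∀ z ∈ Q.S, 0 < m y → m y = m z → pu y = pu z → y = z
  surj : ∀ p ∈ Q.S, p ∉ Q.I → ∀ t ∈ Ioc (0 : ℝ) 1, ∃ y ∈ Q.S, pu y = p ∧ m y = t

theorem continuousOn_psh {Q C : Box ι} {U : Set (ι → ℝ)}
    (h : ∀ y ∈ U, ∀ i, ww Q C i (tt Q C y) ≠ 0) : ContinuousOn (psh Q C) U := by
  have ht : ContinuousOn (tt Q C) U := (continuous_tt Q C).continuousOn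
  refine continuousOn_pi.2 fun i => ?_
  unfold psh
  have h1 : ContinuousOn (fun y : ι → ℝ => cl Q C i (tt Q C y)) U := by
    unfold cl; fun_prop
  have h2 : ContinuousOn (fun y : ι → ℝ => ww Q C i (tt Q C y)) U := by
    unfold ww ch cl; fun_prop
  have h3 : ContinuousOn (fun y : ι → ℝ => y i) U := (continuous_apply i).continuousOn
  exact continuousOn_const.add ((h3.sub h1).mul (continuousOn_const.div h2 fun y hy => h y hy i))

/-- one stage -/
theorem boxPush_one {Q C : Box ι} (h : Nest C Q) :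
    BoxPush Q C (psh Q C) (fun y => max 0 (min 1 (tt Q C y))) := by
  have key : ∀ y ∈ Q.S, max 0 (min 1 (tt Q C y)) = max 0 (tt Q C y) := by
    intro y hy
    rw [min_eq_right ((tt_le_one_iff h y).2 hy)]
  have hpos : ∀ y ∈ Q.S, 0 < max 0 (min 1 (tt Q C y)) ↔ 0 < tt Q C y := by
    intro y hy
    rw [key y hy]; simp
  refine ⟨?_, ?_, ?_, ?_, ?_, ?_, ?_, ?_⟩
  · exact continuous_const.max (continuous_const.min (continuous_tt Q C))
  · intro y hy
    exact ⟨le_max_left _ _, max_le zero_le_one (min_le_left _ _)⟩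
  · intro y hy
    rw [hpos y hy, ← tt_le_zero_iff h y, not_le]
  · intro y hy hy'
    have h1 := tt_eq_one h hy hy'
    refine ⟨?_, psh_eq_self h h1⟩
    rw [h1]; simp
  · refine continuousOn_psh fun y hy i => ?_
    have h1 : 0 < tt Q C y := (hpos y hy.1).1 hy.2
    exact (ww_pos h i h1.le (Or.inl h1)).ne'
  · intro y hy h0
    have h1 : 0 < tt Q C y := (hpos y hy).1 h0
    exact ⟨psh_mem h h1.le (Or.inl h1), psh_not_mem_I h h1.le (Or.inl h1)⟩
  · intro y hy z hz h0 hm hpu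
    have h1 : 0 < tt Q C y := (hpos y hy).1 h0
    have h2 : 0 < tt Q C z := (hpos z hz).1 (by rw [← hm]; exact h0)
    rw [key y hy, key z hz, max_eq_right h1.le, max_eq_right h2.le] at hm
    funext i
    rw [← psh_level h h1.le (Or.inl h1) i, ← psh_level h h2.le (Or.inl h2) i, hpu, hm]
  · intro p hp hp' t ht
    have hl := fun i => rc_mem h.Wpos hp i
    have hb := rc_bd h.Wpos hp hp'
    have h1 := level_tt h hl hb ht.1.le (Or.inl ht.1)
    have h2 := level_psh h hl hb ht.1.le (Or.inl ht.1)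
    have hy : (fun i => cl Q C i t + rc Q p i * ww Q C i t) ∈ Q.S := by
      rw [← tt_le_one_iff h, h1]; exact ht.2
    refine ⟨_, hy, ?_, ?_⟩
    · rw [h2]; exact funext fun i => rc_mul h.Wpos p i
    · rw [key _ hy, h1, max_eq_right ht.1.le]

/-- two stages -/
theorem boxPush_two {P : Finset ι} {c₀ κ ρ : ℝ} {Q C B : Box ι} (hQ : Shape P c₀ κ ρ Q C)
    (hC : Inner C B) : BoxPush Q B (psi Q C B) (fun y => max 0 (rad Q C B y)) := by
  have hBC := hC.nest
  have hCQ := hQ.nest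
  have hrad : ∀ y, 0 < rad Q C B y ↔ 0 < tt C B y := by
    intro y
    refine ⟨fun h => ?_, rad_pos hQ hC⟩
    by_cases hyC : y ∈ C.S
    · have h1 : tt Q C y ≤ 0 := (tt_le_zero_iff hCQ _).2 hyC
      unfold rad at h
      rw [max_eq_left h1] at h
      have h2 : 0 < min 1 (tt C B y) := by linarith
      exact (lt_min_iff.1 h2).2
    · have h1 : ¬ tt C B y ≤ 1 := mt (tt_le_one_iff hBC y).1 hyC
      linarith [not_le.1 h1]
  have hpos : ∀ y, 0 < max 0 (rad Q C B y) ↔ 0 < tt C B y := by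
    intro y; rw [← hrad y]; simp
  have hoff : ∀ y, 0 < tt C B y → Off C B y := fun y h => ⟨h.le, Or.inl h⟩
  refine ⟨?_, ?_, ?_, ?_, ?_, ?_, ?_, ?_⟩
  · exact continuous_const.max (continuous_rad Q C B)
  · intro y hy
    exact ⟨le_max_left _ _, max_le zero_le_one (rad_le_one hQ hC hy)⟩
  · intro y hy
    rw [hpos y, ← tt_le_zero_iff hBC y, not_le]
  · intro y hy hy'
    have h1 : rad Q C B y = 1 := rad_eq_one hQ hC hy hy'
    have h2 : 0 < tt C B y := (hrad y).1 (by rw [h1]; exact one_pos)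
    refine ⟨by rw [h1]; simp, ?_⟩
    have h3 := ray_psi hQ hC (hoff y h2)
    have h4 := psi_ray hQ hC hy hy' zero_le_one (Or.inl one_pos)
    rw [ray_one hQ.W0] at h4
    exact h4
  · -- continuity
    have hSc : IsClosed C.S := by
      have : C.S = Icc C.lo C.hi := by
        ext y; exact ⟨fun h => ⟨fun i => (h i).1, fun i => (h i).2⟩,
          fun h i => ⟨h.1 i, h.2 i⟩⟩
      rw [this]; exact isClosed_Icc
    have hIo : IsOpen C.I := by
      have : C.I = {y | tt C B y < 1} := by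
        ext y; exact (tt_lt_one_iff hBC y).symm
      rw [this]; exact isOpen_lt (continuous_tt C B) continuous_const
    have h1 : ContinuousOn (psi Q C B) ({y | 0 < tt C B y} ∩ C.S) := by
      have e : EqOn (psi Q C B) (fun y => psh Q C (psh C B y)) ({y | 0 < tt C B y} ∩ C.S) :=
        fun y hy => psi_in hy.2
      refine ContinuousOn.congr ?_ e
      have h2 : ContinuousOn (psh C B) ({y | 0 < tt C B y} ∩ C.S) :=
        continuousOn_psh fun y hy i => (ww_pos hBC i (le_of_lt hy.1) (Or.inl hy.1)).ne'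
      have h3 : ContinuousOn (psh Q C) {y | 0 ≤ tt Q C y} :=
        continuousOn_psh fun y hy i => (ww_pos hCQ i hy (Or.inr hQ.CW)).ne'
      refine h3.comp h2 fun y hy => ?_
      exact (psh_inner_tt hQ hC (hoff y hy.1)).ge
    have h2 : ContinuousOn (psi Q C B) (C.I)ᶜ := by
      have e : EqOn (psi Q C B) (psh Q C) (C.I)ᶜ := fun y hy => psi_out hBC hy
      refine ContinuousOn.congr ?_ e
      exact continuousOn_psh fun y hy i =>
        (ww_pos hCQ i (not_lt.1 (mt (tt_lt_zero_iff hCQ y).1 hy)) (Or.inr hQ.CW)).ne'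
    intro y hy
    have h0 : 0 < tt C B y := (hpos y).1 hy.2
    have hcov : Q.S ∩ {y | 0 < max 0 (rad Q C B y)} ⊆
        ({y | 0 < tt C B y} ∩ C.S) ∪ (C.I)ᶜ := by
      intro z hz
      by_cases hzC : z ∈ C.I
      · exact Or.inl ⟨(hpos z).1 hz.2, fun i => ⟨(hzC i).1.le, (hzC i).2.le⟩⟩
      · exact Or.inr hzC
    refine ContinuousWithinAt.mono ?_ hcov
    refine ContinuousWithinAt.union ?_ ?_
    · by_cases hyC : y ∈ C.S
      · exact h1 y ⟨h0, hyC⟩
      · refine continuousWithinAt_of_notMem_closure fun h => hyC ?_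
        exact hSc.closure_subset (closure_mono inter_subset_right h)
    · by_cases hyC : y ∈ C.I
      · refine continuousWithinAt_of_notMem_closure fun h => ?_
        exact (hIo.isClosed_compl.closure_subset h) hyC
      · exact h2 y hyC
  · intro y hy h0
    exact psi_bd hQ hC hy (hoff y ((hpos y).1 h0))
  · intro y hy z hz h0 hm hpu
    have h1 := (hpos y).1 h0
    have h2 := (hpos z).1 (by rw [← hm]; exact h0)
    have h3 := (hrad y).2 h1
    have h4 := (hrad z).2 h2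
    rw [max_eq_right h3.le, max_eq_right h4.le] at hm
    rw [← ray_psi hQ hC (hoff y h1), ← ray_psi hQ hC (hoff z h2), hpu, hm]
  · intro p hp hp' t ht
    refine ⟨ray Q C B p t, ray_mem hQ hC hp hp' ht.1.le ht.2,
      psi_ray hQ hC hp hp' ht.1.le (Or.inl ht.1), ?_⟩
    rw [rad_ray hQ hC hp hp' ht.1.le (Or.inl ht.1), max_eq_right ht.1.le]

end box

/-! ### the foam `FoamD` of 961 -/

variable {δ κ0 R c0 : ℝ} {La : Set E3} (Φ : FoamD δ κ0 R c0 La)

/-- the brick as a box of 899 -/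
def qb (c : Φ.F) : Box (Fin 3) := ⟨c.1.lo, c.1.hi, fun i => (Φ.bf.pos c.1 c.2 i).le⟩

theorem mem_qb {c : Φ.F} {y : E3} : y ∈ (qb Φ c).S ↔ y ∈ c.1.set := by
  rw [Bx.mem_set]; rfl

theorem exists_boxPush (c : Φ.F) : ∃ m : E3 → ℝ, BoxPush (qb Φ c) (Φ.B c) (Φ.pu c) m := by
  rcases Φ.push c with ⟨P, κ, ρ, hS, he⟩ | ⟨P, κ, ρ, C, hS, hI, he⟩
  · rw [he]; exact ⟨_, boxPush_one hS.nest⟩
  · rw [he]; exact ⟨_, boxPush_two hS hI⟩

/-- the gauge of the brick `c` -/
noncomputable def mc (c : Φ.F) : E3 → ℝ := (exists_boxPush Φ c).choose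

theorem mc_spec (c : Φ.F) : BoxPush (qb Φ c) (Φ.B c) (Φ.pu c) (mc Φ c) :=
  (exists_boxPush Φ c).choose_spec

open Classical in
/-- **the gauge `μ`**: `1` on the walls, `0` exactly on the holes -/
noncomputable def muD (y : E3) : ℝ :=
  if h : ∃ c : Φ.F, y ∈ c.1.set then mc Φ h.choose y else 1

theorem interior_box {Q : Bx (Fin 3)} {y : E3} :
    y ∈ interior Q.set ↔ ∀ i, Q.lo i < y i ∧ y i < Q.hi i := by
  unfold Bx.set
  rw [← Set.pi_univ_Icc, interior_pi_set finite_univ]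
  simp [interior_Icc]

theorem wall_iff (hLa : IsOpen La) {c : Φ.F} {y : E3} (hy : y ∈ c.1.set) :
    (∃ c' : Φ.F, c' ≠ c ∧ y ∈ c'.1.set) ↔ y ∉ (qb Φ c).I := by
  have hF := Brk3_582.foam Φ.bf hLa
  have h1 := frontier_cell hF c
  rw [Lset_zero hF, (hF.cpt c).isClosed.frontier_eq] at h1
  have h2 := Set.ext_iff.1 h1 y
  have h3 : y ∈ interior (Pc Φ.F c) ↔ y ∈ (qb Φ c).I := interior_box
  constructor
  · rintro ⟨c', h4, h5⟩ h6
    exact (h2.2 ⟨hy, c', h4, h5⟩).2 (h3.2 h6)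
  · intro h
    exact (h2.1 ⟨hy, fun h4 => h (h3.1 h4)⟩).2

theorem Psi_eqD (hLa : IsOpen La) {c : Φ.F} {y : E3} (hy : y ∈ c.1.set) :
    Φ.Psi y = Φ.pu c y := by
  classical
  have h : ∃ c : Φ.F, y ∈ c.1.set := ⟨c, hy⟩
  have e : Φ.Psi y = Φ.pu h.choose y := by
    unfold FoamD.Psi; rw [dif_pos h]
  rw [e]
  by_cases hc : h.choose = c
  · rw [hc]
  · have h1 : y ∉ (qb Φ h.choose).I := (wall_iff Φ hLa h.choose_spec).1 ⟨c, fun h' => hc h'.symm, hy⟩
    have h2 : y ∉ (qb Φ c).I := (wall_iff Φ hLa hy).1 ⟨h.choose, hc, h.choose_spec⟩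
    rw [((mc_spec Φ _).m_bd y ((mem_qb Φ).2 h.choose_spec) h1).2,
      ((mc_spec Φ c).m_bd y ((mem_qb Φ).2 hy) h2).2]

theorem muD_eq (hLa : IsOpen La) {c : Φ.F} {y : E3} (hy : y ∈ c.1.set) :
    muD Φ y = mc Φ c y := by
  classical
  have h : ∃ c : Φ.F, y ∈ c.1.set := ⟨c, hy⟩
  have e : muD Φ y = mc Φ h.choose y := by
    unfold muD; rw [dif_pos h]
  rw [e]
  by_cases hc : h.choose = c
  · rw [hc]
  · have h1 : y ∉ (qb Φ h.choose).I := (wall_iff Φ hLa h.choose_spec).1 ⟨c, fun h' => hc h'.symm, hy⟩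
    have h2 : y ∉ (qb Φ c).I := (wall_iff Φ hLa hy).1 ⟨h.choose, hc, h.choose_spec⟩
    rw [((mc_spec Φ _).m_bd y ((mem_qb Φ).2 h.choose_spec) h1).1,
      ((mc_spec Φ c).m_bd y ((mem_qb Φ).2 hy) h2).1]

/-- gluing continuous functions over the cells of a foam -/
theorem glue_cont {E : Type*} [NormedAddCommGroup E] [NormedSpace ℝ E] {I : Type*}
    {La : Set E} {P : I → Set E} {b : Set I → E} {N : ℕ} (F : Foam La P b N) {Z : Type*}
    [TopologicalSpace Z] {g : E → Z} {gc : I → E → Z} {U : Set E} (hU : U ⊆ La)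
    (hg : ∀ c, ∀ y ∈ P c, g y = gc c y) (hc : ∀ c, ContinuousOn (gc c) (P c ∩ U)) :
    ContinuousOn g U := by
  intro y0 hy0
  obtain ⟨r, hr, hfin⟩ := F.lf y0 (hU hy0)
  have h0 : ContinuousWithinAt g
      (⋃ d ∈ {d | (P d ∩ Metric.ball y0 r).Nonempty}, (P d ∩ U)) y0 := by
    unfold ContinuousWithinAt
    rw [nhdsWithin_biUnion hfin]
    simp only [tendsto_iSup]
    intro d hd
    by_cases hyd : y0 ∈ P d
    · have h1 := hc d y0 ⟨hyd, hy0⟩
      unfold ContinuousWithinAt at h1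
      rw [hg d y0 hyd]
      refine h1.congr' ?_
      filter_upwards [self_mem_nhdsWithin] with y hy
      exact (hg d y hy.1).symm
    · have h2 : 𝓝[P d ∩ U] y0 = ⊥ := by
        rw [← notMem_closure_iff_nhdsWithin_eq_bot]
        intro h
        exact hyd ((F.cpt d).isClosed.closure_subset (closure_mono inter_subset_left h))
      rw [h2]; exact tendsto_bot
  refine h0.mono_of_mem_nhdsWithin ?_
  have hnh0 : U ∩ Metric.ball y0 r ∈ 𝓝[U] y0 :=
    inter_mem self_mem_nhdsWithin (nhdsWithin_le_nhds (Metric.ball_mem_nhds y0 hr))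
  filter_upwards [hnh0] with y hy
  obtain ⟨d, hd⟩ := F.cov y (hU hy.1)
  exact mem_biUnion (show d ∈ {d | (P d ∩ Metric.ball y0 r).Nonempty} from ⟨y, hd, hy.2⟩)
    ⟨hd, hy.1⟩

/-- **the push of 961's foam is a `Push`** -/
theorem pushD (hLa : IsOpen La) : Push La (Pc Φ.F) Φ.Psi (muD Φ) := by
  have hF := Brk3_582.foam Φ.bf hLa
  have hmem : ∀ c : Φ.F, ∀ y ∈ Pc Φ.F c, y ∈ (qb Φ c).S := fun c y hy => (mem_qb Φ).2 hy
  refine ⟨?_, ?_, ?_, ?_, ?_, ?_, ?_⟩
  · exact glue_cont hF Subset.rfl (fun c y hy => muD_eq Φ hLa hy)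
      fun c => (mc_spec Φ c).cont_m.continuousOn
  · intro y hy
    obtain ⟨c, hc⟩ := hF.cov y hy
    rw [muD_eq Φ hLa hc]
    exact (mc_spec Φ c).m_mem y (hmem c y hc)
  · intro c c' hne y hy hy'
    have h1 : y ∉ (qb Φ c).I := (wall_iff Φ hLa hy).1 ⟨c', hne, hy'⟩
    rw [muD_eq Φ hLa hy, Psi_eqD Φ hLa hy]
    exact (mc_spec Φ c).m_bd y (hmem c y hy) h1
  · refine glue_cont hF inter_subset_left (gc := fun c => Φ.pu c)
      (fun c y hy => Psi_eqD Φ hLa hy) fun c => ?_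
    refine (mc_spec Φ c).cont.mono ?_
    rintro y ⟨hy, -, hy2⟩
    refine ⟨hmem c y hy, ?_⟩
    show 0 < mc Φ c y
    rw [← muD_eq Φ hLa hy]; exact hy2
  · intro c y hy h0
    rw [muD_eq Φ hLa hy] at h0
    obtain ⟨h1, h2⟩ := (mc_spec Φ c).mem y (hmem c y hy) h0
    have h3 : Φ.pu c y ∈ c.1.set := (mem_qb Φ).1 h1
    rw [Psi_eqD Φ hLa hy]
    exact ⟨h3, (wall_iff Φ hLa h3).2 h2⟩
  · intro c y hy z hz h0 hm hpsi
    rw [muD_eq Φ hLa hy] at h0 hm
    rw [muD_eq Φ hLa hz] at hm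
    rw [Psi_eqD Φ hLa hy, Psi_eqD Φ hLa hz] at hpsi
    exact (mc_spec Φ c).inj y (hmem c y hy) z (hmem c z hz) h0 hm hpsi
  · intro c c' hne p hp hp' t ht
    have h1 : p ∉ (qb Φ c).I := (wall_iff Φ hLa hp).1 ⟨c', hne, hp'⟩
    obtain ⟨y, hy, h2, h3⟩ := (mc_spec Φ c).surj p (hmem c p hp) h1 t ht
    have hy' : y ∈ c.1.set := (mem_qb Φ).1 hy
    exact ⟨y, hy', by rw [Psi_eqD Φ hLa hy', h2], by rw [muD_eq Φ hLa hy', h3]⟩

/-- `μ = 0` exactly on the holes -/
theorem muD_pos (hLa : IsOpen La) {c : Φ.F} {y : E3} (hy : y ∈ c.1.set) :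
    0 < muD Φ y ↔ y ∉ (Φ.B c).S := by
  rw [muD_eq Φ hLa hy]
  exact (mc_spec Φ c).m_pos y ((mem_qb Φ).2 hy)

end Crest.Agent.R096.Vb_965
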