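import Crest.Agent.R096.Ginv1_543
import Crest.Agent.R096.Agl8_543
import Crest.Agent.R096.Lab6_184
import Crest.Agent.R096.Ginv2_543
import Crest.Agent.R096.Init12_543
import Crest.Agent.R096.Pse2_316
import Crest.Agent.R096.Lab1_184

-- ▼ part R096/Bgf1_4
section

/-! # Row 96, DOORS, barriers (helper4), part 1: adding countably many regular levels to a family -/

set_option autoImplicit false
set_option linter.unusedSectionVars false

open Set Filter Topology Metric MeasureTheory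

namespace Crest.Agent.R096.Bgf_4

open Crest.Agent.R096.Msh_715 Crest.Agent.R096.Agl4_543 Crest.Agent.R096.Agl5_543
  Crest.Agent.R096.Agl6_543 Crest.Agent.R096.Agl8_543
  Crest.Agent.R096.Pat4_543 Crest.Agent.R096.Pat5_543 Crest.Agent.R096.St_147
  Crest.Agent.R096.Coh_184 Crest.Agent.R096.Seq_213 Crest.Agent.R096.Ginv_543

/-! ### dependent choice along a countable index set -/

/-- choose values one after the other -/
theorem exists_choice {Mo β : Type} [Countable Mo] [Nonempty β] (good : Mo → Set β)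
    (r : Mo → Mo → β → β → Prop)
    (h : ∀ (m : Mo) (s : Set Mo) (v : Mo → β), (∀ m' ∈ s, v m' ∈ good m') →
      ∃ y ∈ good m, ∀ m' ∈ s, r m' m (v m') y) :
    ∃ v : Mo → β, (∀ m, v m ∈ good m) ∧ ∀ m m', m ≠ m' → r m m' (v m) (v m') ∨ r m' m (v m') (v m) := by
  classical
  obtain ⟨e, he⟩ := exists_injective_nat Mo
  -- recursion on `e m`
  let F : (m : Mo) → ((m' : Mo) → e m' < e m → β) → β := fun m ih =>
    if hex : ∃ y ∈ good m, ∀ m' (hlt : e m' < e m), r m' m (ih m' hlt) y then hex.choose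
    else Classical.arbitrary β
  have hwf : WellFounded fun m' m : Mo => e m' < e m := InvImage.wf e Nat.lt_wfRel.wf
  let v : Mo → β := hwf.fix F
  have hv : ∀ m, v m = F m fun m' _ => v m' := fun m => hwf.fix_eq F m
  have key : ∀ m, v m ∈ good m ∧ ∀ m', e m' < e m → r m' m (v m') (v m) := by
    intro m
    induction m using hwf.induction with
    | _ m ih =>
      have hex : ∃ y ∈ good m, ∀ m' (_ : e m' < e m), r m' m (v m') y :=
        h m {m' | e m' < e m} v fun m' hm' => (ih m' hm').1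
      have h1 := hv m
      have h2 : F m (fun m' _ => v m') = hex.choose := dif_pos hex
      rw [h2] at h1
      rw [h1]
      exact hex.choose_spec
  refine ⟨v, fun m => (key m).1, fun m m' hne => ?_⟩
  rcases lt_trichotomy (e m) (e m') with h1 | h1 | h1
  · exact Or.inl ((key m').2 m h1)
  · exact absurd (he h1) hne
  · exact Or.inr ((key m).2 m' h1)

variable {E : Type} [NormedAddCommGroup E] [NormedSpace ℝ E] [FiniteDimensional ℝ E]
variable {Om : Set E} {ι : Type} {T : Tiling Om ι}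
variable {J C : Type} {u : J → E → ℝ} {c : J → ℝ} {S : J → Set E} {fam : J → C}

theorem regLevel_congr {U U' : E → ℝ} {t : ℝ} {S : Set E} (h : RegLevel T U t S)
    (hc : ContinuousOn U' Om) (h1 : ∀ x ∈ Om, (U' x = t ↔ U x = t) ∧ (t < U' x ↔ t < U x) ∧
      (U' x < t ↔ U x < t)) : RegLevel T U' t S where
  cpt := h.cpt
  sub := h.sub
  vert := h.vert
  cont := fun x hx hd hne => hc.mono (T.cc_sub_Om hx)
  lev := fun x hx hd hne y hy => (h.lev x hx hd hne y hy).trans (h1 y (T.cc_sub_Om hx hy)).1.symm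
  reg := fun x hx hd hne => by
    have g := h.reg x hx hd hne
    have hO : T.cc x \ T.oc x ⊆ Om := fun y hy => T.cc_sub_Om hx hy.1
    refine ⟨g.fin.subset fun y hy => ⟨hy.1, (h1 y (hO hy.1)).1.1 hy.2⟩, fun y hy he => ?_,
      fun y hy he => ?_⟩
    · have := g.up y hy ((h1 y (hO hy)).1.1 he)
      have hm : {z | z ∈ T.cc x \ T.oc x ∧ t < U z} ⊆ {z | z ∈ T.cc x \ T.oc x ∧ t < U' z} :=
        fun z hz => ⟨hz.1, ((h1 z (hO hz.1)).2.1).2 hz.2⟩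
      exact closure_mono hm this
    · have := g.down y hy ((h1 y (hO hy)).1.1 he)
      have hm : {z | z ∈ T.cc x \ T.oc x ∧ U z < t} ⊆ {z | z ∈ T.cc x \ T.oc x ∧ U' z < t} :=
        fun z hz => ⟨hz.1, ((h1 z (hO hz.1)).2.2).2 hz.2⟩
      exact closure_mono hm this
  bad := fun x hx hd hne => by
    have g := h.bad x hx hd hne
    rintro ⟨x₁, a1, x₂, a2, x₃, a3, b1, b2, b3, b4, b5, b6⟩
    have hO : T.cc x \ T.oc x ⊆ Om := fun y hy => T.cc_sub_Om hx hy.1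
    have e : {y | y ∈ T.cc x ∧ U' y = t} = {y | y ∈ T.cc x ∧ U y = t} := by
      ext y
      exact ⟨fun hy => ⟨hy.1, (h1 y (T.cc_sub_Om hx hy.1)).1.1 hy.2⟩,
        fun hy => ⟨hy.1, (h1 y (T.cc_sub_Om hx hy.1)).1.2 hy.2⟩⟩
    rw [e] at b5 b6
    exact g ⟨x₁, a1, x₂, a2, x₃, a3, b1, b2, b3, (h1 x₁ (hO a1)).1.1 b4, b5, b6⟩

/-- almost every level in an interval is regular -/
theorem ae_lev {U : E → ℝ} {lo hi : ℝ} (hU : ContinuousOn U Om)
    (hcpt : ∀ t ∈ Ioo lo hi, IsCompact {x | x ∈ Om ∧ U x = t})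
    (hfin : ∀ x ∈ Om, T.dim x = 1 → ∀ᵐ t : ℝ, t ∈ Ioo lo hi → {y | y ∈ T.cc x ∧ U y = t}.Finite) :
    ∀ᵐ t : ℝ, t ∈ Ioo lo hi → RegLevel T U t {x | x ∈ Om ∧ U x = t} := by
  have hU' : ContinuousOn (fun x => max lo (min hi (U x))) Om :=
    continuousOn_const.sup (continuousOn_const.inf hU)
  have hkey : ∀ t ∈ Ioo lo hi, ∀ x, (U x = t ↔ max lo (min hi (U x)) = t) ∧
      (t < U x ↔ t < max lo (min hi (U x))) ∧ (U x < t ↔ max lo (min hi (U x)) < t) := by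
    intro t ht x
    have h1 := ht.1
    have h2 := ht.2
    rcases le_or_gt hi (U x) with h | h
    · rw [min_eq_left h, max_eq_right (by linarith)]
      exact ⟨⟨fun e => by linarith, fun e => by linarith⟩, ⟨fun _ => h2, fun _ => by linarith⟩,
        ⟨fun e => by linarith, fun e => by linarith⟩⟩
    · rw [min_eq_right h.le]
      rcases le_or_gt (U x) lo with h' | h'
      · rw [max_eq_left h']
        exact ⟨⟨fun e => by linarith, fun e => by linarith⟩, ⟨fun e => by linarith, fun e => by linarith⟩,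
          ⟨fun _ => h1, fun _ => by linarith⟩⟩
      · rw [max_eq_right h'.le]
        exact ⟨Iff.rfl, Iff.rfl, Iff.rfl⟩
  have h1 := ae_regLevel (T := T) hU' (fun x hx hd => by
    have hlo : ∀ᵐ t : ℝ, t ≠ lo := compl_mem_ae_iff.2 (measure_singleton lo)
    have hhi : ∀ᵐ t : ℝ, t ≠ hi := compl_mem_ae_iff.2 (measure_singleton hi)
    filter_upwards [hfin x hx hd, hlo, hhi] with t ht h2 h3
    by_cases h4 : t ∈ Ioo lo hi
    · refine (ht h4).subset fun y hy => ⟨hy.1, ((hkey t h4 y).1).2 hy.2⟩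
    · refine Set.Finite.subset finite_empty fun y hy => ?_
      have h5 : max lo (min hi (U y)) = t := hy.2
      rcases not_and_or.1 h4 with h6 | h6
      · have : lo ≤ t := by rw [← h5]; exact le_max_left _ _
        exact (h2 (le_antisymm (not_lt.1 h6) this)).elim
      · rcases le_or_gt hi lo with h7 | h7
        · have h8 : max lo (min hi (U y)) = lo := max_eq_left ((min_le_left _ _).trans h7)
          exact (h2 (by rw [← h5, h8])).elim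
        · have h9 : t ≤ hi := by
            rw [← h5]; exact max_le h7.le (min_le_left _ _)
          exact (h3 (le_antisymm h9 (not_lt.1 h6))).elim)
  filter_upwards [h1] with t ht hI
  have e : {x | x ∈ Om ∧ max lo (min hi (U x)) = t} = {x | x ∈ Om ∧ U x = t} := by
    ext x
    exact ⟨fun hx => ⟨hx.1, ((hkey t hI x).1).2 hx.2⟩, fun hx => ⟨hx.1, ((hkey t hI x).1).1 hx.2⟩⟩
  rw [e] at ht
  exact regLevel_congr (ht (hcpt t hI)) hU fun x _ => hkey t hI x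

theorem countable_pts [Countable J] (h : GFam T u c S fam) (h3 : Module.finrank ℝ E = 3) :
    {w | ∃ i, w ∈ S i ∧ T.dim w ≤ 1}.Countable := by
  have h1 : (⋃ i, {x | x ∈ S i ∧ T.dim x ≤ 1}).Countable :=
    countable_iUnion fun i => ((h.lev i).finite_P h3).countable
  refine h1.mono ?_
  rintro w ⟨i, hi⟩
  exact mem_iUnion.2 ⟨i, hi⟩

/-- **adding countably many single sheets to a family of regular levels** -/
theorem exists_sum (h3 : Module.finrank ℝ E = 3) [Countable J] (h : GFam T u c S fam) {Mo : Type}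
    [Countable Mo] {U : Mo → E → ℝ} {lo hi : Mo → ℝ} (hlh : ∀ m, lo m < hi m)
    (hU : ∀ m, ContinuousOn (U m) Om)
    (hcpt : ∀ m, ∀ t ∈ Ioo (lo m) (hi m), IsCompact {x | x ∈ Om ∧ U m x = t})
    (hfin : ∀ m, ∀ x ∈ Om, T.dim x = 1 → ∀ᵐ t : ℝ, t ∈ Ioo (lo m) (hi m) →
      {y | y ∈ T.cc x ∧ U m y = t}.Finite) (N : Mo → Set ℝ) (hN : ∀ m, volume (N m) = 0) :
    ∃ ε : Mo → ℝ, (∀ m, ε m ∈ Ioo (lo m) (hi m)) ∧ (∀ m, ε m ∉ N m) ∧
      GFam T (Sum.elim u U) (Sum.elim c ε)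
        (Sum.elim S fun m => {x | x ∈ Om ∧ U m x = ε m}) (Sum.map fam id : J ⊕ Mo → C ⊕ Mo) := by
  have hcp := countable_pts h h3
  let good : Mo → Set ℝ := fun m => {t | t ∈ Ioo (lo m) (hi m) ∧ t ∉ N m ∧
    RegLevel T (U m) t {x | x ∈ Om ∧ U m x = t} ∧ ∀ w, (∃ i, w ∈ S i ∧ T.dim w ≤ 1) → U m w ≠ t}
  let r : Mo → Mo → ℝ → ℝ → Prop := fun m m' t t' => ∀ x ∈ Om, T.dim x ≤ 1 → U m x = t → U m' x ≠ t'
  obtain ⟨ε, h1, h2⟩ := exists_choice good r (fun m s v hv => by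
    have a1 : ∀ᵐ t : ℝ, t ∈ Ioo (lo m) (hi m) → RegLevel T (U m) t {x | x ∈ Om ∧ U m x = t} :=
      ae_lev (hU m) (hcpt m) (hfin m)
    have a2 : ∀ᵐ t : ℝ, t ∉ N m := compl_mem_ae_iff.2 (hN m)
    have a3 : ∀ᵐ t : ℝ, t ∉ U m '' {w | ∃ i, w ∈ S i ∧ T.dim w ≤ 1} :=
      compl_mem_ae_iff.2 ((hcp.image _).measure_zero _)
    have a4 : ∀ᵐ t : ℝ, t ∉ U m '' ⋃ m' ∈ s, {x | (x ∈ Om ∧ U m' x = v m') ∧ T.dim x ≤ 1} := by
      refine compl_mem_ae_iff.2 (Countable.measure_zero (Countable.image ?_ _) _)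
      refine Countable.biUnion (to_countable s) fun m' hm' => ?_
      exact ((hv m' hm').2.2.1.finite_P h3).countable
    have hpos : (volume (Ioo (lo m) (hi m))) ≠ 0 := by
      rw [Real.volume_Ioo]
      simpa using hlh m
    have a5 := ((a1.and a2).and (a3.and a4))
    have a6 : ∃ t ∈ Ioo (lo m) (hi m), ((t ∈ Ioo (lo m) (hi m) → RegLevel T (U m) t {x | x ∈ Om ∧ U m x = t}) ∧
        t ∉ N m) ∧ t ∉ U m '' {w | ∃ i, w ∈ S i ∧ T.dim w ≤ 1} ∧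
        t ∉ U m '' ⋃ m' ∈ s, {x | (x ∈ Om ∧ U m' x = v m') ∧ T.dim x ≤ 1} := by
      by_contra hcon
      push Not at hcon
      refine hpos (measure_mono_null (fun t ht => ?_) a5)
      intro hh
      exact hh.2.2 (hcon t ht hh.1 hh.2.1)
    obtain ⟨t, ht, ⟨b1, b2⟩, b3, b4⟩ := a6
    refine ⟨t, ⟨ht, b2, b1 ht, fun w hw he => b3 ⟨w, hw, he⟩⟩, fun m' hm' x hx hd hxm he => ?_⟩
    exact b4 ⟨x, mem_biUnion hm' ⟨⟨hx, hxm⟩, hd⟩, he⟩)
  refine ⟨ε, fun m => (h1 m).1, fun m => (h1 m).2.1, ⟨?_, ?_, ?_, ?_⟩⟩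
  · rintro (i | m)
    · exact h.lev i
    · exact (h1 m).2.2.1
  · rintro (i | m) (j | m') x hx hx' hd
    · exact congrArg Sum.inl (h.sep1 i j x hx hx' hd)
    · exact ((h1 m').2.2.2 x ⟨i, hx, hd⟩ hx'.2).elim
    · exact ((h1 m).2.2.2 x ⟨j, hx', hd⟩ hx.2).elim
    · by_contra hne
      have hne' : m ≠ m' := fun e => hne (congrArg Sum.inr e)
      rcases h2 m m' hne' with h4 | h4
      · exact h4 x hx.1 hd hx.2 hx'.2
      · exact h4 x hx.1 hd hx'.2 hx.2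
  · rintro (i | m) (j | m') hf hne
    · exact h.disj i j (Sum.inl_injective hf) fun e => hne (congrArg Sum.inl e)
    · exact (Sum.inl_ne_inr hf).elim
    · exact (Sum.inr_ne_inl hf).elim
    · exact (hne (congrArg Sum.inr (Sum.inr_injective hf))).elim
  · rintro (a | m)
    · refine ((h.finC a).image Sum.inl).subset ?_
      rintro (j | m') hj
      · exact ⟨j, Sum.inl_injective hj, rfl⟩
      · exact (Sum.inr_ne_inl hj).elim
    · refine (finite_singleton (Sum.inr m : J ⊕ Mo)).subset ?_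
      rintro (j | m') hj
      · exact (Sum.inl_ne_inr hj).elim
      · exact congrArg Sum.inr (Sum.inr_injective hj)

end Crest.Agent.R096.Bgf_4
end

-- ▼ part R096/Bgf2_4
section

/-! # Row 96, DOORS, barriers (helper4), part 2: comparison of a state with the state with barriers -/

set_option autoImplicit false
set_option linter.unusedSectionVars false

open Set Filter Topology Metric MeasureTheory

namespace Crest.Agent.R096.Bgf_4

open Crest.Agent.R096.Msh_715 Crest.Agent.R096.Agl4_543 Crest.Agent.R096.Agl5_543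
  Crest.Agent.R096.Agl6_543 Crest.Agent.R096.Agl8_543
  Crest.Agent.R096.Pat4_543 Crest.Agent.R096.Pat5_543 Crest.Agent.R096.St_147
  Crest.Agent.R096.Coh_184 Crest.Agent.R096.Seq_213 Crest.Agent.R096.Seq_213.GSt
  Crest.Agent.R096.Ginv_543
  Crest.Agent.R096.Lab_184

section ext

variable {ι Φ W J C Mo C' : Type} {M : MeshC ι Φ W} {fam : J → C} {fam' : J ⊕ Mo → C'}

/-- `s'` is `s` with more sheets -/
structure Ext (s : GSt M fam) (s' : GSt M fam') : Prop where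
  pts : ∀ w j, (w ∈ s.P ∧ s.lab w = j) ↔ (w ∈ s'.P ∧ s'.lab w = Sum.inl j)
  mu : ∀ F w, s.At F w → s'.mu F w = s.mu F w

variable {s : GSt M fam} {s' : GSt M fam'}

theorem Ext.mem (h : Ext s s') {w : W} (hw : w ∈ s.P) : w ∈ s'.P ∧ s'.lab w = Sum.inl (s.lab w) :=
  (h.pts w (s.lab w)).1 ⟨hw, rfl⟩

theorem Ext.of_lab (h : Ext s s') {w : W} {j : J} (hw : w ∈ s'.P) (hl : s'.lab w = Sum.inl j) :
    w ∈ s.P ∧ s.lab w = j := (h.pts w j).2 ⟨hw, hl⟩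

theorem Ext.at_ (h : Ext s s') {F : Φ} {w : W} (hw : s.At F w) : s'.At F w :=
  ⟨(h.mem hw.1).1, hw.2⟩

theorem Ext.step (h : Ext s s') {a b : W} (hg : GStep s a b) : GStep s' a b := by
  obtain ⟨F, h1, rfl⟩ := hg
  exact ⟨F, h.at_ h1, (h.mu F a h1).symm⟩

theorem Ext.step' (h : Ext s s') {a b : W} {j : J} (hj : s'.lab a = Sum.inl j)
    (hg : GStep s' a b) : GStep s a b := by
  obtain ⟨F, h1, rfl⟩ := hg
  have h2 := h.of_lab h1.1 hj
  exact ⟨F, ⟨h2.1, h1.2⟩, h.mu F a ⟨h2.1, h1.2⟩⟩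

/-- the chord components -/
theorem Ext.gmain (h : Ext s s') {b : J → W} {b' : J ⊕ Mo → W} (hbb : ∀ j, b' (Sum.inl j) = b j)
    (hb' : ∀ i, b' i ∈ s'.P ∧ s'.lab (b' i) = i) :
    Ext (Ginv_543.gmain s b) (Ginv_543.gmain s' b') where
  pts := by
    intro w j
    constructor
    · rintro ⟨⟨h1, i, hi⟩, h2⟩
      have h3 := h.mem h1
      refine ⟨⟨h3.1, Sum.inl i, ?_⟩, ?_⟩
      · rw [hbb]
        exact Relation.ReflTransGen.mono (fun _ _ => h.step) _ _ hi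
      · exact h3.2.trans (congrArg Sum.inl h2)
    · rintro ⟨⟨h1, i', hi'⟩, h2⟩
      have h3 := (gcomp_lab hb' hi').2
      have h4 : i' = Sum.inl j := h3.symm.trans h2
      subst h4
      have h5 := h.of_lab h1 h2
      refine ⟨⟨h5.1, j, ?_⟩, h5.2⟩
      rw [hbb] at hi'
      clear h1 h2 h3 h5
      induction hi' with
      | refl => exact .refl
      | tail g1 g2 ih =>
        refine ih.tail (h.step' (j := j) ?_ g2)
        rw [← hbb] at g1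
        exact (gcomp_lab hb' g1).2
  mu := fun F w hw => h.mu F w ⟨hw.1.1, hw.2⟩

theorem Ext.H1 (h : Ext s s') {j : J} (hj : s.H1 j) : s'.H1 (Sum.inl j) := by
  intro κ hκ
  obtain ⟨Ψ, hΨ⟩ := hj κ (fun q => by
    obtain ⟨ψ, hψ⟩ := hκ q
    refine ⟨ψ, fun F w hq hw hi => ?_⟩
    have h1 := hψ F w hq (h.at_ hw) ((h.mem hw.1).2.trans (congrArg Sum.inl hi))
    rwa [h.mu F w hw] at h1)
  refine ⟨Ψ, fun F w hw hi => ?_⟩
  have h2 := h.of_lab hw.1 hi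
  have h3 : s.At F w := ⟨h2.1, hw.2⟩
  have h1 := hΨ F w h3 h2.2
  rwa [← h.mu F w h3] at h1


theorem Ext.conn (h : Ext s s') {j : J} (hj : s.Conn j) : s'.Conn (Sum.inl j) := by
  obtain ⟨⟨w0, h1, h2⟩, h3⟩ := hj
  refine ⟨⟨w0, (h.mem h1).1, (h.mem h1).2.trans (congrArg Sum.inl h2)⟩, ?_⟩
  intro Y hY w hwY hw hwi w' hw' hwi'
  have g1 := h.of_lab hw hwi
  have g2 := h.of_lab hw' hwi'
  refine h3 Y (fun F v hv hat hi => ?_) w hwY g1.1 g1.2 w' g2.1 g2.2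
  have := hY F v hv (h.at_ hat) ((h.mem hat.1).2.trans (congrArg Sum.inl hi))
  rwa [h.mu F v hat] at this


end ext

section gfam

variable {E : Type} [NormedAddCommGroup E] [NormedSpace ℝ E] [FiniteDimensional ℝ E]
variable {Om : Set E} {ι : Type} {T : Tiling Om ι}
variable {J C Mo C' : Type} {u : J → E → ℝ} {c : J → ℝ} {S : J → Set E} {fam : J → C}
  {u' : J ⊕ Mo → E → ℝ} {c' : J ⊕ Mo → ℝ} {S' : J ⊕ Mo → Set E} {fam' : J ⊕ Mo → C'}

/-- **the states of regular levels** -/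
theorem ext_gst [Nonempty J] (h : GFam T u c S fam) (h' : GFam T u' c' S' fam')
    (hS : ∀ j, S' (Sum.inl j) = S j) (h3 : Module.finrank ℝ E = 3) :
    Ext (h.gst h3) (h'.gst h3) where
  pts := by
    intro w j
    have h1 := h.mem_pts_iff (w := w) (i := j)
    have h2 := h'.mem_pts_iff (w := w) (i := Sum.inl j)
    rw [hS] at h2
    exact h1.trans h2.symm
  mu := by
    intro F w hw
    have hwp : w ∈ h.pts := hw.1
    have hwF : w ∈ F.On := hw.2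
    have h1 := (h.mem_pts_iff (w := w) (i := labf S w)).1 ⟨hwp, rfl⟩
    have h2 : w ∈ h'.pts ∧ labf S' w = Sum.inl (labf S w) :=
      h'.mem_pts_iff.2 (by rw [hS]; exact h1)
    have hs := (h.mu_spec h3 hwp hwF).1
    have ht := (h'.mu_spec h3 h2.1 hwF).2 (h.mu h3 F w) hs.1
    rw [h2.2, hS] at ht
    exact (ht hs.2.1.1 hs.2.1.2 hs.2.2).symm


end gfam

end Crest.Agent.R096.Bgf_4
end

-- ▼ part R096/Bgf3_4

/-! # Row 96, DOORS, barriers (helper4), part 3: the barriers of the machine data -/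

set_option autoImplicit false
set_option linter.unusedSectionVars false

open Set Filter Topology Metric MeasureTheory

namespace Crest.Agent.R096.Bgf_4

open Crest.Agent.R096.Msh_715 Crest.Agent.R096.Agl4_543 Crest.Agent.R096.Agl5_543
  Crest.Agent.R096.Agl6_543 Crest.Agent.R096.Agl8_543
  Crest.Agent.R096.Pat4_543 Crest.Agent.R096.Pat5_543 Crest.Agent.R096.St_147
  Crest.Agent.R096.Coh_184 Crest.Agent.R096.Seq_213 Crest.Agent.R096.Seq_213.GSt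
  Crest.Agent.R096.Ginv_543
  Crest.Agent.R096.Lab_184 Crest.Agent.R096.Init_543
  Crest.Agent.R096.Brk1_582 Crest.Agent.R096.Brk2_582 Crest.Agent.R096.Brk3_582
  Crest.Agent.R096.Brk5_582 Crest.Agent.R096.Bsp_628 Crest.Agent.R96.Push_899

open Crest.Agent.R096.SkC1_961 (E3 Hom3 IsPush FoamD Cfg th)
open Crest.Agent.R096.Mbf_337 (gau KJ Tiny)

section convex

variable {V : Type*} [NormedAddCommGroup V] [NormedSpace ℝ V]


end convex

section mach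

variable {δ κ0 R c0 : ℝ} {La Om : Set E3} {ι : Type} (Φ : FoamD δ κ0 R c0 La)

/-- **a barrier function** of the brick `c`: the barriers are the surfaces `{ℓ = t}`, `lo < t < hi`
(topological form: compact, connected, with trivial torsors) -/
structure BFun (c : Φ.F) (ρ : ℝ) (ℓ : E3 → ℝ) (lo hi : ℝ) : Prop where
  lt : lo < hi
  lip : ∃ k, LipschitzWith k ℓ
  cpt : ∀ t ∈ Ioo lo hi, IsCompact {y | ℓ y = t}
  conn : ∀ t ∈ Ioo lo hi, IsPreconnected {y | ℓ y = t}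
  triv : ∀ t ∈ Ioo lo hi, TrivF (ZMod 2) {y | ℓ y = t}
  sub : ∀ y, ℓ y < hi → gau c.1 (Φ.B c).lo y ≤ ρ



variable {Φ} {T : Tiling Om ι} {f g : E3 → E3}

/-- the barrier sheets are in the part of the brick where the gauge is `≤ ρ` -/
theorem BFun.lt_one {c : Φ.F} {ρ lo hi : ℝ} {ℓ : E3 → ℝ} (h : BFun Φ c ρ ℓ lo hi)
    (hpt : (Φ.B c).lo = (Φ.B c).hi) (hρ : ρ < 1) {y : E3} (hy : ℓ y < hi) :
    (∀ k, c.1.lo k < y k ∧ y k < c.1.hi k) ∧ y ∈ La := by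
  have h1 := h.sub y hy
  rw [Pse_316.gau_eq] at h1
  have hb := Pse_316.bod_brick Φ c hpt
  have h2 : y ∈ interior c.1.set := hb.lt_one_iff.1 (lt_of_le_of_lt h1 hρ)
  have h3 : y ∈ interior (Pc Φ.F c) := h2
  rw [interior_Pc] at h3
  refine ⟨fun k => h3 k, ?_⟩
  exact Φ.bf.sub c.1 c.2 (interior_subset h2)

theorem BFun.sub_La {c : Φ.F} {ρ lo hi : ℝ} {ℓ : E3 → ℝ} (h : BFun Φ c ρ ℓ lo hi)
    (hpt : (Φ.B c).lo = (Φ.B c).hi) (hρ : ρ < 1) {t : ℝ} (ht : t ∈ Ioo lo hi) :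
    {y | ℓ y = t} ⊆ La := fun y hy => (h.lt_one hpt hρ (y := y) (by
      show ℓ y < hi; rw [show ℓ y = t from hy]; exact ht.2)).2

theorem BFun.cpt_eq {c : Φ.F} {ρ lo hi : ℝ} {ℓ : E3 → ℝ} (h : BFun Φ c ρ ℓ lo hi) {t : ℝ}
    (ht : t ∈ Ioo lo hi) : IsCompact {y | ℓ y = t} := h.cpt t ht

theorem BFun.sheet_cpt {c : Φ.F} {ρ lo hi : ℝ} {ℓ : E3 → ℝ} (h : BFun Φ c ρ ℓ lo hi)
    (hpt : (Φ.B c).lo = (Φ.B c).hi) (hρ : ρ < 1) (H : Hm f g Om La) {t : ℝ}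
    (ht : t ∈ Ioo lo hi) : IsCompact {x | x ∈ Om ∧ ℓ (f x) = t} :=
  H.isCompact_pre (h.sub_La hpt hρ ht) (h.cpt_eq ht)

theorem BFun.sheet_trivF {c : Φ.F} {ρ lo hi : ℝ} {ℓ : E3 → ℝ} (h : BFun Φ c ρ ℓ lo hi)
    (hpt : (Φ.B c).lo = (Φ.B c).hi) (hρ : ρ < 1) (H : Hm f g Om La) {t : ℝ}
    (ht : t ∈ Ioo lo hi) : TrivF (ZMod 2) {x | x ∈ Om ∧ ℓ (f x) = t} :=
  H.trivF_pre (h.sub_La hpt hρ ht) (h.cpt_eq ht) (h.triv t ht)


/-- the sheet is in the tiles of `V` -/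
theorem BFun.sheet_sub {c : Φ.F} {ρ lo hi : ℝ} {ℓ : E3 → ℝ} (h : BFun Φ c ρ ℓ lo hi) {V : Set ι}
    (hV : ∀ i, (∃ x ∈ P (T.H i), gau c.1 (Φ.B c).lo (f x) ≤ ρ) → i ∈ V) {x : E3} (hx : x ∈ Om)
    (hxl : ℓ (f x) < hi) : x ∈ KJ T V ∧ ∀ i, x ∈ P (T.H i) → i ∈ V := by
  have h1 : ∀ i, x ∈ P (T.H i) → i ∈ V := fun i hi => hV i ⟨x, hi, h.sub _ hxl⟩
  obtain ⟨i, hi⟩ := T.cov x hx
  exact ⟨mem_iUnion₂.2 ⟨i, h1 i hi, hi⟩, h1⟩

theorem BFun.fin {c : Φ.F} {ρ lo hi : ℝ} {ℓ : E3 → ℝ} (h : BFun Φ c ρ ℓ lo hi) {V : Set ι}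
    (hV : ∀ i, (∃ x ∈ P (T.H i), gau c.1 (Φ.B c).lo (f x) ≤ ρ) → i ∈ V)
    (hreg : ∀ x ∈ KJ T V, T.dim x = 1 → ∀ ℓ : E3 → ℝ, (∃ k, LipschitzWith k ℓ) →
      ∀ᵐ t : ℝ, {y ∈ T.cc x | ℓ (f y) = t}.Finite) (x : E3) (hx : x ∈ Om) (hd : T.dim x = 1) :
    ∀ᵐ t : ℝ, t ∈ Ioo lo hi → {y | y ∈ T.cc x ∧ ℓ (f y) = t}.Finite := by
  by_cases hxV : x ∈ KJ T V
  · filter_upwards [hreg x hxV hd ℓ h.lip] with t ht _
    exact ht
  · refine Eventually.of_forall fun t ht => ?_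
    refine Set.Finite.subset finite_empty fun y hy => ?_
    obtain ⟨i, hi⟩ := T.cov x hx
    have hyi : y ∈ P (T.H i) := T.cc_sub_tile hi hy.1
    have h1 : i ∈ V := hV i ⟨y, hyi, h.sub _ (by rw [hy.2]; exact ht.2)⟩
    exact hxV (mem_iUnion₂.2 ⟨i, h1, hi⟩)

/-- **the barriers at the tiny cores** -/
structure BData (Φ : FoamD δ κ0 R c0 La) (T : Tiling Om ι) (f : E3 → E3) (V : Φ.F → Set ι)
    {Mo : Type} (co : Mo → Φ.F) (ρ : Mo → ℝ) (ℓ : Mo → E3 → ℝ) (lo hi : Mo → ℝ) : Prop where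
  pt : ∀ m, (Φ.B (co m)).lo = (Φ.B (co m)).hi
  ρ1 : ∀ m, ρ m < 1
  bf : ∀ m, BFun Φ (co m) (ρ m) (ℓ m) (lo m) (hi m)
  tile : ∀ m i, (∃ x ∈ P (T.H i), gau (co m).1 (Φ.B (co m)).lo (f x) ≤ ρ m) → i ∈ V (co m)
  reg : ∀ m, ∀ x ∈ KJ T (V (co m)), T.dim x = 1 → ∀ ℓ : E3 → ℝ, (∃ k, LipschitzWith k ℓ) →
    ∀ᵐ t : ℝ, {y ∈ T.cc x | ℓ (f y) = t}.Finite

variable {Mo : Type} {co : Mo → Φ.F} {ρ : Mo → ℝ} {ℓ : Mo → E3 → ℝ} {lo hi : Mo → ℝ}
  {V : Φ.F → Set ι} {r₀ : Φ.F → ℝ} {L : Φ.F → Finset ℝ}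

/-- the level functions with the barriers -/
noncomputable def uB (Φ : FoamD δ κ0 R c0 La) (r₀ : Φ.F → ℝ) (f : E3 → E3) (L : Φ.F → Finset ℝ)
    (ℓ : Mo → E3 → ℝ) : JJ Φ L ⊕ Mo → E3 → ℝ :=
  Sum.elim (fun j : JJ Φ L => va (Pc Φ.F) (bc (F := Φ.F)) (RF Φ r₀) f j.1) fun m x => ℓ m (f x)

/-- the levels with the barriers -/
noncomputable def tB (Φ : FoamD δ κ0 R c0 La) (L : Φ.F → Finset ℝ) (ε : Mo → ℝ) :
    JJ Φ L ⊕ Mo → ℝ := Sum.elim (fun j : JJ Φ L => j.2.1) ε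

/-- the sheets with the barriers -/
noncomputable def SB (Om : Set E3) (Φ : FoamD δ κ0 R c0 La) (r₀ : Φ.F → ℝ) (f : E3 → E3)
    (L : Φ.F → Finset ℝ) (ℓ : Mo → E3 → ℝ) (ε : Mo → ℝ) : JJ Φ L ⊕ Mo → Set E3 :=
  Sum.elim (shS Om (Pc Φ.F) (bc (F := Φ.F)) (RF Φ r₀) f (fun j : JJ Φ L => j.1) (fun j => j.2.1))
    fun m => {x | x ∈ Om ∧ ℓ m (f x) = ε m}

/-- the families with the barriers: every barrier is one family -/
abbrev famB (Φ : FoamD δ κ0 R c0 La) (L : Φ.F → Finset ℝ) (Mo : Type) : JJ Φ L ⊕ Mo → Φ.F ⊕ Mo :=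
  Sum.map (fun j : JJ Φ L => j.1) id

/-- the family of all sheets and barriers -/
abbrev GFB (Φ : FoamD δ κ0 R c0 La) (r₀ : Φ.F → ℝ) (T : Tiling Om ι) (f : E3 → E3)
    (L : Φ.F → Finset ℝ) (ℓ : Mo → E3 → ℝ) (ε : Mo → ℝ) : Prop :=
  GFam T (uB Φ r₀ f L ℓ) (tB Φ L ε) (SB Om Φ r₀ f L ℓ ε) (famB Φ L Mo)

theorem countable_JJ : Countable (JJ Φ L) := by
  have : Countable Φ.F := Φ.bf.countable.to_subtype
  have : ∀ a : Φ.F, Countable {t // t ∈ L a} := fun a => inferInstance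
  infer_instance

/-- **existence of the levels of the barriers** -/
theorem exists_gfb [Countable Mo] (H : Hm f g Om La) (hG : GF Φ r₀ T f L)
    (hB : BData Φ T f V co ρ ℓ lo hi) (N : Mo → Set ℝ) (hN : ∀ m, volume (N m) = 0) :
    ∃ ε : Mo → ℝ, (∀ m, ε m ∈ Ioo (lo m) (hi m)) ∧ (∀ m, ε m ∉ N m) ∧ GFB Φ r₀ T f L ℓ ε := by
  have : Countable (JJ Φ L) := countable_JJ
  obtain ⟨ε, h1, h2, h3⟩ := exists_sum fr3 hG (U := fun m x => ℓ m (f x))
    (fun m => (hB.bf m).lt)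
    (fun m => by
      obtain ⟨k, hk⟩ := (hB.bf m).lip
      exact hk.continuous.comp_continuousOn H.fc)
    (fun m t ht => (hB.bf m).sheet_cpt (hB.pt m) (hB.ρ1 m) H ht)
    (fun m x hx hd => (hB.bf m).fin (hB.tile m) (hB.reg m) x hx hd) N hN
  exact ⟨ε, h1, h2, h3⟩

section st

variable [Nonempty (JJ Φ L)] {hG : GF Φ r₀ T f L} {ε : Mo → ℝ}

/-- **the truthful state with the barriers** -/
noncomputable def stB (hGB : GFB Φ r₀ T f L ℓ ε) (bp : JJ Φ L → E3) (bm : Mo → E3) :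
    GSt (meshC T fr3) (famB Φ L Mo) := gmain (hGB.gst fr3) (Sum.elim bp bm)

/-- base points -/
structure BBase (T : Tiling Om ι) (f : E3 → E3) (L : Φ.F → Finset ℝ) (ℓ : Mo → E3 → ℝ)
    (ε : Mo → ℝ) (bp : JJ Φ L → E3) (bm : Mo → E3) : Prop where
  lev : ∀ j : JJ Φ L, bp j ∈ Om ∧ T.dim (bp j) = 1 ∧ Φ.lev j.1 (f (bp j)) = j.2.1
  bar : ∀ m, bm m ∈ Om ∧ T.dim (bm m) = 1 ∧ ℓ m (f (bm m)) = ε m

variable {J0 : Φ.F → Set ι} {ct' : Φ.F → ι} {bp : JJ Φ L → E3} {bm : Mo → E3}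

theorem BBase.mem (hLa : IsOpen La) (hR : InitR Φ T f g J0 ct' r₀) (hb : BBase T f L ℓ ε bp bm)
    (j : JJ Φ L ⊕ Mo) : Sum.elim bp bm j ∈ SB Om Φ r₀ f L ℓ ε j ∧ T.dim (Sum.elim bp bm j) ≤ 1 := by
  rcases j with j | m
  · refine ⟨⟨(hb.lev j).1, ?_⟩, (hb.lev j).2.1.le⟩
    have h := hR.v_eq' Φ hLa (hb.lev j).1 (by rw [(hb.lev j).2.1]; norm_num) j.1
    exact h.trans (hb.lev j).2.2
  · exact ⟨⟨(hb.bar m).1, (hb.bar m).2.2⟩, (hb.bar m).2.1.le⟩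

theorem BBase.gst (hLa : IsOpen La) (hR : InitR Φ T f g J0 ct' r₀) (hb : BBase T f L ℓ ε bp bm)
    (hGB : GFB Φ r₀ T f L ℓ ε) (j : JJ Φ L ⊕ Mo) :
    Sum.elim bp bm j ∈ (hGB.gst fr3).P ∧ (hGB.gst fr3).lab (Sum.elim bp bm j) = j :=
  hGB.mem_pts_iff.2 (hb.mem hLa hR j)

/-- **the state with the barriers extends the truthful state** -/
theorem ext_stB (hLa : IsOpen La) (hR : InitR Φ T f g J0 ct' r₀) (hb : BBase T f L ℓ ε bp bm)
    (hGB : GFB Φ r₀ T f L ℓ ε) : Ext (st0 hG bp) (stB hGB bp bm) :=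
  (ext_gst hG hGB (fun _ => rfl) fr3).gmain (fun _ => rfl) fun i => hb.gst hLa hR hGB i

theorem stB_conn (hLa : IsOpen La) (hR : InitR Φ T f g J0 ct' r₀) (hb : BBase T f L ℓ ε bp bm)
    (hGB : GFB Φ r₀ T f L ℓ ε) (j : JJ Φ L ⊕ Mo) : (stB hGB bp bm).Conn j :=
  gconn_main (fun i => hb.gst hLa hR hGB i) j

/-- all sheets and barriers have trivial torsors -/
theorem trivF_SB (hLa : IsOpen La) (hR : InitR Φ T f g J0 ct' r₀)
    (hB : BData Φ T f V co ρ ℓ lo hi) (hε : ∀ m, ε m ∈ Ioo (lo m) (hi m))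
    (hL : ∀ c, ∀ t ∈ L c, 0 < t ∧ t < 1) (j : JJ Φ L ⊕ Mo) :
    TrivF (ZMod 2) (SB Om Φ r₀ f L ℓ ε j) := by
  rcases j with j | m
  · exact trivF_sheet hR.hm (foam4 Φ hLa) (retF Φ hLa hR.pos hR.le_one) fr3 (hL _ _ j.2.2).1
      (hL _ _ j.2.2).2
  · exact (hB.bf m).sheet_trivF (hB.pt m) (hB.ρ1 m) hR.hm (hε m)

theorem stB_H1 (hLa : IsOpen La) (hR : InitR Φ T f g J0 ct' r₀)
    (hB : BData Φ T f V co ρ ℓ lo hi) (hε : ∀ m, ε m ∈ Ioo (lo m) (hi m))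
    (hL : ∀ c, ∀ t ∈ L c, 0 < t ∧ t < 1) (hGB : GFB Φ r₀ T f L ℓ ε) (j : JJ Φ L ⊕ Mo) :
    (stB hGB bp bm).H1 j :=
  gH1_main (hGB.H1 fr3 j (trivF_SB hLa hR hB hε hL j))

/-- the points of the barriers -/
theorem stB_bar (hB : BData Φ T f V co ρ ℓ lo hi) (hε : ∀ m, ε m ∈ Ioo (lo m) (hi m))
    (hGB : GFB Φ r₀ T f L ℓ ε) {w : E3} {m : Mo} (hw : w ∈ (stB hGB bp bm).P)
    (hl : (stB hGB bp bm).lab w = Sum.inr m) :
    w ∈ Om ∧ T.dim w = 1 ∧ ℓ m (f w) = ε m ∧ gau (co m).1 (Φ.B (co m)).lo (f w) ≤ ρ m ∧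
      w ∈ KJ T (V (co m)) ∧ ∀ i, w ∈ P (T.H i) → i ∈ V (co m) := by
  have h1 := (hGB.mem_pts_iff (w := w) (i := Sum.inr m)).1 ⟨hw.1, hl⟩
  have hS : w ∈ Om ∧ ℓ m (f w) = ε m := h1.1
  have h2 := (hGB.lev (Sum.inr m)).vert w h1.1
  have hlt : ℓ m (f w) < hi m := by rw [hS.2]; exact (hε m).2
  have h4 := (hB.bf m).sheet_sub (hB.tile m) hS.1 hlt
  exact ⟨hS.1, by have := h1.2; omega, hS.2, (hB.bf m).sub _ hlt, h4.1, h4.2⟩

/-- the points of the sheets are the points of the truthful state -/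
theorem stB_lev (hLa : IsOpen La) (hR : InitR Φ T f g J0 ct' r₀) (hb : BBase T f L ℓ ε bp bm)
    (hGB : GFB Φ r₀ T f L ℓ ε) {w : E3} {j : JJ Φ L} (hw : w ∈ (stB hGB bp bm).P)
    (hl : (stB hGB bp bm).lab w = Sum.inl j) :
    w ∈ (st0 hG bp).P ∧ (st0 hG bp).lab w = j := (ext_stB hLa hR hb hGB).of_lab hw hl

end st

end mach

end Crest.Agent.R096.Bgf_4
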