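import Crest.Agent.R096.Vb1_965

/-! Row 96, P1-TRIV (helper965), part 2: compact convex sets of any finite-dimensional space,
preimages under maps with convex fibres (the collapse `θ` of Theorem C), cones over a point. -/

set_option autoImplicit false

open Set Topology Filter

namespace Crest.Agent.R096.Vb_965

open Crest.Agent.R096.Coh_184

variable {ι A : Type*} [AddCommGroup A]

/-- compact convex sets in a finite-dimensional space -/
theorem trivAll_convex' [Finite ι] {V : Type*} [NormedAddCommGroup V] [NormedSpace ℝ V]
    [FiniteDimensional ℝ V] {S : Set V} (hS : IsCompact S) (hconv : Convex ℝ S) :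
    TrivAll ι A S := by
  let e : V ≃L[ℝ] (Fin (Module.finrank ℝ V) → ℝ) := ContinuousLinearEquiv.ofFinrankEq (by simp)
  have h1 : IsCompact (e '' S) := hS.image e.continuous
  have h2 : Convex ℝ (e '' S) := hconv.linear_image e.toLinearEquiv.toLinearMap
  have h3 : TrivAll ι A (e '' S) := trivAll_convex h1 h2
  have h4 := h3.of_image_compact (g := e.symm) h1 h1.isClosed e.symm.continuous.continuousOn
    e.symm.injective.injOn
  have h5 : e.symm '' (e '' S) = S := by
    rw [← image_comp]
    simp
  rwa [h5] at h4




end Crest.Agent.R096.Vb_965
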