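import Crest.Agent.R096.Vb9_965
import Crest.Agent.R096.Init2_543
import Crest.Agent.R096.Vb2_965
import Crest.Agent.R096.Etg2_163

-- ▼ part R096/Vb10_965
section

/-! Row 96, P1-TRIV (helper965), part 10: one threshold `e c` for every brick: reparametrisation of
the gauge (`ε = 1/2` afterwards), and the final statements for the foam of 961 with any gauge -/

set_option autoImplicit false
set_option linter.unusedSectionVars false
set_option linter.style.haveILetI false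

open Set Topology Filter

namespace Crest.Agent.R096.Vb_965

open Crest.Agent.R096.Coh_184 Crest.Agent.R096.Brk1_582 Crest.Agent.R096.Brk2_582
open Crest.Agent.R096.Bsp_628 Crest.Agent.R096.Brk3_582
open Crest.Agent.R96.Push_899 Crest.Agent.R096.SkC1_961

/-- piecewise linear homeomorphism of `[0,1]` with `φ e = 1/2` -/
noncomputable def phi (e m : ℝ) : ℝ := min (m / (2 * e)) (1 / 2) + max 0 (m - e) / (2 * (1 - e))

section phi

variable {e m : ℝ} (he : 0 < e) (he1 : e < 1)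
include he he1

theorem phi_le (h : m ≤ e) : phi e m = m / (2 * e) := by
  unfold phi
  rw [max_eq_left (by linarith), zero_div, add_zero]
  refine min_eq_left ?_
  rw [div_le_div_iff₀ (by linarith) (by norm_num)]; linarith

theorem phi_ge (h : e ≤ m) : phi e m = 1 / 2 + (m - e) / (2 * (1 - e)) := by
  unfold phi
  rw [max_eq_right (by linarith), min_eq_right]
  rw [div_le_div_iff₀ (by norm_num) (by linarith)]; linarith

theorem phi_zero : phi e 0 = 0 := by rw [phi_le he he1 he.le]; simp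

theorem phi_one : phi e 1 = 1 := by
  rw [phi_ge he he1 he1.le]
  have : (1 - e) ≠ 0 := by linarith
  field_simp; norm_num

theorem phi_lt {m' : ℝ} (h : m < m') : phi e m < phi e m' := by
  have h1 : 0 < 2 * e := by linarith
  have h2 : 0 < 2 * (1 - e) := by linarith
  rcases le_total m' e with h3 | h3
  · rw [phi_le he he1 h3, phi_le he he1 (h.le.trans h3)]
    exact div_lt_div_of_pos_right h h1
  · rcases le_total m e with h4 | h4
    · rw [phi_le he he1 h4, phi_ge he he1 h3]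
      have h5 : m / (2 * e) ≤ 1 / 2 := by
        rw [div_le_div_iff₀ h1 (by norm_num)]; linarith
      have h6 : 0 ≤ (m' - e) / (2 * (1 - e)) := div_nonneg (by linarith) h2.le
      rcases h4.lt_or_eq with h7 | h7
      · have : m / (2 * e) < 1 / 2 := by
          rw [div_lt_div_iff₀ h1 (by norm_num)]; linarith
        linarith
      · have : 0 < (m' - e) / (2 * (1 - e)) := div_pos (by linarith) h2
        linarith
    · rw [phi_ge he he1 h4, phi_ge he he1 h3]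
      have : (m - e) / (2 * (1 - e)) < (m' - e) / (2 * (1 - e)) :=
        div_lt_div_of_pos_right (by linarith) h2
      linarith

theorem phi_strictMono : StrictMono (phi e) := fun _ _ h => phi_lt he he1 h

omit he he1 in
theorem continuous_phi : Continuous (phi e) := by
  unfold phi
  exact ((continuous_id.div_const _).min continuous_const).add
    ((continuous_const.max (continuous_id.sub continuous_const)).div_const _)

theorem phi_half : phi e e = 1 / 2 := by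
  rw [phi_ge he he1 le_rfl]; simp

theorem phi_surj {t : ℝ} (ht : t ∈ Ioc (0 : ℝ) 1) : ∃ m ∈ Ioc (0 : ℝ) 1, phi e m = t := by
  have h1 : t ∈ phi e '' Icc 0 1 := by
    refine intermediate_value_Icc zero_le_one (continuous_phi (e := e)).continuousOn ?_
    rw [phi_zero he he1, phi_one he he1]
    exact ⟨ht.1.le, ht.2⟩
  obtain ⟨m, hm, rfl⟩ := h1
  refine ⟨m, ⟨lt_of_le_of_ne hm.1 ?_, hm.2⟩, rfl⟩
  intro h
  rw [← h, phi_zero he he1] at ht
  exact lt_irrefl _ ht.1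

theorem two_mul_phi : min 1 (phi e m / (1 / 2)) = min 1 (m / e) := by
  rcases le_total m e with h | h
  · rw [phi_le he he1 h]
    congr 1; field_simp
  · rw [min_eq_left, min_eq_left]
    · rw [le_div_iff₀ he]; linarith
    · rw [phi_ge he he1 h, le_div_iff₀ (by norm_num)]
      have : 0 ≤ (m - e) / (2 * (1 - e)) := div_nonneg (by linarith) (by linarith)
      linarith

end phi

section reparam

variable {E : Type*} [NormedAddCommGroup E] [NormedSpace ℝ E] [CompleteSpace E] {I : Type*}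
variable {La : Set E} {P : I → Set E} {b : Set I → E} {N : ℕ} {Ψ : E → E} {μ : E → ℝ}

open Classical in
/-- the reparametrised gauge: `1/2` where `μ = e c` -/
noncomputable def mue (P : I → Set E) (μ : E → ℝ) (e : I → ℝ) (y : E) : ℝ :=
  if h : ∃ c, y ∈ P c then phi (e h.choose) (μ y) else 1

variable (F : Foam La P b N) (hp : Push La P Ψ μ) {e : I → ℝ} (he : ∀ c, 0 < e c)
  (he1 : ∀ c, e c < 1)
include F hp he he1

theorem mue_eq {c : I} {y : E} (hy : y ∈ P c) : mue P μ e y = phi (e c) (μ y) := by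
  have h : ∃ c, y ∈ P c := ⟨c, hy⟩
  have e1 : mue P μ e y = phi (e h.choose) (μ y) := by unfold mue; rw [dif_pos h]
  rw [e1]
  by_cases hc : h.choose = c
  · rw [hc]
  · have h1 := (hp.wall c h.choose hc y hy h.choose_spec).1
    rw [h1, phi_one (he _) (he1 _), phi_one (he _) (he1 _)]

/-- **one threshold per cell**: the reparametrised gauge is again a push -/
theorem Push.reparam : Push La P Ψ (mue P μ e) := by
  have hpos : ∀ c, ∀ y ∈ P c, 0 < mue P μ e y ↔ 0 < μ y := by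
    intro c y hy
    rw [mue_eq F hp he he1 hy]
    have h := (phi_strictMono (he c) (he1 c)).lt_iff_lt (a := 0) (b := μ y)
    rwa [phi_zero (he c) (he1 c)] at h
  refine ⟨?_, ?_, ?_, ?_, ?_, ?_, ?_⟩
  · exact glue_cont F Subset.rfl (gc := fun c y => phi (e c) (μ y))
      (fun c y hy => mue_eq F hp he he1 hy) fun c =>
        continuous_phi.comp_continuousOn (hp.mu_cont.mono inter_subset_right)
  · intro y hy
    obtain ⟨c, hc⟩ := F.cov y hy
    rw [mue_eq F hp he he1 hc]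
    obtain ⟨h1, h2⟩ := hp.mu_mem y hy
    have hm := (phi_strictMono (he c) (he1 c)).monotone
    have h3 := hm h1
    have h4 := hm h2
    rw [phi_zero (he c) (he1 c)] at h3
    rw [phi_one (he c) (he1 c)] at h4
    exact ⟨h3, h4⟩
  · intro c c' hne y hy hy'
    obtain ⟨h1, h2⟩ := hp.wall c c' hne y hy hy'
    exact ⟨by rw [mue_eq F hp he he1 hy, h1, phi_one (he c) (he1 c)], h2⟩
  · refine hp.cont.mono ?_
    rintro y ⟨hy, hy2⟩
    obtain ⟨c, hc⟩ := F.cov y hy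
    exact ⟨hy, (hpos c y hc).1 hy2⟩
  · intro c y hy h0
    exact hp.mem c y hy ((hpos c y hy).1 h0)
  · intro c y hy z hz h0 hm hΨ
    rw [mue_eq F hp he he1 hy, mue_eq F hp he he1 hz] at hm
    exact hp.inj c y hy z hz ((hpos c y hy).1 h0)
      ((phi_strictMono (he c) (he1 c)).injective hm) hΨ
  · intro c c' hne p hpc hpc' t ht
    obtain ⟨m, hm, hmt⟩ := phi_surj (he c) (he1 c) ht
    obtain ⟨y, hy, h1, h2⟩ := hp.surj c c' hne p hpc hpc' m hm
    exact ⟨y, hy, h1, by rw [mue_eq F hp he he1 hy, h2, hmt]⟩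

theorem mue_half_le {c : I} {y : E} (hy : y ∈ P c) : 1 / 2 ≤ mue P μ e y ↔ e c ≤ μ y := by
  rw [mue_eq F hp he he1 hy, ← phi_half (he c) (he1 c)]
  exact (phi_strictMono (he c) (he1 c)).le_iff_le


end reparam

/-! ### final statements for `FoamD`, gauge `μ` with `ε = 1/2` -/

section final

variable {δ κ0 R c0 : ℝ} {La : Set E3} (Φ : FoamD δ κ0 R c0 La) (e : Φ.F → ℝ)

/-- the gauge with thresholds `e c` -/
noncomputable def muE : E3 → ℝ := mue (Pc Φ.F) (muD Φ) e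

/-- **the map `R` with the threshold `e c` in the brick `c`** -/
noncomputable def RE : E3 → E3 := RR (Pc Φ.F) (bc (F := Φ.F)) Φ.Psi (muE Φ e) (1 / 2)

/-- **the function of the family `c`** -/
noncomputable def vE (c : Φ.F) (y : E3) : ℝ := sc (Pc Φ.F) (bc (F := Φ.F)) (RE Φ e y) c

variable {e} (hLa : IsOpen La) (he : ∀ c, 0 < e c) (he1 : ∀ c, e c < 1)
include hLa he he1












end final

end Crest.Agent.R096.Vb_965
end

-- ▼ part R096/Etg3_163
section

/-! Row 96 (helper163), DOORS-ESS-TARGET, part 3: the target sets (g1)-(g4) of helper501, abstractly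
for pushes and for the foam `FoamD` of 961 (gauge `muD`, thresholds `e c`), and their pull-backs -/

set_option autoImplicit false
set_option linter.unusedSectionVars false
set_option linter.style.haveILetI false

open Set Topology Filter

namespace Crest.Agent.R096.Etg_163

open Crest.Agent.R096.Coh_184 Crest.Agent.R096.Brk1_582 Crest.Agent.R096.Brk2_582
open Crest.Agent.R096.Bsp_628 Crest.Agent.R096.Brk3_582 Crest.Agent.R096.Vb_965
open Crest.Agent.R096.Exc_965 Crest.Agent.R96.Push_899 Crest.Agent.R096.SkC1_961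

section push

variable {E : Type*} [NormedAddCommGroup E] [NormedSpace ℝ E] [CompleteSpace E] {I : Type*}
variable {La : Set E} {P : I → Set E} {b : Set I → E} {N : ℕ} {Ψ : E → E} {μ : E → ℝ} {ε : ℝ}
variable (F : Foam La P b N) (hp : Push La P Ψ μ) {c a : I} {t m m' : ℝ}
include F hp

/-- the part of the arc over a wall point between two gauges -/
theorem arc_between (hm : 0 < m) (hmm : m ≤ m') (hm' : m' ≤ 1) {q : E} {d : I} (hdc : d ≠ c)
    (hq : q ∈ P c) (hqd : q ∈ P d) :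
    IsPreconnected {y | y ∈ P c ∧ Ψ y = q ∧ m ≤ μ y ∧ μ y ≤ m'} ∧
      ({y | y ∈ P c ∧ Ψ y = q ∧ m ≤ μ y ∧ μ y ≤ m'}).Nonempty := by
  have h1 : {y | y ∈ P c ∧ Ψ y = q ∧ m ≤ μ y ∧ μ y ≤ m'} = arcF P Ψ μ m q c ∩ μ ⁻¹' Iic m' := by
    ext y
    exact ⟨fun h => ⟨⟨h.1, h.2.1, h.2.2.1⟩, h.2.2.2⟩, fun h => ⟨h.1.1, h.1.2.1, h.1.2.2, h.2⟩⟩
  have h0 := isCompact_arcF F hp hm q c
  have hμ : ContinuousOn μ (arcF P Ψ μ m q c) := hp.mu_cont.mono fun y hy => F.sub c hy.1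
  have hK : IsCompact {y | y ∈ P c ∧ Ψ y = q ∧ m ≤ μ y ∧ μ y ≤ m'} := by
    rw [h1]
    exact h0.of_isClosed_subset (hμ.preimage_isClosed_of_isClosed h0.isClosed isClosed_Iic)
      inter_subset_left
  refine ⟨(arc_of_injOn (A := ℤ) hK (hp.mu_cont.mono fun y hy => F.sub c hy.1) (a := m) (b := m')
    ?_ ?_).1, ?_⟩
  · intro y hy z hz h
    exact hp.inj c y hy.1 z hz.1 (hm.trans_le hy.2.2.1) h (hy.2.1.trans hz.2.1.symm)
  · ext s
    constructor
    · rintro ⟨y, hy, rfl⟩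
      exact hy.2.2
    · intro hs
      obtain ⟨y, hy, h2, h3⟩ := hp.surj c d hdc q hq hqd s ⟨hm.trans_le hs.1, hs.2.trans hm'⟩
      exact ⟨y, ⟨hy, h2, h3 ▸ hs.1, h3 ▸ hs.2⟩, h3⟩
  · obtain ⟨y, hy, h2, h3⟩ := hp.surj c d hdc q hq hqd m ⟨hm, hmm.trans hm'⟩
    exact ⟨y, hy, h2, h3.ge, h3 ▸ hmm⟩

/-- **(g3), abstract**: the shell over a part `D` of the boundary of the cell `c` -/
theorem preconn_shell (hm : 0 < m) (hmm : m ≤ m') (hm' : m' ≤ 1) {D : Set E}
    (hDs : ∀ q ∈ D, q ∈ P c ∧ ∃ d, d ≠ c ∧ q ∈ P d) (hDc : IsCompact D) (hD : IsPreconnected D) :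
    IsPreconnected {y | y ∈ P c ∧ Ψ y ∈ D ∧ m ≤ μ y ∧ μ y ≤ m'} ∧
      IsCompact {y | y ∈ P c ∧ Ψ y ∈ D ∧ m ≤ μ y ∧ μ y ≤ m'} ∧
      (D.Nonempty → ({y | y ∈ P c ∧ Ψ y ∈ D ∧ m ≤ μ y ∧ μ y ≤ m'}).Nonempty) := by
  set S := {y | y ∈ P c ∧ Ψ y ∈ D ∧ m ≤ μ y ∧ μ y ≤ m'} with hS
  have hμ : ContinuousOn μ (P c) := hp.mu_cont.mono (F.sub c)
  have h1 : IsCompact (P c ∩ μ ⁻¹' Icc m m') :=
    (F.cpt c).of_isClosed_subset (hμ.preimage_isClosed_of_isClosed (F.cpt c).isClosed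
      isClosed_Icc) inter_subset_left
  have h2 : ContinuousOn Ψ (P c ∩ μ ⁻¹' Icc m m') :=
    hp.cont.mono fun y hy => ⟨F.sub c hy.1, hm.trans_le hy.2.1⟩
  have h3 : S = (P c ∩ μ ⁻¹' Icc m m') ∩ Ψ ⁻¹' D := by
    ext y
    exact ⟨fun h => ⟨⟨h.1, h.2.2⟩, h.2.1⟩, fun h => ⟨h.1.1, h.2, h.1.2⟩⟩
  have hK : IsCompact S := by
    rw [h3]
    exact h1.of_isClosed_subset (h2.preimage_isClosed_of_isClosed h1.isClosed hDc.isClosed)
      inter_subset_left
  have hfib : ∀ q ∈ D, S ∩ Ψ ⁻¹' {q} = {y | y ∈ P c ∧ Ψ y = q ∧ m ≤ μ y ∧ μ y ≤ m'} := by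
    intro q hq
    ext y
    refine ⟨fun h => ⟨h.1.1, h.2, h.1.2.2⟩, fun h => ⟨⟨h.1, ?_, h.2.2⟩, h.2.1⟩⟩
    rw [h.2.1]; exact hq
  have himg : Ψ '' S = D := by
    ext q
    constructor
    · rintro ⟨y, hy, rfl⟩; exact hy.2.1
    · intro hq
      obtain ⟨hqc, d, hdc, hqd⟩ := hDs q hq
      obtain ⟨y, hy⟩ := (arc_between F hp hm hmm hm' hdc hqc hqd).2
      exact ⟨y, ⟨hy.1, by rw [hy.2.1]; exact hq, hy.2.2⟩, hy.2.1⟩
  refine ⟨preconn_of_fibres hK (h2.mono (by rw [h3]; exact inter_subset_left)) himg ?_ hD, hK, ?_⟩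
  · intro q hq
    obtain ⟨hqc, d, hdc, hqd⟩ := hDs q hq
    rw [hfib q hq]
    exact (arc_between F hp hm hmm hm' hdc hqc hqd).1
  · rintro ⟨q, hq⟩
    rw [← himg] at hq
    obtain ⟨y, hy, -⟩ := hq
    exact ⟨y, hy⟩

variable (hε : 0 < ε) (hε1 : ε ≤ 1)
include hε hε1

/-- a point over a wall point -/
theorem wall_inv {y q : E} {e e' : I} (hy : y ∈ La) (hyq : RR P b Ψ μ ε y = q) (hne : e' ≠ e)
    (he : q ∈ P e) (he' : q ∈ P e') : Ψ y = q ∧ ε ≤ μ y := by
  have h : y ∈ {y ∈ La | RR P b Ψ μ ε y = q} := ⟨hy, hyq⟩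
  rw [fibreR_wall F hp hε hε1 hne he he'] at h
  obtain ⟨d, -, -, hΨ, hm⟩ := mem_iUnion₂.1 h
  exact ⟨hΨ, hm⟩

/-- the open inner part `{μ < m}` of the cell `c` -/
theorem isOpen_inner (hm : m ≤ 1) : IsOpen {y | y ∈ P c ∧ μ y < m} := by
  rw [isOpen_iff_mem_nhds]
  rintro y ⟨hy, hym⟩
  have hyL := F.sub c hy
  have h1 : ∀ d, y ∈ P d → d = c := by
    intro d hd
    by_contra hne
    have := (hp.wall c d hne y hy hd).1
    linarith
  have h2 : ∀ᶠ z in 𝓝 y, μ z < m :=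
    (hp.mu_cont.continuousAt (F.op.mem_nhds hyL)).eventually_lt_const hym
  filter_upwards [only_cell_nhds F hyL h1, h2] with z h3 h4 using ⟨h3, h4⟩

/-- **(g1), abstract**: the part of the sheet over `D` outside `{μ < m}` of the cell `c` -/
theorem preconn_outer (hεm : ε ≤ m) (hm : m ≤ 1) {L D : Set E} (hL : IsCompact L) (hLL : L ⊆ La)
    (hD : D = {q | q ∈ L ∧ ∃ d, d ≠ c ∧ q ∈ P d})
    (hfull : ∀ q ∈ D, q ∉ P c → IsPreconnected {y ∈ La | RR P b Ψ μ ε y = q} ∧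
      ({y ∈ La | RR P b Ψ μ ε y = q}).Nonempty) (hDp : IsPreconnected D) :
    IsPreconnected {y | y ∈ La ∧ RR P b Ψ μ ε y ∈ L ∧ (y ∈ P c → m ≤ μ y)} ∧
      IsCompact {y | y ∈ La ∧ RR P b Ψ μ ε y ∈ L ∧ (y ∈ P c → m ≤ μ y)} ∧
      (D.Nonempty → {y | y ∈ La ∧ RR P b Ψ μ ε y ∈ L ∧ (y ∈ P c → m ≤ μ y)}.Nonempty) := by
  classical
  set S := {y | y ∈ La ∧ RR P b Ψ μ ε y ∈ L ∧ (y ∈ P c → m ≤ μ y)} with hS
  have h0 := isCompact_RR F hp hε hε1 hL hLL
  have h1 : S = {y ∈ La | RR P b Ψ μ ε y ∈ L} ∩ {y | y ∈ P c ∧ μ y < m}ᶜ := by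
    ext y
    constructor
    · rintro ⟨h2, h3, h4⟩
      refine ⟨⟨h2, h3⟩, fun h5 => ?_⟩
      exact absurd (h4 h5.1) (not_le.2 h5.2)
    · rintro ⟨⟨h2, h3⟩, h4⟩
      refine ⟨h2, h3, fun h5 => ?_⟩
      by_contra h6
      exact h4 ⟨h5, not_le.1 h6⟩
  have hK : IsCompact S := by
    rw [h1]
    exact h0.inter_right (isOpen_inner F hp hε hε1 hm).isClosed_compl
  have himg : RR P b Ψ μ ε '' S = D := by
    ext q
    constructor
    · rintro ⟨y, ⟨hy, hyL, hyc⟩, rfl⟩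
      rw [hD]
      refine ⟨hyL, ?_⟩
      obtain ⟨d, hd⟩ := F.cov y hy
      by_cases hdc : d = c
      · subst hdc
        have h2 := hyc hd
        have h3 : 0 < μ y := hε.trans_le (hεm.trans h2)
        obtain ⟨-, d', h4, h5⟩ := hp.mem d y hd h3
        refine ⟨d', h4, ?_⟩
        rw [RR_eq_Psi F hp hε hε1 hy (hεm.trans h2)]
        exact h5
      · exact ⟨d, hdc, RR_mem F hp hε hε1 hd⟩
    · intro hq
      have hq' := hq
      rw [hD] at hq'
      obtain ⟨hqL, d, hdc, hqd⟩ := hq'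
      by_cases hqc : q ∈ P c
      · refine ⟨q, ⟨F.sub c hqc, ?_, fun _ => ?_⟩, RR_wall F hp hε hε1 hdc hqc hqd⟩
        · rw [RR_wall F hp hε hε1 hdc hqc hqd]; exact hqL
        · rw [(hp.wall c d hdc q hqc hqd).1]; exact hm
      · obtain ⟨y, hy, hyq⟩ := (hfull q hq hqc).2
        refine ⟨y, ⟨hy, by rw [hyq]; exact hqL, fun hyc => ?_⟩, hyq⟩
        exact absurd (by rw [← hyq]; exact RR_mem F hp hε hε1 hyc) hqc
  refine ⟨preconn_of_fibres hK ((continuousOn_RR F hp hε hε1).mono fun y hy => hy.1) himg ?_ hDp,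
    hK, ?_⟩
  · intro q hq
    have hq' := hq
    rw [hD] at hq'
    obtain ⟨hqL, d, hdc, hqd⟩ := hq'
    by_cases hqc : q ∈ P c
    · -- a star of arcs with centre `q`
      have hqS : q ∈ S ∩ RR P b Ψ μ ε ⁻¹' {q} := by
        have h2 := RR_wall F hp hε hε1 hdc hqc hqd
        refine ⟨⟨F.sub c hqc, by rw [h2]; exact hqL, fun _ => ?_⟩, h2⟩
        rw [(hp.wall c d hdc q hqc hqd).1]; exact hm
      refine preconn_of_core (B := {q}) isPreconnected_singleton (singleton_subset_iff.2 hqS)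
        (singleton_nonempty q) ?_
      rintro y ⟨⟨hy, hyL, hyc⟩, hyq⟩
      have hyq' : RR P b Ψ μ ε y = q := hyq
      obtain ⟨hΨ, hεy⟩ := wall_inv F hp hε hε1 hy hyq' hdc hqc hqd
      obtain ⟨e1, he1⟩ := F.cov y hy
      have hqe1 : q ∈ P e1 := by rw [← hyq']; exact RR_mem F hp hε hε1 he1
      set m1 : ℝ := if e1 = c then m else ε with hm1
      have hm1ε : ε ≤ m1 := by
        rw [hm1]; split_ifs
        · exact hεm
        · exact le_rfl
      have hm10 : 0 < m1 := hε.trans_le hm1ε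
      have hm11 : m1 ≤ 1 := by
        rw [hm1]; split_ifs
        · exact hm
        · exact hε1
      obtain ⟨e', hne', hqe'⟩ : ∃ e', e' ≠ e1 ∧ q ∈ P e' := by
        by_cases h : c = e1
        · exact ⟨d, by rw [← h]; exact hdc, hqd⟩
        · exact ⟨c, h, hqc⟩
      refine ⟨arcF P Ψ μ m1 q e1, ?_, ⟨he1, hΨ, ?_⟩, ⟨q, ⟨hqe1, ?_, ?_⟩, rfl⟩,
        (arcF_spec (A := ℤ) F hp hm10 hne' hqe1 hqe').1⟩
      · rintro z ⟨hz1, hz2, hz3⟩
        have hzL := F.sub e1 hz1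
        have hRz : RR P b Ψ μ ε z = q := by
          rw [RR_eq_Psi F hp hε hε1 hzL (hm1ε.trans hz3), hz2]
        refine ⟨⟨hzL, by rw [hRz]; exact hqL, fun hzc => ?_⟩, hRz⟩
        by_cases h : e1 = c
        · rw [hm1, if_pos h] at hz3; exact hz3
        · rw [(hp.wall c e1 h z hzc hz1).1]; exact hm
      · by_cases h : e1 = c
        · rw [hm1, if_pos h]
          exact hyc (h ▸ he1)
        · rw [hm1, if_neg h]; exact hεy
      · exact (hp.wall e1 e' hne' q hqe1 hqe').2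
      · rw [(hp.wall e1 e' hne' q hqe1 hqe').1]; exact hm11
    · have h2 : S ∩ RR P b Ψ μ ε ⁻¹' {q} = {y ∈ La | RR P b Ψ μ ε y = q} := by
        ext y
        constructor
        · rintro ⟨⟨hy, -, -⟩, hyq⟩; exact ⟨hy, hyq⟩
        · rintro ⟨hy, hyq⟩
          refine ⟨⟨hy, by rw [hyq]; exact hqL, fun hyc => ?_⟩, hyq⟩
          exact absurd (by rw [← hyq]; exact RR_mem F hp hε hε1 hyc) hqc
      rw [h2]
      exact (hfull q hq hqc).1
  · rintro ⟨q, hq⟩
    rw [← himg] at hq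
    obtain ⟨y, hy, -⟩ := hq
    exact ⟨y, hy⟩


end push

end Crest.Agent.R096.Etg_163
end

-- ▼ part R096/Etg4_163

/-! Row 96 (helper163), DOORS-ESS-TARGET, part 4: the target sets (g1)-(g4) of helper501 for the
foam `FoamD` of 961 (gauge `muD`, thresholds `e c`), and their pull-backs to `Om` -/

set_option autoImplicit false
set_option linter.unusedSectionVars false
set_option linter.style.haveILetI false

open Set Topology Filter

namespace Crest.Agent.R096.Etg_163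

open Crest.Agent.R096.Coh_184 Crest.Agent.R096.Brk1_582 Crest.Agent.R096.Brk2_582
open Crest.Agent.R096.Bsp_628 Crest.Agent.R096.Brk3_582 Crest.Agent.R096.Vb_965
open Crest.Agent.R096.Exc_965 Crest.Agent.R96.Push_899 Crest.Agent.R096.SkC1_961

section final

variable {δ κ0 R c0 : ℝ} {La : Set E3} (Φ : FoamD δ κ0 R c0 La) {e : Φ.F → ℝ}
variable {a c : Φ.F} {t ρ ρ' : ℝ}

/-! ### (g4) -/

/-- **(g4), lower part** -/
theorem frontier_le (hLa : IsOpen La) (hac : a ≠ c) (hne : (a.1.set ∩ c.1.set).Nonempty)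
    (ht0 : 0 ≤ t) (ht1 : t < 1) :
    IsPreconnected {q | q ∈ frontier c.1.set ∧ sc (Pc Φ.F) (bc (F := Φ.F)) q a ≤ t} ∧
      IsCompact {q | q ∈ frontier c.1.set ∧ sc (Pc Φ.F) (bc (F := Φ.F)) q a ≤ t} ∧
      {q | q ∈ frontier c.1.set ∧ sc (Pc Φ.F) (bc (F := Φ.F)) q a ≤ t}.Nonempty := by
  have F := Brk3_582.foam Φ.bf hLa
  have h1 : {q | q ∈ frontier c.1.set ∧ sc (Pc Φ.F) (bc (F := Φ.F)) q a ≤ t} =
      Dle (Pc Φ.F) (bc (F := Φ.F)) c a t := by
    have h2 : frontier c.1.set = {q | q ∈ Pc Φ.F c ∧ ∃ d, d ≠ c ∧ q ∈ Pc Φ.F d} :=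
      frontier_eq F c
    rw [h2]
    ext q
    exact ⟨fun h => ⟨h.1.1, h.1.2, h.2⟩, fun h => ⟨⟨h.1, h.2.1⟩, h.2.2⟩⟩
  rw [h1]
  have h3 := preconn_Dle F (a := a) (c := c) hac hne ht0 ht1
  exact ⟨h3.1, isCompact_Dle F, h3.2⟩

/-- **(g4), upper part** -/
theorem frontier_ge (hLa : IsOpen La) (hac : a ≠ c) (hne : (a.1.set ∩ c.1.set).Nonempty)
    (ht0 : 0 < t) (ht1 : t < 1) :
    IsPreconnected {q | q ∈ frontier c.1.set ∧ t ≤ sc (Pc Φ.F) (bc (F := Φ.F)) q a} ∧
      IsCompact {q | q ∈ frontier c.1.set ∧ t ≤ sc (Pc Φ.F) (bc (F := Φ.F)) q a} ∧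
      {q | q ∈ frontier c.1.set ∧ t ≤ sc (Pc Φ.F) (bc (F := Φ.F)) q a}.Nonempty := by
  have F := Brk3_582.foam Φ.bf hLa
  have h1 : {q | q ∈ frontier c.1.set ∧ t ≤ sc (Pc Φ.F) (bc (F := Φ.F)) q a} =
      Dge (Pc Φ.F) (bc (F := Φ.F)) c a t := by
    have h2 : frontier c.1.set = {q | q ∈ Pc Φ.F c ∧ ∃ d, d ≠ c ∧ q ∈ Pc Φ.F d} :=
      frontier_eq F c
    rw [h2]
    ext q
    exact ⟨fun h => ⟨h.1.1, h.1.2, h.2⟩, fun h => ⟨⟨h.1, h.2.1⟩, h.2.2⟩⟩
  rw [h1]
  have h3 := preconn_Dge Φ.bf hLa (a := a) (c := c) hac hne ht0 ht1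
  exact ⟨h3.1, isCompact_Dge F, h3.2⟩

/-! ### (g3) -/



/-! ### (g1), (g2) -/

variable (hLa : IsOpen La) (he : ∀ c, 0 < e c) (he1 : ∀ c, e c < 1)
include hLa he he1






/-! ### pull-backs to `Om` -/

variable {f : E3 → E3} {Om : Set E3}






end final

end Crest.Agent.R096.Etg_163
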