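import Crest.Agent.R096.Exa8_560

-- ▼ part R096/Exa9_560
section

/-!
# R096 (row 96), DOORS / EXA part 9 (helper560): the input `TIn` of the towers

Generic in the families: `N k` = the families with levels on the core `k`, `u k a` = their functions
on the frontier (affine on the 2-cells), `(A k a, B k a)` = the room for the exact levels, above the
pattern of the outer state.

* `exists_levs'` : generic increasing levels, one interval for every family.
* `Gag`, `EssIn` : geometric input, input from ESS.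
* `exists_tin`   : exact levels `L k a` and `TIn S s (exa (L k a))`.
-/

set_option autoImplicit false
set_option linter.unusedSectionVars false
set_option linter.style.longLine false

open Set Metric Module
open scoped Classical

namespace Crest.Agent.R096.Exa_560

open Crest.Agent.R096.Msh_715 Crest.Agent.R096.Agl5_543 Crest.Agent.R096.St_147
  Crest.Agent.R096.Lac_441 Crest.Agent.R096.Twr_438 Crest.Agent.R096.Door_501
  Crest.Agent.R096.Seq_213

variable {E : Type} [NormedAddCommGroup E] [NormedSpace ℝ E] [FiniteDimensional ℝ E]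
variable {Om : Set E} {ι : Type} {T : Tiling Om ι} {Sg : Set E} {J C : Type}


variable {κ : Type} {Kc : κ → Set E}

/-- **geometric input**: functions `u k a` on the frontiers of the cores, room `(A, B)` for levels -/
structure Gag (T : Tiling Om ι) (Kc : κ → Set E) (N : κ → Set C) (u : κ → C → E → ℝ)
    (A B : κ → C → ℝ) (v0 v1 : ∀ k, C → VxK T Kc k) : Prop where
  aff : ∀ k a, ∀ F : C2 T, F.set ⊆ frontier (Kc k) → ∃ g : E →ᵃ[ℝ] ℝ, EqOn (u k a) g F.set
  lt : ∀ k a, A k a < B k a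
  lev : ∀ k, ∀ a ∈ N k, ∀ t, A k a < t → t < B k a →
    IsPreconnected {x | x ∈ frontier (Kc k) ∧ u k a x = t} ∧
    {x | x ∈ frontier (Kc k) ∧ u k a x = t}.Nonempty
  lo : ∀ k, ∀ a ∈ N k, u k a (v0 k a).1 ≤ A k a
  hi : ∀ k, ∀ a ∈ N k, B k a ≤ u k a (v1 k a).1
  finN : ∀ k, (N k).Finite
  finC : ∀ a, {k | a ∈ N k}.Finite

variable {h3 : finrank ℝ E = 3} {hH : ∀ c, CoreH T (Kc c)}
  {hdis : ∀ c c', c ≠ c' → Disjoint (Kc c) (Kc c')} {fam : J → C}

/-- the mesh with the giants `Kc` (same arguments as `shellH`) -/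
noncomputable abbrev meshH (h3 : finrank ℝ E = 3) (hH : ∀ c, CoreH T (Kc c))
    (hdis : ∀ c c', c ≠ c' → Disjoint (Kc c) (Kc c')) :=
  meshK T h3 Kc (fun c => (hH c).core) (fun c => (hH c).cc) hdis

/-- **input from ESS**: one essential curve for every name, all curves below the room -/
structure EssIn (s : GSt (meshH h3 hH hdis) fam) (N : κ → Set C) (u : κ → C → E → ℝ)
    (A : κ → C → ℝ) (v0 v1 : ∀ k, C → VxK T Kc k) : Prop where
  far : ∀ k, ∀ a ∉ N k, (trace (shellH h3 hH hdis k) s a).P = ∅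
  conn : ∀ k, ∀ a ∈ N k,
    ∀ w ∈ (essSt (shellH h3 hH hdis k) (v0 k a) (v1 k a) (trace (shellH h3 hH hdis k) s a)).P,
    ∀ w' ∈ (essSt (shellH h3 hH hdis k) (v0 k a) (v1 k a) (trace (shellH h3 hH hdis k) s a)).P,
    s.lab w' = s.lab w → w' ∈ comp true
      (essSt (shellH h3 hH hdis k) (v0 k a) (v1 k a) (trace (shellH h3 hH hdis k) s a)) w
  ex : ∀ k, ∀ a ∈ N k, ∀ j, fam j = a → ∃ w ∈
    (essSt (shellH h3 hH hdis k) (v0 k a) (v1 k a) (trace (shellH h3 hH hdis k) s a)).P, s.lab w = j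
  low : ∀ k, ∀ a ∈ N k, ∀ w ∈ (trace (shellH h3 hH hdis k) s a).P, u k a w ≤ A k a
  on : ∀ w ∈ s.P, ∃ F, w ∈ (meshH h3 hH hdis).On F
  fin : ∀ a, {j | fam j = a}.Finite


variable [Nonempty J] [∀ k, Fintype (EdK T Kc k)]


end Crest.Agent.R096.Exa_560
end

-- ▼ part R096/Exa10_560

/-!
# R096 (row 96), DOORS / EXA part 10 (helper560): the tiny cores satisfy `Gag`

* `nbr c`      : the neighbours of the brick `c`.
* `tiny_pt`    : at a point of the frontier where `lev a ∘ f` is in the margins, `a` is a neighbour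
                 and `s_a ∘ θ` is below the room of the exact levels.
* `tiny_gag`   : `Gag` for all tiny cores, families = neighbours, room `(1 - μ + Cn κ1, 1 - μ/2)`.
* `tiny_essIn` : `EssIn` from truthfulness on the frontiers and ESS (`conn`, `ex`).
* `exists_tin_tiny` : both together with `exists_tin`.
-/

set_option autoImplicit false
set_option linter.unusedSectionVars false
set_option linter.style.longLine false

open Set Metric Module
open scoped Classical

namespace Crest.Agent.R096.Exa_560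

open Crest.Agent.R096.Msh_715 Crest.Agent.R096.Agl5_543 Crest.Agent.R096.St_147
open Crest.Agent.R096.Twr_438 Crest.Agent.R096.Door_501 Crest.Agent.R096.Seq_213
open Crest.Agent.R096.Brk1_582 Crest.Agent.R096.Brk3_582 Crest.Agent.R096.Brk5_582
open Crest.Agent.R096.Bsp_628
open Crest.Agent.R096.Mbf_337 (sb KJ Tiny gau)
open Crest.Agent.R096.SkC1_961 (E3 FoamD)
open Crest.Agent.R096.Ce_537 (PLEquiv IsBall)

variable {δ κ0 R c0 : ℝ} {La Om : Set E3} {ι : Type} {Φ : FoamD δ κ0 R c0 La} {T : Tiling Om ι}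
  {f : E3 → E3} {κ1 μ : ℝ}

/-- the neighbours of the brick `c` -/
def nbr (Φ : FoamD δ κ0 R c0 La) (c : Φ.F) : Set Φ.F :=
  {a | a ≠ c ∧ (Pc Φ.F c ∩ Pc Φ.F a).Nonempty}

theorem nbr_fin (hLa : IsOpen La) (c : Φ.F) : (nbr Φ c).Finite :=
  (finite_nbr hLa c).subset fun _ ha => ha.2

theorem nbr_fin' (hLa : IsOpen La) {κ : Type} {cf : κ → Φ.F} (hcf : Function.Injective cf)
    (a : Φ.F) : {k | a ∈ nbr Φ (cf k)}.Finite := by
  refine Set.Finite.of_finite_image (f := cf) ((finite_nbr hLa a).subset ?_) hcf.injOn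
  rintro _ ⟨k, hk, rfl⟩
  obtain ⟨q, h1, h2⟩ := hk.2
  exact ⟨q, h2, h1⟩

section one

variable {c : Φ.F} {J0 J V : Set ι} {θ : E3 → E3} {φ : E3 → ℝ}

theorem tiny_c (hLa : IsOpen La) (H : Tiny Φ T f κ1 c J0 J V θ φ) {x : E3}
    (hx : x ∈ frontier (KJ T J)) : sb Φ (θ x) c = 0 := by
  have FF := foam Φ.bf hLa
  have hq := th_mem' H hx
  exact (FF.sc_eq_zero (FF.sub c hq)).2 hq

/-- **truthful points** -/
theorem tiny_pt (hLa : IsOpen La) (hδ : 0 < δ) (hR : 0 < R) (hκ : Cn δ R * κ1 < 1)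
    (hμ : Cn δ R * κ1 < μ) (H : Tiny Φ T f κ1 c J0 J V θ φ) {x : E3}
    (hx : x ∈ frontier (KJ T J)) {a : Φ.F} (h0 : μ ≤ Φ.lev a (f x))
    (h1 : Φ.lev a (f x) ≤ 1 - μ) :
    a ∈ nbr Φ c ∧ sb Φ (θ x) a ≤ 1 - μ + Cn δ R * κ1 ∧ μ - Cn δ R * κ1 ≤ sb Φ (θ x) a := by
  have hn := abs_le.1 (tiny_near hLa hδ hR hκ H hx a)
  refine ⟨⟨?_, ?_⟩, by linarith [hn.2], by linarith [hn.1]⟩
  · rintro rfl
    rw [tiny_c hLa H hx] at hn
    linarith [hn.1]
  · by_contra hne
    rw [tiny_far hLa H hne hx] at hn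
    linarith [hn.2]

/-- a vertex on the frontier -/
theorem tiny_vx (hLa : IsOpen La) (hδ : 0 < δ) (hR : 0 < R) (hκ : Cn δ R * κ1 < 1)
    (H : Tiny Φ T f κ1 c J0 J V θ φ) : ∃ v ∈ frontier (KJ T J), T.dim v = 0 := by
  have hne : (frontier c.1.set).Nonempty := by
    rw [Set.nonempty_iff_ne_empty]
    intro h
    have h1 : IsClopen c.1.set := isClopen_iff_frontier_eq_empty.2 h
    have hpos : ∀ k, c.1.lo k < c.1.hi k := Φ.bf.pos _ c.2
    have hmem : c.1.lo ∈ c.1.set := ⟨le_rfl, fun k => (hpos k).le⟩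
    rcases isClopen_iff.1 h1 with h2 | h2
    · rw [h2] at hmem; exact hmem
    · have h3 : (fun k => c.1.lo k - 1) ∈ c.1.set := by rw [h2]; trivial
      have := h3.1 0
      simp only at this
      linarith
  obtain ⟨q, hq⟩ := hne
  obtain ⟨v, hv, hv0, _⟩ := tiny_vertex hLa hδ hR hκ H hq c
  exact ⟨v, hv, hv0⟩

end one

section inst

variable {κ : Type} {cf : κ → Φ.F} {J0 J V : κ → Set ι} {θ : κ → E3 → E3} {φ : κ → E3 → ℝ}


variable {h3 : finrank ℝ E3 = 3} {hH : ∀ k, CoreH T (KJ T (J k))}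
  {hdis : ∀ c c', c ≠ c' → Disjoint (KJ T (J c)) (KJ T (J c'))}


variable {JJ : Type} {fam : JJ → Φ.F} {t : JJ → ℝ}


end inst

end Crest.Agent.R096.Exa_560
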