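import Crest.Agent.R096.Bsp4_628
import Crest.Agent.R096.Brk2_582

-- ▼ part R096/Brk3_582
section

/-!
# Row 96, U1: box foams (628) are foams in the sense of `Brk1_582.Foam`
-/

set_option autoImplicit false
set_option linter.unusedSectionVars false
set_option linter.style.haveILetI false
open Set Filter Topology

namespace Crest.Agent.R096.Brk3_582

open Crest.Agent.R096.Brk1_582 Crest.Agent.R096.Brk2_582 Crest.Agent.R096.Bsp_628

variable {κ : Type*} [Fintype κ] [Nonempty κ] {La : Set (κ → ℝ)} {F : Set (Bx κ)} {δ κ0 : ℝ}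

/-- the cells -/
def Pc (F : Set (Bx κ)) : F → Set (κ → ℝ) := fun c => c.1.set

/-- lower / upper corner of the face of `A` -/
noncomputable def loA (A : Set F) (k : κ) : ℝ := sSup ((fun c : F => c.1.lo k) '' A)
noncomputable def hiA (A : Set F) (k : κ) : ℝ := sInf ((fun c : F => c.1.hi k) '' A)

/-- the centre of the face of `A` -/
noncomputable def bc (A : Set F) : κ → ℝ := fun k => (loA A k + hiA A k) / 2

theorem exists_loA {A : Set F} (hA : A.Finite) (hne : A.Nonempty) (k : κ) :
    (∃ c ∈ A, c.1.lo k = loA A k) ∧ ∀ c ∈ A, c.1.lo k ≤ loA A k := by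
  have hf : ((fun c : F => c.1.lo k) '' A).Finite := hA.image _
  refine ⟨?_, fun c hc => le_csSup hf.bddAbove ⟨c, hc, rfl⟩⟩
  obtain ⟨c, hc, h⟩ := (hne.image _).csSup_mem hf
  exact ⟨c, hc, h⟩

theorem exists_hiA {A : Set F} (hA : A.Finite) (hne : A.Nonempty) (k : κ) :
    (∃ c ∈ A, c.1.hi k = hiA A k) ∧ ∀ c ∈ A, hiA A k ≤ c.1.hi k := by
  have hf : ((fun c : F => c.1.hi k) '' A).Finite := hA.image _
  refine ⟨?_, fun c hc => csInf_le hf.bddBelow ⟨c, hc, rfl⟩⟩
  obtain ⟨c, hc, h⟩ := (hne.image _).csInf_mem hf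
  exact ⟨c, hc, h⟩

theorem mem_fc_iff {A : Set F} (hA : A.Finite) (hne : A.Nonempty) {x : κ → ℝ} :
    x ∈ fc (Pc F) A ↔ ∀ k, loA A k ≤ x k ∧ x k ≤ hiA A k := by
  rw [mem_fc]
  constructor
  · intro h k
    obtain ⟨c, hc, h1⟩ := (exists_loA hA hne k).1
    obtain ⟨c', hc', h2⟩ := (exists_hiA hA hne k).1
    rw [← h1, ← h2]
    exact ⟨(Bx.mem_set.1 (h c hc) k).1, (Bx.mem_set.1 (h c' hc') k).2⟩
  · intro h c hc
    refine Bx.mem_set.2 fun k => ?_
    exact ⟨((exists_loA hA hne k).2 c hc).trans (h k).1, (h k).2.trans ((exists_hiA hA hne k).2 c hc)⟩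

/-- the finset of boxes of a finite set of cells -/
noncomputable def bxs {A : Set F} (hA : A.Finite) : Finset (Bx κ) :=
  by classical exact hA.toFinset.image Subtype.val

theorem mem_bxs {A : Set F} (hA : A.Finite) {B : Bx κ} :
    B ∈ bxs hA ↔ ∃ c ∈ A, c.1 = B := by
  classical
  simp [bxs]

theorem card_bxs {A : Set F} (hA : A.Finite) : (bxs hA).card = A.ncard := by
  classical
  rw [bxs, Finset.card_image_of_injective _ Subtype.val_injective, ncard_eq_toFinset_card A hA]

theorem bxs_sub {A : Set F} (hA : A.Finite) : (↑(bxs hA) : Set (Bx κ)) ⊆ F := by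
  intro B hB
  obtain ⟨c, -, rfl⟩ := (mem_bxs hA).1 hB
  exact c.2

theorem bxs_nonempty {A : Set F} (hA : A.Finite) (hne : A.Nonempty) : (bxs hA).Nonempty := by
  obtain ⟨c, hc⟩ := hne
  exact ⟨c.1, (mem_bxs hA).2 ⟨c, hc, rfl⟩⟩

theorem bxs_meet {A : Set F} (hA : A.Finite) {x : κ → ℝ} (hx : x ∈ fc (Pc F) A) :
    Meet (bxs hA) := by
  intro B hB C hC k
  obtain ⟨c, hc, rfl⟩ := (mem_bxs hA).1 hB
  obtain ⟨c', hc', rfl⟩ := (mem_bxs hA).1 hC
  exact (Bx.mem_set.1 (mem_fc.1 hx c hc) k).1.trans (Bx.mem_set.1 (mem_fc.1 hx c' hc') k).2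

theorem deg_iff {A : Set F} (hA : A.Finite) (hne : A.Nonempty) {x : κ → ℝ}
    (hx : x ∈ fc (Pc F) A) (k : κ) : Deg (bxs hA) k ↔ loA A k = hiA A k := by
  have hle := (mem_fc_iff hA hne).1 hx k
  constructor
  · rintro ⟨B, hB, C, hC, h⟩
    obtain ⟨c, hc, rfl⟩ := (mem_bxs hA).1 hB
    obtain ⟨c', hc', rfl⟩ := (mem_bxs hA).1 hC
    have h1 := (exists_loA hA hne k).2 c hc
    have h2 := (exists_hiA hA hne k).2 c' hc'
    linarith
  · intro h
    obtain ⟨c, hc, h1⟩ := (exists_loA hA hne k).1
    obtain ⟨c', hc', h2⟩ := (exists_hiA hA hne k).1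
    exact ⟨c.1, (mem_bxs hA).2 ⟨c, hc, rfl⟩, c'.1, (mem_bxs hA).2 ⟨c', hc', rfl⟩, by
      rw [h1, h2, h]⟩

section foam

variable (BF : BoxFoam La F δ κ0)

include BF

/-- the number of degenerate directions of a face -/
theorem deg_count {A : Set F} (hA : A.Finite) (hne : A.Nonempty)
    (hx : (fc (Pc F) A).Nonempty) : {k | loA A k = hiA A k}.ncard + 1 = A.ncard := by
  obtain ⟨x, hx⟩ := hx
  have h := (BF.inv (bxs hA) (bxs_sub hA) (bxs_nonempty hA hne) (bxs_meet hA hx)).1
  rw [card_bxs] at h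
  rw [← h]
  congr 2
  ext k
  exact (deg_iff hA hne hx k).symm

/-- the non-degenerate directions of a face are at least `δ *` the size of one of its cells -/
theorem width_ge {A : Set F} (hA : A.Finite) (hne : A.Nonempty)
    (hx : (fc (Pc F) A).Nonempty) {k : κ} (hk : loA A k ≠ hiA A k) :
    ∃ D ∈ A, loA A k + δ * D.1.sz ≤ hiA A k := by
  obtain ⟨x, hx⟩ := hx
  obtain ⟨D, hD, h⟩ :=
    (BF.inv (bxs hA) (bxs_sub hA) (bxs_nonempty hA hne) (bxs_meet hA hx)).2 k
      (fun h => hk ((deg_iff hA hne hx k).1 h))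
  obtain ⟨d, hd, rfl⟩ := (mem_bxs hA).1 hD
  obtain ⟨c, hc, h1⟩ := (exists_loA hA hne k).1
  obtain ⟨c', hc', h2⟩ := (exists_hiA hA hne k).1
  refine ⟨d, hd, ?_⟩
  rw [← h1, ← h2]
  exact h _ ((mem_bxs hA).2 ⟨c, hc, rfl⟩) _ ((mem_bxs hA).2 ⟨c', hc', rfl⟩)

/-- some box contains `y` and points of the ray in direction `w` -/
theorem cover_dir (hLa : IsOpen La) {y : κ → ℝ} (hy : y ∈ La) (w : κ → ℝ) :
    ∃ c : F, y ∈ Pc F c ∧ ∃ ε : ℝ, 0 < ε ∧ y + ε • w ∈ Pc F c := by
  obtain ⟨r, hr, hfin⟩ := BF.lf y hy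
  have hlim : Tendsto (fun ε : ℝ => y + ε • w) (𝓝[>] 0) (𝓝 y) := by
    have : Continuous (fun ε : ℝ => y + ε • w) := by fun_prop
    have h := this.tendsto 0
    simp only [zero_smul, add_zero] at h
    exact h.mono_left nhdsWithin_le_nhds
  have hev : ∀ᶠ ε : ℝ in 𝓝[>] 0, y + ε • w ∈ La ∩ Metric.ball y r :=
    hlim.eventually (inter_mem (hLa.mem_nhds hy) (Metric.ball_mem_nhds y hr))
  -- some box is hit frequently
  have hfr : ∃ C ∈ {C | C ∈ F ∧ (C.set ∩ Metric.ball y r).Nonempty},
      ∃ᶠ ε : ℝ in 𝓝[>] 0, y + ε • w ∈ C.set := by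
    by_contra hcon
    push Not at hcon
    have h2 : ∀ᶠ ε : ℝ in 𝓝[>] 0, ∀ C ∈ {C | C ∈ F ∧ (C.set ∩ Metric.ball y r).Nonempty},
        ¬ (y + ε • w ∈ C.set) := by
      rw [eventually_all_finite hfin]
      intro C hC
      exact hcon C hC
    obtain ⟨ε, h3, h4⟩ := (hev.and h2).exists
    obtain ⟨C, hC, hC'⟩ := BF.cov _ h3.1
    exact h4 C ⟨hC, _, hC', h3.2⟩ hC'
  obtain ⟨C, hC, hfr⟩ := hfr
  refine ⟨⟨C, hC.1⟩, ?_, ?_⟩
  · have hcl : IsClosed C.set := isClosed_Icc
    by_contra hn
    have : ∀ᶠ ε : ℝ in 𝓝[>] 0, y + ε • w ∈ C.setᶜ :=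
      hlim.eventually (hcl.isOpen_compl.mem_nhds hn)
    exact hfr (this.mono fun ε h h' => h h')
  · obtain ⟨ε, h1, h2⟩ := (hfr.and_eventually self_mem_nhdsWithin).exists
    exact ⟨ε, h2, h1⟩

omit BF in
/-- two boxes with a common point in exactly one opposite direction -/
theorem opp_of_pair (BF : BoxFoam La F δ κ0) {c c' : F} (hne : c ≠ c') {y : κ → ℝ}
    (h : y ∈ Pc F c) (h' : y ∈ Pc F c') :
    ∃ k, (c'.1.lo k = y k ∧ c.1.hi k = y k) ∨ (c.1.lo k = y k ∧ c'.1.hi k = y k) := by
  have hA : ({c, c'} : Set F).Finite := by simp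
  have hAne : ({c, c'} : Set F).Nonempty := ⟨c, by simp⟩
  have hy : y ∈ fc (Pc F) ({c, c'} : Set F) := by
    rw [mem_fc]; rintro x (rfl | rfl) <;> assumption
  have h1 := deg_count BF hA hAne ⟨y, hy⟩
  rw [ncard_pair hne] at h1
  have h2 : {k | loA ({c, c'} : Set F) k = hiA ({c, c'} : Set F) k}.Nonempty := by
    by_contra h3
    rw [not_nonempty_iff_eq_empty] at h3
    rw [h3, ncard_empty] at h1
    omega
  obtain ⟨k, hk⟩ := h2
  refine ⟨k, ?_⟩
  have h3 := (mem_fc_iff hA hAne).1 hy k
  have hk' : loA ({c, c'} : Set F) k = hiA ({c, c'} : Set F) k := hk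
  obtain ⟨a, ha, ha'⟩ := (exists_loA hA hAne k).1
  obtain ⟨a2, ha2, ha2'⟩ := (exists_hiA hA hAne k).1
  have e1 : a.1.lo k = y k := by linarith
  have e2 : a2.1.hi k = y k := by linarith
  rcases ha with rfl | ha
  · rcases ha2 with rfl | ha2
    · exact absurd (BF.pos _ a2.2 k) (by rw [e1, e2]; exact lt_irrefl _)
    · rw [mem_singleton_iff] at ha2; subst ha2
      exact Or.inr ⟨e1, e2⟩
  · rw [mem_singleton_iff] at ha; subst ha
    rcases ha2 with rfl | ha2
    · exact Or.inl ⟨e1, e2⟩
    · rw [mem_singleton_iff] at ha2; subst ha2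
      exact absurd (BF.pos _ a2.2 k) (by rw [e1, e2]; exact lt_irrefl _)

/-- at a point of the relative boundary (upper side) of its face a new cell appears -/
theorem lt_hiA (hLa : IsOpen La) {y : κ → ℝ} (hy : y ∈ La) {k : κ}
    (hk : loA (act (Pc F) y) k ≠ hiA (act (Pc F) y) k)
    (hfin : (act (Pc F) y).Finite) (hne : (act (Pc F) y).Nonempty) :
    y k < hiA (act (Pc F) y) k := by
  have hyA := (mem_fc_iff hfin hne).1 (self_mem_fc_act (P := Pc F) (y := y)) k
  refine lt_of_le_of_ne hyA.2 fun heq => ?_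
  obtain ⟨c, hc, hck⟩ := (exists_hiA hfin hne k).1
  classical
  let w : κ → ℝ := fun j => if j = k then 1 else (c.1.lo j + c.1.hi j) / 2 - y j
  obtain ⟨c', hc', ε, hε, hcε⟩ := cover_dir BF hLa hy w
  have hcc : c ≠ c' := by
    rintro rfl
    have h1 := (Bx.mem_set.1 hcε k).2
    simp only [w, Pi.add_apply, Pi.smul_apply, if_true, smul_eq_mul, mul_one] at h1
    linarith
  have hc'A : c' ∈ act (Pc F) y := hc'
  obtain ⟨j, hj⟩ := opp_of_pair BF hcc hc hc'
  have hcpos := BF.pos _ c.2 j
  rcases hj with ⟨h1, h2⟩ | ⟨h1, h2⟩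
  · by_cases hjk : j = k
    · subst hjk
      have h3 := (exists_loA hfin hne j).2 c' hc'A
      exact hk (le_antisymm (hyA.1.trans hyA.2) (by linarith))
    · have h4 := (Bx.mem_set.1 hcε j).1
      simp only [w, Pi.add_apply, Pi.smul_apply, if_neg hjk, smul_eq_mul] at h4
      nlinarith
  · by_cases hjk : j = k
    · subst hjk
      linarith
    · have h4 := (Bx.mem_set.1 hcε j).2
      simp only [w, Pi.add_apply, Pi.smul_apply, if_neg hjk, smul_eq_mul] at h4
      nlinarith

/-- at a point of the relative boundary (lower side) of its face a new cell appears -/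
theorem loA_lt (hLa : IsOpen La) {y : κ → ℝ} (hy : y ∈ La) {k : κ}
    (hk : loA (act (Pc F) y) k ≠ hiA (act (Pc F) y) k)
    (hfin : (act (Pc F) y).Finite) (hne : (act (Pc F) y).Nonempty) :
    loA (act (Pc F) y) k < y k := by
  have hyA := (mem_fc_iff hfin hne).1 (self_mem_fc_act (P := Pc F) (y := y)) k
  refine lt_of_le_of_ne hyA.1 fun heq => ?_
  obtain ⟨c, hc, hck⟩ := (exists_loA hfin hne k).1
  classical
  let w : κ → ℝ := fun j => if j = k then -1 else (c.1.lo j + c.1.hi j) / 2 - y j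
  obtain ⟨c', hc', ε, hε, hcε⟩ := cover_dir BF hLa hy w
  have hcc : c ≠ c' := by
    rintro rfl
    have h1 := (Bx.mem_set.1 hcε k).1
    simp only [w, Pi.add_apply, Pi.smul_apply, if_true, smul_eq_mul, mul_neg, mul_one] at h1
    linarith
  have hc'A : c' ∈ act (Pc F) y := hc'
  obtain ⟨j, hj⟩ := opp_of_pair BF hcc hc hc'
  have hcpos := BF.pos _ c.2 j
  rcases hj with ⟨h1, h2⟩ | ⟨h1, h2⟩
  · by_cases hjk : j = k
    · subst hjk
      linarith
    · have h4 := (Bx.mem_set.1 hcε j).1
      simp only [w, Pi.add_apply, Pi.smul_apply, if_neg hjk, smul_eq_mul] at h4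
      nlinarith
  · by_cases hjk : j = k
    · subst hjk
      have h3 := (exists_hiA hfin hne j).2 c' hc'A
      exact hk (le_antisymm (hyA.1.trans hyA.2) (by linarith))
    · have h4 := (Bx.mem_set.1 hcε j).2
      simp only [w, Pi.add_apply, Pi.smul_apply, if_neg hjk, smul_eq_mul] at h4
      nlinarith

omit BF in
theorem finite_act' (BF : BoxFoam La F δ κ0) {y : κ → ℝ} (hy : y ∈ La) :
    (act (Pc F) y).Finite := by
  obtain ⟨r, hr, hfin⟩ := BF.lf y hy
  refine Set.Finite.of_finite_image (f := Subtype.val) (hfin.subset ?_) Subtype.val_injective.injOn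
  rintro C ⟨c, hc, rfl⟩
  exact ⟨c.2, y, hc, Metric.mem_ball_self hr⟩

/-- **box foams are foams** -/
theorem foam (hLa : IsOpen La) : Foam La (Pc F) (bc (F := F)) (Fintype.card κ + 1) := by
  have hfc : ∀ A : Set F, A.Nonempty → (fc (Pc F) A).Nonempty → A.Finite := by
    rintro A ⟨c, hc⟩ ⟨y, hy⟩
    have hyL : y ∈ La := BF.sub _ c.2 (mem_fc.1 hy c hc)
    exact (finite_act' BF hyL).subset (mem_fc'.1 hy)
  have hmem : ∀ A : Set F, A.Nonempty → (fc (Pc F) A).Nonempty → bc A ∈ fc (Pc F) A := by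
    intro A hA h
    have hfin := hfc A hA h
    obtain ⟨y, hy⟩ := h
    rw [mem_fc_iff hfin hA] at hy ⊢
    intro k
    have := (hy k).1.trans (hy k).2
    unfold bc
    constructor <;> linarith
  refine
    { op := hLa
      cpt := fun c => isCompact_Icc
      cvx := fun c => convex_Icc _ _
      sub := fun c => BF.sub _ c.2
      cov := ?_
      lf := ?_
      card := ?_
      mem := hmem
      rel := ?_
      exit := ?_ }
  · intro y hy
    obtain ⟨C, hC, h⟩ := BF.cov y hy
    exact ⟨⟨C, hC⟩, h⟩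
  · intro y hy
    obtain ⟨r, hr, hfin⟩ := BF.lf y hy
    refine ⟨r, hr, Set.Finite.of_finite_image (f := Subtype.val) (hfin.subset ?_)
      Subtype.val_injective.injOn⟩
    rintro C ⟨c, hc, rfl⟩
    exact ⟨c.2, hc⟩
  · intro y hy
    have hfin := finite_act' BF hy
    have hne : (act (Pc F) y).Nonempty := by
      obtain ⟨C, hC, h⟩ := BF.cov y hy
      exact ⟨⟨C, hC⟩, h⟩
    rw [← deg_count BF hfin hne ⟨y, self_mem_fc_act⟩]
    have := Set.ncard_le_card {k | loA (act (Pc F) y) k = hiA (act (Pc F) y) k}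
    rw [Nat.card_eq_fintype_card] at this
    omega
  · intro A hA y hy t ht
    have hAne : (fc (Pc F) A).Nonempty := ⟨y, hy⟩
    have hfin := hfc A hA hAne
    set z := bc A + t • (y - bc A) with hz
    have hbA := hmem A hA hAne
    have hcvx : Convex ℝ (fc (Pc F) A) := convex_iInter₂ fun c _ => convex_Icc _ _
    have hzA : z ∈ fc (Pc F) A := by
      have := hcvx hbA hy (sub_nonneg.2 ht.2.le) ht.1 (by ring)
      convert this using 1
      rw [hz]; module
    refine Subset.antisymm ?_ (mem_fc'.1 hzA)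
    intro c' hc'
    by_contra hn
    have hyk := (mem_fc_iff hfin hA).1 hy
    -- strictness
    have hstrict : ∀ k, loA A k ≠ hiA A k → loA A k < z k ∧ z k < hiA A k := by
      intro k hk
      have hlt : loA A k < hiA A k := lt_of_le_of_ne ((hyk k).1.trans (hyk k).2) hk
      have h1 := (hyk k).1
      have h2 := (hyk k).2
      have ht0 := ht.1
      have ht1 := ht.2
      simp only [hz, bc, Pi.add_apply, Pi.smul_apply, Pi.sub_apply, smul_eq_mul]
      constructor <;> nlinarith
    -- the set with c' added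
    set A' : Set F := insert c' A with hA'
    have hfin' : A'.Finite := hfin.insert c'
    have hne' : A'.Nonempty := ⟨c', mem_insert _ _⟩
    have hzA' : z ∈ fc (Pc F) A' := by
      rw [mem_fc]; intro c hc
      rcases hc with rfl | hc
      · exact hc'
      · exact mem_fc.1 hzA c hc
    have e1 := deg_count BF hfin hA hAne
    have e2 := deg_count BF hfin' hne' ⟨z, hzA'⟩
    rw [ncard_insert_of_notMem hn hfin] at e2
    have hzk' := (mem_fc_iff hfin' hne').1 hzA'
    have : ∃ k, loA A' k = hiA A' k ∧ loA A k ≠ hiA A k := by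
      by_contra hcon
      push Not at hcon
      have := ncard_le_ncard (s := {k | loA A' k = hiA A' k}) (t := {k | loA A k = hiA A k})
        (fun k hk => hcon k hk) (toFinite _)
      omega
    obtain ⟨k, hk', hk⟩ := this
    have hs := hstrict k hk
    have hzk := hzk' k
    obtain ⟨a, ha, ha'⟩ := (exists_loA hfin' hne' k).1
    obtain ⟨a2, ha2, ha2'⟩ := (exists_hiA hfin' hne' k).1
    have f1 : a.1.lo k = z k := by linarith
    have f2 : a2.1.hi k = z k := by linarith
    rcases ha with rfl | ha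
    · rcases ha2 with rfl | ha2
      · exact absurd (BF.pos _ a2.2 k) (by rw [f1, f2]; exact lt_irrefl _)
      · have := (exists_hiA hfin hA k).2 a2 ha2
        linarith
    · have := (exists_loA hfin hA k).2 a ha
      linarith
  · intro y hy hyb
    set A := act (Pc F) y with hA
    have hfin : A.Finite := finite_act' BF hy
    have hne : A.Nonempty := by
      obtain ⟨C, hC, h⟩ := BF.cov y hy
      exact ⟨⟨C, hC⟩, h⟩
    have hyk := (mem_fc_iff hfin hne).1 (self_mem_fc_act (P := Pc F) (y := y))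
    have hlim : ∀ k, ∀ᶠ t : ℝ in 𝓝[>] 1,
        loA A k ≤ (bc A + t • (y - bc A)) k ∧ (bc A + t • (y - bc A)) k ≤ hiA A k := by
      intro k
      by_cases hk : loA A k = hiA A k
      · have h1 := hyk k
        have h2 : y k = bc A k := by
          unfold bc; linarith
        refine Eventually.of_forall fun t => ?_
        simp only [Pi.add_apply, Pi.smul_apply, Pi.sub_apply, h2, sub_self, smul_zero, add_zero]
        unfold bc
        constructor <;> linarith
      · have h1 := loA_lt BF hLa hy hk hfin hne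
        have h2 := lt_hiA BF hLa hy hk hfin hne
        have hc : Tendsto (fun t : ℝ => (bc A + t • (y - bc A)) k) (𝓝[>] 1) (𝓝 (y k)) := by
          have : Continuous (fun t : ℝ => (bc A + t • (y - bc A)) k) := by
            simp only [Pi.add_apply, Pi.smul_apply, Pi.sub_apply]
            fun_prop
          have h := this.tendsto 1
          simp only [one_smul, add_sub_cancel] at h
          exact h.mono_left nhdsWithin_le_nhds
        filter_upwards [hc.eventually (lt_mem_nhds h1), hc.eventually (gt_mem_nhds h2)] with t g1 g2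
        exact ⟨g1.le, g2.le⟩
    have hall := (eventually_all.2 hlim).and self_mem_nhdsWithin
    obtain ⟨t, h1, h2⟩ := hall.exists
    exact ⟨t, h2, (mem_fc_iff hfin hne).2 h1⟩

end foam

end Crest.Agent.R096.Brk3_582
end

-- ▼ part R096/Brk4_582
section

/-!
# Row 96, U1: Lipschitz constants of the coordinates of a box foam
-/

set_option autoImplicit false
set_option linter.unusedSectionVars false
set_option linter.style.haveILetI false
open Set Filter Topology

namespace Crest.Agent.R096.Brk4_582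

open Crest.Agent.R096.Brk1_582 Crest.Agent.R096.Brk2_582 Crest.Agent.R096.Brk3_582
open Crest.Agent.R096.Bsp_628

/-! ### Lipschitz on a convex set covered by finitely many closed sets -/

theorem lip_real {ι : Type*} {g : ℝ → ℝ} {K : ℝ} (s : Finset ι) (D : ι → Set ℝ)
    (hD : ∀ i ∈ s, IsClosed (D i)) (hlip : ∀ i ∈ s, ∀ x ∈ D i, ∀ y ∈ D i, |g x - g y| ≤ K * |x - y|) :
    ∀ a b : ℝ, a ≤ b → Icc a b ⊆ ⋃ i ∈ s, D i → |g a - g b| ≤ K * (b - a) := by
  classical
  induction' hn : s.card using Nat.strong_induction_on with n ih generalizing s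
  intro a b hab hcov
  obtain ⟨i0, hi0, ha⟩ := mem_iUnion₂.1 (hcov (left_mem_Icc.2 hab))
  have hcomp : IsCompact (D i0 ∩ Icc a b) := isCompact_Icc.inter_left (hD i0 hi0)
  obtain ⟨a', ⟨ha'D, ha'I⟩, hmax⟩ := hcomp.exists_isGreatest ⟨a, ha, left_mem_Icc.2 hab⟩
  have h1 : |g a - g a'| ≤ K * (a' - a) := by
    have := hlip i0 hi0 a ha a' ha'D
    rwa [abs_sub_comm a a', abs_of_nonneg (sub_nonneg.2 ha'I.1)] at this
  rcases ha'I.2.eq_or_lt with h | h
  · rw [← h]; exact h1
  have hclU : IsClosed (⋃ i ∈ s.erase i0, D i) :=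
    (s.erase i0).finite_toSet.isClosed_biUnion fun i hi => hD i (Finset.mem_of_mem_erase hi)
  have hIoc : Ioc a' b ⊆ ⋃ i ∈ s.erase i0, D i := by
    intro x hx
    obtain ⟨i, hi, hxi⟩ := mem_iUnion₂.1 (hcov ⟨ha'I.1.trans hx.1.le, hx.2⟩)
    refine mem_iUnion₂.2 ⟨i, Finset.mem_erase.2 ⟨?_, hi⟩, hxi⟩
    rintro rfl
    have := hmax ⟨hxi, ha'I.1.trans hx.1.le, hx.2⟩
    exact absurd hx.1 (not_lt.2 this)
  have hIcc : Icc a' b ⊆ ⋃ i ∈ s.erase i0, D i := by
    have h2 : closure (Ioc a' b) ⊆ ⋃ i ∈ s.erase i0, D i := hclU.closure_subset_iff.2 hIoc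
    rwa [closure_Ioc h.ne] at h2
  have h3 := ih (s.erase i0).card (by rw [← hn]; exact Finset.card_erase_lt_of_mem hi0)
    (s.erase i0) (fun i hi => hD i (Finset.mem_of_mem_erase hi))
    (fun i hi => hlip i (Finset.mem_of_mem_erase hi)) rfl a' b h.le hIcc
  calc |g a - g b| ≤ |g a - g a'| + |g a' - g b| := abs_sub_le _ _ _
    _ ≤ K * (b - a) := by linarith

theorem lip_of_cover {E ι : Type*} [NormedAddCommGroup E] [NormedSpace ℝ E] {f : E → ℝ}
    {G : Set E} (hG : Convex ℝ G) {s : Set ι} (hs : s.Finite) {C : ι → Set E}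
    (hC : ∀ i ∈ s, IsClosed (C i)) (hcov : G ⊆ ⋃ i ∈ s, C i) {K : ℝ}
    (hlip : ∀ i ∈ s, ∀ x ∈ C i, ∀ y ∈ C i, |f x - f y| ≤ K * ‖x - y‖) :
    ∀ x ∈ G, ∀ y ∈ G, |f x - f y| ≤ K * ‖x - y‖ := by
  intro x hx y hy
  have hc : Continuous (fun t : ℝ => x + t • (y - x)) := by fun_prop
  have := lip_real (g := fun t : ℝ => f (x + t • (y - x))) (K := K * ‖x - y‖) hs.toFinset
    (fun i => (fun t : ℝ => x + t • (y - x)) ⁻¹' C i)
    (fun i hi => (hC i (hs.mem_toFinset.1 hi)).preimage hc) ?_ 0 1 zero_le_one ?_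
  · simpa using this
  · intro i hi t ht t' ht'
    refine (hlip i (hs.mem_toFinset.1 hi) _ ht _ ht').trans (le_of_eq ?_)
    have : x + t • (y - x) - (x + t' • (y - x)) = (t' - t) • (x - y) := by module
    rw [this, norm_smul, Real.norm_eq_abs, abs_sub_comm t' t]
    ring
  · intro t ht
    have : x + t • (y - x) ∈ G := by
      have := hG hx hy (sub_nonneg.2 ht.2) ht.1 (by ring)
      convert this using 1
      module
    obtain ⟨i, hi, hxi⟩ := mem_iUnion₂.1 (hcov this)
    exact mem_iUnion₂.2 ⟨i, hs.mem_toFinset.2 hi, hxi⟩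

/-- the recursive constants -/
noncomputable def Lc (w S : ℝ) : ℕ → ℝ
  | 0 => 0
  | m + 1 => 2 / w + max (2 * Lc w S m) (1 / w) * (1 + S / w)

theorem Lc_nonneg {w S : ℝ} (hw : 0 < w) (hS : 0 ≤ S) (m : ℕ) : 0 ≤ Lc w S m := by
  cases m with
  | zero => exact le_rfl
  | succ m =>
    unfold Lc
    have : 0 ≤ max (2 * Lc w S m) (1 / w) := le_max_of_le_right (by positivity)
    positivity

section main

variable {κ : Type*} [Fintype κ] [Nonempty κ] {La : Set (κ → ℝ)} {F : Set (Bx κ)} {δ κ0 : ℝ}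

/-- **Lipschitz constants of the coordinates on the faces of a cell** -/
theorem lip_main (BF : BoxFoam La F δ κ0) (hLa : IsOpen La) (c0 : F) {w S : ℝ} (hw : 0 < w)
    (hS : ∀ k, c0.1.side k ≤ S)
    (hwid : ∀ A : Set F, A.Finite → c0 ∈ A → (fc (Pc F) A).Nonempty →
      ∀ k, loA A k ≠ hiA A k → w ≤ hiA A k - loA A k) :
    ∀ (m : ℕ) (A : Set F), A.Finite → c0 ∈ A → (fc (Pc F) A).Nonempty →
      Fintype.card κ + 1 - A.ncard = m → ∀ y ∈ fc (Pc F) A, ∀ y' ∈ fc (Pc F) A, ∀ c : F,
        |sc (Pc F) (bc (F := F)) y c - sc (Pc F) (bc (F := F)) y' c| ≤ Lc w S m * ‖y - y'‖ := by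
  have FF := foam BF hLa
  have hS0 : 0 ≤ S := by
    obtain ⟨k⟩ := ‹Nonempty κ›
    exact (Bx.side_pos (BF.pos _ c0.2) k).le.trans (hS k)
  intro m
  induction m with
  | zero =>
    intro A hA hc0 hne hm y hy y' hy' c
    have hAne : A.Nonempty := ⟨c0, hc0⟩
    have h1 := deg_count BF hA hAne hne
    have h2 : {k | loA A k = hiA A k} = univ := by
      refine Set.eq_of_subset_of_ncard_le (subset_univ _) ?_
      rw [ncard_univ, Nat.card_eq_fintype_card]
      omega
    have h3 : y = y' := by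
      funext k
      have hk : loA A k = hiA A k := by
        have : k ∈ {k | loA A k = hiA A k} := by rw [h2]; trivial
        exact this
      have a1 := (mem_fc_iff hA hAne).1 hy k
      have a2 := (mem_fc_iff hA hAne).1 hy' k
      linarith
    subst h3
    simp [Lc]
  | succ m ih =>
    intro A hA hc0 hne hm y hy y' hy' c
    classical
    have hAne : A.Nonempty := ⟨c0, hc0⟩
    have hM0 : 0 ≤ max (2 * Lc w S m) (1 / w) := le_max_of_le_right (by positivity)
    have hAL : fc (Pc F) A ⊆ La := FF.fc_sub_La hAne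
    by_cases hcA : c ∈ A
    · rw [(FF.sc_eq_zero (hAL hy)).2 (mem_fc.1 hy c hcA),
        (FF.sc_eq_zero (hAL hy')).2 (mem_fc.1 hy' c hcA), sub_self, abs_zero]
      exact mul_nonneg (Lc_nonneg hw hS0 _) (norm_nonneg _)
    -- facets
    have facet : ∀ k, loA A k ≠ hiA A k → ∀ v, (v = loA A k ∨ v = hiA A k) →
        ∀ x ∈ fc (Pc F) A, x k = v → ∀ x' ∈ fc (Pc F) A, x' k = v →
        |sc (Pc F) (bc (F := F)) x c - sc (Pc F) (bc (F := F)) x' c| ≤ Lc w S m * ‖x - x'‖ := by
      intro k hk v hv x hx hxk x' hx' hxk'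
      have hG : Convex ℝ (fc (Pc F) A ∩ {x | x k = v}) := by
        refine FF.convex_fc.inter ?_
        intro p hp q hq a b ha hb hab
        have hp' : p k = v := hp
        have hq' : q k = v := hq
        change (a • p + b • q) k = v
        simp only [Pi.add_apply, Pi.smul_apply, smul_eq_mul, hp', hq']
        rw [← add_mul, hab, one_mul]
      set s : Set F := {c'' | c'' ∉ A ∧ (fc (Pc F) (insert c'' A)).Nonempty} with hs
      have hsfin : s.Finite := by
        refine (finite_touch FF c0).subset fun c'' hc'' => ?_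
        obtain ⟨p, hp⟩ := hc''.2
        exact ⟨p, mem_fc.1 hp c'' (mem_insert _ _), mem_fc.1 hp c0 (mem_insert_of_mem _ hc0)⟩
      refine lip_of_cover hG hsfin (C := fun c'' => fc (Pc F) (insert c'' A)) ?_ ?_ ?_ x ⟨hx, hxk⟩
        x' ⟨hx', hxk'⟩ (f := fun x => sc (Pc F) (bc (F := F)) x c)
      · intro c'' _
        exact (FF.isCompact_fc ⟨c'', mem_insert _ _⟩).isClosed
      · rintro p ⟨hp, hpk⟩
        have hpL := hAL hp
        have hpk' : p k = v := hpk
        have hex : ∃ c'' ∈ act (Pc F) p, c'' ∉ A := by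
          by_contra hcon
          push Not at hcon
          have hact : act (Pc F) p = A := Subset.antisymm hcon (mem_fc'.1 hp)
          have g1 := lt_hiA BF hLa hpL (k := k) (by rw [hact]; exact hk) (by rw [hact]; exact hA)
            (by rw [hact]; exact hAne)
          have g2 := loA_lt BF hLa hpL (k := k) (by rw [hact]; exact hk) (by rw [hact]; exact hA)
            (by rw [hact]; exact hAne)
          rw [hact, hpk'] at g1 g2
          rcases hv with h | h
          · exact absurd g2 (by rw [h]; exact lt_irrefl _)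
          · exact absurd g1 (by rw [h]; exact lt_irrefl _)
        obtain ⟨c'', hc1, hc2⟩ := hex
        have hpi : p ∈ fc (Pc F) (insert c'' A) := by
          rw [mem_fc]
          rintro a (rfl | ha)
          · exact hc1
          · exact mem_fc.1 hp a ha
        exact mem_iUnion₂.2 ⟨c'', ⟨hc2, p, hpi⟩, hpi⟩
      · intro c'' hc'' p hp q hq
        exact ih (insert c'' A) (hA.insert _) (mem_insert_of_mem _ hc0) hc''.2
          (by rw [ncard_insert_of_notMem hc''.1 hA]; omega) p hp q hq c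
    -- the relative boundary
    have bd : ∀ z ∈ fc (Pc F) A, ∀ z' ∈ fc (Pc F) A, ∀ k, loA A k ≠ hiA A k →
        (z k = loA A k ∨ z k = hiA A k) → ∀ j, loA A j ≠ hiA A j →
        (z' j = loA A j ∨ z' j = hiA A j) →
        |sc (Pc F) (bc (F := F)) z c - sc (Pc F) (bc (F := F)) z' c| ≤
          max (2 * Lc w S m) (1 / w) * ‖z - z'‖ := by
      intro z hz z' hz' k hk hzk j hj hzj
      have hzz := mem_fc_iff hA hAne |>.1 hz
      have hzz' := mem_fc_iff hA hAne |>.1 hz'
      have hL0 := Lc_nonneg hw hS0 m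
      by_cases hkj : k = j
      · subst hkj
        by_cases hzz2 : z k = z' k
        · refine (facet k hk (z k) hzk z hz rfl z' hz' hzz2.symm).trans ?_
          refine mul_le_mul_of_nonneg_right ?_ (norm_nonneg _)
          exact le_max_of_le_left (by linarith)
        · have h1 : w ≤ ‖z - z'‖ := by
            have h2 := hwid A hA hc0 hne k hk
            have h3 := norm_le_pi_norm (z - z') k
            rw [Pi.sub_apply, Real.norm_eq_abs] at h3
            refine le_trans ?_ h3
            rcases hzk with h | h <;> rcases hzj with h' | h'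
            · exact absurd (h.trans h'.symm) hzz2
            · rw [h, h', abs_sub_comm, abs_of_nonneg (by linarith)]; exact h2
            · rw [h, h', abs_of_nonneg (by linarith)]; exact h2
            · exact absurd (h.trans h'.symm) hzz2
          have h2 : |sc (Pc F) (bc (F := F)) z c - sc (Pc F) (bc (F := F)) z' c| ≤ 1 := by
            rw [abs_le]
            constructor <;> linarith [FF.sc_nonneg (hAL hz) c, FF.sc_le_one (hAL hz) c,
              FF.sc_nonneg (hAL hz') c, FF.sc_le_one (hAL hz') c]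
          refine h2.trans ?_
          calc (1 : ℝ) = 1 / w * w := by field_simp
            _ ≤ max (2 * Lc w S m) (1 / w) * ‖z - z'‖ :=
              mul_le_mul (le_max_right _ _) h1 hw.le hM0
      · set z2 : κ → ℝ := Function.update z j (z' j) with hz2
        have hz2A : z2 ∈ fc (Pc F) A := by
          rw [mem_fc_iff hA hAne]
          intro i
          by_cases hi : i = j
          · subst hi; simp only [hz2, Function.update_self]; exact hzz' i
          · simp only [hz2, Function.update_of_ne hi]; exact hzz i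
        have e1 := facet k hk (z k) hzk z hz rfl z2 hz2A
          (by simp only [hz2, Function.update_of_ne hkj])
        have e2 := facet j hj (z' j) hzj z2 hz2A (by simp [hz2]) z' hz' rfl
        have n1 : ‖z - z2‖ ≤ ‖z - z'‖ := by
          refine (pi_norm_le_iff_of_nonneg (norm_nonneg _)).2 fun i => ?_
          by_cases hi : i = j
          · subst hi
            simp only [Pi.sub_apply, hz2, Function.update_self]
            exact norm_le_pi_norm (z - z') i
          · simp only [Pi.sub_apply, hz2, Function.update_of_ne hi, sub_self, norm_zero]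
            exact norm_nonneg _
        have n2 : ‖z2 - z'‖ ≤ ‖z - z'‖ := by
          refine (pi_norm_le_iff_of_nonneg (norm_nonneg _)).2 fun i => ?_
          by_cases hi : i = j
          · subst hi
            simp only [Pi.sub_apply, hz2, Function.update_self, sub_self, norm_zero]
            exact norm_nonneg _
          · simp only [Pi.sub_apply, hz2, Function.update_of_ne hi]
            exact norm_le_pi_norm (z - z') i
        calc |sc (Pc F) (bc (F := F)) z c - sc (Pc F) (bc (F := F)) z' c|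
            ≤ _ := abs_sub_le _ (sc (Pc F) (bc (F := F)) z2 c) _
          _ ≤ Lc w S m * ‖z - z'‖ + Lc w S m * ‖z - z'‖ := by
            refine add_le_add (e1.trans ?_) (e2.trans ?_)
            · exact mul_le_mul_of_nonneg_left n1 hL0
            · exact mul_le_mul_of_nonneg_left n2 hL0
          _ = (2 * Lc w S m) * ‖z - z'‖ := by ring
          _ ≤ _ := mul_le_mul_of_nonneg_right (le_max_left _ _) (norm_nonneg _)
    -- the gauge
    set bA : κ → ℝ := bc A with hbA
    have hlohi : ∀ k, loA A k ≤ hiA A k := fun k =>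
      ((mem_fc_iff hA hAne).1 hy k).1.trans ((mem_fc_iff hA hAne).1 hy k).2
    let h : κ → ℝ := fun k => (hiA A k - loA A k) / 2
    have hh0 : ∀ k, 0 ≤ h k := fun k => by
      have := hlohi k
      simp only [h]; linarith
    have hhw : ∀ k, loA A k ≠ hiA A k → w / 2 ≤ h k := fun k hk => by
      have := hwid A hA hc0 hne k hk
      simp only [h]; linarith
    have hhS : ∀ k, h k ≤ S / 2 := fun k => by
      have h1 := (exists_loA hA hAne k).2 c0 hc0
      have h2 := (exists_hiA hA hAne k).2 c0 hc0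
      have h3 := hS k
      unfold Bx.side at h3
      simp only [h]; linarith
    let D : (κ → ℝ) → κ → ℝ := fun v k => v k / h k
    have hD : ∀ v, ‖D v‖ ≤ 2 / w * ‖v‖ := by
      intro v
      refine (pi_norm_le_iff_of_nonneg (by positivity)).2 fun k => ?_
      by_cases hk : loA A k = hiA A k
      · have : h k = 0 := by simp only [h, hk]; ring
        simp only [D, this, div_zero, norm_zero]
        positivity
      · have h1 := hhw k hk
        have h2 : 0 < h k := by linarith
        simp only [D, norm_div, Real.norm_of_nonneg h2.le]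
        rw [div_le_iff₀ h2]
        calc ‖v k‖ ≤ ‖v‖ := norm_le_pi_norm v k
          _ = 2 / w * ‖v‖ * (w / 2) := by field_simp
          _ ≤ 2 / w * ‖v‖ * h k := mul_le_mul_of_nonneg_left h1 (by positivity)
    have hcoord : ∀ p ∈ fc (Pc F) A, ∀ k, |p k - bA k| ≤ h k := by
      intro p hp k
      have h1 := (mem_fc_iff hA hAne).1 hp k
      simp only [hbA, bc, h, abs_le]
      constructor <;> linarith
    have hμ1 : ∀ p ∈ fc (Pc F) A, ‖D (p - bA)‖ ≤ 1 := by
      intro p hp
      refine (pi_norm_le_iff_of_nonneg zero_le_one).2 fun k => ?_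
      simp only [D, norm_div, Real.norm_of_nonneg (hh0 k), Pi.sub_apply, Real.norm_eq_abs]
      exact div_le_one_of_le₀ (hcoord p hp k) (hh0 k)
    have hback : ∀ p ∈ fc (Pc F) A, ∀ k, |p k - bA k| ≤ ‖D (p - bA)‖ * h k := by
      intro p hp k
      rcases (hh0 k).eq_or_lt with h1 | h1
      · have := hcoord p hp k
        rw [← h1] at this ⊢
        simpa using this
      · have := norm_le_pi_norm (D (p - bA)) k
        simp only [D, norm_div, Real.norm_of_nonneg (hh0 k), Pi.sub_apply, Real.norm_eq_abs] at this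
        rwa [div_le_iff₀ h1] at this
    have hdist : ∀ p ∈ fc (Pc F) A, ‖p - bA‖ ≤ ‖D (p - bA)‖ * (S / 2) := by
      intro p hp
      refine (pi_norm_le_iff_of_nonneg (by positivity)).2 fun k => ?_
      rw [Pi.sub_apply, Real.norm_eq_abs]
      exact (hback p hp k).trans (mul_le_mul_of_nonneg_left (hhS k) (norm_nonneg _))
    -- exit points
    have hz : ∀ p ∈ fc (Pc F) A, ∃ z ∈ fc (Pc F) A, p = bA + ‖D (p - bA)‖ • (z - bA) ∧
        (0 < ‖D (p - bA)‖ → ∃ k, loA A k ≠ hiA A k ∧ (z k = loA A k ∨ z k = hiA A k)) := by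
      intro p hp
      rcases (norm_nonneg (D (p - bA))).eq_or_lt with h0 | h0
      · refine ⟨bA, FF.mem A hAne hne, ?_, fun h1 => absurd h1 (by rw [← h0]; exact lt_irrefl _)⟩
        have h1 := hdist p hp
        rw [← h0, zero_mul] at h1
        have h2 := norm_le_zero_iff.1 h1
        rw [← h0, zero_smul, add_zero]
        exact sub_eq_zero.1 h2
      · set μ := ‖D (p - bA)‖ with hμ
        refine ⟨bA + μ⁻¹ • (p - bA), ?_, ?_, fun _ => ?_⟩
        · rw [mem_fc_iff hA hAne]
          intro k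
          have h1 : |μ⁻¹ * (p k - bA k)| ≤ h k := by
            rw [abs_mul, abs_of_pos (inv_pos.2 h0), inv_mul_le_iff₀ h0]
            exact hback p hp k
          rw [abs_le] at h1
          simp only [Pi.add_apply, Pi.smul_apply, Pi.sub_apply, smul_eq_mul]
          simp only [h, hbA, bc] at h1 ⊢
          constructor <;> linarith [h1.1, h1.2]
        · rw [add_sub_cancel_left, smul_smul, mul_inv_cancel₀ h0.ne', one_smul]
          abel
        · obtain ⟨k, hk⟩ := Finite.exists_max (fun k => ‖D (p - bA) k‖)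
          have h1 : ‖D (p - bA) k‖ = μ := by
            refine le_antisymm (norm_le_pi_norm _ k) ?_
            exact (pi_norm_le_iff_of_nonneg (norm_nonneg _)).2 hk
          have h2 : h k ≠ 0 := by
            intro h3
            simp only [D, h3, div_zero, norm_zero] at h1
            exact h0.ne h1
          have h3 : loA A k ≠ hiA A k := fun h4 => h2 (by simp only [h, h4]; ring)
          refine ⟨k, h3, ?_⟩
          have h4 : 0 < h k := lt_of_le_of_ne (hh0 k) (Ne.symm h2)
          simp only [D, norm_div, Real.norm_of_nonneg (hh0 k), Pi.sub_apply, Real.norm_eq_abs] at h1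
          rw [div_eq_iff h2] at h1
          have h5 : |μ⁻¹ * (p k - bA k)| = h k := by
            rw [abs_mul, abs_of_pos (inv_pos.2 h0), h1, ← mul_assoc, inv_mul_cancel₀ h0.ne', one_mul]
          simp only [Pi.add_apply, Pi.smul_apply, Pi.sub_apply, smul_eq_mul]
          rcases (abs_eq h4.le).1 h5 with h6 | h6
          · right
            rw [h6]; simp only [h, hbA, bc]; ring
          · left
            rw [h6]; simp only [h, hbA, bc]; ring
    have key : ∀ p ∈ fc (Pc F) A, ∀ q ∈ fc (Pc F) A, ‖D (p - bA)‖ ≤ ‖D (q - bA)‖ →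
        |sc (Pc F) (bc (F := F)) p c - sc (Pc F) (bc (F := F)) q c| ≤ Lc w S (m + 1) * ‖p - q‖ := by
      intro p hp q hq hpq
      obtain ⟨zp, hzp, hp1, hp2⟩ := hz p hp
      obtain ⟨zq, hzq, hq1, hq2⟩ := hz q hq
      have sp : sc (Pc F) (bc (F := F)) p c = (1 - ‖D (p - bA)‖) +
          ‖D (p - bA)‖ * sc (Pc F) (bc (F := F)) zp c := by
        conv_lhs => rw [hp1]
        exact FF.sc_ray' hAne hzp (norm_nonneg _) (hμ1 p hp) hcA
      have sq : sc (Pc F) (bc (F := F)) q c = (1 - ‖D (q - bA)‖) +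
          ‖D (q - bA)‖ * sc (Pc F) (bc (F := F)) zq c := by
        conv_lhs => rw [hq1]
        exact FF.sc_ray' hAne hzq (norm_nonneg _) (hμ1 q hq) hcA
      set μp := ‖D (p - bA)‖ with hμp
      set μq := ‖D (q - bA)‖ with hμq
      set a := sc (Pc F) (bc (F := F)) zp c with ha
      set a' := sc (Pc F) (bc (F := F)) zq c with ha'
      have ha'0 : 0 ≤ a' := FF.sc_nonneg (hAL hzq) c
      have ha'1 : a' ≤ 1 := FF.sc_le_one (hAL hzq) c
      have hdμ : μq - μp ≤ 2 / w * ‖p - q‖ := by
        have e : D (q - bA) - D (p - bA) = D (q - p) := by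
          funext k
          simp only [D, Pi.sub_apply]
          ring
        calc μq - μp ≤ ‖D (q - bA) - D (p - bA)‖ := by
              exact norm_sub_norm_le _ _
          _ = ‖D (q - p)‖ := by rw [e]
          _ ≤ 2 / w * ‖q - p‖ := hD _
          _ = _ := by rw [norm_sub_rev]
      have hμp0 : 0 ≤ μp := norm_nonneg _
      have e1 : |((1 - μp) + μp * a) - ((1 - μq) + μq * a')| ≤ (μq - μp) + μp * |a - a'| := by
        have e2 : ((1 - μp) + μp * a) - ((1 - μq) + μq * a') =
            (μq - μp) * (1 - a') + μp * (a - a') := by ring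
        rw [e2]
        refine (abs_add_le _ _).trans ?_
        rw [abs_mul, abs_mul, abs_of_nonneg (sub_nonneg.2 hpq), abs_of_nonneg hμp0,
          abs_of_nonneg (sub_nonneg.2 ha'1)]
        have : (μq - μp) * (1 - a') ≤ (μq - μp) * 1 :=
          mul_le_mul_of_nonneg_left (by linarith) (sub_nonneg.2 hpq)
        linarith
      rw [sp, sq]
      refine e1.trans ?_
      have e3 : μp * |a - a'| ≤ max (2 * Lc w S m) (1 / w) * (1 + S / w) * ‖p - q‖ := by
        rcases hμp0.eq_or_lt with h0 | h0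
        · rw [← h0, zero_mul]; positivity
        · have h0q : 0 < μq := h0.trans_le hpq
          obtain ⟨k, hk, hzk⟩ := hp2 h0
          obtain ⟨j, hj, hzj⟩ := hq2 h0q
          have e4 := bd zp hzp zq hzq k hk hzk j hj hzj
          have e5 : μp * ‖zp - zq‖ ≤ (1 + S / w) * ‖p - q‖ := by
            have e6 : μp • (zp - zq) = (p - q) + (1 - μp / μq) • (q - bA) := by
              have f1 : μp • (zp - bA) = p - bA := by
                conv_rhs => rw [hp1]
                abel
              have f2 : μq • (zq - bA) = q - bA := by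
                conv_rhs => rw [hq1]
                abel
              have f3 : μp • (zq - bA) = (μp / μq) • (q - bA) := by
                rw [← f2, smul_smul, div_mul_cancel₀ _ h0q.ne']
              calc μp • (zp - zq) = μp • (zp - bA) - μp • (zq - bA) := by module
                _ = _ := by rw [f1, f3]; module
            have e7 : 0 ≤ 1 - μp / μq := by
              rw [sub_nonneg, div_le_one h0q]; exact hpq
            calc μp * ‖zp - zq‖ = ‖μp • (zp - zq)‖ := by
                  rw [norm_smul, Real.norm_of_nonneg hμp0]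
              _ ≤ ‖p - q‖ + (1 - μp / μq) * ‖q - bA‖ := by
                  rw [e6]
                  refine (norm_add_le _ _).trans ?_
                  rw [norm_smul, Real.norm_of_nonneg e7]
              _ ≤ ‖p - q‖ + (1 - μp / μq) * (μq * (S / 2)) := by
                  have := mul_le_mul_of_nonneg_left (hdist q hq) e7
                  linarith
              _ = ‖p - q‖ + (μq - μp) * (S / 2) := by
                  field_simp
              _ ≤ ‖p - q‖ + (2 / w * ‖p - q‖) * (S / 2) := by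
                  have := mul_le_mul_of_nonneg_right hdμ (show 0 ≤ S / 2 by positivity)
                  linarith
              _ = (1 + S / w) * ‖p - q‖ := by
                  field_simp
          calc μp * |a - a'| ≤ μp * (max (2 * Lc w S m) (1 / w) * ‖zp - zq‖) :=
                mul_le_mul_of_nonneg_left e4 hμp0
            _ = max (2 * Lc w S m) (1 / w) * (μp * ‖zp - zq‖) := by ring
            _ ≤ max (2 * Lc w S m) (1 / w) * ((1 + S / w) * ‖p - q‖) :=
                mul_le_mul_of_nonneg_left e5 hM0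
            _ = _ := by ring
      calc (μq - μp) + μp * |a - a'|
          ≤ 2 / w * ‖p - q‖ + max (2 * Lc w S m) (1 / w) * (1 + S / w) * ‖p - q‖ := add_le_add hdμ e3
        _ = Lc w S (m + 1) * ‖p - q‖ := by simp only [Lc]; ring
    rcases le_total ‖D (y - bA)‖ ‖D (y' - bA)‖ with h1 | h1
    · exact key y hy y' hy' h1
    · rw [abs_sub_comm, norm_sub_rev]
      exact key y' hy' y hy h1

end main

end Crest.Agent.R096.Brk4_582
private theorem rz_ca1473f4aa : type_of% @_root_.Crest.Agent.R096.Brk4_582.Lc.eq_def := @_root_.Crest.Agent.R096.Brk4_582.Lc.eq_def -- L76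
private theorem rz_f3c29bc2ea : type_of% @_root_.Crest.Agent.R096.Brk4_582.Lc.eq_1 := @_root_.Crest.Agent.R096.Brk4_582.Lc.eq_1 -- L76
end

-- ▼ part R096/Brk5_582

/-!
# Row 96, U1: bounded geometry of the coordinates of a box foam (corollaries of `lip_main`)
-/

set_option autoImplicit false
set_option linter.unusedSectionVars false
set_option linter.style.haveILetI false
open Set Filter Topology
open scoped NNReal

namespace Crest.Agent.R096.Brk5_582

open Crest.Agent.R096.Brk1_582 Crest.Agent.R096.Brk2_582 Crest.Agent.R096.Brk3_582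
open Crest.Agent.R096.Brk4_582 Crest.Agent.R096.Bsp_628

theorem Lc_scale {w S l : ℝ} (hl : 0 < l) (m : ℕ) : Lc (l * w) (l * S) m = Lc w S m / l := by
  induction m with
  | zero => simp [Lc]
  | succ m ih =>
    simp only [Lc, ih]
    have h1 : l * S / (l * w) = S / w := mul_div_mul_left _ _ hl.ne'
    have h2 : (2 : ℝ) / (l * w) = 2 / w / l := by rw [mul_comm, div_mul_eq_div_div]
    have h3 : (1 : ℝ) / (l * w) = 1 / w / l := by rw [mul_comm, div_mul_eq_div_div]
    have h4 : 2 * (Lc w S m / l) = (2 * Lc w S m) / l := by ring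
    rw [h1, h2, h3, h4, max_div_div_right hl.le]
    ring

/-- the universal constant of the coordinates: `δ` = quantitative simplicity, `R` = ratio of the
sizes of touching cells, `n` = dimension -/
noncomputable def Cs (n : ℕ) (δ R : ℝ) : ℝ := Lc (δ / R) 1 n

theorem Cs_nonneg {n : ℕ} {δ R : ℝ} (hδ : 0 < δ) (hR : 0 < R) : 0 ≤ Cs n δ R :=
  Lc_nonneg (by positivity) zero_le_one n

section main

variable {κ : Type*} [Fintype κ] [Nonempty κ] {La : Set (κ → ℝ)} {F : Set (Bx κ)} {δ κ0 : ℝ}

/-- touching cells have comparable sizes -/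
def Cmp (F : Set (Bx κ)) (R : ℝ) : Prop :=
  ∀ c c' : F, (Pc F c ∩ Pc F c').Nonempty → c.1.sz ≤ R * c'.1.sz

/-- **the coordinates are `Cs / size`-Lipschitz on every cell** (sup norm) -/
theorem lip_cell (BF : BoxFoam La F δ κ0) (hLa : IsOpen La) (hδ : 0 < δ) {R : ℝ} (hR : 0 < R)
    (hcmp : Cmp F R) (c0 : F) : ∀ y ∈ Pc F c0, ∀ y' ∈ Pc F c0, ∀ c : F,
      |sc (Pc F) (bc (F := F)) y c - sc (Pc F) (bc (F := F)) y' c| ≤
        Cs (Fintype.card κ) δ R / c0.1.sz * ‖y - y'‖ := by
  have hsz : 0 < c0.1.sz := Bx.sz_pos (BF.pos _ c0.2)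
  intro y hy y' hy' c
  have hfc : fc (Pc F) ({c0} : Set F) = Pc F c0 := by simp [fc]
  have h1 := lip_main BF hLa c0 (w := c0.1.sz * (δ / R)) (S := c0.1.sz * 1) (by positivity)
    (fun k => by rw [mul_one]; exact Bx.side_le_sz _ k) ?_ (Fintype.card κ) {c0}
    (finite_singleton c0) rfl (by rw [hfc]; exact ⟨y, hy⟩) (by rw [ncard_singleton]; omega)
    y (by rw [hfc]; exact hy) y' (by rw [hfc]; exact hy') c
  · rw [Lc_scale hsz] at h1
    exact h1
  · intro A hA hc0 hne k hk
    obtain ⟨D, hD, h2⟩ := width_ge BF hA ⟨c0, hc0⟩ hne hk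
    obtain ⟨x, hx⟩ := hne
    have h3 := hcmp c0 D ⟨x, mem_fc.1 hx c0 hc0, mem_fc.1 hx D hD⟩
    have h4 : c0.1.sz * (δ / R) ≤ δ * D.1.sz := by
      rw [mul_div_assoc', div_le_iff₀ hR]
      nlinarith
    linarith

/-- two points of a box -/
theorem norm_sub_le_sz {B : Bx κ} (hB : B.Pos) {x y : κ → ℝ} (hx : x ∈ B.set) (hy : y ∈ B.set) :
    ‖x - y‖ ≤ B.sz := by
  refine (pi_norm_le_iff_of_nonneg (Bx.sz_pos hB).le).2 fun k => ?_
  have h1 := Bx.mem_set.1 hx k
  have h2 := Bx.mem_set.1 hy k
  have h3 := Bx.side_le_sz B k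
  unfold Bx.side at h3
  rw [Pi.sub_apply, Real.norm_eq_abs, abs_le]
  constructor <;> linarith


/-- Lipschitz on convex sets covered by finitely many cells -/
theorem lip_convex (BF : BoxFoam La F δ κ0) (hLa : IsOpen La) (hδ : 0 < δ) {R : ℝ} (hR : 0 < R)
    (hcmp : Cmp F R) {G : Set (κ → ℝ)} (hG : Convex ℝ G) {s : Set F} (hs : s.Finite)
    (hcov : G ⊆ ⋃ c ∈ s, Pc F c) {σ : ℝ} (hσ : 0 < σ) (hsz : ∀ c ∈ s, σ ≤ c.1.sz) (c : F) :
    ∀ x ∈ G, ∀ y ∈ G, |sc (Pc F) (bc (F := F)) x c - sc (Pc F) (bc (F := F)) y c| ≤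
      Cs (Fintype.card κ) δ R / σ * ‖x - y‖ := by
  refine lip_of_cover hG hs (C := fun c => Pc F c) (fun c _ => isClosed_Icc) hcov
    (f := fun x => sc (Pc F) (bc (F := F)) x c) fun c0 hc0 x hx y hy => ?_
  refine (lip_cell BF hLa hδ hR hcmp c0 x hx y hy c).trans ?_
  refine mul_le_mul_of_nonneg_right ?_ (norm_nonneg _)
  exact div_le_div_of_nonneg_left (Cs_nonneg hδ hR) hσ (hsz c0 hc0)

/-- the coordinates are locally Lipschitz on `La` -/
theorem locallyLipschitzOn_sc (BF : BoxFoam La F δ κ0) (hLa : IsOpen La) (hδ : 0 < δ) {R : ℝ}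
    (hR : 0 < R) (hcmp : Cmp F R) (c : F) :
    LocallyLipschitzOn La (fun y => sc (Pc F) (bc (F := F)) y c) := by
  intro y hy
  have FF := foam BF hLa
  obtain ⟨r, hr, hfin⟩ := FF.lf y hy
  obtain ⟨r', hr', hball⟩ := Metric.isOpen_iff.1 hLa y hy
  set ρ := min r r' with hρ
  have hρ0 : 0 < ρ := lt_min hr hr'
  have hne : {c | (Pc F c ∩ Metric.ball y r).Nonempty}.Nonempty := by
    obtain ⟨c, hc⟩ := FF.cov y hy
    exact ⟨c, y, hc, Metric.mem_ball_self hr⟩
  obtain ⟨c1, hc1, hmin⟩ := Set.exists_min_image _ (fun c : F => c.1.sz) hfin hne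
  have hsz : 0 < c1.1.sz := Bx.sz_pos (BF.pos _ c1.2)
  refine ⟨⟨Cs (Fintype.card κ) δ R / c1.1.sz, div_nonneg (Cs_nonneg hδ hR) hsz.le⟩,
    Metric.ball y ρ, mem_nhdsWithin_of_mem_nhds (Metric.ball_mem_nhds y hρ0), ?_⟩
  refine LipschitzOnWith.of_dist_le_mul fun x hx x' hx' => ?_
  rw [Real.dist_eq, dist_eq_norm]
  refine lip_convex BF hLa hδ hR hcmp (convex_ball y ρ) hfin ?_ hsz hmin c x hx x' hx'
  intro p hp
  obtain ⟨c', hc'⟩ := FF.cov p (hball (Metric.ball_subset_ball (min_le_right _ _) hp))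
  exact mem_iUnion₂.2 ⟨c', ⟨p, hc', Metric.ball_subset_ball (min_le_left _ _) hp⟩, hc'⟩

/-- comparability from a scale function -/
theorem cmp_of_scale {rho : (κ → ℝ) → ℝ} {R : ℝ} (h1 : ∀ C ∈ F, ∀ x ∈ C.set, C.sz ≤ rho x)
    (h2 : ∀ C ∈ F, ∀ x ∈ C.set, rho x ≤ R * C.sz) : Cmp F R := by
  rintro c c' ⟨x, hx, hx'⟩
  exact (h1 _ c.2 x hx).trans (h2 _ c'.2 x hx')

end main

end Crest.Agent.R096.Brk5_582
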