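import Crest.Agent.R096.Mrg4_715
import Crest.Agent.R096.Sph3_560
import Crest.Agent.R096.Spp0_333

/-!
# R096 (row 96): the surface of a core (helper715)

The frontier of a core is a finite combinatorial sphere (`Sph_560.Surf`) with a geometric
realisation (`Sph_560.Real`).
-/

set_option autoImplicit false

open Set Metric Filter Topology Module
open scoped Classical

namespace Crest.Agent.R096.Msh_715

open St_147 Agl5_543 Coh_184

section Gen

variable {E : Type*} [NormedAddCommGroup E] [NormedSpace ℝ E] [FiniteDimensional ℝ E]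
variable {Om : Set E} {ι : Type*} (T : Tiling Om ι)

/-- a cochain is exact on a 1-cell -/
theorem Tiling.exact_cell1 {c : T.Cell → ZMod 2} {x : E} (hx : x ∈ Om) (hd : T.dim x = 1) :
    ∃ lam : E → ZMod 2, T.Exact (Tiling.kapC c) lam (T.cc x) := by
  obtain ⟨a0, b0, hab0, e1, e2, ha, hb, hax, hbx⟩ := T.edge_eq hx hd
  refine ⟨fun v => if v = a0 then c (T.cl hx) else 0, ?_⟩
  intro e he h1 a b hab
  have heO := T.cc_sub_Om hx he
  have hoc := Tiling.cl_eq_of_dim1 hx hd he h1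
  have hcc : T.cc e = T.cc x := T.cc_eq_of_mem_oc hx hoc
  have hcl : T.cl heO = T.cl hx := Cell.ext (by rw [T.cl_set, T.cl_set, hcc])
  rw [Tiling.kapC_cl c heO, hcl]
  obtain ⟨ha0, hb0, hae, hbe, hne⟩ := T.dim_ends heO h1 hab
  rw [hcc] at hae hbe
  have h3 := T.vertex_of_edge hx hd e1 hae ha0
  have h4 := T.vertex_of_edge hx hd e1 hbe hb0
  show (if a = a0 then c (T.cl hx) else 0) - (if b = a0 then c (T.cl hx) else 0) = c (T.cl hx)
  rcases h3 with rfl | rfl <;> rcases h4 with rfl | rfl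
  · exact absurd rfl hne
  · rw [if_pos rfl, if_neg hne.symm, sub_zero]
  · rw [if_neg hne, if_pos rfl, zero_sub, ZMod.neg_eq_self_mod_two]
  · exact absurd rfl hne

/-- **`H¹ = 0` on cells for two-dimensional compact subcomplexes with trivial torsors** -/
theorem Tiling.exact_sub {S : Set E} (hS : IsCompact S) (hSO : S ⊆ Om)
    (hScc : ∀ x ∈ S, T.cc x ⊆ S) (hSd : ∀ x ∈ S, T.dim x ≤ 2) (ht : TrivF (ZMod 2) S)
    {c : T.Cell → ZMod 2} (heven : ∀ x ∈ S, T.dim x = 2 → ∑ e ∈ T.edges x, c e = 0) :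
    ∃ ψ : E → ZMod 2, ∀ e : T.Cell, e.dim = 1 → e.set ⊆ S → ∀ a b : E, e.set = segment ℝ a b →
      ψ a + ψ b = c e := by
  have hfin := T.finite_cells hS hSO
  let J := {c : Set E // (∃ x ∈ Om, c = T.cc x) ∧ (c ∩ S).Nonempty ∧ c ⊆ S}
  have hJfin : Finite J := by
    have : {c : Set E | (∃ x ∈ Om, c = T.cc x) ∧ (c ∩ S).Nonempty ∧ c ⊆ S}.Finite :=
      hfin.subset fun c hc => ⟨hc.1, hc.2.1⟩
    exact this
  have hrep : ∀ j : J, ∃ x ∈ S, j.1 = T.cc x := by
    rintro ⟨c, ⟨x, hx, rfl⟩, hne, hcS⟩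
    exact ⟨x, hcS (T.self_mem_cc x), rfl⟩
  obtain ⟨ψ, hψ⟩ := T.glue (J := J) (Q := fun j => j.1) (S := S) (κ := Tiling.kapC c)
    (fun j => by
      obtain ⟨x, hx, e⟩ := hrep j
      rw [e]; exact T.isClosed_cc x)
    (fun j => j.2.2.2.trans hSO)
    (fun j y hy => by
      obtain ⟨x, hx, e⟩ := hrep j
      rw [e] at hy ⊢
      exact T.cc_sub_of_mem hy)
    ht
    (fun x hx => mem_iUnion.2 ⟨⟨T.cc x, ⟨x, hSO hx, rfl⟩, ⟨x, T.self_mem_cc x, hx⟩, hScc x hx⟩,
      T.self_mem_cc x⟩)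
    (fun j => by
      rw [Set.inter_eq_left.2 j.2.2.2]
      obtain ⟨x, hx, e⟩ := hrep j
      rw [e]; exact (T.convex_cc x).isPreconnected)
    (fun j => by
      obtain ⟨x, hx, e⟩ := hrep j
      rw [e]
      have hd := hSd x hx
      rcases Nat.lt_or_ge (T.dim x) 1 with h | h
      · refine ⟨fun _ => 0, Tiling.Exact.of_dim T _ fun y hy => ?_⟩
        have := T.dim_le hy
        omega
      rcases Nat.lt_or_ge (T.dim x) 2 with h' | h'
      · exact T.exact_cell1 (hSO hx) (by omega)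
      · exact Tiling.exact_cell2C (hSO hx) (by omega) (heven x hx (by omega)))
  refine ⟨ψ, fun e h1 heS a b hab => ?_⟩
  have h := hψ e.pt e.pt_mem h1 (by rw [← e.set_eq]; exact heS) a b (by rw [← e.set_eq]; exact hab)
  rw [Tiling.kapC_cl c e.pt_mem] at h
  rw [← CharTwo.sub_eq_add, h]
  congr 1
  exact (Cell.ext (by rw [T.cl_set, e.set_eq]))

end Gen

/-! ### the surface -/

section Surface

variable {E : Type} [NormedAddCommGroup E] [NormedSpace ℝ E] [FiniteDimensional ℝ E]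
variable {Om : Set E} {ι : Type} {T : Tiling Om ι} {κ : Type} {Kc : κ → Set E}

/-- 2-cells of the frontier of the core -/
abbrev FcK (T : Tiling Om ι) (Kc : κ → Set E) (c : κ) : Type :=
  {F : C2 T // F.set ⊆ frontier (Kc c)}

theorem finite_EdK {c : κ} (hc : IsCompact (Kc c)) (hKO : Kc c ⊆ Om) : Finite (EdK T Kc c) := by
  have hS : IsCompact (frontier (Kc c)) := hc.of_isClosed_subset isClosed_frontier
    hc.isClosed.frontier_subset
  exact T.finite_cells1 hS (hc.isClosed.frontier_subset.trans hKO)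



/-- ends of an edge -/
noncomputable def endK {c : κ} (e : EdK T Kc c) (b : Bool) : VxK T Kc c :=
  ⟨endp e.1 b, (endp_mem e.2.1 b).2, e.2.2 (endp_mem e.2.1 b).1⟩

theorem endK_iff {c : κ} (e : EdK T Kc c) (v : VxK T Kc c) :
    (∃ b, endK e b = v) ↔ v.1 ∈ e.1.set := by
  rw [endp_iff e.2.1 v.2.1]
  exact ⟨fun ⟨b, hb⟩ => ⟨b, congrArg Subtype.val hb⟩, fun ⟨b, hb⟩ => ⟨b, Subtype.ext hb⟩⟩



theorem seg_endK {c : κ} (e : EdK T Kc c) :
    e.1.set = segment ℝ (endK e false).1 (endK e true).1 := (lft_rgt e.2.1).2.1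

/-- the hypotheses on a core -/
structure CoreH (T : Tiling Om ι) (K : Set E) : Prop where
  core : Core K
  sub : K ⊆ Om
  cpt : IsCompact K
  cc : ∀ x ∈ frontier K, T.cc x ⊆ frontier K
  pc : PC (frontier K)
  conn : IsPreconnected (frontier K)
  nt : (frontier K).Nontrivial
  triv : TrivF (ZMod 2) (frontier K)



/-- every point of the frontier is on a face -/
theorem exists_face (h3 : finrank ℝ E = 3) (hH : ∀ c, CoreH T (Kc c)) {c : κ}
    {y : E} (hy : y ∈ frontier (Kc c)) :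
    ∃ F : C2 T, F.set ⊆ frontier (Kc c) ∧ y ∈ F.set := by
  have hK : ∀ c, Core (Kc c) := fun c => (hH c).core
  have hKO : ∀ c, Kc c ⊆ Om := fun c => (hH c).sub
  have hs : ∀ c, ∀ x ∈ frontier (Kc c), T.cc x ⊆ frontier (Kc c) := fun c => (hH c).cc
  obtain ⟨hyK⟩ : y ∈ Kc c ∧ True := ⟨(hK c).closed.frontier_subset hy, trivial⟩
  obtain ⟨q, hq, hqK⟩ := T.exists_inner (hK c) (hKO c) (hs c) hyK
  -- a 2-cell near `y`
  have hd := dim_le_two (T := T) h3 (hK c) (hKO c) (hs c) hy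
  have hyO := hKO c hyK
  rcases Nat.lt_or_ge (T.dim y) 2 with h | h
  swap
  · exact ⟨mk2 T hyO (by omega), hs c y hy, T.self_mem_cc y⟩
  rcases Nat.lt_or_ge (T.dim y) 1 with h' | h'
  swap
  · have h1 := fcK_sub (h3 := h3) (hK := hK) (hKO := hKO) (hs := hs)
      (edK T Kc hs hyO hy (by omega)) true
    exact ⟨_, h1.1, h1.2 (by show y ∈ (T.cl hyO).set; rw [T.cl_set]; exact T.self_mem_cc y)⟩
  -- a vertex: the frontier has no isolated points
  have hy0 : T.dim y = 0 := by omega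
  obtain ⟨V, hV, R, hR, hVR, hRU⟩ := (hH c).pc y hy _ (T.good_nhds hyO)
  have hex : ∃ z ∈ frontier (Kc c), z ≠ y ∧ z ∈ V := by
    by_contra hcon
    push Not at hcon
    -- `{y}` is open in the frontier
    have hsing : frontier (Kc c) ⊆ {y} := by
      have hpre := (hH c).conn
      obtain ⟨O, hOV, hO, hyO'⟩ := _root_.mem_nhds_iff.1 hV
      intro z hz
      by_contra hzy
      have h5 := hpre O {y}ᶜ hO isOpen_compl_singleton
        (fun w hw => by
          by_cases hwy : w = y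
          · left; rw [hwy]; exact hyO'
          · exact Or.inr hwy) ⟨y, hy, hyO'⟩ ⟨z, hz, hzy⟩
      obtain ⟨w, hw1, hw2, hw3⟩ := h5
      exact hcon w hw1 hw3 (hOV hw2)
    exact (hH c).nt.not_subset_singleton hsing
  obtain ⟨z, hz, hzy, hzV⟩ := hex
  obtain ⟨⟨hzO, _, hyz⟩, _, _⟩ := hRU (hVR ⟨hzV, hz, hzy⟩)
  have hdz := dim_le_two (T := T) h3 (hK c) (hKO c) (hs c) hz
  have hdz0 : T.dim z ≠ 0 := by
    intro h0
    rw [T.cc_eq_singleton (T.dim_eq_zero_iff.1 h0), mem_singleton_iff] at hyz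
    exact hzy hyz.symm
  rcases Nat.lt_or_ge (T.dim z) 2 with h2 | h2
  · have h1 := fcK_sub (h3 := h3) (hK := hK) (hKO := hKO) (hs := hs)
      (edK T Kc hs hzO hz (by omega)) true
    exact ⟨_, h1.1, h1.2 (by show y ∈ (T.cl hzO).set; rw [T.cl_set]; exact hyz)⟩
  · exact ⟨mk2 T hzO (by omega), hs c z hz, hyz⟩


/-- **`H¹ = 0` of the frontier of a core, on cells** -/
theorem exactK (hH : ∀ c, CoreH T (Kc c)) (h3 : finrank ℝ E = 3) (c : κ) [Fintype (EdK T Kc c)]
    (k : EdK T Kc c → ZMod 2)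
    (hk : ∀ F : FcK T Kc c, (∑ e, if e.1.set ⊆ F.1.set then k e else 0) = 0) :
    ∃ ψ : VxK T Kc c → ZMod 2, ∀ e, k e = ψ (endK e false) + ψ (endK e true) := by
  have hS : IsCompact (frontier (Kc c)) := (hH c).cpt.of_isClosed_subset isClosed_frontier
    (hH c).cpt.isClosed.frontier_subset
  have hSO : frontier (Kc c) ⊆ Om := (hH c).cpt.isClosed.frontier_subset.trans (hH c).sub
  let k' : T.Cell → ZMod 2 := fun e =>
    if h : e.dim = 1 ∧ e.set ⊆ frontier (Kc c) then k ⟨e, h⟩ else 0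
  have hk' : ∀ e : EdK T Kc c, k' e.1 = k e := fun e => dif_pos e.2
  obtain ⟨ψ, hψ⟩ := T.exact_sub hS hSO (hH c).cc
    (fun x hx => dim_le_two h3 (hH c).core (hH c).sub (hH c).cc hx) (hH c).triv (c := k') (by
      intro x hx hd
      have hxO := hSO hx
      have h1 := hk ⟨mk2 T hxO hd, (hH c).cc x hx⟩
      rw [← h1, ← Finset.sum_filter]
      have himg : T.edges x = (Finset.univ.filter fun e : EdK T Kc c =>
          e.1.set ⊆ (mk2 T hxO hd).set).image (fun e => e.1) := by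
        ext e
        rw [Tiling.mem_edges hxO, Finset.mem_image]
        constructor
        · rintro ⟨h4, h5⟩
          exact ⟨⟨e, h4, h5.trans ((hH c).cc x hx)⟩, Finset.mem_filter.2 ⟨Finset.mem_univ _, h5⟩, rfl⟩
        · rintro ⟨e', he', rfl⟩
          exact ⟨e'.2.1, (Finset.mem_filter.1 he').2⟩
      rw [himg, Finset.sum_image (fun a _ b _ h => Subtype.ext h)]
      exact Finset.sum_congr rfl fun e _ => hk' e)
  refine ⟨fun v => ψ v.1, fun e => ?_⟩
  rw [← hk' e]
  exact (hψ e.1 e.2.1 e.2.2 _ _ (seg_endK e)).symm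



/-- **the 1-skeleton of the frontier of a core is connected** -/
theorem con_VxK (hH : ∀ c, CoreH T (Kc c)) (c : κ) {A : Type*} (φ : VxK T Kc c → A)
    (hφ : ∀ e : EdK T Kc c, φ (endK e false) = φ (endK e true)) : ∀ v w, φ v = φ w := by
  intro v w
  have hSO : frontier (Kc c) ⊆ Om := (hH c).cpt.isClosed.frontier_subset.trans (hH c).sub
  let φ' : E → Option A := fun x => if h : T.dim x = 0 ∧ x ∈ frontier (Kc c) then some (φ ⟨x, h⟩)
    else none
  have hφ' : ∀ v : VxK T Kc c, φ' v.1 = some (φ v) := fun v => dif_pos v.2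
  have h1 := T.const_of_preconnected (φ := φ') (hH c).conn hSO (hH c).cc (by
    intro e he h1 a b hab
    have heO := hSO he
    have hsub : (T.cl heO).set ⊆ frontier (Kc c) := by rw [T.cl_set]; exact (hH c).cc e he
    set g : EdK T Kc c := ⟨T.cl heO, (T.dim_cl heO).trans h1, hsub⟩ with hg
    obtain ⟨ha0, hb0, hae, hbe, hne⟩ := T.dim_ends heO h1 hab
    have hset : g.1.set = T.cc e := T.cl_set heO
    have hae' : a ∈ g.1.set := by rw [hset]; exact hae
    have hbe' : b ∈ g.1.set := by rw [hset]; exact hbe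
    have haF : a ∈ frontier (Kc c) := hsub hae'
    have hbF : b ∈ frontier (Kc c) := hsub hbe'
    obtain ⟨i, hi⟩ := (endK_iff g ⟨a, ha0, haF⟩).2 hae'
    obtain ⟨j, hj⟩ := (endK_iff g ⟨b, hb0, hbF⟩).2 hbe'
    show φ' a = φ' b
    have e1 : φ' a = some (φ (endK g i)) := by rw [hi]; exact hφ' ⟨a, ha0, haF⟩
    have e2 : φ' b = some (φ (endK g j)) := by rw [hj]; exact hφ' ⟨b, hb0, hbF⟩
    rw [e1, e2]
    congr 1
    cases i <;> cases j
    · rfl
    · exact hφ g
    · exact (hφ g).symm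
    · rfl) v.1 v.2.2 w.1 w.2.2 v.2.1 w.2.1
  rw [hφ', hφ'] at h1
  exact Option.some_injective _ h1

end Surface

end Crest.Agent.R096.Msh_715
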