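import Crest.Agent.R096.Lab4_184
import Crest.Agent.R096.Agl5_543
import Crest.Agent.R096.Ac6_117
import Crest.Agent.R096.Mrg5_715
import Crest.Agent.R096.Qp1_106

-- ▼ part R096/Spm1_662
section

/-! Row 96, SPHM (helper662), part 1: counting on a circle with the end point, and the reversed
parametrisation of the boundary of a 2-cell, which gives `F.pos` exactly. -/

set_option autoImplicit false
set_option linter.unusedSectionVars false

open Set Topology Filter Metric

namespace Crest.Agent.R096.Spm_662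

open Crest.Agent.R096.Msh_715 Crest.Agent.R096.Agl1_543 Crest.Agent.R096.Agl5_543
  Crest.Agent.R096.Pat5_543 Crest.Agent.R096.Lab_184

section loop

variable {X : Type*} [TopologicalSpace X] [T2Space X] {γ : ℝ → X} {C : Set X}

open Classical in
/-- `cnt` as a sum in `ZMod 2` -/
theorem cnt_eq_sum (Q : Finset X) (p : X) : ((cnt γ Q p : ℕ) : ZMod 2) =
    ∑ v ∈ Q, (if lpos γ v < lpos γ p then (1 : ZMod 2) else 0) := by
  have e : cnt γ Q p = (Q.filter fun w => lpos γ w < lpos γ p).card := rfl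
  rw [e, Finset.card_filter]
  push_cast
  rfl

open Classical in
/-- an arc seen on the circle, one of whose end points (`w`) may be counted -/
theorem arc_point (h : Loop γ C) {a w : X} (haw : a ≠ w) {J : Set X} (hJ : IsPreconnected J)
    (ha : a ∈ J) (hw : w ∈ J) (hJC : J ⊆ C) (hJ' : IsPreconnected (J \ {a, w})) :
    ∃ ε δ : ZMod 2, ∀ v ∈ C, v ≠ a →
      (if lpos γ v < lpos γ a then (1 : ZMod 2) else 0) + (if lpos γ v < lpos γ w then 1 else 0) =
        (if v ∈ J then 1 else 0) + (if v = w then ε else 0) + δ := by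
  obtain ⟨⟨ha0, ha2⟩, hga⟩ := h.lpos_mem (hJC ha)
  obtain ⟨⟨hw0, hw2⟩, hgw⟩ := h.lpos_mem (hJC hw)
  have hinj : ∀ {u v : X}, u ∈ C → v ∈ C → lpos γ u = lpos γ v → u = v := by
    intro u v hu hv huv
    rw [← (h.lpos_mem hu).2, ← (h.lpos_mem hv).2, huv]
  have hne : lpos γ a ≠ lpos γ w := fun h1 => haw (hinj (hJC ha) (hJC hw) h1)
  have hvw : ∀ v ∈ C, (v = w ↔ lpos γ v = lpos γ w) := fun v hv =>
    ⟨fun h1 => by rw [h1], fun h1 => hinj hv (hJC hw) h1⟩
  have hva : ∀ v ∈ C, v ≠ a → lpos γ v ≠ lpos γ a := fun v hv h1 h2 => h1 (hinj hv (hJC ha) h2)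
  have two : (1 : ZMod 2) + 1 = 0 := by decide
  rcases lt_or_gt_of_ne hne with hlt | hlt
  · rcases h.arc ha0 hlt hw2 hJ (by rw [hga]; exact ha) (by rw [hgw]; exact hw) hJC
      (by rw [hga, hgw]; exact hJ') with hJe | hJe
    · refine ⟨1, 0, fun v hv hva' => ?_⟩
      have h1 := hva v hv hva'
      have h2 := hvw v hv
      have h3 : v ∈ J ↔ lpos γ a ≤ lpos γ v ∧ lpos γ v ≤ lpos γ w := by
        rw [hJe]; exact h.mem_arc1 ha0 hw2 hv
      rw [if_congr h3 rfl rfl, if_congr h2 rfl rfl]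
      rcases lt_or_gt_of_ne h1 with h4 | h4
      · rw [if_pos h4, if_pos (h4.trans hlt), if_neg (fun h5 => absurd h4 (not_lt.2 h5.1)),
          if_neg (fun h5 => by rw [h5] at h4; exact absurd h4 (not_lt.2 hlt.le))]
        decide
      · rcases lt_trichotomy (lpos γ v) (lpos γ w) with h5 | h5 | h5
        · rw [if_neg (not_lt.2 h4.le), if_pos h5, if_pos ⟨h4.le, h5.le⟩, if_neg h5.ne]
          decide
        · rw [if_neg (not_lt.2 h4.le), if_neg (not_lt.2 h5.ge), if_pos ⟨h4.le, h5.le⟩, if_pos h5]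
          decide
        · rw [if_neg (not_lt.2 h4.le), if_neg (not_lt.2 h5.le),
            if_neg (fun h6 => absurd h5 (not_lt.2 h6.2)), if_neg h5.ne']
          decide
    · refine ⟨0, 1, fun v hv hva' => ?_⟩
      have h1 := hva v hv hva'
      have h3 : v ∈ J ↔ lpos γ v ≤ lpos γ a ∨ lpos γ w ≤ lpos γ v := by
        rw [hJe]; exact h.mem_arc2 ha0 hlt hw2 hv
      rw [if_congr h3 rfl rfl]
      simp only [ite_self, add_zero]
      rcases lt_or_gt_of_ne h1 with h4 | h4
      · rw [if_pos h4, if_pos (h4.trans hlt), if_pos (Or.inl h4.le)]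
      · rcases lt_or_ge (lpos γ v) (lpos γ w) with h5 | h5
        · rw [if_neg (not_lt.2 h4.le), if_pos h5, if_neg]
          rintro (h6 | h6)
          · exact absurd h4 (not_lt.2 h6)
          · exact absurd h5 (not_lt.2 h6)
        · rw [if_neg (not_lt.2 h4.le), if_neg (not_lt.2 h5), if_pos (Or.inr h5)]
          decide
  · have hJ'' : IsPreconnected (J \ {w, a}) := by rw [pair_comm]; exact hJ'
    rcases h.arc hw0 hlt ha2 hJ (by rw [hgw]; exact hw) (by rw [hga]; exact ha) hJC
      (by rw [hgw, hga]; exact hJ'') with hJe | hJe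
    · refine ⟨0, 0, fun v hv hva' => ?_⟩
      have h1 := hva v hv hva'
      have h3 : v ∈ J ↔ lpos γ w ≤ lpos γ v ∧ lpos γ v ≤ lpos γ a := by
        rw [hJe]; exact h.mem_arc1 hw0 ha2 hv
      rw [if_congr h3 rfl rfl]
      simp only [ite_self, add_zero]
      rcases lt_or_gt_of_ne h1 with h4 | h4
      · rcases lt_or_ge (lpos γ v) (lpos γ w) with h5 | h5
        · rw [if_pos h4, if_pos h5, if_neg (fun h6 => absurd h5 (not_lt.2 h6.1))]
          decide
        · rw [if_pos h4, if_neg (not_lt.2 h5), if_pos ⟨h5, h4.le⟩]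
          decide
      · rw [if_neg (not_lt.2 h4.le), if_neg (not_lt.2 (hlt.trans h4).le),
          if_neg (fun h6 => absurd h4 (not_lt.2 h6.2))]
        decide
    · refine ⟨1, 1, fun v hv hva' => ?_⟩
      have h1 := hva v hv hva'
      have h2 := hvw v hv
      have h3 : v ∈ J ↔ lpos γ v ≤ lpos γ w ∨ lpos γ a ≤ lpos γ v := by
        rw [hJe]; exact h.mem_arc2 hw0 hlt ha2 hv
      rw [if_congr h3 rfl rfl, if_congr h2 rfl rfl]
      rcases lt_or_gt_of_ne h1 with h4 | h4
      · rcases lt_trichotomy (lpos γ v) (lpos γ w) with h5 | h5 | h5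
        · rw [if_pos h4, if_pos h5, if_pos (Or.inl h5.le), if_neg h5.ne]
          decide
        · rw [if_pos h4, if_neg (not_lt.2 h5.ge), if_pos (Or.inl h5.le), if_pos h5]
          decide
        · rw [if_pos h4, if_neg (not_lt.2 h5.le), if_neg, if_neg h5.ne']
          · decide
          · rintro (h6 | h6)
            · exact absurd h5 (not_lt.2 h6)
            · exact absurd h4 (not_lt.2 h6)
      · rw [if_neg (not_lt.2 h4.le), if_neg (not_lt.2 (hlt.trans h4).le), if_pos (Or.inr h4.le),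
          if_neg (hlt.trans h4).ne']
        decide

open Classical in
/-- **counting with the end point `w`** -/
theorem arc_count_end (h : Loop γ C) {a w : X} (haw : a ≠ w) {J : Set X} (hJ : IsPreconnected J)
    (ha : a ∈ J) (hw : w ∈ J) (hJC : J ⊆ C) (hJ' : IsPreconnected (J \ {a, w})) :
    ∃ ε : ZMod 2, ∀ Q : Finset X, ↑Q ⊆ C → Even Q.card → a ∉ Q →
      ((cnt γ Q a : ℕ) : ZMod 2) + (cnt γ Q w : ℕ) =
        ((Q.filter (· ∈ J)).card : ZMod 2) + (if w ∈ Q then ε else 0) := by
  obtain ⟨ε, δ, hk⟩ := arc_point h haw hJ ha hw hJC hJ'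
  refine ⟨ε, fun Q hQ he haQ => ?_⟩
  rw [cnt_eq_sum, cnt_eq_sum, ← Finset.sum_add_distrib,
    Finset.sum_congr rfl fun v hv => hk v (hQ hv) (fun h1 => haQ (h1 ▸ hv)),
    Finset.sum_add_distrib, Finset.sum_add_distrib, Finset.sum_ite_eq', Finset.sum_const,
    Finset.card_filter]
  have h7 : ((Q.card : ℕ) : ZMod 2) = 0 := by
    rw [ZMod.natCast_eq_zero_iff]; exact he.two_dvd
  rw [nsmul_eq_mul, h7, zero_mul, add_zero]
  push_cast
  rfl

open Classical in
/-- the points above `w` -/
theorem count_above (h : Loop γ C) {Q : Finset X} (hQ : ↑Q ⊆ C) (he : Even Q.card) {w : X}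
    (hw : w ∈ C) : ((Q.filter fun v => lpos γ w < lpos γ v).card : ZMod 2) =
      (cnt γ Q w : ℕ) + (if w ∈ Q then 1 else 0) := by
  have hinj : ∀ {u v : X}, u ∈ C → v ∈ C → lpos γ u = lpos γ v → u = v := by
    intro u v hu hv huv
    rw [← (h.lpos_mem hu).2, ← (h.lpos_mem hv).2, huv]
  have h7 : ((Q.card : ℕ) : ZMod 2) = 0 := by
    rw [ZMod.natCast_eq_zero_iff]; exact he.two_dvd
  have h8 : ∑ v ∈ Q, (1 : ZMod 2) = 0 := by
    rw [Finset.sum_const, nsmul_eq_mul, h7, zero_mul]
  have h9 : ∑ v ∈ Q, ((if lpos γ w < lpos γ v then (1 : ZMod 2) else 0) +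
      ((if lpos γ v < lpos γ w then (1 : ZMod 2) else 0) + (if v = w then 1 else 0))) = 0 := by
    refine Eq.trans (Finset.sum_congr rfl fun v hv => ?_) h8
    rcases lt_trichotomy (lpos γ v) (lpos γ w) with h5 | h5 | h5
    · rw [if_neg (not_lt.2 h5.le), if_pos h5, if_neg (fun h6 => by rw [h6] at h5; exact lt_irrefl _ h5)]
      decide
    · rw [if_neg (not_lt.2 h5.le), if_neg (not_lt.2 h5.ge), if_pos (hinj (hQ hv) hw h5)]
      decide
    · rw [if_pos h5, if_neg (not_lt.2 h5.le), if_neg (fun h6 => by rw [h6] at h5; exact lt_irrefl _ h5)]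
      decide
  rw [Finset.sum_add_distrib, Finset.sum_add_distrib, Finset.sum_ite_eq', ← cnt_eq_sum] at h9
  rw [Finset.card_filter]
  push_cast
  exact CharTwo.add_eq_zero.1 h9

end loop

section rev

theorem isDisc_rev {X : Type*} [TopologicalSpace X] {e : ℂ → X} {F C : Set X}
    (h : IsDisc e F C) : IsDisc (fun z => e (-(starRingEnd ℂ z))) F C := by
  have hn : ∀ z : ℂ, ‖-(starRingEnd ℂ z)‖ = ‖z‖ := fun z => by rw [norm_neg, RCLike.norm_conj]
  have hc : ∀ z ∈ closedBall (0 : ℂ) 1, -(starRingEnd ℂ z) ∈ closedBall (0 : ℂ) 1 := by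
    intro z hz
    rw [mem_closedBall_zero_iff] at hz ⊢
    rw [hn]; exact hz
  have hs : ∀ z ∈ sphere (0 : ℂ) 1, -(starRingEnd ℂ z) ∈ sphere (0 : ℂ) 1 := by
    intro z hz
    rw [mem_sphere_zero_iff_norm] at hz ⊢
    rw [hn]; exact hz
  have hinv : ∀ z : ℂ, -(starRingEnd ℂ (-(starRingEnd ℂ z))) = z := by
    intro z; rw [map_neg, Complex.conj_conj, neg_neg]
  refine ⟨?_, ?_, ?_, ?_⟩
  · refine h.cont.comp ?_ hc
    exact (Complex.continuous_conj.neg).continuousOn
  · intro z hz z' hz' hzz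
    have h1 := h.inj (hc z hz) (hc z' hz') hzz
    rw [← hinv z, ← hinv z', h1]
  · rw [← h.img]
    apply Subset.antisymm
    · rintro _ ⟨z, hz, rfl⟩; exact ⟨_, hc z hz, rfl⟩
    · rintro _ ⟨z, hz, rfl⟩
      exact ⟨_, hc z hz, by show e _ = e z; rw [hinv]⟩
  · rw [← h.bd]
    apply Subset.antisymm
    · rintro _ ⟨z, hz, rfl⟩; exact ⟨_, hs z hz, rfl⟩
    · rintro _ ⟨z, hz, rfl⟩
      exact ⟨_, hs z hz, by show e _ = e z; rw [hinv]⟩

variable {E : Type} [NormedAddCommGroup E] [NormedSpace ℝ E] [FiniteDimensional ℝ E]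
  {Om : Set E} {ι : Type} {T : Tiling Om ι}

/-- the boundary loop of a 2-cell, in the direction of decreasing `pos` -/
noncomputable def gam (F : C2 T) : ℝ → E :=
  fun θ => F.par (-(starRingEnd ℂ (Complex.exp (Real.pi * θ * Complex.I))))

theorem loop_gam (F : C2 T) : Loop (gam F) F.bd := loop_of_disc (isDisc_rev F.isDisc)

theorem pos_eq (F : C2 T) {p : E} (hp : p ∈ F.bd) :
    F.pos p = Real.pi * (1 - lpos (gam F) p) := by
  obtain ⟨⟨h0, h2⟩, h3⟩ := (loop_gam F).lpos_mem hp
  set l := lpos (gam F) p with hl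
  have e1 : -(starRingEnd ℂ (Complex.exp (Real.pi * l * Complex.I))) =
      Complex.exp ((Real.pi * (1 - l) : ℝ) * Complex.I) := by
    rw [← Complex.exp_conj]
    have e2 : starRingEnd ℂ (Real.pi * l * Complex.I) = -(Real.pi * l * Complex.I) := by
      simp
    rw [e2]
    have e3 : (((Real.pi * (1 - l) : ℝ) : ℂ) * Complex.I) =
        Real.pi * Complex.I + -(Real.pi * l * Complex.I) := by push_cast; ring
    rw [e3, Complex.exp_add, Complex.exp_pi_mul_I]; ring
  have e4 : F.inv p = Complex.exp ((Real.pi * (1 - l) : ℝ) * Complex.I) := by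
    rw [← e1, ← h3]
    refine F.inv_par ?_
    rw [e1, mem_closedBall_zero_iff]
    exact (Complex.norm_exp_ofReal_mul_I _).le
  show Complex.arg (F.inv p) = _
  rw [e4, Complex.exp_mul_I]
  have hpi := Real.pi_pos
  refine Complex.arg_cos_add_sin_mul_I ⟨?_, ?_⟩
  · nlinarith
  · nlinarith

theorem pos_lt_iff (F : C2 T) {p p' : E} (hp : p ∈ F.bd) (hp' : p' ∈ F.bd) :
    F.pos p < F.pos p' ↔ lpos (gam F) p' < lpos (gam F) p := by
  rw [pos_eq F hp, pos_eq F hp', mul_lt_mul_iff_right₀ Real.pi_pos]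
  constructor <;> intro h <;> linarith

end rev

end Crest.Agent.R096.Spm_662
end

-- ▼ part R096/Spm2_662
section

/-! Row 96, SPHM (helper662), part 2: **the boundary of a tile is a sphere** in the form
`Ac_117.SphM (Agl5_543.meshC T h3) q`, from the labels of helper184 on the tile. -/

set_option autoImplicit false
set_option linter.unusedSectionVars false

open Set Topology Filter Metric

namespace Crest.Agent.R096.Spm_662

open Crest.Agent.R096.Msh_715 Crest.Agent.R096.Agl1_543 Crest.Agent.R096.Agl5_543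
  Crest.Agent.R096.Pat5_543 Crest.Agent.R096.Lab_184 Crest.Agent.R096.St_147
  Crest.Agent.R096.Ac_117

variable {E : Type} [NormedAddCommGroup E] [NormedSpace ℝ E] [FiniteDimensional ℝ E]
  {Om : Set E} {ι : Type} {T : Tiling Om ι}

open Classical in
/-- the points of `y` on the boundary of `F` -/
noncomputable def yF (y : Finset E) (F : C2 T) : Finset E := y.filter (fun v => v ∈ F.On)

theorem mem_yF {y : Finset E} {F : C2 T} {v : E} : v ∈ yF y F ↔ v ∈ y ∧ v ∈ F.On := by
  classical
  unfold yF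
  rw [Finset.mem_filter]

theorem yF_sub (y : Finset E) (F : C2 T) : (yF y F : Set E) ⊆ F.bd :=
  fun _ hv => F.on_sub_bd (mem_yF.1 (Finset.mem_coe.1 hv)).2

open Classical in
/-- `cntP` in terms of the loop -/
theorem cntP_eq (h3 : Module.finrank ℝ E = 3) (y : Finset E) (F : C2 T)
    (he : Even (yF y F).card) {w : E} (hw : w ∈ F.bd) :
    cntP (meshC T h3) y F (F.pos w) =
      (cnt (gam F) (yF y F) w : ℕ) + (if w ∈ yF y F then 1 else 0) := by
  rw [← count_above (loop_gam F) (yF_sub y F) he hw]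
  have e1 : (y.filter (fun v => v ∈ (meshC T h3).On F ∧ (meshC T h3).pos F v < F.pos w)) =
      (yF y F).filter (fun v => lpos (gam F) w < lpos (gam F) v) := by
    ext v
    rw [Finset.mem_filter, Finset.mem_filter, mem_yF]
    constructor
    · rintro ⟨h1, h2, h4⟩
      exact ⟨⟨h1, h2⟩, (pos_lt_iff F (F.on_sub_bd h2) hw).1 h4⟩
    · rintro ⟨⟨h1, h2⟩, h4⟩
      exact ⟨h1, h2, (pos_lt_iff F (F.on_sub_bd h2) hw).2 h4⟩
  unfold cntP
  rw [e1]

/-- a chosen end point of the 1-cell of `w` -/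
theorem exists_end {w : E} (hw : w ∈ Om) (hd : T.dim w = 1) :
    ∃ a : E, T.dim a = 0 ∧ a ∈ T.cc w ∧ a ≠ w ∧ segment ℝ a w ⊆ T.cc w ∧
      ∀ v ∈ segment ℝ a w, v ≠ a → T.dim v = 1 := by
  obtain ⟨a, b, hab, h1, h2, h3, h4, h5, h6⟩ := T.edge_eq hw hd
  have hseg : segment ℝ a w ⊆ T.cc w := (T.convex_cc w).segment_subset h5 (T.self_mem_cc w)
  have haw : a ≠ w := by
    rintro rfl
    omega
  refine ⟨a, h3, h5, haw, hseg, fun v hv hva => ?_⟩
  have hwo : w ∈ openSegment ℝ a b := by rw [← h2]; exact T.self_mem_oc w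
  have hvo : v ∈ openSegment ℝ a b := by
    rw [← insert_endpoints_openSegment] at hv
    rcases hv with hv | hv | hv
    · exact absurd hv hva
    · rw [hv]; exact hwo
    · obtain ⟨c, d, hc, hd', hcd, rfl⟩ := hv
      obtain ⟨s, t, hs, ht, hst, rfl⟩ := hwo
      refine ⟨c + d * s, d * t, by positivity, by positivity, ?_, ?_⟩
      · have : c + d * s + d * t = c + d * (s + t) := by ring
        rw [this, hst, mul_one, hcd]
      · rw [smul_add, smul_smul, smul_smul, add_smul, add_assoc]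
  rw [← h2] at hvo
  rw [T.dim_eq_of_mem_oc hw hvo, hd]

open Classical in
/-- the chosen end point -/
noncomputable def en (T : Tiling Om ι) (w : E) : E :=
  if h : w ∈ Om ∧ T.dim w = 1 then (exists_end h.1 h.2).choose else w

theorem en_spec {w : E} (hw : w ∈ Om) (hd : T.dim w = 1) :
    T.dim (en T w) = 0 ∧ en T w ∈ T.cc w ∧ en T w ≠ w ∧ segment ℝ (en T w) w ⊆ T.cc w ∧
      ∀ v ∈ segment ℝ (en T w) w, v ≠ en T w → T.dim v = 1 := by
  unfold en
  rw [dif_pos ⟨hw, hd⟩]
  exact (exists_end hw hd).choose_spec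

theorem cc_sub_bd (F : C2 T) {w : E} (hw : w ∈ F.On) : T.cc w ⊆ F.bd := by
  have h1 : T.cc w ⊆ T.cc F.pt := T.cc_sub_of_mem (by rw [← F.set_eq]; exact hw.1)
  intro v hv
  have h2 : v ∈ F.set := by rw [F.set_eq]; exact h1 hv
  rw [F.mem_bd_iff h2]
  have := T.dim_le hv
  have := hw.2
  omega

open Classical in
/-- **counting from the chosen vertex to `w`** -/
theorem exists_eps (F : C2 T) {w : E} (hw : w ∈ F.On) :
    ∃ ε : ZMod 2, ∀ (h3 : Module.finrank ℝ E = 3) (y : Finset E), Even (yF y F).card →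
      cntP (meshC T h3) y F (F.pos (en T w)) + cntP (meshC T h3) y F (F.pos w) =
        ((y.filter (fun v => v ∈ segment ℝ (en T w) w ∧ T.dim v = 1)).card : ZMod 2) +
          (if w ∈ y then ε else 0) := by
  have hwO : w ∈ Om := F.set_sub hw.1
  obtain ⟨h1, h2, h3, h4, h5⟩ := en_spec (T := T) hwO hw.2
  have hJ : segment ℝ (en T w) w ⊆ F.bd := h4.trans (cc_sub_bd F hw)
  have hop : segment ℝ (en T w) w \ {en T w, w} = openSegment ℝ (en T w) w := by
    rw [← insert_endpoints_openSegment]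
    ext v
    simp only [Set.mem_sdiff, mem_insert_iff, mem_singleton_iff]
    constructor
    · rintro ⟨h7 | h7 | h7, h8⟩
      · exact absurd (Or.inl h7) h8
      · exact absurd (Or.inr h7) h8
      · exact h7
    · intro h7
      refine ⟨Or.inr (Or.inr h7), ?_⟩
      rintro (rfl | rfl)
      · exact h3 (left_mem_openSegment_iff.1 h7)
      · exact h3 (right_mem_openSegment_iff.1 h7)
  obtain ⟨ε, hε⟩ := arc_count_end (loop_gam F) h3 (convex_segment _ _).isPreconnected
    (left_mem_segment ℝ _ _) (right_mem_segment ℝ _ _) hJ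
    (by rw [hop]; exact (convex_openSegment _ _).isPreconnected)
  refine ⟨ε + 1, fun hfr y he => ?_⟩
  have ha : en T w ∉ yF y F := fun h => by
    have := (mem_yF.1 h).2.2
    omega
  have hwy : w ∈ yF y F ↔ w ∈ y := by
    rw [mem_yF]
    exact ⟨fun h => h.1, fun h => ⟨h, hw⟩⟩
  have e1 := hε (yF y F) (yF_sub y F) he ha
  rw [cntP_eq hfr y F he (hJ (left_mem_segment ℝ _ _)),
    cntP_eq hfr y F he (hJ (right_mem_segment ℝ _ _)), if_neg ha, add_zero, ← add_assoc, e1]
  have e2 : ((yF y F).filter (· ∈ segment ℝ (en T w) w)) =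
      y.filter (fun v => v ∈ segment ℝ (en T w) w ∧ T.dim v = 1) := by
    ext v
    rw [Finset.mem_filter, Finset.mem_filter, mem_yF]
    constructor
    · rintro ⟨⟨h6, h7⟩, h8⟩
      exact ⟨h6, h8, h7.2⟩
    · rintro ⟨h6, h7, h8⟩
      exact ⟨⟨h6, F.bd_sub (hJ h7), h8⟩, h7⟩
  rw [e2, if_congr hwy rfl rfl, if_congr hwy rfl rfl, add_assoc]
  congr 1
  by_cases h6 : w ∈ y
  · rw [if_pos h6, if_pos h6, if_pos h6]
  · rw [if_neg h6, if_neg h6, if_neg h6, add_zero]

open Classical in
/-- the orientation bit of the 1-cell of `w` on `F` -/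
noncomputable def eps (F : C2 T) (w : E) : ZMod 2 :=
  if h : w ∈ F.On then (exists_eps F h).choose else 0

open Classical in
theorem eps_spec (F : C2 T) {w : E} (hw : w ∈ F.On) (h3 : Module.finrank ℝ E = 3)
    (y : Finset E) (he : Even (yF y F).card) :
    cntP (meshC T h3) y F (F.pos (en T w)) + cntP (meshC T h3) y F (F.pos w) =
      ((y.filter (fun v => v ∈ segment ℝ (en T w) w ∧ T.dim v = 1)).card : ZMod 2) +
        (if w ∈ y then eps F w else 0) := by
  unfold eps
  rw [dif_pos hw]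
  exact (exists_eps F hw).choose_spec h3 y he

open Classical in
/-- counting along a full 1-cell -/
theorem cntP_edge (h3 : Module.finrank ℝ E = 3) (y : Finset E) (F : C2 T)
    (he : Even (yF y F).card) {e a b : E} (heF : e ∈ F.set) (hd : T.dim e = 1)
    (hab : T.cc e = segment ℝ a b) :
    cntP (meshC T h3) y F (F.pos a) + cntP (meshC T h3) y F (F.pos b) =
      ((y.filter (fun v => v ∈ T.cc e ∧ T.dim v = 1)).card : ZMod 2) := by
  have hOn : e ∈ F.On := ⟨heF, hd⟩
  have heO : e ∈ Om := F.set_sub heF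
  obtain ⟨hne, ha0, hb0, hop⟩ := ends_of_segment heO hd hab
  have hsub : T.cc e ⊆ F.bd := cc_sub_bd F hOn
  have ham : a ∈ T.cc e := by rw [hab]; exact left_mem_segment ℝ a b
  have hbm : b ∈ T.cc e := by rw [hab]; exact right_mem_segment ℝ a b
  have ha : a ∉ yF y F := fun h => by
    have := (mem_yF.1 h).2.2
    omega
  have hb : b ∉ yF y F := fun h => by
    have := (mem_yF.1 h).2.2
    omega
  rw [cntP_eq h3 y F he (hsub ham), cntP_eq h3 y F he (hsub hbm), if_neg ha, if_neg hb, add_zero,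
    add_zero, (loop_gam F).arc_count (yF_sub y F) he hne (T.convex_cc e).isPreconnected ham hbm
      ha hb hsub (by rw [hop]; exact (convex_openSegment a b).isPreconnected)]
  congr 2
  ext v
  rw [Finset.mem_filter, Finset.mem_filter, mem_yF]
  constructor
  · rintro ⟨⟨h6, h7⟩, h8⟩
    exact ⟨h6, h8, h7.2⟩
  · rintro ⟨h6, h7, h8⟩
    exact ⟨⟨h6, F.bd_sub (hsub h7), h8⟩, h7⟩

/-- the faces of `q` at `w` -/
theorem faces_unique (h3 : Module.finrank ℝ E = 3) {q : ι} {w : E} {F F' G G' : C2 T}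
    (hF : q ∈ F.side h3) (hF' : q ∈ F'.side h3) (hG : q ∈ G.side h3) (hG' : q ∈ G'.side h3)
    (wF : w ∈ F.On) (wF' : w ∈ F'.On) (wG : w ∈ G.On) (wG' : w ∈ G'.On) (hFF : F ≠ F')
    (hGG : G ≠ G') : (G = F ∧ G' = F') ∨ (G = F' ∧ G' = F) := by
  have hfin : {F | q ∈ (meshC T h3).side F ∧ w ∈ (meshC T h3).On F}.Finite :=
    ((meshC T h3).fin w).subset fun F hF => hF.2
  rcases (meshC T h3).deg q w with h | h
  · exfalso
    rw [Set.ncard_eq_zero hfin] at h
    have : F ∈ (∅ : Set (C2 T)) := h ▸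
      (⟨hF, wF⟩ : F ∈ {F | q ∈ (meshC T h3).side F ∧ w ∈ (meshC T h3).On F})
    exact this
  · rw [Set.ncard_eq_two] at h
    obtain ⟨K, K', hne, h⟩ := h
    have key : ∀ L : C2 T, q ∈ L.side h3 → w ∈ L.On → L = K ∨ L = K' := by
      intro L h1 h2
      have : L ∈ {F | q ∈ (meshC T h3).side F ∧ w ∈ (meshC T h3).On F} := ⟨h1, h2⟩
      rw [h] at this
      simpa using this
    rcases key F hF wF with rfl | rfl <;> rcases key F' hF' wF' with rfl | rfl <;>
      rcases key G hG wG with rfl | rfl <;> rcases key G' hG' wG' with rfl | rfl <;> tauto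

open Classical in
/-- **SPHM** (task 2178): the boundary of every tile is a sphere -/
noncomputable def sphM (T : Tiling Om ι) (h3 : Module.finrank ℝ E = 3) (q : ι) :
    SphM (meshC T h3) q where
  opp := fun w => decide (∃ F F' : C2 T, q ∈ F.side h3 ∧ q ∈ F'.side h3 ∧ w ∈ F.On ∧
    w ∈ F'.On ∧ eps F w ≠ eps F' w)
  sph := by
    intro y hy
    have hev : ∀ F : C2 T, q ∈ F.side h3 → Even (yF y F).card := fun F hF => hy F hF
    -- labels on the tile
    obtain ⟨lam, hlam⟩ := exact_tile2 (T := T) h3 (Q := y.filter (fun v => T.dim v = 1))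
      (fun w hw => (Finset.mem_filter.1 hw).2) q (by
        intro x hx hd
        have hF : q ∈ (mk2 T (T.sub q hx) hd).side h3 := by
          rw [C2.mem_side]
          have h5 : (mk2 T (T.sub q hx) hd).pt ∈ T.oc x := T.pt_cl (T.sub q hx)
          rw [T.at_eq_of_mem_oc (T.sub q hx) h5]
          exact hx
        have h1 := hev _ hF
        rw [← Set.ncard_coe_finset] at h1
        have h2 : ((yF y (mk2 T (T.sub q hx) hd) : Finset E) : Set E) =
            ((y.filter (fun v => T.dim v = 1) : Finset E) : Set E) ∩ T.cc x := by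
          ext v
          rw [Finset.mem_coe, mem_yF, mem_inter_iff, Finset.mem_coe, Finset.mem_filter]
          constructor
          · rintro ⟨h6, h7, h8⟩
            exact ⟨⟨h6, h8⟩, h7⟩
          · rintro ⟨⟨h6, h8⟩, h7⟩
            exact ⟨h6, h7, h8⟩
        rwa [h2] at h1)
    have hlam' : ∀ e ∈ P (T.H q), T.dim e = 1 → ∀ a b, T.cc e = segment ℝ a b →
        lam a + lam b = ((y.filter (fun v => v ∈ T.cc e ∧ T.dim v = 1)).card : ZMod 2) := by
      intro e he h1 a b hab
      rw [exact_kap_iff.1 hlam e he h1 a b hab, ← Set.ncard_coe_finset]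
      congr 2
      ext v
      rw [mem_inter_iff, Finset.mem_coe, Finset.mem_coe, Finset.mem_filter, Finset.mem_filter]
      constructor
      · rintro ⟨⟨h6, h8⟩, h7⟩
        exact ⟨h6, h7, h8⟩
      · rintro ⟨h6, h7, h8⟩
        exact ⟨⟨h6, h8⟩, h7⟩
    -- constancy on the vertices of a face
    have hconst : ∀ F : C2 T, q ∈ F.side h3 → ∀ v ∈ F.set, ∀ v' ∈ F.set, T.dim v = 0 →
        T.dim v' = 0 → lam v + cntP (meshC T h3) y F (F.pos v) =
          lam v' + cntP (meshC T h3) y F (F.pos v') := by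
      intro F hF
      refine T.const_of_preconnected (φ := fun v => lam v + cntP (meshC T h3) y F (F.pos v))
        (by rw [F.set_eq]; exact (T.convex_cc _).isPreconnected) F.set_sub
        (fun x hx => by rw [F.set_eq] at hx ⊢; exact T.cc_sub_of_mem hx) ?_
      intro e he h1 a b hab
      have e1 := hlam' e (C2.sub_tile hF he) h1 a b hab
      have e2 := cntP_edge h3 y F (hev F hF) he h1 hab
      have e4 : ∀ a b c d : ZMod 2, a + b = c + d → a + c = b + d := by decide
      exact e4 _ _ _ _ (e1.trans e2.symm)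
    refine ⟨fun F => if h : ∃ v, v ∈ F.set ∧ T.dim v = 0 then
      lam h.choose + cntP (meshC T h3) y F (F.pos h.choose) else 0, ?_⟩
    have main : ∀ F : C2 T, q ∈ F.side h3 → ∀ w ∈ F.On,
        (if h : ∃ v, v ∈ F.set ∧ T.dim v = 0 then
          lam h.choose + cntP (meshC T h3) y F (F.pos h.choose) else 0) +
            cntP (meshC T h3) y F (F.pos w) = lam (en T w) +
        (((y.filter (fun v => v ∈ segment ℝ (en T w) w ∧ T.dim v = 1)).card : ZMod 2) +
          (if w ∈ y then eps F w else 0)) := by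
      intro F hF w hw
      obtain ⟨h1, h2, -, -, -⟩ := en_spec (T := T) (F.set_sub hw.1) hw.2
      have h4 : en T w ∈ F.set := F.bd_sub (cc_sub_bd F hw h2)
      have h5 : ∃ v, v ∈ F.set ∧ T.dim v = 0 := ⟨_, h4, h1⟩
      rw [dif_pos h5, hconst F hF _ h5.choose_spec.1 _ h4 h5.choose_spec.2 h1, add_assoc,
        eps_spec F hw h3 y (hev F hF)]
    intro F F' w hF hF' hne hw hw'
    have e1 := main F hF w hw
    have e2 := main F' hF' w hw'
    have e3 : (if w ∈ y then eps F w else 0) = (if w ∈ y then eps F' w else 0) +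
        (if w ∈ y ∧ decide (∃ F F' : C2 T, q ∈ F.side h3 ∧ q ∈ F'.side h3 ∧ w ∈ F.On ∧
          w ∈ F'.On ∧ eps F w ≠ eps F' w) = true then (1 : ZMod 2) else 0) := by
      by_cases hwy : w ∈ y
      · rw [if_pos hwy, if_pos hwy]
        have two : ∀ s t : ZMod 2, s ≠ t → s = t + 1 := by decide
        by_cases hc : eps F w = eps F' w
        · rw [if_neg, hc, add_zero]
          rintro ⟨-, h6⟩
          obtain ⟨G, G', hG, hG', wG, wG', h7⟩ := of_decide_eq_true h6
          have hGG : G ≠ G' := fun h8 => h7 (by rw [h8])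
          rcases faces_unique h3 hF hF' hG hG' hw hw' wG wG' hne hGG with ⟨rfl, rfl⟩ | ⟨rfl, rfl⟩
          · exact h7 hc
          · exact h7 hc.symm
        · rw [if_pos ⟨hwy, decide_eq_true ⟨F, F', hF, hF', hw, hw', hc⟩⟩]
          exact two _ _ hc
      · rw [if_neg hwy, if_neg hwy, if_neg (fun h => hwy h.1), add_zero]
    refine Eq.trans e1 ?_
    rw [e3, ← add_assoc, ← add_assoc, add_assoc (lam (en T w)), ← e2]
    rfl

end Crest.Agent.R096.Spm_662
end

-- ▼ part R096/Mrg6_715

/-!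
# R096 (row 96): the shell of a core satisfies `Sph`, `Con`, `Circ` of helper106 (helper715)
-/

set_option autoImplicit false

open Set Metric Filter Topology Module
open scoped Classical

namespace Crest.Agent.R096.Msh_715

open St_147 Agl5_543 Coh_184

section Eps

open Crest.Agent.R096.Agl1_543 Crest.Agent.R096.Pat5_543 Crest.Agent.R096.Spm_662
  Crest.Agent.R096.Ac_117 Crest.Agent.R096.Lab_184

variable {E : Type} [NormedAddCommGroup E] [NormedSpace ℝ E] [FiniteDimensional ℝ E]
  {Om : Set E} {ι : Type} {T : Tiling Om ι}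

/-- counting from an end point `a` to `w` (662's `exists_eps` for any end point) -/
theorem exists_epsA (F : C2 T) {w a : E} (hw : w ∈ F.On) (h1 : T.dim a = 0) (h3 : a ≠ w)
    (h4 : segment ℝ a w ⊆ T.cc w) :
    ∃ ε : ZMod 2, ∀ (h3 : Module.finrank ℝ E = 3) (y : Finset E), Even (yF y F).card →
      cntP (meshC T h3) y F (F.pos a) + cntP (meshC T h3) y F (F.pos w) =
        ((y.filter (fun v => v ∈ segment ℝ a w ∧ T.dim v = 1)).card : ZMod 2) +
          (if w ∈ y then ε else 0) := by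
  have hwO : w ∈ Om := F.set_sub hw.1
  have hJ : segment ℝ a w ⊆ F.bd := h4.trans (cc_sub_bd F hw)
  have hop : segment ℝ a w \ {a, w} = openSegment ℝ a w := by
    rw [← insert_endpoints_openSegment]
    ext v
    simp only [Set.mem_sdiff, mem_insert_iff, mem_singleton_iff]
    constructor
    · rintro ⟨h7 | h7 | h7, h8⟩
      · exact absurd (Or.inl h7) h8
      · exact absurd (Or.inr h7) h8
      · exact h7
    · intro h7
      refine ⟨Or.inr (Or.inr h7), ?_⟩
      rintro (rfl | rfl)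
      · exact h3 (left_mem_openSegment_iff.1 h7)
      · exact h3 (right_mem_openSegment_iff.1 h7)
  obtain ⟨ε, hε⟩ := arc_count_end (loop_gam F) h3 (convex_segment _ _).isPreconnected
    (left_mem_segment ℝ _ _) (right_mem_segment ℝ _ _) hJ
    (by rw [hop]; exact (convex_openSegment _ _).isPreconnected)
  refine ⟨ε + 1, fun hfr y he => ?_⟩
  have ha : a ∉ yF y F := fun h => by
    have := (mem_yF.1 h).2.2
    omega
  have hwy : w ∈ yF y F ↔ w ∈ y := by
    rw [mem_yF]
    exact ⟨fun h => h.1, fun h => ⟨h, hw⟩⟩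
  have e1 := hε (yF y F) (yF_sub y F) he ha
  rw [cntP_eq hfr y F he (hJ (left_mem_segment ℝ _ _)),
    cntP_eq hfr y F he (hJ (right_mem_segment ℝ _ _)), if_neg ha, add_zero, ← add_assoc, e1]
  have e2 : ((yF y F).filter (· ∈ segment ℝ a w)) =
      y.filter (fun v => v ∈ segment ℝ a w ∧ T.dim v = 1) := by
    ext v
    rw [Finset.mem_filter, Finset.mem_filter, mem_yF]
    constructor
    · rintro ⟨⟨h6, h7⟩, h8⟩
      exact ⟨h6, h8, h7.2⟩
    · rintro ⟨h6, h7, h8⟩
      exact ⟨⟨h6, F.bd_sub (hJ h7), h8⟩, h7⟩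
  rw [e2, if_congr hwy rfl rfl, if_congr hwy rfl rfl, add_assoc]
  congr 1
  by_cases h6 : w ∈ y
  · rw [if_pos h6, if_pos h6, if_pos h6]
  · rw [if_neg h6, if_neg h6, if_neg h6, add_zero]

end Eps

section ShellProps

variable {E : Type} [NormedAddCommGroup E] [NormedSpace ℝ E] [FiniteDimensional ℝ E]
variable {Om : Set E} {ι : Type} {T : Tiling Om ι} {κ : Type} {Kc : κ → Set E}

/-- the shell of a core (from `CoreH`) -/
noncomputable abbrev shellH (h3 : finrank ℝ E = 3) (hH : ∀ c, CoreH T (Kc c))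
    (hdis : ∀ c c', c ≠ c' → Disjoint (Kc c) (Kc c')) (c : κ) :=
  shellK T h3 Kc (fun c => (hH c).core) (fun c => (hH c).sub) (fun c => (hH c).cc) hdis c (hH c).pc

variable {h3 : finrank ℝ E = 3} {hH : ∀ c, CoreH T (Kc c)}
  {hdis : ∀ c c', c ≠ c' → Disjoint (Kc c) (Kc c')}

theorem fcS_iff {c : κ} (e : EdK T Kc c)
    {F : {F : C2 T // ¬ (((meshC T h3).side F).map (piK T Kc)).IsDiag}}
    (hF : F.1.set ⊆ frontier (Kc c)) :
    (∃ b, (shellH h3 hH hdis c).fc e b = F) ↔ e.1.set ⊆ F.1.set := by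
  have h1 := fcK_iff (h3 := h3) (hK := fun c => (hH c).core) (hKO := fun c => (hH c).sub)
    (hs := fun c => (hH c).cc) e F.1
  constructor
  · rintro ⟨b, hb⟩
    exact (h1.2 ⟨b, congrArg Subtype.val hb⟩).2
  · intro h
    obtain ⟨b, hb⟩ := h1.1 ⟨hF, h⟩
    exact ⟨b, Subtype.ext hb⟩

/-- **`Sph`** -/
theorem shellH_sph (c : κ) [Fintype (EdK T Kc c)] : (shellH h3 hH hdis c).Sph := by
  intro k hk
  obtain ⟨ψ, hψ⟩ := exactK hH h3 c k (by
    intro F
    have hF := (face_iff h3 (fun c => (hH c).core) (fun c => (hH c).sub) (fun c => (hH c).cc) hdis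
      F.1 c).1 F.2
    rw [← Finset.sum_filter]
    refine Eq.trans (Finset.sum_congr ?_ fun _ _ => rfl) (hk ⟨F.1, hF.1⟩ hF.2)
    ext e
    rw [Finset.mem_filter, Door_501.Shell.mem_EF, fcS_iff e (F := ⟨F.1, hF.1⟩) F.2]
    exact ⟨fun h => h.2, fun h => ⟨Finset.mem_univ _, h⟩⟩)
  exact ⟨ψ, hψ⟩

/-- **`Con`** -/
theorem shellH_con (c : κ) : (shellH h3 hH hdis c).Con := by
  intro X hX e b e' b' h
  have h1 := con_VxK hH c (fun v => v ∈ X) (fun g => propext (hX g)) (endK e b) (endK e' b')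
  exact h1 ▸ h

/-- **`Circ`** -/
theorem shellH_circ (c : κ) : (shellH h3 hH hdis c).Circ where
  circ := by
    rintro ⟨F, hF⟩ hk
    have hFs : F.set ⊆ frontier (Kc c) := (face_iff h3 (fun c => (hH c).core)
      (fun c => (hH c).sub) (fun c => (hH c).cc) hdis F c).2 ⟨hF, hk⟩
    refine ⟨fun v => F.pos v.1, ?_, ?_⟩
    · intro e he y hy hev
      have heF : e.1.set ⊆ F.set := (fcS_iff e (F := ⟨F, hF⟩) hFs).1 he
      have hyF : Spm_662.yF y F = y := by
        ext v
        rw [Spm_662.mem_yF]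
        exact ⟨fun h => h.1, fun h => ⟨h, hy v h⟩⟩
      have h1 := Spm_662.cntP_edge h3 y F (by rw [hyF]; exact hev) (e := e.1.pt)
        (heF (e.1.opn_sub (T.self_mem_oc _))) e.2.1 (by rw [← e.1.set_eq]; exact seg_endK e)
      have h2 : ∀ r, (shellH h3 hH hdis c).cnt ⟨F, hF⟩ y r =
          Ac_117.cntP (meshC T h3) y F r := by
        intro r
        have : (y.filter fun v => F.pos v < r) =
            y.filter (fun v => v ∈ (meshC T h3).On F ∧ (meshC T h3).pos F v < r) :=
          Finset.filter_congr fun v hv => ⟨fun h => ⟨hy v hv, h⟩, fun h => h.2⟩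
        show ((y.filter fun v => F.pos v < r).card : ZMod 2) = _
        rw [this]; rfl
      rw [h2, h2]
      refine h1.trans ?_
      congr 2
      refine Finset.filter_congr fun v hv => ?_
      show (v ∈ T.cc e.1.pt ∧ T.dim v = 1) ↔ v ∈ e.1.opn
      constructor
      · rintro ⟨h4, h5⟩
        exact Tiling.cl_eq_of_dim1 e.1.pt_mem e.2.1 h4 h5
      · intro h4
        exact ⟨by rw [← e.1.set_eq]; exact e.1.opn_sub h4,
          (T.dim_eq_of_mem_oc e.1.pt_mem h4).trans e.2.1⟩
    · intro e he x hx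
      have heF : e.1.set ⊆ F.set := (fcS_iff e (F := ⟨F, hF⟩) hFs).1 he
      have hx' : x ∈ e.1.opn := hx
      have hdx : T.dim x = 1 := (T.dim_eq_of_mem_oc e.1.pt_mem hx').trans e.2.1
      have hxF : x ∈ F.On := ⟨heF (e.1.opn_sub hx'), hdx⟩
      have hccx : T.cc x = e.1.set := by
        rw [e.1.set_eq]; exact T.cc_eq_of_mem_oc e.1.pt_mem hx'
      obtain ⟨hne, hset, hopn, ha0, hb0, ham, hbm⟩ := lft_rgt e.2.1
      have hax : lft e.1 ≠ x := fun h => by rw [h, hdx] at ha0; exact one_ne_zero ha0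
      have hseg : segment ℝ (lft e.1) x ⊆ T.cc x := by
        rw [hccx]
        have hconv : Convex ℝ e.1.set := by rw [hset]; exact convex_segment _ _
        exact hconv.segment_subset ham (e.1.opn_sub hx')
      obtain ⟨ε, hε⟩ := exists_epsA F hxF ha0 hax hseg
      refine ⟨ε + 1, fun y hy hev => ?_⟩
      have hyF : Spm_662.yF y F = y := by
        ext v
        rw [Spm_662.mem_yF]
        exact ⟨fun h => h.1, fun h => ⟨h, hy v h⟩⟩
      have h1 := hε h3 y (by rw [hyF]; exact hev)
      have h2 : ∀ r, (shellH h3 hH hdis c).cnt ⟨F, hF⟩ y r =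
          Ac_117.cntP (meshC T h3) y F r := by
        intro r
        have : (y.filter fun v => F.pos v < r) =
            y.filter (fun v => v ∈ (meshC T h3).On F ∧ (meshC T h3).pos F v < r) :=
          Finset.filter_congr fun v hv => ⟨fun h => ⟨hy v hv, h⟩, fun h => h.2⟩
        show ((y.filter fun v => F.pos v < r).card : ZMod 2) = _
        rw [this]; rfl
      rw [h2, h2]
      refine h1.trans ?_
      obtain ⟨tx, htx, hxeq⟩ := exists_par e.2.1 hx'
      have hpx : par T x = tx := by rw [hxeq]; exact (par_eq e.2.1 htx).2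
      have key : ∀ v, (v ∈ segment ℝ (lft e.1) x ∧ T.dim v = 1) ↔
          ((v ∈ e.1.opn ∧ par T v < par T x) ∨ v = x) := by
        intro v
        constructor
        · rintro ⟨h4, h5⟩
          rw [segment_eq_image'] at h4
          obtain ⟨s, ⟨hs0, hs1⟩, hv⟩ := h4
          have hv : lft e.1 + s • (x - lft e.1) = v := hv
          subst hv
          have hs0' : 0 < s := by
            rcases hs0.lt_or_eq with h | h
            · exact h
            · exfalso
              rw [← h, zero_smul, add_zero, ha0] at h5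
              exact zero_ne_one h5
          rcases hs1.lt_or_eq with h | h
          · left
            have e1 : lft e.1 + s • (x - lft e.1) = lft e.1 + (s * tx) • (rgt e.1 - lft e.1) := by
              rw [hxeq, add_sub_cancel_left, smul_smul]
            have hst : s * tx ∈ Ioo (0 : ℝ) 1 :=
              ⟨mul_pos hs0' htx.1, by nlinarith [htx.1, htx.2]⟩
            rw [e1]
            refine ⟨(par_eq e.2.1 hst).1, ?_⟩
            rw [(par_eq e.2.1 hst).2, hpx]
            nlinarith [htx.1]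
          · right
            rw [h, one_smul]; abel
        · rintro (⟨h4, h5⟩ | rfl)
          · obtain ⟨s, hs, rfl⟩ := exists_par e.2.1 h4
            rw [(par_eq e.2.1 hs).2, hpx] at h5
            refine ⟨?_, (T.dim_eq_of_mem_oc e.1.pt_mem h4).trans e.2.1⟩
            rw [segment_eq_image']
            refine ⟨s / tx, ⟨div_nonneg hs.1.le htx.1.le, (div_le_one htx.1).2 h5.le⟩, ?_⟩
            show lft e.1 + (s / tx) • (x - lft e.1) = _
            rw [hxeq, add_sub_cancel_left, smul_smul, div_mul_cancel₀ _ htx.1.ne']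
          · exact ⟨right_mem_segment ℝ _ _, hdx⟩
      have hcard : ((y.filter (fun v => v ∈ segment ℝ (lft e.1) x ∧ T.dim v = 1)).card : ZMod 2) =
          ((y.filter fun w => w ∈ e.1.opn ∧ par T w < par T x).card : ZMod 2) +
            (if x ∈ y then 1 else 0) := by
        have e1 : y.filter (fun v => v ∈ segment ℝ (lft e.1) x ∧ T.dim v = 1) =
            (y.filter fun w => w ∈ e.1.opn ∧ par T w < par T x) ∪ y.filter (fun w => w = x) := by
          rw [← Finset.filter_or]
          exact Finset.filter_congr fun v _ => key v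
        have hdisj : Disjoint (y.filter fun w => w ∈ e.1.opn ∧ par T w < par T x)
            (y.filter (fun w => w = x)) := by
          rw [Finset.disjoint_filter]
          rintro v _ ⟨_, h4⟩ rfl
          exact lt_irrefl _ h4
        rw [e1, Finset.card_union_of_disjoint hdisj, Nat.cast_add]
        congr 1
        by_cases h6 : x ∈ y
        · have e3 : y.filter (fun w => w = x) = {x} := by
            ext w
            rw [Finset.mem_filter, Finset.mem_singleton]
            exact ⟨fun h => h.2, fun h => ⟨h ▸ h6, h⟩⟩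
          rw [if_pos h6, e3, Finset.card_singleton, Nat.cast_one]
        · have e3 : y.filter (fun w => w = x) = ∅ := by
            rw [Finset.filter_eq_empty_iff]
            intro w hw h
            exact h6 (h ▸ hw)
          rw [if_neg h6, e3, Finset.card_empty, Nat.cast_zero]
      rw [hcard, add_assoc]
      congr 1
      by_cases h6 : x ∈ y
      · rw [if_pos h6, if_pos h6, if_pos h6, add_comm]
      · rw [if_neg h6, if_neg h6, if_neg h6, add_zero]
  vconn := by
    rintro ⟨F, hF⟩ hk X hX e he b hb e' he' b'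
    have hFs : F.set ⊆ frontier (Kc c) := (face_iff h3 (fun c => (hH c).core)
      (fun c => (hH c).sub) (fun c => (hH c).cc) hdis F c).2 ⟨hF, hk⟩
    have heF : e.1.set ⊆ F.set := (fcS_iff e (F := ⟨F, hF⟩) hFs).1 he
    have heF' : e'.1.set ⊆ F.set := (fcS_iff e' (F := ⟨F, hF⟩) hFs).1 he'
    let φ' : E → Prop := fun x => ∃ h : T.dim x = 0 ∧ x ∈ frontier (Kc c), (⟨x, h⟩ : VxK T Kc c) ∈ X
    have hφ' : ∀ v : VxK T Kc c, φ' v.1 ↔ v ∈ X := fun v =>
      ⟨fun ⟨_, h⟩ => h, fun h => ⟨v.2, h⟩⟩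
    have h1 := T.const_cell (φ := φ') F.pt_mem (by
      intro g hg h1 p q hpq
      have hgF : g ∈ F.set := by rw [F.set_eq]; exact hg
      have hgO := F.set_sub hgF
      have hset : (T.cl hgO).set = T.cc g := T.cl_set hgO
      have hsubF : (T.cl hgO).set ⊆ F.set := by
        rw [hset, F.set_eq]; exact T.cc_sub_of_mem hg
      set G : EdK T Kc c := ⟨T.cl hgO, (T.dim_cl hgO).trans h1, hsubF.trans hFs⟩ with hG
      obtain ⟨ha0, hb0, hae, hbe, hne⟩ := T.dim_ends hgO h1 hpq
      have hae' : p ∈ G.1.set := by show p ∈ (T.cl hgO).set; rw [hset]; exact hae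
      have hbe' : q ∈ G.1.set := by show q ∈ (T.cl hgO).set; rw [hset]; exact hbe
      have haF : p ∈ frontier (Kc c) := hFs (hsubF hae')
      have hbF : q ∈ frontier (Kc c) := hFs (hsubF hbe')
      obtain ⟨i, hi⟩ := (endK_iff G ⟨p, ha0, haF⟩).2 hae'
      obtain ⟨j, hj⟩ := (endK_iff G ⟨q, hb0, hbF⟩).2 hbe'
      have hXG : endK G false ∈ X ↔ endK G true ∈ X :=
        hX G ((fcS_iff G (F := ⟨F, hF⟩) hFs).2 hsubF)
      have e1 : φ' p ↔ endK G i ∈ X := by rw [hi]; exact hφ' ⟨p, ha0, haF⟩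
      have e2 : φ' q ↔ endK G j ∈ X := by rw [hj]; exact hφ' ⟨q, hb0, hbF⟩
      show φ' p = φ' q
      refine propext (e1.trans (Iff.trans ?_ e2.symm))
      cases i <;> cases j
      · exact Iff.rfl
      · exact hXG
      · exact hXG.symm
      · exact Iff.rfl) (endK e b).1 (by
        rw [← F.set_eq]; exact heF ((endK_iff e _).1 ⟨b, rfl⟩)) (endK e' b').1 (by
        rw [← F.set_eq]; exact heF' ((endK_iff e' _).1 ⟨b', rfl⟩)) (endK e b).2.1 (endK e' b').2.1
    exact (hφ' _).1 (h1 ▸ (hφ' _).2 hb)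

end ShellProps

end Crest.Agent.R096.Msh_715
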