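import Crest.Agent.R096.Qp4_106
import Crest.Agent.R096.Door6_501
import Crest.Agent.R096.Qp5_106

-- ▼ part R096/Twr1_438
section

/-!
# Row 96, DOORS-TOWER, part 1 (helper438): closed curves on the boundary sphere, labels, sides

* `Crv S`      : finitely many closed curves (a finite set of points with partners on the faces).
* `IsLab A a`  : vertex labels of `A` (side of `A`), `A.val a e τ` = side of the position `τ` of `e`.
* `exists_lab` : labels exist (`S.Sph`).
* `side_const` : the side of a connected curve with respect to a curve which it does not cross.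
* `prod_rule`  : two disjoint curves are nested or disjoint (algebraic form).
-/

set_option autoImplicit false

namespace Crest.Agent.R096.Twr_438

open Crest.Agent.R096.St_147 Crest.Agent.R096.Door_501 Crest.Agent.R096.Qp_106 Classical

variable {ι Φ W : Type} {M : MeshC ι Φ W} {k : ι} {Vx Ed : Type}

/-- closed curves on the sphere -/
structure Crv (S : Shell M k Vx Ed) where
  C : Finset W
  mu : Φ → W → W
  on : ∀ {w}, w ∈ C → ∃ e, w ∈ S.OnE e
  mem : ∀ {F w}, k ∈ M.side F → w ∈ C → w ∈ M.On F → mu F w ∈ C ∧ mu F w ∈ M.On F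
  ne : ∀ {F w}, k ∈ M.side F → w ∈ C → w ∈ M.On F → mu F w ≠ w
  inv : ∀ {F w}, k ∈ M.side F → w ∈ C → w ∈ M.On F → mu F (mu F w) = w

/-- labels of a curve -/
def IsLab {S : Shell M k Vx Ed} (A : Crv S) (a : Vx → ZMod 2) : Prop :=
  ∀ e, a (S.en e false) + a (S.en e true) = ((A.C.filter fun w => w ∈ S.OnE e).card : ZMod 2)

variable {S : Shell M k Vx Ed}

/-- connectedness of the curve -/
def Cn (A : Crv S) : Prop :=
  ∀ X : Set W, (∀ F w, k ∈ M.side F → w ∈ M.On F → w ∈ A.C → w ∈ X → A.mu F w ∈ X) →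
    ∀ w ∈ X, w ∈ A.C → ∀ w' ∈ A.C, w' ∈ X

/-- the side of the position `τ` on the edge `e` -/
noncomputable def val (A : Crv S) (a : Vx → ZMod 2) (e : Ed) (τ : ℝ) : ZMod 2 :=
  a (S.en e false) + ((A.C.filter fun x => x ∈ S.OnE e ∧ S.t x < τ).card : ZMod 2)

/-- the two curves do not cross -/
def NLC (A B : Crv S) : Prop := ∀ F w x, k ∈ M.side F → w ∈ A.C → w ∈ M.On F →
  x ∈ B.C → x ∈ M.On F → ¬ M.Lace F w (A.mu F w) x (B.mu F x)

theorem Crv.even (A : Crv S) {F : Φ} (hF : k ∈ M.side F) :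
    ((A.C.filter fun w => w ∈ M.On F).card : ZMod 2) = 0 := by
  have h := sum_inv (A.C.filter fun w => w ∈ M.On F) (fun _ => (1 : ZMod 2)) (A.mu F)
    (fun x hx => Finset.mem_filter.2
      (A.mem hF (Finset.mem_filter.1 hx).1 (Finset.mem_filter.1 hx).2))
    (fun x hx => A.ne hF (Finset.mem_filter.1 hx).1 (Finset.mem_filter.1 hx).2)
    (fun x hx => A.inv hF (Finset.mem_filter.1 hx).1 (Finset.mem_filter.1 hx).2)
    (fun _ _ => rfl)
  rwa [Finset.sum_const, nsmul_eq_mul, mul_one] at h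

/-- labels exist -/
theorem exists_lab [Fintype Ed] (hS : S.Sph) (A : Crv S) (v0 : Vx) :
    ∃ a : Vx → ZMod 2, IsLab A a ∧ a v0 = 0 := by
  obtain ⟨ψ, hψ⟩ := hS (fun e => ((A.C.filter fun w => w ∈ S.OnE e).card : ZMod 2)) (by
    intro F hF
    have h1 := S.wsum hF A.C (fun _ => (1 : ZMod 2))
    have h2 : ∀ e ∈ S.EF F, ((A.C.filter fun w => w ∈ S.OnE e).card : ZMod 2) =
        ∑ w ∈ A.C.filter (fun w => w ∈ S.OnE e), (1 : ZMod 2) := by
      intro e _
      rw [Finset.sum_const, nsmul_eq_mul, mul_one]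
    rw [Finset.sum_congr rfl h2, h1, Finset.sum_const, nsmul_eq_mul, mul_one, A.even hF])
  refine ⟨fun v => ψ v + ψ v0, fun e => ?_, zz_self _⟩
  show ψ (S.en e false) + ψ v0 + (ψ (S.en e true) + ψ v0) = _
  rw [y3]
  exact (hψ e).symm

/-- the side of a point of a face, in terms of the positions on the boundary of the face -/
theorem side_face (hC : S.Circ) (A : Crv S) {a : Vx → ZMod 2} (ha : IsLab A a) {F : Φ}
    (hF : k ∈ M.side F) : ∃ g : ZMod 2, ∀ e, (∃ b, S.fc e b = F) → ∀ w ∈ S.OnE e, w ∉ A.C →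
      val A a e (S.t w) = g + S.cnt F (A.C.filter fun x => x ∈ M.On F) (M.pos F w) := by
  obtain ⟨pv, h1, h2⟩ := hC.circ F hF
  set y := A.C.filter fun x => x ∈ M.On F with hy
  have hyF : ∀ w ∈ y, w ∈ M.On F := fun w hw => (Finset.mem_filter.1 hw).2
  have hev : Even y.card := (ZMod.natCast_eq_zero_iff_even).1 (A.even hF)
  have hsub : ∀ e, (∃ b, S.fc e b = F) → ∀ x ∈ S.OnE e, x ∈ M.On F := by
    rintro e ⟨b, rfl⟩ x hx
    exact S.on_of_onE hx b
  by_cases hne : ∃ e, ∃ b, S.fc e b = F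
  · obtain ⟨e0, he0⟩ := hne
    refine ⟨a (S.en e0 false) + S.cnt F y (pv (S.en e0 false)), fun e he w hw hwC => ?_⟩
    have h3 := hC.vconn F hF {v | a v + S.cnt F y (pv v) =
      a (S.en e0 false) + S.cnt F y (pv (S.en e0 false))} (by
        intro e' he'
        have h4 := h1 e' he' y hyF hev
        have h5 := ha e'
        have h6 : (y.filter fun w => w ∈ S.OnE e') = A.C.filter fun w => w ∈ S.OnE e' := by
          ext w
          simp only [hy, Finset.mem_filter]
          exact ⟨fun h => ⟨h.1.1, h.2⟩, fun h => ⟨⟨h.1, hsub e' he' w h.2⟩, h.2⟩⟩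
        rw [h6, ← h5] at h4
        have z : ∀ p q r s : ZMod 2, p + q = r + s → r + p = s + q := by decide
        show a (S.en e' false) + S.cnt F y (pv (S.en e' false)) = _ ↔
          a (S.en e' true) + S.cnt F y (pv (S.en e' true)) = _
        rw [z _ _ _ _ h4]) e0 he0 false rfl e he false
    have h3' : a (S.en e false) + S.cnt F y (pv (S.en e false)) =
      a (S.en e0 false) + S.cnt F y (pv (S.en e0 false)) := h3
    obtain ⟨ε, h4⟩ := h2 e he w hw
    have h5 := h4 y hyF hev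
    rw [if_neg (fun h => hwC (Finset.mem_filter.1 h).1), add_zero] at h5
    have h6 : (y.filter fun x => x ∈ S.OnE e ∧ S.t x < S.t w) =
        A.C.filter fun x => x ∈ S.OnE e ∧ S.t x < S.t w := by
      ext x
      simp only [hy, Finset.mem_filter]
      exact ⟨fun h => ⟨h.1.1, h.2⟩, fun h => ⟨⟨h.1, hsub e he x h.2.1⟩, h.2⟩⟩
    rw [h6] at h5
    unfold val
    rw [← h3', ← h5]
    have z : ∀ p q r : ZMod 2, p + (q + r) = p + q + r := by decide
    exact z _ _ _
  · exact ⟨0, fun e he => (hne ⟨e, he⟩).elim⟩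

/-- a chord which does not interlace the chords of `B` has an even number of points of `B` on
either side -/
theorem cnt_chord (A B : Crv S) (hd : Disjoint A.C B.C) (hNL : NLC A B) {F : Φ}
    (hF : k ∈ M.side F) {w : W} (hw : w ∈ A.C) (hwF : w ∈ M.On F) :
    S.cnt F (B.C.filter fun x => x ∈ M.On F) (M.pos F w) =
      S.cnt F (B.C.filter fun x => x ∈ M.On F) (M.pos F (A.mu F w)) := by
  have hw' := A.mem hF hw hwF
  have key : ∀ u v : W, u ∈ A.C → u ∈ M.On F → v ∈ A.C → v ∈ M.On F →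
      M.pos F u < M.pos F v →
      (∀ x ∈ B.C, x ∈ M.On F → (M.pos F u < M.pos F x ∧ M.pos F x < M.pos F v ↔
        M.pos F u < M.pos F (B.mu F x) ∧ M.pos F (B.mu F x) < M.pos F v)) →
      S.cnt F (B.C.filter fun x => x ∈ M.On F) (M.pos F u) =
        S.cnt F (B.C.filter fun x => x ∈ M.On F) (M.pos F v) := by
    intro u v hu huF hv hvF huv hb
    set y := B.C.filter fun x => x ∈ M.On F with hy
    set J := y.filter fun x => M.pos F u < M.pos F x ∧ M.pos F x < M.pos F v with hJ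
    have h1 : y.filter (fun x => M.pos F x < M.pos F v) =
        y.filter (fun x => M.pos F x < M.pos F u) ∪ J := by
      ext x
      simp only [hJ, Finset.mem_filter, Finset.mem_union]
      constructor
      · rintro ⟨h1, h2⟩
        rcases lt_trichotomy (M.pos F x) (M.pos F u) with h3 | h3 | h3
        · exact Or.inl ⟨h1, h3⟩
        · exfalso
          have h4 := Finset.mem_filter.1 h1
          have h5 := M.pos_inj F h4.2 huF h3
          rw [h5] at h4
          exact Finset.disjoint_left.1 hd hu h4.1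
        · exact Or.inr ⟨h1, h3, h2⟩
      · rintro (⟨h1, h2⟩ | ⟨h1, h2, h3⟩)
        · exact ⟨h1, h2.trans huv⟩
        · exact ⟨h1, h3⟩
    have h2 : Disjoint (y.filter fun x => M.pos F x < M.pos F u) J := by
      rw [Finset.disjoint_left]
      intro x a1 a2
      exact lt_asymm (Finset.mem_filter.1 a1).2 (Finset.mem_filter.1 a2).2.1
    have h3 : (J.card : ZMod 2) = 0 := by
      have h := sum_inv J (fun _ => (1 : ZMod 2)) (B.mu F)
        (fun x hx => by
          obtain ⟨a1, a2⟩ := Finset.mem_filter.1 hx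
          obtain ⟨b1, b2⟩ := Finset.mem_filter.1 a1
          exact Finset.mem_filter.2 ⟨Finset.mem_filter.2 (B.mem hF b1 b2), (hb x b1 b2).1 a2⟩)
        (fun x hx => by
          obtain ⟨b1, b2⟩ := Finset.mem_filter.1 (Finset.mem_filter.1 hx).1
          exact B.ne hF b1 b2)
        (fun x hx => by
          obtain ⟨b1, b2⟩ := Finset.mem_filter.1 (Finset.mem_filter.1 hx).1
          exact B.inv hF b1 b2)
        (fun _ _ => rfl)
      rwa [Finset.sum_const, nsmul_eq_mul, mul_one] at h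
    unfold Shell.cnt
    rw [h1, Finset.card_union_of_disjoint h2]
    push_cast
    rw [h3, add_zero]
  have hlace : ∀ x ∈ B.C, x ∈ M.On F → (M.Btw F w (A.mu F w) x ↔ M.Btw F w (A.mu F w) (B.mu F x)) :=
    fun x hx hxF => not_not.1 (hNL F w x hF hw hwF hx hxF)
  rcases lt_trichotomy (M.pos F w) (M.pos F (A.mu F w)) with h | h | h
  · refine key w _ hw hwF hw'.1 hw'.2 h fun x hx hxF => ?_
    have h1 := hlace x hx hxF
    unfold MeshC.Btw at h1
    have h2 : ∀ z, ¬ (M.pos F (A.mu F w) < M.pos F z ∧ M.pos F z < M.pos F w) :=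
      fun z hz => lt_asymm h (hz.1.trans hz.2)
    simpa [h2] using h1
  · exact absurd (M.pos_inj F hwF hw'.2 h) (A.ne hF hw hwF).symm
  · refine (key _ w hw'.1 hw'.2 hw hwF h fun x hx hxF => ?_).symm
    have h1 := hlace x hx hxF
    unfold MeshC.Btw at h1
    have h2 : ∀ z, ¬ (M.pos F w < M.pos F z ∧ M.pos F z < M.pos F (A.mu F w)) :=
      fun z hz => lt_asymm h (hz.1.trans hz.2)
    simpa [h2] using h1

/-- a connected curve lies on one side of a curve which it does not cross -/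
theorem side_const (hC : S.Circ) (A B : Crv S) (hcn : Cn A) (hd : Disjoint A.C B.C)
    (hNL : NLC A B) {b : Vx → ZMod 2} (hb : IsLab B b) :
    ∃ p : ZMod 2, ∀ e w, w ∈ S.OnE e → w ∈ A.C → val B b e (S.t w) = p := by
  by_cases hne : A.C.Nonempty
  · obtain ⟨w0, hw0⟩ := hne
    obtain ⟨e0, he0⟩ := A.on hw0
    refine ⟨val B b e0 (S.t w0), fun e w he hw => ?_⟩
    refine hcn {u | ∀ e, u ∈ S.OnE e → val B b e (S.t u) = val B b e0 (S.t w0)} ?_ w0
      (fun e he => by rw [S.onE_disj he he0]) hw0 w hw e he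
    intro F u hF huF hu hX e1 he1
    obtain ⟨g, hg⟩ := side_face hC B hb hF
    have hu' := A.mem hF hu huF
    obtain ⟨e2, b2, h2, he2⟩ := (S.onE hF).1 huF
    obtain ⟨b1, h1⟩ := S.fc_of_on he1 hF hu'.2
    rw [hg e1 ⟨b1, h1⟩ _ he1 (Finset.disjoint_left.1 hd hu'.1),
      ← cnt_chord A B hd hNL hF hu huF,
      ← hg e2 ⟨b2, h2⟩ _ he2 (Finset.disjoint_left.1 hd hu)]
    exact hX e2 he2
  · exact ⟨0, fun e w _ hw => (hne ⟨w, hw⟩).elim⟩

/-- crossing one position -/
theorem val_step (A : Crv S) (a : Vx → ZMod 2) (e : Ed) {w : W} (hw : w ∈ S.OnE e) {τ : ℝ}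
    (hτ : S.t w < τ) (hgap : ∀ x ∈ A.C, x ∈ S.OnE e → S.t w < S.t x → τ ≤ S.t x) :
    val A a e τ = val A a e (S.t w) + if w ∈ A.C then 1 else 0 := by
  unfold val
  by_cases hwC : w ∈ A.C
  · rw [if_pos hwC]
    have h1 : (A.C.filter fun x => x ∈ S.OnE e ∧ S.t x < τ) =
        insert w (A.C.filter fun x => x ∈ S.OnE e ∧ S.t x < S.t w) := by
      ext x
      simp only [Finset.mem_filter, Finset.mem_insert]
      constructor
      · rintro ⟨h1, h2, h3⟩
        rcases lt_trichotomy (S.t x) (S.t w) with h4 | h4 | h4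
        · exact Or.inr ⟨h1, h2, h4⟩
        · exact Or.inl (S.t_inj e h2 hw h4)
        · exact absurd h3 (not_lt.2 (hgap x h1 h2 h4))
      · rintro (rfl | ⟨h1, h2, h3⟩)
        · exact ⟨hwC, hw, hτ⟩
        · exact ⟨h1, h2, h3.trans hτ⟩
    rw [h1, Finset.card_insert_of_notMem (fun h => lt_irrefl _ (Finset.mem_filter.1 h).2.2)]
    push_cast
    rw [add_assoc]
  · rw [if_neg hwC, add_zero]
    congr 3
    ext x
    simp only [Finset.mem_filter]
    constructor
    · rintro ⟨h1, h2, h3⟩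
      rcases lt_trichotomy (S.t x) (S.t w) with h4 | h4 | h4
      · exact ⟨h1, h2, h4⟩
      · exact absurd (S.t_inj e h2 hw h4 ▸ h1) hwC
      · exact absurd h3 (not_lt.2 (hgap x h1 h2 h4))
    · rintro ⟨h1, h2, h3⟩
      exact ⟨h1, h2, h3.trans hτ⟩

theorem val_zero (A : Crv S) (a : Vx → ZMod 2) (e : Ed) {τ : ℝ}
    (h : ∀ x ∈ A.C, x ∈ S.OnE e → τ ≤ S.t x) : val A a e τ = a (S.en e false) := by
  unfold val
  have h1 : (A.C.filter fun x => x ∈ S.OnE e ∧ S.t x < τ) = ∅ := by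
    rw [Finset.filter_eq_empty_iff]
    rintro x hx ⟨h2, h3⟩
    exact absurd h3 (not_lt.2 (h x hx h2))
  rw [h1, Finset.card_empty]
  simp

theorem val_one (A : Crv S) {a : Vx → ZMod 2} (ha : IsLab A a) (e : Ed) {τ : ℝ}
    (h : ∀ x ∈ A.C, x ∈ S.OnE e → S.t x < τ) : val A a e τ = a (S.en e true) := by
  unfold val
  have h1 : (A.C.filter fun x => x ∈ S.OnE e ∧ S.t x < τ) =
      A.C.filter fun x => x ∈ S.OnE e := by
    refine Finset.filter_congr fun x hx => ?_
    exact ⟨fun h => h.1, fun h' => ⟨h', h x hx h'⟩⟩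
  rw [h1, ← ha e]
  have z : ∀ p q : ZMod 2, p + (p + q) = q := by decide
  exact z _ _

end Crest.Agent.R096.Twr_438
end

-- ▼ part R096/Twr2_438
section

/-!
# Row 96, DOORS-TOWER, part 2 (helper438): two disjoint curves are nested or disjoint
-/

set_option autoImplicit false

namespace Crest.Agent.R096.Twr_438

open Crest.Agent.R096.St_147 Crest.Agent.R096.Door_501 Crest.Agent.R096.Qp_106 Classical

variable {ι Φ W : Type} {M : MeshC ι Φ W} {k : ι} {Vx Ed : Type} {S : Shell M k Vx Ed}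

theorem z_stepA : ∀ p q A : ZMod 2, (A + 1) * p + p * (A + 1) + q * p = A * p + p * A + q * p := by
  decide

theorem z_stepB : ∀ p q B : ZMod 2, q * (B + 1) + p * q + q * (B + 1) = q * B + p * q + q * B := by
  decide

/-- the product combination does not change along an edge -/
theorem prod_edge (A B : Crv S) (a b : Vx → ZMod 2) (hd : Disjoint A.C B.C) {p q : ZMod 2}
    (hp : ∀ e w, w ∈ S.OnE e → w ∈ A.C → val B b e (S.t w) = p)
    (hq : ∀ e w, w ∈ S.OnE e → w ∈ B.C → val A a e (S.t w) = q) (e : Ed) :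
    ∀ (n : ℕ) (τ : ℝ), ((A.C ∪ B.C).filter fun x => x ∈ S.OnE e ∧ S.t x < τ).card = n →
      val A a e τ * val B b e τ + p * val A a e τ + q * val B b e τ =
        a (S.en e false) * b (S.en e false) + p * a (S.en e false) + q * b (S.en e false) := by
  intro n
  induction n with
  | zero =>
    intro τ hn
    have h1 := Finset.filter_eq_empty_iff.1 (Finset.card_eq_zero.1 hn)
    rw [val_zero A a e (fun x hx hxe => not_lt.1 fun h =>
        h1 (Finset.mem_union_left _ hx) ⟨hxe, h⟩),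
      val_zero B b e (fun x hx hxe => not_lt.1 fun h =>
        h1 (Finset.mem_union_right _ hx) ⟨hxe, h⟩)]
  | succ n ih =>
    intro τ hn
    set Y := (A.C ∪ B.C).filter fun x => x ∈ S.OnE e ∧ S.t x < τ with hY
    have hne : Y.Nonempty := Finset.card_pos.1 (by omega)
    obtain ⟨w, hwY, hmax⟩ := Y.exists_max_image S.t hne
    obtain ⟨hw, hwe, hwτ⟩ := Finset.mem_filter.1 hwY
    have hgap : ∀ x ∈ A.C ∪ B.C, x ∈ S.OnE e → S.t w < S.t x → τ ≤ S.t x := by
      intro x hx hxe hlt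
      by_contra h
      exact absurd (hmax x (Finset.mem_filter.2 ⟨hx, hxe, not_le.1 h⟩)) (not_le.2 hlt)
    have hcard : ((A.C ∪ B.C).filter fun x => x ∈ S.OnE e ∧ S.t x < S.t w).card = n := by
      have h1 : Y = insert w ((A.C ∪ B.C).filter fun x => x ∈ S.OnE e ∧ S.t x < S.t w) := by
        ext x
        simp only [hY, Finset.mem_filter, Finset.mem_insert]
        constructor
        · rintro ⟨h1, h2, h3⟩
          rcases lt_trichotomy (S.t x) (S.t w) with h4 | h4 | h4
          · exact Or.inr ⟨h1, h2, h4⟩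
          · exact Or.inl (S.t_inj e h2 hwe h4)
          · exact absurd h3 (not_lt.2 (hgap x h1 h2 h4))
        · rintro (rfl | ⟨h1, h2, h3⟩)
          · exact ⟨hw, hwe, hwτ⟩
          · exact ⟨h1, h2, h3.trans hwτ⟩
      rw [h1, Finset.card_insert_of_notMem
        (fun h => lt_irrefl _ (Finset.mem_filter.1 h).2.2)] at hn
      omega
    rw [← ih (S.t w) hcard,
      val_step A a e hwe hwτ (fun x hx => hgap x (Finset.mem_union_left _ hx)),
      val_step B b e hwe hwτ (fun x hx => hgap x (Finset.mem_union_right _ hx))]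
    rcases Finset.mem_union.1 hw with h | h
    · rw [if_pos h, if_neg (Finset.disjoint_left.1 hd h), add_zero, hp e w hwe h]
      exact z_stepA _ _ _
    · rw [if_pos h, if_neg (Finset.disjoint_right.1 hd h), add_zero, hq e w hwe h]
      exact z_stepB _ _ _

/-- **product rule** -/
theorem prod_rule (hCon : S.Con) (A B : Crv S) {a b : Vx → ZMod 2} (ha : IsLab A a)
    (hb : IsLab B b) {v0 : Vx} (hv0 : ∃ e b, S.en e b = v0) (ha0 : a v0 = 0) (hb0 : b v0 = 0)
    (hd : Disjoint A.C B.C) {p q : ZMod 2}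
    (hp : ∀ e w, w ∈ S.OnE e → w ∈ A.C → val B b e (S.t w) = p)
    (hq : ∀ e w, w ∈ S.OnE e → w ∈ B.C → val A a e (S.t w) = q) :
    (∀ e τ, val A a e τ * val B b e τ = p * val A a e τ + q * val B b e τ) ∧
    ∀ e c, a (S.en e c) * b (S.en e c) = p * a (S.en e c) + q * b (S.en e c) := by
  have hE := prod_edge A B a b hd hp hq
  have h1 : ∀ e, a (S.en e true) * b (S.en e true) + p * a (S.en e true) + q * b (S.en e true) =
      a (S.en e false) * b (S.en e false) + p * a (S.en e false) + q * b (S.en e false) := by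
    intro e
    have h2 := hE e _ 1 rfl
    rw [val_one A ha e (fun x _ hx => S.t_lt hx), val_one B hb e (fun x _ hx => S.t_lt hx)] at h2
    exact h2
  have z : ∀ x y z : ZMod 2, x + y + z = 0 ↔ x = y + z := by decide
  have h2 : ∀ e c, a (S.en e c) * b (S.en e c) + p * a (S.en e c) + q * b (S.en e c) = 0 := by
    obtain ⟨e0, c0, h0⟩ := hv0
    intro e c
    refine hCon {v | a v * b v + p * a v + q * b v = 0} (fun e => ?_) e0 c0 e c ?_
    · show _ = _ ↔ _ = _
      rw [h1 e]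
    · show a (S.en e0 c0) * b (S.en e0 c0) + p * a (S.en e0 c0) + q * b (S.en e0 c0) = 0
      rw [h0, ha0, hb0]
      have : ∀ p q : ZMod 2, 0 * 0 + p * 0 + q * 0 = 0 := by decide
      exact this p q
  refine ⟨fun e τ => ?_, fun e c => (z _ _ _).1 (h2 e c)⟩
  rw [← z, hE e _ τ rfl]
  exact h2 e false

/-- a curve is on both of its sides -/
theorem exists_one (A : Crv S) (a : Vx → ZMod 2) {w : W} (hw : w ∈ A.C) :
    ∃ e τ, val A a e τ = 1 ∧ (val A a e τ = val A a e (S.t w) ∨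
      val A a e τ = val A a e (S.t w) + 1) := by
  obtain ⟨e, he⟩ := A.on hw
  -- a position just after `w`
  obtain ⟨τ, hτ, hgap⟩ : ∃ τ, S.t w < τ ∧ ∀ x ∈ A.C, x ∈ S.OnE e → S.t w < S.t x → τ ≤ S.t x := by
    by_cases hne : (A.C.filter fun x => x ∈ S.OnE e ∧ S.t w < S.t x).Nonempty
    · obtain ⟨x, hx, hmin⟩ := Finset.exists_min_image _ S.t hne
      refine ⟨S.t x, (Finset.mem_filter.1 hx).2.2, fun y hy hye hlt => ?_⟩
      exact hmin y (Finset.mem_filter.2 ⟨hy, hye, hlt⟩)
    · refine ⟨S.t w + 1, by linarith, fun x hx hxe hlt => ?_⟩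
      exact (hne ⟨x, Finset.mem_filter.2 ⟨hx, hxe, hlt⟩⟩).elim
  have h1 := val_step A a e he hτ hgap
  rw [if_pos hw] at h1
  have z : ∀ x : ZMod 2, x = 1 ∨ x + 1 = 1 := by decide
  rcases z (val A a e (S.t w)) with h | h
  · exact ⟨e, S.t w, h, Or.inl rfl⟩
  · exact ⟨e, τ, by rw [h1, h], Or.inr h1⟩

/-- two disjoint curves, both nonempty, are not inside each other -/
theorem not_both (hCon : S.Con) (A B : Crv S) {a b : Vx → ZMod 2} (ha : IsLab A a)
    (hb : IsLab B b) {v0 : Vx} (hv0 : ∃ e b, S.en e b = v0) (ha0 : a v0 = 0) (hb0 : b v0 = 0)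
    (hd : Disjoint A.C B.C) (hA : A.C.Nonempty)
    (hp : ∀ e w, w ∈ S.OnE e → w ∈ A.C → val B b e (S.t w) = 1)
    (hq : ∀ e w, w ∈ S.OnE e → w ∈ B.C → val A a e (S.t w) = 1) : False := by
  obtain ⟨h1, _⟩ := prod_rule hCon A B ha hb hv0 ha0 hb0 hd hp hq
  obtain ⟨w, hw⟩ := hA
  obtain ⟨e, τ, h2, _⟩ := exists_one A a hw
  have h3 := h1 e τ
  rw [h2] at h3
  have z : ∀ x : ZMod 2, 1 * x = 1 * 1 + 1 * x → False := by decide
  exact z _ h3

end Crest.Agent.R096.Twr_438
end

-- ▼ part R096/Twr3_438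

/-!
# Row 96, DOORS-TOWER, part 3 (helper438): chord components of a pattern, canonical labels,
minimal discs.
-/

set_option autoImplicit false

namespace Crest.Agent.R096.Twr_438

open Crest.Agent.R096.St_147 Crest.Agent.R096.Door_501 Crest.Agent.R096.Qp_106 Classical

variable {ι Φ W : Type} {M : MeshC ι Φ W} {k : ι} {Vx Ed : Type} {S : Shell M k Vx Ed}
variable {I : Type} {col : I → Bool}

/-- one step along a chord on a face of `k` -/
def CStep (k : ι) (s : St M col) (w w' : W) : Prop :=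
  ∃ F, k ∈ M.side F ∧ w ∈ s.P ∧ w ∈ M.On F ∧ w' = s.mu F w

theorem CStep.mem {s : St M col} {w w' : W} (h : CStep k s w w') : w ∈ s.P ∧ w' ∈ s.P := by
  obtain ⟨F, _, h2, h3, rfl⟩ := h
  exact ⟨h2, (s.mu_mem h2 h3).1⟩

theorem CStep.lab {s : St M col} {w w' : W} (h : CStep k s w w') : s.lab w' = s.lab w := by
  obtain ⟨F, _, h2, h3, rfl⟩ := h
  exact s.mu_lab h2 h3

theorem CStep.symm {s : St M col} {w w' : W} (h : CStep k s w w') : CStep k s w' w := by
  obtain ⟨F, h1, h2, h3, rfl⟩ := h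
  exact ⟨F, h1, (s.mu_mem h2 h3).1, (s.mu_mem h2 h3).2, (s.mu_mu h2 h3).symm⟩

/-- reachability along chords -/
def Rch (k : ι) (s : St M col) (w w' : W) : Prop := Relation.ReflTransGen (CStep k s) w w'

theorem Rch.symm {s : St M col} {w w' : W} (h : Rch k s w w') : Rch k s w' w := by
  induction h with
  | refl => exact Relation.ReflTransGen.refl
  | tail _ h2 ih => exact Relation.ReflTransGen.head h2.symm ih

theorem Rch.trans {s : St M col} {a b c : W} (h : Rch k s a b) (h' : Rch k s b c) : Rch k s a c :=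
  Relation.ReflTransGen.trans h h'

theorem Rch.mem {s : St M col} {w w' : W} (h : Rch k s w w') (hw : w ∈ s.P) : w' ∈ s.P := by
  induction h with
  | refl => exact hw
  | tail _ h2 _ => exact h2.mem.2

theorem Rch.lab {s : St M col} {w w' : W} (h : Rch k s w w') : s.lab w' = s.lab w := by
  induction h with
  | refl => rfl
  | tail _ h2 ih => exact h2.lab.trans ih

/-- the component of `w` -/
noncomputable def comp (k : ι) (s : St M col) (w : W) : Finset W :=
  s.P.filter fun x => Rch k s w x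

theorem mem_comp {s : St M col} {w x : W} : x ∈ comp k s w ↔ x ∈ s.P ∧ Rch k s w x :=
  Finset.mem_filter

theorem self_mem {s : St M col} {w : W} (h : w ∈ s.P) : w ∈ comp k s w :=
  mem_comp.2 ⟨h, Relation.ReflTransGen.refl⟩

theorem comp_mu {s : St M col} {w x : W} {F : Φ} (hF : k ∈ M.side F) (hx : x ∈ comp k s w)
    (hxF : x ∈ M.On F) : s.mu F x ∈ comp k s w := by
  obtain ⟨h1, h2⟩ := mem_comp.1 hx
  exact mem_comp.2 ⟨(s.mu_mem h1 hxF).1, Relation.ReflTransGen.tail h2 ⟨F, hF, h1, hxF, rfl⟩⟩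

theorem comp_eq {s : St M col} {w x : W} (hx : x ∈ comp k s w) : comp k s x = comp k s w := by
  obtain ⟨_, h2⟩ := mem_comp.1 hx
  ext y
  rw [mem_comp, mem_comp]
  exact ⟨fun h => ⟨h.1, h2.trans h.2⟩, fun h => ⟨h.1, h2.symm.trans h.2⟩⟩

theorem comp_disj {s : St M col} {w x : W} (hx : x ∈ s.P) (h : x ∉ comp k s w) :
    Disjoint (comp k s x) (comp k s w) := by
  rw [Finset.disjoint_left]
  intro y h1 h2
  apply h
  rw [← comp_eq h2, comp_eq h1]
  exact self_mem hx

/-- the component as a curve -/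
noncomputable def cc (S : Shell M k Vx Ed) (s : St M col) (hs : ∀ w ∈ s.P, ∃ e, w ∈ S.OnE e)
    (w : W) : Crv S where
  C := comp k s w
  mu := s.mu
  on := fun h => hs _ (mem_comp.1 h).1
  mem := fun hF h hwF => ⟨comp_mu hF h hwF, (s.mu_mem (mem_comp.1 h).1 hwF).2⟩
  ne := fun _ h hwF => s.mu_ne (mem_comp.1 h).1 hwF
  inv := fun _ h hwF => s.mu_mu (mem_comp.1 h).1 hwF

theorem conn_comp {s : St M col} {w : W} (X : Set W)
    (hX : ∀ F x, k ∈ M.side F → x ∈ M.On F → x ∈ comp k s w → x ∈ X → s.mu F x ∈ X) :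
    ∀ x ∈ X, x ∈ comp k s w → ∀ y ∈ comp k s w, y ∈ X := by
  intro x hxX hx y hy
  obtain ⟨_, h2⟩ := mem_comp.1 hx
  obtain ⟨_, h4⟩ := mem_comp.1 hy
  have h5 : Rch k s x y := h2.symm.trans h4
  have h6 : ∀ z, Rch k s x z → z ∈ X ∧ z ∈ comp k s w := by
    intro z hz
    induction hz with
    | refl => exact ⟨hxX, hx⟩
    | tail _ h2 ih =>
      obtain ⟨F, g1, g2, g3, rfl⟩ := h2
      exact ⟨hX F _ g1 g3 ih.2 ih.1, comp_mu g1 ih.2 g3⟩
  exact (h6 y h5).1

theorem cn_cc {s : St M col} (hs : ∀ w ∈ s.P, ∃ e, w ∈ S.OnE e) (w : W) : Cn (cc S s hs w) :=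
  fun X hX x hxX hx y hy => conn_comp (k := k) (s := s) (w := w) X hX x hxX hx y hy

theorem nlc_cc {s : St M col} (hcol : ∀ i j : I, col i = col j)
    (hs : ∀ w ∈ s.P, ∃ e, w ∈ S.OnE e) {w x : W} (hd : Disjoint (comp k s w) (comp k s x)) :
    NLC (cc S s hs w) (cc S s hs x) := by
  intro F a b hF ha haF hb hbF
  have ha' : a ∈ comp k s w := ha
  have hb' : b ∈ comp k s x := hb
  refine s.nc (mem_comp.1 ha').1 haF (mem_comp.1 hb').1 hbF (hcol _ _) ?_ ?_
  · rintro rfl
    exact Finset.disjoint_left.1 hd ha' hb'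
  · rintro rfl
    exact Finset.disjoint_left.1 hd (comp_mu hF ha' haF) hb'

/-- canonical label of a closed set of points, `0` at `v0` -/
noncomputable def lbl (S : Shell M k Vx Ed) (v0 : Vx) (C : Finset W) : Vx → ZMod 2 :=
  if h : ∃ a : Vx → ZMod 2, (∀ e, a (S.en e false) + a (S.en e true) = S.par C e) ∧ a v0 = 0
  then h.choose else 0

theorem lbl_spec [Fintype Ed] (hS : S.Sph) (A : Crv S) (v0 : Vx) :
    IsLab A (lbl S v0 A.C) ∧ lbl S v0 A.C v0 = 0 := by
  have h : ∃ a : Vx → ZMod 2, (∀ e, a (S.en e false) + a (S.en e true) = S.par A.C e) ∧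
      a v0 = 0 := by
    obtain ⟨a, h1, h2⟩ := exists_lab hS A v0
    exact ⟨a, h1, h2⟩
  unfold lbl
  rw [dif_pos h]
  exact h.choose_spec

/-- the side of the point `x` with respect to `C` -/
noncomputable def sd (S : Shell M k Vx Ed) (v0 : Vx) (C : Finset W) (x : W) : ZMod 2 :=
  if h : ∃ e, x ∈ S.OnE e then lbl S v0 C (S.en h.choose false) + S.bel C h.choose x else 0

theorem sd_eq (v0 : Vx) (C : Finset W) {e : Ed} {x : W} (hx : x ∈ S.OnE e) :
    sd S v0 C x = lbl S v0 C (S.en e false) + S.bel C e x := by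
  have h : ∃ e, x ∈ S.OnE e := ⟨e, hx⟩
  unfold sd
  rw [dif_pos h]
  have h1 : h.choose = e := S.onE_disj h.choose_spec hx
  rw [h1]

theorem sd_val (A : Crv S) (v0 : Vx) {e : Ed} {x : W} (hx : x ∈ S.OnE e) :
    sd S v0 A.C x = val A (lbl S v0 A.C) e (S.t x) := sd_eq v0 A.C hx

/-- a connected curve lies on one side -/
theorem sd_const [Fintype Ed] (hS : S.Sph) (hC : S.Circ) (v0 : Vx) (A B : Crv S) (hcn : Cn A)
    (hd : Disjoint A.C B.C) (hNL : NLC A B) : ∃ p : ZMod 2, ∀ x ∈ A.C, sd S v0 B.C x = p := by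
  obtain ⟨p, hp⟩ := side_const hC A B hcn hd hNL (lbl_spec hS B v0).1
  refine ⟨p, fun x hx => ?_⟩
  obtain ⟨e, he⟩ := A.on hx
  rw [sd_val B v0 he]
  exact hp e x he hx

/-- **product rule** with canonical labels -/
theorem sd_rule [Fintype Ed] (hS : S.Sph) (hCon : S.Con) {v0 : Vx}
    (hv0 : ∃ e b, S.en e b = v0) (A B : Crv S) (hd : Disjoint A.C B.C) {p q : ZMod 2}
    (hp : ∀ x ∈ A.C, sd S v0 B.C x = p) (hq : ∀ x ∈ B.C, sd S v0 A.C x = q) :
    (∀ x, sd S v0 A.C x * sd S v0 B.C x = p * sd S v0 A.C x + q * sd S v0 B.C x) ∧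
    (∀ v, (∃ e b, S.en e b = v) → lbl S v0 A.C v * lbl S v0 B.C v =
      p * lbl S v0 A.C v + q * lbl S v0 B.C v) := by
  obtain ⟨ha, ha0⟩ := lbl_spec hS A v0
  obtain ⟨hb, hb0⟩ := lbl_spec hS B v0
  obtain ⟨h1, h2⟩ := prod_rule hCon A B ha hb hv0 ha0 hb0 hd
    (fun e w hwe hw => by rw [← sd_val B v0 hwe]; exact hp w hw)
    (fun e w hwe hw => by rw [← sd_val A v0 hwe]; exact hq w hw)
  constructor
  · intro x
    by_cases hx : ∃ e, x ∈ S.OnE e
    · obtain ⟨e, he⟩ := hx
      rw [sd_val A v0 he, sd_val B v0 he]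
      exact h1 e _
    · unfold sd
      rw [dif_neg hx, dif_neg hx]
      have z : ∀ p q : ZMod 2, 0 * 0 = p * 0 + q * 0 := by decide
      exact z p q
  · rintro v ⟨e, b, rfl⟩
    exact h2 e b

theorem sd_not_both [Fintype Ed] (hS : S.Sph) (hCon : S.Con) {v0 : Vx}
    (hv0 : ∃ e b, S.en e b = v0) (A B : Crv S) (hd : Disjoint A.C B.C) (hA : A.C.Nonempty)
    (hp : ∀ x ∈ A.C, sd S v0 B.C x = 1) (hq : ∀ x ∈ B.C, sd S v0 A.C x = 1) : False := by
  obtain ⟨ha, ha0⟩ := lbl_spec hS A v0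
  obtain ⟨hb, hb0⟩ := lbl_spec hS B v0
  exact not_both hCon A B ha hb hv0 ha0 hb0 hd hA
    (fun e w hwe hw => by rw [← sd_val B v0 hwe]; exact hp w hw)
    (fun e w hwe hw => by rw [← sd_val A v0 hwe]; exact hq w hw)

end Crest.Agent.R096.Twr_438
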