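import Crest.Agent.R096.Lac1_441
import Crest.Agent.R096.Mrg5_715
import Crest.Agent.R096.Mrg6_715
import Crest.Agent.R096.Twr3_438

-- ▼ part R096/Exa1_560
section

/-!
# R096 (row 96), DOORS / EXA part 1 (helper560): level lines in a 2-cell of a tiling

* `exists_pair`  : an affine function on a 2-cell `F` which is not `c` at the vertices and is `c`
  at a boundary point is `c` at exactly two boundary points `p, q`, and on `F` exactly on `[p, q]`.
* `lace_level`   : `p, q` separate `x, y` on `F.bd` iff `g - c` has different signs at `x, y`.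
-/

set_option autoImplicit false

open Set Metric Module
open scoped Classical

namespace Crest.Agent.R096.Exa_560

open Crest.Agent.R096.Msh_715 Crest.Agent.R096.Agl5_543 Crest.Agent.R096.St_147
  Crest.Agent.R096.Lac_441

variable {E : Type} [NormedAddCommGroup E] [NormedSpace ℝ E]
variable {Om : Set E} {ι : Type} {T : Tiling Om ι}

/-- a point strictly inside -/
theorem comb_oc {x y z : E} (hz : z ∈ T.oc x) (hy : y ∈ T.cc x) {t : ℝ} (h0 : 0 < t)
    (h1 : t ≤ 1) : t • z + (1 - t) • y ∈ T.oc x := by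
  intro i hi h hh
  obtain ⟨a1, a2⟩ := hz i hi h hh
  obtain ⟨b1, b2⟩ := hy i hi h hh
  rw [map_add, map_smul, map_smul, smul_eq_mul, smul_eq_mul]
  have key : t * h.1 z + (1 - t) * h.1 y ≤ h.2 := by
    nlinarith [mul_nonneg h0.le (sub_nonneg.2 a1), mul_nonneg (sub_nonneg.2 h1) (sub_nonneg.2 b1)]
  refine ⟨key, ⟨fun e => ?_, fun e => ?_⟩⟩
  · refine a2.1 (le_antisymm a1 ?_)
    by_contra hlt
    push Not at hlt
    nlinarith [mul_pos h0 (sub_pos.2 hlt), mul_nonneg (sub_nonneg.2 h1) (sub_nonneg.2 b1)]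
  · rw [a2.2 e, b2 e]; ring

/-- affine functions on combinations -/
theorem aff_comb (g : E →ᵃ[ℝ] ℝ) (t : ℝ) (x y : E) :
    g (t • x + (1 - t) • y) = t * g x + (1 - t) * g y := by
  have := Convex.combo_affine_apply (f := g) (x := x) (y := y) (a := t) (b := 1 - t) (by ring)
  rw [this, smul_eq_mul, smul_eq_mul]

/-- along a direction on which the linear part vanishes -/
theorem aff_dir (g : E →ᵃ[ℝ] ℝ) {v : E} (hv : g.linear v = 0) (z : E) (t : ℝ) :
    g (z + t • v) = g z := by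
  have h := g.map_vadd z (t • v)
  rw [map_smul, hv, smul_zero, vadd_eq_add, vadd_eq_add, zero_add, add_comm] at h
  exact h

theorem compact_segment (x y : E) : IsCompact (segment ℝ x y) := by
  rw [segment_eq_image_lineMap]
  exact isCompact_Icc.image (AffineMap.lineMap_continuous)

theorem aff_sub (g : E →ᵃ[ℝ] ℝ) (y z : E) : g.linear (y - z) = g y - g z := by
  have := g.linearMap_vsub y z
  rw [vsub_eq_sub, vsub_eq_sub] at this
  exact this

section level

variable [FiniteDimensional ℝ E] (F : C2 T) (g : E →ᵃ[ℝ] ℝ) {c : ℝ}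

/-- a boundary point of level `c`: points above and below -/
theorem exists_up_down (hv : ∀ v ∈ F.set, T.dim v = 0 → g v ≠ c) {y : E} (hy : y ∈ F.bd)
    (hyc : g y = c) : T.dim y = 1 ∧ (∃ a ∈ F.set, c < g a) ∧ ∃ a ∈ F.set, g a < c := by
  have hyF := F.bd_sub hy
  have h1 := (F.mem_bd_iff hyF).1 hy
  have hd : T.dim y = 1 := by
    have h0 : T.dim y ≠ 0 := fun h => hv y hyF h hyc
    omega
  have hyO := F.set_sub hyF
  have hcc : T.cc y ⊆ F.set := by
    rw [F.set_eq] at hyF ⊢; exact T.cc_sub_of_mem hyF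
  obtain ⟨a, b, hab, hcy, hoy, ha0, hb0, ha, hb⟩ := T.edge_eq hyO hd
  have hya : y ∈ openSegment ℝ a b := by rw [← hoy]; exact T.self_mem_oc y
  obtain ⟨s, t, hs, ht, hst, hy'⟩ := hya
  have e1 : t = 1 - s := by linarith
  rw [e1] at hy'
  have h2 := aff_comb g s a b
  rw [hy', hyc] at h2
  have hga := hv a (hcc ha) ha0
  have hgb := hv b (hcc hb) hb0
  refine ⟨hd, ?_⟩
  rcases lt_or_gt_of_ne hga with h3 | h3
  · rcases lt_or_gt_of_ne hgb with h4 | h4
    · exfalso
      nlinarith [mul_pos hs (sub_pos.2 h3), mul_pos (show 0 < 1 - s by linarith) (sub_pos.2 h4)]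
    · exact ⟨⟨b, hcc hb, h4⟩, a, hcc ha, h3⟩
  · rcases lt_or_gt_of_ne hgb with h4 | h4
    · exact ⟨⟨a, hcc ha, h3⟩, b, hcc hb, h4⟩
    · exfalso
      nlinarith [mul_pos hs (sub_pos.2 h3), mul_pos (show 0 < 1 - s by linarith) (sub_pos.2 h4)]

omit [FiniteDimensional ℝ E] in
/-- **the two boundary points of a level** -/
theorem exists_pair (hu : ∃ a ∈ F.set, c < g a) (hd : ∃ a ∈ F.set, g a < c) :
    ∃ p q : E, p ≠ q ∧ p ∈ F.bd ∧ q ∈ F.bd ∧ g p = c ∧ g q = c ∧
      (∀ w ∈ F.bd, g w = c → w = p ∨ w = q) ∧ (∀ w ∈ F.set, g w = c → w ∈ segment ℝ p q) := by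
  obtain ⟨a, ha, hau⟩ := hu
  obtain ⟨b, hb, hbd⟩ := hd
  set x := F.pt with hx
  have hxO : x ∈ Om := F.pt_mem
  rw [F.set_eq] at ha hb
  -- an interior point of level `c`
  obtain ⟨z, hz, hzc⟩ : ∃ z ∈ T.oc x, g z = c := by
    have hxo := T.self_mem_oc x
    rcases le_or_gt c (g x) with h | h
    · have h1 : 0 < g x - g b := by linarith
      refine ⟨_, comb_oc hxo hb (t := (c - g b) / (g x - g b)) (div_pos (by linarith) h1)
        ((div_le_one h1).2 (by linarith)), ?_⟩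
      rw [aff_comb]; field_simp; ring
    · have h1 : 0 < g a - g x := by linarith
      refine ⟨_, comb_oc hxo ha (t := (g a - c) / (g a - g x)) (div_pos (by linarith) h1)
        ((div_le_one h1).2 (by linarith)), ?_⟩
      rw [aff_comb]; field_simp; ring
  have hzO : z ∈ Om := T.cc_sub_Om hxO (T.oc_sub_cc x hz)
  have hcc : T.cc z = T.cc x := T.cc_eq_of_mem_oc hxO hz
  have hoc : T.oc z = T.oc x := T.oc_eq_of_mem hxO hz
  have hV : finrank ℝ (T.V z) = 2 := by
    rw [T.V_eq_of_mem_oc hxO hz]; exact F.dim_pt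
  -- a direction of constant level
  have hdV : a - z ∈ T.V z := T.sub_mem_V (by rw [hcc]; exact ha)
  have hgd : g.linear (a - z) = g a - c := by rw [aff_sub, hzc]
  have hd0 : a - z ≠ 0 := by
    intro h
    rw [h, map_zero] at hgd
    linarith
  obtain ⟨w0, hw0, hspan, hind⟩ := exists_second hV hdV hd0
  set v : E := w0 - (g.linear w0 / g.linear (a - z)) • (a - z) with hvdef
  have hgpos : g.linear (a - z) ≠ 0 := by rw [hgd]; linarith
  have hvV : v ∈ T.V z := (T.V z).sub_mem hw0 ((T.V z).smul_mem _ hdV)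
  have hgv : g.linear v = 0 := by
    rw [hvdef, map_sub, map_smul, smul_eq_mul, div_mul_cancel₀ _ hgpos, sub_self]
  have hv0 : v ≠ 0 := by
    intro h
    have := hind (-(g.linear w0 / g.linear (a - z))) 1 (by
      rw [one_smul, neg_smul, neg_add_eq_sub]; exact h)
    exact one_ne_zero this.2
  have hpar : ∀ w ∈ T.cc x, g w = c → ∃ t : ℝ, w = z + t • v := by
    intro w hw hwc
    have h1 : w - z ∈ T.V z := T.sub_mem_V (by rw [hcc]; exact hw)
    obtain ⟨α, β, hαβ⟩ := hspan _ h1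
    have h2 : w - z = (α + β * (g.linear w0 / g.linear (a - z))) • (a - z) + β • v := by
      rw [hαβ, hvdef]; module
    have h3 : g.linear (w - z) = 0 := by rw [aff_sub, hwc, hzc, sub_self]
    rw [h2, map_add, map_smul, map_smul, hgv, smul_zero, add_zero, smul_eq_mul] at h3
    have h4 := (mul_eq_zero.1 h3).resolve_right hgpos
    rw [h4, zero_smul, zero_add] at h2
    exact ⟨β, by rw [← h2]; abel⟩
  obtain ⟨t1, ht1, h1a, h1b, h1c⟩ := T.exists_exit hzO hvV hv0
  obtain ⟨t2, ht2, h2a, h2b, h2c⟩ := T.exists_exit hzO ((T.V z).neg_mem hvV) (neg_ne_zero.2 hv0)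
  rw [hcc] at h1a h2a
  rw [hoc] at h1b h2b
  have hbd : ∀ w, w ∈ F.bd ↔ w ∈ T.cc x ∧ w ∉ T.oc x := by
    intro w; rw [F.bd_eq]; rfl
  have hneg : ∀ t : ℝ, z + t • (-v) = z + (-t) • v := by
    intro t; rw [smul_neg, neg_smul]
  -- beyond the exit nothing is in the cell
  have hmax : ∀ t : ℝ, z + t • v ∈ T.cc x → t ≤ t1 := by
    intro t ht
    by_contra hcon
    push Not at hcon
    apply h1b
    have ht0 : 0 < t := by linarith
    have := comb_oc hz ht (t := 1 - t1 / t) (by rw [sub_pos]; exact (div_lt_one ht0).2 hcon)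
      (by have : 0 ≤ t1 / t := by positivity
          linarith)
    have e : (1 - t1 / t) • z + (1 - (1 - t1 / t)) • (z + t • v) = z + t1 • v := by
      rw [smul_add, ← add_assoc, ← add_smul, smul_smul]
      have e1 : 1 - t1 / t + (1 - (1 - t1 / t)) = 1 := by ring
      have e2 : (1 - (1 - t1 / t)) * t = t1 := by field_simp; ring
      rw [e1, e2, one_smul]
    rw [e] at this
    exact this
  have hmin : ∀ t : ℝ, z + t • v ∈ T.cc x → -t2 ≤ t := by
    intro t ht
    by_contra hcon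
    push Not at hcon
    apply h2b
    have ht0 : t < 0 := by linarith
    have hq : 0 < -t := by linarith
    have := comb_oc hz ht (t := 1 - t2 / (-t)) (by rw [sub_pos]; exact (div_lt_one hq).2 (by linarith))
      (by have : 0 ≤ t2 / (-t) := by positivity
          linarith)
    have e : (1 - t2 / (-t)) • z + (1 - (1 - t2 / (-t))) • (z + t • v) = z + t2 • (-v) := by
      rw [hneg, smul_add, ← add_assoc, ← add_smul, smul_smul]
      have e1 : 1 - t2 / (-t) + (1 - (1 - t2 / (-t))) = 1 := by ring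
      have e2 : (1 - (1 - t2 / (-t))) * t = -t2 := by
        rw [sub_sub_cancel, div_neg, neg_mul, div_mul_cancel₀ _ ht0.ne]
      rw [e1, e2, one_smul]
    rw [e] at this
    exact this
  have hin : ∀ t : ℝ, -t2 < t → t < t1 → z + t • v ∈ T.oc x := by
    intro t h1 h2
    rcases le_or_gt 0 t with h | h
    · rw [← hoc]; exact h1c t h h2
    · have := h2c (-t) (by linarith) (by linarith)
      rw [hneg, neg_neg, hoc] at this
      exact this
  refine ⟨z + t1 • v, z + t2 • (-v), ?_, (hbd _).2 ⟨h1a, h1b⟩, (hbd _).2 ⟨h2a, h2b⟩,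
    by rw [aff_dir g hgv, hzc], by rw [hneg, aff_dir g hgv, hzc], ?_, ?_⟩
  · intro h
    rw [hneg, add_right_inj] at h
    have : (t1 - -t2) • v = 0 := by rw [sub_smul, h, sub_self]
    rcases smul_eq_zero.1 this with h' | h'
    · linarith
    · exact hv0 h'
  · intro w hw hwc
    obtain ⟨hw1, hw2⟩ := (hbd w).1 hw
    obtain ⟨t, rfl⟩ := hpar w hw1 hwc
    rcases (hmax t hw1).lt_or_eq with h | h
    · rcases (hmin t hw1).lt_or_eq with h' | h'
      · exact absurd (hin t h' h) hw2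
      · right; rw [hneg, h']
    · left; rw [h]
  · intro w hw hwc
    rw [F.set_eq] at hw
    obtain ⟨t, rfl⟩ := hpar w hw hwc
    have ha1 := hmax t hw
    have ha2 := hmin t hw
    have hd : 0 < t1 + t2 := by linarith
    refine ⟨(t + t2) / (t1 + t2), (t1 - t) / (t1 + t2), div_nonneg (by linarith) hd.le,
      div_nonneg (by linarith) hd.le, by field_simp; ring, ?_⟩
    rw [hneg, smul_add, smul_add, smul_smul, smul_smul, add_add_add_comm, ← add_smul, ← add_smul]
    have e1 : (t + t2) / (t1 + t2) + (t1 - t) / (t1 + t2) = 1 := by field_simp; ring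
    have e2 : (t + t2) / (t1 + t2) * t1 + (t1 - t) / (t1 + t2) * -t2 = t := by field_simp; ring
    rw [e1, e2, one_smul]

/-- **`Lace` of a level line** -/
theorem lace_level (h3 : finrank ℝ E = 3) {p q x y : E} (hp : p ∈ F.bd) (hq : q ∈ F.bd)
    (hpc : g p = c) (hqc : g q = c) (hall : ∀ w ∈ F.bd, g w = c → w = p ∨ w = q) (hx : x ∈ F.bd)
    (hy : y ∈ F.bd) (hxc : g x ≠ c) (hyc : g y ≠ c) :
    (meshC T h3).Lace F p q x y ↔ (g x < c ∧ c < g y) ∨ (g y < c ∧ c < g x) := by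
  have hcont : Continuous g := g.continuous_of_finiteDimensional
  have hpx : p ≠ x := fun h => hxc (by rw [← h]; exact hpc)
  have hpy : p ≠ y := fun h => hyc (by rw [← h]; exact hpc)
  have hqx : q ≠ x := fun h => hxc (by rw [← h]; exact hqc)
  have hqy : q ≠ y := fun h => hyc (by rw [← h]; exact hqc)
  constructor
  · intro hl
    by_contra hcon
    -- the segments `[p,q]` and `[x,y]` are disjoint
    have hconv : Convex ℝ F.set := by rw [F.set_eq]; exact T.convex_cc _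
    have hmeet := F.meet_of_lace (K := segment ℝ p q) (K' := segment ℝ x y)
      (convex_segment p q).isPreconnected (convex_segment x y).isPreconnected
      (compact_segment p q) (compact_segment x y)
      (hconv.segment_subset (F.bd_sub hp) (F.bd_sub hq))
      (hconv.segment_subset (F.bd_sub hx) (F.bd_sub hy)) hp hq hx hy hpx hpy hqx hqy
      (left_mem_segment ℝ p q) (right_mem_segment ℝ p q) (left_mem_segment ℝ x y)
      (right_mem_segment ℝ x y) hl
    obtain ⟨w, ⟨s, t, hs, ht, hst, rfl⟩, ⟨s', t', hs', ht', hst', he⟩⟩ := hmeet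
    have e1 : t = 1 - s := by linarith
    have e2 : t' = 1 - s' := by linarith
    rw [e1, e2] at he
    have h1 := aff_comb g s p q
    have h2 := aff_comb g s' x y
    rw [he, h1, hpc, hqc] at h2
    rcases lt_or_gt_of_ne hxc with h4 | h4 <;> rcases lt_or_gt_of_ne hyc with h5 | h5
    · rw [e2] at ht'
      nlinarith [mul_nonneg hs' (sub_nonneg.2 h4.le), mul_nonneg ht' (sub_nonneg.2 h5.le),
        mul_pos (sub_pos.2 h4) (sub_pos.2 h5)]
    · exact hcon (Or.inl ⟨h4, h5⟩)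
    · exact hcon (Or.inr ⟨h5, h4⟩)
    · rw [e2] at ht'
      nlinarith [mul_nonneg hs' (sub_nonneg.2 h4.le), mul_nonneg ht' (sub_nonneg.2 h5.le),
        mul_pos (sub_pos.2 h4) (sub_pos.2 h5)]
  · intro hsgn
    rw [lace_iff h3 F hp hq hx hy hpx hpy hqx hqy]
    rintro ⟨K, hK, hKF, hpK, hqK, hxK, hyK⟩
    have himg := hK.image g hcont.continuousOn
    have hord := himg.ordConnected
    have hcK : c ∈ g '' K := by
      rcases hsgn with ⟨h1, h2⟩ | ⟨h1, h2⟩
      · exact hord.out ⟨x, hxK, rfl⟩ ⟨y, hyK, rfl⟩ ⟨h1.le, h2.le⟩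
      · exact hord.out ⟨y, hyK, rfl⟩ ⟨x, hxK, rfl⟩ ⟨h1.le, h2.le⟩
    obtain ⟨w, hwK, hwc⟩ := hcK
    rcases hall w (hKF hwK) hwc with rfl | rfl
    · exact hpK hwK
    · exact hqK hwK

end level

end Crest.Agent.R096.Exa_560
end

-- ▼ part R096/Exa2_560
section

/-!
# R096 (row 96), DOORS / EXA part 2 (helper560): levels of a function on a surface of 2-cells

* `SgD T Sg`   : `Sg` is a compact union of 2-cells.
* `Lev T Sg J` : a function `u` on `Sg`, affine on the 2-cells, and finitely many levels which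
  are different from the values at the vertices.
* `Lev.PS`     : the points of the levels on the 1-cells (finite), `Lev.mu` the partner on a 2-cell.
* `Lev.conn`   : a connected level is one chain of partners.
-/

set_option autoImplicit false
set_option linter.unusedSectionVars false

open Set Metric Module
open scoped Classical

namespace Crest.Agent.R096.Exa_560

open Crest.Agent.R096.Msh_715 Crest.Agent.R096.Agl5_543 Crest.Agent.R096.St_147
  Crest.Agent.R096.Lac_441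

variable {E : Type} [NormedAddCommGroup E] [NormedSpace ℝ E] [FiniteDimensional ℝ E]
variable {Om : Set E} {ι : Type} {T : Tiling Om ι} {Sg : Set E} {J : Type}

/-- a compact union of 2-cells -/
structure SgD (T : Tiling Om ι) (Sg : Set E) : Prop where
  cpt : IsCompact Sg
  sub : Sg ⊆ Om
  cc : ∀ x ∈ Sg, T.cc x ⊆ Sg
  cov : ∀ x ∈ Sg, ∃ F : C2 T, F.set ⊆ Sg ∧ x ∈ F.set

/-- levels of a function on `Sg` -/
structure Lev (T : Tiling Om ι) (Sg : Set E) (J : Type) where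
  u : E → ℝ
  aff : ∀ F : C2 T, F.set ⊆ Sg → ∃ g : E →ᵃ[ℝ] ℝ, EqOn u g F.set
  J0 : Finset J
  lv : J → ℝ
  inj : ∀ i ∈ J0, ∀ j ∈ J0, lv i = lv j → i = j
  vert : ∀ v ∈ Sg, T.dim v = 0 → ∀ j ∈ J0, u v ≠ lv j

namespace Lev

variable (L : Lev T Sg J)


/-- points above and below a level which is attained -/
theorem up_down {F : C2 T} (hF : F.set ⊆ Sg) {g : E →ᵃ[ℝ] ℝ} (hg : EqOn L.u g F.set) {j : J}
    (hj : j ∈ L.J0) {x : E} (hx : x ∈ F.set) (hxj : L.u x = L.lv j) :
    (∃ a ∈ F.set, L.lv j < g a) ∧ ∃ a ∈ F.set, g a < L.lv j := by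
  have hv : ∀ v ∈ F.set, T.dim v = 0 → g v ≠ L.lv j := by
    intro v hv h0
    rw [← hg hv]
    exact L.vert v (hF hv) h0 j hj
  have hxg : g x = L.lv j := by rw [← hg hx, hxj]
  by_cases hb : x ∈ F.bd
  · obtain ⟨_, h1, h2⟩ := exists_up_down F g hv hb hxg
    exact ⟨h1, h2⟩
  · -- an interior point
    have hxo : x ∈ F.1.opn := by
      by_contra h
      exact hb ⟨hx, h⟩
    obtain ⟨v, hv1, hv0⟩ := T.exists_vertex F.pt_mem
    rw [← F.set_eq] at hv1
    have hne := hv v hv1 hv0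
    have hxO := F.set_sub hx
    have hocc : T.oc x = F.1.opn := T.oc_eq_of_mem F.pt_mem hxo
    have hccx : T.cc x = T.cc F.pt := T.cc_eq_of_mem_oc F.pt_mem hxo
    have hvV : x - v ∈ T.V x := by
      have h1 : v - x ∈ T.V x := T.sub_mem_V (by rw [hccx, ← F.set_eq]; exact hv1)
      have := (T.V x).neg_mem h1
      rwa [neg_sub] at this
    have hxv : x - v ≠ 0 := by
      intro h
      apply hne
      rw [← sub_eq_zero.1 h]; exact hxg
    obtain ⟨t, ht, ha, _, _⟩ := T.exists_exit hxO hvV hxv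
    rw [hccx, ← F.set_eq] at ha
    -- the opposite point
    have hlin : g.linear (x - v) = L.lv j - g v := by rw [aff_sub, hxg]
    have hval : g (x + t • (x - v)) = L.lv j + t * (L.lv j - g v) := by
      have h := g.map_vadd x (t • (x - v))
      rw [map_smul, hlin, vadd_eq_add, vadd_eq_add, add_comm (t • (x - v)), hxg,
        smul_eq_mul] at h
      rw [h]; ring
    rcases lt_or_gt_of_ne hne with h | h
    · refine ⟨⟨_, ha, ?_⟩, v, hv1, h⟩
      rw [hval]
      nlinarith [mul_pos ht (sub_pos.2 h)]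
    · refine ⟨⟨v, hv1, h⟩, _, ha, ?_⟩
      rw [hval]
      nlinarith [mul_pos ht (sub_pos.2 h)]

/-- **the level in a 2-cell** -/
theorem face {F : C2 T} (hF : F.set ⊆ Sg) {j : J} (hj : j ∈ L.J0) {x : E} (hx : x ∈ F.set)
    (hxj : L.u x = L.lv j) :
    ∃ p q : E, p ≠ q ∧ p ∈ F.On ∧ q ∈ F.On ∧ L.u p = L.lv j ∧ L.u q = L.lv j ∧
      (∀ w ∈ F.bd, L.u w = L.lv j → w = p ∨ w = q) ∧
      (∀ w ∈ F.set, L.u w = L.lv j → w ∈ segment ℝ p q) := by
  obtain ⟨g, hg⟩ := L.aff F hF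
  obtain ⟨hu, hd⟩ := L.up_down hF hg hj hx hxj
  obtain ⟨p, q, hpq, hp, hq, hgp, hgq, hb, hs⟩ := exists_pair F g hu hd
  have hup : L.u p = L.lv j := by rw [hg (F.bd_sub hp), hgp]
  have huq : L.u q = L.lv j := by rw [hg (F.bd_sub hq), hgq]
  have hdim : ∀ y ∈ F.bd, L.u y = L.lv j → y ∈ F.On := by
    intro y hy hyj
    refine ⟨F.bd_sub hy, ?_⟩
    have h1 := (F.mem_bd_iff (F.bd_sub hy)).1 hy
    have h0 : T.dim y ≠ 0 := fun h => L.vert y (hF (F.bd_sub hy)) h j hj hyj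
    omega
  exact ⟨p, q, hpq, hdim p hp hup, hdim q hq huq, hup, huq,
    fun w hw hwj => hb w hw (by rw [← hg (F.bd_sub hw)]; exact hwj),
    fun w hw hwj => hs w hw (by rw [← hg hw]; exact hwj)⟩

/-- the partner on the 2-cell `F` -/
noncomputable def mu (F : C2 T) (w : E) : E :=
  if h : ∃ w', w' ≠ w ∧ w' ∈ F.On ∧ L.u w' = L.u w then h.choose else w

/-- **partners** -/
theorem mu_spec {F : C2 T} (hF : F.set ⊆ Sg) {j : J} (hj : j ∈ L.J0) {w : E} (hw : w ∈ F.On)
    (hwj : L.u w = L.lv j) :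
    L.mu F w ≠ w ∧ L.mu F w ∈ F.On ∧ L.u (L.mu F w) = L.lv j ∧
      (∀ y ∈ F.bd, L.u y = L.lv j → y = w ∨ y = L.mu F w) ∧
      (∀ y ∈ F.set, L.u y = L.lv j → y ∈ segment ℝ w (L.mu F w)) := by
  obtain ⟨p, q, hpq, hp, hq, hup, huq, hb, hs⟩ := L.face hF hj hw.1 hwj
  have hex : ∃ w', w' ≠ w ∧ w' ∈ F.On ∧ L.u w' = L.u w := by
    rcases hb w (F.on_sub_bd hw) hwj with rfl | rfl
    · exact ⟨q, hpq.symm, hq, huq.trans hup.symm⟩
    · exact ⟨p, hpq, hp, hup.trans huq.symm⟩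
  have hmu : L.mu F w = hex.choose := dif_pos hex
  obtain ⟨h1, h2, h3⟩ := hex.choose_spec
  rw [← hmu] at h1 h2 h3
  have h4 : L.u (L.mu F w) = L.lv j := h3.trans hwj
  refine ⟨h1, h2, h4, ?_⟩
  have h5 := hb _ (F.on_sub_bd h2) h4
  rcases hb w (F.on_sub_bd hw) hwj with hwp | hwq
  · have hq' : L.mu F w = q := by
      rcases h5 with h | h
      · exact absurd (h.trans hwp.symm) h1
      · exact h
    rw [hq', hwp]
    exact ⟨hb, hs⟩
  · have hp' : L.mu F w = p := by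
      rcases h5 with h | h
      · exact h
      · exact absurd (h.trans hwq.symm) h1
    rw [hp', hwq]
    refine ⟨fun y hy h => (hb y hy h).symm, fun y hy h => ?_⟩
    rw [segment_symm]
    exact hs y hy h

theorem mu_mu {F : C2 T} (hF : F.set ⊆ Sg) {j : J} (hj : j ∈ L.J0) {w : E} (hw : w ∈ F.On)
    (hwj : L.u w = L.lv j) : L.mu F (L.mu F w) = w := by
  obtain ⟨h1, h2, h3, h4, _⟩ := L.mu_spec hF hj hw hwj
  obtain ⟨h1', h2', h3', h4', _⟩ := L.mu_spec hF hj h2 h3
  rcases h4 _ (F.on_sub_bd h2') h3' with h | h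
  · exact h
  · exact absurd h h1'

/-- the points of the pattern -/
def PS : Set E := {w | w ∈ Sg ∧ T.dim w = 1 ∧ ∃ j ∈ L.J0, L.u w = L.lv j}

/-- the name of a point -/
noncomputable def lab [Nonempty J] (w : E) : J :=
  if h : ∃ j ∈ L.J0, L.u w = L.lv j then h.choose else Classical.arbitrary J

theorem lab_spec [Nonempty J] {w : E} (h : ∃ j ∈ L.J0, L.u w = L.lv j) :
    L.lab w ∈ L.J0 ∧ L.u w = L.lv (L.lab w) := by
  unfold lab
  rw [dif_pos h]
  exact h.choose_spec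

theorem lab_eq [Nonempty J] {w : E} {j : J} (hj : j ∈ L.J0) (h : L.u w = L.lv j) :
    L.lab w = j := by
  obtain ⟨h1, h2⟩ := L.lab_spec ⟨j, hj, h⟩
  exact L.inj _ h1 _ hj (h2.symm.trans h)

/-- at most one point of a level on a 1-cell -/
theorem edge_inj (hS : SgD T Sg) {j : J} (hj : j ∈ L.J0) {w w' : E} (hw : w ∈ Sg)
    (hd : T.dim w = 1) (hwj : L.u w = L.lv j) (hw' : w' ∈ Sg) (hd' : T.dim w' = 1)
    (hwj' : L.u w' = L.lv j) (hcc : T.cc w = T.cc w') : w = w' := by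
  have hwO := hS.sub hw
  obtain ⟨F, hF, hwF⟩ := hS.cov w hw
  obtain ⟨g, hg⟩ := L.aff F hF
  have hccF : T.cc w ⊆ F.set := by
    rw [F.set_eq] at hwF ⊢; exact T.cc_sub_of_mem hwF
  obtain ⟨a, b, hab, hcy, hoy, ha0, hb0, ha, hb⟩ := T.edge_eq hwO hd
  have hwo : w ∈ openSegment ℝ a b := by rw [← hoy]; exact T.self_mem_oc w
  have hwo' : w' ∈ openSegment ℝ a b := by
    rw [← hoy]
    have h1 : w' ∈ T.cc w := by rw [hcc]; exact T.self_mem_cc w'
    by_contra hn
    have := T.dim_lt h1 hn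
    omega
  have hga : g a ≠ L.lv j := by
    rw [← hg (hccF ha)]; exact L.vert a (hF (hccF ha)) ha0 j hj
  have hgb : g b ≠ L.lv j := by
    rw [← hg (hccF hb)]; exact L.vert b (hF (hccF hb)) hb0 j hj
  have hgw : g w = L.lv j := by rw [← hg hwF, hwj]
  have hgw' : g w' = L.lv j := by
    rw [← hg (hccF (by rw [hcc]; exact T.self_mem_cc w')), hwj']
  obtain ⟨s, t, hs, ht, hst, rfl⟩ := hwo
  obtain ⟨s', t', hs', ht', hst', rfl⟩ := hwo'
  have e1 : t = 1 - s := by linarith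
  have e2 : t' = 1 - s' := by linarith
  subst e1 e2
  rw [aff_comb] at hgw hgw'
  have hne : g a - g b ≠ 0 := by
    intro h
    apply hgb
    have : g a = g b := sub_eq_zero.1 h
    rw [this] at hgw
    linarith
  have hss : s = s' := by
    have : (s - s') * (g a - g b) = 0 := by linarith
    rcases mul_eq_zero.1 this with h | h
    · linarith
    · exact absurd h hne
  rw [hss]

theorem finite_PS (hS : SgD T Sg) : L.PS.Finite := by
  have hfin := T.finite_cells hS.cpt hS.sub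
  rcases isEmpty_or_nonempty J with hJ | hJ
  · refine Set.finite_empty.subset ?_
    rintro w ⟨_, _, j, _⟩
    exact hJ.elim j
  refine Set.Finite.of_finite_image (f := fun w => (T.cc w, L.lab w))
    ((hfin.prod L.J0.finite_toSet).subset ?_) ?_
  · rintro _ ⟨w, ⟨hw, hd, hj⟩, rfl⟩
    exact ⟨⟨⟨w, hS.sub hw, rfl⟩, w, T.self_mem_cc w, hw⟩, (L.lab_spec hj).1⟩
  · rintro w ⟨hw, hd, hj⟩ w' ⟨hw', hd', hj'⟩ he
    have h1 : T.cc w = T.cc w' := congrArg Prod.fst he
    have h2 : L.lab w = L.lab w' := congrArg Prod.snd he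
    obtain ⟨h3, h4⟩ := L.lab_spec hj
    obtain ⟨h5, h6⟩ := L.lab_spec hj'
    rw [← h2] at h6
    exact L.edge_inj hS h3 hw hd h4 hw' hd' h6 h1

/-- the 2-cells of `Sg` -/
theorem finite_faces (hS : SgD T Sg) : {F : C2 T | F.set ⊆ Sg}.Finite := by
  have hfin := T.finite_cells hS.cpt hS.sub
  refine Set.Finite.of_finite_image (f := fun F : C2 T => F.set) (hfin.subset ?_)
    (fun F _ G _ h => C2.ext h)
  rintro _ ⟨F, hF, rfl⟩
  exact ⟨F.1.2, F.pt, F.1.opn_sub (T.self_mem_oc _), hF (F.1.opn_sub (T.self_mem_oc _))⟩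

/-- the level in a 2-cell is closed -/
theorem isClosed_face {F : C2 T} (hF : F.set ⊆ Sg) (c : ℝ) :
    IsClosed {x | x ∈ F.set ∧ L.u x = c} := by
  obtain ⟨g, hg⟩ := L.aff F hF
  have h1 : {x | x ∈ F.set ∧ L.u x = c} = F.set ∩ g ⁻¹' {c} := by
    ext x
    constructor
    · rintro ⟨h1, h2⟩
      exact ⟨h1, by rw [mem_preimage, mem_singleton_iff, ← hg h1]; exact h2⟩
    · rintro ⟨h1, h2⟩
      exact ⟨h1, by rw [hg h1]; exact h2⟩
  rw [h1]
  refine IsClosed.inter ?_ (isClosed_singleton.preimage g.continuous_of_finiteDimensional)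
  rw [F.set_eq]; exact T.isClosed_cc _

/-- the intersection of two 2-cells has dimension at most one -/
theorem dim_inter {F G : C2 T} (hFG : F ≠ G) {x : E} (h1 : x ∈ F.set) (h2 : x ∈ G.set) :
    T.dim x ≤ 1 := by
  by_contra h
  push Not at h
  have hO := F.set_sub h1
  have key : ∀ G : C2 T, x ∈ G.set → G.1 = T.cl hO := by
    intro G hG
    apply T.eq_cl hO
    show x ∈ T.oc G.pt
    by_contra hn
    rw [G.set_eq] at hG
    have := T.dim_lt hG hn
    rw [G.dim_pt] at this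
    omega
  exact hFG (Subtype.ext ((key F h1).trans (key G h2).symm))

/-- **(E1) a connected level is one chain** -/
theorem conn (hS : SgD T Sg) {j : J} (hj : j ∈ L.J0)
    (hc : IsPreconnected {x | x ∈ Sg ∧ L.u x = L.lv j}) (X : Set E)
    (hX : ∀ F : C2 T, F.set ⊆ Sg → ∀ w ∈ F.On, L.u w = L.lv j → w ∈ X → L.mu F w ∈ X)
    {w w' : E} (hw : w ∈ Sg) (hd : T.dim w = 1) (hwj : L.u w = L.lv j) (hwX : w ∈ X)
    (hw' : w' ∈ Sg) (hd' : T.dim w' = 1) (hwj' : L.u w' = L.lv j) : w' ∈ X := by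
  by_contra hcon
  set A1 : Set (C2 T) := {F | F.set ⊆ Sg ∧ ∃ p ∈ F.On, L.u p = L.lv j ∧ p ∈ X} with hA1
  set A2 : Set (C2 T) := {F | F.set ⊆ Sg ∧ ∃ p ∈ F.On, L.u p = L.lv j ∧ p ∉ X} with hA2
  have hfin := finite_faces (T := T) hS
  have hU1 : IsClosed (⋃ F ∈ A1, {x | x ∈ F.set ∧ L.u x = L.lv j}) :=
    (hfin.subset fun F hF => hF.1).isClosed_biUnion fun F hF => L.isClosed_face hF.1 _
  have hU2 : IsClosed (⋃ F ∈ A2, {x | x ∈ F.set ∧ L.u x = L.lv j}) :=
    (hfin.subset fun F hF => hF.1).isClosed_biUnion fun F hF => L.isClosed_face hF.1 _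
  -- all points of the level in a cell of `A1` are in `X`
  have hall1 : ∀ F ∈ A1, ∀ y ∈ F.On, L.u y = L.lv j → y ∈ X := by
    rintro F ⟨hF, p, hp, hpj, hpX⟩ y hy hyj
    rcases (L.mu_spec hF hj hp hpj).2.2.2.1 y (F.on_sub_bd hy) hyj with rfl | rfl
    · exact hpX
    · exact hX F hF p hp hpj hpX
  have hall2 : ∀ F ∈ A2, ∀ y ∈ F.On, L.u y = L.lv j → y ∉ X := by
    rintro F ⟨hF, p, hp, hpj, hpX⟩ y hy hyj hyX
    rcases (L.mu_spec hF hj hy hyj).2.2.2.1 p (F.on_sub_bd hp) hpj with rfl | rfl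
    · exact hpX hyX
    · exact hpX (hX F hF y hy hyj hyX)
  have hcov : {x | x ∈ Sg ∧ L.u x = L.lv j} ⊆ (⋃ F ∈ A1, {x | x ∈ F.set ∧ L.u x = L.lv j}) ∪
      ⋃ F ∈ A2, {x | x ∈ F.set ∧ L.u x = L.lv j} := by
    rintro x ⟨hx, hxj⟩
    obtain ⟨F, hF, hxF⟩ := hS.cov x hx
    obtain ⟨p, q, _, hp, _, hpj, _⟩ := L.face hF hj hxF hxj
    by_cases hpX : p ∈ X
    · exact Or.inl (mem_biUnion (show F ∈ A1 from ⟨hF, p, hp, hpj, hpX⟩) ⟨hxF, hxj⟩)
    · exact Or.inr (mem_biUnion (show F ∈ A2 from ⟨hF, p, hp, hpj, hpX⟩) ⟨hxF, hxj⟩)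
  have hn1 : ({x | x ∈ Sg ∧ L.u x = L.lv j} ∩
      ⋃ F ∈ A1, {x | x ∈ F.set ∧ L.u x = L.lv j}).Nonempty := by
    obtain ⟨F, hF, hxF⟩ := hS.cov w hw
    exact ⟨w, ⟨hw, hwj⟩, mem_biUnion (show F ∈ A1 from ⟨hF, w, ⟨hxF, hd⟩, hwj, hwX⟩) ⟨hxF, hwj⟩⟩
  have hn2 : ({x | x ∈ Sg ∧ L.u x = L.lv j} ∩
      ⋃ F ∈ A2, {x | x ∈ F.set ∧ L.u x = L.lv j}).Nonempty := by
    obtain ⟨F, hF, hxF⟩ := hS.cov w' hw'
    exact ⟨w', ⟨hw', hwj'⟩,
      mem_biUnion (show F ∈ A2 from ⟨hF, w', ⟨hxF, hd'⟩, hwj', hcon⟩) ⟨hxF, hwj'⟩⟩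
  obtain ⟨y, ⟨hyS, hyj⟩, hy1, hy2⟩ := (isPreconnected_closed_iff.1 hc) _ _ hU1 hU2 hcov hn1 hn2
  rw [mem_iUnion₂] at hy1 hy2
  obtain ⟨F, hF1, hyF, _⟩ := hy1
  obtain ⟨G, hG2, hyG, _⟩ := hy2
  by_cases hFG : F = G
  · subst hFG
    obtain ⟨hF, p, hp, hpj, hpX⟩ := hF1
    exact hall2 F hG2 p hp hpj hpX
  · have h1 := dim_inter hFG hyF hyG
    have h0 : T.dim y ≠ 0 := fun h => L.vert y hyS h j hj hyj
    have hd1 : T.dim y = 1 := by omega
    exact hall2 G hG2 y ⟨hyG, hd1⟩ hyj (hall1 F hF1 y ⟨hyF, hd1⟩ hyj)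

end Lev

end Crest.Agent.R096.Exa_560
end

-- ▼ part R096/Exa3_560
section

/-!
# R096 (row 96), DOORS / EXA part 3 (helper560): exact patterns on the boundary sphere of a core
-/

set_option autoImplicit false
set_option linter.unusedSectionVars false

open Set Metric Module
open scoped Classical

namespace Crest.Agent.R096.Exa_560

open Crest.Agent.R096.Msh_715 Crest.Agent.R096.Agl5_543 Crest.Agent.R096.St_147
  Crest.Agent.R096.Lac_441 Crest.Agent.R096.Twr_438

/-- indicator in `ZMod 2` -/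
noncomputable def ind (p : Prop) : ZMod 2 := if p then 1 else 0

theorem ind_add {p q : Prop} (h : p ↔ q) : ind p + ind q = 0 := by
  unfold ind
  by_cases hp : p
  · rw [if_pos hp, if_pos (h.1 hp)]; decide
  · rw [if_neg hp, if_neg (fun hq => hp (h.2 hq))]; decide

theorem ind_add_one {p q : Prop} (h : ¬ (p ↔ q)) : ind p + ind q = 1 := by
  unfold ind
  by_cases hp : p
  · rw [if_pos hp, if_neg (fun hq => h ⟨fun _ => hq, fun _ => hp⟩)]; decide
  · rw [if_neg hp, if_pos (by by_contra hq; exact h ⟨fun h' => absurd h' hp, fun h' => absurd h' hq⟩)]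
    decide

variable {E : Type} [NormedAddCommGroup E] [NormedSpace ℝ E] [FiniteDimensional ℝ E]
variable {Om : Set E} {ι : Type} {T : Tiling Om ι}

/-- counting the points of a level on the first part of a 1-cell -/
theorem count {e : T.Cell} (he : e.dim = 1) {u : E → ℝ} {u0 u1 c : ℝ}
    (hu : ∀ s ∈ Ioo (0 : ℝ) 1, u (lft e + s • (rgt e - lft e)) = (1 - s) * u0 + s * u1)
    (A : Finset E) (hA : ∀ w ∈ e.opn, w ∈ A ↔ u w = c) {r : ℝ} (hr0 : 0 < r) (hr1 : r ≤ 1)
    (h0 : u0 ≠ c) (hr : (1 - r) * u0 + r * u1 ≠ c) :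
    ((A.filter fun w => w ∈ e.opn ∧ par T w < r).card : ZMod 2) =
      ind (c < u0) + ind (c < (1 - r) * u0 + r * u1) := by
  have hmem : ∀ w, w ∈ A.filter (fun w => w ∈ e.opn ∧ par T w < r) ↔
      ∃ s ∈ Ioo (0 : ℝ) 1, s < r ∧ (1 - s) * u0 + s * u1 = c ∧
        w = lft e + s • (rgt e - lft e) := by
    intro w
    rw [Finset.mem_filter]
    constructor
    · rintro ⟨hw, hwe, hwr⟩
      obtain ⟨s, hs, rfl⟩ := exists_par he hwe
      rw [(par_eq he hs).2] at hwr
      have h1 := (hA _ hwe).1 hw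
      rw [hu s hs] at h1
      exact ⟨s, hs, hwr, h1, rfl⟩
    · rintro ⟨s, hs, hsr, h1, rfl⟩
      obtain ⟨h2, h3⟩ := par_eq he hs
      exact ⟨(hA _ h2).2 (by rw [hu s hs, h1]), h2, by rw [h3]; exact hsr⟩
  by_cases hsame : c < u0 ↔ c < (1 - r) * u0 + r * u1
  · rw [ind_add hsame]
    have hemp : A.filter (fun w => w ∈ e.opn ∧ par T w < r) = ∅ := by
      apply Finset.eq_empty_of_forall_notMem
      intro w hw
      obtain ⟨s, hs, hsr, h1, _⟩ := (hmem w).1 hw
      have h2 : (r - s) * u0 + s * ((1 - r) * u0 + r * u1) = r * c := by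
        have : (r - s) * u0 + s * ((1 - r) * u0 + r * u1) = r * ((1 - s) * u0 + s * u1) := by ring
        rw [this, h1]
      rcases lt_or_gt_of_ne h0 with h | h
      · have h' : (1 - r) * u0 + r * u1 < c := by
          rcases lt_or_gt_of_ne hr with h' | h'
          · exact h'
          · exact absurd (hsame.2 h') (not_lt.2 h.le)
        nlinarith [mul_pos hs.1 (sub_pos.2 h'), mul_pos (sub_pos.2 hsr) (sub_pos.2 h)]
      · have h' := hsame.1 h
        nlinarith [mul_pos hs.1 (sub_pos.2 h'), mul_pos (sub_pos.2 hsr) (sub_pos.2 h)]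
    rw [hemp, Finset.card_empty, Nat.cast_zero]
  · rw [ind_add_one hsame]
    have hne : u1 - u0 ≠ 0 := by
      intro h
      apply hsame
      have : u1 = u0 := by linarith
      rw [this]
      have e1 : (1 - r) * u0 + r * u0 = u0 := by ring
      rw [e1]
    have hs0 : 0 < (c - u0) / (u1 - u0) ∧ (c - u0) / (u1 - u0) < r := by
      rcases lt_or_gt_of_ne h0 with h | h
      · have h' : c < (1 - r) * u0 + r * u1 := by
          by_contra hn
          exact hsame ⟨fun h2 => absurd h2 (not_lt.2 h.le), fun h2 => absurd h2 hn⟩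
        have hpos : 0 < u1 - u0 := by
          by_contra hn
          push Not at hn
          nlinarith [mul_nonneg hr0.le (sub_nonneg.2 (sub_nonpos.1 hn))]
        refine ⟨div_pos (by linarith) hpos, ?_⟩
        rw [div_lt_iff₀ hpos]; nlinarith
      · have h' : (1 - r) * u0 + r * u1 < c := by
          rcases lt_or_gt_of_ne hr with h' | h'
          · exact h'
          · exact absurd ⟨fun _ => h', fun _ => h⟩ hsame
        have hneg : u1 - u0 < 0 := by
          by_contra hn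
          push Not at hn
          nlinarith [mul_nonneg hr0.le hn]
        refine ⟨div_pos_of_neg_of_neg (by linarith) hneg, ?_⟩
        rw [div_lt_iff_of_neg hneg]; nlinarith
    have hone : A.filter (fun w => w ∈ e.opn ∧ par T w < r) =
        {lft e + ((c - u0) / (u1 - u0)) • (rgt e - lft e)} := by
      ext w
      rw [hmem w, Finset.mem_singleton]
      constructor
      · rintro ⟨s, hs, hsr, h1, rfl⟩
        have : s = (c - u0) / (u1 - u0) := by
          rw [eq_div_iff hne]; linarith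
        rw [this]
      · rintro rfl
        refine ⟨_, ⟨hs0.1, hs0.2.trans_le hr1⟩, hs0.2, ?_, rfl⟩
        field_simp; ring
    rw [hone, Finset.card_singleton, Nat.cast_one]

section shell

variable {κ : Type} {Kc : κ → Set E} {J : Type}

/-- the frontier of a core is a union of 2-cells -/
theorem sgd (h3 : finrank ℝ E = 3) (hH : ∀ c, CoreH T (Kc c)) (c : κ) :
    SgD T (frontier (Kc c)) where
  cpt := (hH c).cpt.of_isClosed_subset isClosed_frontier (hH c).cpt.isClosed.frontier_subset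
  sub := (hH c).cpt.isClosed.frontier_subset.trans (hH c).sub
  cc := (hH c).cc
  cov := fun _ hx => exists_face h3 hH hx

variable {h3 : finrank ℝ E = 3} {hH : ∀ c, CoreH T (Kc c)}
  {hdis : ∀ c c', c ≠ c' → Disjoint (Kc c) (Kc c')} {c : κ}

theorem fk_sub (G : (shellH h3 hH hdis c).Fk) : G.1.1.set ⊆ frontier (Kc c) :=
  (face_iff h3 (fun c => (hH c).core) (fun c => (hH c).sub) (fun c => (hH c).cc) hdis G.1.1 c).2
    ⟨G.1.2, G.2⟩

variable (h3 hH hdis) in
/-- **the exact pattern of the levels** -/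
noncomputable def exa [Nonempty J] (L : Lev T (frontier (Kc c)) J) :
    St (shellH h3 hH hdis c).sph (fun _ : J => true) where
  P := (L.finite_PS (sgd h3 hH c)).toFinset
  lab := L.lab
  mu := fun G w => L.mu G.1.1 w
  mu_mem := by
    intro G w hw hwG
    rw [Set.Finite.mem_toFinset] at hw ⊢
    obtain ⟨hw1, hw2, j, hj, hwj⟩ := hw
    obtain ⟨_, h2, h4, _⟩ := L.mu_spec (fk_sub G) hj hwG hwj
    exact ⟨⟨fk_sub G h2.1, h2.2, j, hj, h4⟩, h2⟩
  mu_ne := by
    intro G w hw hwG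
    rw [Set.Finite.mem_toFinset] at hw
    obtain ⟨hw1, hw2, j, hj, hwj⟩ := hw
    exact (L.mu_spec (fk_sub G) hj hwG hwj).1
  mu_mu := by
    intro G w hw hwG
    rw [Set.Finite.mem_toFinset] at hw
    obtain ⟨hw1, hw2, j, hj, hwj⟩ := hw
    exact L.mu_mu (fk_sub G) hj hwG hwj
  mu_lab := by
    intro G w hw hwG
    rw [Set.Finite.mem_toFinset] at hw
    obtain ⟨hw1, hw2, j, hj, hwj⟩ := hw
    rw [L.lab_eq hj hwj, L.lab_eq hj (L.mu_spec (fk_sub G) hj hwG hwj).2.2.1]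
  nc := by
    intro G w x hw hwG hx hxG _ hxw hxm
    rw [Set.Finite.mem_toFinset] at hw hx
    obtain ⟨hw1, hw2, j, hj, hwj⟩ := hw
    obtain ⟨hx1, hx2, i, hi, hxi⟩ := hx
    obtain ⟨g, hg⟩ := L.aff G.1.1 (fk_sub G)
    obtain ⟨a1, a2, a3, a4, a5⟩ := L.mu_spec (fk_sub G) hj hwG hwj
    obtain ⟨b1, b2, b3, b4, b5⟩ := L.mu_spec (fk_sub G) hi hxG hxi
    have hij : L.lv i ≠ L.lv j := by
      intro h
      rcases a4 x (G.1.1.on_sub_bd hxG) (hxi.trans h) with h' | h'
      · exact hxw h'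
      · exact hxm h'
    intro hl
    have h5 := (lace_level G.1.1 g h3 (c := L.lv j) (G.1.1.on_sub_bd hwG) (G.1.1.on_sub_bd a2)
      (by rw [← hg hwG.1, hwj]) (by rw [← hg a2.1, a3])
      (fun y hy hyj => a4 y hy (by rw [hg (G.1.1.bd_sub hy)]; exact hyj))
      (G.1.1.on_sub_bd hxG) (G.1.1.on_sub_bd b2)
      (by rw [← hg hxG.1, hxi]; exact hij) (by rw [← hg b2.1, b3]; exact hij)).1 hl
    rw [← hg hxG.1, ← hg b2.1, hxi, b3] at h5
    rcases h5 with ⟨h6, h7⟩ | ⟨h6, h7⟩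
    · exact lt_irrefl _ (h6.trans h7)
    · exact lt_irrefl _ (h6.trans h7)

variable [Nonempty J] (L : Lev T (frontier (Kc c)) J)

theorem mem_P {w : E} : w ∈ (exa h3 hH hdis L).P ↔
    w ∈ frontier (Kc c) ∧ T.dim w = 1 ∧ ∃ j ∈ L.J0, L.u w = L.lv j :=
  Set.Finite.mem_toFinset _

theorem exa_lab {w : E} (hw : w ∈ (exa h3 hH hdis L).P) :
    (exa h3 hH hdis L).lab w ∈ L.J0 ∧ L.u w = L.lv ((exa h3 hH hdis L).lab w) :=
  L.lab_spec ((mem_P L).1 hw).2.2

theorem lab_of {w : E} {j : J} (hj : j ∈ L.J0) (h : L.u w = L.lv j) :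
    (exa h3 hH hdis L).lab w = j := L.lab_eq hj h

/-- every point lies on an edge -/
theorem exa_on {w : E} (hw : w ∈ (exa h3 hH hdis L).P) :
    ∃ e, w ∈ (shellH h3 hH hdis c).sphSh.OnE e := by
  obtain ⟨h1, h2, _⟩ := (mem_P L).1 hw
  have hO := (sgd h3 hH c).sub h1
  refine ⟨edK T Kc (fun c => (hH c).cc) hO h1 h2, ?_⟩
  show w ∈ (T.cl hO).opn
  rw [T.opn_cl hO]; exact T.self_mem_oc w

/-- **(E1)** -/
theorem exa_comp {j : J} (hj : j ∈ L.J0)
    (hc : IsPreconnected {x | x ∈ frontier (Kc c) ∧ L.u x = L.lv j}) {w w' : E}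
    (hw : w ∈ (exa h3 hH hdis L).P) (hwj : (exa h3 hH hdis L).lab w = j)
    (hw' : w' ∈ (exa h3 hH hdis L).P) (hwj' : (exa h3 hH hdis L).lab w' = j) :
    w' ∈ comp true (exa h3 hH hdis L) w := by
  rw [mem_comp]
  refine ⟨hw', ?_⟩
  obtain ⟨h1, h2, _⟩ := (mem_P L).1 hw
  obtain ⟨h1', h2', _⟩ := (mem_P L).1 hw'
  have h4 := (exa_lab L hw).2
  have h4' := (exa_lab L hw').2
  rw [hwj] at h4
  rw [hwj'] at h4'
  refine L.conn (sgd h3 hH c) hj hc {x | Rch true (exa h3 hH hdis L) w x} ?_ h1 h2 h4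
    Relation.ReflTransGen.refl h1' h2' h4'
  intro F hF x hx hxj hR
  have hR' : Rch true (exa h3 hH hdis L) w x := hR
  have hface := (face_iff h3 (fun c => (hH c).core) (fun c => (hH c).sub)
    (fun c => (hH c).cc) hdis F c).1 hF
  refine Relation.ReflTransGen.tail hR' ⟨⟨⟨F, hface.1⟩, hface.2⟩, ?_, ?_, hx, rfl⟩
  · exact Door_501.Shell.mem_bool_side true
  · exact (mem_P L).2 ⟨hF hx.1, hx.2, j, hj, hxj⟩

/-- the component of a point = all points of its name -/
theorem mem_comp_iff {j : J} (hj : j ∈ L.J0)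
    (hc : IsPreconnected {x | x ∈ frontier (Kc c) ∧ L.u x = L.lv j}) {w : E}
    (hw : w ∈ (exa h3 hH hdis L).P) (hwj : (exa h3 hH hdis L).lab w = j) (x : E) :
    x ∈ comp true (exa h3 hH hdis L) w ↔
      x ∈ frontier (Kc c) ∧ T.dim x = 1 ∧ L.u x = L.lv j := by
  constructor
  · intro hx
    obtain ⟨h1, h2⟩ := mem_comp.1 hx
    have h4 := h2.lab
    rw [hwj] at h4
    obtain ⟨g1, g2, _⟩ := (mem_P L).1 h1
    have := (exa_lab L h1).2
    rw [h4] at this
    exact ⟨g1, g2, this⟩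
  · rintro ⟨g1, g2, g3⟩
    exact exa_comp L hj hc hw hwj ((mem_P L).2 ⟨g1, g2, j, hj, g3⟩) (lab_of L hj g3)

end shell

end Crest.Agent.R096.Exa_560
end

-- ▼ part R096/Exa4_560

/-!
# R096 (row 96), DOORS / EXA part 4 (helper560): labels, sides and crossings of exact patterns

* `exa_lbl`   : (E3) the label of the component of the name `j` is `[lv j < u v]`.
* `exa_sd`    : the side of a point `x` with respect to it is `[lv j < u x]`.
* `exa_nc`    : (c) chords with both ends on one side do not interlace with it.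
* `exa_lace`  : (E2) two families interlace on a 2-cell iff their levels meet in it.
* `exa_cross` : one common point of the levels gives exactly one interlaced pair.
-/

set_option autoImplicit false
set_option linter.unusedSectionVars false

open Set Metric Module
open scoped Classical

namespace Crest.Agent.R096.Exa_560

open Crest.Agent.R096.Msh_715 Crest.Agent.R096.Agl5_543 Crest.Agent.R096.St_147
  Crest.Agent.R096.Lac_441 Crest.Agent.R096.Twr_438

variable {E : Type} [NormedAddCommGroup E] [NormedSpace ℝ E] [FiniteDimensional ℝ E]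
variable {Om : Set E} {ι : Type} {T : Tiling Om ι}
variable {κ : Type} {Kc : κ → Set E} {J : Type}
variable {h3 : finrank ℝ E = 3} {hH : ∀ c, CoreH T (Kc c)}
  {hdis : ∀ c c', c ≠ c' → Disjoint (Kc c) (Kc c')} {c : κ}

theorem ind_false {p : Prop} (h : ¬ p) : ind p = 0 := if_neg h


/-- `u` is affine along the edges -/
theorem edge_aff (h3 : finrank ℝ E = 3) (hH : ∀ c, CoreH T (Kc c))
    (L : Lev T (frontier (Kc c)) J) (e : EdK T Kc c) (s : ℝ) (hs : s ∈ Icc (0 : ℝ) 1) :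
    L.u (lft e.1 + s • (rgt e.1 - lft e.1)) = (1 - s) * L.u (lft e.1) + s * L.u (rgt e.1) := by
  obtain ⟨_, hset, _, _, _, hl, hr⟩ := lft_rgt e.2.1
  have hpt : e.1.pt ∈ frontier (Kc c) := e.2.2 (e.1.opn_sub (T.self_mem_oc _))
  obtain ⟨F, hF, hpF⟩ := (sgd h3 hH c).cov _ hpt
  have hsub : e.1.set ⊆ F.set := by
    rw [e.1.set_eq]
    rw [F.set_eq] at hpF ⊢
    exact T.cc_sub_of_mem hpF
  obtain ⟨g, hg⟩ := L.aff F hF
  have e1 : lft e.1 + s • (rgt e.1 - lft e.1) = s • rgt e.1 + (1 - s) • lft e.1 := by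
    module
  have hmem : lft e.1 + s • (rgt e.1 - lft e.1) ∈ e.1.set := by
    rw [hset, segment_eq_image']
    exact ⟨s, hs, rfl⟩
  rw [hg (hsub hmem), hg (hsub hl), hg (hsub hr), e1, aff_comb]
  ring

section

variable [Nonempty J] (L : Lev T (frontier (Kc c)) J) {j : J} (hj : j ∈ L.J0)
  (hc : IsPreconnected {x | x ∈ frontier (Kc c) ∧ L.u x = L.lv j}) {w : E}
  (hw : w ∈ (exa h3 hH hdis L).P) (hwj : (exa h3 hH hdis L).lab w = j)

include hj hc hw hwj

/-- parity of the points on an edge -/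
theorem exa_par (e : EdK T Kc c) :
    (shellH h3 hH hdis c).sphSh.par (comp true (exa h3 hH hdis L) w) e =
      ind (L.lv j < L.u (lft e.1)) + ind (L.lv j < L.u (rgt e.1)) := by
  obtain ⟨_, _, _, hl0, hr0, hl, hr⟩ := lft_rgt e.2.1
  have h1 := count e.2.1 (u := L.u) (u0 := L.u (lft e.1)) (u1 := L.u (rgt e.1)) (c := L.lv j)
    (fun s hs => edge_aff h3 hH L e s ⟨hs.1.le, hs.2.le⟩) (comp true (exa h3 hH hdis L) w)
    (fun x hx => by
      rw [mem_comp_iff L hj hc hw hwj]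
      exact ⟨fun h => h.2.2, fun h => ⟨e.2.2 (e.1.opn_sub hx),
        (T.dim_eq_of_mem_oc e.1.pt_mem hx).trans e.2.1, h⟩⟩) one_pos le_rfl
    (L.vert _ (e.2.2 hl) hl0 j hj)
    (by rw [sub_self, zero_mul, zero_add, one_mul]; exact L.vert _ (e.2.2 hr) hr0 j hj)
  rw [sub_self, zero_mul, zero_add, one_mul] at h1
  rw [← h1]
  show (((comp true (exa h3 hH hdis L) w).filter fun x => x ∈ e.1.opn).card : ZMod 2) = _
  congr 2
  refine Finset.filter_congr fun x _ => ⟨fun h => ⟨h, ?_⟩, fun h => h.1⟩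
  obtain ⟨s, hs, rfl⟩ := exists_par e.2.1 h
  rw [(par_eq e.2.1 hs).2]; exact hs.2

/-- **(E3) the label of the component of the name `j`** -/
theorem exa_lbl' (v0 v : VxK T Kc c) :
    lbl (shellH h3 hH hdis c).sphSh v0 (comp true (exa h3 hH hdis L) w) v =
      ind (L.lv j < L.u v.1) + ind (L.lv j < L.u v0.1) := by
  have hspec : ∃ a : VxK T Kc c → ZMod 2, (∀ e, a ((shellH h3 hH hdis c).sphSh.en e false) +
      a ((shellH h3 hH hdis c).sphSh.en e true) =
      (shellH h3 hH hdis c).sphSh.par (comp true (exa h3 hH hdis L) w) e) ∧ a v0 = 0 := by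
    refine ⟨fun v => ind (L.lv j < L.u v.1) + ind (L.lv j < L.u v0.1), fun e => ?_, ?_⟩
    · rw [exa_par L hj hc hw hwj e]
      show ind (L.lv j < L.u (lft e.1)) + ind (L.lv j < L.u v0.1) +
        (ind (L.lv j < L.u (rgt e.1)) + ind (L.lv j < L.u v0.1)) = _
      have h2 : ∀ a b d : ZMod 2, a + d + (b + d) = a + b := by decide
      exact h2 _ _ _
    · exact ind_add Iff.rfl
  have hl : lbl (shellH h3 hH hdis c).sphSh v0 (comp true (exa h3 hH hdis L) w) =
      hspec.choose := dif_pos hspec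
  obtain ⟨h1, h2⟩ := hspec.choose_spec
  rw [← hl] at h1 h2
  set a := lbl (shellH h3 hH hdis c).sphSh v0 (comp true (exa h3 hH hdis L) w) with ha
  have hcon := con_VxK hH c (fun v => a v + ind (L.lv j < L.u v.1)) (by
    intro e
    have h5 := h1 e
    rw [exa_par L hj hc hw hwj e] at h5
    have h6 : ∀ p q r s : ZMod 2, p + q = r + s → p + r = q + s := by decide
    exact h6 _ _ _ _ h5) v v0
  have h7 : a v + ind (L.lv j < L.u v.1) = a v0 + ind (L.lv j < L.u v0.1) := hcon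
  rw [h2] at h7
  have h8 : ∀ p q r : ZMod 2, p + q = 0 + r → p = q + r := by decide
  exact h8 _ _ _ h7

theorem exa_lbl (v0 v : VxK T Kc c) (hv0 : ¬ L.lv j < L.u v0.1) :
    lbl (shellH h3 hH hdis c).sphSh v0 (comp true (exa h3 hH hdis L) w) v =
      if L.lv j < L.u v.1 then 1 else 0 := by
  rw [exa_lbl' L hj hc hw hwj v0 v, ind_false hv0, add_zero]
  rfl

/-- **the side of a point** -/
theorem exa_sd' (v0 : VxK T Kc c) {e : EdK T Kc c} {x : E} (hx : x ∈ e.1.opn)
    (hxj : L.u x ≠ L.lv j) :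
    sd (shellH h3 hH hdis c).sphSh v0 (comp true (exa h3 hH hdis L) w) x =
      ind (L.lv j < L.u x) + ind (L.lv j < L.u v0.1) := by
  obtain ⟨_, _, _, hl0, hr0, hl, hr⟩ := lft_rgt e.2.1
  have hx' : x ∈ (shellH h3 hH hdis c).sphSh.OnE e := hx
  rw [sd_eq v0 _ hx', exa_lbl' L hj hc hw hwj]
  obtain ⟨r, hr1, rfl⟩ := exists_par e.2.1 hx
  have hux := edge_aff h3 hH L e r ⟨hr1.1.le, hr1.2.le⟩
  have h1 := count e.2.1 (u := L.u) (u0 := L.u (lft e.1)) (u1 := L.u (rgt e.1)) (c := L.lv j)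
    (fun s hs => edge_aff h3 hH L e s ⟨hs.1.le, hs.2.le⟩) (comp true (exa h3 hH hdis L) w)
    (fun x hx => by
      rw [mem_comp_iff L hj hc hw hwj]
      exact ⟨fun h => h.2.2, fun h => ⟨e.2.2 (e.1.opn_sub hx),
        (T.dim_eq_of_mem_oc e.1.pt_mem hx).trans e.2.1, h⟩⟩) hr1.1 hr1.2.le
    (L.vert _ (e.2.2 hl) hl0 j hj) (by rw [← hux]; exact hxj)
  rw [← hux] at h1
  have h2 : (shellH h3 hH hdis c).sphSh.bel (comp true (exa h3 hH hdis L) w) e
      (lft e.1 + r • (rgt e.1 - lft e.1)) =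
      ind (L.lv j < L.u (lft e.1)) + ind (L.lv j < L.u (lft e.1 + r • (rgt e.1 - lft e.1))) := by
    rw [← h1]
    show (((comp true (exa h3 hH hdis L) w).filter fun x => x ∈ e.1.opn ∧
      par T x < par T (lft e.1 + r • (rgt e.1 - lft e.1))).card : ZMod 2) = _
    rw [(par_eq e.2.1 hr1).2]
  rw [h2]
  show ind (L.lv j < L.u (lft e.1)) + ind (L.lv j < L.u v0.1) + _ = _
  have h3 : ∀ a b d : ZMod 2, a + b + (a + d) = d + b := by decide
  exact h3 _ _ _

theorem exa_sd (v0 : VxK T Kc c) (hv0 : ¬ L.lv j < L.u v0.1) {e : EdK T Kc c} {x : E}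
    (hx : x ∈ e.1.opn) (hxj : L.u x ≠ L.lv j) :
    sd (shellH h3 hH hdis c).sphSh v0 (comp true (exa h3 hH hdis L) w) x =
      if L.lv j < L.u x then 1 else 0 := by
  rw [exa_sd' L hj hc hw hwj v0 hx hxj, ind_false hv0, add_zero]
  rfl

end

section

variable [Nonempty J] (L : Lev T (frontier (Kc c)) J) {j : J}

/-- **(c) chords with both ends on one side do not interlace with the pattern** -/
theorem exa_lace_iff {G : (shellH h3 hH hdis c).Fk} {w x y : E}
    (hw : w ∈ (exa h3 hH hdis L).P) (hwG : w ∈ (shellH h3 hH hdis c).sph.On G)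
    (hwj : (exa h3 hH hdis L).lab w = j) (hx : x ∈ (shellH h3 hH hdis c).sph.On G)
    (hy : y ∈ (shellH h3 hH hdis c).sph.On G) (hxj : L.u x ≠ L.lv j) (hyj : L.u y ≠ L.lv j) :
    (shellH h3 hH hdis c).sph.Lace G w ((exa h3 hH hdis L).mu G w) x y ↔
      ¬ (L.lv j < L.u x ↔ L.lv j < L.u y) := by
  obtain ⟨hj, hwj'⟩ := exa_lab L hw
  rw [hwj] at hj hwj'
  obtain ⟨g, hg⟩ := L.aff G.1.1 (fk_sub G)
  obtain ⟨a1, a2, a3, a4, a5⟩ := L.mu_spec (fk_sub G) hj hwG hwj'
  have h5 := lace_level G.1.1 g h3 (c := L.lv j) (G.1.1.on_sub_bd hwG) (G.1.1.on_sub_bd a2)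
    (by rw [← hg hwG.1, hwj']) (by rw [← hg a2.1, a3])
    (fun y hy hyj => a4 y hy (by rw [hg (G.1.1.bd_sub hy)]; exact hyj))
    (G.1.1.on_sub_bd hx) (G.1.1.on_sub_bd hy)
    (by rw [← hg hx.1]; exact hxj) (by rw [← hg hy.1]; exact hyj)
  rw [← hg hx.1, ← hg hy.1] at h5
  refine Iff.trans h5 ⟨?_, ?_⟩
  · rintro (⟨h6, h7⟩ | ⟨h6, h7⟩) h
    · exact lt_irrefl _ (h6.trans (h.2 h7))
    · exact lt_irrefl _ (h6.trans (h.1 h7))
  · intro h
    by_cases h6 : L.lv j < L.u x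
    · refine Or.inr ⟨lt_of_le_of_ne (not_lt.1 fun h7 => h ⟨fun _ => h7, fun _ => h6⟩) hyj, h6⟩
    · refine Or.inl ⟨lt_of_le_of_ne (not_lt.1 h6) hxj, ?_⟩
      by_contra h7
      exact h ⟨fun h8 => absurd h8 h6, fun h8 => absurd h8 h7⟩

theorem exa_nc {G : (shellH h3 hH hdis c).Fk} {w x y : E}
    (hw : w ∈ (exa h3 hH hdis L).P) (hwG : w ∈ (shellH h3 hH hdis c).sph.On G)
    (hwj : (exa h3 hH hdis L).lab w = j) (hx : x ∈ (shellH h3 hH hdis c).sph.On G)
    (hy : y ∈ (shellH h3 hH hdis c).sph.On G) (hxj : L.u x ≠ L.lv j) (hyj : L.u y ≠ L.lv j)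
    (h : L.lv j < L.u x ↔ L.lv j < L.u y) :
    ¬ (shellH h3 hH hdis c).sph.Lace G w ((exa h3 hH hdis L).mu G w) x y := by
  rw [exa_lace_iff L hw hwG hwj hx hy hxj hyj]
  exact not_not.2 h

variable {J' : Type} [Nonempty J'] (L' : Lev T (frontier (Kc c)) J') {j' : J'}

/-- **(E2) two families interlace on a 2-cell iff their levels meet in it** -/
theorem exa_lace {G : (shellH h3 hH hdis c).Fk} {w x : E}
    (hw : w ∈ (exa h3 hH hdis L).P) (hwG : w ∈ (shellH h3 hH hdis c).sph.On G)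
    (hwj : (exa h3 hH hdis L).lab w = j) (hx : x ∈ (exa h3 hH hdis L').P)
    (hxG : x ∈ (shellH h3 hH hdis c).sph.On G) (hxj' : (exa h3 hH hdis L').lab x = j')
    (hgen : ∀ y ∈ frontier (Kc c), T.dim y = 1 → L.u y = L.lv j → L'.u y ≠ L'.lv j') :
    (shellH h3 hH hdis c).sph.Lace G w ((exa h3 hH hdis L).mu G w) x
      ((exa h3 hH hdis L').mu G x) ↔
      ∃ z ∈ G.1.1.set, L.u z = L.lv j ∧ L'.u z = L'.lv j' := by
  obtain ⟨hj', hxl⟩ := exa_lab L' hx
  rw [hxj'] at hj' hxl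
  obtain ⟨b1, b2, b3, b4, b5⟩ := L'.mu_spec (fk_sub G) hj' hxG hxl
  have hxj : L.u x ≠ L.lv j := fun h => hgen x (fk_sub G hxG.1) hxG.2 h hxl
  have hyj : L.u ((exa h3 hH hdis L').mu G x) ≠ L.lv j := fun h =>
    hgen _ (fk_sub G b2.1) b2.2 h b3
  have hmu : (exa h3 hH hdis L').mu G x = L'.mu G.1.1 x := rfl
  rw [hmu] at hyj ⊢
  refine Iff.trans (exa_lace_iff L hw hwG hwj hxG b2 hxj hyj) ?_
  obtain ⟨g, hg⟩ := L.aff G.1.1 (fk_sub G)
  obtain ⟨g', hg'⟩ := L'.aff G.1.1 (fk_sub G)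
  have hconv : Convex ℝ G.1.1.set := by rw [G.1.1.set_eq]; exact T.convex_cc _
  constructor
  · intro h
    -- the point of the segment on the level
    have hd : L.u x - L.u (L'.mu G.1.1 x) ≠ 0 := by
      intro h0
      apply h
      rw [sub_eq_zero.1 h0]
    set r : ℝ := (L.lv j - L.u (L'.mu G.1.1 x)) / (L.u x - L.u (L'.mu G.1.1 x)) with hr
    have hr01 : 0 ≤ r ∧ r ≤ 1 := by
      by_cases h6 : L.lv j < L.u x
      · have h7 : L.u (L'.mu G.1.1 x) < L.lv j :=
          lt_of_le_of_ne (not_lt.1 fun h7 => h ⟨fun _ => h7, fun _ => h6⟩) hyj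
        have h8 : 0 < L.u x - L.u (L'.mu G.1.1 x) := by linarith
        exact ⟨div_nonneg (by linarith) h8.le, (div_le_one h8).2 (by linarith)⟩
      · have h6' : L.u x < L.lv j := lt_of_le_of_ne (not_lt.1 h6) hxj
        have h7 : L.lv j < L.u (L'.mu G.1.1 x) := by
          by_contra h7
          exact h ⟨fun h8 => absurd h8 h6, fun h8 => absurd h8 h7⟩
        have h8 : L.u x - L.u (L'.mu G.1.1 x) < 0 := by linarith
        exact ⟨div_nonneg_of_nonpos (by linarith) h8.le, (div_le_one_of_neg h8).2 (by linarith)⟩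
    have hz : r • x + (1 - r) • L'.mu G.1.1 x ∈ G.1.1.set :=
      hconv hxG.1 b2.1 hr01.1 (by linarith [hr01.2]) (by ring)
    refine ⟨_, hz, ?_, ?_⟩
    · rw [hg hz, aff_comb, ← hg hxG.1, ← hg b2.1, hr]
      field_simp; ring
    · rw [hg' hz, aff_comb, ← hg' hxG.1, ← hg' b2.1, hxl, b3]
      ring
  · rintro ⟨z, hz, hz1, hz2⟩ h
    obtain ⟨s, t, hs, ht, hst, rfl⟩ := b5 z hz hz2
    have e1 : t = 1 - s := by linarith
    subst e1
    rw [hg hz, aff_comb, ← hg hxG.1, ← hg b2.1] at hz1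
    by_cases h6 : L.lv j < L.u x
    · have h7 := h.1 h6
      nlinarith [mul_nonneg hs (sub_nonneg.2 h6.le), mul_nonneg ht (sub_nonneg.2 h7.le),
        mul_pos (sub_pos.2 h6) (sub_pos.2 h7)]
    · have h6' : L.u x < L.lv j := lt_of_le_of_ne (not_lt.1 h6) hxj
      have h7 : L.u (L'.mu G.1.1 x) < L.lv j :=
        lt_of_le_of_ne (not_lt.1 fun h7 => h6 (h.2 h7)) hyj
      nlinarith [mul_nonneg hs (sub_nonneg.2 h6'.le), mul_nonneg ht (sub_nonneg.2 h7.le),
        mul_pos (sub_pos.2 h6') (sub_pos.2 h7)]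


end

end Crest.Agent.R096.Exa_560
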