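import Mathlib
import Crest.Agent.R096.Exa4_560
import Crest.Agent.R096.Brk5_582
import Crest.Agent.R096.Exc1_965
import Crest.Agent.R096.Mbf_337
import Crest.Agent.R096.Mrg7_715

-- ▼ part R096/Exs1_776
section

/-!
# Row 96, EXA-1 (helper560): generic levels of finitely many functions which are affine on
finitely many edges; helper776
-/

namespace Crest.Agent.R096.Exs_776

open Set

/-- an affine function on a segment which avoids the value `c` at both ends takes the value `c` at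
most once. -/
theorem subsingleton_level {E : Type*} [NormedAddCommGroup E] [NormedSpace ℝ E] {a b : E}
    (g : E →ᵃ[ℝ] ℝ) {c : ℝ} (ha : g a ≠ c) :
    ({x | x ∈ segment ℝ a b ∧ g x = c} : Set E).Subsingleton := by
  rintro x ⟨hx, hxc⟩ y ⟨hy, hyc⟩
  rw [segment_eq_image_lineMap] at hx hy
  obtain ⟨s, _, rfl⟩ := hx
  obtain ⟨t, _, rfl⟩ := hy
  rw [AffineMap.apply_lineMap] at hxc hyc
  rw [AffineMap.lineMap_apply_module] at hxc hyc
  simp only [smul_eq_mul] at hxc hyc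
  by_cases hgab : g a = g b
  · exfalso
    apply ha
    rw [← hgab] at hxc
    linarith
  · have h1 : (s - t) * (g b - g a) = 0 := by linarith
    rcases mul_eq_zero.1 h1 with h | h
    · have : s = t := by linarith
      rw [this]
    · exfalso
      apply hgab
      linarith

theorem exists_gen {E N : Type*} [NormedAddCommGroup E] [NormedSpace ℝ E] (N0 : Finset N)
    (u : N → E → ℝ) (I : N → Set ℝ) (hI : ∀ n ∈ N0, (I n).Infinite) {V : Set E} (hV : V.Finite)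
    {Ed : Set (Set E)} (hEd : Ed.Finite)
    (hE : ∀ n ∈ N0, ∀ e ∈ Ed, ∃ a ∈ V, ∃ b ∈ V, e = segment ℝ a b ∧
      ∃ g : E →ᵃ[ℝ] ℝ, EqOn (u n) g e) :
    ∃ lv : N → ℝ, ∀ n ∈ N0, lv n ∈ I n ∧ (∀ v ∈ V, u n v ≠ lv n) ∧
      ∀ m ∈ N0, m ≠ n → ∀ e ∈ Ed, ∀ x ∈ e, u n x = lv n → u m x ≠ lv m := by
  classical
  induction N0 using Finset.induction_on with
  | empty => exact ⟨fun _ => 0, fun n hn => absurd hn (Finset.notMem_empty n)⟩
  | insert n N1 hn ih =>
    obtain ⟨lv, hlv⟩ := ih (fun m hm => hI m (Finset.mem_insert_of_mem hm))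
      (fun m hm => hE m (Finset.mem_insert_of_mem hm))
    -- the bad points on the edges
    have hfin1 : (⋃ e ∈ Ed, ⋃ m ∈ N1, {x | x ∈ e ∧ u m x = lv m} : Set E).Finite := by
      refine hEd.biUnion fun e he => ?_
      refine N1.finite_toSet.biUnion fun m hm => ?_
      have hm' : m ∈ N1 := hm
      obtain ⟨a, ha, b, hb, rfl, g, hg⟩ := hE m (Finset.mem_insert_of_mem hm') e he
      have h2 := (hlv m hm').2.1 a ha
      have hga : g a ≠ lv m := by
        rw [← hg (left_mem_segment ℝ a b)]; exact h2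
      refine ((subsingleton_level (a := a) (b := b) g hga).anti ?_).finite
      rintro x ⟨hx, hxl⟩
      exact ⟨hx, by rw [← hg hx]; exact hxl⟩
    have hfin : (u n '' V ∪ u n '' (⋃ e ∈ Ed, ⋃ m ∈ N1, {x | x ∈ e ∧ u m x = lv m})).Finite :=
      (hV.image _).union (hfin1.image _)
    obtain ⟨c, hcI, hc⟩ := ((hI n (Finset.mem_insert_self n N1)).sdiff hfin).nonempty
    have hcV : ∀ v ∈ V, u n v ≠ c := fun v hv h => hc (Or.inl ⟨v, hv, h⟩)
    have hcE : ∀ e ∈ Ed, ∀ m ∈ N1, ∀ x ∈ e, u m x = lv m → u n x ≠ c := by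
      intro e he m hm x hx h1 h2
      refine hc (Or.inr ⟨x, ?_, h2⟩)
      simp only [mem_iUnion]
      exact ⟨e, he, m, hm, hx, h1⟩
    have hne : ∀ m ∈ N1, m ≠ n := fun m hm h => hn (h ▸ hm)
    refine ⟨Function.update lv n c, fun k hk => ?_⟩
    rcases Finset.mem_insert.1 hk with rfl | hk1
    · refine ⟨by simpa using hcI, by simpa using hcV, ?_⟩
      intro m hm hmk e he x hx h1 h2
      have hm' : m ∈ N1 := (Finset.mem_insert.1 hm).resolve_left hmk
      rw [Function.update_self] at h1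
      rw [Function.update_of_ne hmk] at h2
      exact hcE e he m hm' x hx h2 h1
    · have hkn := hne k hk1
      rw [Function.update_of_ne hkn]
      refine ⟨(hlv k hk1).1, (hlv k hk1).2.1, ?_⟩
      intro m hm hmk e he x hx h1 h2
      rcases Finset.mem_insert.1 hm with rfl | hm1
      · rw [Function.update_self] at h2
        exact hcE e he k hk1 x hx h1 h2
      · rw [Function.update_of_ne (hne m hm1)] at h2
        exact (hlv k hk1).2.2 m hm1 hmk e he x hx h1 h2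

end Crest.Agent.R096.Exs_776
end

-- ▼ part R096/Exa5_560
section

/-!
# R096 (row 96), DOORS / EXA part 5 (helper560): generic increasing levels in a given interval

`exists_levs` : for finitely many names (sheets) of several families with functions `u a`, affine on
the 2-cells of `Sg`: levels in `(A, B)`, ordered as the given numbers `lvl`, off the vertices, and
different families have no common point on a 1-cell.
`common_unique`, `common_dim`, `common_face` : common points of two levels.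
-/

set_option autoImplicit false
set_option linter.unusedSectionVars false

open Set Metric Module
open scoped Classical

namespace Crest.Agent.R096.Exa_560

open Crest.Agent.R096.Msh_715 Crest.Agent.R096.Agl5_543 Crest.Agent.R096.St_147
  Crest.Agent.R096.Lac_441 Crest.Agent.R096.Twr_438

/-- increasing disjoint intervals in `(A, B)` -/
theorem exists_intervals {J : Type} (N0 : Finset J) (lvl : J → ℝ) {A B : ℝ} (hAB : A < B) :
    ∃ I : J → Set ℝ, (∀ j ∈ N0, (I j).Infinite) ∧ (∀ j ∈ N0, I j ⊆ Ioo A B) ∧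
      ∀ i ∈ N0, ∀ j ∈ N0, lvl i < lvl j → ∀ s ∈ I i, ∀ t ∈ I j, s < t := by
  set r : J → ℕ := fun j => (N0.filter fun i => lvl i < lvl j).card with hr
  set n : ℝ := (N0.card : ℝ) + 1 with hn
  have hn0 : 0 < n := by positivity
  set h : ℝ := (B - A) / n with hh
  have hh0 : 0 < h := div_pos (sub_pos.2 hAB) hn0
  have hrn : ∀ j, (r j : ℝ) + 1 ≤ n := by
    intro j
    have : (r j : ℝ) ≤ N0.card := by exact_mod_cast Finset.card_filter_le _ _
    linarith
  refine ⟨fun j => Ioo (A + r j * h) (A + (r j + 1) * h), fun j _ => ?_, fun j _ => ?_, ?_⟩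
  · exact Set.Ioo_infinite (by nlinarith)
  · intro t ht
    refine ⟨lt_of_le_of_lt ?_ ht.1, lt_of_lt_of_le ht.2 ?_⟩
    · have : 0 ≤ (r j : ℝ) * h := by positivity
      linarith
    · have h1 : (r j + 1) * h ≤ n * h := mul_le_mul_of_nonneg_right (hrn j) hh0.le
      have h2 : n * h = B - A := by rw [hh]; field_simp
      linarith
  · intro i hi j hj hij s hs t ht
    have hlt : r i + 1 ≤ r j := by
      have : (N0.filter fun k => lvl k < lvl i) ⊂ N0.filter fun k => lvl k < lvl j := by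
        rw [Finset.ssubset_iff_of_subset]
        · exact ⟨i, Finset.mem_filter.2 ⟨hi, hij⟩, fun hm => lt_irrefl _ (Finset.mem_filter.1 hm).2⟩
        · intro k hk
          have := Finset.mem_filter.1 hk
          exact Finset.mem_filter.2 ⟨this.1, this.2.trans hij⟩
      exact Finset.card_lt_card this
    have hlt' : (r i : ℝ) + 1 ≤ r j := by exact_mod_cast hlt
    have h1 : (r i + 1) * h ≤ r j * h := mul_le_mul_of_nonneg_right hlt' hh0.le
    have hs2 := hs.2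
    have ht1 := ht.1
    linarith

variable {E : Type} [NormedAddCommGroup E] [NormedSpace ℝ E] [FiniteDimensional ℝ E]
variable {Om : Set E} {ι : Type} {T : Tiling Om ι} {Sg : Set E} {J C : Type}

/-- **generic increasing levels of several families** -/
theorem exists_levs (hS : SgD T Sg) (fam : J → C) (lvl : J → ℝ) (N0 : Finset J) (u : C → E → ℝ)
    (haff : ∀ a, ∀ F : C2 T, F.set ⊆ Sg → ∃ g : E →ᵃ[ℝ] ℝ, EqOn (u a) g F.set)
    (hinj : ∀ i ∈ N0, ∀ j ∈ N0, fam i = fam j → lvl i = lvl j → i = j) {A B : ℝ} (hAB : A < B)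
    {Q : Set E} (hQ : Q.Finite) :
    ∃ L : C → Lev T Sg J, (∀ a, (L a).u = u a) ∧
      (∀ a j, j ∈ (L a).J0 ↔ j ∈ N0 ∧ fam j = a) ∧
      (∀ a, ∀ j ∈ (L a).J0, A < (L a).lv j ∧ (L a).lv j < B) ∧
      (∀ a, ∀ j ∈ (L a).J0, ∀ w ∈ Q, (L a).u w ≠ (L a).lv j) ∧
      (∀ a, ∀ i ∈ (L a).J0, ∀ j ∈ (L a).J0, (L a).lv i < (L a).lv j ↔ lvl i < lvl j) ∧
      ∀ a b, a ≠ b → ∀ i ∈ (L a).J0, ∀ j ∈ (L b).J0, ∀ y ∈ Sg, T.dim y = 1 →
        (L a).u y = (L a).lv i → (L b).u y ≠ (L b).lv j := by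
  obtain ⟨I, hI1, hI2, hI3⟩ := exists_intervals N0 lvl hAB
  have hfin := T.finite_cells hS.cpt hS.sub
  have hV : {v : E | v ∈ Sg ∧ T.dim v = 0}.Finite := by
    refine Set.Finite.of_finite_image (f := fun v => ({v} : Set E)) (hfin.subset ?_)
      (fun a _ b _ h => singleton_injective h)
    rintro _ ⟨v, ⟨hv, h0⟩, rfl⟩
    exact ⟨⟨v, hS.sub hv, (T.cc_eq_singleton (T.dim_eq_zero_iff.1 h0)).symm⟩, v, rfl, hv⟩
  have hEd : {e : Set E | ∃ x ∈ Sg, T.dim x = 1 ∧ e = T.cc x}.Finite := by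
    refine hfin.subset ?_
    rintro _ ⟨x, hx, _, rfl⟩
    exact ⟨⟨x, hS.sub hx, rfl⟩, x, T.self_mem_cc x, hx⟩
  obtain ⟨lv, hlv⟩ := Exs_776.exists_gen N0 (fun j => u (fam j)) I hI1 (hV.union hQ) hEd (by
    rintro j hj _ ⟨x, hx, hd, rfl⟩
    obtain ⟨a, b, hab, hcy, hoy, ha0, hb0, ha, hb⟩ := T.edge_eq (hS.sub hx) hd
    obtain ⟨F, hF, hxF⟩ := hS.cov x hx
    obtain ⟨g, hg⟩ := haff (fam j) F hF
    refine ⟨a, Or.inl ⟨hS.cc x hx ha, ha0⟩, b, Or.inl ⟨hS.cc x hx hb, hb0⟩, hcy, g, hg.mono ?_⟩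
    rw [F.set_eq] at hxF ⊢; exact T.cc_sub_of_mem hxF)
  have hord : ∀ i ∈ N0, ∀ j ∈ N0, fam i = fam j → (lv i < lv j ↔ lvl i < lvl j) := by
    intro i hi j hj hf
    rcases lt_trichotomy (lvl i) (lvl j) with h | h | h
    · exact ⟨fun _ => h, fun _ => hI3 i hi j hj h _ (hlv i hi).1 _ (hlv j hj).1⟩
    · have := hinj i hi j hj hf h
      subst this
      exact ⟨fun h' => absurd h' (lt_irrefl _), fun h' => absurd h' (lt_irrefl _)⟩
    · have h' := hI3 j hj i hi h _ (hlv j hj).1 _ (hlv i hi).1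
      exact ⟨fun h2 => absurd h2 (not_lt.2 h'.le), fun h2 => absurd h2 (not_lt.2 h.le)⟩
  refine ⟨fun a =>
    { u := u a
      aff := haff a
      J0 := N0.filter fun j => fam j = a
      lv := lv
      inj := ?_
      vert := ?_ }, fun a => rfl, fun a j => Finset.mem_filter, ?_, ?_, ?_, ?_⟩
  · intro i hi j hj h
    obtain ⟨hi1, hi2⟩ := Finset.mem_filter.1 hi
    obtain ⟨hj1, hj2⟩ := Finset.mem_filter.1 hj
    refine hinj i hi1 j hj1 (hi2.trans hj2.symm) ?_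
    rcases lt_trichotomy (lvl i) (lvl j) with h' | h' | h'
    · have := (hord i hi1 j hj1 (hi2.trans hj2.symm)).2 h'
      exact absurd h this.ne
    · exact h'
    · have := (hord j hj1 i hi1 (hj2.trans hi2.symm)).2 h'
      exact absurd h this.ne'
  · intro v hv h0 j hj
    obtain ⟨hj1, hj2⟩ := Finset.mem_filter.1 hj
    have := (hlv j hj1).2.1 v (Or.inl ⟨hv, h0⟩)
    rwa [hj2] at this
  · intro a j hj
    exact hI2 j (Finset.mem_filter.1 hj).1 (hlv j (Finset.mem_filter.1 hj).1).1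
  · intro a j hj w hw
    obtain ⟨hj1, hj2⟩ := Finset.mem_filter.1 hj
    have := (hlv j hj1).2.1 w (Or.inr hw)
    rwa [hj2] at this
  · intro a i hi j hj
    obtain ⟨hi1, hi2⟩ := Finset.mem_filter.1 hi
    obtain ⟨hj1, hj2⟩ := Finset.mem_filter.1 hj
    exact hord i hi1 j hj1 (hi2.trans hj2.symm)
  · intro a b hab i hi j hj y hy hd hya hyb
    obtain ⟨hi1, hi2⟩ := Finset.mem_filter.1 hi
    obtain ⟨hj1, hj2⟩ := Finset.mem_filter.1 hj
    have hne : j ≠ i := fun h => hab (by rw [← hi2, ← hj2, h])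
    have h1 : u (fam i) y = lv i := by rw [hi2]; exact hya
    have h2 : u (fam j) y = lv j := by rw [hj2]; exact hyb
    exact (hlv i hi1).2.2 j hj1 hne (T.cc y) ⟨y, hy, hd, rfl⟩ y (T.self_mem_cc y) h1 h2

namespace Lev

variable (L L' : Lev T Sg J)




end Lev

end Crest.Agent.R096.Exa_560
end

-- ▼ part R096/Lsc1_965
section

/-! Row 96 (helper965), LIPSC: the coordinates of a box foam are `C / size`-Lipschitz near every
cell, ACROSS cells; a ball of radius `c * size` round a point of a cell lies in the star of the cell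
-/

set_option autoImplicit false
set_option linter.unusedSectionVars false
set_option linter.style.haveILetI false

open Set Topology Filter

namespace Crest.Agent.R096.Lsc_965

open Crest.Agent.R096.Bsp_628 Crest.Agent.R096.Brk1_582 Crest.Agent.R096.Brk2_582
open Crest.Agent.R096.Brk3_582 Crest.Agent.R096.Brk4_582 Crest.Agent.R096.Brk5_582

section foam

variable {E : Type*} [NormedAddCommGroup E] [NormedSpace ℝ E] [CompleteSpace E] {I : Type*}
variable {La : Set E} {P : I → Set E} {b : Set I → E} {N : ℕ}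

/-- near a point there are only the cells through this point -/
theorem eventually_act (F : Foam La P b N) {z : E} (hz : z ∈ La) :
    ∀ᶠ w in 𝓝 z, w ∈ La ∧ ∀ d, w ∈ P d → z ∈ P d := by
  obtain ⟨r, hr, hfin⟩ := F.lf z hz
  have h1 : ∀ d ∈ {d | (P d ∩ Metric.ball z r).Nonempty}, ∀ᶠ w in 𝓝 z, w ∈ P d → z ∈ P d := by
    intro d _
    by_cases hd : z ∈ P d
    · exact Eventually.of_forall fun _ _ => hd
    · filter_upwards [(F.cpt d).isClosed.isOpen_compl.mem_nhds hd] with w hw hw2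
      exact absurd hw2 hw
  filter_upwards [(hfin.eventually_all).2 h1, Metric.ball_mem_nhds z hr, F.op.mem_nhds hz]
    with w hw hwb hwL
  exact ⟨hwL, fun d hd => hw d ⟨w, hd, hwb⟩ hd⟩

/-- a cell with coordinate `< 1` touches all cells through the point -/
theorem touch_of_lt (F : Foam La P b N) {z : E} (hz : z ∈ La) {c d : I} (hc : sc P b z c < 1)
    (hd : z ∈ P d) : (P d ∩ P c).Nonempty := by
  obtain ⟨w, hw⟩ := F.sc_lt_one_fc hz
  refine ⟨w, mem_fc.1 hw d ?_, mem_fc.1 hw c hc⟩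
  show sc P b z d < 1
  rw [(F.sc_eq_zero hz).2 hd]; exact one_pos

end foam

variable {κ : Type*} [Fintype κ] [Nonempty κ] {La : Set (κ → ℝ)} {F : Set (Bx κ)} {δ κ0 : ℝ}

/-- the star of a brick -/
def star1 (F : Set (Bx κ)) (c0 : F) : Set (κ → ℝ) :=
  ⋃ c ∈ {c : F | (Pc F c ∩ Pc F c0).Nonempty}, Pc F c

theorem finite_star (BF : BoxFoam La F δ κ0) (hLa : IsOpen La) (c0 : F) :
    {c : F | (Pc F c ∩ Pc F c0).Nonempty}.Finite := finite_touch (foam BF hLa) c0

theorem isClosed_star (BF : BoxFoam La F δ κ0) (hLa : IsOpen La) (c0 : F) :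
    IsClosed (star1 F c0) :=
  (finite_star BF hLa c0).isClosed_biUnion fun _ _ => isClosed_Icc

theorem star_sub_La (BF : BoxFoam La F δ κ0) (c0 : F) : star1 F c0 ⊆ La :=
  iUnion₂_subset fun c _ => BF.sub c.1 c.2

/-- Lipschitz on convex subsets of the star -/
theorem lip_star (BF : BoxFoam La F δ κ0) (hLa : IsOpen La) (hδ : 0 < δ) {R : ℝ} (hR : 0 < R)
    (hcmp : Cmp F R) {c0 : F} {G : Set (κ → ℝ)} (hG : Convex ℝ G) (hGs : G ⊆ star1 F c0) (c : F) :
    ∀ x ∈ G, ∀ y ∈ G, |sc (Pc F) (bc (F := F)) x c - sc (Pc F) (bc (F := F)) y c| ≤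
      Cs (Fintype.card κ) δ R * R / c0.1.sz * ‖x - y‖ := by
  have hsz : 0 < c0.1.sz := Bx.sz_pos (BF.pos _ c0.2)
  have h := lip_convex BF hLa hδ hR hcmp hG (finite_star BF hLa c0) hGs (σ := c0.1.sz / R)
    (by positivity) (fun c1 hc1 => ?_) c
  · intro x hx y hy
    refine (h x hx y hy).trans (le_of_eq ?_)
    field_simp
  · have h1 := hcmp c0 c1 (by rw [inter_comm]; exact hc1)
    rw [div_le_iff₀ hR]; linarith

/-- **the segments of length `< size / (Cs R)` from a point of `c0` stay in the star of `c0`** -/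
theorem segment_sub_star (BF : BoxFoam La F δ κ0) (hLa : IsOpen La) (hδ : 0 < δ) {R : ℝ}
    (hR : 0 < R) (hcmp : Cmp F R) {c0 : F} {y y' : κ → ℝ} (hy : y ∈ Pc F c0)
    (h : Cs (Fintype.card κ) δ R * R * ‖y' - y‖ < c0.1.sz) : segment ℝ y y' ⊆ star1 F c0 := by
  have FF := foam BF hLa
  have hsz : 0 < c0.1.sz := Bx.sz_pos (BF.pos _ c0.2)
  have hC0 : 0 ≤ Cs (Fintype.card κ) δ R := Cs_nonneg hδ hR
  let z : ℝ → κ → ℝ := fun t => y + t • (y' - y)
  have hz : Continuous z := by fun_prop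
  have hz0 : z 0 = y := by simp [z]
  have hstar := isClosed_star BF hLa c0
  have hyst : y ∈ star1 F c0 := mem_biUnion (show c0 ∈ {c : F | (Pc F c ∩ Pc F c0).Nonempty} from
    ⟨y, hy, hy⟩) hy
  let S : Set ℝ := {t | ∀ u ∈ Icc (0 : ℝ) 1, z (u * t) ∈ star1 F c0}
  have hScl : IsClosed (S ∩ Icc 0 1) := by
    refine IsClosed.inter ?_ isClosed_Icc
    have : S = ⋂ u ∈ Icc (0 : ℝ) 1, (fun t => z (u * t)) ⁻¹' star1 F c0 := by
      ext t; simp [S]
    rw [this]
    exact isClosed_biInter fun u _ => hstar.preimage (by fun_prop)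
  have h0S : (0 : ℝ) ∈ S := by
    intro u _
    rw [mul_zero, hz0]; exact hyst
  have key : Icc (0 : ℝ) 1 ⊆ S := by
    refine hScl.Icc_subset_of_forall_mem_nhdsWithin h0S ?_
    rintro x ⟨hx, hx0, hx1⟩
    -- all points up to `x` are in the star
    have hx' : ∀ v ∈ Icc (0 : ℝ) x, z v ∈ star1 F c0 := by
      intro v hv
      rcases hx0.eq_or_lt with h1 | h1
      · have : v = 0 := le_antisymm (by rw [h1]; exact hv.2) hv.1
        rw [this, hz0]; exact hyst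
      · have := hx (v / x) ⟨div_nonneg hv.1 h1.le, by rw [div_le_one h1]; exact hv.2⟩
        rwa [div_mul_cancel₀ _ h1.ne'] at this
    have hxs : z x ∈ star1 F c0 := hx' x ⟨hx0, le_rfl⟩
    have hxL : z x ∈ La := star_sub_La BF c0 hxs
    have hG : segment ℝ y (z x) ⊆ star1 F c0 := by
      rw [segment_eq_image']
      rintro _ ⟨u, hu, rfl⟩
      have h1 := hx u hu
      have h2 : y + u • (z x - y) = z (u * x) := by
        simp only [z, add_sub_cancel_left, smul_smul]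
      show y + u • (z x - y) ∈ star1 F c0
      rw [h2]; exact h1
    have hlt : sc (Pc F) (bc (F := F)) (z x) c0 < 1 := by
      have h1 := lip_star BF hLa hδ hR hcmp (convex_segment y (z x)) hG c0 y
        (left_mem_segment ℝ y (z x)) (z x) (right_mem_segment ℝ y (z x))
      rw [(FF.sc_eq_zero (FF.sub c0 hy)).2 hy, zero_sub, abs_neg,
        abs_of_nonneg (FF.sc_nonneg hxL c0)] at h1
      have h2 : ‖y - z x‖ = x * ‖y' - y‖ := by
        have : y - z x = -(x • (y' - y)) := by simp only [z]; abel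
        rw [this, norm_neg, norm_smul, Real.norm_of_nonneg hx0]
      rw [h2] at h1
      have h3 : Cs (Fintype.card κ) δ R * R / c0.1.sz * (x * ‖y' - y‖) ≤
          Cs (Fintype.card κ) δ R * R * ‖y' - y‖ / c0.1.sz := by
        have h4 : 0 ≤ Cs (Fintype.card κ) δ R * R * ‖y' - y‖ := by positivity
        have h5 : Cs (Fintype.card κ) δ R * R / c0.1.sz * (x * ‖y' - y‖) =
            x * (Cs (Fintype.card κ) δ R * R * ‖y' - y‖ / c0.1.sz) := by ring
        rw [h5]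
        exact mul_le_of_le_one_left (by positivity) hx1.le
      have h6 : Cs (Fintype.card κ) δ R * R * ‖y' - y‖ / c0.1.sz < 1 := by
        rw [div_lt_one hsz]; exact h
      linarith
    have hev : ∀ᶠ w in 𝓝 (z x), w ∈ star1 F c0 := by
      filter_upwards [eventually_act FF hxL] with w hw
      obtain ⟨d, hd⟩ := FF.cov w hw.1
      exact mem_biUnion (show d ∈ {c : F | (Pc F c ∩ Pc F c0).Nonempty} from
        touch_of_lt FF hxL hlt (hw.2 d hd)) hd
    have hev2 : ∀ᶠ t in 𝓝 x, z t ∈ star1 F c0 := hz.continuousAt.eventually hev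
    obtain ⟨ρ, hρ, hball⟩ := Metric.eventually_nhds_iff.1 hev2
    have : Ioo x (x + ρ) ∈ 𝓝[>] x := Ioo_mem_nhdsGT (by linarith)
    filter_upwards [this] with t ht
    intro u hu
    by_cases hc : u * t ≤ x
    · exact hx' _ ⟨mul_nonneg hu.1 (hx0.trans ht.1.le), hc⟩
    · push Not at hc
      refine hball ?_
      rw [Real.dist_eq, abs_lt]
      have h7 : u * t ≤ t := mul_le_of_le_one_left (hx0.trans ht.1.le) hu.2
      constructor <;> linarith [ht.2]
  rw [segment_eq_image']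
  rintro _ ⟨u, hu, rfl⟩
  have h1 := key (right_mem_Icc.2 zero_le_one) u hu
  rw [mul_one] at h1
  exact h1

/-- **LIPSC: the coordinates are `Cs R / size`-Lipschitz across the cells** -/
theorem lip_near (BF : BoxFoam La F δ κ0) (hLa : IsOpen La) (hδ : 0 < δ) {R : ℝ}
    (hR : 0 < R) (hcmp : Cmp F R) {c0 : F} {y y' : κ → ℝ} (hy : y ∈ Pc F c0)
    (h : Cs (Fintype.card κ) δ R * R * ‖y' - y‖ < c0.1.sz) (c : F) :
    y' ∈ La ∧ |sc (Pc F) (bc (F := F)) y c - sc (Pc F) (bc (F := F)) y' c| ≤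
      Cs (Fintype.card κ) δ R * R / c0.1.sz * ‖y - y'‖ := by
  have h1 := segment_sub_star BF hLa hδ hR hcmp hy h
  exact ⟨star_sub_La BF c0 (h1 (right_mem_segment ℝ y y')),
    lip_star BF hLa hδ hR hcmp (convex_segment y y') h1 c y (left_mem_segment ℝ y y') y'
      (right_mem_segment ℝ y y')⟩

/-- in the form of `Fine`: `‖y' - y‖ ≤ ε size` gives oscillation `≤ Cs R ε` of all coordinates -/
theorem osc_le (BF : BoxFoam La F δ κ0) (hLa : IsOpen La) (hδ : 0 < δ) {R : ℝ}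
    (hR : 0 < R) (hcmp : Cmp F R) {c0 : F} {y y' : κ → ℝ} (hy : y ∈ Pc F c0) {ε : ℝ}
    (hε : Cs (Fintype.card κ) δ R * R * ε < 1) (h : ‖y' - y‖ ≤ ε * c0.1.sz) (c : F) :
    |sc (Pc F) (bc (F := F)) y c - sc (Pc F) (bc (F := F)) y' c| ≤
      Cs (Fintype.card κ) δ R * R * ε := by
  have hsz : 0 < c0.1.sz := Bx.sz_pos (BF.pos _ c0.2)
  have hC : 0 ≤ Cs (Fintype.card κ) δ R * R := mul_nonneg (Cs_nonneg hδ hR) hR.le
  have h1 : Cs (Fintype.card κ) δ R * R * ‖y' - y‖ < c0.1.sz := by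
    have h2 := mul_le_mul_of_nonneg_left h hC
    have h3 : Cs (Fintype.card κ) δ R * R * (ε * c0.1.sz) =
        (Cs (Fintype.card κ) δ R * R * ε) * c0.1.sz := by ring
    rw [h3] at h2
    have h4 := mul_lt_mul_of_pos_right hε hsz
    linarith
  refine (lip_near BF hLa hδ hR hcmp hy h1 c).2.trans ?_
  rw [norm_sub_rev]
  have h5 : Cs (Fintype.card κ) δ R * R / c0.1.sz * ‖y' - y‖ ≤
      Cs (Fintype.card κ) δ R * R / c0.1.sz * (ε * c0.1.sz) :=
    mul_le_mul_of_nonneg_left h (div_nonneg hC hsz.le)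
  refine h5.trans (le_of_eq ?_)
  field_simp

end Crest.Agent.R096.Lsc_965
end

-- ▼ part R096/Exa6_560

/-!
# R096 (row 96), DOORS / EXA part 6 (helper560): the frontier of a tiny core

For `H : Tiny Φ T f κ1 c J0 J V θ φ`, on `frontier (KJ T J)`:
* `tiny_near` : `|s_a (θ x) - lev a (f x)| ≤ Cs R κ1`.
* `tiny_osc`  : `s_a ∘ θ` oscillates by at most `(2 Cs R + 1) κ1` on a 2-cell.
* `tiny_level` : the levels of `s_a ∘ θ` are connected and nonempty (`a` a neighbour of `c`).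
* `tiny_far`  : `s_a ∘ θ = 1` if `a` does not touch `c`.
* `tiny_lo`, `tiny_hi` : vertices with `s_a ∘ θ` near `0`, near `1`.
* `tiny_quad` : exactly one common point of two levels over a quad.
-/

set_option autoImplicit false
set_option linter.unusedSectionVars false
set_option linter.style.longLine false

open Set Metric Module
open scoped Classical

namespace Crest.Agent.R096.Exa_560

open Crest.Agent.R096.Msh_715 Crest.Agent.R096.Agl5_543
open Crest.Agent.R096.Brk1_582 Crest.Agent.R096.Brk3_582 Crest.Agent.R096.Brk5_582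
open Crest.Agent.R096.Bsp_628
open Crest.Agent.R096.Mbf_337 (sb KJ Tiny gau)
open Crest.Agent.R096.SkC1_961 (E3 FoamD)
open Crest.Agent.R096.Ce_537 (PLEquiv IsBall)

section tiny

variable {δ κ0 R c0 : ℝ} {La Om : Set E3} {ι : Type} {Φ : FoamD δ κ0 R c0 La} {T : Tiling Om ι}
  {f : E3 → E3} {κ1 : ℝ} {c : Φ.F} {J0 J V : Set ι} {θ : E3 → E3} {φ : E3 → ℝ}

/-- the constant of the coordinates -/
noncomputable def Cn (δ R : ℝ) : ℝ := Cs 3 δ R * R

theorem Cn_nonneg (hδ : 0 < δ) (hR : 0 < R) : 0 ≤ Cn δ R := mul_nonneg (Cs_nonneg hδ hR) hR.le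


theorem coreH_tiny (H : Tiny Φ T f κ1 c J0 J V θ φ) : CoreH T (KJ T J) :=
  CoreH.of_tiles (by simp) rfl H.ball

theorem fr_sub (H : Tiny Φ T f κ1 c J0 J V θ φ) : frontier (KJ T J) ⊆ KJ T J :=
  (coreH_tiny H).cpt.isClosed.frontier_subset

/-- tiles at the frontier are fine -/
theorem tiny_tile (H : Tiny Φ T f κ1 c J0 J V θ φ) {x : E3} (hx : x ∈ frontier (KJ T J)) {i : ι}
    (hi : x ∈ P (T.H i)) : ∃ d, 0 < d ∧ d ≤ κ1 ∧ ∀ y ∈ P (T.H i), ∀ z ∈ P (T.H i), ∀ a,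
      |Φ.lev a (f y) - Φ.lev a (f z)| ≤ d := by
  obtain ⟨ρ1, ρ2, ρ3, ρ4, d, hd, hdk, h1, h12, h23, h34, h4, hray, hJ0, hfr, hV, hosc, hth⟩ :=
    H.room
  obtain ⟨g1, g2⟩ := hfr x hx
  have hiV : i ∈ V := hV i ⟨x, hi, by linarith⟩
  have hi0 : i ∉ J0 := by
    intro h
    have := hJ0 x (mem_iUnion₂.2 ⟨i, h, hi⟩)
    linarith
  exact ⟨d, hd, hdk, fun y hy z hz a => (hosc i hiV hi0 y hy z hz).2.2 a⟩

theorem th_mem (H : Tiny Φ T f κ1 c J0 J V θ φ) {x : E3} (hx : x ∈ frontier (KJ T J)) :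
    θ x ∈ frontier c.1.set := by
  obtain ⟨e, he⟩ := H.bij
  rw [← he x hx]; exact e.mf hx

theorem th_mem' (H : Tiny Φ T f κ1 c J0 J V θ φ) {x : E3} (hx : x ∈ frontier (KJ T J)) :
    θ x ∈ Pc Φ.F c := by
  have h1 : IsClosed c.1.set := isClosed_Icc
  exact h1.frontier_subset (th_mem H hx)

theorem tiny_near (hLa : IsOpen La) (hδ : 0 < δ) (hR : 0 < R) (hκ : Cn δ R * κ1 < 1)
    (H : Tiny Φ T f κ1 c J0 J V θ φ) {x : E3} (hx : x ∈ frontier (KJ T J)) (a : Φ.F) :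
    |sb Φ (θ x) a - Φ.lev a (f x)| ≤ Cn δ R * κ1 := by
  obtain ⟨ρ1, ρ2, ρ3, ρ4, d, hd, hdk, h1, h12, h23, h34, h4, hray, hJ0, hfr, hV, hosc, hth⟩ :=
    H.room
  have hsz : 0 < c.1.sz := Bx.sz_pos (Φ.bf.pos _ c.2)
  have h5 : ‖Φ.Psi (f x) - θ x‖ ≤ κ1 * c.1.sz := by
    rw [norm_sub_rev]
    exact (hth x hx).trans (mul_le_mul_of_nonneg_right hdk hsz.le)
  have h6 := Lsc_965.osc_le Φ.bf hLa hδ hR Φ.cmp (c0 := c) (th_mem' H hx) (ε := κ1)
    (by rw [Fintype.card_fin]; exact hκ) h5 a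
  rw [Fintype.card_fin] at h6
  exact h6

theorem tiny_osc (hLa : IsOpen La) (hδ : 0 < δ) (hR : 0 < R) (hκ : Cn δ R * κ1 < 1)
    (H : Tiny Φ T f κ1 c J0 J V θ φ) {F : C2 T} (hF : F.set ⊆ frontier (KJ T J)) {x y : E3}
    (hx : x ∈ F.set) (hy : y ∈ F.set) (a : Φ.F) :
    |sb Φ (θ x) a - sb Φ (θ y) a| ≤ (2 * Cn δ R + 1) * κ1 := by
  have hpt : F.pt ∈ F.set := F.1.opn_sub (T.self_mem_oc _)
  obtain ⟨i, hi⟩ := T.at_nonempty F.pt_mem
  have hsub : F.set ⊆ P (T.H i) := by rw [F.set_eq]; exact T.cc_sub_tile hi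
  obtain ⟨d, hd, hdk, hosc⟩ := tiny_tile H (hF hpt) (hsub hpt)
  have h1 := tiny_near hLa hδ hR hκ H (hF hx) a
  have h2 := tiny_near hLa hδ hR hκ H (hF hy) a
  have h3 := hosc x (hsub hx) y (hsub hy) a
  rw [abs_le] at h1 h2 h3 ⊢
  constructor <;> linarith [h1.1, h1.2, h2.1, h2.2, h3.1, h3.2]

theorem tiny_aff (H : Tiny Φ T f κ1 c J0 J V θ φ) (a : Φ.F) (F : C2 T)
    (hF : F.set ⊆ frontier (KJ T J)) : ∃ g : E3 →ᵃ[ℝ] ℝ, EqOn (fun x => sb Φ (θ x) a) g F.set := by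
  have hpt : F.pt ∈ F.set := F.1.opn_sub (T.self_mem_oc _)
  obtain ⟨g, hg⟩ := H.lin F.pt (hF hpt) F.dim_pt a
  refine ⟨g, fun y hy => hg y ?_⟩
  rw [← F.set_eq]; exact hy

theorem frontier_c (Φ : FoamD δ κ0 R c0 La) (hLa : IsOpen La) (c : Φ.F) :
    frontier c.1.set = {q | q ∈ Pc Φ.F c ∧ ∃ d, d ≠ c ∧ q ∈ Pc Φ.F d} := by
  have FF := foam Φ.bf hLa
  have h1 : frontier (Pc Φ.F c) = Brk2_582.Lset La (Pc Φ.F) (bc (F := Φ.F)) c 0 :=
    Vb_965.frontier_cell FF c
  have h2 := Brk2_582.Lset_zero FF c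
  exact h1.trans h2

theorem level_eq (hLa : IsOpen La) (H : Tiny Φ T f κ1 c J0 J V θ φ) (a : Φ.F) (t : ℝ) :
    ∃ e : PLEquiv (frontier (KJ T J)) (frontier c.1.set), (∀ x ∈ frontier (KJ T J), e.f x = θ x) ∧
      {x | x ∈ frontier (KJ T J) ∧ sb Φ (θ x) a = t} =
        e.g '' Exc_965.ring (Pc Φ.F) (bc (F := Φ.F)) c a t := by
  obtain ⟨e, he⟩ := H.bij
  refine ⟨e, he, ?_⟩
  have hring := Exc_965.ring_eq_frontier (foam Φ.bf hLa) (c := c) (a := a) (t := t)
  rw [hring]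
  ext x
  constructor
  · rintro ⟨hx, hxt⟩
    have h1 : e.f x ∈ frontier c.1.set := e.mf hx
    refine ⟨e.f x, ⟨h1, ?_⟩, e.li x hx⟩
    rw [he x hx]; exact hxt
  · rintro ⟨q, ⟨hq, hqt⟩, rfl⟩
    have h1 : e.g q ∈ frontier (KJ T J) := e.mg hq
    refine ⟨h1, ?_⟩
    have h2 : θ (e.g q) = q := by rw [← he _ h1]; exact e.ri q hq
    rw [h2]; exact hqt

/-- **the levels are connected and nonempty** -/
theorem tiny_level (hLa : IsOpen La) (H : Tiny Φ T f κ1 c J0 J V θ φ) {a : Φ.F} (hac : a ≠ c)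
    (hne : (Pc Φ.F c ∩ Pc Φ.F a).Nonempty) {t : ℝ} (ht0 : 0 < t) (ht1 : t < 1) :
    IsPreconnected {x | x ∈ frontier (KJ T J) ∧ sb Φ (θ x) a = t} ∧
      {x | x ∈ frontier (KJ T J) ∧ sb Φ (θ x) a = t}.Nonempty := by
  obtain ⟨e, he, heq⟩ := level_eq hLa H a t
  obtain ⟨h1, h2⟩ := Exc_965.isPreconnected_ring Φ.bf hLa (by simp) hac hne ht0 ht1
  rw [heq]
  refine ⟨h1.image _ (e.pg.1.mono ?_), h2.image _⟩
  rw [Exc_965.ring_eq_frontier (foam Φ.bf hLa)]
  exact fun q hq => hq.1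

/-- **no level if `a` does not touch `c`** -/
theorem tiny_far (hLa : IsOpen La) (H : Tiny Φ T f κ1 c J0 J V θ φ) {a : Φ.F}
    (hne : ¬ (Pc Φ.F c ∩ Pc Φ.F a).Nonempty) {x : E3} (hx : x ∈ frontier (KJ T J)) :
    sb Φ (θ x) a = 1 := by
  have FF := foam Φ.bf hLa
  have hq := th_mem' H hx
  have hqL : θ x ∈ La := FF.sub c hq
  have hK := FF.sc_mem_K hqL
  have h0 : sc (Pc Φ.F) (bc (F := Φ.F)) (θ x) c = 0 := (FF.sc_eq_zero hqL).2 hq
  by_contra hcon
  have hlt : sc (Pc Φ.F) (bc (F := Φ.F)) (θ x) a < 1 := lt_of_le_of_ne (hK.1 a).2 hcon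
  obtain ⟨y, hy⟩ := hK.2.2
  have h1 := mem_fc.1 hy a hlt
  have h2 := mem_fc.1 hy c (by show sc _ _ _ _ < 1; rw [h0]; exact one_pos)
  exact hne ⟨y, h2, h1⟩

/-- a vertex near a point -/
theorem tiny_vertex (hLa : IsOpen La) (hδ : 0 < δ) (hR : 0 < R) (hκ : Cn δ R * κ1 < 1)
    (H : Tiny Φ T f κ1 c J0 J V θ φ) {q : E3} (hq : q ∈ frontier c.1.set) (a : Φ.F) :
    ∃ v ∈ frontier (KJ T J), T.dim v = 0 ∧
      |sb Φ (θ v) a - sb Φ q a| ≤ (2 * Cn δ R + 1) * κ1 := by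
  obtain ⟨e, he⟩ := H.bij
  have h1 : e.g q ∈ frontier (KJ T J) := e.mg hq
  have h2 : θ (e.g q) = q := by rw [← he _ h1]; exact e.ri q hq
  obtain ⟨F, hF, hqF⟩ := exists_face (κ := Unit) (Kc := fun _ => KJ T J) (c := ()) (by simp)
    (fun _ => coreH_tiny H) h1
  obtain ⟨v, hv, hv0⟩ := T.exists_vertex F.pt_mem
  rw [← F.set_eq] at hv
  refine ⟨v, hF hv, hv0, ?_⟩
  have h3 := tiny_osc hLa hδ hR hκ H hF hv hqF a
  rw [h2] at h3
  exact h3

/-- **a vertex near `P_a`** -/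
theorem tiny_lo (hLa : IsOpen La) (hδ : 0 < δ) (hR : 0 < R) (hκ : Cn δ R * κ1 < 1)
    (H : Tiny Φ T f κ1 c J0 J V θ φ) {a : Φ.F} (hac : a ≠ c)
    (hne : (Pc Φ.F c ∩ Pc Φ.F a).Nonempty) :
    ∃ v ∈ frontier (KJ T J), T.dim v = 0 ∧ sb Φ (θ v) a ≤ (2 * Cn δ R + 1) * κ1 := by
  obtain ⟨q, hq1, hq2⟩ := hne
  have FF := foam Φ.bf hLa
  have hq : q ∈ frontier c.1.set := by
    rw [frontier_c Φ hLa c]; exact ⟨hq1, a, hac, hq2⟩
  obtain ⟨v, hv, hv0, h⟩ := tiny_vertex hLa hδ hR hκ H hq a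
  refine ⟨v, hv, hv0, ?_⟩
  have h0 : sb Φ q a = 0 := (FF.sc_eq_zero (FF.sub c hq1)).2 hq2
  rw [h0, sub_zero] at h
  exact (le_abs_self _).trans h

/-- **a vertex far from `P_a`** -/
theorem tiny_hi (hLa : IsOpen La) (hδ : 0 < δ) (hR : 0 < R) (hκ : Cn δ R * κ1 < 1)
    (H : Tiny Φ T f κ1 c J0 J V θ φ) {a : Φ.F} (hac : a ≠ c)
    (hne : (Pc Φ.F c ∩ Pc Φ.F a).Nonempty) :
    ∃ v ∈ frontier (KJ T J), T.dim v = 0 ∧ 1 - (2 * Cn δ R + 1) * κ1 ≤ sb Φ (θ v) a := by
  have FF := foam Φ.bf hLa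
  -- a second neighbour
  obtain ⟨q, hq1, hq2⟩ := hne
  have hfc : (fc (Pc Φ.F) ({a, c} : Set Φ.F)).Nonempty := by
    refine ⟨q, mem_fc.2 ?_⟩
    rintro y (rfl | rfl)
    · exact hq2
    · exact hq1
  have h := Exc_965.isPreconnected_relbd Φ.bf hLa (A := {a, c}) (by simp) ⟨a, by simp⟩ hfc
    (by rw [ncard_pair hac]; simp)
  rw [← Exc_965.rel2_eq] at h
  obtain ⟨p, hp1, hp2, d, hdc, hda, hpd⟩ := h.2
  have hne2 : (fc (Pc Φ.F) ({c, d} : Set Φ.F)).Nonempty := by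
    refine ⟨p, mem_fc.2 ?_⟩
    rintro y (rfl | rfl)
    · exact hp1
    · exact hpd
  have hm := FF.mem {c, d} ⟨c, by simp⟩ hne2
  have hbc : bc (F := Φ.F) {c, d} ∈ Pc Φ.F c := mem_fc.1 hm c (by simp)
  have hbd : bc (F := Φ.F) {c, d} ∈ Pc Φ.F d := mem_fc.1 hm d (by simp)
  have hq : bc (F := Φ.F) {c, d} ∈ frontier c.1.set := by
    rw [frontier_c Φ hLa c]; exact ⟨hbc, d, hdc, hbd⟩
  obtain ⟨v, hv, hv0, h⟩ := tiny_vertex hLa hδ hR hκ H hq a
  refine ⟨v, hv, hv0, ?_⟩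
  have h1 : sb Φ (bc (F := Φ.F) {c, d}) a = 1 := by
    have h2 := Brk2_582.sc_chain FF (k := 0) (fun _ => ({c, d} : Set Φ.F)) (fun _ _ _ => le_rfl)
      ⟨c, by simp⟩ hne2 (fun _ => 1) (fun _ => zero_le_one) (by simp) a
    have h3 : a ∉ ({c, d} : Set Φ.F) := by
      rintro (h | h)
      · exact hac h
      · exact hda h.symm
    simp only [Fin.sum_univ_succ, one_smul, Finset.univ_eq_empty, Finset.sum_empty, add_zero,
      if_neg h3] at h2
    exact h2
  rw [h1] at h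
  have := (abs_le.1 h).1
  linarith


end tiny

end Crest.Agent.R096.Exa_560
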