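import Crest.Agent.R096.Dib1_438
import Crest.Agent.R096.Exa10_560
import Crest.Agent.R096.Dia1_316
import Mathlib
import Crest.Agent.R096.Bar2_543
import Crest.Agent.R096.Bar2_106
import Crest.Agent.R096.Exa6_560

-- ▼ part R096/Dib2_438
section

/-! Row 96 (helper438), DOORS, `DIn` for the barrier families, part 2: the vertices `v0`, `v1`
and the exact levels (clause `lev` of 539's `DIn`) -/

set_option autoImplicit false
set_option linter.unusedSectionVars false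
set_option linter.style.longLine false

open Set Metric Module
open scoped Classical

namespace Crest.Agent.R096.Dib_438

open Crest.Agent.R096.Msh_715 Crest.Agent.R096.Agl5_543
open Crest.Agent.R096.Brk1_582 Crest.Agent.R096.Brk3_582 Crest.Agent.R096.Brk5_582
open Crest.Agent.R096.Bsp_628 Crest.Agent.R096.Bar_106 Crest.Agent.R096.Exa_560
open Crest.Agent.R096.St_147
open Crest.Agent.R096.Ess7_95 (KT)
open Crest.Agent.R096.Mbf_337 (sb KJ Tiny gau)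
open Crest.Agent.R096.SkC1_961 (E3 FoamD)
open Crest.Agent.R096.Ce_537 (PLEquiv IsBall)

section one

variable {δ κ0 R c0 : ℝ} {La Om : Set E3} {ι : Type} {Φ : FoamD δ κ0 R c0 La} {T : Tiling Om ι}
  {f : E3 → E3} {κ1 : ℝ} {c : Φ.F} {J0 J V : Set ι} {θ : E3 → E3} {φ : E3 → ℝ}
  {a p m : Φ.F} {Z : Set Φ.F} {N : Finset Φ.F}

/-- **a vertex near a point of the patch**, in all coordinates -/
theorem exists_vuu (hLa : IsOpen La) (hδ : 0 < δ) (hR : 0 < R) (hκ : Cn δ R * κ1 < 1)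
    (H : Tiny Φ T f κ1 c J0 J V θ φ) (M : Mo (Pc Φ.F) c a Z p m) {x : ℝ × ℝ} (hx : x ∈ Rct) :
    ∃ v ∈ frontier (KJ T J), T.dim v = 0 ∧
      ∀ e, |sb Φ (θ v) e - uu a Z p m x.1 x.2 e| ≤ (2 * Cn δ R + 1) * κ1 := by
  have FF := foam Φ.bf hLa
  have hq := M.gam_mem FF hx
  rw [show (gam (bc (F := Φ.F)) a Z p m x ∈ Pc Φ.F c ∧
    ∃ d, d ≠ c ∧ gam (bc (F := Φ.F)) a Z p m x ∈ Pc Φ.F d) ↔
    gam (bc (F := Φ.F)) a Z p m x ∈ frontier c.1.set from by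
      rw [frontier_c Φ hLa c]; rfl] at hq
  obtain ⟨v, hv, hv0, hvn⟩ := tiny_vertex' hLa hδ hR hκ H hq
  refine ⟨v, hv, hv0, fun e => ?_⟩
  have h1 := hvn e
  have h2 : sb Φ (gam (bc (F := Φ.F)) a Z p m x) e = uu a Z p m x.1 x.2 e := by
    show sc _ _ _ e = _
    rw [M.sc_gam FF hx]
  rwa [h2] at h1

theorem uu_mem0 (_ : Mo (Pc Φ.F) c a Z p m) {x : ℝ × ℝ} (hx : x ∈ Rct) (e : Φ.F) :
    0 ≤ uu a Z p m x.1 x.2 e ∧ uu a Z p m x.1 x.2 e ≤ 1 := uu_mem_Icc hx.1 hx.2 e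

theorem r0 : ((1 / 2 : ℝ), (0 : ℝ)) ∈ Rct :=
  ⟨⟨by norm_num, by norm_num⟩, ⟨by norm_num, by norm_num⟩⟩

theorem r1 : ((1 / 2 : ℝ), (1 : ℝ)) ∈ Rct :=
  ⟨⟨by norm_num, by norm_num⟩, ⟨by norm_num, by norm_num⟩⟩

/-- `Fs` at `v0` -/
theorem fs_uu0 (hLa : IsOpen La) (M : Mo (Pc Φ.F) c a Z p m) (hp : p ∈ N) (hm : m ∈ N) {q : E3}
    (hq : q ∈ frontier c.1.set) {r : ℝ} (hr : r < 1 / 2)
    (h : ∀ e, |sb Φ q e - uu a Z p m (1 / 2) 0 e| ≤ r) : Fs N a Z (sb Φ q) ≤ r := by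
  have h2 := Fm_sub_le (a := a) (Z := Z) (u := sb Φ q)
    (v := uu a Z p m (1 / 2) 0) (sb_mem hLa hq) (uu_mem0 M r0) h
  have h4 : Fm a Z (uu a Z p m (1 / 2) 0) = |(0 : ℝ)| := Fm_uu M.pa M.ma M.pm r0.1 r0.2
  rw [abs_zero] at h4
  rw [h4, sub_zero] at h2
  have h3 := (abs_le.1 h2).2
  have h5 := abs_le.1 (h a)
  rw [uu_a] at h5
  rw [fs_eq_fm hLa M hp hm hq (by linarith [h5.1]) (by linarith [h5.2]) (by linarith)]
  exact h3

/-- `Fs` at `v1` -/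
theorem fs_uu1 (hLa : IsOpen La) (M : Mo (Pc Φ.F) c a Z p m)
    (hN : ∀ e, (Pc Φ.F c ∩ Pc Φ.F e).Nonempty → e ∈ N) {q : E3}
    (hq : q ∈ frontier c.1.set) {r : ℝ}
    (h : ∀ e, |sb Φ q e - uu a Z p m (1 / 2) 1 e| ≤ r) : 1 - r ≤ Fs N a Z (sb Φ q) := by
  have h2 := Fm_sub_le (a := a) (Z := Z) (u := sb Φ q)
    (v := uu a Z p m (1 / 2) 1) (sb_mem hLa hq) (uu_mem0 M r1) h
  have h4 : Fm a Z (uu a Z p m (1 / 2) 1) = |(1 : ℝ)| := Fm_uu M.pa M.ma M.pm r1.1 r1.2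
  rw [abs_one] at h4
  rw [h4] at h2
  have h3 := (abs_le.1 h2).1
  have h4 := Fm_le_Fs (a := a) (Z := Z) (N := N) (u := sb Φ q)
    (fun e he => dv_off hLa M hq fun h => he (hN e h)) (sb_mem hLa hq)
  linarith

/-- `Gm` at `v0` -/
theorem gm_uu0 (hLa : IsOpen La) (M : Mo (Pc Φ.F) c a Z p m) {l0 mm ra : ℝ} (hl0 : 0 < l0)
    (hra : 0 < ra) {q : E3} (hq : q ∈ frontier c.1.set) {r : ℝ}
    (h : ∀ e, |sb Φ q e - uu a Z p m (1 / 2) 0 e| ≤ r) :
    Gm l0 mm ra a Z (sb Φ q) ≤ |1 / 2 - mm| / ra + max (r / l0) (r / ra) := by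
  have h2 := Gm_sub_le (m := mm) hl0 hra (a := a) (Z := Z) (u := sb Φ q)
    (v := uu a Z p m (1 / 2) 0) (sb_mem hLa hq) (uu_mem0 M r0) h
  have h4 : Gm l0 mm ra a Z (uu a Z p m (1 / 2) 0) = max (|(0 : ℝ)| / l0) (|1 / 2 - mm| / ra) :=
    Gm_uu M.pa M.ma M.pm r0.1 r0.2
  rw [abs_zero, zero_div, max_eq_right (by positivity)] at h4
  rw [h4] at h2
  have h3 := (abs_le.1 h2).2
  linarith

/-- `Gm` at `v1` -/
theorem gm_uu1 (hLa : IsOpen La) (M : Mo (Pc Φ.F) c a Z p m) {l0 mm ra : ℝ} (hl0 : 0 < l0)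
    (hra : 0 < ra) {q : E3} (hq : q ∈ frontier c.1.set) {r : ℝ}
    (h : ∀ e, |sb Φ q e - uu a Z p m (1 / 2) 1 e| ≤ r) :
    1 / l0 - max (r / l0) (r / ra) ≤ Gm l0 mm ra a Z (sb Φ q) := by
  have h2 := Gm_sub_le (m := mm) hl0 hra (a := a) (Z := Z) (u := sb Φ q)
    (v := uu a Z p m (1 / 2) 1) (sb_mem hLa hq) (uu_mem0 M r1) h
  have h4 : Gm l0 mm ra a Z (uu a Z p m (1 / 2) 1) = max (|(1 : ℝ)| / l0) (|1 / 2 - mm| / ra) :=
    Gm_uu M.pa M.ma M.pm r1.1 r1.2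
  rw [abs_one] at h4
  have h5 : 1 / l0 ≤ Gm l0 mm ra a Z (uu a Z p m (1 / 2) 1) := by rw [h4]; exact le_max_left _ _
  have h3 := (abs_le.1 h2).1
  linarith

/-- `Fs` is continuous on the frontier of the brick -/
theorem continuousOn_fs (hLa : IsOpen La) (N : Finset Φ.F) (a : Φ.F) (Z : Set Φ.F) :
    ContinuousOn (fun q => Fs N a Z (sb Φ q)) (frontier c.1.set) := by
  have FF := foam Φ.bf hLa
  have hsub : frontier c.1.set ⊆ La := by
    rw [frontier_c Φ hLa c]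
    exact fun q hq => FF.sub c hq.1
  unfold Fs
  refine continuousOn_finsetSum _ fun e _ => ?_
  have h1 : ContinuousOn (fun q => sb Φ q e) (frontier c.1.set) :=
    (Brk2_582.continuousOn_sc_apply FF e).mono hsub
  unfold dv
  split_ifs
  · exact continuousOn_const
  · exact h1
  · exact continuousOn_const.sub h1

theorem compact_fs (hLa : IsOpen La) (N : Finset Φ.F) (a : Φ.F) (Z : Set Φ.F) (t : ℝ) :
    IsCompact {q | q ∈ frontier c.1.set ∧ Fs N a Z (sb Φ q) = t} := by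
  have h1 : IsCompact (frontier c.1.set) := by
    have : IsCompact c.1.set := isCompact_Icc
    exact this.of_isClosed_subset isClosed_frontier this.isClosed.frontier_subset
  have h2 : IsClosed {q | q ∈ frontier c.1.set ∧ Fs N a Z (sb Φ q) = t} :=
    (continuousOn_fs hLa N a Z).preimage_isClosed_of_isClosed isClosed_frontier
      (isClosed_singleton (x := t))
  exact h1.of_isClosed_subset h2 fun q hq => hq.1

end one

section all

variable {δ κ0 R c0 : ℝ} {La Om : Set E3} {ι : Type} {Φ : FoamD δ κ0 R c0 La} {T : Tiling Om ι}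
  {f : E3 → E3} {κ1 : ℝ} {X : Set Φ.F} {J0 J V : Φ.F → Set ι}
  {θ : Φ.F → E3 → E3} {φ : Φ.F → E3 → ℝ}
  {Bm : Type} {co : Bm → {c : Φ.F // c ∉ X}} {am : Bm → Φ.F} {Zm : Bm → Set Φ.F}
  {pm mm : Bm → Φ.F}

/-- the finite set of the neighbours of a brick -/
noncomputable def Nb (Φ : FoamD δ κ0 R c0 La) (hLa : IsOpen La) (c : Φ.F) : Finset Φ.F :=
  (finite_nbr (Φ := Φ) hLa c).toFinset

theorem mem_Nb {hLa : IsOpen La} {c e : Φ.F} : e ∈ Nb Φ hLa c ↔ (Pc Φ.F c ∩ Pc Φ.F e).Nonempty := by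
  unfold Nb
  rw [Set.Finite.mem_toFinset]
  rfl

theorem mo_p {hLa : IsOpen La} {c a p m : Φ.F} {Z : Set Φ.F} (M : Mo (Pc Φ.F) c a Z p m) :
    p ∈ Nb Φ hLa c := by
  rw [mem_Nb]
  obtain ⟨y, hy⟩ := M.fcp
  exact ⟨y, mem_fc.1 hy c (Or.inl M.cZ), mem_fc.1 hy p (Or.inr (Or.inr rfl))⟩

theorem mo_m {hLa : IsOpen La} {c a p m : Φ.F} {Z : Set Φ.F} (M : Mo (Pc Φ.F) c a Z p m) :
    m ∈ Nb Φ hLa c := by
  rw [mem_Nb]
  obtain ⟨y, hy⟩ := M.fcm
  exact ⟨y, mem_fc.1 hy c (Or.inl M.cZ), mem_fc.1 hy m (Or.inr (Or.inr rfl))⟩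

/-- the moats of the tiny cores, `Bm` = names -/
structure MoD (Φ : FoamD δ κ0 R c0 La) {X : Set Φ.F} {Bm : Type} (co : Bm → {c : Φ.F // c ∉ X})
    (am : Bm → Φ.F) (Zm : Bm → Set Φ.F) (pm mm : Bm → Φ.F) : Prop where
  mo : ∀ b, Mo (Pc Φ.F) (co b).1 (am b) (Zm b) (pm b) (mm b)
  fin : ∀ c, {b | co b = c}.Finite

/-- the level function of the moat `b` on the sphere `c` -/
noncomputable def uM (Φ : FoamD δ κ0 R c0 La) (hLa : IsOpen La) {X : Set Φ.F} {Bm : Type}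
    (am : Bm → Φ.F) (Zm : Bm → Set Φ.F) (θ : Φ.F → E3 → E3) (c : {c : Φ.F // c ∉ X}) (b : Bm)
    (x : E3) : ℝ := Fs (Nb Φ hLa c.1) (am b) (Zm b) (sb Φ (θ c.1 x))

/-- **the exact levels of the moats**: the clause `lev` of `DIn` -/
theorem lev_mo (hLa : IsOpen La) (H : ∀ c ∉ X, Tiny Φ T f κ1 c (J0 c) (J c) (V c) (θ c) (φ c))
    (hD : MoD Φ co am Zm pm mm) {A B : ℝ} (hA : 0 ≤ A) (hAB : A < B) (hB : B ≤ 1)
    (hFs : ∀ c a p m : Φ.F, ∀ Z, Mo (Pc Φ.F) c a Z p m → ∀ t, 0 < t → t < 1 →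
      IsPreconnected {q | q ∈ frontier c.1.set ∧ Fs (Nb Φ hLa c) a Z (sb Φ q) = t} ∧
      {q | q ∈ frontier c.1.set ∧ Fs (Nb Φ hLa c) a Z (sb Φ q) = t}.Nonempty)
    (c : {c : Φ.F // c ∉ X}) (lvl : Bm → ℝ) (_ : ∀ i j : Bm, i = j → lvl i = lvl j → i = j)
    (Q : Set E3) (hQ : Q.Finite) :
    ∃ L : Bm → Lev T (frontier (KT T J X c)) Bm,
      (∀ a, (L a).u = uM Φ hLa am Zm θ c a) ∧ (∀ a j, j ∈ (L a).J0 ↔ j = a ∧ co a = c) ∧
      (∀ a, ∀ j ∈ (L a).J0, A < (L a).lv j ∧ (L a).lv j < B) ∧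
      (∀ a, ∀ j ∈ (L a).J0, ∀ w ∈ Q, (L a).u w ≠ (L a).lv j) ∧
      (∀ a, ∀ i ∈ (L a).J0, ∀ j ∈ (L a).J0, (L a).lv i < (L a).lv j ↔ lvl i < lvl j) ∧
      (∀ a b, a ≠ b → ∀ i ∈ (L a).J0, ∀ j ∈ (L b).J0, ∀ y ∈ frontier (KT T J X c), T.dim y = 1 →
        (L a).u y = (L a).lv i → (L b).u y ≠ (L b).lv j) ∧
      ∀ a, ∀ j ∈ (L a).J0,
        IsPreconnected {x | x ∈ frontier (KT T J X c) ∧ (L a).u x = (L a).lv j} ∧
        {x | x ∈ frontier (KT T J X c) ∧ (L a).u x = (L a).lv j}.Nonempty := by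
  have Hc := H c.1 c.2
  have hS : SgD T (frontier (KT T J X c)) :=
    sgd (κ := Unit) (Kc := fun _ => KT T J X c) (by simp) (fun _ => coreH_tiny Hc) ()
  obtain ⟨L, h1, h2, h3, h4, h5, h6⟩ := exists_levs hS (id : Bm → Bm) lvl (hD.fin c).toFinset
    (fun a x => uM Φ hLa am Zm θ c a x)
    (fun a F hF => fs_aff Hc (Nb Φ hLa c.1) (am a) (Zm a) F hF)
    (fun i _ j _ h _ => h) hAB hQ
  have hmem : ∀ a j, j ∈ (L a).J0 ↔ j = a ∧ co a = c := by
    intro a j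
    rw [h2 a j, Set.Finite.mem_toFinset]
    constructor
    · rintro ⟨g1, rfl⟩
      exact ⟨rfl, g1⟩
    · rintro ⟨rfl, g1⟩
      exact ⟨g1, rfl⟩
  refine ⟨L, h1, hmem, h3, h4, h5, h6, ?_⟩
  intro a j hj
  obtain ⟨rfl, g1⟩ := (hmem a j).1 hj
  obtain ⟨g4, g5⟩ := h3 j j hj
  have hM := hD.mo j
  rw [g1] at hM
  obtain ⟨g6, g7⟩ := hFs c.1 _ _ _ _ hM ((L j).lv j) (by linarith) (by linarith)
  rw [h1 j]
  exact fs_level Hc ⟨g6, compact_fs hLa _ _ _ _, g7⟩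

end all

end Crest.Agent.R096.Dib_438
end

-- ▼ part R096/Bar3_543
section

/-! # Row 96, DOORS, barriers (helper543 for 106 #11427), Bar 3: `{Fs ≤ t}`, `{Fs ≥ t}`, `{Fs = t}`,
`{Gm ≤ t}`, `{Gm ≥ t}`, `{Gm = t}` on the boundary of a cell are connected -/

set_option autoImplicit false
set_option linter.unusedSectionVars false

open Set Filter Topology

namespace Crest.Agent.R096.Bar_543

open Crest.Agent.R096.Coh_184 Crest.Agent.R096.Brk1_582 Crest.Agent.R096.Brk2_582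
  Crest.Agent.R096.Etg_163 Crest.Agent.R096.Vb_965 Crest.Agent.R096.Exc_965

section defs

variable {I : Type*}

/-- sum of the distances (affine on the 2-cells) -/
noncomputable def Fs (N : Finset I) (a : I) (Z : Set I) (u : I → ℝ) : ℝ := ∑ e ∈ N, dv a Z u e

/-- maximum of the distances -/
noncomputable def Fm (a : I) (Z : Set I) (u : I → ℝ) : ℝ := ⨆ e, dv a Z u e

/-- the truthful barrier function -/
noncomputable def Gm (l0 m ra : ℝ) (a : I) (Z : Set I) (u : I → ℝ) : ℝ :=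
  max (Fm a Z u / l0) (|u a - m| / ra)

theorem Fs_scl {N : Finset I} {a : I} {Z : Set I} {τ : ℝ} {u : I → ℝ} :
    Fs N a Z (scl a Z τ u) = τ * Fs N a Z u := by
  unfold Fs
  rw [Finset.mul_sum]
  exact Finset.sum_congr rfl fun e _ => dv_scl e

theorem Fs_axu {N : Finset I} {a : I} {Z : Set I} {s : ℝ} : Fs N a Z (axu a Z s) = 0 :=
  Finset.sum_eq_zero fun e _ => dv_axu e

theorem dv_le_Fs {N : Finset I} {a : I} {Z : Set I} {u : I → ℝ} (hu : ∀ c, 0 ≤ u c ∧ u c ≤ 1)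
    {e : I} (he : e ∈ N) : dv a Z u e ≤ Fs N a Z u :=
  Finset.single_le_sum (f := fun e => dv a Z u e) (fun i _ => (dv_mem hu i).1) he

theorem bdd_dv {a : I} {Z : Set I} {u : I → ℝ} (hu : ∀ c, 0 ≤ u c ∧ u c ≤ 1) :
    BddAbove (range fun e => dv a Z u e) := by
  refine ⟨1, ?_⟩
  rintro _ ⟨e, rfl⟩
  exact (dv_mem hu e).2

theorem dv_le_Fm {a : I} {Z : Set I} {u : I → ℝ} (hu : ∀ c, 0 ≤ u c ∧ u c ≤ 1) (e : I) :
    dv a Z u e ≤ Fm a Z u := le_ciSup (bdd_dv hu) e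

theorem Fm_le {a : I} {Z : Set I} {u : I → ℝ} {t : ℝ} (h : ∀ e, dv a Z u e ≤ t) :
    Fm a Z u ≤ t := by
  have _ : Nonempty I := ⟨a⟩
  exact ciSup_le h


theorem exists_Fm {a : I} {Z : Set I} {u : I → ℝ} (hu : ∀ c, 0 ≤ u c ∧ u c ≤ 1)
    (hf : {e | dv a Z u e ≠ 0}.Finite) : ∃ e, dv a Z u e = Fm a Z u := by
  classical
  obtain ⟨e, he, hmax⟩ := (insert a hf.toFinset).exists_max_image (fun e => dv a Z u e)
    ⟨a, Finset.mem_insert_self _ _⟩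
  refine ⟨e, le_antisymm (dv_le_Fm hu e) (Fm_le fun e' => ?_)⟩
  by_cases h : dv a Z u e' = 0
  · rw [h]; exact (dv_mem hu e).1
  · exact hmax e' (Finset.mem_insert_of_mem (hf.mem_toFinset.2 h))



end defs

section foam

variable {E : Type*} [NormedAddCommGroup E] [NormedSpace ℝ E] [CompleteSpace E] {I : Type*}
variable {La : Set E} {P : I → Set E} {b : Set I → E} {N : ℕ}

variable (F : Foam La P b N) {c a : I} {Z : Set I}
variable (hcZ : c ∈ Z) (haZ : a ∉ Z) (hne : (fc P (insert a Z)).Nonempty)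
  (hZ2 : ∃ d ∈ Z, d ≠ c)
include F hcZ haZ hne hZ2

omit hcZ haZ hZ2 in
theorem fin_dv {q : E} (hq : q ∈ La) : {e | dv a Z (sc P b q) e ≠ 0}.Finite := by
  have hZf : (insert a Z).Finite := F.finite_of_fc ⟨a, Or.inl rfl⟩ hne
  refine (hZf.union (F.sc_lt_one_finite hq)).subset fun e he => ?_
  by_contra hcon
  have h1 : e ≠ a := fun h => hcon (Or.inl (Or.inl h))
  have h2 : e ∉ Z := fun h => hcon (Or.inl (Or.inr h))
  have h3 : ¬ sc P b q e < 1 := fun h => hcon (Or.inr h)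
  have h4 : sc P b q e = 1 := le_antisymm (F.sc_le_one hq e) (not_lt.1 h3)
  apply he
  rw [dv_o h1 h2, h4]; ring

omit haZ hne hZ2 in
theorem touch_of_zero {q : E} (hq : q ∈ bdc P c) {e : I} (h : sc P b q e < 1) :
    (P e ∩ P c).Nonempty := by
  have hqL := F.sub c hq.1
  obtain ⟨y, hy⟩ := F.sc_lt_one_fc hqL
  refine ⟨y, mem_fc.1 hy e h, mem_fc.1 hy c ?_⟩
  show sc P b q c < 1
  rw [(F.sc_eq_zero hqL).2 hq.1]; exact one_pos

/-- **`{Fs ≤ t}`** -/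
theorem fs_le {Nf : Finset I} (hN : ∀ e, (P e ∩ P c).Nonempty → e ∈ Nf) {t : ℝ} (h0 : 0 ≤ t)
    (h1 : t < 1) : IsPreconnected {q | q ∈ bdc P c ∧ Fs Nf a Z (sc P b q) ≤ t} ∧
      {q | q ∈ bdc P c ∧ Fs Nf a Z (sc P b q) ≤ t}.Nonempty := by
  have hlt : ∀ q ∈ {q | q ∈ bdc P c ∧ Fs Nf a Z (sc P b q) ≤ t},
      q ∈ bdc P c ∧ ∀ e, dv a Z (sc P b q) e < 1 := by
    rintro q ⟨hq, hqt⟩
    have hqL := F.sub c hq.1
    have hu := (F.sc_mem_K hqL).1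
    refine ⟨hq, fun e => ?_⟩
    by_cases he : (P e ∩ P c).Nonempty
    · exact ((dv_le_Fs hu (hN e he)).trans hqt).trans_lt h1
    · have h2 : ¬ sc P b q e < 1 := fun h => he (touch_of_zero F hcZ hq h)
      have h3 : sc P b q e = 1 := le_antisymm (hu e).2 (not_lt.1 h2)
      by_cases hea : e = a
      · rw [hea, dv_a]; exact one_pos
      · by_cases heZ : e ∈ Z
        · exfalso
          apply he
          obtain ⟨y, hy⟩ := hne
          exact ⟨y, mem_fc.1 hy e (Or.inr heZ), mem_fc.1 hy c (Or.inr hcZ)⟩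
        · rw [dv_o hea heZ, h3]; norm_num
  refine preconn_star F hcZ haZ hne hZ2 hlt ?_ (J := Icc 0 1) isPreconnected_Icc
    ⟨0, left_mem_Icc.2 zero_le_one⟩ Subset.rfl ?_ ?_
  · rintro q hq τ hτ
    obtain ⟨hqb, hq1⟩ := hlt q hq
    have hqL := F.sub c hqb.1
    have hu := (F.sc_mem_K hqL).1
    obtain ⟨-, g1, g2⟩ := scl_mem F hcZ haZ hZ2 hqb hτ.1 (fun e => by
      have h3 := dv_mem (a := a) (Z := Z) hu e
      nlinarith [hτ.1, hτ.2, h3.1, h3.2]) (fun e he h => by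
      have hea : e ≠ a := fun h' => haZ (h' ▸ he)
      have := hq1 e
      rwa [dv_Z hea he] at this) (exists_zero F hcZ haZ hqb hq1)
    refine ⟨g1, ?_⟩
    rw [g2, Fs_scl]
    have h3 : 0 ≤ Fs Nf a Z (sc P b q) := Finset.sum_nonneg fun e _ => (dv_mem hu e).1
    nlinarith [hτ.1, hτ.2, hq.2]
  · intro s hs
    obtain ⟨-, g1, g2⟩ := ax_mem F hcZ haZ hne hZ2 hs
    exact ⟨g1, by rw [g2, Fs_axu]; exact h0⟩
  · rintro q ⟨hq, -⟩
    exact (F.sc_mem_K (F.sub c hq.1)).1 a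


omit hcZ haZ hne hZ2 in
/-- barycentres of two cells -/
theorem bar_mem {e : I} (hec : e ≠ c) (h : (P e ∩ P c).Nonempty) :
    b {c, e} ∈ bdc P c ∧ b {c, e} ∈ P e ∧ ∀ d, d ≠ c → d ≠ e → sc P b (b {c, e}) d = 1 := by
  classical
  have hfc : (fc P {c, e}).Nonempty := by
    obtain ⟨y, h1, h2⟩ := h
    refine ⟨y, ?_⟩
    rw [mem_fc]
    rintro d (rfl | hd)
    · exact h2
    · rw [mem_singleton_iff.1 hd]; exact h1
  have hA : ({c, e} : Set I).Nonempty := ⟨c, Or.inl rfl⟩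
  have hact := F.act_b hA hfc
  have h1 : b {c, e} ∈ P c := by
    have : c ∈ act P (b {c, e}) := by rw [hact]; exact Or.inl rfl
    exact this
  have h2 : b {c, e} ∈ P e := by
    have : e ∈ act P (b {c, e}) := by rw [hact]; exact Or.inr rfl
    exact this
  refine ⟨⟨h1, e, hec, h2⟩, h2, fun d hd hde => ?_⟩
  rw [F.sc_b hA hfc]
  rw [if_neg]
  rintro (h3 | h3)
  · exact hd h3
  · exact hde h3

variable (hD : ∀ e, e ≠ c → (P e ∩ P c).Nonempty → ∀ t, 0 < t → t < 1 →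
  IsPreconnected (Dge P b c e t))
include hD

/-- **`{Fs ≥ t}`** -/
theorem fs_ge {Nf : Finset I} (hN : ∀ e, (P e ∩ P c).Nonempty → e ∈ Nf) {t : ℝ} (h0 : 0 < t)
    (h1 : t < 1) : IsPreconnected {q | q ∈ bdc P c ∧ t ≤ Fs Nf a Z (sc P b q)} ∧
      {q | q ∈ bdc P c ∧ t ≤ Fs Nf a Z (sc P b q)}.Nonempty := by
  classical
  have htouch : ∀ e ∈ insert a Z, (P e ∩ P c).Nonempty := by
    intro e he
    obtain ⟨y, hy⟩ := hne
    exact ⟨y, mem_fc.1 hy e he, mem_fc.1 hy c (Or.inr hcZ)⟩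
  have hac : a ≠ c := fun h => haZ (h ▸ hcZ)
  obtain ⟨d0, hd0, hd0c⟩ := id hZ2
  obtain ⟨hx1, hx2, hx3⟩ := bar_mem F hac (htouch a (Or.inl rfl))
  set W : Set E := {q | q ∈ bdc P c ∧ ((∃ e ∈ Z, e ≠ c ∧ t ≤ sc P b q e) ∨
    ∃ e, e ∉ insert a Z ∧ q ∈ P e)} with hW
  have hDsub : ∀ e ∈ Z, e ≠ c → Dge P b c e t ⊆ W := fun e he hec q hq =>
    ⟨⟨hq.1, hq.2.1⟩, Or.inl ⟨e, he, hec, hq.2.2⟩⟩
  have hxD : ∀ e ∈ Z, e ≠ c → b {c, a} ∈ Dge P b c e t := fun e he hec =>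
    ⟨hx1.1, hx1.2, by
      rw [hx3 e hec (fun h => haZ (h ▸ he))]; exact h1.le⟩
  have hWc : IsPreconnected W := by
    refine isPreconnected_of_forall (b {c, a}) fun q hq => ?_
    obtain ⟨hqb, ⟨e, he, hec, hqe⟩ | ⟨e, he, hqe⟩⟩ := hq
    · exact ⟨Dge P b c e t, hDsub e he hec, hxD e he hec, ⟨hqb.1, hqb.2, hqe⟩,
        hD e hec (htouch e (Or.inr he)) t h0 h1⟩
    · have hec : e ≠ c := fun h => he (Or.inr (h ▸ hcZ))
      have hted : (P e ∩ P c).Nonempty := ⟨q, hqe, hqb.1⟩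
      obtain ⟨g1, g2, g3⟩ := bar_mem F hec hted
      have hd0e : d0 ≠ e := fun h => he (Or.inr (h ▸ hd0))
      refine ⟨(P e ∩ P c) ∪ Dge P b c d0 t, ?_, Or.inr (hxD d0 hd0 hd0c), Or.inl ⟨hqe, hqb.1⟩, ?_⟩
      · rintro y (hy | hy)
        · exact ⟨⟨hy.2, e, hec, hy.1⟩, Or.inr ⟨e, he, hy.1⟩⟩
        · exact hDsub d0 hd0 hd0c hy
      · refine IsPreconnected.union (b {c, e}) ⟨g2, g1.1⟩ ⟨g1.1, g1.2, ?_⟩
          ((F.cvx e).inter (F.cvx c)).isPreconnected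
          (hD d0 hd0c (htouch d0 (Or.inr hd0)) t h0 h1)
        rw [g3 d0 hd0c hd0e]; exact h1.le
  have hWS : W ⊆ {q | q ∈ bdc P c ∧ t ≤ Fs Nf a Z (sc P b q)} := by
    rintro q ⟨hqb, h⟩
    have hqL := F.sub c hqb.1
    have hu := (F.sc_mem_K hqL).1
    refine ⟨hqb, ?_⟩
    rcases h with ⟨e, he, hec, hqe⟩ | ⟨e, he, hqe⟩
    · have hea : e ≠ a := fun h' => haZ (h' ▸ he)
      have h3 := dv_le_Fs (a := a) (Z := Z) hu (hN e (htouch e (Or.inr he)))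
      rw [dv_Z hea he] at h3
      exact hqe.trans h3
    · have hea : e ≠ a := fun h => he (Or.inl h)
      have heZ : e ∉ Z := fun h => he (Or.inr h)
      have h3 := dv_le_Fs (a := a) (Z := Z) hu (hN e ⟨q, hqe, hqb.1⟩)
      rw [dv_o hea heZ, (F.sc_eq_zero hqL).2 hqe] at h3
      linarith
  have hWn : W.Nonempty := ⟨_, hDsub d0 hd0 hd0c (hxD d0 hd0 hd0c)⟩
  refine ⟨preconn_of_core hWc hWS hWn fun q hq => ?_, hWn.mono hWS⟩
  by_cases hqW : q ∈ W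
  · exact ⟨{q}, by rintro y rfl; exact hq, rfl, ⟨q, rfl, hqW⟩, isPreconnected_singleton⟩
  · obtain ⟨hqb, hqt⟩ := hq
    have hqL := F.sub c hqb.1
    have hu := (F.sc_mem_K hqL).1
    have hq1 : ∀ e, dv a Z (sc P b q) e < 1 := by
      intro e
      by_cases hea : e = a
      · rw [hea, dv_a]; exact one_pos
      by_cases heZ : e ∈ Z
      · rw [dv_Z hea heZ]
        by_cases hec : e = c
        · rw [hec, (F.sc_eq_zero hqL).2 hqb.1]; exact one_pos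
        · by_contra hcon
          exact hqW ⟨hqb, Or.inl ⟨e, heZ, hec, by linarith⟩⟩
      · rw [dv_o hea heZ]
        have h3 : 0 < sc P b q e := by
          refine lt_of_le_of_ne (hu e).1 fun h => ?_
          exact hqW ⟨hqb, Or.inr ⟨e, by
            rintro (h' | h')
            · exact hea h'
            · exact heZ h', (F.sc_eq_zero hqL).1 h.symm⟩⟩
        linarith
    obtain ⟨e0, he0⟩ := exists_Fm (a := a) (Z := Z) hu (fin_dv F hne hqL)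
    have hle : ∀ e, dv a Z (sc P b q) e ≤ dv a Z (sc P b q) e0 := fun e => by
      rw [he0]; exact dv_le_Fm hu e
    set M := dv a Z (sc P b q) e0 with hM
    have hM0 : 0 < M := by
      by_contra hcon
      have h3 : ∀ e, dv a Z (sc P b q) e = 0 := fun e =>
        le_antisymm ((hle e).trans (not_lt.1 hcon)) (dv_mem hu e).1
      have h4 : Fs Nf a Z (sc P b q) = 0 := Finset.sum_eq_zero fun e _ => h3 e
      rw [h4] at hqt
      linarith
    have hM1 : M < 1 := hq1 e0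
    have h1M : 1 ≤ 1 / M := by rw [le_div_iff₀ hM0]; linarith
    have hz := exists_zero F hcZ haZ hqb hq1
    have hmem : ∀ τ ∈ Icc (1 : ℝ) (1 / M), scl a Z τ (sc P b q) ∈ K P ∧
        T b (scl a Z τ (sc P b q)) ∈ bdc P c ∧
        sc P b (T b (scl a Z τ (sc P b q))) = scl a Z τ (sc P b q) := by
      intro τ hτ
      refine scl_mem F hcZ haZ hZ2 hqb (zero_le_one.trans hτ.1) (fun e => ?_) (fun e he h => ?_) hz
      · have h3 : τ * M ≤ 1 := by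
          have := hτ.2
          rwa [le_div_iff₀ hM0] at this
        have h4 := hle e
        nlinarith [hτ.1]
      · have h3 := (hu e).1
        nlinarith [hτ.1]
    refine ⟨(fun τ => T b (scl a Z τ (sc P b q))) '' Icc 1 (1 / M), ?_, ?_, ?_, ?_⟩
    · rintro _ ⟨τ, hτ, rfl⟩
      obtain ⟨-, g1, g2⟩ := hmem τ hτ
      refine ⟨g1, ?_⟩
      show t ≤ Fs Nf a Z (sc P b (T b (scl a Z τ (sc P b q))))
      rw [g2, Fs_scl]
      nlinarith [hτ.1]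
    · refine ⟨1, left_mem_Icc.2 h1M, ?_⟩
      show T b (scl a Z 1 (sc P b q)) = q
      rw [scl_one, F.T_sc hqL]
    · have hr : (1 / M : ℝ) ∈ Icc (1 : ℝ) (1 / M) := right_mem_Icc.2 h1M
      obtain ⟨-, g1, g2⟩ := hmem _ hr
      refine ⟨_, ⟨1 / M, hr, rfl⟩, g1, ?_⟩
      show (∃ e ∈ Z, e ≠ c ∧ t ≤ sc P b (T b (scl a Z (1 / M) (sc P b q))) e) ∨
        ∃ e, e ∉ insert a Z ∧ T b (scl a Z (1 / M) (sc P b q)) ∈ P e
      have h5 : dv a Z (scl a Z (1 / M) (sc P b q)) e0 = 1 := by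
        rw [dv_scl, ← hM, one_div_mul_cancel hM0.ne']
      have hea : e0 ≠ a := by
        rintro rfl
        rw [dv_a] at hM
        linarith
      by_cases heZ : e0 ∈ Z
      · left
        rw [dv_Z hea heZ] at h5
        refine ⟨e0, heZ, ?_, ?_⟩
        · rintro rfl
          rw [dv_Z hea heZ, (F.sc_eq_zero hqL).2 hqb.1] at hM
          linarith
        · rw [g2, h5]; exact h1.le
      · right
        rw [dv_o hea heZ] at h5
        refine ⟨e0, ?_, ?_⟩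
        · rintro (h' | h')
          · exact hea h'
          · exact heZ h'
        · rw [← F.sc_eq_zero (F.sub c g1.1), g2]
          linarith
    · exact isPreconnected_Icc.image _ ((continuousOn_T F).comp
        continuous_scl.continuousOn fun τ hτ => (hmem τ hτ).1)


end foam

end Crest.Agent.R096.Bar_543
end

-- ▼ part R096/Bar4_543

/-! # Row 96, DOORS, barriers (helper543 for 106 #11427, 438's `fs_level`), Bar 4: the sets
`{Fs ≤ t}`, `{t ≤ Fs}`, `{Fs = t}` on the boundary of a brick -/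

set_option autoImplicit false
set_option linter.unusedSectionVars false

open Set Filter Topology

namespace Crest.Agent.R096.Bar_543

open Crest.Agent.R096.Coh_184 Crest.Agent.R096.Brk1_582 Crest.Agent.R096.Brk2_582
  Crest.Agent.R096.Etg_163 Crest.Agent.R096.Vb_965 Crest.Agent.R096.Exc_965
  Crest.Agent.R096.Bsp_628 Crest.Agent.R096.Brk3_582 Crest.Agent.R096.Brk5_582
open Crest.Agent.R096.Mbf_337 (sb)
open Crest.Agent.R096.SkC1_961 (E3 FoamD)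
open Crest.Agent.R096.Bar_106 (Mo)

section foam

variable {E : Type*} [NormedAddCommGroup E] [NormedSpace ℝ E] [CompleteSpace E]
  [FiniteDimensional ℝ E] {I : Type*}
variable {La : Set E} {P : I → Set E} {b : Set I → E} {N : ℕ}
variable (F : Foam La P b N) {c a : I} {Z : Set I}
include F

/-- the function `Fs` is continuous on `La` -/
theorem continuousOn_fs (Nf : Finset I) (a : I) (Z : Set I) :
    ContinuousOn (fun q => Bar_106.Fs Nf a Z (sc P b q)) La := by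
  classical
  unfold Bar_106.Fs
  refine continuousOn_finset_sum _ fun e _ => ?_
  have h1 : ContinuousOn (fun q => sc P b q e) La := continuousOn_sc_apply F e
  show ContinuousOn (fun q => Bar_106.dv a Z (sc P b q) e) La
  unfold Bar_106.dv
  split_ifs
  · exact continuousOn_const
  · exact h1
  · exact continuousOn_const.sub h1

/-- the boundary of a cell is unicoherent -/
theorem trivF_bdc (h3 : Module.finrank ℝ E = 3) (hc : (P c).Nonempty) :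
    TrivF (ZMod 2) (bdc P c) := by
  have h1 := trivF_Lset (A := ZMod 2) F h3 hc le_rfl one_pos
  rwa [Lset_zero F] at h1

/-- **`{Fs = t}`** -/
theorem fs_eq (h3 : Module.finrank ℝ E = 3) (hcZ : c ∈ Z) (haZ : a ∉ Z)
    (hne : (fc P (insert a Z)).Nonempty) (hZ2 : ∃ d ∈ Z, d ≠ c)
    (hD : ∀ e, e ≠ c → (P e ∩ P c).Nonempty → ∀ t, 0 < t → t < 1 →
      IsPreconnected (Dge P b c e t))
    {Nf : Finset I} (hN : ∀ e, (P e ∩ P c).Nonempty → e ∈ Nf) {t : ℝ} (h0 : 0 < t)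
    (h1 : t < 1) : IsPreconnected {q | q ∈ bdc P c ∧ Bar_106.Fs Nf a Z (sc P b q) = t} ∧
      IsCompact {q | q ∈ bdc P c ∧ Bar_106.Fs Nf a Z (sc P b q) = t} ∧
      {q | q ∈ bdc P c ∧ Bar_106.Fs Nf a Z (sc P b q) = t}.Nonempty := by
  have hcn : (P c).Nonempty := by
    obtain ⟨y, hy⟩ := hne
    exact ⟨y, mem_fc.1 hy c (Or.inr hcZ)⟩
  have hcont : ContinuousOn (fun q => Bar_106.Fs Nf a Z (sc P b q)) (bdc P c) :=
    (continuousOn_fs F Nf a Z).mono fun q hq => F.sub c hq.1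
  have hcpt : IsCompact (bdc P c) := isCompact_bdc F
  have hcl := hcpt.isClosed
  have hle : IsClosed {q | q ∈ bdc P c ∧ Bar_106.Fs Nf a Z (sc P b q) ≤ t} :=
    hcont.preimage_isClosed_of_isClosed hcl (isClosed_Iic (a := t))
  have hge : IsClosed {q | q ∈ bdc P c ∧ t ≤ Bar_106.Fs Nf a Z (sc P b q)} :=
    hcont.preimage_isClosed_of_isClosed hcl (isClosed_Ici (a := t))
  have heq : {q | q ∈ bdc P c ∧ Bar_106.Fs Nf a Z (sc P b q) = t} =
      {q | q ∈ bdc P c ∧ Bar_106.Fs Nf a Z (sc P b q) ≤ t} ∩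
        {q | q ∈ bdc P c ∧ t ≤ Bar_106.Fs Nf a Z (sc P b q)} := by
    ext q
    constructor
    · rintro ⟨g1, g2⟩
      exact ⟨⟨g1, g2.le⟩, ⟨g1, g2.ge⟩⟩
    · rintro ⟨⟨g1, g2⟩, ⟨-, g3⟩⟩
      exact ⟨g1, le_antisymm g2 g3⟩
  have hun : {q | q ∈ bdc P c ∧ Bar_106.Fs Nf a Z (sc P b q) ≤ t} ∪
      {q | q ∈ bdc P c ∧ t ≤ Bar_106.Fs Nf a Z (sc P b q)} = bdc P c := by
    ext q
    constructor
    · rintro (h | h)
      · exact h.1
      · exact h.1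
    · intro h
      rcases le_total (Bar_106.Fs Nf a Z (sc P b q)) t with h2 | h2
      · exact Or.inl ⟨h, h2⟩
      · exact Or.inr ⟨h, h2⟩
  have c1 : IsPreconnected {q | q ∈ bdc P c ∧ Bar_106.Fs Nf a Z (sc P b q) ≤ t} ∧
      {q | q ∈ bdc P c ∧ Bar_106.Fs Nf a Z (sc P b q) ≤ t}.Nonempty :=
    fs_le F hcZ haZ hne hZ2 hN h0.le h1
  have c2 : IsPreconnected {q | q ∈ bdc P c ∧ t ≤ Bar_106.Fs Nf a Z (sc P b q)} ∧
      {q | q ∈ bdc P c ∧ t ≤ Bar_106.Fs Nf a Z (sc P b q)}.Nonempty :=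
    fs_ge F hcZ haZ hne hZ2 hD hN h0 h1
  refine ⟨?_, ?_, ?_⟩
  · rw [heq]
    exact unicoh hle hge (by rw [hun]; exact trivF_bdc F h3 hcn) c1.1 c2.1
  · rw [heq]
    exact (hcpt.of_isClosed_subset hle fun q hq => hq.1).inter_right hge
  · have hpc : IsPreconnected (bdc P c) := by
      have := isPreconnected_Lset F h3 hcn le_rfl one_pos
      rwa [Lset_zero F] at this
    obtain ⟨x, hx⟩ := c1.2
    obtain ⟨y, hy⟩ := c2.2
    obtain ⟨z, hz, hzt⟩ := hpc.intermediate_value hx.1 hy.1 hcont ⟨hx.2, hy.2⟩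
    exact ⟨z, hz, hzt⟩

end foam

section literal

variable {δ κ0 R c0 : ℝ} {La : Set E3} {Φ : FoamD δ κ0 R c0 La} {c a p m : Φ.F}
  {Z : Set Φ.F} {N : Finset Φ.F} {t : ℝ}

/-- the data of a moat -/
theorem mo_data (M : Mo (Pc Φ.F) c a Z p m) :
    (fc (Pc Φ.F) (insert a Z)).Nonempty ∧ ∃ d ∈ Z, d ≠ c := by
  refine ⟨M.fcp.mono (fc_anti ?_), ?_⟩
  · rintro e (h | h)
    · exact Or.inr (Or.inl h)
    · exact Or.inl h
  · obtain ⟨d, hd, hdc, -⟩ := M.wp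
    exact ⟨d, hd, hdc⟩

/-- **`{Fs = t}` on the frontier of a brick** (438's `fs_level`) -/
theorem fs_eq_c (hLa : IsOpen La) (M : Mo (Pc Φ.F) c a Z p m)
    (hN : ∀ e, (Pc Φ.F c ∩ Pc Φ.F e).Nonempty → e ∈ N) (h0 : 0 < t) (h1 : t < 1) :
    IsPreconnected {q | q ∈ frontier c.1.set ∧ Bar_106.Fs N a Z (sb Φ q) = t} ∧
      IsCompact {q | q ∈ frontier c.1.set ∧ Bar_106.Fs N a Z (sb Φ q) = t} ∧
      {q | q ∈ frontier c.1.set ∧ Bar_106.Fs N a Z (sb Φ q) = t}.Nonempty := by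
  obtain ⟨hne, hZ2⟩ := mo_data M
  rw [Exa_560.frontier_c Φ hLa c]
  exact fs_eq (foam Φ.bf hLa) (by simp [E3]) M.cZ M.aZ hne hZ2
    (fun e hec het t h0 h1 => (preconn_Dge Φ.bf hLa hec het h0 h1).1)
    (fun e he => hN e (by rwa [inter_comm])) h0 h1


/-- **`{t ≤ Fs}`** -/
theorem fs_ge_c (hLa : IsOpen La) (M : Mo (Pc Φ.F) c a Z p m)
    (hN : ∀ e, (Pc Φ.F c ∩ Pc Φ.F e).Nonempty → e ∈ N) (h0 : 0 < t) (h1 : t < 1) :
    IsPreconnected {q | q ∈ frontier c.1.set ∧ t ≤ Bar_106.Fs N a Z (sb Φ q)} ∧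
      {q | q ∈ frontier c.1.set ∧ t ≤ Bar_106.Fs N a Z (sb Φ q)}.Nonempty := by
  obtain ⟨hne, hZ2⟩ := mo_data M
  rw [Exa_560.frontier_c Φ hLa c]
  exact fs_ge (foam Φ.bf hLa) M.cZ M.aZ hne hZ2
    (fun e hec het t h0 h1 => (preconn_Dge Φ.bf hLa hec het h0 h1).1)
    (fun e he => hN e (by rwa [inter_comm])) h0 h1

end literal

end Crest.Agent.R096.Bar_543
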