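import Crest.Agent.R096.Ou2_609

/-!
# R096 (row 96), helper609: ENERGY OF A CORE = the clause `core` of `Out`

`core_clause` : for the core `K = th⁻¹' P_c`, `G = st C κ (R (th x))` with `R` radial (628),
`st C κ ∘ R` Lipschitz (714), `R` locally `e1`-close to the identity off a set `W` of relative volume
`e1`, and `g` locally `τ`-close to `G` (EXPLODE): both halves of the clause `core` of `Out`.
-/

set_option autoImplicit false
set_option linter.unusedSectionVars false
set_option linter.unusedVariables false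

open Set Metric Topology Module Filter MeasureTheory
open scoped Classical NNReal ENNReal

namespace Crest.Agent.R096.Cog_609

open Crest.Agent.R096.Xp_537 Crest.Agent.R096.SkC1_961 Crest.Agent.R096.Ou_609

/-- an affine equivalence multiplies the volume by a constant -/
lemma vol_preimage {E : Type*} [NormedAddCommGroup E] [NormedSpace ℝ E] [FiniteDimensional ℝ E]
    [MeasurableSpace E] [BorelSpace E] (μ : Measure E) [μ.IsAddHaarMeasure] (B : E ≃ᵃ[ℝ] E) :
    ∃ d : ℝ≥0∞, d ≠ ⊤ ∧ ∀ S : Set E, μ (B ⁻¹' S) = d * μ S := by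
  refine ⟨ENNReal.ofReal |(LinearMap.det (B.linear : E →ₗ[ℝ] E))⁻¹|, ENNReal.ofReal_ne_top,
    fun S => ?_⟩
  have hdet : LinearMap.det (B.linear : E →ₗ[ℝ] E) ≠ 0 := (LinearEquiv.isUnit_det' B.linear).ne_zero
  have h1 : B ⁻¹' S = (B.linear : E →ₗ[ℝ] E) ⁻¹' ((fun v => v + B 0) ⁻¹' S) := by
    ext x
    have h2 : B x = B.linear x + B 0 := by
      have h3 := B.toAffineMap.linearMap_vsub x 0
      simp only [vsub_eq_sub, sub_zero] at h3
      have h4 : B.linear x = B x - B 0 := h3
      rw [h4]; abel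
    simp only [mem_preimage, LinearEquiv.coe_coe]
    rw [h2]
  rw [h1, Measure.addHaar_preimage_linearMap μ hdet, measure_preimage_add_right]

lemma th_sub (A : E3 ≃ᵃ[ℝ] E3) (lam : ℝ) (z x y : E3) :
    th A lam z y - th A lam z x = (1 / lam) • (A y - A x) := by
  funext k
  simp only [th, Pi.sub_apply, Pi.smul_apply, smul_eq_mul]
  ring

lemma norm_th_sub (A : E3 ≃ᵃ[ℝ] E3) {lam : ℝ} (hlam : 0 < lam) (z x y : E3) :
    ‖th A lam z y - th A lam z x‖ = 1 / lam * ‖A y - A x‖ := by
  rw [th_sub, norm_smul, Real.norm_of_nonneg (by positivity)]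

/-- the exact map is an affine equivalence -/
lemma exists_thE (A : E3 ≃ᵃ[ℝ] E3) {lam : ℝ} (hlam : 0 < lam) (z : E3) :
    ∃ B : E3 ≃ᵃ[ℝ] E3, ∀ x, B x = th A lam z x := by
  refine ⟨(A.trans (AffineEquiv.constVAdd ℝ E3 (-z))).trans
    (LinearEquiv.smulOfNeZero ℝ E3 (1 / lam) (by positivity)).toAffineEquiv, fun x => ?_⟩
  funext k
  simp only [AffineEquiv.trans_apply, AffineEquiv.constVAdd_apply, vadd_eq_add, th,
    LinearEquiv.coe_toAffineEquiv, LinearEquiv.smulOfNeZero_apply, Pi.smul_apply, Pi.add_apply,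
    Pi.neg_apply, smul_eq_mul]
  ring

section Clause

variable {Q : Type*} [PartialOrder Q] {La : Set E3}


/-- the tile of an exact core is the preimage of the brick under the exact map -/
lemma tile_th {c : Bsp_628.Bx (Fin 3)} {A : E3 ≃ᵃ[ℝ] E3} {lam : ℝ} (hlam : 0 < lam) {z : E3} :
    A ⁻¹' {y | ∀ k, z k + lam * c.lo k ≤ y k ∧ y k ≤ z k + lam * c.hi k} =
      th A lam z ⁻¹' c.set := by
  ext x
  simp only [mem_preimage, mem_ofPred_eq, Bsp_628.Bx.mem_set, th]
  refine forall_congr' fun k => ?_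
  rw [le_div_iff₀ hlam, div_le_iff₀ hlam]
  constructor <;> rintro ⟨h1, h2⟩ <;> constructor <;> linarith


end Clause

end Crest.Agent.R096.Cog_609
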