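import Crest.Agent.R096.Gia3_537
import Crest.Agent.R096.Bin9_181
import Crest.Agent.R096.Ecm4_446
import Crest.Agent.R096.Cog1_609

/-!
# R096 (row 96), GIANTS-INST, part 4 (helper537): the boundary map of a type R core

* `bdP_grid` : `Gia_537.bdP (grid ..) a = Bin_181.bdP P b m a`;
* `thP` : the exact map `th` as `PLEquiv (core tile) (P c)`, `thB` : on the boundaries;
* `eR` : `e = rcR ∘ th : PLEquiv (K_c ∩ X0) (bdP C c)` (181's real nodes) = the input `e` of
  `coreTh_R`;
* `ThR` : `R ∘ th` for a PL homeomorphism `R` of the brick which is `rcR` on the boundary.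
-/

set_option autoImplicit false
set_option linter.unusedSectionVars false
set_option linter.unusedVariables false
set_option linter.deprecated false
set_option linter.style.longLine false

open Set Filter Topology Metric Module

namespace Crest.Agent.R096.Gia_537

open Crest.Agent.R096.Ce_537 (PLOn PLEquiv cube sph IsBall Cplx)
open Crest.Agent.R096.Bd_416 Crest.Agent.R096.Mg_441
open Crest.Agent.R096.Brk1_582 Crest.Agent.R096.Brk2_582 Crest.Agent.R096.Brk3_582
open Crest.Agent.R096.Brk5_582 Crest.Agent.R096.Brk6_582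
open Crest.Agent.R096.Bsp_628
open Crest.Agent.R096.Grd_714
open Crest.Agent.R096.Xp_537
open Crest.Agent.R096.SkC1_961 (E3 Hom3 FoamD Cfg th NN)
open Crest.Agent.R096.Msh_715
open Crest.Agent.R96.Push_899
open Crest.Agent.R096.Mbf_337 (KJ)
open Crest.Agent.R096.Nr_527

section grid

variable {E : Type*} [NormedAddCommGroup E] [NormedSpace ℝ E] [CompleteSpace E] {I : Type*}
  {P : I → Set E} {b : Set I → E} {m : I → ℕ} {La : Set E}


end grid

section core

variable {δ κ0 R c0 : ℝ} {La Om : Set E3} {ι : Type} {Φ : FoamD δ κ0 R c0 La}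
  {T : Tiling Om ι} {f : E3 → E3} {κ1 κ2 : ℝ} {c : Φ.F} {i : ι} {A : E3 ≃ᵃ[ℝ] E3} {lam : ℝ} {z : E3}

open Crest.Agent.R096.Ecm_446 (th_mem th_inj th_surj)

/-- the inverse of the exact map -/
noncomputable def thi (A : E3 ≃ᵃ[ℝ] E3) (lam : ℝ) (z y : E3) : E3 :=
  A.symm (fun k => z k + lam * y k)

theorem th_thi (hl : 0 < lam) (y : E3) : th A lam z (thi A lam z y) = y := by
  funext k
  unfold th thi
  rw [AffineEquiv.apply_symm_apply, add_sub_cancel_left, mul_div_cancel_left₀ _ hl.ne']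

theorem thi_th (hl : 0 < lam) (x : E3) : thi A lam z (th A lam z x) = x := by
  unfold thi th
  have : (fun k => z k + lam * ((A x k - z k) / lam)) = A x := by
    funext k
    rw [mul_div_cancel₀ _ hl.ne']
    ring
  rw [this, AffineEquiv.symm_apply_apply]

/-- the exact map is an affine homeomorphism -/
theorem exists_B (A : E3 ≃ᵃ[ℝ] E3) (hl : 0 < lam) (z : E3) :
    ∃ B : E3 ≃ᵃ[ℝ] E3, (∀ x, B x = th A lam z x) ∧ ∀ y, B.symm y = thi A lam z y := by
  obtain ⟨B, hB⟩ := Cog_609.exists_thE A hl z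
  refine ⟨B, hB, fun y => ?_⟩
  rw [AffineEquiv.symm_apply_eq, hB, th_thi hl]

/-- **the exact map as PL homeomorphism of the core tile onto the brick** -/
noncomputable def thP (hE : Mbf_337.Exact Φ T f κ1 κ2 c i A lam z) :
    PLEquiv (P (T.H i)) (Pc Φ.F c) where
  f := th A lam z
  g := thi A lam z
  pf := by
    obtain ⟨B, h1, h2⟩ := exists_B A hE.lam0 z
    exact (Ce_537.plOn_affine (B : E3 →ᵃ[ℝ] E3) _).congr fun x _ => (h1 x).symm
  pg := by
    obtain ⟨B, h1, h2⟩ := exists_B A hE.lam0 z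
    exact (Ce_537.plOn_affine (B.symm : E3 →ᵃ[ℝ] E3) _).congr fun x _ => (h2 x).symm
  mf := fun x hx => (th_mem hE).1 hx
  mg := fun y hy => (th_mem hE).2 (by rw [th_thi hE.lam0]; exact hy)
  li := fun x _ => thi_th hE.lam0 x
  ri := fun y _ => th_thi hE.lam0 y

@[simp] theorem thP_f (hE : Mbf_337.Exact Φ T f κ1 κ2 c i A lam z) : (thP hE).f = th A lam z := rfl
@[simp] theorem thP_g (hE : Mbf_337.Exact Φ T f κ1 κ2 c i A lam z) : (thP hE).g = thi A lam z := rfl






variable {n : Φ.F → ℕ → ℝ} {m m' : Φ.F → ℕ} (hN : ∀ a, StrictMono (n a)) (hN0 : ∀ a, n a 0 = 0)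
  (hNm : ∀ a, n a (m' a) = m a) (hm' : ∀ c, 0 < m' c) (hm : ∀ c, 0 < m c)








end core

end Crest.Agent.R096.Gia_537
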