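import Crest.Agent.R096.Nr2_527
import Crest.Agent.R096.Mg4_441
import Crest.Agent.R096.Xq3_537
import Crest.Agent.R096.Ar9_241
import Crest.Agent.R096.Xq7_537
import Crest.Agent.R096.At1_241
import Crest.Agent.R096.Shp5_334

-- ▼ part R096/Nr3_527
section

/-!
# Row 96 (S0127), NEAR + PROPER, part 3 (helper527): the mesh cells

On a mesh cell `q` with 441's (K4) `Ex C (Pc F) q y`, `y = sc p` the coordinates of a point `p`, the
structure map `gG T (merge g)` lies in every brick which contains `p`.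
-/

set_option autoImplicit false
set_option linter.unusedSectionVars false
set_option linter.style.haveILetI false

open Set Filter Topology Metric

namespace Crest.Agent.R096.Nr_527

open Crest.Agent.R096.Brk1_582 (sc act)
open Crest.Agent.R096.Ce_537 Crest.Agent.R096.Bd_416 Crest.Agent.R096.Grd_714
open Crest.Agent.R096.Mg_441

section ex

variable {Q : Type} [PartialOrder Q] {dim : Q → ℕ} {J Fam : Type}
variable {E : Type*} [NormedAddCommGroup E] [NormedSpace ℝ E]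
variable {C : Cmb Q dim J Fam} {K : Q → Set E} {D : Set Q} {g : Gd E J}
  {P : ∀ q, C.I q → Set E} {c : ∀ q, C.I q → E → ℝ}
variable {E' : Type*} [NormedAddCommGroup E'] [NormedSpace ℝ E'] {Pf : Fam → Set E'}

/-- the merged level vector lies in `G2` -/
theorem merge_mem_G2 (H : Inv C K D g P c) (hfin : ∀ a, {j | C.fam j = a}.Finite)
    (hm : ∀ a, 0 < mm hfin a) {q : Q} (hq : q ∈ D) {z : E} (hz : z ∈ K q) {y : Fam → ℝ}
    (hy : Ex C Pf q y) : (fun a => (merge hfin g).G a z) ∈ G2 Pf (mm hfin) := by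
  obtain ⟨b, -, -, hb⟩ := exists_box H hfin hq hz hy
  exact b.bx_sub hm hb

/-- a family which vanishes at `y` has level `0` -/
theorem merge_zero (H : Inv C K D g P c) (hfin : ∀ a, {j | C.fam j = a}.Finite) {q : Q}
    (hq : q ∈ D) {z : E} (hz : z ∈ K q) {y : Fam → ℝ} (hy : Ex C Pf q y) {a : Fam}
    (ha : y a = 0) : (merge hfin g).G a z = 0 := by
  obtain ⟨h1, h2⟩ := hy.zero a ha
  obtain ⟨h3, h4⟩ := box_zero H hfin hq hz h1 h2
  have h5 := G_mem_box H hfin hq hz a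
  rw [h3, h4] at h5
  exact le_antisymm (by simpa using h5.2) (by simpa using h5.1)

/-- **(K4) ⟹ the structure map lies in every cell of the point `p` with coordinates `y`** -/
theorem gG_mem [CompleteSpace E'] {La : Set E'} {b : Set Fam → E'} {N : ℕ}
    (FF : Brk1_582.Foam La Pf b N) (H : Inv C K D g P c)
    (hfin : ∀ a, {j | C.fam j = a}.Finite) (hm : ∀ a, 0 < mm hfin a) {q : Q} (hq : q ∈ D) {z : E}
    (hz : z ∈ K q) {p : E'} (hp : p ∈ La) (hy : Ex C Pf q (sc Pf b p)) {T : (Fam → ℝ) → E'}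
    (hT : ∀ v ∈ G2 Pf (mm hfin), ∀ a, v a = 0 → T v ∈ Pf a) {a : Fam} (ha : p ∈ Pf a) :
    Xp_537.gG T (merge hfin g) z ∈ Pf a :=
  hT _ (merge_mem_G2 H hfin hm hq hz hy) a (merge_zero H hfin hq hz hy ((FF.sc_eq_zero hp).2 ha))

end ex

open Crest.Agent.R096.Brk3_582 Crest.Agent.R096.SkC1_961 Crest.Agent.R096.Msh_715

variable {δ κ0 R c0 : ℝ} {La Om : Set E3} {ι : Type} {Φ : FoamD δ κ0 R c0 La} {f : E3 → E3}


end Crest.Agent.R096.Nr_527
end

-- ▼ part R096/Fin1_147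
section

/-!
# R096 (row 96), bottom assembly, part 1 (helper147): MACH-INST

From the band structure of all mesh cells outside the giants (`Inv`, helper416), the exactness (K4)
(`Ex`, helper441) and the charts of the giants to `Mach` (helper537).
-/

set_option autoImplicit false
set_option linter.unusedSectionVars false
set_option linter.style.longLine false

open Set Filter Topology Metric

namespace Crest.Agent.R096.Fin_147

open Crest.Agent.R096.Ce_537 (PLOn PLEquiv cube sph IsBall Cplx)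
open Crest.Agent.R096.Bd_416 Crest.Agent.R096.Grd_714 Crest.Agent.R096.Mg_441
open Crest.Agent.R096.Xp_537
open Crest.Agent.R096.Ar_241 (Tr0 TopC Exact)

section mesh

variable {Q : Type} [PartialOrder Q] {dim : Q → ℕ} {J Fam : Type}
variable {E' : Type*} [NormedAddCommGroup E'] [NormedSpace ℝ E']
variable {Cc : Cmb Q dim J Fam} {K : Q → Set E'} {D : Set Q} {g : Gd E' J}
  {P : ∀ q, Cc.I q → Set E'} {c : ∀ q, Cc.I q → E' → ℝ}
variable {E : Type*} [NormedAddCommGroup E] [NormedSpace ℝ E] {Pf : Fam → Set E}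

/-- the active families of a cell -/
def actF (Cc : Cmb Q dim J Fam) (q : Q) : Set Fam := {a | ∃ x : Cc.I q, Cc.fam (Cc.col q x) = a}

lemma actF_finite (q : Q) : (actF Cc q).Finite := by
  have := Cc.fin q
  exact (Set.finite_range fun x : Cc.I q => Cc.fam (Cc.col q x)).subset
    (fun a ⟨x, hx⟩ => ⟨x, hx⟩)

variable (H : Inv Cc K D g P c) (hfin : ∀ a, {j | Cc.fam j = a}.Finite)

include H in
lemma not_band {q : Q} (hq : q ∈ D) {a : Fam} (ha : a ∉ actF Cc q) {z : E'} (hz : z ∈ K q) :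
    z ∉ (merge hfin g).B a :=
  notMem_band H hfin hq hz (fun x hx => ha ⟨x, hx⟩)

include H in
/-- finitely many families have a band at a point -/
lemma finite_B {q : Q} (hq : q ∈ D) {z : E'} (hz : z ∈ K q) :
    {a | z ∈ (merge hfin g).B a}.Finite :=
  (actF_finite (Cc := Cc) q).subset fun a ha => by
    by_contra hn
    exact not_band H hfin hq hn hz ha

include H in
/-- inactive families have a constant interval -/
lemma lo_const {q : Q} (hq : q ∈ D) {a : Fam} (ha : a ∉ actF Cc q) {z z' : E'} (hz : z ∈ K q)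
    (hz' : z' ∈ K q) : loN hfin g z a = loN hfin g z' a ∧ hiN hfin g z a = hiN hfin g z' a := by
  have h1 := not_band H hfin hq ha hz
  have h2 := not_band H hfin hq ha hz'
  have e1 := merge_inact H hfin hq (a := a) (fun x hx => ha ⟨x, hx⟩) hz
  have e2 := merge_inact H hfin hq (a := a) (fun x hx => ha ⟨x, hx⟩) hz'
  obtain ⟨f1, f2, -⟩ := box_off H hfin hq hz h1
  obtain ⟨f3, f4, -⟩ := box_off H hfin hq hz' h2
  have e3 : loN hfin g z a = loN hfin g z' a := by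
    have : (loN hfin g z a : ℝ) = loN hfin g z' a := by rw [← f1, ← f3, e1, e2]
    exact_mod_cast this
  exact ⟨e3, by rw [f2, f4, e3]⟩

lemma gx_inj {m : Fam → ℕ} : Function.Injective (fun b : Gx Pf m => (b.lo, b.hi)) := by
  intro b b' h
  have h1 := congrArg Prod.fst h
  have h2 := congrArg Prod.snd h
  exact Gx.ext h1 h2

open Classical in
include H in
/-- **finitely many grid boxes meet a mesh cell** -/
theorem finite_boxes {q : Q} (hq : q ∈ D) :
    {b : Gx Pf (mm hfin) | ∃ z ∈ K q, b.lo = loN hfin g z ∧ b.hi = hiN hfin g z}.Finite := by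
  rcases (K q).eq_empty_or_nonempty with h0 | ⟨z0, hz0⟩
  · have : {b : Gx Pf (mm hfin) | ∃ z ∈ K q, b.lo = loN hfin g z ∧ b.hi = hiN hfin g z} = ∅ := by
      ext b; simp [h0]
    rw [this]; exact Set.finite_empty
  have hA := actF_finite (Cc := Cc) q
  have : Fintype (actF Cc q) := hA.fintype
  set N : ℕ := ∑ a : actF Cc q, mm hfin a.1 with hN
  have hle : ∀ a : actF Cc q, mm hfin a.1 ≤ N := fun a =>
    Finset.single_le_sum (f := fun a : actF Cc q => mm hfin a.1) (fun _ _ => Nat.zero_le _)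
      (Finset.mem_univ a)
  let Φ : ((actF Cc q → Fin (N + 1)) × (actF Cc q → Fin (N + 1))) → (Fam → ℕ) × (Fam → ℕ) :=
    fun p => (fun a => if h : a ∈ actF Cc q then (p.1 ⟨a, h⟩ : ℕ) else loN hfin g z0 a,
      fun a => if h : a ∈ actF Cc q then (p.2 ⟨a, h⟩ : ℕ) else hiN hfin g z0 a)
  refine ((Set.finite_range Φ).preimage (gx_inj (Pf := Pf) (m := mm hfin)).injOn).subset ?_
  rintro b ⟨z, hz, h1, h2⟩
  refine ⟨(fun a => ⟨b.lo a.1, ?_⟩, fun a => ⟨b.hi a.1, ?_⟩), ?_⟩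
  · have := b.le a.1
    have h3 := b.him a.1
    have h4 := hle a
    omega
  · have h3 := b.him a.1
    have h4 := hle a
    omega
  · refine Prod.ext (funext fun a => ?_) (funext fun a => ?_)
    · by_cases ha : a ∈ actF Cc q
      · simp [Φ, ha]
      · simp only [Φ, ha, dif_neg, not_false_iff]
        rw [h1]; exact (lo_const H hfin hq ha hz0 hz).1
    · by_cases ha : a ∈ actF Cc q
      · simp [Φ, ha]
      · simp only [Φ, ha, dif_neg, not_false_iff]
        rw [h2]; exact (lo_const H hfin hq ha hz0 hz).2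

variable {Λ : Set E} {C : CC Λ (Cel Pf (mm hfin))} {T : (Fam → ℝ) → E} {co : E → Fam → ℝ}
  (OK : GridOK C T co) (hm : ∀ a, 0 < mm hfin a) (q0 : Cel Pf (mm hfin))

include H OK in
/-- **the structure map is PL on every mesh cell** -/
theorem plOn_gG (hK : ∀ q, IsClosed (K q)) {q : Q} (hq : q ∈ D) {y : Fam → ℝ}
    (hy : Ex Cc Pf q y) : PLOn (gG T (merge hfin g)) (K q) := by
  have hIs := inv_merge_is H hfin hq
  refine plOn_cover
    (Ks := fun b : Gx Pf (mm hfin) => {x | x ∈ K q ∧ (fun a => (merge hfin g).G a x) ∈ b.bx})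
    (finite_boxes H hfin hq) (fun b => ?_) (fun x hx => ?_) (fun b => ?_)
  · have h1 : ∀ a, IsClosed {x | x ∈ K q ∧ (b.lo a : ℝ) ≤ (merge hfin g).G a x ∧
        (merge hfin g).G a x ≤ b.hi a} := by
      intro a
      have h2 := ((hIs.pG a).1).preimage_isClosed_of_isClosed (hK q)
        (isClosed_Icc (a := (b.lo a : ℝ)) (b := (b.hi a : ℝ)))
      exact h2
    have h3 : {x | x ∈ K q ∧ (fun a => (merge hfin g).G a x) ∈ b.bx} =
        K q ∩ ⋂ a, {x | x ∈ K q ∧ (b.lo a : ℝ) ≤ (merge hfin g).G a x ∧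
        (merge hfin g).G a x ≤ b.hi a} := by
      ext x
      simp only [mem_ofPred_eq, mem_inter_iff, mem_iInter]
      exact ⟨fun h => ⟨h.1, fun a => ⟨h.1, h.2 a⟩⟩, fun h => ⟨h.1, fun a => (h.2 a).2⟩⟩
    rw [h3]
    exact (hK q).inter (isClosed_iInter h1)
  · obtain ⟨b, h1, h2, h3⟩ := exists_box H hfin hq hx hy
    exact ⟨b, ⟨x, hx, h1, h2⟩, hx, h3⟩
  · exact OK.comp b (fun a => (hIs.pG a).mono (fun x hx => hx.1)) (fun x hx => hx.2.2)

include H OK in
/-- the local transport structure of a mesh cell -/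
theorem on_cell {q : Q} (hq : q ∈ D) {y : Fam → ℝ} (hy : Ex Cc Pf q y) :
    TrnOn (K q) C (gG T (merge hfin g)) (gtop hm q0 (merge hfin g)) (gtr co (merge hfin g)) :=
  mesh_trnOn OK hm q0 (inv_merge_is H hfin hq) (fun _ hx => finite_B H hfin hq hx)
    (fun _ hx => Nr_527.merge_mem_G2 H hfin hm hq hx hy)

end mesh

end Crest.Agent.R096.Fin_147
end

-- ▼ part R096/Fin2_147

/-!
# R096 (row 96), bottom assembly, part 2 (helper147): MACH-INST, FIN-TRN

`Giants`: the charts of the giant cells, equal to the mesh structure on their boundaries.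
`Giants.mach` : `Mach` of helper537.  `Giants.trn` : the transport structure `Trn` (all fibres balls)
from arcs and sheets.
-/

set_option autoImplicit false
set_option linter.unusedSectionVars false
set_option linter.style.longLine false

open Set Filter Topology Metric Module

namespace Crest.Agent.R096.Fin_147

open Crest.Agent.R096.Ce_537 (PLOn PLEquiv cube sph IsBall Cplx)
open Crest.Agent.R096.Bd_416 Crest.Agent.R096.Grd_714 Crest.Agent.R096.Mg_441
open Crest.Agent.R096.Xp_537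
open Crest.Agent.R096.Ar_241 (Tr0 TopC Exact cod SheetData)
open Crest.Agent.R096.Ar_241.Tr0 (P2)
open Crest.Agent.R096.Shp_334 (OnMesh)

variable {Q : Type} [PartialOrder Q] {dim : Q → ℕ} {J Fam : Type}
variable {E' : Type*} [NormedAddCommGroup E'] [NormedSpace ℝ E']
variable {E : Type*} [NormedAddCommGroup E] [NormedSpace ℝ E] {Pf : Fam → Set E}

/-- **the charts of the giant cells** (one for every top cell of the grid): `Th c` maps `Kt c` to the
whole cell; on the boundary the structure read off `Th c` is the structure of the mesh. -/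
structure Giants {Cc : Cmb Q dim J Fam} (hfin : ∀ a, {j | Cc.fam j = a}.Finite)
    (hm : ∀ a, 0 < mm hfin a) (q0 : Cel Pf (mm hfin)) (Ω X0 : Set E') (g : Gd E' J) {Λ : Set E}
    (C : CC Λ (Cel Pf (mm hfin))) (T : (Fam → ℝ) → E) (co : E → Fam → ℝ)
    (κ : TopC (Cel Pf (mm hfin)) → ℝ) (Kt : TopC (Cel Pf (mm hfin)) → Set E')
    (Th : ∀ c, PLEquiv (Kt c) (coreF C (κ c) c.1 0)) : Prop where
  κpos : ∀ c, 0 < κ c ∧ κ c < 1
  sub : ∀ c, Kt c ⊆ Ω
  cov : Ω ⊆ X0 ∪ ⋃ c, Kt c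
  disj : ∀ c c', c ≠ c' → Disjoint (Kt c) (Kt c')
  lf : ∀ x ∈ Ω, ∃ U ∈ 𝓝 x, {c | (Kt c ∩ U).Nonempty}.Finite
  bd : ∀ c, ∀ x ∈ Kt c, x ∈ X0 ↔ sl C (κ c) ((Th c).f x) c.1 = 0
  agG : ∀ c, ∀ x ∈ Kt c, x ∈ X0 → gG T (merge hfin g) x = cG C (κ c) (Th c).f x
  agT : ∀ c, ∀ x ∈ Kt c, x ∈ X0 →
    gtop hm q0 (merge hfin g) x = ctop C (κ c) c.1 (Th c).f x
  agt : ∀ c, ∀ x ∈ Kt c, x ∈ X0 → ∀ t ∈ C.cell (gtop hm q0 (merge hfin g) x),
    gtr co (merge hfin g) x t = ctr C (κ c) (Th c).f (Th c).g x t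

variable [FiniteDimensional ℝ E]
variable {Cc : Cmb Q dim J Fam} {K : Q → Set E'} {g : Gd E' J}
  {P : ∀ q, Cc.I q → Set E'} {c : ∀ q, Cc.I q → E' → ℝ}
variable {hfin : ∀ a, {j | Cc.fam j = a}.Finite} {hm : ∀ a, 0 < mm hfin a}
  {q0 : Cel Pf (mm hfin)} {Ω X0 : Set E'} {Λ : Set E} {C : CC Λ (Cel Pf (mm hfin))}
  {T : (Fam → ℝ) → E} {co : E → Fam → ℝ} {κ : TopC (Cel Pf (mm hfin)) → ℝ}
  {Kt : TopC (Cel Pf (mm hfin)) → Set E'} {Th : ∀ c, PLEquiv (Kt c) (coreF C (κ c) c.1 0)}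

/-- **MACH-INST** -/
theorem Giants.mach (h : Giants hfin hm q0 Ω X0 g C T co κ Kt Th) (hX0 : IsClosed X0)
    (Xc : Cplx (Ω ∩ X0) Q dim K) (H : Inv Cc K univ g P c) (OK : GridOK C T co)
    (ex : ∀ q, ∃ y, Ex Cc Pf q y)
    (prop : ∀ r, ∃ A ⊆ Ω, IsCompact A ∧
      ∀ q, ∀ x ∈ K q, gG T (merge hfin g) x ∈ C.cell r → x ∈ A) :
    Mach Ω C K (fun _ => gG T (merge hfin g)) (fun _ => gtop hm q0 (merge hfin g))
      (fun _ => gtr co (merge hfin g)) κ (fun _ => 0) Kt Th where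
  κpos := h.κpos
  θ0 := fun _ => le_rfl
  θ1 := fun _ => zero_lt_one
  closed := fun q => Xc.isClosed q
  subZ := fun q x hx => (Xc.sub q hx).1
  subK := h.sub
  cov := fun x hx => by
    rcases h.cov hx with h1 | h1
    · obtain ⟨q, hq⟩ := Xc.cover x ⟨hx, h1⟩
      exact Or.inl ⟨q, hq⟩
    · exact Or.inr (mem_iUnion.1 h1)
  on := fun q => by
    obtain ⟨y, hy⟩ := ex q
    exact on_cell H hfin OK hm q0 (mem_univ q) hy
  cont := fun q => by
    obtain ⟨y, hy⟩ := ex q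
    exact (plOn_gG H hfin OK (fun q => Xc.isClosed q) (mem_univ q) hy).1
  agG := fun _ _ _ _ _ => rfl
  agT := fun _ _ _ _ _ => rfl
  agt := fun _ _ _ _ _ _ _ => rfl
  bgG := fun q c x hx hxc => h.agG c x hxc (Xc.sub q hx).2
  bgT := fun q c x hx hxc => h.agT c x hxc (Xc.sub q hx).2
  bgt := fun q c x hx hxc t ht => h.agt c x hxc (Xc.sub q hx).2 t ht
  disj := h.disj
  bdry := fun c x hx => by
    rw [← h.bd c x hx]
    constructor
    · rintro ⟨q, hq⟩
      exact (Xc.sub q hq).2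
    · intro h1
      exact Xc.cover x ⟨h.sub c hx, h1⟩
  ntop := fun q x hx => by
    obtain ⟨y, hy⟩ := ex q
    obtain ⟨b, hb, -⟩ := gtop_spec (hm := hm) (q0 := q0) (inv_merge_is H hfin (mem_univ q))
      (fun _ hx => finite_B H hfin (mem_univ q) hx)
      (fun _ hx => Nr_527.merge_mem_G2 H hfin hm (mem_univ q) hx hy) hx
    obtain ⟨a, ha⟩ := At_241.gr_lt b
    exact ⟨.top a, by rw [hb]; exact ha⟩
  lfZ := fun x hx => by
    by_cases h0 : x ∈ X0
    · obtain ⟨r, hr, hf⟩ := Xc.lf x ⟨hx, h0⟩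
      exact ⟨ball x r, ball_mem_nhds x hr, hf⟩
    · refine ⟨X0ᶜ, hX0.isOpen_compl.mem_nhds h0, ?_⟩
      have : {q | (K q ∩ X0ᶜ).Nonempty} = ∅ := by
        ext q
        simp only [mem_ofPred_eq, mem_empty_iff_false, iff_false]
        rintro ⟨z, hz, hz'⟩
        exact hz' (Xc.sub q hz).2
      rw [this]; exact Set.finite_empty
  lfK := h.lf
  prop := prop

/-! ### the transport structure -/

section trn

variable [FiniteDimensional ℝ E']

/-- the mesh part -/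
def XM (Ω : Set E') (K : Q → Set E') : Set E' := Ωᶜ ∪ ⋃ q, K q

/-- **the global structure from the mesh and the giants** -/
theorem Giants.exact (h : Giants hfin hm q0 Ω X0 g C T co κ Kt Th) [Nonempty Q]
    (hX0 : IsClosed X0)
    (Xc : Cplx (Ω ∩ X0) Q dim K) (H : Inv Cc K univ g P c) (OK : GridOK C T co)
    (ex : ∀ q, ∃ y, Ex Cc Pf q y)
    (prop : ∀ r, ∃ A ⊆ Ω, IsCompact A ∧
      ∀ q, ∀ x ∈ K q, gG T (merge hfin g) x ∈ C.cell r → x ∈ A) :
    ∃ (G : E' → E) (X : Tr0 Ω C G), Nonempty (Exact X κ (fun _ => 0) Kt (XM Ω K)) ∧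
      OnMesh X K g T (XM Ω K) ∧ (∀ q, IsCompact (X.F q)) ∧ ContinuousOn G Ω ∧
      (∀ q, ∀ x ∈ K q, G x = gG T (merge hfin g) x) ∧
      (∀ q, ∀ x ∈ K q, X.top x = gtop hm q0 (merge hfin g) x) ∧
      (∀ q, ∀ x ∈ K q, ∀ t ∈ C.cell (X.top x), X.tr x t = gtr co (merge hfin g) x t) ∧
      (∀ c, ∀ x ∈ Kt c, G x = cG C (κ c) (Th c).f x) ∧
      (∀ c, ∀ x ∈ Kt c, X.top x = ctop C (κ c) c.1 (Th c).f x) ∧
      (∀ c, ∀ x ∈ Kt c, ∀ t ∈ C.cell (X.top x),
        X.tr x t = ctr C (κ c) (Th c).f (Th c).g x t) := by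
  have M := h.mach hX0 Xc H OK ex prop
  have hmem : ∀ z ∈ Ω, z ∈ XM Ω K → ∃ q, z ∈ K q := by
    rintro z hz (h1 | h1)
    · exact absurd hz h1
    · exact mem_iUnion.1 h1
  have eG : ∀ q, ∀ x ∈ K q, gluG (Mach.ZZ K Kt) (Mach.GG C (fun _ => gG T (merge hfin g)) κ
      (fun _ => 0) Th) x = gG T (merge hfin g) x := fun q x hx => M.pcs.G_eq (i := Sum.inl q) hx
  have eT : ∀ q, ∀ x ∈ K q, M.pcs.tr0.top x = gtop hm q0 (merge hfin g) x :=
    fun q x hx => M.pcs.top_eq (i := Sum.inl q) hx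
  refine ⟨_, M.pcs.tr0, ⟨M.exact⟩, ?_, fun q => M.pcs.isCompact_F q, M.pcs.contOn, eG, eT, ?_,
    fun c x hx => M.pcs.G_eq (i := Sum.inr c) hx, fun c x hx => M.pcs.top_eq (i := Sum.inr c) hx,
    ?_⟩
  · refine OnMesh.of_gtop (hm := hm) (q0 := q0) (fun z hz hz0 => ?_) (fun p _ =>
      inv_merge_is H hfin (mem_univ p)) (fun z hz hz0 => ?_) (fun p x hx => (Xc.sub p hx).1)
      (fun z hz hz0 => ?_) (fun z hz hz0 => ?_) (fun z hz hz0 => ?_)
    · obtain ⟨q, hq⟩ := hmem z hz hz0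
      exact ⟨q, hq, fun x hx => Or.inr (mem_iUnion.2 ⟨q, hx⟩)⟩
    · obtain ⟨q, hq⟩ := hmem z hz hz0
      exact finite_B H hfin (mem_univ q) hq
    · obtain ⟨q, hq⟩ := hmem z hz hz0
      obtain ⟨y, hy⟩ := ex q
      exact Nr_527.merge_mem_G2 H hfin hm (mem_univ q) hq hy
    · obtain ⟨q, hq⟩ := hmem z hz hz0
      exact eG q z hq
    · obtain ⟨q, hq⟩ := hmem z hz hz0
      exact eT q z hq
  · intro q x hx t ht
    refine M.pcs.tr_eq (i := Sum.inl q) hx ?_
    have h1 := eT q x hx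
    rw [h1] at ht
    exact ht
  · intro c x hx t ht
    refine M.pcs.tr_eq (i := Sum.inr c) hx ?_
    have h1 : M.pcs.tr0.top x = ctop C (κ c) c.1 (Th c).f x :=
      M.pcs.top_eq (i := Sum.inr c) hx
    rw [h1] at ht
    exact ht

/-- **FIN-TRN** : all fibres are balls, from arcs and sheets -/
theorem Giants.trn (h : Giants hfin hm q0 Ω X0 g C T co κ Kt Th) [Nonempty Q]
    (hX0 : IsClosed X0)
    (Xc : Cplx (Ω ∩ X0) Q dim K) (H : Inv Cc K univ g P c) (OK : GridOK C T co)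
    (ex : ∀ q, ∃ y, Ex Cc Pf q y)
    (prop : ∀ r, ∃ A ⊆ Ω, IsCompact A ∧
      ∀ q, ∀ x ∈ K q, gG T (merge hfin g) x ∈ C.cell r → x ∈ A)
    (hΛ : IsOpen Λ) (hΩ : IsOpen Ω) (hE : finrank ℝ E = 3) (hP : P2 E' 3)
    (hdim : ∀ q, C.dim q ≤ 3)
    (bd : ∀ c, ∀ x ∈ Kt c, x ∈ X0 → ∀ ε > (0:ℝ), ∃ z ∈ ball x ε, z ∉ Kt c)
    (arcs : ∀ (G : E' → E) (X : Tr0 Ω C G), OnMesh X K g T (XM Ω K) →
      Nonempty (Exact X κ (fun _ => 0) Kt (XM Ω K)) → ∀ q, cod C q = 1 →
      IsBall 1 (X.F q ∩ XM Ω K) (X.F q ∩ XM Ω K ∩ ⋃ c, Kt c))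
    (sheets : ∀ (G : E' → E) (X : Tr0 Ω C G), OnMesh X K g T (XM Ω K) →
      Nonempty (Exact X κ (fun _ => 0) Kt (XM Ω K)) → ∀ q, cod C q = 2 →
      SheetData X Kt (XM Ω K) q) :
    ∃ (G : E' → E) (_ : Trn Ω C G), ContinuousOn G Ω ∧
      (∀ q, ∀ x ∈ K q, G x = gG T (merge hfin g) x) ∧
      (∀ c, ∀ x ∈ Kt c, G x = cG C (κ c) (Th c).f x) := by
  obtain ⟨G, X, ⟨hEx⟩, hOn, hc, hcont, hG, -, -, hGc, -, -⟩ := h.exact hX0 Xc H OK ex prop
  have hMc : IsClosed (XM Ω K) := by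
    have := (h.mach hX0 Xc H OK ex prop).isClosed_X0 hΩ
    exact this
  have hcov : Ω ⊆ XM Ω K ∪ ⋃ c, Kt c := (h.mach hX0 Xc H OK ex prop).cov_X0
  refine ⟨G, hEx.trn hΛ hΩ hE hP hdim hc hMc hcov ?_ (arcs G X hOn ⟨hEx⟩)
    (sheets G X hOn ⟨hEx⟩), hcont, hG, hGc⟩
  intro c x hx hx0 ε hε
  refine bd c x hx ?_ ε hε
  rcases hx0 with h1 | h1
  · exact absurd (h.sub c hx) h1
  · obtain ⟨q, hq⟩ := mem_iUnion.1 h1
    exact (Xc.sub q hq).2

end trn

end Crest.Agent.R096.Fin_147
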