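import Crest.Agent.R096.Fx3_689
import Crest.Agent.R096.St1_147

-- ▼ part R096/Fx4_689
section

set_option autoImplicit false
open Finset

namespace Crest.Agent.R096.Fx_689

namespace Dg

variable {C : Type*} (D : Dg C)

/-- a labelling of the pieces of the chords (`cl x k` = label of the piece of `x` over `(k,k+1)`),
which at every crossing goes straight on or turns: for instance the arcs of a re-glued diagram -/
structure Lab (K : Type*) where
  cl : C → ℕ → K
  st : ∀ x j, D.lo x < j → j < D.hi x → (∀ y, D.X x y → D.e x y ≠ j) → cl x (j - 1) = cl x j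
  vx : ∀ x y, D.X x y → D.fam x = false →
    (cl x (D.e x y - 1) = cl x (D.e x y) ∧ cl y (D.e y x - 1) = cl y (D.e y x)) ∨
    (cl x (D.e x y - 1) = cl y (D.e y x - 1) ∧ cl x (D.e x y) = cl y (D.e y x)) ∨
    (cl x (D.e x y - 1) = cl y (D.e y x) ∧ cl x (D.e x y) = cl y (D.e y x - 1))

namespace Lab

variable {D} {K : Type*} (L : D.Lab K)

/-- label at an end point -/
def clp (t : C × Bool) : K := if t.2 then L.cl t.1 (D.hi t.1 - 1) else L.cl t.1 (D.lo t.1)

/-- straight crossing of the labels `κ` (along the first family) and `κ'` (along the second) -/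
def St (κ κ' : K) (x y : C) : Prop :=
  D.fam x = false ∧ D.X x y ∧ L.cl x (D.e x y - 1) = κ ∧ L.cl x (D.e x y) = κ ∧
    L.cl y (D.e y x - 1) = κ' ∧ L.cl y (D.e y x) = κ'

variable [DecidableEq K]

instance (κ κ' : K) (x y : C) : Decidable (L.St κ κ' x y) := by unfold St; infer_instance

/-- indicator of a label -/
def ind (κ : K) (x : C) (k : ℕ) : ZMod 2 := if L.cl x k = κ then 1 else 0

lemma ind_RC (κ : K) : D.RC (L.ind κ) where
  st x j h1 h2 h3 := by unfold ind; rw [L.st x j h1 h2 h3]
  ev x y hX := by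
    unfold ind
    have hf := D.X_fam hX
    cases hx : D.fam x
    · rcases L.vx x y hX hx with h | h | h
      · rw [h.1, h.2, add_self', add_self']
      · rw [h.1, h.2]
      · rw [h.1, h.2, add_comm]
    · have hy : D.fam y = false := by
        cases hy : D.fam y
        · rfl
        · exact absurd (hx.trans hy.symm) hf
      rcases L.vx y x (D.X_symm hX) hy with h | h | h
      · rw [h.1, h.2, add_self', add_self']
      · rw [h.1, h.2]
      · rw [h.1, h.2, add_comm]

variable [Fintype C] [DecidableEq C]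

/-- **parity law**: straight crossings of two different labels and interlacing of their end points -/
theorem parity {κ κ' : K} (hκ : κ ≠ κ') :
    (((Finset.univ.filter fun z : C × C => L.St κ κ' z.1 z.2).card
      + (Finset.univ.filter fun z : C × C => L.St κ' κ z.1 z.2).card : ℕ) : ZMod 2)
    = ((Finset.univ.filter fun z : (C × Bool) × (C × Bool) =>
        D.pos z.2 < D.pos z.1 ∧ L.clp z.2 = κ ∧ L.clp z.1 = κ').card : ZMod 2) := by
  have hd : ∀ x k, D.lo x ≤ k → k < D.hi x → L.ind κ x k * L.ind κ' x k = 0 := by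
    intro x k _ _
    unfold ind
    by_cases h : L.cl x k = κ
    · have h' : ¬ L.cl x k = κ' := fun h' => hκ (h.symm.trans h')
      rw [if_neg h', mul_zero]
    · rw [if_neg h, zero_mul]
  have h := D.cr_eq (L.ind_RC κ) (L.ind_RC κ') hd
  have hval : ∀ (κ : K) (t : C × Bool), D.val (L.ind κ) t = if L.clp t = κ then 1 else 0 := by
    intro κ t
    unfold val clp ind
    cases t.2 <;> simp
  have hR : (∑ t : C × Bool, ∑ r : C × Bool,
      if D.pos r < D.pos t then D.val (L.ind κ) r * D.val (L.ind κ') t else 0)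
      = ((Finset.univ.filter fun z : (C × Bool) × (C × Bool) =>
        D.pos z.2 < D.pos z.1 ∧ L.clp z.2 = κ ∧ L.clp z.1 = κ').card : ZMod 2) := by
    rw [← Finset.sum_boole]
    symm
    rw [Fintype.sum_prod_type]
    apply Finset.sum_congr rfl; intro t _
    apply Finset.sum_congr rfl; intro r _
    rw [hval, hval]
    split_ifs <;> simp_all
  have hL : (∑ x, ∑ y, if D.fam x = false ∧ D.X x y then D.cr (L.ind κ) (L.ind κ') x y else 0)
      = (((Finset.univ.filter fun z : C × C => L.St κ κ' z.1 z.2).card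
      + (Finset.univ.filter fun z : C × C => L.St κ' κ z.1 z.2).card : ℕ) : ZMod 2) := by
    rw [Nat.cast_add, ← Finset.sum_boole, ← Finset.sum_boole, ← Finset.sum_add_distrib,
      Fintype.sum_prod_type]
    apply Finset.sum_congr rfl; intro x _
    apply Finset.sum_congr rfl; intro y _
    by_cases h0 : D.fam x = false ∧ D.X x y
    · unfold St cr ind
      rw [if_pos h0]
      by_cases a1 : L.cl x (D.e x y - 1) = κ <;> by_cases a2 : L.cl x (D.e x y) = κ <;>
      by_cases a3 : L.cl y (D.e y x - 1) = κ' <;> by_cases a4 : L.cl y (D.e y x) = κ' <;>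
      by_cases b1 : L.cl x (D.e x y - 1) = κ' <;> by_cases b2 : L.cl x (D.e x y) = κ' <;>
      by_cases b3 : L.cl y (D.e y x - 1) = κ <;> by_cases b4 : L.cl y (D.e y x) = κ <;>
      first
      | (exfalso; exact hκ (a1.symm.trans b1))
      | (exfalso; exact hκ (a2.symm.trans b2))
      | (exfalso; exact hκ (b3.symm.trans a3))
      | (exfalso; exact hκ (b4.symm.trans a4))
      | simp [h0.1, h0.2, a1, a2, a3, a4, b1, b2, b3, b4, hκ, hκ.symm]
    · have n1 : ¬ L.St κ κ' (x, y).1 (x, y).2 := fun h => h0 ⟨h.1, h.2.1⟩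
      have n2 : ¬ L.St κ' κ (x, y).1 (x, y).2 := fun h => h0 ⟨h.1, h.2.1⟩
      rw [if_neg h0, if_neg n1, if_neg n2, add_zero]
  rw [← hL, h, hR]

/-- two labels with two end points each: interlaced iff the number of straight crossings is odd -/
theorem parity_two {κ κ' : K} (hκ : κ ≠ κ') {r1 r2 t1 t2 : C × Bool}
    (hr : ∀ t, L.clp t = κ ↔ t = r1 ∨ t = r2) (ht : ∀ t, L.clp t = κ' ↔ t = t1 ∨ t = t2)
    (h1 : D.pos r1 < D.pos r2) (h2 : D.pos t1 < D.pos t2) :
    ((D.pos r1 < D.pos t1 ∧ D.pos t1 < D.pos r2 ∧ D.pos r2 < D.pos t2) ∨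
      (D.pos t1 < D.pos r1 ∧ D.pos r1 < D.pos t2 ∧ D.pos t2 < D.pos r2)) ↔
    Odd ((Finset.univ.filter fun z : C × C => L.St κ κ' z.1 z.2).card
      + (Finset.univ.filter fun z : C × C => L.St κ' κ z.1 z.2).card) := by
  rw [← ZMod.natCast_eq_one_iff_odd, L.parity hκ]
  have hpos : ∀ a b : C × Bool, D.pos a = D.pos b → a = b := by
    rintro ⟨a, i⟩ ⟨b, j⟩ h
    unfold pos at h
    cases i <;> cases j <;> simp at h
    · rw [D.lo_inj a b h]
    · exact absurd h (D.ne _ _)
    · exact absurd h.symm (D.ne _ _)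
    · rw [D.hi_inj a b h]
  have hne : ∀ a b, L.clp a = κ → L.clp b = κ' → D.pos a ≠ D.pos b := by
    intro a b ha hb h
    have := hpos a b h
    subst this
    exact hκ (ha.symm.trans hb)
  have k11 := hne r1 t1 ((hr _).2 (Or.inl rfl)) ((ht _).2 (Or.inl rfl))
  have k12 := hne r1 t2 ((hr _).2 (Or.inl rfl)) ((ht _).2 (Or.inr rfl))
  have k21 := hne r2 t1 ((hr _).2 (Or.inr rfl)) ((ht _).2 (Or.inl rfl))
  have k22 := hne r2 t2 ((hr _).2 (Or.inr rfl)) ((ht _).2 (Or.inr rfl))
  have hr12 : r1 ≠ r2 := fun h => by rw [h] at h1; exact lt_irrefl _ h1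
  have ht12 : t1 ≠ t2 := fun h => by rw [h] at h2; exact lt_irrefl _ h2
  have hcard : (Finset.univ.filter fun z : (C × Bool) × (C × Bool) =>
        D.pos z.2 < D.pos z.1 ∧ L.clp z.2 = κ ∧ L.clp z.1 = κ').card
      = (if D.pos r1 < D.pos t1 then 1 else 0) + (if D.pos r1 < D.pos t2 then 1 else 0)
        + (if D.pos r2 < D.pos t1 then 1 else 0) + (if D.pos r2 < D.pos t2 then 1 else 0) := by
    have : (Finset.univ.filter fun z : (C × Bool) × (C × Bool) =>
        D.pos z.2 < D.pos z.1 ∧ L.clp z.2 = κ ∧ L.clp z.1 = κ')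
        = (({t1, t2} : Finset (C × Bool)) ×ˢ ({r1, r2} : Finset (C × Bool))).filter
          fun z => D.pos z.2 < D.pos z.1 := by
      ext z
      simp only [Finset.mem_filter, Finset.mem_univ, true_and, Finset.mem_product,
        Finset.mem_insert, Finset.mem_singleton, hr, ht]
      tauto
    rw [this, Finset.card_filter, Finset.sum_product, Finset.sum_pair ht12, Finset.sum_pair hr12,
      Finset.sum_pair hr12]
    ring
  rw [hcard]
  constructor
  · rintro (h | h)
    · rw [if_pos (by omega), if_pos (by omega), if_neg (by omega), if_pos (by omega)]; decide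
    · rw [if_neg (by omega), if_pos (by omega), if_neg (by omega), if_neg (by omega)]; decide
  · intro h
    by_contra hcon
    have h3 : ((((if D.pos r1 < D.pos t1 then 1 else 0) + (if D.pos r1 < D.pos t2 then 1 else 0)
        + (if D.pos r2 < D.pos t1 then 1 else 0) + (if D.pos r2 < D.pos t2 then 1 else 0) : ℕ)) :
        ZMod 2) = 0 := by
      split_ifs <;> first | (exfalso; omega) | decide
    rw [h3] at h
    exact absurd h (by decide)

end Lab

end Dg

end Crest.Agent.R096.Fx_689
end

-- ▼ part R096/Fx5_689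
section

set_option autoImplicit false
open Finset

namespace Crest.Agent.R096.Fx_689

namespace Dg

variable {C : Type*} {D : Dg C}

namespace Lab

variable {K : Type*} (L : D.Lab K)

/-- straight crossing with different labels (a double point which is left after the re-gluing) -/
def Res (x y : C) : Prop :=
  D.fam x = false ∧ D.X x y ∧ L.cl x (D.e x y - 1) = L.cl x (D.e x y) ∧
    L.cl y (D.e y x - 1) = L.cl y (D.e y x) ∧ L.cl x (D.e x y) ≠ L.cl y (D.e y x)

variable [DecidableEq K]

instance (x y : C) : Decidable (L.Res x y) := by unfold Res; infer_instance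

/-- new chords: labels with two end points and a colour; no straight crossing inside one colour -/
structure Arcs (J : Type*) where
  lab : J → K
  inj : ∀ j j', lab j = lab j' → j = j'
  a : J → C × Bool
  b : J → C × Bool
  lt : ∀ j, D.pos (a j) < D.pos (b j)
  ends : ∀ j t, L.clp t = lab j ↔ t = a j ∨ t = b j
  fam : J → Bool
  nost : ∀ j j', j ≠ j' → fam j = fam j' → ∀ x y, ¬ L.St (lab j) (lab j') x y

lemma pos_inj (s t : C × Bool) (h : D.pos s = D.pos t) : s = t := by
  obtain ⟨a, i⟩ := s
  obtain ⟨b, j⟩ := t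
  unfold pos at h
  cases i <;> cases j <;> simp at h
  · rw [D.lo_inj a b h]
  · exact absurd h (D.ne _ _)
  · exact absurd h.symm (D.ne _ _)
  · rw [D.hi_inj a b h]

variable [Fintype C] [DecidableEq C]

/-- same colour: not interlaced -/
theorem Arcs.nc {L : D.Lab K} {J : Type*} (A : L.Arcs J) (j j' : J) (hf : A.fam j = A.fam j') :
    ¬ (D.pos (A.a j) < D.pos (A.a j') ∧ D.pos (A.a j') < D.pos (A.b j) ∧
      D.pos (A.b j) < D.pos (A.b j')) := by
  intro h
  have hne : j ≠ j' := by
    rintro rfl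
    exact lt_irrefl _ h.1
  have hk : A.lab j ≠ A.lab j' := fun h => hne (A.inj _ _ h)
  have := (L.parity_two hk (A.ends j) (A.ends j') (A.lt j) (A.lt j')).1 (Or.inl h)
  have z1 : (Finset.univ.filter fun z : C × C => L.St (A.lab j) (A.lab j') z.1 z.2) = ∅ :=
    Finset.filter_eq_empty_iff.2 fun z _ => A.nost j j' hne hf z.1 z.2
  have z2 : (Finset.univ.filter fun z : C × C => L.St (A.lab j') (A.lab j) z.1 z.2) = ∅ :=
    Finset.filter_eq_empty_iff.2 fun z _ => A.nost j' j hne.symm hf.symm z.1 z.2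
  rw [z1, z2] at this
  simp at this

/-- the re-glued diagram is again a diagram -/
def Arcs.dg {L : D.Lab K} {J : Type*} (A : L.Arcs J) : Dg J where
  lo j := D.pos (A.a j)
  hi j := D.pos (A.b j)
  lt := A.lt
  lo_inj j j' h := by
    have h' := pos_inj _ _ h
    have h1 := (A.ends j (A.a j)).2 (Or.inl rfl)
    have h2 := (A.ends j' (A.a j')).2 (Or.inl rfl)
    rw [← h'] at h2
    exact A.inj _ _ (h1.symm.trans h2)
  hi_inj j j' h := by
    have h' := pos_inj _ _ h
    have h1 := (A.ends j (A.b j)).2 (Or.inr rfl)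
    have h2 := (A.ends j' (A.b j')).2 (Or.inr rfl)
    rw [← h'] at h2
    exact A.inj _ _ (h1.symm.trans h2)
  ne j j' h := by
    have h' := pos_inj _ _ h
    have h1 := (A.ends j (A.a j)).2 (Or.inl rfl)
    have h2 := (A.ends j' (A.b j')).2 (Or.inr rfl)
    rw [← h'] at h2
    have := A.inj _ _ (h1.symm.trans h2)
    subst this
    exact absurd h (ne_of_lt (A.lt j))
  fam := A.fam
  nc j j' hf := A.nc j j' hf


end Lab

end Dg

end Crest.Agent.R096.Fx_689
end

-- ▼ part R096/Wk1_689
section

/-!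
# R096 / P3 / FACE (1): a face of a state is a chord diagram `Fx_689.Dg`
-/

set_option autoImplicit false

namespace Crest.Agent.R096.Wk_689
open St_147 Fx_689

variable {ι Φ W I : Type} {M : MeshC ι Φ W} {col : I → Bool} (s : St M col)

theorem Dbl.ext' {z z' : s.Dbl} (h : z.F = z'.F) (he : z.e = z'.e) : z = z' := by
  cases z; cases z'; simp only at h he; subst h; subst he; rfl

open Classical in
/-- number of points of the state on `F` below the position `t` -/
noncomputable def rk (F : Φ) (t : ℝ) : ℕ :=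
  (s.P.filter (fun u => u ∈ M.On F ∧ M.pos F u < t)).card

lemma rk_mono (F : Φ) {t t' : ℝ} (h : t ≤ t') : rk s F t ≤ rk s F t' := by
  classical
  unfold rk
  apply Finset.card_le_card
  intro u hu
  rw [Finset.mem_filter] at hu ⊢
  exact ⟨hu.1, hu.2.1, lt_of_lt_of_le hu.2.2 h⟩

lemma rk_lt {F : Φ} {t t' : ℝ} {u : W} (hu : s.At F u) (h1 : t ≤ M.pos F u)
    (h2 : M.pos F u < t') : rk s F t < rk s F t' := by
  classical
  unfold rk
  apply Finset.card_lt_card
  rw [Finset.ssubset_iff_of_subset]
  · refine ⟨u, ?_, ?_⟩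
    · rw [Finset.mem_filter]; exact ⟨hu.1, hu.2, h2⟩
    · rw [Finset.mem_filter]; rintro ⟨-, -, h3⟩; exact absurd h3 (not_lt.2 h1)
  · intro v hv
    rw [Finset.mem_filter] at hv ⊢
    exact ⟨hv.1, hv.2.1, hv.2.2.trans (lt_of_le_of_lt h1 h2)⟩

lemma rk_lt_iff {F : Φ} {u v : W} (hu : s.At F u) :
    rk s F (M.pos F u) < rk s F (M.pos F v) ↔ M.pos F u < M.pos F v := by
  constructor
  · intro h
    by_contra hcon
    exact absurd h (not_lt.2 (rk_mono s F (not_lt.1 hcon)))
  · intro h
    exact rk_lt s hu le_rfl h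

lemma rk_inj {F : Φ} {u v : W} (hu : s.At F u) (hv : s.At F v)
    (h : rk s F (M.pos F u) = rk s F (M.pos F v)) : u = v := by
  apply M.pos_inj F hu.2 hv.2
  rcases lt_trichotomy (M.pos F u) (M.pos F v) with h1 | h1 | h1
  · exact absurd h (ne_of_lt ((rk_lt_iff s hu).2 h1))
  · exact h1
  · exact absurd h.symm (ne_of_lt ((rk_lt_iff s hv).2 h1))

lemma At.mu {F : Φ} {w : W} (h : s.At F w) : s.At F (s.mu F w) := s.mu_mem h.1 h.2

lemma pos_ne {F : Φ} {u v : W} (hu : s.At F u) (hv : s.At F v) (h : u ≠ v) :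
    M.pos F u ≠ M.pos F v := fun h' => h (M.pos_inj F hu.2 hv.2 h')

/-- chords of the face `F`, given by their lower end point -/
def Ch (F : Φ) : Type := {a : W // s.At F a ∧ M.pos F a < M.pos F (s.mu F a)}

noncomputable instance (F : Φ) : Fintype (Ch s F) := by
  classical
  exact Fintype.ofInjective (β := {a // a ∈ s.P}) (fun a : Ch s F => ⟨a.1, a.2.1.1⟩)
    (fun a b h => Subtype.ext (by simpa using h))

noncomputable instance (F : Φ) : DecidableEq (Ch s F) := Classical.decEq _

/-- the diagram of the face -/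
noncomputable def dg (F : Φ) : Dg (Ch s F) where
  lo a := rk s F (M.pos F a.1)
  hi a := rk s F (M.pos F (s.mu F a.1))
  lt a := (rk_lt_iff s a.2.1).2 a.2.2
  lo_inj a b h := Subtype.ext (rk_inj s a.2.1 b.2.1 h)
  hi_inj a b h := by
    have h1 := rk_inj s (At.mu s a.2.1) (At.mu s b.2.1) h
    apply Subtype.ext
    rw [← s.mu_mu a.2.1.1 a.2.1.2, h1, s.mu_mu b.2.1.1 b.2.1.2]
  ne a b h := by
    have h1 := rk_inj s a.2.1 (At.mu s b.2.1) h
    have h2 := a.2.2
    have h3 := b.2.2
    rw [h1, s.mu_mu b.2.1.1 b.2.1.2] at h2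
    exact lt_asymm h2 h3
  fam a := col (s.lab a.1)
  nc a b hf h := by
    obtain ⟨h1, h2, h3⟩ := h
    have g1 := (rk_lt_iff s a.2.1).1 h1
    have g2 := (rk_lt_iff s b.2.1).1 h2
    have g3 := (rk_lt_iff s (At.mu s a.2.1)).1 h3
    have hne : b.1 ≠ a.1 := by
      intro h; rw [h] at g1; exact lt_irrefl _ g1
    have hne' : b.1 ≠ s.mu F a.1 := by
      intro h; rw [h] at g2; exact lt_irrefl _ g2
    refine s.nc a.2.1.1 a.2.1.2 b.2.1.1 b.2.1.2 hf hne hne' ?_
    intro hl
    have hb : M.Btw F a.1 (s.mu F a.1) b.1 := Or.inl ⟨g1, g2⟩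
    rcases hl.1 hb with h | h
    · exact absurd h.2 (not_lt.2 g3.le)
    · exact absurd (g1.trans (g2.trans g3)) (not_lt.2 h.2.le)

lemma X_iff {F : Φ} (a b : Ch s F) (h : a ≠ b) :
    (dg s F).X a b ↔ M.Lace F a.1 (s.mu F a.1) b.1 (s.mu F b.1) := by
  have e0 : ∀ {u v : W}, s.At F u → s.At F v → u ≠ v → (M.pos F u < M.pos F v ∨
    M.pos F v < M.pos F u) := fun hu hv h => lt_or_gt_of_ne (pos_ne s hu hv h)
  have ha := a.2.1; have hb := b.2.1
  have ha' := At.mu s ha; have hb' := At.mu s hb
  have hab : a.1 ≠ b.1 := fun h' => h (Subtype.ext h')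
  have h1 := (dg s F).ne a b
  have h2 := (dg s F).ne b a
  have n1 : a.1 ≠ s.mu F b.1 := fun h' => h1 (by
    show rk s F (M.pos F a.1) = rk s F (M.pos F (s.mu F b.1)); rw [h'])
  have n2 : b.1 ≠ s.mu F a.1 := fun h' => h2 (by
    show rk s F (M.pos F b.1) = rk s F (M.pos F (s.mu F a.1)); rw [h'])
  have n3 : s.mu F a.1 ≠ s.mu F b.1 := fun h' => h ((dg s F).hi_inj a b (by
    show rk s F (M.pos F (s.mu F a.1)) = rk s F (M.pos F (s.mu F b.1)); rw [h']))
  have la := a.2.2; have lb := b.2.2
  have d1 := e0 ha hb hab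
  have d2 := e0 ha hb' n1
  have d3 := e0 hb ha' n2
  have d4 := e0 ha' hb' n3
  have hX : (dg s F).X a b ↔ (M.pos F a.1 < M.pos F b.1 ∧ M.pos F b.1 < M.pos F (s.mu F a.1) ∧
      M.pos F (s.mu F a.1) < M.pos F (s.mu F b.1)) ∨
      (M.pos F b.1 < M.pos F a.1 ∧ M.pos F a.1 < M.pos F (s.mu F b.1) ∧
      M.pos F (s.mu F b.1) < M.pos F (s.mu F a.1)) := by
    unfold Dg.X
    show (rk s F (M.pos F a.1) < rk s F (M.pos F b.1) ∧ rk s F (M.pos F b.1) <
      rk s F (M.pos F (s.mu F a.1)) ∧ rk s F (M.pos F (s.mu F a.1)) <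
      rk s F (M.pos F (s.mu F b.1))) ∨ (rk s F (M.pos F b.1) < rk s F (M.pos F a.1) ∧
      rk s F (M.pos F a.1) < rk s F (M.pos F (s.mu F b.1)) ∧
      rk s F (M.pos F (s.mu F b.1)) < rk s F (M.pos F (s.mu F a.1))) ↔ _
    rw [rk_lt_iff s ha, rk_lt_iff s hb, rk_lt_iff s ha', rk_lt_iff s hb, rk_lt_iff s ha,
      rk_lt_iff s hb']
  rw [hX]
  unfold MeshC.Lace MeshC.Btw
  generalize M.pos F a.1 = A at *
  generalize M.pos F b.1 = B at *
  generalize M.pos F (s.mu F a.1) = A' at *
  generalize M.pos F (s.mu F b.1) = B' at *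
  rcases d1 with d1 | d1 <;> rcases d2 with d2 | d2 <;> rcases d3 with d3 | d3 <;>
    rcases d4 with d4 | d4 <;>
    simp [d1, d2, d3, d4, la, lb, not_lt.2 d1.le, not_lt.2 d2.le, not_lt.2 d3.le, not_lt.2 d4.le,
      not_lt.2 la.le, not_lt.2 lb.le] <;> linarith

end Crest.Agent.R096.Wk_689
end

-- ▼ part R096/Wk2_689
section

/-!
# R096 / P3 / FACE (2): double points along a chord, sub-chords
-/

set_option autoImplicit false

namespace Crest.Agent.R096.Wk_689
open St_147 Fx_689

variable {ι Φ W I : Type} {M : MeshC ι Φ W} {col : I → Bool} {s : St M col}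

/-- the chord of colour `x` through `z` -/
def cz (z : s.Dbl) (x : Bool) : Ch s z.F := ⟨z.e x, z.at_ x, z.low x⟩

lemma cz_fam (z : s.Dbl) (x : Bool) : (dg s z.F).fam (cz z x) = x := z.colr x

lemma cz_ne (z : s.Dbl) {x y : Bool} (h : x ≠ y) : cz z x ≠ cz z y := by
  intro h'
  have h1 := cz_fam z x
  have h2 := cz_fam z y
  rw [h', h2] at h1
  exact h h1.symm

lemma cz_X (z : s.Dbl) (x : Bool) : (dg s z.F).X (cz z x) (cz z (!x)) := by
  have h : (dg s z.F).X (cz z true) (cz z false) :=
    (X_iff s _ _ (cz_ne z (by decide))).2 z.lace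
  cases x
  · exact (dg s z.F).X_symm h
  · exact h

open Classical in
/-- the end point of the other chord which lies between the ends of the chord of colour `x` -/
noncomputable def kp (z : s.Dbl) (x : Bool) : W :=
  if M.Btw z.F (z.e x) (s.mu z.F (z.e x)) (z.e (!x)) then z.e (!x) else s.mu z.F (z.e (!x))

lemma key_eq (z : s.Dbl) (x : Bool) : z.key x = M.pos z.F (kp z x) := by
  unfold St.Dbl.key kp
  split_ifs <;> rfl

lemma kp_at (z : s.Dbl) (x : Bool) : s.At z.F (kp z x) := by
  unfold kp
  split_ifs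
  · exact z.at_ _
  · exact At.mu s (z.at_ _)

lemma lo_eq_of_lt {F : Φ} {w : W} (h : M.pos F w < M.pos F (s.mu F w)) : s.lo F w = w := by
  unfold St.lo
  rw [if_pos h.le]

lemma lo_mu_of_lt {F : Φ} {w : W} (hw : s.At F w) (h : M.pos F w < M.pos F (s.mu F w)) :
    s.lo F (s.mu F w) = w := by
  unfold St.lo
  rw [s.mu_mu hw.1 hw.2, if_neg (not_le.2 h)]

lemma lo_kp (z : s.Dbl) (x : Bool) : s.lo z.F (kp z x) = z.e (!x) := by
  unfold kp
  split_ifs
  · exact lo_eq_of_lt (z.low _)
  · exact lo_mu_of_lt (z.at_ _) (z.low _)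

lemma rk_key (z : s.Dbl) (x : Bool) :
    rk s z.F (z.key x) = (dg s z.F).e (cz z x) (cz z (!x)) := by
  have hX := cz_X z x
  rw [key_eq]
  unfold kp Dg.e
  have e1 : (dg s z.F).lo (cz z x) = rk s z.F (M.pos z.F (z.e x)) := rfl
  have e2 : (dg s z.F).lo (cz z (!x)) = rk s z.F (M.pos z.F (z.e (!x))) := rfl
  have e3 : (dg s z.F).hi (cz z x) = rk s z.F (M.pos z.F (s.mu z.F (z.e x))) := rfl
  have e4 : (dg s z.F).hi (cz z (!x)) = rk s z.F (M.pos z.F (s.mu z.F (z.e (!x)))) := rfl
  rcases hX with ⟨h1, h2, h3⟩ | ⟨h1, h2, h3⟩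
  · rw [if_pos h1]
    rw [e1, e2, rk_lt_iff s (z.at_ _)] at h1
    rw [e2, e3, rk_lt_iff s (z.at_ _)] at h2
    have hb : M.Btw z.F (z.e x) (s.mu z.F (z.e x)) (z.e (!x)) := Or.inl ⟨h1, h2⟩
    rw [if_pos hb]
    rfl
  · rw [if_neg (not_lt.2 h1.le)]
    rw [e1, e2, rk_lt_iff s (z.at_ _)] at h1
    rw [e1, e4, rk_lt_iff s (z.at_ _)] at h2
    rw [e3, e4, rk_lt_iff s (At.mu s (z.at_ _))] at h3
    have : ¬ M.Btw z.F (z.e x) (s.mu z.F (z.e x)) (z.e (!x)) := by
      rintro (h | h)
      · exact lt_asymm h1 h.1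
      · exact absurd (h.1.trans h.2) (not_lt.2 (z.low x).le)
    rw [if_neg this]
    rfl

lemma key_mem (z : s.Dbl) (x : Bool) :
    M.pos z.F (z.e x) < z.key x ∧ z.key x < M.pos z.F (s.mu z.F (z.e x)) := by
  have h := (dg s z.F).e_mem (cz_X z x)
  rw [← rk_key, key_eq] at h
  have e1 : (dg s z.F).lo (cz z x) = rk s z.F (M.pos z.F (z.e x)) := rfl
  have e3 : (dg s z.F).hi (cz z x) = rk s z.F (M.pos z.F (s.mu z.F (z.e x))) := rfl
  rw [e1, e3, rk_lt_iff s (z.at_ _), rk_lt_iff s (kp_at z x)] at h
  rw [key_eq]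
  exact h

lemma key_inj {z z' : s.Dbl} {x : Bool} (hF : z.F = z'.F) (he : z.e x = z'.e x)
    (hk : z.key x = z'.key x) : z = z' := by
  apply Dbl.ext' s hF
  funext y
  by_cases hy : y = x
  · subst hy; exact he
  · have hy' : y = !x := by cases y <;> cases x <;> simp_all
    subst hy'
    rw [← lo_kp z x, ← lo_kp z' x]
    rw [key_eq, key_eq] at hk
    have : kp z x = kp z' x := by
      apply M.pos_inj z.F (kp_at z x).2 (by rw [hF]; exact (kp_at z' x).2)
      rw [hk, hF]
    rw [this, hF]

instance : Finite s.Dbl := by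
  have hfin : {F : Φ | ∃ w ∈ s.P, w ∈ M.On F}.Finite := by
    have : {F : Φ | ∃ w ∈ s.P, w ∈ M.On F} = ⋃ w ∈ s.P, {F | w ∈ M.On F} := by
      ext F; simp
    rw [this]
    exact s.P.finite_toSet.biUnion (fun w _ => M.fin w)
  have := hfin.to_subtype
  apply Finite.of_injective
    (fun z : s.Dbl => ((⟨z.F, ⟨z.e true, (z.at_ true).1, (z.at_ true).2⟩⟩, ⟨z.e true, (z.at_ _).1⟩,
      ⟨z.e false, (z.at_ _).1⟩) :
      (↥{F : Φ | ∃ w ∈ s.P, w ∈ M.On F}) × {a // a ∈ s.P} × {a // a ∈ s.P}))
  intro z z' h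
  simp only [Prod.mk.injEq, Subtype.mk.injEq] at h
  apply Dbl.ext' s h.1
  funext x
  cases x
  · exact h.2.2
  · exact h.2.1

/-! ### sub-chords -/

/-- the chord of a sub-chord -/
def chd {x : Bool} (p : s.Sub x) : Φ × W :=
  match p with
  | .inl a => a.1
  | .inr z => (z.F, z.e x)

lemma chd_at {x : Bool} (p : s.Sub x) : s.At (chd p).1 (chd p).2 := by
  cases p with
  | inl a => exact a.2.1
  | inr z => exact z.at_ x

lemma chd_low {x : Bool} (p : s.Sub x) :
    M.pos (chd p).1 (chd p).2 < M.pos (chd p).1 (s.mu (chd p).1 (chd p).2) := by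
  cases p with
  | inl a => exact a.2.2.1
  | inr z => exact z.low x

lemma chd_col {x : Bool} (p : s.Sub x) : col (s.lab (chd p).2) = x := by
  cases p with
  | inl a => exact a.2.2.2
  | inr z => exact z.colr x

/-- the first piece of the chord of colour `x` through `z` -/
def fst (z : s.Dbl) (x : Bool) : s.Sub x := Sum.inl ⟨(z.F, z.e x), z.at_ x, z.low x, z.colr x⟩

lemma exists_below (z : s.Dbl) (x : Bool) : ∃ p : s.Sub x, p.Below z := by
  classical
  by_cases h : ∃ u : s.Dbl, u.F = z.F ∧ u.e x = z.e x ∧ u.key x < z.key x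
  · obtain ⟨u, hu, hmax⟩ := Set.exists_max_image
      {u : s.Dbl | u.F = z.F ∧ u.e x = z.e x ∧ u.key x < z.key x} (fun u => u.key x)
      (Set.toFinite _) h
    refine ⟨Sum.inr u, ?_⟩
    refine ⟨hu.1.symm, hu.2.1.symm, hu.2.2, ?_⟩
    rintro v hv1 hv2 ⟨hv3, hv4⟩
    exact absurd (hmax v ⟨hv1.trans hu.1, hv2.trans hu.2.1, hv4⟩) (not_le.2 hv3)
  · push Not at h
    exact ⟨fst z x, rfl, rfl, fun u h1 h2 => not_lt.2 (h u h1 h2)⟩

lemma below_chd {x : Bool} {p : s.Sub x} {z : s.Dbl} (h : p.Below z) :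
    chd p = (z.F, z.e x) := by
  cases p with
  | inl a => exact Prod.ext h.1 h.2.1
  | inr y => exact Prod.ext h.1.symm h.2.1.symm

lemma below_unique {x : Bool} {p p' : s.Sub x} {z : s.Dbl} (h : p.Below z) (h' : p'.Below z) :
    p = p' := by
  cases p with
  | inl a =>
    cases p' with
    | inl a' =>
      congr 1
      apply Subtype.ext
      exact Prod.ext (h.1.trans h'.1.symm) (h.2.1.trans h'.2.1.symm)
    | inr y =>
      exact absurd h'.2.2.1 (h.2.2 y h'.1.symm h'.2.1.symm)
  | inr y =>
    cases p' with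
    | inl a => exact absurd h.2.2.1 (h'.2.2 y h.1.symm h.2.1.symm)
    | inr y' =>
      congr 1
      have h1 := h.2.2.2 y' (h'.1.symm.trans h.1) (h'.2.1.symm.trans h.2.1)
      have h2 := h'.2.2.2 y (h.1.symm.trans h'.1) (h.2.1.symm.trans h'.2.1)
      apply key_inj (x := x) (h.1.symm.trans h'.1) (h.2.1.symm.trans h'.2.1)
      by_contra hne
      rcases lt_or_gt_of_ne hne with h3 | h3
      · exact h1 ⟨h3, h'.2.2.1⟩
      · exact h2 ⟨h3, h.2.2.1⟩

lemma below_inj {x : Bool} {p : s.Sub x} {z z' : s.Dbl} (h : p.Below z) (h' : p.Below z') :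
    z = z' := by
  have e1 : z.F = z'.F := by
    have := (below_chd h).symm.trans (below_chd h')
    exact congrArg Prod.fst this
  have e2 : z.e x = z'.e x := by
    have := (below_chd h).symm.trans (below_chd h')
    exact congrArg Prod.snd this
  apply key_inj (x := x) e1 e2
  by_contra hne
  cases p with
  | inl a =>
    rcases lt_or_gt_of_ne hne with h3 | h3
    · exact h'.2.2 z e1 e2 h3
    · exact h.2.2 z' e1.symm e2.symm h3
  | inr y =>
    rcases lt_or_gt_of_ne hne with h3 | h3
    · exact h'.2.2.2 z h.1 h.2.1 ⟨h.2.2.1, h3⟩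
    · exact h.2.2.2 z' h'.1 h'.2.1 ⟨h'.2.2.1, h3⟩

/-- the sub-chord below `z` on the chord of colour `x` -/
noncomputable def bel (z : s.Dbl) (x : Bool) : s.Sub x := (exists_below z x).choose

lemma bel_spec (z : s.Dbl) (x : Bool) : (bel z x).Below z := (exists_below z x).choose_spec

lemma below_iff {x : Bool} {p : s.Sub x} {z : s.Dbl} : p.Below z ↔ p = bel z x :=
  ⟨fun h => below_unique h (bel_spec z x), fun h => h ▸ bel_spec z x⟩


/-- `p` is the last piece of its chord -/
def IsTop {x : Bool} (p : s.Sub x) : Prop := ∀ z : s.Dbl, ¬ p.Below z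

/-- start of a piece along its chord -/
noncomputable def start {x : Bool} (p : s.Sub x) : ℝ :=
  match p with
  | .inl a => M.pos a.1.1 a.1.2
  | .inr z => z.key x

lemma start_inj {x : Bool} {p p' : s.Sub x} (hc : chd p = chd p') (h : start p = start p') :
    p = p' := by
  cases p with
  | inl a =>
    cases p' with
    | inl a' => congr 1; exact Subtype.ext hc
    | inr z =>
      exfalso
      have h1 := (key_mem z x).1
      simp only [start] at h
      simp only [chd] at hc
      rw [← h, hc] at h1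
      exact lt_irrefl _ h1
  | inr z =>
    cases p' with
    | inl a =>
      exfalso
      have h1 := (key_mem z x).1
      simp only [start] at h
      simp only [chd] at hc
      rw [h, ← hc] at h1
      exact lt_irrefl _ h1
    | inr z' =>
      congr 1
      simp only [chd, Prod.mk.injEq] at hc
      exact key_inj hc.1 hc.2 h

lemma start_ge {x : Bool} (p : s.Sub x) : M.pos (chd p).1 (chd p).2 ≤ start p := by
  cases p with
  | inl a => exact le_rfl
  | inr z => exact (key_mem z x).1.le

lemma start_inl_le {x : Bool} {a} {p : s.Sub x} (h : chd (Sum.inl a : s.Sub x) = chd p) :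
    start (Sum.inl a : s.Sub x) ≤ start p := by
  have h3 := start_ge p
  rw [← h] at h3
  exact h3

lemma start_lt {x : Bool} (p : s.Sub x) : start p < M.pos (chd p).1 (s.mu (chd p).1 (chd p).2) := by
  cases p with
  | inl a => exact a.2.2.1
  | inr z => exact (key_mem z x).2

/-- `p` is below `z`: it starts before `z` and nothing starts in between -/
lemma below_start {x : Bool} {p : s.Sub x} {z : s.Dbl} (h : p.Below z) :
    start p < z.key x ∧ ∀ p' : s.Sub x, chd p' = chd p → ¬ (start p < start p' ∧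
      start p' < z.key x) := by
  have hc := below_chd h
  constructor
  · cases p with
    | inl a =>
      have := (key_mem z x).1
      simp only [chd] at hc
      simp only [start]
      rw [hc]; exact this
    | inr y => exact h.2.2.1
  · rintro p' hp' ⟨h1, h2⟩
    cases p' with
    | inl a => exact absurd h1 (not_lt.2 (start_inl_le hp'))
    | inr u =>
      rw [hc] at hp'
      simp only [chd, Prod.mk.injEq] at hp'
      cases p with
      | inl a => exact h.2.2 u hp'.1 hp'.2 h2
      | inr y => exact h.2.2.2 u (hp'.1.trans h.1) (hp'.2.trans h.2.1) ⟨h1, h2⟩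

lemma of_below_start {x : Bool} {p : s.Sub x} {z : s.Dbl} (hc : chd p = (z.F, z.e x))
    (h1 : start p < z.key x)
    (h2 : ∀ p' : s.Sub x, chd p' = chd p → ¬ (start p < start p' ∧ start p' < z.key x)) :
    p.Below z := by
  rw [below_iff]
  have hb := below_start (bel_spec z x)
  have hbc := below_chd (bel_spec z x)
  apply start_inj (hc.trans hbc.symm)
  by_contra hne
  rcases lt_or_gt_of_ne hne with h3 | h3
  · exact h2 (bel z x) (hbc.trans hc.symm) ⟨h3, hb.1⟩
  · exact hb.2 p (hc.trans hbc.symm) ⟨h3, h1⟩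

lemma exists_top {F : Φ} {a : W} (ha : s.At F a) (hl : M.pos F a < M.pos F (s.mu F a)) :
    ∃ p : s.Sub (col (s.lab a)), chd p = (F, a) ∧ IsTop p := by
  classical
  set x := col (s.lab a) with hx
  by_cases h : ∃ u : s.Dbl, u.F = F ∧ u.e x = a
  · obtain ⟨u, hu, hmax⟩ := Set.exists_max_image
      {u : s.Dbl | u.F = F ∧ u.e x = a} (fun u => u.key x) (Set.toFinite _) h
    refine ⟨Sum.inr u, Prod.ext hu.1 hu.2, ?_⟩
    intro z hz
    have := hmax z ⟨hz.1.trans hu.1, hz.2.1.trans hu.2⟩
    exact absurd hz.2.2.1 (not_lt.2 this)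
  · push Not at h
    refine ⟨Sum.inl ⟨(F, a), ha, hl, rfl⟩, rfl, ?_⟩
    intro z hz
    exact h z hz.1.symm hz.2.1.symm

lemma top_iff {x : Bool} {p : s.Sub x} : IsTop p ↔ ∀ p' : s.Sub x, chd p' = chd p →
    start p' ≤ start p := by
  constructor
  · intro h p' hp'
    by_contra hcon
    rw [not_le] at hcon
    -- the pieces above `p`; take the lowest
    obtain ⟨u, hu, hmin⟩ := Set.exists_min_image
      {u : s.Dbl | (u.F, u.e x) = chd p ∧ start p < u.key x} (fun u => u.key x) (Set.toFinite _)
      (by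
        cases p' with
        | inl a => exact absurd hcon (not_lt.2 (start_inl_le hp'))
        | inr u => exact ⟨u, hp', hcon⟩)
    apply h u
    apply of_below_start hu.1.symm hu.2
    rintro p'' hp'' ⟨h1, h2⟩
    cases p'' with
    | inl a => exact absurd h1 (not_lt.2 (start_inl_le hp''))
    | inr v => exact absurd (hmin v ⟨hp'', h1⟩) (not_le.2 h2)
  · intro h z hz
    have h1 := h (Sum.inr z) (below_chd hz).symm
    have h2 := (below_start hz).1
    exact absurd h2 (not_lt.2 h1)

lemma top_unique {x : Bool} {p p' : s.Sub x} (h : IsTop p) (h' : IsTop p') (hc : chd p = chd p') :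
    p = p' :=
  start_inj hc (le_antisymm (top_iff.1 h' p hc) (top_iff.1 h p' hc.symm))

end Crest.Agent.R096.Wk_689
private theorem rz_c1917d8012 : type_of% @_root_.Crest.Agent.R096.Wk_689.chd.eq_1 := @_root_.Crest.Agent.R096.Wk_689.chd.eq_1 -- L137
private theorem rz_40fc792b8c : type_of% @_root_.Crest.Agent.R096.Wk_689.start.eq_1 := @_root_.Crest.Agent.R096.Wk_689.start.eq_1 -- L239
end

-- ▼ part R096/Wk3_689

/-!
# R096 / P3 / FACE (3): darts, the re-glued walk `tt G inn`, its orbits, the end darts `ed`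
-/

set_option autoImplicit false

namespace Crest.Agent.R096.Wk_689
open St_147 Fx_689

variable {ι Φ W I : Type} {M : MeshC ι Φ W} {col : I → Bool}

/-- a sub-chord `p` of colour `x` with one of its ends (`b = true` : upper end) -/
structure Dart (s : St M col) where
  x : Bool
  p : s.Sub x
  b : Bool

variable {s : St M col}

/-- the other end of the same sub-chord -/
def flip (d : Dart s) : Dart s := ⟨d.x, d.p, !d.b⟩

lemma flip_flip (d : Dart s) : flip (flip d) = d := by
  obtain ⟨x, p, b⟩ := d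
  cases b <;> rfl

lemma flip_ne (d : Dart s) : flip d ≠ d := by
  obtain ⟨x, p, b⟩ := d
  intro h
  have h1 := congrArg Dart.b h
  cases b <;> simp [flip] at h1

/-- the sub-chord above `z` on the chord of colour `x` -/
def abv (z : s.Dbl) (x : Bool) : s.Sub x := Sum.inr z

/-- the dart of colour `x` at the double point `z`: `b = true`: the upper end of the sub-chord
below `z`; `b = false`: the lower end of the sub-chord above `z` -/
noncomputable def dz (z : s.Dbl) (x : Bool) : Bool → Dart s
  | true => ⟨x, bel z x, true⟩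
  | false => ⟨x, abv z x, false⟩

@[simp] lemma dz_x (z : s.Dbl) (x b : Bool) : (dz z x b).x = x := by cases b <;> rfl
@[simp] lemma dz_b (z : s.Dbl) (x b : Bool) : (dz z x b).b = b := by cases b <;> rfl

/-- double point above a sub-chord -/
noncomputable def nxt {x : Bool} (p : s.Sub x) : Option s.Dbl := by
  classical
  exact if h : ∃ z, p.Below z then some h.choose else none

/-- double point below a sub-chord -/
def prv {x : Bool} (p : s.Sub x) : Option s.Dbl :=
  match p with
  | .inl _ => none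
  | .inr z => some z

lemma nxt_some {x : Bool} {p : s.Sub x} {z : s.Dbl} : nxt p = some z ↔ p = bel z x := by
  unfold nxt
  split_ifs with h
  · constructor
    · intro h1
      have h2 : h.choose = z := Option.some.inj h1
      have h3 := h.choose_spec
      rw [h2] at h3
      exact below_iff.1 h3
    · intro h1
      congr 1
      have := below_iff.2 h1
      exact below_inj h.choose_spec this
  · constructor
    · intro h1; exact absurd h1 (by simp)
    · intro h1; exact absurd ⟨z, below_iff.2 h1⟩ h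

lemma nxt_none {x : Bool} {p : s.Sub x} : nxt p = none ↔ IsTop p := by
  unfold nxt
  split_ifs with h
  · constructor
    · intro h1; exact absurd h1 (by simp)
    · intro h1; obtain ⟨z, hz⟩ := h; exact absurd hz (h1 z)
  · constructor
    · intro _ z hz; exact h ⟨z, hz⟩
    · intro _; rfl

lemma prv_some {x : Bool} {p : s.Sub x} {z : s.Dbl} : prv p = some z ↔ p = abv z x := by
  cases p with
  | inl a =>
    constructor
    · intro h; exact absurd h (by simp [prv])
    · intro h; exact absurd h (by simp [abv])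
  | inr y =>
    constructor
    · intro h
      have : y = z := Option.some.inj h
      rw [this]; rfl
    · intro h
      have : y = z := Sum.inr.inj h
      rw [this]; rfl

/-- the double point at which the dart ends (none: an end point of the chord) -/
noncomputable def node (d : Dart s) : Option s.Dbl :=
  match d.b with
  | true => nxt d.p
  | false => prv d.p

lemma node_dz (z : s.Dbl) (x b : Bool) : node (dz z x b) = some z := by
  cases b
  · rfl
  · exact nxt_some.2 rfl

lemma eq_dz {d : Dart s} {z : s.Dbl} (h : node d = some z) : d = dz z d.x d.b := by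
  obtain ⟨x, p, b⟩ := d
  cases b
  · have h' : prv p = some z := h
    rw [prv_some] at h'
    subst h'; rfl
  · have h' : nxt p = some z := h
    rw [nxt_some] at h'
    subst h'; rfl

lemma dz_inj {z z' : s.Dbl} {x x' b b' : Bool} (h : dz z x b = dz z' x' b') :
    z = z' ∧ x = x' ∧ b = b' := by
  refine ⟨?_, ?_, ?_⟩
  · have := congrArg node h
    rw [node_dz, node_dz] at this
    exact Option.some.inj this
  · simpa using congrArg Dart.x h
  · simpa using congrArg Dart.b h

/-- `inn z x = true`: the inner half of the chord of colour `x` at `z` is the one above `z`.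
The two darts of colour `x` at `z`: -/
noncomputable def inD (inn : s.Dbl → Bool → Bool) (z : s.Dbl) (x : Bool) : Dart s :=
  dz z x (!inn z x)

noncomputable def outD (inn : s.Dbl → Bool → Bool) (z : s.Dbl) (x : Bool) : Dart s :=
  dz z x (inn z x)

open Classical in
/-- the walk at the double points: straight on outside `G`; at `z ∈ G` the outer half of each
colour is glued to the inner half of the other colour; fixed at the end points of the chords -/
noncomputable def tt (G : Set s.Dbl) (inn : s.Dbl → Bool → Bool) (d : Dart s) : Dart s :=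
  match node d with
  | none => d
  | some z => if z ∈ G then dz z (!d.x) (!((d.b ^^ inn z d.x) ^^ inn z (!d.x)))
      else dz z d.x (!d.b)

variable {G : Set s.Dbl} {inn : s.Dbl → Bool → Bool}

lemma tt_none {d : Dart s} (h : node d = none) : tt G inn d = d := by
  unfold tt; rw [h]

lemma tt_dz_in {z : s.Dbl} (hz : z ∈ G) (x b : Bool) :
    tt G inn (dz z x b) = dz z (!x) (!((b ^^ inn z x) ^^ inn z (!x))) := by
  unfold tt; rw [node_dz]
  simp only [if_pos hz, dz_x, dz_b]

lemma tt_dz_out {z : s.Dbl} (hz : z ∉ G) (x b : Bool) :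
    tt G inn (dz z x b) = dz z x (!b) := by
  unfold tt; rw [node_dz]
  simp only [if_neg hz, dz_x, dz_b]

lemma tt_outD {z : s.Dbl} (hz : z ∈ G) (x : Bool) :
    tt G inn (outD inn z x) = inD inn z (!x) := by
  unfold outD inD
  rw [tt_dz_in hz]
  simp

lemma tt_inD {z : s.Dbl} (hz : z ∈ G) (x : Bool) :
    tt G inn (inD inn z x) = outD inn z (!x) := by
  unfold outD inD
  rw [tt_dz_in hz]
  simp

lemma tt_tt (d : Dart s) : tt G inn (tt G inn d) = d := by
  rcases hn : node d with _ | z
  · rw [tt_none (d := d) hn, tt_none hn]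
  · have key : ∀ x b : Bool, tt G inn (tt G inn (dz z x b)) = dz z x b := by
      intro x b
      by_cases hz : z ∈ G
      · rw [tt_dz_in hz, tt_dz_in hz, Bool.not_not]
        congr 1
        cases b <;> cases inn z x <;> cases inn z (!x) <;> rfl
      · rw [tt_dz_out hz, tt_dz_out hz, Bool.not_not]
    have := key d.x d.b
    rwa [← eq_dz hn] at this

lemma tt_ne {d : Dart s} {z : s.Dbl} (h : node d = some z) : tt G inn d ≠ d := by
  have key : ∀ x b : Bool, tt G inn (dz z x b) ≠ dz z x b := by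
    intro x b
    by_cases hz : z ∈ G
    · rw [tt_dz_in hz]
      intro h'
      have := (dz_inj h').2.1
      cases x <;> simp at this
    · rw [tt_dz_out hz]
      intro h'
      have := (dz_inj h').2.2
      cases b <;> simp at this
  have := key d.x d.b
  rwa [← eq_dz h] at this

lemma tt_eq_iff {d : Dart s} : tt G inn d = d ↔ node d = none := by
  constructor
  · intro h
    rcases hn : node d with _ | z
    · rfl
    · exact absurd h (tt_ne hn)
  · exact tt_none

/-- the face of a dart -/
def fc (d : Dart s) : Φ := (chd d.p).1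

/-- the end point of the chord on the side of the dart -/
def pt (d : Dart s) : W :=
  match d.b with
  | true => s.mu (chd d.p).1 (chd d.p).2
  | false => (chd d.p).2

lemma fc_flip (d : Dart s) : fc (flip d) = fc d := rfl

lemma fc_dz (z : s.Dbl) (x b : Bool) : fc (dz z x b) = z.F := by
  cases b
  · rfl
  · show (chd (bel z x)).1 = z.F
    rw [below_chd (bel_spec z x)]

lemma fc_tt (d : Dart s) : fc (tt G inn d) = fc d := by
  rcases hn : node d with _ | z
  · rw [tt_none hn]
  · have h := eq_dz hn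
    rw [h, fc_dz]
    by_cases hz : z ∈ G
    · rw [tt_dz_in hz, fc_dz]
    · rw [tt_dz_out hz, fc_dz]

lemma pt_at (d : Dart s) : s.At (fc d) (pt d) := by
  obtain ⟨x, p, b⟩ := d
  cases b
  · exact chd_at p
  · exact At.mu s (chd_at p)

/-- one step of the walk -/
def Step (G : Set s.Dbl) (inn : s.Dbl → Bool → Bool) (d d' : Dart s) : Prop :=
  d' = flip d ∨ d' = tt G inn d

/-- the pieces of the re-glued chords -/
def Orb (G : Set s.Dbl) (inn : s.Dbl → Bool → Bool) : Type := Quot (Step G inn)

def orb (G : Set s.Dbl) (inn : s.Dbl → Bool → Bool) (d : Dart s) : Orb G inn :=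
  Quot.mk (Step G inn) d

lemma orb_flip (d : Dart s) : orb G inn (flip d) = orb G inn d :=
  (Quot.sound (r := Step G inn) (Or.inl rfl)).symm

lemma orb_tt (d : Dart s) : orb G inn (tt G inn d) = orb G inn d :=
  (Quot.sound (r := Step G inn) (Or.inr rfl)).symm

/-- the label of a sub-chord -/
def lb (G : Set s.Dbl) (inn : s.Dbl → Bool → Bool) {x : Bool} (p : s.Sub x) : Orb G inn :=
  orb G inn ⟨x, p, false⟩

lemma orb_eq_lb (d : Dart s) : orb G inn d = lb G inn d.p := by
  obtain ⟨x, p, b⟩ := d
  cases b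
  · rfl
  · exact orb_flip (⟨x, p, false⟩ : Dart s)

/-- face of an orbit -/
def Orb.fc : Orb G inn → Φ := Quot.lift Wk_689.fc (by
  rintro d d' (rfl | rfl)
  · rfl
  · exact (fc_tt d).symm)

lemma fc_orb (d : Dart s) : (orb G inn d).fc = fc d := rfl

/-- there is an end dart -/
lemma exists_ed {F : Φ} {w : W} (h : s.At F w) :
    ∃ d : Dart s, node d = none ∧ fc d = F ∧ pt d = w := by
  rcases lt_or_gt_of_ne (pos_ne s h (At.mu s h) (fun h' => s.mu_ne h.1 h.2 h'.symm)) with hl | hl
  · exact ⟨⟨col (s.lab w), Sum.inl ⟨(F, w), h, hl, rfl⟩, false⟩, rfl, rfl, rfl⟩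
  · obtain ⟨p, hp, ht⟩ := exists_top (At.mu s h) (by rw [s.mu_mu h.1 h.2]; exact hl)
    refine ⟨⟨_, p, true⟩, nxt_none.2 ht, ?_, ?_⟩
    · show (chd p).1 = F
      rw [hp]
    · show s.mu (chd p).1 (chd p).2 = w
      rw [hp]
      exact s.mu_mu h.1 h.2

/-- end darts are determined by their face and their point -/
lemma ed_unique {d d' : Dart s} (h : node d = none) (h' : node d' = none) (hf : fc d = fc d')
    (hp : pt d = pt d') : d = d' := by
  obtain ⟨x, p, b⟩ := d
  obtain ⟨x', p', b'⟩ := d'
  have hlo : ∀ (x : Bool) (p : s.Sub x) (b : Bool),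
      s.lo (fc (⟨x, p, b⟩ : Dart s)) (pt (⟨x, p, b⟩ : Dart s)) = (chd p).2 := by
    intro x p b
    cases b
    · exact lo_eq_of_lt (chd_low p)
    · exact lo_mu_of_lt (chd_at p) (chd_low p)
  have hc : chd p = chd p' := by
    apply Prod.ext
    · exact hf
    · rw [← hlo x p b, ← hlo x' p' b', hf, hp]
  have hx : x = x' := by
    rw [← chd_col p, ← chd_col p', hc]
  subst hx
  have hb : b = b' := by
    have e1 : pt (⟨x, p, b⟩ : Dart s) = pt (⟨x, p', b'⟩ : Dart s) := hp
    have hne : ∀ q : s.Sub x, s.mu (chd q).1 (chd q).2 ≠ (chd q).2 := fun q =>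
      s.mu_ne (chd_at q).1 (chd_at q).2
    cases b <;> cases b'
    · rfl
    · exfalso
      have e2 : (chd p).2 = s.mu (chd p').1 (chd p').2 := e1
      rw [hc] at e2
      exact hne p' e2.symm
    · exfalso
      have e2 : s.mu (chd p).1 (chd p).2 = (chd p').2 := e1
      rw [← hc] at e2
      exact hne p e2
    · rfl
  subst hb
  have hpp : p = p' := by
    cases b
    · cases p with
      | inl a =>
        cases p' with
        | inl a' => congr 1; exact Subtype.ext hc
        | inr z' => exact absurd h' (by simp [node, prv])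
      | inr z => exact absurd h (by simp [node, prv])
    · exact top_unique (nxt_none.1 h) (nxt_none.1 h') hc
  rw [hpp]

/-- the end dart of the chord of `w` on `F` at `w` -/
noncomputable def ed {F : Φ} {w : W} (h : s.At F w) : Dart s := (exists_ed h).choose

lemma node_ed {F : Φ} {w : W} (h : s.At F w) : node (ed h) = none := (exists_ed h).choose_spec.1
lemma fc_ed {F : Φ} {w : W} (h : s.At F w) : fc (ed h) = F := (exists_ed h).choose_spec.2.1
lemma pt_ed {F : Φ} {w : W} (h : s.At F w) : pt (ed h) = w := (exists_ed h).choose_spec.2.2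

lemma eq_ed {d : Dart s} (h : node d = none) {F : Φ} {w : W} (hF : fc d = F) (hw : pt d = w)
    (hat : s.At F w) : d = ed hat :=
  ed_unique h (node_ed hat) (hF.trans (fc_ed hat).symm) (hw.trans (pt_ed hat).symm)

/-- colour of an end dart -/
lemma x_ed {F : Φ} {w : W} (h : s.At F w) : (ed h).x = col (s.lab w) := by
  have h1 := chd_col (ed h).p
  have h2 : s.lab (pt (ed h)) = s.lab (chd (ed h).p).2 := by
    unfold pt
    split
    · exact s.mu_lab (chd_at (ed h).p).1 (chd_at (ed h).p).2
    · rfl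
  rw [← h1, ← h2, pt_ed h]

end Crest.Agent.R096.Wk_689
private theorem rz_cd97bc9128 : type_of% @_root_.Crest.Agent.R096.Wk_689.prv.eq_1 := @_root_.Crest.Agent.R096.Wk_689.prv.eq_1 -- L53
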