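import Mathlib
import Crest.Agent.R096.Wk3_689

-- ▼ part R096/Tig1_438
section

/-! Row 96, P3-TIGHT (helper438), part 1: two involutions of a finite type; following a path.

`s`, `t` are involutions, `s` has no fixed point; the fixed points of `t` (the ends of the paths)
are paired by the fixpoint-free involution `pr s t d = (s t)^(n/2) d`, `n` the minimal period. -/

set_option autoImplicit false

namespace Crest.Agent.R096.Tig_438

variable {D : Type*}

/-- `e` lies on the path (or circle) of `d`: every predicate stable under `s` and `t` which holds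
at `d` holds at `e` -/
def Conn (s t : D → D) (d e : D) : Prop :=
  ∀ F : D → Prop, (∀ x, F x → F (s x)) → (∀ x, F x → F (t x)) → F d → F e

theorem Conn.refl (s t : D → D) (d : D) : Conn s t d d := fun _ _ _ h => h

theorem Conn.trans {s t : D → D} {d e f : D} (h : Conn s t d e) (h' : Conn s t e f) :
    Conn s t d f := fun F hs ht hd => h' F hs ht (h F hs ht hd)

theorem Conn.s {s t : D → D} {d e : D} (h : Conn s t d e) : Conn s t d (s e) :=
  fun F hs ht hd => hs _ (h F hs ht hd)

theorem Conn.t {s t : D → D} {d e : D} (h : Conn s t d e) : Conn s t d (t e) :=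
  fun F hs ht hd => ht _ (h F hs ht hd)

theorem Conn.symm {s t : D → D} (hs : ∀ x, s (s x) = x) (ht : ∀ x, t (t x) = x) {d e : D}
    (h : Conn s t d e) : Conn s t e d := by
  intro F hFs hFt he
  by_contra hd
  have h1 := h (fun x => ¬ F x) (fun x hx hx' => hx (by have := hFs _ hx'; rwa [hs] at this))
    (fun x hx hx' => hx (by have := hFt _ hx'; rwa [ht] at this)) hd
  exact h1 he

/-- a function invariant under `s` and `t` is constant along the path -/
theorem Conn.eq {s t : D → D} {A : Type*} {f : D → A} (hs : ∀ x, f (s x) = f x)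
    (ht : ∀ x, f (t x) = f x) {d e : D} (h : Conn s t d e) : f e = f d :=
  h (fun x => f x = f d) (fun x hx => (hs x).trans hx) (fun x hx => (ht x).trans hx) rfl


theorem Conn.mem {s t : D → D} {S : D → Prop} (hSs : ∀ x, S x → S (s x))
    (hSt : ∀ x, S x → S (t x)) {d e : D} (h : Conn s t d e) (hd : S d) : S e := h S hSs hSt hd

/-- the other end of the path -/
noncomputable def pr (s t : D → D) (d : D) : D :=
  (fun x => s (t x))^[Function.minimalPeriod (fun x => s (t x)) d / 2] d

theorem conn_iterate (s t : D → D) (d : D) (n : ℕ) : Conn s t d ((fun x => s (t x))^[n] d) := by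
  induction n with
  | zero => exact Conn.refl _ _ _
  | succ n ih => rw [Function.iterate_succ_apply']; exact ih.t.s

theorem conn_pr (s t : D → D) (d : D) : Conn s t d (pr s t d) := conn_iterate _ _ _ _

section perm

variable (S T : Equiv.Perm D)

theorem zpow_conj (hS : S * S = 1) (hT : T * T = 1) (k : ℤ) : T * (S * T) ^ k = (S * T) ^ (-k) * T := by
  have hT' : T⁻¹ = T := inv_eq_of_mul_eq_one_left hT
  have hS' : S⁻¹ = S := inv_eq_of_mul_eq_one_left hS
  have h1 : T * (S * T) * T⁻¹ = (S * T)⁻¹ := by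
    rw [mul_inv_rev, hT', hS', mul_assoc, mul_assoc, hT, mul_one]
  have h2 : T * (S * T) ^ k * T⁻¹ = ((S * T)⁻¹) ^ k := by rw [← h1, conj_zpow]
  rw [← mul_inv_eq_iff_eq_mul, h2, inv_zpow, zpow_neg]

variable {S T}

theorem apply_T (hS : S * S = 1) (hT : T * T = 1) {d : D} (hd : T d = d) (k : ℤ) :
    T (((S * T) ^ k) d) = ((S * T) ^ (-k)) d := by
  have := congrArg (fun f : Equiv.Perm D => f d) (zpow_conj S T hS hT k)
  simpa [Equiv.Perm.mul_apply, hd] using this

theorem apply_S (hS : S * S = 1) (hT : T * T = 1) {d : D} (hd : T d = d) (k : ℤ) :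
    S (((S * T) ^ k) d) = ((S * T) ^ (1 - k)) d := by
  have hTT : ∀ x, T (T x) = x := fun x => by
    have := congrArg (fun f : Equiv.Perm D => f x) hT
    simpa [Equiv.Perm.mul_apply] using this
  have h0 : ∀ x, S x = (S * T) (T x) := fun x => by rw [Equiv.Perm.mul_apply, hTT]
  rw [h0 (((S * T) ^ k) d), apply_T hS hT hd, ← Equiv.Perm.mul_apply, ← zpow_one_add]
  congr 2

theorem zpow_eq_iff {π : Equiv.Perm D} {d : D} (i j : ℤ) :
    (π ^ i) d = (π ^ j) d ↔ (Function.minimalPeriod π d : ℤ) ∣ i - j := by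
  have h := MulAction.zpow_smul_eq_iff_minimalPeriod_dvd (a := π) (b := d) (n := i - j)
  have h2 : (fun x => π • x) = (π : D → D) := rfl
  rw [h2] at h
  rw [← h]
  constructor
  · intro h3
    have : (π ^ (i - j)) d = (π ^ (-j)) ((π ^ i) d) := by
      rw [← Equiv.Perm.mul_apply, ← zpow_add]; congr 2; ring
    show (π ^ (i - j)) d = d
    rw [this, h3, ← Equiv.Perm.mul_apply, ← zpow_add]; simp
  · intro h3
    have h4 : (π ^ (i - j)) d = d := h3
    have : (π ^ i) d = (π ^ j) ((π ^ (i - j)) d) := by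
      rw [← Equiv.Perm.mul_apply, ← zpow_add]; congr 2; ring
    rw [this, h4]

end perm

section pair

variable {s t : D → D} (hs : ∀ x, s (s x) = x) (ht : ∀ x, t (t x) = x)
  (hsn : ∀ x, s x ≠ x)

/-- the permutation of an involution -/
def ofInv (s : D → D) (hs : ∀ x, s (s x) = x) : Equiv.Perm D := ⟨s, s, hs, hs⟩

@[simp] theorem ofInv_apply (x : D) : ofInv s hs x = s x := rfl

theorem ofInv_mul_self : ofInv s hs * ofInv s hs = 1 := by
  ext x; simp [Equiv.Perm.mul_apply, hs]

theorem coe_st : ((ofInv s hs * ofInv t ht : Equiv.Perm D) : D → D) = fun x => s (t x) := by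
  funext x; simp [Equiv.Perm.mul_apply]

include hs ht

theorem iterate_eq (n : ℕ) (d : D) :
    (fun x => s (t x))^[n] d = ((ofInv s hs * ofInv t ht) ^ (n : ℤ)) d := by
  rw [zpow_natCast, ← coe_st hs ht, ← Equiv.Perm.iterate_eq_pow]

include hsn

variable [Finite D]

theorem minimalPeriod_even {d : D} (hd : t d = d) :
    ∃ m, 0 < m ∧ Function.minimalPeriod (fun x => s (t x)) d = 2 * m := by
  have hS := ofInv_mul_self hs
  have hT := ofInv_mul_self ht
  have hd' : ofInv t ht d = d := hd
  have hpos : 0 < Function.minimalPeriod (fun x => s (t x)) d := by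
    rw [← coe_st hs ht]
    exact Function.minimalPeriod_pos_of_mem_periodicPts
      ((ofInv s hs * ofInv t ht).injective.mem_periodicPts d)
  rcases Nat.even_or_odd' (Function.minimalPeriod (fun x => s (t x)) d) with ⟨m, hm | hm⟩
  · exact ⟨m, by omega, hm⟩
  · exfalso
    have h1 := apply_S hS hT hd' ((m : ℤ) + 1)
    have h2 : ((ofInv s hs * ofInv t ht) ^ (1 - ((m : ℤ) + 1))) d =
        ((ofInv s hs * ofInv t ht) ^ ((m : ℤ) + 1)) d := by
      rw [zpow_eq_iff, coe_st hs ht, hm]
      exact ⟨-1, by push_cast; ring⟩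
    rw [h2] at h1
    exact hsn _ h1

theorem t_pr {d : D} (hd : t d = d) : t (pr s t d) = pr s t d := by
  obtain ⟨m, hm, h⟩ := minimalPeriod_even hs ht hsn hd
  have hS := ofInv_mul_self hs
  have hT := ofInv_mul_self ht
  have hd' : ofInv t ht d = d := hd
  unfold pr
  rw [h, Nat.mul_div_cancel_left _ (by norm_num), iterate_eq hs ht]
  have h1 := apply_T hS hT hd' (m : ℤ)
  rw [ofInv_apply] at h1
  rw [h1, zpow_eq_iff, coe_st hs ht, h]
  exact ⟨-1, by push_cast; ring⟩

theorem pr_ne {d : D} (hd : t d = d) : pr s t d ≠ d := by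
  obtain ⟨m, hm, h⟩ := minimalPeriod_even hs ht hsn hd
  unfold pr
  rw [h, Nat.mul_div_cancel_left _ (by norm_num), iterate_eq hs ht]
  intro h1
  have h2 : ((ofInv s hs * ofInv t ht) ^ (m : ℤ)) d = ((ofInv s hs * ofInv t ht) ^ (0 : ℤ)) d := by
    simpa using h1
  rw [zpow_eq_iff, coe_st hs ht, h] at h2
  obtain ⟨k, hk⟩ := h2
  push_cast at hk
  have : (m : ℤ) * (1 - 2 * k) = 0 := by linarith
  rcases mul_eq_zero.1 this with h3 | h3 <;> omega

/-- the ends of the path of `p` are `p` and `pr s t p` -/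
theorem end_unique {p e : D} (hp : t p = p) (he : t e = e) (hc : Conn s t p e) :
    e = p ∨ e = pr s t p := by
  obtain ⟨m, hm, h⟩ := minimalPeriod_even hs ht hsn hp
  have hS := ofInv_mul_self hs
  have hT := ofInv_mul_self ht
  have hp' : ofInv t ht p = p := hp
  have h1 : ∃ k : ℤ, e = ((ofInv s hs * ofInv t ht) ^ k) p := by
    refine hc (fun x => ∃ k : ℤ, x = ((ofInv s hs * ofInv t ht) ^ k) p) ?_ ?_ ⟨0, by simp⟩
    · rintro x ⟨k, rfl⟩
      exact ⟨1 - k, by have := apply_S hS hT hp' k; simpa using this⟩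
    · rintro x ⟨k, rfl⟩
      exact ⟨-k, by have := apply_T hS hT hp' k; rw [ofInv_apply] at this; exact this⟩
  obtain ⟨k, rfl⟩ := h1
  have h2 := apply_T hS hT hp' k
  rw [ofInv_apply, he, zpow_eq_iff, coe_st hs ht, h] at h2
  obtain ⟨j, hj⟩ := h2
  push_cast at hj
  have hkj : k = m * j := by linarith
  rcases Int.even_or_odd' j with ⟨i, hi | hi⟩
  · left
    have : ((ofInv s hs * ofInv t ht) ^ k) p = ((ofInv s hs * ofInv t ht) ^ (0 : ℤ)) p := by
      rw [zpow_eq_iff, coe_st hs ht, h, hkj, hi]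
      exact ⟨i, by push_cast; ring⟩
    simpa using this
  · right
    unfold pr
    rw [h, Nat.mul_div_cancel_left _ (by norm_num), iterate_eq hs ht, zpow_eq_iff,
      coe_st hs ht, h, hkj, hi]
    exact ⟨i, by push_cast; ring⟩

theorem pr_pr {d : D} (hd : t d = d) : pr s t (pr s t d) = d := by
  have h1 := t_pr hs ht hsn hd
  have h2 := t_pr hs ht hsn h1
  have hc : Conn s t d (pr s t (pr s t d)) := (conn_pr s t d).trans (conn_pr s t _)
  rcases end_unique hs ht hsn hd h2 hc with h | h
  · exact h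
  · exact absurd h (pr_ne hs ht hsn h1)

end pair

end Crest.Agent.R096.Tig_438
end

-- ▼ part R096/Wk4_689

/-!
# R096 / P3 / FACE (4): the new partner `mu'`, ends of orbits
-/

set_option autoImplicit false

namespace Crest.Agent.R096.Wk_689
open St_147 Fx_689

variable {ι Φ W I : Type} {M : MeshC ι Φ W} {col : I → Bool} {s : St M col}

instance (x : Bool) : Finite (s.Sub x) := by
  have hfin : {F : Φ | ∃ w ∈ s.P, w ∈ M.On F}.Finite := by
    have : {F : Φ | ∃ w ∈ s.P, w ∈ M.On F} = ⋃ w ∈ s.P, {F | w ∈ M.On F} := by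
      ext F; simp
    rw [this]
    exact s.P.finite_toSet.biUnion (fun w _ => M.fin w)
  have := hfin.to_subtype
  have h1 : Finite {p : Φ × W // s.At p.1 p.2 ∧ M.pos p.1 p.2 < M.pos p.1 (s.mu p.1 p.2) ∧
      col (s.lab p.2) = x} := by
    apply Finite.of_injective
      (fun a => ((⟨a.1.1, ⟨a.1.2, a.2.1.1, a.2.1.2⟩⟩, ⟨a.1.2, a.2.1.1⟩) :
        (↥{F : Φ | ∃ w ∈ s.P, w ∈ M.On F}) × {a // a ∈ s.P}))
    intro a b h
    simp only [Prod.mk.injEq, Subtype.mk.injEq] at h
    exact Subtype.ext (Prod.ext h.1 h.2)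
  exact inferInstanceAs (Finite ({p : Φ × W // s.At p.1 p.2 ∧
    M.pos p.1 p.2 < M.pos p.1 (s.mu p.1 p.2) ∧ col (s.lab p.2) = x} ⊕ s.Dbl))

instance : Finite (Dart s) := by
  apply Finite.of_injective (fun d : Dart s => (⟨d.x, d.p, d.b⟩ : (x : Bool) × s.Sub x × Bool))
  intro d d' h
  obtain ⟨x, p, b⟩ := d
  obtain ⟨x', p', b'⟩ := d'
  simp only [Sigma.mk.injEq] at h
  obtain ⟨rfl, h⟩ := h
  simp only [heq_eq_eq, Prod.mk.injEq] at h
  rw [h.1, h.2]

variable {G : Set s.Dbl} {inn : s.Dbl → Bool → Bool}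

lemma orb_eq_iff {d d' : Dart s} :
    orb G inn d = orb G inn d' ↔ Tig_438.Conn flip (tt G inn) d d' := by
  constructor
  · intro h F hs ht hd
    have key : ∀ e : Dart s, (F e ↔ F (flip e)) ∧ (F e ↔ F (tt G inn e)) := by
      intro e
      refine ⟨⟨hs e, fun h => ?_⟩, ⟨ht e, fun h => ?_⟩⟩
      · have := hs _ h; rwa [flip_flip] at this
      · have := ht _ h; rwa [tt_tt] at this
    let f : Orb G inn → Prop := Quot.lift F (by
      rintro a b (rfl | rfl)
      · exact propext (key a).1
      · exact propext (key a).2)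
    have h1 : f (orb G inn d) = f (orb G inn d') := by rw [h]
    have h2 : F d = F d' := h1
    exact h2.mp hd
  · intro h
    exact h (fun e => orb G inn d = orb G inn e) (fun e he => he.trans (orb_flip e).symm)
      (fun e he => he.trans (orb_tt e).symm) rfl

open Classical in
/-- the new partner: the other end of the walk -/
noncomputable def mu' (G : Set s.Dbl) (inn : s.Dbl → Bool → Bool) (F : Φ) (w : W) : W :=
  if h : s.At F w then pt (Tig_438.pr flip (tt G inn) (ed h)) else w

lemma pr_node {F : Φ} {w : W} (h : s.At F w) :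
    node (Tig_438.pr flip (tt G inn) (ed h)) = none :=
  tt_eq_iff.1 (Tig_438.t_pr flip_flip tt_tt flip_ne (tt_eq_iff.2 (node_ed h)))

lemma orb_pr {F : Φ} {w : W} (h : s.At F w) :
    orb G inn (Tig_438.pr flip (tt G inn) (ed h)) = orb G inn (ed h) :=
  (orb_eq_iff.2 (Tig_438.conn_pr flip (tt G inn) (ed h))).symm

lemma pr_fc {F : Φ} {w : W} (h : s.At F w) :
    fc (Tig_438.pr flip (tt G inn) (ed h)) = F := by
  rw [← fc_orb (G := G) (inn := inn), orb_pr, fc_orb, fc_ed]

lemma mu'_at (G : Set s.Dbl) (inn : s.Dbl → Bool → Bool) {F : Φ} {w : W} (h : s.At F w) :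
    s.At F (mu' G inn F w) := by
  unfold mu'
  rw [dif_pos h]
  have := pt_at (Tig_438.pr flip (tt G inn) (ed h))
  rwa [pr_fc h] at this

lemma ed_mu' {F : Φ} {w : W} (h : s.At F w) :
    ed (mu'_at G inn h) = Tig_438.pr flip (tt G inn) (ed h) := by
  symm
  apply eq_ed (pr_node h) (pr_fc h)
  unfold mu'
  rw [dif_pos h]

lemma orb_mu' {F : Φ} {w : W} (h : s.At F w) :
    orb G inn (ed (mu'_at G inn h)) = orb G inn (ed h) := by
  rw [ed_mu', orb_pr]

lemma mu'_ne {F : Φ} {w : W} (h : s.At F w) : mu' G inn F w ≠ w := by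
  intro h'
  have h1 := Tig_438.pr_ne flip_flip (tt_tt (G := G) (inn := inn)) flip_ne
    (tt_eq_iff.2 (node_ed h))
  apply h1
  apply ed_unique (pr_node h) (node_ed h) ((pr_fc h).trans (fc_ed h).symm)
  rw [pt_ed h]
  unfold mu' at h'
  rwa [dif_pos h] at h'

lemma ed_inj {F F' : Φ} {w w' : W} (h : s.At F w) (h' : s.At F' w') (he : ed h = ed h') :
    F = F' ∧ w = w' := by
  constructor
  · rw [← fc_ed h, he, fc_ed]
  · rw [← pt_ed h, he, pt_ed]

lemma mu'_mu' {F : Φ} {w : W} (h : s.At F w) : mu' G inn F (mu' G inn F w) = w := by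
  have h1 := mu'_at G inn h
  have h2 : ed (mu'_at G inn h1) = ed h := by
    rw [ed_mu' h1, ed_mu' h]
    exact Tig_438.pr_pr flip_flip tt_tt flip_ne (tt_eq_iff.2 (node_ed h))
  exact (ed_inj _ _ h2).2

/-- the end darts of an orbit -/
lemma orb_ed_iff {F F' : Φ} {w w' : W} (h : s.At F w) (h' : s.At F' w') :
    orb G inn (ed h') = orb G inn (ed h) ↔ F' = F ∧ (w' = w ∨ w' = mu' G inn F w) := by
  constructor
  · intro he
    have hF : F' = F := by
      have := congrArg Orb.fc he
      rwa [fc_orb, fc_orb, fc_ed, fc_ed] at this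
    subst hF
    refine ⟨rfl, ?_⟩
    have hc := orb_eq_iff.1 he.symm
    rcases Tig_438.end_unique flip_flip tt_tt flip_ne (tt_eq_iff.2 (node_ed h))
      (tt_eq_iff.2 (node_ed h')) hc with h1 | h1
    · left; exact (ed_inj _ _ h1).2
    · right
      rw [← ed_mu' h] at h1
      exact (ed_inj _ _ h1).2
  · rintro ⟨rfl, rfl | rfl⟩
    · rfl
    · exact orb_mu' h

/-- `c` = a chord without points of `G`: the darts of the chord are stable -/
lemma chd_tt {d : Dart s} (hG : ∀ z ∈ G, (z.F, z.e d.x) ≠ chd d.p) :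
    (tt G inn d).x = d.x ∧ chd (tt G inn d).p = chd d.p := by
  rcases hn : node d with _ | z
  · rw [tt_none hn]; exact ⟨rfl, rfl⟩
  · have h := eq_dz hn
    have hc : chd d.p = (z.F, z.e d.x) := by
      have key : ∀ x b : Bool, chd (dz z x b).p = (z.F, z.e (dz z x b).x) := by
        intro x b
        cases b
        · rfl
        · exact below_chd (bel_spec z x)
      have := key d.x d.b
      rwa [← h] at this
    have hz : z ∉ G := fun hz => hG z hz hc.symm
    have h2 : tt G inn d = dz z d.x (!d.b) := by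
      conv_lhs => rw [h]
      rw [tt_dz_out hz]
    rw [h2]
    refine ⟨dz_x _ _ _, ?_⟩
    rw [hc]
    have key : ∀ x b : Bool, chd (dz z x b).p = (z.F, z.e x) := by
      intro x b
      cases b
      · rfl
      · exact below_chd (bel_spec z x)
    exact key _ _

/-- the chord of an end dart -/
lemma chd_ed {F : Φ} {w : W} (h : s.At F w) : chd (ed h).p = (F, s.lo F w) := by
  have h1 : (chd (ed h).p).1 = F := fc_ed h
  have h2 : s.lo (fc (ed h)) (pt (ed h)) = (chd (ed h).p).2 := by
    unfold pt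
    split
    · exact lo_mu_of_lt (chd_at _) (chd_low _)
    · exact lo_eq_of_lt (chd_low _)
  rw [fc_ed h, pt_ed h] at h2
  exact Prod.ext h1 h2.symm

/-- a chord which carries no point of `G` keeps its ends -/
theorem mu'_eq_mu {F : Φ} {w : W} (h : s.At F w)
    (hG : ∀ z ∈ G, z.F = F → z.e (col (s.lab w)) ≠ s.lo F w) : mu' G inn F w = s.mu F w := by
  have hstab : ∀ d : Dart s, (d.x = (ed h).x ∧ chd d.p = chd (ed h).p) →
      ((tt G inn d).x = (ed h).x ∧ chd (tt G inn d).p = chd (ed h).p) := by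
    rintro d ⟨h1, h2⟩
    have h3 := chd_tt (inn := inn) (d := d) (G := G) (by
      intro z hz h4
      rw [h2, chd_ed h] at h4
      rw [h1, x_ed h] at h4
      simp only [Prod.mk.injEq] at h4
      exact hG z hz h4.1 h4.2)
    exact ⟨h3.1.trans h1, h3.2.trans h2⟩
  have hc := Tig_438.conn_pr flip (tt G inn) (ed h)
    (fun d => d.x = (ed h).x ∧ chd d.p = chd (ed h).p) (fun d hd => hd) hstab ⟨rfl, rfl⟩
  have h5 : s.lo F (mu' G inn F w) = s.lo F w := by
    have h6 := hc.2
    rw [← ed_mu' h, chd_ed, chd_ed] at h6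
    exact (Prod.mk.inj h6).2
  have h7 := mu'_ne (G := G) (inn := inn) h
  have hm := s.mu_mu h.1 h.2
  have hm' := s.mu_mu (mu'_at G inn h).1 (mu'_at G inn h).2
  unfold St.lo at h5
  split_ifs at h5 with a1 a2 a2
  · exact absurd h5 h7
  · exact h5
  · rw [h5] at hm'
    exact hm'.symm
  · have := congrArg (s.mu F) h5
    rw [hm, hm'] at this
    exact absurd this h7

end Crest.Agent.R096.Wk_689
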