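import Crest.Agent.R096.Sd2_161_Mg
import Crest.Agent.R096.Wk4_689

-- ▼ part R096/St6_147
section

/-!
# R096 / P3: regions, innermost discs, names (first half of File E)
-/

set_option autoImplicit false

namespace Crest.Agent.R096.St_147

open Wk_689

variable {ι Φ W I : Type} {M : MeshC ι Φ W} {col : I → Bool} {s : St M col}
variable {Act : Set ι} {A : s.Arcs Act} {τ : Bool → ι → s.Dbl → ZMod 2} {G : Set s.Dbl}
variable {far : I → Set W} {D : s.Dbl → Bool → Dart s → ZMod 2}

theorem z2 (a : ZMod 2) : a = 0 ∨ a = 1 := by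
  revert a; decide

theorem z2_ne {a : ZMod 2} (h : a ≠ 1) : a = 0 := (z2 a).resolve_right h

theorem z2_ne0 {a : ZMod 2} (h : a ≠ 0) : a = 1 := (z2 a).resolve_left h

/-! ### double curves -/

theorem cv_refl (A : s.Arcs Act) (z : s.Dbl) : z ∈ A.cv z := Relation.ReflTransGen.refl

theorem cv_trans {z u v : s.Dbl} (h : u ∈ A.cv z) (h' : v ∈ A.cv u) : v ∈ A.cv z :=
  Relation.ReflTransGen.trans h h'

theorem cv_sub (hG : A.Closed G) {z u : s.Dbl} (hz : z ∈ G) (h : u ∈ A.cv z) : u ∈ G := by
  induction h with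
  | refl => exact hz
  | tail _ h ih =>
    obtain ⟨q, hq, rfl⟩ := h
    exact (hG _ ih q hq).2

theorem cv_arc {z : s.Dbl} {q : ι} (hq : q ∈ M.side z.F) : A.arc q z ∈ A.cv z :=
  Relation.ReflTransGen.single ⟨q, hq, rfl⟩

theorem cv_symm (hG : A.Closed G) {z u : s.Dbl} (hz : z ∈ G) (h : u ∈ A.cv z) : z ∈ A.cv u := by
  induction h with
  | refl => exact cv_refl A z
  | @tail u v h1 h ih =>
    obtain ⟨q, hq, rfl⟩ := h
    have hu := cv_sub hG hz h1
    have hA := (hG _ hu q hq).1
    refine cv_trans ?_ ih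
    have := cv_arc (A := A) (z := A.arc q u) (q := q) (A.mem hA hq)
    rwa [A.inv hA hq] at this

theorem cv_eq (hG : A.Closed G) {z u : s.Dbl} (hz : z ∈ G) (h : u ∈ A.cv z) :
    A.cv u = A.cv z := by
  ext v
  exact ⟨fun hv => cv_trans h hv, fun hv => cv_trans (cv_symm hG hz h) hv⟩

theorem arc_notin (hG : A.Closed G) {z : s.Dbl} {q : ι} (hz : z ∉ G) (hA : q ∈ Act)
    (hq : q ∈ M.side z.F) : A.arc q z ∉ G := by
  intro h
  have := (hG _ h q (A.mem hA hq)).2
  rw [A.inv hA hq] at this
  exact hz this

/-! ### inner and outer darts -/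

open Classical in
/-- the inner half at `z` of colour `x` is the piece above `z` -/
noncomputable def innD (D : s.Dbl → Bool → Dart s → ZMod 2) (z : s.Dbl) (x : Bool) : Bool :=
  decide (D z x (dz z x false) = 1)

theorem inD_x (inn : s.Dbl → Bool → Bool) (z : s.Dbl) (x : Bool) : (inD inn z x).x = x := dz_x _ _ _
theorem outD_x (inn : s.Dbl → Bool → Bool) (z : s.Dbl) (x : Bool) : (outD inn z x).x = x :=
  dz_x _ _ _

theorem lab_dz (z : s.Dbl) (x b : Bool) : s.lab (pt (dz z x b)) = s.lab (z.e x) := by
  rw [lab_pt]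
  cases b
  · rfl
  · show s.lab (chd (bel z x)).2 = _
    rw [below_chd (bel_spec z x)]

theorem D_in (hD : DD A τ G far D) {z : s.Dbl} (hz : z ∈ G) (x : Bool) :
    D z x (inD (innD D) z x) = 1 := by
  unfold inD innD
  by_cases h : D z x (dz z x false) = 1
  · simp [h]
  · have h1 := hD.jump_in z hz z (cv_refl A z) x
    rw [z2_ne h, add_zero] at h1
    simpa [h] using h1

theorem D_out (hD : DD A τ G far D) {z : s.Dbl} (hz : z ∈ G) (x : Bool) :
    D z x (outD (innD D) z x) = 0 := by
  unfold outD innD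
  by_cases h : D z x (dz z x false) = 1
  · have h1 := hD.jump_in z hz z (cv_refl A z) x
    rw [h] at h1
    have h2 : D z x (dz z x true) = 0 := by simpa using h1
    simpa [h] using h2
  · have h2 := z2_ne h
    simpa [h] using h2

theorem D_in' (hD : DD A τ G far D) (hG : A.Closed G) {z u : s.Dbl} (hz : z ∈ G)
    (hu : u ∈ A.cv z) (x : Bool) : D z x (inD (innD D) u x) = 1 := by
  rw [← hD.congr z hz u hu]
  exact D_in hD (cv_sub hG hz hu) x

theorem D_out' (hD : DD A τ G far D) (hG : A.Closed G) {z u : s.Dbl} (hz : z ∈ G)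
    (hu : u ∈ A.cv z) (x : Bool) : D z x (outD (innD D) u x) = 0 := by
  rw [← hD.congr z hz u hu]
  exact D_out hD (cv_sub hG hz hu) x

theorem D_any (hD : DD A τ G far D) {z u : s.Dbl} (hz : z ∈ G) (hu : u ∉ A.cv z) (x b b' : Bool) :
    D z x (dz u x b) = D z x (dz u x b') := by
  have h := hD.jump_out z hz u hu x
  cases b <;> cases b'
  · rfl
  · exact h.symm
  · exact h
  · rfl

/-! ### regions -/

/-- same colour, same sheet, in the same inner discs -/
structure Reg (G : Set s.Dbl) (D : s.Dbl → Bool → Dart s → ZMod 2) (d d' : Dart s) : Prop where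
  hx : d'.x = d.x
  hl : s.lab (pt d') = s.lab (pt d)
  hD : ∀ z ∈ G, D z d.x d' = D z d.x d

theorem Reg.symm {d d' : Dart s} (h : Reg G D d d') : Reg G D d' d :=
  ⟨h.hx.symm, h.hl.symm, fun z hz => by rw [h.hx]; exact (h.hD z hz).symm⟩

theorem Reg.trans {d d' d'' : Dart s} (h : Reg G D d d') (h' : Reg G D d' d'') :
    Reg G D d d'' :=
  ⟨h'.hx.trans h.hx, h'.hl.trans h.hl, fun z hz => by
    have := h'.hD z hz
    rw [h.hx] at this
    exact this.trans (h.hD z hz)⟩

theorem reg_flip (hD : DD A τ G far D) (d : Dart s) : Reg G D d (flip d) where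
  hx := rfl
  hl := by rw [lab_pt, lab_pt]; rfl
  hD := fun z hz => hD.fl z hz _ d

theorem reg_ed (hD : DD A τ G far D) {F F' : Φ} {w : W} (h : s.At F w) (h' : s.At F' w) :
    Reg G D (ed h) (ed h') where
  hx := by rw [x_ed, x_ed]
  hl := by rw [pt_ed, pt_ed]
  hD := fun z hz => hD.cont z hz _ F' F w h' h

theorem reg_dz (hD : DD A τ G far D) (hG : A.Closed G) {u : s.Dbl} (hu : u ∉ G) (x b b' : Bool) :
    Reg G D (dz u x b) (dz u x b') where
  hx := by rw [dz_x, dz_x]
  hl := by rw [lab_dz, lab_dz]
  hD := fun z hz => by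
    rw [dz_x]
    exact D_any hD hz (fun h => hu (cv_sub hG hz h)) _ _ _

theorem lab_cv (hD : DD A τ G far D) (hG : A.Closed G) {z u : s.Dbl} (hz : z ∈ G)
    (hu : u ∈ A.cv z) (x : Bool) : s.lab (u.e x) = s.lab (z.e x) := by
  have h := hD.supp z hz x (inD (innD D) u x) (by rw [D_in' hD hG hz hu]; exact one_ne_zero)
  have h2 := h.2
  unfold inD at h2
  rwa [lab_dz] at h2

/-- the value along a curve `z → u` not on the curve of `z₁` -/
theorem D_along (hD : DD A τ G far D) (hG : A.Closed G) {z₁ z u : s.Dbl} (hz₁ : z₁ ∈ G)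
    (hz : z ∈ G) (hn : z ∉ A.cv z₁) (hu : u ∈ A.cv z) (x : Bool) :
    D z₁ x (dz z x false) = D z₁ x (dz u x false) := by
  induction hu with
  | refl => rfl
  | @tail u v h1 h ih =>
    obtain ⟨q, hq, rfl⟩ := h
    have hu : u ∈ G := cv_sub hG hz h1
    have hn' : u ∉ A.cv z₁ := fun h => hn (cv_trans h (cv_symm hG hz h1))
    rw [ih]
    exact hD.along z₁ hz₁ u hn' x q (hG u hu q hq).1 hq

theorem reg_out (hD : DD A τ G far D) (hG : A.Closed G) {z u : s.Dbl} (hz : z ∈ G)
    (hu : u ∈ A.cv z) (x : Bool) : Reg G D (outD (innD D) z x) (outD (innD D) u x) where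
  hx := by rw [outD_x, outD_x]
  hl := by unfold outD; rw [lab_dz, lab_dz, lab_cv hD hG hz hu]
  hD := fun z₁ hz₁ => by
    rw [outD_x]
    by_cases h : z ∈ A.cv z₁
    · rw [D_out' hD hG hz₁ h, D_out' hD hG hz₁ (cv_trans h hu)]
    · have h' : u ∉ A.cv z₁ := fun h1 => h (cv_trans h1 (cv_symm hG hz hu))
      unfold outD
      rw [D_any hD hz₁ h' x _ false, D_any hD hz₁ h x _ false, D_along hD hG hz₁ hz h hu]

theorem reg_in (hD : DD A τ G far D) (hG : A.Closed G) {z u : s.Dbl} (hz : z ∈ G)
    (hu : u ∈ A.cv z) (x : Bool) : Reg G D (inD (innD D) z x) (inD (innD D) u x) where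
  hx := by rw [inD_x, inD_x]
  hl := by unfold inD; rw [lab_dz, lab_dz, lab_cv hD hG hz hu]
  hD := fun z₁ hz₁ => by
    rw [inD_x]
    by_cases h : z ∈ A.cv z₁
    · rw [D_in' hD hG hz₁ h, D_in' hD hG hz₁ (cv_trans h hu)]
    · have h' : u ∉ A.cv z₁ := fun h1 => h (cv_trans h1 (cv_symm hG hz hu))
      unfold inD
      rw [D_any hD hz₁ h' x _ false, D_any hD hz₁ h x _ false, D_along hD hG hz₁ hz h hu]

/-! ### innermost discs -/

/-- the disc of `z` is the innermost one which contains `d` -/
structure Inm (G : Set s.Dbl) (D : s.Dbl → Bool → Dart s → ZMod 2) (z : s.Dbl) (d : Dart s) :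
    Prop where
  mem : z ∈ G
  val : D z d.x d = 1
  le : ∀ z' ∈ G, D z' d.x d = 1 → ∀ d', D z d.x d' = 1 → D z' d.x d' = 1

theorem Inm.congr {z : s.Dbl} {d d' : Dart s} (h : Inm G D z d) (hr : Reg G D d d') :
    Inm G D z d' where
  mem := h.mem
  val := by rw [hr.hx, hr.hD z h.mem]; exact h.val
  le := fun z' hz' h1 d'' h2 => by
    rw [hr.hx] at h1 h2 ⊢
    rw [hr.hD z' hz'] at h1
    exact h.le z' hz' h1 d'' h2

theorem Inm.cv (hD : DD A τ G far D) {z z' : s.Dbl} {d : Dart s} (h : Inm G D z d)
    (h' : Inm G D z' d) : z' ∈ A.cv z := by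
  have heq : ∀ d', D z d.x d' = D z' d.x d' := by
    intro d'
    by_cases h1 : D z d.x d' = 1
    · rw [h1, h.le z' h'.mem h'.val d' h1]
    · by_cases h2 : D z' d.x d' = 1
      · exact absurd (h'.le z h.mem h.val d' h2) h1
      · rw [z2_ne h1, z2_ne h2]
  by_contra hn
  have h1 := hD.jump_in z' h'.mem z' (cv_refl A z') d.x
  have h2 := hD.jump_out z h.mem z' hn d.x
  rw [← heq, ← heq, h2, add_self2] at h1
  exact zero_ne_one h1


theorem inm_in (hD : DD A τ G far D) {z : s.Dbl} (hz : z ∈ G) (x : Bool) :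
    Inm G D z (inD (innD D) z x) where
  mem := hz
  val := by rw [inD_x]; exact D_in hD hz x
  le := fun z' hz' h1 d' h2 => by
    rw [inD_x] at h1 h2 ⊢
    rcases hD.lam z hz z' hz' x _ (D_in hD hz x) h1 with h3 | h3
    · exact h3 d' h2
    · by_cases h4 : z ∈ A.cv z'
      · rw [← hD.congr z' hz' z h4]
        exact h2
      · exfalso
        have h5 : D z' x (outD (innD D) z x) = 1 := by
          unfold outD
          unfold inD at h1
          rw [D_any hD hz' h4 x _ (!innD D z x)]
          exact h1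
        have h6 := h3 _ h5
        rw [D_out hD hz] at h6
        exact zero_ne_one h6

/-! ### names -/

/-- `Nm d i n`: the parent chain of the region of `d` ends after `n` steps in the root region of
the sheet `i` -/
inductive Nm (G : Set s.Dbl) (D : s.Dbl → Bool → Dart s → ZMod 2) : Dart s → I → ℕ → Prop
  | root (d : Dart s) (h : ∀ z ∈ G, D z d.x d = 0) : Nm G D d (s.lab (pt d)) 0
  | step (d : Dart s) (z : s.Dbl) (i : I) (n : ℕ) (h : Inm G D z d)
      (h' : Nm G D (outD (innD D) z (!d.x)) i n) : Nm G D d i (n + 1)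

theorem Nm.congr {d d' : Dart s} {i : I} {n : ℕ} (h : Nm G D d i n) (hr : Reg G D d d') :
    Nm G D d' i n := by
  cases h with
  | root _ h =>
    rw [← hr.hl]
    exact Nm.root d' (fun z hz => by rw [hr.hx, hr.hD z hz]; exact h z hz)
  | step _ z _ n h h' => exact Nm.step d' z i n (h.congr hr) (by rw [hr.hx]; exact h')

theorem Nm.unique (hD : DD A τ G far D) (hG : A.Closed G) {d : Dart s} {i j : I} {n m : ℕ}
    (h : Nm G D d i n) (h' : Nm G D d j m) : i = j ∧ n = m := by
  induction h generalizing j m with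
  | root d h =>
    cases h' with
    | root _ _ => exact ⟨rfl, rfl⟩
    | step _ z _ m h1 h2 =>
      exfalso
      have := h z h1.mem
      rw [h1.val] at this
      exact one_ne_zero this
  | step d z i n h h1 ih =>
    cases h' with
    | root _ h2 =>
      exfalso
      have := h2 z h.mem
      rw [h.val] at this
      exact one_ne_zero this
    | step _ z' _ m h2 h3 =>
      have h4 := h2.cv hD h
      have h5 := ih (h3.congr (reg_out hD hG h2.mem h4 _))
      exact ⟨h5.1, by rw [h5.2]⟩

/-- one step of the chain at an inner dart -/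
theorem nm_in_iff (hD : DD A τ G far D) (hG : A.Closed G) {z : s.Dbl} (hz : z ∈ G) (x : Bool)
    {i : I} {n : ℕ} :
    Nm G D (inD (innD D) z x) i (n + 1) ↔ Nm G D (outD (innD D) z (!x)) i n := by
  constructor
  · intro h
    cases h with
    | step _ z' _ n h1 h2 =>
      rw [inD_x] at h2
      have h3 := h1.cv hD (inm_in hD hz x)
      exact h2.congr (reg_out hD hG h1.mem h3 _)
  · intro h
    refine Nm.step _ z i n (inm_in hD hz x) ?_
    rw [inD_x]
    exact h

theorem nm_in_pos (hD : DD A τ G far D) {z : s.Dbl} (hz : z ∈ G) (x : Bool)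
    {i : I} {n : ℕ} (h : Nm G D (inD (innD D) z x) i n) : ∃ m, n = m + 1 := by
  generalize hd : inD (innD D) z x = d at h
  cases h with
  | root d h =>
    exfalso
    subst hd
    have := h z hz
    rw [inD_x, D_in hD hz] at this
    exact one_ne_zero this
  | step _ z' _ n h1 h2 => exact ⟨n, rfl⟩

open Classical in
/-- the new name -/
noncomputable def nmf (G : Set s.Dbl) (D : s.Dbl → Bool → Dart s → ZMod 2) (d : Dart s) :
    Option I :=
  if h : ∃ i n, Nm G D d i n then some h.choose else none

theorem nmf_some (hD : DD A τ G far D) (hG : A.Closed G) {d : Dart s} {i : I} :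
    nmf G D d = some i ↔ ∃ n, Nm G D d i n := by
  unfold nmf
  constructor
  · intro h
    split_ifs at h with h1
    have h2 : h1.choose = i := Option.some.inj h
    rw [← h2]
    exact h1.choose_spec
  · rintro ⟨n, hn⟩
    have h1 : ∃ i n, Nm G D d i n := ⟨i, n, hn⟩
    rw [dif_pos h1]
    obtain ⟨m, hm⟩ := h1.choose_spec
    rw [(hm.unique hD hG hn).1]

theorem nmf_congr (hD : DD A τ G far D) (hG : A.Closed G) {d d' : Dart s}
    (h : ∀ i, (∃ n, Nm G D d i n) ↔ ∃ n, Nm G D d' i n) : nmf G D d = nmf G D d' := by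
  have : ∀ i, nmf G D d = some i ↔ nmf G D d' = some i := by
    intro i
    rw [nmf_some hD hG, nmf_some hD hG, h]
  rcases h1 : nmf G D d with _ | i
  · rcases h2 : nmf G D d' with _ | j
    · rfl
    · have := (this j).2 h2
      rw [h1] at this
      exact this
  · exact ((this i).1 h1).symm

theorem nmf_reg (hD : DD A τ G far D) (hG : A.Closed G) {d d' : Dart s} (h : Reg G D d d') :
    nmf G D d = nmf G D d' :=
  nmf_congr hD hG fun _ => ⟨fun ⟨n, hn⟩ => ⟨n, hn.congr h⟩, fun ⟨n, hn⟩ => ⟨n, hn.congr h.symm⟩⟩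

theorem nmf_in (hD : DD A τ G far D) (hG : A.Closed G) {z : s.Dbl} (hz : z ∈ G) (x : Bool) :
    nmf G D (inD (innD D) z x) = nmf G D (outD (innD D) z (!x)) := by
  apply nmf_congr hD hG
  intro i
  constructor
  · rintro ⟨n, hn⟩
    obtain ⟨m, rfl⟩ := nm_in_pos hD hz x hn
    exact ⟨m, (nm_in_iff hD hG hz x).1 hn⟩
  · rintro ⟨n, hn⟩
    exact ⟨n + 1, (nm_in_iff hD hG hz x).2 hn⟩

/-- every dart at `z` is the inner or the outer one -/
theorem dz_cases (inn : s.Dbl → Bool → Bool) (z : s.Dbl) (x b : Bool) :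
    dz z x b = inD inn z x ∨ dz z x b = outD inn z x := by
  unfold inD outD
  by_cases h : b = inn z x
  · right; rw [h]
  · left
    have : b = !inn z x := by cases b <;> cases h' : inn z x <;> simp_all
    rw [this]

theorem nmf_tt (hD : DD A τ G far D) (hG : A.Closed G) (d : Dart s) :
    nmf G D (tt G (innD D) d) = nmf G D d := by
  rcases hn : node d with _ | z
  · rw [tt_none hn]
  · have hd := eq_dz hn
    rw [hd]
    by_cases hz : z ∈ G
    · rcases dz_cases (innD D) z d.x d.b with h | h
      · rw [h, tt_inD hz, nmf_in hD hG hz]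
      · rw [h, tt_outD hz, nmf_in hD hG hz, Bool.not_not]
    · rw [tt_dz_out hz]
      exact nmf_reg hD hG (reg_dz hD hG hz _ _ _)

end Crest.Agent.R096.St_147
end

-- ▼ part R096/St7_147
section

/-!
# R096 / P3: counting of the ends of pieces, parity along a curve (File E, second part)
-/

set_option autoImplicit false

namespace Crest.Agent.R096.St_147

open Wk_689

variable {ι Φ W I : Type} {M : MeshC ι Φ W} {col : I → Bool} {s : St M col}

noncomputable instance St.fintypeDart (s : St M col) : Fintype (Dart s) := Fintype.ofFinite _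

/-- the sum of a function on pieces over all ends of pieces vanishes: ends at the points of `P` and
ends at the double points -/
theorem count (f : Dart s → ZMod 2) (hf : ∀ d, f (flip d) = f d) :
    ∑ w ∈ s.P, ∑ F ∈ M.fs w, edv f F w +
      ∑ z : s.Dbl, ∑ x : Bool, (f (dz z x true) + f (dz z x false)) = 0 := by
  classical
  have h0 : ∑ d : Dart s, f d = 0 := by
    apply Finset.sum_involution (fun d _ => flip d)
    · intro d _
      rw [hf, add_self2]
    · intro d _ _
      exact flip_ne d
    · intro d _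
      exact Finset.mem_univ _
    · intro d _
      exact flip_flip d
  rw [← Finset.sum_filter_add_sum_filter_not Finset.univ (fun d : Dart s => node d = none)] at h0
  have h1 : ∑ d ∈ Finset.univ.filter (fun d : Dart s => node d = none), f d =
      ∑ w ∈ s.P, ∑ F ∈ M.fs w, edv f F w := by
    rw [Finset.sum_sigma']
    symm
    refine Finset.sum_bij' (i := fun (a : (_ : W) × Φ) ha => ed (s := s) (F := a.2) (w := a.1)
        ⟨(Finset.mem_sigma.1 ha).1, MeshC.mem_fs.1 (Finset.mem_sigma.1 ha).2⟩)
      (j := fun d _ => ⟨pt d, fc d⟩) ?_ ?_ ?_ ?_ ?_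
    · intro a ha
      exact Finset.mem_filter.2 ⟨Finset.mem_univ _, node_ed _⟩
    · intro d hd
      exact Finset.mem_sigma.2 ⟨(pt_at d).1, MeshC.mem_fs.2 (pt_at d).2⟩
    · intro a ha
      exact Sigma.ext (pt_ed _) (heq_of_eq (fc_ed _))
    · intro d hd
      exact (eq_ed (Finset.mem_filter.1 hd).2 rfl rfl (pt_at d)).symm
    · intro a ha
      exact edv_eq _
  have h2 : ∑ d ∈ Finset.univ.filter (fun d : Dart s => ¬ node d = none), f d =
      ∑ z : s.Dbl, ∑ x : Bool, (f (dz z x true) + f (dz z x false)) := by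
    have e : ∑ z : s.Dbl, ∑ x : Bool, (f (dz z x true) + f (dz z x false)) =
        ∑ a : (s.Dbl × Bool × Bool), f (dz a.1 a.2.1 a.2.2) := by
      rw [Fintype.sum_prod_type]
      apply Finset.sum_congr rfl
      intro z _
      rw [Fintype.sum_prod_type]
      apply Finset.sum_congr rfl
      intro x _
      rw [Fintype.sum_bool]
    rw [e]
    symm
    refine Finset.sum_bij (fun a _ => dz a.1 a.2.1 a.2.2) ?_ ?_ ?_ ?_
    · intro a _
      refine Finset.mem_filter.2 ⟨Finset.mem_univ _, ?_⟩
      rw [node_dz]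
      simp
    · intro a _ b _ h
      obtain ⟨h1, h2, h3⟩ := dz_inj h
      exact Prod.ext h1 (Prod.ext h2 h3)
    · intro d hd
      have hd' := (Finset.mem_filter.1 hd).2
      rcases hn : node d with _ | z
      · exact absurd hn hd'
      · exact ⟨(z, d.x, d.b), Finset.mem_univ _, (eq_dz hn).symm⟩
    · intro a _
      rfl
  rw [h1, h2] at h0
  exact h0

variable {Act : Set ι} {A : s.Arcs Act} {τ : Bool → ι → s.Dbl → ZMod 2} {G : Set s.Dbl}
variable {far : I → Set W} {D : s.Dbl → Bool → Dart s → ZMod 2}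

/-- the chain of `d` passes through the disc of `z₀` of colour `x₀` -/
inductive Anc (G : Set s.Dbl) (D : s.Dbl → Bool → Dart s → ZMod 2) (z₀ : s.Dbl) (x₀ : Bool) :
    Dart s → Prop
  | here (d : Dart s) (hx : d.x = x₀) (h : Inm G D z₀ d) : Anc G D z₀ x₀ d
  | step (d : Dart s) (z : s.Dbl) (h : Inm G D z d)
      (h' : Anc G D z₀ x₀ (outD (innD D) z (!d.x))) : Anc G D z₀ x₀ d

variable {z₀ : s.Dbl} {x₀ : Bool}

theorem Anc.congr {d d' : Dart s} (h : Anc G D z₀ x₀ d) (hr : Reg G D d d') :
    Anc G D z₀ x₀ d' := by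
  cases h with
  | here _ hx h => exact Anc.here d' (hr.hx.trans hx) (h.congr hr)
  | step _ z h h' => exact Anc.step d' z (h.congr hr) (by rw [hr.hx]; exact h')

theorem Anc.depth (hD : DD A τ G far D) (hG : A.Closed G) {i₀ : I} {n₀ : ℕ}
    (h₀ : Nm G D (inD (innD D) z₀ x₀) i₀ n₀) {d : Dart s} (h : Anc G D z₀ x₀ d) :
    ∀ {j : I} {n : ℕ}, Nm G D d j n → n₀ ≤ n := by
  induction h with
  | here d hx h =>
    intro j n hn
    cases hn with
    | root _ h1 =>
      exfalso
      have := h1 z₀ h.mem
      rw [h.val] at this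
      exact one_ne_zero this
    | step _ z _ n h1 h2 =>
      obtain ⟨m, rfl⟩ := nm_in_pos hD h.mem x₀ h₀
      rw [nm_in_iff hD hG h.mem] at h₀
      have h3 := h1.cv hD h
      rw [hx] at h2
      have h4 := (h2.congr (reg_out hD hG h1.mem h3 _)).unique hD hG h₀
      omega
  | step d z h h' ih =>
    intro j n hn
    cases hn with
    | root _ h1 =>
      exfalso
      have := h1 z h.mem
      rw [h.val] at this
      exact one_ne_zero this
    | step _ z' _ n h1 h2 =>
      have h3 := h1.cv hD h
      have := ih (h2.congr (reg_out hD hG h1.mem h3 _))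
      omega

theorem anc_in (hD : DD A τ G far D) (hG : A.Closed G) (hz₀ : z₀ ∈ G) {z : s.Dbl}
    (hz : z ∈ A.cv z₀) : Anc G D z₀ x₀ (inD (innD D) z x₀) :=
  Anc.here _ (inD_x _ _ _) ((inm_in hD hz₀ x₀).congr (reg_in hD hG hz₀ hz x₀))

theorem not_anc_out (hD : DD A τ G far D) (hG : A.Closed G) (hz₀ : z₀ ∈ G) {i₀ : I} {n₀ : ℕ}
    (h₀ : Nm G D (inD (innD D) z₀ x₀) i₀ n₀) {z : s.Dbl} (hz : z ∈ A.cv z₀) :
    ¬ Anc G D z₀ x₀ (outD (innD D) z (!x₀)) := by
  intro h
  obtain ⟨m, rfl⟩ := nm_in_pos hD hz₀ x₀ h₀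
  have h1 := (nm_in_iff hD hG hz₀ x₀).1 h₀
  have h2 := h.depth hD hG h₀ (h1.congr (reg_out hD hG hz₀ hz _))
  omega

theorem anc_iff (hD : DD A τ G far D) (hG : A.Closed G) {z : s.Dbl}
    (hz : z ∈ G) (x : Bool) (hne : ¬ (x = x₀ ∧ z ∈ A.cv z₀)) :
    Anc G D z₀ x₀ (inD (innD D) z x) ↔ Anc G D z₀ x₀ (outD (innD D) z (!x)) := by
  constructor
  · intro h
    generalize hd : inD (innD D) z x = d at h
    cases h with
    | here d hx h =>
      exfalso
      subst hd
      rw [inD_x] at hx
      exact hne ⟨hx, h.cv hD (inm_in hD hz x)⟩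
    | step d z' h h' =>
      subst hd
      rw [inD_x] at h'
      exact h'.congr (reg_out hD hG h.mem (h.cv hD (inm_in hD hz x)) _)
  · intro h
    refine Anc.step _ z (inm_in hD hz x) ?_
    rw [inD_x]
    exact h

theorem sum_dz (inn : s.Dbl → Bool → Bool) (f : Dart s → ZMod 2) (z : s.Dbl) (x : Bool) :
    f (dz z x true) + f (dz z x false) = f (inD inn z x) + f (outD inn z x) := by
  unfold inD outD
  cases inn z x
  · rfl
  · exact add_comm _ _

open Classical in
/-- **parity** -/
theorem parity (hD : DD A τ G far D) (hG : A.Closed G) {t : Dart s → ZMod 2} (ht : Even t)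
    (htt : ∀ d, t (Wk_689.tt G (innD D) d) = t d)
    (hsup : ∀ d, nmf G D d = none → t d = 0) (hz₀ : z₀ ∈ G) (x₀ : Bool) :
    ∑ z : s.Dbl, (if z ∈ A.cv z₀ then t (inD (innD D) z x₀) else 0) = 0 := by
  by_cases halive : ∃ i n, Nm G D (inD (innD D) z₀ x₀) i n
  swap
  · apply Finset.sum_eq_zero
    intro z _
    split_ifs with hz
    · apply hsup
      rw [← nmf_reg hD hG (reg_in hD hG hz₀ hz x₀)]
      rcases h : nmf G D (inD (innD D) z₀ x₀) with _ | i
      · rfl
      · exact absurd ⟨i, (nmf_some hD hG).1 h⟩ halive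
    · rfl
  obtain ⟨i₀, n₀, h₀⟩ := halive
  set f : Dart s → ZMod 2 := fun d => if Anc G D z₀ x₀ d then t d else 0 with hf
  have hff : ∀ d, f (flip d) = f d := by
    intro d
    simp only [hf]
    have : Anc G D z₀ x₀ (flip d) ↔ Anc G D z₀ x₀ d :=
      ⟨fun h => h.congr (reg_flip hD d).symm, fun h => h.congr (reg_flip hD d)⟩
    rw [if_congr this (ht.fl d) rfl]
  have hc := count f hff
  have h1 : ∑ w ∈ s.P, ∑ F ∈ M.fs w, edv f F w = 0 := by
    apply Finset.sum_eq_zero
    intro w hw
    by_cases hA : ∃ F, ∃ h : s.At F w, Anc G D z₀ x₀ (ed h)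
    · obtain ⟨F₀, h₁, h₂⟩ := hA
      have : ∀ F ∈ M.fs w, edv f F w = edv t F w := by
        intro F hF
        have hat : s.At F w := ⟨hw, MeshC.mem_fs.1 hF⟩
        rw [edv_eq hat, edv_eq hat]
        simp only [hf]
        rw [if_pos (h₂.congr (reg_ed hD h₁ hat))]
      rw [Finset.sum_congr rfl this, ht.ev w hw]
    · apply Finset.sum_eq_zero
      intro F hF
      have hat : s.At F w := ⟨hw, MeshC.mem_fs.1 hF⟩
      rw [edv_eq hat]
      simp only [hf]
      rw [if_neg (fun h => hA ⟨F, hat, h⟩)]
  rw [h1, zero_add] at hc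
  refine Eq.trans (Finset.sum_congr rfl ?_) hc
  intro z _
  rw [Fintype.sum_bool]
  by_cases hz : z ∈ G
  · -- the two interfaces at `z`
    have e : ∀ x, f (inD (innD D) z x) + f (outD (innD D) z (!x)) =
        if x = x₀ ∧ z ∈ A.cv z₀ then t (inD (innD D) z x) else 0 := by
      intro x
      have htx : t (outD (innD D) z (!x)) = t (inD (innD D) z x) := by
        have := htt (outD (innD D) z (!x))
        rw [tt_outD hz, Bool.not_not] at this
        exact this.symm
      simp only [hf]
      by_cases h4 : x = x₀ ∧ z ∈ A.cv z₀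
      · obtain ⟨rfl, h5⟩ := h4
        rw [if_pos (anc_in hD hG hz₀ h5), if_neg (not_anc_out hD hG hz₀ h₀ h5), if_pos ⟨rfl, h5⟩,
          add_zero]
      · rw [if_neg h4, if_congr (anc_iff hD hG hz x h4) rfl rfl, htx]
        split_ifs
        · exact add_self2 _
        · exact add_zero _
    have e1 := e true
    have e2 := e false
    rw [sum_dz (innD D), sum_dz (innD D)]
    have e3 : f (inD (innD D) z true) + f (outD (innD D) z true) +
        (f (inD (innD D) z false) + f (outD (innD D) z false)) =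
        (f (inD (innD D) z true) + f (outD (innD D) z (!true))) +
        (f (inD (innD D) z false) + f (outD (innD D) z (!false))) := by
      simp only [Bool.not_true, Bool.not_false]; ring
    rw [e3, e1, e2]
    cases x₀ <;> by_cases h : z ∈ A.cv z₀ <;> simp [h]
  · have hz' : z ∉ A.cv z₀ := fun h => hz (cv_sub hG hz₀ h)
    rw [if_neg hz']
    have e : ∀ x, f (dz z x true) + f (dz z x false) = 0 := by
      intro x
      apply add_of_eq2
      simp only [hf]
      have h2 : t (dz z x true) = t (dz z x false) := by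
        have := htt (dz z x true)
        rw [tt_dz_out hz] at this
        exact this.symm
      have h3 : Anc G D z₀ x₀ (dz z x true) ↔ Anc G D z₀ x₀ (dz z x false) :=
        ⟨fun h => h.congr (reg_dz hD hG hz _ _ _), fun h => h.congr (reg_dz hD hG hz _ _ _)⟩
      rw [if_congr h3 h2 rfl]
    rw [e, e, add_zero]

end Crest.Agent.R096.St_147
end

-- ▼ part R096/St8_147

/-!
# R096 / P3: Sep of the new sheets, `Nms` (File E, last part)
-/

set_option autoImplicit false

namespace Crest.Agent.R096.St_147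

open Wk_689

variable {ι Φ W I : Type} {M : MeshC ι Φ W} {col : I → Bool} {s : St M col}
variable {Act : Set ι} {A : s.Arcs Act} {τ : Bool → ι → s.Dbl → ZMod 2} {G : Set s.Dbl}
variable {far : I → Set W} {D : s.Dbl → Bool → Dart s → ZMod 2}

/-- functions on the arcs of the curve of `z₀` with given boundary -/
structure ArcSol (A : s.Arcs Act) (z₀ : s.Dbl) (y : s.Dbl → ZMod 2) (a : ι → s.Dbl → ZMod 2) :
    Prop where
  off : ∀ q z, q ∉ Act → a q z = 0
  supp : ∀ q z, z ∉ A.cv z₀ → a q z = 0
  inv : ∀ q z, q ∈ Act → q ∈ M.side z.F → a q (A.arc q z) = a q z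
  bd : ∀ z q q', M.side z.F = s(q, q') → a q z + a q' z = y z

theorem arcSol_sum (A : s.Arcs Act) {z₀ : s.Dbl} {K : Type} (S : Finset K)
    (y : K → s.Dbl → ZMod 2) (a : K → ι → s.Dbl → ZMod 2) (c : K → ZMod 2)
    (h : ∀ k ∈ S, ArcSol A z₀ (y k) (a k)) :
    ArcSol A z₀ (fun z => ∑ k ∈ S, c k * y k z) (fun q z => ∑ k ∈ S, c k * a k q z) where
  off := fun q z hq => Finset.sum_eq_zero fun k hk => by rw [(h k hk).off q z hq, mul_zero]
  supp := fun q z hz => Finset.sum_eq_zero fun k hk => by rw [(h k hk).supp q z hz, mul_zero]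
  inv := fun q z hq hz => Finset.sum_congr rfl fun k hk => by rw [(h k hk).inv q z hq hz]
  bd := fun z q q' hz => by
    rw [← Finset.sum_add_distrib]
    exact Finset.sum_congr rfl fun k hk => by rw [← mul_add, (h k hk).bd z q q' hz]

open Classical in
theorem arcSol_path (hG : A.Closed G) {z₀ u : s.Dbl} (hz₀ : z₀ ∈ G) (hu : u ∈ A.cv z₀) :
    ∃ a, ArcSol A z₀ (fun z => (if z = z₀ then 1 else 0) + (if z = u then 1 else 0)) a := by
  induction hu with
  | refl =>
    refine ⟨fun _ _ => 0, fun _ _ _ => rfl, fun _ _ _ => rfl, fun _ _ _ _ => rfl, ?_⟩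
    intro z q q' _
    rw [add_zero, add_self2]
  | @tail u v h1 h ih =>
    obtain ⟨q₀, hq₀, rfl⟩ := h
    obtain ⟨a, ha⟩ := ih
    have hu : u ∈ G := cv_sub hG hz₀ h1
    have hA : q₀ ∈ Act := (hG u hu q₀ hq₀).1
    have hne : A.arc q₀ u ≠ u := A.ne hA hq₀
    have hmem := A.mem hA hq₀
    have hinv := A.inv hA hq₀
    refine ⟨fun q z => a q z + if q = q₀ ∧ (z = u ∨ z = A.arc q₀ u) then 1 else 0, ?_, ?_, ?_, ?_⟩
    · intro q z hq
      rw [ha.off q z hq, if_neg, add_zero]
      rintro ⟨rfl, -⟩
      exact hq hA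
    · intro q z hz
      rw [ha.supp q z hz, if_neg, add_zero]
      rintro ⟨rfl, rfl | rfl⟩
      · exact hz h1
      · exact hz (cv_trans h1 (cv_arc hq₀))
    · intro q z hq hz
      rw [ha.inv q z hq hz]
      congr 1
      apply if_congr _ rfl rfl
      constructor
      · rintro ⟨rfl, h⟩
        refine ⟨rfl, ?_⟩
        rcases h with h | h
        · right; rw [← h, A.inv hq hz]
        · left
          have := congrArg (A.arc q) h
          rwa [A.inv hq hz, hinv] at this
      · rintro ⟨rfl, rfl | rfl⟩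
        · exact ⟨rfl, Or.inr rfl⟩
        · exact ⟨rfl, Or.inl hinv⟩
    · intro z q q' hz
      have h3 := ha.bd z q q' hz
      have hqq : q ≠ q' := by
        intro h
        have := M.side_nd z.F
        rw [hz, h] at this
        simp at this
      have h4 : ((if q = q₀ ∧ (z = u ∨ z = A.arc q₀ u) then (1 : ZMod 2) else 0) +
          if q' = q₀ ∧ (z = u ∨ z = A.arc q₀ u) then 1 else 0) =
          (if z = u then 1 else 0) + (if z = A.arc q₀ u then 1 else 0) := by
        have h5 : z = u ∨ z = A.arc q₀ u → q₀ ∈ M.side z.F := by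
          rintro (rfl | rfl)
          · exact hq₀
          · exact hmem
        by_cases hz1 : z = u
        · subst hz1
          rw [hz, Sym2.mem_iff] at hq₀
          rcases hq₀ with h | h
          · subst h
            simp [hqq.symm, hne.symm]
          · subst h
            simp [hqq, hne.symm]
        · by_cases hz2 : z = A.arc q₀ u
          · have h6 := h5 (Or.inr hz2)
            rw [hz, Sym2.mem_iff] at h6
            rcases h6 with h | h
            · subst h
              simp [hqq.symm, hz2, hne]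
            · subst h
              simp [hqq, hz2, hne]
          · simp [hz1, hz2]
      have h5 := add_self2 (if z = u then (1 : ZMod 2) else 0)
      linear_combination h3 + h4 + h5

open Classical in
theorem arcSol (hG : A.Closed G) {z₀ : s.Dbl} (hz₀ : z₀ ∈ G) (y : s.Dbl → ZMod 2)
    (hy : ∑ z : s.Dbl, (if z ∈ A.cv z₀ then y z else 0) = 0) :
    ∃ a, ArcSol A z₀ (fun z => if z ∈ A.cv z₀ then y z else 0) a := by
  have h : ∀ u : {u // u ∈ A.cv z₀}, ∃ a,
      ArcSol A z₀ (fun z => (if z = z₀ then 1 else 0) + (if z = u.1 then 1 else 0)) a :=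
    fun u => arcSol_path hG hz₀ u.2
  choose a ha using h
  have := arcSol_sum A Finset.univ
    (fun (u : {u // u ∈ A.cv z₀}) z => (if z = z₀ then (1 : ZMod 2) else 0) +
      (if z = u.1 then 1 else 0)) a (fun u => y u.1) (fun u _ => ha u)
  refine ⟨_, this.off, this.supp, this.inv, ?_⟩
  intro z q q' hz
  rw [this.bd z q q' hz]
  simp only [mul_add, mul_ite, mul_one, mul_zero]
  rw [Finset.sum_add_distrib]
  have e1 : ∑ u : {u // u ∈ A.cv z₀}, (if z = z₀ then y u.1 else 0) = 0 := by
    by_cases h : z = z₀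
    · simp only [if_pos h]
      rw [← hy, ← Finset.sum_filter]
      symm
      apply Finset.sum_subtype
      intro u
      simp
    · simp only [if_neg h]
      exact Finset.sum_const_zero
  rw [e1, zero_add]
  split_ifs with h
  · rw [Finset.sum_eq_single_of_mem (⟨z, h⟩ : {u // u ∈ A.cv z₀}) (Finset.mem_univ _)]
    · simp
    · intro b _ hb
      rw [if_neg]
      intro h'
      exact hb (Subtype.ext h'.symm)
  · apply Finset.sum_eq_zero
    intro b _
    rw [if_neg]
    intro h'
    exact h (h' ▸ b.2)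

/-- canonical point of the curve of `z` -/
noncomputable def rpt (A : s.Arcs Act) (z : s.Dbl) : s.Dbl :=
  (show (A.cv z).Nonempty from ⟨z, cv_refl A z⟩).some

theorem rpt_mem (A : s.Arcs Act) (z : s.Dbl) : rpt A z ∈ A.cv z :=
  (show (A.cv z).Nonempty from ⟨z, cv_refl A z⟩).some_mem

theorem rpt_eq (hG : A.Closed G) {z u : s.Dbl} (hz : z ∈ G) (hu : u ∈ A.cv z) :
    rpt A u = rpt A z := by
  unfold rpt
  have h := cv_eq hG hz hu
  congr 1

/-- the constants `e` along the chains -/
inductive Ev (G : Set s.Dbl) (D : s.Dbl → Bool → Dart s → ZMod 2) (k : Bool → s.Dbl → ZMod 2) :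
    Dart s → ZMod 2 → Prop
  | root (d : Dart s) (h : ∀ z ∈ G, D z d.x d = 0) : Ev G D k d 0
  | step (d : Dart s) (z : s.Dbl) (v : ZMod 2) (h : Inm G D z d)
      (h' : Ev G D k (outD (innD D) z (!d.x)) v) : Ev G D k d (v + k d.x z)

variable {k : Bool → s.Dbl → ZMod 2}

theorem Ev.congr {d d' : Dart s} {v : ZMod 2} (h : Ev G D k d v) (hr : Reg G D d d') :
    Ev G D k d' v := by
  cases h with
  | root _ h => exact Ev.root d' (fun z hz => by rw [hr.hx, hr.hD z hz]; exact h z hz)
  | step _ z v h h' =>
    rw [← hr.hx]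
    exact Ev.step d' z v (h.congr hr) (by rw [hr.hx]; exact h')

theorem Ev.unique (hD : DD A τ G far D) (hG : A.Closed G)
    (hk : ∀ z ∈ G, ∀ u ∈ A.cv z, ∀ x, k x u = k x z) {d : Dart s} {v v' : ZMod 2}
    (h : Ev G D k d v) (h' : Ev G D k d v') : v = v' := by
  induction h generalizing v' with
  | root d h =>
    cases h' with
    | root _ _ => rfl
    | step _ z _ h1 h2 =>
      exfalso
      have := h z h1.mem
      rw [h1.val] at this
      exact one_ne_zero this
  | step d z v h h1 ih =>
    cases h' with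
    | root _ h2 =>
      exfalso
      have := h2 z h.mem
      rw [h.val] at this
      exact one_ne_zero this
    | step _ z' v' h2 h3 =>
      have h4 := h2.cv hD h
      rw [ih (h3.congr (reg_out hD hG h2.mem h4 _)), hk z' h2.mem z h4]

theorem Ev.exists {d : Dart s} {i : I} {n : ℕ} (h : Nm G D d i n) : ∃ v, Ev G D k d v := by
  induction h with
  | root d h => exact ⟨0, Ev.root d h⟩
  | step d z i n h _ ih =>
    obtain ⟨v, hv⟩ := ih
    exact ⟨_, Ev.step d z v h hv⟩

open Classical in
noncomputable def chO (P : ZMod 2 → Prop) : ZMod 2 := if h : ∃ v, P v then h.choose else 0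

noncomputable def evf (G : Set s.Dbl) (D : s.Dbl → Bool → Dart s → ZMod 2)
    (k : Bool → s.Dbl → ZMod 2) (d : Dart s) : ZMod 2 := chO (Ev G D k d)

theorem evf_eq (hD : DD A τ G far D) (hG : A.Closed G)
    (hk : ∀ z ∈ G, ∀ u ∈ A.cv z, ∀ x, k x u = k x z) {d : Dart s} {v : ZMod 2}
    (h : Ev G D k d v) : evf G D k d = v := by
  unfold evf chO
  have h1 : ∃ v, Ev G D k d v := ⟨v, h⟩
  rw [dif_pos h1]
  exact h1.choose_spec.unique hD hG hk h

theorem evf_reg {d d' : Dart s} (h : Reg G D d d') : evf G D k d = evf G D k d' := by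
  unfold evf
  congr 1
  funext v
  exact propext ⟨fun h' => h'.congr h, fun h' => h'.congr h.symm⟩

theorem evf_in (hD : DD A τ G far D) (hG : A.Closed G)
    (hk : ∀ z ∈ G, ∀ u ∈ A.cv z, ∀ x, k x u = k x z) {z : s.Dbl} (hz : z ∈ G) (x : Bool)
    (halive : nmf G D (outD (innD D) z (!x)) ≠ none) :
    evf G D k (inD (innD D) z x) = evf G D k (outD (innD D) z (!x)) + k x z := by
  rcases h : nmf G D (outD (innD D) z (!x)) with _ | i
  · exact absurd h halive
  · obtain ⟨n, hn⟩ := (nmf_some hD hG).1 h
    obtain ⟨v, hv⟩ := Ev.exists (k := k) hn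
    rw [evf_eq hD hG hk hv]
    apply evf_eq hD hG hk
    have h2 := Ev.step (k := k) (inD (innD D) z x) z v (inm_in hD hz x) (by rw [inD_x]; exact hv)
    rwa [inD_x] at h2

/-- **the names of the new sheets and their Sep** -/
theorem exists_nms (hD : DD A τ G far D) (hG : A.Closed G) (hR : RefStmt A τ)
    (hfar : ∀ i w, w ∈ far i → s.lab w = i) : Nms s G far (innD D) (nmf G D) where
  fl := fun d => (nmf_reg hD hG (reg_flip hD d)).symm
  tt := nmf_tt hD hG
  cont := fun F F' w h h' => nmf_reg hD hG (reg_ed hD h h')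
  out := fun z hz x b => by
    rw [nmf_some hD hG]
    refine ⟨0, ?_⟩
    have := Nm.root (G := G) (D := D) (dz z x b) (fun z' hz' => by
      rw [dz_x]; exact hD.out z' hz' z hz _ b)
    rwa [lab_dz] at this
  far := fun i F w h hw => by
    rw [nmf_some hD hG]
    refine ⟨0, ?_⟩
    have := Nm.root (G := G) (D := D) (ed h) (fun z' hz' => hD.far0 z' hz' _ i F w h hw)
    rwa [pt_ed, hfar i w hw] at this
  sep := by
    classical
    intro t ht htt hsup
    -- the solutions on the curves
    have hsol : ∀ (x : Bool) (z₀ : s.Dbl), ∃ a, z₀ ∈ G →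
        ArcSol A z₀ (fun z => if z ∈ A.cv z₀ then t (inD (innD D) z x) else 0) a := by
      intro x z₀
      by_cases hz₀ : z₀ ∈ G
      · obtain ⟨a, ha⟩ := arcSol hG hz₀ (fun z => t (inD (innD D) z x))
          (parity hD hG ht htt hsup hz₀ x)
        exact ⟨a, fun _ => ha⟩
      · exact ⟨fun _ _ => 0, fun h => absurd h hz₀⟩
    choose sol hsol using hsol
    set α : Bool → ι → s.Dbl → ZMod 2 := fun x q z => sol x (rpt A z) q z with hα
    have hrG : ∀ z ∈ G, rpt A z ∈ G := fun z hz => cv_sub hG hz (rpt_mem A z)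
    have hα_off : ∀ x q z, z ∈ G → q ∉ Act → α x q z = 0 := fun x q z hz hq =>
      (hsol x _ (hrG z hz)).off q z hq
    have hα_inv : ∀ x q z, z ∈ G → q ∈ Act → q ∈ M.side z.F →
        α x q (A.arc q z) = α x q z := by
      intro x q z hz hq hqz
      simp only [hα]
      rw [rpt_eq hG hz (cv_arc hqz)]
      exact (hsol x _ (hrG z hz)).inv q z hq hqz
    have hα_bd : ∀ x z q q', z ∈ G → M.side z.F = s(q, q') →
        α x q z + α x q' z = t (inD (innD D) z x) := by
      intro x z q q' hz hqq
      have := (hsol x _ (hrG z hz)).bd z q q' hqq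
      rw [if_pos (cv_symm hG hz (rpt_mem A z))] at this
      exact this
    have htin : ∀ z ∈ G, ∀ x, t (outD (innD D) z x) = t (inD (innD D) z (!x)) := by
      intro z hz x
      have := htt (outD (innD D) z x)
      rw [tt_outD hz] at this
      exact this.symm
    set a : Bool → ι → s.Dbl → ZMod 2 := fun x q z =>
      if z ∈ G then α x q z + α (!x) q z else 0 with ha
    obtain ⟨c, hc⟩ := hR t a ht
      { off := fun x q z hq => by
          simp only [ha]
          split_ifs with hz
          · rw [hα_off _ _ _ hz hq, hα_off _ _ _ hz hq, add_zero]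
          · rfl
        inv := fun x q z hq hqz => by
          simp only [ha]
          by_cases hz : z ∈ G
          · rw [if_pos hz, if_pos (hG z hz q hqz).2, hα_inv _ _ _ hz hq hqz,
              hα_inv _ _ _ hz hq hqz]
          · rw [if_neg hz, if_neg (arc_notin hG hz hq hqz)] }
      (by
        intro x z q q' hqq
        simp only [ha]
        by_cases hz : z ∈ G
        · rw [if_pos hz, if_pos hz, sum_dz (innD D), htin z hz, ← hα_bd x z q q' hz hqq,
            ← hα_bd (!x) z q q' hz hqq]
          ring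
        · rw [if_neg hz, if_neg hz, add_zero]
          apply add_of_eq2
          have := htt (dz z x true)
          rw [tt_dz_out hz] at this
          exact this.symm)
    -- values of `c` at inner and outer darts along the arcs
    have hin_val : ∀ q x z, z ∈ G → q ∈ M.side z.F →
        c q (inD (innD D) z x) = c q (dz z x false) + (1 + D z x (dz z x false)) * a x q z := by
      intro q x z hz hqz
      have hj := hc.jump q x z hqz
      unfold inD innD
      by_cases h : D z x (dz z x false) = 1
      · simp only [h, decide_true, Bool.not_true]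
        have : (1 : ZMod 2) + 1 = 0 := by decide
        rw [this, zero_mul, add_zero]
      · rw [z2_ne h, add_zero, one_mul]
        simp only [zero_ne_one, decide_false, Bool.not_false]
        rw [← hj]
        have := add_self2 (c q (dz z x false))
        linear_combination -this
    have hout_val : ∀ q x z, z ∈ G → q ∈ M.side z.F →
        c q (outD (innD D) z x) = c q (inD (innD D) z x) + a x q z := by
      intro q x z hz hqz
      have hj := hc.jump q x z hqz
      rw [sum_dz (innD D)] at hj
      rw [← hj]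
      have := add_self2 (c q (inD (innD D) z x))
      linear_combination -this
    have hin_arc : ∀ q x z, z ∈ G → q ∈ M.side z.F →
        c q (inD (innD D) (A.arc q z) x) = c q (inD (innD D) z x) := by
      intro q x z hz hqz
      obtain ⟨hA, hz'⟩ := hG z hz q hqz
      have hqz' := A.mem hA hqz
      rw [hin_val q x z hz hqz, hin_val q x _ hz' hqz']
      have h1 := hc.arc q x z hA hqz
      have h2 := hD.tau z hz z (cv_refl A z) x q hqz
      have h3 : a x q (A.arc q z) = a x q z := by
        simp only [ha]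
        rw [if_pos hz, if_pos hz', hα_inv _ _ _ hz hA hqz, hα_inv _ _ _ hz hA hqz]
      have h4 : D (A.arc q z) = D z := hD.congr z hz _ (cv_arc hqz)
      rw [h3, h4]
      have e1 := add_self2 (a x q z * τ x q z)
      have e2 := add_self2 (c q (dz z x false))
      have e3 := add_self2 (a x q z * D z x (dz z x false))
      linear_combination h1 + a x q z * h2 + e1 - e2 - e3
    have hout_arc : ∀ q x z, z ∈ G → q ∈ M.side z.F →
        c q (outD (innD D) (A.arc q z) x) = c q (outD (innD D) z x) := by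
      intro q x z hz hqz
      obtain ⟨hA, hz'⟩ := hG z hz q hqz
      have hqz' := A.mem hA hqz
      have h3 : a x q (A.arc q z) = a x q z := by
        simp only [ha]
        rw [if_pos hz, if_pos hz', hα_inv _ _ _ hz hA hqz, hα_inv _ _ _ hz hA hqz]
      rw [hout_val q x z hz hqz, hout_val q x _ hz' hqz', hin_arc q x z hz hqz, h3]
    -- the constants
    have hfc : ∀ z x b, fc (dz (s := s) z x b) = z.F := fc_dz
    have hK1 : ∀ x z q q', z ∈ G → q ∈ M.side z.F → q' ∈ M.side z.F →
        c q (inD (innD D) z x) + c q (outD (innD D) z (!x)) =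
        c q' (inD (innD D) z x) + c q' (outD (innD D) z (!x)) := by
      intro x z q q' hz hq hq'
      by_cases hqq : q = q'
      · rw [hqq]
      · have hs : M.side z.F = s(q, q') := (Sym2.mem_and_mem_iff hqq).1 ⟨hq, hq'⟩
        have e1 := hc.bd (inD (innD D) z x) q q' (by unfold inD; rw [hfc]; exact hs)
        have e2 := hc.bd (outD (innD D) z (!x)) q q' (by unfold outD; rw [hfc]; exact hs)
        have e3 := htin z hz (!x)
        rw [Bool.not_not] at e3
        rw [e3] at e2
        have e4 := add_self2 (c q (outD (innD D) z (!x)))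
        have e5 := add_self2 (c q' (inD (innD D) z x))
        linear_combination e2 - e1 + e4 - e5
    have hside : ∀ z : s.Dbl, ∃ q, q ∈ M.side z.F := by
      intro z
      rcases h : M.side z.F with ⟨q, q'⟩
      exact ⟨q, Sym2.mem_mk_left q q'⟩
    choose sd hsd using hside
    set k : Bool → s.Dbl → ZMod 2 := fun x z =>
      c (sd z) (inD (innD D) z x) + c (sd z) (outD (innD D) z (!x)) with hk
    have hkq : ∀ x z q, z ∈ G → q ∈ M.side z.F →
        k x z = c q (inD (innD D) z x) + c q (outD (innD D) z (!x)) :=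
      fun x z q hz hq => hK1 x z _ _ hz (hsd z) hq
    have hkc : ∀ z ∈ G, ∀ u ∈ A.cv z, ∀ x, k x u = k x z := by
      intro z hz u hu x
      induction hu with
      | refl => rfl
      | @tail u v h1 h ih =>
        obtain ⟨q, hq, rfl⟩ := h
        have hu : u ∈ G := cv_sub hG hz h1
        obtain ⟨hA, hu'⟩ := hG u hu q hq
        rw [← ih, hkq x u q hu hq, hkq x _ q hu' (A.mem hA hq), hin_arc q x u hu hq,
          hout_arc q _ u hu hq]
    refine ⟨fun q d => c q d + evf G D k d, ?_, ?_, ?_, ?_⟩
    · intro q d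
      simp only
      rw [hc.fl, evf_reg (reg_flip hD d)]
    · intro q d hal hq
      simp only
      rcases hn : node d with _ | z
      · rw [tt_none hn]
      · have hd := eq_dz hn
        have hqz : q ∈ M.side z.F := by rw [hd, hfc] at hq; exact hq
        rw [hd] at hal ⊢
        by_cases hz : z ∈ G
        · rcases dz_cases (innD D) z d.x d.b with h | h
          · rw [h] at hal ⊢
            rw [tt_inD hz]
            have hal' : nmf G D (outD (innD D) z (!d.x)) ≠ none := by
              rw [← nmf_in hD hG hz]; exact hal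
            rw [evf_in hD hG hkc hz d.x hal', hkq d.x z q hz hqz]
            have e1 := add_self2 (c q (inD (innD D) z d.x))
            linear_combination -e1
          · rw [h] at hal ⊢
            rw [tt_outD hz]
            have hal' : nmf G D (outD (innD D) z (!!d.x)) ≠ none := by
              rw [Bool.not_not]; exact hal
            rw [evf_in hD hG hkc hz (!d.x) hal', hkq (!d.x) z q hz hqz, Bool.not_not]
            have e1 := add_self2 (c q (inD (innD D) z (!d.x)))
            linear_combination e1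
        · rw [tt_dz_out hz, evf_reg (reg_dz hD hG hz d.x d.b (!d.b))]
          congr 1
          have hj := hc.jump q d.x z hqz
          simp only [ha] at hj
          rw [if_neg hz] at hj
          have hj' := eq_of_add2 hj
          cases d.b
          · exact hj'
          · exact hj'.symm
    · intro q F F' w h h' hF hF'
      simp only
      rw [hc.cont q F F' w h h' hF hF', evf_reg (reg_ed hD h h')]
    · intro d q q' hd
      simp only
      rw [hc.bd d q q' hd]
      have := add_self2 (evf G D k d)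
      linear_combination -this

end Crest.Agent.R096.St_147
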