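import Crest.Agent.R096.Cp10_298
import Crest.Agent.R096.Ori3_543
import Crest.Agent.R096.F2_422

/-!
# R096 / COPY, part 11 (helper298): the weighted sequence for the mesh of a tiling, `wseqM`

`exists_par0` = 543's `exists_par` with `c w 0 = w`.
-/

set_option autoImplicit false

open Set Filter Topology Metric

namespace Crest.Agent.R096.Cp_298
open Crest.Agent.R096.Msh_715 Crest.Agent.R096.Agl5_543 Crest.Agent.R096.St_147
  Crest.Agent.R096.Agl1_543 Crest.Agent.R096.Agl2_543 Crest.Agent.R096.Agl3_543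
  Crest.Agent.R096.Ori_543 Crest.Agent.R096.Seq_213 Crest.Agent.R096.Seq_213.GSt
open scoped ENNReal

variable {E : Type} [NormedAddCommGroup E] [NormedSpace ℝ E] [FiniteDimensional ℝ E]
variable {Om : Set E} {ι : Type} {T : Tiling Om ι}


/-- the points in the open edges of the mesh -/
def VM (T : Tiling Om ι) : Set E := {w | w ∈ Om ∧ T.dim w = 1}

/-- "`x` is on the open mesh edge of `w`" -/
def RelM (T : Tiling Om ι) (x w : E) : Prop := x = w ∨ (w ∈ VM T ∧ x ∈ T.oc w)

theorem RelM.refl (x : E) : RelM T x x := Or.inl rfl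

theorem RelM.mem {x y : E} (h : RelM T x y) (hy : y ∈ VM T) : x ∈ VM T := by
  rcases h with rfl | ⟨-, h⟩
  · exact hy
  · exact ⟨T.cc_sub_Om hy.1 (T.oc_sub_cc y h), by rw [T.dim_eq_of_mem_oc hy.1 h]; exact hy.2⟩

theorem RelM.trans {x y z : E} (h : RelM T x y) (h' : RelM T y z) : RelM T x z := by
  rcases h with rfl | ⟨hy, h⟩
  · exact h'
  · rcases h' with rfl | ⟨hz, h'⟩
    · exact Or.inr ⟨hy, h⟩
    · exact Or.inr ⟨hz, by rw [← T.oc_eq_of_mem hz.1 h']; exact h⟩

/-- sets which are unions of open edges near the points of open edges are saturated -/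
theorem RelM.oc {x y w : E} (hw : w ∈ VM T) (h : RelM T x y) : x ∈ T.oc w ↔ y ∈ T.oc w := by
  rcases h with rfl | ⟨hy, h⟩
  · exact Iff.rfl
  · constructor
    · intro h1
      have e1 := T.oc_eq_of_mem hw.1 h1
      have e2 := T.oc_eq_of_mem hy.1 h
      rw [← e1, e2]
      exact T.self_mem_oc y
    · intro h1
      rw [← T.oc_eq_of_mem hw.1 h1]
      exact h


end Crest.Agent.R096.Cp_298
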