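import Crest.Agent.R096.Gl1_422
import Crest.Agent.R096.Cp6_298

-- ▼ part R096/Gl2_422
section

/-!
# R096 (row 96), GLUE-STATE over a mesh with labels, part 2 (helper422): the sheets of one family are
totally ordered by inclusion of their insides (NEST), as soon as all labels are 1 at one vertex and 0
at another one (joined by 1-cells).
-/

set_option autoImplicit false
set_option linter.unusedSectionVars false

open Set Relation

namespace Crest.Agent.R096.Gl_422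

open Crest.Agent.R096.St_147 Crest.Agent.R096.Seq_213 Crest.Agent.R096.Lm_117
  Crest.Agent.R096.Ac_117

variable {ι Φ W Q : Type} [PartialOrder Q] {dim : Q → ℕ} {M : MeshC ι Φ W}
variable {J C K : Type} {fam : J → C}

/-- the sheet `j` lies inside the sheet `j'` -/
def Ins (L : LM M Q dim) (s : GSt M fam) (lam : J → Q → ZMod 2) (j j' : J) : Prop :=
  ∀ w ∈ s.P, s.lab w = j → L.ext (gp s j') (lam j') w = 1

/-- the sheet `j` lies outside the sheet `j'` -/
def Out (L : LM M Q dim) (s : GSt M fam) (lam : J → Q → ZMod 2) (j j' : J) : Prop :=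
  ∀ w ∈ s.P, s.lab w = j → L.ext (gp s j') (lam j') w = 0

/-- labelled sheets of the family `c`: label 1 at `v₀`, 0 at `v₁` -/
structure Lbd (L : LM M Q dim) (s : GSt M fam) (c : C) (lam : J → Q → ZMod 2) (v₀ v₁ : Q) : Prop where
  conn : ∀ j, fam j = c → s.Conn j
  lab : ∀ j, fam j = c → GLab L (gp s j) (lam j)
  one : ∀ j, fam j = c → lam j v₀ = 1
  zero : ∀ j, fam j = c → lam j v₁ = 0
  path : ∃ Z : Set Q, ReflTransGen (Ed L Z) v₀ v₁

variable {L : LM M Q dim} {s : GSt M fam} {c : C} {lam : J → Q → ZMod 2} {v₀ v₁ : Q}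

theorem Lbd.ins_of_pt (h : Lbd L s c lam v₀ v₁) {j j' : J} (hj : fam j = c) (hj' : fam j' = c)
    (hne : j' ≠ j) {w : W} (hw : w ∈ s.P) (hl : s.lab w = j)
    (h1 : L.ext (gp s j') (lam j') w = 1) : Ins L s lam j j' := by
  intro w' hw' hl'
  rw [← h1]
  exact side_const (hj'.trans hj.symm) hne (h.conn j hj) (h.lab j' hj') hw' hl' hw hl

theorem Lbd.out_of_pt (h : Lbd L s c lam v₀ v₁) {j j' : J} (hj : fam j = c) (hj' : fam j' = c)
    (hne : j' ≠ j) {w : W} (hw : w ∈ s.P) (hl : s.lab w = j)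
    (h1 : L.ext (gp s j') (lam j') w = 0) : Out L s lam j j' := by
  intro w' hw' hl'
  rw [← h1]
  exact side_const (hj'.trans hj.symm) hne (h.conn j hj) (h.lab j' hj') hw' hl' hw hl

theorem Lbd.not_both (h : Lbd L s c lam v₀ v₁) {j j' : J} (hj : fam j = c)
    (h1 : Ins L s lam j j') (h2 : Out L s lam j j') : False := by
  obtain ⟨⟨w, hw, hl⟩, -⟩ := h.conn j hj
  have e1 := h1 w hw hl
  rw [h2 w hw hl] at e1
  exact absurd e1 (by decide)

/-- a nonempty finite set of sheets of the family has an innermost sheet -/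
theorem Lbd.inner (h : Lbd L s c lam v₀ v₁) {I : Finset J} (hI : I.Nonempty)
    (hf : ∀ i ∈ I, fam i = c) : ∃ i ∈ I, ∀ i' ∈ I, i' ≠ i → Ins L s lam i i' := by
  obtain ⟨W, hW⟩ := h.path
  obtain ⟨i₀, hi₀⟩ := hI
  obtain ⟨a, ha, w, hw, hwI, h1⟩ := first_pt (I := I) (fun i hi => h.lab i (hf i hi))
    (A := fun x => ∀ i ∈ I, x i = 1) (fun x y hxy hx i hi => by rw [← hxy i hi]; exact hx i hi) hW
    (fun i hi => h.one i (hf i hi))
    (fun hcon => by
      have e1 : lam i₀ v₁ = 1 := hcon i₀ hi₀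
      have e2 := h.zero i₀ (hf i₀ hi₀)
      rw [e2] at e1
      exact absurd e1 (by decide))
  refine ⟨s.lab w, hwI, fun i' hi' hne => ?_⟩
  exact h.ins_of_pt (hf _ hwI) (hf i' hi') hne hw rfl (by rw [h1 i' hi' hne]; exact ha i' hi')

/-- a nonempty finite set of sheets of the family has an outermost sheet -/
theorem Lbd.outer (h : Lbd L s c lam v₀ v₁) {I : Finset J} (hI : I.Nonempty)
    (hf : ∀ i ∈ I, fam i = c) : ∃ i ∈ I, ∀ i' ∈ I, i' ≠ i → Out L s lam i i' := by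
  obtain ⟨W, hW⟩ := h.path
  obtain ⟨i₀, hi₀⟩ := hI
  obtain ⟨a, ha, w, hw, hwI, h1⟩ := first_pt (I := I) (fun i hi => h.lab i (hf i hi))
    (A := fun x => ∀ i ∈ I, x i = 0) (fun x y hxy hx i hi => by rw [← hxy i hi]; exact hx i hi)
    (path_symm hW) (fun i hi => h.zero i (hf i hi))
    (fun hcon => by
      have e1 : lam i₀ v₀ = 0 := hcon i₀ hi₀
      have e2 := h.one i₀ (hf i₀ hi₀)
      rw [e2] at e1
      exact absurd e1 (by decide))
  refine ⟨s.lab w, hwI, fun i' hi' hne => ?_⟩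
  exact h.out_of_pt (hf _ hwI) (hf i' hi') hne hw rfl (by rw [h1 i' hi' hne]; exact ha i' hi')

/-- **two sheets of the family are nested** -/
theorem Lbd.tri (h : Lbd L s c lam v₀ v₁) {j j' : J} (hj : fam j = c) (hj' : fam j' = c)
    (hne : j ≠ j') : (Ins L s lam j j' ∧ Out L s lam j' j) ∨ (Ins L s lam j' j ∧ Out L s lam j j') := by
  classical
  have hf : ∀ i ∈ ({j, j'} : Finset J), fam i = c := by
    intro i hi
    rcases Finset.mem_insert.1 hi with rfl | hi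
    · exact hj
    · rw [Finset.mem_singleton.1 hi]; exact hj'
  have hn : ({j, j'} : Finset J).Nonempty := ⟨j, Finset.mem_insert_self _ _⟩
  have hjI : j ∈ ({j, j'} : Finset J) := Finset.mem_insert_self _ _
  have hjI' : j' ∈ ({j, j'} : Finset J) := Finset.mem_insert_of_mem (Finset.mem_singleton_self _)
  have h1 : Ins L s lam j j' ∨ Ins L s lam j' j := by
    obtain ⟨i, hi, h1⟩ := h.inner hn hf
    rcases Finset.mem_insert.1 hi with rfl | hi
    · exact Or.inl (h1 j' hjI' hne.symm)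
    · rw [Finset.mem_singleton.1 hi] at h1
      exact Or.inr (h1 j hjI hne)
  have h2 : Out L s lam j j' ∨ Out L s lam j' j := by
    obtain ⟨i, hi, h1⟩ := h.outer hn hf
    rcases Finset.mem_insert.1 hi with rfl | hi
    · exact Or.inl (h1 j' hjI' hne.symm)
    · rw [Finset.mem_singleton.1 hi] at h1
      exact Or.inr (h1 j hjI hne)
  rcases h1 with h1 | h1
  · rcases h2 with h2 | h2
    · exact (h.not_both hj h1 h2).elim
    · exact Or.inl ⟨h1, h2⟩
  · rcases h2 with h2 | h2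
    · exact Or.inr ⟨h1, h2⟩
    · exact (h.not_both hj' h1 h2).elim

theorem Lbd.asymm (h : Lbd L s c lam v₀ v₁) {j j' : J} (hj : fam j = c) (hj' : fam j' = c)
    (hne : j ≠ j') (h1 : Ins L s lam j j') : ¬ Ins L s lam j' j := by
  intro h2
  rcases h.tri hj hj' hne with ⟨-, h4⟩ | ⟨-, h4⟩
  · exact h.not_both hj' h2 h4
  · exact h.not_both hj h1 h4

theorem Lbd.out_of_not (h : Lbd L s c lam v₀ v₁) {j j' : J} (hj : fam j = c) (hj' : fam j' = c)
    (hne : j ≠ j') (h1 : ¬ Ins L s lam j j') : Ins L s lam j' j ∧ Out L s lam j j' := by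
  rcases h.tri hj hj' hne with ⟨h2, -⟩ | h2
  · exact absurd h2 h1
  · exact h2

/-- **transitivity** -/
theorem Lbd.trans (h : Lbd L s c lam v₀ v₁) {j j' j'' : J} (hj : fam j = c) (hj' : fam j' = c)
    (hj'' : fam j'' = c) (n1 : j ≠ j') (n2 : j' ≠ j'') (h1 : Ins L s lam j j')
    (h2 : Ins L s lam j' j'') : j ≠ j'' ∧ Ins L s lam j j'' := by
  classical
  have n3 : j ≠ j'' := by
    rintro rfl
    exact h.asymm hj hj' n1 h1 h2
  refine ⟨n3, ?_⟩
  by_contra hcon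
  have hf : ∀ i ∈ ({j, j', j''} : Finset J), fam i = c := by
    intro i hi
    simp only [Finset.mem_insert, Finset.mem_singleton] at hi
    rcases hi with rfl | rfl | rfl
    · exact hj
    · exact hj'
    · exact hj''
  obtain ⟨i, hi, h4⟩ := h.inner (I := {j, j', j''}) ⟨j, by simp⟩ hf
  simp only [Finset.mem_insert, Finset.mem_singleton] at hi h4
  rcases hi with rfl | rfl | rfl
  · exact hcon (h4 j'' (Or.inr (Or.inr rfl)) n3.symm)
  · exact h.asymm hj hj' n1 h1 (h4 j (Or.inl rfl) n1)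
  · exact h.asymm hj' hj'' n2 h2 (h4 j' (Or.inr (Or.inl rfl)) n2)

/-- **labels are nested** -/
theorem Lbd.mono (h : Lbd L s c lam v₀ v₁) {j j' : J} (hj : fam j = c) (hj' : fam j' = c)
    (hne : j ≠ j') (h1 : Ins L s lam j j') {Z : Set Q} {v : Q}
    (hv : ReflTransGen (Ed L Z) v v₁) (hv1 : lam j v = 1) : lam j' v = 1 := by
  classical
  by_contra hcon
  have hz : ∀ x : ZMod 2, x ≠ 1 → x = 0 := by decide
  have hcon0 := hz _ hcon
  have hf : ∀ i ∈ ({j, j'} : Finset J), fam i = c := by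
    intro i hi
    rcases Finset.mem_insert.1 hi with rfl | hi
    · exact hj
    · rw [Finset.mem_singleton.1 hi]; exact hj'
  have hjI : j ∈ ({j, j'} : Finset J) := Finset.mem_insert_self _ _
  have hjI' : j' ∈ ({j, j'} : Finset J) := Finset.mem_insert_of_mem (Finset.mem_singleton_self _)
  obtain ⟨a, ha, w, hw, hwI, h4⟩ := first_pt (I := {j, j'})
    (fun i hi => h.lab i (hf i hi)) (A := fun x => x j = 1 ∧ x j' = 0)
    (fun x y hxy hx => ⟨by rw [← hxy j hjI]; exact hx.1, by rw [← hxy j' hjI']; exact hx.2⟩) hv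
    ⟨hv1, hcon0⟩ (fun hcon => by
      have e1 : lam j v₁ = 1 := hcon.1
      rw [h.zero j hj] at e1
      exact absurd e1 (by decide))
  have ha1 : lam j a = 1 := ha.1
  have ha2 : lam j' a = 0 := ha.2
  rcases Finset.mem_insert.1 hwI with e | e
  · have e1 := h4 j' hjI' (by rw [e]; exact hne.symm)
    rw [h1 w hw e, ha2] at e1
    exact absurd e1 (by decide)
  · have e' := Finset.mem_singleton.1 e
    have e1 := h4 j hjI (by rw [e']; exact hne)
    have h5 : Out L s lam j' j := by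
      rcases h.tri hj hj' hne with ⟨-, h5⟩ | ⟨h5, -⟩
      · exact h5
      · exact absurd h5 (h.asymm hj hj' hne h1)
    rw [h5 w hw e', ha1] at e1
    exact absurd e1 (by decide)

/-! ### the order number -/

open Classical in
/-- number of the sheets of the family outside `j` -/
noncomputable def ord (L : LM M Q dim) (s : GSt M fam) (lam : J → Q → ZMod 2) (A : Finset J) (j : J) : ℕ :=
  (A.filter (fun j' => j' ≠ j ∧ Ins L s lam j j')).card

theorem Lbd.ord_lt (h : Lbd L s c lam v₀ v₁) {A : Finset J} (hA : ∀ j ∈ A, fam j = c) {j j' : J}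
    (hj : j ∈ A) (hj' : j' ∈ A) (hne : j ≠ j') (h1 : Ins L s lam j j') :
    ord L s lam A j' < ord L s lam A j := by
  classical
  unfold ord
  refine Finset.card_lt_card ⟨?_, ?_⟩
  · intro i hi
    obtain ⟨hiA, hi1, hi2⟩ := Finset.mem_filter.1 hi
    obtain ⟨h4, h5⟩ := h.trans (hA j hj) (hA j' hj') (hA i hiA) hne hi1.symm h1 hi2
    exact Finset.mem_filter.2 ⟨hiA, h4.symm, h5⟩
  · intro hsub
    have h2 : j' ∈ A.filter (fun i => i ≠ j ∧ Ins L s lam j i) :=
      Finset.mem_filter.2 ⟨hj', hne.symm, h1⟩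
    have h4 := hsub h2
    exact (Finset.mem_filter.1 h4).2.1 rfl


theorem ord_lt_card {A : Finset J} {j : J} (hj : j ∈ A) : ord L s lam A j < A.card := by
  classical
  unfold ord
  refine Finset.card_lt_card ⟨Finset.filter_subset _ _, fun hsub => ?_⟩
  exact (Finset.mem_filter.1 (hsub hj)).2.1 rfl



/-! ### the number of a sheet of its family -/

/-- the sheets of the family of `j` -/
noncomputable def sib (hfin : ∀ a, {j | fam j = a}.Finite) (j : J) : Finset J :=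
  (hfin (fam j)).toFinset

theorem mem_sib {hfin : ∀ a, {j | fam j = a}.Finite} {j i : J} :
    i ∈ sib hfin j ↔ fam i = fam j := by
  unfold sib; rw [Finite.mem_toFinset]; rfl

/-- the number of the sheets of the family outside `j` -/
noncomputable def rk (L : LM M Q dim) (s : GSt M fam) (lam : J → Q → ZMod 2)
    (hfin : ∀ a, {j | fam j = a}.Finite) (j : J) : ℕ := ord L s lam (sib hfin j) j

theorem sib_congr {hfin : ∀ a, {j | fam j = a}.Finite} {j j' : J} (h : fam j = fam j') :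
    sib hfin j = sib hfin j' := by
  ext i
  rw [mem_sib, mem_sib, h]

/-- **order**: `j` lies inside `j'` iff its number is larger -/
theorem Lbd.ins_iff (h : Lbd L s c lam v₀ v₁) (hfin : ∀ a, {j | fam j = a}.Finite) {j j' : J}
    (hj : fam j = c) (hj' : fam j' = c) (hne : j ≠ j') :
    Ins L s lam j j' ↔ rk L s lam hfin j' < rk L s lam hfin j := by
  have hA : ∀ i ∈ sib hfin j, fam i = c := fun i hi => (mem_sib.1 hi).trans hj
  have hjm : j ∈ sib hfin j := mem_sib.2 rfl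
  have hjm' : j' ∈ sib hfin j := mem_sib.2 (hj'.trans hj.symm)
  unfold rk
  rw [sib_congr (hfin := hfin) (hj'.trans hj.symm)]
  constructor
  · intro h1
    exact h.ord_lt hA hjm hjm' hne h1
  · intro h1
    by_contra hcon
    obtain ⟨h2, -⟩ := h.out_of_not hj hj' hne hcon
    exact absurd (h.ord_lt hA hjm' hjm hne.symm h2) (not_lt.2 h1.le)

theorem Lbd.rk_inj (h : Lbd L s c lam v₀ v₁) (hfin : ∀ a, {j | fam j = a}.Finite) {j j' : J}
    (hj : fam j = c) (hj' : fam j' = c) (he : rk L s lam hfin j = rk L s lam hfin j') :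
    j = j' := by
  by_contra hne
  by_cases h1 : Ins L s lam j j'
  · have := (h.ins_iff hfin hj hj' hne).1 h1
    omega
  · obtain ⟨h2, -⟩ := h.out_of_not hj hj' hne h1
    have := (h.ins_iff hfin hj' hj (Ne.symm hne)).1 h2
    omega

theorem rk_lt (hfin : ∀ a, {j | fam j = a}.Finite) (j : J) :
    rk L s lam hfin j < (sib hfin j).card := ord_lt_card (mem_sib.2 rfl)

/-- the label of `j'` at any point of `j` -/
theorem Lbd.ext_iff (h : Lbd L s c lam v₀ v₁) (hfin : ∀ a, {j | fam j = a}.Finite) {j j' : J}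
    (hj : fam j = c) (hj' : fam j' = c) (hne : j ≠ j') {w : W} (hw : w ∈ s.P)
    (hl : s.lab w = j) :
    L.ext (gp s j') (lam j') w = 1 ↔ rk L s lam hfin j' < rk L s lam hfin j := by
  rw [← h.ins_iff hfin hj hj' hne]
  constructor
  · intro h1
    exact h.ins_of_pt hj hj' hne.symm hw hl h1
  · intro h1
    exact h1 w hw hl

end Crest.Agent.R096.Gl_422
end

-- ▼ part R096/Gl3_422

/-!
# R096 (row 96), GLUE-STATE over a mesh with labels, part 3 (helper422): labels of the sheets of a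
later state with copies (298's `Cps`) over ANY mesh with labels (`LM` of 117): tilings, merged meshes.
-/

set_option autoImplicit false
set_option linter.unusedSectionVars false

open Set Relation

namespace Crest.Agent.R096.Gl_422

open Crest.Agent.R096.St_147 Crest.Agent.R096.Seq_213 Crest.Agent.R096.Seq_213.GSt
  Crest.Agent.R096.Lm_117 Crest.Agent.R096.Ac_117 Crest.Agent.R096.Cp_298

variable {ι Φ W Q : Type} [PartialOrder Q] {dim : Q → ℕ} {M : MeshC ι Φ W}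
variable {J J1 C K : Type} {fam : J → C} {fam1 : J1 → C}

/-- the 1-cell `e` is not interior to the active region of any quad of the family `c` -/
def FrE (L : LM M Q dim) (Qd : Quads ι C K) (c : C) (e : Q) : Prop :=
  ∀ k, Qd.In k c → ∃ F, e ≤ L.cf F ∧ ∃ q ∈ M.side F, q ∉ Qd.Act k

/-- points on frozen 1-cells are marked -/
theorem mem_far {L : LM M Q dim} {s : GSt M fam} {Qd : Quads ι C K} {far : J → Set W}
    (hI : s.Inv Qd far) {w : W} (hw : w ∈ s.P) (hw1 : w ∈ L.W1)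
    (hf : FrE L Qd (fam (s.lab w)) (L.ed w)) : w ∈ far (s.lab w) := by
  rcases hI.loc hw with h | ⟨k, hk, hint⟩
  · exact h
  · obtain ⟨F, h1, q, h2, h3⟩ := hf k hk
    exact absurd (hint.2 F ((L.on_iff F w).2 ⟨hw1, h1⟩) q h2) h3

section cps

variable {L : LM M Q dim} {O : Ori M} {Qd : Quads ι C K} {Rel : W → W → Prop} {s₀ : GSt M fam}
  {far₀ : J → Set W} {σ₀ : W → ZMod 2} {p : J1 → J} {m : J1 → ℕ} {s : GSt M fam1}
  {far : J1 → Set W} {β : W → W}

variable (h : Cps O Qd Rel s₀ far₀ σ₀ p m s far β)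
  (hR : ∀ x w, Rel x w → w ∈ L.W1 → x ∈ L.W1 ∧ L.ed x = L.ed w)
  (hP0 : ∀ w ∈ s₀.P, w ∈ L.W1)
include h hR hP0

/-- the points of the final state lie on the 1-cells -/
theorem on_final : ∀ x ∈ s.P, x ∈ L.W1 := fun x hx => (hR x _ (h.rel hx) (hP0 _ (h.mem hx))).1

theorem ed_final {x : W} (hx : x ∈ s.P) : L.ed x = L.ed (β x) :=
  (hR x _ (h.rel hx) (hP0 _ (h.mem hx))).2

/-- the bijection of a final sheet and its original on a frozen 1-cell -/
theorem bij_final (hp : ∀ j, fam (p j) = fam1 j) (hI₀ : s₀.Inv Qd far₀) (hI : s.Inv Qd far)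
    {j : J1} {e : Q} (hf : FrE L Qd (fam1 j) e) :
    BijOn β {x | x ∈ s.P ∧ s.lab x = j ∧ x ∈ L.On1 e}
      {w | w ∈ s₀.P ∧ s₀.lab w = p j ∧ w ∈ L.On1 e} := by
  have hfar : ∀ x, x ∈ s.P → s.lab x = j → x ∈ L.On1 e → x ∈ far j := by
    intro x hx hl hxe
    have := mem_far (L := L) hI hx hxe.1 (by rw [hl, hxe.2]; exact hf)
    rwa [hl] at this
  refine ⟨?_, ?_, ?_⟩
  · rintro x ⟨hx, hl, hxe⟩
    obtain ⟨h2, h4⟩ := hI₀.far_mem (h.far_mem (hfar x hx hl hxe))
    exact ⟨h2, h4, hP0 _ h2, (ed_final h hR hP0 hx).symm.trans hxe.2⟩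
  · rintro x ⟨hx, hl, hxe⟩ y ⟨hy, hl', hye⟩ exy
    exact h.far_uniq (hfar x hx hl hxe) (hfar y hy hl' hye) exy
  · rintro w ⟨hw, hl, hwe⟩
    have h4 := mem_far (L := L) hI₀ hw hwe.1 (by rw [hl, hp, hwe.2]; exact hf)
    rw [hl] at h4
    obtain ⟨x, hx, rfl⟩ := h.far_ex h4
    obtain ⟨h5, h6⟩ := hI.far_mem hx
    exact ⟨x, ⟨h5, h6, on_final h hR hP0 x h5, (ed_final h hR hP0 h5).trans hwe.2⟩, rfl⟩

/-- parities on frozen 1-cells -/
theorem nW_final (hp : ∀ j, fam (p j) = fam1 j) (hI₀ : s₀.Inv Qd far₀) (hI : s.Inv Qd far)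
    {j : J1} {e : Q} (hf : FrE L Qd (fam1 j) e) :
    nW (gp s j) (L.On1 e) = nW (gp s₀ (p j)) (L.On1 e) := by
  classical
  have hb := bij_final h hR hP0 hp hI₀ hI hf
  rw [nW_card, nW_card]
  congr 1
  refine Finset.card_bij (fun x _ => β x) ?_ ?_ ?_
  · intro x hx
    obtain ⟨h1, h2⟩ := Finset.mem_filter.1 hx
    obtain ⟨h4, h5⟩ := mem_gp.1 h1
    obtain ⟨a1, a2, a3⟩ := hb.mapsTo ⟨h4, h5, h2⟩
    exact Finset.mem_filter.2 ⟨mem_gp.2 ⟨a1, a2⟩, a3⟩
  · intro x hx y hy exy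
    obtain ⟨h1, h2⟩ := Finset.mem_filter.1 hx
    obtain ⟨h4, h5⟩ := mem_gp.1 h1
    obtain ⟨h1', h2'⟩ := Finset.mem_filter.1 hy
    obtain ⟨h4', h5'⟩ := mem_gp.1 h1'
    exact hb.injOn ⟨h4, h5, h2⟩ ⟨h4', h5', h2'⟩ exy
  · intro w hw
    obtain ⟨h1, h2⟩ := Finset.mem_filter.1 hw
    obtain ⟨h4, h5⟩ := mem_gp.1 h1
    obtain ⟨x, ⟨a1, a2, a3⟩, rfl⟩ := hb.surjOn ⟨h4, h5, h2⟩
    exact ⟨x, Finset.mem_filter.2 ⟨mem_gp.2 ⟨a1, a2⟩, a3⟩, rfl⟩

/-- a frozen 1-cell without points of the original sheet has no points of the final sheet -/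
theorem empty_final (hp : ∀ j, fam (p j) = fam1 j) (hI₀ : s₀.Inv Qd far₀) (hI : s.Inv Qd far)
    {j : J1} {e : Q} (hf : FrE L Qd (fam1 j) e) (he : ∀ w ∈ gp s₀ (p j), w ∉ L.On1 e) :
    ∀ x ∈ gp s j, x ∉ L.On1 e := by
  intro x hx hxe
  obtain ⟨h1, h2⟩ := mem_gp.1 hx
  obtain ⟨a1, a2, a3⟩ := (bij_final h hR hP0 hp hI₀ hI hf).mapsTo ⟨h1, h2, hxe⟩
  exact he _ (mem_gp.2 ⟨a1, a2⟩) a3


end cps

/-- **labels exist for patterns in `G`**, vanishing at the vertices of `Z` -/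
def HasLab (L : LM M Q dim) (G : Set W) (Z : Set Q) : Prop :=
  ∀ Y : Finset W, (∀ w ∈ Y, w ∈ L.W1) → (∀ w ∈ Y, w ∈ G) → (∀ F, nW Y (M.On F) = 0) →
    ∃ lam : Q → ZMod 2, GLab L Y lam ∧ ∀ v ∈ Z, lam v = 0

/-- **label data of the initial state**: `G c` = points of the 1-cells deep inside the body of the
family `c`, `Z c` = vertices which are not deep inside, `v₀ c` deep vertex, `v₁ c` far vertex -/
structure LabIn (L : LM M Q dim) (Qd : Quads ι C K) (s₀ : GSt M fam) (G : C → Set W)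
    (Z : C → Set Q) (lam₀ : J → Q → ZMod 2) (v₀ v₁ : C → Q) : Prop where
  has : ∀ j, HasLab L (G (fam j)) (Z (fam j))
  sat : ∀ j, ∀ w ∈ G (fam j), ∀ x ∈ L.W1, L.ed x = L.ed w → x ∈ G (fam j)
  supp : ∀ w ∈ s₀.P, w ∈ G (fam (s₀.lab w))
  act : ∀ j k, Qd.In k (fam j) → ∀ w ∈ L.W1, Int M (Qd.Act k) w → w ∈ G (fam j)
  lab : ∀ j, GLab L (gp s₀ j) (lam₀ j)
  one : ∀ j, lam₀ j (v₀ (fam j)) = 1
  zero : ∀ j, lam₀ j (v₁ (fam j)) = 0
  far : ∀ j, v₁ (fam j) ∈ Z (fam j)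
  rope : ∀ j, ReflTransGen (Ed L {e | FrE L Qd (fam j) e}) (v₀ (fam j)) (v₁ (fam j))

/-- **labels of the final sheets** -/
structure LabOut (L : LM M Q dim) (Qd : Quads ι C K) (s : GSt M fam1) (Z : C → Set Q)
    (p : J1 → J) (lam₀ : J → Q → ZMod 2) (v₀ v₁ : C → Q) (lam : J1 → Q → ZMod 2) : Prop where
  on : ∀ w ∈ s.P, w ∈ L.W1
  conn : ∀ j, s.Conn j
  lab : ∀ j, GLab L (gp s j) (lam j)
  far : ∀ j, ∀ v ∈ Z (fam1 j), lam j v = 0
  one : ∀ j, lam j (v₀ (fam1 j)) = 1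
  zero : ∀ j, lam j (v₁ (fam1 j)) = 0
  rope : ∀ j, ReflTransGen (Ed L {e | FrE L Qd (fam1 j) e}) (v₀ (fam1 j)) (v₁ (fam1 j))
  frz : ∀ j v, ReflTransGen (Ed L {e | FrE L Qd (fam1 j) e}) (v₀ (fam1 j)) v →
    lam j v = lam₀ (p j) v

section cps2

variable {L : LM M Q dim} {O : Ori M} {Qd : Quads ι C K} {Rel : W → W → Prop} {s₀ : GSt M fam}
  {far₀ : J → Set W} {σ₀ : W → ZMod 2} {p : J1 → J} {m : J1 → ℕ} {s : GSt M fam1}
  {far : J1 → Set W} {β : W → W} {G : C → Set W} {Z : C → Set Q} {lam₀ : J → Q → ZMod 2}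
  {v₀ v₁ : C → Q}

/-- **LABELS OF THE FINAL SHEETS EXIST** -/
theorem exists_lam (h : Cps O Qd Rel s₀ far₀ σ₀ p m s far β)
    (hR : ∀ x w, Rel x w → w ∈ L.W1 → x ∈ L.W1 ∧ L.ed x = L.ed w)
    (hP0 : ∀ w ∈ s₀.P, w ∈ L.W1) (hp : ∀ j, fam (p j) = fam1 j) (hI₀ : s₀.Inv Qd far₀)
    (hI : s.Inv Qd far) (D : LabIn L Qd s₀ G Z lam₀ v₀ v₁) :
    ∃ lam : J1 → Q → ZMod 2, LabOut L Qd s Z p lam₀ v₀ v₁ lam := by
  have hon := on_final h hR hP0
  have hsupp : ∀ w ∈ s.P, w ∈ G (fam1 (s.lab w)) := by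
    intro w hw
    rcases hI.loc hw with h1 | ⟨k, hk, hint⟩
    · obtain ⟨h4, h5⟩ := hI₀.far_mem (h.far_mem h1)
      have h6 := D.supp _ h4
      rw [h5] at h6
      have h7 := D.sat _ _ h6 w (hon w hw) (ed_final h hR hP0 hw)
      rwa [hp] at h7
    · rw [← hp] at hk ⊢
      exact D.act _ k hk w (hon w hw) hint
  have hex : ∀ j : J1, ∃ lam : Q → ZMod 2, GLab L (gp s j) lam ∧ ∀ v ∈ Z (fam1 j), lam v = 0 := by
    intro j
    have h1 := D.has (p j)
    rw [hp] at h1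
    refine h1 (gp s j) (fun w hw => hon w (mem_gp.1 hw).1) (fun w hw => ?_) (gp_even s j)
    obtain ⟨h2, h4⟩ := mem_gp.1 hw
    have h5 := hsupp w h2
    rwa [h4] at h5
  choose lam h1 h2 using hex
  have hz : ∀ j, lam j (v₁ (fam1 j)) = 0 := by
    intro j
    have h4 := D.far (p j)
    rw [hp] at h4
    exact h2 j _ h4
  have hr : ∀ j, ReflTransGen (Ed L {e | FrE L Qd (fam1 j) e}) (v₀ (fam1 j)) (v₁ (fam1 j)) := by
    intro j
    have h5 := D.rope (p j)
    rwa [hp] at h5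
  have hdiff : ∀ j v v', ReflTransGen (Ed L {e | FrE L Qd (fam1 j) e}) v v' →
      lam j v + lam₀ (p j) v = lam j v' + lam₀ (p j) v' := fun j v v' hv =>
    (h1 j).diff (D.lab (p j)) (fun e he _ => nW_final h hR hP0 hp hI₀ hI he) hv
  have ho : ∀ j, lam j (v₀ (fam1 j)) = 1 := by
    intro j
    have h5 := hdiff j _ _ (hr j)
    have h6 := D.one (p j)
    have h7 := D.zero (p j)
    rw [hp] at h6 h7
    rw [hz j, h6, h7] at h5
    have e4 : ∀ a : ZMod 2, a + 1 = 0 + 0 → a = 1 := by decide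
    exact e4 _ h5
  refine ⟨lam, hon, fun j => hI.conn j, h1, h2, ho, hz, hr, fun j v hv => ?_⟩
  have h5 := hdiff j _ _ hv
  have h6 := D.one (p j)
  rw [hp] at h6
  rw [ho j, h6] at h5
  have e4 : ∀ a b : ZMod 2, 1 + 1 = a + b → a = b := by decide
  exact e4 _ _ h5

end cps2

section out

variable {L : LM M Q dim} {Qd : Quads ι C K} {s : GSt M fam1} {Z : C → Set Q} {p : J1 → J}
  {lam₀ : J → Q → ZMod 2} {v₀ v₁ : C → Q} {lam : J1 → Q → ZMod 2}

theorem LabOut.lbd (D : LabOut L Qd s Z p lam₀ v₀ v₁ lam) (j₀ : J1) :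
    Lbd L s (fam1 j₀) lam (v₀ (fam1 j₀)) (v₁ (fam1 j₀)) where
  conn := fun j _ => D.conn j
  lab := fun j _ => D.lab j
  one := fun j hj => by rw [← hj]; exact D.one j
  zero := fun j hj => by rw [← hj]; exact D.zero j
  path := ⟨_, D.rope j₀⟩

/-- the label along a path of 1-cells without points of the sheet, from the deep vertex -/
theorem LabOut.lam_one (D : LabOut L Qd s Z p lam₀ v₀ v₁ lam) {j : J1} {A : Set Q}
    (hE : ∀ e ∈ A, dim e = 1 → ∀ u ∈ gp s j, u ∉ L.On1 e) {v : Q}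
    (hv : ReflTransGen (Ed L A) (v₀ (fam1 j)) v) : lam j v = 1 := by
  rw [← (D.lab j).const hE hv]
  exact D.one j

/-- the label along a path of 1-cells without points of the sheet, from a far vertex -/
theorem LabOut.lam_zero (D : LabOut L Qd s Z p lam₀ v₀ v₁ lam) {j : J1} {A : Set Q}
    (hE : ∀ e ∈ A, dim e = 1 → ∀ u ∈ gp s j, u ∉ L.On1 e) {v v' : Q} (hz : v' ∈ Z (fam1 j))
    (hv : ReflTransGen (Ed L A) v' v) : lam j v = 0 := by
  rw [← (D.lab j).const hE hv]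
  exact D.far j _ hz


theorem LabOut.rk_inj (D : LabOut L Qd s Z p lam₀ v₀ v₁ lam)
    (hfin : ∀ a, {j | fam1 j = a}.Finite) {j j' : J1} (hf : fam1 j = fam1 j')
    (h : rk L s lam hfin j = rk L s lam hfin j') : j = j' :=
  (D.lbd j).rk_inj hfin rfl hf.symm h

theorem LabOut.ext_iff (D : LabOut L Qd s Z p lam₀ v₀ v₁ lam)
    (hfin : ∀ a, {j | fam1 j = a}.Finite) {j j' : J1} (hf : fam1 j = fam1 j') (hne : j ≠ j')
    {w : W} (hw : w ∈ s.P) (hl : s.lab w = j) :
    L.ext (gp s j') (lam j') w = 1 ↔ rk L s lam hfin j' < rk L s lam hfin j :=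
  (D.lbd j).ext_iff hfin rfl hf.symm hne hw hl

/-- one point of every sheet (input of 441's `ord_cmb` over `LM`) -/
theorem LabOut.hlev (D : LabOut L Qd s Z p lam₀ v₀ v₁ lam)
    (hfin : ∀ a, {j | fam1 j = a}.Finite) : ∀ j j', j ≠ j' → fam1 j = fam1 j' →
      ∃ w ∈ s.P, s.lab w = j ∧ (L.ext (gp s j') (lam j') w = 1 ↔
        (rk L s lam hfin j' : ℝ) < rk L s lam hfin j) := by
  intro j j' hne hf
  obtain ⟨⟨w, hw, hl⟩, -⟩ := D.conn j
  refine ⟨w, hw, hl, ?_⟩
  rw [D.ext_iff hfin hf hne hw hl, Nat.cast_lt]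

end out

end Crest.Agent.R096.Gl_422
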