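import Crest.Agent.R096.Cp6_298

-- ▼ part R096/Cp7_298
section

/-!
# R096 / COPY, part 7 (helper298): weighted numbers of crossing points
-/

set_option autoImplicit false

namespace Crest.Agent.R096.Cp_298
open Crest.Agent.R096.St_147 Crest.Agent.R096.Seq_213 Crest.Agent.R096.Seq_213.GSt
open scoped ENNReal

variable {ι Φ W J C K : Type} {M : MeshC ι Φ W} {fam : J → C}

/-- weighted number of the points in `E` -/
noncomputable def wsum (s : GSt M fam) (w : C → ℝ≥0∞) (E : Set W) : ℝ≥0∞ :=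
  ∑' x : {x : W // x ∈ s.P ∧ x ∈ E}, w (fam (s.lab x.1))

section copy
variable {O : Ori M} {s : GSt M fam} {σ : W → ZMod 2} {r : C → ℕ} {R : W → W → Prop}
variable {hσ : TS s O σ} {hr : ∀ c, 0 < r c} {π : Par M O s.P (num s r) R}

/-- copies do not change the weighted number -/
theorem cp_wsum {w w' : C → ℝ≥0∞} (hw : ∀ c, (r c : ℝ≥0∞) * w' c = w c) {E : Set W}
    (hE : ∀ x y, R x y → (x ∈ E ↔ y ∈ E)) :
    wsum (cp s σ hσ hr π) w' E = wsum s w E := by
  classical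
  let f : (Σ x : {x : W // x ∈ s.P ∧ x ∈ E}, Fin (num s r x.1)) →
      {x : W // x ∈ (cp s σ hσ hr π).P ∧ x ∈ E} := fun y =>
    ⟨place σ π y.1.1 y.2, cp_mem y.1.2.1 y.2.2, (hE _ _ (place_rel π y.1.2.1 y.2.2)).2 y.1.2.2⟩
  have hf : Function.Bijective f := by
    constructor
    · rintro ⟨⟨x, hx⟩, l⟩ ⟨⟨y, hy⟩, l'⟩ h
      have h1 : place σ π x l = place σ π y l' := congrArg Subtype.val h
      obtain ⟨h2, h3⟩ := place_inj π hx.1 hy.1 l.2 l'.2 h1
      subst h2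
      have : l = l' := Fin.ext h3
      rw [this]
    · rintro ⟨x, hx, hxE⟩
      obtain ⟨y, hy, l, hl, rfl⟩ := cp_cases hx
      exact ⟨⟨⟨y, hy, (hE _ _ (place_rel π hy hl)).1 hxE⟩, ⟨l, hl⟩⟩, rfl⟩
  unfold wsum
  rw [← (Equiv.ofBijective f hf).tsum_eq, ENNReal.tsum_sigma']
  refine tsum_congr fun x => ?_
  have h1 : ∀ l : Fin (num s r x.1), w' (fam' fam r ((cp s σ hσ hr π).lab
      ((Equiv.ofBijective f hf) ⟨x, l⟩).1)) = w' (fam (s.lab x.1)) := by
    intro l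
    show w' (fam ((cp s σ hσ hr π).lab (place σ π x.1 l)).1) = _
    rw [cp_lab_fst x.2.1 l.2]
  simp only [h1]
  rw [tsum_fintype, Finset.sum_const, Finset.card_univ, Fintype.card_fin, nsmul_eq_mul]
  exact hw _

end copy

/-- the exchange does not increase the weighted number if the two weights are equal -/
theorem step_wsum {Q : Quads ι C K} {far : J → Set W} {k : K} {s s' : GSt M fam}
    (h : Step Q far k s s') {w : C → ℝ≥0∞} (hw : w (Q.pr k true) = w (Q.pr k false))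
    (E : Set W) : wsum s' w E ≤ wsum s w E := by
  have hweq : ∀ c c', Q.In k c → Q.In k c' → w c = w c' := by
    rintro c c' ⟨b, rfl⟩ ⟨b', rfl⟩
    cases b <;> cases b' <;> simp [hw]
  let f : {x : W // x ∈ s'.P ∧ x ∈ E} → {x : W // x ∈ s.P ∧ x ∈ E} := fun x =>
    ⟨x.1, h.P_sub x.2.1, x.2.2⟩
  have hf : Function.Injective f := by
    intro x y hxy
    exact Subtype.ext (congrArg (fun z : {x : W // x ∈ s.P ∧ x ∈ E} => z.1) hxy)
  unfold wsum
  refine le_trans (le_of_eq ?_) (ENNReal.tsum_comp_le_tsum_of_injective hf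
    (fun x : {x : W // x ∈ s.P ∧ x ∈ E} => w (fam (s.lab x.1))))
  refine tsum_congr fun x => ?_
  show w (fam (s'.lab x.1)) = w (fam (s.lab x.1))
  by_cases hin : Q.In k (fam (s.lab x.1))
  · exact hweq _ _ ((h.inn x.2.1).2 hin) hin
  · rw [(h.off (h.P_sub x.2.1) hin).2.1]


/-- finite parts -/
theorem wsum_le_of_finite {s : GSt M fam} {w : C → ℝ≥0∞} {E : Set W} {B : ℝ≥0∞}
    (h : ∀ A : Finset W, (∀ x ∈ A, x ∈ s.P ∧ x ∈ E) → ∑ x ∈ A, w (fam (s.lab x)) ≤ B) :
    wsum s w E ≤ B := by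
  classical
  unfold wsum
  rw [ENNReal.tsum_eq_iSup_sum]
  refine iSup_le fun A => ?_
  have h1 := h (A.map ⟨Subtype.val, Subtype.val_injective⟩) (by
    intro x hx
    rw [Finset.mem_map] at hx
    obtain ⟨y, _, rfl⟩ := hx
    exact y.2)
  rw [Finset.sum_map] at h1
  exact h1

theorem sum_le_wsum {s : GSt M fam} {w : C → ℝ≥0∞} {E : Set W} {A : Finset W}
    (hA : ∀ x ∈ A, x ∈ s.P ∧ x ∈ E) : ∑ x ∈ A, w (fam (s.lab x)) ≤ wsum s w E := by
  classical
  unfold wsum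
  let g : {x : W // x ∈ A} → {x : W // x ∈ s.P ∧ x ∈ E} := fun x => ⟨x.1, hA x.1 x.2⟩
  have hg : Function.Injective g := by
    intro x y h
    exact Subtype.ext (congrArg (fun z : {x : W // x ∈ s.P ∧ x ∈ E} => z.1) h)
  have h1 := ENNReal.tsum_comp_le_tsum_of_injective hg
    (fun x : {x : W // x ∈ s.P ∧ x ∈ E} => w (fam (s.lab x.1)))
  rw [tsum_fintype] at h1
  have h2 : ∑ x ∈ A, w (fam (s.lab x)) = ∑ x : {x : W // x ∈ A}, w (fam (s.lab x.1)) :=
    (Finset.sum_coe_sort A (fun x => w (fam (s.lab x)))).symm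
  rw [h2]
  exact h1

end Crest.Agent.R096.Cp_298
end

-- ▼ part R096/Cp8_298
section

/-!
# R096 / COPY, part 8 (helper298): one stage of the weighted sequence

`WS e₀ e D` : a state with weights `2^(-e c)` obtained from the state `s₀` with weights
`2^(-e₀ c)` by copies and exchanges, without closed double curves in the quads of `D`.
-/

set_option autoImplicit false

namespace Crest.Agent.R096.Cp_298
open Crest.Agent.R096.St_147 Crest.Agent.R096.Seq_213 Crest.Agent.R096.Seq_213.GSt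
open scoped ENNReal

variable {ι Φ W J C K : Type} {M : MeshC ι Φ W} {fam : J → C}

/-- the weight `2^(-e c)` -/
noncomputable def wgt (e : C → ℕ) (c : C) : ℝ≥0∞ := ((2 : ℝ≥0∞) ^ (e c))⁻¹

theorem wgt_copy {e e' : C → ℕ} {c : C} (h : e c ≤ e' c) :
    (((2 ^ (e' c - e c) : ℕ)) : ℝ≥0∞) * wgt e' c = wgt e c := by
  unfold wgt
  have h1 : (2 : ℝ≥0∞) ^ (e' c) = 2 ^ (e' c - e c) * 2 ^ (e c) := by
    rw [← pow_add, Nat.sub_add_cancel h]
  have h2 : (2 : ℝ≥0∞) ^ (e' c - e c) ≠ 0 := pow_ne_zero _ (by norm_num)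
  have h3 : (2 : ℝ≥0∞) ^ (e' c - e c) ≠ ⊤ := ENNReal.pow_ne_top (by norm_num)
  rw [h1, ENNReal.mul_inv (Or.inl h2) (Or.inl h3), ← mul_assoc]
  push_cast
  rw [ENNReal.mul_inv_cancel h2 h3, one_mul]

/-- a state of the weighted sequence -/
structure WS (O : Ori M) (Q : Quads ι C K) (Rel : W → W → Prop) (s₀ : GSt M fam)
    (far₀ : J → Set W) (σ₀ : W → ZMod 2) (e₀ e : C → ℕ) (D : Set K) : Type 1 where
  J1 : Type
  fam1 : J1 → C
  p : J1 → J
  m : J1 → ℕ
  hp : ∀ j, fam (p j) = fam1 j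
  inj : ∀ j j', p j = p j' → m j = m j' → j = j'
  rng : ∀ j l, (∃ j1, p j1 = j ∧ m j1 = l) ↔ l < 2 ^ (e (fam j) - e₀ (fam j))
  s : GSt M fam1
  far : J1 → Set W
  β : W → W
  le : ∀ c, e₀ c ≤ e c
  inv : s.Inv Q far
  cps : Cps O Q Rel s₀ far₀ σ₀ p m s far β
  wt : ∀ E : Set W, (∀ x y, Rel x y → (x ∈ E ↔ y ∈ E)) →
    wsum s (wgt e) E ≤ wsum s₀ (wgt e₀) E
  done : ∀ k ∈ D, ∀ i : Q.Nm fam1 k, NoClosed (s.res Q k i) (Q.Act k)

namespace WS

variable {O : Ori M} {Q : Quads ι C K} {Rel : W → W → Prop} {s₀ : GSt M fam}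
  {far₀ : J → Set W} {σ₀ : W → ZMod 2} {e₀ e e' e'' : C → ℕ} {D D' D'' : Set K}

/-- global names `(sheet, number of the copy)` -/
def nu (A : WS O Q Rel s₀ far₀ σ₀ e₀ e D) : A.J1 → J × ℕ := fun j => (A.p j, A.m j)

theorem nu_inj (A : WS O Q Rel s₀ far₀ σ₀ e₀ e D) : Function.Injective A.nu := by
  intro j j' h
  exact A.inj j j' (congrArg Prod.fst h) (congrArg Prod.snd h)

/-- family of a global name -/
abbrev famN (fam : J → C) : J × ℕ → C := fun y => fam y.1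

/-- the state with global names -/
def sN (A : WS O Q Rel s₀ far₀ σ₀ e₀ e D) : GSt M (famN fam) := push A.nu A.hp A.s

/-- marked points for global names -/
def farN (A : WS O Q Rel s₀ far₀ σ₀ e₀ e D) (y : J × ℕ) : Set W :=
  {x | ∃ j, A.nu j = y ∧ x ∈ A.far j}

theorem farN_nu (A : WS O Q Rel s₀ far₀ σ₀ e₀ e D) (j : A.J1) : A.farN (A.nu j) = A.far j := by
  ext x
  constructor
  · rintro ⟨j', h1, h2⟩
    rw [← A.nu_inj h1]; exact h2
  · intro h
    exact ⟨j, rfl, h⟩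

/-- the family `c` is the same in both states -/
structure Un (c : C) (A : WS O Q Rel s₀ far₀ σ₀ e₀ e D)
    (B : WS O Q Rel s₀ far₀ σ₀ e₀ e' D') : Prop where
  same : Same c A.sN B.sN
  beta : ∀ x ∈ A.s.P, A.fam1 (A.s.lab x) = c → B.β x = A.β x
  far : ∀ y : J × ℕ, fam y.1 = c → B.farN y = A.farN y
  exp : e' c = e c

theorem Un.refl (c : C) (A : WS O Q Rel s₀ far₀ σ₀ e₀ e D) : Un c A A :=
  ⟨Same.refl _ _, fun _ _ _ => rfl, fun _ _ => rfl, rfl⟩

theorem Un.trans {c : C} {A : WS O Q Rel s₀ far₀ σ₀ e₀ e D}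
    {B : WS O Q Rel s₀ far₀ σ₀ e₀ e' D'} {B' : WS O Q Rel s₀ far₀ σ₀ e₀ e'' D''}
    (h : Un c A B) (h' : Un c B B') : Un c A B' := by
  refine ⟨h.same.trans h'.same, fun x hx hc => ?_, fun y hy => (h'.far y hy).trans (h.far y hy),
    h'.exp.trans h.exp⟩
  have hc' : famN fam (A.sN.lab x) = c := by
    show fam (A.p (A.s.lab x)) = c
    rw [A.hp]; exact hc
  obtain ⟨h1, h2, _⟩ := h.same.mem (w := x) hx hc'
  have h3 : B.fam1 (B.s.lab x) = c := by
    have h4 : famN fam (B.sN.lab x) = c := by rw [h2]; exact hc'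
    rw [← B.hp]; exact h4
  rw [h'.beta x h1 h3, h.beta x hx hc]

/-- the beginning -/
def init (hrel : ∀ x, Rel x x) (hI : s₀.Inv Q far₀) (e₀ : C → ℕ) :
    WS O Q Rel s₀ far₀ σ₀ e₀ e₀ ∅ where
  J1 := J
  fam1 := fam
  p := id
  m := fun _ => 0
  hp := fun _ => rfl
  inj := fun _ _ h _ => h
  rng := by
    intro j l
    rw [Nat.sub_self, pow_zero, Nat.lt_one_iff]
    constructor
    · rintro ⟨j1, _, h⟩; exact h.symm
    · intro h; exact ⟨j, rfl, h.symm⟩
  s := s₀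
  far := far₀
  β := id
  le := fun _ => le_rfl
  inv := hI
  cps := Cps.refl hrel hI
  wt := fun _ _ => le_rfl
  done := fun _ h => absurd h (Set.notMem_empty _)

/-- fewer quads -/
def mono (A : WS O Q Rel s₀ far₀ σ₀ e₀ e D) (h : D' ⊆ D) : WS O Q Rel s₀ far₀ σ₀ e₀ e D' where
  J1 := A.J1
  fam1 := A.fam1
  p := A.p
  m := A.m
  hp := A.hp
  inj := A.inj
  rng := A.rng
  s := A.s
  far := A.far
  β := A.β
  le := A.le
  inv := A.inv
  cps := A.cps
  wt := A.wt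
  done := fun k hk => A.done k (h hk)

theorem Un.mono {c : C} {A : WS O Q Rel s₀ far₀ σ₀ e₀ e D}
    {B : WS O Q Rel s₀ far₀ σ₀ e₀ e' D'} (h : Un c A B) (hD : D'' ⊆ D') :
    Un c A (B.mono hD) := ⟨h.same, h.beta, h.far, h.exp⟩

/-- existence of parallel points -/
def HasPar (O : Ori M) (Rel : W → W → Prop) (V : Set W) : Prop :=
  ∀ P : Set W, P ⊆ V → (∀ F, (P ∩ M.On F).Finite) → ∀ n : W → ℕ,
    ∃ π : Par M O P n Rel, ∀ w ∈ P, n w = 1 → π.c w 0 = w

/-- **the copy step** -/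
theorem exists_copy {V : Set W} (hpar : HasPar O Rel V)
    (htr : ∀ x y z, Rel x y → Rel y z → Rel x z) (hV : ∀ x y, Rel x y → y ∈ V → x ∈ V)
    (h₀ : s₀.Inv Q far₀) (hσ₀ : TS s₀ O σ₀) (hP₀ : s₀.P ⊆ V)
    (hfin : ∀ F, (s₀.P ∩ M.On F).Finite) (A : WS O Q Rel s₀ far₀ σ₀ e₀ e D)
    (hle : ∀ c, e c ≤ e' c) :
    ∃ B : WS O Q Rel s₀ far₀ σ₀ e₀ e' D, ∀ c, e' c = e c → Un c A B := by
  classical
  obtain ⟨σ, hσ, hs⟩ := A.cps.exists_sigma h₀ hσ₀ A.inv
  set r : C → ℕ := fun c => 2 ^ (e' c - e c) with hr_def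
  have hr : ∀ c, 0 < r c := fun c => by positivity
  have hPV : A.s.P ⊆ V := fun x hx => hV _ _ (A.cps.rel hx) (hP₀ (A.cps.mem hx))
  obtain ⟨π, hπ⟩ := hpar A.s.P hPV (fun F => A.cps.finite A.hp h₀ A.inv (hfin F)) (num A.s r)
  let B : WS O Q Rel s₀ far₀ σ₀ e₀ e' D :=
    { J1 := Nm' A.fam1 r
      fam1 := fam' A.fam1 r
      p := fun x => A.p x.1
      m := cpm A.m r
      hp := fun x => A.hp x.1
      inj := fun x y h1 h2 => cpm_inj A.hp A.inj h1 h2
      rng := by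
        intro j l
        have hpow : 2 ^ (e (fam j) - e₀ (fam j)) * r (fam j) = 2 ^ (e' (fam j) - e₀ (fam j)) := by
          rw [hr_def, ← pow_add]
          congr 1
          have h1 := A.le (fam j)
          have h2 := hle (fam j)
          omega
        rw [← hpow]
        constructor
        · rintro ⟨⟨j1, ⟨b, hb⟩⟩, h1, h2⟩
          have h1' : A.p j1 = j := h1
          have h2' : A.m j1 * r (A.fam1 j1) + b = l := h2
          have h3 : A.m j1 < 2 ^ (e (fam j) - e₀ (fam j)) := (A.rng j _).1 ⟨j1, h1', rfl⟩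
          have h4 : A.fam1 j1 = fam j := by rw [← A.hp, h1']
          have h5 : b < r (A.fam1 j1) := hb
          rw [h4] at h2' h5
          calc l = A.m j1 * r (fam j) + b := h2'.symm
            _ < A.m j1 * r (fam j) + r (fam j) := by omega
            _ = (A.m j1 + 1) * r (fam j) := by ring
            _ ≤ 2 ^ (e (fam j) - e₀ (fam j)) * r (fam j) := Nat.mul_le_mul_right _ h3
        · intro hl
          have h6 : l / r (fam j) < 2 ^ (e (fam j) - e₀ (fam j)) :=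
            Nat.div_lt_of_lt_mul (by rw [mul_comm]; exact hl)
          obtain ⟨j1, h7, h8⟩ := (A.rng j _).2 h6
          have h4 : A.fam1 j1 = fam j := by rw [← A.hp, h7]
          refine ⟨⟨j1, ⟨l % r (fam j), by rw [h4]; exact Nat.mod_lt _ (hr _)⟩⟩, h7, ?_⟩
          show A.m j1 * r (A.fam1 j1) + l % r (fam j) = l
          rw [h4, h8, mul_comm]
          exact Nat.div_add_mod l (r (fam j))
      s := cp A.s σ hσ hr π
      far := cpFar σ π A.far
      β := fun x => A.β (base σ π x)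
      le := fun c => (A.le c).trans (hle c)
      inv := cp_Inv A.inv
      cps := A.cps.copy A.hp A.inj htr A.inv hs
      wt := by
        intro E hE
        rw [cp_wsum (w := wgt e) (w' := wgt e') (fun c => wgt_copy (hle c)) hE]
        exact A.wt E hE
      done := fun k hk i' => cp_noClosed Q k ⟨i'.1.1, i'.2⟩ i' (A.done k hk _) }
  refine ⟨B, fun c hc => ?_⟩
  have hrc : r c = 1 := by simp only [hr_def, hc, Nat.sub_self, pow_zero]
  -- untouched points
  have hnum : ∀ w, A.fam1 (A.s.lab w) = c → num A.s r w = 1 := by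
    intro w hw
    unfold num
    rw [hw, hrc]
  have hplace : ∀ w ∈ A.s.P, A.fam1 (A.s.lab w) = c → place σ π w 0 = w := by
    intro w hw hwc
    unfold place
    have h1 := hnum w hwc
    have h2 : (if σ w = 0 then 0 else num A.s r w - 1 - 0) = 0 := by
      rw [h1]; split_ifs <;> rfl
    rw [h2]
    exact hπ w hw h1
  have hlt : ∀ w, A.fam1 (A.s.lab w) = c → 0 < num A.s r w := fun w hw => by
    rw [hnum w hw]; exact one_pos
  have hmemB : ∀ w ∈ A.s.P, A.fam1 (A.s.lab w) = c → w ∈ (cp A.s σ hσ hr π).P := by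
    intro w hw hwc
    have := cp_mem (hσ := hσ) (hr := hr) (π := π) hw (hlt w hwc)
    rw [hplace w hw hwc] at this
    exact this
  have hlabB : ∀ w ∈ A.s.P, ∀ hwc : A.fam1 (A.s.lab w) = c,
      (cp A.s σ hσ hr π).lab w = ⟨A.s.lab w, ⟨0, hlt w hwc⟩⟩ := by
    intro w hw hwc
    have := cp_lab (hσ := hσ) (hr := hr) (π := π) hw (hlt w hwc)
    rw [hplace w hw hwc] at this
    exact this
  have hbase : ∀ w ∈ A.s.P, A.fam1 (A.s.lab w) = c → base σ π w = w := by
    intro w hw hwc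
    have := base_place (σ := σ) π hw (hlt w hwc)
    rw [hplace w hw hwc] at this
    exact this
  have hback : ∀ x ∈ (cp A.s σ hσ hr π).P, A.fam1 ((cp A.s σ hσ hr π).lab x).1 = c →
      x ∈ A.s.P ∧ A.fam1 (A.s.lab x) = c := by
    intro x hx hxc
    obtain ⟨w, hw, l, hl, rfl⟩ := cp_cases hx
    rw [cp_lab_fst hw hl] at hxc
    have h1 := hnum w hxc
    have h2 : l = 0 := by omega
    subst h2
    rw [hplace w hw hxc]
    exact ⟨hw, hxc⟩
  have hfA : ∀ w, famN fam (A.sN.lab w) = A.fam1 (A.s.lab w) := fun w => A.hp _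
  have hfB : ∀ w, famN fam (B.sN.lab w) = A.fam1 ((cp A.s σ hσ hr π).lab w).1 := fun w =>
    A.hp _
  refine ⟨⟨fun w => ⟨?_, ?_⟩, ?_⟩, ?_, ?_, hc⟩
  · rintro ⟨h1, h2⟩
    rw [hfA] at h2
    have h1' : w ∈ A.s.P := h1
    refine ⟨hmemB w h1' h2, ?_⟩
    rw [hfB, hlabB w h1' h2]; exact h2
  · rintro ⟨h1, h2⟩
    rw [hfB] at h2
    obtain ⟨h3, h4⟩ := hback w h1 h2
    exact ⟨h3, by rw [hfA]; exact h4⟩
  · intro w h1 h2
    rw [hfA] at h2
    have h1' : w ∈ A.s.P := h1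
    refine ⟨?_, fun F => ?_⟩
    · show (A.p ((cp A.s σ hσ hr π).lab w).1, cpm A.m r ((cp A.s σ hσ hr π).lab w)) =
        (A.p (A.s.lab w), A.m (A.s.lab w))
      rw [hlabB w h1' h2]
      refine Prod.ext rfl ?_
      show A.m (A.s.lab w) * r (A.fam1 (A.s.lab w)) + 0 = A.m (A.s.lab w)
      rw [h2, hrc, mul_one, add_zero]
    · show (cp A.s σ hσ hr π).mu F w = A.s.mu F w
      by_cases hF : w ∈ M.On F
      · have hat : A.s.At F w := ⟨h1', hF⟩
        have h3 := cp_mu (hσ := hσ) (hr := hr) (π := π) hat (hlt w h2)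
        rw [hplace w h1' h2] at h3
        rw [h3]
        exact hplace _ (A.s.mu_mem h1' hF).1 (by rw [A.s.mu_lab h1' hF]; exact h2)
      · show (if w ∈ cpP σ π ∧ w ∈ M.On F then _ else A.s.mu F w) = _
        rw [if_neg (fun h => hF h.2)]
  · intro x hx hxc
    show A.β (base σ π x) = A.β x
    rw [hbase x hx hxc]
  · intro y hy
    ext x
    constructor
    · rintro ⟨⟨j, ⟨b, hb⟩⟩, h1, w, hw, rfl⟩
      have h2 : A.p j = y.1 := congrArg Prod.fst h1
      have h3 : A.m j * r (A.fam1 j) + b = y.2 := congrArg Prod.snd h1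
      have h4 : A.fam1 j = c := by rw [← A.hp, h2, hy]
      have h5 : b < r (A.fam1 j) := hb
      rw [h4, hrc] at h3 h5
      have h6 : b = 0 := by omega
      obtain ⟨h7, h8⟩ := A.inv.far_mem hw
      have h9 : A.fam1 (A.s.lab w) = c := by rw [h8]; exact h4
      refine ⟨j, Prod.ext h2 (by show A.m j = y.2; omega), ?_⟩
      show place σ π w b ∈ A.far j
      have h10 : place σ π w b = w := by rw [h6]; exact hplace w h7 h9
      rw [h10]
      exact hw
    · rintro ⟨j, h1, hx⟩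
      have h2 : A.p j = y.1 := congrArg Prod.fst h1
      have h3 : A.m j = y.2 := congrArg Prod.snd h1
      have h4 : A.fam1 j = c := by rw [← A.hp, h2, hy]
      obtain ⟨h7, h8⟩ := A.inv.far_mem hx
      have h9 : A.fam1 (A.s.lab x) = c := by rw [h8]; exact h4
      refine ⟨⟨j, ⟨0, hr _⟩⟩, Prod.ext h2 ?_, x, hx, (hplace x h7 h9).symm⟩
      show A.m j * r (A.fam1 j) + 0 = y.2
      rw [h4, hrc, mul_one, add_zero]; exact h3

/-- one exchange -/
theorem exists_step1 (hP3 : P3) (A : WS O Q Rel s₀ far₀ σ₀ e₀ e D) (k : K)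
    (hk : e (Q.pr k true) = e (Q.pr k false)) :
    ∃ B : WS O Q Rel s₀ far₀ σ₀ e₀ e (insert k D), ∀ c, ¬ Q.In k c → Un c A B := by
  classical
  by_cases hne : Nonempty (Q.Nm A.fam1 k)
  · obtain ⟨i0⟩ := hne
    obtain ⟨s', h1, h2, h3⟩ := A.inv.step hP3 k i0
    let B : WS O Q Rel s₀ far₀ σ₀ e₀ e (insert k D) :=
      { J1 := A.J1
        fam1 := A.fam1
        p := A.p
        m := A.m
        hp := A.hp
        inj := A.inj
        rng := A.rng
        s := s'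
        far := A.far
        β := A.β
        le := A.le
        inv := h2
        cps := A.cps.step A.inv h1
        wt := fun E hE => (step_wsum h1 (by unfold wgt; rw [hk]) E).trans (A.wt E hE)
        done := by
          intro l hl i
          by_cases hlk : l = k
          · subst hlk; exact h3 i
          · exact h1.noClosed hlk (A.done l (hl.resolve_left hlk) i) }
    refine ⟨B, fun c hc => ⟨⟨fun w => ⟨?_, ?_⟩, ?_⟩, fun _ _ _ => rfl, fun _ _ => rfl, rfl⟩⟩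
    · rintro ⟨h4, h5⟩
      have h5' : A.fam1 (A.s.lab w) = c := by rw [← A.hp]; exact h5
      obtain ⟨h6, h7, _⟩ := h1.off h4 (by rw [h5']; exact hc)
      refine ⟨h6, ?_⟩
      show fam (A.p (s'.lab w)) = c
      rw [h7]; exact h5
    · rintro ⟨h4, h5⟩
      have h4' : w ∈ s'.P := h4
      have h5' : A.fam1 (s'.lab w) = c := by rw [← A.hp]; exact h5
      have h6 : ¬ Q.In k (A.fam1 (A.s.lab w)) := by rw [← h1.inn h4', h5']; exact hc
      obtain ⟨_, h7, _⟩ := h1.off (h1.P_sub h4') h6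
      refine ⟨h1.P_sub h4', ?_⟩
      show fam (A.p (A.s.lab w)) = c
      rw [← h7]; exact h5
    · intro w h4 h5
      have h5' : A.fam1 (A.s.lab w) = c := by rw [← A.hp]; exact h5
      obtain ⟨_, h7, h8⟩ := h1.off h4 (by rw [h5']; exact hc)
      refine ⟨?_, fun F => h8 F⟩
      show (A.p (s'.lab w), A.m (s'.lab w)) = (A.p (A.s.lab w), A.m (A.s.lab w))
      rw [h7]
  · let B : WS O Q Rel s₀ far₀ σ₀ e₀ e (insert k D) :=
      { J1 := A.J1
        fam1 := A.fam1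
        p := A.p
        m := A.m
        hp := A.hp
        inj := A.inj
        rng := A.rng
        s := A.s
        far := A.far
        β := A.β
        le := A.le
        inv := A.inv
        cps := A.cps
        wt := A.wt
        done := by
          intro l hl i
          by_cases hlk : l = k
          · subst hlk; exact absurd ⟨i⟩ hne
          · exact A.done l (hl.resolve_left hlk) i }
    exact ⟨B, fun c _ => ⟨Same.refl _ _, fun _ _ _ => rfl, fun _ _ => rfl, rfl⟩⟩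

/-- **the exchanges in finitely many quads** -/
theorem exists_steps (hP3 : P3) (A : WS O Q Rel s₀ far₀ σ₀ e₀ e D) (L : Finset K)
    (hL : ∀ k ∈ L, e (Q.pr k true) = e (Q.pr k false)) :
    ∃ B : WS O Q Rel s₀ far₀ σ₀ e₀ e ((L : Set K) ∪ D),
      ∀ c, (∀ k ∈ L, ¬ Q.In k c) → Un c A B := by
  classical
  induction L using Finset.induction_on with
  | empty =>
    refine ⟨A.mono ?_, fun c _ => (Un.refl c A).mono _⟩
    simp
  | insert k L _ ih =>
    obtain ⟨B, hB⟩ := ih (fun l hl => hL l (Finset.mem_insert_of_mem hl))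
    obtain ⟨B', hB'⟩ := B.exists_step1 hP3 k (hL k (Finset.mem_insert_self _ _))
    refine ⟨B'.mono ?_, fun c hc => ?_⟩
    · rw [Finset.coe_insert, Set.insert_union]
    · exact ((hB c fun l hl => hc l (Finset.mem_insert_of_mem hl)).trans
        (hB' c (hc k (Finset.mem_insert_self _ _)))).mono _

end WS

end Crest.Agent.R096.Cp_298
end

-- ▼ part R096/Cp9_298
section

/-!
# R096 / COPY, part 9 (helper298): the weighted sequence and its limit
-/

set_option autoImplicit false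

namespace Crest.Agent.R096.Cp_298
open Crest.Agent.R096.St_147 Crest.Agent.R096.Seq_213 Crest.Agent.R096.Seq_213.GSt
open scoped ENNReal

variable {ι Φ W J C K : Type} {M : MeshC ι Φ W} {fam : J → C}

/-- exponent of the weight of a quad -/
def dlt (Q : Quads ι C K) (κ : C → ℕ) (k : K) : ℕ := max (κ (Q.pr k true)) (κ (Q.pr k false))

open Classical in
/-- exponents before the stage `m` -/
noncomputable def ex (Q : Quads ι C K) (κ : C → ℕ) : ℕ → C → ℕ
  | 0 => κ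
  | m + 1 => fun c => if ∃ k, Q.In k c ∧ dlt Q κ k = m then m else ex Q κ m c

theorem dlt_ge (Q : Quads ι C K) (κ : C → ℕ) {k : K} {c : C} (h : Q.In k c) :
    κ c ≤ dlt Q κ k := by
  obtain ⟨b, rfl⟩ := h
  cases b
  · exact le_max_right _ _
  · exact le_max_left _ _

theorem ex_or (Q : Quads ι C K) (κ : C → ℕ) (m : ℕ) (c : C) :
    ex Q κ m c = κ c ∨ ex Q κ m c < m := by
  classical
  induction m with
  | zero => exact Or.inl rfl
  | succ m ih =>
    show (if ∃ k, Q.In k c ∧ dlt Q κ k = m then m else ex Q κ m c) = κ c ∨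
      (if ∃ k, Q.In k c ∧ dlt Q κ k = m then m else ex Q κ m c) < m + 1
    split_ifs with h
    · right; omega
    · rcases ih with h1 | h1
      · exact Or.inl h1
      · right; omega

theorem ex_le (Q : Quads ι C K) (κ : C → ℕ) (m : ℕ) (c : C) : ex Q κ m c ≤ ex Q κ (m + 1) c := by
  classical
  show ex Q κ m c ≤ if ∃ k, Q.In k c ∧ dlt Q κ k = m then m else ex Q κ m c
  split_ifs with h
  · obtain ⟨k, h1, h2⟩ := h
    rcases ex_or Q κ m c with h3 | h3
    · rw [h3, ← h2]; exact dlt_ge Q κ h1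
    · exact h3.le
  · exact le_rfl

theorem ex_succ_of_not (Q : Quads ι C K) (κ : C → ℕ) {m : ℕ} {c : C}
    (h : ∀ k, Q.In k c → dlt Q κ k ≠ m) : ex Q κ (m + 1) c = ex Q κ m c := by
  classical
  show (if ∃ k, Q.In k c ∧ dlt Q κ k = m then m else ex Q κ m c) = _
  rw [if_neg]
  rintro ⟨k, h1, h2⟩
  exact h k h1 h2

theorem ex_succ_of (Q : Quads ι C K) (κ : C → ℕ) {k : K} {c : C}
    (h : Q.In k c) : ex Q κ (dlt Q κ k + 1) c = dlt Q κ k := by
  classical
  show (if ∃ l, Q.In l c ∧ dlt Q κ l = dlt Q κ k then dlt Q κ k else _) = _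
  rw [if_pos ⟨k, h, rfl⟩]

/-- the final exponent: the maximum of the own exponent and of the exponents of the quads -/
theorem exists_kap (Q : Quads ι C K) (κ : C → ℕ) : ∃ (N : C → ℕ) (kap : C → ℕ),
    (∀ c k, Q.In k c → dlt Q κ k < N c) ∧ (∀ c n, N c ≤ n → ex Q κ n c = kap c) ∧
    (∀ c, κ c ≤ kap c) ∧ (∀ c k, Q.In k c → dlt Q κ k ≤ kap c) ∧
    ∀ c, kap c = κ c ∨ ∃ k, Q.In k c ∧ kap c = dlt Q κ k := by
  classical
  have hbd : ∀ c, ∃ m, ∀ k, Q.In k c → dlt Q κ k < m := by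
    intro c
    obtain ⟨m, hm⟩ := ((Q.finK c).image (dlt Q κ)).bddAbove
    exact ⟨m + 1, fun k hk => Nat.lt_succ_of_le (hm ⟨k, hk, rfl⟩)⟩
  choose N hN using hbd
  have hmono : ∀ c n m, n ≤ m → ex Q κ n c ≤ ex Q κ m c := by
    intro c n m h
    induction m, h using Nat.le_induction with
    | base => exact le_rfl
    | succ m _ ih => exact ih.trans (ex_le Q κ m c)
  have hconst : ∀ c n, N c ≤ n → ex Q κ n c = ex Q κ (N c) c := by
    intro c n h
    induction n, h using Nat.le_induction with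
    | base => rfl
    | succ n hn ih =>
      rw [ex_succ_of_not Q κ (fun k hk => by have := hN c k hk; omega), ih]
  refine ⟨N, fun c => ex Q κ (N c) c, hN, hconst, fun c => hmono c 0 _ (Nat.zero_le _),
    fun c k hk => ?_, fun c => ?_⟩
  · have h1 := hN c k hk
    calc dlt Q κ k = ex Q κ (dlt Q κ k + 1) c := (ex_succ_of Q κ hk).symm
      _ ≤ ex Q κ (N c) c := hmono c _ _ h1
  · have : ∀ n, ex Q κ n c = κ c ∨ ∃ k, Q.In k c ∧ ex Q κ n c = dlt Q κ k := by
      intro n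
      induction n with
      | zero => exact Or.inl rfl
      | succ n ih =>
        by_cases h : ∃ k, Q.In k c ∧ dlt Q κ k = n
        · obtain ⟨k, h1, h2⟩ := h
          right
          refine ⟨k, h1, ?_⟩
          subst h2
          exact ex_succ_of Q κ h1
        · rw [ex_succ_of_not Q κ (fun k h1 h2 => h ⟨k, h1, h2⟩)]
          exact ih
    exact this (N c)

namespace WS

variable {O : Ori M} {Q : Quads ι C K} {Rel : W → W → Prop} {s₀ : GSt M fam}
  {far₀ : J → Set W} {σ₀ : W → ZMod 2} {κ : C → ℕ}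

/-- **one stage** -/
theorem exists_stage (hP3 : P3) {V : Set W} (hpar : HasPar O Rel V)
    (htr : ∀ x y z, Rel x y → Rel y z → Rel x z) (hV : ∀ x y, Rel x y → y ∈ V → x ∈ V)
    (h₀ : s₀.Inv Q far₀) (hσ₀ : TS s₀ O σ₀) (hP₀ : s₀.P ⊆ V)
    (hfin : ∀ F, (s₀.P ∩ M.On F).Finite) (m : ℕ) (hm : {k | dlt Q κ k = m}.Finite)
    (A : WS O Q Rel s₀ far₀ σ₀ κ (ex Q κ m) {k | dlt Q κ k < m}) :
    ∃ B : WS O Q Rel s₀ far₀ σ₀ κ (ex Q κ (m + 1)) {k | dlt Q κ k < m + 1},
      ∀ c, (∀ k, Q.In k c → dlt Q κ k ≠ m) → Un c A B := by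
  classical
  obtain ⟨B, hB⟩ := exists_copy hpar htr hV h₀ hσ₀ hP₀ hfin A (fun c => ex_le Q κ m c)
  obtain ⟨B', hB'⟩ := B.exists_steps hP3 hm.toFinset (by
    intro k hk
    rw [Set.Finite.mem_toFinset] at hk
    have hk' : dlt Q κ k = m := hk
    have h1 := ex_succ_of Q κ (k := k) (c := Q.pr k true) ⟨true, rfl⟩
    have h2 := ex_succ_of Q κ (k := k) (c := Q.pr k false) ⟨false, rfl⟩
    rw [hk'] at h1 h2
    rw [h1, h2])
  refine ⟨B'.mono ?_, fun c hc => ?_⟩
  · intro k hk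
    have hk' : dlt Q κ k < m + 1 := hk
    rcases Nat.lt_succ_iff_lt_or_eq.1 hk' with h | h
    · right; exact h
    · left
      rw [Set.Finite.coe_toFinset]; exact h
  · refine ((hB c (ex_succ_of_not Q κ hc)).trans (hB' c ?_)).mono _
    intro k hk hin
    rw [Set.Finite.mem_toFinset] at hk
    exact hc k hin hk

end WS

end Crest.Agent.R096.Cp_298
end

-- ▼ part R096/Cp10_298

/-!
# R096 / COPY, part 10 (helper298): the limit of the weighted sequence, `wseq`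
-/

set_option autoImplicit false

namespace Crest.Agent.R096.Cp_298
open Crest.Agent.R096.St_147 Crest.Agent.R096.Seq_213 Crest.Agent.R096.Seq_213.GSt
open scoped ENNReal

variable {ι Φ W J C K : Type} {M : MeshC ι Φ W} {fam : J → C}

/-! ### renaming with a retraction -/

section retract
variable {J1 : Type} {fam1 : J1 → C} {ν : J1 → J} {hf : ∀ j', fam (ν j') = fam1 j'}

/-- the renamed state embeds back -/
noncomputable def retrE (d : J → J1) (hd : ∀ j, d (ν j) = j) (hfd : ∀ y, fam1 (d y) = fam y)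
    (s : GSt M fam1) (Q : Quads ι C K) (k : K) (i : Q.Nm fam1 k) (i' : Q.Nm fam k) :
    Emb ((push ν hf s).res Q k i') (s.res Q k i) where
  pt := id
  nu := fun y => ⟨d y.1, by rw [hfd]; exact y.2⟩
  mem := by
    intro w hw
    obtain ⟨h1, h2⟩ := mem_res.1 hw
    refine mem_res.2 ⟨h1, ?_⟩
    rw [← hf]; exact h2
  on := fun _ _ => Iff.rfl
  inj := fun _ _ h => h
  mu := fun _ => rfl
  lab := by
    intro w hw
    obtain ⟨h1, h2⟩ := mem_res.1 hw
    have h4 : Q.In k (fam1 (s.lab w)) := by rw [← hf]; exact h2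
    show (s.res Q k i).lab w = _
    rw [res_lab h4, res_lab h2]
    exact Subtype.ext (hd _).symm
  col_eq := by
    intro y
    rw [Q.cl_iff]
    show fam1 (d y.1) = _
    rw [hfd]
    exact (Q.cl_iff fam k y _).1 rfl
  surj := by
    rintro x hx _
    obtain ⟨h1, h2⟩ := mem_res.1 hx
    refine ⟨x, mem_res.2 ⟨h1, ?_⟩, rfl⟩
    show Q.In k (fam (ν (s.lab x)))
    rw [hf]; exact h2
  lt := fun _ _ h => h

theorem retr_noClosed (d : J → J1) (hd : ∀ j, d (ν j) = j) (hfd : ∀ y, fam1 (d y) = fam y)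
    {s : GSt M fam1} {Q : Quads ι C K} {k : K} {i : Q.Nm fam1 k}
    {i' : Q.Nm fam k} {Act : Set ι} (h : NoClosed ((push ν hf s).res Q k i') Act) :
    NoClosed (s.res Q k i) Act := by
  refine noClosed_of_emb (fun z' => ?_) h
  refine ⟨retrE (hf := hf) d hd hfd s Q k i i',
    (retrE (hf := hf) d hd hfd s Q k i i').T_surj (fun x => ?_)⟩
  obtain ⟨h1, h2⟩ := mem_res.1 (z'.at_ x).1
  have h2' : Q.In k (fam (ν (s.lab (z'.e x)))) := by
    rw [hf]; exact h2
  refine ⟨⟨ν (s.lab (z'.e x)), h2'⟩, ?_⟩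
  rw [res_lab h2]
  exact Subtype.ext (hd _).symm

end retract

/-- global name -/
def nuF {R : C → ℕ} (y : Nm' fam R) : J × ℕ := (y.1, (y.2 : ℕ))

theorem nuF_inj {R : C → ℕ} : Function.Injective (nuF : Nm' fam R → J × ℕ) := by
  intro x y h
  exact nm_ext (congrArg Prod.fst h) (congrArg Prod.snd h)

/-- retraction of the global names -/
def retr (fam : J → C) {R : C → ℕ} (hR : ∀ c, 0 < R c) (y : J × ℕ) : Nm' fam R :=
  ⟨y.1, if h : y.2 < R (fam y.1) then ⟨y.2, h⟩ else ⟨0, hR _⟩⟩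

theorem retr_nuF {R : C → ℕ} (hR : ∀ c, 0 < R c) (y : Nm' fam R) : retr fam hR (nuF y) = y := by
  refine nm_ext rfl ?_
  show (((if h : (y.2 : ℕ) < R (fam y.1) then ⟨y.2, h⟩ else ⟨0, hR _⟩ : Fin (R (fam y.1)))) : ℕ)
    = y.2
  rw [dif_pos y.2.2]

theorem nuF_retr {R : C → ℕ} (hR : ∀ c, 0 < R c) {y : J × ℕ} (h : y.2 < R (fam y.1)) :
    nuF (retr fam hR y) = y := by
  refine Prod.ext rfl ?_
  show (((if h : y.2 < R (fam y.1) then ⟨y.2, h⟩ else ⟨0, hR _⟩ : Fin (R (fam y.1)))) : ℕ) = y.2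
  rw [dif_pos h]

namespace WS

variable {O : Ori M} {Q : Quads ι C K} {Rel : W → W → Prop} {s₀ : GSt M fam}
  {far₀ : J → Set W} {σ₀ : W → ZMod 2} {e₀ e : C → ℕ} {D : Set K}

theorem sN_H1 (A : WS O Q Rel s₀ far₀ σ₀ e₀ e D) (j : A.J1) : A.sN.H1 (A.nu j) ↔ A.s.H1 j :=
  push_H1 (fam := famN fam) (ν := A.nu) (hf := A.hp) A.nu_inj

theorem sN_Conn (A : WS O Q Rel s₀ far₀ σ₀ e₀ e D) (j : A.J1) :
    A.sN.Conn (A.nu j) ↔ A.s.Conn j :=
  push_Conn (fam := famN fam) (ν := A.nu) (hf := A.hp) A.nu_inj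

theorem sN_OK (A : WS O Q Rel s₀ far₀ σ₀ e₀ e D) {F : Φ} {w : W} :
    A.sN.OK Q F w ↔ A.s.OK Q F w :=
  push_OK (fam := famN fam) (ν := A.nu) (hf := A.hp)

end WS

/-- the state with global names -/
def psh {R : C → ℕ} (s : GSt M (fam' fam R)) : GSt M (WS.famN fam) :=
  push (fam := WS.famN fam) nuF (fun _ => rfl) s

theorem psh_H1 {R : C → ℕ} {s : GSt M (fam' fam R)} {y : Nm' fam R} :
    (psh s).H1 (nuF y) ↔ s.H1 y :=
  push_H1 (fam := WS.famN fam) (ν := nuF) (hf := fun _ => rfl) nuF_inj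

theorem psh_Conn {R : C → ℕ} {s : GSt M (fam' fam R)} {y : Nm' fam R} :
    (psh s).Conn (nuF y) ↔ s.Conn y :=
  push_Conn (fam := WS.famN fam) (ν := nuF) (hf := fun _ => rfl) nuF_inj

theorem psh_OK {R : C → ℕ} {s : GSt M (fam' fam R)} {Q : Quads ι C K} {F : Φ} {w : W} :
    (psh s).OK Q F w ↔ s.OK Q F w :=
  push_OK (fam := WS.famN fam) (ν := nuF) (hf := fun _ => rfl)

section lim

variable {O : Ori M} {Q : Quads ι C K} {Rel : W → W → Prop} {s₀ : GSt M fam}
  {far₀ : J → Set W} {σ₀ : W → ZMod 2} {κ : C → ℕ}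

theorem un_le (T : (m : ℕ) → WS O Q Rel s₀ far₀ σ₀ κ (ex Q κ m) {k | dlt Q κ k < m})
    (hU : ∀ m c, (∀ k, Q.In k c → dlt Q κ k ≠ m) → WS.Un c (T m) (T (m + 1)))
    {N : C → ℕ} (hN : ∀ c k, Q.In k c → dlt Q κ k < N c) {c : C} {n m : ℕ}
    (h1 : N c ≤ n) (h2 : n ≤ m) : WS.Un c (T n) (T m) := by
  induction m, h2 using Nat.le_induction with
  | base => exact WS.Un.refl _ _
  | succ m hm ih =>
    refine ih.trans (hU m c fun k hk => ?_)
    have := hN c k hk
    omega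

/-- bound for a family and its partners -/
theorem exists_bound (Q : Quads ι C K) (N : C → ℕ) (c : C) :
    ∃ n, N c ≤ n ∧ ∀ k, Q.In k c → ∀ b, N (Q.pr k b) ≤ n := by
  obtain ⟨m, hm⟩ := ((Q.finK c).image
    (fun k => max (N (Q.pr k true)) (N (Q.pr k false)))).bddAbove
  refine ⟨max (N c) m, le_max_left _ _, fun k hk b => ?_⟩
  have h1 : max (N (Q.pr k true)) (N (Q.pr k false)) ≤ m := hm ⟨k, hk, rfl⟩
  cases b
  · exact ((le_max_right _ _).trans h1).trans (le_max_right _ _)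
  · exact ((le_max_left _ _).trans h1).trans (le_max_right _ _)

/-- **the limit of the weighted sequence** -/
theorem exists_lim (T : (m : ℕ) → WS O Q Rel s₀ far₀ σ₀ κ (ex Q κ m) {k | dlt Q κ k < m})
    (hU : ∀ m c, (∀ k, Q.In k c → dlt Q κ k ≠ m) → WS.Un c (T m) (T (m + 1)))
    {N kap : C → ℕ} (hN : ∀ c k, Q.In k c → dlt Q κ k < N c)
    (hkap : ∀ c n, N c ≤ n → ex Q κ n c = kap c) {R : C → ℕ}
    (hR : ∀ c, R c = 2 ^ (kap c - κ c)) :
    ∃ (s : GSt M (fam' fam R)) (far : Nm' fam R → Set W) (β : W → W), s.Inv Q far ∧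
      Cps O Q Rel s₀ far₀ σ₀ (fun y : Nm' fam R => y.1) (fun y => (y.2 : ℕ)) s far β ∧
      (∀ E : Set W, (∀ x y, Rel x y → (x ∈ E ↔ y ∈ E)) →
        wsum s (wgt kap) E ≤ wsum s₀ (wgt κ) E) ∧
      ∀ (k : K) (i : Q.Nm (fam' fam R) k), NoClosed (s.res Q k i) (Q.Act k) := by
  classical
  have hRp : ∀ c, 0 < R c := fun c => by rw [hR]; positivity
  let S : ℕ → GSt M (WS.famN fam) := fun n => (T n).sN
  have hS : ∀ c n, N c ≤ n → Same c (S n) (S (n + 1)) := by
    intro c n hn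
    refine (hU n c fun k hk => ?_).same
    have := hN c k hk
    omega
  set sL : GSt M (WS.famN fam) := lim S N hS with hsL
  have hL : ∀ {c n}, N c ≤ n → Same c (S n) sL := fun hn => lim_same S N hS hn
  let d : J × ℕ → Nm' fam R := retr fam hRp
  let sF : GSt M (fam' fam R) := push d (fun _ => rfl) sL
  -- names of the limit
  have hrange : ∀ w ∈ sL.P, (sL.lab w).2 < R (fam (sL.lab w).1) := by
    intro w hw
    obtain ⟨h1, h2, _⟩ := (hL (c := fam (sL.lab w).1) le_rfl).symm.mem hw rfl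
    have h3 : (T (N (fam (sL.lab w).1))).nu ((T (N (fam (sL.lab w).1))).s.lab w) = sL.lab w := h2
    have h4 := ((T (N (fam (sL.lab w).1))).rng (sL.lab w).1 (sL.lab w).2).1
      ⟨_, congrArg Prod.fst h3, congrArg Prod.snd h3⟩
    rw [hkap _ _ le_rfl, ← hR] at h4
    exact h4
  have hnu : ∀ w ∈ sL.P, nuF (sF.lab w) = sL.lab w := fun w hw => nuF_retr hRp (hrange w hw)
  have hSF : ∀ c, Same c sL (psh sF) := by
    intro c
    refine ⟨fun w => ⟨?_, ?_⟩, ?_⟩
    · rintro ⟨h1, h2⟩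
      exact ⟨h1, h2⟩
    · rintro ⟨h1, h2⟩
      exact ⟨h1, h2⟩
    · intro w h1 _
      exact ⟨hnu w h1, fun _ => rfl⟩
  have hF : ∀ {c n}, N c ≤ n → Same c (S n) (psh sF) :=
    fun hn => (hL hn).trans (hSF _)
  -- transfer of points
  have ofF : ∀ {x c n}, x ∈ sF.P → fam (sF.lab x).1 = c → N c ≤ n →
      x ∈ (T n).s.P ∧ (T n).nu ((T n).s.lab x) = nuF (sF.lab x) ∧
      (∀ F, (T n).s.mu F x = sF.mu F x) ∧ (T n).fam1 ((T n).s.lab x) = c := by
    intro x c n hx hc hn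
    obtain ⟨h1, h2, h3⟩ := (hF hn).symm.mem (w := x) hx hc
    refine ⟨h1, h2, h3, ?_⟩
    have h4 : fam ((T n).nu ((T n).s.lab x)).1 = c := by
      have : (T n).nu ((T n).s.lab x) = nuF (sF.lab x) := h2
      rw [this]; exact hc
    rw [← (T n).hp]; exact h4
  have toF : ∀ {x c n}, x ∈ (T n).s.P → (T n).fam1 ((T n).s.lab x) = c → N c ≤ n →
      x ∈ sF.P ∧ nuF (sF.lab x) = (T n).nu ((T n).s.lab x) ∧
      (∀ F, sF.mu F x = (T n).s.mu F x) ∧ fam (sF.lab x).1 = c := by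
    intro x c n hx hc hn
    have hc' : WS.famN fam ((S n).lab x) = c := by
      show fam ((T n).p ((T n).s.lab x)) = c
      rw [(T n).hp]; exact hc
    obtain ⟨h1, h2, h3⟩ := (hF hn).mem (w := x) hx hc'
    refine ⟨h1, h2, h3, ?_⟩
    have h4 : WS.famN fam ((psh sF).lab x) = c := by rw [h2]; exact hc'
    exact h4
  -- names
  have exJ : ∀ (y : Nm' fam R) (n : ℕ), N (fam y.1) ≤ n → ∃ j, (T n).nu j = nuF y := by
    intro y n hn
    have h1 : (y.2 : ℕ) < R (fam y.1) := y.2.2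
    have h1' : (y.2 : ℕ) < 2 ^ (ex Q κ n (fam y.1) - κ (fam y.1)) := by
      rw [hkap _ n hn, ← hR]; exact h1
    obtain ⟨j, h2, h3⟩ := ((T n).rng y.1 y.2).2 h1'
    exact ⟨j, Prod.ext h2 h3⟩
  let farF : Nm' fam R → Set W := fun y => (T (N (fam y.1))).farN (nuF y)
  have hfar : ∀ (y : Nm' fam R) (n : ℕ), N (fam y.1) ≤ n → (T n).farN (nuF y) = farF y :=
    fun y n hn => (un_le T hU hN le_rfl hn).far (nuF y) rfl
  have hfar' : ∀ {y : Nm' fam R} {n : ℕ} {j : (T n).J1}, N (fam y.1) ≤ n → (T n).nu j = nuF y →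
      (T n).far j = farF y := by
    intro y n j hn hj
    rw [← hfar y n hn, ← hj, (T n).farN_nu]
  let βF : W → W := fun x => (T (N (fam (sF.lab x).1))).β x
  have hβ : ∀ {x c n}, x ∈ sF.P → fam (sF.lab x).1 = c → N c ≤ n → βF x = (T n).β x := by
    intro x c n hx hc hn
    subst hc
    obtain ⟨h1, _, _, h4⟩ := ofF hx rfl le_rfl
    exact ((un_le T hU hN le_rfl hn).beta x h1 h4).symm
  -- `OK`
  have hOK : ∀ {x F n}, x ∈ sF.P → x ∈ M.On F → N (fam (sF.lab x).1) ≤ n →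
      (∀ k, Q.In k (fam (sF.lab x).1) → ∀ b, N (Q.pr k b) ≤ n) → (T n).s.OK Q F x →
      sF.OK Q F x := by
    intro x F n hx hxF hn hn2 hok
    obtain ⟨h1, h2, _, h4⟩ := ofF hx rfl hn
    have e1 : WS.famN fam ((S n).lab x) = fam (sF.lab x).1 := by
      show fam ((T n).p ((T n).s.lab x)) = _
      rw [(T n).hp]; exact h4
    have h5 : (S n).OK Q F x := (T n).sN_OK.2 hok
    have h6 : (psh sF).OK Q F x :=
      OK_same (s := S n) ⟨h1, hxF⟩ (by rw [e1]; exact hF hn)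
        (fun k hk b => hF (hn2 k (by rw [e1] at hk; exact hk) b)) h5
    exact psh_OK.1 h6
  have hOK' : ∀ {x F n}, x ∈ sF.P → x ∈ M.On F → N (fam (sF.lab x).1) ≤ n →
      (∀ k, Q.In k (fam (sF.lab x).1) → ∀ b, N (Q.pr k b) ≤ n) → sF.OK Q F x →
      (T n).s.OK Q F x := by
    intro x F n hx hxF hn hn2 hok
    have h5 : (psh sF).OK Q F x := psh_OK.2 hok
    have h6 : (S n).OK Q F x :=
      OK_same (s := (psh sF)) (s' := S n)
        ⟨hx, hxF⟩ (hF hn).symm (fun k hk b => (hF (hn2 k hk b)).symm) h5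
    exact (T n).sN_OK.1 h6
  have hInv : sF.Inv Q farF := by
    refine ⟨?_, ?_, ?_, ?_, ?_, ?_, ?_⟩
    · intro y
      obtain ⟨j, hj⟩ := exJ y _ le_rfl
      have h1 := ((T (N (fam y.1))).sN_H1 j).2 ((T (N (fam y.1))).inv.h1 j)
      rw [hj] at h1
      have h2 := (hF (c := fam y.1) le_rfl).h1 (j := nuF y) h1
      exact psh_H1.1 h2
    · intro y
      obtain ⟨j, hj⟩ := exJ y _ le_rfl
      have h1 := ((T (N (fam y.1))).sN_Conn j).2 ((T (N (fam y.1))).inv.conn j)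
      rw [hj] at h1
      have h2 := (hF (c := fam y.1) le_rfl).conn (j := nuF y) h1
      exact psh_Conn.1 h2
    · intro y x hx
      obtain ⟨j, hj⟩ := exJ y _ le_rfl
      rw [← hfar' le_rfl hj] at hx
      obtain ⟨h1, h2⟩ := (T (N (fam y.1))).inv.far_mem hx
      have h3 : (T (N (fam y.1))).fam1 ((T (N (fam y.1))).s.lab x) = fam y.1 := by
        rw [h2, ← (T _).hp]
        exact congrArg fam (congrArg Prod.fst hj)
      obtain ⟨h4, h5, _⟩ := toF h1 h3 le_rfl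
      refine ⟨h4, nuF_inj ?_⟩
      rw [h5, h2, hj]
    · intro y
      obtain ⟨j, hj⟩ := exJ y _ le_rfl
      rw [← hfar' le_rfl hj]
      exact (T _).inv.far_ne j
    · intro k F x hx hFi
      obtain ⟨h1, _, _, h4⟩ := ofF hx.1 rfl le_rfl
      have h5 := (T _).inv.only ⟨h1, hx.2⟩ hFi
      rw [h4] at h5
      exact h5
    · intro x hx
      obtain ⟨h1, h2, _, h4⟩ := ofF hx rfl le_rfl
      rcases (T _).inv.loc h1 with h5 | h5
      · left
        rw [hfar' le_rfl h2] at h5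
        exact h5
      · right
        rw [h4] at h5
        exact h5
    · intro y X hX w hw hwf
      obtain ⟨n, hn1, hn2⟩ := exists_bound Q N (fam y.1)
      obtain ⟨j, hj⟩ := exJ y n hn1
      rw [← hfar' hn1 hj] at hwf ⊢
      refine (T n).inv.gc j X ?_ w hw hwf
      intro F u hu huf hat huf' hok
      obtain ⟨_, hul⟩ := (T n).inv.far_mem huf
      have h3 : (T n).fam1 ((T n).s.lab u) = fam y.1 := by
        rw [hul, ← (T n).hp]
        exact congrArg fam (congrArg Prod.fst hj)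
      obtain ⟨h4, h5, h6, h7⟩ := toF hat.1 h3 hn1
      have h8 := hX F u hu (by rw [← hfar' hn1 hj]; exact huf) ⟨h4, hat.2⟩
        (by rw [h6, ← hfar' hn1 hj]; exact huf')
        (hOK h4 hat.2 (by rw [h7]; exact hn1) (by rw [h7]; exact hn2) hok)
      rw [h6] at h8
      exact h8
  have hC : Cps O Q Rel s₀ far₀ σ₀ (fun y : Nm' fam R => y.1) (fun y => (y.2 : ℕ)) sF farF βF := by
    refine ⟨?_, ?_, ?_, ?_, ?_, ?_, ?_, ?_, ?_, ?_, ?_⟩
    · intro x hx
      exact (T _).cps.mem (ofF hx rfl le_rfl).1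
    · intro x hx
      exact (T _).cps.rel (ofF hx rfl le_rfl).1
    · intro x F hx
      exact (T _).cps.on F (ofF hx rfl le_rfl).1
    · intro F x hx
      exact (T _).cps.dir ⟨(ofF hx.1 rfl le_rfl).1, hx.2⟩
    · intro F x y hx hy hlt
      have h1 : N (fam (sF.lab x).1) ≤ max (N (fam (sF.lab x).1)) (N (fam (sF.lab y).1)) :=
        le_max_left _ _
      have h2 : N (fam (sF.lab y).1) ≤ max (N (fam (sF.lab x).1)) (N (fam (sF.lab y).1)) :=
        le_max_right _ _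
      rw [hβ hx.1 rfl h1, hβ hy.1 rfl h2] at hlt
      exact (T _).cps.lt ⟨(ofF hx.1 rfl h1).1, hx.2⟩ ⟨(ofF hy.1 rfl h2).1, hy.2⟩ hlt
    · intro y x hx
      obtain ⟨h1, h2⟩ := hInv.far_mem hx
      obtain ⟨j, hj⟩ := exJ y _ le_rfl
      have hb := hβ (n := N (fam y.1)) h1 rfl (by rw [h2])
      rw [← hfar' le_rfl hj] at hx
      have h3 := (T _).cps.far_mem hx
      have h4 : (T (N (fam y.1))).p j = y.1 := congrArg Prod.fst hj
      rw [h4] at h3
      rw [hb]; exact h3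
    · intro y w hw
      obtain ⟨j, hj⟩ := exJ y _ le_rfl
      have h4 : (T (N (fam y.1))).p j = y.1 := congrArg Prod.fst hj
      have hw' : w ∈ far₀ ((T (N (fam y.1))).p j) := by rw [h4]; exact hw
      obtain ⟨x, hx, hxw⟩ := (T _).cps.far_ex hw'
      rw [hfar' le_rfl hj] at hx
      obtain ⟨h1, h2⟩ := hInv.far_mem hx
      refine ⟨x, hx, ?_⟩
      rw [hβ (n := N (fam y.1)) h1 rfl (by rw [h2])]
      exact hxw
    · intro y x x' hx hx' he
      obtain ⟨j, hj⟩ := exJ y _ le_rfl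
      obtain ⟨h1, h2⟩ := hInv.far_mem hx
      obtain ⟨h3, h4⟩ := hInv.far_mem hx'
      rw [hβ (n := N (fam y.1)) h1 rfl (by rw [h2]), hβ (n := N (fam y.1)) h3 rfl (by rw [h4])]
        at he
      rw [← hfar' le_rfl hj] at hx hx'
      exact (T _).cps.far_uniq hx hx' he
    · intro y y' x x' F hyy hm hx hx' he hxF
      have hyy' : y.1 = y'.1 := hyy
      have hm' : (y.2 : ℕ) < y'.2 := hm
      have hn' : N (fam y'.1) ≤ N (fam y.1) := by rw [hyy']
      obtain ⟨j, hj⟩ := exJ y _ le_rfl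
      obtain ⟨j', hj'⟩ := exJ y' _ hn'
      obtain ⟨h1, h2⟩ := hInv.far_mem hx
      obtain ⟨h3, h4⟩ := hInv.far_mem hx'
      have hb := hβ (n := N (fam y.1)) h1 rfl (by rw [h2])
      have hb' := hβ (n := N (fam y.1)) h3 rfl (by rw [h4]; exact hn')
      rw [hb, hb'] at he
      rw [← hfar' le_rfl hj] at hx
      rw [← hfar' hn' hj'] at hx'
      rw [hb]
      have e1 : (T (N (fam y.1))).p j = y.1 := congrArg Prod.fst hj
      have e2 : (T (N (fam y.1))).p j' = y'.1 := congrArg Prod.fst hj'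
      have e3 : (T (N (fam y.1))).m j = y.2 := congrArg Prod.snd hj
      have e4 : (T (N (fam y.1))).m j' = y'.2 := congrArg Prod.snd hj'
      exact (T _).cps.far_ord (by rw [e1, e2, hyy']) (by rw [e3, e4]; exact hm') hx hx' he hxF
    · intro y x F hx hat hmf hok
      obtain ⟨n, hn1, hn2⟩ := exists_bound Q N (fam y.1)
      obtain ⟨h1, h2⟩ := hInv.far_mem hx
      obtain ⟨j, hj⟩ := exJ y n hn1
      have e1 : (T n).p j = y.1 := congrArg Prod.fst hj
      have hc : fam (sF.lab x).1 = fam y.1 := by rw [h2]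
      have hb := hβ (n := n) h1 hc hn1
      rw [hb] at hat hmf hok ⊢
      have hxj : x ∈ (T n).far j := by rw [hfar' hn1 hj]; exact hx
      obtain ⟨h3, h4, h5⟩ := (T n).cps.ok hxj hat (by rw [e1]; exact hmf) hok
      obtain ⟨h6, h7, h8, h9⟩ := ofF h1 hc hn1
      have hxF : x ∈ M.On F := ((T n).cps.on F h6).2 hat.2
      have hm : (T n).s.mu F x ∈ (T n).s.P := ((T n).s.mu_mem h6 hxF).1
      have h10 : sF.mu F x ∈ farF y := by rw [← h8, ← hfar' hn1 hj]; exact h4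
      obtain ⟨h11, h12⟩ := hInv.far_mem h10
      refine ⟨?_, h10, hOK h1 hxF (by rw [hc]; exact hn1) (by rw [hc]; exact hn2) h5⟩
      rw [hβ (n := n) h11 rfl (by rw [h12]; exact hn1), ← h8]
      exact h3
    · intro F x y hx hy hne hl
      have g1 : N (fam (sF.lab x).1) ≤ max (N (fam (sF.lab x).1)) (N (fam (sF.lab y).1)) :=
        le_max_left _ _
      have g2 : N (fam (sF.lab y).1) ≤ max (N (fam (sF.lab x).1)) (N (fam (sF.lab y).1)) :=
        le_max_right _ _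
      obtain ⟨h1, h2, h3, h4⟩ := ofF hx.1 rfl g1
      obtain ⟨k1, k2, k3, k4⟩ := ofF hy.1 rfl g2
      rw [← h3, ← k3] at hl
      obtain ⟨w, v, l1, l2, l3, l4, l5⟩ := (T _).cps.cross ⟨h1, hx.2⟩ ⟨k1, hy.2⟩
        (by rw [h4, k4]; exact hne) hl
      have e1 := congrArg Prod.fst h2
      have e2 := congrArg Prod.fst k2
      exact ⟨w, v, l1, l2, l3.trans e1, l4.trans e2, l5⟩
  refine ⟨sF, farF, βF, hInv, hC, ?_, ?_⟩
  · intro E hE
    refine wsum_le_of_finite fun A hA => ?_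
    obtain ⟨n, hn⟩ : ∃ n, ∀ x ∈ A, N (fam (sF.lab x).1) ≤ n :=
      ⟨A.sup fun x => N (fam (sF.lab x).1), fun x hx =>
        Finset.le_sup (f := fun x => N (fam (sF.lab x).1)) hx⟩
    have h1 : ∑ x ∈ A, wgt kap (fam' fam R (sF.lab x)) =
        ∑ x ∈ A, wgt (ex Q κ n) ((T n).fam1 ((T n).s.lab x)) := by
      refine Finset.sum_congr rfl fun x hx => ?_
      obtain ⟨_, _, _, h4⟩ := ofF (hA x hx).1 rfl (hn x hx)
      rw [h4]
      show ((2 : ℝ≥0∞) ^ kap (fam (sF.lab x).1))⁻¹ =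
        ((2 : ℝ≥0∞) ^ ex Q κ n (fam (sF.lab x).1))⁻¹
      rw [hkap _ n (hn x hx)]
    rw [h1]
    exact (sum_le_wsum fun x hx => ⟨(ofF (hA x hx).1 rfl (hn x hx)).1, (hA x hx).2⟩).trans
      ((T n).wt E hE)
  · intro k i
    obtain ⟨n, hn0, hn⟩ : ∃ n, dlt Q κ k < n ∧ ∀ b, N (Q.pr k b) ≤ n := by
      refine ⟨max (dlt Q κ k + 1) (max (N (Q.pr k true)) (N (Q.pr k false))),
        lt_of_lt_of_le (Nat.lt_succ_self _) (le_max_left _ _), fun b => ?_⟩
      cases b
      · exact (le_max_right _ _).trans (le_max_right _ _)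
      · exact (le_max_left _ _).trans (le_max_right _ _)
    obtain ⟨b, hb⟩ := i.2
    have hni : N (fam i.1.1) ≤ n := by
      have : fam i.1.1 = Q.pr k b := hb.symm
      rw [this]; exact hn b
    obtain ⟨j, hj⟩ := exJ i.1 n hni
    have e1 : (T n).p j = i.1.1 := congrArg Prod.fst hj
    have hj2 : Q.In k ((T n).fam1 j) := by
      rw [← (T n).hp, e1]; exact i.2
    have h1 := (T n).done k hn0 ⟨j, hj2⟩
    have hi2 : Q.In k (WS.famN fam (nuF i.1)) := i.2
    have h2 : NoClosed ((S n).res Q k ⟨nuF i.1, hi2⟩) (Q.Act k) :=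
      push_noClosed (T n).nu_inj h1
    have h3 : NoClosed ((psh sF).res Q k
        ⟨nuF i.1, hi2⟩) (Q.Act k) :=
      (agr_same _ (fun b => hF (hn b)) (Q.Act k)).noClosed h2
    exact retr_noClosed (retr fam hRp) (retr_nuF hRp) (fun _ => rfl) h3

end lim

/-- **WEIGHTED SEQUENCE (`wseq`).**  `Δ_c = 2^(-κ c)`; final weights `2^(-kap c)`, `kap c` = the
maximum of `κ c` and of the exponents of the quads of `c`; every sheet of `c` is replaced by
`2^(kap c - κ c)` copies. -/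
theorem wseq (hP3 : P3) (O : Ori M) {Rel : W → W → Prop} {V : Set W} (hpar : WS.HasPar O Rel V)
    (hrefl : ∀ x, Rel x x) (htr : ∀ x y z, Rel x y → Rel y z → Rel x z)
    (hV : ∀ x y, Rel x y → y ∈ V → x ∈ V) (Q : Quads ι C K) (κ : C → ℕ)
    (hκ : ∀ m, {k | dlt Q κ k = m}.Finite) (s₀ : GSt M fam) (far₀ : J → Set W)
    (h₀ : s₀.Inv Q far₀) (σ₀ : W → ZMod 2) (hσ₀ : TS s₀ O σ₀) (hP₀ : s₀.P ⊆ V)
    (hfin : ∀ F, (s₀.P ∩ M.On F).Finite) :
    ∃ (kap : C → ℕ), (∀ c, κ c ≤ kap c) ∧ (∀ c k, Q.In k c → dlt Q κ k ≤ kap c) ∧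
      (∀ c, kap c = κ c ∨ ∃ k, Q.In k c ∧ kap c = dlt Q κ k) ∧
    ∃ (s : GSt M (fam' fam (fun c => 2 ^ (kap c - κ c))))
      (far : Nm' fam (fun c => 2 ^ (kap c - κ c)) → Set W) (σ : W → ZMod 2) (β : W → W),
      s.Inv Q far ∧ TS s O σ ∧ (∀ j x, x ∈ far j → σ x = σ₀ (β x)) ∧ s.P ⊆ V ∧
      (∀ F, (s.P ∩ M.On F).Finite) ∧
      Cps O Q Rel s₀ far₀ σ₀ (fun y : Nm' fam (fun c => 2 ^ (kap c - κ c)) => y.1)
        (fun y => (y.2 : ℕ)) s far β ∧
      (∀ E : Set W, (∀ x y, Rel x y → (x ∈ E ↔ y ∈ E)) →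
        wsum s (wgt kap) E ≤ wsum s₀ (wgt κ) E) ∧
      ∀ (k : K) (i : Q.Nm (fam' fam (fun c => 2 ^ (kap c - κ c))) k),
        (s.res Q k i).Good (Q.Act k) (s.farK Q far k) ∧ NoClosed (s.res Q k i) (Q.Act k) := by
  classical
  obtain ⟨N, kap, hN, hkap, h1, h2, h3⟩ := exists_kap Q κ
  refine ⟨kap, h1, h2, h3, ?_⟩
  have hst : ∀ (m : ℕ) (A : WS O Q Rel s₀ far₀ σ₀ κ (ex Q κ m) {k | dlt Q κ k < m}),
      ∃ B : WS O Q Rel s₀ far₀ σ₀ κ (ex Q κ (m + 1)) {k | dlt Q κ k < m + 1},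
        ∀ c, (∀ k, Q.In k c → dlt Q κ k ≠ m) → WS.Un c A B := fun m A =>
    WS.exists_stage hP3 hpar htr hV h₀ hσ₀ hP₀ hfin m (hκ m) A
  choose nxt hnxt using hst
  let T0 : WS O Q Rel s₀ far₀ σ₀ κ (ex Q κ 0) {k | dlt Q κ k < 0} :=
    (WS.init hrefl h₀ κ).mono (fun k hk => absurd hk (Nat.not_lt_zero _))
  let T : (m : ℕ) → WS O Q Rel s₀ far₀ σ₀ κ (ex Q κ m) {k | dlt Q κ k < m} := fun m =>
    Nat.rec T0 (fun m A => nxt m A) m
  have hT : ∀ m, T (m + 1) = nxt m (T m) := fun m => rfl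
  have hU : ∀ m c, (∀ k, Q.In k c → dlt Q κ k ≠ m) → WS.Un c (T m) (T (m + 1)) := by
    intro m c hc
    rw [hT]
    exact hnxt m (T m) c hc
  obtain ⟨s, far, β, hI, hC, hw, hn⟩ := exists_lim T hU hN hkap
    (R := fun c => 2 ^ (kap c - κ c)) (fun _ => rfl)
  obtain ⟨σ, hσ, hs⟩ := hC.exists_sigma h₀ hσ₀ hI
  refine ⟨s, far, σ, β, hI, hσ, hs, fun x hx => hV _ _ (hC.rel hx) (hP₀ (hC.mem hx)),
    fun F => hC.finite (fun _ => rfl) h₀ hI (hfin F), hC, hw, fun k i => ⟨hI.good k i, hn k i⟩⟩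

end Crest.Agent.R096.Cp_298
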