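import Crest.Agent.R096.On1_441
import Crest.Agent.R096.Lm5_117
import Crest.Agent.R096.Mg2_441
import Crest.Agent.R096.Gl3_422

-- ▼ part R096/On2_441
section

/-!
# R096 (row 96), NO-LABELS (helper441), part 2: pieces of a 1-cell = points of the state

Over a labelled mesh `L : LM M Q dim` (tilings, merged meshes, layers) of helper117:
* `nP_le`   : for every cell the number of pieces of a family is at most the number of its points;
* `nP_edge` : for a 1-cell the number of pieces of a family is the number of its points;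
* `nP_zero_iff`, `ex_of` : (K4) from the points and the labels.
-/

set_option autoImplicit false
set_option linter.unusedSectionVars false

open Set Relation

namespace Crest.Agent.R096.On_441

open Crest.Agent.R096.St_147 Crest.Agent.R096.Seq_213
  Crest.Agent.R096.Bd_416 Crest.Agent.R096.Mg_441 Crest.Agent.R096.Lm_117
  Crest.Agent.R096.Grd_714

variable {ι Φ W Q J Cc : Type} {M : MeshC ι Φ W} [PartialOrder Q] {dim : Q → ℕ}
variable {L : LM M Q dim} {fam : J → Cc} {s : GSt M fam}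

/-- the points of the family `a` in the cell `c` -/
def ptF (L : LM M Q dim) (s : GSt M fam) (c : Q) (a : Cc) : Set W :=
  {w | w ∈ s.P ∧ w ∈ L.toSk.In c ∧ fam (s.lab w) = a}

variable (h : LF L s) (Lam : J → Q → ZMod 2) (hLam : ∀ j c, L.toSk.XL (gP s j) (Lam j) c)


theorem fam_pts {c : Q} {x : Pc L s c} {w : W} (hw : w ∈ pts h c x) {a : Cc} :
    w ∈ ptF L s c a ↔ fam (pcol L s c x) = a := by
  rw [pcol_pts hw]
  exact ⟨fun h' => h'.2.2, fun h' => ⟨(pts_in hw).1, (pts_in hw).2, h'⟩⟩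



/-- no points, no pieces -/
theorem noPc {c : Q} {a : Cc} (h0 : ∀ w ∈ s.P, w ∈ L.toSk.In c → fam (s.lab w) ≠ a) :
    ∀ x : (cmb h Lam hLam).I c, (cmb h Lam hLam).fam ((cmb h Lam hLam).col c x) ≠ a := by
  intro x hx
  have h1 := rep_mem h (show Pc L s c from x)
  have h2 := (fam_pts h h1 (a := a)).2 hx
  exact h0 _ h2.1 h2.2.1 h2.2.2

variable {E' : Type*} [NormedAddCommGroup E'] [NormedSpace ℝ E'] {Pf : Cc → Set E'}

/-- **(K4)** from the points and the labels of the state: the families which are exact at `y` have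
no points in the cell and the exact label at one vertex of the cell -/
theorem ex_of {c : Q} {y : Cc → ℝ} (hy : y ∈ K2 Pf)
    (hpt : ∀ w ∈ s.P, w ∈ L.toSk.In c → 0 < y (fam (s.lab w)) ∧ y (fam (s.lab w)) < 1)
    (h0 : ∀ j, y (fam j) = 0 → ∃ v ≤ c, dim v = 0 ∧ Lam j v = 0)
    (h1 : ∀ j, y (fam j) = 1 → ∃ v ≤ c, dim v = 0 ∧ Lam j v = 1) :
    Ex (cmb h Lam hLam) Pf c y := by
  -- the label of a sheet without points is constant on the cell
  have hc : ∀ j, (y (fam j) = 0 ∨ y (fam j) = 1) → ∀ v ≤ c, dim v = 0 →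
      Lam j (bv L.toSk c) = Lam j v := by
    intro j hj v hv hv0
    refine L.conn c (Lam j) ?_ _ _ (bv_le L.toSk c) hv (bv_dim L.toSk c) hv0
    intro e he he1
    have h2 := hLam j c e he he1
    have h3 : nW (gP s j) (L.toSk.On1 e) = 0 := by
      apply nW_empty
      intro w hw hwe
      obtain ⟨hwP, rfl⟩ := mem_gP.1 hw
      have h4 := hpt w hwP ⟨hwe.1, hwe.2.symm ▸ he⟩
      rcases hj with h5 | h5
      · exact absurd h5 h4.1.ne'
      · exact absurd h5 h4.2.ne
    rw [h3] at h2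
    have e0 : ∀ a b : ZMod 2, a + b = 0 → a = b := by decide
    exact e0 _ _ h2
  refine ⟨hy, ?_, ?_⟩
  · intro a ha
    refine ⟨noPc h Lam hLam fun w hw hwc hwa => ?_, ?_⟩
    · have h2 := (hpt w hw hwc).1
      rw [hwa, ha] at h2
      exact lt_irrefl _ h2
    · intro j hj
      have hj' : fam j = a := hj
      obtain ⟨v, hv, hv0, e⟩ := h0 j (by rw [hj']; exact ha)
      show Lam j (bv L.toSk c) = 0
      rw [hc j (Or.inl (by rw [hj']; exact ha)) v hv hv0, e]
  · intro a ha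
    refine ⟨noPc h Lam hLam fun w hw hwc hwa => ?_, ?_⟩
    · have h2 := (hpt w hw hwc).2
      rw [hwa, ha] at h2
      exact lt_irrefl _ h2
    · intro j hj
      have hj' : fam j = a := hj
      obtain ⟨v, hv, hv0, e⟩ := h1 j (by rw [hj']; exact ha)
      show Lam j (bv L.toSk c) = 1
      rw [hc j (Or.inr (by rw [hj']; exact ha)) v hv hv0, e]

end Crest.Agent.R096.On_441
end

-- ▼ part R096/Mg5_441
section

/-!
# R096 (row 96), MERGE (helper441), part 5: Mg3_441 over the labelled meshes `LM` of helper117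

* `lbl_cmb`   : the label of a piece is the (extended) label of any of its points;
* `connC_cmb` : connected sheets have connected pieces;
* `ord_cmb`   : order of the sheets of a family from one point of every sheet.
-/

set_option autoImplicit false
set_option linter.unusedSectionVars false

open Set Relation

namespace Crest.Agent.R096.MgL_441

open Crest.Agent.R096.St_147 Crest.Agent.R096.Seq_213
  Crest.Agent.R096.Bd_416 Crest.Agent.R096.Mg_441 Crest.Agent.R096.Lm_117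

variable {ι Φ W Q J Cc : Type} {M : MeshC ι Φ W} [PartialOrder Q] {dim : Q → ℕ}
variable {L : LM M Q dim} {fam : J → Cc} {s : GSt M fam}
variable (h : LF L s) (Lam : J → Q → ZMod 2) (hLam : ∀ j c, L.toSk.XL (gP s j) (Lam j) c)

/-- **the label of a piece is the label of any of its points** -/
theorem lbl_cmb {c : Q} {x : Pc L s c} {w : W} (hw : w ∈ pts h c x) {j' : J}
    (hne : j' ≠ pcol L s c x) (hf : fam (pcol L s c x) = fam j') :
    lbl (cmb h Lam hLam) c x j' = L.toSk.ext (gP s j') (Lam j') w := by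
  classical
  have := h.pc c
  let _ : Fintype (Pc L s c) := Fintype.ofFinite _
  have hwI := (pts_in hw).2
  have hm : ∀ w ∈ L.toSk.In c, (w ∈ gP s j' ↔
      ∃ y ∈ Finset.univ.filter (fun x : Pc L s c => pcol L s c x = j'), w ∈ pts h c y) := by
    intro w hw
    rw [mem_gP]
    constructor
    · rintro ⟨h4, h5⟩
      exact ⟨Quot.mk _ ⟨w, h4, hw⟩, Finset.mem_filter.2 ⟨Finset.mem_univ _, h5⟩,
        mem_pts.2 ⟨_, rfl⟩⟩
    · rintro ⟨x, hx, hwx⟩
      exact ⟨(pts_in hwx).1, by rw [← pcol_pts hwx]; exact (Finset.mem_filter.1 hx).2⟩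
  have hx2 := xl_sum (h := h) (c := c) (Y0 := gP s j') _ hm
  have h4 := (hLam j' c).unique_ext hx2 (fun _ _ => Iff.rfl) (bv_le L.toSk c) (bv_dim L.toSk c) hwI
  have h5 : ∑ x : Pc L s c with pcol L s c x = j', nl h c x (bv L.toSk c) = 0 :=
    Finset.sum_eq_zero fun y _ => nl_bv h c y
  rw [ext_sum _ hm hwI, h5, add_zero] at h4
  have h6 : lbl (cmb h Lam hLam) c x j' =
      Lam j' (bv L.toSk c) + ∑ x' : Pc L s c with pcol L s c x' = j', nlw h c x' (rep h x) := by
    unfold lbl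
    congr 1
  have h7 : ∑ x' : Pc L s c with pcol L s c x' = j', nlw h c x' (rep h x)
      = ∑ x' : Pc L s c with pcol L s c x' = j', nlw h c x' w := by
    refine Finset.sum_congr rfl fun x' hx' => ?_
    have hx'' := (Finset.mem_filter.1 hx').2
    refine side_const (h := h) ?_ (by rw [hx'']; exact hf) (rep_mem h x) hw
    rintro rfl
    exact hne hx''.symm
  rw [h6, h7, ← h4]
  have e : ∀ a b : ZMod 2, a + b + b = a := by decide
  exact e _ _

/-- the piece of a point in a cell -/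
def pp (c : Q) {w : W} (hw : w ∈ s.P ∧ w ∈ L.toSk.In c) : Σ q, (cmb h Lam hLam).I q :=
  ⟨c, (Quot.mk _ ⟨w, hw⟩ : Pc L s c)⟩

theorem pp_le {c d : Q} (hcd : c ≤ d) {w : W} (hw : w ∈ s.P ∧ w ∈ L.toSk.In c)
    (hw' : w ∈ s.P ∧ w ∈ L.toSk.In d) :
    EqvGen (Stp (cmb h Lam hLam)) (pp h Lam hLam c hw) (pp h Lam hLam d hw') := by
  rcases hcd.eq_or_lt with rfl | hlt
  · exact EqvGen.refl _
  · exact EqvGen.rel _ _ (Stp.mk (C := cmb h Lam hLam) hlt (Quot.mk _ ⟨w, hw⟩ : Pc L s c))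

theorem pp_two {c d : Q} {w : W} (hw : w ∈ s.P ∧ w ∈ L.toSk.In c)
    (hw' : w ∈ s.P ∧ w ∈ L.toSk.In d) :
    EqvGen (Stp (cmb h Lam hLam)) (pp h Lam hLam c hw) (pp h Lam hLam d hw') := by
  have h1 : w ∈ s.P ∧ w ∈ L.toSk.In (L.ed w) := ⟨hw.1, hw.2.1, le_rfl⟩
  exact EqvGen.trans _ _ _ (EqvGen.symm _ _ (pp_le h Lam hLam hw.2.2 h1 hw))
    (pp_le h Lam hLam hw'.2.2 h1 hw')

theorem pp_mu {F : Φ} {w : W} (hw : w ∈ s.P ∧ w ∈ L.toSk.In (L.cf F))
    (hw' : s.mu F w ∈ s.P ∧ s.mu F w ∈ L.toSk.In (L.cf F)) :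
    pp h Lam hLam (L.cf F) hw = pp h Lam hLam (L.cf F) hw' := by
  unfold pp
  congr 1
  exact Quot.sound ⟨F, le_rfl, on_of_in hw.2, rfl⟩

/-- **connected sheets have connected pieces** -/
theorem connC_cmb {j : J} (hconn : s.Conn j) : ConnC (cmb h Lam hLam) j := by
  rintro ⟨c, x⟩ ⟨d, y⟩ hx hy
  obtain ⟨⟨w, hw⟩, rfl⟩ := Quot.exists_rep (r := Rel L s c) x
  obtain ⟨⟨w', hw'⟩, rfl⟩ := Quot.exists_rep (r := Rel L s d) y
  have hwj : s.lab w = j := hx
  have hwj' : s.lab w' = j := hy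
  have key := hconn.2 {u | ∀ (e : Q) (hu : u ∈ s.P ∧ u ∈ L.toSk.In e),
    EqvGen (Stp (cmb h Lam hLam)) (pp h Lam hLam c hw) (pp h Lam hLam e hu)} ?_ w
    (fun e hu => pp_two h Lam hLam hw hu) hw.1 hwj w' hw'.1 hwj'
  · exact key d hw'
  · intro F u hu hat _ e hmu
    have hm := s.mu_mem hat.1 hat.2
    have hu1 : u ∈ s.P ∧ u ∈ L.toSk.In (L.cf F) := ⟨hat.1, (L.on_iff F u).1 hat.2⟩
    have hm1 : s.mu F u ∈ s.P ∧ s.mu F u ∈ L.toSk.In (L.cf F) := ⟨hm.1, (L.on_iff F _).1 hm.2⟩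
    refine EqvGen.trans _ _ _ (hu (L.cf F) hu1) ?_
    rw [pp_mu h Lam hLam hu1 hm1]
    exact pp_two h Lam hLam hm1 hmu

/-- **order of the sheets of a family** from one point of every sheet -/
theorem ord_cmb (hW : ∀ w ∈ s.P, w ∈ L.W1) (hconn : ∀ j, s.Conn j) {ℓ : J → ℝ}
    (hlev : ∀ j j', j ≠ j' → fam j = fam j' →
      ∃ w ∈ s.P, s.lab w = j ∧ (L.toSk.ext (gP s j') (Lam j') w = 1 ↔ ℓ j' < ℓ j)) :
    Ord (cmb h Lam hLam) ℓ := by
  refine ord_of _ (fun j => connC_cmb h Lam hLam (hconn j)) ?_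
  intro j j' hne hf
  obtain ⟨w, hw, hwj, e⟩ := hlev j j' hne hf
  have h2 : w ∈ s.P ∧ w ∈ L.toSk.In (L.ed w) := ⟨hw, hW w hw, le_rfl⟩
  refine ⟨pp h Lam hLam (L.ed w) h2, hwj, ?_⟩
  have h4 : lbl (cmb h Lam hLam) (L.ed w) (Quot.mk _ ⟨w, h2⟩ : Pc L s (L.ed w)) j' =
      L.toSk.ext (gP s j') (Lam j') w :=
    lbl_cmb h Lam hLam (mem_pts.2 ⟨h2, rfl⟩) (by show j' ≠ s.lab w; rw [hwj]; exact hne.symm)
      (by show fam (s.lab w) = fam j'; rw [hwj]; exact hf)
  rw [← e, ← h4]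
  exact Iff.rfl

end Crest.Agent.R096.MgL_441
end

-- ▼ part R096/On3_441

/-!
# R096 (row 96), NO-LABELS (helper441), part 3: from 422's labels to 416 / 537's labels

422's labels are `1` deep inside (near the brick) and `0` far away; the functions `s_a` of the foam
are `0` on the brick and `1` far away.  So the labels of the discrete input are `Lf lam = lam + 1`.

* `xlf`       : they are labels;
* `ordF`      : order of the sheets, `ℓ = - rk`;
* `num_add`   : number of a sheet = (number of sheets) - 1 - rk;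
* `pt_final`  : position of the points of the final state;
* `ex_out`    : (K4) for a cell of the final mesh.
-/

set_option autoImplicit false
set_option linter.unusedSectionVars false

open Set Relation

namespace Crest.Agent.R096.On_441

open Crest.Agent.R096.St_147 Crest.Agent.R096.Seq_213 Crest.Agent.R096.Seq_213.GSt
  Crest.Agent.R096.Bd_416 Crest.Agent.R096.Mg_441 Crest.Agent.R096.Lm_117
  Crest.Agent.R096.Grd_714 Crest.Agent.R096.Cp_298 Crest.Agent.R096.Gl_422

variable {ι Φ W Q J J1 Cc Kq : Type} {M : MeshC ι Φ W} [PartialOrder Q] {dim : Q → ℕ}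
variable {L : LM M Q dim} {fam : J → Cc} {fam1 : J1 → Cc}

/-- labels which are `0` inside and `1` far away -/
def Lf (lam : J1 → Q → ZMod 2) (j : J1) (v : Q) : ZMod 2 := lam j v + 1

theorem gp_eq (s : GSt M fam1) (j : J1) : gP s j = gp s j := by
  ext w
  rw [mem_gP, mem_gp]

theorem xlf {s : GSt M fam1} {lam : J1 → Q → ZMod 2} (h : ∀ j, GLab L (gp s j) (lam j)) :
    ∀ j c, L.toSk.XL (gP s j) (Lf lam j) c := by
  intro j c
  rw [gp_eq]
  exact ((h j).xl c).add_const 1

theorem extf {s : GSt M fam1} {lam : J1 → Q → ZMod 2} (j : J1) (w : W) :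
    L.toSk.ext (gP s j) (Lf lam j) w = L.toSk.ext (gp s j) (lam j) w + 1 := by
  rw [gp_eq]
  unfold Sk.ext Lf
  ring

section out

variable {Qd : Quads ι Cc Kq} {s : GSt M fam1} {Z : Cc → Set Q} {p : J1 → J}
  {lam₀ : J → Q → ZMod 2} {v₀ v₁ : Cc → Q} {lam : J1 → Q → ZMod 2}

/-- **order of the sheets with the flipped labels** -/
theorem ordF (D : LabOut L Qd s Z p lam₀ v₀ v₁ lam) (hLF : LF L s)
    (hfin : ∀ a, {j | fam1 j = a}.Finite) :
    Ord (cmb hLF (Lf lam) (xlf D.lab)) (fun j => -(rk L s lam hfin j : ℝ)) := by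
  refine MgL_441.ord_cmb hLF (Lf lam) (xlf D.lab) D.on D.conn ?_
  intro j j' hne hf
  obtain ⟨w, hw, hl, e⟩ := D.hlev hfin j j' hne hf
  refine ⟨w, hw, hl, ?_⟩
  have hinj : rk L s lam hfin j ≠ rk L s lam hfin j' := fun h' => hne (D.rk_inj hfin hf h')
  rw [extf]
  have e1 : ∀ a : ZMod 2, a + 1 = 1 ↔ ¬ a = 1 := by decide
  rw [e1, e]
  constructor
  · intro h1
    have h2 : (rk L s lam hfin j : ℝ) ≠ rk L s lam hfin j' := fun h' => hinj (by exact_mod_cast h')
    have h4 : (rk L s lam hfin j : ℝ) ≤ rk L s lam hfin j' := not_lt.1 h1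
    have h5 := lt_of_le_of_ne h4 h2
    linarith
  · intro h1 h2
    linarith

/-- the levels of different sheets of a family are different -/
theorem ordF_ne (D : LabOut L Qd s Z p lam₀ v₀ v₁ lam) (hfin : ∀ a, {j | fam1 j = a}.Finite) :
    ∀ j j', j ≠ j' → fam1 j = fam1 j' →
      (-(rk L s lam hfin j : ℝ)) ≠ -(rk L s lam hfin j' : ℝ) := by
  intro j j' hne hf h
  apply hne
  refine D.rk_inj hfin hf ?_
  have h1 : (rk L s lam hfin j : ℝ) = rk L s lam hfin j' := neg_injective h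
  exact_mod_cast h1


end out


section k4

variable {Qd : Quads ι Cc Kq} {s : GSt M fam1} {Z : Cc → Set Q} {p : J1 → J}
  {lam₀ : J → Q → ZMod 2} {v₀ v₁ : Cc → Q} {lam : J1 → Q → ZMod 2}
variable {E' : Type*} [NormedAddCommGroup E'] [NormedSpace ℝ E'] {Pf : Cc → Set E'}

/-- **(K4) for a cell of the final mesh.** `y a = 0` (near the brick `a`): a vertex of the cell is
joined with the deep vertex by frozen 1-cells and has the original label `1` (or directly the final
label `1`); `y a = 1`: a vertex of the cell has label `0` (e.g. it lies in `Z a`). -/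
theorem ex_out (D : LabOut L Qd s Z p lam₀ v₀ v₁ lam) (hLF : LF L s) {c : Q} {y : Cc → ℝ}
    (hy : y ∈ K2 Pf)
    (hpt : ∀ w ∈ s.P, w ∈ L.toSk.In c → 0 < y (fam1 (s.lab w)) ∧ y (fam1 (s.lab w)) < 1)
    (h0 : ∀ j, y (fam1 j) = 0 → ∃ v ≤ c, dim v = 0 ∧ (lam j v = 1 ∨
      (ReflTransGen (Ed L {e | FrE L Qd (fam1 j) e}) (v₀ (fam1 j)) v ∧ lam₀ (p j) v = 1)))
    (h1 : ∀ j, y (fam1 j) = 1 → ∃ v ≤ c, dim v = 0 ∧ (lam j v = 0 ∨ v ∈ Z (fam1 j) ∨
      (ReflTransGen (Ed L {e | FrE L Qd (fam1 j) e}) (v₀ (fam1 j)) v ∧ lam₀ (p j) v = 0))) :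
    Ex (cmb hLF (Lf lam) (xlf D.lab)) Pf c y := by
  refine ex_of hLF (Lf lam) (xlf D.lab) hy hpt ?_ ?_
  · intro j hj
    obtain ⟨v, h2, h3, h4⟩ := h0 j hj
    have h5 : lam j v = 1 := by
      rcases h4 with h4 | ⟨h4, h6⟩
      · exact h4
      · rw [D.frz j v h4, h6]
    refine ⟨v, h2, h3, ?_⟩
    show lam j v + 1 = 0
    rw [h5]; decide
  · intro j hj
    obtain ⟨v, h2, h3, h4⟩ := h1 j hj
    have h5 : lam j v = 0 := by
      rcases h4 with h4 | h4 | ⟨h4, h6⟩
      · exact h4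
      · exact D.far j v h4
      · rw [D.frz j v h4, h6]
    refine ⟨v, h2, h3, ?_⟩
    show lam j v + 1 = 1
    rw [h5, zero_add]

end k4

end Crest.Agent.R096.On_441
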