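import Crest.Agent.R096.Gl7_422
import Crest.Agent.R096.Gl3_422
import Crest.Agent.R096.Lab5_184
import Crest.Agent.R096.Gl6_422
import Crest.Agent.R096.Gs3_422
import Crest.Agent.R096.Lm4_117
import Crest.Agent.R096.SkB1_662
import Crest.Agent.R096.Cp11_298
import Crest.Agent.R096.Lm7_117

-- ▼ part R096/SkB1c_662

/-!
# R096 (row 96), STATE HALF, cut 2 (helper662): the input `StI` over the mesh of a tiling

`stI_T` : the input of `SkB_662.exists_out` over `lmT T h3` from the label data of a tiling
(`Gs_422.LabIn`, `Gl_422.labIn_T`).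
-/

set_option autoImplicit false
set_option linter.style.longLine false
set_option linter.unusedSectionVars false

open Set Relation Module

namespace Crest.Agent.R096.SkB_662

open Crest.Agent.R096.St_147 Crest.Agent.R096.Lm_117 Crest.Agent.R096.Ac_117
  Crest.Agent.R096.Cp_298 Crest.Agent.R096.Msh_715 Crest.Agent.R096.Agl5_543
  Crest.Agent.R096.Ori_543 Crest.Agent.R096.Seq_213 Crest.Agent.R096.Lab_184
  Crest.Agent.R096.Coh_184 Crest.Agent.R096.Gl_422 Crest.Agent.R096.Main_4

variable {E : Type} [NormedAddCommGroup E] [NormedSpace ℝ E] [FiniteDimensional ℝ E]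
variable {Om : Set E} {ι : Type} {T : Tiling Om ι} [Nonempty T.Cell]

/-- the cell of a vertex -/
theorem edC_vertex {v : E} (hv : v ∈ Om) (hd : T.dim v = 0) :
    (edC T v).dim = 0 ∧ (edC T v).pt = v := by
  have h1 : (edC T v).set = {v} := by
    rw [edC_set hv, T.cc_eq_singleton (T.dim_eq_zero_iff.1 hd)]
  have h2 : (edC T v).pt = v := by
    have := pt_set (edC T v)
    rwa [h1] at this
  refine ⟨?_, h2⟩
  show T.dim (edC T v).pt = 0
  rw [h2, hd]



variable {J C K : Type} {fam : J → C} {h3 : finrank ℝ E = 3}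

/-- labels at the points of `E` are labels over `lmT` -/
theorem gLab_T {s : GSt (meshC T h3) fam} (hon : ∀ w ∈ s.P, w ∈ Om ∧ T.dim w = 1) {j : J}
    {lam : E → ZMod 2} (h : IsLab T (gPts s j) lam) :
    GLab (lmT T h3) (gp s j) (fun v => lam v.pt) := by
  classical
  intro e he
  change lam (enC e false).pt + lam (enC e true).pt = nW (gp s j) ((skT T).On1 e)
  have h1 : T.cc e.pt = segment ℝ (epE e false) (epE e true) := by
    rw [← e.set_eq]; exact (ep_spec he).2.1
  have hO : e.pt ∈ Om := Cm_117.cell_sub e (pt_set e)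
  rw [en_pt he, en_pt he, h e.pt hO he _ _ h1, nW_card]
  congr 1
  have h2 : (gPts s j).filter (fun u => u ∈ T.cc e.pt) =
      (gp s j).filter (fun u => u ∈ (skT T).On1 e) := by
    ext u
    rw [Finset.mem_filter, Finset.mem_filter, mem_gPts, mem_gp]
    refine and_congr_right fun hu => ?_
    have hu1 : u ∈ W1 T := hon u hu.1
    rw [← e.set_eq, ← edC_eq hu1 he]
    exact ⟨fun h => ⟨hu1, h⟩, fun h => h.2⟩
  rw [h2]




end Crest.Agent.R096.SkB_662
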