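import Crest.Agent.R096.Rop5_441
import Crest.Agent.R096.Gia4_537
import Crest.Agent.R096.Hlf1_847
import Crest.Agent.R096.Exa6_560
import Crest.Agent.R096.Init11_543
import Crest.Agent.R096.Kin1_527
import Crest.Agent.R096.Oa4_527
import Crest.Agent.R096.Init12_543
import Crest.Agent.R096.Leaf3_965
import Crest.Agent.R096.SkB1c_662
import Crest.Agent.R096.Be7_416
import Crest.Agent.R096.Ecm5_446
import Crest.Agent.R096.Cin2_181
import Crest.Agent.R096.Lm5_117

-- ▼ part R096/Rop6_441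
section

/-!
# R096 (row 96), ROPES (helper441), part 6: the cores of the machine data as topological cores

`thC`, `tauC` : the boundary homeomorphism of every core (exact or tiny) and its inverse;
`η0F`         : the closeness of `thC` and the levels;
`corT`        : **`CorT` from `Mbf_337.Cores`**.
-/

set_option autoImplicit false
set_option linter.unusedSectionVars false

open Set Relation

namespace Crest.Agent.R096.Rop_441

open Crest.Agent.R096.Brk1_582 Crest.Agent.R096.Brk2_582 Crest.Agent.R096.Brk3_582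
  Crest.Agent.R096.Brk5_582 Crest.Agent.R096.Bsp_628 Crest.Agent.R096.Init_543
  Crest.Agent.R096.Vb_965 Crest.Agent.R096.Msh_715
open Crest.Agent.R096.SkC1_961 (E3 Hom3 FoamD th)
open Crest.Agent.R096.Mbf_337 (KJ sb)
open Crest.Agent.R096.Gia_537 (Kc thi th_thi thi_th Kc_sub Kc_compact Kc_disj Kc_exact)
open Crest.Agent.R096.Exa_560 (Cn Cn_nonneg tiny_near)
open Crest.Agent.R096.Ce_537 (PLEquiv)

variable {δ κ0 R c0 : ℝ} {La Om : Set E3} {ι : Type} {Φ : FoamD δ κ0 R c0 La}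
  {T : Tiling Om ι} {f g : E3 → E3} {κ1 κ2 : ℝ} {X : Set Φ.F} {J0 J V : Φ.F → Set ι} {ct : Φ.F → ι}
  {A : Φ.F → E3 ≃ᵃ[ℝ] E3} {lam : Φ.F → ℝ} {z : Φ.F → E3} {θ : Φ.F → E3 → E3} {φ : Φ.F → E3 → ℝ}
  {ct' : Φ.F → ι} {r₀ : Φ.F → ℝ}

open Classical in
/-- the boundary homeomorphism of the core `c` -/
noncomputable def thC (X : Set Φ.F) (A : Φ.F → E3 ≃ᵃ[ℝ] E3) (lam : Φ.F → ℝ) (z : Φ.F → E3)
    (θ : Φ.F → E3 → E3) (c : Φ.F) : E3 → E3 :=
  if c ∈ X then th (A c) (lam c) (z c) else θ c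

theorem thC_exact {c : Φ.F} (hc : c ∈ X) : thC X A lam z θ c = th (A c) (lam c) (z c) := if_pos hc

theorem thC_tiny {c : Φ.F} (hc : c ∉ X) : thC X A lam z θ c = θ c := if_neg hc

/-- the closeness of the boundary homeomorphisms and the levels -/
noncomputable def η0F (δ κ0 R c0 κ2 κ1 : ℝ) : ℝ :=
  Cs 3 δ R * (54 * κ0 / (c0 ^ 2 * κ2) * κ1) + Cn δ R * κ1

theorem η0F_nonneg (hδ : 0 < δ) (hR : 0 < R) (hκ0 : 0 ≤ κ0) (hκ1 : 0 ≤ κ1) (hκ2 : 0 ≤ κ2) :
    0 ≤ η0F δ κ0 R c0 κ2 κ1 := by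
  have h1 := Cs_nonneg (n := 3) hδ hR
  have h2 := Cn_nonneg hδ hR
  unfold η0F
  positivity

/-- the exact map on the frontiers -/
theorem fr_exact {c : Φ.F} {i : ι} {A : E3 ≃ᵃ[ℝ] E3} {lam : ℝ} {z : E3}
    (hE : Mbf_337.Exact Φ T f κ1 κ2 c i A lam z) {x : E3} :
    x ∈ frontier (P (T.H i)) ↔ th A lam z x ∈ frontier (Pc Φ.F c) := by
  obtain ⟨B, h1, h2⟩ := Gia_537.exists_B A hE.lam0 z
  have h3 : P (T.H i) = B ⁻¹' (Pc Φ.F c) := by
    ext x
    rw [mem_preimage, h1]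
    exact Ecm_446.th_mem hE
  rw [h3]
  have h4 : frontier (B ⁻¹' (Pc Φ.F c)) = B ⁻¹' (frontier (Pc Φ.F c)) :=
    (B.toContinuousAffineEquiv.toHomeomorph.preimage_frontier (Pc Φ.F c)).symm
  rw [h4, mem_preimage, h1]

theorem continuous_thi (A : E3 ≃ᵃ[ℝ] E3) {lam : ℝ} (hl : 0 < lam) (z : E3) :
    Continuous (thi A lam z) := by
  obtain ⟨B, h1, h2⟩ := Gia_537.exists_B A hl z
  have e : thi A lam z = B.symm := (funext h2).symm
  rw [e]
  exact B.symm.continuous_of_finiteDimensional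

open Classical in
/-- the inverse of the boundary homeomorphism -/
noncomputable def tauC (hC : Mbf_337.Cores Φ T f κ1 κ2 X J0 J V ct A lam z θ φ) (c : Φ.F) : E3 → E3 :=
  if hc : c ∈ X then thi (A c) (lam c) (z c) else (Classical.choose (hC.tiny c hc).bij).g

theorem notMem_hole (hLa : IsOpen La) (hC : Mbf_337.Cores Φ T f κ1 κ2 X J0 J V ct A lam z θ φ)
    (hR : InitR Φ T f g J0 ct' r₀) {c : Φ.F} {x : E3} (hx : x ∈ frontier (Kc T J c)) (c' : Φ.F) :
    x ∉ I (T.H (ct' c')) := by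
  intro h
  have hsub : I (T.H (ct' c')) ⊆ Kc T J c' := fun y hy =>
    Nr_527.mem_KJ.2 ⟨_, Nr_527.J0_sub hC c' (hR.ct c'), I_sub_P _ hy⟩
  by_cases he : c = c'
  · subst he
    exact hx.2 (interior_maximal hsub (isOpen_I _) h)
  · exact disjoint_left.1 (Kc_disj hLa hC he) ((Kc_compact hC c).isClosed.frontier_subset hx)
      (hsub h)

/-- **the cores of the machine data** -/
theorem corT (hLa : IsOpen La) (hδ : 0 < δ) (hR0 : 0 < R) (hκ0 : 0 ≤ κ0) (hκ1 : 0 ≤ κ1)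
    (hκ2 : 0 < κ2) (hκ : 2 * κ0 * κ1 ≤ κ2) (hκn : Cn δ R * κ1 < 1)
    (hC : Mbf_337.Cores Φ T f κ1 κ2 X J0 J V ct A lam z θ φ) (hR : InitR Φ T f g J0 ct' r₀) :
    CorT Om (Pc Φ.F) (bc (F := Φ.F)) (RF Φ r₀) f (Kc T J) (thC X A lam z θ) (tauC hC)
      (η0F δ κ0 R c0 κ2 κ1) where
  cpt := fun c => Kc_compact hC c
  sub := fun c => Kc_sub c
  disj := fun c c' h => Kc_disj hLa hC h
  cell := fun c x hx => by
    have h := Nr_527.V_inside hC (Gia_537.KJ_mono (Nr_527.J_sub hC c) hx)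
    exact Bx.mem_set.2 fun k => ⟨(h k).1.le, (h k).2.le⟩
  thm := fun c x hx => by
    by_cases hc : c ∈ X
    · rw [Kc_exact hC hc] at hx
      rw [thC_exact hc]
      exact (fr_exact (hC.exact_ c hc)).1 hx
    · rw [thC_tiny hc]
      exact Exa_560.th_mem (hC.tiny c hc) hx
  taum := fun c y hy => by
    by_cases hc : c ∈ X
    · rw [tauC, dif_pos hc, Kc_exact hC hc]
      have h := (fr_exact (hC.exact_ c hc) (x := thi (A c) (lam c) (z c) y)).2
      rw [th_thi (hC.exact_ c hc).lam0] at h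
      exact h hy
    · rw [tauC, dif_neg hc]
      exact (Classical.choose (hC.tiny c hc).bij).mg hy
  li := fun c x hx => by
    by_cases hc : c ∈ X
    · rw [tauC, dif_pos hc, thC_exact hc]
      exact thi_th (hC.exact_ c hc).lam0 x
    · rw [tauC, dif_neg hc, thC_tiny hc, ← Classical.choose_spec (hC.tiny c hc).bij x hx]
      exact (Classical.choose (hC.tiny c hc).bij).li x hx
  ri := fun c y hy => by
    by_cases hc : c ∈ X
    · rw [tauC, dif_pos hc, thC_exact hc]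
      exact th_thi (hC.exact_ c hc).lam0 y
    · have h1 := (Classical.choose (hC.tiny c hc).bij).mg hy
      rw [tauC, dif_neg hc, thC_tiny hc, ← Classical.choose_spec (hC.tiny c hc).bij _ h1]
      exact (Classical.choose (hC.tiny c hc).bij).ri y hy
  cont := fun c => by
    by_cases hc : c ∈ X
    · have e : tauC hC c = thi (A c) (lam c) (z c) := by rw [tauC, dif_pos hc]
      rw [e]
      exact (continuous_thi _ (hC.exact_ c hc).lam0 _).continuousOn
    · have e : tauC hC c = (Classical.choose (hC.tiny c hc).bij).g := by rw [tauC, dif_neg hc]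
      rw [e]
      exact (Classical.choose (hC.tiny c hc).bij).pg.1
  close := fun c x hx a => by
    have hxK : x ∈ Kc T J c := (Kc_compact hC c).isClosed.frontier_subset hx
    have hxO : x ∈ Om := Kc_sub c hxK
    have hv : va (Pc Φ.F) (bc (F := Φ.F)) (RF Φ r₀) f a x = Φ.lev a (f x) :=
      hR.v_eq Φ hLa hxO (fun c' => notMem_hole hLa hC hR hx c') a
    rw [hv]
    have h1 := Cs_nonneg (n := 3) hδ hR0
    have h2 := Cn_nonneg hδ hR0
    have h3 : 0 ≤ Cn δ R * κ1 := by positivity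
    have h4 : 0 ≤ Cs 3 δ R * (54 * κ0 / (c0 ^ 2 * κ2) * κ1) := by positivity
    by_cases hc : c ∈ X
    · rw [thC_exact hc]
      rw [Kc_exact hC hc] at hx hxK
      have hxI : x ∉ I (T.H (ct c)) := fun h =>
        hx.2 (interior_maximal (I_sub_P _) (isOpen_I _) h)
      have h5 := Hlf_847.close_lev (hC.exact_ c hc) hLa hδ hR0 hκ1 hκ2 hκ hxK hxI a
      rw [abs_sub_comm]
      exact h5.trans (by unfold η0F; linarith)
    · rw [thC_tiny hc]
      have h5 := tiny_near hLa hδ hR0 hκn (hC.tiny c hc) hx a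
      exact h5.trans (by unfold η0F; linarith)

end Crest.Agent.R096.Rop_441
end

-- ▼ part R096/Kin2_527
section

/-!
# Row 96 (S0127), (K4) over the labelled mesh, part 2 (helper527)

`meshEx_of` : `Oa_527.MeshEx` of the final placement `h.cmb` from `K4In` with `y q = va · (xq q)`,
for any set `D` of cells, each in a tile of `Tl` which is in no `J0 c` and on which the retraction
composed with `f` is `Psi ∘ f`.
-/

set_option autoImplicit false
set_option linter.unusedSectionVars false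
set_option linter.unusedVariables false

open Set Relation

namespace Crest.Agent.R096.Kin_527

open Crest.Agent.R096.Brk1_582 Crest.Agent.R096.Brk3_582 Crest.Agent.R096.Init_543
  Crest.Agent.R096.Ce_537 Crest.Agent.R096.St_147 Crest.Agent.R096.Lm_117
  Crest.Agent.R096.Gl_422 Crest.Agent.R096.Seq_213 Crest.Agent.R096.Msh_715
  Crest.Agent.R096.SkB_662 Crest.Agent.R096.Mg_441 Crest.Agent.R096.Cp_298
open Crest.Agent.R096.SkC1_961 (E3 FoamD)
open Crest.Agent.R096.Mbf_337 (sb KJ)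

variable {δ κ0 R0 c0 : ℝ} {La Om : Set E3} {ι : Type} {Φ : FoamD δ κ0 R0 c0 La}
  {Tl : Tiling Om ι} {f : E3 → E3} {R : E3 → E3} {J0 : Φ.F → Set ι}

/-- the coordinates of `543` are those of `337` -/
theorem va_eq_sb {x : E3} (h : R (f x) = Φ.Psi (f x)) :
    (fun a => va (Pc Φ.F) (bc (F := Φ.F)) R f a x) = sb Φ (Φ.Psi (f x)) := by
  funext a
  show sc (Pc Φ.F) (bc (F := Φ.F)) (R (f x)) a = sc (Pc Φ.F) (bc (F := Φ.F)) (Φ.Psi (f x)) a
  rw [h]

variable {ι' Ff Q Kq J : Type} [PartialOrder Q] {dim : Q → ℕ} {M : MeshC ι' Ff E3}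
  {K : Q → Set E3} {L : LM M Q dim} {O : Ori M} {τ : Q → ZMod 2} {Rel : E3 → E3 → Prop}
  {V : Set E3} {Qd : Quads ι' Φ.F Kq} {κ : Φ.F → ℕ} {fam : J → Φ.F} {s₀ : GSt M fam}
  {far₀ : J → Set E3} {G : Φ.F → Set E3} {Z : Φ.F → Set Q} {lam₀ : J → Q → ZMod 2}
  {v₀ v₁ : Φ.F → Q} {hfin : ∀ a, {j | fam j = a}.Finite} {kap : Φ.F → ℕ}
  {s : GSt M (fam' fam (Rk κ kap))} {far : Nm' fam (Rk κ kap) → Set E3} {β : E3 → E3}
  {lam : Nm' fam (Rk κ kap) → Q → ZMod 2}






end Crest.Agent.R096.Kin_527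
end

-- ▼ part R096/SkMv1_362
section

/-!
# R096 (row 96), BOTTOM, vertical slice `X = univ` (helper362, hot spare of SkM_337), part 1

From the literal data of `Mbf_337.MachBF` with all cores exact: INIT (543), `hleaf` (965),
`StI` (662) over `lmT T fr3`, and the final state `StO`.
-/

set_option autoImplicit false
set_option linter.style.longLine false
set_option linter.unusedSectionVars false

open Set Topology Filter Relation MeasureTheory

namespace Crest.Agent.R096.SkMv_362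

open Crest.Agent.R096.Coh_184 Crest.Agent.R096.Brk1_582 Crest.Agent.R096.Brk2_582
  Crest.Agent.R096.Brk3_582 Crest.Agent.R096.Brk5_582 Crest.Agent.R096.Bsp_628
  Crest.Agent.R096.Lab_184 Crest.Agent.R096.Main_4 Crest.Agent.R096.Msh_715
  Crest.Agent.R096.Agl4_543 Crest.Agent.R096.Agl5_543 Crest.Agent.R096.Agl6_543
  Crest.Agent.R096.Ginv_543 Crest.Agent.R096.Seq_213 Crest.Agent.R096.Seq_213.GSt
  Crest.Agent.R096.St_147 Crest.Agent.R096.Gs_422 Crest.Agent.R96.Push_899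
  Crest.Agent.R096.Init_543 Crest.Agent.R096.Leaf_965 Crest.Agent.R096.SkB_662
  Crest.Agent.R096.Lm_117 Crest.Agent.R096.Ac_117 Crest.Agent.R096.Gl_422
  Crest.Agent.R096.Cp_298 Crest.Agent.R096.Ori_543

open Crest.Agent.R096.SkC1_961 (E3 Hom3 IsPush FoamD Cfg th NN)


section slice

variable {δ κ0 R c0 : ℝ} {La Om : Set E3} {ι : Type} {Φ : FoamD δ κ0 R c0 La}
  {T : Tiling Om ι} {f g : E3 → E3}

/-- the constants of INIT: all conditions on `κ1` (mesh and cores) against `μ` (margin of the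
levels) and the constants of the foam -/
structure Sml (δ κ0 R c0 κ1 κ2 μ : ℝ) : Prop where
  δ0 : 0 < δ
  R0 : 0 < R
  κ10 : 0 ≤ κ1
  κ20 : 0 < κ2
  μ0 : 0 < μ
  h12 : 2 * κ0 * κ1 ≤ κ2
  h8 : κ1 ≤ μ / 8
  hl : Chl δ κ0 R c0 κ2 * κ1 < μ / 2


/-- the points of the truthful state in a compact part of `Om` are finitely many -/
theorem st0_finK (hLa : IsOpen La) {J0 : Φ.F → Set ι} {ct' : Φ.F → ι} {r₀ : Φ.F → ℝ}
    (hR : InitR Φ T f g J0 ct' r₀) {μ : ℝ} (hμ : 0 < μ) {L : Φ.F → Finset ℝ} [Nonempty (JJ Φ L)]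
    (hm : ∀ c, ∀ t ∈ L c, μ ≤ t ∧ t ≤ 1 - μ) {hG : GF Φ r₀ T f L} {bp : JJ Φ L → E3} {K : Set E3}
    (hK : IsCompact K) (hKO : K ⊆ Om) : ((st0 hG bp).P ∩ K).Finite := by
  have F := foam4 Φ hLa
  have hRet := retF Φ hLa hR.pos hR.le_one
  obtain ⟨a1, a2, a3, a4, a5, a6⟩ := hR.hm
  have hC : IsCompact (f '' K) := hK.image_of_continuousOn (a5.mono hKO)
  have hCL : f '' K ⊆ La := by
    rintro _ ⟨x, hx, rfl⟩
    exact a1 (hKO hx)
  have hN : (⋃ e ∈ {e | (Pc Φ.F e ∩ f '' K).Nonempty},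
      {c | (Pc Φ.F c ∩ Pc Φ.F e).Nonempty}).Finite :=
    (F.finite_meet hC hCL).biUnion fun e _ => F.finite_meet (F.cpt e) (F.sub e)
  refine (hN.biUnion fun c _ => st0_fin (hG := hG) (bp := bp) c).subset ?_
  rintro w ⟨hw, hwK⟩
  obtain ⟨h1, h2, h3⟩ := st0_mem hLa hR hw
  refine mem_biUnion (x := ((st0 hG bp).lab w).1) ?_ ⟨hw, rfl⟩
  obtain ⟨e, he⟩ := F.cov (f w) (a1 h1)
  refine mem_biUnion (x := e) ⟨f w, he, w, hwK, rfl⟩ ?_
  have hy : RF Φ r₀ (f w) ∈ Pc Φ.F e := hRet.cell e he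
  have hyL : RF Φ r₀ (f w) ∈ La := F.sub e hy
  have hlt : sc (Pc Φ.F) (bc (F := Φ.F)) (RF Φ r₀ (f w)) ((st0 hG bp).lab w).1 < 1 := by
    have h5 := hR.v_eq' Φ hLa h1 (by omega) ((st0 hG bp).lab w).1
    have h6 := hm _ _ ((st0 hG bp).lab w).2.2
    have h7 : vF Φ r₀ f ((st0 hG bp).lab w).1 w = ((st0 hG bp).lab w).2.1 := h5.trans h3
    have h8 : sc (Pc Φ.F) (bc (F := Φ.F)) (RF Φ r₀ (f w)) ((st0 hG bp).lab w).1 =
      ((st0 hG bp).lab w).2.1 := h7
    rw [h8]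
    linarith [h6.2]
  obtain ⟨y, hyf⟩ := F.sc_lt_one_fc hyL
  rw [mem_fc] at hyf
  refine ⟨y, hyf _ hlt, hyf e ?_⟩
  show sc (Pc Φ.F) (bc (F := Φ.F)) (RF Φ r₀ (f w)) e < 1
  rw [(F.sc_eq_zero hyL).2 hy]
  exact one_pos


end slice

end Crest.Agent.R096.SkMv_362
end

-- ▼ part R096/Cin3_181

/-!
# R096 (row 96), CORE-INST, part 3 (helper181): the range of the levels in a cell from 446's `Exa`; the
base of one exact core from the literal clauses of `MachBF`
-/

set_option autoImplicit false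
set_option linter.unusedSectionVars false
set_option linter.style.longLine false

open Set Metric

namespace Crest.Agent.R096.Cin_181

open Crest.Agent.R096.Bsp_628 Crest.Agent.R096.Brk1_582 Crest.Agent.R096.Brk2_582
open Crest.Agent.R096.Brk3_582 Crest.Agent.R096.Brk5_582 Crest.Agent.R096.Brk6_582
open Crest.Agent.R096.Ce_537 Crest.Agent.R096.Bd_416 Crest.Agent.R096.Xp_537
open Crest.Agent.R096.Msh_715 Crest.Agent.R096.Grd_714 Crest.Agent.R096.Bin_181
open Crest.Agent.R096.SkC1_961 (E3 FoamD th)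
open Crest.Agent.R096.Mbf_337 (sb)
open Crest.Agent.R096.Ecm_446

/-! ### the range of the levels -/

section rng

variable {Q : Type} [PartialOrder Q] {dim : Q → ℕ} {J Fam : Type} {I : Type*}
  (Cm : Cmb Q dim J Fam) (D : Set Q)

/-- every piece meets an edge; an edge has two ends -/
structure EdgeC : Prop where
  piece : ∀ q ∈ D, ∀ x : Cm.I q, ∃ e ≤ q, dim e = 1 ∧ ∃ y : Cm.I e, Cm.col e y = Cm.col q x
  two : ∀ e ∈ D, dim e = 1 → ∃ v < e, v ≠ Cm.o e ∧ dim v = 0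

variable {Cm D} {fa : J → I} {lv : J → ℕ} {N : Q → I → ℕ} {L H : Q → I → ℕ}


end rng

section lm

open Crest.Agent.R096.St_147 Crest.Agent.R096.Seq_213 Crest.Agent.R096.Seq_213.GSt
  Crest.Agent.R096.Lm_117

variable {ι Φ W Q : Type} [PartialOrder Q] {dim : Q → ℕ} {M : MeshC ι Φ W}
variable {J C : Type} {fam : J → C} {L : LM M Q dim} {s : GSt M fam}


end lm

/-! ### the base of one exact core -/

section core

variable {δ κ0 R c0 : ℝ} {La Om : Set E3} {ι : Type} {Φ : FoamD δ κ0 R c0 La} {Tl : Tiling Om ι}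
  {f : E3 → E3}
variable {κ1 κ2 : ℝ} {c : Φ.F} {i : ι} {A : E3 ≃ᵃ[ℝ] E3} {lam : ℝ} {z : E3} {M : ℕ}
variable {Q : Type} [PartialOrder Q] {dim : Q → ℕ} {ck : Q → Tl.Cell} {J Fam : Type}
  {Cm : Cmb Q dim J Fam} {m : Φ.F → ℕ} {fa : J → Φ.F} {lv : J → ℕ}


end core

end Crest.Agent.R096.Cin_181
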