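import Crest.Agent.R096.Bin9_181

/-!
# R096 (row 96), SQ-EXACT (147 #10127), part 2 (helper181): squeezing `E_κ` gives `E_κ'` with
`1 - κ' = (1 - κ) * (2 b')`, through sheets, pull back and merging
-/

set_option autoImplicit false
set_option linter.unusedSectionVars false

open Set Metric

namespace Crest.Agent.R096.Bin_181

open Crest.Agent.R096.Ce_537 Crest.Agent.R096.Bd_416 Crest.Agent.R096.Xp_537
open Crest.Agent.R096.Brk1_582 Crest.Agent.R096.Brk2_582 Crest.Agent.R096.Brk6_582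
open Crest.Agent.R096.Grd_714

/-! ### general facts on `EqAt` -/

section gen

variable {E : Type*} [NormedAddCommGroup E] [NormedSpace ℝ E] {κ J : Type*}





variable {fa : J → κ} {lv : J → ℤ}


lemma clcl (t : ℝ) : cl (cl t) = cl t := cl_of_mem (cl_mem t)


variable {V : Type*} [NormedAddCommGroup V] [NormedSpace ℝ V]



end gen

variable {E : Type*} [NormedAddCommGroup E] [NormedSpace ℝ E] {I : Type*}
variable {b : Set I → E} {P : I → Set E} {m : I → ℕ}

section foam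

variable {La : Set E} [CompleteSpace E] (F : Foam La P b 4) (hQ : Quads P b)
  (hne : ∀ c, (P c).Nonempty) (hm : ∀ c, 0 < m c) (c : Cel P m)

/-- the bands in level coordinates -/
lemma ek_B_clamp {κ : ℝ} (hκ : 0 < κ ∧ κ < 1) {q : Gx P m} {y : E}
    (hy : y ∈ (grid F hQ hne hm).cell (.gr q)) {a : I} :
    y ∈ (ek (grid F hQ hne hm) b κ c).B a ↔
      a ∈ q.free ∧ |co P b m y a - (q.lo a + 1/2)| ≤ (1 - κ) / 2 := by
  have hk : 0 < 1 - κ := by linarith [hκ.2]
  constructor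
  · intro hB
    obtain ⟨k1, k2, k3⟩ := clampA F hQ hne hm hκ c hy hB
    refine ⟨k1, ?_⟩
    have e : co P b m y a - (q.lo a + 1/2) =
        (1 - κ) * (co P b m (st (grid F hQ hne hm) κ y) a - (q.lo a + 1/2)) := by
      rw [k3]; ring
    rw [e, abs_mul, abs_of_pos hk]
    have h1 : |co P b m (st (grid F hQ hne hm) κ y) a - (q.lo a + 1/2)| ≤ 1/2 := by
      rw [abs_le]; constructor <;> linarith [k2.1, k2.2]
    have := mul_le_mul_of_nonneg_left h1 hk.le
    linarith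
  · rintro ⟨ha, h⟩
    by_contra hB
    obtain ⟨k, k1, k2, k3, k4⟩ := clampB F hQ hne hm hκ c hy hB
    have h1 := Gx.hi_eq ha
    obtain ⟨v1, v2⟩ := abs_lt.1 k4
    obtain ⟨u1, u2⟩ := abs_le.1 h
    have h2 : k = q.lo a ∨ k = q.lo a + 1 := by omega
    rcases h2 with h2 | h2
    · rw [h2] at v1 v2; linarith
    · rw [h2] at v1 v2; push_cast at v1 v2; linarith

/-- **the base point in level coordinates is a clamp** -/
theorem co_st {κ : ℝ} (hκ : 0 < κ ∧ κ < 1) {q : Gx P m} {y : E}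
    (hy : y ∈ (grid F hQ hne hm).cell (.gr q)) {a : I} (ha : a ∈ q.free) :
    co P b m (st (grid F hQ hne hm) κ y) a =
      q.lo a + 1/2 + cl ((co P b m y a - (q.lo a + 1/2)) / (1 - κ)) := by
  have hk : 0 < 1 - κ := by linarith [hκ.2]
  by_cases hB : y ∈ (ek (grid F hQ hne hm) b κ (.gr q)).B a
  · obtain ⟨k1, k2, k3⟩ := clampA F hQ hne hm hκ _ hy hB
    have e : co P b m y a - (q.lo a + 1/2) =
        (1 - κ) * (co P b m (st (grid F hQ hne hm) κ y) a - (q.lo a + 1/2)) := by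
      rw [k3]; ring
    rw [e, mul_div_cancel_left₀ _ hk.ne', cl_of_mem]
    · ring
    · constructor <;> linarith [k2.1, k2.2]
  · obtain ⟨k, k1, k2, k3, k4⟩ := clampB F hQ hne hm hκ _ hy hB
    have h1 := Gx.hi_eq ha
    obtain ⟨v1, v2⟩ := abs_lt.1 k4
    have h2 : k = q.lo a ∨ k = q.lo a + 1 := by omega
    rw [k3]
    rcases h2 with h2 | h2
    · rw [h2] at v1 v2 ⊢
      rw [cl_of_le]
      · ring
      · rw [div_le_iff₀ hk]; linarith
    · rw [h2] at v1 v2 ⊢
      push_cast at v1 v2 ⊢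
      rw [cl_of_ge]
      · ring
      · rw [le_div_iff₀ hk]; linarith

lemma co_st_notfree {κ : ℝ} (hκ : 0 < κ ∧ κ < 1) {q : Gx P m} {y : E}
    (hy : y ∈ (grid F hQ hne hm).cell (.gr q)) {a : I} (ha : a ∉ q.free) :
    co P b m (st (grid F hQ hne hm) κ y) a = q.hi a ∧ co P b m y a = q.hi a :=
  ⟨Gx.eq_of_mem ha (co_mem F hQ hm (st_mem (grid F hQ hne hm) hκ hy)),
    Gx.eq_of_mem ha (co_mem F hQ hm hy)⟩

/-- **SQ-EXACT** -/
theorem sq_exact {κ0 κ1 b' : ℝ} (h0 : 0 < κ0 ∧ κ0 < 1) (hb : 0 < b') (hb2 : b' < 1/2)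
    (h1 : 1 - κ1 = (1 - κ0) * (2 * b')) {q : Gx P m} {y : E}
    (hy : y ∈ (grid F hQ hne hm).cell (.gr q)) :
    EqAt ((ek (grid F hQ hne hm) b κ0 c).sq b') (ek (grid F hQ hne hm) b κ1 c) y := by
  have hk0 : 0 < 1 - κ0 := by linarith [h0.2]
  have hk1 : 0 < 1 - κ1 := by rw [h1]; positivity
  have h1' : (1 - κ0) * (2 * b') < 1 - κ0 := by nlinarith
  have hκ1 : 0 < κ1 ∧ κ1 < 1 := ⟨by linarith [h0.1], by linarith⟩
  have hlev : ∀ a, y ∈ (ek (grid F hQ hne hm) b κ0 c).B a →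
      (ek (grid F hQ hne hm) b κ0 c).lev a y = q.lo a := by
    intro a hB
    show ((lo (mn c (sl (grid F hQ hne hm) κ0 y)) a : ℕ) : ℝ) = _
    rw [(ek_lev F hQ hne hm h0 c hy hB).2]
  have hB : ∀ a, y ∈ (ek (grid F hQ hne hm) b κ1 c).B a ↔
      y ∈ ((ek (grid F hQ hne hm) b κ0 c).sq b').B a := by
    intro a
    rw [ek_B_clamp F hQ hne hm c hκ1 hy]
    constructor
    · rintro ⟨ha, h⟩
      have hB0 : y ∈ (ek (grid F hQ hne hm) b κ0 c).B a :=
        (ek_B_clamp F hQ hne hm c h0 hy).2 ⟨ha, by linarith⟩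
      refine ⟨hB0, ?_⟩
      obtain ⟨k1, k2, k3⟩ := clampA F hQ hne hm h0 c hy hB0
      rw [hlev a hB0]
      show |co P b m (st (grid F hQ hne hm) κ0 y) a - q.lo a - 1/2| ≤ b'
      have e : co P b m y a - (q.lo a + 1/2) =
          (1 - κ0) * (co P b m (st (grid F hQ hne hm) κ0 y) a - q.lo a - 1/2) := by
        rw [k3]; ring
      rw [e, abs_mul, abs_of_pos hk0, h1] at h
      have : (1 - κ0) * |co P b m (st (grid F hQ hne hm) κ0 y) a - q.lo a - 1/2| ≤
        (1 - κ0) * b' := by linarith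
      exact le_of_mul_le_mul_left this hk0
    · rintro ⟨hB0, h⟩
      obtain ⟨k1, k2, k3⟩ := clampA F hQ hne hm h0 c hy hB0
      rw [hlev a hB0] at h
      have h' : |co P b m (st (grid F hQ hne hm) κ0 y) a - q.lo a - 1/2| ≤ b' := h
      refine ⟨k1, ?_⟩
      have e : co P b m y a - (q.lo a + 1/2) =
          (1 - κ0) * (co P b m (st (grid F hQ hne hm) κ0 y) a - q.lo a - 1/2) := by
        rw [k3]; ring
      rw [e, abs_mul, abs_of_pos hk0, h1]
      have := mul_le_mul_of_nonneg_left h' hk0.le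
      linarith
  refine ⟨fun a => ?_, hB, fun a hBa => ?_, fun a hBa s hs => ?_⟩
  · by_cases hB0 : y ∈ (ek (grid F hQ hne hm) b κ0 c).B a
    · rw [Gd.sq_G_mem hB0, hlev a hB0]
      obtain ⟨k1, k2, k3⟩ := clampA F hQ hne hm h0 c hy hB0
      show co P b m (st (grid F hQ hne hm) κ1 y) a = _
      rw [co_st F hQ hne hm hκ1 hy k1]
      congr 2
      show _ = (co P b m (st (grid F hQ hne hm) κ0 y) a - q.lo a - 1/2) / (2 * b')
      rw [k3, h1]
      have hb0 : b' ≠ 0 := hb.ne'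
      field_simp
      ring
    · rw [Gd.sq_G_notMem hB0]
      have hB1 : y ∉ (ek (grid F hQ hne hm) b κ1 c).B a := fun h => hB0 ((hB a).1 h).1
      obtain ⟨k, -, -, k3, k4⟩ := clampB F hQ hne hm h0 c hy hB0
      obtain ⟨k', -, -, k3', k4'⟩ := clampB F hQ hne hm hκ1 c hy hB1
      show co P b m (st (grid F hQ hne hm) κ1 y) a = co P b m (st (grid F hQ hne hm) κ0 y) a
      rw [k3, k3']
      obtain ⟨v1, v2⟩ := abs_lt.1 k4
      obtain ⟨w1, w2⟩ := abs_lt.1 k4'
      have u1 : (k : ℝ) < k' + 1 := by linarith [h0.2, hκ1.2]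
      have u2 : (k' : ℝ) < k + 1 := by linarith [h0.2, hκ1.2]
      have u1' : k < k' + 1 := by exact_mod_cast u1
      have u2' : k' < k + 1 := by exact_mod_cast u2
      have : k' = k := by omega
      rw [this]
  · show ((lo (mn c (sl (grid F hQ hne hm) κ1 y)) a : ℕ) : ℝ) = _
    rw [(ek_lev F hQ hne hm hκ1 c hy ((hB a).2 hBa)).2]
    show _ = (ek (grid F hQ hne hm) b κ0 c).lev a y
    rw [hlev a hBa.1]
  · have hs2 : 2 * b' * s ∈ I2 := by
      have h3 : |s| ≤ 1/2 := by rw [abs_le]; exact ⟨by linarith [hs.1], hs.2⟩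
      have h4 : |2 * b' * s| ≤ 1/2 := by
        rw [abs_mul, abs_of_pos (by positivity : (0:ℝ) < 2 * b')]
        nlinarith [abs_nonneg s]
      obtain ⟨h5, h6⟩ := abs_le.1 h4
      exact ⟨by linarith, h6⟩
    have hB1 := (hB a).2 hBa
    show (ek (grid F hQ hne hm) b κ1 c).tr a (y, s) =
      (ek (grid F hQ hne hm) b κ0 c).tr a (y, 2 * b' * s)
    have m1 := (tr_spec F hQ hne hm hκ1 c hy hB1 hs).1
    have m0 := (tr_spec F hQ hne hm h0 c hy hBa.1 hs2).1
    have e1 := co_tr F hQ hne hm hκ1 c hy hB1 hs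
    have e0 := co_tr F hQ hne hm h0 c hy hBa.1 hs2
    have e2 : (q.lo a : ℝ) + 1/2 + (1 - κ1) * s = q.lo a + 1/2 + (1 - κ0) * (2 * b' * s) := by
      rw [h1]; ring
    rw [e2, ← e0] at e1
    rw [← Tq_co_of_mem F hQ hm m1, ← Tq_co_of_mem F hQ hm m0, e1]


end foam

section sheets

variable {V : Type*} [NormedAddCommGroup V] [NormedSpace ℝ V] {J : Type*}
variable {La : Set E} [CompleteSpace E] [FiniteDimensional ℝ E] (F : Foam La P b 4)
  (hQ : Quads P b) (hne : ∀ c, (P c).Nonempty) (hm : ∀ c, 0 < m c)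
variable (c : Cel P m) {fa : J → I} {lv : J → ℕ} {S : Set V} {T : Set E} (e : PLEquiv S T)




end sheets

end Crest.Agent.R096.Bin_181
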