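import Crest.Agent.R096.Bd6_416
import Crest.Agent.R096.Xq2_537
import Crest.Agent.R096.Grd7_714
import Crest.Agent.R096.Bd19_416

-- ▼ part R096/Bin1_181
section

/-!
# R096 (row 96), BASE-INV, part 1 (helper181): splitting a family-level band structure in sheets,
pull back of a band structure by a PL equivalence
-/

set_option autoImplicit false
set_option linter.unusedSectionVars false

open Set Metric

namespace Crest.Agent.R096.Bin_181

open Crest.Agent.R096.Ce_537 Crest.Agent.R096.Bd_416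

variable {E : Type*} [NormedAddCommGroup E] [NormedSpace ℝ E] {κ J : Type*}

/-- split a family-level structure in sheets `j = (fa j, lv j)` -/
noncomputable def spl (g : Gd E κ) (fa : J → κ) (lv : J → ℤ) : Gd E J where
  G j z := 1/2 + cl (g.G (fa j) z - lv j - 1/2)
  B j := {z | z ∈ g.B (fa j) ∧ g.lev (fa j) z = lv j}
  lev _ _ := 0
  tr j := g.tr (fa j)

section spl

variable {g : Gd E κ} {fa : J → κ} {lv : J → ℤ} {Z : Set E}

lemma spl_G (j : J) (z : E) : (spl g fa lv).G j z = 1/2 + cl (g.G (fa j) z - lv j - 1/2) := rfl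
lemma spl_B (j : J) (z : E) : z ∈ (spl g fa lv).B j ↔ z ∈ g.B (fa j) ∧ g.lev (fa j) z = lv j :=
  Iff.rfl

lemma cl_low' {t : ℝ} {m n : ℤ} (h : t ≤ m + 1) (hmn : m < n) : cl (t - n - 1/2) = -1/2 := by
  have h1 : (m : ℝ) + 1 ≤ n := by exact_mod_cast hmn
  exact cl_of_le (by linarith)

lemma cl_high' {t : ℝ} {m n : ℤ} (h : (m : ℝ) ≤ t) (hmn : n < m) : cl (t - n - 1/2) = 1/2 := by
  have h1 : (n : ℝ) + 1 ≤ m := by exact_mod_cast hmn
  exact cl_of_ge (by linarith)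

lemma half_mem_Zs : (1/2 + -1/2 : ℝ) ∈ Zs := ⟨0, by norm_num⟩
lemma half_mem_Zs' : (1/2 + 1/2 : ℝ) ∈ Zs := ⟨1, by norm_num⟩

/-- the value on the band -/
lemma spl_on (h : g.Is Z) {j : J} {z : E} (hz : z ∈ Z) (hB : z ∈ (spl g fa lv).B j) :
    g.G (fa j) z - lv j - 1/2 ∈ I2 := by
  have := h.ab (fa j) z hz hB.1
  rw [hB.2] at this
  exact this

lemma spl_off (h : g.Is Z) {j : J} {z : E} (hz : z ∈ Z) (hB : z ∉ (spl g fa lv).B j) :
    (spl g fa lv).G j z ∈ Zs := by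
  rw [spl_G]
  by_cases hB' : z ∈ g.B (fa j)
  · obtain ⟨n, hn⟩ := mem_Zs.1 (h.li _ z hz hB')
    have hne : n ≠ lv j := fun e => hB ⟨hB', by rw [hn, e]⟩
    have hab := h.ab _ z hz hB'
    rw [hn] at hab
    have h1 : (-1/2 : ℝ) ≤ g.G (fa j) z - n - 1/2 := hab.1
    have h2 : g.G (fa j) z - n - 1/2 ≤ 1/2 := hab.2
    rcases lt_or_gt_of_ne hne with hlt | hlt
    · rw [cl_low' (m := n) (by linarith) hlt]; exact half_mem_Zs
    · rw [cl_high' (m := n) (by linarith) hlt]; exact half_mem_Zs'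
  · have h1 : g.G (fa j) z ∈ Zs := by
      by_contra hc
      exact hB' (h.nB _ z hz hc)
    obtain ⟨n, hn⟩ := mem_Zs.1 h1
    rcases lt_trichotomy n (lv j) with hlt | he | hlt
    · rw [cl_low' (m := n) (by rw [hn]; linarith) hlt]; exact half_mem_Zs
    · rw [hn, he, cl_of_le (by linarith)]; exact half_mem_Zs
    · rw [cl_high' (m := n) (by rw [hn]) hlt]; exact half_mem_Zs'

/-- **splitting in sheets** -/
theorem is_spl (h : g.Is Z)
    (hinj : ∀ j j', fa j = fa j' → lv j = lv j' → j = j') : (spl g fa lv).Is Z := by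
  have same : ∀ {a b : J}, a ≠ b → fa a = fa b → ∀ {z : E}, z ∈ Z → z ∈ (spl g fa lv).B a →
      z ∉ (spl g fa lv).B b := by
    intro a b hne he z hz ha hb
    apply hne
    refine hinj a b he ?_
    have h1 := ha.2
    have h2 := hb.2
    rw [he] at h1
    exact_mod_cast h1.symm.trans h2
  constructor
  · intro a
    exact (pl_add_const (pl_cl (pl_sub_const (pl_sub_const (h.pG (fa a)) _) _)) (1/2)).congr
      fun z _ => by rw [spl_G]; ring
  · intro a
    have h1 : IsClosed ((Z ∩ g.B (fa a)) ∩ (g.lev (fa a)) ⁻¹' {(lv a : ℝ)}) :=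
      (h.plev (fa a)).1.preimage_isClosed_of_isClosed (h.cB (fa a)) isClosed_singleton
    have h2 : Z ∩ (spl g fa lv).B a = (Z ∩ g.B (fa a)) ∩ (g.lev (fa a)) ⁻¹' {(lv a : ℝ)} := by
      ext z
      simp only [mem_inter_iff, spl_B, mem_preimage, mem_singleton_iff, and_assoc]
    rw [h2]; exact h1
  · intro a z hz hG
    by_contra hB
    exact hG (spl_off h hz hB)
  · intro a z _ _
    exact ⟨0, by simp [spl]⟩
  · intro a z hz hB
    have h1 : (spl g fa lv).G a z - (spl g fa lv).lev a z - 1/2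
        = cl (g.G (fa a) z - lv a - 1/2) := by rw [spl_G]; show _ - (0:ℝ) - _ = _; ring
    rw [h1]
    exact cl_mem _
  · intro a
    refine (h.pt (fa a)).mono ?_
    rintro ⟨z, s⟩ ⟨⟨hz, hB⟩, hs⟩
    exact ⟨⟨hz, hB.1⟩, hs⟩
  · intro a z hz hB s hs
    exact h.tZ _ z hz hB.1 s hs
  · intro a z hz hB s hs
    exact ⟨h.tB _ z hz hB.1 s hs, by
      show g.lev (fa a) (g.tr (fa a) (z, s)) = _
      rw [h.tl _ z hz hB.1 s hs]; exact hB.2⟩
  · intro a z _ _ s _
    rfl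
  · intro a z hz hB s hs
    show 1/2 + cl (g.G (fa a) (g.tr (fa a) (z, s)) - lv a - 1/2) = 0 + 1/2 + s
    rw [h.tG _ z hz hB.1 s hs, hB.2]
    rw [show (lv a : ℝ) + 1/2 + s - lv a - 1/2 = s by ring, cl_of_mem hs]
    ring
  · intro a z hz hB
    have h1 : (spl g fa lv).G a z - (spl g fa lv).lev a z - 1/2 = g.G (fa a) z - g.lev (fa a) z - 1/2 := by
      rw [spl_G, cl_of_mem (spl_on h hz hB), hB.2]
      show 1/2 + _ - (0:ℝ) - _ = _
      ring
    rw [h1]
    exact h.ts _ z hz hB.1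
  · intro a z hz hB s hs s' hs'
    exact h.tt _ z hz hB.1 s hs s' hs'
  · intro a b hne z hz hB s hs
    show 1/2 + cl (g.G (fa b) (g.tr (fa a) (z, s)) - lv b - 1/2) = 1/2 + cl (g.G (fa b) z - lv b - 1/2)
    by_cases he : fa a = fa b
    · have h1 : lv a ≠ lv b := fun e => hne (hinj _ _ he e)
      have h2 := spl_on h hz hB
      have h3 : g.G (fa b) (g.tr (fa a) (z, s)) = lv a + 1/2 + s := by
        rw [← he, h.tG _ z hz hB.1 s hs, hB.2]
      rw [h3]
      rw [he] at h2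
      have k1 : (-1/2 : ℝ) ≤ g.G (fa b) z - lv a - 1/2 := h2.1
      have k2 : g.G (fa b) z - lv a - 1/2 ≤ 1/2 := h2.2
      have k3 : (-1/2 : ℝ) ≤ s := hs.1
      have k4 : s ≤ 1/2 := hs.2
      rcases lt_or_gt_of_ne h1 with hlt | hlt
      · rw [cl_low' (m := lv a) (by linarith) hlt, cl_low' (m := lv a) (by linarith) hlt]
      · rw [cl_high' (m := lv a) (by linarith) hlt, cl_high' (m := lv a) (by linarith) hlt]
    · rw [h.oG _ _ he z hz hB.1 s hs]
  · intro a b hne z hz ha hb s hs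
    by_cases he : fa a = fa b
    · exact absurd hb (same hne he hz ha)
    · exact ⟨h.oB _ _ he z hz ha.1 hb.1 s hs, by
        show g.lev (fa b) (g.tr (fa a) (z, s)) = _
        rw [h.ol _ _ he z hz ha.1 hb.1 s hs]; exact hb.2⟩
  · intro a b _ z _ _ _ s _
    rfl
  · intro a b hne z hz ha hb s hs t ht
    by_cases he : fa a = fa b
    · exact absurd hb (same hne he hz ha)
    · exact h.oc _ _ he z hz ha.1 hb.1 s hs t ht

lemma spl_G01 (j : J) (z : E) : (spl g fa lv).G j z ∈ Icc (0:ℝ) 1 := by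
  have := cl_mem (g.G (fa j) z - lv j - 1/2)
  rw [spl_G]
  constructor <;> linarith [this.1, this.2]


end spl

/-! ### pull back -/

section pull

variable {F : Type*} [NormedAddCommGroup F] [NormedSpace ℝ F]

/-- pull back of a band structure -/
noncomputable def pulg (g : Gd F κ) (f : E → F) (fi : F → E) : Gd E κ where
  G a z := g.G a (f z)
  B a := f ⁻¹' (g.B a)
  lev a z := g.lev a (f z)
  tr a p := fi (g.tr a (f p.1, p.2))

theorem is_pulg {g : Gd F κ} {Z : Set E} {Z' : Set F} (h : g.Is Z') (hZ : IsClosed Z)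
    (e : PLEquiv Z Z') : (pulg g e.f e.g).Is Z := by
  have m1 : ∀ {a : κ} {z : E}, z ∈ (pulg g e.f e.g).B a → e.f z ∈ g.B a := fun h => h
  have ft : ∀ {a : κ} {z : E}, z ∈ Z → e.f z ∈ g.B a → ∀ {s : ℝ}, s ∈ I2 →
      e.f (e.g (g.tr a (e.f z, s))) = g.tr a (e.f z, s) := fun {a z} hz hB {s} hs =>
    e.ri _ (h.tZ a _ (e.mf hz) hB s hs)
  constructor
  · intro a
    exact (h.pG a).comp e.pf (fun z hz => e.mf hz)
  · intro a
    have h1 : IsClosed (Z ∩ e.f ⁻¹' (Z' ∩ g.B a)) :=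
      e.pf.1.preimage_isClosed_of_isClosed hZ (h.cB a)
    have h2 : Z ∩ (pulg g e.f e.g).B a = Z ∩ e.f ⁻¹' (Z' ∩ g.B a) := by
      ext z
      constructor
      · rintro ⟨h1, h2⟩; exact ⟨h1, e.mf h1, h2⟩
      · rintro ⟨h1, h2⟩; exact ⟨h1, h2.2⟩
    rw [h2]; exact h1
  · intro a z hz hG
    exact h.nB a _ (e.mf hz) hG
  · intro a z hz hB
    exact h.li a _ (e.mf hz) hB
  · intro a z hz hB
    exact h.ab a _ (e.mf hz) hB
  · intro a
    have h1 : PLOn (fun p : E × ℝ => g.tr a (e.f p.1, p.2)) ((Z ∩ (pulg g e.f e.g).B a) ×ˢ I2) := by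
      refine (h.pt a).comp (pl_pair ?_ (pl_snd (plOn_id _))) ?_
      · refine (e.pf).comp (pl_fst (plOn_id _)) ?_
        rintro ⟨z, s⟩ ⟨⟨hz, -⟩, -⟩
        exact hz
      · rintro ⟨z, s⟩ ⟨⟨hz, hB⟩, hs⟩
        exact ⟨⟨e.mf hz, hB⟩, hs⟩
    refine (e.pg).comp h1 ?_
    rintro ⟨z, s⟩ ⟨⟨hz, hB⟩, hs⟩
    exact h.tZ a _ (e.mf hz) hB s hs
  · intro a z hz hB s hs
    exact e.mg (h.tZ a _ (e.mf hz) hB s hs)
  · intro a z hz hB s hs
    show e.f (e.g (g.tr a (e.f z, s))) ∈ g.B a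
    rw [ft hz hB hs]
    exact h.tB a _ (e.mf hz) hB s hs
  · intro a z hz hB s hs
    show g.lev a (e.f (e.g (g.tr a (e.f z, s)))) = g.lev a (e.f z)
    rw [ft hz hB hs]
    exact h.tl a _ (e.mf hz) hB s hs
  · intro a z hz hB s hs
    show g.G a (e.f (e.g (g.tr a (e.f z, s)))) = g.lev a (e.f z) + 1/2 + s
    rw [ft hz hB hs]
    exact h.tG a _ (e.mf hz) hB s hs
  · intro a z hz hB
    show e.g (g.tr a (e.f z, g.G a (e.f z) - g.lev a (e.f z) - 1/2)) = z
    rw [h.ts a _ (e.mf hz) hB, e.li _ hz]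
  · intro a z hz hB s hs s' hs'
    show e.g (g.tr a (e.f (e.g (g.tr a (e.f z, s))), s')) = e.g (g.tr a (e.f z, s'))
    rw [ft hz hB hs, h.tt a _ (e.mf hz) hB s hs s' hs']
  · intro a b hne z hz hB s hs
    show g.G b (e.f (e.g (g.tr a (e.f z, s)))) = g.G b (e.f z)
    rw [ft hz hB hs]
    exact h.oG a b hne _ (e.mf hz) hB s hs
  · intro a b hne z hz ha hb s hs
    show e.f (e.g (g.tr a (e.f z, s))) ∈ g.B b
    rw [ft hz ha hs]
    exact h.oB a b hne _ (e.mf hz) ha hb s hs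
  · intro a b hne z hz ha hb s hs
    show g.lev b (e.f (e.g (g.tr a (e.f z, s)))) = g.lev b (e.f z)
    rw [ft hz ha hs]
    exact h.ol a b hne _ (e.mf hz) ha hb s hs
  · intro a b hne z hz ha hb s hs t ht
    show e.g (g.tr a (e.f (e.g (g.tr b (e.f z, t))), s)) = e.g (g.tr b (e.f (e.g (g.tr a (e.f z, s))), t))
    rw [ft hz hb ht, ft hz ha hs, h.oc a b hne _ (e.mf hz) ha hb s hs t ht]

end pull

end Crest.Agent.R096.Bin_181
end

-- ▼ part R096/Bin2_181
section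

/-!
# R096 (row 96), BASE-INV, part 2 (helper181): the exact structure `E_κ` of 537 on the grid complex of
714 as a band structure (colours = level directions), `Is` on every grid cell
-/

set_option autoImplicit false
set_option linter.unusedSectionVars false

open Set Metric

namespace Crest.Agent.R096.Bin_181

open Crest.Agent.R096.Ce_537 Crest.Agent.R096.Bd_416 Crest.Agent.R096.Xp_537
open Crest.Agent.R096.Brk1_582 Crest.Agent.R096.Brk2_582 Crest.Agent.R096.Brk6_582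
open Crest.Agent.R096.Grd_714

variable {E : Type*} [NormedAddCommGroup E] [NormedSpace ℝ E] {I : Type*}
variable {b : Set I → E} {P : I → Set E} {m : I → ℕ}

/-- the free directions of a cell -/
def fr : Cel P m → Set I
  | .top _ => ∅
  | .gr q => q.free

/-- the lower levels of a cell -/
def lo : Cel P m → I → ℕ
  | .top _ => fun _ => 0
  | .gr q => q.lo

lemma gr_of_le {p : Cel P m} {q : Gx P m} (h : p ≤ .gr q) : ∃ q', p = .gr q' ∧ q' ≤ q := by
  cases p with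
  | top c => exact absurd h Cel.top_le_gr
  | gr q' => exact ⟨q', rfl, Cel.gr_le_gr.1 h⟩

lemma free_mono {q q' : Gx P m} (h : q ≤ q') : q.free ⊆ q'.free := by
  intro a ha
  have h1 := h a
  have h2 : q.lo a < q.hi a := ha
  show q'.lo a < q'.hi a
  omega

lemma lo_eq_of_le {q q' : Gx P m} (h : q ≤ q') {a : I} (ha : a ∈ q.free) : q'.lo a = q.lo a := by
  have h1 := h a
  have h2 : q.lo a < q.hi a := ha
  have h3 := q'.le1 a
  omega

open Classical in
lemma mem_upd {q : Gx P m} {g : I → ℝ} (hg : g ∈ q.bx) {a : I} (ha : a ∈ q.free) {s : ℝ}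
    (hs : s ∈ I2) : Function.update g a (q.lo a + 1/2 + s) ∈ q.bx := by
  intro c
  by_cases h : c = a
  · subst h
    rw [Function.update_self]
    have h1 : (q.hi c : ℝ) = q.lo c + 1 := by exact_mod_cast Gx.hi_eq ha
    have h2 := hs.1
    have h3 := hs.2
    constructor <;> linarith
  · rw [Function.update_of_ne h]; exact hg c

open Classical in
/-- **the family level exact structure** -/
noncomputable def ek {La : Set E} (C : CC La (Cel P m)) (b : Set I → E) (κ : ℝ) (c : Cel P m) :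
    Gd E I where
  G a y := co P b m (st C κ y) a
  B a := {y | a ∈ fr (mn c (sl C κ y))}
  lev a y := lo (mn c (sl C κ y)) a
  tr a p := pk C κ (sl C κ p.1) (Tq b m (Function.update (co P b m (st C κ p.1)) a
    (lo (mn c (sl C κ p.1)) a + 1/2 + p.2)))

section foam

variable {La : Set E} [CompleteSpace E] (F : Foam La P b 4) (hQ : Quads P b)
  (hne : ∀ c, (P c).Nonempty) (hm : ∀ c, 0 < m c)
include F hQ hm

variable {κ : ℝ} (hκ : 0 < κ ∧ κ < 1) (c : Cel P m)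
include hκ

lemma ek_spec {q : Gx P m} {y : E} (hy : y ∈ (grid F hQ hne hm).cell (.gr q)) :
    ∃ q0 : Gx P m, mn c (sl (grid F hQ hne hm) κ y) = .gr q0 ∧ q0 ≤ q ∧
      Cel.gr q0 ∈ (sl (grid F hQ hne hm) κ y).support ∧
      st (grid F hQ hne hm) κ y ∈ Tq b m '' q0.bx ∧
      ∀ p ∈ (sl (grid F hQ hne hm) κ y).support, ∃ q', p = .gr q' ∧ q0 ≤ q' ∧ q' ≤ q := by
  obtain ⟨h1, h2, h3⟩ := st_spec (grid F hQ hne hm) hκ hy
  obtain ⟨k1, k2⟩ := mn_spec c h1.wt
  obtain ⟨q0, e0, h0⟩ := gr_of_le (h3 _ k1)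
  rw [e0] at k1 k2
  refine ⟨q0, e0, h0, k1, h1.mem _ k1, fun p hp => ?_⟩
  obtain ⟨q', rfl, hq'⟩ := gr_of_le (h3 p hp)
  exact ⟨q', rfl, Cel.gr_le_gr.1 (k2 _ hp), hq'⟩

open Classical in
lemma tr_spec {q : Gx P m} {y : E} (hy : y ∈ (grid F hQ hne hm).cell (.gr q)) {a : I}
    (hB : y ∈ (ek (grid F hQ hne hm) b κ c).B a) {s : ℝ} (hs : s ∈ I2) :
    (ek (grid F hQ hne hm) b κ c).tr a (y, s) ∈ (grid F hQ hne hm).cell (.gr q) ∧
    sl (grid F hQ hne hm) κ ((ek (grid F hQ hne hm) b κ c).tr a (y, s))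
      = sl (grid F hQ hne hm) κ y ∧
    co P b m (st (grid F hQ hne hm) κ ((ek (grid F hQ hne hm) b κ c).tr a (y, s)))
      = Function.update (co P b m (st (grid F hQ hne hm) κ y)) a
        (lo (mn c (sl (grid F hQ hne hm) κ y)) a + 1/2 + s) ∧
    st (grid F hQ hne hm) κ ((ek (grid F hQ hne hm) b κ c).tr a (y, s))
      = Tq b m (Function.update (co P b m (st (grid F hQ hne hm) κ y)) a
        (lo (mn c (sl (grid F hQ hne hm) κ y)) a + 1/2 + s)) := by
  obtain ⟨h1, h2, h3⟩ := st_spec (grid F hQ hne hm) hκ hy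
  obtain ⟨q0, e0, h0, hs0, ht, hp⟩ := ek_spec F hQ hne hm hκ c hy
  have hB' : a ∈ fr (mn c (sl (grid F hQ hne hm) κ y)) := hB
  rw [e0] at hB'
  have hB0 : a ∈ q0.free := hB'
  have hu0 := mem_upd (co_mem F hQ hm ht) hB0 hs
  have e1 : (lo (mn c (sl (grid F hQ hne hm) κ y)) a : ℝ) = q0.lo a := by rw [e0]; rfl
  rw [← e1] at hu0
  set u := Function.update (co P b m (st (grid F hQ hne hm) κ y)) a
        (lo (mn c (sl (grid F hQ hne hm) κ y)) a + 1/2 + s) with hu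
  have hst : State (grid F hQ hne hm) (sl (grid F hQ hne hm) κ y) (Tq b m u) := by
    refine ⟨h1.nn, h1.sum, h1.chain, fun p hp' => ?_⟩
    obtain ⟨q', rfl, hq', -⟩ := hp p hp'
    exact ⟨u, bx_mono hq' hu0, rfl⟩
  have etr : (ek (grid F hQ hne hm) b κ c).tr a (y, s)
      = pk (grid F hQ hne hm) κ (sl (grid F hQ hne hm) κ y) (Tq b m u) := rfl
  rw [etr]
  refine ⟨pk_mem _ hκ hst h3, sl_pk _ hκ hst, ?_, st_pk _ hκ hst⟩
  rw [st_pk _ hκ hst, co_Tq F hQ hm (q0.bx_sub hm hu0)]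

lemma ek_B_iff {q : Gx P m} {y : E} (hy : y ∈ (grid F hQ hne hm).cell (.gr q)) {a : I} :
    y ∈ (ek (grid F hQ hne hm) b κ c).B a ↔
      ∀ p ∈ (grid F hQ hne hm).dn (.gr q), a ∉ fr p → sl (grid F hQ hne hm) κ y p = 0 := by
  obtain ⟨q0, e0, h0, hs0, ht, hp⟩ := ek_spec F hQ hne hm hκ c hy
  have e1 : y ∈ (ek (grid F hQ hne hm) b κ c).B a ↔ a ∈ q0.free := by
    show a ∈ fr (mn c (sl (grid F hQ hne hm) κ y)) ↔ _
    rw [e0]; rfl
  rw [e1]
  constructor
  · intro ha p _ hpa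
    by_contra hne'
    obtain ⟨q', rfl, hq', -⟩ := hp p (Finsupp.mem_support_iff.2 hne')
    exact hpa (free_mono hq' ha)
  · intro h
    by_contra ha
    exact Finsupp.mem_support_iff.1 hs0
      (h (.gr q0) ((grid F hQ hne hm).mem_dn.2 (Cel.gr_le_gr.2 h0)) ha)

/-- the band levels are the level of the cell -/
lemma ek_lev {q : Gx P m} {y : E} (hy : y ∈ (grid F hQ hne hm).cell (.gr q)) {a : I}
    (hB : y ∈ (ek (grid F hQ hne hm) b κ c).B a) :
    a ∈ q.free ∧ lo (mn c (sl (grid F hQ hne hm) κ y)) a = q.lo a := by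
  obtain ⟨q0, e0, h0, hs0, ht, hp⟩ := ek_spec F hQ hne hm hκ c hy
  have hB' : a ∈ fr (mn c (sl (grid F hQ hne hm) κ y)) := hB
  rw [e0] at hB' ⊢
  exact ⟨free_mono h0 hB', (lo_eq_of_le h0 hB').symm⟩

open Classical in
/-- **`E_κ` is a band structure on every grid cell** -/
theorem ek_is [FiniteDimensional ℝ E] (q : Gx P m) :
    (ek (grid F hQ hne hm) b κ c).Is ((grid F hQ hne hm).cell (.gr q)) := by
  set C := grid F hQ hne hm with hC
  have hstm : ∀ y ∈ C.cell (.gr q), st C κ y ∈ Tq b m '' q.bx := fun y hy => st_mem C hκ hy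
  have hG : ∀ a, PLOn ((ek C b κ c).G a) (C.cell (.gr q)) := fun a =>
    (plOn_co F hQ hm q a).comp (plOn_st C hκ (.gr q)) hstm
  have hcB : ∀ a, IsClosed (C.cell (.gr q) ∩ (ek C b κ c).B a) := by
    intro a
    have h1 : C.cell (.gr q) ∩ (ek C b κ c).B a = C.cell (.gr q) ∩
        ⋂ p ∈ {p | p ∈ C.dn (.gr q) ∧ a ∉ fr p},
          (C.cell (.gr q) ∩ (fun y => sl C κ y p) ⁻¹' {0}) := by
      ext y
      simp only [mem_inter_iff, mem_iInter, mem_ofPred_eq, mem_preimage, mem_singleton_iff]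
      constructor
      · rintro ⟨hy, hB⟩
        exact ⟨hy, fun p hp => ⟨hy, (ek_B_iff F hQ hne hm hκ c hy).1 hB p hp.1 hp.2⟩⟩
      · rintro ⟨hy, h⟩
        exact ⟨hy, (ek_B_iff F hQ hne hm hκ c hy).2 fun p hp hpa => (h p ⟨hp, hpa⟩).2⟩
    rw [h1]
    refine (C.cpt _).isClosed.inter (isClosed_biInter fun p _ => ?_)
    exact (plOn_sl C hκ (.gr q) p).1.preimage_isClosed_of_isClosed (C.cpt _).isClosed
      isClosed_singleton
  refine ⟨hG, hcB, fun a y hy hn => ?_, fun a y hy hB => ⟨(lo (mn c (sl C κ y)) a : ℤ), by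
    rfl⟩,
    fun a y hy hB => ?_, fun a => ?_, fun a y hy hB s hs => ?_, fun a y hy hB s hs => ?_,
    fun a y hy hB s hs => ?_, fun a y hy hB s hs => ?_, fun a y hy hB => ?_,
    fun a y hy hB s hs s' hs' => ?_, fun a a' hne' y hy hB s hs => ?_,
    fun a a' hne' y hy hB hB' s hs => ?_, fun a a' hne' y hy hB hB' s hs => ?_,
    fun a a' hne' y hy hB hB' s hs t ht => ?_⟩
  · -- nB
    obtain ⟨q0, e0, h0, hs0, ht, hp⟩ := ek_spec F hQ hne hm hκ c hy
    show a ∈ fr (mn c (sl C κ y))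
    rw [e0]
    by_contra ha
    apply hn
    have h1 := Gx.eq_of_mem ha (co_mem F hQ hm ht)
    show co P b m (st C κ y) a ∈ Zs
    rw [h1]
    exact ⟨(q0.hi a : ℤ), by rfl⟩
  · -- ab
    obtain ⟨q0, e0, h0, hs0, ht, hp⟩ := ek_spec F hQ hne hm hκ c hy
    have hB' : a ∈ fr (mn c (sl C κ y)) := hB
    have e1 : ((ek C b κ c).lev a y) = q0.lo a := by
      show ((lo (mn c (sl C κ y)) a : ℕ) : ℝ) = _
      rw [e0]; rfl
    rw [e0] at hB'
    have h1 := co_mem F hQ hm ht a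
    have h2 : (q0.hi a : ℝ) = q0.lo a + 1 := by exact_mod_cast Gx.hi_eq hB'
    rw [e1]
    show co P b m (st C κ y) a - q0.lo a - 1/2 ∈ I2
    constructor <;> linarith [h1.1, h1.2]
  · -- pt
    by_cases ha : a ∈ q.free
    swap
    · have : C.cell (.gr q) ∩ (ek C b κ c).B a = ∅ := by
        rw [Set.eq_empty_iff_forall_notMem]
        rintro y ⟨hy, hB⟩
        exact ha (ek_lev F hQ hne hm hκ c hy hB).1
      rw [this, empty_prod]
      exact plOn_empty _
    have plbs : PLOn (fun y => bs C.b (sl C κ y)) (C.cell (.gr q)) := by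
      have h1 : PLOn (fun y => ∑ ρ ∈ C.dn (.gr q), sl C κ y ρ • C.b ρ) (C.cell (.gr q)) :=
        pl_sum _ (fun ρ _ => pl_clm (plOn_sl C hκ (.gr q) ρ)
          ((ContinuousLinearMap.id ℝ ℝ).smulRight (C.b ρ)))
      refine h1.congr (fun y hy => ?_)
      exact bs_eq_of (fun ρ hρ => C.mem_dn.2 ((st_spec C hκ hy).2.2 ρ hρ))
    have m1 : MapsTo Prod.fst ((C.cell (.gr q) ∩ (ek C b κ c).B a) ×ˢ I2) (C.cell (.gr q)) :=
      fun p hp => hp.1.1
    have plb : PLOn (fun p : E × ℝ => bs C.b (sl C κ p.1))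
        ((C.cell (.gr q) ∩ (ek C b κ c).B a) ×ˢ I2) :=
      plbs.comp (pl_fst (plOn_id _)) m1
    have plT : PLOn (fun p : E × ℝ => Tq b m (Function.update (co P b m (st C κ p.1)) a
        (q.lo a + 1/2 + p.2))) ((C.cell (.gr q) ∩ (ek C b κ c).B a) ×ˢ I2) := by
      refine plOn_Tq F hQ hm q ?_ ?_
      · rintro ⟨y, s⟩ ⟨⟨hy, hB⟩, hs⟩
        exact mem_upd (co_mem F hQ hm (hstm y hy)) ha hs
      · intro d hd
        by_cases hda : d = a
        · subst hda
          refine (pl_add_const (pl_snd (plOn_id _)) ((q.lo d : ℝ) + 1/2)).congr fun p _ => ?_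
          simp only [Function.update_self]
          ring
        · refine ((hG d).comp (pl_fst (plOn_id _)) m1).congr fun p _ => ?_
          simp only [Function.update_of_ne hda]
          rfl
    refine (pl_add (pl_smul (1 - κ) plT) (pl_smul κ plb)).congr ?_
    rintro ⟨y, s⟩ ⟨⟨hy, hB⟩, hs⟩
    show pk C κ (sl C κ y) (Tq b m (Function.update (co P b m (st C κ y)) a
      (lo (mn c (sl C κ y)) a + 1/2 + s))) = _
    rw [(ek_lev F hQ hne hm hκ c hy hB).2]
    rfl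
  · exact (tr_spec F hQ hne hm hκ c hy hB hs).1
  · show a ∈ fr (mn c (sl C κ ((ek C b κ c).tr a (y, s))))
    rw [(tr_spec F hQ hne hm hκ c hy hB hs).2.1]; exact hB
  · show ((lo (mn c (sl C κ ((ek C b κ c).tr a (y, s)))) a : ℕ) : ℝ) = _
    rw [(tr_spec F hQ hne hm hκ c hy hB hs).2.1]; rfl
  · show co P b m (st C κ ((ek C b κ c).tr a (y, s))) a = _
    rw [(tr_spec F hQ hne hm hκ c hy hB hs).2.2.1, Function.update_self]; rfl
  · -- ts
    obtain ⟨h1, h2, h3⟩ := st_spec C hκ hy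
    show pk C κ (sl C κ y) (Tq b m (Function.update (co P b m (st C κ y)) a
      (lo (mn c (sl C κ y)) a + 1/2 + (co P b m (st C κ y) a - lo (mn c (sl C κ y)) a - 1/2)))) = y
    rw [show ((lo (mn c (sl C κ y)) a : ℝ) + 1/2 + (co P b m (st C κ y) a -
      lo (mn c (sl C κ y)) a - 1/2)) = co P b m (st C κ y) a by ring, Function.update_eq_self,
      Tq_co_of_mem F hQ hm (hstm y hy), h2]
  · -- tt
    have h1 := tr_spec F hQ hne hm hκ c hy hB hs
    show pk C κ (sl C κ ((ek C b κ c).tr a (y, s))) (Tq b m (Function.update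
      (co P b m (st C κ ((ek C b κ c).tr a (y, s)))) a
      (lo (mn c (sl C κ ((ek C b κ c).tr a (y, s)))) a + 1/2 + s'))) = _
    rw [h1.2.1, h1.2.2.1, Function.update_idem]
    rfl
  · show co P b m (st C κ ((ek C b κ c).tr a (y, s))) a' = _
    rw [(tr_spec F hQ hne hm hκ c hy hB hs).2.2.1, Function.update_of_ne (Ne.symm hne')]; rfl
  · show a' ∈ fr (mn c (sl C κ ((ek C b κ c).tr a (y, s))))
    rw [(tr_spec F hQ hne hm hκ c hy hB hs).2.1]; exact hB'
  · show ((lo (mn c (sl C κ ((ek C b κ c).tr a (y, s)))) a' : ℕ) : ℝ) = _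
    rw [(tr_spec F hQ hne hm hκ c hy hB hs).2.1]; rfl
  · have h1 := tr_spec F hQ hne hm hκ c hy hB hs
    have h2 := tr_spec F hQ hne hm hκ c hy hB' ht
    show pk C κ (sl C κ ((ek C b κ c).tr a' (y, t))) (Tq b m (Function.update
      (co P b m (st C κ ((ek C b κ c).tr a' (y, t)))) a
      (lo (mn c (sl C κ ((ek C b κ c).tr a' (y, t)))) a + 1/2 + s))) =
      pk C κ (sl C κ ((ek C b κ c).tr a (y, s))) (Tq b m (Function.update
      (co P b m (st C κ ((ek C b κ c).tr a (y, s)))) a'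
      (lo (mn c (sl C κ ((ek C b κ c).tr a (y, s)))) a' + 1/2 + t)))
    rw [h1.2.1, h1.2.2.1, h2.2.1, h2.2.2.1, Function.update_comm hne']

end foam

end Crest.Agent.R096.Bin_181
private theorem rz_bc063944ef : type_of% @_root_.Crest.Agent.R096.Bin_181.lo.eq_1 := @_root_.Crest.Agent.R096.Bin_181.lo.eq_1 -- L30
end

-- ▼ part R096/Bin3_181

/-!
# R096 (row 96), BASE-INV, part 3 (helper181): `Bd_416.Inv` for the exact structure `E_κ`

`bxS P b m L H` = points of the 2-skeleton with level coordinates in the box `[L, H]` (an M-cell);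
`ek_is_bxS`: `E_κ` is a band structure on it.  `ekS` = the sheets `(a,k)` of `E_κ` pulled back by a
PL equivalence.  `inv_base`: `Inv`.
-/

set_option autoImplicit false
set_option linter.unusedSectionVars false

open Set Metric

namespace Crest.Agent.R096.Bin_181

open Crest.Agent.R096.Ce_537 Crest.Agent.R096.Bd_416 Crest.Agent.R096.Xp_537
open Crest.Agent.R096.Brk1_582 Crest.Agent.R096.Brk2_582 Crest.Agent.R096.Brk6_582
open Crest.Agent.R096.Grd_714

variable {E : Type*} [NormedAddCommGroup E] [NormedSpace ℝ E] {I : Type*}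
variable {b : Set I → E} {P : I → Set E} {m : I → ℕ}

/-- the points of the 2-skeleton with level coordinates in the box `[L, H]` -/
def bxS (P : I → Set E) (b : Set I → E) (m : I → ℕ) (L H : I → ℕ) : Set E :=
  Tq b m '' {g | g ∈ G2 P m ∧ ∀ c, (L c : ℝ) ≤ g c ∧ g c ≤ H c}

/-- the grid cells in the box -/
def cells (P : I → Set E) (m : I → ℕ) (L H : I → ℕ) : Set (Gx P m) :=
  {q | ∀ c, L c ≤ q.lo c ∧ q.hi c ≤ H c}

section foam

variable {La : Set E} [CompleteSpace E] (F : Foam La P b 4) (hQ : Quads P b)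
  (hne : ∀ c, (P c).Nonempty) (hm : ∀ c, 0 < m c)

omit [CompleteSpace E] in
include hm in
lemma bxS_eq (L H : I → ℕ) : bxS P b m L H = ⋃ q ∈ cells P m L H, Tq b m '' q.bx := by
  apply Subset.antisymm
  · rintro _ ⟨g, ⟨hg, hb⟩, rfl⟩
    refine mem_iUnion₂.2 ⟨flb hm g hg, fun c => ⟨?_, ?_⟩, g, mem_flb hm hg, rfl⟩
    · exact Nat.le_floor (hb c).1
    · exact Nat.ceil_le.2 (hb c).2
  · rintro y hy
    obtain ⟨q, hq, g, hg, rfl⟩ := mem_iUnion₂.1 hy
    refine ⟨g, ⟨q.bx_sub hm hg, fun c => ?_⟩, rfl⟩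
    exact ⟨le_trans (by exact_mod_cast (hq c).1) (hg c).1,
      le_trans (hg c).2 (by exact_mod_cast (hq c).2)⟩

include F hm in
lemma cells_finite {L H : I → ℕ} {c0 : I} (h0 : H c0 = 0) : (cells P m L H).Finite := by
  refine (finite_Gx_of_mem F hm (finite_singleton c0)).subset fun q hq => ⟨c0, rfl, ?_⟩
  have := (hq c0).2
  omega

include hQ in
lemma mem_bxS {L H : I → ℕ} {y : E} (hy : y ∈ bxS P b m L H) :
    ∃ q ∈ cells P m L H, y ∈ (grid F hQ hne hm).cell (.gr q) := by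
  rw [bxS_eq hm] at hy
  obtain ⟨q, hq, h⟩ := mem_iUnion₂.1 hy
  exact ⟨q, hq, h⟩

variable {κ : ℝ} (hκ : 0 < κ ∧ κ < 1) (c : Cel P m)

include hκ in
/-- **`E_κ` on an M-cell** -/
theorem ek_is_bxS [FiniteDimensional ℝ E] {L H : I → ℕ} {c0 : I} (h0 : H c0 = 0) :
    (ek (grid F hQ hne hm) b κ c).Is (bxS P b m L H) := by
  rw [bxS_eq hm]
  exact Gd.Is.biUnion (cells_finite F hm h0) (fun q _ => ek_is F hQ hne hm hκ c q)
    (fun q _ => ((grid F hQ hne hm).cpt (.gr q)).isClosed)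

include hκ in
lemma ek_G_mem {L H : I → ℕ} {y : E} (hy : y ∈ bxS P b m L H) (a : I) :
    (L a : ℝ) ≤ (ek (grid F hQ hne hm) b κ c).G a y ∧
      (ek (grid F hQ hne hm) b κ c).G a y ≤ H a := by
  obtain ⟨q, hq, hy⟩ := mem_bxS F hQ hne hm hy
  have h1 : st (grid F hQ hne hm) κ y ∈ Tq b m '' q.bx := st_mem (grid F hQ hne hm) hκ hy
  have h2 := co_mem F hQ hm h1 a
  exact ⟨le_trans (by exact_mod_cast (hq a).1) h2.1, le_trans h2.2 (by exact_mod_cast (hq a).2)⟩

include hκ in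
lemma ek_lev_mem {L H : I → ℕ} {y : E} (hy : y ∈ bxS P b m L H) {a : I}
    (hB : y ∈ (ek (grid F hQ hne hm) b κ c).B a) {k : ℕ}
    (hk : (ek (grid F hQ hne hm) b κ c).lev a y = k) : L a ≤ k ∧ k < H a := by
  obtain ⟨q, hq, hy⟩ := mem_bxS F hQ hne hm hy
  obtain ⟨h1, h2⟩ := ek_lev F hQ hne hm hκ c hy hB
  have h3 : ((lo (mn c (sl (grid F hQ hne hm) κ y)) a : ℕ) : ℝ) = k := hk
  rw [h2] at h3
  have h4 : q.lo a = k := by exact_mod_cast h3
  have h5 := hq a
  have h6 : q.lo a < q.hi a := h1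
  omega

end foam

/-! ### sheets -/

section sheets

variable {V : Type*} [NormedAddCommGroup V] [NormedSpace ℝ V] {J : Type*}

/-- the restriction of a PL equivalence -/
def restr {S : Set V} {T : Set E} (e : PLEquiv S T) {A : Set V} {B : Set E} (hA : A ⊆ S)
    (hB : e.f '' A = B) : PLEquiv A B where
  f := e.f
  g := e.g
  pf := e.pf.mono hA
  pg := e.pg.mono (by
    rintro _ h
    rw [← hB] at h
    obtain ⟨x, hx, rfl⟩ := h
    exact e.mf (hA hx))
  mf := fun x hx => by rw [← hB]; exact ⟨x, hx, rfl⟩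
  mg := fun y hy => by
    rw [← hB] at hy
    obtain ⟨x, hx, rfl⟩ := hy
    rw [e.li x (hA hx)]; exact hx
  li := fun x hx => e.li x (hA hx)
  ri := fun y hy => by
    rw [← hB] at hy
    obtain ⟨x, hx, rfl⟩ := hy
    exact e.ri _ (e.mf (hA hx))

/-- **the sheets `(fa j, lv j)` of `E_κ`, pulled back by `e`** -/
noncomputable def ekS {La : Set E} (C : CC La (Cel P m)) (b : Set I → E) (κ : ℝ) (c : Cel P m)
    (fa : J → I) (lv : J → ℕ) {S : Set V} {T : Set E} (e : PLEquiv S T) : Gd V J :=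
  pulg (spl (ek C b κ c) fa fun j => (lv j : ℤ)) e.f e.g

variable {La : Set E} [CompleteSpace E] (F : Foam La P b 4) (hQ : Quads P b)
  (hne : ∀ c, (P c).Nonempty) (hm : ∀ c, 0 < m c)
variable {κ : ℝ} (hκ : 0 < κ ∧ κ < 1) (c : Cel P m) {fa : J → I} {lv : J → ℕ} {S : Set V}
  {T : Set E} (e : PLEquiv S T)

include hκ in
/-- **`Is` for the sheets on an M-cell** -/
theorem ekS_is [FiniteDimensional ℝ E] (hinj : ∀ j j', fa j = fa j' → lv j = lv j' → j = j')
    {A : Set V} (hA : A ⊆ S) (hAc : IsClosed A) {L H : I → ℕ} (hB : e.f '' A = bxS P b m L H)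
    {c0 : I} (h0 : H c0 = 0) : (ekS (grid F hQ hne hm) b κ c fa lv e).Is A := by
  have h1 := is_spl (ek_is_bxS F hQ hne hm hκ c (L := L) h0) (fa := fa)
    (lv := fun j => (lv j : ℤ)) (fun j j' h h' => hinj j j' h (by exact_mod_cast h'))
  exact is_pulg h1 hAc (restr e hA hB)

lemma ekS_G01 (j : J) (z : V) : (ekS (grid F hQ hne hm) b κ c fa lv e).G j z ∈ Icc (0:ℝ) 1 :=
  spl_G01 (g := ek (grid F hQ hne hm) b κ c) (fa := fa) (lv := fun j => (lv j : ℤ)) j (e.f z)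

lemma ekS_G (j : J) (z : V) : (ekS (grid F hQ hne hm) b κ c fa lv e).G j z =
    1/2 + cl ((ek (grid F hQ hne hm) b κ c).G (fa j) (e.f z) - lv j - 1/2) := by
  show 1/2 + cl (_ - ((lv j : ℤ) : ℝ) - 1/2) = _
  push_cast; rfl

lemma ekS_B (j : J) (z : V) : z ∈ (ekS (grid F hQ hne hm) b κ c fa lv e).B j ↔
    e.f z ∈ (ek (grid F hQ hne hm) b κ c).B (fa j) ∧
      (ek (grid F hQ hne hm) b κ c).lev (fa j) (e.f z) = lv j := by
  show _ ∧ _ = ((lv j : ℤ) : ℝ) ↔ _
  push_cast; rfl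

include hκ in
lemma ekS_low {A : Set V} {L H : I → ℕ} (hB : e.f '' A = bxS P b m L H) {j : J}
    (h : lv j < L (fa j)) {z : V} (hz : z ∈ A) :
    (ekS (grid F hQ hne hm) b κ c fa lv e).G j z = 1 := by
  have h1 : e.f z ∈ bxS P b m L H := by rw [← hB]; exact ⟨z, hz, rfl⟩
  have h2 := (ek_G_mem F hQ hne hm hκ c h1 (fa j)).1
  have h3 : (lv j : ℝ) + 1 ≤ L (fa j) := by exact_mod_cast h
  rw [ekS_G, cl_of_ge (by linarith)]; norm_num

include hκ in
lemma ekS_high {A : Set V} {L H : I → ℕ} (hB : e.f '' A = bxS P b m L H) {j : J}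
    (h : H (fa j) ≤ lv j) {z : V} (hz : z ∈ A) :
    (ekS (grid F hQ hne hm) b κ c fa lv e).G j z = 0 := by
  have h1 : e.f z ∈ bxS P b m L H := by rw [← hB]; exact ⟨z, hz, rfl⟩
  have h2 := (ek_G_mem F hQ hne hm hκ c h1 (fa j)).2
  have h3 : (H (fa j) : ℝ) ≤ lv j := by exact_mod_cast h
  rw [ekS_G, cl_of_le (by linarith)]; norm_num

include hκ in
lemma ekS_mem {A : Set V} {L H : I → ℕ} (hB : e.f '' A = bxS P b m L H) {j : J} {z : V}
    (hz : z ∈ A) (hj : z ∈ (ekS (grid F hQ hne hm) b κ c fa lv e).B j) :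
    L (fa j) ≤ lv j ∧ lv j < H (fa j) := by
  have h1 : e.f z ∈ bxS P b m L H := by rw [← hB]; exact ⟨z, hz, rfl⟩
  rw [ekS_B] at hj
  exact ek_lev_mem F hQ hne hm hκ c h1 hj.1 hj.2

include hκ in
/-- the other sheets of the same direction on a band -/
lemma ekS_other {A : Set V} {L H : I → ℕ} (hB : e.f '' A = bxS P b m L H) {j j' : J}
    (hf : fa j = fa j') (hl : lv j ≠ lv j') {z : V} (hz : z ∈ A)
    (hj : z ∈ (ekS (grid F hQ hne hm) b κ c fa lv e).B j) :
    (ekS (grid F hQ hne hm) b κ c fa lv e).G j' z = if lv j' < lv j then 1 else 0 := by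
  have h1 : e.f z ∈ bxS P b m L H := by rw [← hB]; exact ⟨z, hz, rfl⟩
  rw [ekS_B] at hj
  obtain ⟨q, hq, hy⟩ := mem_bxS F hQ hne hm h1
  obtain ⟨q0, e0, h0, hs0, ht, hp⟩ := ek_spec F hQ hne hm hκ c hy
  have h2 : fa j ∈ q0.free := by
    have : fa j ∈ fr (mn c (sl (grid F hQ hne hm) κ (e.f z))) := hj.1
    rw [e0] at this; exact this
  have h3 : q0.lo (fa j) = lv j := by
    have : ((lo (mn c (sl (grid F hQ hne hm) κ (e.f z))) (fa j) : ℕ) : ℝ) = lv j := hj.2
    rw [e0] at this; exact_mod_cast this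
  have h4 := co_mem F hQ hm ht (fa j)
  have h5 : (q0.hi (fa j) : ℝ) = q0.lo (fa j) + 1 := by exact_mod_cast Gx.hi_eq h2
  rw [h5, h3] at h4
  rw [ekS_G, ← hf]
  show 1/2 + cl (co P b m (st (grid F hQ hne hm) κ (e.f z)) (fa j) - lv j' - 1/2) = _
  rcases lt_or_gt_of_ne hl with h | h
  · have h6 : (lv j : ℝ) + 1 ≤ lv j' := by exact_mod_cast h
    rw [if_neg (by omega), cl_of_le (by linarith [h4.2])]; norm_num
  · have h6 : (lv j' : ℝ) + 1 ≤ lv j := by exact_mod_cast h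
    rw [if_pos h, cl_of_ge (by linarith [h4.1])]; norm_num

end sheets

/-! ### `Inv` -/

section inv

variable {V : Type*} [NormedAddCommGroup V] [NormedSpace ℝ V] {Q : Type} [PartialOrder Q]
  {dim : Q → ℕ} {J Fam : Type} {Cm : Cmb Q dim J Fam} {K : Q → Set V} {D : Set Q}
variable {La : Set E} [CompleteSpace E] [FiniteDimensional ℝ E] (F : Foam La P b 4)
  (hQ : Quads P b) (hne : ∀ c, (P c).Nonempty) (hm : ∀ c, 0 < m c)
variable {κ : ℝ} (hκ : 0 < κ ∧ κ < 1) (c : Cel P m) (fa : J → I) (lv : J → ℕ) {S : Set V}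
  {T : Set E} (e : PLEquiv S T)

include hκ in
/-- **BASE-INV** -/
theorem inv_base (hinj : ∀ j j', fa j = fa j' → lv j = lv j' → j = j')
    (hD : ∀ q ∈ D, ∀ p < q, p ∈ D) (sub : ∀ {p q : Q}, p < q → q ∈ D → K p ⊆ K q)
    (hKc : ∀ q ∈ D, IsClosed (K q)) (hKS : ∀ q ∈ D, K q ⊆ S) (L H : Q → I → ℕ)
    (hKe : ∀ q ∈ D, e.f '' K q = bxS P b m (L q) (H q)) (h0 : ∀ q ∈ D, ∃ c0, H q c0 = 0)
    (one : ∀ q ∈ D, ∀ x x' : Cm.I q, Cm.col q x = Cm.col q x' → x = x')
    (ex : ∀ q ∈ D, ∀ j, L q (fa j) ≤ lv j → lv j < H q (fa j) → ∃ x, Cm.col q x = j)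
    (hfam : ∀ j j', Cm.fam j = Cm.fam j' → fa j = fa j')
    (lab1 : ∀ q ∈ D, ∀ j, (∀ x, Cm.col q x ≠ j) → lv j < L q (fa j) → Cm.Lab j q = 1)
    (lab0' : ∀ q ∈ D, ∀ j, (∀ x, Cm.col q x ≠ j) → H q (fa j) ≤ lv j → Cm.Lab j q = 0)
    (sd : ∀ q ∈ D, ∀ x x', x ≠ x' → Cm.fam (Cm.col q x) = Cm.fam (Cm.col q x') →
      Cm.side q x x' = Cm.Lab (Cm.col q x') q +
        if lv (Cm.col q x') < lv (Cm.col q x) then 1 else 0) :
    Inv Cm K D (ekS (grid F hQ hne hm) b κ c fa lv e)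
      (fun q x => K q ∩ (ekS (grid F hQ hne hm) b κ c fa lv e).B (Cm.col q x))
      (fun q x z => sg (Cm.Lab (Cm.col q x) q) *
        ((ekS (grid F hQ hne hm) b κ c fa lv e).G (Cm.col q x) z - 1/2)) := by
  refine Inv.of_simple hD (fun q hq => ?_) sub (fun q hq j z hz => ekS_G01 F hQ hne hm c e j z)
    one (fun q hq j hj z hz => ⟨?_, fun hB => ?_⟩) (fun q hq j j' hne' hf z hz hB hB' => ?_)
    (fun q hq x x' hne' hf z hz hB => ?_)
  · obtain ⟨c0, h0⟩ := h0 q hq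
    exact ekS_is F hQ hne hm hκ c e hinj (hKS q hq) (hKc q hq) (hKe q hq) h0
  · rcases lt_or_ge (lv j) (L q (fa j)) with h | h
    · rw [ekS_low F hQ hne hm hκ c e (hKe q hq) h hz, lab1 q hq j hj h, lab0_eq]; simp; norm_num
    · rcases lt_or_ge (lv j) (H q (fa j)) with h' | h'
      · obtain ⟨x, hx⟩ := ex q hq j h h'
        exact absurd hx (hj x)
      · rw [ekS_high F hQ hne hm hκ c e (hKe q hq) h' hz, lab0' q hq j hj h', lab0_eq]; simp
  · obtain ⟨h1, h2⟩ := ekS_mem F hQ hne hm hκ c e (hKe q hq) hz hB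
    obtain ⟨x, hx⟩ := ex q hq j h1 h2
    exact hj x hx
  · rw [ekS_B] at hB hB'
    have hfa := hfam j j' hf
    apply hne'
    refine hinj j j' hfa ?_
    have h1 := hB.2
    rw [hfa, hB'.2] at h1
    exact_mod_cast h1.symm
  · have hcol : Cm.col q x ≠ Cm.col q x' := fun h => hne' (one q hq x x' h)
    have hfa := hfam _ _ hf
    rw [ekS_other F hQ hne hm hκ c e (hKe q hq) hfa (fun h => hcol (hinj _ _ hfa h)) hz hB,
      sd q hq x x' hne' hf, sg_add, ← mul_assoc, sg_sq, one_mul]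
    split_ifs <;> (simp; try norm_num)

end inv

end Crest.Agent.R096.Bin_181
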