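import Crest.Agent.R096.Bd15_416
import Crest.Agent.R096.Pc2_117

-- ▼ part R096/Bd16_416
section

/-!
# R096 (row 96), P4-MESH, part 9: merging the sheets of a family (helper416)

`g : Gd E J` (colours = sheets), `φ : J → κ` (families); `g.merge φ hf`: colours = families,
`G a = Σ_{φ j = a} G j`.
-/

set_option autoImplicit false

open Set Metric

namespace Crest.Agent.R096.Bd_416

open Crest.Agent.R096.Ce_537

open scoped Classical

set_option linter.unusedSectionVars false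

variable {E : Type*} [NormedAddCommGroup E] [NormedSpace ℝ E] {J κ : Type*}

/-- **merging the sheets of every family** -/
noncomputable def Gd.merge (g : Gd E J) (φ : J → κ) (hf : ∀ a, {j | φ j = a}.Finite) :
    Gd E κ where
  G a z := ∑ j ∈ (hf a).toFinset, g.G j z
  B a := {z | ∃ j, φ j = a ∧ z ∈ g.B j}
  lev a z := if h : ∃ j, φ j = a ∧ z ∈ g.B j then
      (∑ j ∈ (hf a).toFinset, g.G j z) - g.G h.choose z + g.lev h.choose z
    else 0
  tr a p := if h : ∃ j, φ j = a ∧ p.1 ∈ g.B j then g.tr h.choose p else p.1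

section merge

variable {g : Gd E J} {φ : J → κ} {hf : ∀ a, {j | φ j = a}.Finite} {Z : Set E}

omit [NormedAddCommGroup E] [NormedSpace ℝ E] in
lemma merge_choose {z : E}
    (dj : ∀ j j', j ≠ j' → φ j = φ j' → z ∈ g.B j → z ∉ g.B j') {j : J} (hB : z ∈ g.B j)
    (h : ∃ j', φ j' = φ j ∧ z ∈ g.B j') : h.choose = j := by
  by_contra hne
  exact dj _ _ hne h.choose_spec.1 h.choose_spec.2 hB

lemma merge_tr {z : E} (dj : ∀ j j', j ≠ j' → φ j = φ j' → z ∈ g.B j → z ∉ g.B j') {j : J}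
    (hB : z ∈ g.B j) (s : ℝ) : (g.merge φ hf).tr (φ j) (z, s) = g.tr j (z, s) := by
  have h : ∃ j', φ j' = φ j ∧ z ∈ g.B j' := ⟨j, rfl, hB⟩
  have : (g.merge φ hf).tr (φ j) (z, s) = g.tr h.choose (z, s) := by
    show (if h : ∃ j', φ j' = φ j ∧ z ∈ g.B j' then g.tr h.choose (z, s) else z) = _
    rw [dif_pos h]
  rw [this, merge_choose dj hB h]

lemma merge_lev {z : E} (dj : ∀ j j', j ≠ j' → φ j = φ j' → z ∈ g.B j → z ∉ g.B j') {j : J}
    (hB : z ∈ g.B j) : (g.merge φ hf).lev (φ j) z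
      = (g.merge φ hf).G (φ j) z - g.G j z + g.lev j z := by
  have h : ∃ j', φ j' = φ j ∧ z ∈ g.B j' := ⟨j, rfl, hB⟩
  have : (g.merge φ hf).lev (φ j) z
      = (g.merge φ hf).G (φ j) z - g.G h.choose z + g.lev h.choose z := by
    show (if h : ∃ j', φ j' = φ j ∧ z ∈ g.B j' then
      (∑ j' ∈ (hf (φ j)).toFinset, g.G j' z) - g.G h.choose z + g.lev h.choose z
      else 0) = _
    rw [dif_pos h]; rfl
  rw [this, merge_choose dj hB h]

/-- the others are not changed by the transport -/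
lemma merge_G_tr (hI : g.Is Z) {z : E} (hz : z ∈ Z) {j : J} (hB : z ∈ g.B j) {s : ℝ}
    (hs : s ∈ I2) (a : κ) : (g.merge φ hf).G a (g.tr j (z, s))
      = (g.merge φ hf).G a z + if φ j = a then g.lev j z + 1/2 + s - g.G j z else 0 := by
  show ∑ i ∈ (hf a).toFinset, g.G i (g.tr j (z, s)) = ∑ i ∈ (hf a).toFinset, g.G i z + _
  by_cases h : φ j = a
  · rw [if_pos h]
    have hj : j ∈ (hf a).toFinset := by rw [Set.Finite.mem_toFinset]; exact h
    rw [← Finset.add_sum_erase _ _ hj, ← Finset.add_sum_erase _ _ hj, hI.tG j z hz hB s hs]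
    have : ∑ i ∈ (hf a).toFinset.erase j, g.G i (g.tr j (z, s))
        = ∑ i ∈ (hf a).toFinset.erase j, g.G i z :=
      Finset.sum_congr rfl fun i hi =>
        hI.oG j i (Ne.symm (Finset.ne_of_mem_erase hi)) z hz hB s hs
    rw [this]; ring
  · rw [if_neg h, add_zero]
    refine Finset.sum_congr rfl fun i hi => ?_
    refine hI.oG j i ?_ z hz hB s hs
    rintro rfl
    exact h (by rw [Set.Finite.mem_toFinset] at hi; exact hi)

/-- **THE MERGED DATA ARE A BAND STRUCTURE** -/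
theorem Gd.Is.merge (hI : g.Is Z)
    (dj : ∀ z ∈ Z, ∀ j j', j ≠ j' → φ j = φ j' → z ∈ g.B j → z ∉ g.B j') :
    (g.merge φ hf).Is Z := by
  have trm : ∀ {z : E} (_ : z ∈ Z) {j : J} (_ : z ∈ g.B j) (s : ℝ),
      (g.merge φ hf).tr (φ j) (z, s) = g.tr j (z, s) := fun {z} hz {j} hB s =>
    merge_tr (dj z hz) hB s
  have levm : ∀ {z : E} (_ : z ∈ Z) {j : J} (_ : z ∈ g.B j), (g.merge φ hf).lev (φ j) z
      = (g.merge φ hf).G (φ j) z - g.G j z + g.lev j z := fun {z} hz {j} hB =>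
    merge_lev (dj z hz) hB
  have tl' : ∀ {z : E} (_ : z ∈ Z) {j j' : J} (_ : z ∈ g.B j) (_ : z ∈ g.B j')
      {s : ℝ} (_ : s ∈ I2),
      (g.merge φ hf).lev (φ j') (g.tr j (z, s)) = (g.merge φ hf).lev (φ j') z := by
    intro z hz j j' hB hB' s hs
    have hz2 := hI.tZ j z hz hB s hs
    have hB2 : g.tr j (z, s) ∈ g.B j' := by
      by_cases h : j = j'
      · subst h; exact hI.tB j z hz hB s hs
      · exact hI.oB j j' h z hz hB hB' s hs
    rw [levm hz2 hB2, levm hz hB', merge_G_tr hI hz hB hs]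
    by_cases h : j = j'
    · subst h
      rw [if_pos rfl, hI.tG j z hz hB s hs, hI.tl j z hz hB s hs]; ring
    · have hφ : φ j ≠ φ j' := fun e => dj z hz j j' h e hB hB'
      rw [if_neg hφ, hI.oG j j' h z hz hB s hs, hI.ol j j' h z hz hB hB' s hs]; ring
  refine ⟨fun a => ?_, fun a => ?_, fun a z hz hn => ?_, ?_, ?_, fun a => ?_, ?_, ?_, ?_, ?_, ?_,
    ?_, ?_, ?_, ?_, ?_⟩
  · exact pl_sum _ fun j _ => hI.pG j
  · have : Z ∩ (g.merge φ hf).B a = ⋃ j ∈ {j | φ j = a}, (Z ∩ g.B j) := by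
      ext z
      simp only [mem_iUnion, mem_inter_iff, exists_prop]
      constructor
      · rintro ⟨hz, j, hj, hB⟩; exact ⟨j, hj, hz, hB⟩
      · rintro ⟨j, hj, hz, hB⟩; exact ⟨hz, j, hj, hB⟩
    rw [this]
    exact (hf a).isClosed_biUnion fun j _ => hI.cB j
  · by_contra hc
    refine hn (AddSubgroup.sum_mem _ fun j hj => ?_)
    by_contra hn'
    exact hc ⟨j, by rw [Set.Finite.mem_toFinset] at hj; exact hj, hI.nB j z hz hn'⟩
  · rintro a z hz ⟨j, rfl, hB⟩
    rw [levm hz hB]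
    have hj : j ∈ (hf (φ j)).toFinset := by rw [Set.Finite.mem_toFinset]; rfl
    have h1 : (g.merge φ hf).G (φ j) z - g.G j z
        = ∑ i ∈ (hf (φ j)).toFinset.erase j, g.G i z := by
      show ∑ i ∈ (hf (φ j)).toFinset, g.G i z - _ = _
      rw [← Finset.add_sum_erase _ _ hj]; ring
    rw [h1]
    refine AddSubgroup.add_mem _ (AddSubgroup.sum_mem _ fun i hi => ?_) (hI.li j z hz hB)
    by_contra hn'
    have h2 := Finset.mem_of_mem_erase hi
    rw [Set.Finite.mem_toFinset] at h2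
    have h3 : φ i = φ j := h2
    exact dj z hz j i (Ne.symm (Finset.ne_of_mem_erase hi)) h3.symm hB (hI.nB i z hz hn')
  · rintro a z hz ⟨j, rfl, hB⟩
    rw [levm hz hB]
    have := hI.ab j z hz hB
    have e : (g.merge φ hf).G (φ j) z - ((g.merge φ hf).G (φ j) z - g.G j z + g.lev j z) - 1/2
        = g.G j z - g.lev j z - 1/2 := by ring
    rw [e]; exact this
  · have : (Z ∩ (g.merge φ hf).B a) ×ˢ I2 = ⋃ j ∈ {j | φ j = a}, ((Z ∩ g.B j) ×ˢ I2) := by
      ext ⟨z, s⟩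
      simp only [mem_iUnion, mem_prod, mem_inter_iff, exists_prop]
      constructor
      · rintro ⟨⟨hz, j, hj, hB⟩, hs⟩; exact ⟨j, hj, ⟨hz, hB⟩, hs⟩
      · rintro ⟨j, hj, ⟨hz, hB⟩, hs⟩; exact ⟨⟨hz, j, hj, hB⟩, hs⟩
    rw [this]
    refine plOn_biUnion _ (hf a) (fun j hj => ?_) fun j _ => (hI.cB j).prod isClosed_Icc
    refine (hI.pt j).congr ?_
    rintro ⟨z, s⟩ ⟨⟨hz, hB⟩, hs⟩
    have hj' : φ j = a := hj
    subst hj'
    exact trm hz hB s
  · rintro a z hz ⟨j, rfl, hB⟩ s hs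
    rw [trm hz hB]; exact hI.tZ j z hz hB s hs
  · rintro a z hz ⟨j, rfl, hB⟩ s hs
    rw [trm hz hB]; exact ⟨j, rfl, hI.tB j z hz hB s hs⟩
  · rintro a z hz ⟨j, rfl, hB⟩ s hs
    rw [trm hz hB]; exact tl' hz hB hB hs
  · rintro a z hz ⟨j, rfl, hB⟩ s hs
    rw [trm hz hB, merge_G_tr hI hz hB hs, if_pos rfl, levm hz hB]; ring
  · rintro a z hz ⟨j, rfl, hB⟩
    rw [trm hz hB, levm hz hB]
    have e : (g.merge φ hf).G (φ j) z - ((g.merge φ hf).G (φ j) z - g.G j z + g.lev j z) - 1/2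
        = g.G j z - g.lev j z - 1/2 := by ring
    rw [e]; exact hI.ts j z hz hB
  · rintro a z hz ⟨j, rfl, hB⟩ s hs s' hs'
    rw [trm hz hB, trm hz hB, trm (hI.tZ j z hz hB s hs) (hI.tB j z hz hB s hs)]
    exact hI.tt j z hz hB s hs s' hs'
  · rintro a a' haa z hz ⟨j, rfl, hB⟩ s hs
    rw [trm hz hB, merge_G_tr hI hz hB hs, if_neg haa, add_zero]
  · rintro a a' haa z hz ⟨j, rfl, hB⟩ ⟨j', rfl, hB'⟩ s hs
    rw [trm hz hB]
    exact ⟨j', rfl, hI.oB j j' (fun e => haa (by rw [e])) z hz hB hB' s hs⟩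
  · rintro a a' haa z hz ⟨j, rfl, hB⟩ ⟨j', rfl, hB'⟩ s hs
    rw [trm hz hB]; exact tl' hz hB hB' hs
  · rintro a a' haa z hz ⟨j, rfl, hB⟩ ⟨j', rfl, hB'⟩ s hs t ht
    have hne : j ≠ j' := fun e => haa (by rw [e])
    rw [trm hz hB', trm hz hB, trm (hI.tZ j' z hz hB' t ht)
      (hI.oB j' j (Ne.symm hne) z hz hB' hB t ht),
      trm (hI.tZ j z hz hB s hs) (hI.oB j j' hne z hz hB hB' s hs)]
    exact hI.oc j j' hne z hz hB hB' s hs t ht

end merge

/-! ### the mesh structure -/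

section mesh

variable {Q : Type} [PartialOrder Q] {dim : Q → ℕ} {J Fam : Type}
variable {C : Cmb Q dim J Fam} {K : Q → Set E} {D : Set Q} {g : Gd E J}
  {P : ∀ q, C.I q → Set E} {c : ∀ q, C.I q → E → ℝ} {b : ℝ} {Ω : Set E}

/-- bands of different sheets of one family are disjoint -/
lemma Inv.fam_disj (H : Inv C K D g P c) {q : Q} (hq : q ∈ D) {z : E} (hz : z ∈ K q)
    {j j' : J} (hne : j ≠ j') (hf : C.fam j = C.fam j') (hB : z ∈ g.B j) : z ∉ g.B j' := by
  intro hB'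
  obtain ⟨x, hx, hxP⟩ := H.cov q hq j z hz hB
  obtain ⟨x', hx', hxP'⟩ := H.cov q hq j' z hz hB'
  refine Set.disjoint_left.1 (H.fd q hq x x' ?_ (by rw [hx, hx', hf])) hxP hxP'
  rintro rfl
  exact hne (hx.symm.trans hx')

/-- **the family data are a band structure on every cell** -/
theorem Inv.merge_is (H : Inv C K D g P c) (hf : ∀ a, {j | C.fam j = a}.Finite) {q : Q}
    (hq : q ∈ D) : (g.merge C.fam hf).Is (K q) :=
  (H.is q hq).merge fun z hz j j' hne hj hB => H.fam_disj hq hz hne hj hB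


end mesh

end Crest.Agent.R096.Bd_416
end

-- ▼ part R096/Bd17_416

/-!
# R096 (row 96), P4-MESH, part 10: local Lipschitz constants through the recursion (helper416)

`LL Λ f Z z` (117): `|f y - f z| ≤ Λ * dist y z` for `y ∈ Z` near `z`.
-/

set_option autoImplicit false

open Set Metric Filter Topology

namespace Crest.Agent.R096.Bd_416

open Crest.Agent.R096.Ce_537

open Crest.Agent.R096.Pc_117 (LL)

open scoped Classical

set_option linter.unusedSectionVars false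

/-! ### calculus -/

section llc

variable {X Y W : Type*} [PseudoMetricSpace X] [PseudoMetricSpace Y] [PseudoMetricSpace W]

/-- local Lipschitz bound of a map at a point -/
def LM (L : ℝ) (g : X → Y) (Z : Set X) (x : X) : Prop :=
  ∀ᶠ y in 𝓝[Z] x, dist (g y) (g x) ≤ L * dist y x

lemma LM.continuousWithinAt {L : ℝ} {g : X → Y} {Z : Set X} {x : X} (h : LM L g Z x) :
    ContinuousWithinAt g Z x := by
  rw [ContinuousWithinAt, tendsto_iff_dist_tendsto_zero]
  have h1 : Tendsto (fun y => L * dist y x) (𝓝[Z] x) (𝓝 0) := by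
    have h2 : Tendsto (fun y : X => L * dist y x) (𝓝 x) (𝓝 (L * dist x x)) :=
      (Continuous.tendsto (by fun_prop) x)
    rw [dist_self, mul_zero] at h2
    exact h2.mono_left nhdsWithin_le_nhds
  exact squeeze_zero' (Filter.Eventually.of_forall fun _ => dist_nonneg) h h1

lemma LM.mono_set {L : ℝ} {g : X → Y} {Z Z' : Set X} {x : X} (h : LM L g Z x) (hZ : Z' ⊆ Z) :
    LM L g Z' x := h.filter_mono (nhdsWithin_mono x hZ)

lemma LM.of_forall {L : ℝ} {g : X → Y} {Z : Set X} {x : X}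
    (h : ∀ y ∈ Z, dist (g y) (g x) ≤ L * dist y x) : LM L g Z x := by
  filter_upwards [self_mem_nhdsWithin] with y hy using h y hy

lemma LM.comp {L L' : ℝ} (hL' : 0 ≤ L') {g : X → Y} {g' : Y → W} {Z : Set X} {V : Set Y} {x : X}
    (h' : LM L' g' V (g x)) (h : LM L g Z x) (hm : MapsTo g Z V) :
    LM (L' * L) (fun y => g' (g y)) Z x := by
  have h1 : Tendsto g (𝓝[Z] x) (𝓝[V] (g x)) :=
    tendsto_nhdsWithin_iff.2 ⟨h.continuousWithinAt,
      by filter_upwards [self_mem_nhdsWithin] with y hy using hm hy⟩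
  filter_upwards [h1.eventually h', h] with y h2 h3
  refine h2.trans ?_
  rw [mul_assoc]
  exact mul_le_mul_of_nonneg_left h3 hL'


lemma LL.union {K : ℝ} {f : X → ℝ} {A B : Set X} {x : X} (hA : LL K f A x) (hB : LL K f B x) :
    LL K f (A ∪ B) x := by
  unfold Pc_117.LL at *
  rw [nhdsWithin_union, Filter.eventually_sup]
  exact ⟨hA, hB⟩

lemma LL.of_notMem {K : ℝ} {f : X → ℝ} {A : Set X} {x : X} (hA : IsClosed A) (hx : x ∉ A) :
    LL K f A x := by
  unfold Pc_117.LL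
  have : 𝓝[A] x = ⊥ := by
    rw [← notMem_closure_iff_nhdsWithin_eq_bot, hA.closure_eq]; exact hx
  rw [this]; exact Filter.eventually_bot

lemma LL.biUnion {K : ℝ} {f : X → ℝ} {ι : Type*} {A : ι → Set X} {s : Set ι} (hs : s.Finite)
    {x : X} (hc : ∀ i ∈ s, IsClosed (A i)) (h : ∀ i ∈ s, x ∈ A i → LL K f (A i) x) :
    LL K f (⋃ i ∈ s, A i) x := by
  unfold Pc_117.LL
  rw [nhdsWithin_biUnion hs]
  simp only [Filter.eventually_iSup]
  intro i hi
  by_cases hx : x ∈ A i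
  · exact h i hi hx
  · exact LL.of_notMem (hc i hi) hx

lemma abs_cl_sub (s t : ℝ) : |cl s - cl t| ≤ |s - t| := by
  unfold cl
  refine (abs_max_sub_max_le_max (-1/2) (min s (1/2)) (-1/2) (min t (1/2))).trans ?_
  refine max_le (by simp) ?_
  refine (abs_min_sub_min_le_max s (1/2) t (1/2)).trans ?_
  exact max_le le_rfl (by simp)

lemma LL.squeeze {K : ℝ} {f : X → ℝ} {Z : Set X} {x : X} {b : ℝ} (hb : 0 < b)
    (h : LL K f Z x) : LL (K / (2 * b)) (fun y => Bd_416.cl (f y / (2 * b))) Z x := by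
  filter_upwards [h] with y hy
  refine (abs_cl_sub _ _).trans ?_
  rw [← sub_div, abs_div, abs_of_pos (by linarith : (0:ℝ) < 2 * b), div_mul_eq_mul_div]
  exact div_le_div_of_nonneg_right hy (by linarith)

lemma abs_ramp_sub {h ρ r r' : ℝ} (hh : 0 < h) :
    |ramp h ρ r - ramp h ρ r'| ≤ |r - r'| / h := by
  refine (abs_cl_sub _ _).trans (le_of_eq ?_)
  rw [← sub_div, abs_div, abs_of_pos hh]
  congr 2; ring

end llc

/-! ### the collar -/

section collar

variable {n : ℕ}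

lemma abs_max_zero_sub (s t : ℝ) : |max 0 s - max 0 t| ≤ |s - t| :=
  (abs_max_sub_max_le_max 0 s 0 t).trans (by simp)

lemma abs_cf_sub (r r' x x' : ℝ) : |cf r x - cf r' x'| ≤ 3 * |x - x'| + 4 * |r - r'| := by
  unfold cf
  have h1 := abs_max_zero_sub (x + 1 - 2 * r) (x' + 1 - 2 * r')
  have h2 := abs_max_zero_sub (-x + 1 - 2 * r) (-x' + 1 - 2 * r')
  have h3 : |x + 1 - 2 * r - (x' + 1 - 2 * r')| ≤ |x - x'| + 2 * |r - r'| := by
    have : x + 1 - 2 * r - (x' + 1 - 2 * r') = (x - x') + (-2) * (r - r') := by ring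
    rw [this]
    refine (abs_add_le _ _).trans ?_
    rw [abs_mul]; norm_num
  have h4 : |-x + 1 - 2 * r - (-x' + 1 - 2 * r')| ≤ |x - x'| + 2 * |r - r'| := by
    have : -x + 1 - 2 * r - (-x' + 1 - 2 * r') = -(x - x') + (-2) * (r - r') := by ring
    rw [this]
    refine (abs_add_le _ _).trans ?_
    rw [abs_mul, abs_neg]; norm_num
  have e : x + max 0 (x + 1 - 2 * r) - max 0 (-x + 1 - 2 * r)
      - (x' + max 0 (x' + 1 - 2 * r') - max 0 (-x' + 1 - 2 * r'))
      = (x - x') + (max 0 (x + 1 - 2 * r) - max 0 (x' + 1 - 2 * r'))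
        + -(max 0 (-x + 1 - 2 * r) - max 0 (-x' + 1 - 2 * r')) := by ring
  rw [e]
  refine (abs_add_le _ _).trans ?_
  rw [abs_neg]
  have h5 := abs_add_le (x - x') (max 0 (x + 1 - 2 * r) - max 0 (x' + 1 - 2 * r'))
  linarith

/-- the collar is `7`-Lipschitz -/
lemma dist_collar (x y : Fin n → ℝ) : dist ((collar n).f x) ((collar n).f y) ≤ 7 * dist x y := by
  have hr : |‖x‖ - ‖y‖| ≤ dist x y := by rw [dist_eq_norm]; exact abs_norm_sub_norm_le x y
  rw [Prod.dist_eq]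
  refine max_le ?_ ?_
  · rw [dist_pi_le_iff (by positivity)]
    intro i
    show |cf ‖x‖ (x i) - cf ‖y‖ (y i)| ≤ _
    refine (abs_cf_sub _ _ _ _).trans ?_
    have h1 : |x i - y i| ≤ dist x y := by
      rw [← Real.dist_eq]; exact dist_le_pi_dist x y i
    linarith
  · show |‖x‖ - ‖y‖| ≤ _
    have : 0 ≤ dist x y := dist_nonneg
    linarith

end collar

/-! ### the cone rule -/

section cone

variable {E : Type*} [NormedAddCommGroup E] [NormedSpace ℝ E] {n : ℕ} {q dq : Set E} {I : Type*}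
  (e : PLEquiv (cube n) q) (he : e.f '' sph n = dq) {L : Lam dq I} {K b : ℝ} {h ρ : I → ℝ}
  (D : Dep L K b h ρ)



end cone

/-! ### the edge rule -/

section edge

variable {E : Type*} [NormedAddCommGroup E] [NormedSpace ℝ E] {q : Set E} {I : Type*}
  {w p : I → ℝ}


end edge

/-! ### products: only one factor moves -/

section prod

variable {Q : Type} [PartialOrder Q] {dim : Q → ℕ} {J Fam : Type}
variable {E : Type*} [NormedAddCommGroup E] [NormedSpace ℝ E]
variable {C : Cmb Q dim J Fam} {K : Q → Set E} {D : Set Q} {g : Gd E J}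
  {P : ∀ q, C.I q → Set E} {c : ∀ q, C.I q → E → ℝ} {b : ℝ} {Ω : Set E}

/-- a band function is constant near a point off the band -/
lemma Inv.ev_const (H : Inv C K D g P c) {q : Q} (hq : q ∈ D) {x : C.I q} {z : E} (hz : z ∈ K q)
    (hx : z ∉ P q x) : ∀ᶠ w in 𝓝[K q] z, c q x w = c q x z := by
  have h1 : ∀ᶠ w in 𝓝[K q] z, w ∉ P q x :=
    nhdsWithin_le_nhds ((H.cl q hq x).isOpen_compl.mem_nhds hx)
  have hc : ContinuousWithinAt (c q x) (K q) z := (H.pc q hq x).1 z hz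
  have h2 : ∀ᶠ w in 𝓝[K q] z, |c q x w - c q x z| < 1 := by
    have := Metric.tendsto_nhds.1 hc 1 one_pos
    simpa [Real.dist_eq] using this
  filter_upwards [h1, h2, self_mem_nhdsWithin] with w hw hw2 hwK
  have a1 := H.half hq hwK hw
  have a2 := H.half hq hz hx
  rcases a1 with a1 | a1 <;> rcases a2 with a2 | a2 <;> rw [a1, a2] at hw2 ⊢ <;>
    norm_num at hw2





end prod

end Crest.Agent.R096.Bd_416
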