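import Crest.Agent.R096.Bd7_416
import Crest.Agent.R096.Xq8_537
import Crest.Agent.R096.Bin3_181
import Crest.Agent.R096.Bd18_416
import Crest.Agent.R096.Bin6_181
import Crest.Agent.R096.Bin10_181
import Crest.Agent.R096.Fin2_147
import Crest.Agent.R096.At4_241

-- ▼ part R096/Kb1_337
section

/-!
# R096 (row 96), BOTTOM HALF, collar of an exact core (helper337)

`Gd.sqI b` : the band structure on `Z × [0,1]` which is `g` at `r = 0` and `g.sq b` at `r = 1`.
The mid levels of the bands do not move.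
-/

set_option autoImplicit false
set_option linter.unusedVariables false
set_option linter.unusedSectionVars false

open Set Metric

namespace Crest.Agent.R096.Kb_337

open Crest.Agent.R096.Ce_537 Crest.Agent.R096.Bd_416

/-! ### the one dimensional formula -/

/-- shift of the plateau -/
noncomputable def dd (b r : ℝ) : ℝ := (1/2 - b) * (1 - r)

/-- the squeeze at depth `r` -/
noncomputable def S1 (b r t : ℝ) : ℝ :=
  cl (t + max 0 ((t - dd b r) / (2 * b) - t) + min 0 ((t + dd b r) / (2 * b) - t))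

/-- the inverse on the band -/
noncomputable def R1 (b r s : ℝ) : ℝ :=
  s + min 0 (2 * b * s + dd b r - s) + max 0 (2 * b * s - dd b r - s)



section oned

variable {b r t s : ℝ} (h0 : 0 < b) (h2 : b < 1/2) (hr : r ∈ Icc (0:ℝ) 1)
include h0 h2 hr























end oned






section pl

variable {E : Type*} [NormedAddCommGroup E] [NormedSpace ℝ E] {b : ℝ} {Z : Set E} {r t : E → ℝ}





end pl

end Crest.Agent.R096.Kb_337
end

-- ▼ part R096/Xr1_537
section

/-!
# R096 (row 96), type R cores, part 1 (helper537)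

Calculus of equal band structures (`EqAt`): merging, iterated squeezes, the collar `sqI` (helper337),
pull backs and splittings (helper181), the band structure `gdT` of the exact core.
-/

set_option autoImplicit false
set_option linter.unusedSectionVars false
set_option linter.unusedVariables false
set_option linter.deprecated false

open Set Topology

namespace Crest.Agent.R096.Xr_537

open Crest.Agent.R096.Ce_537 (PLOn PLEquiv)
open Crest.Agent.R096.Bd_416
open Crest.Agent.R096.Grd_714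
open Crest.Agent.R096.Kb_337
open Crest.Agent.R096.Bin_181
open Crest.Agent.R096.Xp_537

variable {E E' : Type*} [NormedAddCommGroup E] [NormedSpace ℝ E]
  [NormedAddCommGroup E'] [NormedSpace ℝ E'] {κ J : Type*}

lemma EqAt.refl (g : Gd E κ) (z : E) : EqAt g g z :=
  ⟨fun _ => rfl, fun _ => Iff.rfl, fun _ _ => rfl, fun _ _ _ _ => rfl⟩

/-! ### merging -/

section merge

variable {φ : J → κ} {hf : ∀ a, {j | φ j = a}.Finite} {g g' : Gd E J} {z : E}

lemma choose_congr {p p' : J → Prop} (e : p = p') (h : ∃ j, p j) (h' : ∃ j, p' j) :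
    h.choose = h'.choose := by subst e; rfl

open scoped Classical in
/-- merging respects equality -/
lemma EqAt.merge (h : EqAt g g' z) : EqAt (g.merge φ hf) (g'.merge φ hf) z := by
  have hp : ∀ a, (fun j => φ j = a ∧ z ∈ g'.B j) = (fun j => φ j = a ∧ z ∈ g.B j) := by
    intro a; funext j; rw [h.B j]
  refine ⟨fun a => ?_, fun a => ?_, fun a hB => ?_, fun a hB s hs => ?_⟩
  · exact Finset.sum_congr rfl fun j _ => h.G j
  · constructor
    · rintro ⟨j, e, hj⟩; exact ⟨j, e, (h.B j).1 hj⟩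
    · rintro ⟨j, e, hj⟩; exact ⟨j, e, (h.B j).2 hj⟩
  · have h1 : ∃ j, φ j = a ∧ z ∈ g.B j := hB
    have h2 : ∃ j, φ j = a ∧ z ∈ g'.B j := by rw [show (∃ j, φ j = a ∧ z ∈ g'.B j) =
      (∃ j, φ j = a ∧ z ∈ g.B j) from congrArg _ (hp a)]; exact h1
    show (if h : ∃ j, φ j = a ∧ z ∈ g'.B j then
      (∑ j ∈ (hf a).toFinset, g'.G j z) - g'.G h.choose z + g'.lev h.choose z else 0) =
      (if h : ∃ j, φ j = a ∧ z ∈ g.B j then
      (∑ j ∈ (hf a).toFinset, g.G j z) - g.G h.choose z + g.lev h.choose z else 0)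
    rw [dif_pos h1, dif_pos h2, choose_congr (hp a) h2 h1, h.G, h.lev _ h1.choose_spec.2]
    rw [Finset.sum_congr rfl fun j _ => h.G j]
  · have h1 : ∃ j, φ j = a ∧ z ∈ g.B j := hB
    have h2 : ∃ j, φ j = a ∧ z ∈ g'.B j := by rw [show (∃ j, φ j = a ∧ z ∈ g'.B j) =
      (∃ j, φ j = a ∧ z ∈ g.B j) from congrArg _ (hp a)]; exact h1
    show (if h : ∃ j, φ j = a ∧ z ∈ g'.B j then g'.tr h.choose (z, s) else z) =
      (if h : ∃ j, φ j = a ∧ z ∈ g.B j then g.tr h.choose (z, s) else z)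
    rw [dif_pos h1, dif_pos h2, choose_congr (hp a) h2 h1, h.tr _ h1.choose_spec.2 s hs]

/-- merging commutes with squeezing -/
theorem merge_sq_at (dj : ∀ j j', j ≠ j' → φ j = φ j' → z ∈ g.B j → z ∉ g.B j') (b : ℝ) :
    EqAt ((g.merge φ hf).sq b) ((g.sq b).merge φ hf) z := by
  have dj' : ∀ j j', j ≠ j' → φ j = φ j' → z ∈ (g.sq b).B j → z ∉ (g.sq b).B j' :=
    fun j j' hne hj hB hB' => dj j j' hne hj hB.1 hB'.1
  have e0 : ∀ j : J, z ∈ g.B j →
      (g.merge φ hf).G (φ j) z - (g.merge φ hf).lev (φ j) z - 1/2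
        = g.G j z - g.lev j z - 1/2 := by
    intro j hB
    rw [merge_lev dj hB]; ring
  have sumsq : ∀ j : J, z ∈ g.B j → ((g.sq b).merge φ hf).G (φ j) z
      = (g.merge φ hf).G (φ j) z - g.G j z + (g.sq b).G j z := by
    intro j hB
    have hj : j ∈ (hf (φ j)).toFinset := by rw [Set.Finite.mem_toFinset]; rfl
    show ∑ i ∈ (hf (φ j)).toFinset, (g.sq b).G i z
      = ∑ i ∈ (hf (φ j)).toFinset, g.G i z - _ + _
    classical
    rw [← Finset.add_sum_erase _ _ hj, ← Finset.add_sum_erase _ _ hj]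
    have : ∑ i ∈ (hf (φ j)).toFinset.erase j, (g.sq b).G i z
        = ∑ i ∈ (hf (φ j)).toFinset.erase j, g.G i z := by
      refine Finset.sum_congr rfl fun i hi => ?_
      have h2 := Finset.mem_of_mem_erase hi
      rw [Set.Finite.mem_toFinset] at h2
      have h3 : φ i = φ j := h2
      exact Gd.sq_G_notMem (dj j i (Ne.symm (Finset.ne_of_mem_erase hi)) h3.symm hB)
    rw [this]; ring
  refine ⟨fun a => ?_, fun a => ?_, fun a hB => ?_, fun a hB s hs => ?_⟩
  · by_cases h : z ∈ (g.merge φ hf).B a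
    · obtain ⟨j, rfl, hB⟩ := h
      rw [Gd.sq_G_mem (show z ∈ (g.merge φ hf).B (φ j) from ⟨j, rfl, hB⟩), sumsq j hB,
        Gd.sq_G_mem hB, e0 j hB, merge_lev dj hB]
      ring
    · rw [Gd.sq_G_notMem h]
      refine Finset.sum_congr rfl fun i hi => ?_
      rw [Set.Finite.mem_toFinset] at hi
      exact Gd.sq_G_notMem fun hB => h ⟨i, hi, hB⟩
  · constructor
    · rintro ⟨j, rfl, hB⟩
      exact ⟨⟨j, rfl, hB.1⟩, by rw [e0 j hB.1]; exact hB.2⟩
    · rintro ⟨⟨j, rfl, hB⟩, hb⟩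
      exact ⟨j, rfl, hB, by rw [← e0 j hB]; exact hb⟩
  · obtain ⟨⟨j, rfl, hB⟩, hb⟩ := hB
    have hB2 : z ∈ (g.sq b).B j := ⟨hB, by rw [← e0 j hB]; exact hb⟩
    rw [merge_lev dj' hB2]
    show _ = (g.merge φ hf).lev (φ j) z
    rw [merge_lev dj hB, sumsq j hB]
    show _ - (g.sq b).G j z + g.lev j z = _
    ring
  · obtain ⟨⟨j, rfl, hB⟩, hb⟩ := hB
    have hB2 : z ∈ (g.sq b).B j := ⟨hB, by rw [← e0 j hB]; exact hb⟩
    rw [merge_tr dj' hB2]
    show g.tr j (z, 2 * b * s) = (g.merge φ hf).tr (φ j) (z, 2 * b * s)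
    rw [merge_tr dj hB]

lemma sqs_B {g : Gd E κ} {b : ℕ → ℝ} {a : κ} {z : E} : ∀ n, z ∈ (sqs g b n).B a → z ∈ g.B a := by
  intro n
  induction n with
  | zero => exact id
  | succ n ih => exact fun h => ih h.1

/-- merging commutes with iterated squeezing -/
theorem merge_sqs (dj : ∀ j j', j ≠ j' → φ j = φ j' → z ∈ g.B j → z ∉ g.B j') {b : ℕ → ℝ}
    (hb0 : ∀ n, 0 < b n) (hb2 : ∀ n, b n < 1/2) :
    ∀ n, EqAt (sqs (g.merge φ hf) b n) ((sqs g b n).merge φ hf) z := by
  intro n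
  induction n with
  | zero => exact EqAt.refl _ _
  | succ n ih =>
    exact (ih.sq (hb0 n) (hb2 n)).trans (merge_sq_at (fun j j' hne hj h h' =>
      dj j j' hne hj (sqs_B n h) (sqs_B n h')) _)

end merge

/-! ### iterated squeeze = one squeeze -/

/-- two squeezes are one squeeze -/
theorem sq_sq (g : Gd E κ) {b b' : ℝ} (h0 : 0 < b) (h2 : b < 1/2) (h0' : 0 < b')
    (h2' : b' < 1/2) (z : E) : EqAt (g.sq (2 * b * b')) ((g.sq b).sq b') z := by
  have hbb : 2 * b * b' < b := by nlinarith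
  have key : ∀ t : ℝ, |cl (t / (2 * b))| ≤ b' ↔ |t| ≤ 2 * b * b' := by
    intro t
    rw [abs_cl_le_iff h0' h2', abs_div, abs_of_pos (by linarith : (0:ℝ) < 2 * b),
      div_le_iff₀ (by linarith), mul_comm b' (2 * b)]
  have hB : ∀ a, z ∈ ((g.sq b).sq b').B a ↔ z ∈ (g.sq (2 * b * b')).B a := by
    intro a
    constructor
    · rintro ⟨⟨h, h3⟩, h4⟩
      rw [Gd.sq_G_mem h] at h4
      have e : g.lev a z + 1/2 + cl ((g.G a z - g.lev a z - 1/2) / (2 * b)) -
        (g.sq b).lev a z - 1/2 = cl ((g.G a z - g.lev a z - 1/2) / (2 * b)) := by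
        show g.lev a z + 1/2 + cl ((g.G a z - g.lev a z - 1/2) / (2 * b)) - g.lev a z - 1/2 = _
        ring
      rw [e, key] at h4
      exact ⟨h, h4⟩
    · rintro ⟨h, h4⟩
      refine ⟨⟨h, h4.trans hbb.le⟩, ?_⟩
      rw [Gd.sq_G_mem h]
      have e : g.lev a z + 1/2 + cl ((g.G a z - g.lev a z - 1/2) / (2 * b)) -
        (g.sq b).lev a z - 1/2 = cl ((g.G a z - g.lev a z - 1/2) / (2 * b)) := by
        show g.lev a z + 1/2 + cl ((g.G a z - g.lev a z - 1/2) / (2 * b)) - g.lev a z - 1/2 = _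
        ring
      rw [e, key]; exact h4
  refine ⟨fun a => ?_, hB, fun a _ => rfl, fun a _ s hs => ?_⟩
  · by_cases h : z ∈ g.B a
    · rw [Gd.sq_G_mem h]
      have h4 : 2 * (2 * b * b') = 2 * b * (2 * b') := by ring
      by_cases h3 : z ∈ (g.sq b).B a
      · rw [Gd.sq_G_mem h3, Gd.sq_G_mem h]
        have e : g.lev a z + 1/2 + cl ((g.G a z - g.lev a z - 1/2) / (2 * b)) -
          (g.sq b).lev a z - 1/2 = cl ((g.G a z - g.lev a z - 1/2) / (2 * b)) := by
          show g.lev a z + 1/2 + cl ((g.G a z - g.lev a z - 1/2) / (2 * b)) - g.lev a z - 1/2 = _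
          ring
        rw [e, cl_cl h0' h2', div_div, h4]
        rfl
      · rw [Gd.sq_G_notMem h3, Gd.sq_G_mem h]
        have h5 : b < |g.G a z - g.lev a z - 1/2| := by
          by_contra hc
          exact h3 ⟨h, not_lt.1 hc⟩
        set t := g.G a z - g.lev a z - 1/2 with ht
        have h6 : cl (t / (2 * b)) = cl (t / (2 * (2 * b * b'))) := by
          have hp : 0 < 2 * (2 * b * b') := by positivity
          rcases lt_abs.1 h5 with h7 | h7
          · rw [cl_of_ge, cl_of_ge]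
            · rw [le_div_iff₀ hp]; nlinarith
            · rw [le_div_iff₀ (by linarith)]; linarith
          · rw [cl_of_le, cl_of_le]
            · rw [div_le_iff₀ hp]; nlinarith
            · rw [div_le_iff₀ (by linarith)]; linarith
        rw [h6]
    · rw [Gd.sq_G_notMem h, Gd.sq_G_notMem (fun h3 : z ∈ (g.sq b).B a => h h3.1),
        Gd.sq_G_notMem h]
  · show g.tr a (z, 2 * b * (2 * b' * s)) = g.tr a (z, 2 * (2 * b * b') * s)
    congr 2; ring

/-- **iterated squeeze = one squeeze** with half the factor -/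
theorem sqs_eq (g : Gd E κ) {b : ℕ → ℝ} (hb0 : ∀ n, 0 < b n) (hb2 : ∀ n, b n < 1/2) (z : E) :
    ∀ n, EqAt (g.sq (bet b (n + 1) / 2)) (sqs g b (n + 1)) z := by
  intro n
  induction n with
  | zero =>
    have : bet b (0 + 1) / 2 = b 0 := by rw [bet_succ, bet_zero]; ring
    rw [this]; exact EqAt.refl _ _
  | succ n ih =>
    have h1 := bet_pos hb0 (n + 1)
    have h2 : bet b (n + 1) / 2 < 1/2 := by
      have h3 := bet_le hb0 hb2 n
      have h4 := hb2 n
      have h5 := hb0 n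
      have h6 := bet_pos hb0 n
      rw [bet_succ]
      nlinarith
    have h3 : bet b (n + 1 + 1) / 2 = 2 * (bet b (n + 1) / 2) * b (n + 1) := by
      rw [bet_succ b (n + 1)]; ring
    rw [h3]
    exact (sq_sq g (by linarith) h2 (hb0 _) (hb2 _) z).trans (ih.sq (hb0 _) (hb2 _))

end Crest.Agent.R096.Xr_537
end

-- ▼ part R096/Xr2_537
section

/-!
# R096 (row 96), type R cores, part 2 (helper537)

* `sum_cl`: `Σ_{k<m} (1/2 + cl (t - k - 1/2)) = min t m`.
* `merge_spl`: merging the sheets of a split family structure gives back the structure.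
* `gdT_core`: the band structure of the exact core is 181's `ek`, pulled back.
* `pulg_congr`, `sqI_congr`, the ends of the collar.
* `sqI_G2`, `cols_sqI`: levels of the collar.
-/

set_option autoImplicit false
set_option linter.unusedSectionVars false
set_option linter.unusedVariables false
set_option linter.deprecated false

open Set Topology

namespace Crest.Agent.R096.Xr_537

open Crest.Agent.R096.Ce_537 (PLOn PLEquiv)
open Crest.Agent.R096.Bd_416
open Crest.Agent.R096.Grd_714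
open Crest.Agent.R096.Kb_337
open Crest.Agent.R096.Bin_181
open Crest.Agent.R096.Xp_537

variable {E E' : Type*} [NormedAddCommGroup E] [NormedSpace ℝ E]
  [NormedAddCommGroup E'] [NormedSpace ℝ E']

/-! ### splitting and merging -/

section split


variable {I J : Type*} {g : Gd E I} {fa : J → I} {lv : J → ℕ} {m : I → ℕ} {Z : Set E}


end split

/-! ### pull backs -/

section pull

variable {I : Type*} {V : Type*} [NormedAddCommGroup V] [NormedSpace ℝ V]

lemma pulg_congr {g g' : Gd E I} {f : V → E} {fi : E → V} {z : V} (h : EqAt g g' (f z)) :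
    EqAt (pulg g f fi) (pulg g' f fi) z where
  G a := h.G a
  B a := h.B a
  lev a hB := h.lev a hB
  tr a hB s hs := congrArg fi (h.tr a hB s hs)


end pull

/-! ### the collar -/

section collar

variable {I : Type*} {g g' : Gd E I} {b : ℝ} {Z : Set E}




variable {P : I → Set E'} {m : I → ℕ}




end collar

/-! ### the exact core -/

section core

variable {I : Type*} {b : Set I → E} {P : I → Set E} {m : I → ℕ} {La : Set E}

lemma fre_eq (x : Cel P m) : Xp_537.fre x = Bin_181.fr x := by cases x <;> rfl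
lemma lof_eq (x : Cel P m) (a : I) : Xp_537.lof x a = Bin_181.lo x a := by
  cases x with
  | top c => show (0 : ℝ) = ((0 : ℕ) : ℝ); simp
  | gr q => rfl

open Classical in
/-- **the band structure of the exact core is `ek`, pulled back** -/
theorem gdT_core (C : CC La (Cel P m)) (κ : ℝ) (c : Cel P m) (f : E' → E) (fi : E → E')
    (z : E') : EqAt (pulg (ek C b κ c) f fi)
      (gdT (Tq b m) (co P b m) (cG C κ f) (ctop C κ c f) (ctr C κ f fi)) z := by
  refine ⟨fun a => rfl, fun a => ?_, fun a hB => ?_, fun a hB s hs => ?_⟩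
  · show a ∈ Xp_537.fre (ctop C κ c f z) ↔ a ∈ Bin_181.fr (mn c (sl C κ (f z)))
    rw [fre_eq]; rfl
  · show Xp_537.lof (ctop C κ c f z) a = (Bin_181.lo (mn c (sl C κ (f z))) a : ℝ)
    rw [lof_eq]; rfl
  · show ctr C κ f fi z (Tq b m (Function.update (co P b m (cG C κ f z)) a
      (Xp_537.lof (ctop C κ c f z) a + 1 / 2 + s))) = fi (pk C κ (sl C κ (f z)) (Tq b m
      (Function.update (co P b m (st C κ (f z))) a
        (Bin_181.lo (mn c (sl C κ (f z))) a + 1/2 + s))))
    rw [lof_eq]; rfl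

end core

end Crest.Agent.R096.Xr_537
end

-- ▼ part R096/Xr3_537
section

/-!
# R096 (row 96), type R cores, part 3 (helper537)

`eqAt_R`: on the boundary of a type R core the merged structure of the mesh (416's recursion over
181's base, squeezed `n` times) is the exact core structure with the larger parameter `κf`
(`1 - κf = (1 - κ0) * bet β n`), given SQ-EXACT (147 / 181).
`bg_R`: the agreement clause of `GMach` / `Mach`.
-/

set_option autoImplicit false
set_option linter.unusedSectionVars false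
set_option linter.unusedVariables false
set_option linter.deprecated false

open Set Topology

namespace Crest.Agent.R096.Xr_537

open Crest.Agent.R096.Ce_537 (PLOn PLEquiv)
open Crest.Agent.R096.Bd_416
open Crest.Agent.R096.Brk1_582 Crest.Agent.R096.Brk2_582 Crest.Agent.R096.Brk6_582
open Crest.Agent.R096.Grd_714
open Crest.Agent.R096.Bin_181
open Crest.Agent.R096.Xp_537

variable {E V : Type*} [NormedAddCommGroup E] [NormedSpace ℝ E]
  [NormedAddCommGroup V] [NormedSpace ℝ V] {I J : Type*}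
  {b : Set I → E} {P : I → Set E} {m : I → ℕ} {La : Set E}

/-- **SQ-EXACT** (helper147): a squeezed exact structure is exact -/
def SqEx (C : CC La (Cel P m)) (b : Set I → E) (c : Cel P m) : Prop :=
  ∀ κ β : ℝ, 0 < κ → κ < 1 → 0 < β → β < 1/2 → ∀ q : Gx P m, ∀ y ∈ C.cell (.gr q),
    EqAt ((ek C b κ c).sq β) (ek C b (1 - (1 - κ) * (2 * β)) c) y

/-- pull back and squeeze commute -/
lemma pulg_sq {g : Gd E I} {f : V → E} {fi : E → V} (β : ℝ) (z : V) :
    EqAt (pulg (g.sq β) f fi) ((pulg g f fi).sq β) z :=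
  ⟨fun _ => rfl, fun _ => Iff.rfl, fun _ _ => rfl, fun _ _ _ _ => rfl⟩

/-- the factor of the final parameter -/
lemma kf_pos {κ0 β : ℝ} (h : 0 < κ0 ∧ κ0 < 1) (hβ : 0 < β) (hβ1 : β ≤ 1) :
    0 < 1 - (1 - κ0) * β ∧ 1 - (1 - κ0) * β < 1 := by
  have h1 : 0 < 1 - κ0 := by linarith [h.2]
  constructor
  · nlinarith [h.1]
  · nlinarith

variable [CompleteSpace E] (F : Foam La P b 4) (hQ : Quads P b)
  (hne : ∀ c, (P c).Nonempty) (hm : ∀ c, 0 < m c)

/-- **the merged mesh structure on the boundary of a type R core** -/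
theorem eqAt_R {κ0 : ℝ} (hκ : 0 < κ0 ∧ κ0 < 1) (c : Cel P m) {fa : J → I} {lv : J → ℕ}
    (hinj : ∀ j j', fa j = fa j' → lv j = lv j' → j = j')
    (hlt : ∀ j, lv j < m (fa j)) (hsur : ∀ a k, k < m a → ∃ j, fa j = a ∧ lv j = k)
    (hf : ∀ a, {j | fa j = a}.Finite) {S : Set V} {T : Set E} (e : PLEquiv S T)
    {A : Set V} (hmem : ∀ z ∈ A, ∃ q : Gx P m, e.f z ∈ (grid F hQ hne hm).cell (.gr q))
    {g0 g : Gd V J} (h0 : ∀ z ∈ A, EqAt (ekS (grid F hQ hne hm) b κ0 c fa lv e) g0 z)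
    {β : ℕ → ℝ} (hb0 : ∀ n, 0 < β n) (hb2 : ∀ n, β n < 1/2) (n : ℕ)
    (hg : ∀ z ∈ A, EqAt (sqs g0 β (n + 1)) g z)
    (hsq : SqEx (grid F hQ hne hm) b c) {z : V} (hz : z ∈ A) :
    EqAt (gdT (Tq b m) (co P b m)
        (cG (grid F hQ hne hm) (1 - (1 - κ0) * bet β (n + 1)) e.f)
        (ctop (grid F hQ hne hm) (1 - (1 - κ0) * bet β (n + 1)) c e.f)
        (ctr (grid F hQ hne hm) (1 - (1 - κ0) * bet β (n + 1)) e.f e.g)) (g.merge fa hf) z := by
  set C := grid F hQ hne hm with hC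
  -- the half factor
  have hβ := bet_pos hb0 (n + 1)
  have hβ2 : bet β (n + 1) / 2 < 1 / 2 := by
    have h3 := bet_le hb0 hb2 n
    have h4 := hb2 n
    have h5 := hb0 n
    have h6 := bet_pos hb0 n
    rw [bet_succ]
    nlinarith
  have hβ0 : 0 < bet β (n + 1) / 2 := by linarith
  -- disjointness of the sheets of a family
  have dj' : ∀ j j', j ≠ j' → fa j = fa j' → z ∈ (ekS C b κ0 c fa lv e).B j →
      z ∉ (ekS C b κ0 c fa lv e).B j' := by
    intro j j' hne' hf hz hz'
    rw [ekS_B] at hz hz'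
    apply hne'
    refine hinj j j' hf ?_
    have h1 := hz.2
    rw [hf, hz'.2] at h1
    exact_mod_cast h1.symm
  have dj : ∀ j j', j ≠ j' → fa j = fa j' → z ∈ g0.B j → z ∉ g0.B j' :=
    fun j j' hne hf h1 h2 => dj' j j' hne hf (((h0 z hz).B j).1 h1) (((h0 z hz).B j').1 h2)
  -- 1, 2, 3: merge of the final structure = squeeze of the merged base
  have s1 : EqAt ((sqs g0 β (n + 1)).merge fa hf) (g.merge fa hf) z := EqAt.merge (hg z hz)
  have s2 : EqAt (sqs (g0.merge fa hf) β (n + 1)) ((sqs g0 β (n + 1)).merge fa hf) z :=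
    merge_sqs dj hb0 hb2 (n + 1)
  have s3 : EqAt ((g0.merge fa hf).sq (bet β (n + 1) / 2)) (sqs (g0.merge fa hf) β (n + 1)) z :=
    sqs_eq (g0.merge fa hf) hb0 hb2 z n
  -- 4: the merged base
  have s4 : EqAt (((ekS C b κ0 c fa lv e).merge fa hf).sq (bet β (n + 1) / 2))
      ((g0.merge fa hf).sq (bet β (n + 1) / 2)) z := (EqAt.merge (h0 z hz)).sq hβ0 hβ2
  have s5 : EqAt (pulg (ek C b κ0 c) e.f e.g) ((ekS C b κ0 c fa lv e).merge fa hf) z :=
    (gdT_core C κ0 c e.f e.g z).trans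
      ((merge_eqs' F hQ hne hm hκ c e hinj hlt hsur hf hmem).eqAt hz)
  have s6 : EqAt ((pulg (ek C b κ0 c) e.f e.g).sq (bet β (n + 1) / 2))
      (((ekS C b κ0 c fa lv e).merge fa hf).sq (bet β (n + 1) / 2)) z := s5.sq hβ0 hβ2
  -- 5: SQ-EXACT
  obtain ⟨q, hq⟩ := hmem z hz
  have e1 : 1 - (1 - κ0) * (2 * (bet β (n + 1) / 2)) = 1 - (1 - κ0) * bet β (n + 1) := by ring
  have s7 : EqAt (ek C b (1 - (1 - κ0) * bet β (n + 1)) c)
      ((ek C b κ0 c).sq (bet β (n + 1) / 2)) (e.f z) := by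
    have := hsq κ0 (bet β (n + 1) / 2) hκ.1 hκ.2 hβ0 hβ2 q (e.f z) hq
    rw [e1] at this
    exact this.symm
  have s8 : EqAt (pulg (ek C b (1 - (1 - κ0) * bet β (n + 1)) c) e.f e.g)
      ((pulg (ek C b κ0 c) e.f e.g).sq (bet β (n + 1) / 2)) z :=
    (pulg_congr s7).trans (pulg_sq _ z)
  have s9 := (gdT_core (b := b) C (1 - (1 - κ0) * bet β (n + 1)) c e.f e.g z).symm
  exact s9.trans (s8.trans (s6.trans (s4.trans (s3.trans (s2.trans s1)))))

/-- **the agreement clause for a type R core** -/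
theorem bg_R [FiniteDimensional ℝ E] (q0 : Cel P m) (X : GridOK (grid F hQ hne hm) (Tq b m) (co P b m))
    {κ0 : ℝ} (hκ : 0 < κ0 ∧ κ0 < 1) (c : Cel P m) {fa : J → I} {lv : J → ℕ}
    (hinj : ∀ j j', fa j = fa j' → lv j = lv j' → j = j')
    (hlt : ∀ j, lv j < m (fa j)) (hsur : ∀ a k, k < m a → ∃ j, fa j = a ∧ lv j = k)
    (hf : ∀ a, {j | fa j = a}.Finite)
    {β : ℕ → ℝ} (hb0 : ∀ n, 0 < β n) (hb2 : ∀ n, β n < 1/2) (n : ℕ)
    {κf : ℝ} (hκfd : κf = 1 - (1 - κ0) * bet β (n + 1)) {K : Set V}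
    (Th : PLEquiv K (coreF (grid F hQ hne hm) κf c 0))
    {g0 g : Gd V J} {Z : Set V} (hK : IsClosed K) (hZc : IsClosed Z)
    {S : Set V} {T : Set E} (e : PLEquiv S T) (hS : ∀ z ∈ Z, z ∈ K → z ∈ S)
    (he : ∀ z ∈ S, e.f z = Th.f z) (hei : ∀ y ∈ T, e.g y = Th.g y)
    (hbd : ∀ z ∈ Z, z ∈ K → sl (grid F hQ hne hm) κf (Th.f z) c = 0)
    (hmem : ∀ z ∈ Z, z ∈ K → ∃ q : Gx P m, Th.f z ∈ (grid F hQ hne hm).cell (.gr q) ∧
      (grid F hQ hne hm).cell (.gr q) ⊆ T)
    (h0 : ∀ z ∈ Z, z ∈ K → EqAt (ekS (grid F hQ hne hm) b κ0 c fa lv e) g0 z)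
    (hg : ∀ z ∈ Z, z ∈ K → EqAt (sqs g0 β (n + 1)) g z)
    (hsq : SqEx (grid F hQ hne hm) b c)
    {gm : Gd V I} (hgm : ∀ z ∈ Z, z ∈ K → EqAt gm (g.merge fa hf) z)
    (hIs : gm.Is Z) (hcol : (cols gm m Z).Finite)
    (hG : ∀ x ∈ Z, (fun a => gm.G a x) ∈ G2 P m)
    (hff : ∀ q : Gx P m, q.free.Finite) {x : V} (hx : x ∈ Z) (hxK : x ∈ K) :
    gG (Tq b m) gm x
        = cG (grid F hQ hne hm) κf Th.f x ∧
      gtop hm q0 gm x
        = ctop (grid F hQ hne hm) κf c Th.f x ∧
      ∀ t ∈ (grid F hQ hne hm).cell (gtop hm q0 gm x),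
        gtr (co P b m) gm x t
          = ctr (grid F hQ hne hm) κf Th.f Th.g x t := by
  have hκf : 0 < κf ∧ κf < 1 := by
    rw [hκfd]; exact kf_pos hκ (bet_pos hb0 (n + 1)) (bet_le hb0 hb2 (n + 1))
  refine bg_of_eqAt X hm q0 hff hκf one_pos Th hIs hZc hK hcol hG
    (fun z hz => ⟨hz.2, hbd z hz.1 hz.2⟩) (fun z hz hzK => ?_) hx hxK
  have key := eqAt_R F hQ hne hm hκ c hinj hlt hsur hf e (A := Z ∩ K)
    (fun z hz => by
      rw [he z (hS z hz.1 hz.2)]
      obtain ⟨q, h1, -⟩ := hmem z hz.1 hz.2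
      exact ⟨q, h1⟩)
    (fun z hz => h0 z hz.1 hz.2) hb0 hb2 n (fun z hz => hg z hz.1 hz.2) hsq
    (z := z) ⟨hz, hzK⟩
  rw [← hκfd] at key
  refine (hgm z hz hzK).trans (key.symm.trans ?_)
  -- from `e` to `Th`
  have hzS := hS z hz hzK
  have hez := he z hzS
  refine ⟨fun a => ?_, fun a => ?_, fun a hB => ?_, fun a hB s hs => ?_⟩
  · show co P b m (st (grid F hQ hne hm) κf (Th.f z)) a = co P b m (st (grid F hQ hne hm) κf (e.f z)) a
    rw [hez]
  · show a ∈ Xp_537.fre (mn c (sl (grid F hQ hne hm) κf (Th.f z))) ↔ a ∈ Xp_537.fre (mn c (sl (grid F hQ hne hm) κf (e.f z)))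
    rw [hez]
  · show Xp_537.lof (mn c (sl (grid F hQ hne hm) κf (Th.f z))) a = Xp_537.lof (mn c (sl (grid F hQ hne hm) κf (e.f z))) a
    rw [hez]
  · classical
    show Th.g (pk (grid F hQ hne hm) κf (sl (grid F hQ hne hm) κf (Th.f z)) (Tq b m (Function.update (co P b m (st (grid F hQ hne hm) κf (Th.f z))) a
      (Xp_537.lof (mn c (sl (grid F hQ hne hm) κf (Th.f z))) a + 1/2 + s)))) =
      e.g (pk (grid F hQ hne hm) κf (sl (grid F hQ hne hm) κf (e.f z)) (Tq b m (Function.update (co P b m (st (grid F hQ hne hm) κf (e.f z))) a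
      (Xp_537.lof (mn c (sl (grid F hQ hne hm) κf (e.f z))) a + 1/2 + s))))
    rw [hez]
    refine (hei _ ?_).symm
    obtain ⟨q, hq, hqT⟩ := hmem z hz hzK
    refine hqT ?_
    have hB' : Th.f z ∈ (ek (grid F hQ hne hm) b κf c).B a := by
      show a ∈ Bin_181.fr (mn c (sl (grid F hQ hne hm) κf (Th.f z)))
      rw [← fre_eq, ← hez]
      exact hB
    have h3 := (tr_spec F hQ hne hm hκf c hq hB' hs).1
    have h4 : (ek (grid F hQ hne hm) b κf c).tr a (Th.f z, s) = pk (grid F hQ hne hm) κf (sl (grid F hQ hne hm) κf (Th.f z)) (Tq b m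
      (Function.update (co P b m (st (grid F hQ hne hm) κf (Th.f z))) a
        (Xp_537.lof (mn c (sl (grid F hQ hne hm) κf (Th.f z))) a + 1/2 + s))) := by
      rw [lof_eq]; rfl
    rw [← h4]
    exact h3

end Crest.Agent.R096.Xr_537
end

-- ▼ part R096/Gia2_537

/-!
# R096 (row 96), GIANTS-INST, part 2 (helper537)

* `coreF_zero`, `sl_zero_iff` : `sl κ y c = 0` iff `y` is in a proper face of `c`;
* `giant_R` : the clauses of `Fin_147.Giants` for a type R core from the squeezed exact structure;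
* `giants_of` : `Fin_147.Giants` from the data of every core.
-/

set_option autoImplicit false
set_option linter.unusedSectionVars false
set_option linter.unusedVariables false
set_option linter.deprecated false

open Set Filter Topology Metric

namespace Crest.Agent.R096.Gia_537

open Crest.Agent.R096.Ce_537 (PLOn PLEquiv cube sph IsBall Cplx)
open Crest.Agent.R096.Bd_416 Crest.Agent.R096.Mg_441
open Crest.Agent.R096.Brk1_582 Crest.Agent.R096.Brk2_582 Crest.Agent.R096.Brk6_582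
open Crest.Agent.R096.Grd_714
open Crest.Agent.R096.Bin_181
open Crest.Agent.R096.Xp_537 Crest.Agent.R096.Xr_537
open Crest.Agent.R096.Ar_241 (Tr0 TopC Exact)
open Crest.Agent.R096.Fin_147 (Giants)

section sl

variable {E : Type*} [NormedAddCommGroup E] [NormedSpace ℝ E] {Q : Type*} [PartialOrder Q]
  {Λ : Set E}


/-- **the boundary of a cell through the weights** -/
lemma sl_zero_iff (C : CC Λ Q) {κ : ℝ} (hκ : 0 < κ ∧ κ < 1) {c : Q} {y : E} (hy : y ∈ C.cell c) :
    sl C κ y c = 0 ↔ ∃ q < c, y ∈ C.cell q := by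
  constructor
  · intro h
    obtain ⟨h1, h2, h3⟩ := st_spec C hκ hy
    obtain ⟨p, hp, hst⟩ := h1.exists_top
    refine ⟨p, lt_of_le_of_ne (h3 p hp) ?_, ?_⟩
    · rintro rfl
      exact (Finsupp.mem_support_iff.1 hp) h
    · rw [← h2]
      exact pk_mem C hκ h1 hst.le
  · rintro ⟨q, hq, hyq⟩
    obtain ⟨-, -, h3⟩ := st_spec C hκ hyq
    by_contra hne
    exact absurd (h3 c (Finsupp.mem_support_iff.2 hne)) (not_le_of_gt hq)

end sl

/-- the boundary of a brick in the grid -/
def bdP {E : Type*} [NormedAddCommGroup E] [NormedSpace ℝ E] {I : Type*} {P : I → Set E}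
    {m : I → ℕ} {La : Set E} (C : CC La (Cel P m)) (a : I) : Set E :=
  {y | ∃ q : Gx P m, q.hi a = 0 ∧ y ∈ C.cell (.gr q)}

section bdP

variable {E : Type*} [NormedAddCommGroup E] [NormedSpace ℝ E] {I : Type*} {P : I → Set E}
    {m : I → ℕ} {La : Set E} (C : CC La (Cel P m)) (a : I)



end bdP

section mesh

variable {Q : Type} [PartialOrder Q] {dim : Q → ℕ} {J Fam : Type}
variable {E' : Type*} [NormedAddCommGroup E'] [NormedSpace ℝ E']
variable {Cc : Cmb Q dim J Fam} {K : Q → Set E'} {D : Set Q} {g : Gd E' J}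
  {Pp : ∀ q, Cc.I q → Set E'} {c : ∀ q, Cc.I q → E' → ℝ}
variable {E : Type*} [NormedAddCommGroup E] [NormedSpace ℝ E] {Pf : Fam → Set E}
  {hfin : ∀ a, {j | Cc.fam j = a}.Finite}

/-- finitely many columns meet a mesh cell -/
theorem cols_fin {La : Set E} {b : Set Fam → E} {N : ℕ} (F : Foam La Pf b N) (H : Inv Cc K D g Pp c)
    {q : Q} (hq : q ∈ D) {y : Fam → ℝ} (hy : Ex Cc Pf q y) :
    (cols (merge hfin g) (mm hfin) (K q)).Finite := by
  have h1 : {a | y a < 1}.Finite := F.K_finite hy.mem.1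
  refine h1.subset ?_
  rintro a ⟨x, hx, hne⟩
  by_contra hcon
  apply hne
  have h2 : ¬ y a < 1 := hcon
  have h3 : y a = 1 := le_antisymm (hy.mem.1.1 a).2 (not_lt.1 h2)
  have h4 := hy.one a h3
  obtain ⟨e1, e2⟩ := box_one H hfin hq hx h4.1 h4.2
  have hbx := G_mem_box H hfin hq hx a
  rw [e1, e2] at hbx
  exact le_antisymm hbx.2 hbx.1

/-- the two merged structures (416's `Gd.merge`, 441's `merge`) agree on the mesh -/
theorem merge_agree (H : Inv Cc K D g Pp c) {q : Q} (hq : q ∈ D) {z : E'} (hz : z ∈ K q) :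
    EqAt (merge hfin g) (g.merge Cc.fam hfin) z := by
  classical
  have hd := inv_DB H hq
  refine ⟨fun a => rfl, fun a => Iff.rfl, ?_, fun a hB s hs => rfl⟩
  rintro a ⟨j, rfl, hB⟩
  rw [Mg_441.merge_lev hfin hd hz hB,
    Bd_416.merge_lev (fun j j' hne hf h1 h2 => hd j j' hne hf z hz h1 h2) hB, H.lev0 hq j hz hB,
    add_zero]
  have hj : j ∈ sh hfin (Cc.fam j) := (mem_sh hfin).2 rfl
  have h1 := Finset.add_sum_erase (sh hfin (Cc.fam j)) (fun j' => g.G j' z) hj
  have h2 : (g.merge Cc.fam hfin).G (Cc.fam j) z = ∑ j' ∈ sh hfin (Cc.fam j), g.G j' z := rfl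
  rw [h2, ← h1]
  ring

variable {La : Set E} {b : Set Fam → E} [CompleteSpace E] [FiniteDimensional ℝ E]






end mesh

end Crest.Agent.R096.Gia_537
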