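import Mathlib
import Crest.Agent.R96.Nu8_199
import Crest.Agent.R096.Mrg2_715
import Crest.Agent.R096.Mrg5_715

-- ▼ part R096/Csub1_487
section

/-!
# R096 (row 96), helper487.  Subcomplexes of a complex of 537, `tile_piece` for the cells of a tiling
which are not inside the giant cores (199 #10196 (L1)).

* `cplx_down` : the cells of a down-closed set form a `Cplx` of their union.
* `DK T Kc` : the cells of `T` which miss the interiors of the sets `Kc k`; `cplx_DK` : they form a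
  `Cplx` of `Om \ ⋃ interior (Kc k)`; `tile_mem_DK` : the tiles not inside a core are in `DK`.
* `tile_piece_D`, `tile_fam_D` : 199's `tile_piece_T`, `tile_fam_T` for the cells of any down-closed
  set of cells of a tiling.
-/

set_option autoImplicit false
set_option linter.unusedSectionVars false

open Set Metric Filter Topology

namespace Crest.Agent.R096.Csub_487

open Crest.Agent.R096.Ce_537 Crest.Agent.R096.Bd_416 Crest.Agent.R096.Msh_715
open Crest.Agent.R96.Nu3_199 Crest.Agent.R96.Nu5_199 Crest.Agent.R96.Nu6_199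
open Crest.Agent.R96.Nu7_199 Crest.Agent.R96.Nu8_199

open scoped Classical

noncomputable section

section Down

variable {E : Type*} [NormedAddCommGroup E] [NormedSpace ℝ E]
variable {Ω Ω' : Set E} {I : Type*} [PartialOrder I] {dim : I → ℕ} {K : I → Set E}

/-- **SUBCOMPLEX**: the cells of a down-closed set form a complex of their union. -/
theorem cplx_down (X : Cplx Ω I dim K) {D : Set I} (hD : ∀ q ∈ D, ∀ r, r ≤ q → r ∈ D)
    (hΩ : Ω' = ⋃ q ∈ D, K q) :
    Cplx Ω' {q // q ∈ D} (fun q => dim q.1) (fun q => K q.1) where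
  isBall q := by
    have h : (⋃ j ∈ {j : {q // q ∈ D} | j < q}, K j.1) = ⋃ j ∈ {j : I | j < q.1}, K j := by
      ext x
      simp only [mem_iUnion, mem_ofPred_eq, exists_prop]
      constructor
      · rintro ⟨j, hj, hx⟩
        exact ⟨j.1, hj, hx⟩
      · rintro ⟨j, hj, hx⟩
        exact ⟨⟨j, hD q.1 q.2 j hj.le⟩, hj, hx⟩
    rw [h]
    exact X.isBall q.1
  mono q j h := X.mono q.1 j.1 h
  disj q j x h1 h2 := by
    have key : ∀ q : {q // q ∈ D}, Opn (fun q : {q // q ∈ D} => K q.1) q x → Opn K q.1 x :=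
      fun q h => ⟨h.1, fun j hj => h.2 ⟨j, hD q.1 q.2 j hj.le⟩ hj⟩
    exact Subtype.ext (X.disj q.1 j.1 x (key q h1) (key j h2))
  sub q := by
    rw [hΩ]
    exact subset_biUnion_of_mem q.2
  cover x hx := by
    rw [hΩ] at hx
    simp only [mem_iUnion, exists_prop] at hx
    obtain ⟨q, hq, hx⟩ := hx
    exact ⟨⟨q, hq⟩, hx⟩
  lf x hx := by
    have hx' : x ∈ Ω := by
      rw [hΩ] at hx
      simp only [mem_iUnion, exists_prop] at hx
      obtain ⟨q, hq, hx⟩ := hx
      exact X.sub q hx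
    obtain ⟨r, hr, hf⟩ := X.lf x hx'
    refine ⟨r, hr, Set.Finite.of_finite_image (f := Subtype.val) (hf.subset ?_)
      Subtype.val_injective.injOn⟩
    rintro _ ⟨q, hq, rfl⟩
    exact hq

end Down

section Tile

variable {E : Type} [NormedAddCommGroup E] [NormedSpace ℝ E] [FiniteDimensional ℝ E]
variable {Om : Set E} {ι : Type} {κ : Type*} {T : Tiling Om ι}

/-- the cells which miss the interiors of the cores -/
def DK (T : Tiling Om ι) (Kc : κ → Set E) : Set T.Cell :=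
  {c | ∀ k, Disjoint c.set (interior (Kc k))}

variable {Kc : κ → Set E}

theorem DK_down : ∀ q ∈ DK T Kc, ∀ r, r ≤ q → r ∈ DK T Kc := fun _ hq _ hr k =>
  (hq k).mono_left (Tiling.Cell.le_def.1 hr)

/-- a closed cell through a point off the interior of a core misses this interior -/
theorem cc_disj {K : Set E} (hcl : IsClosed K) (hs : ∀ x ∈ frontier K, T.cc x ⊆ frontier K)
    {x : E} (hx : x ∈ Om) (hxK : x ∉ interior K) : Disjoint (T.cc x) (interior K) := by
  rw [Set.disjoint_left]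
  intro y hy hyK
  apply hxK
  obtain ⟨r, hr, hO, hb⟩ := T.exists_ball hx
  refine interior_maximal ?_ isOpen_ball (mem_ball_self hr)
  intro w hw
  obtain ⟨q, hq⟩ := T.at_nonempty (hO hw)
  have hqx : q ∈ T.at_ x := hb w hw hq
  have hyq : y ∈ P (T.H q) := T.cc_sub_tile hqx hy
  exact T.sub_of_mem_interior hcl hs hyq hyK hq

/-- **THE COMPLEX OUTSIDE THE CORES** -/
theorem cplx_DK (hcl : ∀ k, IsClosed (Kc k))
    (hs : ∀ k, ∀ x ∈ frontier (Kc k), T.cc x ⊆ frontier (Kc k)) :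
    Cplx (Om \ ⋃ k, interior (Kc k)) {q // q ∈ DK T Kc} (fun q => q.1.dim) (fun q => q.1.set) := by
  refine cplx_down T.cplx DK_down ?_
  ext x
  simp only [Set.mem_sdiff, mem_iUnion, not_exists, exists_prop]
  constructor
  · rintro ⟨hx, hxK⟩
    refine ⟨T.cl hx, fun k => ?_, ?_⟩
    · rw [T.cl_set hx]
      exact cc_disj (hcl k) (hs k) hx (hxK k)
    · rw [T.cl_set hx]
      exact T.self_mem_cc x
  · rintro ⟨q, hq, hx⟩
    exact ⟨T.cplx.sub q hx, fun k hk => Set.disjoint_left.1 (hq k) hx hk⟩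



/-- the cells of the frontier of a core are cells of `DK` -/
theorem frontier_mem_DK (hcl : ∀ k, IsClosed (Kc k))
    (hdis : ∀ k l, k ≠ l → Disjoint (Kc k) (Kc l)) {k : κ} {c : T.Cell}
    (hc : c.set ⊆ frontier (Kc k)) : c ∈ DK T Kc := by
  intro l
  by_cases hkl : k = l
  · subst hkl
    exact disjoint_interior_frontier.symm.mono_left hc
  · exact (hdis k l hkl).mono (hc.trans (hcl k).frontier_subset) interior_subset

variable {J Fam : Type} {D : Set T.Cell}
  {C : Cmb {q // q ∈ D} (fun c => c.1.dim) J Fam} {R : Set {q // q ∈ D}} {K₀ ε : ℝ}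
  {b : ℕ → ℝ} {wt : J → ℝ} {δ : {q // q ∈ D} → ℝ} {g0 : Gd E J}
  {P0 : ∀ q, C.I q → Set E} {c0 : ∀ q, C.I q → E → ℝ} {Ω' : Set E}



end Tile

end

end Crest.Agent.R096.Csub_487
end

-- ▼ part R096/Csub2_487

/-!
# R096 (row 96), helper487.  A complex with extra (giant) cells (117 #10271 (2)).

* `cplx_glue` : if `X` is a complex (537) and `Kc k` are pairwise disjoint 3-balls the boundaries of
  which are unions of cells `B k q`, the cells of `X` together with the `Kc k` form a complex, for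
  every index type `Q'` with `il : Q → Q'`, `ir : κ → Q'` (in particular `Q ⊕ κ`).
* `cplx_core` : the instance for a tiling: cells outside the cores and the cores themselves.
-/

set_option autoImplicit false
set_option linter.unusedSectionVars false

open Set Metric Filter Topology Module

namespace Crest.Agent.R096.Csub_487

open Crest.Agent.R096.Ce_537 Crest.Agent.R096.Msh_715

open scoped Classical

noncomputable section

section Glue

variable {E : Type*} [NormedAddCommGroup E] [NormedSpace ℝ E]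

/-- **EXTRA CELLS** -/
theorem cplx_glue {Q κ Q' : Type*} [PartialOrder Q] [PartialOrder Q'] {Ω' Ω : Set E}
    {dim : Q → ℕ} {K : Q → Set E} (X : Cplx Ω' Q dim K) (Kc : κ → Set E) (B : κ → Q → Prop)
    {il : Q → Q'} {ir : κ → Q'} (hall : ∀ j, (∃ q, j = il q) ∨ ∃ k, j = ir k)
    (hil : ∀ q q', il q < il q' ↔ q < q') (hir : ∀ k j, ¬ ir k < j)
    (hB : ∀ q k, il q < ir k ↔ B k q)
    {dim' : Q' → ℕ} {K' : Q' → Set E} (d1 : ∀ q, dim' (il q) = dim q) {n : ℕ}
    (d2 : ∀ k, dim' (ir k) = n) (k1 : ∀ q, K' (il q) = K q) (k2 : ∀ k, K' (ir k) = Kc k)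
    (ball_ : ∀ k, IsBall n (Kc k) (⋃ q ∈ {q | B k q}, K q))
    (dlt : ∀ k q, B k q → dim q < n)
    (sep : ∀ k q x, x ∈ K q → x ∈ Kc k → ∃ q', B k q' ∧ x ∈ K q')
    (dis : ∀ k l, k ≠ l → Disjoint (Kc k) (Kc l))
    (sub1 : Ω' ⊆ Ω) (sub2 : ∀ k, Kc k ⊆ Ω) (cov : ∀ x ∈ Ω, x ∈ Ω' ∨ ∃ k, x ∈ Kc k)
    (lf : ∀ x ∈ Ω, ∃ r > 0, {q | (K q ∩ ball x r).Nonempty}.Finite ∧
      {k | (Kc k ∩ ball x r).Nonempty}.Finite) :
    Cplx Ω Q' dim' K' where
  isBall j := by
    rcases hall j with ⟨q, rfl⟩ | ⟨k, rfl⟩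
    · have h : (⋃ j ∈ {j : Q' | j < il q}, K' j) = ⋃ j ∈ {j : Q | j < q}, K j := by
        ext x
        simp only [mem_iUnion, mem_ofPred_eq, exists_prop]
        constructor
        · rintro ⟨j, hj, hx⟩
          rcases hall j with ⟨q', rfl⟩ | ⟨k, rfl⟩
          · exact ⟨q', (hil q' q).1 hj, by rwa [k1] at hx⟩
          · exact absurd hj (hir k _)
        · rintro ⟨q', hj, hx⟩
          exact ⟨il q', (hil q' q).2 hj, by rwa [k1]⟩
      rw [h, d1, k1]
      exact X.isBall q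
    · have h : (⋃ j ∈ {j : Q' | j < ir k}, K' j) = ⋃ q ∈ {q | B k q}, K q := by
        ext x
        simp only [mem_iUnion, mem_ofPred_eq, exists_prop]
        constructor
        · rintro ⟨j, hj, hx⟩
          rcases hall j with ⟨q', rfl⟩ | ⟨l, rfl⟩
          · exact ⟨q', (hB q' k).1 hj, by rwa [k1] at hx⟩
          · exact absurd hj (hir l _)
        · rintro ⟨q', hj, hx⟩
          exact ⟨il q', (hB q' k).2 hj, by rwa [k1]⟩
      rw [h, d2, k2]
      exact ball_ k
  mono j i h := by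
    rcases hall i with ⟨q', rfl⟩ | ⟨l, rfl⟩
    · rcases hall j with ⟨q, rfl⟩ | ⟨k, rfl⟩
      · rw [d1, d1]
        exact X.mono _ _ ((hil _ _).1 h)
      · rw [d1, d2]
        exact dlt k q' ((hB q' k).1 h)
    · exact absurd h (hir l _)
  disj i j x h1 h2 := by
    have key : ∀ q, Opn K' (il q) x → Opn K q x := fun q h =>
      ⟨k1 q ▸ h.1, fun j hj hx => h.2 (il j) ((hil _ _).2 hj) (by rwa [k1])⟩
    have mix : ∀ q k, Opn K' (il q) x → Opn K' (ir k) x → False := by
      intro q k h h'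
      obtain ⟨q', hq', hx⟩ := sep k q x (k1 q ▸ h.1) (k2 k ▸ h'.1)
      exact h'.2 (il q') ((hB q' k).2 hq') (by rwa [k1])
    rcases hall i with ⟨q, rfl⟩ | ⟨k, rfl⟩ <;> rcases hall j with ⟨q', rfl⟩ | ⟨l, rfl⟩
    · rw [X.disj q q' x (key q h1) (key q' h2)]
    · exact absurd (mix q l h1 h2) id
    · exact absurd (mix q' k h2 h1) id
    · by_cases hkl : k = l
      · rw [hkl]
      · exact absurd (k2 l ▸ h2.1) (Set.disjoint_left.1 (dis k l hkl) (k2 k ▸ h1.1))
  sub j := by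
    rcases hall j with ⟨q, rfl⟩ | ⟨k, rfl⟩
    · rw [k1]; exact (X.sub q).trans sub1
    · rw [k2]; exact sub2 k
  cover x hx := by
    rcases cov x hx with h | ⟨k, h⟩
    · obtain ⟨q, hq⟩ := X.cover x h
      exact ⟨il q, by rwa [k1]⟩
    · exact ⟨ir k, by rwa [k2]⟩
  lf x hx := by
    obtain ⟨r, hr, h1, h2⟩ := lf x hx
    refine ⟨r, hr, ((h1.image il).union (h2.image ir)).subset ?_⟩
    intro j hj
    rcases hall j with ⟨q, rfl⟩ | ⟨k, rfl⟩
    · left
      exact ⟨q, by simpa only [mem_ofPred_eq, k1] using hj, rfl⟩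
    · right
      exact ⟨k, by simpa only [mem_ofPred_eq, k2] using hj, rfl⟩

end Glue

section Tile

variable {E : Type} [NormedAddCommGroup E] [NormedSpace ℝ E] [FiniteDimensional ℝ E]
variable {Om : Set E} {ι : Type} {κ : Type*} {T : Tiling Om ι} {Kc : κ → Set E}

/-- the cells outside the cores are exactly the cells of the tiles outside the cores -/
theorem mem_DK_iff (hcl : ∀ k, IsClosed (Kc k))
    (hs : ∀ k, ∀ x ∈ frontier (Kc k), T.cc x ⊆ frontier (Kc k))
    (hKO : ∀ k, Kc k ⊆ Om) (hdis : ∀ k l, k ≠ l → Disjoint (Kc k) (Kc l)) {c : T.Cell} :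
    c ∈ DK T Kc ↔ ∃ i, (∀ k, ¬ P (T.H i) ⊆ Kc k) ∧ c.set ⊆ P (T.H i) := by
  constructor
  · intro hc
    by_cases h : ∃ k, c.pt ∈ Kc k
    · obtain ⟨k, hk⟩ := h
      have hfr : c.pt ∈ frontier (Kc k) := by
        rw [(hcl k).frontier_eq]
        refine ⟨hk, fun hi => ?_⟩
        have h1 : c.pt ∈ c.set := by rw [c.set_eq]; exact T.self_mem_cc _
        exact Set.disjoint_left.1 (hc k) h1 hi
      obtain ⟨i, hi, hiK⟩ := T.exists_outer (hcl k) (hKO k) hfr
      refine ⟨i, fun l hl => ?_, ?_⟩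
      · by_cases hkl : k = l
        · subst hkl; exact hiK hl
        · exact Set.disjoint_left.1 (hdis k l hkl) hk (hl hi)
      · rw [c.set_eq]
        exact T.cc_sub_tile hi
    · push Not at h
      obtain ⟨i, hi⟩ := T.at_nonempty c.pt_mem
      exact ⟨i, fun k hk => h k (hk hi), by rw [c.set_eq]; exact T.cc_sub_tile hi⟩
  · rintro ⟨i, hi, hc⟩ k
    rcases T.tile_dich (hcl k) (hs k) i with h | h
    · exact absurd h.1 (hi k)
    · exact h.2.2.mono_left hc

/-- the cells of the frontier of a core cover it -/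
theorem biUnion_frontier (hcl : ∀ k, IsClosed (Kc k))
    (hs : ∀ k, ∀ x ∈ frontier (Kc k), T.cc x ⊆ frontier (Kc k))
    (hKO : ∀ k, Kc k ⊆ Om) (hdis : ∀ k l, k ≠ l → Disjoint (Kc k) (Kc l)) (k : κ) :
    (⋃ q ∈ {q : {q // q ∈ DK T Kc} | q.1.set ⊆ frontier (Kc k)}, q.1.set) = frontier (Kc k) := by
  ext x
  simp only [mem_iUnion, mem_ofPred_eq, exists_prop]
  constructor
  · rintro ⟨q, hq, hx⟩
    exact hq hx
  · intro hx
    have hxO : x ∈ Om := hKO k ((hcl k).frontier_subset hx)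
    have h1 : (T.cl hxO).set ⊆ frontier (Kc k) := by
      rw [T.cl_set hxO]; exact hs k x hx
    refine ⟨⟨T.cl hxO, frontier_mem_DK hcl hdis h1⟩, h1, ?_⟩
    rw [T.cl_set hxO]
    exact T.self_mem_cc x

/-- only finitely many cores near a point -/
theorem lf_core (hc : ∀ k, Core (Kc k))
    (hs : ∀ k, ∀ x ∈ frontier (Kc k), T.cc x ⊆ frontier (Kc k))
    (hKO : ∀ k, Kc k ⊆ Om) (hdis : ∀ k l, k ≠ l → Disjoint (Kc k) (Kc l)) {x : E} (hx : x ∈ Om) :
    ∃ r > 0, {k | (Kc k ∩ ball x r).Nonempty}.Finite := by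
  obtain ⟨r, hr, hf⟩ := T.lf x hx
  refine ⟨r, hr, ?_⟩
  have h1 : ∀ k, (Kc k ∩ ball x r).Nonempty → ∃ q, P (T.H q) ⊆ Kc k ∧
      (P (T.H q) ∩ ball x r).Nonempty := by
    rintro k ⟨y, hy, hyb⟩
    obtain ⟨q, hq, hqK⟩ := T.exists_inner (hc k) (hKO k) (hs k) hy
    exact ⟨q, hqK, y, hq, hyb⟩
  obtain ⟨q0, -⟩ := T.cov x hx
  have : Nonempty ι := ⟨q0⟩
  choose! q hq using h1
  refine Set.Finite.of_finite_image (f := q) (hf.subset ?_) ?_
  · rintro _ ⟨k, hk, rfl⟩
    exact (hq k hk).2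
  · intro k hk l hl hkl
    by_contra hne
    obtain ⟨z, hz⟩ := T.ne (q k)
    have h2 : z ∈ Kc k := (hq k hk).1 (I_sub_P _ hz)
    have h3 : z ∈ Kc l := (hq l hl).1 (by rw [← hkl]; exact I_sub_P _ hz)
    exact Set.disjoint_left.1 (hdis k l hne) h2 h3

/-- **THE COMPLEX OF A TILING WITH GIANT CELLS** : `Q'` any index type over the cells outside the
cores and the cores (`QK` of 117). -/
theorem cplx_core (h3 : finrank ℝ E = 3) (hc : ∀ k, Core (Kc k))
    (hs : ∀ k, ∀ x ∈ frontier (Kc k), T.cc x ⊆ frontier (Kc k))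
    (hKO : ∀ k, Kc k ⊆ Om) (hdis : ∀ k l, k ≠ l → Disjoint (Kc k) (Kc l))
    (hball : ∀ k, IsBall 3 (Kc k) (frontier (Kc k)))
    {Q' : Type*} [PartialOrder Q'] {il : {q // q ∈ DK T Kc} → Q'} {ir : κ → Q'}
    (hall : ∀ j, (∃ q, j = il q) ∨ ∃ k, j = ir k)
    (hil : ∀ q q', il q < il q' ↔ q < q') (hir : ∀ k j, ¬ ir k < j)
    (hB : ∀ q k, il q < ir k ↔ q.1.set ⊆ frontier (Kc k))
    {dim' : Q' → ℕ} {K' : Q' → Set E} (d1 : ∀ q, dim' (il q) = q.1.dim)
    (d2 : ∀ k, dim' (ir k) = 3) (k1 : ∀ q, K' (il q) = q.1.set) (k2 : ∀ k, K' (ir k) = Kc k) :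
    Cplx Om Q' dim' K' := by
  have hcl : ∀ k, IsClosed (Kc k) := fun k => (hc k).closed
  refine cplx_glue (cplx_DK hcl hs) Kc (fun k q => q.1.set ⊆ frontier (Kc k)) hall hil hir hB d1 d2
    k1 k2 (fun k => ?_) (fun k q hq => ?_) (fun k q x hx hxk => ?_) hdis Set.sdiff_subset hKO
    (fun x hx => ?_) (fun x hx => ?_)
  · rw [biUnion_frontier hcl hs hKO hdis k]
    exact hball k
  · have h1 : q.1.pt ∈ frontier (Kc k) := hq (by rw [q.1.set_eq]; exact T.self_mem_cc _)
    have h2 := dim_le_two (T := T) h3 (hc k) (hKO k) (hs k) h1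
    have h4 : q.1.dim = T.dim q.1.pt := rfl
    omega
  · have hfr : x ∈ frontier (Kc k) := by
      rw [(hcl k).frontier_eq]
      exact ⟨hxk, fun hi => Set.disjoint_left.1 (q.2 k) hx hi⟩
    have h1 := (biUnion_frontier hcl hs hKO hdis k).ge hfr
    simp only [mem_iUnion, mem_ofPred_eq, exists_prop] at h1
    exact h1
  · by_cases h : ∃ k, x ∈ Kc k
    · exact Or.inr h
    · left
      refine ⟨hx, fun h' => h ?_⟩
      simp only [mem_iUnion] at h'
      obtain ⟨k, hk⟩ := h'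
      exact ⟨k, interior_subset hk⟩
  · obtain ⟨r1, hr1, h1⟩ := T.cplx.lf x hx
    obtain ⟨r2, hr2, h2⟩ := lf_core hc hs hKO hdis hx
    refine ⟨min r1 r2, lt_min hr1 hr2, ?_, ?_⟩
    · refine Set.Finite.of_finite_image (f := Subtype.val) (h1.subset ?_)
        Subtype.val_injective.injOn
      rintro _ ⟨q, ⟨y, hy1, hy2⟩, rfl⟩
      exact ⟨y, hy1, ball_subset_ball (min_le_left _ _) hy2⟩
    · refine h2.subset ?_
      rintro k ⟨y, hy1, hy2⟩
      exact ⟨y, hy1, ball_subset_ball (min_le_right _ _) hy2⟩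

end Tile

end

end Crest.Agent.R096.Csub_487
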