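import Crest.Agent.R096.Nr5_527
import Crest.Agent.R096.Gia2_537
import Crest.Agent.R096.Oa3_527
import Crest.Agent.R096.Grd8_714
import Crest.Agent.R096.Grd9_714
import Crest.Agent.R096.P2f_241

-- ▼ part R096/Gia1_537
section

/-!
# R096 (row 96), GIANTS-INST, part 1 (helper537): the geometry of the family of all cores

`Mbf_337.Cores` (exact and tiny cores).  `Kc T J c := KJ T (J c)` (for `c ∈ X` this is the core tile):
compact, inside `Om`, pairwise disjoint, locally finite; `X0 T J` = complement of the open cores: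
closed; `Om ⊆ X0 ∪ ⋃ Kc`; in `Kc c`: `x ∈ X0 ↔ x ∈ frontier (Kc c)`.
-/

set_option autoImplicit false
set_option linter.unusedSectionVars false

open Set Filter Topology Metric

namespace Crest.Agent.R096.Gia_537

open Crest.Agent.R096.Brk1_582 Crest.Agent.R096.Brk3_582
open Crest.Agent.R096.Brk5_582
open Crest.Agent.R096.Bsp_628
open Crest.Agent.R096.SkC1_961 (E3 Hom3 FoamD Cfg th NN)
open Crest.Agent.R096.Msh_715
open Crest.Agent.R96.Push_899
open Crest.Agent.R096.Mbf_337 (KJ sb gau)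
open Crest.Agent.R096.Nr_527 (mem_KJ J_sub J0_sub V_inside open_only)

variable {δ κ0 R c0 : ℝ} {La Om : Set E3} {ι : Type} {Φ : FoamD δ κ0 R c0 La}
  {T : Tiling Om ι} {f : E3 → E3} {κ1 κ2 : ℝ} {X : Set Φ.F} {J0 J V : Φ.F → Set ι} {ct : Φ.F → ι}
  {A : Φ.F → E3 ≃ᵃ[ℝ] E3} {lam : Φ.F → ℝ} {z : Φ.F → E3} {θ : Φ.F → E3 → E3} {φ : Φ.F → E3 → ℝ}

/-- the tiles of a core are finitely many -/
theorem V_finite (hC : Mbf_337.Cores Φ T f κ1 κ2 X J0 J V ct A lam z θ φ) (c : Φ.F) :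
    (V c).Finite := by
  by_cases hc : c ∈ X
  · rw [(hC.one c hc).2.2]; exact Set.finite_singleton _
  · exact (hC.tiny c hc).finV

theorem J_finite (hC : Mbf_337.Cores Φ T f κ1 κ2 X J0 J V ct A lam z θ φ) (c : Φ.F) :
    (J c).Finite := (V_finite hC c).subset (J_sub hC c)

theorem KJ_mono {K K' : Set ι} (h : K ⊆ K') : KJ T K ⊆ KJ T K' := by
  intro x hx
  obtain ⟨i, hi, hxi⟩ := mem_KJ.1 hx
  exact mem_KJ.2 ⟨i, h hi, hxi⟩

theorem KJ_sub_Om {K : Set ι} : KJ T K ⊆ Om := by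
  intro x hx
  obtain ⟨i, hi, hxi⟩ := mem_KJ.1 hx
  exact T.sub i hxi

theorem KJ_compact {K : Set ι} (hK : K.Finite) : IsCompact (KJ T K) :=
  hK.isCompact_biUnion fun i _ => T.cpt i

/-- **disjoint as sets** -/
theorem KV_disj (hLa : IsOpen La) (hC : Mbf_337.Cores Φ T f κ1 κ2 X J0 J V ct A lam z θ φ)
    {c c' : Φ.F} (hne : c ≠ c') : Disjoint (KJ T (V c)) (KJ T (V c')) := by
  rw [disjoint_left]
  intro x hx hx'
  have h1 := open_only Φ hLa (V_inside hC hx)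
  have h2 := open_only Φ hLa (V_inside hC hx')
  exact hne (h2.2 c h1.1)

/-- the core of the brick `c` -/
abbrev Kc (T : Tiling Om ι) (J : Φ.F → Set ι) (c : Φ.F) : Set E3 := KJ T (J c)

theorem Kc_sub (c : Φ.F) : Kc T J c ⊆ Om := KJ_sub_Om

theorem Kc_compact (hC : Mbf_337.Cores Φ T f κ1 κ2 X J0 J V ct A lam z θ φ) (c : Φ.F) :
    IsCompact (Kc T J c) := KJ_compact (J_finite hC c)

theorem Kc_disj (hLa : IsOpen La) (hC : Mbf_337.Cores Φ T f κ1 κ2 X J0 J V ct A lam z θ φ)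
    {c c' : Φ.F} (hne : c ≠ c') : Disjoint (Kc T J c) (Kc T J c') :=
  (KV_disj hLa hC hne).mono (KJ_mono (J_sub hC c)) (KJ_mono (J_sub hC c'))

theorem Kc_exact (hC : Mbf_337.Cores Φ T f κ1 κ2 X J0 J V ct A lam z θ φ) {c : Φ.F} (hc : c ∈ X) :
    Kc T J c = P (T.H (ct c)) := by
  show KJ T (J c) = _
  rw [(hC.one c hc).2.1]
  simp [KJ]



/-- complement of the open cores -/
def X0 (T : Tiling Om ι) (J : Φ.F → Set ι) : Set E3 := (⋃ c : Φ.F, interior (Kc T J c))ᶜ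


theorem cov : Om ⊆ X0 (Φ := Φ) T J ∪ ⋃ c : Φ.F, Kc T J c := by
  intro x _
  by_cases h : x ∈ ⋃ c : Φ.F, interior (Kc T J c)
  · obtain ⟨c, hc⟩ := mem_iUnion.1 h
    exact Or.inr (mem_iUnion.2 ⟨c, interior_subset hc⟩)
  · exact Or.inl h






end Crest.Agent.R096.Gia_537
end

-- ▼ part R096/Gia3_537

/-!
# R096 (row 96), GOUT-ASM (helper537)

`gout_of` : the conclusion `GOut` of `Oa_527.MachG` from the final data of the bottom half:
cores (`Mbf_337.Cores`, `Fine`), the mesh `Xc : Cplx (Om ∩ X0) Q dim K` with the band structure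
`H : Inv Cc K univ g`, (K4) at `Psi (f x0)`, the charts of the cores (`CoreTh`), arcs, sheets and the
two metric clauses (`lip` for `gG` on the tiles, `core` for `cG` on the exact cores).
-/

set_option autoImplicit false
set_option linter.unusedSectionVars false
set_option linter.unusedVariables false
set_option linter.deprecated false
set_option linter.style.longLine false

open Set Filter Topology Metric MeasureTheory Module
open scoped ENNReal

namespace Crest.Agent.R096.Gia_537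

open Crest.Agent.R096.Ce_537 (PLOn PLEquiv cube sph IsBall Cplx)
open Crest.Agent.R096.Bd_416 Crest.Agent.R096.Mg_441
open Crest.Agent.R096.Brk1_582 Crest.Agent.R096.Brk2_582 Crest.Agent.R096.Brk3_582
open Crest.Agent.R096.Brk5_582 Crest.Agent.R096.Brk6_582
open Crest.Agent.R096.Bsp_628
open Crest.Agent.R096.Grd_714
open Crest.Agent.R096.Xp_537
open Crest.Agent.R096.Ar_241 (Tr0 TopC Exact cod SheetData)
open Crest.Agent.R096.Ar_241.Tr0 (P2)
open Crest.Agent.R096.Shp_334 (OnMesh)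
open Crest.Agent.R096.Fin_147 (Giants XM)
open Crest.Agent.R096.SkC1_961 (E3 Hom3 FoamD Cfg th NN)
open Crest.Agent.R096.Msh_715
open Crest.Agent.R96.Push_899
open Crest.Agent.R096.Mbf_337 (KJ)
open Crest.Agent.R096.Nr_527
open Crest.Agent.R096.Oa_527 (GOut OutG)

variable {δ κ0 R c0 : ℝ} {La Om : Set E3} {ι : Type} {Φ : FoamD δ κ0 R c0 La}
  {T : Tiling Om ι} {f : E3 → E3} {κ1 κ2 : ℝ} {X : Set Φ.F} {J0 J V : Φ.F → Set ι} {ct : Φ.F → ι}
  {A : Φ.F → E3 ≃ᵃ[ℝ] E3} {lam : Φ.F → ℝ} {z : Φ.F → E3} {θ : Φ.F → E3 → E3} {φ : Φ.F → E3 → ℝ}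

theorem foam4 (Φ : FoamD δ κ0 R c0 La) (hLa : IsOpen La) : Foam La (Pc Φ.F) (bc (F := Φ.F)) 4 := by
  have := foam Φ.bf hLa
  simpa using this

theorem quads4 (Φ : FoamD δ κ0 R c0 La) : Quads (Pc Φ.F) (bc (F := Φ.F)) :=
  quads_box Φ.bf (by simp)

theorem ne4 (Φ : FoamD δ κ0 R c0 La) (c : Φ.F) : (Pc Φ.F c).Nonempty := by
  refine ⟨c.1.lo, Bx.mem_set.2 fun k => ⟨le_rfl, ?_⟩⟩
  have := Bx.side_pos (Φ.bf.pos _ c.2) k
  unfold Bx.side at this
  linarith

section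

variable {Q : Type} [PartialOrder Q] {dim : Q → ℕ} {Jf : Type} {Cc : Cmb Q dim Jf Φ.F}
  {K : Q → Set E3} {g : Gd E3 Jf} {Pp : ∀ q, Cc.I q → Set E3} {cc : ∀ q, Cc.I q → E3 → ℝ}
  {hfin : ∀ a, {j | Cc.fam j = a}.Finite}


/-- the cores, indexed by the top cells of the grid -/
noncomputable abbrev KT (T : Tiling Om ι) (J : Φ.F → Set ι) (m : Φ.F → ℕ) :
    TopC (Cel (Pc Φ.F) m) → Set E3 := fun c => Kc T J (tix c)

/-- the parameters -/
noncomputable abbrev KK (κc : Φ.F → ℝ) (m : Φ.F → ℕ) : TopC (Cel (Pc Φ.F) m) → ℝ :=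
  fun c => κc (tix c)

/-- **(K4) at `Psi (f x0)`** -/
def K4 (f : E3 → E3) (Φ : FoamD δ κ0 R c0 La) (T : Tiling Om ι) (J : Φ.F → Set ι)
    (Cc : Cmb Q dim Jf Φ.F) (K : Q → Set E3) : Prop :=
  ∀ q, ∃ i, (∀ c, i ∉ J c) ∧ K q ⊆ P (T.H i) ∧ ∃ x0 ∈ P (T.H i),
    Ex Cc (Pc Φ.F) q (sc (Pc Φ.F) (bc (F := Φ.F)) (Φ.Psi (f x0)))

theorem K4.ex (h : K4 f Φ T J Cc K) (q : Q) : ∃ y, Ex Cc (Pc Φ.F) q y := by
  obtain ⟨i, -, -, x0, -, h1⟩ := h q
  exact ⟨_, h1⟩






end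

end Crest.Agent.R096.Gia_537
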