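import Crest.Agent.R096.Shg4_334
import Crest.Agent.R096.Shg2_914
import Crest.Agent.R096.Lm10_117
import Crest.Agent.R096.Csub3_487

/-!
# R096 (row 96), ARR-SH (helper334), GIANT part 5: labelled meshes and tilings with cores

* `gnt_lm` : `Gnt` over a labelled mesh `L : LM M Q dim` (117);
* `gcO`, `top3O'`, `gntO`, `dicO` : the inputs of `sheet_giant` for a tiling with cores
  (715's `meshK`, 117's `lmO`, 487's complex outside the cores, 914's `cmbO`);
* `sheet_tiling` : the sheets over `meshK`, (E1) = `One1` as input.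
-/

set_option autoImplicit false
set_option linter.unusedSectionVars false

open Set Metric Topology Module

namespace Crest.Agent.R096.Shg_334

open Crest.Agent.R096.Ce_537 Crest.Agent.R096.Bd_416 Crest.Agent.R096.Shp_334
  Crest.Agent.R096.Seq_213 Crest.Agent.R096.St_147 Crest.Agent.R096.Lm_117

/-- **(E1)** at the tile `q`: the sheet `j` has at most one cycle on the boundary of the tile -/
def One1 {ι Φ W J Fam : Type} {M : MeshC ι Φ W} {fam : J → Fam} (s : GSt M fam) (j : J) (q : ι) :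
    Prop :=
  ∀ Z : Set W, (∀ F w, q ∈ M.side F → w ∈ Z → s.At F w → s.lab w = j → s.mu F w ∈ Z) →
    ∀ F w F' w', q ∈ M.side F → q ∈ M.side F' → s.At F w → s.At F' w' →
      s.lab w = j → s.lab w' = j → w ∈ Z → w' ∈ Z

section lm

variable {ι Φ W Q J Fam κ : Type} {M : MeshC ι Φ W} [PartialOrder Q] {dim : Q → ℕ}
variable {L : LM M Q dim} {fam : J → Fam} {s : GSt M fam}

/-- 117's `Bel` as `BdD` -/
def bdB (b : Bel Q κ) : BdD Q κ where
  bq k := {q | b.B k q}
  down k p q h hq := b.down k p q h hq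


end lm

/-! ### tilings with cores -/

section tiling

open Crest.Agent.R096.Ac_117
open Crest.Agent.R096.Msh_715 Crest.Agent.R096.Lab_184 Crest.Agent.R096.Agl5_543
  Crest.Agent.R096.Pat5_543 Crest.Agent.R096.Coh_184

variable {E : Type} [NormedAddCommGroup E] [NormedSpace ℝ E] [FiniteDimensional ℝ E]
variable {Om : Set E} {ι : Type} {T : Tiling Om ι} {κ : Type} {Kc : κ → Set E}
variable [Nonempty T.Cell]

/-- the cells outside the cores -/
abbrev QO (T : Tiling Om ι) (Kc : κ → Set E) : Type := {c : T.Cell // OutK T Kc c}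

lemma outK_iff (hH : ∀ c, CoreH T (Kc c)) (hdis : ∀ c c', c ≠ c' → Disjoint (Kc c) (Kc c'))
    (c : T.Cell) : OutK T Kc c ↔ c ∈ Csub_487.DK T Kc :=
  (Csub_487.mem_DK_iff (fun k => (hH k).core.closed) (fun k => (hH k).cc) (fun k => (hH k).sub)
    hdis).symm

/-- **the complex outside the cores** -/
theorem cplxO (hH : ∀ c, CoreH T (Kc c)) (hdis : ∀ c c', c ≠ c' → Disjoint (Kc c) (Kc c')) :
    Cplx (Om \ ⋃ k, interior (Kc k)) (QO T Kc) (fun c => c.1.dim) (fun c => c.1.set) := by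
  have hp : OutK T Kc = fun c => c ∈ Csub_487.DK T Kc :=
    funext fun c => propext (outK_iff hH hdis c)
  have h := Csub_487.cplx_DK (T := T) (Kc := Kc) (fun k => (hH k).core.closed)
    (fun k => (hH k).cc)
  unfold QO
  rw [hp]
  exact h

lemma biO (hH : ∀ c, CoreH T (Kc c)) (hdis : ∀ c c', c ≠ c' → Disjoint (Kc c) (Kc c')) (k : κ) :
    (⋃ q ∈ (bdB (belK T Kc)).bq k, q.1.set) = frontier (Kc k) := by
  ext x
  simp only [mem_iUnion, exists_prop]
  constructor
  · rintro ⟨q, hq, hx⟩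
    exact hq hx
  · intro hx
    have hxO : x ∈ Om := (hH k).sub ((hH k).core.closed.frontier_subset hx)
    have h1 : (T.cl hxO).set ⊆ frontier (Kc k) := by
      rw [T.cl_set hxO]; exact (hH k).cc x hx
    refine ⟨⟨T.cl hxO, out_of_frontier hH hdis h1⟩, h1, ?_⟩
    show x ∈ (T.cl hxO).set
    rw [T.cl_set hxO]
    exact T.self_mem_cc x

/-- **the geometric input of the giant cells** -/
theorem gcO (h3 : finrank ℝ E = 3) (hH : ∀ c, CoreH T (Kc c))
    (hdis : ∀ c c', c ≠ c' → Disjoint (Kc c) (Kc c'))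
    (hball : ∀ k, IsBall 3 (Kc k) (frontier (Kc k))) :
    GC (Om \ ⋃ k, interior (Kc k)) Om (fun c : QO T Kc => c.1.dim) (fun c => c.1.set)
      (bdB (belK T Kc)) Kc where
  sub0 := Set.sdiff_subset
  sub k := (hH k).sub
  cov := by
    intro x hx
    by_cases h : x ∈ ⋃ k, interior (Kc k)
    · obtain ⟨k, hk⟩ := mem_iUnion.1 h
      exact Or.inr (mem_iUnion.2 ⟨k, interior_subset hk⟩)
    · exact Or.inl ⟨hx, h⟩
  ball k := by
    rw [biO hH hdis k]
    exact hball k
  dim_lt k c hc := by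
    have : c.1.dim ≤ 2 := cell_le_two h3 hH hc
    show c.1.dim < 3
    omega
  inter k := by
    rw [biO hH hdis k]
    rintro x ⟨hx, -, hx'⟩
    rw [(hH k).core.closed.frontier_eq]
    exact ⟨hx, fun h => hx' (mem_iUnion.2 ⟨k, h⟩)⟩
  disj k k' hne x hx := (Set.disjoint_left.1 (hdis k k' hne) hx.1 hx.2).elim
  near x hx hx0 := by
    have h : x ∈ ⋃ k, interior (Kc k) := by
      by_contra h
      exact hx0 ⟨hx, h⟩
    obtain ⟨k, hk⟩ := mem_iUnion.1 h
    obtain ⟨r, hr, hb⟩ := Metric.isOpen_iff.1 isOpen_interior x hk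
    refine ⟨r, hr, disjoint_left.2 fun y hy hyb => ?_⟩
    exact hy.2 (mem_iUnion.2 ⟨k, hb hyb⟩)
  lf x hx := Csub_487.lf_core (fun k => (hH k).core) (fun k => (hH k).cc) (fun k => (hH k).sub)
    hdis hx


variable (h3 : finrank ℝ E = 3) (hH : ∀ c, CoreH T (Kc c))
  (hdis : ∀ c c', c ≠ c' → Disjoint (Kc c) (Kc c')) (hne : ∃ c, OutK T Kc c)


lemma side_out {i : ι} {F : {F : C2 T // ¬ (((meshC T h3).side F).map (piK T Kc)).IsDiag}}
    (h : Sum.inl i ∈ (mK h3 hH hdis).side F) :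
    i ∈ (meshC T h3).side F.1 ∧ ∀ k, ¬ P (T.H i) ⊆ Kc k := by
  have h1 : Sum.inl i ∈ ((meshC T h3).side F.1).map (piK T Kc) := h
  rw [mem_map_iff] at h1
  obtain ⟨q', h2, h4⟩ := h1
  obtain ⟨rfl, h5⟩ := piK_inl.1 h4
  exact ⟨h2, h5⟩

variable {J Fam : Type} {fam : J → Fam} {s : GSt (mK h3 hH hdis) fam}






end tiling

end Crest.Agent.R096.Shg_334
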