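import Crest.Agent.R096.Arc1_422
import Crest.Agent.R096.Sd1_161
import Crest.Agent.R096.Seq2_213

-- ▼ part R096/At5_241
section

/-!
# R096 (row 96), SQ-CHN (helper241), part 1: the chain of the double arcs of two sheets over ONE quad

The families of a quad may have other common quads; the nodes of the chain are the double points on
faces which touch the active cells `Act` of the quad.
-/

set_option autoImplicit false

namespace Crest.Agent.R096.At_241

open Crest.Agent.R096.St_147 Crest.Agent.R096.Seq_213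
open Crest.Agent.R096.Arc_422 (Chn)

variable {ι Φ W I : Type} {M : MeshC ι Φ W} {col : I → Bool} {s : St M col} {Act : Set ι}

/-- the double points of the sheets `nm true`, `nm false` on the faces which touch `Act` -/
abbrev NdT (s : St M col) (Act : Set ι) (nm : Bool → I) : Type :=
  {z : s.Dbl // (∀ x, s.lab (z.e x) = nm x) ∧ Tch M Act z.F}

/-- the sides of the face of `z` which are active -/
def sidT (s : St M col) (Act : Set ι) {nm : Bool → I} (z : NdT s Act nm) : Set ι :=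
  {q | q ∈ M.side z.1.F ∧ q ∈ Act}

open Classical in
/-- the other end of the double arc -/
noncomputable def narcT (A : s.Arcs Act) {nm : Bool → I} (q : ι) (z : NdT s Act nm) :
    NdT s Act nm :=
  if h : q ∈ M.side z.1.F ∧ q ∈ Act then
    ⟨A.arc q z.1, fun x => by rw [Sd1_161.lab_arc A x h.2 h.1]; exact z.2.1 x,
      ⟨q, A.mem h.2 h.1, h.2⟩⟩ else z

theorem narcT_val (A : s.Arcs Act) {nm : Bool → I} {q : ι} {z : NdT s Act nm}
    (h : q ∈ sidT s Act z) : (narcT A q z).1 = A.arc q z.1 := by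
  unfold narcT
  rw [dif_pos (show q ∈ M.side z.1.F ∧ q ∈ Act from h)]

/-- **the chain of the double arcs of two sheets over one quad**: two end nodes with one active
side, all other nodes have two active sides -/
noncomputable def stChnT (A : s.Arcs Act) (hno : ∀ G : Set s.Dbl, A.Closed G → G = ∅)
    (nm : Bool → I) (e e' : NdT s Act nm) (hee : e ≠ e')
    (he : ∃ q ∈ M.side e.1.F, q ∉ Act) (he' : ∃ q ∈ M.side e'.1.F, q ∉ Act)
    (hin : ∀ z : NdT s Act nm, z ≠ e → z ≠ e' → ∀ q ∈ M.side z.1.F, q ∈ Act) :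
    Chn (NdT s Act nm) ι where
  S := sidT s Act
  arc := narcT A
  e := e
  e' := e'
  ne {q z} h h1 := by
    have h2 := congrArg Subtype.val h1
    rw [narcT_val A h] at h2
    exact A.ne h.2 h.1 h2
  mem {q z} h := by
    refine ⟨?_, h.2⟩
    rw [narcT_val A h]
    exact A.mem h.2 h.1
  inv {q z} h := by
    have hm : q ∈ sidT s Act (narcT A q z) := by
      refine ⟨?_, h.2⟩
      rw [narcT_val A h]
      exact A.mem h.2 h.1
    apply Subtype.ext
    rw [narcT_val A hm, narcT_val A h]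
    exact A.inv h.2 h.1
  one := by
    obtain ⟨q, hq, hqA⟩ := e.2.2
    obtain ⟨r, hr, hrA⟩ := he
    have hne : r ≠ q := fun h => hrA (h ▸ hqA)
    refine ⟨q, Set.ext fun t => ⟨fun ht => ?_, fun ht => ?_⟩⟩
    · have h3 : M.side e.1.F = s(q, r) :=
        ((Sym2.mem_and_mem_iff hne.symm).1 ⟨hq, hr⟩)
      have h4 : t ∈ M.side e.1.F := ht.1
      rw [h3, Sym2.mem_iff] at h4
      rcases h4 with h4 | h4
      · exact h4
      · exact absurd (h4 ▸ ht.2) hrA
    · rw [Set.mem_singleton_iff] at ht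
      rw [ht]; exact ⟨hq, hqA⟩
  one' := by
    obtain ⟨q, hq, hqA⟩ := e'.2.2
    obtain ⟨r, hr, hrA⟩ := he'
    have hne : r ≠ q := fun h => hrA (h ▸ hqA)
    refine ⟨q, Set.ext fun t => ⟨fun ht => ?_, fun ht => ?_⟩⟩
    · have h3 : M.side e'.1.F = s(q, r) :=
        ((Sym2.mem_and_mem_iff hne.symm).1 ⟨hq, hr⟩)
      have h4 : t ∈ M.side e'.1.F := ht.1
      rw [h3, Sym2.mem_iff] at h4
      rcases h4 with h4 | h4
      · exact h4
      · exact absurd (h4 ▸ ht.2) hrA
    · rw [Set.mem_singleton_iff] at ht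
      rw [ht]; exact ⟨hq, hqA⟩
  ee := hee
  two z h1 h2 := by
    obtain ⟨a, b, hab⟩ : ∃ a b, M.side z.1.F = s(a, b) := ⟨_, _, (Quot.out_eq _).symm⟩
    refine ⟨a, b, ?_, ?_⟩
    · rintro rfl
      exact M.side_nd z.1.F (by rw [hab]; rfl)
    · ext q
      constructor
      · intro h
        have := h.1
        rw [hab, Sym2.mem_iff] at this
        exact this
      · intro h
        have h3 : q ∈ M.side z.1.F := by rw [hab, Sym2.mem_iff]; exact h
        exact ⟨h3, hin z h1 h2 q h3⟩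
  no G hG := by
    have h1 := hno (Subtype.val '' G) (by
      rintro _ ⟨z, hz, rfl⟩ q hq
      obtain ⟨h1, h2, h3⟩ := hG z hz
      have hqA := hin z h1 h2 q hq
      refine ⟨hqA, narcT A q z, h3 q ⟨hq, hqA⟩, narcT_val A ⟨hq, hqA⟩⟩)
    exact Set.image_eq_empty.1 h1

section rfls

variable (A : s.Arcs Act) (hno : ∀ G : Set s.Dbl, A.Closed G → G = ∅)
    (nm : Bool → I) (e e' : NdT s Act nm) (hee : e ≠ e')
    (he : ∃ q ∈ M.side e.1.F, q ∉ Act) (he' : ∃ q ∈ M.side e'.1.F, q ∉ Act)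
    (hin : ∀ z : NdT s Act nm, z ≠ e → z ≠ e' → ∀ q ∈ M.side z.1.F, q ∈ Act)





end rfls

end Crest.Agent.R096.At_241
end

-- ▼ part R096/At6_241

/-!
# R096 (row 96), SQ-CHN (helper241), part 2: the ends of the chain

* `frozen_core` : a side of the face of a node is active or a core tile;
* `Ends` : exactly one node at each of the two cores of the quad;
* `sqChn` : the chain.
-/

set_option autoImplicit false
set_option linter.unusedSectionVars false

namespace Crest.Agent.R096.At_241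

open Crest.Agent.R096.St_147 Crest.Agent.R096.Seq_213
open Crest.Agent.R096.Arc_422 (Chn)

variable {ι Φ W J C K : Type} {M : MeshC ι Φ W} {fam : J → C} {s : GSt M fam}
  {Q : Quads ι C K} {far : J → Set W} {k : K} {i0 : Q.Nm fam k} {nm : Bool → Q.Nm fam k}

/-- the points of a node in the global state -/
theorem nd_at (z : (s.res Q k i0).Dbl) (x : Bool) :
    s.At z.F (z.e x) ∧ Q.In k (fam (s.lab (z.e x))) := GSt.res_at.1 (z.at_ x)

theorem nd_ne (z : (s.res Q k i0).Dbl) : fam (s.lab (z.e true)) ≠ fam (s.lab (z.e false)) := by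
  intro h
  have h1 := z.colr true
  have h2 := z.colr false
  have h3 : Q.cl fam k ((s.res Q k i0).lab (z.e true)) =
      Q.cl fam k ((s.res Q k i0).lab (z.e false)) := by
    rw [Q.cl_eq_iff, GSt.res_lab (nd_at z true).2, GSt.res_lab (nd_at z false).2]
    exact h
  rw [h1, h2] at h3
  exact absurd h3 (by simp)

/-- a point which is not marked on a face touching `Act k`: the face is inner -/
theorem inner_of_notFar (hI : s.Inv Q far) {F : Φ} (hF : Tch M (Q.Act k) F) {w : W}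
    (hw : s.At F w) (hfar : w ∉ far (s.lab w)) : Inner M (Q.Act k) F := by
  rcases hI.loc hw.1 with h | ⟨k', -, hint⟩
  · exact absurd h hfar
  · have h1 := hint.2 F hw.2
    obtain ⟨q, hq, hqA⟩ := hF
    by_cases hkk : k' = k
    · rw [← hkk]; exact h1
    · exact absurd hqA (Set.disjoint_left.1 (Q.disj k' k hkk) (h1 q hq))

/-- **a frozen side of the face of a node is a core tile** -/
theorem frozen_core (hI : s.Inv Q far) {Kor : Set ι}
    (hN : ∀ F, Tch M (Q.Act k) F → ∀ w w', s.At F w → s.At F w' → w ∈ far (s.lab w) →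
      w' ∈ far (s.lab w') → Q.In k (fam (s.lab w)) → Q.In k (fam (s.lab w')) →
      fam (s.lab w) ≠ fam (s.lab w') → ∀ q ∈ M.side F, q ∈ Q.Act k ∨ q ∈ Kor)
    (z : NdT (s.res Q k i0) (Q.Act k) nm) {q : ι} (hq : q ∈ M.side z.1.F) :
    q ∈ Q.Act k ∨ q ∈ Kor := by
  by_cases h1 : z.1.e true ∈ far (s.lab (z.1.e true))
  · by_cases h2 : z.1.e false ∈ far (s.lab (z.1.e false))
    · exact hN _ z.2.2 _ _ (nd_at z.1 true).1 (nd_at z.1 false).1 h1 h2 (nd_at z.1 true).2
        (nd_at z.1 false).2 (nd_ne z.1) q hq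
    · exact Or.inl (inner_of_notFar hI z.2.2 (nd_at z.1 false).1 h2 q hq)
  · exact Or.inl (inner_of_notFar hI z.2.2 (nd_at z.1 true).1 h1 q hq)

/-- **the ends of the double curve of two sheets over the quad `k`**: `A0`, `A1` the core tiles of
the two zero colours of the quad -/
structure Ends (s : GSt M fam) (Q : Quads ι C K) (k : K) (i0 : Q.Nm fam k)
    (nm : Bool → Q.Nm fam k) (A0 A1 : Set ι) : Prop where
  one0 : ∃! z : NdT (s.res Q k i0) (Q.Act k) nm, ∃ q ∈ M.side z.1.F, q ∈ A0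
  one1 : ∃! z : NdT (s.res Q k i0) (Q.Act k) nm, ∃ q ∈ M.side z.1.F, q ∈ A1
  d0 : Disjoint A0 (Q.Act k)
  d1 : Disjoint A1 (Q.Act k)
  d : Disjoint A0 A1
  fr : ∀ z : NdT (s.res Q k i0) (Q.Act k) nm, ∀ q ∈ M.side z.1.F, q ∈ Q.Act k ∨ q ∈ A0 ∨ q ∈ A1

namespace Ends

variable {A0 A1 : Set ι} (h : Ends s Q k i0 nm A0 A1)
include h

/-- the first end -/
noncomputable def e : NdT (s.res Q k i0) (Q.Act k) nm := h.one0.choose

/-- the second end -/
noncomputable def e' : NdT (s.res Q k i0) (Q.Act k) nm := h.one1.choose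

theorem e_spec : ∃ q ∈ M.side h.e.1.F, q ∈ A0 := h.one0.choose_spec.1

theorem e'_spec : ∃ q ∈ M.side h.e'.1.F, q ∈ A1 := h.one1.choose_spec.1

theorem eq_e {z : NdT (s.res Q k i0) (Q.Act k) nm} (hz : ∃ q ∈ M.side z.1.F, q ∈ A0) : z = h.e :=
  h.one0.choose_spec.2 z hz

theorem eq_e' {z : NdT (s.res Q k i0) (Q.Act k) nm} (hz : ∃ q ∈ M.side z.1.F, q ∈ A1) :
    z = h.e' := h.one1.choose_spec.2 z hz

theorem frozen_e : ∃ q ∈ M.side h.e.1.F, q ∉ Q.Act k := by
  obtain ⟨q, hq, hq0⟩ := h.e_spec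
  exact ⟨q, hq, Set.disjoint_left.1 h.d0 hq0⟩

theorem frozen_e' : ∃ q ∈ M.side h.e'.1.F, q ∉ Q.Act k := by
  obtain ⟨q, hq, hq0⟩ := h.e'_spec
  exact ⟨q, hq, Set.disjoint_left.1 h.d1 hq0⟩

theorem ne : h.e ≠ h.e' := by
  intro he
  obtain ⟨q, hq, hq0⟩ := h.e_spec
  obtain ⟨q', hq', hq1⟩ := h.e'_spec
  obtain ⟨r, hr, hrA⟩ := h.e.2.2
  rw [← he] at hq'
  have h1 : q ≠ r := fun e1 => Set.disjoint_left.1 h.d0 hq0 (e1 ▸ hrA)
  have h2 : q' ≠ r := fun e1 => Set.disjoint_left.1 h.d1 hq1 (e1 ▸ hrA)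
  have h3 : q ≠ q' := fun e1 => Set.disjoint_left.1 h.d hq0 (e1 ▸ hq1)
  have h4 : M.side h.e.1.F = s(q, r) := (Sym2.mem_and_mem_iff h1).1 ⟨hq, hr⟩
  rw [h4, Sym2.mem_iff] at hq'
  rcases hq' with h5 | h5
  · exact h3 h5.symm
  · exact h2 h5

theorem inner {z : NdT (s.res Q k i0) (Q.Act k) nm} (h1 : z ≠ h.e) (h2 : z ≠ h.e') :
    ∀ q ∈ M.side z.1.F, q ∈ Q.Act k := by
  intro q hq
  rcases h.fr z q hq with h3 | h3 | h3
  · exact h3
  · exact absurd (h.eq_e ⟨q, hq, h3⟩) h1
  · exact absurd (h.eq_e' ⟨q, hq, h3⟩) h2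

/-- **the chain** -/
noncomputable def chn (A : (s.res Q k i0).Arcs (Q.Act k))
    (hno : NoClosed (s.res Q k i0) (Q.Act k)) : Chn (NdT (s.res Q k i0) (Q.Act k) nm) ι :=
  stChnT A (hno A) nm h.e h.e' h.ne h.frozen_e h.frozen_e' fun _ h1 h2 => h.inner h1 h2

variable (A : (s.res Q k i0).Arcs (Q.Act k)) (hno : NoClosed (s.res Q k i0) (Q.Act k))




theorem chn_arc {q : ι} {z : NdT (s.res Q k i0) (Q.Act k) nm}
    (hq : q ∈ M.side z.1.F) (hA : q ∈ Q.Act k) :
    ((h.chn A hno).arc q z).1 = A.arc q z.1 := narcT_val A ⟨hq, hA⟩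

end Ends

end Crest.Agent.R096.At_241
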