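import Crest.Agent.R096.Arc17_778
import Crest.Agent.R096.SkB1d_662
import Crest.Agent.R096.SkB1b_662
import Crest.Agent.R096.Shg5_334
import Crest.Agent.R096.At4_241
import Crest.Agent.R096.Frn1_337
import Crest.Agent.R096.Fin6_147
import Crest.Agent.R096.Nr5_527

-- ▼ part R096/Arc18_778
section

/-!
# R096 (row 96), (R4), part 18: type D cores over the final state (helper778)

* `fin_bq` : finitely many cells on the boundary of a core;
* **`circ_out`** : the input `circ` of 241's `exists_Th_mesh` for the final state `StO`, from (E1) of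
  the state `s₀` ("at most one cycle, at least one point" on the faces of the core tile);
* **`chart_D`** : the chart of a type D core (147's `chart`), from `circ` and `sq`.
-/

set_option autoImplicit false
set_option linter.unusedSectionVars false
set_option linter.style.longLine false

open Set Metric Module

namespace Crest.Agent.R096.Arc_778

open Crest.Agent.R096.Ce_537 Crest.Agent.R096.Bd_416 Crest.Agent.R096.Shp_334
  Crest.Agent.R096.Seq_213 Crest.Agent.R096.St_147 Crest.Agent.R096.Shg_334 Crest.Agent.R096.Pl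
  Crest.Agent.R096.Lm_117 Crest.Agent.R096.Cp_298 Crest.Agent.R096.SkB_662 Crest.Agent.R096.Xp_537
  Crest.Agent.R096.Mg_441 Crest.Agent.R096.Grd_714
open Crest.Agent.R096.Brk1_582 (Foam)

section circ

variable {ι Φ W Q J Fm Kq 𝒢 : Type} {M : MeshC ι Φ W} [PartialOrder Q] {dim : Q → ℕ}
variable {L : LM M Q dim} {O : Ori M} {σ : Q → ZMod 2} {Rel : W → W → Prop} {V : Set W}
  {Qd : Quads ι Fm Kq} {κ : Fm → ℕ} {fam : J → Fm} {s₀ : GSt M fam} {far₀ : J → Set W}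
  {Z : Fm → Set Q} {lam₀ : J → Q → ZMod 2} {v₀ v₁ : Fm → Q}
  {hfin : ∀ a, {j | fam j = a}.Finite} {kap : Fm → ℕ} {s : GSt M (fam' fam (Rk κ kap))}
  {far : Nm' fam (Rk κ kap) → Set W} {β : W → W} {lam : Nm' fam (Rk κ kap) → Q → ZMod 2}
variable {E' : Type*} [NormedAddCommGroup E'] [NormedSpace ℝ E'] [FiniteDimensional ℝ E']
variable {K : Q → Set E'} {g : Gd E' (Nm' fam (Rk κ kap))} {B : BdD Q 𝒢} {Kt : 𝒢 → Set E'}
  {Ω0 Ω : Set E'} {ord : ι → Prop} {tl : 𝒢 → ι} {Pf : Fm → Set E'}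

/-- (E1) for the final state on the faces of a core tile -/
theorem one_out (h : StO L O σ Rel V Qd κ s₀ far₀ Z lam₀ v₀ v₁ hfin kap s far β lam)
    (hI₀ : s₀.Inv Qd far₀) {a0 : ι} (hA : ∀ k, a0 ∉ Qd.Act k) {y : Nm' fam (Rk κ kap)}
    (h1 : One s₀ {F | a0 ∈ M.side F} y.1) : One1 s y a0 :=
  h.one hI₀ (D := {F | a0 ∈ M.side F}) (fun _ hF k hin => hA k (hin a0 hF)) h1



end circ

section chart

variable {Q 𝒢 : Type} [PartialOrder Q] {dim : Q → ℕ} {J Fam : Type} {Cc : Cmb Q dim J Fam}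
variable {E' : Type*} [NormedAddCommGroup E'] [NormedSpace ℝ E'] [FiniteDimensional ℝ E']
variable {K : Q → Set E'} {g : Gd E' J} {P : ∀ q, Cc.I q → Set E'} {c : ∀ q, Cc.I q → E' → ℝ}
variable {E : Type*} [NormedAddCommGroup E] [NormedSpace ℝ E] [FiniteDimensional ℝ E]
  {Λ : Set E} {hfin : ∀ a, {j | Cc.fam j = a}.Finite} {Pf : Fam → Set E} {b : Set Fam → E}
  {C : CC Λ (Cel Pf (Mg_441.mm hfin))} {T : (Fam → ℝ) → E} {co : E → Fam → ℝ} {ℓ : J → ℝ}
  {B : BdD Q 𝒢} {Kt : 𝒢 → Set E'} {Ω0 Ω : Set E'}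

/-- finitely many cells on the boundary of a core -/
theorem fin_bq (X : Cplx Ω0 Q dim K) (G : GC Ω0 Ω dim K B Kt) (k : 𝒢) : (B.bq k).Finite := by
  have h1 := (cplxG X G).finite_below (.big k)
  refine (h1.preimage (f := GQ.old) fun a _ b _ h => GQ.old.inj h).subset ?_
  intro q hq
  exact old_lt_big.2 hq

/-- **the chart of a type D core** -/
theorem chart_D (hΛ : IsOpen Λ) (hE3 : finrank ℝ E = 3) (F : Foam Λ Pf b 4)
    (hm : ∀ a, 0 < Mg_441.mm hfin a) (H : Inv Cc K univ g P c) (OK : GridOK C T co)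
    (hO : Ord Cc ℓ) (hℓ : ∀ j j', j ≠ j' → Cc.fam j = Cc.fam j' → ℓ j ≠ ℓ j')
    (q0 : Cel Pf (Mg_441.mm hfin)) (X : Cplx Ω0 Q dim K) (G : GC Ω0 Ω dim K B Kt) (k : 𝒢)
    {a : Fam} (hfr : (⋃ q ∈ B.bq k, K q) = frontier (Kt k))
    (hx : ∀ q ∈ B.bq k, ∃ y, Ex Cc Pf q y ∧ y a = 0)
    (circ : ∀ j, Cc.fam j ≠ a → (Pf (Cc.fam j) ∩ Pf a).Nonempty →
      Nonempty (PLEquiv (sph 2) {x | x ∈ (⋃ q ∈ B.bq k, K q) ∧ g.G j x = 1/2}))
    (sq : ∀ q : Gx Pf (Mg_441.mm hfin), q.free.ncard = 2 → q.hi a = 0 →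
      ∃ x, {z | z ∈ (⋃ q ∈ B.bq k, K q) ∧ gG T (merge hfin g) z = C.b (.gr q)} = {x})
    {κ : ℝ} (hκ : 0 < κ ∧ κ < 1) :
    ∃ Th : PLEquiv (Kt k) (coreF C κ (.top a) 0),
      (∀ x ∈ Kt k, x ∈ frontier (Kt k) ↔ sl C κ (Th.f x) (.top a) = 0) ∧
      ∀ x ∈ frontier (Kt k), gG T (merge hfin g) x = cG C κ Th.f x ∧
        gtop hm q0 (merge hfin g) x = ctop C κ (.top a) Th.f x ∧
        ∀ t ∈ C.cell (gtop hm q0 (merge hfin g) x),
          gtr co (merge hfin g) x t = ctr C κ Th.f Th.g x t := by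
  have : Finite {q // q ∈ B.bq k} := (fin_bq X G k).to_subtype
  have hS : (⋃ q ∈ B.bq k, K q) = ⋃ i : {q // q ∈ B.bq k}, K i.1 := by
    rw [biUnion_eq_iUnion]
  obtain ⟨Th, h1, h2⟩ := At_241.exists_Th_mesh hΛ hE3 F hm H OK hO hℓ q0 (G.ball k)
    (fun i : {q // q ∈ B.bq k} => i.1) hS (fun i => X.isClosed i.1) (fun i => hx i.1 i.2) circ sq
    hκ le_rfl zero_lt_one
  refine ⟨Th, fun x hxK => ?_, fun x hxf => ?_⟩
  · rw [← hfr]; exact h1 x hxK
  · rw [← hfr] at hxf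
    obtain ⟨a1, a2, a3⟩ := h2 x hxf
    exact ⟨a1.symm, a2.symm, fun t ht => (a3 t ht).symm⟩

end chart

end Crest.Agent.R096.Arc_778
end

-- ▼ part R096/Frn2_337

/-!
# R096 (row 96), bottom, the seam, part 2 (helper337): geometry of the back half

From `Lay`, `Cores`: the cores `Kcs` of the placement, the complex outside them, the tiles off the
`V c` as cells.
-/

set_option autoImplicit false
set_option linter.unusedSectionVars false
set_option linter.unusedVariables false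
set_option linter.style.longLine false

open Set Relation Module Topology Filter Metric MeasureTheory

namespace Crest.Agent.R096.Frn_337

open Crest.Agent.R096.Brk1_582 Crest.Agent.R096.Brk2_582 Crest.Agent.R096.Brk3_582
open Crest.Agent.R096.Brk5_582 Crest.Agent.R096.Bsp_628
open Crest.Agent.R096.St_147 Crest.Agent.R096.Seq_213 Crest.Agent.R096.Seq_213.GSt
open Crest.Agent.R096.Lm_117 Crest.Agent.R096.Ac_117 Crest.Agent.R096.Msh_715
open Crest.Agent.R096.Cp_298 Crest.Agent.R096.Gm_298 Crest.Agent.R096.Gl_422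
open Crest.Agent.R096.SkB_662 Crest.Agent.R096.Cpo_642
open Crest.Agent.R096.Agl5_543 Crest.Agent.R096.Ori_543
open Crest.Agent.R096.Init_543 (JJ fr3)
open Crest.Agent.R096.Ce_537 (PLEquiv IsBall Cplx)
open Crest.Agent.R096.SkC1_961 (E3 Hom3 FoamD Cfg th NN)
open Crest.Agent.R096.Mbf_337 (KJ sb)
open Crest.Agent.R096.Nr_527 (mem_KJ J_sub J0_sub not_mem_interior_KJ)
open Crest.Agent.R096.Fin_147 (Xout)

variable {δ κ0 R c0 : ℝ} {La Om : Set E3} {ι : Type}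
variable {Φ : FoamD δ κ0 R c0 La} {T : Tiling Om ι} {f : E3 → E3} {κ1 κ2 : ℝ} {X : Set Φ.F}
  {J0 Jt V : Φ.F → Set ι} {ct : Φ.F → ι} {A : Φ.F → E3 ≃ᵃ[ℝ] E3} {lam : Φ.F → ℝ} {z : Φ.F → E3}
  {θ : Φ.F → E3 → E3} {φ : Φ.F → E3 → ℝ}
  {ι3 : Type} {T3 : Tiling Om ι3} {KK : Ti X → Set E3} {c3 : ι → ι3}


theorem ct_notin (hC : Mbf_337.Cores Φ T f κ1 κ2 X J0 Jt V ct A lam z θ φ) {c : Φ.F} (hc : c ∈ X)
    (k : Ti X) : ct c ∉ V k.1 := by
  intro h
  have h1 := hC.disj c k.1 (fun e => k.2 (e ▸ hc))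
  rw [(hC.one c hc).2.2] at h1
  exact Set.disjoint_left.1 h1 (mem_singleton _) h

theorem ct_notinJ (hC : Mbf_337.Cores Φ T f κ1 κ2 X J0 Jt V ct A lam z θ φ) {c : Φ.F} (hc : c ∈ X)
    (k : Ti X) : ct c ∉ Jt k.1 := fun h => ct_notin hC hc k (J_sub hC k.1 h)

/-- the exact core tiles of `T3` -/
theorem tl_eq (hC : Mbf_337.Cores Φ T f κ1 κ2 X J0 Jt V ct A lam z θ φ)
    (hL : Lay Φ T X J0 Jt T3 KK c3) {c : Φ.F} (hc : c ∈ X) :
    P (T3.H (c3 (ct c))) = P (T.H (ct c)) := hL.keep _ fun k => ct_notinJ hC hc k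

theorem Kcs_X {c : Φ.F} (hc : c ∈ X) : Kcs T KK ct c = P (T.H (ct c)) := by
  unfold Kcs
  rw [dif_neg (not_not.2 hc)]

theorem Kcs_T (k : Ti X) : Kcs T KK ct k.1 = KK k := by
  unfold Kcs
  rw [dif_pos k.2]


theorem Kcs_closed (hL : Lay Φ T X J0 Jt T3 KK c3) (c : Φ.F) : IsClosed (Kcs T KK ct c) := by
  by_cases hc : c ∈ X
  · rw [Kcs_X hc]; exact (T.cpt _).isClosed
  · have := Kcs_T (T := T) (KK := KK) (ct := ct) ⟨c, hc⟩
    rw [this]; exact (hL.core _).cpt.isClosed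

theorem Kcs_sub (hC : Mbf_337.Cores Φ T f κ1 κ2 X J0 Jt V ct A lam z θ φ)
    (hL : Lay Φ T X J0 Jt T3 KK c3) (c : Φ.F) : Kcs T KK ct c ⊆ KJ T (Jt c) := by
  by_cases hc : c ∈ X
  · rw [Kcs_X hc]
    intro x hx
    exact mem_KJ.2 ⟨ct c, by rw [(hC.one c hc).2.1]; exact mem_singleton _, hx⟩
  · have := Kcs_T (T := T) (KK := KK) (ct := ct) ⟨c, hc⟩
    rw [this]; exact hL.sub ⟨c, hc⟩




end Crest.Agent.R096.Frn_337
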