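import Mathlib
import Crest.Agent.R096.Knm1_955

-- ▼ part R096/Nk1_955
section

set_option autoImplicit false

open Set Metric Filter Topology

namespace Crest.Agent.R096.Nk_955

open Crest.Agent.R096.Ce_537 Crest.Agent.R096.Bd_416 Crest.Agent.R96.Nu1_199
open Crest.Agent.R096.Knm_955

open scoped Classical

set_option linter.unusedSectionVars false

noncomputable section

variable {Q : Type} [PartialOrder Q] {dim : Q → ℕ} {J Fam : Type}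
variable {E : Type*} [NormedAddCommGroup E] [NormedSpace ℝ E]
variable {C : Cmb Q dim J Fam} {K : Q → Set E} {Ω : Set E}
variable {R : Set Q} {g0 : Gd E J} {P0 : ∀ q, C.I q → Set E} {c0 : ∀ q, C.I q → E → ℝ}
variable {K₁ A ε : ℝ} {K₀ : Q → ℝ} {b : ℕ → ℝ} {wt : J → ℝ}

/-- the base constant may be changed -/
theorem num_k {ω δ Lf Lg : Q → ℝ} (N : Num C R wt K₁ A ε b ω δ Lf Lg) {K₂ : ℝ} (h : 0 ≤ K₂) :
    Num C R wt K₂ A ε b ω δ Lf Lg :=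
  ⟨N.w0, N.b0, N.b2, N.e0, N.e1, N.A0, h, N.ω0, N.δ0, N.f0, N.g0, N.face, N.own⟩

section frames

variable {Y : Type*} [PseudoMetricSpace Y] {δ : Q → ℝ} {ω Lf Lg : (E → Y) → Q → ℝ}

/-- the Lipschitz numbers in the frames, local base constant -/
def LamBk (K₀ : Q → ℝ) (A ε : ℝ) (b : ℕ → ℝ) (ω : (E → Y) → Q → ℝ) (n : ℕ) (q : Q) (B : E → Y) :
    ℝ := Kn (K₀ q) A ε b n * ω B q


/-- **THE NUMBERS IN THE ALL-CONE MESH**, in frames, local base constant. -/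
theorem mesh_num_k (B0 : E → Y) (X : Cplx Ω Q dim K)
    (N : ∀ B, Num C R wt K₁ A ε b (ω B) δ (Lf B) (Lg B))
    (hK : ∀ q, 0 ≤ K₀ q) (hKm : ∀ σ τ : Q, σ < τ → K₀ σ ≤ K₀ τ)
    (hR : ∀ q ∈ R, ∀ p < q, p ∈ R) (H0 : Inv C K R g0 P0 c0)
    (Fr : Q → Set (E → Y)) (hFr : ∀ {σ τ : Q}, σ < τ → Fr τ ⊆ Fr σ)
    (hΛR : ∀ q ∈ R, ∀ B ∈ Fr q, ∀ x, ∀ z ∈ K q,
      LB B (K₀ q * ω B q / wt (C.col q x)) (c0 q x) (K q) z)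
    (e : ∀ τ, 1 ≤ dim τ → PLEquiv (cube (dim τ)) (K τ))
    (he : ∀ τ ∉ R, ∀ hd : 1 ≤ dim τ, (e τ hd).f '' sph (dim τ) = bdS K τ)
    (hef : ∀ τ ∉ R, ∀ hd : 1 ≤ dim τ, ∀ B ∈ Fr τ, ∀ v ∈ sph (dim τ),
      MB id B (Lf B τ) (e τ hd).f (sph (dim τ)) v)
    (heg : ∀ τ ∉ R, ∀ hd : 1 ≤ dim τ, ∀ B ∈ Fr τ, ∀ z ∈ K τ,
      MB B id (Lg B τ) (e τ hd).g (K τ) z)
    (k : ∀ τ, C.I τ → ℕ) (hk : ∀ τ ∉ R, dim τ = 1 → Function.Injective (k τ))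
    (ord : ∀ τ ∉ R, dim τ = 1 → ∀ x x', x ≠ x' → C.fam (C.col τ x) = C.fam (C.col τ x') →
      (k τ x' < k τ x → C.side τ x x' = 1) ∧ (k τ x < k τ x' → C.side τ x x' = 0))
    (Rl : (∀ q, C.I q → E → ℝ) → ∀ τ, C.I τ → C.I τ → Prop)
    (hRl : ∀ D g P c (_ : Inv C K D g P c) τ, 2 ≤ dim τ → (∀ σ < τ, σ ∈ D) →
      ∃ kk : C.I τ → ℕ, Function.Injective kk ∧ ∀ x x', Rl c τ x x' → kk x' < kk x)
    (hRI : ∀ c τ x x', Ins C K c τ x x' → Rl c τ x x')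
    (Spec : ∀ q, Lam (K q) (C.I q) → Prop)
    (hS0 : ∀ τ ∉ R, dim τ = 0 → ∀ M, Spec τ M)
    (hS1 : ∀ τ ∉ R, dim τ = 1 → ∀ (e : PLEquiv (cube 1) (K τ)), e.f '' sph 1 = bdS K τ →
      e.f (fun _ => -1) ∈ K (C.o τ) → ∀ (p : C.I τ → ℝ)
      (hE : Ed (fun i => 4 * (1 - ε) * uq C wt δ τ * wt (C.col τ i)) p),
      (∀ i j, k τ j < k τ i → p j < p i) → Spec τ ((edgeLam hE).pull e.symm (X.isClosed τ)))
    (hS2 : ∀ D g P c (H : Inv C K D g P c), ∀ τ, (hd : 2 ≤ dim τ) →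
      (∀ q ∈ D, Trk C K R g0 P0 c0 b Spec Fr wt (LamBk K₀ A ε b ω) (dim τ) q g (P q) (c q)) →
      ∀ hR : τ ∉ R, ∀ (hτ : ∀ σ < τ, σ ∈ D) (κ : ℝ) (ρ : C.I τ → ℝ)
      (Dp : Dep (bdLam H X τ hτ) κ (b (dim τ)) (fun x => uq C wt δ τ * wt (C.col τ x)) ρ),
      (∀ x x', Rl c τ x x' → ρ x' < ρ x) →
      Spec τ (Dp.fillBall (e τ (by omega)) (he τ hR (by omega))))
    (n : ℕ) : ∃ g P c, Inv C K (R ∪ {q | dim q < n}) g P c ∧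
      ∀ q ∈ R ∪ {q | dim q < n}, Trk C K R g0 P0 c0 b Spec Fr wt (LamBk K₀ A ε b ω) n q g
        (P q) (c q) := by
  have N0 := N B0
  have Nq : ∀ q B, Num C R wt (K₀ q) A ε b (ω B) δ (Lf B) (Lg B) := fun q B => num_k (N B) (hK q)
  exact mesh_cone X hR H0 N0.b0 N0.b2 N0.w0 Fr (fun n q B _ => (Nq q B).lam0 n q)
    (fun n q B _ => (Nq q B).lamS n q) hFr hΛR N0.e0 N0.e1 (uq C wt δ) N0.u0
    (fun τ _ => N0.uS τ) (fun τ B => Lf B τ) (fun τ B => Lg B τ) (fun τ B _ => ((N B).f0 τ).le)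
    e he hef heg k hk ord (fun τ hτ hd B _ => (Nq τ B).lam1 τ hτ hd)
    (fun τ B => Bbq X R (K₀ τ) A ε b (ω B) (Lf B) (Lg B) τ)
    (fun τ _ h2 B _ σ hσ => by
      refine le_trans ?_ ((Nq τ B).Bb_le X τ h2 σ hσ)
      exact mul_le_mul_of_nonneg_right (Kn_le (hK σ) (hKm σ τ hσ) N0.A0 le_rfl le_rfl N0.e1 N0.b0
        (fun _ => le_rfl) _) ((N B).ω0 σ))
    (fun τ hτ h2 B _ => (Nq τ B).lam2 X τ hτ h2) Rl hRl hRI Spec hS0 hS1 hS2 n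


end frames

end

end Crest.Agent.R096.Nk_955
end

-- ▼ part R096/Nk2_955

set_option autoImplicit false

open Set Metric Filter Topology

namespace Crest.Agent.R096.Nk_955

open Crest.Agent.R096.Ce_537 Crest.Agent.R096.Bd_416 Crest.Agent.R96.Nu1_199
open Crest.Agent.R96.Nu2_199 Crest.Agent.R96.Nu3_199 Crest.Agent.R96.Nu4_199
open Crest.Agent.R96.Nu5_199 Crest.Agent.R96.Nu6_199 Crest.Agent.R96.Nu7_199
open Crest.Agent.R096.Knm_955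

open scoped Classical

set_option linter.unusedSectionVars false

noncomputable section

variable {E : Type*} [NormedAddCommGroup E] [NormedSpace ℝ E] [FiniteDimensional ℝ E]
variable {Q : Type} [PartialOrder Q] {dim : Q → ℕ} {J Fam : Type}
variable {C : Cmb Q dim J Fam} {K : Q → Set E} {Ω : Set E}
variable {R : Set Q} {K₀ : Q → ℝ} {ε : ℝ} {b : ℕ → ℝ} {wt : J → ℝ} {δ : Q → ℝ}
variable {g0 : Gd E J} {P0 : ∀ q, C.I q → Set E} {c0 : ∀ q, C.I q → E → ℝ}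

/-- the numbers of the mesh: `Kn (K₀ q) n * omB B q` -/
abbrev LamSk (X : Cplx Ω Q dim K) (C : Cmb Q dim J Fam) (K₀ : Q → ℝ) (ε : ℝ) (b : ℕ → ℝ)
    (wt : J → ℝ) (δ : Q → ℝ) : ℕ → Q → (E → E) → ℝ :=
  LamBk K₀ 1 ε b (fun B q => omB X C wt δ B q)



/-- **THE MESH, ALL FRAMES AT ONCE, LOCAL BASE CONSTANT** (112 #10580: base in the form
`K₀ q * AAc (dim q) (B '' K q) * (Wd + δ) / wt` for all frames `B`; 199's form: `base_frame`). -/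
theorem mesh_shape_k (X : Cplx Ω Q dim K)
    (hw : ∀ j, 0 < wt j) (hb0 : ∀ n, 0 < b n) (hb2 : ∀ n, b n < 1/2) (hε0 : 0 < ε) (hε1 : ε < 1)
    (hK : ∀ q, 0 ≤ K₀ q) (hKm : ∀ σ τ : Q, σ < τ → K₀ σ ≤ K₀ τ) (hδ : ∀ q, 0 < δ q)
    (hR : ∀ q ∈ R, ∀ p < q, p ∈ R) (H0 : Inv C K R g0 P0 c0)
    (hbase : ∀ q ∈ R, ∀ B : E ≃ᵃ[ℝ] E, ∀ x, ∀ z ∈ K q,
      LB B (K₀ q * AAc (dim q) (B '' K q) * (Wd C wt q + δ q) / wt (C.col q x)) (c0 q x) (K q) z)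
    (e : ∀ τ, 1 ≤ dim τ → PLEquiv (cube (dim τ)) (K τ))
    (he : ∀ τ, ∀ hd : 1 ≤ dim τ, (e τ hd).f '' sph (dim τ) = bdS K τ)
    (hef : ∀ τ, ∀ hd : 1 ≤ dim τ, ∀ B ∈ FrA E, ∀ v ∈ cube (dim τ),
      MB id B (AAc (dim τ) (B '' K τ)) (e τ hd).f (cube (dim τ)) v)
    (heg : ∀ τ, ∀ hd : 1 ≤ dim τ, ∀ B ∈ FrA E, ∀ z ∈ K τ,
      MB B id (AAc (dim τ) (B '' K τ)) (e τ hd).g (K τ) z)
    (k : ∀ τ, C.I τ → ℕ) (hk : ∀ τ ∉ R, dim τ = 1 → Function.Injective (k τ))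
    (ord : ∀ τ ∉ R, dim τ = 1 → ∀ x x', x ≠ x' → C.fam (C.col τ x) = C.fam (C.col τ x') →
      (k τ x' < k τ x → C.side τ x x' = 1) ∧ (k τ x < k τ x' → C.side τ x x' = 0))
    (Rl : (∀ q, C.I q → E → ℝ) → ∀ τ, C.I τ → C.I τ → Prop)
    (hRl : ∀ D g P c (_ : Inv C K D g P c) τ, 2 ≤ dim τ → (∀ σ < τ, σ ∈ D) →
      ∃ kk : C.I τ → ℕ, Function.Injective kk ∧ ∀ x x', Rl c τ x x' → kk x' < kk x)
    (hRI : ∀ c τ x x', Ins C K c τ x x' → Rl c τ x x')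
    (Spec : ∀ q, Lam (K q) (C.I q) → Prop)
    (hS0 : ∀ τ ∉ R, dim τ = 0 → ∀ M, Spec τ M)
    (hS1 : ∀ τ ∉ R, dim τ = 1 → ∀ (e : PLEquiv (cube 1) (K τ)), e.f '' sph 1 = bdS K τ →
      e.f (fun _ => -1) ∈ K (C.o τ) → ∀ (p : C.I τ → ℝ)
      (hE : Ed (fun i => 4 * (1 - ε) * uq C wt δ τ * wt (C.col τ i)) p),
      (∀ i j, k τ j < k τ i → p j < p i) → Spec τ ((edgeLam hE).pull e.symm (X.isClosed τ)))
    (hS2 : ∀ D g P c (H : Inv C K D g P c), ∀ τ, (hd : 2 ≤ dim τ) →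
      (∀ q ∈ D, Trk C K R g0 P0 c0 b Spec (fun _ => FrA E) wt (LamSk X C K₀ ε b wt δ) (dim τ) q g
        (P q) (c q)) →
      ∀ _ : τ ∉ R, ∀ (hτ : ∀ σ < τ, σ ∈ D) (κ : ℝ) (ρ : C.I τ → ℝ)
      (Dp : Dep (bdLam H X τ hτ) κ (b (dim τ)) (fun x => uq C wt δ τ * wt (C.col τ x)) ρ),
      (∀ x x', Rl c τ x x' → ρ x' < ρ x) →
      Spec τ (Dp.fillBall (e τ (by omega)) (he τ (by omega))))
    (n : ℕ) : ∃ g P c, Inv C K (R ∪ {q | dim q < n}) g P c ∧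
      ∀ q ∈ R ∪ {q | dim q < n}, Trk C K R g0 P0 c0 b Spec (fun _ => FrA E) wt
        (LamSk X C K₀ ε b wt δ) n q g (P q) (c q) := by
  refine mesh_num_k (fun x => x) X (ω := fun B q => omB X C wt δ B q)
    (Lf := fun B τ => AAc (dim τ) (B '' K τ)) (Lg := fun B τ => AAc (dim τ) (B '' K τ)) (K₁ := 0)
    (fun B => num_omB X hw hb0 hb2 hε0 hε1 le_rfl hδ B) hK hKm hR H0 (fun _ => FrA E)
    (fun _ => Subset.rfl) ?_ e (fun τ _ hd => he τ hd)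
    (fun τ _ hd B hB v hv => ?_) (fun τ _ hd B hB z hz => heg τ hd B hB z hz) k hk ord Rl hRl hRI
    Spec hS0 hS1 hS2 n
  · -- the base
    rintro q hq _ ⟨B, rfl⟩ x z hz
    refine (hbase q hq B x z hz).mono ?_
    refine div_le_div_of_nonneg_right ?_ (hw _).le
    rw [mul_assoc]
    exact mul_le_mul_of_nonneg_left (omB_ge (C := C) X hw hδ (B : E → E) q) (hK q)
  · exact (hef τ hd B hB v (sph_subset_cube hv)).filter_mono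
      (nhdsWithin_mono _ fun _ h => sph_subset_cube h)


/-- **THE CONSTANT OF A TILE IN A FRAME**: `m = dim q` the top dimension, `𝒦` the configuration in
the frame `B`. -/
theorem lam_tile_k (X : Cplx Ω Q dim K) (hw : ∀ j, 0 < wt j) (hb0 : ∀ n, 0 < b n)
    (hK : ∀ q, 0 ≤ K₀ q)
    (hδ : ∀ q, 0 < δ q) {m : ℕ} {q : Q} (hq : 2 ≤ dim q) (hm : dim q ≤ m) {B : E ≃ᵃ[ℝ] E}
    {𝒦 : Set (Set E)} (h𝒦 : 𝒦.Finite) (hB : ∀ σ ≤ q, B '' K σ ∈ 𝒦)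
    (hinj : ∀ σ ≤ q, ∀ σ' ≤ q, K σ = K σ' → σ = σ') {d : ℝ} (hd : ∀ σ ≤ q, δ σ ≤ d)
    (hne : ∀ σ ≤ q, 2 ≤ dim σ → ∀ x : C.I σ, ∃ e, ∃ h : e < σ, dim e = 1 ∧
      ∃ y : C.I e, C.up h y = x) :
    LamSk X C K₀ ε b wt δ (m + 1) q B ≤
      C𝒦 (K₀ q) ε b m 𝒦 * (∑ e ∈ edg X q, Wd C wt e + d) :=
  lam_tile (K₀ := K₀ q) X hw hb0 (hK q) hδ hq hm h𝒦 hB hinj hd hne

/-- **THE PIECES OF A TILE IN A FRAME** (`C = 2 * C𝒦 (K₀ q)`, no tolerance) -/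
theorem tile_piece_k (X : Cplx Ω Q dim K) (hw : ∀ j, 0 < wt j) (hb0 : ∀ n, 0 < b n)
    (hK : ∀ q, 0 ≤ K₀ q)
    (hδ : ∀ q, 0 < δ q) (hδ2 : ∀ q, 0 < WE X C wt q → ∀ σ ≤ q, δ σ ≤ WE X C wt q)
    {m : ℕ} {q : Q} (hq : 2 ≤ dim q) (hm : dim q ≤ m) {B : E ≃ᵃ[ℝ] E}
    {𝒦 : Set (Set E)} (h𝒦 : 𝒦.Finite) (hB : ∀ σ ≤ q, B '' K σ ∈ 𝒦)
    (hinj : ∀ σ ≤ q, ∀ σ' ≤ q, K σ = K σ' → σ = σ')
    (hne : ∀ σ ≤ q, 2 ≤ dim σ → ∀ x : C.I σ, ∃ e, ∃ h : e < σ, dim e = 1 ∧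
      ∃ y : C.I e, C.up h y = x)
    {Spec : ∀ q, Lam (K q) (C.I q) → Prop} {g : Gd E J} {P : C.I q → Set E} {c : C.I q → E → ℝ}
    (hT : Trk C K R g0 P0 c0 b Spec (fun _ => FrA E) wt (LamSk X C K₀ ε b wt δ) (m + 1) q g P c)
    (x : C.I q) {z : E} (hz : z ∈ K q) :
    LB B (2 * C𝒦 (K₀ q) ε b m 𝒦 * WE X C wt q / wt (C.col q x)) (c x) (K q) z := by
  have hW := WE_pos X hw (hne q le_rfl hq) x
  have h1 := hT.ll B ⟨B, rfl⟩ x z hz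
  refine h1.mono (div_le_div_of_nonneg_right ?_ (hw _).le)
  have h2 := lam_tile_k (ε := ε) (K₀ := K₀) (b := b) X hw hb0 hK hδ hq hm h𝒦 hB hinj (hδ2 q hW) hne
  refine h2.trans (le_of_eq ?_)
  unfold WE
  ring

/-- **THE FAMILIES OF A TILE IN A FRAME** -/
theorem tile_fam_k (X : Cplx Ω Q dim K) (hw : ∀ j, 0 < wt j) (hb0 : ∀ n, 0 < b n)
    (hK : ∀ q, 0 ≤ K₀ q)
    (hδ : ∀ q, 0 < δ q) (hδ2 : ∀ q, 0 < WE X C wt q → ∀ σ ≤ q, δ σ ≤ WE X C wt q)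
    {m : ℕ} {q : Q} (hq : 2 ≤ dim q) (hm : dim q ≤ m) {B : E ≃ᵃ[ℝ] E}
    {𝒦 : Set (Set E)} (h𝒦 : 𝒦.Finite) (hB : ∀ σ ≤ q, B '' K σ ∈ 𝒦)
    (hinj : ∀ σ ≤ q, ∀ σ' ≤ q, K σ = K σ' → σ = σ')
    (hne : ∀ σ ≤ q, 2 ≤ dim σ → ∀ x : C.I σ, ∃ e, ∃ h : e < σ, dim e = 1 ∧
      ∃ y : C.I e, C.up h y = x)
    {Spec : ∀ q, Lam (K q) (C.I q) → Prop} {D : Set Q} {g : Gd E J} {P : ∀ q, C.I q → Set E}
    {c : ∀ q, C.I q → E → ℝ} (H : Inv C K D g P c) (hqD : q ∈ D)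
    (hT : Trk C K R g0 P0 c0 b Spec (fun _ => FrA E) wt (LamSk X C K₀ ε b wt δ) (m + 1) q g (P q)
      (c q)) (T : Finset J) (hTf : ∀ j ∈ T, ∀ j' ∈ T, C.fam j = C.fam j') {z : E}
    (hz : z ∈ K q) :
    LB B (2 * C𝒦 (K₀ q) ε b m 𝒦 * WE X C wt q) (fun w => ∑ j ∈ T, wt j * g.G j w) (K q) z := by
  have h0 := C𝒦_nonneg (ε := ε) (hK q) hb0 m 𝒦
  have h1 := WE_nonneg (C := C) X hw q
  exact H.LB_fam wt hw hqD T hTf hz (by positivity) fun x =>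
    tile_piece_k X hw hb0 hK hδ hδ2 hq hm h𝒦 hB hinj hne hT x hz

/-! ### the local constant of the given part -/

/-- `κ` on the cells which have a face in `R`, `0` on all other cells -/
def K0f (R : Set Q) (κ : ℝ) (q : Q) : ℝ := if ∃ σ ≤ q, σ ∈ R then κ else 0

theorem K0f_nonneg {κ : ℝ} (h : 0 ≤ κ) (q : Q) : 0 ≤ K0f R κ q := by
  unfold K0f; split_ifs <;> [exact h; exact le_rfl]

theorem K0f_mono {κ : ℝ} (h : 0 ≤ κ) {σ τ : Q} (hσ : σ ≤ τ) : K0f R κ σ ≤ K0f R κ τ := by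
  unfold K0f
  by_cases h1 : ∃ ρ ≤ σ, ρ ∈ R
  · obtain ⟨ρ, h2, h3⟩ := h1
    rw [if_pos ⟨ρ, h2, h3⟩, if_pos ⟨ρ, h2.trans hσ, h3⟩]
  · rw [if_neg h1]
    split_ifs <;> [exact h; exact le_rfl]

theorem K0f_le {κ : ℝ} (h : 0 ≤ κ) (q : Q) : K0f R κ q ≤ κ := by
  unfold K0f; split_ifs <;> [exact le_rfl; exact h]

theorem K0f_of_mem {κ : ℝ} {q : Q} (h : q ∈ R) : K0f R κ q = κ := if_pos ⟨q, le_rfl, h⟩

theorem K0f_of_not {κ : ℝ} {q : Q} (h : ∀ σ ≤ q, σ ∉ R) : K0f R κ q = 0 :=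
  if_neg fun ⟨σ, h1, h2⟩ => h σ h1 h2

end

end Crest.Agent.R096.Nk_955
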