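import Mathlib
import Crest.Agent.R096.Csub3_487
import Crest.Agent.R096.Lm10_117
import Crest.Agent.R096.Ce2_537
import Crest.Agent.R96.Nu8_199
import Crest.Agent.R096.Nk2_955

-- ▼ part R096/Csub5_487
section

/-!
# R096 (row 96), helper487.  The complex over the index type of 117's `lmK` (Lm10_117), and 199's
constants for an ordinary tile of it.
-/

set_option autoImplicit false
set_option linter.unusedSectionVars false

open Set Metric Filter Topology Module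

namespace Crest.Agent.R096.Csub_487

open Crest.Agent.R096.Ce_537 Crest.Agent.R096.Bd_416 Crest.Agent.R096.Msh_715
open Crest.Agent.R096.Lm_117 (QK Bel dimK OutK belK lmK)
open Crest.Agent.R96.Nu3_199 Crest.Agent.R96.Nu5_199 Crest.Agent.R96.Nu6_199
open Crest.Agent.R96.Nu7_199 Crest.Agent.R96.Nu8_199

open scoped Classical

noncomputable section

variable {E : Type} [NormedAddCommGroup E] [NormedSpace ℝ E] [FiniteDimensional ℝ E]
variable {Om : Set E} {ι κ : Type} {T : Tiling Om ι} {Kc : κ → Set E}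

/-- my `setK` is 117's `setK` -/
theorem setK_eq : setK (belK T Kc) (fun c => c.1.set) Kc = Lm_117.setK T Kc := by
  funext j
  rcases j with q | k
  · rfl
  · rfl

/-- the cells in the tiles outside the cores = the cells which miss the interiors -/
theorem outK_iff (hH : ∀ k, CoreH T (Kc k)) (hdis : ∀ k l, k ≠ l → Disjoint (Kc k) (Kc l))
    (c : T.Cell) : OutK T Kc c ↔ c ∈ DK T Kc :=
  (mem_DK_iff (fun k => (hH k).core.closed) (fun k => (hH k).cc) (fun k => (hH k).sub) hdis).symm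

/-- **THE COMPLEX OF 117's LABELLED MESH WITH GIANT CELLS** -/
theorem cplx_lmK (h3 : finrank ℝ E = 3) (hH : ∀ k, CoreH T (Kc k))
    (hdis : ∀ k l, k ≠ l → Disjoint (Kc k) (Kc l))
    (hball : ∀ k, IsBall 3 (Kc k) (frontier (Kc k))) :
    Cplx Om (QK (belK T Kc)) (dimK (belK T Kc) fun c => c.1.dim) (Lm_117.setK T Kc) := by
  rw [← setK_eq]
  exact cplx_QK_tile h3 (fun k => (hH k).core) (fun k => (hH k).cc) (fun k => (hH k).sub) hdis
    hball (outK_iff hH hdis) (belK T Kc) (fun _ _ => Iff.rfl)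

variable {J Fam : Type} {C : Cmb (QK (belK T Kc)) (dimK (belK T Kc) fun c => c.1.dim) J Fam}
  {R : Set (QK (belK T Kc))} {K₀ ε : ℝ} {b : ℕ → ℝ} {wt : J → ℝ} {δ : QK (belK T Kc) → ℝ}
  {g0 : Gd E J} {P0 : ∀ q, C.I q → Set E} {c0 : ∀ q, C.I q → E → ℝ} {Ω' : Set E}



end

end Crest.Agent.R096.Csub_487
end

-- ▼ part R096/Csub6_487
section

/-!
# R096 (row 96), helper487.  The constant of a tile does not see the squeezing numbers.

`Kn` (199) is monotone: larger for smaller `b`, for larger `ε` and `K₀`.  So for `1/4 ≤ b n` and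
`ε ≤ 1/2` the constants `C𝒦 K₀ ε b m 𝒦` are bounded by `CU K₀ m 𝒦 := C𝒦 K₀ (1/2) (fun _ => 1/4) m 𝒦`
(337 #10480).
-/

set_option autoImplicit false
set_option linter.unusedSectionVars false

open Set Metric Filter Topology Module

namespace Crest.Agent.R096.Csub_487

open Crest.Agent.R096.Ce_537 Crest.Agent.R096.Bd_416 Crest.Agent.R096.Msh_715
open Crest.Agent.R096.Lm_117 (QK Bel dimK OutK belK lmK)
open Crest.Agent.R96.Nu1_199 Crest.Agent.R96.Nu3_199 Crest.Agent.R96.Nu5_199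
open Crest.Agent.R96.Nu6_199 Crest.Agent.R96.Nu7_199 Crest.Agent.R96.Nu8_199

open scoped Classical

noncomputable section

/-- **`Kn` is monotone** -/
theorem Kn_mono {K₀ K₁ A ε ε' : ℝ} {b b' : ℕ → ℝ} (hK : 0 ≤ K₀) (hKK : K₀ ≤ K₁) (hA : 0 ≤ A)
    (hε : ε ≤ ε') (hε1 : ε' < 1) (hb : ∀ n, 0 < b' n) (hbb : ∀ n, b' n ≤ b n) :
    ∀ n, Kn K₀ A ε b n ≤ Kn K₁ A ε' b' n
  | 0 => hKK
  | n + 1 => by
    have ih := Kn_mono hK hKK hA hε hε1 hb hbb n
    have hb0 : ∀ n, 0 < b n := fun n => (hb n).trans_le (hbb n)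
    have h0 : 0 ≤ Kn K₀ A ε b n := Kn_nonneg hK hb0 n
    have h1 : 0 < 2 * b' n := by have := hb n; linarith
    have h2 : 2 * b' n ≤ 2 * b n := by have := hbb n; linarith
    rw [Kn_succ, Kn_succ]
    refine max_le_max ?_ (max_le_max ?_ ?_)
    · exact div_le_div₀ (h0.trans ih) ih h1 h2
    · exact div_le_div₀ hA le_rfl (by linarith) (by linarith)
    · refine mul_le_mul ?_ (max_le_max ih le_rfl) (le_max_of_le_left h0) ?_
      · exact div_le_div₀ (by positivity) le_rfl h1 h2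
      · positivity

/-- the universal constant of a configuration -/
def CU {E : Type*} [NormedAddCommGroup E] [NormedSpace ℝ E] [FiniteDimensional ℝ E]
    (K₀ : ℝ) (m : ℕ) (𝒦 : Set (Set E)) : ℝ := C𝒦 K₀ (1/2) (fun _ => 1/4) m 𝒦

section

variable {E : Type*} [NormedAddCommGroup E] [NormedSpace ℝ E] [FiniteDimensional ℝ E]

theorem C𝒦_mono {K₀ K₁ ε ε' : ℝ} {b b' : ℕ → ℝ} (hK : 0 ≤ K₀) (hKK : K₀ ≤ K₁)
    (hε : ε ≤ ε') (hε1 : ε' < 1) (hb : ∀ n, 0 < b' n) (hbb : ∀ n, b' n ≤ b n) (m : ℕ)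
    (𝒦 : Set (Set E)) : C𝒦 K₀ ε b m 𝒦 ≤ C𝒦 K₁ ε' b' m 𝒦 := by
  unfold C𝒦
  have h1 := Kn_mono (A := 1) hK hKK one_pos.le hε hε1 hb hbb (m + 1)
  have h2 := A𝒦_pos m 𝒦
  exact mul_le_mul_of_nonneg_right h1 (by positivity)

theorem CU_nonneg {K₀ : ℝ} (hK : 0 ≤ K₀) (m : ℕ) (𝒦 : Set (Set E)) : 0 ≤ CU K₀ m 𝒦 :=
  C𝒦_nonneg hK (fun _ => by norm_num) m 𝒦


/-- **the constants with `1/4 ≤ b`, `ε ≤ 1/2` are bounded by the universal one** -/
theorem C𝒦_le_CU {K₀ K₁ ε : ℝ} {b : ℕ → ℝ} (hK : 0 ≤ K₀) (hKK : K₀ ≤ K₁) (hε : ε ≤ 1/2)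
    (hb : ∀ n, 1/4 ≤ b n) (m : ℕ) (𝒦 : Set (Set E)) : C𝒦 K₀ ε b m 𝒦 ≤ CU K₁ m 𝒦 :=
  C𝒦_mono hK hKK hε (by norm_num) (fun _ => by norm_num) hb m 𝒦

end

section Tile

variable {E : Type} [NormedAddCommGroup E] [NormedSpace ℝ E] [FiniteDimensional ℝ E]
variable {Om : Set E} {ι κ : Type} {T : Tiling Om ι} {Kc : κ → Set E}
variable {J Fam : Type} {C : Cmb (QK (belK T Kc)) (dimK (belK T Kc) fun c => c.1.dim) J Fam}
  {R : Set (QK (belK T Kc))} {K₀ ε : ℝ} {b : ℕ → ℝ} {wt : J → ℝ} {δ : QK (belK T Kc) → ℝ}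
  {g0 : Gd E J} {P0 : ∀ q, C.I q → Set E} {c0 : ∀ q, C.I q → E → ℝ} {Ω' : Set E}


end Tile

end

end Crest.Agent.R096.Csub_487
end

-- ▼ part R096/Lst2_955
section

/-!
# R096 (row 96), subcomplex of a complex (helper955; leaf (L1) of 199 #10196)

`p : I → Prop` down-closed as in 117's `LM.sub` / `LM.merge`.
-/

set_option autoImplicit false
set_option linter.unusedSectionVars false

open Set Metric

namespace Crest.Agent.R096.Lst2_955

open Crest.Agent.R096.Ce_537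

variable {E : Type*} [NormedAddCommGroup E] [NormedSpace ℝ E]
variable {Ω : Set E} {I : Type*} [PartialOrder I] {dim : I → ℕ} {K : I → Set E}
variable {p : I → Prop}

/-- open cells of a down-closed subset are the open cells of the complex -/
theorem opn_sub (hp : ∀ c d, c ≤ d → p d → p c) (i : {i // p i}) (x : E) :
    Opn (fun i : {i // p i} => K i.1) i x ↔ Opn K i.1 x := by
  constructor
  · rintro ⟨h1, h2⟩
    exact ⟨h1, fun j hj => h2 ⟨j, hp j i.1 hj.le i.2⟩ hj⟩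
  · rintro ⟨h1, h2⟩
    exact ⟨h1, fun j hj => h2 j.1 hj⟩





end Crest.Agent.R096.Lst2_955
end

-- ▼ part R096/Csub7_487

/-!
# R096 (row 96), helper487.  Complexes over index types which name closed cells of a tiling.

* `CellIx T dim K cell` : `cell : Q → T.Cell` is an order embedding onto a down-closed set of cells,
  with the same dimensions and sets;
* `CellIx.cplx` : it is a complex of the union of its cells;
* `CellIx.conv`, `cpt`, `bd` (the hypotheses of `exists_e`, `exists_eA`), `tile_piece`, `tile_fam`,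
  `tile_famCU`;
* `pO`, `pK` : the closed cells outside all open cores (`S` = exact core tiles, `Kc` = cores which
  are unions of tiles); `cplx_outO`, `cplx_outK` (337 #10755 (b)).
-/

set_option autoImplicit false
set_option linter.unusedSectionVars false

open Set Metric Filter Topology Module

namespace Crest.Agent.R096.Csub_487

open Crest.Agent.R096.Ce_537 Crest.Agent.R096.Bd_416 Crest.Agent.R096.Msh_715
open Crest.Agent.R096.Lm_117 (QK Bel dimK OutK belK)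
open Crest.Agent.R96.Nu3_199 Crest.Agent.R96.Nu5_199 Crest.Agent.R96.Nu6_199
open Crest.Agent.R96.Nu7_199 Crest.Agent.R96.Nu8_199
open Crest.Agent.R096.Nk_955 (LamSk tile_piece_k tile_fam_k)

open scoped Classical

noncomputable section

variable {E : Type} [NormedAddCommGroup E] [NormedSpace ℝ E] [FiniteDimensional ℝ E]
variable {Om : Set E} {ι κ : Type} {T : Tiling Om ι} {Kc : κ → Set E}

/-- the index type `Q` names the closed cells of a down-closed set of cells of the tiling -/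
structure CellIx (T : Tiling Om ι) {Q : Type} [PartialOrder Q] (dim : Q → ℕ) (K : Q → Set E)
    (cell : Q → T.Cell) : Prop where
  le : ∀ σ τ, σ ≤ τ ↔ cell σ ≤ cell τ
  down : ∀ τ (c : T.Cell), c ≤ cell τ → ∃ σ, cell σ = c
  dim_eq : ∀ q, dim q = (cell q).dim
  set_eq : ∀ q, K q = (cell q).set

namespace CellIx

variable {Q : Type} [PartialOrder Q] {dim : Q → ℕ} {K : Q → Set E} {cell : Q → T.Cell}
  (h : CellIx T dim K cell)

include h

theorem inj : Function.Injective cell := fun σ τ e =>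
  le_antisymm ((h.le σ τ).2 e.le) ((h.le τ σ).2 e.ge)

theorem lt (σ τ : Q) : σ < τ ↔ cell σ < cell τ := by
  rw [lt_iff_le_not_ge, lt_iff_le_not_ge, h.le, h.le]

theorem K_inj {σ τ : Q} (e : K σ = K τ) : σ = τ :=
  h.inj (Tiling.Cell.ext (by rw [← h.set_eq, ← h.set_eq, e]))

theorem bdS_eq (τ : Q) : bdS K τ = bdS (fun c : T.Cell => c.set) (cell τ) := by
  ext x
  simp only [bdS, mem_iUnion, mem_ofPred_eq, exists_prop]
  constructor
  · rintro ⟨σ, hσ, hx⟩
    exact ⟨cell σ, (h.lt _ _).1 hσ, by rw [← h.set_eq]; exact hx⟩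
  · rintro ⟨c, hc, hx⟩
    obtain ⟨σ, rfl⟩ := h.down τ c hc.le
    exact ⟨σ, (h.lt _ _).2 hc, by rw [h.set_eq]; exact hx⟩

theorem conv (τ : Q) : Convex ℝ (K τ) := by rw [h.set_eq]; exact convex_cell _

theorem cpt (τ : Q) : IsCompact (K τ) := by rw [h.set_eq]; exact compact_cell _

theorem bd (τ : Q) : bdS K τ = K τ \ ri (K τ) := by
  rw [h.bdS_eq, h.set_eq]; exact bdS_cell _

/-- **the complex** -/
theorem cplx {Ω' : Set E} (hΩ : Ω' = ⋃ q, K q) : Cplx Ω' Q dim K where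
  isBall q := by
    have e : (⋃ j ∈ {j : Q | j < q}, K j) = bdS (fun c : T.Cell => c.set) (cell q) := h.bdS_eq q
    rw [e, h.dim_eq, h.set_eq]
    exact T.cplx.isBall (cell q)
  mono q j hj := by
    rw [h.dim_eq, h.dim_eq]
    exact T.cplx.mono _ _ ((h.lt _ _).1 hj)
  disj q j x h1 h2 := by
    have key : ∀ q, Opn K q x → Opn (fun c : T.Cell => c.set) (cell q) x := by
      rintro q ⟨hq1, hq2⟩
      refine ⟨by show x ∈ (cell q).set; rw [← h.set_eq]; exact hq1, fun c hc hx => ?_⟩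
      obtain ⟨σ, rfl⟩ := h.down q c hc.le
      exact hq2 σ ((h.lt _ _).2 hc) (by rw [h.set_eq]; exact hx)
    exact h.inj (T.cplx.disj _ _ x (key q h1) (key j h2))
  sub q := by rw [hΩ]; exact subset_iUnion K q
  cover x hx := by
    rw [hΩ] at hx
    exact mem_iUnion.1 hx
  lf x hx := by
    have hx' : x ∈ Om := by
      rw [hΩ] at hx
      obtain ⟨q, hq⟩ := mem_iUnion.1 hx
      rw [h.set_eq] at hq
      exact T.cplx.sub _ hq
    obtain ⟨r, hr, hf⟩ := T.cplx.lf x hx'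
    refine ⟨r, hr, Set.Finite.of_finite_image (f := cell) (hf.subset ?_) h.inj.injOn⟩
    rintro _ ⟨q, hq, rfl⟩
    show (((cell q).set) ∩ _).Nonempty
    rw [← h.set_eq]
    exact hq

theorem cfg {i : ι} {q : Q} (hqi : K q = P (T.H i)) (B : E ≃ᵃ[ℝ] E) {σ : Q} (hσ : σ ≤ q) :
    B '' K σ ∈ CfgB T i B := by
  refine mem_image_of_mem _ ?_
  rw [h.set_eq]
  refine mem_Cfg ?_
  rw [← hqi, h.set_eq]
  exact Tiling.Cell.le_def.1 ((h.le _ _).1 hσ)

theorem dim_tile {i : ι} {q : Q} (hqi : K q = P (T.H i)) : dim q = finrank ℝ E := by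
  rw [h.dim_eq]
  obtain ⟨c, hc, hd⟩ := exists_tile T i
  have : cell q = c := Tiling.Cell.ext (by rw [← h.set_eq, hqi, hc])
  rw [this, hd]

variable {J Fam : Type} {C : Cmb Q dim J Fam} {R : Set Q} {K₀ : Q → ℝ} {ε : ℝ} {b : ℕ → ℝ}
  {wt : J → ℝ} {δ : Q → ℝ} {g0 : Gd E J} {P0 : ∀ q, C.I q → Set E} {c0 : ∀ q, C.I q → E → ℝ}
  {Ω' : Set E}

/-- **THE PIECES OF A TILE IN THE FRAME `B`** -/
theorem tile_piece (X : Cplx Ω' Q dim K) (h2 : 2 ≤ finrank ℝ E) (hw : ∀ j, 0 < wt j)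
    (hb0 : ∀ n, 0 < b n) (hK : ∀ q, 0 ≤ K₀ q) (hδ : ∀ q, 0 < δ q)
    (hδ2 : ∀ q, 0 < WE X C wt q → ∀ σ ≤ q, δ σ ≤ WE X C wt q)
    {i : ι} {q : Q} (hqi : K q = P (T.H i))
    (hne : ∀ σ ≤ q, 2 ≤ dim σ → ∀ x : C.I σ, ∃ e, ∃ h : e < σ, dim e = 1 ∧
      ∃ y : C.I e, C.up h y = x)
    {Spec : ∀ q, Lam (K q) (C.I q) → Prop} {g : Gd E J} {P : C.I q → Set E} {c : C.I q → E → ℝ}
    (hT : Trk C K R g0 P0 c0 b Spec (fun _ => FrA E) wt (LamSk X C K₀ ε b wt δ)
      (finrank ℝ E + 1) q g P c)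
    (B : E ≃ᵃ[ℝ] E) (x : C.I q) {z : E} (hz : z ∈ K q) :
    LB B (2 * C𝒦 (K₀ q) ε b (finrank ℝ E) (CfgB T i B) * WE X C wt q / wt (C.col q x))
      (c x) (K q) z := by
  have hd := h.dim_tile hqi
  exact tile_piece_k X hw hb0 hK hδ hδ2 (by rw [hd]; exact h2) hd.le (finite_CfgB T i B)
    (fun σ hσ => h.cfg hqi B hσ) (fun σ _ σ' _ e => h.K_inj e) hne hT x hz



/-- **the pieces, universal constant** -/
theorem tile_pieceCU (X : Cplx Ω' Q dim K) (h2 : 2 ≤ finrank ℝ E) (hw : ∀ j, 0 < wt j)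
    (hb0 : ∀ n, 1/4 ≤ b n) (hε : ε ≤ 1/2) (hK : ∀ q, 0 ≤ K₀ q) (hδ : ∀ q, 0 < δ q)
    (hδ2 : ∀ q, 0 < WE X C wt q → ∀ σ ≤ q, δ σ ≤ WE X C wt q)
    {i : ι} {q : Q} (hqi : K q = P (T.H i))
    (hne : ∀ σ ≤ q, 2 ≤ dim σ → ∀ x : C.I σ, ∃ e, ∃ h : e < σ, dim e = 1 ∧
      ∃ y : C.I e, C.up h y = x)
    {Spec : ∀ q, Lam (K q) (C.I q) → Prop} {g : Gd E J} {P : C.I q → Set E} {c : C.I q → E → ℝ}
    (hT : Trk C K R g0 P0 c0 b Spec (fun _ => FrA E) wt (LamSk X C K₀ ε b wt δ)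
      (finrank ℝ E + 1) q g P c)
    {K₁ : ℝ} (hK1 : K₀ q ≤ K₁) {N : ℝ} (hN : WE X C wt q ≤ N)
    (B : E ≃ᵃ[ℝ] E) (x : C.I q) {z : E} (hz : z ∈ K q) :
    LB B (2 * CU K₁ (finrank ℝ E) (CfgB T i B) * N / wt (C.col q x)) (c x) (K q) z := by
  have hb0' : ∀ n, 0 < b n := fun n => by have := hb0 n; linarith
  refine (h.tile_piece X h2 hw hb0' hK hδ hδ2 hqi hne hT B x hz).mono
    (div_le_div_of_nonneg_right ?_ (hw _).le)
  have h1 := C𝒦_le_CU (hK _) hK1 hε hb0 (finrank ℝ E) (CfgB T i B)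
  have h3 := WE_nonneg (C := C) X hw q
  have h4 := CU_nonneg ((hK _).trans hK1) (finrank ℝ E) (CfgB T i B)
  exact mul_le_mul (by linarith) hN h3 (by linarith)

end CellIx

/-! ### instances -/


/-- the cells with a property -/
theorem CellIx.sub {Q : Type} [PartialOrder Q] {dim : Q → ℕ} {K : Q → Set E} {cell : Q → T.Cell}
    (h : CellIx T dim K cell) {p : Q → Prop} (hp : ∀ c d, c ≤ d → p d → p c) :
    CellIx T (fun c : {c : Q // p c} => dim c.1) (fun c => K c.1) (fun c => cell c.1) where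
  le σ τ := h.le σ.1 τ.1
  down τ c hc := by
    obtain ⟨σ, rfl⟩ := h.down τ.1 c hc
    exact ⟨⟨σ, hp σ τ.1 ((h.le _ _).2 hc) τ.2⟩, rfl⟩
  dim_eq q := h.dim_eq q.1
  set_eq q := h.set_eq q.1




end

end Crest.Agent.R096.Csub_487
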