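import Crest.Agent.R096.Gl11_422

/-!
# R096 (row 96), part 4 (helper298): the state half over a subcomplex of the cells (337 #10755 (3)(a))

`LM.cut` : the labelled mesh over the cells with `p` (the mesh, the faces and the points are the
same; `p` contains all cells of dimension at most two).
`stI_cut` : `StI` over `L` gives `StI` over `L.cut p`.
`lmR` : `lmK` without the giants and without the 3-cells of a set `R` of tiles.
-/

set_option autoImplicit false
set_option linter.unusedSectionVars false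

open Set Relation Module

namespace Crest.Agent.R096.Gm_298

open Crest.Agent.R096.St_147 Crest.Agent.R096.Seq_213 Crest.Agent.R096.Seq_213.GSt
  Crest.Agent.R096.Lm_117 Crest.Agent.R096.Ac_117
  Crest.Agent.R096.Cp_298 Crest.Agent.R096.Msh_715 Crest.Agent.R096.Agl5_543
  Crest.Agent.R096.Ori_543 Crest.Agent.R096.Coh_184 Crest.Agent.R096.Gl_422
  Crest.Agent.R096.SkB_662

section gen

variable {ι Φ W Q J C K : Type} {M : MeshC ι Φ W} [PartialOrder Q] {dim : Q → ℕ}

/-- **the labelled mesh over the cells with `p`** (same mesh) -/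
noncomputable def cut (L : LM M Q dim) (p : Q → Prop) (hp : ∀ c d, c ≤ d → p d → p c)
    (hne : ∃ c, p c) (hp2 : ∀ c, dim c ≤ 2 → p c) : LM M {c : Q // p c} (fun c => dim c.1) :=
  L.sub p hp hne M id Function.injective_id (fun _ => rfl) (fun _ => rfl)
    (fun F => hp2 _ (L.cf_dim F).le) (fun F _ => ⟨F, rfl⟩)



variable {L : LM M Q dim} {p : Q → Prop} {hp : ∀ c d, c ≤ d → p d → p c}
  {hne : ∃ c, p c} {hp2 : ∀ c, dim c ≤ 2 → p c}










variable {Qd : Quads ι C K} {fam : J → C} {s₀ : GSt M fam} {G : C → Set W} {Z : C → Set Q}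
  {lam₀ : J → Q → ZMod 2} {v₀ v₁ : C → Q}

/-- the ends of a rope are vertices -/
theorem rope_vtx {Z' : Set Q} {v v' : Q} (h : ReflTransGen (Ed L Z') v v') (hne' : v ≠ v') :
    dim v = 0 ∧ dim v' = 0 := by
  constructor
  · rcases ReflTransGen.cases_head h with h | ⟨u, ⟨e, -, h2, b, rfl, -⟩, -⟩
    · exact absurd h hne'
    · exact L.en_dim e h2 b
  · rcases ReflTransGen.cases_tail h with h | ⟨u, -, ⟨e, -, h2, b, -, rfl⟩⟩
    · exact absurd h.symm hne'
    · exact L.en_dim e h2 _


variable {O : Ori M} {τ : Q → ZMod 2} {Rel : W → W → Prop} {V : Set W} {κ : C → ℕ}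
  {far₀ : J → Set W}




end gen

/-! ### the cells outside the cores (giants and single tiles) -/

section tiling

variable {E : Type} [NormedAddCommGroup E] [NormedSpace ℝ E] [FiniteDimensional ℝ E]
variable {Om : Set E} {ι : Type} {T : Tiling Om ι} {κ : Type} {Kc : κ → Set E}

/-- not a giant and not the 3-cell of a tile of `R` -/
def NR (T : Tiling Om ι) (Kc : κ → Set E) (R : Set ι) : QK (belK T Kc) → Prop
  | Sum.inl c => ∀ i ∈ R, c.1 ≠ tcell T i
  | Sum.inr _ => False


theorem nr_down (h3 : finrank ℝ E = 3) (R : Set ι) (c d : QK (belK T Kc)) (h : c ≤ d)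
    (hd : NR T Kc R d) : NR T Kc R c := by
  rcases d with d | k
  · obtain ⟨c', rfl, hc'⟩ := QK.le_c h
    intro i hi hc
    refine hd i hi ?_
    have h1 : c'.1 ≤ d.1 := hc'
    rw [hc] at h1
    rcases h1.lt_or_eq with h2 | h2
    · exfalso
      have h4 := Cm_117.dim_lt_cell h2
      rw [tcell_dim h3] at h4
      have h5 : d.1.dim ≤ finrank ℝ E := T.dim_le_finrank d.1.pt
      omega
    · exact h2.symm
  · exact hd.elim


variable [Nonempty T.Cell]



variable {h3 : finrank ℝ E = 3} {hH : ∀ c, CoreH T (Kc c)}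
  {hdis : ∀ c c', c ≠ c' → Disjoint (Kc c) (Kc c')} {hne : ∃ c, OutK T Kc c} {R : Set ι}

/-- every cell of `lmR` is a cell of the tiling outside the giants -/
theorem nr_cases (x : {c : QK (belK T Kc) // NR T Kc R c}) :
    ∃ c : {c : T.Cell // OutK T Kc c}, x.1 = QK.c _ c ∧ ∀ i ∈ R, c.1 ≠ tcell T i := by
  obtain ⟨x, hx⟩ := x
  rcases x with c | k
  · exact ⟨c, rfl, hx⟩
  · exact hx.elim

variable {J C K : Type} {fam : J → C} {Qd : Quads (ι ⊕ κ) C K} {s₀ : GSt (mK h3 hH hdis) fam}


end tiling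

end Crest.Agent.R096.Gm_298
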