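import Mathlib
import Crest.Agent.R096.Csub7_487
import Crest.Agent.R096.Gm4_298
import Crest.Agent.R096.Fin4_147

/-!
# R096 (row 96), helper487.  The complex of the closed cells outside all open cores
(337 #10755 (b)), for the index types of the state half:

* `{c : QK (belK T Kc) // NR T Kc R c}` (298's `lmR`): `cellIx_NR`, `cplx_NR`, `cplx_out`;
* `{c : T.Cell // OutK T Kc c}` (117's `lmO`, 334's `lmX`): `cellIx_O`, `cplx_O`.
-/

set_option autoImplicit false
set_option linter.unusedSectionVars false

open Set Metric Filter Topology Module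

namespace Crest.Agent.R096.Csub_487

open Crest.Agent.R096.Ce_537 Crest.Agent.R096.Bd_416 Crest.Agent.R096.Msh_715
open Crest.Agent.R096.Lm_117 (QK Bel dimK OutK belK lmK tcell tcell_set)
open Crest.Agent.R096.Gm_298 (NR nr_down nr_cases)
open Crest.Agent.R096.Fin_147 (Xout)

open scoped Classical

noncomputable section

variable {E : Type} [NormedAddCommGroup E] [NormedSpace ℝ E] [FiniteDimensional ℝ E]
variable {Om : Set E} {ι κ : Type} {T : Tiling Om ι} {Kc : κ → Set E}








/-- the interior of a closed tile is the open tile -/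
theorem interior_tile (i : ι) : interior (P (T.H i)) = I (T.H i) := by
  refine Set.Subset.antisymm (fun x hx => ?_) (interior_maximal (I_sub_P _) (isOpen_I _))
  have hxO : x ∈ Om := T.sub i (interior_subset hx)
  obtain ⟨z, hz⟩ := T.ne i
  intro k hk
  refine lt_of_le_of_ne (interior_subset hx k hk) fun e => ?_
  have hc : ContinuousAt (fun s : ℝ => x + s • (x - z)) 0 := by fun_prop
  have hev : ∀ᶠ s in 𝓝 (0 : ℝ), x + s • (x - z) ∈ interior (P (T.H i)) := by
    refine hc.eventually_mem (isOpen_interior.mem_nhds ?_)
    simpa using hx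
  obtain ⟨r, hr, hr'⟩ := Metric.eventually_nhds_iff.1 hev
  have h1 : x + (r / 2) • (x - z) ∈ P (T.H i) := interior_subset (hr' (by
    rw [Real.dist_eq, sub_zero, abs_of_pos (by positivity)]; linarith))
  have h2 := h1 k hk
  rw [map_add, map_smul, map_sub, e, smul_eq_mul] at h2
  have h3 := hz k hk
  have h4 : 0 < r / 2 * (k.2 - k.1 z) := mul_pos (by positivity) (by linarith)
  linarith


end

end Crest.Agent.R096.Csub_487
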