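import Crest.Agent.R096.Shg6_334
import Crest.Agent.R096.Csub8_487

/-!
# R096 (row 96), ARR-SH (helper334), GIANT part 7: the sheets of 147's `fin_gout`

* `Emb.sheetK` : `Emb.sheet` with any name for the sets of the cells;
* `embR` : 298's index type `{c : QK (belK T KK) // NR T KK R c}` (`lmR`) names the cells outside all
  cores; `tlX`, `cor2X` : the tiles of the cores (337 #10755);
* `sheets_fin` : the hypothesis `sheets` of 147's `fin_gout` from the spheres;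
* `sheets_out` : everything together over `lmR`.
-/

set_option autoImplicit false
set_option linter.unusedSectionVars false

open Set Metric Topology Module

namespace Crest.Agent.R096.Shg_334

open Crest.Agent.R096.Ce_537 Crest.Agent.R096.Bd_416 Crest.Agent.R096.Shp_334
  Crest.Agent.R096.Seq_213 Crest.Agent.R096.St_147 Crest.Agent.R096.Lm_117

section emb

open Crest.Agent.R096.Ac_117
open Crest.Agent.R096.Msh_715 Crest.Agent.R096.Lab_184 Crest.Agent.R096.Agl5_543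
  Crest.Agent.R096.Pat5_543 Crest.Agent.R096.Coh_184

variable {E : Type} [NormedAddCommGroup E] [NormedSpace ℝ E] [FiniteDimensional ℝ E]
variable {Om : Set E} {ι : Type} {T : Tiling Om ι} {κ 𝒢 : Type} {KK : κ → Set E} {Kc : 𝒢 → Set E}
variable [Nonempty T.Cell]

section gen

variable {Q' : Type} [PartialOrder Q'] {dim' : Q' → ℕ} {vl : Q' → T.Cell}
variable {tl : 𝒢 → ι ⊕ κ}
variable (h3 : finrank ℝ E = 3) (hH : ∀ c, CoreH T (KK c))
  (hdis : ∀ c c', c ≠ c' → Disjoint (KK c) (KK c'))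
variable {J Fam : Type} {fam : J → Fam} {s : GSt (mK h3 hH hdis) fam}

/-- **the sheets over a tiling with exact tiles and tiny cores**, with names for the sets -/
theorem Emb.sheetK (V : Emb T Kc dim' vl) {K : Q' → Set E} (hK : ∀ q, K q = (vl q).set)
    (R : Cor2 T KK Kc tl)
    (L : LM (mK h3 hH hdis) Q' dim') (hcf : ∀ F, vl (L.cf F) = F.1.1) (hne : Nonempty Q')
    (hOm : IsOpen Om) (hball : ∀ k, IsBall 3 (KK k) (frontier (KK k)))
    (h : LF L s) (Lam : J → Q' → ZMod 2) (hLam : ∀ j c, L.toSk.XL (gP s j) (Lam j) c)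
    {g : Gd E J} {P' : ∀ q, (cmb h Lam hLam).I q → Set E} {c : ∀ q, (cmb h Lam hLam).I q → E → ℝ}
    (H : Inv (cmb h Lam hLam) K univ g P' c) {j : J} (hB : Bls (cmb h Lam hLam) K c j)
    (hon : ∀ w ∈ s.P, s.lab w = j → w ∈ L.toSk.W1)
    (one : ∀ a, One1 s j (tl a)) (h1 : s.H1 j) (hc : s.Conn j) :
    ∃ S : Set E, Nonempty (PLEquiv (sph 3) S) ∧ S ⊆ Om ∧
      ∀ z ∈ Om \ ⋃ k, interior (Kc k), (z ∈ S ↔ g.G j z = 1/2) := by
  obtain rfl : K = fun q => (vl q).set := funext hK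
  exact V.sheet h3 hH hdis R L hcf hne hOm hball h Lam hLam H hB hon one h1 hc

end gen

/-! ### 298's index type -/

section nr

open Crest.Agent.R096.Gm_298

variable (h3 : finrank ℝ E = 3) (hH : ∀ c, CoreH T (KK c))
  (hdis : ∀ c c', c ≠ c' → Disjoint (KK c) (KK c')) (hne : ∃ c, OutK T KK c) (Rr : Set ι)





variable {tl : 𝒢 → ι ⊕ κ}



end nr

/-! ### the cores indexed by the bricks (337 #10755) -/

section fam

open Crest.Agent.R096.Gm_298

variable {Fam : Type} {X : Set Fam} {KF : {a : Fam // a ∉ X} → Set E} {ct : Fam → ι}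
  {Kall : Fam → Set E}

open Classical in
/-- the tile of a core -/
noncomputable def tlX (X : Set Fam) (ct : Fam → ι) (a : Fam) : ι ⊕ {a : Fam // a ∉ X} :=
  if h : a ∈ X then Sum.inl (ct a) else Sum.inr ⟨a, h⟩








end fam

end emb

/-! ### the hypothesis `sheets` of `fin_gout` -/

section fin

open Crest.Agent.R096.Mg_441 Crest.Agent.R096.Xp_537 Crest.Agent.R096.Grd_714
open Crest.Agent.R096.Ar_241 (dirW cod Tr0 SheetData CoreData Exact TopC)
open Crest.Agent.R096.Fin_147 (Xout XM Ktc iUnion_Ktc)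

variable {Q : Type} [PartialOrder Q] {dim : Q → ℕ} {J Fam : Type} {Cc : Cmb Q dim J Fam}
variable {E' : Type*} [NormedAddCommGroup E'] [NormedSpace ℝ E'] [FiniteDimensional ℝ E']
variable {K : Q → Set E'} {g : Gd E' J} {P : ∀ q, Cc.I q → Set E'} {c : ∀ q, Cc.I q → E' → ℝ}
  {Ω : Set E'}
variable {E : Type*} [NormedAddCommGroup E] [NormedSpace ℝ E] [FiniteDimensional ℝ E]
  {Λ : Set E} {hfin : ∀ a, {j | Cc.fam j = a}.Finite} {Pf : Fam → Set E}
  {C : CC Λ (Cel Pf (Mg_441.mm hfin))} {T : (Fam → ℝ) → E} {co : E → Fam → ℝ}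
  {Kc : Fam → Set E'}

/-- **the hypothesis `sheets` of 147's `fin_gout`** -/
theorem sheets_fin (hE3 : finrank ℝ E = 3) (hΛ : IsOpen Λ) (H : Inv Cc K univ g P c)
    (Xc : Cplx (Ω ∩ Xout Kc) Q dim K)
    (hS : ∀ j, ∃ S : Set E', Nonempty (PLEquiv (sph 3) S) ∧ S ⊆ Ω ∧
      ∀ z ∈ Ω \ ⋃ a, interior (Kc a), (z ∈ S ↔ g.G j z = 1/2))
    {ℓ : J → ℝ} (hO : Ord Cc ℓ) (hℓ : ∀ j j', j ≠ j' → Cc.fam j = Cc.fam j' → ℓ j ≠ ℓ j')
    (OK : GridOK C T co) {κ θ : TopC (Cel Pf (Mg_441.mm hfin)) → ℝ} (G : E' → E)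
    (Y : Tr0 Ω C G) (hM : OnMesh Y K g T (XM Ω K))
    (hX : Nonempty (Exact Y κ θ (Ktc Kc) (XM Ω K))) :
    ∀ q, cod C q = 2 →
      SheetData Y (Ktc Kc : TopC (Cel Pf (Mg_441.mm hfin)) → Set E') (XM Ω K) q := by
  obtain ⟨hX⟩ := hX
  refine exact_sheets' hE3 hΛ H (fun p => (Xc.sub p).trans inter_subset_left) (fun j => ?_) hO hℓ
    OK hM ?_ hX
  · obtain ⟨S, h1, h2, h3⟩ := hS j
    refine ⟨S, h1, h2, fun z hz hz0 => h3 z ⟨hz, ?_⟩⟩
    rcases hz0 with h | h
    · exact absurd hz h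
    · obtain ⟨q, hq⟩ := mem_iUnion.1 h
      exact (Xc.sub q hq).2
  · intro x hx
    by_cases h : x ∈ Xout Kc
    · obtain ⟨q, hq⟩ := Xc.cover x ⟨hx, h⟩
      exact Or.inl (Or.inr (mem_iUnion.2 ⟨q, hq⟩))
    · right
      rw [iUnion_Ktc]
      unfold Xout at h
      rw [mem_compl_iff, not_not] at h
      obtain ⟨a, ha⟩ := mem_iUnion.1 h
      exact mem_iUnion.2 ⟨a, interior_subset ha⟩

end fin

end Crest.Agent.R096.Shg_334
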