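import Crest.Agent.R096.Mg2_441
import Crest.Agent.R096.Bin3_181
import Crest.Agent.R096.On3_441
import Crest.Agent.R096.Gl3_422
import Crest.Agent.R096.Lm2_117
import Crest.Agent.R096.Lm3_117

-- ▼ part R096/Ecm1_446
section

/-!
# R096 (row 96), BASE-DISC, part 1 (helper446): the discrete hypotheses of `Bin_181.inv_base` from
* `V` : labels of the vertices of `bd K_c`,
* `one` : one piece per sheet and cell,
* `Ord` : the order of the sheets of a family (441).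
Everything here is about an arbitrary `Cmb` (tilings, merged meshes, ...).
-/

set_option autoImplicit false
set_option linter.unusedSectionVars false

open Set Relation

namespace Crest.Agent.R096.Ecm_446

open Crest.Agent.R096.Ce_537 Crest.Agent.R096.Bd_416 Crest.Agent.R096.Mg_441
open Crest.Agent.R096.Bin_181

section comb

variable {Q : Type} [PartialOrder Q] {dim : Q → ℕ} {J Fam : Type} {I : Type*}
  (Cm : Cmb Q dim J Fam) (D : Set Q) (fa : J → I) (lv : J → ℕ) (N : Q → I → ℕ)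
  (L H : Q → I → ℕ)

/-- **exact cells**: a down-closed set `D` of cells whose vertices `v` have exact level coordinates
`N v a` (`lv j < N v a` iff the vertex lies outside the sheet `j` of direction `a`), `L q`, `H q` =
minimum and maximum over the vertices of `q`, and one piece per sheet and cell. -/
structure Exa : Prop where
  dn : ∀ q ∈ D, ∀ p < q, p ∈ D
  hfam : ∀ j j', Cm.fam j = Cm.fam j' → fa j = fa j'
  V : ∀ v ∈ D, dim v = 0 → ∀ j, Cm.Lab j v = 1 ↔ lv j < N v (fa j)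
  one : ∀ q ∈ D, ∀ x x' : Cm.I q, Cm.col q x = Cm.col q x' → x = x'
  bd : ∀ q ∈ D, ∀ v ≤ q, dim v = 0 → ∀ a, L q a ≤ N v a ∧ N v a ≤ H q a
  lo : ∀ q ∈ D, ∀ a, ∃ v ≤ q, dim v = 0 ∧ N v a = L q a
  hi : ∀ q ∈ D, ∀ a, ∃ v ≤ q, dim v = 0 ∧ N v a = H q a

/-- the order of the sheets with natural levels -/
def OrdN : Prop :=
  ∀ j j', j ≠ j' → Cm.fam j = Cm.fam j' → ∀ X : Σ q, Cm.I q, Cm.col X.1 X.2 = j →
    (lbl Cm X.1 X.2 j' = 1 ↔ lv j' < lv j)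

variable {Cm D fa lv N L H}

/-- without pieces the label is constant -/
lemma lab_le {q : Q} {j : J} (hj : ∀ x : Cm.I q, Cm.col q x ≠ j) {v : Q} (hv : v ≤ q) :
    Cm.Lab j v = Cm.Lab j q := by
  classical
  rcases hv.eq_or_lt with rfl | h
  · rfl
  · rw [Cm.lab_eq h j, Finset.sum_eq_zero, add_zero]
    intro x hx
    exact absurd (Finset.mem_filter.1 hx).2 (hj x)

namespace Exa

variable (h : Exa Cm D fa lv N L H)
include h

theorem ex : ∀ q ∈ D, ∀ j, L q (fa j) ≤ lv j → lv j < H q (fa j) → ∃ x, Cm.col q x = j := by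
  intro q hq j h1 h2
  by_contra hno
  push Not at hno
  obtain ⟨u, hu, hu0, eu⟩ := h.lo q hq (fa j)
  obtain ⟨v, hv, hv0, ev⟩ := h.hi q hq (fa j)
  have hD : ∀ w ≤ q, w ∈ D := fun w hw => by
    rcases hw.eq_or_lt with rfl | h'
    · exact hq
    · exact h.dn q hq w h'
  have e1 := lab_le hno hu
  have e2 := lab_le hno hv
  have h3 : Cm.Lab j v = 1 := (h.V v (hD v hv) hv0 j).2 (by rw [ev]; exact h2)
  have h4 : Cm.Lab j u = 1 := by rw [e1, ← e2]; exact h3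
  have h5 := (h.V u (hD u hu) hu0 j).1 h4
  omega

theorem mem_of_le {q w : Q} (hq : q ∈ D) (hw : w ≤ q) : w ∈ D := by
  rcases hw.eq_or_lt with rfl | h'
  · exact hq
  · exact h.dn q hq w h'

theorem lab1 : ∀ q ∈ D, ∀ j, (∀ x, Cm.col q x ≠ j) → lv j < L q (fa j) → Cm.Lab j q = 1 := by
  intro q hq j hno h1
  obtain ⟨u, hu, hu0, eu⟩ := h.lo q hq (fa j)
  rw [← lab_le hno hu]
  exact (h.V u (h.mem_of_le hq hu) hu0 j).2 (by rw [eu]; exact h1)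

theorem lab0' : ∀ q ∈ D, ∀ j, (∀ x, Cm.col q x ≠ j) → H q (fa j) ≤ lv j → Cm.Lab j q = 0 := by
  intro q hq j hno h1
  obtain ⟨u, hu, hu0, eu⟩ := h.hi q hq (fa j)
  rw [← lab_le hno hu]
  rcases z2 (Cm.Lab j u) with h2 | h2
  · exact h2
  · have := (h.V u (h.mem_of_le hq hu) hu0 j).1 h2
    omega

theorem sd (hO : OrdN Cm lv) : ∀ q ∈ D, ∀ x x', x ≠ x' →
    Cm.fam (Cm.col q x) = Cm.fam (Cm.col q x') →
      Cm.side q x x' = Cm.Lab (Cm.col q x') q +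
        if lv (Cm.col q x') < lv (Cm.col q x) then 1 else 0 := by
  classical
  intro q hq x x' hne hf
  have hcol : Cm.col q x ≠ Cm.col q x' := fun e => hne (h.one q hq x x' e)
  have h1 := hO (Cm.col q x) (Cm.col q x') hcol hf ⟨q, x⟩ rfl
  have h2 : lbl Cm q x (Cm.col q x') = Cm.Lab (Cm.col q x') q + Cm.side q x x' := by
    unfold lbl
    congr 1
    rw [Finset.sum_eq_single x']
    · intro y hy hyx
      exact absurd (h.one q hq y x' (Finset.mem_filter.1 hy).2) hyx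
    · intro hx'
      exact absurd (by simp) hx'
  have h3 : lbl Cm q x (Cm.col q x') =
      if lv (Cm.col q x') < lv (Cm.col q x) then 1 else 0 := by
    split_ifs with h4
    · exact h1.2 h4
    · rcases z2 (lbl Cm q x (Cm.col q x')) with h5 | h5
      · exact h5
      · exact absurd (h1.1 h5) h4
  rw [← h3, h2]
  have e : ∀ a b : ZMod 2, b = a + (a + b) := by decide
  exact e _ _

end Exa



end comb

/-! ### `Inv` -/

section inv

open Crest.Agent.R096.Xp_537 Crest.Agent.R096.Brk1_582 Crest.Agent.R096.Brk2_582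
open Crest.Agent.R096.Brk6_582 Crest.Agent.R096.Grd_714

variable {E : Type*} [NormedAddCommGroup E] [NormedSpace ℝ E] {I : Type*}
variable {b : Set I → E} {P : I → Set E} {m : I → ℕ}
variable {W : Type*} [NormedAddCommGroup W] [NormedSpace ℝ W] {Q : Type} [PartialOrder Q]
  {dim : Q → ℕ} {J Fam : Type} {Cm : Cmb Q dim J Fam} {K : Q → Set W} {D : Set Q}
variable {La : Set E} [CompleteSpace E] [FiniteDimensional ℝ E] (F : Foam La P b 4)
  (hQ : Quads P b) (hne : ∀ c, (P c).Nonempty) (hm : ∀ c, 0 < m c)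
variable {κ : ℝ} (hκ : 0 < κ ∧ κ < 1) (c : Cel P m) {fa : J → I} {lv : J → ℕ} {S : Set W}
  {T : Set E} (e : PLEquiv S T)

include hκ in
/-- **BASE-INV from exact cells** -/
theorem Exa.inv (hinj : ∀ j j', fa j = fa j' → lv j = lv j' → j = j')
    (sub : ∀ {p q : Q}, p < q → q ∈ D → K p ⊆ K q)
    (hKc : ∀ q ∈ D, IsClosed (K q)) (hKS : ∀ q ∈ D, K q ⊆ S) {N : Q → I → ℕ} {L H : Q → I → ℕ}
    (hKe : ∀ q ∈ D, e.f '' K q = bxS P b m (L q) (H q)) (h0 : ∀ q ∈ D, ∃ c0, H q c0 = 0)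
    (h : Exa Cm D fa lv N L H) (hO : OrdN Cm lv) :
    Inv Cm K D (ekS (grid F hQ hne hm) b κ c fa lv e)
      (fun q x => K q ∩ (ekS (grid F hQ hne hm) b κ c fa lv e).B (Cm.col q x))
      (fun q x z => sg (Cm.Lab (Cm.col q x) q) *
        ((ekS (grid F hQ hne hm) b κ c fa lv e).G (Cm.col q x) z - 1/2)) :=
  inv_base F hQ hne hm hκ c fa lv e hinj h.dn sub hKc hKS L H hKe h0 h.one h.ex h.hfam h.lab1
    h.lab0' (h.sd hO)

end inv

end Crest.Agent.R096.Ecm_446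
end

-- ▼ part R096/Ecm2_446
section

/-!
# R096 (row 96), BASE-DISC, part 2 (helper446): exact cells of a state over a labelled mesh

`s : GSt M fam` over `L : LM M Q dim` (117), labels `lam` with 422's `Lbd`; `Dc` = down-closed set of
cells of dimension `≤ 2` (the cells of `bd K_c`).
* `ordN_lbd`  : order of the sheets (`lv = rk`);
* `lab_rk`    : labels of the vertices by `rk`;
* `one_pts`   : one piece per sheet and cell from `E1` (at most one point of a sheet on a 1-cell) and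
                `F1` (at most two points of a sheet on a 2-cell);
* `exa_state` : `Exa`.
* `E1_final`, `F1_final`, `exa_final` : for a later state with copies (298, 422).
-/

set_option autoImplicit false
set_option linter.unusedSectionVars false

open Set Relation

namespace Crest.Agent.R096.Ecm_446

open Crest.Agent.R096.St_147 Crest.Agent.R096.Seq_213 Crest.Agent.R096.Seq_213.GSt
  Crest.Agent.R096.Lm_117 Crest.Agent.R096.Ac_117 Crest.Agent.R096.Cp_298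
  Crest.Agent.R096.Gl_422
open Crest.Agent.R096.Bd_416 (Cmb)
open Crest.Agent.R096.Mg_441 (Ord mm sh mem_sh)
open Crest.Agent.R096.On_441 (Lf xlf)

variable {ι Φ W Q : Type} [PartialOrder Q] {dim : Q → ℕ} {M : MeshC ι Φ W}
variable {J J1 C K : Type} {fam : J → C} {fam1 : J1 → C} {L : LM M Q dim} {s : GSt M fam}
  {lam : J → Q → ZMod 2}

theorem gp_eq (s : GSt M fam) (j : J) : gp s j = gP s j := by
  ext w; rw [mem_gp, mem_gP]

theorem glab_xl (hl : ∀ j, GLab L (gp s j) (lam j)) : ∀ j c, L.toSk.XL (gP s j) (lam j) c :=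
  fun j c => by rw [← gp_eq]; exact (hl j).xl c

/-- **order of the sheets** -/
theorem ordN_lbd (hLF : LF L s) (hl : ∀ j, GLab L (gp s j) (lam j)) (hW : ∀ w ∈ s.P, w ∈ L.W1)
    (hc : ∀ j, s.Conn j) (hb : ∀ j, ∃ v₀ v₁, Lbd L s (fam j) lam v₀ v₁)
    (hfin : ∀ a, {j | fam j = a}.Finite) :
    OrdN (cmb hLF lam (glab_xl hl)) (rk L s lam hfin) := by
  have h1 : Ord (cmb hLF lam (glab_xl hl)) (fun j => (rk L s lam hfin j : ℝ)) := by
    refine MgL_441.ord_cmb hLF lam (glab_xl hl) hW hc ?_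
    intro j j' hne hf
    obtain ⟨⟨w, hw, hwl⟩, -⟩ := hc j
    obtain ⟨v₀, v₁, B⟩ := hb j
    refine ⟨w, hw, hwl, ?_⟩
    rw [← gp_eq, B.ext_iff hfin rfl hf.symm hne hw hwl, Nat.cast_lt]
  intro j j' hne hf X hX
  rw [h1 j j' hne hf X hX, Nat.cast_lt]

/-- **labels of the vertices** by the number of the sheets -/
theorem lab_rk {j : J} {v₀ v₁ : Q} (B : Lbd L s (fam j) lam v₀ v₁)
    (hfin : ∀ a, {j | fam j = a}.Finite) {Z : Set Q} {v : Q} (hv : ReflTransGen (Ed L Z) v v₁) :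
    lam j v = 1 ↔ rk L s lam hfin j < {j' | fam j' = fam j ∧ lam j' v = 1}.ncard := by
  classical
  have hS : {j' | fam j' = fam j ∧ lam j' v = 1} =
      (((sib hfin j).filter fun j' => lam j' v = 1 : Finset J) : Set J) := by
    ext j'
    rw [Finset.mem_coe, Finset.mem_filter, mem_sib]
    rfl
  rw [hS, Set.ncard_coe_finset]
  unfold rk ord
  constructor
  · intro h1
    refine Finset.card_lt_card ?_
    rw [Finset.ssubset_iff_of_subset]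
    · exact ⟨j, Finset.mem_filter.2 ⟨mem_sib.2 rfl, h1⟩,
        fun h => (Finset.mem_filter.1 h).2.1 rfl⟩
    · intro i hi
      obtain ⟨h2, h3, h4⟩ := Finset.mem_filter.1 hi
      exact Finset.mem_filter.2 ⟨h2, B.mono rfl (mem_sib.1 h2) h3.symm h4 hv h1⟩
  · intro h1
    by_contra h2
    refine absurd h1 (not_lt.2 (Finset.card_le_card ?_))
    intro i hi
    obtain ⟨h3, h4⟩ := Finset.mem_filter.1 hi
    have hne : i ≠ j := by rintro rfl; exact h2 h4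
    refine Finset.mem_filter.2 ⟨h3, hne, ?_⟩
    rcases B.tri rfl (mem_sib.1 h3) hne.symm with ⟨h5, -⟩ | ⟨h5, -⟩
    · exact h5
    · exact absurd (B.mono (mem_sib.1 h3) rfl hne h5 hv h4) h2

/-! ### one piece per sheet and cell -/

/-- at most one point of every sheet on the 1-cells of `Dc` -/
def E1 (L : LM M Q dim) (s : GSt M fam) (Dc : Set Q) : Prop :=
  ∀ e ∈ Dc, dim e = 1 → ∀ w w', w ∈ s.P → w' ∈ s.P → w ∈ L.toSk.On1 e → w' ∈ L.toSk.On1 e →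
    s.lab w = s.lab w' → w = w'

/-- at most two points of every sheet on the 2-cells of `Dc` -/
def F1 (L : LM M Q dim) (s : GSt M fam) (Dc : Set Q) : Prop :=
  ∀ q ∈ Dc, dim q = 2 → ∀ w₁ w₂ w₃, w₁ ∈ s.P → w₂ ∈ s.P → w₃ ∈ s.P → w₁ ∈ L.toSk.In q →
    w₂ ∈ L.toSk.In q → w₃ ∈ L.toSk.In q → s.lab w₁ = s.lab w₂ → s.lab w₁ = s.lab w₃ →
      w₁ = w₂ ∨ w₁ = w₃ ∨ w₂ = w₃

theorem in_edge {e : Q} (he : dim e = 1) {w : W} (hw : w ∈ L.toSk.In e) : w ∈ L.toSk.On1 e :=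
  ⟨hw.1, eq_of_dim L.toSk hw.2 (by rw [he, L.ed_dim w hw.1])⟩

/-- **one piece per sheet and cell** -/
theorem one_pts (hLF : LF L s) (hX : ∀ j c, L.toSk.XL (gP s j) (lam j) c) {Dc : Set Q}
    (hd : ∀ q ∈ Dc, dim q ≤ 2) (hcf : ∀ q ∈ Dc, dim q = 2 → ∃ F, L.cf F = q)
    (h1 : E1 L s Dc) (h2 : F1 L s Dc) :
    ∀ q ∈ Dc, ∀ x x' : (cmb hLF lam hX).I q,
      (cmb hLF lam hX).col q x = (cmb hLF lam hX).col q x' → x = x' := by
  intro q hq x x' hcol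
  have hx : ∀ x : Pc L s q, ∃ w, w ∈ pts hLF q x := fun x => pts_ne x
  obtain ⟨w, hw⟩ := hx x
  obtain ⟨w', hw'⟩ := hx x'
  have e1 : s.lab w = s.lab w' := by
    rw [← pcol_pts hw, ← pcol_pts hw']; exact hcol
  have i1 := pts_in hw
  have i2 := pts_in hw'
  have hdim := hd q hq
  have hge : 1 ≤ dim q := by
    have := dim_le' L.toSk i1.2.2
    rw [L.ed_dim w i1.2.1] at this
    exact this
  rcases (show dim q = 1 ∨ dim q = 2 by omega) with h | h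
  · have := h1 q hq h w w' i1.1 i2.1 (in_edge h i1.2) (in_edge h i2.2) e1
    subst this
    exact pts_disj hw hw'
  · obtain ⟨F, rfl⟩ := hcf q hq h
    have hwF : w ∈ M.On F := on_of_in i1.2
    have hm := mu_pts hw le_rfl hwF
    have i3 := pts_in hm
    rcases h2 _ hq h w (s.mu F w) w' i1.1 i3.1 i2.1 i1.2 i3.2 i2.2
      (s.mu_lab i1.1 hwF).symm e1 with h3 | h3 | h3
    · exact absurd h3.symm (s.mu_ne i1.1 hwF)
    · subst h3; exact pts_disj hw hw'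
    · rw [h3] at hm; exact pts_disj hm hw'

/-- the number of the sheets of the family `a` up to the height `i` -/
noncomputable def cnt (fam : J → C) (τ : J → ℝ) (a : C) (i : ℕ) : ℕ :=
  {j | fam j = a ∧ τ j ≤ i}.ncard

theorem cnt_mono (hfin : ∀ a, {j | fam j = a}.Finite) (τ : J → ℝ) (a : C) :
    Monotone (cnt fam τ a) := by
  intro i i' h
  unfold cnt
  refine Set.ncard_le_ncard ?_ ((hfin a).subset fun j hj => hj.1)
  rintro j ⟨h1, h2⟩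
  exact ⟨h1, h2.trans (by exact_mod_cast h)⟩

theorem cnt_zero {τ : J → ℝ} (hτ : ∀ j, 0 < τ j) (a : C) : cnt fam τ a 0 = 0 := by
  unfold cnt
  have : {j | fam j = a ∧ τ j ≤ ((0 : ℕ) : ℝ)} = ∅ := by
    ext j
    simp only [mem_ofPred_eq, mem_empty_iff_false, iff_false, not_and, not_le, Nat.cast_zero]
    exact fun _ => hτ j
  rw [this, ncard_empty]

/-- above all levels: all sheets of the family -/
theorem cnt_top {τ : J → ℝ} {M : ℕ} (hτ : ∀ j, τ j ≤ M) (a : C) :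
    cnt fam τ a M = {j | fam j = a}.ncard := by
  unfold cnt
  congr 1
  ext j
  exact ⟨fun h => h.1, fun h => ⟨h, hτ j⟩⟩

/-- **exact cells of a state**: `u v a` = height of the vertex `v` in direction `a`, `lo q a`,
`hi q a` = smallest and largest height of the vertices of `q`. -/
theorem exa_state (hLF : LF L s) (hl : ∀ j, GLab L (gp s j) (lam j)) {Dc : Set Q}
    (hdn : ∀ q ∈ Dc, ∀ p < q, p ∈ Dc)
    (hd : ∀ q ∈ Dc, dim q ≤ 2) (hcf : ∀ q ∈ Dc, dim q = 2 → ∃ F, L.cf F = q)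
    (h1 : E1 L s Dc) (h2 : F1 L s Dc) (hfin : ∀ a, {j | fam j = a}.Finite)
    (hb : ∀ j, ∃ v₀ v₁, Lbd L s (fam j) lam v₀ v₁ ∧
      ∀ v ∈ Dc, dim v = 0 → (∃ Z : Set Q, ReflTransGen (Ed L Z) v v₁) ∨
        ∀ j', fam j' = fam j → lam j' v = 1)
    (τ : J → ℝ) (u lo hi : Q → C → ℕ)
    (hV : ∀ v ∈ Dc, dim v = 0 → ∀ j, lam j v = 1 ↔ τ j ≤ u v (fam j))
    (hbd : ∀ q ∈ Dc, ∀ v ≤ q, dim v = 0 → ∀ a, lo q a ≤ u v a ∧ u v a ≤ hi q a)
    (hlo : ∀ q ∈ Dc, ∀ a, ∃ v ≤ q, dim v = 0 ∧ u v a = lo q a)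
    (hhi : ∀ q ∈ Dc, ∀ a, ∃ v ≤ q, dim v = 0 ∧ u v a = hi q a) :
    Exa (cmb hLF lam (glab_xl hl)) Dc fam (rk L s lam hfin)
      (fun v a => cnt fam τ a (u v a)) (fun q a => cnt fam τ a (lo q a))
      (fun q a => cnt fam τ a (hi q a)) where
  dn := hdn
  hfam := fun _ _ h => h
  V := by
    intro v hv hv0 j
    obtain ⟨v₀, v₁, B, hp⟩ := hb j
    have e : (cmb hLF lam (glab_xl hl)).Lab j v = lam j v := by
      show lam j (bv L.toSk v) = _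
      rw [bv_vertex _ hv0]
    have e1 : lam j v = 1 ↔
        rk L s lam hfin j < {j' | fam j' = fam j ∧ lam j' v = 1}.ncard := by
      rcases hp v hv hv0 with ⟨Z, hZ⟩ | hall
      · exact lab_rk B hfin hZ
      · have h5 : {j' | fam j' = fam j ∧ lam j' v = 1} =
            ((sib hfin j : Finset J) : Set J) := by
          ext j'
          rw [Finset.mem_coe, mem_sib]
          exact ⟨fun h => h.1, fun h => ⟨h, hall j' h⟩⟩
        rw [h5, Set.ncard_coe_finset]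
        exact ⟨fun _ => rk_lt hfin j, fun _ => hall j rfl⟩
    rw [e, e1]
    have e2 : {j' | fam j' = fam j ∧ lam j' v = 1} =
        {j' | fam j' = fam j ∧ τ j' ≤ (u v (fam j) : ℝ)} := by
      ext j'
      constructor
      · rintro ⟨h3, h4⟩
        exact ⟨h3, by rw [← h3]; exact (hV v hv hv0 j').1 h4⟩
      · rintro ⟨h3, h4⟩
        exact ⟨h3, (hV v hv hv0 j').2 (by rw [h3]; exact h4)⟩
    rw [e2]
    rfl
  one := one_pts hLF (glab_xl hl) hd hcf h1 h2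
  bd := fun q hq v hv hv0 a => ⟨cnt_mono hfin τ a (hbd q hq v hv hv0 a).1,
    cnt_mono hfin τ a (hbd q hq v hv hv0 a).2⟩
  lo := fun q hq a => by
    obtain ⟨v, h3, h4, h5⟩ := hlo q hq a
    exact ⟨v, h3, h4, by rw [h5]⟩
  hi := fun q hq a => by
    obtain ⟨v, h3, h4, h5⟩ := hhi q hq a
    exact ⟨v, h3, h4, by rw [h5]⟩

/-! ### the final state -/

section cps

variable {O : Ori M} {Qd : Quads ι C K} {Rel : W → W → Prop} {s₀ : GSt M fam}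
  {far₀ : J → Set W} {σ₀ : W → ZMod 2} {p : J1 → J} {m : J1 → ℕ} {s : GSt M fam1}
  {far : J1 → Set W} {β : W → W}

variable (h : Cps O Qd Rel s₀ far₀ σ₀ p m s far β)
  (hR : ∀ x w, Rel x w → w ∈ L.W1 → x ∈ L.W1 ∧ L.ed x = L.ed w)
  (hP0 : ∀ w ∈ s₀.P, w ∈ L.W1) (hp : ∀ j, fam (p j) = fam1 j) (hI₀ : s₀.Inv Qd far₀)
  (hI : s.Inv Qd far) {Dc : Set Q}
  (hfr : ∀ e ∈ Dc, dim e = 1 → ∀ j : J1, FrE L Qd (fam1 j) e)
include h hR hP0 hp hI₀ hI hfr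

theorem E1_final (h1 : E1 L s₀ Dc) : E1 L s Dc := by
  intro e he he1 w w' hw hw' hwe hwe' hl
  have hb := bij_final h hR hP0 hp hI₀ hI (hfr e he he1 (s.lab w))
  have a := hb.mapsTo ⟨hw, rfl, hwe⟩
  have a' := hb.mapsTo ⟨hw', hl.symm, hwe'⟩
  exact hb.injOn ⟨hw, rfl, hwe⟩ ⟨hw', hl.symm, hwe'⟩
    (h1 e he he1 _ _ a.1 a'.1 a.2.2 a'.2.2 (a.2.1.trans a'.2.1.symm))

theorem F1_final (hdn : ∀ q ∈ Dc, ∀ p < q, p ∈ Dc) (h2 : F1 L s₀ Dc) : F1 L s Dc := by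
  intro q hq hq2 w₁ w₂ w₃ a₁ a₂ a₃ i₁ i₂ i₃ l₂ l₃
  have hmem : ∀ w : W, w ∈ s.P → w ∈ L.toSk.In q → L.ed w ∈ Dc ∧ dim (L.ed w) = 1 := by
    intro w hw hi
    refine ⟨?_, L.ed_dim w hi.1⟩
    rcases hi.2.eq_or_lt with h' | h'
    · rw [h']; exact hq
    · exact hdn q hq _ h'
  have key : ∀ w : W, w ∈ s.P → w ∈ L.toSk.In q → s.lab w = s.lab w₁ →
      β w ∈ s₀.P ∧ s₀.lab (β w) = p (s.lab w₁) ∧ β w ∈ L.toSk.In q ∧ L.ed (β w) = L.ed w := by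
    intro w hw hi hl
    obtain ⟨m1, m2⟩ := hmem w hw hi
    have hb := bij_final h hR hP0 hp hI₀ hI (hfr _ m1 m2 (s.lab w₁))
    have a := hb.mapsTo ⟨hw, hl, hi.1, rfl⟩
    exact ⟨a.1, a.2.1, ⟨a.2.2.1, by rw [a.2.2.2]; exact hi.2⟩, a.2.2.2⟩
  have inj : ∀ w w' : W, w ∈ s.P → w' ∈ s.P → w ∈ L.toSk.In q → w' ∈ L.toSk.In q →
      s.lab w = s.lab w₁ → s.lab w' = s.lab w₁ → β w = β w' → w = w' := by
    intro w w' hw hw' hi hi' hl hl' e
    obtain ⟨m1, m2⟩ := hmem w hw hi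
    have hb := bij_final h hR hP0 hp hI₀ hI (hfr _ m1 m2 (s.lab w₁))
    have e1 : L.ed w' = L.ed w := by
      rw [← (key w' hw' hi' hl').2.2.2, ← (key w hw hi hl).2.2.2, e]
    exact hb.injOn ⟨hw, hl, hi.1, rfl⟩ ⟨hw', hl', hi'.1, e1⟩ e
  have k₁ := key w₁ a₁ i₁ rfl
  have k₂ := key w₂ a₂ i₂ l₂.symm
  have k₃ := key w₃ a₃ i₃ l₃.symm
  rcases h2 q hq hq2 _ _ _ k₁.1 k₂.1 k₃.1 k₁.2.2.1 k₂.2.2.1 k₃.2.2.1
    (k₁.2.1.trans k₂.2.1.symm) (k₁.2.1.trans k₃.2.1.symm) with e | e | e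
  · exact Or.inl (inj _ _ a₁ a₂ i₁ i₂ rfl l₂.symm e)
  · exact Or.inr (Or.inl (inj _ _ a₁ a₃ i₁ i₃ rfl l₃.symm e))
  · exact Or.inr (Or.inr (inj _ _ a₂ a₃ i₂ i₃ l₂.symm l₃.symm e))

end cps

/-! ### labels `1` outside (far from the hole of the family): 441's `Lf lam = lam + 1` -/

theorem z_Lf {a : ZMod 2} : a + 1 = 1 ↔ a = 0 := by revert a; decide

theorem glab_Lf (hl : ∀ j, GLab L (gp s j) (lam j)) : ∀ j, GLab L (gp s j) (Lf lam j) := by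
  intro j e he
  rw [← hl j e he]
  have e4 : ∀ a b : ZMod 2, (a + 1) + (b + 1) = a + b := by decide
  exact e4 _ _

theorem lbd_Lf {c : C} {v₀ v₁ : Q} (B : Lbd L s c lam v₀ v₁) : Lbd L s c (Lf lam) v₁ v₀ where
  conn := B.conn
  lab := fun j hj e he => by
    rw [← B.lab j hj e he]
    have e4 : ∀ a b : ZMod 2, (a + 1) + (b + 1) = a + b := by decide
    exact e4 _ _
  one := fun j hj => z_Lf.2 (B.zero j hj)
  zero := fun j hj => by
    show lam j v₀ + 1 = 0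
    rw [B.one j hj]; decide
  path := by
    obtain ⟨Z, hZ⟩ := B.path
    exact ⟨Z, path_symm hZ⟩

/-! ### the numbers of the sheets -/

theorem sib_card (hfin : ∀ a, {j | fam j = a}.Finite) (j : J) :
    (sib hfin j).card = mm hfin (fam j) := rfl

theorem ncard_mm (hfin : ∀ a, {j | fam j = a}.Finite) (a : C) :
    {j | fam j = a}.ncard = mm hfin a := by
  have : {j | fam j = a} = ((sh hfin a : Finset J) : Set J) := by
    ext k
    rw [Finset.mem_coe, mem_sh]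
    rfl
  rw [this, Set.ncard_coe_finset]
  rfl

theorem rk_hinj (hb : ∀ j, ∃ v₀ v₁, Lbd L s (fam j) lam v₀ v₁)
    (hfin : ∀ a, {j | fam j = a}.Finite) : ∀ j j', fam j = fam j' →
      rk L s lam hfin j = rk L s lam hfin j' → j = j' := by
  intro j j' hf h
  obtain ⟨v₀, v₁, B⟩ := hb j
  exact B.rk_inj hfin rfl hf.symm h

theorem rk_hlt (hfin : ∀ a, {j | fam j = a}.Finite) (j : J) :
    rk L s lam hfin j < mm hfin (fam j) := by
  rw [← sib_card]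
  exact rk_lt hfin j

theorem rk_hsur (hb : ∀ j, ∃ v₀ v₁, Lbd L s (fam j) lam v₀ v₁)
    (hfin : ∀ a, {j | fam j = a}.Finite) : ∀ a k, k < mm hfin a →
      ∃ j, fam j = a ∧ rk L s lam hfin j = k := by
  classical
  intro a k hk
  have hinj : Set.InjOn (rk L s lam hfin) (sh hfin a) := by
    intro i hi i' hi' h
    have h1 := (mem_sh hfin).1 hi
    have h2 := (mem_sh hfin).1 hi'
    exact rk_hinj hb hfin i i' (h1.trans h2.symm) h
  have himg : (sh hfin a).image (rk L s lam hfin) = Finset.range (mm hfin a) := by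
    apply Finset.eq_of_subset_of_card_le
    · intro k hk
      obtain ⟨i, hi, rfl⟩ := Finset.mem_image.1 hk
      rw [Finset.mem_range, ← (mem_sh hfin).1 hi]
      exact rk_hlt hfin i
    · rw [Finset.card_range, Finset.card_image_of_injOn hinj]
      exact le_rfl
  have h1 : k ∈ (sh hfin a).image (rk L s lam hfin) := by
    rw [himg]; exact Finset.mem_range.2 hk
  obtain ⟨j, hj, e⟩ := Finset.mem_image.1 h1
  exact ⟨j, (mem_sh hfin).1 hj, e⟩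

/-- **every piece of a cell has its number strictly inside the range of the cell** -/
theorem rng_of_exa (hLF : LF L s) (hX : ∀ j c, L.toSk.XL (gP s j) (lam j) c) {Dc : Set Q}
    (h1 : E1 L s Dc) {lv : J → ℕ} {N Lq Hq : Q → C → ℕ}
    (X : Exa (cmb hLF lam hX) Dc fam lv N Lq Hq) :
    ∀ q ∈ Dc, ∀ x : (cmb hLF lam hX).I q,
      Lq q (fam ((cmb hLF lam hX).col q x)) ≤ lv ((cmb hLF lam hX).col q x) ∧
      lv ((cmb hLF lam hX).col q x) < Hq q (fam ((cmb hLF lam hX).col q x)) := by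
  intro q hq x
  obtain ⟨w, hw⟩ : ∃ w, w ∈ pts hLF q (x : Pc L s q) := pts_ne _
  have i1 := pts_in hw
  have hcol : (cmb hLF lam hX).col q x = s.lab w := pcol_pts hw
  rw [hcol]
  set j := s.lab w with hj
  have he : dim (L.ed w) = 1 := L.ed_dim w i1.2.1
  have heq : L.ed w ≤ q := i1.2.2
  have heD : L.ed w ∈ Dc := X.mem_of_le hq heq
  have hn : nW (gP s j) (L.toSk.On1 (L.ed w)) = 1 := by
    refine nW_one (p := w) (mem_gP.2 ⟨i1.1, rfl⟩) ⟨i1.2.1, rfl⟩ fun w' hw' hwe' => ?_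
    obtain ⟨a1, a2⟩ := mem_gP.1 hw'
    exact h1 _ heD he w' w a1 i1.1 hwe' ⟨i1.2.1, rfl⟩ (a2.trans hj)
  have h2 := hX j (L.ed w) (L.ed w) le_rfl he
  rw [hn] at h2
  have key : ∀ b : Bool, lam j (L.en (L.ed w) b) = 1 ↔
      lv j < N (L.en (L.ed w) b) (fam j) := by
    intro b
    have hle : L.en (L.ed w) b ≤ q := (L.en_lt _ he b).le.trans heq
    have h0 := L.en_dim _ he b
    have h3 := X.V _ (X.mem_of_le hq hle) h0 j
    have e : (cmb hLF lam hX).Lab j (L.en (L.ed w) b) = lam j (L.en (L.ed w) b) := by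
      show lam j (bv L.toSk _) = _
      rw [bv_vertex _ h0]
    rw [← h3, e]
  have hbd : ∀ b : Bool, Lq q (fam j) ≤ N (L.en (L.ed w) b) (fam j) ∧
      N (L.en (L.ed w) b) (fam j) ≤ Hq q (fam j) := fun b =>
    X.bd q hq _ ((L.en_lt _ he b).le.trans heq) (L.en_dim _ he b) (fam j)
  have e4 : ∀ a b : ZMod 2, a + b = 1 → (a = 1 ∧ b ≠ 1) ∨ (a ≠ 1 ∧ b = 1) := by decide
  rcases e4 _ _ h2 with ⟨g1, g2⟩ | ⟨g1, g2⟩
  · rw [key] at g1
    rw [Ne, key] at g2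
    have := hbd false
    have := hbd true
    omega
  · rw [Ne, key] at g1
    rw [key] at g2
    have := hbd false
    have := hbd true
    omega

section fin

variable {O : Ori M} {Qd : Quads ι C K} {Rel : W → W → Prop} {s₀ : GSt M fam}
  {far₀ : J → Set W} {σ₀ : W → ZMod 2} {p : J1 → J} {m : J1 → ℕ} {s : GSt M fam1}
  {far : J1 → Set W} {β : W → W} {Z : C → Set Q} {lam₀ : J → Q → ZMod 2} {v₀ v₁ : C → Q}
  {lam : J1 → Q → ZMod 2}

/-- the number of a sheet: number of the sheets of its family which are nearer to the hole -/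
noncomputable def nr (L : LM M Q dim) (s : GSt M fam1) (lam : J1 → Q → ZMod 2)
    (hfin : ∀ a, {j | fam1 j = a}.Finite) (j : J1) : ℕ := rk L s (Lf lam) hfin j

theorem lbd_out (D : LabOut L Qd s Z p lam₀ v₀ v₁ lam) (j : J1) :
    ∃ v₀ v₁, Lbd L s (fam1 j) (Lf lam) v₀ v₁ := ⟨_, _, lbd_Lf (D.lbd j)⟩

theorem nr_hinj (D : LabOut L Qd s Z p lam₀ v₀ v₁ lam) (hfin : ∀ a, {j | fam1 j = a}.Finite) :
    ∀ j j', fam1 j = fam1 j' → nr L s lam hfin j = nr L s lam hfin j' → j = j' :=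
  rk_hinj (lbd_out D) hfin

theorem nr_hlt (hfin : ∀ a, {j | fam1 j = a}.Finite) (j : J1) :
    nr L s lam hfin j < mm hfin (fam1 j) := rk_hlt hfin j

theorem nr_hsur (D : LabOut L Qd s Z p lam₀ v₀ v₁ lam) (hfin : ∀ a, {j | fam1 j = a}.Finite) :
    ∀ a k, k < mm hfin a → ∃ j, fam1 j = a ∧ nr L s lam hfin j = k :=
  rk_hsur (lbd_out D) hfin

/-- order of the final sheets -/
theorem ordN_final (D : LabOut L Qd s Z p lam₀ v₀ v₁ lam) (hLF : LF L s)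
    (hfin : ∀ a, {j | fam1 j = a}.Finite) :
    OrdN (cmb hLF (Lf lam) (xlf D.lab)) (nr L s lam hfin) :=
  ordN_lbd hLF (glab_Lf D.lab) D.on D.conn (lbd_out D) hfin

/-- **exact cells of the final state** (labels `1` outside).  Inputs on the initial state: `E1`, `F1`
and `hV` (a vertex of `Dc` lies outside the sheet `j` iff its height is at least `τ j`). -/
theorem exa_final (h : Cps O Qd Rel s₀ far₀ σ₀ p m s far β)
    (hR : ∀ x w, Rel x w → w ∈ L.W1 → x ∈ L.W1 ∧ L.ed x = L.ed w)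
    (hP0 : ∀ w ∈ s₀.P, w ∈ L.W1) (hp : ∀ j, fam (p j) = fam1 j) (hI₀ : s₀.Inv Qd far₀)
    (hI : s.Inv Qd far) (D : LabOut L Qd s Z p lam₀ v₀ v₁ lam) (hLF : LF L s) {Dc : Set Q}
    (hdn : ∀ q ∈ Dc, ∀ p < q, p ∈ Dc) (hd : ∀ q ∈ Dc, dim q ≤ 2)
    (hcf : ∀ q ∈ Dc, dim q = 2 → ∃ F, L.cf F = q)
    (hfr : ∀ e ∈ Dc, dim e = 1 → ∀ j : J1, FrE L Qd (fam1 j) e)
    (hpath : ∀ v ∈ Dc, dim v = 0 → ∀ j : J1,
      ReflTransGen (Ed L {e | FrE L Qd (fam1 j) e}) (v₀ (fam1 j)) v ∨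
        (v ∈ Z (fam1 j) ∧ ∀ j' : J1, fam1 j' = fam1 j → lam₀ (p j') v = 0))
    (h1 : E1 L s₀ Dc) (h2 : F1 L s₀ Dc) (hfin : ∀ a, {j | fam1 j = a}.Finite)
    (τ : J → ℝ) (u lo hi : Q → C → ℕ)
    (hV : ∀ v ∈ Dc, dim v = 0 → ∀ j, lam₀ j v = 0 ↔ τ j ≤ u v (fam j))
    (hbd : ∀ q ∈ Dc, ∀ v ≤ q, dim v = 0 → ∀ a, lo q a ≤ u v a ∧ u v a ≤ hi q a)
    (hlo : ∀ q ∈ Dc, ∀ a, ∃ v ≤ q, dim v = 0 ∧ u v a = lo q a)
    (hhi : ∀ q ∈ Dc, ∀ a, ∃ v ≤ q, dim v = 0 ∧ u v a = hi q a) :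
    Exa (cmb hLF (Lf lam) (xlf D.lab)) Dc fam1 (nr L s lam hfin)
      (fun v a => cnt fam1 (fun j => τ (p j)) a (u v a))
      (fun q a => cnt fam1 (fun j => τ (p j)) a (lo q a))
      (fun q a => cnt fam1 (fun j => τ (p j)) a (hi q a)) := by
  refine exa_state hLF (glab_Lf D.lab) hdn hd hcf
    (E1_final h hR hP0 hp hI₀ hI hfr h1) (F1_final h hR hP0 hp hI₀ hI hfr hdn h2) hfin
    (fun j => ⟨v₁ (fam1 j), v₀ (fam1 j), lbd_Lf (D.lbd j), fun v hv hv0 => ?_⟩)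
    (fun j => τ (p j)) u lo hi ?_ hbd hlo hhi
  · rcases hpath v hv hv0 j with h5 | ⟨h5, -⟩
    · exact Or.inl ⟨_, path_symm h5⟩
    · refine Or.inr fun j' hj' => ?_
      show lam j' v + 1 = 1
      rw [z_Lf]
      exact D.far j' v (by rw [hj']; exact h5)
  · intro v hv hv0 j
    show lam j v + 1 = 1 ↔ _
    have h6 : lam j v = lam₀ (p j) v := by
      rcases hpath v hv hv0 j with h5 | ⟨h5, h7⟩
      · exact D.frz j v h5
      · rw [D.far j v h5, h7 j rfl]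
    rw [z_Lf, h6, hV v hv hv0 (p j), hp]

end fin

end Crest.Agent.R096.Ecm_446
end

-- ▼ part R096/Ecm3_446

/-!
# R096 (row 96), BASE-DISC, part 3 (helper446): `E1`, `F1`, heights and labels on the boundary of an
exact core, from the grid and the words

`CG T i₀ U` : the closed cells of dimension `≤ 2` of the tile `i₀` are the cells of the grid of the
heights `U x a` (`= M * s_a (th x)`); `CW` : every sheet `j` (direction `fam j`, height `τ j`) meets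
every 1-cell of the tile in at most one point, does not meet the 1-cells on which `U . (fam j)` has
the same value at both ends, and the vertices are on the side given by the heights.
-/

set_option autoImplicit false
set_option linter.unusedSectionVars false

open Set Relation

namespace Crest.Agent.R096.Ecm_446

open Crest.Agent.R096.Msh_715
open Crest.Agent.R096.St_147 Crest.Agent.R096.Seq_213 Crest.Agent.R096.Seq_213.GSt
  Crest.Agent.R096.Lm_117 Crest.Agent.R096.Ac_117 Crest.Agent.R096.Gl_422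
open Crest.Agent.R096.Lab_184 Crest.Agent.R096.Agl5_543
open Crest.Agent.R096.Cm_117 (cell_sub cell_cc)
open Crest.Agent.R096.On_441 (Lf xlf)

section floor

variable {r R : ℝ}

theorem flo_fix (h0 : 0 ≤ r) (h : ¬ ⌊r⌋₊ < ⌈r⌉₊) : r = ⌊r⌋₊ ∧ ⌈r⌉₊ = ⌊r⌋₊ := by
  have h1 := Nat.floor_le h0
  have h2 := Nat.le_ceil r
  have h3 := Nat.floor_le_ceil r
  have h4 : ⌈r⌉₊ = ⌊r⌋₊ := by omega
  rw [h4] at h2
  exact ⟨le_antisymm h2 h1, h4⟩

theorem flo_nat {n : ℕ} (h : r = n) : ⌊r⌋₊ = n ∧ ⌈r⌉₊ = n := by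
  subst h; simp

theorem flo_sub (h1 : (⌊R⌋₊ : ℝ) ≤ r) (h2 : r ≤ ⌈R⌉₊) (hf : ⌊r⌋₊ < ⌈r⌉₊) :
    ⌊r⌋₊ = ⌊R⌋₊ ∧ ⌈r⌉₊ = ⌈R⌉₊ := by
  have h3 := Nat.ceil_le_floor_add_one R
  have h0 : 0 ≤ r := (Nat.cast_nonneg _).trans h1
  have e1 : ⌊R⌋₊ ≤ ⌊r⌋₊ := Nat.le_floor h1
  have e2 : ⌈r⌉₊ ≤ ⌈R⌉₊ := Nat.ceil_le.2 h2
  omega

end floor

variable {E : Type} [NormedAddCommGroup E] [NormedSpace ℝ E] [FiniteDimensional ℝ E]
variable {Om : Set E} {ι : Type} {C J : Type}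

/-- **grid** of the boundary of the tile `i₀` -/
structure CG (T : Tiling Om ι) (i₀ : ι) (U : E → C → ℝ) : Prop where
  nn : ∀ x ∈ P (T.H i₀), ∀ a, 0 ≤ U x a
  cell : ∀ x ∈ P (T.H i₀), T.dim x ≤ 2 →
    T.cc x = {y | y ∈ P (T.H i₀) ∧ ∀ a, (⌊U x a⌋₊ : ℝ) ≤ U y a ∧ U y a ≤ ⌈U x a⌉₊}
  dim : ∀ x ∈ P (T.H i₀), T.dim x ≤ 2 → T.dim x = {a | ⌊U x a⌋₊ < ⌈U x a⌉₊}.ncard
  fin : ∀ x ∈ P (T.H i₀), T.dim x ≤ 2 → {a | ⌊U x a⌋₊ < ⌈U x a⌉₊}.Finite
  lo : ∀ x ∈ P (T.H i₀), T.dim x ≤ 2 → ∃ y ∈ P (T.H i₀), ∀ a, U y a = ⌊U x a⌋₊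
  hi : ∀ x ∈ P (T.H i₀), T.dim x ≤ 2 → ∃ y ∈ P (T.H i₀), ∀ a, U y a = ⌈U x a⌉₊

/-- **words** on the boundary of the tile `i₀`: `X j` = level set, `V j` = its inside (nearer to the
hole) -/
structure CW (T : Tiling Om ι) (i₀ : ι) (U : E → C → ℝ) (fam : J → C) (τ : J → ℝ)
    (X V : J → Set E) : Prop where
  side : ∀ v ∈ P (T.H i₀), T.dim v = 0 → ∀ j, v ∈ V j ↔ U v (fam j) < τ j
  one : ∀ x ∈ P (T.H i₀), T.dim x = 1 → ∀ j, ∀ y ∈ T.cc x, ∀ y' ∈ T.cc x, y ∈ X j → y' ∈ X j →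
    y = y'
  non : ∀ x ∈ P (T.H i₀), T.dim x = 1 → ∀ j a b, T.cc x = segment ℝ a b →
    U a (fam j) = U b (fam j) → ∀ y ∈ T.cc x, y ∉ X j

/-- the cells of dimension `≤ 2` of the tile `i₀` -/
def Dc (T : Tiling Om ι) (i₀ : ι) : Set T.Cell := {q | q.set ⊆ P (T.H i₀) ∧ q.dim ≤ 2}

section basics

variable {T : Tiling Om ι} {i₀ : ι}


theorem dc_pt {q : T.Cell} (hq : q ∈ Dc T i₀) : q.pt ∈ P (T.H i₀) ∧ T.dim q.pt ≤ 2 :=
  ⟨hq.1 (by rw [q.set_eq]; exact T.self_mem_cc _), hq.2⟩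

variable {U : E → C → ℝ} (G : CG T i₀ U)
include G

theorem CG.sub {x y : E} (hx : x ∈ P (T.H i₀)) (hd : T.dim x ≤ 2) (hy : y ∈ T.cc x) :
    y ∈ P (T.H i₀) ∧ T.dim y ≤ 2 ∧ ∀ a, (⌊U x a⌋₊ : ℝ) ≤ U y a ∧ U y a ≤ ⌈U x a⌉₊ := by
  have h1 := hy
  rw [G.cell x hx hd] at h1
  exact ⟨h1.1, (T.dim_le hy).trans hd, h1.2⟩

/-- heights of the vertices are integers -/
theorem CG.vtx {v : E} (hv : v ∈ P (T.H i₀)) (h0 : T.dim v = 0) (a : C) : U v a = ⌊U v a⌋₊ := by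
  have h1 := G.dim v hv (by omega)
  have h2 := G.fin v hv (by omega)
  rw [h0] at h1
  have h3 := (Set.ncard_eq_zero h2).1 h1.symm
  refine (flo_fix (G.nn v hv a) fun h => ?_).1
  have : a ∈ {a | ⌊U v a⌋₊ < ⌈U v a⌉₊} := h
  rw [h3] at this
  exact this

/-- points with integral heights are vertices -/
theorem CG.dim0 {v : E} (hv : v ∈ P (T.H i₀)) (hd : T.dim v ≤ 2) (h : ∀ a, ∃ n : ℕ, U v a = n) :
    T.dim v = 0 := by
  rw [G.dim v hv hd, Set.ncard_eq_zero (G.fin v hv hd)]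
  ext a
  simp only [mem_ofPred_eq, mem_empty_iff_false, iff_false, not_lt]
  obtain ⟨n, hn⟩ := h a
  obtain ⟨h1, h2⟩ := flo_nat hn
  omega

theorem CG.exists_lo {x : E} (hx : x ∈ P (T.H i₀)) (hd : T.dim x ≤ 2) :
    ∃ y ∈ T.cc x, T.dim y = 0 ∧ ∀ a, U y a = ⌊U x a⌋₊ := by
  obtain ⟨y, hy, h1⟩ := G.lo x hx hd
  have h2 : y ∈ T.cc x := by
    rw [G.cell x hx hd]
    refine ⟨hy, fun a => ?_⟩
    rw [h1 a]
    exact ⟨le_rfl, by exact_mod_cast Nat.floor_le_ceil _⟩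
  exact ⟨y, h2, G.dim0 hy ((T.dim_le h2).trans hd) fun a => ⟨_, h1 a⟩, h1⟩

theorem CG.exists_hi {x : E} (hx : x ∈ P (T.H i₀)) (hd : T.dim x ≤ 2) :
    ∃ y ∈ T.cc x, T.dim y = 0 ∧ ∀ a, U y a = ⌈U x a⌉₊ := by
  obtain ⟨y, hy, h1⟩ := G.hi x hx hd
  have h2 : y ∈ T.cc x := by
    rw [G.cell x hx hd]
    refine ⟨hy, fun a => ?_⟩
    rw [h1 a]
    exact ⟨by exact_mod_cast Nat.floor_le_ceil _, le_rfl⟩
  exact ⟨y, h2, G.dim0 hy ((T.dim_le h2).trans hd) fun a => ⟨_, h1 a⟩, h1⟩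

variable {fam : J → C} {τ : J → ℝ} {X V : J → Set E} (Wd : CW T i₀ U fam τ X V)
include Wd

/-- the direction of a crossed 1-cell -/
theorem CW.free {x : E} (hx : x ∈ P (T.H i₀)) (h1 : T.dim x = 1) {j : J} (hj : x ∈ X j) :
    {a | ⌊U x a⌋₊ < ⌈U x a⌉₊} = {fam j} := by
  have hd : T.dim x ≤ 2 := by omega
  obtain ⟨a, b, -, e, -, -, -, ha, hb⟩ := T.edge_eq (T.sub i₀ hx) h1
  have h2 : fam j ∈ {a | ⌊U x a⌋₊ < ⌈U x a⌉₊} := by
    by_contra hno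
    have h3 := (flo_fix (G.nn x hx (fam j)) hno).2
    have k1 := (G.sub hx hd ha).2.2 (fam j)
    have k2 := (G.sub hx hd hb).2.2 (fam j)
    rw [h3] at k1 k2
    exact Wd.non x hx h1 j a b e ((le_antisymm k1.2 k1.1).trans (le_antisymm k2.1 k2.2)) x
      (T.self_mem_cc x) hj
  have h3 := G.dim x hx hd
  rw [h1] at h3
  obtain ⟨c, hc⟩ := Set.ncard_eq_one.1 h3.symm
  rw [hc] at h2 ⊢
  rw [mem_singleton_iff.1 h2]

/-- **at most two points of a sheet on a 2-cell** -/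
theorem CW.two {x : E} (hx : x ∈ P (T.H i₀)) (h2 : T.dim x = 2) {j : J} {w₁ w₂ w₃ : E}
    (m₁ : w₁ ∈ T.cc x) (m₂ : w₂ ∈ T.cc x) (m₃ : w₃ ∈ T.cc x) (d₁ : T.dim w₁ = 1)
    (d₂ : T.dim w₂ = 1) (d₃ : T.dim w₃ = 1) (j₁ : w₁ ∈ X j) (j₂ : w₂ ∈ X j) (j₃ : w₃ ∈ X j) :
    w₁ = w₂ ∨ w₁ = w₃ ∨ w₂ = w₃ := by
  have hd : T.dim x ≤ 2 := by omega
  have h3 := G.dim x hx hd
  rw [h2] at h3
  obtain ⟨a, b, hab, hfr⟩ := Set.ncard_eq_two.1 h3.symm
  -- a point of the sheet on a 1-cell of the face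
  have key : ∀ w ∈ T.cc x, T.dim w = 1 → w ∈ X j →
      fam j ∈ {a | ⌊U x a⌋₊ < ⌈U x a⌉₊} ∧ ∀ c, (c = fam j → ⌊U w c⌋₊ = ⌊U x c⌋₊ ∧
        ⌈U w c⌉₊ = ⌈U x c⌉₊) ∧ (c ≠ fam j → U w c = ⌊U w c⌋₊ ∧ (⌊U w c⌋₊ = ⌊U x c⌋₊ ∨
        ⌊U w c⌋₊ = ⌈U x c⌉₊)) := by
    intro w hw hw1 hwj
    obtain ⟨a1, a2, a3⟩ := G.sub hx hd hw
    have hf := CW.free G Wd a1 hw1 hwj
    have hff : ⌊U w (fam j)⌋₊ < ⌈U w (fam j)⌉₊ := by
      have : fam j ∈ {a | ⌊U w a⌋₊ < ⌈U w a⌉₊} := by rw [hf]; rfl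
      exact this
    have e1 := flo_sub (a3 (fam j)).1 (a3 (fam j)).2 hff
    refine ⟨?_, fun c => ⟨?_, ?_⟩⟩
    · show ⌊U x (fam j)⌋₊ < ⌈U x (fam j)⌉₊
      rw [← e1.1, ← e1.2]; exact hff
    · rintro rfl; exact e1
    · intro hc
      have hn : ¬ ⌊U w c⌋₊ < ⌈U w c⌉₊ := by
        intro h'
        have : c ∈ {a | ⌊U w a⌋₊ < ⌈U w a⌉₊} := h'
        rw [hf] at this
        exact hc this
      obtain ⟨f1, f2⟩ := flo_fix (G.nn w a1 c) hn
      refine ⟨f1, ?_⟩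
      have g1 := (a3 c).1
      have g2 := (a3 c).2
      rw [f1] at g1 g2
      have g1' : ⌊U x c⌋₊ ≤ ⌊U w c⌋₊ := by exact_mod_cast g1
      have g2' : ⌊U w c⌋₊ ≤ ⌈U x c⌉₊ := by exact_mod_cast g2
      have g3 := Nat.ceil_le_floor_add_one (U x c)
      omega
  -- the second direction
  have hk : ∃ b', b' ≠ fam j ∧ {a | ⌊U x a⌋₊ < ⌈U x a⌉₊} = {fam j, b'} := by
    have h4 := (key w₁ m₁ d₁ j₁).1
    rw [hfr] at h4 ⊢
    rcases h4 with h4 | h4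
    · exact ⟨b, by rw [h4]; exact hab.symm, by rw [h4]⟩
    · refine ⟨a, ?_, ?_⟩
      · rw [mem_singleton_iff.1 h4]; exact hab
      · rw [mem_singleton_iff.1 h4]; exact Set.pair_comm _ _
  obtain ⟨b', hb', hfr'⟩ := hk
  -- equal second coordinates: equal points
  have eqv : ∀ w ∈ T.cc x, ∀ w' ∈ T.cc x, T.dim w = 1 → T.dim w' = 1 → w ∈ X j → w' ∈ X j →
      ⌊U w b'⌋₊ = ⌊U w' b'⌋₊ → w = w' := by
    intro w hw w' hw' e1 e1' hj hj' e
    have k := (key w hw e1 hj).2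
    have k' := (key w' hw' e1' hj').2
    obtain ⟨a1, a2, -⟩ := G.sub hx hd hw
    have a1' := (G.sub hx hd hw').1
    have hall : ∀ c, (⌊U w c⌋₊ : ℝ) ≤ U w' c ∧ U w' c ≤ ⌈U w c⌉₊ := by
      intro c
      by_cases hc : c = fam j
      · subst hc
        rw [((k _).1 rfl).1, ((k _).1 rfl).2, ← ((k' _).1 rfl).1, ← ((k' _).1 rfl).2]
        exact ⟨Nat.floor_le (G.nn w' a1' _), Nat.le_ceil _⟩
      · obtain ⟨f1, f2⟩ := (k c).2 hc
        obtain ⟨f1', f2'⟩ := (k' c).2 hc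
        have f3 : ⌊U w c⌋₊ = ⌊U w' c⌋₊ := by
          by_cases hcb : c = b'
          · rw [hcb]; exact e
          · have hnf : ¬ ⌊U x c⌋₊ < ⌈U x c⌉₊ := by
              intro h'
              have : c ∈ {a | ⌊U x a⌋₊ < ⌈U x a⌉₊} := h'
              rw [hfr'] at this
              rcases this with h5 | h5
              · exact hc h5
              · exact hcb h5
            have h6 := Nat.floor_le_ceil (U x c)
            omega
        have f4 : ⌈U w c⌉₊ = ⌊U w c⌋₊ := (flo_nat f1).2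
        rw [f4, f3, ← f1']
        exact ⟨le_rfl, le_rfl⟩
    have hm : w' ∈ T.cc w := by
      rw [G.cell w a1 (by omega)]
      exact ⟨a1', hall⟩
    exact Wd.one w a1 e1 j w (T.self_mem_cc w) w' hm hj hj'
  -- pigeonhole
  have v1 := ((key w₁ m₁ d₁ j₁).2 b').2 hb' |>.2
  have v2 := ((key w₂ m₂ d₂ j₂).2 b').2 hb' |>.2
  have v3 := ((key w₃ m₃ d₃ j₃).2 b').2 hb' |>.2
  have : ⌊U w₁ b'⌋₊ = ⌊U w₂ b'⌋₊ ∨ ⌊U w₁ b'⌋₊ = ⌊U w₃ b'⌋₊ ∨ ⌊U w₂ b'⌋₊ = ⌊U w₃ b'⌋₊ := by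
    omega
  rcases this with e | e | e
  · exact Or.inl (eqv _ m₁ _ m₂ d₁ d₂ j₁ j₂ e)
  · exact Or.inr (Or.inl (eqv _ m₁ _ m₃ d₁ d₃ j₁ j₃ e))
  · exact Or.inr (Or.inr (eqv _ m₂ _ m₃ d₂ d₃ j₂ j₃ e))

end basics

/-! ### labelled skeletons made of cells of the tiling -/

/-- `L` is a skeleton made of cells of `T` (the tiling itself, subcomplexes, merged meshes) -/
structure OnT (T : Tiling Om ι) {Q : Type} [PartialOrder Q] {dim : Q → ℕ} (L : Sk E Q dim)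
    (κ : Q → T.Cell) : Prop where
  w1 : ∀ w ∈ L.W1, w ∈ Om ∧ T.dim w = 1
  mono : ∀ p q, p ≤ q → κ p ≤ κ q
  dim : ∀ q, (κ q).dim = dim q
  ed : ∀ w ∈ L.W1, (κ (L.ed w)).set = T.cc w
  down : ∀ q c, c ≤ κ q → ∃ p ≤ q, κ p = c

theorem onT_skT (T : Tiling Om ι) [Nonempty T.Cell] : OnT T (skT T) (fun c => c) where
  w1 := fun _ h => h
  mono := fun _ _ h => h
  dim := fun _ => rfl
  ed := fun _ h => edC_set h.1
  down := fun _ c h => ⟨c, h, rfl⟩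

theorem onT_sub {T : Tiling Om ι} {Q : Type} [PartialOrder Q] {dim : Q → ℕ} {L : Sk E Q dim}
    {κ : Q → T.Cell} (h : OnT T L κ) (p : Q → Prop) (hp : ∀ c d, c ≤ d → p d → p c)
    (hne : ∃ c, p c) : OnT T (L.sub p hp hne) (fun c => κ c.1) where
  w1 := fun w hw => h.w1 w hw.1
  mono := fun _ _ hle => h.mono _ _ hle
  dim := fun q => h.dim q.1
  ed := fun w hw => by
    show (κ (subEd L p hne w).1).set = T.cc w
    rw [subEd_eq hw.2]
    exact h.ed w hw.1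
  down := fun q c hc => by
    obtain ⟨r, h1, h2⟩ := h.down q.1 c hc
    exact ⟨⟨r, hp _ _ h1 q.2⟩, h1, h2⟩

section st

variable {ι' Φ Q : Type} [PartialOrder Q] {dim : Q → ℕ} {M : MeshC ι' Φ E} {L : LM M Q dim}
variable {T : Tiling Om ι} {i₀ : ι} {κ : Q → T.Cell} (hT : OnT T L.toSk κ)
variable {fam : J → C} {s : GSt M fam} {U : E → C → ℝ} {τ : J → ℝ} {X V : J → Set E}

/-- the cells of the skeleton in the boundary of the tile `i₀` -/
def Dk (i₀ : ι) (κ : Q → T.Cell) : Set Q := {q | κ q ∈ Dc T i₀}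

include hT

theorem dk_dn : ∀ q ∈ Dk i₀ κ, ∀ p < q, p ∈ Dk i₀ κ := by
  intro q hq p hp
  have h1 := hT.mono p q hp.le
  refine ⟨(Tiling.Cell.le_def.1 h1).trans hq.1, ?_⟩
  have h2 : (κ q).dim ≤ 2 := hq.2
  rw [hT.dim] at h2 ⊢
  exact (L.toSk.dim_lt p q hp).le.trans h2

theorem dk_dim : ∀ q ∈ Dk i₀ κ, dim q ≤ 2 := fun q hq => by rw [← hT.dim q]; exact hq.2

theorem dk_in {q : Q} {w : E} (hw : w ∈ L.toSk.In q) : w ∈ T.cc (κ q).pt := by
  have h1 := Tiling.Cell.le_def.1 (hT.mono _ _ hw.2)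
  rw [← (κ q).set_eq]
  refine h1 ?_
  rw [hT.ed w hw.1]
  exact T.self_mem_cc w

theorem E1_core (Wd : CW T i₀ U fam τ X V)
    (hX : ∀ w ∈ s.P, w ∈ P (T.H i₀) → w ∈ X (s.lab w)) : E1 L s (Dk i₀ κ) := by
  intro e he _ w w' hw hw' hwe hwe' hl
  have h1 : T.cc w = T.cc w' := by rw [← hT.ed w hwe.1, ← hT.ed w' hwe'.1, hwe.2, hwe'.2]
  have h2 : w ∈ P (T.H i₀) := he.1 (by
    rw [← hwe.2, hT.ed w hwe.1]; exact T.self_mem_cc w)
  have h3 : w' ∈ P (T.H i₀) := he.1 (by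
    rw [← hwe'.2, hT.ed w' hwe'.1]; exact T.self_mem_cc w')
  exact Wd.one w h2 (hT.w1 w hwe.1).2 (s.lab w) w (T.self_mem_cc w) w'
    (by rw [h1]; exact T.self_mem_cc w') (hX w hw h2) (by rw [hl]; exact hX w' hw' h3)

theorem F1_core (G : CG T i₀ U) (Wd : CW T i₀ U fam τ X V)
    (hX : ∀ w ∈ s.P, w ∈ P (T.H i₀) → w ∈ X (s.lab w)) : F1 L s (Dk i₀ κ) := by
  intro q hq h2 w₁ w₂ w₃ a₁ a₂ a₃ i₁ i₂ i₃ l₂ l₃
  have hp := dc_pt hq
  have hd : T.dim (κ q).pt ≤ 2 := hp.2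
  have k₁ := (G.sub hp.1 hd (dk_in hT i₁)).1
  have k₂ := (G.sub hp.1 hd (dk_in hT i₂)).1
  have k₃ := (G.sub hp.1 hd (dk_in hT i₃)).1
  exact CW.two G Wd hp.1 ((hT.dim q).trans h2) (dk_in hT i₁) (dk_in hT i₂) (dk_in hT i₃)
    (hT.w1 _ i₁.1).2 (hT.w1 _ i₂.1).2 (hT.w1 _ i₃.1).2 (hX w₁ a₁ k₁)
    (by rw [l₂]; exact hX w₂ a₂ k₂) (by rw [l₃]; exact hX w₃ a₃ k₃)

omit hT in
/-- height of a vertex -/
noncomputable def uu (U : E → C → ℝ) (κ : Q → T.Cell) (v : Q) (a : C) : ℕ := ⌊U (κ v).pt a⌋₊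

omit hT in
/-- smallest height of a cell -/
noncomputable def lo (U : E → C → ℝ) (κ : Q → T.Cell) (v : Q) (a : C) : ℕ := ⌊U (κ v).pt a⌋₊

omit hT in
/-- largest height of a cell -/
noncomputable def hi (U : E → C → ℝ) (κ : Q → T.Cell) (v : Q) (a : C) : ℕ := ⌈U (κ v).pt a⌉₊

theorem uu_eq (G : CG T i₀ U) {v : Q} (hv : v ∈ Dk i₀ κ) (h0 : dim v = 0) (a : C) :
    U (κ v).pt a = uu U κ v a :=
  G.vtx (dc_pt hv).1 ((hT.dim v).trans h0) a

theorem hV_core (G : CG T i₀ U) (Wd : CW T i₀ U fam τ X V) {lam₀ : J → Q → ZMod 2}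
    (hl : ∀ v ∈ Dk i₀ κ, dim v = 0 → ∀ j, lam₀ j v = 1 ↔ (κ v).pt ∈ V j) :
    ∀ v ∈ Dk i₀ κ, dim v = 0 → ∀ j, lam₀ j v = 0 ↔ τ j ≤ uu U κ v (fam j) := by
  intro v hv h0 j
  have hd : T.dim (κ v).pt = 0 := (hT.dim v).trans h0
  have s2 := Wd.side _ (dc_pt hv).1 hd j
  have h1 : lam₀ j v = 0 ↔ ¬ lam₀ j v = 1 := by
    have e : ∀ a : ZMod 2, a = 0 ↔ ¬ a = 1 := by decide
    exact e _
  rw [h1, hl v hv h0 j, s2, ← uu_eq hT G hv h0, not_lt]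

theorem bd_core (G : CG T i₀ U) : ∀ q ∈ Dk i₀ κ, ∀ v ≤ q, dim v = 0 → ∀ a,
    lo U κ q a ≤ uu U κ v a ∧ uu U κ v a ≤ hi U κ q a := by
  intro q hq v hv h0 a
  have hvD : v ∈ Dk i₀ κ := by
    rcases hv.eq_or_lt with h | h
    · rw [h]; exact hq
    · exact dk_dn hT q hq v h
  have h1 : (κ v).pt ∈ T.cc (κ q).pt := by
    rw [← (κ q).set_eq]
    refine Tiling.Cell.le_def.1 (hT.mono _ _ hv) ?_
    rw [(κ v).set_eq]; exact T.self_mem_cc _
  obtain ⟨-, -, h2⟩ := G.sub (dc_pt hq).1 (dc_pt hq).2 h1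
  have h3 := h2 a
  rw [uu_eq hT G hvD h0] at h3
  exact ⟨by exact_mod_cast h3.1, by exact_mod_cast h3.2⟩

omit hT in
theorem pt_vertex {v : T.Cell} {y : E} (h0 : T.dim y = 0) (e : v.set = T.cc y) :
    v.pt = y := by
  have h1 : v.pt ∈ v.set := by rw [v.set_eq]; exact T.self_mem_cc _
  rw [e, T.cc_eq_singleton (T.dim_eq_zero_iff.1 h0)] at h1
  exact h1

theorem ex_vertex {q : Q} {y : E} (hy : y ∈ T.cc (κ q).pt)
    (h0 : T.dim y = 0) : ∃ v ≤ q, dim v = 0 ∧ (κ v).pt = y := by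
  have hO : y ∈ Om := T.cc_sub_Om (κ q).pt_mem hy
  obtain ⟨v, h1, h2⟩ := hT.down q (T.cl hO) (by
    rw [Tiling.Cell.le_def, T.cl_set, (κ q).set_eq]
    exact T.cc_sub_of_mem hy)
  have h4 : (κ v).pt = y := pt_vertex h0 (by rw [h2, T.cl_set])
  refine ⟨v, h1, ?_, h4⟩
  rw [← hT.dim v]
  show T.dim (κ v).pt = 0
  rw [h4, h0]

theorem lo_core (G : CG T i₀ U) : ∀ q ∈ Dk i₀ κ, ∀ a, ∃ v ≤ q, dim v = 0 ∧
    uu U κ v a = lo U κ q a := by
  intro q hq a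
  obtain ⟨y, hy, h0, h1⟩ := G.exists_lo (dc_pt hq).1 (dc_pt hq).2
  obtain ⟨v, h2, h4, h5⟩ := ex_vertex hT hy h0
  refine ⟨v, h2, h4, ?_⟩
  unfold uu lo
  rw [h5, h1 a, Nat.floor_natCast]

theorem hi_core (G : CG T i₀ U) : ∀ q ∈ Dk i₀ κ, ∀ a, ∃ v ≤ q, dim v = 0 ∧
    uu U κ v a = hi U κ q a := by
  intro q hq a
  obtain ⟨y, hy, h0, h1⟩ := G.exists_hi (dc_pt hq).1 (dc_pt hq).2
  obtain ⟨v, h2, h4, h5⟩ := ex_vertex hT hy h0
  refine ⟨v, h2, h4, ?_⟩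
  unfold uu hi
  rw [h5, h1 a, Nat.floor_natCast]

end st

/-! ### the final state -/

section fin

open Crest.Agent.R096.Cp_298

variable {ι' Φ Q J1 K : Type} [PartialOrder Q] {dim : Q → ℕ} {M : MeshC ι' Φ E} {L : LM M Q dim}
variable {T : Tiling Om ι} {i₀ : ι} {κ : Q → T.Cell} (hT : OnT T L.toSk κ)
variable {fam : J → C} {fam1 : J1 → C} {U : E → C → ℝ} {τ : J → ℝ} {X V : J → Set E}
variable {O : Ori M} {Qd : Quads ι' C K} {Rel : E → E → Prop} {s₀ : GSt M fam}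
  {far₀ : J → Set E} {σ₀ : E → ZMod 2} {p : J1 → J} {m : J1 → ℕ} {s : GSt M fam1}
  {far : J1 → Set E} {β : E → E} {Z : C → Set Q} {lam₀ : J → Q → ZMod 2} {v₀ v₁ : C → Q}
  {lam : J1 → Q → ZMod 2}

/-- **BASE-DISC for the final state** -/
theorem exa_core (hT : OnT T L.toSk κ) (G : CG T i₀ U) (Wd : CW T i₀ U fam τ X V)
    (h : Cps O Qd Rel s₀ far₀ σ₀ p m s far β)
    (hR : ∀ x w, Rel x w → w ∈ L.W1 → x ∈ L.W1 ∧ L.ed x = L.ed w)
    (hP0 : ∀ w ∈ s₀.P, w ∈ L.W1) (hX : ∀ w ∈ s₀.P, w ∈ P (T.H i₀) → w ∈ X (s₀.lab w))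
    (hp : ∀ j, fam (p j) = fam1 j) (hI₀ : s₀.Inv Qd far₀)
    (hI : s.Inv Qd far) (D : LabOut L Qd s Z p lam₀ v₀ v₁ lam) (hLF : LF L s)
    (hcf : ∀ q ∈ Dk i₀ κ, dim q = 2 → ∃ F, L.cf F = q)
    (hfr : ∀ e ∈ Dk i₀ κ, dim e = 1 → ∀ j : J1, FrE L Qd (fam1 j) e)
    (hpath : ∀ v ∈ Dk i₀ κ, dim v = 0 → ∀ j : J1,
      ReflTransGen (Ed L {e | FrE L Qd (fam1 j) e}) (v₀ (fam1 j)) v ∨
        (v ∈ Z (fam1 j) ∧ ∀ j' : J1, fam1 j' = fam1 j → lam₀ (p j') v = 0))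
    (hfin : ∀ a, {j | fam1 j = a}.Finite)
    (hl : ∀ v ∈ Dk i₀ κ, dim v = 0 → ∀ j, lam₀ j v = 1 ↔ (κ v).pt ∈ V j) :
    Exa (cmb hLF (Lf lam) (xlf D.lab)) (Dk i₀ κ) fam1 (nr L s lam hfin)
      (fun v a => cnt fam1 (fun j => τ (p j)) a (uu U κ v a))
      (fun q a => cnt fam1 (fun j => τ (p j)) a (lo U κ q a))
      (fun q a => cnt fam1 (fun j => τ (p j)) a (hi U κ q a)) :=
  exa_final h hR hP0 hp hI₀ hI D hLF (dk_dn hT) (dk_dim hT) hcf hfr hpath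
    (E1_core hT Wd hX) (F1_core hT G Wd hX) hfin τ _ _ _ (hV_core hT G Wd hl)
    (bd_core hT G) (lo_core hT G) (hi_core hT G)

end fin

end Crest.Agent.R096.Ecm_446
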