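import Crest.Agent.R096.Mf1_113
import Crest.Agent.R096.Ecm3_446

/-!
# Grid and words of a tile are the same for two tilings which agree at the tile

446 #10894 (b).  `At_eq T T' K`: through every point of `K` the two tilings have the same tiles (as
sets).
-/

set_option autoImplicit false
set_option linter.unusedSectionVars false

open Set Metric

namespace Crest.Agent.R096.Mf_113

open Crest.Agent.R096.Msh_715

section gen

variable {E : Type*} [NormedAddCommGroup E] [NormedSpace ℝ E] [FiniteDimensional ℝ E]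
variable {Om Om' : Set E} {ι ι' : Type*} {T : Tiling Om ι} {T' : Tiling Om' ι'}


/-- the dimension is determined by the closed cell -/
theorem dim_of_cc {x : E} (hx : x ∈ Om) (hx' : x ∈ Om') (h : T'.cc x = T.cc x) :
    T'.V x = T.V x ∧ T'.dim x = T.dim x := by
  have hV : T'.V x = T.V x := by
    ext v
    rw [mem_V_iff hx', mem_V_iff hx, h]
  refine ⟨hV, ?_⟩
  unfold Tiling.dim
  rw [hV]


end gen

section cg

open Crest.Agent.R096.Ecm_446

variable {E : Type} [NormedAddCommGroup E] [NormedSpace ℝ E] [FiniteDimensional ℝ E]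
variable {Om Om' : Set E} {ι ι' : Type} {T : Tiling Om ι} {T' : Tiling Om' ι'} {C J : Type}
variable {i₀ : ι} {i₀' : ι'}

/-- **grid of the tile, other tiling** -/
theorem CG.of_cc {U : E → C → ℝ} (G : CG T i₀ U) (h0 : P (T'.H i₀') = P (T.H i₀))
    (hcc : ∀ x ∈ P (T.H i₀), T'.cc x = T.cc x) : CG T' i₀' U := by
  have hdim : ∀ x ∈ P (T.H i₀), T'.dim x = T.dim x := fun x hx =>
    (dim_of_cc (T.sub i₀ hx) (T'.sub i₀' (by rw [h0]; exact hx)) (hcc x hx)).2
  refine ⟨?_, ?_, ?_, ?_, ?_, ?_⟩
  · rw [h0]; exact G.nn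
  · intro x hx hd
    rw [h0] at hx ⊢
    rw [hdim x hx] at hd
    rw [hcc x hx]
    exact G.cell x hx hd
  · intro x hx hd
    rw [h0] at hx
    rw [hdim x hx] at hd ⊢
    exact G.dim x hx hd
  · intro x hx hd
    rw [h0] at hx
    rw [hdim x hx] at hd
    exact G.fin x hx hd
  · intro x hx hd
    rw [h0] at hx ⊢
    rw [hdim x hx] at hd
    exact G.lo x hx hd
  · intro x hx hd
    rw [h0] at hx ⊢
    rw [hdim x hx] at hd
    exact G.hi x hx hd

/-- **words of the tile, other tiling** -/
theorem CW.of_cc {U : E → C → ℝ} {fam : J → C} {τ : J → ℝ} {X V : J → Set E}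
    (W : CW T i₀ U fam τ X V) (h0 : P (T'.H i₀') = P (T.H i₀))
    (hcc : ∀ x ∈ P (T.H i₀), T'.cc x = T.cc x) : CW T' i₀' U fam τ X V := by
  have hdim : ∀ x ∈ P (T.H i₀), T'.dim x = T.dim x := fun x hx =>
    (dim_of_cc (T.sub i₀ hx) (T'.sub i₀' (by rw [h0]; exact hx)) (hcc x hx)).2
  refine ⟨?_, ?_, ?_⟩
  · intro v hv hd
    rw [h0] at hv
    rw [hdim v hv] at hd
    exact W.side v hv hd
  · intro x hx hd j y hy y' hy'
    rw [h0] at hx
    rw [hdim x hx] at hd
    rw [hcc x hx] at hy hy'
    exact W.one x hx hd j y hy y' hy'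
  · intro x hx hd j a b hab hU y hy
    rw [h0] at hx
    rw [hdim x hx] at hd
    rw [hcc x hx] at hab hy
    exact W.non x hx hd j a b hab hU y hy


end cg

section refine

variable {E : Type*} [NormedAddCommGroup E] [NormedSpace ℝ E] [FiniteDimensional ℝ E]
variable {Om : Set E} {ι ι' : Type*} {T : Tiling Om ι} {T' : Tiling Om ι'}


end refine

end Crest.Agent.R096.Mf_113
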