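import Crest.Agent.R096.At12_241
import Crest.Agent.R096.Fin4_147
import Crest.Agent.R096.Gia3_537
import Crest.Agent.R096.Shg8_334
import Crest.Agent.R096.Mi6_117
import Crest.Agent.R096.Ecm8_446
import Crest.Agent.R096.Ncl1_914
import Crest.Agent.R096.Onb2_63
import Crest.Agent.R096.Crb1_609
import Crest.Agent.R096.Exa7_560

-- ▼ part R096/At13_241
section

/-!
# R096 (row 96), ARR-INST part 13 (helper241): the literal hypothesis `arcs` of 147's `fin_gout`,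
`fin_st`, `fin_stG`, and the squares on the boundary of a core

* `StO.exists_ord` : the order of the final sheets;
* **`arcs_lit`** : the literal `arcs`;
* **`sq_lit`** : one point of the fibre of a square on the frontier of a core.
-/

set_option autoImplicit false
set_option linter.unusedSectionVars false
set_option linter.unusedVariables false
set_option linter.style.longLine false

open Set Metric Topology Module

namespace Crest.Agent.R096.At_241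

open Crest.Agent.R096.Ce_537 Crest.Agent.R096.Bd_416 Crest.Agent.R096.Mg_441
  Crest.Agent.R096.Xp_537 Crest.Agent.R096.Grd_714
open Crest.Agent.R096.St_147 Crest.Agent.R096.Seq_213 Crest.Agent.R096.Lm_117
  Crest.Agent.R096.Cp_298 Crest.Agent.R096.SkB_662 Crest.Agent.R096.Ac_117
open Crest.Agent.R096.Brk1_582 Crest.Agent.R096.Brk2_582 Crest.Agent.R096.Brk3_582
open Crest.Agent.R096.Brk5_582 Crest.Agent.R096.Bsp_628
open Crest.Agent.R096.Ar_241 (dirW cod Exact TopC Tr0 CoreData)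
open Crest.Agent.R096.Shp_334 (half_merge exists_num OnMesh)
open Crest.Agent.R096.Fin_147 (XM Xout Ktc gr)
open Crest.Agent.R096.Gia_537 (foam4 quads4 ne4)
open Crest.Agent.R096.SkC1_961 (E3 Hom3 FoamD Cfg th NN)
open Crest.Agent.R096.Init_543 (fr3)

section ord

variable {ι Φ W Q J Fam Kq : Type} {M : MeshC ι Φ W} [PartialOrder Q] {dim : Q → ℕ}
variable {L : LM M Q dim} {O : Ori M} {σ : Q → ZMod 2} {Rel : W → W → Prop} {V : Set W}
  {Qd : Quads ι Fam Kq} {κ : Fam → ℕ} {fam : J → Fam} {s₀ : GSt M fam} {far₀ : J → Set W}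
  {Z : Fam → Set Q} {lam₀ : J → Q → ZMod 2} {v₀ v₁ : Fam → Q}
  {hfin : ∀ a, {j | fam j = a}.Finite} {kap : Fam → ℕ} {s : GSt M (fam' fam (Rk κ kap))}
  {far : Nm' fam (Rk κ kap) → Set W} {β : W → W} {lam : Nm' fam (Rk κ kap) → Q → ZMod 2}

/-- **order of the final sheets** -/
theorem exists_ord (h : StO L O σ Rel V Qd κ s₀ far₀ Z lam₀ v₀ v₁ hfin kap s far β lam) :
    ∃ ℓ : Nm' fam (Rk κ kap) → ℝ, Ord h.cmb ℓ ∧
      ∀ j j', j ≠ j' → h.cmb.fam j = h.cmb.fam j' → ℓ j ≠ ℓ j' :=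
  ⟨_, On_441.ordF h.lab h.lfs h.fin1, On_441.ordF_ne h.lab h.fin1⟩

end ord

section lit

variable {δ κ0 R c0 : ℝ} {La Om : Set E3} {Φ : FoamD δ κ0 R c0 La}
variable {ι Φc Q J Kq : Type} {M : MeshC ι Φc E3} [PartialOrder Q] {dim : Q → ℕ}
variable {L : LM M Q dim} {O : Ori M} {σ : Q → ZMod 2} {Rel : E3 → E3 → Prop} {V : Set E3}
  {Qd : Quads ι Φ.F Kq} {κ : Φ.F → ℕ} {fam : J → Φ.F} {s₀ : GSt M fam} {far₀ : J → Set E3}
  {G : Φ.F → Set E3} {Z : Φ.F → Set Q} {lam₀ : J → Q → ZMod 2} {v₀ v₁ : Φ.F → Q}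
  {hfin : ∀ a, {j | fam j = a}.Finite} {kap : Φ.F → ℕ} {s : GSt M (fam' fam (Rk κ kap))}
  {far : Nm' fam (Rk κ kap) → Set E3} {β : E3 → E3} {lam : Nm' fam (Rk κ kap) → Q → ZMod 2}
variable {y : Q → Φ.F → ℝ} {tc : ι → Q} {ord : ι → Prop} {Zk : Kq → Set Φ.F}
  {core : Φ.F → ι} {D : Set Q}

/-- **the literal hypothesis `arcs`** -/
theorem arcs_lit (hLa : IsOpen La)
    (h : StO L O σ Rel V Qd κ s₀ far₀ Z lam₀ v₀ v₁ hfin kap s far β lam)
    (hi : StI L O σ Rel V Qd κ s₀ far₀ G Z lam₀ v₀ v₁)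
    (hK : K4In L Qd s₀ Z v₀ (Pc Φ.F) D y) (hD : ∀ τ, ord τ → tc τ ∈ D)
    (Gq : QPos L Qd (Pc Φ.F) y tc ord Zk core) (Gs : QSt L Qd s₀ far₀ y tc ord Zk core)
    {Kc : Φ.F → Set E3} {K : Q → Set E3} {Gf : Gd E3 (Nm' fam (Rk κ kap))}
    {P : ∀ q, h.cmb.I q → Set E3} {cb : ∀ q, h.cmb.I q → E3 → ℝ} {B : Set Q}
    {kk : ∀ q, h.cmb.I q → ℕ} (Gi : GeoIn h (Om ∩ Xout Kc) K Gf P cb B kk)
    {hf1 : ∀ a, {j | h.cmb.fam j = a}.Finite} (hm : ∀ a, 0 < mm hf1 a)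
    (hne : ∀ c : Φ.F, (Pc Φ.F c).Nonempty)
    (hKt : ∀ c F', core c ∈ M.side F' → K (L.cf F') ⊆ Kc c) (κf : ℝ) :
    ∀ (G : E3 → E3) (Y : Tr0 Om (gr Φ hLa hne hm) G),
      OnMesh Y K Gf (Tq (bc (F := Φ.F)) (mm hf1)) (XM Om K) →
      Nonempty (Exact Y (fun _ => κf) (fun _ => 0) (Ktc (hfin := hf1) (Pf := Pc Φ.F) Kc) (XM Om K)) →
      ∀ q, cod (gr Φ hLa hne hm) q = 1 →
      IsBall 1 (Y.F q ∩ XM Om K)
        (Y.F q ∩ XM Om K ∩ ⋃ c : TopC (Cel (Pc Φ.F) (mm hf1)), Ktc (hfin := hf1) (Pf := Pc Φ.F) Kc c) := by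
  intro Gm Y hMs ⟨hX⟩ q hq
  obtain ⟨ℓ, hO, hℓ⟩ := exists_ord h
  have hΩ : Om ∩ Xout Kc = Om ∩ XM Om K := by
    ext x
    constructor
    · intro hx
      obtain ⟨q, hq⟩ := Gi.cplx.cover x hx
      exact ⟨hx.1, Or.inr (mem_iUnion.2 ⟨q, hq⟩)⟩
    · rintro ⟨hx, hx' | hx'⟩
      · exact absurd hx hx'
      · obtain ⟨q, hq⟩ := mem_iUnion.1 hx'
        exact Gi.cplx.sub q hq
  exact arcs_sto h hi hK hD Gq Gs Gi (foam4 Φ hLa) hm hℓ hΩ
    (gridOK (foam4 Φ hLa) (quads4 Φ) hne hm) hO hLa fr3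
    (Kt := Ktc (hfin := hf1) (Pf := Pc Φ.F) Kc) (fun c F' hc => by
      show K (L.cf F') ⊆ Kc (Xp_537.tix (tpc c))
      have e : Xp_537.tix (tpc (P := Pc Φ.F) (m := mm hf1) c) = c := Xp_537.tix_topc c
      rw [e]
      exact hKt c F' hc) Y hMs hX q hq

end lit

end Crest.Agent.R096.At_241
end

-- ▼ part R096/At14_241
section

/-!
# R096 (row 96), ARR-INST part 14 (helper241): `arcs` and `sq` over helper337's seam `Front`

* `front_qpos`, `front_qst` : 241's `QPos`, `QSt` over `Lp`;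
* **`front_arcs`** : the literal hypothesis `arcs` of 147's `fin_st` / `fin_stG`;
* **`front_sq`** : one point of the fibre of a square on the boundary of a core.
-/

set_option autoImplicit false
set_option linter.unusedSectionVars false
set_option linter.unusedVariables false
set_option linter.style.longLine false

open Set Metric Topology Module

namespace Crest.Agent.R096.At_241

open Crest.Agent.R096.Ce_537 Crest.Agent.R096.Bd_416 Crest.Agent.R096.Mg_441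
  Crest.Agent.R096.Xp_537 Crest.Agent.R096.Grd_714
open Crest.Agent.R096.St_147 Crest.Agent.R096.Seq_213 Crest.Agent.R096.Lm_117
open Crest.Agent.R096.Msh_715 Crest.Agent.R096.Cpo_642
open Crest.Agent.R096.Brk1_582 Crest.Agent.R096.Brk2_582 Crest.Agent.R096.Brk3_582
open Crest.Agent.R096.Brk5_582 Crest.Agent.R096.Bsp_628
open Crest.Agent.R096.Ac_117 Crest.Agent.R096.Frn_337
open Crest.Agent.R096.Cp_298 Crest.Agent.R096.Gm_298 Crest.Agent.R096.Gl_422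
open Crest.Agent.R096.SkB_662 Crest.Agent.R096.Shg_334
open Crest.Agent.R096.On_441 (Lf xlf)
open Crest.Agent.R096.Agl5_543 Crest.Agent.R096.Ori_543
open Crest.Agent.R096.Init_543 (JJ fr3)
open Crest.Agent.R096.SkC1_961 (E3 Hom3 FoamD Cfg th NN)
open Crest.Agent.R096.Mbf_337 (KJ sb)
open Crest.Agent.R096.Ar_241 (cod Tr0 SheetData Exact TopC)
open Crest.Agent.R096.Fin_147 (Xout XM Ktc gr)
open Crest.Agent.R096.Shp_334 (OnMesh)

variable {δ κ0 R c0 : ℝ} {La Om : Set E3} {ι : Type}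
variable {Φ : FoamD δ κ0 R c0 La} {T : Tiling Om ι} {X : Set Φ.F} {J0 Jt : Φ.F → Set ι}
  {ι3 : Type} {T3 : Tiling Om ι3} {KK : Ti X → Set E3} {c3 : ι → ι3}
variable {f : E3 → E3} {V : Φ.F → Set ι} {ct : Φ.F → ι}
variable [Nonempty T3.Cell] {hH : ∀ k, CoreH T3 (KK k)}
    {hdis : ∀ k k', k ≠ k' → Disjoint (KK k) (KK k')} {hne : ∃ c, OutK T3 KK c}
    {L : Φ.F → Finset ℝ} {Qd : Quads (ι3 ⊕ Ti X) Φ.F (Init_543.QK (Pc Φ.F))}
    {s₀ : GSt (mK fr3 hH hdis) (fun j : JJ Φ L => j.1)} {far₀ : JJ Φ L → Set E3}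
    {Gc : Φ.F → Set E3} {Zc : Φ.F → Set (QK (belK T3 KK))}
    {lam₀ : JJ Φ L → QK (belK T3 KK) → ZMod 2} {v₀ v₁ : Φ.F → QK (belK T3 KK)}
    {κ : Φ.F → ℕ} {hfin : ∀ a, {j : JJ Φ L | j.1 = a}.Finite} {kap : Φ.F → ℕ}
    {s : GSt (mK fr3 hH hdis) (fam' (fun j : JJ Φ L => j.1) (Rk κ kap))}
    {far : Nm' (fun j : JJ Φ L => j.1) (Rk κ kap) → Set E3} {β : E3 → E3}
    {lam : Nm' (fun j : JJ Φ L => j.1) (Rk κ kap) →
      {c : QK (belK T3 KK) // pO T3 KK c3 ct c} → ZMod 2}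

/-- a point on the closure of a cell lies in it -/
theorem mem_setK_of_In {q : {c : QK (belK T3 KK) // pO T3 KK c3 ct c}} {w : E3}
    (hw : w ∈ (Lp c3 ct hH hdis hne).toSk.In q) : w ∈ setK T3 KK q.1 := by
  obtain ⟨h1, h2⟩ := hw
  have hO := Mi_117.onT_p (T3 := T3) (KK := KK) (c3 := c3) (ct := ct) (hH := hH) (hdis := hdis)
    (hne := hne)
  have h3 := hO.mono _ _ h2
  have h4 := hO.ed w h1
  rw [celK_set (Frn_337.tlX X c3 ct) q]
  refine Tiling.Cell.le_def.1 h3 ?_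
  rw [h4]
  exact T3.self_mem_cc w

/-- **the data of the squares over `Front`** -/
theorem front_quads
    (h : Front T f J0 Jt V ct c3 hH hdis hne Qd s₀ far₀ Gc Zc lam₀ v₀ v₁)
    (actO : ∀ k i3, Sum.inl i3 ∈ Qd.Act k → ∀ k', ¬ P (T3.H i3) ⊆ KK k')
    (keep : ∀ c ∈ X, P (T3.H (c3 (ct c))) = P (T.H (ct c)))
    (hdisA : ∀ a a', a ≠ a' → Disjoint (Kcs T KK ct a) (Kcs T KK ct a')) :
    ∃ (y : {c : QK (belK T3 KK) // pO T3 KK c3 ct c} → Φ.F → ℝ)
      (tc : ι3 ⊕ Ti X → {c : QK (belK T3 KK) // pO T3 KK c3 ct c}) (ord : ι3 ⊕ Ti X → Prop),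
      K4In (Lp c3 ct hH hdis hne) Qd s₀ (fun c => {v | v.1 ∈ Zc c})
        (fun c => sv (pO T3 KK c3 ct) (pO_ne hne) (v₀ c)) (Pc Φ.F) univ y ∧
      QPos (Lp c3 ct hH hdis hne) Qd (Pc Φ.F) y tc ord (fun k => k.Z) (cti X c3 ct) ∧
      QSt (Lp c3 ct hH hdis hne) Qd s₀ far₀ y tc ord (fun k => k.Z) (cti X c3 ct) := by
  have R := cor2P (T := T) (KK := KK) (c3 := c3) (ct := ct) keep hdisA
  have V := Shg_334.embP (Frn_337.tlX X c3 ct) R mem_tlX fr3 hH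
  obtain ⟨v, hv⟩ := pO_ne (c3 := c3) (ct := ct) hne
  have hne' : Nonempty {c : QK (belK T3 KK) // pO T3 KK c3 ct c} := ⟨⟨v, hv⟩⟩
  obtain ⟨iq, h1, h2⟩ := h.k4'
  have h3 : ∀ q, (P (T.H (iq q))).Nonempty := fun q => (setK_ne q.2).mono (h1 q).2
  choose xq hxq using h3
  have hK := h2 xq hxq
  have G := tg_of_emb fr3 hH hdis V R (Lp c3 ct hH hdis hne) (fun F => rfl) hne'
  -- the set of the 3-cell of an ordinary tile
  have hset : ∀ i3, (∀ a, ¬ P (T3.H i3) ⊆ Kcs T KK ct a) →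
      setK T3 KK (tcE (κ := Ti X) V hne' (Sum.inl i3)).1 = P (T3.H i3) := by
    intro i3 hi3
    rw [celK_set (Frn_337.tlX X c3 ct), vl_tcE V hne' hi3, tcell_set]
  have hsub : ∀ i3, (∀ a, ¬ P (T3.H i3) ⊆ Kcs T KK ct a) →
      P (T3.H i3) ⊆ P (T.H (iq (tcE (κ := Ti X) V hne' (Sum.inl i3)))) := by
    intro i3 hi3
    have := (h1 (tcE (κ := Ti X) V hne' (Sum.inl i3))).2
    rwa [hset i3 hi3] at this
  have aord : ∀ k, ∀ τ ∈ Qd.Act k, ordX T3 (Ti X) (Kcs T KK ct) τ := by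
    rintro k (i3 | k') hτ
    · refine ⟨i3, rfl, fun a ha => ?_⟩
      by_cases haX : a ∈ X
      · rw [kcs_of haX, ← keep a haX] at ha
        have h4 := tile_sub ha
        refine h.actK k a ?_
        rw [cti_of haX, ← h4]
        exact hτ
      · rw [kcs_not haX] at ha
        exact actO k i3 hτ _ ha
    · refine absurd hτ ?_
      have h4 := h.actK k k'.1
      rwa [cti_not k'.2] at h4
  refine ⟨fun q => sb Φ (Φ.Psi (f (xq q))), tcE (κ := Ti X) V hne', ordX T3 (Ti X) (Kcs T KK ct), hK,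
    QPos.of_tg G h.qin aord ?_ ?_, ⟨?_, ?_, ?_⟩⟩
  · intro k τ hτ a ha
    obtain ⟨i3, rfl, hi3⟩ := aord k τ hτ
    exact (h.actP k i3 hτ _ (hsub i3 hi3) _ (hxq _)).1 a ha
  · intro k τ hτ a ha
    obtain ⟨i3, rfl, hi3⟩ := aord k τ hτ
    exact (h.actP k i3 hτ _ (hsub i3 hi3) _ (hxq _)).2 a ha
  · rintro k _ ⟨i3, rfl, hi3⟩ w w' hw hwt hw' hwt' hf hf' hz
    have hi3' : ∀ k', ¬ P (T3.H i3) ⊆ KK k' := by
      intro k' hk'
      refine hi3 k'.1 ?_
      rw [kcs_not k'.2]; exact hk'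
    refine h.actI k i3 hi3' _ (h1 _).1 (hsub i3 hi3) _ (hxq _) (fun a ha => ?_) hz
    obtain ⟨b, rfl⟩ := (h.qin k a).2 ha
    cases b with
    | true =>
      refine ⟨w, hw, hf, ?_⟩
      have := mem_setK_of_In hwt
      rwa [hset i3 hi3] at this
    | false =>
      refine ⟨w', hw', hf', ?_⟩
      have := mem_setK_of_In hwt'
      rwa [hset i3 hi3] at this
  · intro k c hc j j' hj hj'
    refine h.two k c hc j j' ((h.qin k _).1 ⟨true, hj.symm⟩) ((h.qin k _).1 ⟨false, hj'.symm⟩) ?_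
    rw [hj, hj']
    exact Qd.ne k
  · intro k c0 c1 hk
    have h4 := h.ni k
    have hk' : k.Z = {c0, c1} := hk
    rw [hk', Set.image_pair] at h4
    exact h4

section fin

variable (h : Front T f J0 Jt V ct c3 hH hdis hne Qd s₀ far₀ Gc Zc lam₀ v₀ v₁)
    (actO : ∀ k i3, Sum.inl i3 ∈ Qd.Act k → ∀ k', ¬ P (T3.H i3) ⊆ KK k')
    (keep : ∀ c ∈ X, P (T3.H (c3 (ct c))) = P (T.H (ct c)))
    (hdisA : ∀ a a', a ≠ a' → Disjoint (Kcs T KK ct a) (Kcs T KK ct a'))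
    (hκ : ∀ m, {c | κ c ≤ m}.Finite)
    (hO : StO (Lp c3 ct hH hdis hne) (oriK fr3 hH hdis) (fun c => tauK T3 KK c.1) (RelM T3)
      (lmK fr3 hH hdis hne).W1 Qd κ s₀ far₀ (fun c => {v | v.1 ∈ Zc c})
      (fun j v => lam₀ j v.1) (fun c => sv (pO T3 KK c3 ct) (pO_ne hne) (v₀ c))
      (fun c => sv (pO T3 KK c3 ct) (pO_ne hne) (v₁ c)) hfin kap s far β lam)
    {Gf : Gd E3 (Nm' (fun j : JJ Φ L => j.1) (Rk κ kap))} {Pp : ∀ q, hO.cmb.I q → Set E3}
    {cc : ∀ q, hO.cmb.I q → E3 → ℝ}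
    (H : Inv hO.cmb (fun q => setK T3 KK q.1) univ Gf Pp cc)
    (Xc : Cplx (Om ∩ Xout (Kcs T KK ct)) {c : QK (belK T3 KK) // pO T3 KK c3 ct c}
      (fun c => dimK (belK T3 KK) (fun c => c.1.dim) c.1) (fun q => setK T3 KK q.1))
    {Rb : Set {c : QK (belK T3 KK) // pO T3 KK c3 ct c}}
    (hR : ∀ q ∈ Rb, dimK (belK T3 KK) (fun c => c.1.dim) q.1 ≤ 2)
    (MG : Mi_117.MGeo hO.lfs (Lf lam) (xlf hO.lab.lab) (fun q => setK T3 KK q.1) Rb cc)
    (hLa : IsOpen La) {hf1 : ∀ a, {j | hO.cmb.fam j = a}.Finite}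
    (hm : ∀ a, 0 < Mg_441.mm hf1 a) (hnp : ∀ c : Φ.F, (Pc Φ.F c).Nonempty)

include h actO keep hdisA hκ H Xc hR MG hLa hm hnp

/-- **BLOCK (10): the literal hypothesis `arcs` of 147's `fin_st` / `fin_stG`** -/
theorem front_arcs (κf : ℝ) :
    ∀ (G : E3 → E3) (Y : Tr0 Om (gr Φ hLa hnp hm) G),
      OnMesh Y (fun q : {c : QK (belK T3 KK) // pO T3 KK c3 ct c} => setK T3 KK q.1) Gf
        (Tq (bc (F := Φ.F)) (Mg_441.mm hf1)) (XM Om (fun q : {c : QK (belK T3 KK) //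
          pO T3 KK c3 ct c} => setK T3 KK q.1)) →
      Nonempty (Exact Y (fun _ => κf) (fun _ => 0)
        (Ktc (hfin := hf1) (Pf := Pc Φ.F) (Kcs T KK ct))
        (XM Om (fun q : {c : QK (belK T3 KK) // pO T3 KK c3 ct c} => setK T3 KK q.1))) →
      ∀ q, cod (gr Φ hLa hnp hm) q = 1 →
      IsBall 1 (Y.F q ∩ XM Om (fun q : {c : QK (belK T3 KK) // pO T3 KK c3 ct c} => setK T3 KK q.1))
        (Y.F q ∩ XM Om (fun q : {c : QK (belK T3 KK) // pO T3 KK c3 ct c} => setK T3 KK q.1) ∩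
          ⋃ c : TopC (Cel (Pc Φ.F) (Mg_441.mm hf1)),
            Ktc (hfin := hf1) (Pf := Pc Φ.F) (Kcs T KK ct) c) := by
  obtain ⟨y, tc, ord, hK, Gq, Gs⟩ := front_quads h actO keep hdisA
  have R := cor2P (T := T) (KK := KK) (c3 := c3) (ct := ct) keep hdisA
  refine arcs_lit hLa hO (h.stI hκ) hK (fun _ _ => mem_univ _) Gq Gs
    (GeoIn.of_mgeo Gq H Xc hR MG) hm hnp (fun c F' hc => ?_) κf
  have h1 := (R.side fr3 hH hdis c F').1 hc
  exact h1.trans (R.coreH fr3 hH c).cpt.isClosed.frontier_subset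

/-- **one point of the fibre of a square on the boundary of a core** -/
theorem front_sq (c : Φ.F) (q : Gx (Pc Φ.F) (Mg_441.mm hf1)) (hq : q.free.ncard = 2)
    (hc : q.hi c = 0) :
    ∃ x, {z | z ∈ Sc (Lp c3 ct hH hdis hne) (cti X c3 ct) (fun q => setK T3 KK q.1) c ∧
      gG (Tq (bc (F := Φ.F)) (Mg_441.mm hf1)) (merge hf1 Gf) z =
        (gr Φ hLa hnp hm).b (.gr q)} = {x} := by
  obtain ⟨y, tc, ord, hK, Gq, Gs⟩ := front_quads h actO keep hdisA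
  obtain ⟨ℓ, hOr, hℓ⟩ := exists_ord hO
  exact sq_sto hO (h.stI hκ) hK (fun _ _ => mem_univ _) Gq Gs (GeoIn.of_mgeo Gq H Xc hR MG)
    (Gia_537.foam4 Φ hLa) hm hℓ (gridOK (Gia_537.foam4 Φ hLa) (Gia_537.quads4 Φ) hnp hm) hOr c q hq hc

end fin

end Crest.Agent.R096.At_241
end

-- ▼ part R096/Ecm9_446
section

/-!
# R096 (row 96), BASE-DISC, part 9 (helper446): the nodes of an exact core are close to the uniform
nodes (density of the levels)
-/

set_option autoImplicit false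
set_option linter.unusedSectionVars false
set_option linter.style.longLine false

open Set

namespace Crest.Agent.R096.Ecm_446

open Crest.Agent.R096.Mg_441 Crest.Agent.R096.Cp_298 Crest.Agent.R096.SkB_662
  Crest.Agent.R096.Gl_422

/-- half open windows -/
theorem dens_le {L : Finset ℝ} {κp : ℝ} (hκ : 0 ≤ κp)
    (hd : ∀ u v : ℝ, u ≤ v →
      ((L.filter fun t => u < t ∧ t < v).card : ℝ) ≤ (1 + κp) * (v - u) * L.card + 1)
    {u v : ℝ} (huv : u ≤ v) :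
    ((L.filter fun t => u < t ∧ t ≤ v).card : ℝ) ≤ (1 + κp) * (v - u) * L.card + 1 := by
  refine le_of_forall_pos_le_add fun ε hε => ?_
  have hL : (0 : ℝ) ≤ L.card := Nat.cast_nonneg _
  set η : ℝ := ε / ((1 + κp) * (L.card + 1)) with hη
  have hpos : 0 < (1 + κp) * ((L.card : ℝ) + 1) := by positivity
  have hη0 : 0 < η := div_pos hε hpos
  have h1 := hd u (v + η) (by linarith)
  have h2 : ((L.filter fun t => u < t ∧ t ≤ v).card : ℝ) ≤
      ((L.filter fun t => u < t ∧ t < v + η).card : ℝ) := by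
    exact_mod_cast Finset.card_le_card fun t ht => by
      rw [Finset.mem_filter] at ht ⊢
      exact ⟨ht.1, ht.2.1, ht.2.2.trans_lt (by linarith)⟩
  have h3 : (1 + κp) * η * L.card ≤ ε := by
    have e : η * ((1 + κp) * (L.card + 1)) = ε := div_mul_cancel₀ _ hpos.ne'
    have : (1 + κp) * η * L.card ≤ η * ((1 + κp) * (L.card + 1)) := by
      have := mul_nonneg hη0.le (by positivity : (0 : ℝ) ≤ 1 + κp)
      nlinarith
    linarith
  nlinarith

section cnt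

variable {J C : Type} {fam : J → C} {t : J → ℝ} {L : C → Finset ℝ}

/-- the number of the sheets in a window -/
theorem cnt_sub_le (hfin : ∀ a, {j | fam j = a}.Finite) (ht : ∀ j, t j ∈ L (fam j))
    (hinj : ∀ j j', fam j = fam j' → t j = t j' → j = j') {M : ℕ} (hM : 0 < M) (a : C) (i k : ℕ) :
    (cnt fam (fun j => M * t j) a k : ℝ) - cnt fam (fun j => M * t j) a i ≤
      (((L a).filter fun r => (i : ℝ) / M < r ∧ r ≤ (k : ℝ) / M).card : ℝ) := by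
  classical
  have hM' : (0 : ℝ) < M := by exact_mod_cast hM
  have h1 : {j | fam j = a ∧ (M : ℝ) * t j ≤ k} ⊆ {j | fam j = a ∧ (M : ℝ) * t j ≤ i} ∪
      {j | fam j = a ∧ (i : ℝ) < M * t j ∧ (M : ℝ) * t j ≤ k} := by
    rintro j ⟨e1, e2⟩
    rcases le_or_gt ((M : ℝ) * t j) i with h | h
    · exact Or.inl ⟨e1, h⟩
    · exact Or.inr ⟨e1, h, e2⟩
  have hf1 : {j | fam j = a ∧ (M : ℝ) * t j ≤ i}.Finite := (hfin a).subset fun j hj => hj.1
  have hf2 : {j | fam j = a ∧ (i : ℝ) < M * t j ∧ (M : ℝ) * t j ≤ k}.Finite :=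
    (hfin a).subset fun j hj => hj.1
  have h2 := (Set.ncard_le_ncard h1 (hf1.union hf2)).trans (Set.ncard_union_le _ _)
  have h3 : {j | fam j = a ∧ (i : ℝ) < M * t j ∧ (M : ℝ) * t j ≤ k}.ncard ≤
      ((L a).filter fun r => (i : ℝ) / M < r ∧ r ≤ (k : ℝ) / M).card := by
    rw [← Set.ncard_coe_finset]
    refine Set.ncard_le_ncard_of_injOn t ?_ ?_ (Finset.finite_toSet _)
    · rintro j ⟨e1, e2, e3⟩
      rw [Finset.mem_coe, Finset.mem_filter]
      refine ⟨by rw [← e1]; exact ht j, ?_, ?_⟩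
      · rw [div_lt_iff₀ hM']; linarith
      · rw [le_div_iff₀ hM']; linarith
    · rintro j ⟨e1, -⟩ j' ⟨e1', -⟩ e
      exact hinj j j' (e1.trans e1'.symm) e
  have h4 : (cnt fam (fun j => M * t j) a k : ℝ) ≤ cnt fam (fun j => M * t j) a i +
      (((L a).filter fun r => (i : ℝ) / M < r ∧ r ≤ (k : ℝ) / M).card : ℝ) := by
    unfold cnt
    exact_mod_cast h2.trans (Nat.add_le_add_left h3 _)
  linarith

/-- the number of the sheets of a family is the number of its levels -/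
theorem mm_card (hfin : ∀ a, {j | fam j = a}.Finite) (ht : ∀ j, t j ∈ L (fam j))
    (hinj : ∀ j j', fam j = fam j' → t j = t j' → j = j')
    (hsur : ∀ a, ∀ r ∈ L a, ∃ j, fam j = a ∧ t j = r) (a : C) : mm hfin a = (L a).card := by
  classical
  refine Finset.card_bij (fun j _ => t j) (fun j hj => ?_) (fun j hj j' hj' e => ?_) fun r hr => ?_
  · rw [← (mem_sh hfin).1 hj]; exact ht j
  · exact hinj j j' (((mem_sh hfin).1 hj).trans ((mem_sh hfin).1 hj').symm) e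
  · obtain ⟨j, h1, h2⟩ := hsur a r hr
    exact ⟨j, (mem_sh hfin).2 h1, h2⟩

/-- **upper density of the nodes** (914's `hd`) -/
theorem NNt_dens {κc kap : C → ℕ} (hfin : ∀ a, {j | fam j = a}.Finite) (ht : ∀ j, t j ∈ L (fam j))
    (hinj : ∀ j j', fam j = fam j' → t j = t j' → j = j')
    (hsur : ∀ a, ∀ r ∈ L a, ∃ j, fam j = a ∧ t j = r) {κp : ℝ} (hκ : 0 ≤ κp) (a : C)
    (hd : ∀ u v : ℝ, u ≤ v →
      (((L a).filter fun t => u < t ∧ t < v).card : ℝ) ≤ (1 + κp) * (v - u) * (L a).card + 1)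
    {M : ℕ} (hM : 0 < M) {i k : ℕ} (hik : i ≤ k) :
    (NN fam κc kap (fun j => M * t j) a k : ℝ) - NN fam κc kap (fun j => M * t j) a i ≤
      (1 + κp) * (((k : ℝ) - i) / M * mm (fin_copies (Rk κc kap) hfin) a) + Rk κc kap a := by
  have hM' : (0 : ℝ) < M := by exact_mod_cast hM
  rw [NN_eq hfin, NN_eq hfin, SkB_662.mm_eq (Rk κc kap) hfin a, mm_card hfin ht hinj hsur a]
  have hR : (0 : ℝ) ≤ Rk κc kap a := Nat.cast_nonneg _
  have h1 := cnt_sub_le hfin ht hinj hM a i k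
  have h2 := dens_le hκ hd (u := (i : ℝ) / M) (v := (k : ℝ) / M)
    (div_le_div_of_nonneg_right (by exact_mod_cast hik) hM'.le)
  have h3 := mul_le_mul_of_nonneg_left (h1.trans h2) hR
  have e : (k : ℝ) / M - i / M = (k - i) / M := by ring
  rw [e] at h3
  rw [Nat.cast_mul, Nat.cast_mul, Nat.cast_mul, ← mul_sub]
  refine h3.trans (le_of_eq ?_)
  ring

/-- **the nodes of an exact core are close to the uniform nodes** -/
theorem nod_close {κc kap : C → ℕ} (hfin : ∀ a, {j | fam j = a}.Finite)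
    (ht : ∀ j, t j ∈ L (fam j)) (ht1 : ∀ j, 0 < t j ∧ t j ≤ 1)
    (hinj : ∀ j j', fam j = fam j' → t j = t j' → j = j')
    (hsur : ∀ a, ∀ r ∈ L a, ∃ j, fam j = a ∧ t j = r) {κp : ℝ} (hκ : 0 ≤ κp) (a : C)
    (hL : 0 < (L a).card)
    (hd : ∀ u v : ℝ, u ≤ v →
      (((L a).filter fun t => u < t ∧ t < v).card : ℝ) ≤ (1 + κp) * (v - u) * (L a).card + 1)
    {M : ℕ} (hM : 0 < M) {κf : ℝ} (hκf : κf ≤ 2) {n : C → ℕ → ℝ}
    (hn : Nod M (mm (fin_copies (Rk κc kap) hfin)) (NN fam κc kap (fun j => M * t j)) κf n)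
    {j : ℕ} (hj : j ≤ M) :
    |n a j / mm (fin_copies (Rk κc kap) hfin) a - (j : ℝ) / M| ≤ κp + 2 / (L a).card := by
  have hM' : (0 : ℝ) < M := by exact_mod_cast hM
  have hR : 0 < Rk κc kap a := Rk_pos κc kap a
  have hR1 : (1 : ℝ) ≤ Rk κc kap a := by exact_mod_cast hR
  have hm : mm (fin_copies (Rk κc kap) hfin) a = Rk κc kap a * (L a).card := by
    rw [SkB_662.mm_eq (Rk κc kap) hfin a, mm_card hfin ht hinj hsur a]
  have hm0 : 0 < mm (fin_copies (Rk κc kap) hfin) a := by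
    rw [hm]; exact Nat.mul_pos hR hL
  have h1 := Ncl_914.nodes_close (N := NN fam κc kap (fun j => M * t j) a) hM
    (NN_zero (fun j => mul_pos hM' (ht1 j).1) a)
    (NN_top (fun j => by nlinarith [(ht1 j).2]) a hfin) hκ
    (fun i k hik _ => NNt_dens hfin ht hinj hsur hκ a hd hM hik) hj
  have h2 := Ncl_914.nodes_close_real hM hm0 h1 (hn.near a j hj).le
  refine h2.trans ?_
  have hL' : (0 : ℝ) < (L a).card := by exact_mod_cast hL
  have hm0' : (0 : ℝ) < mm (fin_copies (Rk κc kap) hfin) a := by exact_mod_cast hm0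
  have h3 : ((Rk κc kap a : ℝ) + κf / 2) / mm (fin_copies (Rk κc kap) hfin) a ≤
      2 / (L a).card := by
    rw [div_le_div_iff₀ hm0' hL', hm, Nat.cast_mul]
    have : (Rk κc kap a : ℝ) + κf / 2 ≤ 2 * Rk κc kap a := by linarith
    nlinarith
  linarith

/-- **slope of the nodes** -/
theorem nod_step {κc kap : C → ℕ} (hfin : ∀ a, {j | fam j = a}.Finite)
    (ht : ∀ j, t j ∈ L (fam j))
    (hinj : ∀ j j', fam j = fam j' → t j = t j' → j = j')
    (hsur : ∀ a, ∀ r ∈ L a, ∃ j, fam j = a ∧ t j = r) {κp : ℝ} (hκ : 0 ≤ κp) (a : C)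
    (hd : ∀ u v : ℝ, u ≤ v →
      (((L a).filter fun t => u < t ∧ t < v).card : ℝ) ≤ (1 + κp) * (v - u) * (L a).card + 1)
    {M : ℕ} (hM : 0 < M) (hML : M ≤ (L a).card) {κf : ℝ} {n : C → ℕ → ℝ}
    (hn : Nod M (mm (fin_copies (Rk κc kap) hfin)) (NN fam κc kap (fun j => M * t j)) κf n)
    (i : ℕ) :
    n a (i + 1) - n a i ≤ (2 + κp) * mm (fin_copies (Rk κc kap) hfin) a / M := by
  have hM' : (0 : ℝ) < M := by exact_mod_cast hM
  have hm : mm (fin_copies (Rk κc kap) hfin) a = Rk κc kap a * (L a).card := by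
    rw [SkB_662.mm_eq (Rk κc kap) hfin a, mm_card hfin ht hinj hsur a]
  refine hn.step a i (2 + κp) (by linarith) ?_
  have h1 := NNt_dens (κc := κc) (kap := kap) hfin ht hinj hsur hκ a hd hM (Nat.le_succ i)
  refine h1.trans ?_
  have hR0 : (0 : ℝ) ≤ Rk κc kap a := Nat.cast_nonneg _
  have h2 : (Rk κc kap a : ℝ) ≤ (mm (fin_copies (Rk κc kap) hfin) a : ℝ) / M := by
    rw [le_div_iff₀ hM', hm, Nat.cast_mul]
    exact mul_le_mul_of_nonneg_left (by exact_mod_cast hML) hR0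
  have h3 : (((i + 1 : ℕ) : ℝ) - i) = 1 := by push_cast; ring
  rw [h3]
  have e : (2 + κp) * (mm (fin_copies (Rk κc kap) hfin) a : ℝ) / M =
      (1 + κp) * (1 / M * mm (fin_copies (Rk κc kap) hfin) a) +
        (mm (fin_copies (Rk κc kap) hfin) a : ℝ) / M := by
    field_simp
    ring
  rw [e]
  linarith

end cnt

end Crest.Agent.R096.Ecm_446
end

-- ▼ part R096/Onb3_63

/-!
# R096 (row 96), bottom: 446's `CoresR` (all exact cores) from 337's seam (helper63)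

* `core_disj` : the tiles of the exact cores are disjoint;
* `exists_nodF` : nodes of every exact core from `Levels`;
* `nodeOK_of_nod` : 609's `NodeOK` for the same nodes;
* **`Front.coresR`** : `Lay` + `Cores` + `Words` + `Levels` + `Front` ⟹ `∃ n, CoresR ..` over `Lp`;
* **`Front.coresR_nodeOK`** : the same with `NodeOK` for the same nodes.
-/

set_option autoImplicit false
set_option linter.unusedSectionVars false
set_option linter.unusedVariables false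
set_option linter.style.longLine false

open Set Relation Module

namespace Crest.Agent.R096.Onb_63

open Crest.Agent.R096.Brk1_582 Crest.Agent.R096.Brk2_582 Crest.Agent.R096.Brk3_582
open Crest.Agent.R096.Brk5_582 Crest.Agent.R096.Bsp_628
open Crest.Agent.R096.St_147 Crest.Agent.R096.Seq_213 Crest.Agent.R096.Seq_213.GSt
open Crest.Agent.R096.Lm_117 Crest.Agent.R096.Ac_117 Crest.Agent.R096.Msh_715
open Crest.Agent.R096.Cp_298 Crest.Agent.R096.Gm_298 Crest.Agent.R096.Gl_422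
open Crest.Agent.R096.SkB_662 Crest.Agent.R096.Cpo_642 Crest.Agent.R096.Mg_441
open Crest.Agent.R096.Agl5_543 Crest.Agent.R096.Ori_543
open Crest.Agent.R096.Init_543 (JJ fr3)
open Crest.Agent.R096.SkC1_961 (E3 Hom3 FoamD Cfg th)
open Crest.Agent.R096.Mbf_337 (KJ sb Cores Words Exact Levels)
open Crest.Agent.R096.Frn_337 Crest.Agent.R096.Ecm_446

variable {δ κ0 R c0 : ℝ} {La Om : Set E3} {ι : Type}
variable {Φ : FoamD δ κ0 R c0 La} {T : Tiling Om ι} {f : E3 → E3} {κ1 κ2 : ℝ} {X : Set Φ.F}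
  {J0 Jt V : Φ.F → Set ι} {ct : Φ.F → ι} {A : Φ.F → E3 ≃ᵃ[ℝ] E3} {lam : Φ.F → ℝ} {z : Φ.F → E3}
  {θ : Φ.F → E3 → E3} {φ : Φ.F → E3 → ℝ}
  {ι3 : Type} {T3 : Tiling Om ι3} {KK : Ti X → Set E3} {c3 : ι → ι3}
  {M : Φ.F → ℕ} {L : Φ.F → Finset ℝ} {κp μ κ3 : ℝ} {Zl : Φ.F → Set ℝ} {m0 κc : Φ.F → ℕ}

/-- the tiles of the exact cores are disjoint -/
theorem core_disj (hLa : IsOpen La) (hC : Cores Φ T f κ1 κ2 X J0 Jt V ct A lam z θ φ) {c c' : Φ.F}
    (hc : c ∈ X) (hc' : c' ∈ X) (hne : c ≠ c') : Disjoint (P (T.H (ct c))) (P (T.H (ct c'))) := by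
  rw [Set.disjoint_left]
  intro x hx hx'
  have h1 := (hC.exact_ c hc).inside x hx
  have h2 := (hC.exact_ c' hc').inside x hx'
  exact hne (Exa_560.only_brick hLa (c := c) (d := c') h1
    ⟨fun k => (h2 k).1.le, fun k => (h2 k).2.le⟩).symm

/-- every brick has a sheet -/
theorem lv_pos (hLv : Levels Φ T f κp μ κ3 Zl m0 κc L) (a : Φ.F) : 0 < (L a).card := by
  rcases Nat.eq_zero_or_pos (L a).card with h0 | h0
  · exfalso
    have h1 := hLv.many a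
    rw [h0] at h1
    have h2 : 0 < a.1.sz := Bx.sz_pos (Φ.bf.pos _ a.2)
    simp at h1
    linarith
  · exact h0

theorem ex_sheet (hLv : Levels Φ T f κp μ κ3 Zl m0 κc L) (a : Φ.F) : ∃ j : JJ Φ L, j.1 = a := by
  obtain ⟨t, ht⟩ := Finset.card_pos.1 (lv_pos hLv a)
  exact ⟨⟨a, t, ht⟩, rfl⟩

/-- the levels are in `(0, 1]` -/
theorem lv_mem (hLv : Levels Φ T f κp μ κ3 Zl m0 κc L) (hμ : 0 < μ) (j : JJ Φ L) :
    0 < j.2.1 ∧ j.2.1 ≤ 1 := by
  have h1 := hLv.marg j.1 j.2.1 j.2.2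
  exact ⟨hμ.trans_le h1.1, by linarith [h1.2]⟩

/-- **nodes** of one exact core -/
theorem exists_nodF (hLv : Levels Φ T f κp μ κ3 Zl m0 κc L) (hμ : 0 < μ)
    (hfin : ∀ a, {j : JJ Φ L | j.1 = a}.Finite) (kap : Φ.F → ℕ) {κf : ℝ} (hκf : 0 < κf) {N : ℕ}
    (hN : 0 < N) : ∃ n, Nod N (mm (fin_copies (Rk κc kap) hfin))
      (NNt (fun j : JJ Φ L => j.1) κc kap (fun j => j.2.1) N) κf n := by
  have hN' : (0 : ℝ) < N := by exact_mod_cast hN
  refine exists_nod hκf hN (fun a => ?_) (fun a => NN_mono hfin a)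
    (fun a => NN_zero (fun j => mul_pos hN' (lv_mem hLv hμ j).1) a)
    (fun a => NN_top (fun j => by nlinarith [(lv_mem hLv hμ j).2]) a hfin)
  rw [SkB_662.mm_eq (Rk κc kap) hfin a]
  refine Nat.mul_pos (Rk_pos κc kap a) ?_
  obtain ⟨j, hj⟩ := ex_sheet hLv a
  exact Finset.card_pos.2 ⟨j, (mem_sh hfin).2 hj⟩

/-- **609's `NodeOK` for 446's nodes** -/
theorem nodeOK_of_nod (hLv : Levels Φ T f κp μ κ3 Zl m0 κc L) (hμ : 0 < μ) (hκp : 0 ≤ κp) {s : ℝ}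
    (hs : 0 < s) (hs1 : s < 1) (hκs : κp ≤ s / 4) {c : Φ.F} {N : ℕ} (hN : 0 < N)
    (hm0 : ∀ a, (Pc Φ.F a ∩ Pc Φ.F c).Nonempty → N ≤ m0 a ∧ 8 / s ≤ m0 a)
    (hfin : ∀ a, {j : JJ Φ L | j.1 = a}.Finite) {kap : Φ.F → ℕ} {κf : ℝ} (hκf : κf ≤ 2)
    {n : Φ.F → ℕ → ℝ} (hn : Nod N (mm (fin_copies (Rk κc kap) hfin))
      (NNt (fun j : JJ Φ L => j.1) κc kap (fun j => j.2.1) N) κf n) :
    Crb_609.NodeOK Φ (mm (fin_copies (Rk κc kap) hfin)) s c N n where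
  M0 := hN
  sm := hn.mono
  z0 := hn.zero
  nm := hn.top
  near := by
    intro a ha
    obtain ⟨h1, h2⟩ := hm0 a ha
    have hN' : (0 : ℝ) < N := by exact_mod_cast hN
    have hcard : (m0 a : ℝ) ≤ (L a).card := by exact_mod_cast hLv.large a
    have hN1 : N ≤ (L a).card := h1.trans (hLv.large a)
    have hpos : 0 < (L a).card := lv_pos hLv a
    have h8 : 8 / s ≤ (L a).card := h2.trans hcard
    have h8' : 8 ≤ s * (L a).card := by rwa [div_le_iff₀ hs, mul_comm] at h8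
    have hpos' : (0 : ℝ) < (L a).card := by exact_mod_cast hpos
    have hR1 : (1 : ℝ) ≤ Rk κc kap a := by exact_mod_cast Rk_pos κc kap a
    have hinj : ∀ j j' : JJ Φ L, j.1 = j'.1 → j.2.1 = j'.2.1 → j = j' := jj_inj
    have hsur : ∀ a, ∀ r ∈ L a, ∃ j : JJ Φ L, j.1 = a ∧ j.2.1 = r := fun a r hr =>
      ⟨⟨a, r, hr⟩, rfl, rfl⟩
    have hm : (mm (fin_copies (Rk κc kap) hfin) a : ℝ) = Rk κc kap a * (L a).card := by
      rw [SkB_662.mm_eq (Rk κc kap) hfin a, mm_card hfin (fun j => j.2.2) hinj hsur a]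
      push_cast
      ring
    have hmL : ((L a).card : ℝ) ≤ mm (fin_copies (Rk κc kap) hfin) a := by
      rw [hm]; nlinarith
    refine ⟨fun i _ => ?_, fun j hj => ?_, ?_⟩
    · have h5 := nod_step (κc := κc) (kap := kap) hfin (fun j : JJ Φ L => j.2.2) hinj hsur hκp a
        (hLv.dens a) hN hN1 hn i
      refine h5.trans ?_
      rw [div_le_div_iff_of_pos_right hN']
      have : (2 + κp) ≤ 4 := by linarith
      have h6 : (0 : ℝ) ≤ mm (fin_copies (Rk κc kap) hfin) a := Nat.cast_nonneg _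
      exact mul_le_mul_of_nonneg_right this h6
    · have h5 := nod_close (κc := κc) (kap := kap) hfin (fun j : JJ Φ L => j.2.2)
        (fun j => lv_mem hLv hμ j) hinj hsur hκp a hpos (hLv.dens a) hN hκf hn hj
      refine h5.trans ?_
      have h6 : 2 / ((L a).card : ℝ) ≤ s / 4 := by
        rw [div_le_iff₀ hpos']; linarith
      linarith
    · have h6 := mul_le_mul_of_nonneg_left hmL (by linarith : (0 : ℝ) ≤ s / 2)
      linarith

section front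

variable [Nonempty T3.Cell] {hH : ∀ k, CoreH T3 (KK k)}
    {hdis : ∀ k k', k ≠ k' → Disjoint (KK k) (KK k')} {hne : ∃ c, OutK T3 KK c}
    {Qd : Quads (ι3 ⊕ Ti X) Φ.F (Init_543.QK (Pc Φ.F))}
    {s₀ : GSt (mK fr3 hH hdis) (fun j : JJ Φ L => j.1)} {far₀ : JJ Φ L → Set E3}
    {Gc : Φ.F → Set E3} {Zc : Φ.F → Set (QK (belK T3 KK))}
    {lam₀ : JJ Φ L → QK (belK T3 KK) → ZMod 2} {v₀ v₁ : Φ.F → QK (belK T3 KK)}

/-- 446's `CoresR` for given nodes -/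
theorem Front.coresR_nod (hLa : IsOpen La) (hL : Lay Φ T X J0 Jt T3 KK c3)
    (hC : Cores Φ T f κ1 κ2 X J0 Jt V ct A lam z θ φ) (hW : Words Φ T f X ct A lam z M L)
    (h : Front T f J0 Jt V ct c3 hH hdis hne Qd s₀ far₀ Gc Zc lam₀ v₀ v₁)
    (hfin : ∀ a, {j : JJ Φ L | j.1 = a}.Finite) {kap : Φ.F → ℕ} {κf : ℝ}
    {n : Φ.F → Φ.F → ℕ → ℝ}
    (hn : ∀ c ∈ X, Nod (M c) (mm (fin_copies (Rk κc kap) hfin))
      (NNt (fun j : JJ Φ L => j.1) κc kap (fun j => j.2.1) (M c)) κf (n c)) :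
    CoresR Φ T3 f κ1 κ2 (Lp c3 ct hH hdis hne) (kp T3 KK c3 ct) Qd κc s₀
      (fun a => {v | v.1 ∈ Zc a}) (fun j v => lam₀ j v.1)
      (fun a => sv (pO T3 KK c3 ct) (pO_ne hne) (v₀ a)) kap X (fun c => c3 (ct c)) A lam z M
      (fun j => j.2.1) κf n hfin where
  ex := fun c hc => exact3 hL hC hc
  gr := fun c hc => grid3 hL hC hW hc
  wd := fun c hc => cw3 hL hC hW hc
  st := fun c hc => Front.coreS hL hC h hc
  nd := hn
  disj := by
    intro c hc c' hc' hcc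
    show Disjoint (P (T3.H (c3 (ct c)))) (P (T3.H (c3 (ct c'))))
    rw [keep_ct hL hC hc, keep_ct hL hC hc']
    exact core_disj hLa hC hc hc' hcc

open Classical in
/-- **all exact cores of the seam** -/
theorem Front.coresR (hLa : IsOpen La) (hL : Lay Φ T X J0 Jt T3 KK c3)
    (hC : Cores Φ T f κ1 κ2 X J0 Jt V ct A lam z θ φ) (hW : Words Φ T f X ct A lam z M L)
    (hLv : Levels Φ T f κp μ κ3 Zl m0 κc L) (hμ : 0 < μ)
    (h : Front T f J0 Jt V ct c3 hH hdis hne Qd s₀ far₀ Gc Zc lam₀ v₀ v₁)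
    (hfin : ∀ a, {j : JJ Φ L | j.1 = a}.Finite) (kap : Φ.F → ℕ) {κf : ℝ} (hκf : 0 < κf) :
    ∃ n : Φ.F → Φ.F → ℕ → ℝ,
      CoresR Φ T3 f κ1 κ2 (Lp c3 ct hH hdis hne) (kp T3 KK c3 ct) Qd κc s₀
        (fun a => {v | v.1 ∈ Zc a}) (fun j v => lam₀ j v.1)
        (fun a => sv (pO T3 KK c3 ct) (pO_ne hne) (v₀ a)) kap X (fun c => c3 (ct c)) A lam z M
        (fun j => j.2.1) κf n hfin := by
  have h1 : ∀ c : Φ.F, ∃ n : Φ.F → ℕ → ℝ, c ∈ X → Nod (M c) (mm (fin_copies (Rk κc kap) hfin))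
      (NNt (fun j : JJ Φ L => j.1) κc kap (fun j => j.2.1) (M c)) κf n := by
    intro c
    by_cases hc : c ∈ X
    · obtain ⟨n, hn⟩ := exists_nodF hLv hμ hfin kap hκf (hW.grid c hc).1
      exact ⟨n, fun _ => hn⟩
    · exact ⟨fun _ _ => 0, fun h => absurd h hc⟩
  choose n hn using h1
  exact ⟨n, Front.coresR_nod hLa hL hC hW h hfin hn⟩

/-- **all exact cores of the seam, with 609's `NodeOK` for the same nodes** -/
theorem Front.coresR_nodeOK (hLa : IsOpen La) (hL : Lay Φ T X J0 Jt T3 KK c3)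
    (hC : Cores Φ T f κ1 κ2 X J0 Jt V ct A lam z θ φ) (hW : Words Φ T f X ct A lam z M L)
    (hLv : Levels Φ T f κp μ κ3 Zl m0 κc L) (hμ : 0 < μ)
    (h : Front T f J0 Jt V ct c3 hH hdis hne Qd s₀ far₀ Gc Zc lam₀ v₀ v₁)
    (hfin : ∀ a, {j : JJ Φ L | j.1 = a}.Finite) (kap : Φ.F → ℕ) {κf : ℝ} (hκf : 0 < κf)
    (hκf2 : κf ≤ 2) (hκp : 0 ≤ κp) {s : ℝ} (hs : 0 < s) (hs1 : s < 1) (hκs : κp ≤ s / 4)
    (hm0 : ∀ c ∈ X, ∀ a, (Pc Φ.F a ∩ Pc Φ.F c).Nonempty → M c ≤ m0 a ∧ 8 / s ≤ m0 a) :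
    ∃ n : Φ.F → Φ.F → ℕ → ℝ,
      CoresR Φ T3 f κ1 κ2 (Lp c3 ct hH hdis hne) (kp T3 KK c3 ct) Qd κc s₀
        (fun a => {v | v.1 ∈ Zc a}) (fun j v => lam₀ j v.1)
        (fun a => sv (pO T3 KK c3 ct) (pO_ne hne) (v₀ a)) kap X (fun c => c3 (ct c)) A lam z M
        (fun j => j.2.1) κf n hfin ∧
      ∀ c ∈ X, Crb_609.NodeOK Φ (mm (fin_copies (Rk κc kap) hfin)) s c (M c) (n c) := by
  obtain ⟨n, hn⟩ := Front.coresR hLa hL hC hW hLv hμ h hfin kap hκf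
  exact ⟨n, hn, fun c hc => nodeOK_of_nod hLv hμ hκp hs hs1 hκs (hW.grid c hc).1 (hm0 c hc) hfin
    hκf2 (hn.nd c hc)⟩

end front

end Crest.Agent.R096.Onb_63
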