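import Crest.Agent.R096.Cp11_298
import Crest.Agent.R096.Mrg2_715

-- ▼ part R096/Cp12_298
section

/-!
# R096 / COPY, part 12 (helper298): orientation data and parallel points of merged meshes

`Ori.merge` : an orientation of `M` with opposite signs at the two sides of every face gives an
orientation of 715's merged mesh `mergeC M π h`.  `hasParC` : parallel points.
-/

set_option autoImplicit false

open Set
open scoped Classical

namespace Crest.Agent.R096.Cp_298
open Crest.Agent.R096.St_147 Crest.Agent.R096.Msh_715 Crest.Agent.R096.Seq_213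
  Crest.Agent.R096.Seq_213.GSt

section merge

variable {ι ι' Φ W : Type} {M : MeshC ι Φ W}

/-- opposite signs at the two sides of a face -/
def Ori.Opp (O : Ori M) : Prop :=
  ∀ {F q q'}, q ∈ M.side F → q' ∈ M.side F → q ≠ q' → O.eps q F + O.eps q' F = 1

/-- **orientation along the boundary of a locally connected set of cells** -/
theorem Ori.comp_merge {O : Ori M} (opp : O.Opp) {A : Set ι} {w : W} (h : ConnAt M A w)
    {F F' : Φ} {q q' : ι} (hw : w ∈ M.On F) (hw' : w ∈ M.On F') (hq : q ∈ M.side F) (hqA : q ∈ A)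
    (hb : ∃ k ∈ M.side F, k ∉ A) (hq' : q' ∈ M.side F') (hqA' : q' ∈ A)
    (hb' : ∃ k ∈ M.side F', k ∉ A) (hne : F ≠ F') :
    O.eps q F + O.dir F w + (O.eps q' F' + O.dir F' w) = 1 := by
  set V : Finset ι := (finite_cellsAt M A w).toFinset with hV
  set EI : Finset Φ := (finite_innAt M A w).toFinset with hEI
  set EB : Finset Φ := (finite_bdAt M A w).toFinset with hEB
  have hVm : ∀ q, q ∈ V ↔ q ∈ A ∧ ∃ F, w ∈ M.On F ∧ q ∈ M.side F := fun q => by
    rw [hV, Set.Finite.mem_toFinset]; rfl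
  have hIm : ∀ F, F ∈ EI ↔ w ∈ M.On F ∧ ∀ q ∈ M.side F, q ∈ A := fun F => by
    rw [hEI, Set.Finite.mem_toFinset]; rfl
  have hBm : ∀ F, F ∈ EB ↔ w ∈ M.On F ∧ (∃ q ∈ M.side F, q ∈ A) ∧ ∃ q ∈ M.side F, q ∉ A :=
    fun F => by rw [hEB, Set.Finite.mem_toFinset]; rfl
  have hs := handshake M A w
  rw [Set.ncard_eq_toFinset_card _ (finite_cellsAt M A w),
    Set.ncard_eq_toFinset_card _ (finite_innAt M A w)] at hs
  have hFB : F ∈ EB := (hBm F).2 ⟨hw, ⟨q, hq, hqA⟩, hb⟩
  have hFB' : F' ∈ EB := (hBm F').2 ⟨hw', ⟨q', hq', hqA'⟩, hb'⟩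
  have hbd : (bdAt M A w).ncard = 2 := by
    rcases ncard_bd h with h0 | h0
    · exfalso
      rw [Set.ncard_eq_toFinset_card _ (finite_bdAt M A w), ← hEB, Finset.card_eq_zero] at h0
      rw [h0] at hFB
      exact absurd hFB (Finset.notMem_empty _)
    · exact h0
  rw [hbd, ← hV, ← hEI] at hs
  have hcard : V.card = EI.card + 1 := by omega
  have hEB2 : EB = {F, F'} := by
    symm
    apply Finset.eq_of_subset_of_card_le
    · intro G hG
      rcases Finset.mem_insert.1 hG with rfl | hG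
      · exact hFB
      · rw [Finset.mem_singleton.1 hG]; exact hFB'
    · rw [Finset.card_pair hne]
      rw [Set.ncard_eq_toFinset_card _ (finite_bdAt M A w), ← hEB] at hbd
      exact hbd.le
  -- the function which is counted
  let τ : ι → Φ → ZMod 2 := fun q G => O.eps q G + O.dir G w
  have hdisj : Disjoint EI EB := by
    rw [Finset.disjoint_left]
    intro F h1 h2
    obtain ⟨q, hq, hqA⟩ := ((hBm F).1 h2).2.2
    exact hqA (((hIm F).1 h1).2 q hq)
  have hcell : ∀ k ∈ V, ∑ G ∈ (EI ∪ EB).filter (fun G => k ∈ M.side G), τ k G = 1 := by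
    intro k hk
    obtain ⟨hkA, F0, hF0, hk0⟩ := (hVm k).1 hk
    obtain ⟨F1, hne1, hk1, hw1, huniq⟩ := exists_other M hk0 hF0
    have hmem : ∀ G, w ∈ M.On G → k ∈ M.side G → G ∈ EI ∪ EB := by
      intro G hG hkG
      rw [Finset.mem_union, hIm, hBm]
      by_cases h3 : ∀ q ∈ M.side G, q ∈ A
      · exact Or.inl ⟨hG, h3⟩
      · push Not at h3
        obtain ⟨r, hr, hrA⟩ := h3
        exact Or.inr ⟨hG, ⟨k, hkG, hkA⟩, r, hr, hrA⟩
    have hon : ∀ G ∈ EI ∪ EB, w ∈ M.On G := by
      intro G hG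
      rcases Finset.mem_union.1 hG with h1 | h1
      · exact ((hIm G).1 h1).1
      · exact ((hBm G).1 h1).1
    have hset : (EI ∪ EB).filter (fun G => k ∈ M.side G) = {F0, F1} := by
      ext G
      rw [Finset.mem_filter, Finset.mem_insert, Finset.mem_singleton]
      constructor
      · rintro ⟨h1, h2⟩
        exact huniq G h2 (hon G h1)
      · rintro (rfl | rfl)
        · exact ⟨hmem _ hF0 hk0, hk0⟩
        · exact ⟨hmem _ hw1 hk1, hk1⟩
    rw [hset, Finset.sum_pair hne1.symm]
    exact O.comp hk0 hk1 hF0 hw1 hne1.symm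
  have hI1 : ∀ G ∈ EI, ∑ k ∈ V.filter (fun k => k ∈ M.side G), τ k G = 1 := by
    intro G hG
    obtain ⟨h1, h2⟩ := (hIm G).1 hG
    have hnd := M.side_nd G
    obtain ⟨⟨x, y⟩, hxy⟩ := Quot.exists_rep (M.side G)
    have hxy' : M.side G = s(x, y) := hxy.symm
    have hxne : x ≠ y := by
      intro h; rw [hxy', h] at hnd; exact hnd (Sym2.mk_isDiag_iff.2 rfl)
    have : (V.filter fun q => q ∈ M.side G) = {x, y} := by
      ext q
      simp only [Finset.mem_filter, hVm, Finset.mem_insert, Finset.mem_singleton]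
      constructor
      · rintro ⟨_, h3⟩; rw [hxy'] at h3; exact Sym2.mem_iff.1 h3
      · intro h3
        have h4 : q ∈ M.side G := by rw [hxy']; exact Sym2.mem_iff.2 h3
        exact ⟨⟨h2 q h4, G, h1, h4⟩, h4⟩
    rw [this, Finset.sum_pair hxne]
    have hx : x ∈ M.side G := by rw [hxy']; exact Sym2.mem_iff.2 (Or.inl rfl)
    have hy : y ∈ M.side G := by rw [hxy']; exact Sym2.mem_iff.2 (Or.inr rfl)
    have h5 := opp hx hy hxne
    have e : ∀ a b c : ZMod 2, a + b = 1 → a + c + (b + c) = 1 := by decide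
    exact e _ _ _ h5
  have hB1 : ∀ G ∈ EB, ∀ r, r ∈ M.side G → r ∈ A →
      ∑ k ∈ V.filter (fun k => k ∈ M.side G), τ k G = τ r G := by
    intro G hG r hr hrA
    obtain ⟨h1, -, k, hk, hkA⟩ := (hBm G).1 hG
    have hrk : r ≠ k := fun h => hkA (h ▸ hrA)
    have hs' : M.side G = s(r, k) := ((Sym2.mem_and_mem_iff hrk).1 ⟨hr, hk⟩)
    have : (V.filter fun q => q ∈ M.side G) = {r} := by
      ext x
      simp only [Finset.mem_filter, hVm, Finset.mem_singleton]
      constructor
      · rintro ⟨⟨hxA, _⟩, h3⟩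
        rw [hs'] at h3
        rcases Sym2.mem_iff.1 h3 with h4 | h4
        · exact h4
        · rw [h4] at hxA; exact absurd hxA hkA
      · rintro rfl
        exact ⟨⟨hrA, G, h1, hr⟩, hr⟩
    rw [this, Finset.sum_singleton]
  have hdc : ∑ k ∈ V, ∑ G ∈ (EI ∪ EB).filter (fun G => k ∈ M.side G), τ k G =
      ∑ G ∈ EI ∪ EB, ∑ k ∈ V.filter (fun k => k ∈ M.side G), τ k G := by
    simp only [Finset.sum_filter]
    exact Finset.sum_comm
  rw [Finset.sum_congr rfl hcell, Finset.sum_union hdisj, Finset.sum_congr rfl hI1, hEB2,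
    Finset.sum_pair hne, hB1 F hFB q hq hqA, hB1 F' hFB' q' hq' hqA'] at hdc
  simp only [Finset.sum_const, nsmul_eq_mul, mul_one, hcard, Nat.cast_add, Nat.cast_one] at hdc
  exact (add_left_cancel hdc).symm

variable (π : ι → ι') (hc : ∀ k w, ConnAt M (π ⁻¹' {k}) w)

/-- the sign of a merged cell at a face -/
noncomputable def epsm (O : Ori M) (k : ι') (F : Φ) : ZMod 2 :=
  if h : ∃ q, q ∈ M.side F ∧ π q = k then O.eps h.choose F else 0

theorem epsm_spec (O : Ori M) {k : ι'} {F : Φ} (h : k ∈ (M.side F).map π) :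
    ∃ q ∈ M.side F, π q = k ∧ epsm π O k F = O.eps q F := by
  have h' : ∃ q, q ∈ M.side F ∧ π q = k := by
    obtain ⟨q, h1, h2⟩ := mem_map_iff.1 h
    exact ⟨q, h1, h2⟩
  refine ⟨h'.choose, h'.choose_spec.1, h'.choose_spec.2, ?_⟩
  unfold epsm
  rw [dif_pos h']

/-- **the orientation of the merged mesh** -/
noncomputable def Ori.merge (O : Ori M) (opp : O.Opp) : Ori (mergeC M π hc) where
  dir := fun F w => O.dir F.1 w
  eps := fun k F => epsm π O k F.1
  comp := by
    intro k F F' w hk hk' hw hw' hne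
    obtain ⟨q, h1, h2, h3⟩ := epsm_spec π O hk
    obtain ⟨q', h1', h2', h3'⟩ := epsm_spec π O hk'
    have hbd : ∀ (G : {F : Φ // ¬ ((M.side F).map π).IsDiag}), ∃ r ∈ M.side G.1,
        r ∉ π ⁻¹' {k} := by
      intro G
      have h5 := G.2
      rw [map_isDiag_iff] at h5
      push Not at h5
      obtain ⟨x, hx, y, hy, hxy⟩ := h5
      by_cases hxk : π x = k
      · exact ⟨y, hy, fun h => hxy (hxk.trans h.symm)⟩
      · exact ⟨x, hx, hxk⟩
    rw [h3, h3']
    exact Ori.comp_merge opp (hc k w) hw hw' h1 h2 (hbd F) h1' h2' (hbd F')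
      (fun h => hne (Subtype.ext h))


/-- parallel points of the merged mesh -/
def Par.merge {O : Ori M} (opp : O.Opp) {P : Set W} {n : W → ℕ} {R : W → W → Prop}
    (p : Par M O P n R) : Par (mergeC M π hc) (O.merge π hc opp) P n R where
  c := p.c
  on := fun F hw hk => p.on F.1 hw hk
  inj := p.inj
  sep := fun {F} => p.sep (F := F.1)
  up := fun {F} => p.up (F := F.1)
  down := fun {F} => p.down (F := F.1)
  dir := fun {F} => p.dir (F := F.1)
  rel := p.rel

end merge

end Crest.Agent.R096.Cp_298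
end

-- ▼ part R096/Cp13_298

/-!
# R096 / COPY, part 13 (helper298): the weighted sequence for merged meshes of tilings

`oriM_opp` : opposite signs at the two sides of a 2-cell.  `hasParC` : the hypothesis of `wseq` for
`mergeC (meshC T h3) π h` (715; `meshK` is an instance).
-/

set_option autoImplicit false

open Set Filter Topology Metric

namespace Crest.Agent.R096.Cp_298
open Crest.Agent.R096.Msh_715 Crest.Agent.R096.Agl5_543 Crest.Agent.R096.St_147
  Crest.Agent.R096.Agl1_543 Crest.Agent.R096.Agl2_543 Crest.Agent.R096.Agl3_543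
  Crest.Agent.R096.Ori_543 Crest.Agent.R096.Seq_213 Crest.Agent.R096.Seq_213.GSt
open scoped ENNReal

variable {E : Type} [NormedAddCommGroup E] [NormedSpace ℝ E] [FiniteDimensional ℝ E]
variable {Om : Set E} {ι : Type} {T : Tiling Om ι}

/-! ### the two sides of a 2-cell -/


theorem epsR_ne (h3 : Module.finrank ℝ E = 3) {F : C2 T} {q : ι} (hq : q ∈ F.side h3) :
    epsR h3 q F ≠ 0 := by
  intro h0
  obtain ⟨s, t, r, hne, hrel⟩ := exists_rel h3 h0
  obtain ⟨h, hh, he⟩ := exists_act h3 hq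
  have hq' : q ∈ T.at_ F.pt := C2.mem_side.1 hq
  have hpt : h.1 F.pt = h.2 := he _ (by rw [F.set_eq]; exact T.self_mem_cc _)
  have hV : ∀ v : T.V F.pt, h.1 (v : E) = 0 := fun v => v.2 q hq' h hh hpt
  have h4 := congrArg h.1 hrel
  rw [map_add, map_add, map_smul, map_smul, map_smul, hV, hV, map_zero] at h4
  simp only [smul_eq_mul, mul_zero, zero_add] at h4
  have e3 : 0 < h.1 (F.pt - cen T q) := by
    rw [map_sub, hpt]
    have := cen_mem T q h hh
    linarith
  have hr : r = 0 := by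
    rcases mul_eq_zero.1 h4 with h5 | h5
    · exact h5
    · exact absurd h5 e3.ne'
  rw [hr, zero_smul, add_zero] at hrel
  have h5 : F.lin (s • (1 : ℂ) + t • Complex.I) = 0 := by
    apply Subtype.ext
    rw [map_add, map_smul, map_smul]
    exact hrel
  have h6 : s • (1 : ℂ) + t • Complex.I = 0 := by
    have := F.lin.injective (h5.trans (map_zero _).symm)
    exact this
  have h7 := congrArg Complex.re h6
  have h8 := congrArg Complex.im h6
  simp at h7 h8
  rcases hne with h9 | h9 | h9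
  · exact h9 h7
  · exact h9 h8
  · exact h9 hr

/-- **the two tiles of a 2-cell have opposite signs** -/
theorem epsR_mul_neg (h3 : Module.finrank ℝ E = 3) {F : C2 T} {q q' : ι} (hq : q ∈ F.side h3)
    (hq' : q' ∈ F.side h3) (hne : q ≠ q') : epsR h3 q F * epsR h3 q' F < 0 := by
  by_contra hcon
  push Not at hcon
  have hD := epsR_ne h3 hq
  have hD' := epsR_ne h3 hq'
  have hqa : q ∈ T.at_ F.pt := C2.mem_side.1 hq
  have hqa' : q' ∈ T.at_ F.pt := C2.mem_side.1 hq'
  set D := epsR h3 q F with hDdef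
  set D' := epsR h3 q' F with hDdef'
  have hcr := cramer h3 ((F.lin 1 : T.V F.pt) : E) ((F.lin Complex.I : T.V F.pt) : E)
    (F.pt - cen T q) (F.pt - cen T q')
  -- the direction towards the centre of `q'`
  obtain ⟨g, m, hg, hm, hexp⟩ : ∃ (g : E) (m : ℝ), g ∈ T.V F.pt ∧ 0 < m ∧
      F.pt - cen T q' = g + m • (F.pt - cen T q) := by
    refine ⟨D⁻¹ • (vol h3 (F.pt - cen T q') ((F.lin Complex.I : T.V F.pt) : E)
        (F.pt - cen T q) • ((F.lin 1 : T.V F.pt) : E) +
        vol h3 ((F.lin 1 : T.V F.pt) : E) (F.pt - cen T q') (F.pt - cen T q) •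
        ((F.lin Complex.I : T.V F.pt) : E)), D' / D, ?_, ?_, ?_⟩
    · exact (T.V F.pt).smul_mem _ ((T.V F.pt).add_mem ((T.V F.pt).smul_mem _ (F.lin 1).2)
        ((T.V F.pt).smul_mem _ (F.lin Complex.I).2))
    · have h1 : 0 < D * D' := lt_of_le_of_ne hcon (Ne.symm (mul_ne_zero hD hD'))
      rcases mul_pos_iff.1 h1 with ⟨h2, h4⟩ | ⟨h2, h4⟩
      · exact div_pos h4 h2
      · exact div_pos_of_neg_of_neg h4 h2
    · have h1 : F.pt - cen T q' = D⁻¹ • (D • (F.pt - cen T q')) := by
        rw [smul_smul, inv_mul_cancel₀ hD, one_smul]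
      refine h1.trans ?_
      have h2 : D • (F.pt - cen T q') = _ := hcr
      rw [h2, smul_add, div_eq_inv_mul]
      congr 1
      rw [smul_smul]
      rfl
  -- both tiles contain points in the direction of the centre of `q'`
  have h1 : ∀ᶠ s in 𝓝[>] (0 : ℝ), F.pt + s • (cen T q' - F.pt) ∈ Msh_715.P (T.H q) := by
    refine mem_P_small hqa fun h hh he => ?_
    have e1 : cen T q' - F.pt = -(g + m • (F.pt - cen T q)) := by rw [← hexp]; abel
    have e2 : h.1 g = 0 := hg q hqa h hh he
    rw [e1, map_neg, map_add, map_smul, e2, zero_add, smul_eq_mul, map_sub, he]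
    have h4 := cen_mem T q h hh
    have h5 : 0 < m * (h.2 - h.1 (cen T q)) := mul_pos hm (by linarith)
    linarith
  have h2 : ∀ᶠ s in 𝓝[>] (0 : ℝ), s < 1 :=
    (gt_mem_nhds (zero_lt_one' ℝ)).filter_mono nhdsWithin_le_nhds
  obtain ⟨s, ⟨hs1, hs2⟩, hs3⟩ := ((h1.and h2).and self_mem_nhdsWithin).exists
  have h4 := mem_I_of_move hqa' (cen_mem T q') hs3 hs2.le
  exact Set.disjoint_left.1 (disjoint_P_I (T.ne q) (T.dis q q' hne)) hs1 h4

theorem oriM_opp (h3 : Module.finrank ℝ E = 3) : (oriM (T := T) h3).Opp := by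
  classical
  intro F q q' hq hq' hne
  have h := epsR_mul_neg h3 hq hq' hne
  show epsZ h3 q F + epsZ h3 q' F = 1
  unfold epsZ
  rcases mul_neg_iff.1 h with ⟨h1, h2⟩ | ⟨h1, h2⟩
  · rw [if_pos h1, if_neg (not_lt.2 h2.le)]; decide
  · rw [if_neg (not_lt.2 h1.le), if_pos h2]; decide

/-! ### parallel points -/

/-- the radius of a point (543's `exists_rad` with local finiteness on the edge only) -/
theorem exists_rad1 {P : Set E} {δ : E → ℝ} {w : E} (hP : (P ∩ T.oc w).Finite)
    (hδ : ∀ w, 0 < δ w) (hw : w ∈ Om) :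
    ∃ τ > 0, (∀ v ∈ T.V w, ‖v‖ < τ → w + v ∈ T.oc w) ∧ τ ≤ δ w ∧
      ∀ w' ∈ P, w' ∈ T.oc w → w' ≠ w → τ ≤ dist w w' / 2 := by
  obtain ⟨r, hr, hb⟩ := T.exists_ball_oc hw
  have hfin : ((P ∩ T.oc w) \ {w}).Finite := hP.subset fun x hx => hx.1
  obtain ⟨τ, hτ, h⟩ : ∃ τ > 0, ∀ w' ∈ (P ∩ T.oc w) \ {w}, τ ≤ dist w w' / 2 := by
    rcases ((P ∩ T.oc w) \ {w}).eq_empty_or_nonempty with he | hne
    · exact ⟨1, one_pos, fun w' hw' => by rw [he] at hw'; exact absurd hw' (notMem_empty _)⟩
    · obtain ⟨z, hz, hmin⟩ := hfin.exists_minimalFor (fun w' => dist w w' / 2) _ hne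
      refine ⟨dist w z / 2, ?_, fun w' hw' => ?_⟩
      · have : w ≠ z := fun e => hz.2 (by rw [mem_singleton_iff]; exact e.symm)
        have := dist_pos.2 this
        linarith
      · by_contra hcon
        push Not at hcon
        have := hmin hw' hcon.le
        linarith
  refine ⟨min τ (min r (δ w)), lt_min hτ (lt_min hr (hδ w)), fun v hv hn => ?_, ?_, ?_⟩
  · exact hb v hv (hn.trans_le ((min_le_right _ _).trans (min_le_left _ _)))
  · exact (min_le_right _ _).trans (min_le_right _ _)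
  · intro w' h1 h2 h4
    exact (min_le_left _ _).trans (h w' ⟨⟨h1, h2⟩, h4⟩)

/-- **parallel points exist**, if every open edge carries finitely many points (proof of 543's
`exists_par`) -/
theorem exists_par1 (h3 : Module.finrank ℝ E = 3) {P : Set E}
    (hP : ∀ w ∈ P, (P ∩ T.oc w).Finite) (hP1 : ∀ w ∈ P, w ∈ Om ∧ T.dim w = 1) (n : E → ℕ)
    (δ : E → ℝ) (hδ : ∀ w, 0 < δ w) :
    ∃ π : Par (meshC T h3) (oriM h3) P n (Near T δ), ∀ w, π.c w 0 = w := by
  classical
  have hex : ∀ w, ∃ τ : ℝ, w ∈ P → 0 < τ ∧ (∀ v ∈ T.V w, ‖v‖ < τ → w + v ∈ T.oc w) ∧ τ ≤ δ w ∧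
      ∀ w' ∈ P, w' ∈ T.oc w → w' ≠ w → τ ≤ dist w w' / 2 := by
    intro w
    by_cases h : w ∈ P
    · obtain ⟨τ, h1, h2⟩ := exists_rad1 (hP w h) hδ (hP1 w h).1
      exact ⟨τ, fun _ => ⟨h1, h2⟩⟩
    · exact ⟨0, fun h' => absurd h' h⟩
  choose τ hτ using hex
  let t : E → ℝ := fun w => τ w / ((n w + 1) * ‖dv T w‖)
  let c : E → ℕ → E := fun w k => w + ((k : ℝ) * t w) • dv T w
  have hn : ∀ {w}, w ∈ P → 0 < ‖dv T w‖ := fun {w} h =>
    norm_pos_iff.2 (dv_ne (hP1 w h).1 (hP1 w h).2)
  have ht : ∀ {w}, w ∈ P → 0 < t w := fun {w} h => div_pos (hτ w h).1 (mul_pos (by positivity) (hn h))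
  have hlen : ∀ {w k}, w ∈ P → k < n w → (k : ℝ) * t w * ‖dv T w‖ < τ w := by
    intro w k h hk
    have h1 := hn h
    have h2 := (hτ w h).1
    have e : (k : ℝ) * t w * ‖dv T w‖ = (k : ℝ) * τ w / (n w + 1) := by
      show (k : ℝ) * (τ w / ((n w + 1) * ‖dv T w‖)) * ‖dv T w‖ = _
      field_simp
    rw [e, div_lt_iff₀ (by positivity)]
    have h4 : (k : ℝ) < n w + 1 := by
      have : (k : ℝ) < n w := by exact_mod_cast hk
      linarith
    nlinarith
  have hnorm : ∀ {w k}, w ∈ P → k < n w → ‖((k : ℝ) * t w) • dv T w‖ < τ w := by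
    intro w k h hk
    rw [norm_smul, Real.norm_of_nonneg (mul_nonneg (Nat.cast_nonneg _) (ht h).le)]
    exact hlen h hk
  have hoc : ∀ {w k}, w ∈ P → k < n w → c w k ∈ T.oc w := by
    intro w k h hk
    exact (hτ w h).2.1 _ ((T.V w).smul_mem _ (dv_mem (hP1 w h).1 (hP1 w h).2)) (hnorm h hk)
  have hdist : ∀ {w k}, w ∈ P → k < n w → dist (c w k) w < τ w := by
    intro w k h hk
    show dist (w + ((k : ℝ) * t w) • dv T w) w < τ w
    rw [dist_eq_norm, add_sub_cancel_left]
    exact hnorm h hk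
  -- points in the same edge
  have hline : ∀ {w w'}, w ∈ P → w' ∈ P → w' ∈ T.oc w → ∃ s : ℝ, w' = w + s • dv T w ∧
      dist w w' = |s| * ‖dv T w‖ := by
    intro w w' h h' hw'
    have h1 := ed1_mem (hP1 w h).1 (hP1 w h).2
    obtain ⟨s, hs⟩ := mem_V_line (hP1 w h).2 h1.1 h1.2 (ed1_spec (hP1 w h).1 (hP1 w h).2).1
      (T.sub_mem_V' (T.oc_sub_cc w hw') (T.self_mem_cc w))
    have e : w' = w + s • dv T w := by
      rw [show s • dv T w = w' - w from hs.symm]; abel
    refine ⟨s, e, ?_⟩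
    rw [dist_comm, dist_eq_norm, hs, norm_smul, Real.norm_eq_abs]
    rfl
  refine ⟨{ c := c
            on := ?_
            inj := ?_
            sep := ?_
            up := ?_
            down := ?_
            dir := ?_
            rel := ?_ }, fun w => ?_⟩
  · intro w k F hw hk
    exact on_iff_oc (hP1 w hw).1 (hoc hw hk)
  · intro w w' k k' hw hw' hk hk' he
    have hO := (hP1 w hw).1
    have hO' := (hP1 w' hw').1
    by_cases hww : w = w'
    · subst hww
      refine ⟨rfl, ?_⟩
      have h1 : ((k : ℝ) * t w) • dv T w = ((k' : ℝ) * t w) • dv T w := add_left_cancel he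
      have h2 := smul_left_injective ℝ (norm_pos_iff.1 (hn hw)) h1
      have h4 : (k : ℝ) = k' := mul_right_cancel₀ (ht hw).ne' h2
      exact_mod_cast h4
    · exfalso
      have h1 := hoc hw hk
      have h2 := hoc hw' hk'
      rw [he] at h1
      have h4 : T.oc w = T.oc w' := by
        rcases T.oc_disjoint_or_eq hO hO' with h | h
        · exact absurd h2 (disjoint_left.1 h h1)
        · exact h
      have h5 : w' ∈ T.oc w := by rw [h4]; exact T.self_mem_oc w'
      have h6 : w ∈ T.oc w' := by rw [← h4]; exact T.self_mem_oc w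
      have h7 := (hτ w hw).2.2.2 w' hw' h5 (Ne.symm hww)
      have h8 := (hτ w' hw').2.2.2 w hw h6 hww
      have h9 := hdist hw hk
      have h10 := hdist hw' hk'
      rw [he] at h9
      have h11 := dist_triangle w (c w' k') w'
      rw [dist_comm w (c w' k')] at h11
      rw [dist_comm w' w] at h8
      linarith
  · intro F w w' k k' hw hw' hk hk' hF hF' hlt
    have hO := (hP1 w hw).1
    have hO' := (hP1 w' hw').1
    by_cases hoo : T.oc w = T.oc w'
    · have h5 : w' ∈ T.oc w := by rw [hoo]; exact T.self_mem_oc w'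
      have h6 : w ∈ T.oc w' := by rw [← hoo]; exact T.self_mem_oc w
      have hww : w ≠ w' := by
        rintro rfl
        exact lt_irrefl _ hlt
      obtain ⟨s, hs, hds⟩ := hline hw hw' h5
      have hdv : dv T w' = dv T w := dv_oc hO h5
      have h7 := (hτ w hw).2.2.2 w' hw' h5 (Ne.symm hww)
      have h8 := (hτ w' hw').2.2.2 w hw h6 hww
      rw [dist_comm w' w] at h8
      rw [hds] at h7 h8
      have h9 := hlen hw hk
      have h10 := hlen hw' hk'
      rw [hdv] at h10
      have hnp := hn hw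
      set a := (k : ℝ) * t w with ha
      set b := (k' : ℝ) * t w' with hb
      have ha0 : 0 ≤ a := mul_nonneg (Nat.cast_nonneg _) (ht hw).le
      have hb0 : 0 ≤ b := mul_nonneg (Nat.cast_nonneg _) (ht hw').le
      have ha1 : a < |s| / 2 := by
        by_contra hcon
        push Not at hcon
        have := mul_le_mul_of_nonneg_right hcon hnp.le
        linarith
      have hb1 : b < |s| / 2 := by
        by_contra hcon
        push Not at hcon
        have := mul_le_mul_of_nonneg_right hcon hnp.le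
        linarith
      have e1 : c w k = w + a • dv T w := rfl
      have e2 : c w' k' = w + (s + b) • dv T w := by
        show w' + b • dv T w' = _
        rw [hdv]
        nth_rewrite 1 [hs]
        module
      have m1 : w + a • dv T w ∈ T.oc w := by rw [← e1]; exact hoc hw hk
      have m2 : w + (s + b) • dv T w ∈ T.oc w := by rw [← e2, hoo]; exact hoc hw' hk'
      have m0 : w + (0 : ℝ) • dv T w ∈ T.oc w := by
        rw [zero_smul, add_zero]; exact T.self_mem_oc w
      have ms : w + s • dv T w ∈ T.oc w := by rw [← hs]; exact h5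
      have hs0 : s ≠ 0 := by
        rintro rfl
        rw [zero_smul, add_zero] at hs
        exact hww hs.symm
      have hlt' : F.pos (w + (0 : ℝ) • dv T w) < F.pos (w + s • dv T w) := by
        rw [zero_smul, add_zero, ← hs]; exact hlt
      show F.pos (c w k) < F.pos (c w' k')
      rw [e1, e2]
      rcases Cp_298.z2_cases (dirZ F w) with hz | hz
      · have hs1 : 0 < s := by
          by_contra hcon
          push Not at hcon
          have h11 := (pos_line hF (lt_of_le_of_ne hcon hs0) ms m0).1 hz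
          exact lt_asymm h11 hlt'
        rw [abs_of_pos hs1] at ha1 hb1
        exact (pos_line hF (by linarith) m1 m2).1 hz
      · have hs1 : s < 0 := by
          by_contra hcon
          push Not at hcon
          have h11 := (pos_line hF (lt_of_le_of_ne hcon hs0.symm) m0 ms).2 hz
          exact lt_asymm h11 hlt'
        rw [abs_of_neg hs1] at ha1 hb1
        exact (pos_line hF (by linarith) m2 m1).2 hz
    · exact pos_sep hF hF' hoo hlt (hoc hw hk) (hoc hw' hk')
  · intro F w k k' hw hkk hk' hF hz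
    have hlt : (k : ℝ) * t w < (k' : ℝ) * t w :=
      mul_lt_mul_of_pos_right (by exact_mod_cast hkk) (ht hw)
    exact (pos_line hF hlt (hoc hw (hkk.trans hk')) (hoc hw hk')).1 hz
  · intro F w k k' hw hkk hk' hF hz
    have hlt : (k : ℝ) * t w < (k' : ℝ) * t w :=
      mul_lt_mul_of_pos_right (by exact_mod_cast hkk) (ht hw)
    exact (pos_line hF hlt (hoc hw (hkk.trans hk')) (hoc hw hk')).2 hz
  · intro F w k hw hk hF
    exact dirZ_oc (hP1 w hw).1 (hoc hw hk)
  · intro w k hw hk
    exact ⟨hoc hw hk, (hdist hw hk).trans_le (hτ w hw).2.2.1⟩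
  · show w + (((0 : ℕ) : ℝ) * t w) • dv T w = w
    rw [Nat.cast_zero, zero_mul, zero_smul, add_zero]

/-! ### the merged mesh -/

section merged

variable {ι' : Type} (h3 : Module.finrank ℝ E = 3) (π : ι → ι')
  (hc : ∀ k w, ConnAt (meshC T h3) (π ⁻¹' {k}) w)

/-- **the orientation of a merged mesh of a tiling** -/
noncomputable def oriC : Ori (mergeC (meshC T h3) π hc) := (oriM h3).merge π hc (oriM_opp h3)


/-- the points in the open edges on the faces of the merged mesh -/
def VC : Set E := {w | w ∈ VM T ∧ ∃ F, w ∈ (mergeC (meshC T h3) π hc).On F}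



/-- **the hypotheses of `wseq` for a merged mesh of a tiling** -/
theorem hasParC : WS.HasPar (oriC h3 π hc) (RelM T) (VC h3 π hc) := by
  intro P hP hfin n
  obtain ⟨p, h⟩ := exists_par1 h3 (P := P) (T := T) (fun w hw => by
    obtain ⟨F, hF⟩ := (hP hw).2
    refine (hfin F).subset ?_
    rintro x ⟨h1, h2⟩
    exact ⟨h1, on_oc (F := F.1) hF h2⟩) (fun w hw => (hP hw).1) n (fun _ => 1)
    (fun _ => one_pos)
  let p' : Par (meshC T h3) (oriM h3) P n (RelM T) :=
    { c := p.c
      on := p.on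
      inj := p.inj
      sep := p.sep
      up := p.up
      down := p.down
      dir := p.dir
      rel := fun {w k} hw hk => Or.inr ⟨(hP hw).1, (p.rel hw hk).1⟩ }
  exact ⟨p'.merge π hc (oriM_opp h3), fun w _ _ => h w⟩

end merged

end Crest.Agent.R096.Cp_298
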