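import Crest.Agent.R096.Mrg5_715
import Crest.Agent.R096.Lab5_184
import Crest.Agent.R096.Lm10_117
import Crest.Agent.R096.Gl4_422
import Crest.Agent.R096.Cp13_298
import Crest.Agent.R096.Gl7_422

-- ▼ part R096/Gm1_298
section

/-!
# R096 / GLUE-STATE for merged meshes (helper298): labels of patterns which are even only on the
2-cells outside the interiors of the cores

`labels_merged` : labels with compact support on all 1-cells outside the interiors of the cores.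
-/

set_option autoImplicit false

open Set Filter Topology Metric Module

namespace Crest.Agent.R096.Gm_298

open Crest.Agent.R096.Msh_715 Crest.Agent.R096.Coh_184 Crest.Agent.R096.Agl5_543
  Crest.Agent.R096.Lab_184

variable {E : Type} [NormedAddCommGroup E] [NormedSpace ℝ E] [FiniteDimensional ℝ E]
variable {Om : Set E} {ι : Type} {T : Tiling Om ι}

/-- exactness on one edge -/
theorem exact_edge {Y : Finset E} {x : E} (hx : x ∈ Om) (hd : T.dim x = 1) :
    ∃ lam : E → ZMod 2, T.Exact (kap T Y) lam (T.cc x) := by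
  obtain ⟨lam, h⟩ := T.exact_cell1 (c := fun e => (((Y : Set E) ∩ e.set).ncard : ZMod 2)) hx hd
  refine ⟨lam, fun e he h1 a b hab => ?_⟩
  have h2 := h e he h1 a b hab
  rw [Tiling.kapC_cl _ (T.cc_sub_Om hx he)] at h2
  rw [h2]
  rfl

/-- **labels on the frontier of a core** -/
theorem exact_frontier (h3 : finrank ℝ E = 3) {K : Set E} (hK : CoreH T K) {Y : Finset E}
    (hY : ∀ w ∈ Y, T.dim w = 1)
    (heven : ∀ x ∈ frontier K, T.dim x = 2 → Even ((Y : Set E) ∩ T.cc x).ncard) :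
    ∃ ψ : E → ZMod 2, ∀ e ∈ Om, T.dim e = 1 → T.cc e ⊆ frontier K → ∀ a b : E,
      T.cc e = segment ℝ a b → ψ a - ψ b = kap T Y e a b := by
  set S := frontier K with hSdef
  have hS : IsCompact S := hK.cpt.of_isClosed_subset isClosed_frontier
    hK.cpt.isClosed.frontier_subset
  have hSO : S ⊆ Om := hK.cpt.isClosed.frontier_subset.trans hK.sub
  have hfin := T.finite_cells hS hSO
  let J := {c : Set E // (∃ x ∈ Om, c = T.cc x) ∧ (c ∩ S).Nonempty ∧ c ⊆ S}
  have hJfin : Finite J := by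
    have : {c : Set E | (∃ x ∈ Om, c = T.cc x) ∧ (c ∩ S).Nonempty ∧ c ⊆ S}.Finite :=
      hfin.subset fun c hc => ⟨hc.1, hc.2.1⟩
    exact this
  have hrep : ∀ j : J, ∃ x ∈ S, j.1 = T.cc x := by
    rintro ⟨c, ⟨x, hx, rfl⟩, hne, hcS⟩
    exact ⟨x, hcS (T.self_mem_cc x), rfl⟩
  obtain ⟨ψ, hψ⟩ := T.glue (J := J) (Q := fun j => j.1) (S := S) (κ := kap T Y)
    (fun j => by
      obtain ⟨x, hx, e⟩ := hrep j
      rw [e]; exact T.isClosed_cc x)
    (fun j => j.2.2.2.trans hSO)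
    (fun j y hy => by
      obtain ⟨x, hx, e⟩ := hrep j
      rw [e] at hy ⊢
      exact T.cc_sub_of_mem hy)
    hK.triv
    (fun x hx => mem_iUnion.2 ⟨⟨T.cc x, ⟨x, hSO hx, rfl⟩, ⟨x, T.self_mem_cc x, hx⟩, hK.cc x hx⟩,
      T.self_mem_cc x⟩)
    (fun j => by
      rw [Set.inter_eq_left.2 j.2.2.2]
      obtain ⟨x, hx, e⟩ := hrep j
      rw [e]; exact (T.convex_cc x).isPreconnected)
    (fun j => by
      obtain ⟨x, hx, e⟩ := hrep j
      rw [e]
      have hd := dim_le_two (T := T) h3 hK.core hK.sub hK.cc hx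
      rcases Nat.lt_or_ge (T.dim x) 1 with h | h
      · refine ⟨fun _ => 0, Tiling.Exact.of_dim T _ fun y hy => ?_⟩
        have := T.dim_le hy
        omega
      rcases Nat.lt_or_ge (T.dim x) 2 with h' | h'
      · exact exact_edge (hSO hx) (by omega)
      · exact exact_cell2 hY (hSO hx) (by omega) (heven x hx (by omega)))
  exact ⟨ψ, hψ⟩

section merged

variable {κ : Type} {Kc : κ → Set E}

/-- the closed cell of a point of the interior of a core lies in the core -/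
theorem cc_sub_core {K : Set E} (hK : CoreH T K) {x y : E} (hx : x ∈ Om) (hy : y ∈ T.cc x)
    (hyi : y ∈ interior K) : x ∈ interior K := by
  obtain ⟨q, hq⟩ := T.at_nonempty hx
  have h1 : Msh_715.P (T.H q) ⊆ K :=
    T.sub_of_mem_interior hK.cpt.isClosed hK.cc (T.cc_sub_tile hq hy) hyi
  by_contra hxi
  have h2 : x ∈ frontier K := by
    rw [hK.cpt.isClosed.frontier_eq]
    exact ⟨h1 hq, hxi⟩
  have h3 := hK.cc x h2 hy
  rw [hK.cpt.isClosed.frontier_eq] at h3
  exact h3.2 hyi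

theorem cc_sub_core' {K : Set E} (hK : CoreH T K) {x : E} (hx : x ∈ interior K) :
    T.cc x ⊆ K := by
  obtain ⟨q, hq⟩ := T.at_nonempty (hK.sub (interior_subset hx))
  exact (T.cc_sub_tile hq).trans (T.sub_of_mem_interior hK.cpt.isClosed hK.cc hq hx)

open Classical in
/-- **LABELS FOR MERGED MESHES**: `Y` is even on every 2-cell which is not inside a core -/
theorem labels_merged (h3 : finrank ℝ E = 3) (hH : ∀ c, CoreH T (Kc c))
    (hdis : ∀ c c', c ≠ c' → Disjoint (Kc c) (Kc c')) {Y : Finset E}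
    (hY : ∀ w ∈ Y, T.dim w = 1)
    (heven : ∀ x ∈ Om, T.dim x = 2 → (∀ c, x ∉ interior (Kc c)) →
      Even ((Y : Set E) ∩ T.cc x).ncard)
    {D : Set E} (hD : IsCompact D) (hDO : D ⊆ Om) (hfr : IsPreconnected (frontier D))
    (ht : TrivF (ZMod 2) D) (hsupp : ∀ w ∈ Y, ∀ q, w ∈ Msh_715.P (T.H q) →
      Msh_715.P (T.H q) ⊆ interior D)
    (hcore : ∀ w ∈ Y, ∀ c, w ∈ Kc c → Kc c ⊆ interior D) :
    ∃ lam : E → ZMod 2, (∀ v ∉ D, lam v = 0) ∧
      (∀ q, ¬ Msh_715.P (T.H q) ⊆ interior D → ∀ v ∈ Msh_715.P (T.H q), lam v = 0) ∧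
      ∀ e ∈ Om, T.dim e = 1 → (∀ c, e ∉ interior (Kc c)) → ∀ a b, T.cc e = segment ℝ a b →
        lam a + lam b = (((Y : Set E) ∩ T.cc e).ncard : ZMod 2) := by
  -- labels on the frontiers of the cores
  have hfront : ∀ c, ∃ ψ : E → ZMod 2, (∀ e ∈ Om, T.dim e = 1 → T.cc e ⊆ frontier (Kc c) →
      ∀ a b : E, T.cc e = segment ℝ a b → ψ a - ψ b = kap T Y e a b) ∧
      ((∀ w ∈ Y, w ∉ Kc c) → ψ = fun _ => 0) := by
    intro c
    by_cases hc : ∀ w ∈ Y, w ∉ Kc c
    · refine ⟨fun _ => 0, fun e he h1 hef a b _ => ?_, fun _ => rfl⟩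
      have : (Y : Set E) ∩ T.cc e = ∅ := by
        rw [Set.eq_empty_iff_forall_notMem]
        rintro w ⟨hw1, hw2⟩
        exact hc w hw1 ((hH c).cpt.isClosed.frontier_subset (hef hw2))
      unfold kap
      rw [this]; simp
    · obtain ⟨ψ, hψ⟩ := exact_frontier h3 (hH c) hY (fun x hx hd =>
        heven x ((hH c).sub ((hH c).cpt.isClosed.frontier_subset hx)) hd (fun c' hx' => by
          by_cases hcc : c' = c
          · subst hcc
            rw [(hH c').cpt.isClosed.frontier_eq] at hx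
            exact hx.2 hx'
          · exact Set.disjoint_left.1 (hdis c' c hcc) (interior_subset hx')
              ((hH c).cpt.isClosed.frontier_subset hx)))
      exact ⟨ψ, hψ, fun h => absurd h hc⟩
  choose ψ hψ hψ0 using hfront
  -- the potentials on the cores
  let Ψ : κ → E → ZMod 2 := fun c v => if v ∈ frontier (Kc c) then ψ c v else 0
  let κ' : E → E → E → ZMod 2 := fun e a b =>
    if h : ∃ c, e ∈ interior (Kc c) then Ψ h.choose a - Ψ h.choose b else kap T Y e a b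
  have hin : ∀ {e c}, e ∈ interior (Kc c) → ∀ a b, κ' e a b = Ψ c a - Ψ c b := by
    intro e c he a b
    have h : ∃ c, e ∈ interior (Kc c) := ⟨c, he⟩
    have hc : h.choose = c := by
      by_contra hne
      exact Set.disjoint_left.1 (hdis _ _ hne) (interior_subset h.choose_spec)
        (interior_subset he)
    show (if h : ∃ c, e ∈ interior (Kc c) then Ψ h.choose a - Ψ h.choose b else kap T Y e a b) = _
    rw [dif_pos h, hc]
  have hout : ∀ {e}, (∀ c, e ∉ interior (Kc c)) → ∀ a b, κ' e a b = kap T Y e a b := by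
    intro e he a b
    have h : ¬ ∃ c, e ∈ interior (Kc c) := by push Not; exact he
    show (if h : ∃ c, e ∈ interior (Kc c) then Ψ h.choose a - Ψ h.choose b else kap T Y e a b) = _
    rw [dif_neg h]
  obtain ⟨lam, h1, -, h2, h4⟩ := potential (T := T) (κ := κ') h3 hD hDO hfr ht
    (by
      intro x hx hd
      by_cases hxi : ∃ c, x ∈ interior (Kc c)
      · obtain ⟨c, hc⟩ := hxi
        refine ⟨Ψ c, fun e he h1 a b hab => ?_⟩
        have heK : e ∈ Kc c := cc_sub_core' (hH c) hc he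
        by_cases hei : e ∈ interior (Kc c)
        · rw [hin hei]
        · have hef : e ∈ frontier (Kc c) := by
            rw [(hH c).cpt.isClosed.frontier_eq]; exact ⟨heK, hei⟩
          have hcc := (hH c).cc e hef
          obtain ⟨-, -, ha, hb, -⟩ := T.dim_ends (T.cc_sub_Om hx he) h1 hab
          rw [hout (fun c' hc' => by
            by_cases hcc' : c' = c
            · subst hcc'; exact hei hc'
            · exact Set.disjoint_left.1 (hdis c' c hcc') (interior_subset hc') heK)]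
          rw [← hψ c e (T.cc_sub_Om hx he) h1 hcc a b hab]
          show (if a ∈ frontier (Kc c) then ψ c a else 0) -
            (if b ∈ frontier (Kc c) then ψ c b else 0) = _
          rw [if_pos (hcc ha), if_pos (hcc hb)]
      · push Not at hxi
        obtain ⟨lam, hlam⟩ := exact_cell2 hY hx hd (heven x hx hd hxi)
        refine ⟨lam, fun e he h1 a b hab => ?_⟩
        rw [hout (fun c hc => hxi c (cc_sub_core (hH c) hx he hc))]
        exact hlam e he h1 a b hab)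
    (by
      intro q hq e he h1 a b hab
      by_cases hei : ∃ c, e ∈ interior (Kc c)
      · obtain ⟨c, hc⟩ := hei
        rw [hin hc]
        have hqK : Msh_715.P (T.H q) ⊆ Kc c :=
          T.sub_of_mem_interior (hH c).cpt.isClosed (hH c).cc he hc
        have h0 : ψ c = fun _ => 0 := hψ0 c fun w hw hwK => hq (hqK.trans (hcore w hw c hwK))
        show (0 : ZMod 2) - 0 = (if a ∈ frontier (Kc c) then ψ c a else 0) -
          (if b ∈ frontier (Kc c) then ψ c b else 0)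
        rw [h0]
        simp
      · push Not at hei
        rw [hout hei]
        have : (Y : Set E) ∩ T.cc e = ∅ := by
          rw [Set.eq_empty_iff_forall_notMem]
          rintro w ⟨hw1, hw2⟩
          exact hq (hsupp w hw1 q (T.cc_sub_tile (i := q) he hw2))
        show (0 : ZMod 2) - 0 = kap T Y e a b
        unfold kap
        rw [this]; simp)
  refine ⟨lam, h1, h2, fun e he h5 hei a b hab => ?_⟩
  have h6 := h4 e he h5 a b hab
  rw [hout hei] at h6
  rw [← CharTwo.sub_eq_add, h6]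
  rfl

end merged

end Crest.Agent.R096.Gm_298
end

-- ▼ part R096/Gm2_298
section

/-!
# R096 / GLUE-STATE for merged meshes, part 2 (helper298): labels (`HasLab` of 422) for 117's
labelled meshes `lmO` (cells outside the cores) and `lmK` (with the giant cells) over 715's `meshK`
-/

set_option autoImplicit false
set_option linter.unusedSectionVars false

open Set Filter Topology Metric Module

namespace Crest.Agent.R096.Gm_298

open Crest.Agent.R096.Msh_715 Crest.Agent.R096.Coh_184 Crest.Agent.R096.Agl5_543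
  Crest.Agent.R096.Lab_184 Crest.Agent.R096.Lm_117 Crest.Agent.R096.St_147
  Crest.Agent.R096.Seq_213 Crest.Agent.R096.Gl_422

/-! ### abstract -/

section gen

variable {ι Φ W Q κ : Type} [PartialOrder Q] {dim : Q → ℕ} {M : MeshC ι Φ W}

/-- `Int` depends only on the 1-cell of the point -/
theorem int_sat (L : LM M Q dim) {A : Set ι} {w x : W} (hw : w ∈ L.W1) (hx : x ∈ L.W1)
    (he : L.ed x = L.ed w) (h : Int M A w) : Int M A x := by
  have hon : ∀ F, x ∈ M.On F ↔ w ∈ M.On F := fun F => by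
    rw [L.on_iff, L.on_iff, he]
    exact ⟨fun h => ⟨hw, h.2⟩, fun h => ⟨hx, h.2⟩⟩
  obtain ⟨⟨F, hF⟩, h2⟩ := h
  exact ⟨⟨F, (hon F).2 hF⟩, fun G hG => h2 G ((hon G).1 hG)⟩

theorem int_W1 (L : LM M Q dim) {A : Set ι} {w : W} (h : Int M A w) : w ∈ L.W1 := by
  obtain ⟨⟨F, hF⟩, -⟩ := h
  exact ((L.on_iff F w).1 hF).1

theorem int_mono {A B : Set ι} (hAB : A ⊆ B) {w : W} (h : Int M A w) : Int M B w :=
  ⟨h.1, fun F hF q hq => hAB (h.2 F hF q hq)⟩

theorem nW_ncard {Y : Finset W} {X X' : Set W} (h : ∀ w ∈ Y, (w ∈ X ↔ w ∈ X')) :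
    nW Y X = (((Y : Set W) ∩ X').ncard : ZMod 2) := by
  classical
  rw [nW_card]
  congr 1
  have : (Y : Set W) ∩ X' = ((Y.filter (· ∈ X) : Finset W) : Set W) := by
    ext w
    rw [Finset.coe_filter]
    exact ⟨fun ⟨h1, h2⟩ => ⟨h1, (h w h1).2 h2⟩, fun ⟨h1, h2⟩ => ⟨h1, (h w h1).1 h2⟩⟩
  rw [this, Set.ncard_coe_finset]

variable {b : Bel Q κ}

/-- labels of a mesh with extra cells -/
theorem glab_glue {L : LM M Q dim} (H : BelH L.toSk M L.cf b) {Y : Finset W}
    {lam : Q → ZMod 2} (h : GLab L Y lam) : GLab (L.glue b H) Y (Sum.elim lam (fun _ => 0)) := by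
  intro e he
  rcases e with e | k
  · have h1 := glue_On1 L.toSk H e
    have h2 := h e he
    rw [← h1] at h2
    exact h2
  · exact absurd (show (3 : ℕ) = 1 from he) (by norm_num)

theorem hasLab_glue {L : LM M Q dim} (H : BelH L.toSk M L.cf b) {G : Set W} {Z : Set Q}
    (h : HasLab L G Z) : HasLab (L.glue b H) G (QK.c b '' Z) := by
  intro Y h1 h2 h3
  obtain ⟨lam, h4, h5⟩ := h Y h1 h2 h3
  refine ⟨_, glab_glue H h4, ?_⟩
  rintro _ ⟨v, hv, rfl⟩
  exact h5 v hv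

end gen

variable {E : Type} [NormedAddCommGroup E] [NormedSpace ℝ E] [FiniteDimensional ℝ E]
variable {Om : Set E} {ι : Type} {T : Tiling Om ι} {κ : Type} {Kc : κ → Set E}

/-- a cell outside the interiors of the cores lies in a tile outside the cores -/
theorem exists_tile_out (hdis : ∀ c c', c ≠ c' → Disjoint (Kc c) (Kc c'))
    {x : E} (hx : x ∈ Om) (h : ∀ c, x ∉ interior (Kc c)) :
    ∃ q ∈ T.at_ x, ∀ c, ¬ Msh_715.P (T.H q) ⊆ Kc c := by
  by_contra hcon
  push Not at hcon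
  obtain ⟨q0, hq0⟩ := T.at_nonempty hx
  obtain ⟨c0, hc0⟩ := hcon q0 hq0
  obtain ⟨r, hr, hO, hb⟩ := T.exists_ball hx
  refine h c0 (mem_interior.2 ⟨ball x r, fun y hy => ?_, isOpen_ball, mem_ball_self hr⟩)
  obtain ⟨q, hq⟩ := T.cov y (hO hy)
  have hqx := hb y hy hq
  obtain ⟨c, hc⟩ := hcon q hqx
  have : c = c0 := by
    by_contra hne
    exact Set.disjoint_left.1 (hdis c c0 hne) (hc hqx) (hc0 hq0)
  subst this
  exact hc hq

/-- a cell which is not inside a core lies in a tile outside the cores -/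
theorem outK_of (hdis : ∀ c c', c ≠ c' → Disjoint (Kc c) (Kc c')) {x : T.Cell}
    (h : ∀ c, x.pt ∉ interior (Kc c)) : OutK T Kc x := by
  obtain ⟨q, hq, h1⟩ := exists_tile_out hdis x.pt_mem h
  refine ⟨q, h1, ?_⟩
  rw [x.set_eq]
  exact T.cc_sub_tile hq

theorem not_int_of (hH : ∀ c, CoreH T (Kc c)) {x : T.Cell} (h : OutK T Kc x) (c : κ) :
    x.pt ∉ interior (Kc c) := by
  intro hc
  obtain ⟨q, hq, hle⟩ := h
  exact hq c (T.sub_of_mem_interior (hH c).cpt.isClosed (hH c).cc (hle (pt_set x)) hc)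

theorem exists_outK [hne : Nonempty T.Cell] (hH : ∀ c, CoreH T (Kc c))
    (hdis : ∀ c c', c ≠ c' → Disjoint (Kc c) (Kc c')) : ∃ x, OutK T Kc x := by
  obtain ⟨x⟩ := id hne
  by_cases hκ : Nonempty κ
  · obtain ⟨c⟩ := hκ
    obtain ⟨z, hz⟩ := (hH c).nt.nonempty
    have hzO := (hH c).sub ((hH c).cpt.isClosed.frontier_subset hz)
    refine ⟨T.cl hzO, out_of_frontier hH hdis (k := c) ?_⟩
    rw [T.cl_set]
    exact (hH c).cc z hz
  · exact ⟨x, outK_of hdis fun c => (hκ ⟨c⟩).elim⟩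

/-- the cells of the merged mesh inside `D` -/
def AD (T : Tiling Om ι) (Kc : κ → Set E) (D : Set E) : Set (ι ⊕ κ) :=
  {k | (∀ q, k = Sum.inl q → Msh_715.P (T.H q) ⊆ interior D) ∧
    ∀ c, k = Sum.inr c → Kc c ⊆ interior D}

/-- the points inside `D` -/
def GD (h3 : finrank ℝ E = 3) (hH : ∀ c, CoreH T (Kc c))
    (hdis : ∀ c c', c ≠ c' → Disjoint (Kc c) (Kc c')) (D : Set E) : Set E :=
  {w | Int (mK h3 hH hdis) (AD T Kc D) w}

/-- the vertices which are not inside `D` -/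
def ZO (T : Tiling Om ι) (Kc : κ → Set E) (D : Set E) : Set {c : T.Cell // OutK T Kc c} :=
  {v | v.1.pt ∉ D ∨ ∃ q, v.1.pt ∈ Msh_715.P (T.H q) ∧ ¬ Msh_715.P (T.H q) ⊆ interior D}

/-- the vertices which are not inside `D` -/
def ZK (T : Tiling Om ι) (Kc : κ → Set E) (D : Set E) : Set (QK (belK T Kc)) :=
  QK.c _ '' ZO T Kc D

section has

variable {h3 : finrank ℝ E = 3} {hH : ∀ c, CoreH T (Kc c)}
  {hdis : ∀ c c', c ≠ c' → Disjoint (Kc c) (Kc c')}

theorem GD_act {D : Set E} {A : Set (ι ⊕ κ)} (hA : A ⊆ AD T Kc D) {w : E}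
    (hi : Int (mK h3 hH hdis) A w) : w ∈ GD h3 hH hdis D := int_mono hA hi

theorem exists_face_out {w : E} (hw : w ∈ Om) (hd : T.dim w = 1) {q : ι}
    (hq : w ∈ Msh_715.P (T.H q)) : ∃ F : C2 T, w ∈ F.On ∧ q ∈ F.side h3 := by
  obtain ⟨x₁, hx1, x₂, hx2, hd1, hd2, hq1, hq2, hp1, hp2, hne, huniq⟩ :=
    Agl3_543.two_cells T h3 hw hd hq
  refine ⟨mk2 T hx1 hd1, ⟨hp1, hd⟩, ?_⟩
  have e : T.at_ (mk2 T hx1 hd1).pt = T.at_ x₁ := T.at_eq_of_mem_oc hx1 (T.pt_cl hx1)
  rw [C2.mem_side, e]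
  exact hq1

variable [Nonempty T.Cell] {hne : ∃ c, OutK T Kc c}


theorem edO_eq {w : E} (hw : w ∈ (lmO h3 hH hdis hne).W1) :
    ((lmO h3 hH hdis hne).ed w).1 = edC T w := subEd_eq hw.2

theorem enO_eq {e : {c : T.Cell // OutK T Kc c}} (hd : e.1.dim = 1) (b : Bool) :
    ((lmO h3 hH hdis hne).en e b).1 = enC e.1 b :=
  subEn_eq (L := skT T) (hp := outK_down) (e := e) hd b

/-- the candidate points of `lmO` and `lmK` -/
theorem mem_W1O {w : E} : w ∈ (lmO h3 hH hdis hne).W1 ↔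
      w ∈ Om ∧ T.dim w = 1 ∧ ∀ c, w ∉ interior (Kc c) := by
  constructor
  · rintro ⟨⟨h1, h2⟩, h4⟩
    have h4' : OutK T Kc (edC T w) := h4
    refine ⟨h1, h2, fun c hc => not_int_of hH h4' c (cc_sub_core (hH c) (edC T w).pt_mem ?_ hc)⟩
    rw [← (edC T w).set_eq, edC_set h1]
    exact T.self_mem_cc w
  · rintro ⟨h1, h2, h4⟩
    refine ⟨⟨h1, h2⟩, ?_⟩
    obtain ⟨q, hq, h5⟩ := exists_tile_out hdis h1 h4
    refine ⟨q, h5, ?_⟩
    show (edC T w).set ⊆ _
    rw [edC_set h1]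
    exact T.cc_sub_tile hq

theorem mem_W1K {w : E} : w ∈ (lmK h3 hH hdis hne).W1 ↔
      w ∈ Om ∧ T.dim w = 1 ∧ ∀ c, w ∉ interior (Kc c) :=
  mem_W1O (h3 := h3) (hH := hH) (hdis := hdis) (hne := hne)

theorem GD_W1 {D : Set E} {w : E} (hw : w ∈ GD h3 hH hdis D) :
    w ∈ Om ∧ T.dim w = 1 ∧ ∀ c, w ∉ interior (Kc c) :=
  mem_W1O.1 (int_W1 (lmO h3 hH hdis (exists_outK hH hdis)) hw)


theorem GD_satK {D : Set E} {w : E} (hw : w ∈ GD h3 hH hdis D) {x : E}
    (hx : x ∈ (lmK h3 hH hdis hne).W1)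
    (he : (lmK h3 hH hdis hne).ed x = (lmK h3 hH hdis hne).ed w) : x ∈ GD h3 hH hdis D :=
  int_sat _ (int_W1 _ hw) hx he hw

/-- the cores at a point of `GD` lie inside `D` -/
theorem GD_core {D : Set E} {w : E} (hw : w ∈ GD h3 hH hdis D) {c : κ} (hc : w ∈ Kc c) :
    Kc c ⊆ interior D := by
  obtain ⟨h1, h2, h4⟩ := GD_W1 hw
  have hf : w ∈ frontier (Kc c) := by
    rw [(hH c).cpt.isClosed.frontier_eq]; exact ⟨hc, h4 c⟩
  have hK : ∀ c, Core (Kc c) := fun c => (hH c).core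
  have hKO : ∀ c, Kc c ⊆ Om := fun c => (hH c).sub
  have hs : ∀ c, ∀ x ∈ frontier (Kc c), T.cc x ⊆ frontier (Kc c) := fun c => (hH c).cc
  have h5 := fcK_sub (h3 := h3) (hK := hK) (hKO := hKO) (hs := hs) (edK T Kc hs h1 hf h2) true
  have h6 := (face_iff h3 hK hKO hs hdis _ c).1 h5.1
  have hon : w ∈ (mK h3 hH hdis).On ⟨_, h6.1⟩ := by
    refine ⟨h5.2 ?_, h2⟩
    show w ∈ (T.cl h1).set
    rw [T.cl_set]; exact T.self_mem_cc w
  exact (hw.2 _ hon (Sum.inr c) h6.2).2 c rfl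

/-- the tiles at a point of `GD` lie inside `D` -/
theorem GD_tile {D : Set E} {w : E} (hw : w ∈ GD h3 hH hdis D) {q : ι}
    (hq : w ∈ Msh_715.P (T.H q)) : Msh_715.P (T.H q) ⊆ interior D := by
  obtain ⟨h1, h2, h4⟩ := GD_W1 hw
  by_cases hc : ∃ c, Msh_715.P (T.H q) ⊆ Kc c
  · obtain ⟨c, hc⟩ := hc
    exact hc.trans (GD_core hw (hc hq))
  push Not at hc
  obtain ⟨F, hF, hqF⟩ := exists_face_out (h3 := h3) h1 h2 hq
  have hnd := out_face h3 F ⟨q, hc, C2.sub_tile (h3 := h3) hqF⟩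
  have hm : Sum.inl q ∈ ((meshC T h3).side F).map (piK T Kc) :=
    mem_map_iff.2 ⟨q, hqF, piK_inl.2 ⟨rfl, hc⟩⟩
  exact (hw.2 ⟨F, hnd⟩ hF (Sum.inl q) hm).1 q rfl

/-- converse: tiles and cores at `w` inside `D` -/
theorem GD_of {D : Set E} {w : E} (hw : w ∈ (lmO h3 hH hdis hne).W1)
    (ht : ∀ q, w ∈ Msh_715.P (T.H q) → Msh_715.P (T.H q) ⊆ interior D)
    (hc : ∀ c, w ∈ Kc c → Kc c ⊆ interior D) : w ∈ GD h3 hH hdis D := by
  obtain ⟨h1, h2, h4⟩ := mem_W1O.1 hw
  obtain ⟨q, hq, h5⟩ := exists_tile_out hdis h1 h4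
  obtain ⟨F, hF, hqF⟩ := exists_face_out (h3 := h3) h1 h2 hq
  refine ⟨⟨⟨F, out_face h3 F ⟨q, h5, C2.sub_tile (h3 := h3) hqF⟩⟩, hF⟩, ?_⟩
  intro G hG k hk
  have hk' : k ∈ ((meshC T h3).side G.1).map (piK T Kc) := hk
  obtain ⟨q', hq', hk''⟩ := mem_map_iff.1 hk'
  have hw' : w ∈ Msh_715.P (T.H q') := C2.sub_tile (h3 := h3) hq' hG.1
  refine ⟨fun q hq => ?_, fun c hcc => ?_⟩
  · rw [hq, piK_inl] at hk''
    obtain ⟨rfl, -⟩ := hk''
    exact ht _ hw'
  · rw [hcc, piK_inr hdis] at hk''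
    exact hc c (hk'' hw')

/-- **LABELS EXIST OUTSIDE THE CORES** -/
theorem hasLab_O {D : Set E} (hD : IsCompact D) (hDO : D ⊆ Om) (hfr : IsPreconnected (frontier D))
    (ht : TrivF (ZMod 2) D) : HasLab (lmO h3 hH hdis hne) (GD h3 hH hdis D) (ZO T Kc D) := by
  intro Y hY1 hYG hev
  have hY : ∀ w ∈ Y, T.dim w = 1 := fun w hw => (mem_W1O.1 (hY1 w hw)).2.1
  obtain ⟨lam, h1, h2, h4⟩ := labels_merged (T := T) (Y := Y) h3 hH hdis hY
    (by
      intro x hx hd hxi
      obtain ⟨q, hq, h5⟩ := exists_tile_out hdis hx hxi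
      have hset : (mk2 T hx hd).set = T.cc x := T.cl_set hx
      have h6 := hev ⟨mk2 T hx hd, out_face h3 _ ⟨q, h5, by
        show (mk2 T hx hd).set ⊆ _
        rw [hset]
        exact T.cc_sub_tile hq⟩⟩
      rw [nW_ncard (X' := T.cc x) (fun w hw => ?_)] at h6
      · exact (ZMod.natCast_eq_zero_iff_even).1 h6
      · show (w ∈ (mk2 T hx hd).set ∧ T.dim w = 1) ↔ _
        rw [hset]
        exact ⟨fun h => h.1, fun h => ⟨h, hY w hw⟩⟩)
    hD hDO hfr ht (fun w hw q hq => GD_tile (hYG w hw) hq)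
    (fun w hw c hc => GD_core (hYG w hw) hc)
  refine ⟨fun c => lam c.1.pt, ?_, ?_⟩
  · intro e he
    have hd : e.1.dim = 1 := he
    show lam ((lmO h3 hH hdis hne).en e false).1.pt + lam ((lmO h3 hH hdis hne).en e true).1.pt = _
    rw [enO_eq hd, enO_eq hd, en_pt hd, en_pt hd]
    have h5 := h4 e.1.pt e.1.pt_mem hd (fun c => not_int_of hH e.2 c)
      (epE e.1 false) (epE e.1 true) (by rw [← e.1.set_eq]; exact (ep_spec hd).2.1)
    rw [h5]
    symm
    apply nW_ncard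
    intro w hw
    have hw1 : w ∈ W1 T := (hY1 w hw).1
    have h6 : (lmO h3 hH hdis hne).On1 e = (skT T).On1 e.1 :=
      sub_On1 (L := skT T) (p := OutK T Kc) (hp := outK_down) (hne := hne) e
    rw [h6, ← e.1.set_eq]
    constructor
    · rintro ⟨-, h7⟩
      exact (edC_eq hw1 hd).1 h7
    · intro h7
      exact ⟨hw1, (edC_eq hw1 hd).2 h7⟩
  · rintro v (hv | ⟨q, hq, hqD⟩)
    · exact h1 _ hv
    · exact h2 q hqD _ hq

/-- **LABELS EXIST FOR THE MERGED MESH WITH THE GIANT CELLS** -/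
theorem hasLab_K {D : Set E} (hD : IsCompact D) (hDO : D ⊆ Om) (hfr : IsPreconnected (frontier D))
    (ht : TrivF (ZMod 2) D) : HasLab (lmK h3 hH hdis hne) (GD h3 hH hdis D) (ZK T Kc D) :=
  hasLab_glue _ (hasLab_O hD hDO hfr ht)

end has

end Crest.Agent.R096.Gm_298
end

-- ▼ part R096/Gm3_298

/-!
# R096 / GLUE-STATE for merged meshes, part 3 (helper298): directions (`Dir` of 422) for subcomplexes,
merged meshes and meshes with giant cells (117's `lmO`, `lmK`), the candidate points, parallel points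
-/

set_option autoImplicit false
set_option linter.unusedSectionVars false

open Set Filter Topology Metric Module

namespace Crest.Agent.R096.Gm_298

open Crest.Agent.R096.Msh_715 Crest.Agent.R096.Coh_184 Crest.Agent.R096.Agl5_543
  Crest.Agent.R096.Lab_184 Crest.Agent.R096.Lm_117 Crest.Agent.R096.St_147
  Crest.Agent.R096.Seq_213 Crest.Agent.R096.Gl_422 Crest.Agent.R096.Cp_298
  Crest.Agent.R096.Ori_543

section gen

variable {ι Φ W Q ι' Φ' κ : Type} {M : MeshC ι Φ W} [PartialOrder Q] {dim : Q → ℕ}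

/-- **directions on a subcomplex** -/
theorem dir_sub {L : LM M Q dim} {O : Ori M} {τ : Q → ZMod 2} (D : Dir L O τ) (p : Q → Prop)
    (hp : ∀ c d, c ≤ d → p d → p c) (hne : ∃ c, p c) (M' : MeshC ι' Φ' W) (φ : Φ' → Φ)
    (hφ : Function.Injective φ) (hOn : ∀ F, M'.On F = M.On (φ F))
    (hpos : ∀ F, M'.pos F = M.pos (φ F)) (hcf : ∀ F, p (L.cf (φ F)))
    (hall : ∀ F, p (L.cf F) → ∃ F', φ F' = F) {O' : Ori M'}
    (hO : ∀ F w, O'.dir F w = O.dir (φ F) w) :
    Dir (L.sub p hp hne M' φ hφ hOn hpos hcf hall) O' (fun c => τ c.1) where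
  dir F e he x hx y hy := by
    have hx' : x ∈ L.On1 e.1 := (sub_On1 (L := L.toSk) (hp := hp) (hne := hne) e) ▸ hx
    have hy' : y ∈ L.On1 e.1 := (sub_On1 (L := L.toSk) (hp := hp) (hne := hne) e) ▸ hy
    rw [hO, hO]
    exact D.dir (φ F) e.1 he x hx' y hy'
  up F e he x hx y hy ht hd := by
    have hx' : x ∈ L.On1 e.1 := (sub_On1 (L := L.toSk) (hp := hp) (hne := hne) e) ▸ hx
    have hy' : y ∈ L.On1 e.1 := (sub_On1 (L := L.toSk) (hp := hp) (hne := hne) e) ▸ hy
    rw [hO] at hd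
    rw [hpos]
    exact D.up (φ F) e.1 he x hx' y hy' ht hd
  down F e he x hx y hy ht hd := by
    have hx' : x ∈ L.On1 e.1 := (sub_On1 (L := L.toSk) (hp := hp) (hne := hne) e) ▸ hx
    have hy' : y ∈ L.On1 e.1 := (sub_On1 (L := L.toSk) (hp := hp) (hne := hne) e) ▸ hy
    rw [hO] at hd
    rw [hpos]
    exact D.down (φ F) e.1 he x hx' y hy' ht hd
  vtx F e he x hx y hy v hv h0 := by
    have hx' : x ∈ L.On1 e.1 := (sub_On1 (L := L.toSk) (hp := hp) (hne := hne) e) ▸ hx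
    have hy' : y ∈ L.On1 e.1 := (sub_On1 (L := L.toSk) (hp := hp) (hne := hne) e) ▸ hy
    rw [hpos]
    exact D.vtx (φ F) e.1 he x hx' y hy' v.1 hv h0

/-- **directions with extra cells** -/
theorem dir_glue {L : LM M Q dim} {O : Ori M} {τ : Q → ZMod 2} (D : Dir L O τ) {b : Bel Q κ}
    (H : BelH L.toSk M L.cf b) : Dir (L.glue b H) O (Sum.elim τ (fun _ => 0)) where
  dir F e he x hx y hy := by
    obtain ⟨d, rfl, hd⟩ := QK.le_c he
    have h1 := glue_On1 L.toSk H d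
    exact D.dir F d hd x (h1 ▸ hx) y (h1 ▸ hy)
  up F e he x hx y hy ht h := by
    obtain ⟨d, rfl, hd⟩ := QK.le_c he
    have h1 := glue_On1 L.toSk H d
    exact D.up F d hd x (h1 ▸ hx) y (h1 ▸ hy) ht h
  down F e he x hx y hy ht h := by
    obtain ⟨d, rfl, hd⟩ := QK.le_c he
    have h1 := glue_On1 L.toSk H d
    exact D.down F d hd x (h1 ▸ hx) y (h1 ▸ hy) ht h
  vtx F e he x hx y hy v hv h0 := by
    obtain ⟨d, rfl, hd⟩ := QK.le_c he
    obtain ⟨u, rfl, hu⟩ := QK.le_c hv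
    have h1 := glue_On1 L.toSk H d
    exact D.vtx F d hd x (h1 ▸ hx) y (h1 ▸ hy) u hu h0

end gen

section tiling

variable {E : Type} [NormedAddCommGroup E] [NormedSpace ℝ E] [FiniteDimensional ℝ E]
variable {Om : Set E} {ι : Type} {T : Tiling Om ι} {κ : Type} {Kc : κ → Set E}
variable {h3 : finrank ℝ E = 3} {hH : ∀ c, CoreH T (Kc c)}
  {hdis : ∀ c c', c ≠ c' → Disjoint (Kc c) (Kc c')}

/-- the orientation of the merged mesh -/
noncomputable abbrev oriK (h3 : finrank ℝ E = 3) (hH : ∀ c, CoreH T (Kc c))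
    (hdis : ∀ c c', c ≠ c' → Disjoint (Kc c) (Kc c')) : Ori (mK h3 hH hdis) :=
  oriC h3 (piK T Kc) (connAt_piK h3 (fun c => (hH c).core) (fun c => (hH c).cc) hdis)

variable [Nonempty T.Cell] {hne : ∃ c, OutK T Kc c}

/-- **directions outside the cores** -/
theorem dirO {τ : T.Cell → ZMod 2} (D : Dir (lmT T h3) (oriM h3) τ) :
    Dir (lmO h3 hH hdis hne) (oriK h3 hH hdis) (fun c => τ c.1) :=
  dir_sub D _ _ _ _ _ _ _ _ _ _ (fun _ _ => rfl)

/-- the direction function of `lmK` -/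
noncomputable def tauK (T : Tiling Om ι) (Kc : κ → Set E) [Nonempty T.Cell] :
    QK (belK T Kc) → ZMod 2 :=
  Sum.elim (fun c => tauT T c.1) (fun _ => 0)

/-- **directions on the merged mesh with the giant cells** -/
theorem dirK : Dir (lmK h3 hH hdis hne) (oriK h3 hH hdis) (tauK T Kc) :=
  dir_glue (dirO (dirT h3)) _

/-- parallel points lie on the same 1-cell -/
theorem relT {x w : E} (h : RelM T x w) (hw : w ∈ (lmT T h3).W1) :
    x ∈ (lmT T h3).W1 ∧ (lmT T h3).ed x = (lmT T h3).ed w := by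
  rcases h with rfl | ⟨h1, h2⟩
  · exact ⟨hw, rfl⟩
  · have hO : x ∈ Om := T.cc_sub_Om h1.1 (T.oc_sub_cc w h2)
    refine ⟨⟨hO, (T.dim_eq_of_mem_oc h1.1 h2).trans h1.2⟩, ?_⟩
    show edC T x = edC T w
    apply Tiling.Cell.ext
    rw [edC_set hO, edC_set h1.1]
    exact T.cc_eq_of_mem_oc h1.1 h2

theorem relO {x w : E} (h : RelM T x w) (hw : w ∈ (lmO h3 hH hdis hne).W1) :
    x ∈ (lmO h3 hH hdis hne).W1 ∧
      (lmO h3 hH hdis hne).ed x = (lmO h3 hH hdis hne).ed w := by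
  obtain ⟨h1, h2⟩ := relT (h3 := h3) h hw.1
  have h2' : edC T x = edC T w := h2
  have h4 : x ∈ (lmO h3 hH hdis hne).W1 := by
    refine ⟨h1, ?_⟩
    have h5 : OutK T Kc (edC T w) := hw.2
    show OutK T Kc (edC T x)
    rw [h2']; exact h5
  exact ⟨h4, Subtype.ext (by rw [edO_eq h4, edO_eq hw, h2'])⟩

theorem relK {x w : E} (h : RelM T x w) (hw : w ∈ (lmK h3 hH hdis hne).W1) :
    x ∈ (lmK h3 hH hdis hne).W1 ∧
      (lmK h3 hH hdis hne).ed x = (lmK h3 hH hdis hne).ed w := by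
  obtain ⟨h1, h2⟩ := relO (h3 := h3) (hH := hH) (hdis := hdis) (hne := hne) h hw
  exact ⟨h1, congrArg (QK.c _) h2⟩

/-- every candidate point lies on a face of the merged mesh -/
theorem faceO {w : E} (hw : w ∈ (lmO h3 hH hdis hne).W1) : ∃ F, w ∈ (mK h3 hH hdis).On F := by
  obtain ⟨h1, h2, h4⟩ := mem_W1O.1 hw
  obtain ⟨q, hq, h5⟩ := exists_tile_out hdis h1 h4
  obtain ⟨F, hF, hqF⟩ := exists_face_out (h3 := h3) h1 h2 hq
  exact ⟨⟨F, out_face h3 F ⟨q, h5, C2.sub_tile (h3 := h3) hqF⟩⟩, hF⟩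

theorem faceK {w : E} (hw : w ∈ (lmK h3 hH hdis hne).W1) : ∃ F, w ∈ (mK h3 hH hdis).On F :=
  faceO (h3 := h3) (hH := hH) (hdis := hdis) (hne := hne) hw

/-- every 1-cell lies on a face -/
theorem cfO (e : {c : T.Cell // OutK T Kc c}) (he : e.1.dim = 1) :
    ∃ F, e ≤ (lmO h3 hH hdis hne).cf F := by
  obtain ⟨q, h1, h2⟩ := e.2
  have hq : e.1.pt ∈ Msh_715.P (T.H q) := h2 (pt_set e.1)
  obtain ⟨F, hF, hqF⟩ := exists_face_out (h3 := h3) e.1.pt_mem he hq
  refine ⟨⟨F, out_face h3 F ⟨q, h1, C2.sub_tile (h3 := h3) hqF⟩⟩, ?_⟩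
  show e.1.set ⊆ F.set
  rw [e.1.set_eq]
  have h4 : e.1.pt ∈ F.set := hF.1
  rw [F.set_eq] at h4 ⊢
  exact T.cc_sub_of_mem h4

theorem cfK (e : QK (belK T Kc)) (he : dimK (belK T Kc) (fun c => c.1.dim) e = 1) :
    ∃ F, e ≤ (lmK h3 hH hdis hne).cf F := by
  rcases e with e | k
  · exact cfO e he
  · exact absurd (show (3 : ℕ) = 1 from he) (by norm_num)

/-- finitely many cells of a tiling in a compact set -/
theorem finite_sub {S : Set E} (hS : IsCompact S) (hSO : S ⊆ Om) :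
    {c : T.Cell | c.set ⊆ S}.Finite := by
  refine Set.Finite.of_finite_image (f := fun c : T.Cell => c.set)
    ((T.finite_cells hS hSO).subset ?_) (fun c _ d _ h => Tiling.Cell.ext h)
  rintro _ ⟨c, hc, rfl⟩
  exact ⟨⟨c.pt, c.pt_mem, c.set_eq⟩, c.pt, pt_set c, hc (pt_set c)⟩

/-- finitely many cells below a cell -/
theorem finite_leK (c : QK (belK T Kc)) (hH : ∀ c, CoreH T (Kc c)) : {d | d ≤ c}.Finite := by
  rcases c with c | k
  · have h1 : {d : T.Cell | d.set ⊆ c.1.set}.Finite := by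
      rw [c.1.set_eq]
      exact finite_sub (T.isCompact_cc c.1.pt_mem) (T.cc_sub_Om c.1.pt_mem)
    have h2 : {d : {c : T.Cell // OutK T Kc c} | d.1.set ⊆ c.1.set}.Finite :=
      h1.preimage Subtype.val_injective.injOn
    refine (h2.image (QK.c (belK T Kc))).subset ?_
    rintro d hd
    obtain ⟨d', rfl, hd'⟩ := QK.le_c hd
    exact ⟨d', hd', rfl⟩
  · have h1 : {d : T.Cell | d.set ⊆ Kc k}.Finite := finite_sub (hH k).cpt (hH k).sub
    have h2 : {d : {c : T.Cell // OutK T Kc c} | d.1.set ⊆ Kc k}.Finite :=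
      h1.preimage Subtype.val_injective.injOn
    refine ((h2.image (QK.c (belK T Kc))).union (finite_singleton (QK.k _ k))).subset ?_
    rintro d hd
    rcases d with d | k'
    · left
      have h4 : d.1.set ⊆ frontier (Kc k) := hd
      exact ⟨d, h4.trans (hH k).cpt.isClosed.frontier_subset, rfl⟩
    · right
      have h5 : k' = k := hd
      exact congrArg (QK.k (belK T Kc)) h5

/-- the candidate points are the points on the faces of the merged mesh -/
theorem W1K_eq : (lmK h3 hH hdis hne).W1 = VC h3 (piK T Kc)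
    (connAt_piK h3 (fun c => (hH c).core) (fun c => (hH c).cc) hdis) := by
  ext w
  constructor
  · intro hw
    exact ⟨⟨(mem_W1K.1 hw).1, (mem_W1K.1 hw).2.1⟩, faceK hw⟩
  · rintro ⟨h1, F, hF⟩
    exact ((lmK h3 hH hdis hne).on_iff F w).1 hF |>.1

/-- **parallel points for the merged mesh of a tiling** -/
theorem hasParK : WS.HasPar (oriK h3 hH hdis) (RelM T) (lmK h3 hH hdis hne).W1 := by
  rw [W1K_eq]
  exact hasParC h3 _ _

end tiling

end Crest.Agent.R096.Gm_298
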