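import Crest.Agent.R096.Gk1_422
import Crest.Agent.R096.Gl7_422
import Crest.Agent.R096.Lm10_117
import Crest.Agent.R096.Gm3_298
import Crest.Agent.R096.SkB1_662

-- ▼ part R096/Gk2_422
section

/-!
# R096 (row 96), LABK (helper422), part 2: the parity of an exact level of a piecewise affine
function on a 1-cell of a tiling.
-/

set_option autoImplicit false
set_option linter.unusedSectionVars false

open Set Relation Module

namespace Crest.Agent.R096.Gl_422

open Crest.Agent.R096.St_147 Crest.Agent.R096.Lm_117 Crest.Agent.R096.Ac_117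
  Crest.Agent.R096.Cp_298 Crest.Agent.R096.Msh_715 Crest.Agent.R096.Agl5_543
  Crest.Agent.R096.Ori_543

variable {E : Type} [NormedAddCommGroup E] [NormedSpace ℝ E] [FiniteDimensional ℝ E]
variable {Om : Set E} {ι : Type} {T : Tiling Om ι} [Nonempty T.Cell]

/-- a point of a 1-cell which is not an end -/
theorem mem_W1_of_edge {e : T.Cell} (he : e.dim = 1) {w : E} (hw : w ∈ e.set)
    (h0 : w ≠ epE e false) (h1 : w ≠ epE e true) : w ∈ W1 T ∧ edC T w = e := by
  have hO := Crest.Agent.R096.Cm_117.cell_sub e hw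
  obtain ⟨q1, q2, q3⟩ := ep_spec he
  have hcc : T.cc e.pt = segment ℝ (epE e false) (epE e true) := e.set_eq.symm.trans q2
  have hw' : w ∈ T.cc e.pt := by rw [← e.set_eq]; exact hw
  have hle : T.dim w ≤ 1 := (T.dim_le hw').trans_eq he
  have hd : T.dim w = 1 := by
    rcases Nat.lt_or_ge (T.dim w) 1 with h | h
    · have h2 := T.vertex_of_edge e.pt_mem he hcc hw' (by omega)
      rcases h2 with h2 | h2
      · exact absurd h2 h0
      · exact absurd h2 h1
    · omega
  have hW : w ∈ W1 T := ⟨hO, hd⟩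
  exact ⟨hW, (edC_eq hW he).2 hw⟩

theorem aff_line (g : E →ᵃ[ℝ] ℝ) (p q : E) (s : ℝ) :
    g (p + s • (q - p)) = g p + s * (g q - g p) := by
  have h1 := AffineMap.apply_lineMap g p q s
  rw [AffineMap.lineMap_apply, AffineMap.lineMap_apply] at h1
  simp only [vsub_eq_sub, vadd_eq_add, smul_eq_mul] at h1
  rw [add_comm p, h1]; ring

/-- **parity of an exact level on a 1-cell** -/
theorem exact_parity {e : T.Cell} (he : e.dim = 1) {u : E → ℝ} {t : ℝ}
    (haff : ∃ g : E →ᵃ[ℝ] ℝ, EqOn u g e.set) (hne : ∀ b, u (epE e b) ≠ t) {Y : Finset E}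
    (hY : ∀ w ∈ e.set, T.dim w = 1 → (w ∈ Y ↔ u w = t)) :
    ind (t < u (epE e false)) + ind (t < u (epE e true)) =
      nW Y {w | w ∈ W1 T ∧ edC T w = e} := by
  classical
  obtain ⟨g, hg⟩ := haff
  obtain ⟨q1, q2, q3⟩ := ep_spec he
  set p := epE e false with hp
  set q := epE e true with hq
  have hup : u p = g p := hg (q3 false).2
  have huq : u q = g q := hg (q3 true).2
  have hnp := hne false
  have hnq := hne true
  rw [← hp, hup] at hnp
  rw [← hq, huq] at hnq
  rw [hup, huq]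
  have hseg : ∀ w ∈ e.set, ∃ s ∈ Icc (0:ℝ) 1, w = p + s • (q - p) ∧
      u w = g p + s * (g q - g p) := by
    intro w hw
    have hw' := hw
    rw [q2, segment_eq_image'] at hw'
    obtain ⟨s, hs, rfl⟩ := hw'
    exact ⟨s, hs, rfl, (hg hw).trans (aff_line g p q s)⟩
  by_cases hsame : (t < g p ↔ t < g q)
  · -- no point
    have h0 : ∀ w ∈ Y, w ∉ {w | w ∈ W1 T ∧ edC T w = e} := by
      rintro w hw ⟨h1, h2⟩
      have hwe : w ∈ e.set := (edC_eq h1 he).1 h2
      have hut := (hY w hwe h1.2).1 hw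
      obtain ⟨s, hs, -, h5⟩ := hseg w hwe
      rw [h5] at hut
      obtain ⟨s0, s1⟩ := hs
      rcases lt_or_gt_of_ne hnp with h6 | h6
      · have h7 : g q < t := lt_of_le_of_ne (not_lt.1 (fun h => absurd (hsame.2 h) (not_lt.2 h6.le))) hnq
        rcases le_total (g p) (g q) with h8 | h8
        · nlinarith [mul_nonneg (sub_nonneg.2 s1) (sub_nonneg.2 h8)]
        · nlinarith [mul_nonneg s0 (sub_nonneg.2 h8)]
      · have h7 : t < g q := hsame.1 h6
        rcases le_total (g p) (g q) with h8 | h8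
        · nlinarith [mul_nonneg s0 (sub_nonneg.2 h8)]
        · nlinarith [mul_nonneg (sub_nonneg.2 s1) (sub_nonneg.2 h8)]
    rw [nW_empty h0, ind_congr hsame]
    exact CharTwo.add_self_eq_zero _
  · have hopp : (t < g p ↔ ¬ t < g q) := by tauto
    rw [ind_add_not hopp]
    symm
    have hd : g q - g p ≠ 0 := by
      intro h
      have : g q = g p := by linarith
      rw [this] at hsame
      exact hsame Iff.rfl
    set s : ℝ := (t - g p) / (g q - g p) with hs
    have hst : s * (g q - g p) = t - g p := div_mul_cancel₀ _ hd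
    have hs01 : 0 < s ∧ s < 1 := by
      by_cases h1 : t < g p
      · have h2 : g q < t := lt_of_le_of_ne (not_lt.1 (hopp.1 h1)) hnq
        have h3 : g q - g p < 0 := by linarith
        exact ⟨div_pos_of_neg_of_neg (by linarith) h3, by rw [hs, div_lt_one_of_neg h3]; linarith⟩
      · have h2 : t < g q := by
          by_contra h
          exact h1 (hopp.2 h)
        have h1' : g p < t := lt_of_le_of_ne (not_lt.1 h1) hnp
        have h3 : 0 < g q - g p := by linarith
        exact ⟨div_pos (by linarith) h3, by rw [hs, div_lt_one h3]; linarith⟩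
    set w : E := p + s • (q - p) with hw
    have hwe : w ∈ e.set := by
      rw [q2, segment_eq_image']
      exact ⟨s, ⟨hs01.1.le, hs01.2.le⟩, rfl⟩
    have huw : u w = t := by
      rw [hg hwe, hw, aff_line, hst]; ring
    have hwp : w ≠ p := by
      intro h
      rw [h, hup] at huw
      exact hnp huw
    have hwq : w ≠ q := by
      intro h
      rw [h, huq] at huw
      exact hnq huw
    obtain ⟨m1, m2⟩ := mem_W1_of_edge he hwe hwp hwq
    refine nW_one (p := w) ((hY w hwe m1.2).2 huw) ⟨m1, m2⟩ ?_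
    rintro x hx ⟨h1, h2⟩
    have hxe : x ∈ e.set := (edC_eq h1 he).1 h2
    have hut := (hY x hxe h1.2).1 hx
    obtain ⟨s', -, h4, h5⟩ := hseg x hxe
    have : s' = s := by
      have h6 : s' * (g q - g p) = s * (g q - g p) := by rw [hst]; linarith
      exact mul_right_cancel₀ hd h6
    rw [h4, this]

end Crest.Agent.R096.Gl_422
end

-- ▼ part R096/Gk3_422
section

/-!
# R096 (row 96), LABK (helper422), part 3: `LabIn` over helper117's labelled mesh `lmK` of 715's
`meshK` from the exact pattern on the boundary of one giant core per family.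
-/

set_option autoImplicit false
set_option linter.unusedSectionVars false

open Set Relation Module

namespace Crest.Agent.R096.Gl_422

open Crest.Agent.R096.St_147 Crest.Agent.R096.Seq_213 Crest.Agent.R096.Seq_213.GSt
  Crest.Agent.R096.Lm_117 Crest.Agent.R096.Ac_117
  Crest.Agent.R096.Cp_298 Crest.Agent.R096.Msh_715 Crest.Agent.R096.Agl5_543
  Crest.Agent.R096.Ori_543 Crest.Agent.R096.Coh_184

variable {E : Type} [NormedAddCommGroup E] [NormedSpace ℝ E] [FiniteDimensional ℝ E]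
variable {Om : Set E} {ι : Type} {T : Tiling Om ι} {κ : Type} {Kc : κ → Set E} [Nonempty T.Cell]
variable {h3 : finrank ℝ E = 3} {hH : ∀ c, CoreH T (Kc c)}
  {hdis : ∀ c c', c ≠ c' → Disjoint (Kc c) (Kc c')} {hne : ∃ c, OutK T Kc c}

/-- the cell of the outside as a cell of `lmK` -/
def oc (c : T.Cell) (h : OutK T Kc c) : QK (belK T Kc) := QK.c _ ⟨c, h⟩

theorem en_K {c : T.Cell} (h : OutK T Kc c) (hd : c.dim = 1) (b : Bool) :
    ∃ h', (lmK h3 hH hdis hne).en (oc c h) b = oc (enC c b) h' := by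
  have e1 : ((lmO h3 hH hdis hne).en ⟨c, h⟩ b).1 = enC c b :=
    subEn_eq (L := skT T) (hp := outK_down) (e := ⟨c, h⟩) hd b
  have h' : OutK T Kc (enC c b) := e1 ▸ ((lmO h3 hH hdis hne).en ⟨c, h⟩ b).2
  refine ⟨h', ?_⟩
  show QK.c _ ((lmO h3 hH hdis hne).en ⟨c, h⟩ b) = _
  unfold oc
  congr 1
  exact Subtype.ext e1

theorem on_K {c : T.Cell} (h : OutK T Kc c) :
    (lmK h3 hH hdis hne).On1 (oc c h) = {w | w ∈ W1 T ∧ edC T w = c} := by
  have h1 : (lmK h3 hH hdis hne).toSk.On1 (oc c h) = (lmO h3 hH hdis hne).toSk.On1 ⟨c, h⟩ :=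
    glue_On1 _ (belH_K h3 hH hdis hne) _
  rw [h1]
  exact sub_On1 (L := skT T) (p := OutK T Kc) (hp := outK_down) (hne := hne) ⟨c, h⟩

/-- the 1-cells below a giant cell -/
theorem le_giant {k : κ} {e : QK (belK T Kc)} (he : e ≤ QK.k _ k)
    (hd : dimK (belK T Kc) (fun c => c.1.dim) e = 1) :
    ∃ c, ∃ h : OutK T Kc c, e = oc c h ∧ c.dim = 1 ∧ c.set ⊆ frontier (Kc k) := by
  rcases e with e | k'
  · exact ⟨e.1, e.2, rfl, hd, he⟩
  · exact absurd (show (3:ℕ) = 1 from hd) (by norm_num)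

/-- a face of a giant cell at a 1-cell of its boundary -/
theorem face_giant {k : κ} {c : T.Cell} (h : OutK T Kc c) (hd : c.dim = 1)
    (hc : c.set ⊆ frontier (Kc k)) :
    ∃ F, oc c h ≤ (lmK h3 hH hdis hne).cf F ∧ Sum.inr k ∈ (mK h3 hH hdis).side F := by
  have h1 : c.pt ∈ frontier (Kc k) := hc (set_ne c)
  have h2 := T.two_faces h3 (hH k).core (hH k).sub (hH k).cc h1 hd
  obtain ⟨F, hF1, hF2⟩ : {F : C2 T | c.pt ∈ F.On ∧ F.set ⊆ frontier (Kc k)}.Nonempty := by
    apply Set.nonempty_of_ncard_ne_zero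
    rw [h2]; norm_num
  have hout := out_face h3 F (out_of_frontier hH hdis hF2)
  refine ⟨⟨F, hout⟩, ?_, (giant_side h3 hH hdis k _).2 hF2⟩
  show c.set ⊆ F.set
  rw [c.set_eq, F.set_eq]
  have h4 : c.pt ∈ T.cc F.pt := by rw [← F.set_eq]; exact hF1.1
  exact T.cc_sub_of_mem h4

variable {J C K : Type} {fam : J → C} {Qd : Quads (ι ⊕ κ) C K} {s₀ : GSt (mK h3 hH hdis) fam}
  {G : C → Set E} {Z : C → Set (QK (belK T Kc))} {v₀ v₁ : C → QK (belK T Kc)}



end Crest.Agent.R096.Gl_422
end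

-- ▼ part R096/Gl11_422

/-!
# R096 (row 96), GLUE-STATE for merged meshes (helper422): the input `StI` of 662's middle seam over
helper117's labelled mesh `lmK` with giant cells, and `LabIn` over `lmK` from bodies and one exact
core per family.
-/

set_option autoImplicit false
set_option linter.unusedSectionVars false

open Set Relation Module

namespace Crest.Agent.R096.Gl_422

open Crest.Agent.R096.St_147 Crest.Agent.R096.Seq_213 Crest.Agent.R096.Seq_213.GSt
  Crest.Agent.R096.Lm_117 Crest.Agent.R096.Ac_117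
  Crest.Agent.R096.Cp_298 Crest.Agent.R096.Msh_715 Crest.Agent.R096.Agl5_543
  Crest.Agent.R096.Ori_543 Crest.Agent.R096.Coh_184 Crest.Agent.R096.Gm_298
  Crest.Agent.R096.SkB_662

variable {E : Type} [NormedAddCommGroup E] [NormedSpace ℝ E] [FiniteDimensional ℝ E]
variable {Om : Set E} {ι : Type} {T : Tiling Om ι} {κ : Type} {Kc : κ → Set E} [Nonempty T.Cell]
variable {h3 : finrank ℝ E = 3} {hH : ∀ c, CoreH T (Kc c)}
  {hdis : ∀ c c', c ≠ c' → Disjoint (Kc c) (Kc c')} {hne : ∃ c, OutK T Kc c}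
variable {J C K : Type} {fam : J → C} {Qd : Quads (ι ⊕ κ) C K} {s₀ : GSt (mK h3 hH hdis) fam}

theorem relM_memK {x y : E} (h : RelM T x y) (hy : y ∈ (lmK h3 hH hdis hne).W1) :
    x ∈ (lmK h3 hH hdis hne).W1 := (relK h hy).1

/-- the candidate points of a cell lie on finitely many faces -/
theorem loc_K (c : QK (belK T Kc)) :
    ∃ S : Finset {F : C2 T // ¬ (((meshC T h3).side F).map (piK T Kc)).IsDiag},
      ∀ w ∈ (lmK h3 hH hdis hne).W1, (lmK h3 hH hdis hne).ed w ≤ c →
        ∃ F ∈ S, w ∈ (mK h3 hH hdis).On F := by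
  classical
  have h1 : {e : QK (belK T Kc) | e ≤ c ∧ dimK (belK T Kc) (fun c => c.1.dim) e = 1}.Finite :=
    (finite_leK c hH).subset fun e he => he.1
  have h2 : ∀ e : {e // e ∈ h1.toFinset}, ∃ F, e.1 ≤ (lmK h3 hH hdis hne).cf F := fun e =>
    cfK (h3 := h3) (hH := hH) (hdis := hdis) (hne := hne) e.1 (h1.mem_toFinset.1 e.2).2
  choose f hf using h2
  refine ⟨h1.toFinset.attach.image f, fun w hw hwc => ?_⟩
  have he : (lmK h3 hH hdis hne).ed w ∈ h1.toFinset :=
    h1.mem_toFinset.2 ⟨hwc, (lmK h3 hH hdis hne).ed_dim w hw⟩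
  refine ⟨f ⟨_, he⟩, Finset.mem_image.2 ⟨_, Finset.mem_attach _ _, rfl⟩, ?_⟩
  exact ((lmK h3 hH hdis hne).on_iff _ w).2 ⟨hw, hf ⟨_, he⟩⟩


/-- **the input of the state half for a merged mesh with giant cells** -/
theorem stI_K {κ₀ : C → ℕ} {far₀ : J → Set E} {G : C → Set E} {Z : C → Set (QK (belK T Kc))}
    {lam₀ : J → QK (belK T Kc) → ZMod 2} {v₀ v₁ : C → QK (belK T Kc)}
    (hκ : ∀ m, {c | κ₀ c ≤ m}.Finite) (hI : s₀.Inv Qd far₀)
    (hon : ∀ w ∈ s₀.P, w ∈ (lmK h3 hH hdis hne).W1)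
    (hfin : ∀ F, (s₀.P ∩ (mK h3 hH hdis).On F).Finite)
    (hJ : ∀ a, {j | fam j = a}.Finite) (h : LabIn (lmK h3 hH hdis hne) Qd s₀ G Z lam₀ v₀ v₁) :
    StI (lmK h3 hH hdis hne) (oriK h3 hH hdis) (tauK T Kc) (RelM T)
      (lmK h3 hH hdis hne).W1 Qd κ₀ s₀ far₀ G Z lam₀ v₀ v₁ where
  top := top3K h3 hH hdis hne
  dir := dirK
  par := hasParK
  refl := RelM.refl
  trans := fun _ _ _ => RelM.trans
  memV := fun _ _ h hy => relM_memK h hy
  rel := fun _ _ h hw => relK h hw
  V1 := fun _ hw => hw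
  VF := fun _ hw => faceK hw
  loc := loc_K
  lf := hκ
  inv := hI
  PV := hon
  fin := hfin
  finJ := hJ
  lab := h

end Crest.Agent.R096.Gl_422
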