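import Mathlib
import Crest.Agent.R096.Ecm4_446
import Crest.Agent.R096.SkB1d_662
import Crest.Agent.R096.Lac1_441
import Crest.Agent.R096.Leaf3_965
import Crest.Agent.R096.Init12_543
import Crest.Agent.R096.Hlf1_847
import Crest.Agent.R096.Onb2_63
import Crest.Agent.R096.E1r2_914
import Crest.Agent.R096.Gl11_422

-- ▼ part R096/Rone1_847
section

/-! Row 96 (helper847), TYPE R (exact core tiles), part 1: **(E1)** for any state which has all the
points of the exact words on the faces of a grid tile. -/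

set_option autoImplicit false
set_option linter.unusedSectionVars false
set_option linter.style.longLine false

open Set Topology Filter

namespace Crest.Agent.R096.Rone_847

open Crest.Agent.R096.Msh_715 Crest.Agent.R096.St_147 Crest.Agent.R096.Seq_213
  Crest.Agent.R096.Ecm_446 Crest.Agent.R096.SkB_662

section abstr

variable {E : Type} [NormedAddCommGroup E] [NormedSpace ℝ E] [FiniteDimensional ℝ E]
variable {Om : Set E} {ι ι' Φ J C : Type}

/-- the faces `D` of the mesh `M` are the 2-cells of the tile `i₀` -/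
structure FD (M : MeshC ι' Φ E) (T : Tiling Om ι) (i₀ : ι) (D : Set Φ) (ct : Φ → E) : Prop where
  mem : ∀ F ∈ D, ct F ∈ P (T.H i₀) ∧ T.dim (ct F) = 2
  on : ∀ F ∈ D, ∀ w, w ∈ M.On F ↔ w ∈ T.cc (ct F) ∧ T.dim w = 1
  sur : ∀ x ∈ P (T.H i₀), T.dim x = 2 → ∃ F ∈ D, T.cc (ct F) = T.cc x
  inj : ∀ F ∈ D, ∀ F' ∈ D, T.cc (ct F) = T.cc (ct F') → F = F'
  lace : ∀ F ∈ D, ∀ u v x y, u ∈ M.On F → v ∈ M.On F → x ∈ M.On F → y ∈ M.On F → u ≠ x →
    u ≠ y → v ≠ x → v ≠ y → ¬ M.Lace F u v x y → ∃ K : Set E, IsPreconnected K ∧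
      (∀ z ∈ K, z ∈ T.cc (ct F) ∧ T.dim z ≤ 1) ∧ u ∉ K ∧ v ∉ K ∧ x ∈ K ∧ y ∈ K

/-- **crossing words** and the continuous heights, on the boundary of the tile `i₀` -/
structure WX (T : Tiling Om ι) (i₀ : ι) (U : E → C → ℝ) (fam : J → C) (τ : J → ℝ)
    (X : J → Set E) : Prop where
  vert : ∀ v ∈ P (T.H i₀), T.dim v = 0 → ∀ j, v ∉ X j
  cross : ∀ x ∈ P (T.H i₀), T.dim x = 1 → ∀ j, (∃ y ∈ T.cc x, y ∈ X j) ↔
    (⌊U x (fam j)⌋₊ : ℝ) < τ j ∧ τ j < ⌈U x (fam j)⌉₊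
  cont : ∀ a, ContinuousOn (fun x => U x a) (P (T.H i₀))
  mix : ∀ x ∈ P (T.H i₀), T.dim x ≤ 2 → ∀ a, ∃ y ∈ P (T.H i₀), U y a = U x a ∧
    ∀ b, b ≠ a → U y b = ⌊U x b⌋₊

variable {T : Tiling Om ι} {M : MeshC ι' Φ E} {i₀ : ι} {D : Set Φ} {ct : Φ → E}
  {U : E → C → ℝ} {fam : J → C} {τ : J → ℝ} {X V : J → Set E}

/-- the points of the sheet `j` on the 1-cells of the tile -/
def Jp (T : Tiling Om ι) (i₀ : ι) (X : J → Set E) (j : J) (v : E) : Prop :=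
  v ∈ P (T.H i₀) ∧ T.dim v = 1 ∧ v ∈ X j

theorem cc_sub_tile (hG : CG T i₀ U) {x y : E} (hx : x ∈ P (T.H i₀)) (hd : T.dim x ≤ 2)
    (hy : y ∈ T.cc x) : y ∈ P (T.H i₀) := (hG.sub hx hd hy).1

/-- a cell which is active at the level has a point of the sheet -/
theorem exists_jp (hG : CG T i₀ U) (hW : WX T i₀ U fam τ X) {x : E} (hx : x ∈ P (T.H i₀))
    (hd : T.dim x ≤ 2) {j : J} (h1 : (⌊U x (fam j)⌋₊ : ℝ) < τ j)
    (h2 : τ j < ⌈U x (fam j)⌉₊) : ∃ v ∈ T.cc x, Jp T i₀ X j v ∧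
      (∀ b, b ≠ fam j → U v b = ⌊U x b⌋₊) := by
  obtain ⟨y, hy, ha, hb⟩ := hW.mix x hx hd (fam j)
  have hyx : y ∈ T.cc x := by
    rw [hG.cell x hx hd]
    refine ⟨hy, fun b => ?_⟩
    by_cases hbj : b = fam j
    · subst hbj
      rw [ha]
      exact ⟨Nat.floor_le (hG.nn x hx _), Nat.le_ceil _⟩
    · rw [hb b hbj]
      exact ⟨le_rfl, by exact_mod_cast Nat.floor_le_ceil _⟩
  have hyd : T.dim y ≤ 2 := (T.dim_le hyx).trans hd
  have hact : {b | ⌊U y b⌋₊ < ⌈U y b⌉₊} = {fam j} := by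
    ext b
    simp only [mem_ofPred_eq, mem_singleton_iff]
    constructor
    · intro h
      by_contra hbj
      rw [hb b hbj, Nat.floor_natCast, Nat.ceil_natCast] at h
      exact lt_irrefl _ h
    · rintro rfl
      rw [ha]
      have : (⌊U x (fam j)⌋₊ : ℝ) < ⌈U x (fam j)⌉₊ := h1.trans h2
      exact_mod_cast this
  have hy1 : T.dim y = 1 := by
    rw [hG.dim y hy hyd, hact, ncard_singleton]
  obtain ⟨v, hv, hvX⟩ := (hW.cross y hy hy1 j).2 (by rw [ha]; exact ⟨h1, h2⟩)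
  have hvx : v ∈ T.cc x := T.cc_sub_of_mem hyx hv
  obtain ⟨hvP, hvd, hvc⟩ := hG.sub hy hyd hv
  have hv1 : T.dim v = 1 := by
    have h3 := T.dim_le hv
    have h4 : T.dim v ≠ 0 := fun h0 => hW.vert v hvP h0 j hvX
    omega
  refine ⟨v, hvx, ⟨hvP, hv1, hvX⟩, fun b hbj => ?_⟩
  have h5 := hvc b
  rw [hb b hbj, Nat.floor_natCast, Nat.ceil_natCast] at h5
  exact le_antisymm h5.2 h5.1

/-- at a point of the sheet the direction is the family, between two integers around `τ` -/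
theorem jp_act (hG : CG T i₀ U) (hC : CW T i₀ U fam τ X V) (hW : WX T i₀ U fam τ X) {v : E}
    {j : J} (hv : Jp T i₀ X j v) : {b | ⌊U v b⌋₊ < ⌈U v b⌉₊} = {fam j} ∧
      (⌊U v (fam j)⌋₊ : ℝ) < τ j ∧ τ j < ⌈U v (fam j)⌉₊ ∧ ⌊U v (fam j)⌋₊ = ⌊τ j⌋₊ ∧
      ⌈U v (fam j)⌉₊ = ⌊τ j⌋₊ + 1 := by
  have h1 := CW.free hG hC hv.1 hv.2.1 hv.2.2
  obtain ⟨h2, h3⟩ := (hW.cross v hv.1 hv.2.1 j).1 ⟨v, T.self_mem_cc v, hv.2.2⟩
  have h4 : ⌈U v (fam j)⌉₊ ≤ ⌊U v (fam j)⌋₊ + 1 := Nat.ceil_le_floor_add_one _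
  have h4' : (⌈U v (fam j)⌉₊ : ℝ) ≤ ⌊U v (fam j)⌋₊ + 1 := by exact_mod_cast h4
  have h5 : ⌊τ j⌋₊ = ⌊U v (fam j)⌋₊ := by
    rw [Nat.floor_eq_iff ((Nat.cast_nonneg _).trans h2.le)]
    exact ⟨h2.le, h3.trans_le h4'⟩
  refine ⟨h1, h2, h3, h5.symm, ?_⟩
  rw [h5]
  refine le_antisymm h4 ?_
  have : (⌊U v (fam j)⌋₊ : ℝ) < ⌈U v (fam j)⌉₊ := h2.trans h3
  exact_mod_cast this

section state

variable {s : GSt M fam} (hF : FD M T i₀ D ct) (hG : CG T i₀ U) (hC : CW T i₀ U fam τ X V)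
  (hW : WX T i₀ U fam τ X)

/-- the state has only points of the sheets -/
def OnX (s : GSt M fam) (D : Set Φ) (X : J → Set E) : Prop :=
  ∀ F ∈ D, ∀ w, s.At F w → w ∈ X (s.lab w)

/-- the state has all the points of the sheet `j` on the faces `D` -/
def Full (s : GSt M fam) (D : Set Φ) (X : J → Set E) (j : J) : Prop :=
  ∀ F ∈ D, ∀ w ∈ M.On F, w ∈ X j → w ∈ s.P ∧ s.lab w = j

include hF hG hC

theorem on_of_jp {F : Φ} (hFD : F ∈ D) {x : E} (hx : T.cc (ct F) = T.cc x) {v : E} {j : J}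
    (hv : Jp T i₀ X j v) (hvx : v ∈ T.cc x) : v ∈ M.On F :=
  (hF.on F hFD v).2 ⟨by rw [hx]; exact hvx, hv.2.1⟩

theorem jp_of_at (hX : OnX s D X) {F : Φ} (hFD : F ∈ D) {w : E} (hw : s.At F w) :
    Jp T i₀ X (s.lab w) w := by
  have h1 := (hF.on F hFD w).1 hw.2
  have h2 := hF.mem F hFD
  exact ⟨cc_sub_tile hG h2.1 (by omega) h1.1, h1.2, hX F hFD w hw⟩

/-- the points of one sheet on one face: `w` and its partner -/
theorem eq_or_mu (hX : OnX s D X) {F : Φ} (hFD : F ∈ D) {w v : E} (hw : s.At F w)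
    (hv : s.At F v) (hl : s.lab v = s.lab w) : v = w ∨ v = s.mu F w := by
  have a1 := jp_of_at hF hG hC hX hFD hw
  have a2 := jp_of_at hF hG hC hX hFD hv
  have hm : s.At F (s.mu F w) := s.mu_mem hw.1 hw.2
  have a3 := jp_of_at hF hG hC hX hFD hm
  rw [hl] at a2
  rw [s.mu_lab hw.1 hw.2] at a3
  have h2 := hF.mem F hFD
  have hne := s.mu_ne hw.1 hw.2
  rcases CW.two hG hC h2.1 h2.2 ((hF.on F hFD w).1 hw.2).1 ((hF.on F hFD v).1 hv.2).1
    ((hF.on F hFD _).1 hm.2).1 a1.2.1 a2.2.1 a3.2.1 a1.2.2 a2.2.2 a3.2.2 with h | h | h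
  · exact Or.inl h.symm
  · exact absurd h.symm hne
  · exact Or.inr h


include hW


end state

end abstr

end Crest.Agent.R096.Rone_847
end

-- ▼ part R096/Rone2_847
section

/-! Row 96 (helper847), TYPE R (exact core tiles), part 2: **(E2)**: two sheets of the two families
of a quad have exactly one interlaced pair on the faces of a grid tile which touch the quad. -/

set_option autoImplicit false
set_option linter.unusedSectionVars false
set_option linter.style.longLine false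

open Set Topology Filter

namespace Crest.Agent.R096.Rone_847

open Crest.Agent.R096.Msh_715 Crest.Agent.R096.St_147 Crest.Agent.R096.Seq_213
  Crest.Agent.R096.Ecm_446 Crest.Agent.R096.SkB_662

section abstr

variable {E : Type} [NormedAddCommGroup E] [NormedSpace ℝ E] [FiniteDimensional ℝ E]
variable {Om : Set E} {ι ι' Φ J C : Type}

/-- the sheets are level sets of continuous functions, on the right side at the vertices -/
structure HX (T : Tiling Om ι) (i₀ : ι) (U : E → C → ℝ) (fam : J → C) (τ : J → ℝ)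
    (X : J → Set E) (g : J → E → ℝ) (t : J → ℝ) : Prop where
  cont : ∀ j, ContinuousOn (g j) (P (T.H i₀))
  iff : ∀ v ∈ P (T.H i₀), T.dim v ≤ 1 → ∀ j, v ∈ X j ↔ g j v = t j
  side : ∀ v ∈ P (T.H i₀), T.dim v = 0 → ∀ j, g j v < t j ↔ U v (fam j) < τ j

variable {T : Tiling Om ι} {M : MeshC ι' Φ E} {i₀ : ι} {D : Set Φ} {ct : Φ → E}
  {U : E → C → ℝ} {fam : J → C} {τ : J → ℝ} {X V : J → Set E} {g : J → E → ℝ} {t : J → ℝ}

/-- on a cell of dimension at most one whose height is an integer the side is constant -/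
theorem side_cell (hG : CG T i₀ U) (hW : WX T i₀ U fam τ X) (hH : HX T i₀ U fam τ X g t)
    {x : E} (hx : x ∈ P (T.H i₀)) (hd : T.dim x ≤ 1) {j : J} {n : ℕ} (hn : U x (fam j) = n)
    (hne : (n : ℝ) ≠ τ j) : ((n : ℝ) < τ j → ∀ y ∈ T.cc x, g j y < t j) ∧
      (τ j < n → ∀ y ∈ T.cc x, t j < g j y) := by
  have hd2 : T.dim x ≤ 2 := by omega
  have hsub : T.cc x ⊆ P (T.H i₀) := fun y hy => cc_sub_tile hG hx hd2 hy
  have hnoX : ∀ y ∈ T.cc x, y ∉ X j := by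
    intro y hy hyX
    rcases Nat.lt_or_ge (T.dim x) 1 with h0 | h1
    · have h2 := T.dim_le hy
      exact hW.vert y (hsub hy) (by omega) j hyX
    · obtain ⟨a1, a2⟩ := (hW.cross x hx (by omega) j).1 ⟨y, hy, hyX⟩
      rw [hn, Nat.floor_natCast] at a1
      rw [hn, Nat.ceil_natCast] at a2
      exact lt_asymm a1 a2
  have hnog : ∀ y ∈ T.cc x, g j y ≠ t j := fun y hy h =>
    hnoX y hy ((hH.iff y (hsub hy) ((T.dim_le hy).trans hd) j).2 h)
  obtain ⟨v, hv, hv0, hvU⟩ := hG.exists_lo hx hd2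
  have hvn : U v (fam j) = n := by rw [hvU, hn, Nat.floor_natCast]
  have hs := hH.side v (hsub hv) hv0 j
  rw [hvn] at hs
  have hpre : IsPreconnected (T.cc x) := (T.convex_cc x).isPreconnected
  have hc := (hH.cont j).mono hsub
  constructor
  · intro hlt y hy
    have h1 := hs.2 hlt
    by_contra hge
    obtain ⟨z, hz, hzt⟩ := hpre.intermediate_value hv hy hc ⟨h1.le, not_lt.1 hge⟩
    exact hnog z hz hzt
  · intro hlt y hy
    have h1 : ¬ g j v < t j := fun h => lt_asymm hlt (hs.1 h)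
    by_contra hge
    obtain ⟨z, hz, hzt⟩ := hpre.intermediate_value hy hv hc ⟨not_lt.1 hge, not_lt.1 h1⟩
    exact hnog z hz hzt

section state

variable {s : GSt M fam} (hF : FD M T i₀ D ct) (hG : CG T i₀ U) (hC : CW T i₀ U fam τ X V)
  (hW : WX T i₀ U fam τ X)

include hF hG hC hW

/-- active directions of a face with a point of the sheet -/
theorem act_of_at (hX : OnX s D X) {F : Φ} (hFD : F ∈ D) {w : E} (hw : s.At F w) :
    ⌊U (ct F) (fam (s.lab w))⌋₊ = ⌊τ (s.lab w)⌋₊ ∧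
      ⌈U (ct F) (fam (s.lab w))⌉₊ = ⌊τ (s.lab w)⌋₊ + 1 := by
  have jw := jp_of_at hF hG hC hX hFD hw
  obtain ⟨c0, c1, c2, c3, c4⟩ := jp_act hG hC hW jw
  have hm := hF.mem F hFD
  obtain ⟨-, -, h3⟩ := hG.sub hm.1 (by omega) ((hF.on F hFD w).1 hw.2).1
  obtain ⟨e1, e2⟩ := flo_sub (h3 (fam (s.lab w))).1 (h3 (fam (s.lab w))).2 (by
    rw [c3, c4]; exact Nat.lt_succ_self _)
  rw [← e1, ← e2]
  exact ⟨c3, c4⟩

/-- a face with points of two families: its active directions are the two families -/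
theorem act_pair (hX : OnX s D X) {F : Φ} (hFD : F ∈ D) {x y : E} (hx : s.At F x)
    (hy : s.At F y) (hne : fam (s.lab x) ≠ fam (s.lab y)) :
    {b | ⌊U (ct F) b⌋₊ < ⌈U (ct F) b⌉₊} = {fam (s.lab x), fam (s.lab y)} := by
  have hm := hF.mem F hFD
  obtain ⟨a1, a2⟩ := act_of_at hF hG hC hW hX hFD hx
  obtain ⟨b1, b2⟩ := act_of_at hF hG hC hW hX hFD hy
  have hfin := hG.fin (ct F) hm.1 (by omega)
  refine (Set.eq_of_subset_of_ncard_le ?_ ?_ hfin).symm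
  · rintro b (rfl | rfl)
    · show ⌊_⌋₊ < ⌈_⌉₊
      rw [a1, a2]; exact Nat.lt_succ_self _
    · show ⌊_⌋₊ < ⌈_⌉₊
      rw [b1, b2]; exact Nat.lt_succ_self _
  · rw [← hG.dim (ct F) hm.1 (by omega), hm.2, ncard_pair hne]

/-- **the chords of the two sheets on a common face are interlaced** -/
theorem lace_core (hH : HX T i₀ U fam τ X g t) (hX : OnX s D X) {F : Φ} (hFD : F ∈ D) {x y : E}
    (hx : s.At F x) (hy : s.At F y) (hne : fam (s.lab x) ≠ fam (s.lab y))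
    (hfull : Full s D X (s.lab x)) : M.Lace F x (s.mu F x) y (s.mu F y) := by
  by_contra hl
  have hm := hF.mem F hFD
  have hd2 : T.dim (ct F) ≤ 2 := by omega
  have hmx : s.At F (s.mu F x) := s.mu_mem hx.1 hx.2
  have hmy : s.At F (s.mu F y) := s.mu_mem hy.1 hy.2
  have lx := s.mu_lab hx.1 hx.2
  have ly := s.mu_lab hy.1 hy.2
  have hlab : s.lab x ≠ s.lab y := fun e => hne (congrArg fam e)
  have n1 : x ≠ y := fun h => hlab (by rw [h])
  have n2 : x ≠ s.mu F y := fun h => hlab (by rw [← ly, ← h])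
  have n3 : s.mu F x ≠ y := fun h => hlab (by rw [← lx, h])
  have n4 : s.mu F x ≠ s.mu F y := fun h => hlab (by rw [← lx, ← ly, h])
  obtain ⟨K, hK, hKs, hxK, hmxK, hyK, hmyK⟩ :=
    hF.lace F hFD x (s.mu F x) y (s.mu F y) hx.2 hmx.2 hy.2 hmy.2 n1 n2 n3 n4 hl
  have hact := act_pair hF hG hC hW hX hFD hx hy hne
  obtain ⟨a1, a2⟩ := act_of_at hF hG hC hW hX hFD hx
  obtain ⟨-, c1, c2, c3, c4⟩ := jp_act hG hC hW (jp_of_at hF hG hC hX hFD hx)
  rw [c3] at c1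
  rw [c4] at c2
  -- heights of the points of the second sheet
  have hcoord : ∀ v, s.At F v → s.lab v = s.lab y → ∃ n : ℕ, U v (fam (s.lab x)) = n ∧
      (n = ⌊τ (s.lab x)⌋₊ ∨ n = ⌊τ (s.lab x)⌋₊ + 1) := by
    intro v hv hvl
    have jv := jp_of_at hF hG hC hX hFD hv
    obtain ⟨d0, -, -, -, -⟩ := jp_act hG hC hW jv
    rw [hvl] at d0
    have hnl : ¬ ⌊U v (fam (s.lab x))⌋₊ < ⌈U v (fam (s.lab x))⌉₊ := by
      intro h
      have : fam (s.lab x) ∈ {b | ⌊U v b⌋₊ < ⌈U v b⌉₊} := h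
      rw [d0] at this
      exact hne this
    obtain ⟨f1, -⟩ := flo_fix (hG.nn v jv.1 (fam (s.lab x))) hnl
    obtain ⟨-, -, h3⟩ := hG.sub hm.1 hd2 ((hF.on F hFD v).1 hv.2).1
    have h4 := h3 (fam (s.lab x))
    rw [a1, a2, f1] at h4
    have h5 : ⌊τ (s.lab x)⌋₊ ≤ ⌊U v (fam (s.lab x))⌋₊ := by exact_mod_cast h4.1
    have h6 : ⌊U v (fam (s.lab x))⌋₊ ≤ ⌊τ (s.lab x)⌋₊ + 1 := by exact_mod_cast h4.2
    exact ⟨_, f1, by omega⟩
  obtain ⟨n, hn, hn'⟩ := hcoord y hy rfl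
  obtain ⟨n₂, hn₂, hn₂'⟩ := hcoord (s.mu F y) hmy ly
  have hnn : n ≠ n₂ := by
    intro hnn
    have jy := jp_of_at hF hG hC hX hFD hy
    have jmy := jp_of_at hF hG hC hX hFD hmy
    obtain ⟨d0, d1, d2, d3, d4⟩ := jp_act hG hC hW jy
    obtain ⟨e0, e1, e2, e3, e4⟩ := jp_act hG hC hW jmy
    rw [ly] at e0 e1 e2 e3 e4 jmy
    have hmem : s.mu F y ∈ T.cc y := by
      rw [hG.cell y jy.1 (by rw [jy.2.1]; norm_num)]
      refine ⟨jmy.1, fun b => ?_⟩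
      by_cases hb : b = fam (s.lab y)
      · rw [hb, d3, d4, ← e3]
        refine ⟨Nat.floor_le (hG.nn _ jmy.1 _), ?_⟩
        rw [e3]
        have := Nat.le_ceil (U (s.mu F y) (fam (s.lab y)))
        rw [e4] at this
        exact this
      · have hi : ∀ v, s.At F v → s.lab v = s.lab y → b ≠ fam (s.lab x) →
            U v b = ⌊U (ct F) b⌋₊ := by
          intro v hv hvl hbx
          have hnl : ¬ ⌊U (ct F) b⌋₊ < ⌈U (ct F) b⌉₊ := by
            intro h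
            have : b ∈ {b | ⌊U (ct F) b⌋₊ < ⌈U (ct F) b⌉₊} := h
            rw [hact] at this
            rcases this with h | h
            · exact hbx h
            · exact hb h
          obtain ⟨-, f2⟩ := flo_fix (hG.nn _ hm.1 b) hnl
          obtain ⟨-, -, h3⟩ := hG.sub hm.1 hd2 ((hF.on F hFD v).1 hv.2).1
          have h4 := h3 b
          rw [f2] at h4
          exact le_antisymm h4.2 h4.1
        by_cases hbx : b = fam (s.lab x)
        · subst hbx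
          rw [hn, hn₂, hnn, Nat.floor_natCast, Nat.ceil_natCast]
          exact ⟨le_rfl, le_rfl⟩
        · rw [hi y hy rfl hbx, hi (s.mu F y) hmy ly hbx, Nat.floor_natCast, Nat.ceil_natCast]
          exact ⟨le_rfl, le_rfl⟩
    have := hC.one y jy.1 jy.2.1 (s.lab y) y (T.self_mem_cc y) (s.mu F y) hmem jy.2.2 jmy.2.2
    exact s.mu_ne hy.1 hy.2 this.symm
  -- the two points of the second sheet are on different sides of the first sheet
  have jy := jp_of_at hF hG hC hX hFD hy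
  have jmy := jp_of_at hF hG hC hX hFD hmy
  have hlow : ∀ v, s.At F v → U v (fam (s.lab x)) = (⌊τ (s.lab x)⌋₊ : ℕ) →
      g (s.lab x) v < t (s.lab x) := by
    intro v hv hvU
    have jv := jp_of_at hF hG hC hX hFD hv
    exact (side_cell hG hW hH jv.1 jv.2.1.le hvU c1.ne).1 c1 v (T.self_mem_cc v)
  have hup : ∀ v, s.At F v → U v (fam (s.lab x)) = ((⌊τ (s.lab x)⌋₊ + 1 : ℕ) : ℝ) →
      t (s.lab x) < g (s.lab x) v := by
    intro v hv hvU
    have jv := jp_of_at hF hG hC hX hFD hv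
    exact (side_cell hG hW hH jv.1 jv.2.1.le hvU c2.ne').2 c2 v (T.self_mem_cc v)
  have hcK : ContinuousOn (g (s.lab x)) K := (hH.cont (s.lab x)).mono fun z hz =>
    cc_sub_tile hG hm.1 hd2 (hKs z hz).1
  have key : ∃ z ∈ K, g (s.lab x) z = t (s.lab x) := by
    rcases hn' with h1 | h1 <;> rcases hn₂' with h2 | h2
    · exact absurd (h1.trans h2.symm) hnn
    · rw [h1] at hn
      rw [h2] at hn₂
      obtain ⟨z, hz, e⟩ := hK.intermediate_value hyK hmyK hcK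
        ⟨(hlow y hy hn).le, (hup _ hmy hn₂).le⟩
      exact ⟨z, hz, e⟩
    · rw [h1] at hn
      rw [h2] at hn₂
      obtain ⟨z, hz, e⟩ := hK.intermediate_value hmyK hyK hcK
        ⟨(hlow _ hmy hn₂).le, (hup y hy hn).le⟩
      exact ⟨z, hz, e⟩
    · exact absurd (h1.trans h2.symm) hnn
  obtain ⟨z, hz, hzt⟩ := key
  obtain ⟨hzc, hzd⟩ := hKs z hz
  have hzP : z ∈ P (T.H i₀) := cc_sub_tile hG hm.1 hd2 hzc
  have hzX : z ∈ X (s.lab x) := (hH.iff z hzP hzd _).2 hzt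
  have hz1 : T.dim z = 1 := by
    have h0 : T.dim z ≠ 0 := fun h0 => hW.vert z hzP h0 _ hzX
    omega
  have hzo : z ∈ M.On F := (hF.on F hFD z).2 ⟨hzc, hz1⟩
  obtain ⟨q1, q2⟩ := hfull F hFD z hzo hzX
  rcases eq_or_mu hF hG hC hX hFD hx ⟨q1, hzo⟩ q2 with h | h
  · exact hxK (h ▸ hz)
  · exact hmxK (h ▸ hz)

/-- the low ends of the chords of two sheets on a common face -/
theorem exists_xp (hH : HX T i₀ U fam τ X g t) (hX : OnX s D X) {F : Φ} (hFD : F ∈ D) {j j' : J}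
    (hne : fam j ≠ fam j') (hfull : Full s D X j) (hx : ∃ x, s.At F x ∧ s.lab x = j)
    (hy : ∃ y, s.At F y ∧ s.lab y = j') : ∃ x y, XP s F j j' x y := by
  have low : ∀ j, (∃ x, s.At F x ∧ s.lab x = j) → ∃ x, s.At F x ∧ s.lab x = j ∧
      M.pos F x < M.pos F (s.mu F x) := by
    rintro j ⟨x, h1, h2⟩
    have h3 : s.At F (s.mu F x) := s.mu_mem h1.1 h1.2
    have h4 := s.mu_ne h1.1 h1.2
    have h5 := s.mu_mu h1.1 h1.2
    rcases lt_trichotomy (M.pos F x) (M.pos F (s.mu F x)) with h | h | h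
    · exact ⟨x, h1, h2, h⟩
    · exact absurd (M.pos_inj F h1.2 h3.2 h).symm h4
    · exact ⟨s.mu F x, h3, by rw [s.mu_lab h1.1 h1.2, h2], by rw [h5]; exact h⟩
  obtain ⟨x, x1, x2, x3⟩ := low j hx
  obtain ⟨y, y1, y2, y3⟩ := low j' hy
  refine ⟨x, y, x1, y1, x2, y2, x3, y3, ?_⟩
  refine lace_core hF hG hC hW hH hX hFD x1 y1 (by rw [x2, y2]; exact hne) ?_
  rw [x2]; exact hfull

/-- low ends are unique -/
theorem xp_uniq (hX : OnX s D X) {F : Φ} (hFD : F ∈ D) {j j' : J} {x y x' y' : E}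
    (h : XP s F j j' x y) (h' : XP s F j j' x' y') : x = x' ∧ y = y' := by
  have key : ∀ {u v : E}, s.At F u → s.At F v → s.lab v = s.lab u →
      M.pos F u < M.pos F (s.mu F u) → M.pos F v < M.pos F (s.mu F v) → u = v := by
    intro u v hu hv hl p1 p2
    rcases eq_or_mu hF hG hC hX hFD hu hv hl with h | h
    · exact h.symm
    · rw [h, s.mu_mu hu.1 hu.2] at p2
      exact absurd p2 (lt_asymm p1)
  exact ⟨key h.ax h'.ax (by rw [h.lx, h'.lx]) h.px h'.px,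
    key h.ay h'.ay (by rw [h.ly, h'.ly]) h.py h'.py⟩

/-- **(E2)** : `x₀` = a point of the crossing square, `o` = the other heights there -/
theorem two_core (hH : HX T i₀ U fam τ X g t) (hX : OnX s D X) {A B : Set ι'}
    (hDB : ∀ F, (∃ q ∈ M.side F, q ∈ B) → F ∈ D) (hBD : ∀ F ∈ D, ∃ q ∈ M.side F, q ∈ B)
    {j j' : J} (hne : fam j ≠ fam j') (hfull : Full s D X j) (hfull' : Full s D X j')
    {x₀ : E} (hx₀ : x₀ ∈ P (T.H i₀)) (hd₀ : T.dim x₀ = 2) (o : C → ℕ)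
    (h1 : (⌊U x₀ (fam j)⌋₊ : ℝ) < τ j) (h2 : τ j < ⌈U x₀ (fam j)⌉₊)
    (h1' : (⌊U x₀ (fam j')⌋₊ : ℝ) < τ j') (h2' : τ j' < ⌈U x₀ (fam j')⌉₊)
    (ho : ∀ b, b ≠ fam j → b ≠ fam j' → U x₀ b = o b)
    (htch : ∀ F ∈ D, T.cc (ct F) = T.cc x₀ → Tch M A F)
    (huniq : ∀ F ∈ D, Tch M A F → ∀ x y, s.At F x → s.At F y → s.lab x = j → s.lab y = j' →
      ∀ b, b ≠ fam j → b ≠ fam j' → U (ct F) b = o b) : Two s A B j j' := by
  have hd2 : T.dim x₀ ≤ 2 := by omega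
  obtain ⟨F, hFD, hFx⟩ := hF.sur x₀ hx₀ hd₀
  have hon : ∀ j, (⌊U x₀ (fam j)⌋₊ : ℝ) < τ j → τ j < ⌈U x₀ (fam j)⌉₊ → Full s D X j →
      ∃ x, s.At F x ∧ s.lab x = j := by
    intro j a1 a2 hf
    obtain ⟨v, v1, v2, -⟩ := exists_jp hG hW hx₀ hd2 a1 a2
    have v3 := on_of_jp hF hG hC hFD hFx v2 v1
    obtain ⟨v4, v5⟩ := hf F hFD v v3 v2.2.2
    exact ⟨v, ⟨v4, v3⟩, v5⟩
  obtain ⟨x, y, hxy⟩ := exists_xp hF hG hC hW hH hX hFD hne hfull (hon j h1 h2 hfull)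
    (hon j' h1' h2' hfull')
  refine ⟨(F, x, y), ⟨hxy, htch F hFD hFx, hBD F hFD⟩, ?_⟩
  rintro ⟨G, x', y'⟩ ⟨hX', hT', hB'⟩
  simp only at hX' hT' hB'
  have hGD := hDB G hB'
  have hGF : G = F := by
    refine hF.inj G hGD F hFD ?_
    have mG := hF.mem G hGD
    have mF := hF.mem F hFD
    have hcoord : ∀ b, ⌊U (ct G) b⌋₊ = ⌊U x₀ b⌋₊ ∧ ⌈U (ct G) b⌉₊ = ⌈U x₀ b⌉₊ := by
      have hfl : ∀ i : J, (⌊U x₀ (fam i)⌋₊ : ℝ) < τ i → τ i < ⌈U x₀ (fam i)⌉₊ →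
          ⌊U x₀ (fam i)⌋₊ = ⌊τ i⌋₊ ∧ ⌈U x₀ (fam i)⌉₊ = ⌊τ i⌋₊ + 1 := by
        intro i a1 a2
        have h4 : ⌈U x₀ (fam i)⌉₊ ≤ ⌊U x₀ (fam i)⌋₊ + 1 := Nat.ceil_le_floor_add_one _
        have h4' : (⌈U x₀ (fam i)⌉₊ : ℝ) ≤ ⌊U x₀ (fam i)⌋₊ + 1 := by exact_mod_cast h4
        have h5 : ⌊τ i⌋₊ = ⌊U x₀ (fam i)⌋₊ := by
          rw [Nat.floor_eq_iff ((Nat.cast_nonneg _).trans a1.le)]
          exact ⟨a1.le, a2.trans_le h4'⟩
        refine ⟨h5.symm, ?_⟩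
        rw [h5]
        refine le_antisymm h4 ?_
        have : (⌊U x₀ (fam i)⌋₊ : ℝ) < ⌈U x₀ (fam i)⌉₊ := a1.trans a2
        exact_mod_cast this
      intro b
      by_cases hb : b = fam j
      · have k1 := act_of_at hF hG hC hW hX hGD hX'.ax
        rw [hX'.lx] at k1
        have k2 := hfl j h1 h2
        rw [hb, k1.1, k1.2, k2.1, k2.2]; exact ⟨rfl, rfl⟩
      by_cases hb' : b = fam j'
      · have k1 := act_of_at hF hG hC hW hX hGD hX'.ay
        rw [hX'.ly] at k1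
        have k2 := hfl j' h1' h2'
        rw [hb', k1.1, k1.2, k2.1, k2.2]; exact ⟨rfl, rfl⟩
      · rw [huniq G hGD hT' x' y' hX'.ax hX'.ay hX'.lx hX'.ly b hb hb', ho b hb hb']
        exact ⟨rfl, rfl⟩
    rw [hFx, hG.cell (ct G) mG.1 (by omega), hG.cell x₀ hx₀ hd2]
    ext z
    simp only [mem_ofPred_eq]
    refine and_congr_right fun _ => forall_congr' fun b => ?_
    rw [(hcoord b).1, (hcoord b).2]
  subst hGF
  obtain ⟨e1, e2⟩ := xp_uniq hF hG hC hW hX hGD hX' hxy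
  rw [e1, e2]

end state

end abstr

end Crest.Agent.R096.Rone_847
end

-- ▼ part R096/Rone3_847
section

/-! Row 96 (helper847), TYPE R (exact core tiles), part 3: the abstract data of `Rone1`, `Rone2` from
the exact cores and words of `Mbf_337`. -/

set_option autoImplicit false
set_option linter.unusedSectionVars false
set_option linter.style.longLine false

open Set Topology Filter

namespace Crest.Agent.R096.Rone_847

open Crest.Agent.R096.Bsp_628 Crest.Agent.R096.Brk1_582 Crest.Agent.R096.Brk2_582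
  Crest.Agent.R096.Brk3_582 Crest.Agent.R096.Brk5_582 Crest.Agent.R096.Coh_184
  Crest.Agent.R096.Msh_715 Crest.Agent.R096.St_147 Crest.Agent.R096.Seq_213
  Crest.Agent.R096.Ecm_446 Crest.Agent.R096.SkB_662 Crest.Agent.R096.Agl5_543
  Crest.Agent.R096.Agl4_543
open Crest.Agent.R096.SkC1_961 (E3 Hom3 IsPush FoamD Cfg th)
open Crest.Agent.R096.Mbf_337

/-! ### the faces of a tile of `meshC` -/

section fd

variable {E : Type} [NormedAddCommGroup E] [NormedSpace ℝ E] [FiniteDimensional ℝ E]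
variable {Om : Set E} {ι : Type} (T : Tiling Om ι)


end fd

/-! ### partial rounding in the cube complex -/

section cube

variable {E : Type*} [NormedAddCommGroup E] [NormedSpace ℝ E] {I : Type*} {P : I → Set E}
  {u : I → ℝ} {M : ℕ}

open Classical in
/-- rounding down all coordinates except one -/
theorem mix_mem_K (hM : 0 < M) (hu : u ∈ K P) (a₀ : I) :
    (fun a => if a = a₀ then u a else (⌊(M : ℝ) * u a⌋₊ : ℝ) / M) ∈ K P := by
  obtain ⟨h1, ⟨c, hc⟩, h3⟩ := hu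
  have hM' : (0 : ℝ) < M := by exact_mod_cast hM
  have h0 : ∀ a, 0 ≤ (M : ℝ) * u a := fun a => mul_nonneg hM'.le (h1 a).1
  have hle : ∀ a, (⌊(M : ℝ) * u a⌋₊ : ℝ) / M ≤ u a := fun a => by
    rw [div_le_iff₀ hM', mul_comm (u a)]
    exact Nat.floor_le (h0 a)
  refine ⟨fun a => ?_, ⟨c, ?_⟩, ?_⟩
  · show 0 ≤ (if a = a₀ then u a else (⌊(M : ℝ) * u a⌋₊ : ℝ) / M) ∧
      (if a = a₀ then u a else (⌊(M : ℝ) * u a⌋₊ : ℝ) / M) ≤ 1
    by_cases h : a = a₀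
    · rw [if_pos h]; exact h1 a
    · rw [if_neg h]; exact ⟨by positivity, (hle a).trans (h1 a).2⟩
  · show (if c = a₀ then u c else (⌊(M : ℝ) * u c⌋₊ : ℝ) / M) = 0
    by_cases h : c = a₀
    · rw [if_pos h, hc]
    · rw [if_neg h, hc, mul_zero, Nat.floor_zero, Nat.cast_zero, zero_div]
  · have e : {a | (if a = a₀ then u a else (⌊(M : ℝ) * u a⌋₊ : ℝ) / M) < 1} = {a | u a < 1} := by
      ext a
      simp only [mem_ofPred_eq]
      by_cases h' : a = a₀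
      · rw [if_pos h']
      · rw [if_neg h']
        constructor
        · intro h
          by_contra hn
          have h5 : u a = 1 := le_antisymm (h1 a).2 (not_lt.1 hn)
          rw [h5, mul_one, Nat.floor_natCast, div_self hM'.ne'] at h
          exact lt_irrefl _ h
        · exact fun h => (hle a).trans_lt h
    rw [e]
    exact h3

end cube

section core

variable {δ κ0 R c0 : ℝ} {La Om : Set E3} {ι : Type} {Φ : FoamD δ κ0 R c0 La} {T : Tiling Om ι}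
  {f : E3 → E3}

/-- the level sets of the machine -/
def XL (Φ : FoamD δ κ0 R c0 La) (f : E3 → E3) {J : Type} (fam : J → Φ.F) (t : J → ℝ) (j : J) :
    Set E3 := {y | Φ.lev (fam j) (f y) = t j}

/-- their inside -/
def VL (Φ : FoamD δ κ0 R c0 La) (f : E3 → E3) {J : Type} (fam : J → Φ.F) (t : J → ℝ) (j : J) :
    Set E3 := {y | Φ.lev (fam j) (f y) < t j}

/-- heights on the core `c` -/
noncomputable abbrev Uc (Φ : FoamD δ κ0 R c0 La) (A : Φ.F → E3 ≃ᵃ[ℝ] E3) (lam : Φ.F → ℝ)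
    (z : Φ.F → E3) (M : Φ.F → ℕ) (c : Φ.F) : E3 → Φ.F → ℝ := U Φ (A c) (lam c) (z c) (M c)

theorem finE3 : Module.finrank ℝ E3 = 3 := by simp

/-- points of a tile of dimension at most two are not inner points -/
theorem dim_le_two_iff {i : ι} {x : E3} (hx : x ∈ P (T.H i)) : T.dim x ≤ 2 ↔ x ∉ I (T.H i) := by
  constructor
  · exact fun h => not_I_of_dim hx h
  · intro h
    by_contra hd
    have h1 := T.dim_le_finrank x
    rw [finE3] at h1
    have h2 : T.dim x = 3 := by omega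
    have h4 : T.V x = ⊤ := by
      apply Submodule.eq_top_of_finrank_eq
      rw [finE3]
      exact h2
    obtain ⟨m, hm⟩ := (T.V_eq_top_iff (T.sub i hx)).1 h4
    by_cases e : m = i
    · exact h (e ▸ hm)
    · exact (Init_543.not_mem_I (Ne.symm e) hx hm).elim

variable {κ1 κ2 : ℝ} {X : Set Φ.F} {ct : Φ.F → ι} {A : Φ.F → E3 ≃ᵃ[ℝ] E3} {lam : Φ.F → ℝ}
  {z : Φ.F → E3} {M : Φ.F → ℕ} {L : Φ.F → Finset ℝ} {c : Φ.F}

theorem continuous_th (A : E3 ≃ᵃ[ℝ] E3) (lam : ℝ) (z : E3) : Continuous (th A lam z) := by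
  have h1 : Continuous A := A.continuous_of_finiteDimensional
  unfold th
  fun_prop

variable (hLa : IsOpen La) (hc : c ∈ X)
  (hE : Exact Φ T f κ1 κ2 c (ct c) (A c) (lam c) (z c)) (W : Words Φ T f X ct A lam z M L)
include hLa hc hE W

theorem cg_core : CG T (ct c) (Uc Φ A lam z M c) := cg_of_grid hLa hE (W.grid c hc)

omit hLa hE in
theorem cw_core {J : Type} {fam : J → Φ.F} {t : J → ℝ} (ht : ∀ j, t j ∈ L (fam j)) :
    CW T (ct c) (Uc Φ A lam z M c) fam (fun j => M c * t j) (XL Φ f fam t) (VL Φ f fam t) :=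
  cw_of_words W hc (W.grid c hc).1 ht

/-- **crossing words** -/
theorem wx_core {J : Type} {fam : J → Φ.F} {t : J → ℝ} (ht : ∀ j, t j ∈ L (fam j))
    (hv : ∀ j, ∀ x ∈ Om, T.dim x = 0 → Φ.lev (fam j) (f x) ≠ t j) :
    WX T (ct c) (Uc Φ A lam z M c) fam (fun j => M c * t j) (XL Φ f fam t) := by
  have hG := cg_core hLa hc hE W
  have hM : 0 < M c := (W.grid c hc).1
  have hM' : (0 : ℝ) < M c := by exact_mod_cast hM
  have F := foamΦ hLa Φ
  refine ⟨?_, ?_, ?_, ?_⟩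
  · intro v hvP h0 j hX
    exact hv j v (T.sub _ hvP) h0 hX
  · intro x hx h1 j
    have hxO : x ∈ Om := T.sub _ hx
    obtain ⟨a, b, hab, e, eo, -, -, ha, hb⟩ := T.edge_eq hxO h1
    obtain ⟨-, -, -, -, w1, w2⟩ := W.word c hc x hx h1 (fam j) (t j) (ht j) a b e
    have ka := (hG.sub hx (by omega) ha).2.2 (fam j)
    have kb := (hG.sub hx (by omega) hb).2.2 (fam j)
    have hU : ∀ y, Uc Φ A lam z M c y (fam j) = M c * sb Φ (th (A c) (lam c) (z c) y) (fam j) :=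
      fun _ => rfl
    constructor
    · rintro ⟨y, hy, hyX⟩
      have hcr : (sb Φ (th (A c) (lam c) (z c) a) (fam j) < t j ∧
          t j < sb Φ (th (A c) (lam c) (z c) b) (fam j)) ∨
          (sb Φ (th (A c) (lam c) (z c) b) (fam j) < t j ∧
          t j < sb Φ (th (A c) (lam c) (z c) a) (fam j)) := by
        by_contra hno
        exact w2 hno y hy hyX
      rcases hcr with ⟨s1, s2⟩ | ⟨s1, s2⟩
      · have s1' := mul_lt_mul_of_pos_left s1 hM'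
        have s2' := mul_lt_mul_of_pos_left s2 hM'
        rw [← hU] at s1' s2'
        exact ⟨ka.1.trans_lt s1', s2'.trans_le kb.2⟩
      · have s1' := mul_lt_mul_of_pos_left s1 hM'
        have s2' := mul_lt_mul_of_pos_left s2 hM'
        rw [← hU] at s1' s2'
        exact ⟨kb.1.trans_lt s1', s2'.trans_le ka.2⟩
    · rintro ⟨s1, s2⟩
      have hend : ∀ y ∈ T.cc x, T.dim y = 0 → y = a ∨ y = b := by
        intro y hy h0
        by_contra hno
        push Not at hno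
        have h2 : y ∈ T.oc x := by
          rw [eo]
          rw [e] at hy
          exact mem_openSegment_of_ne_left_right (Ne.symm hno.1) (Ne.symm hno.2) hy
        have := T.dim_eq_of_mem_oc hxO h2
        omega
      obtain ⟨p, hp, hp0, hpU⟩ := hG.exists_lo hx (by omega)
      obtain ⟨r, hr, hr0, hrU⟩ := hG.exists_hi hx (by omega)
      have hpj := hpU (fam j)
      have hrj := hrU (fam j)
      have hpl : Uc Φ A lam z M c p (fam j) < M c * t j := by rw [hpj]; exact s1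
      have hrl : M c * t j < Uc Φ A lam z M c r (fam j) := by rw [hrj]; exact s2
      rw [hU] at hpl hrl
      have hpl' := lt_of_mul_lt_mul_left hpl hM'.le
      have hrl' := lt_of_mul_lt_mul_left hrl hM'.le
      have hcr : (sb Φ (th (A c) (lam c) (z c) a) (fam j) < t j ∧
          t j < sb Φ (th (A c) (lam c) (z c) b) (fam j)) ∨
          (sb Φ (th (A c) (lam c) (z c) b) (fam j) < t j ∧
          t j < sb Φ (th (A c) (lam c) (z c) a) (fam j)) := by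
        rcases hend p hp hp0 with h | h <;> rcases hend r hr hr0 with h' | h'
        · rw [h] at hpl'; rw [h'] at hrl'; exact absurd hpl' (lt_asymm hrl')
        · rw [h] at hpl'; rw [h'] at hrl'; exact Or.inl ⟨hpl', hrl'⟩
        · rw [h] at hpl'; rw [h'] at hrl'; exact Or.inr ⟨hpl', hrl'⟩
        · rw [h] at hpl'; rw [h'] at hrl'; exact absurd hpl' (lt_asymm hrl')
      obtain ⟨y, hy, -⟩ := w1 hcr
      exact ⟨y, hy.1, hy.2⟩
  · intro a
    have h1 : ContinuousOn (fun y => sc (Pc Φ.F) (bc (F := Φ.F)) y a) La :=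
      continuousOn_sc_apply F a
    have h2 : ContinuousOn (fun x => sb Φ (th (A c) (lam c) (z c) x) a) (P (T.H (ct c))) :=
      h1.comp (continuous_th _ _ _).continuousOn fun x hx => th_La hE hx
    exact continuousOn_const.mul h2
  · intro x hx hd a
    classical
    have hK : sb Φ (th (A c) (lam c) (z c) x) ∈ K (Pc Φ.F) := F.sc_mem_K (th_La hE hx)
    have hcz : sb Φ (th (A c) (lam c) (z c) x) c = 0 :=
      (F.sc_eq_zero (th_La hE hx)).2 ((Ecm_446.th_mem hE).1 hx)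
    obtain ⟨y, hy, h1⟩ := exists_pt hLa hE (mix_mem_K hM hK a) (by
      by_cases h : c = a
      · rw [if_pos h, hcz]
      · rw [if_neg h, hcz]; simp)
    refine ⟨y, hy, ?_, fun b hb => ?_⟩
    · show (M c : ℝ) * _ = M c * _
      rw [h1 a, if_pos rfl]
    · show (M c : ℝ) * sb Φ (th (A c) (lam c) (z c) y) b = _
      rw [h1 b, if_neg hb]
      field_simp
      rfl


omit hLa hE in
/-- **continuous heights** -/
theorem hx_core {J : Type} {fam : J → Φ.F} {t : J → ℝ} (ht : ∀ j, t j ∈ L (fam j))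
    {g : J → E3 → ℝ} (hg : ∀ j, ContinuousOn (g j) Om)
    (hgl : ∀ j, ∀ x ∈ Om, T.dim x ≤ 1 → g j x = Φ.lev (fam j) (f x)) :
    HX T (ct c) (Uc Φ A lam z M c) fam (fun j => M c * t j) (XL Φ f fam t) g t := by
  have hM : 0 < M c := (W.grid c hc).1
  have hM' : (0 : ℝ) < M c := by exact_mod_cast hM
  refine ⟨fun j => (hg j).mono fun x hx => T.sub _ hx, ?_, ?_⟩
  · intro v hv hd j
    rw [hgl j v (T.sub _ hv) hd]
    exact Iff.rfl
  · intro v hv hd j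
    rw [hgl j v (T.sub _ hv) (by omega), W.sign c hc v hv hd (fam j) (t j) (ht j)]
    show _ ↔ (M c : ℝ) * _ < M c * t j
    rw [mul_lt_mul_iff_right₀ hM']

end core

end Crest.Agent.R096.Rone_847
end

-- ▼ part R096/Rone4_847
section

/-! Row 96 (helper847), TYPE R (exact core tiles), part 4: `One`, `Two`, `NI` at the exact core tiles
for the states of INIT. -/

set_option autoImplicit false
set_option linter.unusedSectionVars false
set_option linter.style.longLine false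

open Set Topology Filter

namespace Crest.Agent.R096.Rone_847

open Crest.Agent.R096.Bsp_628 Crest.Agent.R096.Brk1_582 Crest.Agent.R096.Brk2_582
  Crest.Agent.R096.Brk3_582 Crest.Agent.R096.Brk5_582 Crest.Agent.R096.Coh_184
  Crest.Agent.R096.Lab_184
  Crest.Agent.R096.Msh_715 Crest.Agent.R096.St_147 Crest.Agent.R096.Seq_213
  Crest.Agent.R096.Ecm_446 Crest.Agent.R096.SkB_662 Crest.Agent.R096.Agl5_543
  Crest.Agent.R096.Agl4_543 Crest.Agent.R096.Ginv_543 Crest.Agent.R096.Init_543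
  Crest.Agent.R096.Main_4 Crest.Agent.R096.Leaf_965
open Crest.Agent.R096.SkC1_961 (E3 Hom3 IsPush FoamD Cfg th)
open Crest.Agent.R096.Mbf_337

/-! ### from the labels to `Full` -/

section lab

variable {E : Type} [NormedAddCommGroup E] [NormedSpace ℝ E] [FiniteDimensional ℝ E]
variable {Om : Set E} {ι J C : Type} {T : Tiling Om ι} {h3 : Module.finrank ℝ E = 3} {i₀ : ι}
  {U : E → C → ℝ} {fam : J → C} {τ : J → ℝ} {X V : J → Set E}
  {s : GSt (meshC T h3) fam}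




end lab

section mach

variable {δ κ0 R c0 : ℝ} {La Om : Set E3} {ι : Type} {Φ : FoamD δ κ0 R c0 La} {T : Tiling Om ι}
  {f : E3 → E3}
variable {κ1 κ2 : ℝ} {X : Set Φ.F} {J0 J V : Φ.F → Set ι} {ct : Φ.F → ι}
  {A : Φ.F → E3 ≃ᵃ[ℝ] E3} {lam : Φ.F → ℝ} {z : Φ.F → E3} {θ : Φ.F → E3 → E3}
  {φ : Φ.F → E3 → ℝ} {M : Φ.F → ℕ} {L : Φ.F → Finset ℝ} {c : Φ.F}

/-- active tiles (levels of the machine) -/
def ActL (Φ : FoamD δ κ0 R c0 La) (T : Tiling Om ι) (f : E3 → E3) (J0 : Φ.F → Set ι) (s : ℝ)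
    (k : QK (Pc Φ.F)) : Set ι :=
  {q | (∀ c, q ∉ J0 c) ∧ ∃ x ∈ Msh_715.P (T.H q), (∀ a ∈ k.B, Φ.lev a (f x) ∈ Icc s (1 - s)) ∧
    ∀ c ∈ k.Z, Φ.lev c (f x) = 0}


/-- the exact core tile and a hole tile of another core have no common point -/
theorem not_J0 (hC : Cores Φ T f κ1 κ2 X J0 J V ct A lam z θ φ) (hc : c ∈ X) {q : ι}
    (hq : q ≠ ct c) {x : E3} (hx : x ∈ P (T.H (ct c))) (hxq : x ∈ P (T.H q)) (c' : Φ.F) :
    q ∉ J0 c' := by
  intro hJ
  by_cases hcc : c' = c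
  · subst hcc
    rw [(hC.one c' hc).1] at hJ
    exact hq hJ
  have h1 := (hC.exact_ c hc).inside x hx
  have h2 : ∀ k, c'.1.lo k < f x k ∧ f x k < c'.1.hi k := by
    by_cases hc' : c' ∈ X
    · rw [(hC.one c' hc').1] at hJ
      rw [mem_singleton_iff.1 hJ] at hxq
      exact (hC.exact_ c' hc').inside x hxq
    · have hT := hC.tiny c' hc'
      exact hT.inside x (mem_biUnion (hT.sub (hT.sub0 hJ)) hxq)
  obtain ⟨k, hk⟩ := Φ.bf.inv.disj c'.2 c.2 (Φ.bf.pos _ c'.2) (Φ.bf.pos _ c.2)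
    (fun h => hcc (Subtype.ext h))
  have a1 := h1 k
  have a2 := h2 k
  rcases hk with hk | hk
  · linarith [a1.1, a2.2]
  · linarith [a1.2, a2.1]

variable (hLa : IsOpen La) (hδ : 0 < δ) (hR0 : 0 < R) (h0 : 0 ≤ κ1) (h2 : 0 < κ2)
  (h12 : 2 * κ0 * κ1 ≤ κ2)
include hLa hδ hR0 h0 h2 h12

/-- closeness -/
theorem close_c (hE : Exact Φ T f κ1 κ2 c (ct c) (A c) (lam c) (z c)) {w : E3}
    (hw : w ∈ P (T.H (ct c))) (hwI : w ∉ I (T.H (ct c))) (e : Φ.F) :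
    |Φ.lev e (f w) - sb Φ (th (A c) (lam c) (z c) w) e| ≤ Chl δ κ0 R c0 κ2 * κ1 := by
  have := Hlf_847.close_lev hE hLa hδ hR0 h0 h2 h12 hw hwI e
  unfold Chl
  linarith

/-- **over the exact square of a quad the neighbour tiles are active** -/
theorem act_square (hC : Cores Φ T f κ1 κ2 X J0 J V ct A lam z θ φ) (hc : c ∈ X)
    (k : QK (Pc Φ.F)) {a a' : Φ.F} (haa : a ≠ a') (hB : k.B = {a, a'}) {μ s : ℝ} (hs0 : 0 < s)
    (hs : s + Chl δ κ0 R c0 κ2 * κ1 ≤ μ) (hη : Chl δ κ0 R c0 κ2 * κ1 < 1) {x : E3}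
    (hx : x ∈ P (T.H (ct c))) (hxI : x ∉ I (T.H (ct c)))
    (ha : sb Φ (th (A c) (lam c) (z c) x) a ∈ Icc μ (1 - μ))
    (ha' : sb Φ (th (A c) (lam c) (z c) x) a' ∈ Icc μ (1 - μ))
    (hZ : ∀ e ∈ k.Z, sb Φ (th (A c) (lam c) (z c) x) e = 0) {q : ι} (hq : q ≠ ct c)
    (hxq : x ∈ P (T.H q)) : q ∈ ActL Φ T f J0 s k := by
  have hE := hC.exact_ c hc
  have F := foamΦ hLa Φ
  have hcl := fun e => abs_le.1 (close_c hLa hδ hR0 h0 h2 h12 hE hx hxI e)
  have haZ : a ∉ k.Z := fun h => disjoint_left.1 k.dis (by rw [hB]; exact Or.inl rfl) h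
  have haZ' : a' ∉ k.Z := fun h => disjoint_left.1 k.dis (by rw [hB]; exact Or.inr rfl) h
  have e1 : Φ.lev a (f x) ∈ Icc s (1 - s) := ⟨by linarith [(hcl a).1, ha.1],
    by linarith [(hcl a).2, ha.2]⟩
  have e2 : Φ.lev a' (f x) ∈ Icc s (1 - s) := ⟨by linarith [(hcl a').1, ha'.1],
    by linarith [(hcl a').2, ha'.2]⟩
  obtain ⟨w1, w2⟩ := Hlf_847.Psi_wall hE hLa h0 h2 h12 hx hxI
  obtain ⟨q1, q2, q3⟩ := quad_at F haa k.cZ haZ haZ' w1 w2
    (show Φ.lev a (f x) ∈ Ioo (0 : ℝ) 1 from ⟨by linarith [e1.1], by linarith [e1.2]⟩)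
    (show Φ.lev a' (f x) ∈ Ioo (0 : ℝ) 1 from ⟨by linarith [e2.1], by linarith [e2.2]⟩)
    (fun e he => by
      show Φ.lev e (f x) < 1
      have := (hcl e).2
      rw [hZ e he] at this
      linarith)
  refine ⟨not_J0 hC hc hq hx hxq, x, hxq, ?_, fun e he => ?_⟩
  · rw [hB]
    rintro b (rfl | rfl)
    · exact e1
    · exact e2
  · exact (F.sc_eq_zero (F.sub c w1)).2 (q2 e he)



end mach

end Crest.Agent.R096.Rone_847
end

-- ▼ part R096/Rone5_847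
section

/-! Row 96 (helper847), TYPE R (exact core tiles), part 5: `Two` and `NI` for states with the levels
of the machine. -/

set_option autoImplicit false
set_option linter.unusedSectionVars false
set_option linter.style.longLine false

open Set Topology Filter

namespace Crest.Agent.R096.Rone_847

open Crest.Agent.R096.Bsp_628 Crest.Agent.R096.Brk1_582 Crest.Agent.R096.Brk2_582
  Crest.Agent.R096.Brk3_582 Crest.Agent.R096.Brk5_582 Crest.Agent.R096.Coh_184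
  Crest.Agent.R096.Lab_184
  Crest.Agent.R096.Msh_715 Crest.Agent.R096.St_147 Crest.Agent.R096.Seq_213
  Crest.Agent.R096.Ecm_446 Crest.Agent.R096.SkB_662 Crest.Agent.R096.Agl5_543
  Crest.Agent.R096.Agl4_543 Crest.Agent.R096.Ginv_543 Crest.Agent.R096.Init_543
  Crest.Agent.R096.Main_4 Crest.Agent.R096.Leaf_965
open Crest.Agent.R096.SkC1_961 (E3 Hom3 IsPush FoamD Cfg th)
open Crest.Agent.R096.Mbf_337

section mach

variable {δ κ0 R c0 : ℝ} {La Om : Set E3} {ι : Type} {Φ : FoamD δ κ0 R c0 La} {T : Tiling Om ι}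
  {f : E3 → E3}
variable {κ1 κ2 : ℝ} {X : Set Φ.F} {J0 J V : Φ.F → Set ι} {ct : Φ.F → ι}
  {A : Φ.F → E3 ≃ᵃ[ℝ] E3} {lam : Φ.F → ℝ} {z : Φ.F → E3} {θ : Φ.F → E3 → E3}
  {φ : Φ.F → E3 → ℝ} {M : Φ.F → ℕ} {L : Φ.F → Finset ℝ} {c : Φ.F}

section pts

variable (hLa : IsOpen La) (hE : Exact Φ T f κ1 κ2 c (ct c) (A c) (lam c) (z c))
include hLa hE

/-- the point of the exact tile with given coordinates in the square of a quad -/
theorem exists_sq {k : QK (Pc Φ.F)} (hcZ : c ∈ k.Z) {a a' : Φ.F} (haa : a ≠ a')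
    (hB : k.B = {a, a'}) {s t : ℝ} (hs : s ∈ Ioo (0 : ℝ) 1) (ht : t ∈ Ioo (0 : ℝ) 1) :
    ∃ x ∈ P (T.H (ct c)), x ∉ I (T.H (ct c)) ∧ sb Φ (th (A c) (lam c) (z c) x) a = s ∧
      sb Φ (th (A c) (lam c) (z c) x) a' = t ∧
      (∀ e ∈ k.Z, sb Φ (th (A c) (lam c) (z c) x) e = 0) ∧
      ∀ e, e ≠ a → e ≠ a' → e ∉ k.Z → sb Φ (th (A c) (lam c) (z c) x) e = 1 := by
  have F := foamΦ hLa Φ
  have haZ : a ∉ k.Z := fun h => disjoint_left.1 k.dis (by rw [hB]; exact Or.inl rfl) h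
  have haZ' : a' ∉ k.Z := fun h => disjoint_left.1 k.dis (by rw [hB]; exact Or.inr rfl) h
  have hZf : k.Z.Finite := Set.finite_of_ncard_ne_zero (by rw [k.cZ]; norm_num)
  have hcard : (insert a (insert a' k.Z)).ncard = 4 := by
    rw [ncard_insert_of_notMem _ (hZf.insert a'), ncard_insert_of_notMem haZ' hZf, k.cZ]
    rintro (h | h)
    · exact haa h
    · exact haZ h
  have hfc : (fc (Pc Φ.F) (insert a (insert a' k.Z))).Nonempty := by
    have := k.ne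
    rw [hB, insert_union, singleton_union] at this
    exact this
  obtain ⟨y, ⟨hyL, hyZ, hya, hya'⟩, -⟩ := Exc_965.quad_point F (Z := k.Z) ⟨c, hcZ⟩ hcard hfc haa
    haZ haZ' hs.1.le hs.2 ht.1.le ht.2
  obtain ⟨x, hx, hxy⟩ := exists_pre hE (hyZ c hcZ)
  obtain ⟨e, he, hec⟩ : ∃ e ∈ k.Z, e ≠ c := by
    by_contra hno
    push Not at hno
    have h1 : k.Z ⊆ {c} := fun e he => hno e he
    have := ncard_le_ncard h1
    rw [k.cZ, ncard_singleton] at this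
    omega
  have hy2 : ∃ e, e ≠ c ∧ y ∈ Pc Φ.F e := ⟨e, hec, hyZ e he⟩
  have hsc0 : ∀ e ∈ k.Z, sc (Pc Φ.F) (bc (F := Φ.F)) y e = 0 := fun e he =>
    (F.sc_eq_zero hyL).2 (hyZ e he)
  obtain ⟨-, -, q3⟩ := quad_at F haa k.cZ haZ haZ' (hyZ c hcZ) hy2 (by rw [hya]; exact hs)
    (by rw [hya']; exact ht) (fun e he => by rw [hsc0 e he]; exact one_pos)
  refine ⟨x, hx, (not_mem_I_iff hE hLa hx).2 (by rw [hxy]; exact hy2), ?_, ?_, ?_, ?_⟩
  · show sc (Pc Φ.F) (bc (F := Φ.F)) (th (A c) (lam c) (z c) x) a = s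
    rw [hxy]; exact hya
  · show sc (Pc Φ.F) (bc (F := Φ.F)) (th (A c) (lam c) (z c) x) a' = t
    rw [hxy]; exact hya'
  · intro e he
    show sc (Pc Φ.F) (bc (F := Φ.F)) (th (A c) (lam c) (z c) x) e = 0
    rw [hxy]; exact hsc0 e he
  · intro e h1 h2 h4
    show sc (Pc Φ.F) (bc (F := Φ.F)) (th (A c) (lam c) (z c) x) e = 1
    rw [hxy]; exact q3 e h1 h2 h4

/-- the used levels are not levels of the grid -/
theorem nonint (hc : c ∈ X) (W : Words Φ T f X ct A lam z M L) {k : QK (Pc Φ.F)} (hcZ : c ∈ k.Z)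
    {a a' : Φ.F} (haa : a ≠ a') (hB : k.B = {a, a'}) {t : ℝ} (ht : t ∈ Ioo (0 : ℝ) 1)
    (htL : t ∈ L a) (n : ℕ) : (M c : ℝ) * t ≠ n := by
  intro hn
  have hM : 0 < M c := (W.grid c hc).1
  have hM' : (0 : ℝ) < M c := by exact_mod_cast hM
  have hM1 : (1 : ℝ) ≤ M c := by exact_mod_cast hM
  have hG := cg_core hLa hc hE W
  obtain ⟨x, hx, hxI, xa, xa', xZ, xo⟩ := exists_sq hLa hE hcZ haa hB (s := t)
    (t := 1 / 2 / M c) ht ⟨by positivity, by rw [div_lt_one hM']; linarith⟩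
  have hd := (dim_le_two_iff hx).2 hxI
  have hU : ∀ y e, Uc Φ A lam z M c y e = M c * sb Φ (th (A c) (lam c) (z c) y) e :=
    fun _ _ => rfl
  have ua : Uc Φ A lam z M c x a = n := by rw [hU, xa, hn]
  have ua' : Uc Φ A lam z M c x a' = 1 / 2 := by rw [hU, xa']; field_simp
  have hact : {b | ⌊Uc Φ A lam z M c x b⌋₊ < ⌈Uc Φ A lam z M c x b⌉₊} = {a'} := by
    ext b
    simp only [mem_ofPred_eq, mem_singleton_iff]
    constructor
    · intro h
      by_contra hb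
      by_cases hb1 : b = a
      · rw [hb1, ua, Nat.floor_natCast, Nat.ceil_natCast] at h
        exact lt_irrefl _ h
      by_cases hb2 : b ∈ k.Z
      · rw [hU, xZ b hb2, mul_zero] at h
        simp at h
      · rw [hU, xo b hb1 hb hb2, mul_one, Nat.floor_natCast, Nat.ceil_natCast] at h
        exact lt_irrefl _ h
    · rintro rfl
      rw [ua']
      have h1 : ⌊(1 / 2 : ℝ)⌋₊ = 0 := by
        rw [Nat.floor_eq_zero]; norm_num
      rw [h1]
      exact Nat.ceil_pos.2 (by norm_num)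
  have hd1 : T.dim x = 1 := by rw [hG.dim x hx hd, hact, ncard_singleton]
  obtain ⟨p, r, -, e, -, -, -, hp, -⟩ := T.edge_eq (T.sub _ hx) hd1
  obtain ⟨w1, -⟩ := W.word c hc x hx hd1 a t htL p r e
  apply w1
  have h3 := (hG.sub hx hd hp).2.2 a
  rw [ua, Nat.floor_natCast, Nat.ceil_natCast] at h3
  have h4 := le_antisymm h3.2 h3.1
  rw [hU, ← hn] at h4
  exact mul_left_cancel₀ hM'.ne' h4

end pts

/-- a coordinate which is active on the tile is strictly between 0 and 1 -/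
theorem sb_Ioo (hLa : IsOpen La) (hE : Exact Φ T f κ1 κ2 c (ct c) (A c) (lam c) (z c)) {x : E3}
    (hx : x ∈ P (T.H (ct c))) {a : Φ.F}
    (h : ⌊Uc Φ A lam z M c x a⌋₊ < ⌈Uc Φ A lam z M c x a⌉₊) :
    sb Φ (th (A c) (lam c) (z c) x) a ∈ Ioo (0 : ℝ) 1 := by
  have F := foamΦ hLa Φ
  have hL := th_La hE hx
  have hU : Uc Φ A lam z M c x a = M c * sb Φ (th (A c) (lam c) (z c) x) a := rfl
  constructor
  · refine lt_of_le_of_ne (F.sc_nonneg hL a) fun h0 => ?_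
    have h1 : sb Φ (th (A c) (lam c) (z c) x) a = 0 := h0.symm
    rw [hU, h1, mul_zero] at h
    simp at h
  · refine lt_of_le_of_ne (F.sc_le_one hL a) fun h0 => ?_
    have h1 : sb Φ (th (A c) (lam c) (z c) x) a = 1 := h0
    rw [hU, h1, mul_one, Nat.floor_natCast, Nat.ceil_natCast] at h
    exact lt_irrefl _ h

theorem fl_of_nonint {r : ℝ} (h0 : 0 ≤ r) (h : ∀ n : ℕ, r ≠ n) :
    (⌊r⌋₊ : ℝ) < r ∧ r < ⌈r⌉₊ :=
  ⟨lt_of_le_of_ne (Nat.floor_le h0) (h _).symm, lt_of_le_of_ne (Nat.le_ceil r) (h _)⟩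

variable {JJ' : Type} {fam : JJ' → Φ.F} {t : JJ' → ℝ} {s : GSt (meshC T finE3) fam}




end mach

end Crest.Agent.R096.Rone_847
end

-- ▼ part R096/Rtw1_847

/-! Row 96 (helper847), TYPE R (exact core tiles): **the clause `two` of 337's `Front` at the exact
cores, from the other clauses of `Front`** (`on`, `lab`, `lev`, `labX`, `actP`, `actI`), `Lay`,
`Cores`, `Words`; nothing is transported from INIT. -/

set_option autoImplicit false
set_option linter.unusedSectionVars false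
set_option linter.unusedVariables false
set_option linter.style.longLine false

open Set Relation Module

namespace Crest.Agent.R096.Rone_847

open Crest.Agent.R096.Brk1_582 Crest.Agent.R096.Brk2_582 Crest.Agent.R096.Brk3_582
open Crest.Agent.R096.Brk5_582 Crest.Agent.R096.Bsp_628
open Crest.Agent.R096.St_147 Crest.Agent.R096.Seq_213 Crest.Agent.R096.Seq_213.GSt
open Crest.Agent.R096.Lm_117 Crest.Agent.R096.Ac_117 Crest.Agent.R096.Msh_715
open Crest.Agent.R096.Cp_298 Crest.Agent.R096.Gm_298 Crest.Agent.R096.Gl_422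
open Crest.Agent.R096.SkB_662 Crest.Agent.R096.Cpo_642
open Crest.Agent.R096.Agl5_543 Crest.Agent.R096.Ori_543 Crest.Agent.R096.Coh_184
open Crest.Agent.R096.Init_543 (JJ fr3)
open Crest.Agent.R096.SkC1_961 (E3 Hom3 FoamD Cfg th)
open Crest.Agent.R096.Mbf_337 (KJ sb Cores Words Exact)
open Crest.Agent.R096.Frn_337 Crest.Agent.R096.Ecm_446 Crest.Agent.R096.Onb_63
open Crest.Agent.R096.Leaf_965

variable {δ κ0 R c0 : ℝ} {La Om : Set E3} {ι : Type}
variable {Φ : FoamD δ κ0 R c0 La} {T : Tiling Om ι} {f : E3 → E3} {κ1 κ2 : ℝ} {X : Set Φ.F}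
  {J0 Jt V : Φ.F → Set ι} {ct : Φ.F → ι} {A : Φ.F → E3 ≃ᵃ[ℝ] E3} {lam : Φ.F → ℝ} {z : Φ.F → E3}
  {θ : Φ.F → E3 → E3} {φ : Φ.F → E3 → ℝ} {M : Φ.F → ℕ}
  {ι3 : Type} {T3 : Tiling Om ι3} {KK : Ti X → Set E3} {c3 : ι → ι3}

/-! ### geometry -/

/-- two open bricks are disjoint -/
theorem brick_ne {c c' : Φ.F} (hcc : c' ≠ c) {y : E3}
    (h1 : ∀ k, c.1.lo k < y k ∧ y k < c.1.hi k)
    (h2 : ∀ k, c'.1.lo k < y k ∧ y k < c'.1.hi k) : False := by
  obtain ⟨k, hk⟩ := Φ.bf.inv.disj c'.2 c.2 (Φ.bf.pos _ c'.2) (Φ.bf.pos _ c.2)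
    (fun h => hcc (Subtype.ext h))
  have a1 := h1 k
  have a2 := h2 k
  rcases hk with hk | hk
  · linarith [a1.1, a2.2]
  · linarith [a1.2, a2.1]

/-- the tile of an exact core does not meet a tiny core -/
theorem not_KJ (hC : Cores Φ T f κ1 κ2 X J0 Jt V ct A lam z θ φ) {c : Φ.F} (hc : c ∈ X)
    (k : Ti X) {x : E3} (hx : x ∈ P (T.H (ct c))) : x ∉ KJ T (Jt k.1) := by
  intro h
  have hT := hC.tiny k.1 k.2
  have h1 := (hC.exact_ c hc).inside x hx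
  have h2 := hT.inside x (by
    obtain ⟨i, hi, hxi⟩ := mem_iUnion₂.1 h
    exact mem_biUnion (hT.sub hi) hxi)
  exact brick_ne (c := c) (c' := k.1) (fun e => k.2 (e ▸ hc)) h1 h2

variable [Nonempty T3.Cell] {hH : ∀ k, CoreH T3 (KK k)}
    {hdis : ∀ k k', k ≠ k' → Disjoint (KK k) (KK k')} {hne : ∃ c, OutK T3 KK c}

/-- the faces of the exact core tile in `meshK T3 KK` -/
abbrev Dx (c3 : ι → ι3) (ct : Φ.F → ι) (hH : ∀ k, CoreH T3 (KK k))
    (hdis : ∀ k k', k ≠ k' → Disjoint (KK k) (KK k')) (c : Φ.F) :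
    Set {F : C2 T3 // ¬ (((meshC T3 fr3).side F).map (piK T3 KK)).IsDiag} :=
  {F | Sum.inl (c3 (ct c)) ∈ (mK fr3 hH hdis).side F}

/-- **they are the 2-cells of the tile in the old tiling** -/
theorem fd_lay (hL : Lay Φ T X J0 Jt T3 KK c3)
    (hC : Cores Φ T f κ1 κ2 X J0 Jt V ct A lam z θ φ) {c : Φ.F} (hc : c ∈ X) :
    FD (mK fr3 hH hdis) T (ct c) (Dx c3 ct hH hdis c) (fun F => F.1.pt) := by
  have hk := keep_ct hL hC hc
  have hcc := cc_ct hL hC hc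
  have hout := out_ct hL hC hc
  have hside : ∀ F : {F : C2 T3 // ¬ (((meshC T3 fr3).side F).map (piK T3 KK)).IsDiag},
      F ∈ Dx c3 ct hH hdis c ↔ F.1.1.set ⊆ P (T.H (ct c)) := fun F => by
    rw [← hk]; exact E1r_914.mem_side_K hout F
  have hpt : ∀ F ∈ Dx c3 ct hH hdis c, F.1.pt ∈ P (T.H (ct c)) := fun F hF => by
    refine (hside F).1 hF ?_
    exact set_ne F.1.1
  refine ⟨?_, ?_, ?_, ?_, ?_⟩
  · intro F hF
    have h1 := hpt F hF
    refine ⟨h1, ?_⟩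
    rw [← (hcc _ h1).2]
    exact F.1.dim_pt
  · intro F hF w
    have h1 := hpt F hF
    have h2 := (hside F).1 hF
    have e1 : F.1.1.set = T.cc F.1.pt := by
      rw [← (hcc _ h1).1]; exact F.1.set_eq
    show w ∈ F.1.On ↔ _
    unfold C2.On
    constructor
    · rintro ⟨a1, a2⟩
      have a3 : w ∈ P (T.H (ct c)) := h2 a1
      exact ⟨e1 ▸ a1, by rw [← (hcc _ a3).2]; exact a2⟩
    · rintro ⟨a1, a2⟩
      have a1' : w ∈ F.1.1.set := by rw [e1]; exact a1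
      exact ⟨a1', by rw [(hcc _ (h2 a1')).2]; exact a2⟩
  · intro x hx hd
    have hxO : x ∈ Om := T.sub _ hx
    have hd3 : T3.dim x = 2 := by rw [(hcc x hx).2]; exact hd
    have hx3 : x ∈ P (T3.H (c3 (ct c))) := by rw [hk]; exact hx
    have hset : (mk2 T3 hxO hd3).1.set = T3.cc x := T3.cl_set hxO
    have hsub : (mk2 T3 hxO hd3).1.set ⊆ P (T3.H (c3 (ct c))) := by
      rw [hset]; exact T3.cc_sub_tile hx3
    refine ⟨⟨mk2 T3 hxO hd3, out_face fr3 _ ⟨_, hout, hsub⟩⟩, ?_, ?_⟩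
    · rw [hside]; rw [← hk]; exact hsub
    · have h5 : (mk2 T3 hxO hd3).pt ∈ P (T.H (ct c)) := by
        rw [← hk]; exact hsub (set_ne _)
      rw [← (hcc _ h5).1, ← (hcc _ hx).1, ← hset]
      exact (mk2 T3 hxO hd3).set_eq.symm
  · intro F hF F' hF' h
    have h1 := hpt F hF
    have h1' := hpt F' hF'
    apply Subtype.ext
    apply C2.ext
    rw [F.1.set_eq, F'.1.set_eq, (hcc _ h1).1, (hcc _ h1').1]
    exact h
  · intro F hF u v x y hu hv hx hy h1 h2 h4 h5 hl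
    have hp := hpt F hF
    have hs := (hside F).1 hF
    have hb : ∀ {w : E3}, w ∈ (mK fr3 hH hdis).On F → w ∈ F.1.bd := fun hw => F.1.on_sub_bd hw
    have hl' : ¬ (meshC T3 fr3).Lace F.1 u v x y := hl
    rw [Lac_441.lace_iff fr3 F.1 (hb hu) (hb hv) (hb hx) (hb hy) h1 h2 h4 h5, not_not] at hl'
    obtain ⟨K, k1, k2, k3, k4, k5, k6⟩ := hl'
    refine ⟨K, k1, fun z hz => ?_, k3, k4, k5, k6⟩
    have h6 := k2 hz
    have h7 := F.1.bd_sub h6
    have h8 := (F.1.mem_bd_iff h7).1 h6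
    have h9 : z ∈ P (T.H (ct c)) := hs h7
    refine ⟨?_, by rw [← (hcc _ h9).2]; exact h8⟩
    rw [← (hcc _ hp).1, ← F.1.set_eq]
    exact h7


/-! ### the state has all the points of the exact words on the exact cores -/

variable {L : Φ.F → Finset ℝ}
    {s₀ : GSt (mK fr3 hH hdis) (fun j : JJ Φ L => j.1)}
    {lam₀ : JJ Φ L → QK (belK T3 KK) → ZMod 2}

/-- only level points -/
theorem onX_lay (hL : Lay Φ T X J0 Jt T3 KK c3)
    (hC : Cores Φ T f κ1 κ2 X J0 Jt V ct A lam z θ φ) {c : Φ.F} (hc : c ∈ X)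
    (hlev : ∀ c ∈ X, ∀ w ∈ s₀.P, w ∈ P (T.H (ct c)) → Φ.lev (s₀.lab w).1 (f w) = (s₀.lab w).2.1) :
    OnX s₀ (Dx c3 ct hH hdis c) (XL Φ f (fun j : JJ Φ L => j.1) (fun j => j.2.1)) := by
  intro F hF w hw
  have hF0 := fd_lay (hH := hH) (hdis := hdis) hL hC hc
  have h1 := (hF0.on F hF w).1 hw.2
  have h2 := hF0.mem F hF
  have hwP : w ∈ P (T.H (ct c)) := T.cc_sub_tile h2.1 h1.1
  exact hlev c hc w hw.1 hwP

/-- **all level points** -/
theorem full_lay (hLa : IsOpen La) (hL : Lay Φ T X J0 Jt T3 KK c3)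
    (hC : Cores Φ T f κ1 κ2 X J0 Jt V ct A lam z θ φ) (hW : Words Φ T f X ct A lam z M L)
    (hvert : ∀ j : JJ Φ L, ∀ x ∈ Om, T.dim x = 0 → Φ.lev j.1 (f x) ≠ j.2.1)
    (hlab : ∀ j, GLab (lmK fr3 hH hdis hne) (gp s₀ j) (lam₀ j))
    (hlev : ∀ c ∈ X, ∀ w ∈ s₀.P, w ∈ P (T.H (ct c)) → Φ.lev (s₀.lab w).1 (f w) = (s₀.lab w).2.1)
    (hlabX : ∀ c ∈ X, ∀ v : {c : T3.Cell // OutK T3 KK c}, v.1.dim = 0 → v.1.set ⊆ P (T.H (ct c)) →
      ∀ j : JJ Φ L, lam₀ j (QK.c _ v) = 1 ↔ Φ.lev j.1 (f v.1.pt) < j.2.1) {c : Φ.F} (hc : c ∈ X)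
    (j : JJ Φ L) :
    Full s₀ (Dx c3 ct hH hdis c) (XL Φ f (fun j : JJ Φ L => j.1) (fun j => j.2.1)) j := by
  classical
  have hE := hC.exact_ c hc
  have hG := cg_core hLa hc hE hW
  have hCW := cw_core (f := f) (T := T) (J := JJ Φ L) (fam := fun j => j.1) (t := fun j => j.2.1)
    hc hW (fun j => j.2.2)
  have hWX := wx_core (J := JJ Φ L) (fam := fun j => j.1) (t := fun j => j.2.1) hLa hc hE hW
    (fun j => j.2.2) hvert
  have hF := fd_lay (hH := hH) (hdis := hdis) hL hC hc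
  have hk := keep_ct hL hC hc
  have hcc := cc_ct hL hC hc
  have hout := out_ct hL hC hc
  intro F hFD w hw hwX
  have hm := hF.mem F hFD
  have hw2 := (hF.on F hFD w).1 hw
  have hwP : w ∈ P (T.H (ct c)) := cc_sub_tile hG hm.1 (by omega) hw2.1
  have jw : Jp T (ct c) (XL Φ f (fun j : JJ Φ L => j.1) (fun j => j.2.1)) j w := ⟨hwP, hw2.2, hwX⟩
  obtain ⟨-, c1, c2, -, -⟩ := jp_act hG hCW hWX jw
  have hd2 : T.dim w ≤ 2 := by rw [hw2.2]; norm_num
  have hsub : T.cc w ⊆ P (T.H (ct c)) := fun y hy => cc_sub_tile hG hwP hd2 hy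
  have hwO : w ∈ Om := T.sub _ hwP
  -- the edge as a cell of `T3`
  set e : T3.Cell := T3.cl hwO with he
  have hes : e.set = T.cc w := by rw [he, T3.cl_set]; exact (hcc w hwP).1
  have hed : e.dim = 1 := by rw [he, T3.dim_cl hwO, (hcc w hwP).2]; exact hw2.2
  have heo : OutK T3 KK e := ⟨_, hout, by rw [hes, hk]; exact hsub⟩
  obtain ⟨o1, e1⟩ := en_K (h3 := fr3) (hH := hH) (hdis := hdis) (hne := hne) heo hed false
  obtain ⟨o2, e2⟩ := en_K (h3 := fr3) (hH := hH) (hdis := hdis) (hne := hne) heo hed true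
  have hsum := hlab j (oc e heo) hed
  rw [e1, e2, on_K heo] at hsum
  obtain ⟨q1, q2, q3⟩ := ep_spec hed
  -- the ends of the edge
  have hvx : ∀ b, (enC e b).pt ∈ T.cc w ∧ T.dim (enC e b).pt = 0 := fun b => by
    rw [en_pt hed]
    have h1 := (q3 b).2
    rw [hes] at h1
    exact ⟨h1, by rw [← (hcc _ (hsub h1)).2]; exact (q3 b).1⟩
  have hl : ∀ b (o : OutK T3 KK (enC e b)), lam₀ j (oc (enC e b) o) = 1 ↔
      Uc Φ A lam z M c (enC e b).pt j.1 < M c * j.2.1 := by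
    intro b o
    obtain ⟨h1, h2⟩ := hvx b
    have h3 : (enC e b).dim = 0 := by
      have := (q3 b).1
      rw [← en_pt hed] at this
      exact this
    have h4 : (enC e b).set ⊆ P (T.H (ct c)) := by
      rw [(enC e b).set_eq, (hcc _ (hsub h1)).1]
      exact (T.cc_sub_of_mem h1).trans hsub
    have h5 := hlabX c hc ⟨enC e b, o⟩ h3 h4 j
    refine h5.trans ?_
    exact hCW.side _ (hsub h1) h2 j
  obtain ⟨p, hp, hp0, hpU⟩ := hG.exists_lo hwP hd2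
  obtain ⟨r, hr, hr0, hrU⟩ := hG.exists_hi hwP hd2
  have hend : ∀ y ∈ T.cc w, T.dim y = 0 → y = (enC e false).pt ∨ y = (enC e true).pt := by
    intro y hy h0
    rw [en_pt hed, en_pt hed]
    have hcc3 : T3.cc w = segment ℝ (epE e false) (epE e true) := by
      rw [(hcc w hwP).1, ← hes]; exact q2
    exact T3.vertex_of_edge hwO (by rw [(hcc w hwP).2]; exact hw2.2) hcc3
      (by rw [(hcc w hwP).1]; exact hy) (by rw [(hcc y (hsub hy)).2]; exact h0)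
  have hpl : Uc Φ A lam z M c p j.1 < M c * j.2.1 := by rw [hpU]; exact c1
  have hrl : ¬ Uc Φ A lam z M c r j.1 < M c * j.2.1 := by rw [hrU]; exact not_lt.2 c2.le
  have h5 : ∀ a : ZMod 2, a ≠ 1 → a = 0 := by decide
  have hsum1 : lam₀ j (oc (enC e false) o1) + lam₀ j (oc (enC e true) o2) = 1 := by
    rcases hend p hp hp0 with h | h <;> rcases hend r hr hr0 with h' | h'
    · rw [h, ← h'] at hpl; exact absurd hpl hrl
    · rw [h] at hpl
      rw [h'] at hrl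
      rw [(hl false o1).2 hpl, h5 _ (fun h6 => hrl ((hl true o2).1 h6)), add_zero]
    · rw [h] at hpl
      rw [h'] at hrl
      rw [(hl true o2).2 hpl, h5 _ (fun h6 => hrl ((hl false o1).1 h6)), zero_add]
    · rw [h, ← h'] at hpl; exact absurd hpl hrl
  rw [hsum1] at hsum
  obtain ⟨u, hu1, hu2⟩ : ∃ u ∈ gp s₀ j, u ∈ {w | w ∈ W1 T3 ∧ edC T3 w = e} := by
    by_contra hno
    push Not at hno
    have h7 : nW (gp s₀ j) {w | w ∈ W1 T3 ∧ edC T3 w = e} = 0 := by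
      unfold nW
      exact Finset.sum_eq_zero (fun u hu => if_neg (hno u hu))
    exact one_ne_zero (hsum.trans h7)
  obtain ⟨hu3, hu4⟩ := mem_gp.1 hu1
  have hue : u ∈ e.set := (edC_eq hu2.1 hed).1 hu2.2
  rw [hes] at hue
  have huX := hlev c hc u hu3 (hsub hue)
  rw [hu4] at huX
  have := hCW.one w hwP hw2.2 j u hue w (T.self_mem_cc w) huX hwX
  rw [← this]
  exact ⟨hu3, hu4⟩

/-! ### the clause `two` -/

/-- the sides of the faces of an exact core tile are uncut tiles -/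
theorem side_lay (hL : Lay Φ T X J0 Jt T3 KK c3)
    (hC : Cores Φ T f κ1 κ2 X J0 Jt V ct A lam z θ φ) {c : Φ.F} (hc : c ∈ X)
    {F : {F : C2 T3 // ¬ (((meshC T3 fr3).side F).map (piK T3 KK)).IsDiag}}
    (hF : F ∈ Dx c3 ct hH hdis c) {q : ι3 ⊕ Ti X} (hq : q ∈ (mK fr3 hH hdis).side F) :
    ∃ i, q = Sum.inl (c3 i) ∧ (∀ k, ¬ P (T3.H (c3 i)) ⊆ KK k) ∧ F.1.1.set ⊆ P (T3.H (c3 i)) ∧
      P (T3.H (c3 i)) = P (T.H i) := by
  have hF0 := fd_lay (hH := hH) (hdis := hdis) hL hC hc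
  have hpt := (hF0.mem F hF).1
  have hq' : q ∈ ((meshC T3 fr3).side F.1).map (piK T3 KK) := hq
  rw [mem_map_iff] at hq'
  obtain ⟨q₀, h1, h2⟩ := hq'
  have h4 : F.1.1.set ⊆ P (T3.H q₀) := C2.sub_tile (h3 := fr3) h1
  have h5 : F.1.pt ∈ P (T3.H q₀) := h4 (set_ne F.1.1)
  have hout : ∀ k, ¬ P (T3.H q₀) ⊆ KK k := fun k hk =>
    not_KJ hC hc k hpt (hL.sub k (hk h5))
  rcases hL.lay q₀ hout with ⟨i, rfl, hi⟩ | ⟨k, i, hi, -, hs⟩
  · exact ⟨i, by rw [← h2]; exact piK_inl.2 ⟨rfl, hout⟩, hout, h4, hL.keep i hi⟩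
  · exact absurd (mem_biUnion hi (hs h5)) (not_KJ hC hc k hpt)

variable {Qd : Quads (ι3 ⊕ Ti X) Φ.F (Init_543.QK (Pc Φ.F))}

/-- **(E2) AT THE EXACT CORES**: the clause `two` of `Front` for `c ∈ X` -/
theorem two_ct' (hLa : IsOpen La) (hδ : 0 < δ) (hR0 : 0 < R) (h0 : 0 ≤ κ1) (h2 : 0 < κ2)
    (h12 : 2 * κ0 * κ1 ≤ κ2) (hL : Lay Φ T X J0 Jt T3 KK c3)
    (hC : Cores Φ T f κ1 κ2 X J0 Jt V ct A lam z θ φ) (hW : Words Φ T f X ct A lam z M L)
    {μ : ℝ} (hμ0 : 0 < μ) (hμ : Chl δ κ0 R c0 κ2 * κ1 < μ)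
    (marg : ∀ c, ∀ t ∈ L c, μ ≤ t ∧ t ≤ 1 - μ)
    (vert : ∀ c, ∀ t ∈ L c, ∀ x ∈ Om, T.dim x = 0 → Φ.lev c (f x) ≠ t)
    {g : Φ.F → E3 → ℝ} (hg : ∀ a, ContinuousOn (g a) Om)
    (hgl : ∀ a, ∀ x ∈ Om, T.dim x ≤ 1 → g a x = Φ.lev a (f x))
    (hlab : ∀ j, GLab (lmK fr3 hH hdis hne) (gp s₀ j) (lam₀ j))
    (hlev : ∀ c ∈ X, ∀ w ∈ s₀.P, w ∈ P (T.H (ct c)) → Φ.lev (s₀.lab w).1 (f w) = (s₀.lab w).2.1)
    (hlabX : ∀ c ∈ X, ∀ v : {c : T3.Cell // OutK T3 KK c}, v.1.dim = 0 → v.1.set ⊆ P (T.H (ct c)) →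
      ∀ j : JJ Φ L, lam₀ j (QK.c _ v) = 1 ↔ Φ.lev j.1 (f v.1.pt) < j.2.1)
    (actP : ∀ k i3, Sum.inl i3 ∈ Qd.Act k → ∀ i, P (T3.H i3) ⊆ P (T.H i) → ∀ x ∈ P (T.H i),
      (∀ a ∈ k.B, Φ.lev a (f x) ∈ Ioo (0:ℝ) 1) ∧ ∀ a ∈ k.Z, Φ.lev a (f x) = 0)
    (actI : ∀ k i3, (∀ k', ¬ P (T3.H i3) ⊆ KK k') → ∀ i, (∀ c, i ∉ J0 c) →
      P (T3.H i3) ⊆ P (T.H i) → ∀ x ∈ P (T.H i),
      (∀ a ∈ k.B, ∃ w ∈ s₀.P, (s₀.lab w).1 = a ∧ w ∈ P (T3.H i3)) →
      (∀ a ∈ k.Z, Φ.lev a (f x) = 0) → Sum.inl i3 ∈ Qd.Act k) :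
    ∀ c ∈ X, ∀ k, c ∈ k.Z → ∀ j j' : JJ Φ L, j.1 ∈ k.B → j'.1 ∈ k.B → j.1 ≠ j'.1 →
      Two s₀ (Qd.Act k) {cti X c3 ct c} j j' := by
  classical
  intro c hc k hcZ j j' hj hj' hjj
  have hcti : cti X c3 ct c = Sum.inl (c3 (ct c)) := by
    unfold cti; rw [dif_neg (not_not.2 hc)]
  rw [hcti]
  have Fm := foamΦ hLa Φ
  have hE := hC.exact_ c hc
  have hM : 0 < M c := (hW.grid c hc).1
  have hM' : (0 : ℝ) < M c := by exact_mod_cast hM
  have hG := cg_core hLa hc hE hW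
  have hvert : ∀ j : JJ Φ L, ∀ x ∈ Om, T.dim x = 0 → Φ.lev j.1 (f x) ≠ j.2.1 :=
    fun j => vert j.1 j.2.1 j.2.2
  have hCW := cw_core (f := f) (T := T) (J := JJ Φ L) (fam := fun j => j.1) (t := fun j => j.2.1)
    hc hW (fun j => j.2.2)
  have hWX := wx_core (J := JJ Φ L) (fam := fun j => j.1) (t := fun j => j.2.1) hLa hc hE hW
    (fun j => j.2.2) hvert
  have hHX := hx_core (c := c) (J := JJ Φ L) (fam := fun j => j.1) (t := fun j => j.2.1) hc hW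
    (fun j => j.2.2) (g := fun j => g j.1) (fun j => hg j.1) (fun j => hgl j.1)
  have hF := fd_lay (hH := hH) (hdis := hdis) hL hC hc
  have hX := onX_lay (hH := hH) (hdis := hdis) hL hC hc hlev
  have hfull := full_lay (hne := hne) hLa hL hC hW hvert hlab hlev hlabX hc
  have hcc := cc_ct hL hC hc
  have hB : k.B = {j.1, j'.1} := by
    obtain ⟨b, -, -, hb⟩ := k.exists_other hj
    rw [hb] at hj' ⊢
    rcases hj' with h | h
    · exact absurd h.symm hjj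
    · rw [mem_singleton_iff.1 h]
  have hB' : k.B = {j'.1, j.1} := by rw [hB, Set.pair_comm]
  have ht : ∀ j : JJ Φ L, (j.2.1 : ℝ) ∈ Icc μ (1 - μ) := fun j => marg j.1 j.2.1 j.2.2
  have tI : ∀ j : JJ Φ L, (j.2.1 : ℝ) ∈ Ioo (0 : ℝ) 1 := fun j =>
    ⟨hμ0.trans_le (ht j).1, by linarith [(ht j).2]⟩
  have hμ1 : μ < 1 := by
    have h5 := (ht j).1
    have h6 := (tI j).2
    linarith
  obtain ⟨x₀, hx, hxI, xa, xa', xZ, xo⟩ := exists_sq hLa hE hcZ hjj hB (tI j) (tI j')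
  have hd := (dim_le_two_iff hx).2 hxI
  have hU : ∀ y e, Uc Φ A lam z M c y e = M c * sb Φ (th (A c) (lam c) (z c) y) e :=
    fun _ _ => rfl
  have ua : Uc Φ A lam z M c x₀ j.1 = M c * j.2.1 := by rw [hU, xa]
  have ua' : Uc Φ A lam z M c x₀ j'.1 = M c * j'.2.1 := by rw [hU, xa']
  have n1 := fl_of_nonint (mul_nonneg hM'.le (tI j).1.le)
    (nonint hLa hE hc hW hcZ hjj hB (tI j) j.2.2)
  have n2 := fl_of_nonint (mul_nonneg hM'.le (tI j').1.le)
    (nonint hLa hE hc hW hcZ hjj.symm hB' (tI j') j'.2.2)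
  have hact : {b | ⌊Uc Φ A lam z M c x₀ b⌋₊ < ⌈Uc Φ A lam z M c x₀ b⌉₊} = {j.1, j'.1} := by
    ext b
    simp only [mem_ofPred_eq, mem_insert_iff, mem_singleton_iff]
    constructor
    · intro h
      by_contra hb
      push Not at hb
      by_cases hb2 : b ∈ k.Z
      · rw [hU, xZ b hb2, mul_zero] at h
        simp at h
      · rw [hU, xo b hb.1 hb.2 hb2, mul_one, Nat.floor_natCast, Nat.ceil_natCast] at h
        exact lt_irrefl _ h
    · rintro (rfl | rfl)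
      · rw [ua]; exact_mod_cast n1.1.trans n1.2
      · rw [ua']; exact_mod_cast n2.1.trans n2.2
  have hd2 : T.dim x₀ = 2 := by rw [hG.dim x₀ hx hd, hact, ncard_pair hjj]
  refine two_core hF hG hCW hWX hHX hX (A := Qd.Act k) (B := {Sum.inl (c3 (ct c))})
    (fun F hF' => ?_) (fun F hF' => ⟨_, hF', rfl⟩) hjj (hfull j) (hfull j') hx hd2
    (fun b => if b ∈ k.Z then 0 else M c) (by rw [ua]; exact n1.1) (by rw [ua]; exact n1.2)
    (by rw [ua']; exact n2.1) (by rw [ua']; exact n2.2) (fun b hb hb' => ?_)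
    (fun F hFD hFx => ?_) (fun F hFD hFT x y hxF hyF hxl hyl b hb hb' => ?_)
  · obtain ⟨q, hq, hq'⟩ := hF'
    rw [mem_singleton_iff] at hq'
    rw [hq'] at hq
    exact hq
  · by_cases h : b ∈ k.Z
    · rw [if_pos h, hU, xZ b h, mul_zero, Nat.cast_zero]
    · rw [if_neg h, hU, xo b hb hb' h, mul_one]
  · -- the crossing square touches an active tile
    have hFs : Sum.inl (c3 (ct c)) ∈ (mK fr3 hH hdis).side F := hFD
    obtain ⟨q', hq'⟩ := Sym2.mem_iff_exists.1 hFs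
    have hne' : q' ≠ Sum.inl (c3 (ct c)) := by
      intro e
      have := (mK fr3 hH hdis).side_nd F
      rw [hq', e] at this
      exact this rfl
    have hq's : q' ∈ (mK fr3 hH hdis).side F := by rw [hq']; exact Sym2.mem_mk_right _ _
    obtain ⟨i, rfl, hout, hFi, hPi⟩ := side_lay hL hC hc hFD hq's
    have hic : i ≠ ct c := fun e => hne' (by rw [e])
    have hm := hF.mem F hFD
    have hFset : F.1.1.set = T.cc x₀ := by
      rw [← hFx, ← (hcc _ hm.1).1]; exact F.1.set_eq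
    have hx0F : x₀ ∈ F.1.1.set := by rw [hFset]; exact T.self_mem_cc x₀
    have hx0i : x₀ ∈ P (T.H i) := by rw [← hPi]; exact hFi hx0F
    obtain ⟨hiJ, y, hy, -, hyZ⟩ := act_square (μ := μ) (s := μ - Chl δ κ0 R c0 κ2 * κ1) hLa hδ hR0 h0 h2
      h12 hC hc k hjj hB (by linarith) (by linarith) (by linarith) hx hxI
      (by rw [xa]; exact ht j) (by rw [xa']; exact ht j') xZ hic hx0i
    refine ⟨_, hq's, actI k (c3 i) hout i hiJ hPi.le y hy ?_ hyZ⟩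
    have pts : ∀ j : JJ Φ L, (⌊Uc Φ A lam z M c x₀ j.1⌋₊ : ℝ) < M c * j.2.1 →
        (M c * j.2.1 : ℝ) < ⌈Uc Φ A lam z M c x₀ j.1⌉₊ →
        ∃ w ∈ s₀.P, (s₀.lab w).1 = j.1 ∧ w ∈ P (T3.H (c3 i)) := by
      intro j a1 a2
      obtain ⟨v, v1, v2, -⟩ := exists_jp (fam := fun j : JJ Φ L => j.1)
        (τ := fun j => (M c : ℝ) * j.2.1) (j := j) hG hWX hx hd a1 a2
      have v3 := on_of_jp hF hG hCW hFD hFx v2 v1
      obtain ⟨v4, v5⟩ := hfull j F hFD v v3 v2.2.2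
      exact ⟨v, v4, by rw [v5], hFi (by rw [hFset]; exact v1)⟩
    rw [hB]
    rintro a (rfl | rfl)
    · exact pts j (by rw [ua]; exact n1.1) (by rw [ua]; exact n1.2)
    · exact pts j' (by rw [ua']; exact n2.1) (by rw [ua']; exact n2.2)
  · -- uniqueness
    obtain ⟨q, hq, hqA⟩ := hFT
    obtain ⟨i, rfl, hout, hFi, hPi⟩ := side_lay hL hC hc hFD hq
    have hm := hF.mem F hFD
    have hpI : F.1.pt ∉ I (T.H (ct c)) := (dim_le_two_iff hm.1).1 hm.2.le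
    have hpi : F.1.pt ∈ P (T.H i) := by rw [← hPi]; exact hFi (set_ne _)
    obtain ⟨-, hz0⟩ := actP k (c3 i) hqA i hPi.le _ hpi
    have k1 := act_of_at hF hG hCW hWX hX hFD hxF
    have k2 := act_of_at hF hG hCW hWX hX hFD hyF
    rw [hxl] at k1
    rw [hyl] at k2
    have i1 := sb_Ioo (M := M) hLa hE hm.1 (a := j.1) (by
      rw [k1.1, k1.2]; exact Nat.lt_succ_self _)
    have i2 := sb_Ioo (M := M) hLa hE hm.1 (a := j'.1) (by
      rw [k2.1, k2.2]; exact Nat.lt_succ_self _)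
    have haZ : j.1 ∉ k.Z := fun h => disjoint_left.1 k.dis hj h
    have haZ' : j'.1 ∉ k.Z := fun h => disjoint_left.1 k.dis hj' h
    have hw1 : th (A c) (lam c) (z c) F.1.pt ∈ Pc Φ.F c := (Ecm_446.th_mem hE).1 hm.1
    have hw2 := Hlf_847.th_wall hE hLa hm.1 hpI
    obtain ⟨-, q2, q3⟩ := quad_at Fm hjj k.cZ haZ haZ' hw1 hw2 i1 i2 (fun e he => by
      have h5 := abs_le.1 (close_c hLa hδ hR0 h0 h2 h12 hE hm.1 hpI e)
      rw [hz0 e he] at h5
      show sb Φ (th (A c) (lam c) (z c) F.1.pt) e < 1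
      linarith [h5.1])
    by_cases h : b ∈ k.Z
    · have h6 : sb Φ (th (A c) (lam c) (z c) F.1.pt) b = 0 :=
        (Fm.sc_eq_zero (Fm.sub c hw1)).2 (q2 b h)
      rw [if_pos h, hU, h6, mul_zero, Nat.cast_zero]
    · have h6 : sb Φ (th (A c) (lam c) (z c) F.1.pt) b = 1 := q3 b hb hb' h
      rw [if_neg h, hU, h6, mul_one]

/-- the data of INIT from the exact and tiny cores -/
theorem exists_initR_cores (hLa : IsOpen La) (hf : Hom3 f Om La) (h0 : 0 ≤ κ1) (h2 : 0 < κ2)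
    (h12 : 2 * κ0 * κ1 ≤ κ2) (hC : Cores Φ T f κ1 κ2 X J0 Jt V ct A lam z θ φ) :
    ∃ (g : E3 → E3) (ct' : Φ.F → ι) (r₀ : Φ.F → ℝ), Init_543.InitR Φ T f g J0 ct' r₀ := by
  obtain ⟨g0, H0⟩ := Init_543.exists_hm3 hf
  exact Init_543.exists_initR Φ hLa hf (Init_543.holeJ_of_cores Φ H0 hC h0 (by linarith) h2.le
    fun c hc => (hC.tiny c hc).mem)

/-- **(E2) AT THE EXACT CORES**: the clause `two` of `Front` for `c ∈ X` -/
theorem two_ct (hLa : IsOpen La) (hf : Hom3 f Om La) (hδ : 0 < δ) (hR0 : 0 < R) (h0 : 0 ≤ κ1)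
    (h2 : 0 < κ2) (h12 : 2 * κ0 * κ1 ≤ κ2) (hL : Lay Φ T X J0 Jt T3 KK c3)
    (hC : Cores Φ T f κ1 κ2 X J0 Jt V ct A lam z θ φ) (hW : Words Φ T f X ct A lam z M L)
    {μ : ℝ} (hμ0 : 0 < μ) (hμ : Chl δ κ0 R c0 κ2 * κ1 < μ)
    (marg : ∀ c, ∀ t ∈ L c, μ ≤ t ∧ t ≤ 1 - μ)
    (vert : ∀ c, ∀ t ∈ L c, ∀ x ∈ Om, T.dim x = 0 → Φ.lev c (f x) ≠ t)
    (hlab : ∀ j, GLab (lmK fr3 hH hdis hne) (gp s₀ j) (lam₀ j))
    (hlev : ∀ c ∈ X, ∀ w ∈ s₀.P, w ∈ P (T.H (ct c)) → Φ.lev (s₀.lab w).1 (f w) = (s₀.lab w).2.1)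
    (hlabX : ∀ c ∈ X, ∀ v : {c : T3.Cell // OutK T3 KK c}, v.1.dim = 0 → v.1.set ⊆ P (T.H (ct c)) →
      ∀ j : JJ Φ L, lam₀ j (QK.c _ v) = 1 ↔ Φ.lev j.1 (f v.1.pt) < j.2.1)
    (actP : ∀ k i3, Sum.inl i3 ∈ Qd.Act k → ∀ i, P (T3.H i3) ⊆ P (T.H i) → ∀ x ∈ P (T.H i),
      (∀ a ∈ k.B, Φ.lev a (f x) ∈ Ioo (0:ℝ) 1) ∧ ∀ a ∈ k.Z, Φ.lev a (f x) = 0)
    (actI : ∀ k i3, (∀ k', ¬ P (T3.H i3) ⊆ KK k') → ∀ i, (∀ c, i ∉ J0 c) →
      P (T3.H i3) ⊆ P (T.H i) → ∀ x ∈ P (T.H i),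
      (∀ a ∈ k.B, ∃ w ∈ s₀.P, (s₀.lab w).1 = a ∧ w ∈ P (T3.H i3)) →
      (∀ a ∈ k.Z, Φ.lev a (f x) = 0) → Sum.inl i3 ∈ Qd.Act k) :
    ∀ c ∈ X, ∀ k, c ∈ k.Z → ∀ j j' : JJ Φ L, j.1 ∈ k.B → j'.1 ∈ k.B → j.1 ≠ j'.1 →
      Two s₀ (Qd.Act k) {cti X c3 ct c} j j' := by
  obtain ⟨g, ct', r₀, hR⟩ := exists_initR_cores hLa hf h0 h2 h12 hC
  have hg : ∀ a, ContinuousOn (Init_543.vF Φ r₀ f a) Om := fun a =>
    Init_543.continuousOn_va hR.hm (foamΦ hLa Φ) (Init_543.retF Φ hLa hR.pos hR.le_one) a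
  exact two_ct' hLa hδ hR0 h0 h2 h12 hL hC hW hμ0 hμ marg vert hg
    (fun a x hx hd => hR.v_eq' Φ hLa hx (by omega) a) hlab hlev hlabX actP actI

end Crest.Agent.R096.Rone_847
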