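import Crest.Agent.R096.Etg6_163

/-! Row 96 (helper163), DOORS-ESS-TARGET, part 7: pull-backs to `Om`, and (g4) on the frontier of a
tiny core (`Tiny.bij`) -/

set_option autoImplicit false
set_option linter.unusedSectionVars false
set_option linter.style.haveILetI false

open Set Topology Filter

namespace Crest.Agent.R096.Etg_163

open Crest.Agent.R096.Coh_184 Crest.Agent.R096.Brk1_582 Crest.Agent.R096.Brk2_582
open Crest.Agent.R096.Bsp_628 Crest.Agent.R096.Brk3_582 Crest.Agent.R096.Vb_965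
open Crest.Agent.R096.Exc_965 Crest.Agent.R96.Push_899 Crest.Agent.R096.SkC1_961
open Crest.Agent.R096.Sphg_316 Crest.Agent.R096.Msh_715
open Crest.Agent.R096.Pse_316 (gau_eq bod_brick)
open Crest.Agent.R096.Ce_537 (PLEquiv)

variable {δ κ0 R c0 : ℝ} {La : Set E3} (Φ : FoamD δ κ0 R c0 La) {e : Φ.F → ℝ}
variable {a c : Φ.F} {t ρ ρ' r : ℝ} {f : E3 → E3} {Om : Set E3}

/-! ### pull-backs -/


section g3

variable (hf : Hom3 f Om La) (hLa : IsOpen La) (hpt : (Φ.B c).lo = (Φ.B c).hi) (hr1 : r < 1)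
  (hray : Mbf_337.RayTo Φ c r) (h0 : 0 < ρ) (hρρ : ρ ≤ ρ') (hρ' : ρ' ≤ r)
include hf hLa hpt hr1 hray h0 hρρ hρ'





end g3

section g12

variable (hf : Hom3 f Om La) (hLa : IsOpen La) (he : ∀ c, 0 < e c) (he1 : ∀ c, e c < 1)
  (hpt : (Φ.B c).lo = (Φ.B c).hi) (hr1 : r < 1) (hray : Mbf_337.RayTo Φ c r)
  (h0 : 0 < ρ) (hρ : ρ ≤ r) (hcap : ∀ y ∈ c.1.set, muD Φ y < e c → gg Φ c y < ρ)
  (hac : a ≠ c) (hne : (a.1.set ∩ c.1.set).Nonempty)
include hf hLa he he1 hpt hr1 hray h0 hρ hcap hac hne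



end g12

/-! ### (g4) on the frontier of the core -/

omit Φ in
/-- preimages under a PL equivalence -/
theorem pre_plEquiv {E F : Type*} [NormedAddCommGroup E] [NormedSpace ℝ E]
    [NormedAddCommGroup F] [NormedSpace ℝ F] {X : Set E} {Y : Set F} (u : PLEquiv X Y) {D : Set F}
    (hDY : D ⊆ Y) (hD : IsPreconnected D ∧ IsCompact D ∧ D.Nonempty) :
    IsPreconnected {x | x ∈ X ∧ u.f x ∈ D} ∧ IsCompact {x | x ∈ X ∧ u.f x ∈ D} ∧
      {x | x ∈ X ∧ u.f x ∈ D}.Nonempty := by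
  have h1 : {x | x ∈ X ∧ u.f x ∈ D} = u.g '' D := by
    ext x
    constructor
    · rintro ⟨hx, h⟩
      exact ⟨u.f x, h, u.li x hx⟩
    · rintro ⟨y, hy, rfl⟩
      exact ⟨u.mg (hDY hy), by rw [u.ri y (hDY hy)]; exact hy⟩
  have hc : ContinuousOn u.g D := u.pg.1.mono hDY
  rw [h1]
  exact ⟨hD.1.image _ hc, hD.2.1.image_of_continuousOn hc, hD.2.2.image _⟩

variable {ι : Type} {T : Tiling Om ι} {J0 J V : Set ι} {θ : E3 → E3} {φ : E3 → ℝ} {κ1 : ℝ}




end Crest.Agent.R096.Etg_163
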