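import Crest.Agent.R096.Clo3_441
import Crest.Agent.R096.Msh3_715

/-!
# Row 96, (U6) CLOSE, part 5 (helper441): the 1-skeleton of a connected union of closed cells

For every `Cplx` (537) and every tiling (715): if `A` is compact, preconnected and a union of closed
cells, then a function of the vertices which is constant along the 1-cells contained in `A` is
constant on the vertices in `A`; any two vertices in `A` are joined by a chain of 1-cells in `A`;
if `A` is nonempty it contains a vertex.
-/

set_option autoImplicit false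
set_option linter.unusedSectionVars false

open Set Metric Relation
open Crest.Agent.R096.Ce_537

namespace Crest.Agent.R096.Clo_441

variable {E : Type*} [NormedAddCommGroup E] [NormedSpace ℝ E]
variable {Ω : Set E} {I : Type*} [PartialOrder I] {dim : I → ℕ} {K : I → Set E}

/-- **A function of the vertices which is constant along the 1-cells contained in a compact connected
union `A` of closed cells is constant on the vertices in `A`.** -/
theorem const_of_edges (C : Cplx Ω I dim K) {A : Set E} (hA : IsCompact A)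
    (hAc : IsPreconnected A) (hU : ∀ x ∈ A, ∃ i, x ∈ K i ∧ K i ⊆ A) {κ : Type*} {lam : I → κ}
    (hlam : ∀ e, dim e = 1 → K e ⊆ A → ∀ v ≤ e, ∀ w ≤ e, dim v = 0 → dim w = 0 → lam v = lam w)
    {v w : I} (hv0 : dim v = 0) (hv : K v ⊆ A) (hw0 : dim w = 0) (hw : K w ⊆ A) :
    lam v = lam w := by
  have hAJ : A ⊆ ⋃ i ∈ {i | K i ⊆ A}, K i := by
    intro x hx
    obtain ⟨i, hi, hiA⟩ := hU x hx
    exact mem_biUnion (show i ∈ {i | K i ⊆ A} from hiA) hi
  have hne : ∀ {u : I}, K u ⊆ A → (K u ∩ A).Nonempty := by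
    intro u hu
    obtain ⟨z, hz⟩ := (C.isBall u).nonempty
    exact ⟨z, hz, hu hz⟩
  refine label_const C hA hAc hAJ (P := Aᶜ) ?_ ?_ (i := v) (i' := w) hv (hne hv) le_rfl hv0 hw
    (hne hw) le_rfl hw0
  · intro i hi _ j hj _
    exact disjoint_compl_right_iff_subset.2 ((C.subset hj).trans hi)
  · intro e he hd a ha b hb ha0 hb0
    exact hlam e he (disjoint_compl_right_iff_subset.1 hd) a ha b hb ha0 hb0




/-! ### tilings -/

section Tiling

open Crest.Agent.R096.Msh_715

variable [FiniteDimensional ℝ E] {Om : Set E} {ι : Type*} (T : Tiling Om ι)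

theorem mem_cc_iff_zero {v : E} (hv : T.dim v = 0) : T.cc v = {v} :=
  T.cc_eq_singleton (T.dim_eq_zero_iff.1 hv)

/-- the point of a vertex cell -/
theorem pt_of_zero {v : E} (hv : v ∈ Om) (h0 : T.dim v = 0) : (T.cl hv).pt = v := by
  have h := T.pt_cl hv
  have h2 := T.oc_sub_cc v h
  rw [mem_cc_iff_zero T h0, mem_singleton_iff] at h2
  exact h2

/-- **tilings**: a function of the vertices constant along the 1-cells contained in a compact
preconnected union `A` of closed cells is constant on the vertices in `A`. -/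
theorem tiling_const {A : Set E} (hA : IsCompact A) (hAc : IsPreconnected A) (hAO : A ⊆ Om)
    (hU : ∀ x ∈ A, T.cc x ⊆ A) {κ : Type*} {lam : E → κ}
    (hlam : ∀ w ∈ A, T.dim w = 1 → ∀ v ∈ T.cc w, ∀ v' ∈ T.cc w, T.dim v = 0 →
      T.dim v' = 0 → lam v = lam v')
    {v v' : E} (hv : v ∈ A) (hv0 : T.dim v = 0) (hv' : v' ∈ A) (hv0' : T.dim v' = 0) :
    lam v = lam v' := by
  have hU' : ∀ x ∈ A, ∃ i : T.Cell, x ∈ i.set ∧ i.set ⊆ A := fun x hx =>
    ⟨T.cl (hAO hx), T.self_mem_cc x, hU x hx⟩
  have h := const_of_edges T.cplx hA hAc hU' (lam := fun c : T.Cell => lam c.pt) ?_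
    (v := T.cl (hAO hv)) (w := T.cl (hAO hv')) ((T.dim_cl _).trans hv0) (hU v hv)
    ((T.dim_cl _).trans hv0') (hU v' hv')
  · simpa only [pt_of_zero T _ hv0, pt_of_zero T _ hv0'] using h
  · intro e he hKe a ha b hb ha0 hb0
    have hset : e.set = T.cc e.pt := e.set_eq
    have hpt : e.pt ∈ A := hKe (by rw [hset]; exact T.self_mem_cc _)
    have hmem : ∀ {c : T.Cell}, c ≤ e → c.pt ∈ T.cc e.pt := by
      intro c hc
      have h1 : c.pt ∈ c.set := by rw [c.set_eq]; exact T.self_mem_cc _
      have h2 : c.pt ∈ e.set := hc h1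
      rwa [hset] at h2
    exact hlam e.pt hpt he a.pt (hmem ha) b.pt (hmem hb) ha0 hb0


theorem ends_unique {Om : Set E} {ι : Type*} (T : Tiling Om ι) {w a b : E} (hw : w ∈ Om)
    (hw1 : T.dim w = 1) (hseg : T.cc w = segment ℝ a b) (ha0 : T.dim a = 0) (hb0 : T.dim b = 0)
    {c : E} (hc : c ∈ T.cc w) (hc0 : T.dim c = 0) : c = a ∨ c = b := by
  obtain ⟨p, q, hpq, hseg', hoc, -, -, -, -⟩ := T.edge_eq hw hw1
  have hends : ∀ {c : E}, c ∈ T.cc w → T.dim c = 0 → c = p ∨ c = q := by
    intro c hc hc0
    by_contra hcon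
    push Not at hcon
    rw [hseg'] at hc
    have h1 : c ∈ T.oc w := by
      rw [hoc]
      exact mem_openSegment_of_ne_left_right (Ne.symm hcon.1) (Ne.symm hcon.2) hc
    have h2 := T.dim_eq_of_mem_oc hw h1
    omega
  have ha : a ∈ T.cc w := by rw [hseg]; exact left_mem_segment ℝ a b
  have hb : b ∈ T.cc w := by rw [hseg]; exact right_mem_segment ℝ a b
  have hab : a ≠ b := by
    rintro rfl
    rw [hseg, segment_same] at hseg'
    have h1 : p ∈ ({a} : Set E) := hseg' ▸ left_mem_segment ℝ p q
    have h2 : q ∈ ({a} : Set E) := hseg' ▸ right_mem_segment ℝ p q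
    exact hpq ((mem_singleton_iff.1 h1).trans (mem_singleton_iff.1 h2).symm)
  rcases hends hc hc0 with rfl | rfl <;> rcases hends ha ha0 with rfl | rfl <;>
    rcases hends hb hb0 with rfl | rfl <;> simp_all


end Tiling

end Crest.Agent.R096.Clo_441
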