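import Crest.Agent.R096.Rop1_441
import Crest.Agent.R096.Init3_543

-- ▼ part R096/Rop2_441
section

/-!
# R096 (row 96), ROPES (helper441), part 2: the foam

* `Nb D c η`      : the points of the boundary of the cell `c` with `s_a ≤ η` for all `a ∈ D`;
                    it is compact and preconnected for `η < 1`;
* `Az D θ`        : the points with `va a ≤ θ` for all `a ∈ D`; compact, preconnected;
* `CorT`          : topological data of the cores;
* `Ad D θ`        : `Az D θ` led round the cores: compact, preconnected, `va a ≤ η + η0` on it.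
-/

set_option autoImplicit false
set_option linter.unusedSectionVars false

open Set Relation

namespace Crest.Agent.R096.Rop_441

open Crest.Agent.R096.Brk1_582 Crest.Agent.R096.Brk2_582 Crest.Agent.R096.Init_543
  Crest.Agent.R096.Vb_965

section foam

variable {V : Type} [NormedAddCommGroup V] [NormedSpace ℝ V] [FiniteDimensional ℝ V]
variable {I : Type} {La : Set V} {P : I → Set V} {b : Set I → V} {N : ℕ}

open Classical in
/-- multiply the coordinates of `D` by `r` -/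
noncomputable def scl (D : Set I) (r : ℝ) (u : I → ℝ) : I → ℝ :=
  fun a => if a ∈ D then r * u a else u a

theorem scl_mem {D : Set I} {r : ℝ} {u : I → ℝ} {a : I} (h : a ∈ D) : scl D r u a = r * u a := by
  unfold scl; rw [if_pos h]

theorem scl_not {D : Set I} {r : ℝ} {u : I → ℝ} {a : I} (h : a ∉ D) : scl D r u a = u a := by
  unfold scl; rw [if_neg h]

theorem scl_zero {D : Set I} {r : ℝ} {u : I → ℝ} {a : I} (h : u a = 0) : scl D r u a = 0 := by
  by_cases ha : a ∈ D
  · rw [scl_mem ha, h, mul_zero]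
  · rw [scl_not ha, h]

theorem scl_one (D : Set I) (u : I → ℝ) : scl D 1 u = u := by
  funext a
  by_cases ha : a ∈ D
  · rw [scl_mem ha, one_mul]
  · rw [scl_not ha]

theorem scl_mem_K {D : Set I} {r : ℝ} (h0 : 0 ≤ r) (h1 : r ≤ 1) {u : I → ℝ} (hu : u ∈ K P)
    (hD : ∀ a ∈ D, u a < 1) : scl D r u ∈ K P := by
  obtain ⟨k1, ⟨c, k2⟩, k3⟩ := hu
  refine ⟨fun a => ?_, ⟨c, scl_zero k2⟩, ?_⟩
  · by_cases ha : a ∈ D
    · rw [scl_mem ha]
      exact ⟨mul_nonneg h0 (k1 a).1, mul_le_one₀ h1 (k1 a).1 (k1 a).2⟩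
    · rw [scl_not ha]; exact k1 a
  · refine k3.mono (fc_anti ?_)
    intro a (ha : scl D r u a < 1)
    show u a < 1
    by_cases haD : a ∈ D
    · exact hD a haD
    · rwa [scl_not haD] at ha

theorem continuous_scl (D : Set I) (u : I → ℝ) : Continuous fun r : ℝ => scl D r u := by
  refine continuous_pi fun a => ?_
  by_cases ha : a ∈ D
  · simp only [scl_mem ha]; fun_prop
  · simp only [scl_not ha]; exact continuous_const

/-- the points of the boundary of the cell `c` which are near all cells of `D` -/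
def Nb (La : Set V) (P : I → Set V) (b : Set I → V) (D : Set I) (c : I) (η : ℝ) : Set V :=
  {g | g ∈ Lset La P b c 0 ∧ ∀ a ∈ D, sc P b g a ≤ η}

variable (F : Foam La P b N)
include F

theorem Nb_triv {D : Set I} {c : I} {η : ℝ} (hη : 0 ≤ η) (h : ∀ a ∈ D, a = c) :
    Nb La P b D c η = Lset La P b c 0 := by
  ext g
  refine ⟨fun h => h.1, fun hg => ⟨hg, fun a ha => ?_⟩⟩
  rw [h a ha, hg.2.1]; exact hη

/-- **the nearly common boundary is connected** -/
theorem preconn_Nb (hV : Module.finrank ℝ V = 3) {c : I} (hne : (P c).Nonempty) {η : ℝ}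
    (hη0 : 0 ≤ η) (hη : η < 1) (D : Set I) : IsPreconnected (Nb La P b D c η) := by
  by_cases hD : ∀ a ∈ D, a = c
  · rw [Nb_triv F hη0 hD]
    exact isPreconnected_Lset F hV hne le_rfl one_pos
  push Not at hD
  obtain ⟨a₀, ha₀, hac⟩ := hD
  have hcv : IsPreconnected (fc P (insert c D)) := F.convex_fc.isPreconnected
  -- facts about the path of `g`
  have hpath : ∀ g ∈ Nb La P b D c η, ∀ r ∈ Icc (0 : ℝ) 1, scl D r (sc P b g) ∈ K P ∧
      T b (scl D r (sc P b g)) ∈ Nb La P b D c η := by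
    rintro g ⟨⟨hgL, hgc, c', hc', hgc'⟩, hg⟩ r hr
    have hK := scl_mem_K (D := D) hr.1 hr.2 (F.sc_mem_K hgL) (fun a ha => (hg a ha).trans_lt hη)
    have hL := F.T_mem_La hK
    refine ⟨hK, ⟨hL, ?_, c', hc', ?_⟩, ?_⟩
    · rw [F.sc_T hK]; exact scl_zero hgc
    · rw [← F.sc_eq_zero hL, F.sc_T hK]
      exact scl_zero ((F.sc_eq_zero hgL).2 hgc')
    · intro a ha
      rw [F.sc_T hK, scl_mem ha]
      have h1 := F.sc_nonneg hgL a
      have h2 := hg a ha
      nlinarith [hr.1, hr.2]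
  have hend : ∀ g ∈ Nb La P b D c η, T b (scl D 0 (sc P b g)) ∈ fc P (insert c D) := by
    intro g hg
    obtain ⟨hK, -⟩ := hpath g hg 0 ⟨le_rfl, zero_le_one⟩
    rw [mem_fc', F.act_T hK]
    rintro a (rfl | ha)
    · exact scl_zero hg.1.2.1
    · show scl D 0 (sc P b g) a = 0
      rw [scl_mem ha, zero_mul]
  rcases (Nb La P b D c η).eq_empty_or_nonempty with he | ⟨g₀, hg₀⟩
  · rw [he]; exact isPreconnected_empty
  have hsub : fc P (insert c D) ⊆ Nb La P b D c η := by
    intro y hy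
    have hy' := mem_fc.1 hy
    have hyc := hy' c (Or.inl rfl)
    have hyL : y ∈ La := F.sub c hyc
    refine ⟨⟨hyL, (F.sc_eq_zero hyL).2 hyc, a₀, hac, hy' a₀ (Or.inr ha₀)⟩, fun a ha => ?_⟩
    rw [(F.sc_eq_zero hyL).2 (hy' a (Or.inr ha))]; exact hη0
  refine isPreconnected_of_forall (T b (scl D 0 (sc P b g₀))) fun y hy => ?_
  have hcont : ContinuousOn (fun r : ℝ => T b (scl D r (sc P b y))) (Icc 0 1) :=
    (continuousOn_T F).comp (continuous_scl D _).continuousOn fun r hr => (hpath y hy r hr).1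
  have hpc : IsPreconnected ((fun r : ℝ => T b (scl D r (sc P b y))) '' Icc 0 1) :=
    isPreconnected_Icc.image _ hcont
  refine ⟨fc P (insert c D) ∪ (fun r : ℝ => T b (scl D r (sc P b y))) '' Icc 0 1, ?_,
    Or.inl (hend g₀ hg₀), Or.inr ⟨1, ⟨zero_le_one, le_rfl⟩, ?_⟩, ?_⟩
  · refine union_subset hsub ?_
    rintro _ ⟨r, hr, rfl⟩
    exact (hpath y hy r hr).2
  · show T b (scl D 1 (sc P b y)) = y
    rw [scl_one, F.T_sc hy.1.1]
  · exact IsPreconnected.union (T b (scl D 0 (sc P b y))) (hend y hy)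
      ⟨0, ⟨le_rfl, zero_le_one⟩, rfl⟩ hcv hpc

/-- the points near all cells of `D` -/
theorem preconn_low {D : Set I} (hD : D.Nonempty) {θ : ℝ} (hθ0 : 0 ≤ θ) (hθ : θ < 1) :
    IsPreconnected {y | y ∈ La ∧ ∀ a ∈ D, sc P b y a ≤ θ} := by
  have hcv : IsPreconnected (fc P D) := F.convex_fc.isPreconnected
  have hpath : ∀ g, g ∈ La → (∀ a ∈ D, sc P b g a ≤ θ) → ∀ r ∈ Icc (0 : ℝ) 1,
      scl D r (sc P b g) ∈ K P ∧ T b (scl D r (sc P b g)) ∈ La ∧
        ∀ a ∈ D, sc P b (T b (scl D r (sc P b g))) a ≤ θ := by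
    intro g hgL hg r hr
    have hK := scl_mem_K (D := D) hr.1 hr.2 (F.sc_mem_K hgL) (fun a ha => (hg a ha).trans_lt hθ)
    refine ⟨hK, F.T_mem_La hK, fun a ha => ?_⟩
    rw [F.sc_T hK, scl_mem ha]
    have h1 := F.sc_nonneg hgL a
    have h2 := hg a ha
    nlinarith [hr.1, hr.2]
  have hend : ∀ g, g ∈ La → (∀ a ∈ D, sc P b g a ≤ θ) → T b (scl D 0 (sc P b g)) ∈ fc P D := by
    intro g hgL hg
    obtain ⟨hK, -⟩ := hpath g hgL hg 0 ⟨le_rfl, zero_le_one⟩
    rw [mem_fc', F.act_T hK]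
    intro a ha
    show scl D 0 (sc P b g) a = 0
    rw [scl_mem ha, zero_mul]
  rcases ({y | y ∈ La ∧ ∀ a ∈ D, sc P b y a ≤ θ}).eq_empty_or_nonempty with he | ⟨g₀, hg₀L, hg₀⟩
  · rw [he]; exact isPreconnected_empty
  have hsub : fc P D ⊆ {y | y ∈ La ∧ ∀ a ∈ D, sc P b y a ≤ θ} := by
    intro y hy
    have hy' := mem_fc.1 hy
    obtain ⟨a₀, ha₀⟩ := hD
    have hyL : y ∈ La := F.sub a₀ (hy' a₀ ha₀)
    refine ⟨hyL, fun a ha => ?_⟩
    rw [(F.sc_eq_zero hyL).2 (hy' a ha)]; exact hθ0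
  refine isPreconnected_of_forall (T b (scl D 0 (sc P b g₀))) fun y hy => ?_
  have hcont : ContinuousOn (fun r : ℝ => T b (scl D r (sc P b y))) (Icc 0 1) :=
    (continuousOn_T F).comp (continuous_scl D _).continuousOn fun r hr => (hpath y hy.1 hy.2 r hr).1
  have hpc : IsPreconnected ((fun r : ℝ => T b (scl D r (sc P b y))) '' Icc 0 1) :=
    isPreconnected_Icc.image _ hcont
  refine ⟨fc P D ∪ (fun r : ℝ => T b (scl D r (sc P b y))) '' Icc 0 1, ?_,
    Or.inl (hend g₀ hg₀L hg₀), Or.inr ⟨1, ⟨zero_le_one, le_rfl⟩, ?_⟩, ?_⟩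
  · refine union_subset hsub ?_
    rintro _ ⟨r, hr, rfl⟩
    exact (hpath y hy.1 hy.2 r hr).2
  · show T b (scl D 1 (sc P b y)) = y
    rw [scl_one, F.T_sc hy.1]
  · exact IsPreconnected.union (T b (scl D 0 (sc P b y))) (hend y hy.1 hy.2)
      ⟨0, ⟨le_rfl, zero_le_one⟩, rfl⟩ hcv hpc

theorem isCompact_low {D : Set I} (hD : D.Nonempty) {θ : ℝ} (hθ : θ < 1) :
    IsCompact {y | y ∈ La ∧ ∀ a ∈ D, sc P b y a ≤ θ} := by
  obtain ⟨a₀, ha₀⟩ := hD
  have hfin : {d | (P d ∩ P a₀).Nonempty}.Finite := finite_touch F a₀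
  have hU : IsCompact (⋃ d ∈ {d | (P d ∩ P a₀).Nonempty}, P d) :=
    hfin.isCompact_biUnion fun d _ => F.cpt d
  have hUL : (⋃ d ∈ {d | (P d ∩ P a₀).Nonempty}, P d) ⊆ La := iUnion₂_subset fun d _ => F.sub d
  have hcl : IsClosed {u : I → ℝ | ∀ a ∈ D, u a ≤ θ} := by
    have : {u : I → ℝ | ∀ a ∈ D, u a ≤ θ} = ⋂ a ∈ D, {u : I → ℝ | u a ≤ θ} := by
      ext u; simp
    rw [this]
    exact isClosed_biInter fun a _ => isClosed_le (continuous_apply a) continuous_const
  have e1 : {y | y ∈ La ∧ ∀ a ∈ D, sc P b y a ≤ θ} =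
      (⋃ d ∈ {d | (P d ∩ P a₀).Nonempty}, P d) ∩ (sc P b) ⁻¹' {u : I → ℝ | ∀ a ∈ D, u a ≤ θ} := by
    ext z
    constructor
    · rintro ⟨hz, hz2⟩
      refine ⟨?_, hz2⟩
      obtain ⟨d, hd⟩ := F.cov z hz
      obtain ⟨w, hw⟩ := F.sc_lt_one_fc hz
      refine mem_iUnion₂.2 ⟨d, ⟨w, mem_fc.1 hw d ?_, mem_fc.1 hw a₀ ?_⟩, hd⟩
      · show sc P b z d < 1
        rw [(F.sc_eq_zero hz).2 hd]; exact one_pos
      · exact (hz2 a₀ ha₀).trans_lt hθ
    · rintro ⟨hz, hz2⟩
      exact ⟨hUL hz, hz2⟩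
  rw [e1]
  exact hU.of_isClosed_subset (((continuousOn_sc F).mono hUL).preimage_isClosed_of_isClosed
    hU.isClosed hcl) inter_subset_left

theorem isCompact_Nb (c : I) (D : Set I) (η : ℝ) : IsCompact (Nb La P b D c η) := by
  have h0 : IsCompact (Lset La P b c 0) := isCompact_Lset F c le_rfl one_pos
  have hcl : IsClosed {u : I → ℝ | ∀ a ∈ D, u a ≤ η} := by
    have : {u : I → ℝ | ∀ a ∈ D, u a ≤ η} = ⋂ a ∈ D, {u : I → ℝ | u a ≤ η} := by
      ext u; simp
    rw [this]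
    exact isClosed_biInter fun a _ => isClosed_le (continuous_apply a) continuous_const
  have h1 : Nb La P b D c η = Lset La P b c 0 ∩ (sc P b) ⁻¹' {u : I → ℝ | ∀ a ∈ D, u a ≤ η} := rfl
  rw [h1]
  exact h0.of_isClosed_subset (((continuousOn_sc F).mono fun y hy => hy.1).preimage_isClosed_of_isClosed
    h0.isClosed hcl) inter_subset_left

theorem Nb_nonempty (hV : Module.finrank ℝ V = 3) {c : I} {D : Set I} {η : ℝ} (hη : 0 ≤ η) {y : V}
    (hy : y ∈ P c) (hyD : ∀ a ∈ D, y ∈ P a) : (Nb La P b D c η).Nonempty := by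
  have hyL : y ∈ La := F.sub c hy
  by_cases hD : ∀ a ∈ D, a = c
  · rw [Nb_triv F hη hD, ← frontier_cell F]
    have hnt : Nontrivial V := Module.nontrivial_of_finrank_pos (R := ℝ) (by rw [hV]; norm_num)
    rw [Set.nonempty_iff_ne_empty]
    intro he
    rcases frontier_eq_empty_iff.1 he with h | h
    · rw [h] at hy; exact hy
    · have := F.cpt c
      rw [h] at this
      exact (NormedSpace.noncompactSpace ℝ V).noncompact_univ this
  · push Not at hD
    obtain ⟨a₀, ha₀, hac⟩ := hD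
    exact ⟨y, ⟨hyL, (F.sc_eq_zero hyL).2 hy, a₀, hac, hyD a₀ ha₀⟩, fun a ha => by
      rw [(F.sc_eq_zero hyL).2 (hyD a ha)]; exact hη⟩

end foam

section az

variable {E V : Type} [NormedAddCommGroup E] [NormedSpace ℝ E] [FiniteDimensional ℝ E]
  [NormedAddCommGroup V] [NormedSpace ℝ V] [FiniteDimensional ℝ V]
variable {I : Type} {Om : Set E} {La : Set V} {P : I → Set V} {b : Set I → V} {N : ℕ}
  {R : V → V} {f : E → V} {g : V → E}

/-- the points with `va a ≤ θ` for all `a ∈ D` -/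
def Az (Om : Set E) (P : I → Set V) (b : Set I → V) (R : V → V) (f : E → V) (D : Set I) (θ : ℝ) :
    Set E := {x | x ∈ Om ∧ ∀ a ∈ D, va P b R f a x ≤ θ}

/-- **topological data of the cores** -/
structure CorT (Om : Set E) (P : I → Set V) (b : Set I → V) (R : V → V) (f : E → V)
    (Kc : I → Set E) (th : I → E → V) (tau : I → V → E) (η0 : ℝ) : Prop where
  cpt : ∀ c, IsCompact (Kc c)
  sub : ∀ c, Kc c ⊆ Om
  disj : ∀ c c', c ≠ c' → Disjoint (Kc c) (Kc c')
  cell : ∀ c, ∀ x ∈ Kc c, f x ∈ P c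
  thm : ∀ c, ∀ x ∈ frontier (Kc c), th c x ∈ frontier (P c)
  taum : ∀ c, MapsTo (tau c) (frontier (P c)) (frontier (Kc c))
  li : ∀ c, ∀ x ∈ frontier (Kc c), tau c (th c x) = x
  ri : ∀ c, ∀ y ∈ frontier (P c), th c (tau c y) = y
  cont : ∀ c, ContinuousOn (tau c) (frontier (P c))
  close : ∀ c, ∀ x ∈ frontier (Kc c), ∀ a, |sc P b (th c x) a - va P b R f a x| ≤ η0

/-- `Az D θ` led round the cores -/
def Ad (Om : Set E) (La : Set V) (P : I → Set V) (b : Set I → V) (R : V → V) (f : E → V)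
    (Kc : I → Set E) (tau : I → V → E) (η : ℝ) (D : Set I) (θ : ℝ) : Set E :=
  det (Az Om P b R f D θ) Kc (fun c => tau c '' Nb La P b D c η)

variable (H : Hm f g Om La) (F : Foam La P b N) (hR : Ret La P R)
include H F hR

theorem Az_eq (D : Set I) (θ : ℝ) :
    Az Om P b R f D θ = Om ∩ f ⁻¹' (rpre La R {y | y ∈ La ∧ ∀ a ∈ D, sc P b y a ≤ θ}) := by
  ext x
  constructor
  · rintro ⟨hx, h⟩
    exact ⟨hx, H.fm hx, mem_La H F hR hx, h⟩
  · rintro ⟨hx, -, -, h⟩
    exact ⟨hx, h⟩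

theorem isCompact_Az {D : Set I} (hD : D.Nonempty) {θ : ℝ} (hθ : θ < 1) :
    IsCompact (Az Om P b R f D θ) := by
  rw [Az_eq H F hR D θ]
  exact H.isCompact_pre (fun y hy => hy.1) (hR.isCompact_pre F (isCompact_low F hD hθ)
    fun y hy => hy.1)

theorem preconn_Az {D : Set I} (hD : D.Nonempty) {θ : ℝ} (hθ0 : 0 ≤ θ) (hθ : θ < 1) :
    IsPreconnected (Az Om P b R f D θ) := by
  rw [Az_eq H F hR D θ]
  exact H.preconn_pre (fun y hy => hy.1) (hR.preconn_pre F (isCompact_low F hD hθ)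
    (fun y hy => hy.1) (preconn_low F hD hθ0 hθ))

variable {Kc : I → Set E} {th : I → E → V} {tau : I → V → E} {η0 η : ℝ}
  (hC : CorT Om P b R f Kc th tau η0) {θ : ℝ}
include hC

theorem finite_cores {D : Set I} (hD : D.Nonempty) (hθ : θ < 1) :
    {c | (Az Om P b R f D θ ∩ Kc c).Nonempty}.Finite := by
  have h1 : IsCompact (f '' Az Om P b R f D θ) :=
    (isCompact_Az H F hR hD hθ).image_of_continuousOn (H.fc.mono fun x hx => hx.1)
  have h2 : f '' Az Om P b R f D θ ⊆ La := by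
    rintro _ ⟨x, hx, rfl⟩; exact H.fm hx.1
  refine (F.finite_meet h1 h2).subset ?_
  rintro c ⟨x, hx, hxc⟩
  exact ⟨f x, hC.cell c x hxc, mem_image_of_mem f hx⟩

theorem Nb_ne_of_meet (hV : Module.finrank ℝ V = 3) (hη0 : 0 ≤ η) (hθ : θ < 1) {D : Set I} {c : I}
    (hc : (Az Om P b R f D θ ∩ Kc c).Nonempty) : (P c).Nonempty ∧ (Nb La P b D c η).Nonempty := by
  obtain ⟨x, ⟨hx, hxD⟩, hxc⟩ := hc
  have h1 : R (f x) ∈ P c := hR.cell c (hC.cell c x hxc)
  have hL := mem_La H F hR hx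
  -- move the coordinates of `D` to zero
  have hK := scl_mem_K (D := D) le_rfl zero_le_one (F.sc_mem_K hL)
    (fun a ha => (hxD a ha).trans_lt hθ)
  have hact : ∀ a, a ∈ D ∨ a = c → T b (scl D 0 (sc P b (R (f x)))) ∈ P a := by
    intro a ha
    have : a ∈ act P (T b (scl D 0 (sc P b (R (f x))))) := by
      rw [F.act_T hK]
      rcases ha with ha | rfl
      · show scl D 0 _ a = 0
        rw [scl_mem ha, zero_mul]
      · exact scl_zero ((F.sc_eq_zero hL).2 h1)
    exact this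
  exact ⟨⟨_, h1⟩, Nb_nonempty F hV hη0 (hact c (Or.inr rfl)) fun a ha => hact a (Or.inl ha)⟩

theorem preconn_Ad (hV : Module.finrank ℝ V = 3) (hθ0 : 0 ≤ θ) (hη0 : 0 ≤ η0) (hη01 : θ + η0 ≤ η)
    (hη : η < 1) {D : Set I} (hD : D.Nonempty) :
    IsPreconnected (Ad Om La P b R f Kc tau η D θ) := by
  have hθ : θ < 1 := by linarith
  have hη' : 0 ≤ η := by linarith
  refine detour (isCompact_Az H F hR hD hθ) (preconn_Az H F hR hD hθ0 hθ)
    (fun c => (hC.cpt c).isClosed)
    hC.disj (finite_cores H F hR hC hD hθ) (fun c hc => ?_) (fun c => ?_)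
  · obtain ⟨h1, h2⟩ := Nb_ne_of_meet H F hR hC hV hη' hθ hc
    refine ⟨h2.image _, (preconn_Nb F hV h1 hη' hη D).image _ ((hC.cont c).mono fun y hy => ?_)⟩
    rw [frontier_cell F]; exact hy.1
  · rintro x ⟨⟨⟨hx, hxD⟩, hxc⟩, hxi⟩
    have hxf : x ∈ frontier (Kc c) := by
      rw [(hC.cpt c).isClosed.frontier_eq]; exact ⟨hxc, hxi⟩
    refine ⟨th c x, ⟨?_, fun a ha => ?_⟩, hC.li c x hxf⟩
    · rw [← frontier_cell F]; exact hC.thm c x hxf
    · have h1 := hC.close c x hxf a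
      have h2 := hxD a ha
      rw [abs_le] at h1
      linarith [h1.2]

theorem isCompact_Ad {D : Set I} (hD : D.Nonempty) (hθ : θ < 1) :
    IsCompact (Ad Om La P b R f Kc tau η D θ) := by
  refine isCompact_det (isCompact_Az H F hR hD hθ) (finite_cores H F hR hC hD hθ) (fun c _ => ?_)
  refine (isCompact_Nb F c D η).image_of_continuousOn ((hC.cont c).mono fun y hy => ?_)
  rw [frontier_cell F]; exact hy.1

/-- the points of the detour -/
theorem mem_Ad (h00 : 0 ≤ η0) (h01 : θ + η0 ≤ η) {D : Set I} {x : E}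
    (hx : x ∈ Ad Om La P b R f Kc tau η D θ) :
    x ∈ Om ∧ (∀ c, x ∉ interior (Kc c)) ∧ ∀ a ∈ D, va P b R f a x ≤ η + η0 := by
  rcases hx with ⟨⟨h1, h2⟩, h3⟩ | hx
  · refine ⟨h1, fun c hc => h3 (mem_iUnion.2 ⟨c, hc⟩), fun a ha => ?_⟩
    have := h2 a ha
    linarith
  · obtain ⟨c, -, y, ⟨hy1, hy2⟩, rfl⟩ := mem_iUnion₂.1 hx
    have hyf : y ∈ frontier (P c) := by rw [frontier_cell F]; exact hy1
    have hxf : tau c y ∈ frontier (Kc c) := hC.taum c hyf
    have hxc : tau c y ∈ Kc c := (hC.cpt c).isClosed.frontier_subset hxf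
    refine ⟨hC.sub c hxc, fun c' hc' => ?_, fun a ha => ?_⟩
    · by_cases hcc : c = c'
      · subst hcc
        exact hxf.2 hc'
      · exact Set.disjoint_left.1 (hC.disj c c' hcc) hxc (interior_subset hc')
    · have h1 := hC.close c _ hxf a
      rw [hC.ri c y hyf] at h1
      have h2 := hy2 a ha
      rw [abs_le] at h1
      linarith [h1.1, h1.2]


/-- a point of `Az D` outside the interiors of the cores lies on the detour -/
theorem Az_sub_Ad {D : Set I} {x : E} (hx : x ∈ Az Om P b R f D θ)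
    (h : ∀ c, x ∉ interior (Kc c)) : x ∈ Ad Om La P b R f Kc tau η D θ :=
  Or.inl ⟨hx, fun h' => by
    obtain ⟨c, hc⟩ := mem_iUnion.1 h'
    exact h c hc⟩

end az

end Crest.Agent.R096.Rop_441
end

-- ▼ part R096/Rop3_441

/-!
# R096 (row 96), ROPES (helper441), part 3: the far side of the cell `a`

* `rho a y`      : move the coordinate `a` to `1`;
* `Fa a c η`     : the points of the boundary of the cell `c` with `s_a ≥ 1 - η`; it is preconnected
                   as soon as `bd P_c \ P_a` is preconnected;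
* `exists_far`   : two points with `s_a = 1` lie in a compact preconnected subset of `{s_a = 1}`;
* `exists_Af`    : two points of `Om` outside the cores with `va a = 1` lie in a compact preconnected
                   set outside the interiors of the cores with `va a ≥ 1 - η - η0`.
-/

set_option autoImplicit false
set_option linter.unusedSectionVars false

open Set Relation

namespace Crest.Agent.R096.Rop_441

open Crest.Agent.R096.Brk1_582 Crest.Agent.R096.Brk2_582 Crest.Agent.R096.Init_543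
  Crest.Agent.R096.Vb_965

section foam

variable {V : Type} [NormedAddCommGroup V] [NormedSpace ℝ V] [FiniteDimensional ℝ V]
variable {I : Type} {La : Set V} {P : I → Set V} {b : Set I → V} {N : ℕ}

open Classical in
/-- raising one coordinate keeps the cube complex -/
theorem raise_mem_K {u : I → ℝ} (hu : u ∈ K P) {a : I} {r : ℝ} (h0 : 0 < u a) (h1 : u a ≤ r)
    (h2 : r ≤ 1) : Function.update u a r ∈ K P := by
  obtain ⟨k1, ⟨c, k2⟩, k3⟩ := hu
  have hc : c ≠ a := by
    rintro rfl; rw [k2] at h0; exact lt_irrefl _ h0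
  refine ⟨fun e => ?_, ⟨c, by rw [Function.update_of_ne hc]; exact k2⟩, ?_⟩
  · by_cases he : e = a
    · subst he
      rw [Function.update_self]
      exact ⟨h0.le.trans h1, h2⟩
    · rw [Function.update_of_ne he]; exact k1 e
  · refine k3.mono (fc_anti ?_)
    intro e (he : Function.update u a r e < 1)
    show u e < 1
    by_cases hea : e = a
    · subst hea
      rw [Function.update_self] at he
      exact h1.trans_lt he
    · rwa [Function.update_of_ne hea] at he

open Classical in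
/-- the path raising the coordinate `a` -/
noncomputable def rs (P : I → Set V) (b : Set I → V) (a : I) (r : ℝ) (y : V) : V :=
  T b (Function.update (sc P b y) a r)

/-- the points of the boundary of the cell `c` which are far from the cell `a` -/
def Fa (La : Set V) (P : I → Set V) (b : Set I → V) (a c : I) (η : ℝ) : Set V :=
  {g | g ∈ Lset La P b c 0 ∧ 1 - η ≤ sc P b g a}

variable (F : Foam La P b N)
include F

theorem pos_of_notMem {y : V} (hy : y ∈ La) {a : I} (h : y ∉ P a) : 0 < sc P b y a :=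
  lt_of_le_of_ne (F.sc_nonneg hy a) fun h' => h ((F.sc_eq_zero hy).1 h'.symm)

theorem rs_spec {y : V} (hy : y ∈ La) {a : I} (ha : y ∉ P a) {r : ℝ} (h1 : sc P b y a ≤ r)
    (h2 : r ≤ 1) : rs P b a r y ∈ La ∧ sc P b (rs P b a r y) a = r ∧
      (∀ e, e ≠ a → sc P b (rs P b a r y) e = sc P b y e) := by
  classical
  have hK := raise_mem_K (F.sc_mem_K hy) (pos_of_notMem F hy ha) h1 h2
  have hL := F.T_mem_La hK
  have hs : sc P b (rs P b a r y) = Function.update (sc P b y) a r := F.sc_T hK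
  refine ⟨hL, by rw [hs, Function.update_self], fun e he => by rw [hs, Function.update_of_ne he]⟩

theorem rs_self {y : V} (hy : y ∈ La) {a : I} : rs P b a (sc P b y a) y = y := by
  classical
  unfold rs
  rw [Function.update_eq_self, F.T_sc hy]

theorem rs_Lset {y : V} {a c : I} (hc : c ≠ a) (hy : y ∈ Lset La P b c 0) (ha : y ∉ P a) {r : ℝ}
    (h1 : sc P b y a ≤ r) (h2 : r ≤ 1) : rs P b a r y ∈ Lset La P b c 0 := by
  obtain ⟨hyL, hyc, c', hc', hyc'⟩ := hy
  obtain ⟨k1, k2, k3⟩ := rs_spec F hyL ha h1 h2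
  have hca : c' ≠ a := by
    rintro rfl; exact ha hyc'
  refine ⟨k1, by rw [k3 c hc]; exact hyc, c', hc', ?_⟩
  rw [← F.sc_eq_zero k1, k3 c' hca]
  exact (F.sc_eq_zero hyL).2 hyc'

/-- the path from `y` to the level `1` -/
theorem rs_path {y : V} (hy : y ∈ La) {a : I} (ha : y ∉ P a) :
    IsPreconnected ((fun r => rs P b a r y) '' Icc (sc P b y a) 1) := by
  classical
  refine isPreconnected_Icc.image _ ?_
  refine (continuousOn_T F).comp (f := fun r => Function.update (sc P b y) a r) ?_ fun r hr => ?_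
  · exact ((continuous_const : Continuous fun _ : ℝ => sc P b y).update a
      continuous_id).continuousOn
  · exact raise_mem_K (F.sc_mem_K hy) (pos_of_notMem F hy ha) hr.1 hr.2

theorem continuousOn_rs (a : I) : ContinuousOn (rs P b a 1) (La \ P a) := by
  classical
  refine (continuousOn_T F).comp (f := fun y => Function.update (sc P b y) a 1) ?_ fun y hy => ?_
  · have h1 : Continuous (fun u : I → ℝ => Function.update u a 1) :=
      continuous_id.update a continuous_const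
    exact h1.comp_continuousOn ((continuousOn_sc F).mono sdiff_subset)
  · exact raise_mem_K (F.sc_mem_K hy.1) (pos_of_notMem F hy.1 hy.2) (F.sc_le_one hy.1 a) le_rfl

/-- **the far part of the boundary of a cell is connected** -/
theorem preconn_Fa {a c : I} (hc : c ≠ a) {η : ℝ} (hη0 : 0 ≤ η) (hη : η < 1)
    (hS : IsPreconnected (Lset La P b c 0 \ P a)) : IsPreconnected (Fa La P b a c η) := by
  have hna : ∀ y ∈ Fa La P b a c η, y ∉ P a := by
    rintro y ⟨hy, h1⟩ hya
    rw [(F.sc_eq_zero hy.1).2 hya] at h1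
    linarith
  have hsub : Lset La P b c 0 \ P a ⊆ La \ P a := fun y hy => ⟨hy.1.1, hy.2⟩
  have hB : IsPreconnected (rs P b a 1 '' (Lset La P b c 0 \ P a)) :=
    hS.image _ ((continuousOn_rs F a).mono hsub)
  have hBsub : rs P b a 1 '' (Lset La P b c 0 \ P a) ⊆ Fa La P b a c η := by
    rintro _ ⟨y, hy, rfl⟩
    refine ⟨rs_Lset F hc hy.1 hy.2 (F.sc_le_one hy.1.1 a) le_rfl, ?_⟩
    rw [(rs_spec F hy.1.1 hy.2 (F.sc_le_one hy.1.1 a) le_rfl).2.1]
    linarith
  rcases (Fa La P b a c η).eq_empty_or_nonempty with he | ⟨g₀, hg₀⟩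
  · rw [he]; exact isPreconnected_empty
  refine isPreconnected_of_forall (rs P b a 1 g₀) fun y hy => ?_
  have hyL : y ∈ La := hy.1.1
  have hya := hna y hy
  have hle := F.sc_le_one hyL a
  refine ⟨rs P b a 1 '' (Lset La P b c 0 \ P a) ∪ (fun r => rs P b a r y) '' Icc (sc P b y a) 1,
    union_subset hBsub ?_, Or.inl ⟨g₀, ⟨hg₀.1, hna g₀ hg₀⟩, rfl⟩,
    Or.inr ⟨sc P b y a, ⟨le_rfl, hle⟩, rs_self F hyL⟩, ?_⟩
  · rintro _ ⟨r, hr, rfl⟩
    refine ⟨rs_Lset F hc hy.1 hya hr.1 hr.2, ?_⟩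
    show 1 - η ≤ sc P b (rs P b a r y) a
    rw [(rs_spec F hyL hya hr.1 hr.2).2.1]
    exact hy.2.trans hr.1
  · exact IsPreconnected.union (rs P b a 1 y) ⟨y, ⟨hy.1, hya⟩, rfl⟩ ⟨1, ⟨hle, le_rfl⟩, rfl⟩ hB
      (rs_path F hyL hya)

theorem isCompact_Fa (a c : I) (η : ℝ) : IsCompact (Fa La P b a c η) := by
  have h0 : IsCompact (Lset La P b c 0) := isCompact_Lset F c le_rfl one_pos
  have h1 : Fa La P b a c η = Lset La P b c 0 ∩ (fun y => sc P b y a) ⁻¹' Ici (1 - η) := rfl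
  rw [h1]
  exact h0.of_isClosed_subset (((continuousOn_sc_apply F a).mono
    fun y hy => hy.1).preimage_isClosed_of_isClosed h0.isClosed isClosed_Ici) inter_subset_left

/-- **two points with `s_a = 1` lie in a compact preconnected subset of `{s_a = 1}`** -/
theorem exists_far (hV : Module.finrank ℝ V = 3) (hLa : IsPreconnected La) {a : I} {y y' : V}
    (hy : y ∈ La) (hy' : y' ∈ La) (h1 : sc P b y a = 1) (h1' : sc P b y' a = 1) :
    ∃ C : Set V, IsCompact C ∧ IsPreconnected C ∧ C ⊆ {z ∈ La | sc P b z a = 1} ∧ y ∈ C ∧ y' ∈ C := by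
  -- a path in `La`
  have hcon : IsConnected La := ⟨⟨y, hy⟩, hLa⟩
  have hpc : IsPathConnected La := (F.op.isConnected_iff_isPathConnected).1 hcon
  obtain ⟨γ, hγ⟩ := hpc.joinedIn y hy y' hy'
  have hA : IsCompact (range γ) := isCompact_range γ.continuous
  have hAc : IsPreconnected (range γ) := isPreconnected_range γ.continuous
  have hAL : range γ ⊆ La := by rintro _ ⟨t, rfl⟩; exact hγ t
  have hyA : y ∈ range γ := ⟨0, γ.source⟩
  have hyA' : y' ∈ range γ := ⟨1, γ.target⟩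
  -- the neighbourhood of `P a`
  rcases (P a).eq_empty_or_nonempty with hPe | hPne
  · -- all of `La` is far
    have hall : ∀ z ∈ La, sc P b z a = 1 := by
      intro z hz
      by_contra hne
      have hlt : sc P b z a < 1 := lt_of_le_of_ne (F.sc_le_one hz a) hne
      obtain ⟨w, hw⟩ := F.sc_lt_one_fc hz
      have : w ∈ P a := mem_fc.1 hw a hlt
      rw [hPe] at this
      exact this
    exact ⟨range γ, hA, hAc, fun z hz => ⟨hAL hz, hall z (hAL hz)⟩, hyA, hyA'⟩
  have hcl : ContinuousOn (fun z => sc P b z a) La := continuousOn_sc_apply F a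
  let K : Unit → Set V := fun _ => {z | z ∈ La ∧ sc P b z a ≤ 1 / 2}
  let pat : Unit → Set V := fun _ => Lset La P b a (1 / 2)
  have hKc : IsClosed (K ()) := by
    have hfin : {d | (P d ∩ P a).Nonempty}.Finite := finite_touch F a
    have hU : IsCompact (⋃ d ∈ {d | (P d ∩ P a).Nonempty}, P d) :=
      hfin.isCompact_biUnion fun d _ => F.cpt d
    have hUL : (⋃ d ∈ {d | (P d ∩ P a).Nonempty}, P d) ⊆ La := iUnion₂_subset fun d _ => F.sub d
    have e1 : K () = (⋃ d ∈ {d | (P d ∩ P a).Nonempty}, P d) ∩ (fun z => sc P b z a) ⁻¹' Iic (1 / 2) := by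
      ext z
      constructor
      · rintro ⟨hz, hz2⟩
        refine ⟨?_, hz2⟩
        obtain ⟨d, hd⟩ := F.cov z hz
        obtain ⟨w, hw⟩ := F.sc_lt_one_fc hz
        refine mem_iUnion₂.2 ⟨d, ⟨w, mem_fc.1 hw d ?_, mem_fc.1 hw a ?_⟩, hd⟩
        · show sc P b z d < 1
          rw [(F.sc_eq_zero hz).2 hd]; exact one_pos
        · show sc P b z a < 1
          linarith
      · rintro ⟨hz, hz2⟩
        exact ⟨hUL hz, hz2⟩
    rw [e1]
    exact (hcl.mono hUL).preimage_isClosed_of_isClosed hU.isClosed isClosed_Iic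
  have hopen : IsOpen {z | z ∈ La ∧ sc P b z a < 1 / 2} := by
    have := hcl.isOpen_inter_preimage F.op (isOpen_Iio (a := (1 / 2 : ℝ)))
    exact this
  have hpat : (range γ ∩ K ()).Nonempty → (pat ()).Nonempty ∧ IsPreconnected (pat ()) := by
    rintro ⟨z, hzA, hz, hz2⟩
    refine ⟨?_, isPreconnected_Lset F hV hPne (by norm_num) (by norm_num)⟩
    have h2 : Icc (sc P b z a) (sc P b y a) ⊆ (fun z => sc P b z a) '' range γ :=
      hAc.intermediate_value hzA hyA (hcl.mono hAL)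
    obtain ⟨w, hw, hwe⟩ := h2 ⟨hz2, by rw [h1]; norm_num⟩
    exact ⟨w, mem_Lset_of_pos F (by norm_num) (hAL hw) hwe⟩
  have hfr : (range γ ∩ K ()) \ interior (K ()) ⊆ pat () := by
    rintro z ⟨⟨hzA, hz, hz2⟩, hzi⟩
    refine mem_Lset_of_pos F (by norm_num) hz (le_antisymm hz2 ?_)
    by_contra hlt
    rw [not_le] at hlt
    exact hzi (mem_interior.2 ⟨{z | z ∈ La ∧ sc P b z a < 1 / 2}, fun w hw => ⟨hw.1, hw.2.le⟩,
      hopen, ⟨hz, hlt⟩⟩)
  have hC0 : IsPreconnected (det (range γ) K pat) :=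
    detour hA hAc (fun _ => hKc) (fun c c' h => absurd (Subsingleton.elim c c') h)
      (Set.toFinite _) (fun _ h => hpat h) (fun _ => hfr)
  have hC0c : IsCompact (det (range γ) K pat) :=
    isCompact_det hA (Set.toFinite _) (fun _ _ => isCompact_Lset F a (by norm_num) (by norm_num))
  have hsub : det (range γ) K pat ⊆ La \ P a := by
    rintro z (⟨hz, hzi⟩ | hz)
    · refine ⟨hAL hz, fun hza => hzi (mem_iUnion.2 ⟨(), mem_interior.2
        ⟨{z | z ∈ La ∧ sc P b z a < 1 / 2}, fun w hw => ⟨hw.1, hw.2.le⟩, hopen, hAL hz, ?_⟩⟩)⟩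
      rw [(F.sc_eq_zero (hAL hz)).2 hza]; norm_num
    · obtain ⟨-, -, hz1, hz2, -⟩ := mem_iUnion₂.1 hz
      refine ⟨hz1, fun hza => ?_⟩
      rw [(F.sc_eq_zero hz1).2 hza] at hz2
      norm_num at hz2
  have hmem : ∀ z ∈ range γ, sc P b z a = 1 → z ∈ rs P b a 1 '' det (range γ) K pat := by
    intro z hz hz1
    refine ⟨z, Or.inl ⟨hz, fun h => ?_⟩, ?_⟩
    · obtain ⟨_, hi⟩ := mem_iUnion.1 h
      have := (interior_subset hi).2
      rw [hz1] at this
      norm_num at this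
    · have := rs_self F (hAL hz) (a := a)
      rwa [hz1] at this
  refine ⟨rs P b a 1 '' det (range γ) K pat,
    hC0c.image_of_continuousOn ((continuousOn_rs F a).mono hsub),
    hC0.image _ ((continuousOn_rs F a).mono hsub), ?_, hmem y hyA h1, hmem y' hyA' h1'⟩
  rintro _ ⟨z, hz, rfl⟩
  obtain ⟨k1, k2, -⟩ := rs_spec F (hsub hz).1 (hsub hz).2 (F.sc_le_one (hsub hz).1 a) le_rfl
  exact ⟨k1, k2⟩

/-- **two points with `s_a ≥ 1 - θ` lie in a compact preconnected subset of `{s_a ≥ 1 - θ}`** -/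
theorem exists_far' (hV : Module.finrank ℝ V = 3) (hLa : IsPreconnected La) {a : I} {y y' : V}
    {θ : ℝ} (hθ0 : 0 ≤ θ) (hθ : θ < 1) (hy : y ∈ La) (hy' : y' ∈ La) (h1 : 1 - θ ≤ sc P b y a)
    (h1' : 1 - θ ≤ sc P b y' a) :
    ∃ C : Set V, IsCompact C ∧ IsPreconnected C ∧ C ⊆ {z ∈ La | 1 - θ ≤ sc P b z a} ∧ y ∈ C ∧
      y' ∈ C := by
  classical
  have hn : ∀ z ∈ La, 1 - θ ≤ sc P b z a → z ∉ P a := by
    intro z hz hz1 hza
    rw [(F.sc_eq_zero hz).2 hza] at hz1
    linarith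
  have up : ∀ z ∈ La, 1 - θ ≤ sc P b z a → rs P b a 1 z ∈ La ∧ sc P b (rs P b a 1 z) a = 1 ∧
      IsCompact ((fun r => rs P b a r z) '' Icc (sc P b z a) 1) ∧
      IsPreconnected ((fun r => rs P b a r z) '' Icc (sc P b z a) 1) ∧
      (fun r => rs P b a r z) '' Icc (sc P b z a) 1 ⊆ {z ∈ La | 1 - θ ≤ sc P b z a} ∧
      z ∈ (fun r => rs P b a r z) '' Icc (sc P b z a) 1 ∧
      rs P b a 1 z ∈ (fun r => rs P b a r z) '' Icc (sc P b z a) 1 := by
    intro z hz hz1
    have hza := hn z hz hz1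
    have hle := F.sc_le_one hz a
    obtain ⟨k1, k2, -⟩ := rs_spec F hz hza hle le_rfl
    refine ⟨k1, k2, ?_, rs_path F hz hza, ?_, ⟨_, ⟨le_rfl, hle⟩, rs_self F hz⟩,
      ⟨1, ⟨hle, le_rfl⟩, rfl⟩⟩
    · refine isCompact_Icc.image_of_continuousOn ?_
      refine (continuousOn_T F).comp (f := fun r => Function.update (sc P b z) a r) ?_ fun r hr => ?_
      · exact ((continuous_const : Continuous fun _ : ℝ => sc P b z).update a
          continuous_id).continuousOn
      · exact raise_mem_K (F.sc_mem_K hz) (pos_of_notMem F hz hza) hr.1 hr.2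
    · rintro _ ⟨r, hr, rfl⟩
      obtain ⟨m1, m2, -⟩ := rs_spec F hz hza hr.1 hr.2
      exact ⟨m1, by rw [m2]; exact hz1.trans hr.1⟩
  obtain ⟨a1, a2, a3, a4, a5, a6, a7⟩ := up y hy h1
  obtain ⟨b1, b2, b3, b4, b5, b6, b7⟩ := up y' hy' h1'
  obtain ⟨C, c1, c2, c3, c4, c5⟩ := exists_far F hV hLa a1 b1 a2 b2
  refine ⟨((fun r => rs P b a r y) '' Icc (sc P b y a) 1 ∪ C) ∪
    (fun r => rs P b a r y') '' Icc (sc P b y' a) 1, (a3.union c1).union b3, ?_, ?_,
    Or.inl (Or.inl a6), Or.inr b6⟩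
  · exact IsPreconnected.union _ (Or.inr c5) b7 (IsPreconnected.union _ a7 c4 a4 c2) b4
  · refine union_subset (union_subset a5 ?_) b5
    intro z hz
    exact ⟨(c3 hz).1, by rw [(c3 hz).2]; linarith⟩

end foam

section az

variable {E V : Type} [NormedAddCommGroup E] [NormedSpace ℝ E] [FiniteDimensional ℝ E]
  [NormedAddCommGroup V] [NormedSpace ℝ V] [FiniteDimensional ℝ V]
variable {I : Type} {Om : Set E} {La : Set V} {P : I → Set V} {b : Set I → V} {N : ℕ}
  {R : V → V} {f : E → V} {g : V → E}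
variable {Kc : I → Set E} {th : I → E → V} {tau : I → V → E} {η0 η : ℝ}

theorem finite_cores' (H : Hm f g Om La) (F : Foam La P b N) (hC : CorT Om P b R f Kc th tau η0)
    {A : Set E} (hA : IsCompact A) (hAO : A ⊆ Om) : {c | (A ∩ Kc c).Nonempty}.Finite := by
  have h1 : IsCompact (f '' A) := hA.image_of_continuousOn (H.fc.mono hAO)
  have h2 : f '' A ⊆ La := by
    rintro _ ⟨x, hx, rfl⟩; exact H.fm (hAO hx)
  refine (F.finite_meet h1 h2).subset ?_
  rintro c ⟨x, hx, hxc⟩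
  exact ⟨f x, hC.cell c x hxc, mem_image_of_mem f hx⟩

/-- **two far points are joined outside the cores in the far region**; if `x` lies in a core, the
whole far part of its frontier is included -/
theorem exists_Af (H : Hm f g Om La) (F : Foam La P b N) (hR : Ret La P R)
    (hC : CorT Om P b R f Kc th tau η0) (hV : Module.finrank ℝ V = 3) {θ : ℝ} (hθ0 : 0 ≤ θ)
    (hη0 : 0 ≤ η0) (hη01 : θ + η0 ≤ η) (hη : η < 1) (hLa : IsPreconnected La) {a : I}
    (hS : ∀ c, c ≠ a → IsPreconnected (Lset La P b c 0 \ P a)) {x x' : E} (hx : x ∈ Om)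
    (hx1 : 1 - θ ≤ va P b R f a x) (hx' : x' ∈ Om)
    (hx1' : 1 - θ ≤ va P b R f a x') (hxi' : ∀ c, x' ∉ interior (Kc c)) :
    ∃ A : Set E, IsCompact A ∧ IsPreconnected A ∧ ((∀ c, x ∉ interior (Kc c)) → x ∈ A) ∧
      (∀ c, x ∈ Kc c → ∀ z ∈ frontier (Kc c), 1 - η + η0 ≤ va P b R f a z → z ∈ A) ∧ x' ∈ A ∧
      ∀ z ∈ A, z ∈ Om ∧ (∀ c, z ∉ interior (Kc c)) ∧ 1 - (η + η0) ≤ va P b R f a z := by
  have hyL := mem_La H F hR hx
  have hyL' := mem_La H F hR hx'
  have hθ : θ < 1 := by linarith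
  obtain ⟨C, hCc, hCp, hCs, hyC, hyC'⟩ := exists_far' F hV hLa hθ0 hθ hyL hyL' hx1 hx1'
  have hCL : C ⊆ La := fun z hz => (hCs hz).1
  set A0 : Set E := Om ∩ f ⁻¹' (rpre La R C) with hA0
  have hA0c : IsCompact A0 := H.isCompact_pre (fun y hy => hy.1) (hR.isCompact_pre F hCc hCL)
  have hA0p : IsPreconnected A0 := H.preconn_pre (fun y hy => hy.1) (hR.preconn_pre F hCc hCL hCp)
  have hA0s : A0 ⊆ Om := inter_subset_left
  have hval : ∀ z ∈ A0, 1 - θ ≤ va P b R f a z := fun z hz => (hCs hz.2.2).2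
  have hxA : x ∈ A0 := ⟨hx, H.fm hx, hyC⟩
  have hxA' : x' ∈ A0 := ⟨hx', H.fm hx', hyC'⟩
  have hca : ∀ c, (A0 ∩ Kc c).Nonempty → c ≠ a := by
    rintro c ⟨z, hz, hzc⟩ rfl
    have h1 : R (f z) ∈ P c := hR.cell c (hC.cell c z hzc)
    have h2 : va P b R f c z = 0 := (F.sc_eq_zero (mem_La H F hR hz.1)).2 h1
    have h4 := hval z hz
    rw [h2] at h4
    linarith
  have hFr : ∀ c, ∀ z ∈ A0, z ∈ frontier (Kc c) → th c z ∈ Fa La P b a c η := by
    intro c z hz hzf
    refine ⟨by rw [← frontier_cell F]; exact hC.thm c z hzf, ?_⟩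
    have h1 := hC.close c z hzf a
    have h2 := hval z hz
    rw [abs_le] at h1
    linarith [h1.1]
  have hfrc : ∀ c, ∀ z ∈ Kc c, z ∉ interior (Kc c) → z ∈ frontier (Kc c) := by
    intro c z hz hzi
    rw [(hC.cpt c).isClosed.frontier_eq]; exact ⟨hz, hzi⟩
  have htau : ∀ c, ContinuousOn (tau c) (Fa La P b a c η) := by
    intro c
    refine (hC.cont c).mono fun y hy => ?_
    rw [frontier_cell F]; exact hy.1
  have hfin := finite_cores' H F hC hA0c hA0s
  refine ⟨det A0 Kc (fun c => tau c '' Fa La P b a c η), ?_, ?_, ?_, ?_, ?_, ?_⟩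
  · exact isCompact_det hA0c hfin fun c _ => (isCompact_Fa F a c η).image_of_continuousOn (htau c)
  · refine detour hA0c hA0p (fun c => (hC.cpt c).isClosed) hC.disj hfin (fun c hc => ⟨?_, ?_⟩) ?_
    · -- a point of `A0` on the frontier of the core
      have : ∃ w ∈ A0, w ∈ frontier (Kc c) := by
        by_cases hxc : x' ∈ Kc c
        · exact ⟨x', hxA', hfrc c x' hxc (hxi' c)⟩
        · by_contra hno
          push Not at hno
          obtain ⟨z, hz, hzc⟩ := hc
          have hcov : A0 ⊆ interior (Kc c) ∪ (Kc c)ᶜ := by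
            intro w hw
            by_cases hwc : w ∈ Kc c
            · left
              by_contra hwi
              exact hno w hw (hfrc c w hwc hwi)
            · exact Or.inr hwc
          obtain ⟨w, -, hw1, hw2⟩ := hA0p (interior (Kc c)) (Kc c)ᶜ isOpen_interior
            (hC.cpt c).isClosed.isOpen_compl hcov
            ⟨z, hz, (hcov hz).resolve_right fun h => h hzc⟩ ⟨x', hxA', hxc⟩
          exact hw2 (interior_subset hw1)
      obtain ⟨w, hw, hwf⟩ := this
      exact ⟨_, _, hFr c w hw hwf, rfl⟩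
    · exact (preconn_Fa F (hca c hc) (by linarith) hη (hS c (hca c hc))).image _ (htau c)
    · rintro c z ⟨⟨hz, hzc⟩, hzi⟩
      have hzf := hfrc c z hzc hzi
      exact ⟨th c z, hFr c z hz hzf, hC.li c z hzf⟩
  · exact fun hxi => Or.inl ⟨hxA, fun h => by obtain ⟨c, hc⟩ := mem_iUnion.1 h; exact hxi c hc⟩
  · intro c hxc z hz h1
    refine Or.inr (mem_biUnion (show c ∈ {c | (A0 ∩ Kc c).Nonempty} from ⟨x, hxA, hxc⟩)
      ⟨th c z, ⟨by rw [← frontier_cell F]; exact hC.thm c z hz, ?_⟩, hC.li c z hz⟩)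
    have h2 := hC.close c z hz a
    rw [abs_le] at h2
    linarith [h2.1]
  · exact Or.inl ⟨hxA', fun h => by obtain ⟨c, hc⟩ := mem_iUnion.1 h; exact hxi' c hc⟩
  · rintro z (⟨hz, hzi⟩ | hz)
    · refine ⟨hz.1, fun c hc => hzi (mem_iUnion.2 ⟨c, hc⟩), ?_⟩
      have := hval z hz
      linarith
    · obtain ⟨c, -, y, ⟨hy1, hy2⟩, rfl⟩ := mem_iUnion₂.1 hz
      have hyf : y ∈ frontier (P c) := by rw [frontier_cell F]; exact hy1
      have hxf : tau c y ∈ frontier (Kc c) := hC.taum c hyf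
      have hxc : tau c y ∈ Kc c := (hC.cpt c).isClosed.frontier_subset hxf
      refine ⟨hC.sub c hxc, fun c' hc' => ?_, ?_⟩
      · by_cases hcc : c = c'
        · subst hcc
          exact hxf.2 hc'
        · exact Set.disjoint_left.1 (hC.disj c c' hcc) hxc (interior_subset hc')
      · have h1 := hC.close c _ hxf a
        rw [hC.ri c y hyf] at h1
        rw [abs_le] at h1
        linarith [h1.1, h1.2]

end az

end Crest.Agent.R096.Rop_441
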