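import Crest.Agent.R096.Ess8_95
import Crest.Agent.R096.Pse2_316
import Crest.Agent.R96.Push5_899
import Crest.Agent.R096.Vb3_965
import Crest.Agent.R096.Coh6_184
import Crest.Agent.R096.Bgf3_4

-- ▼ part R096/Bgf4_4
section

/-! # Row 96, DOORS, barriers (helper4), part 4: the push is Lipschitz off the point hole -/

set_option autoImplicit false
set_option linter.unusedSectionVars false

open Set Filter Topology Metric

namespace Crest.Agent.R096.Bgf_4

open Crest.Agent.R096.Bsp_628 Crest.Agent.R096.Brk1_582 Crest.Agent.R096.Brk2_582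
  Crest.Agent.R096.Brk3_582 Crest.Agent.R096.Brk5_582
  Crest.Agent.R96.Push_899 Crest.Agent.R096.Sphg_316

open Crest.Agent.R096.SkC1_961 (E3 Hom3 IsPush FoamD)
open Crest.Agent.R096.Vb_965 (Push pushD muD Psi_eqD)
open Crest.Agent.R096.Mbf_337 (gau)

section lip

variable {P : Finset (Fin 3)} {c₀ κ ρ : ℝ} {Q C B : Box (Fin 3)}

/-- **the two-stage push is Lipschitz where `m ≤ tt C B`** -/
theorem psi_lip (hQ : Shape P c₀ κ ρ Q C) (hC : Inner C B) {m : ℝ} (hm : 0 < m) (hm1 : m ≤ 1) :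
    ∃ K : ℝ, 0 ≤ K ∧ ∀ y y' : E3, m ≤ tt C B y → m ≤ tt C B y' →
      ‖psi Q C B y' - psi Q C B y‖ ≤ K * ‖y' - y‖ := by
  have hc0 := hQ.c0
  set a : Fin 3 → ℝ := fun j => ∑ i, Q.W i / C.W j with ha
  have hr0 : ∀ i j, 0 ≤ Q.W i / C.W j := fun i j => div_nonneg (hQ.W0 i).le (hQ.CW j).le
  have ha0 : ∀ j, 0 ≤ a j := fun j => Finset.sum_nonneg fun i _ => hr0 i j
  have haW : ∀ i j, Q.W i ≤ a j * C.W j := fun i j => by
    have h1 : Q.W i / C.W j ≤ a j :=
      Finset.single_le_sum (f := fun i => Q.W i / C.W j) (fun i _ => hr0 i j) (Finset.mem_univ i)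
    rwa [div_le_iff₀ (hQ.CW j)] at h1
  set K1 : ℝ := 2 / c₀ ^ 2 * 3 with hK1
  set K2 : ℝ := 9 * (1 / m) * ∑ j, a j with hK2
  have hK1' : 0 ≤ K1 := by positivity
  have hK2' : 0 ≤ K2 := by
    have := Finset.sum_nonneg (s := Finset.univ) fun j _ => ha0 j
    positivity
  set K := max K1 K2 with hK
  have hK0 : 0 ≤ K := le_max_of_le_left hK1'
  have hout : ∀ y y' : E3, y ∉ C.I → y' ∉ C.I →
      ‖psi Q C B y' - psi Q C B y‖ ≤ K * ‖y' - y‖ := by
    intro y y' hy hy'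
    have h0 : 0 ≤ K * ‖y' - y‖ := mul_nonneg hK0 (norm_nonneg _)
    refine (pi_norm_le_iff_of_nonneg h0).2 fun i => ?_
    have h1 := psi_incr_out hQ hC hy hy' i
    have h2 : ∑ j, |y' j - y j| ≤ 3 * ‖y' - y‖ := by
      refine (Finset.sum_le_sum (g := fun _ => ‖y' - y‖) fun j _ => ?_).trans ?_
      · exact norm_le_pi_norm (y' - y) j
      · simp
    rw [Pi.sub_apply, Real.norm_eq_abs]
    refine h1.trans ?_
    calc 2 / c₀ ^ 2 * ∑ j, |y' j - y j| ≤ 2 / c₀ ^ 2 * (3 * ‖y' - y‖) :=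
          mul_le_mul_of_nonneg_left h2 (by positivity)
      _ = K1 * ‖y' - y‖ := by rw [hK1]; ring
      _ ≤ K * ‖y' - y‖ := mul_le_mul_of_nonneg_right (le_max_left _ _) (norm_nonneg _)
  have hin : ∀ y y' : E3, y ∈ C.S → y' ∈ C.S → m ≤ tt C B y → m ≤ tt C B y' →
      ‖psi Q C B y' - psi Q C B y‖ ≤ K * ‖y' - y‖ := by
    intro y y' hy hy' hmy hmy'
    have h0 : 0 ≤ K * ‖y' - y‖ := mul_nonneg hK0 (norm_nonneg _)
    refine (pi_norm_le_iff_of_nonneg h0).2 fun i => ?_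
    have o1 : Off C B y := ⟨hm.le.trans hmy, Or.inl (hm.trans_le hmy)⟩
    have o2 : Off C B y' := ⟨hm.le.trans hmy', Or.inl (hm.trans_le hmy')⟩
    have hM : ∀ i, C.W i ≤ (1 / m) * ww C B i (tt C B y') := by
      intro i
      have h1 := hC.W_le_ww i o2.1 ((tt_le_one_iff hC.nest y').2 hy')
      have h2 := hC.W0 i
      have h3 : m * C.W i ≤ ww C B i (tt C B y') := by nlinarith
      rw [one_div, le_inv_mul_iff₀ hm]
      exact h3
    have h1 := psi_incr_in hQ hC hy hy' o1 o2 hM haW i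
    have h2 : ∑ j, a j * |y' j - y j| ≤ (∑ j, a j) * ‖y' - y‖ := by
      rw [Finset.sum_mul]
      exact Finset.sum_le_sum fun j _ =>
        mul_le_mul_of_nonneg_left (norm_le_pi_norm (y' - y) j) (ha0 j)
    rw [Pi.sub_apply, Real.norm_eq_abs]
    refine h1.trans ?_
    calc 9 * (1 / m) * ∑ j, a j * |y' j - y j| ≤ 9 * (1 / m) * ((∑ j, a j) * ‖y' - y‖) :=
          mul_le_mul_of_nonneg_left h2 (by positivity)
      _ = K2 * ‖y' - y‖ := by rw [hK2]; ring
      _ ≤ K * ‖y' - y‖ := mul_le_mul_of_nonneg_right (le_max_right _ _) (norm_nonneg _)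
  -- mixed pairs
  have hmix : ∀ y y' : E3, y ∈ C.S → y' ∉ C.S → m ≤ tt C B y →
      ‖psi Q C B y' - psi Q C B y‖ ≤ K * ‖y' - y‖ := by
    intro y y' hy hy' hmy
    have e0 : tt C B y ≤ 1 := (tt_le_one_iff hC.nest y).2 hy
    have e1 : 1 ≤ tt C B y' := by
      by_contra h
      exact hy' ((tt_le_one_iff hC.nest y').1 (not_le.1 h).le)
    have hcont : ContinuousOn (fun s : ℝ => tt C B (y + s • (y' - y))) (Icc 0 1) :=
      ((continuous_tt C B).comp (by fun_prop)).continuousOn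
    obtain ⟨s, hs, hst⟩ := intermediate_value_Icc (zero_le_one) hcont (show (1:ℝ) ∈ Icc _ _ from
      ⟨by simpa using e0, by simpa using e1⟩)
    have hst' : tt C B (y + s • (y' - y)) = 1 := hst
    set w := y + s • (y' - y) with hw
    have hwS : w ∈ C.S := (tt_le_one_iff hC.nest w).1 hst'.le
    have hwI : w ∉ C.I := fun h => by
      have := (tt_lt_one_iff hC.nest w).2 h
      linarith
    have hy'I : y' ∉ C.I := fun h => hy' fun i => ⟨(h i).1.le, (h i).2.le⟩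
    have a1 := hin y w hy hwS hmy (by rw [hst']; exact hm1)
    have a2 := hout w y' hwI hy'I
    have n1 : ‖w - y‖ = s * ‖y' - y‖ := by
      rw [hw, add_sub_cancel_left, norm_smul, Real.norm_eq_abs, abs_of_nonneg hs.1]
    have n2 : ‖y' - w‖ = (1 - s) * ‖y' - y‖ := by
      have : y' - w = (1 - s) • (y' - y) := by rw [hw, sub_smul, one_smul]; abel
      rw [this, norm_smul, Real.norm_eq_abs, abs_of_nonneg (by linarith [hs.2])]
    calc ‖psi Q C B y' - psi Q C B y‖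
        = ‖(psi Q C B y' - psi Q C B w) + (psi Q C B w - psi Q C B y)‖ := by congr 1; abel
      _ ≤ ‖psi Q C B y' - psi Q C B w‖ + ‖psi Q C B w - psi Q C B y‖ := norm_add_le _ _
      _ ≤ K * ‖y' - w‖ + K * ‖w - y‖ := add_le_add a2 a1
      _ = K * ‖y' - y‖ := by rw [n1, n2]; ring
  refine ⟨K, hK0, fun y y' hy hy' => ?_⟩
  by_cases h1 : y ∈ C.S
  · by_cases h2 : y' ∈ C.S
    · exact hin y y' h1 h2 hy hy'
    · exact hmix y y' h1 h2 hy
  · by_cases h2 : y' ∈ C.S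
    · have := hmix y' y h2 h1 hy'
      rwa [norm_sub_rev, norm_sub_rev y y'] at this
    · exact hout y y' (fun h => h1 fun i => ⟨(h i).1.le, (h i).2.le⟩)
        (fun h => h2 fun i => ⟨(h i).1.le, (h i).2.le⟩)

end lip

section foam

variable {δ κ0 R c0 : ℝ} {La : Set E3} {Φ : FoamD δ κ0 R c0 La}

/-- **the push of a brick with a point hole is Lipschitz off the hole** -/
theorem Psi_lip (hLa : IsOpen La) {c : Φ.F} (hpt : (Φ.B c).lo = (Φ.B c).hi) {r : ℝ} (hr : 0 < r) :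
    ∃ K : ℝ, 0 ≤ K ∧ ∀ y ∈ c.1.set, ∀ y' ∈ c.1.set, r ≤ gau c.1 (Φ.B c).lo y →
      r ≤ gau c.1 (Φ.B c).lo y' → ‖Φ.Psi y' - Φ.Psi y‖ ≤ K * ‖y' - y‖ := by
  rcases Φ.push c with ⟨P, κ, ρ, hS, he⟩ | ⟨P, κ, ρ, C, hS, hI, he⟩
  · exfalso
    have h1 := hS.CW 0
    unfold Box.W at h1
    rw [← hpt] at h1
    simp at h1
  · have hb := Pse_316.bod_brick Φ c hpt
    have hgf : gau c.1 (Φ.B c).lo = Ng (Φ.B c).lo c.1.set := funext (Pse_316.gau_eq c.1 _)
    set K0 : Set E3 := c.1.set ∩ {y | r ≤ gau c.1 (Φ.B c).lo y} with hK0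
    have hcpt : IsCompact K0 := by
      rw [hK0, hgf]
      exact hb.cpt.inter_right (isClosed_le continuous_const hb.continuous)
    have hpos : ∀ y ∈ K0, 0 < tt C (Φ.B c) y := by
      rintro y ⟨hy, hyr⟩
      have hyr' : r ≤ gau c.1 (Φ.B c).lo y := hyr
      by_contra hcon
      rw [not_lt, tt_le_zero_iff hI.nest] at hcon
      have h1 : y = (Φ.B c).lo := by
        ext k
        exact le_antisymm (((hcon k).2).trans (by rw [hpt])) (hcon k).1
      rw [h1, hgf, Ng_self] at hyr'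
      linarith
    obtain ⟨m, hm, hm1, hmK⟩ : ∃ m : ℝ, 0 < m ∧ m ≤ 1 ∧ ∀ y ∈ K0, m ≤ tt C (Φ.B c) y := by
      rcases K0.eq_empty_or_nonempty with h | h
      · exact ⟨1, one_pos, le_rfl, fun y hy => by rw [h] at hy; exact hy.elim⟩
      · obtain ⟨y0, hy0, hmin⟩ := hcpt.exists_isMinOn h (continuous_tt C (Φ.B c)).continuousOn
        exact ⟨min 1 (tt C (Φ.B c) y0), lt_min one_pos (hpos y0 hy0), min_le_left _ _,
          fun y hy => (min_le_right _ _).trans (hmin hy)⟩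
    obtain ⟨K, hK, hKl⟩ := psi_lip hS hI hm hm1
    refine ⟨K, hK, fun y hy y' hy' h1 h2 => ?_⟩
    rw [Psi_eqD Φ hLa hy, Psi_eqD Φ hLa hy', he]
    exact hKl y y' (hmK y ⟨hy, h1⟩) (hmK y' ⟨hy', h2⟩)

end foam

end Crest.Agent.R096.Bgf_4
end

-- ▼ part R096/Bgf5_4
section

/-! # Row 96, DOORS, barriers (helper4), part 5: the boundary of a cylinder over a disc has trivial
torsors and is connected -/

set_option autoImplicit false
set_option linter.unusedSectionVars false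

open Set Filter Topology Metric

namespace Crest.Agent.R096.Bgf_4

open Crest.Agent.R096.Coh_184 Crest.Agent.R096.Vb_965

section cyl

variable {X : Type*} [MetricSpace X] {A : Type*} [AddCommGroup A]

/-- a half of the boundary of the cylinder: `D × {b} ∪ E × [m, b]`, `m ≤ b` (or `b ≤ m`) -/
def hcyl (D E : Set X) (m b : ℝ) : Set (ℝ × X) :=
  {p | p.2 ∈ D ∧ p.1 ∈ uIcc m b ∧ (p.1 = b ∨ p.2 ∈ E)}

theorem hcyl_cpt {D E : Set X} (hD : IsCompact D) (hE : IsClosed E) (m b : ℝ) :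
    IsCompact (hcyl D E m b) := by
  have h1 : hcyl D E m b = (uIcc m b ×ˢ D) ∩ {p : ℝ × X | p.1 = b ∨ p.2 ∈ E} := by
    ext p
    constructor
    · rintro ⟨h1, h2, h3⟩
      exact ⟨⟨h2, h1⟩, h3⟩
    · rintro ⟨⟨h1, h2⟩, h3⟩
      exact ⟨h2, h1, h3⟩
  rw [h1]
  refine (isCompact_uIcc.prod hD).inter_right ?_
  exact (isClosed_eq continuous_fst continuous_const).union (hE.preimage continuous_snd)

theorem hcyl_fib {D E : Set X} (m b : ℝ) {q : X} (hq : q ∈ D) :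
    (q ∈ E → hcyl D E m b ∩ Prod.snd ⁻¹' {q} = (fun s : ℝ => (s, q)) '' uIcc m b) ∧
      (q ∉ E → hcyl D E m b ∩ Prod.snd ⁻¹' {q} = {(b, q)}) := by
  constructor
  · intro hE
    ext ⟨s, q'⟩
    constructor
    · rintro ⟨⟨h1, h2, h3⟩, h4⟩
      have h5 : q' = q := h4
      exact ⟨s, h2, by rw [h5]⟩
    · rintro ⟨s', hs', he⟩
      have h5 := Prod.mk.inj he
      obtain ⟨rfl, rfl⟩ := h5
      exact ⟨⟨hq, hs', Or.inr hE⟩, rfl⟩
  · intro hE
    ext ⟨s, q'⟩
    constructor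
    · rintro ⟨⟨h1, h2, h3⟩, h4⟩
      have h5 : q' = q := h4
      subst h5
      rcases h3 with h3 | h3
      · have h6 : s = b := h3
        rw [h6]; rfl
      · exact (hE h3).elim
    · intro he
      have h5 := Prod.mk.inj (mem_singleton_iff.1 he)
      obtain ⟨rfl, rfl⟩ := h5
      exact ⟨⟨hq, right_mem_uIcc, Or.inl rfl⟩, rfl⟩

theorem hcyl_snd {D E : Set X} (m b : ℝ) :
    Prod.snd '' (hcyl D E m b) = D := by
  ext q
  constructor
  · rintro ⟨p, hp, rfl⟩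
    exact hp.1
  · intro hq
    exact ⟨(b, q), ⟨hq, right_mem_uIcc, Or.inl rfl⟩, rfl⟩

theorem trivF_seg (a b : ℝ) (q : X) : TrivF A ((fun s : ℝ => (s, q)) '' uIcc a b) := by
  have h1 : TrivF A (uIcc a b : Set ℝ) := trivF_Icc
  exact h1.of_image isCompact_uIcc isCompact_uIcc.isClosed (by fun_prop)
    fun s _ s' _ h => (Prod.mk.inj h).1

theorem hcyl_pre {D E : Set X} (hD : IsCompact D) (hE : IsClosed E) (hDc : IsPreconnected D)
    (m b : ℝ) : IsPreconnected (hcyl D E m b) := by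
  refine preconn_of_fibres (hcyl_cpt hD hE m b) continuous_snd.continuousOn
    (hcyl_snd m b) (fun q hq => ?_) hDc
  by_cases hqE : q ∈ E
  · rw [(hcyl_fib m b hq).1 hqE]
    exact isPreconnected_uIcc.image _ (by fun_prop)
  · rw [(hcyl_fib m b hq).2 hqE]
    exact isPreconnected_singleton

theorem hcyl_triv {D E : Set X} (hD : IsCompact D) (hE : IsClosed E) (hDt : TrivF A D)
    (m b : ℝ) : TrivF A (hcyl D E m b) := by
  intro n
  have hc := hcyl_cpt hD hE m b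
  refine TrivAll.of_fibres hc hc.isClosed continuous_snd.continuousOn (hcyl_snd m b)
    (fun q hq => ?_) (fun q hq => ?_) fun k => hDt k
  · by_cases hqE : q ∈ E
    · rw [(hcyl_fib m b hq).1 hqE]
      exact isPreconnected_uIcc.image _ (by fun_prop)
    · rw [(hcyl_fib m b hq).2 hqE]
      exact isPreconnected_singleton
  · by_cases hqE : q ∈ E
    · rw [(hcyl_fib m b hq).1 hqE]
      exact trivF_seg m b q n
    · rw [(hcyl_fib m b hq).2 hqE]
      exact trivF_singleton (b, q) n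

/-- the boundary of the cylinder over `D` with `E` = boundary of `D` -/
def cyl (D E : Set X) (a b : ℝ) : Set (ℝ × X) :=
  {p | p.2 ∈ D ∧ p.1 ∈ Icc a b ∧ (p.1 = a ∨ p.1 = b ∨ p.2 ∈ E)}

theorem cyl_eq {D E : Set X} {a m b : ℝ} (ham : a < m) (hmb : m < b) :
    cyl D E a b = hcyl D E m a ∪ hcyl D E m b := by
  ext ⟨s, q⟩
  constructor
  · rintro ⟨h1, h2, h3⟩
    have h1' : q ∈ D := h1
    have h2' : s ∈ Icc a b := h2
    rcases le_total s m with h | h
    · refine Or.inl ⟨h1', ?_, ?_⟩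
      · rw [uIcc_of_ge ham.le]; exact ⟨h2'.1, h⟩
      · rcases h3 with h3 | h3 | h3
        · exact Or.inl h3
        · have : s = b := h3
          linarith
        · exact Or.inr h3
    · refine Or.inr ⟨h1', ?_, ?_⟩
      · rw [uIcc_of_le hmb.le]; exact ⟨h, h2'.2⟩
      · rcases h3 with h3 | h3 | h3
        · have : s = a := h3
          linarith
        · exact Or.inl h3
        · exact Or.inr h3
  · rintro (⟨h1, h2, h3⟩ | ⟨h1, h2, h3⟩)
    · rw [uIcc_of_ge ham.le] at h2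
      refine ⟨h1, ⟨h2.1, h2.2.trans hmb.le⟩, ?_⟩
      rcases h3 with h3 | h3
      · exact Or.inl h3
      · exact Or.inr (Or.inr h3)
    · rw [uIcc_of_le hmb.le] at h2
      refine ⟨h1, ⟨ham.le.trans h2.1, h2.2⟩, ?_⟩
      rcases h3 with h3 | h3
      · exact Or.inr (Or.inl h3)
      · exact Or.inr (Or.inr h3)

theorem hcyl_inter {D E : Set X} (hED : E ⊆ D) {a m b : ℝ} (ham : a < m) (hmb : m < b) :
    hcyl D E m a ∩ hcyl D E m b = (fun q => (m, q)) '' E := by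
  ext ⟨s, q⟩
  constructor
  · rintro ⟨⟨h1, h2, h3⟩, ⟨h4, h5, h6⟩⟩
    rw [uIcc_of_ge ham.le] at h2
    rw [uIcc_of_le hmb.le] at h5
    have hs : s = m := le_antisymm h2.2 h5.1
    rcases h3 with h3 | h3
    · have h3' : s = a := h3
      linarith
    · exact ⟨q, h3, by rw [hs]⟩
  · rintro ⟨q', hq', he⟩
    obtain ⟨rfl, rfl⟩ := Prod.mk.inj he
    exact ⟨⟨hED hq', left_mem_uIcc, Or.inr hq'⟩, ⟨hED hq', left_mem_uIcc, Or.inr hq'⟩⟩

theorem cyl_cpt {D E : Set X} (hD : IsCompact D) (hE : IsClosed E) {a b : ℝ} (hab : a < b) :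
    IsCompact (cyl D E a b) := by
  obtain ⟨m, h1, h2⟩ := exists_between hab
  rw [cyl_eq h1 h2]
  exact (hcyl_cpt hD hE m a).union (hcyl_cpt hD hE m b)

/-- **the boundary of a cylinder is connected** -/
theorem cyl_pre {D E : Set X} (hD : IsCompact D) (hE : IsClosed E) (hED : E ⊆ D)
    (hDc : IsPreconnected D) (hEn : E.Nonempty) {a b : ℝ} (hab : a < b) :
    IsPreconnected (cyl D E a b) := by
  obtain ⟨m, h1, h2⟩ := exists_between hab
  rw [cyl_eq h1 h2]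
  obtain ⟨q, hq⟩ := hEn
  have h3 : (m, q) ∈ hcyl D E m a ∩ hcyl D E m b := by
    rw [hcyl_inter hED h1 h2]; exact ⟨q, hq, rfl⟩
  exact IsPreconnected.union (m, q) h3.1 h3.2 (hcyl_pre hD hE hDc m a) (hcyl_pre hD hE hDc m b)

/-- **the boundary of a cylinder over a disc has trivial torsors** -/
theorem cyl_triv {D E : Set X} (hD : IsCompact D) (hE : IsClosed E) (hED : E ⊆ D)
    (hEc : IsPreconnected E) (hDt : TrivF A D) {a b : ℝ} (hab : a < b) :
    TrivF A (cyl D E a b) := by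
  obtain ⟨m, h1, h2⟩ := exists_between hab
  rw [cyl_eq h1 h2]
  intro n
  refine TrivAll.union (hcyl_cpt hD hE m a).isClosed (hcyl_cpt hD hE m b).isClosed ?_
    (hcyl_triv hD hE hDt m a n) (hcyl_triv hD hE hDt m b n)
  rw [hcyl_inter hED h1 h2]
  exact hEc.image _ (by fun_prop)

end cyl

end Crest.Agent.R096.Bgf_4
end

-- ▼ part R096/Bgf6_4
section

/-! # Row 96, DOORS, barriers (helper4), part 6: polar coordinates; the barrier function
`min hi (max (|gau - rm| / h) (G ∘ Psi))` -/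

set_option autoImplicit false
set_option linter.unusedSectionVars false

open Set Filter Topology Metric

namespace Crest.Agent.R096.Bgf_4

open Crest.Agent.R096.Msh_715 Crest.Agent.R096.Coh_184 Crest.Agent.R096.Bsp_628
  Crest.Agent.R096.Brk1_582 Crest.Agent.R096.Brk2_582 Crest.Agent.R096.Brk3_582
  Crest.Agent.R096.Brk5_582 Crest.Agent.R096.Init_543 Crest.Agent.R096.Mbf_337
  Crest.Agent.R96.Push_899 Crest.Agent.R096.Ess5_95
  Crest.Agent.R096.Exa_560 Crest.Agent.R096.Sphg_316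

open Crest.Agent.R096.SkC1_961 (E3 Hom3 IsPush FoamD)
open Crest.Agent.R096.Vb_965 (Push pushD muD)

/-! ### sub- and superlevels of a function with connected level -/

theorem preconn_le_of_eq {X : Type*} [TopologicalSpace X] {F : Set X} (hF : IsClosed F)
    (hFc : IsPreconnected F) {G : X → ℝ} (hG : ContinuousOn G F) {t : ℝ}
    (hE : IsPreconnected {x | x ∈ F ∧ G x = t}) : IsPreconnected {x | x ∈ F ∧ G x ≤ t} := by
  have key : ∀ C D : Set X, IsClosed C → IsClosed D → {x | x ∈ F ∧ G x ≤ t} ⊆ C ∪ D →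
      ({x | x ∈ F ∧ G x ≤ t} ∩ C).Nonempty → ({x | x ∈ F ∧ G x ≤ t} ∩ D).Nonempty →
      ¬ ({x | x ∈ F ∧ G x = t} ∩ D).Nonempty →
      ({x | x ∈ F ∧ G x ≤ t} ∩ (C ∩ D)).Nonempty := by
    intro C D hC hD hcov hSC hSD hED
    by_contra hne
    have hS : IsClosed {x | x ∈ F ∧ G x ≤ t} := hG.preimage_isClosed_of_isClosed hF isClosed_Iic
    have hU : IsClosed {x | x ∈ F ∧ t ≤ G x} := hG.preimage_isClosed_of_isClosed hF isClosed_Ici
    have h1 := isPreconnected_closed_iff.1 hFc (({x | x ∈ F ∧ G x ≤ t} ∩ C) ∪ {x | x ∈ F ∧ t ≤ G x})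
      ({x | x ∈ F ∧ G x ≤ t} ∩ D) ((hS.inter hC).union hU) (hS.inter hD) (by
        intro x hx
        rcases le_total (G x) t with h | h
        · rcases hcov ⟨hx, h⟩ with h' | h'
          · exact Or.inl (Or.inl ⟨⟨hx, h⟩, h'⟩)
          · exact Or.inr ⟨⟨hx, h⟩, h'⟩
        · exact Or.inl (Or.inr ⟨hx, h⟩))
      (by obtain ⟨x, hx, hxC⟩ := hSC; exact ⟨x, hx.1, Or.inl ⟨hx, hxC⟩⟩)
      (by obtain ⟨x, hx, hxD⟩ := hSD; exact ⟨x, hx.1, hx, hxD⟩)
    obtain ⟨x, hxF, hx1, hx2⟩ := h1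
    rcases hx1 with hx1 | hx1
    · exact hne ⟨x, hx2.1, hx1.2, hx2.2⟩
    · exact hED ⟨x, ⟨hxF, le_antisymm hx2.1.2 hx1.2⟩, hx2.2⟩
  rw [isPreconnected_closed_iff]
  intro C D hC hD hcov hSC hSD
  by_cases h1 : ({x | x ∈ F ∧ G x = t} ∩ C).Nonempty
  · by_cases h2 : ({x | x ∈ F ∧ G x = t} ∩ D).Nonempty
    · obtain ⟨x, hx, hx'⟩ := isPreconnected_closed_iff.1 hE C D hC hD
        (fun x hx => hcov ⟨hx.1, hx.2.le⟩) h1 h2
      exact ⟨x, ⟨hx.1, hx.2.le⟩, hx'⟩
    · exact key C D hC hD hcov hSC hSD h2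
  · have := key D C hD hC (by rwa [union_comm]) hSD hSC h1
    rwa [inter_comm D C] at this

theorem preconn_ge_of_eq {X : Type*} [TopologicalSpace X] {F : Set X} (hF : IsClosed F)
    (hFc : IsPreconnected F) {G : X → ℝ} (hG : ContinuousOn G F) {t : ℝ}
    (hE : IsPreconnected {x | x ∈ F ∧ G x = t}) : IsPreconnected {x | x ∈ F ∧ t ≤ G x} := by
  have h1 : {x | x ∈ F ∧ t ≤ G x} = {x | x ∈ F ∧ -G x ≤ -t} := by
    ext x; simp
  have h2 : {x | x ∈ F ∧ G x = t} = {x | x ∈ F ∧ -G x = -t} := by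
    ext x; simp
  rw [h1]
  rw [h2] at hE
  exact preconn_le_of_eq hF hFc hG.neg hE

/-! ### polar coordinates -/

section polar

variable {δ κ0 R c0 : ℝ} {La : Set E3} (Φ : FoamD δ κ0 R c0 La)

/-- polar coordinates round the point hole -/
structure Pol (c : Φ.F) (ρ : ℝ) (p : ℝ × E3 → E3) : Prop where
  frc : IsCompact (frontier c.1.set)
  frp : IsPreconnected (frontier c.1.set)
  cont : ContinuousOn p (univ ×ˢ frontier c.1.set)
  gau : ∀ s ∈ Ioc 0 ρ, ∀ q ∈ frontier c.1.set, ga Φ c (p (s, q)) = s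
  psi : ∀ s ∈ Ioc 0 ρ, ∀ q ∈ frontier c.1.set, Φ.Psi (p (s, q)) = q
  inv : ∀ y, 0 < ga Φ c y → ga Φ c y ≤ ρ →
    Φ.Psi y ∈ frontier c.1.set ∧ p (ga Φ c y, Φ.Psi y) = y
  lip : ∃ L : NNReal, LipschitzWith L (ga Φ c)
  cvx : ∀ r, Convex ℝ {y | ga Φ c y ≤ r}

variable {Φ}

theorem exists_pol (hLa : IsOpen La) {c : Φ.F} (hpt : (Φ.B c).lo = (Φ.B c).hi) {ρ : ℝ}
    (hρ0 : 0 < ρ) (hρ1 : ρ < 1) (hray : RayTo Φ c ρ) : ∃ p, Pol Φ c ρ p := by
  have F := foam4 Φ hLa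
  have hp := pushD Φ hLa
  have hb : Bod (Φ.B c).lo (Pc Φ.F c) := Pse_316.bod_brick Φ c hpt
  have hgf : ga Φ c = Ng (Φ.B c).lo (Pc Φ.F c) := funext (Etg_163.gg_eq Φ c)
  have S := Etg_163.str_of Φ hLa hpt hρ0 hρ1 hray
  have hfr : frontier c.1.set = {q | q ∈ Pc Φ.F c ∧ ∃ d, d ≠ c ∧ q ∈ Pc Φ.F d} :=
    frontier_c Φ hLa c
  have h3 : Module.finrank ℝ E3 = 3 := by simp [E3]
  refine ⟨fun x => (Φ.B c).lo + (x.1 / ρ) •
    (Etg_163.rp (Pc Φ.F) Φ.Psi c (Φ.B c).lo ρ x.2 - (Φ.B c).lo), ?_, ?_, ?_, ?_, ?_, ?_, ?_, ?_⟩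
  · exact hb.cpt.of_isClosed_subset isClosed_frontier hb.cpt.isClosed.frontier_subset
  · have hD := Vb_965.isPreconnected_Lset F h3 (Vb_965.cell_nonempty Φ c) le_rfl one_pos
    rw [Lset_zero F] at hD
    rw [hfr]
    exact hD
  · have h5 : ContinuousOn (fun x : ℝ × E3 =>
        Etg_163.rp (Pc Φ.F) Φ.Psi c (Φ.B c).lo ρ x.2) (univ ×ˢ frontier c.1.set) :=
      (Etg_163.continuousOn_rp F hp S).comp continuous_snd.continuousOn fun x hx => by
        have := hx.2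
        rwa [hfr] at this
    exact continuousOn_const.add (((continuous_fst.div_const ρ).continuousOn).smul
      (h5.sub continuousOn_const))
  · intro s hs q hq
    rw [hfr] at hq
    obtain ⟨h5, d, hdc, h6⟩ := hq
    obtain ⟨h7, h8⟩ := Etg_163.rp_spec F hp S hdc h5 h6
    obtain ⟨g1, g2, g3, -⟩ := Etg_163.ray_pt F hp S h7 (div_pos hs.1 hρ0)
      ((div_le_one hρ0).2 hs.2)
    rw [div_mul_cancel₀ _ hρ0.ne'] at g1
    rw [hgf]; exact g1
  · intro s hs q hq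
    rw [hfr] at hq
    obtain ⟨h5, d, hdc, h6⟩ := hq
    obtain ⟨h7, h8⟩ := Etg_163.rp_spec F hp S hdc h5 h6
    obtain ⟨g1, g2, g3, -⟩ := Etg_163.ray_pt F hp S h7 (div_pos hs.1 hρ0)
      ((div_le_one hρ0).2 hs.2)
    show Φ.Psi _ = q
    rw [g2, h8]
  · intro y hy0 hy1
    rw [hgf] at hy0 hy1
    have hyP : y ∈ Pc Φ.F c := Etg_163.mem_of_Ng F hp S hy1
    have hw := Etg_163.wall_of Φ hLa hpt hρ1 hray hy0 hy1 le_rfl (y := y) hyP
      (by rw [Etg_163.gg_eq])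
    obtain ⟨h5, d, hdc, h6⟩ := hw
    have hfq : Φ.Psi y ∈ frontier c.1.set := by rw [hfr]; exact ⟨h5, d, hdc, h6⟩
    obtain ⟨h7, h8⟩ := Etg_163.rp_spec F hp S hdc h5 h6
    have hyz : y ≠ (Φ.B c).lo := hb.pos.1 hy0
    refine ⟨hfq, ?_⟩
    rw [hgf]
    exact (Etg_163.eq_pt F hp S h7 hyz hy1 h8.symm).symm
  · rw [hgf]; exact hb.lipschitz
  · intro r
    rw [hgf]; exact hb.convex_le r

end polar

end Crest.Agent.R096.Bgf_4
end

-- ▼ part R096/Bgf7_4

/-! # Row 96, DOORS, barriers (helper4), part 7: the barrier function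
`min hi (max (|gau - rm| / h) (G ∘ Psi))` -/

set_option autoImplicit false
set_option linter.unusedSectionVars false

open Set Filter Topology Metric

namespace Crest.Agent.R096.Bgf_4

open Crest.Agent.R096.Msh_715 Crest.Agent.R096.Coh_184 Crest.Agent.R096.Bsp_628
  Crest.Agent.R096.Brk1_582 Crest.Agent.R096.Brk2_582 Crest.Agent.R096.Brk3_582
  Crest.Agent.R096.Brk5_582 Crest.Agent.R096.Init_543 Crest.Agent.R096.Mbf_337
  Crest.Agent.R96.Push_899 Crest.Agent.R096.Ess5_95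
  Crest.Agent.R096.Exa_560 Crest.Agent.R096.Sphg_316

open Crest.Agent.R096.SkC1_961 (E3 Hom3 IsPush FoamD)
open Crest.Agent.R096.Vb_965 (Push pushD muD)

variable {δ κ0 R c0 : ℝ} {La Om : Set E3} {ι : Type} (Φ : FoamD δ κ0 R c0 La)

/-- **function of a moat on the frontier of the brick `c`** (106): Lipschitz, its levels between
`lo` and `hi` are connected, its sublevels have trivial torsors -/
structure GM (c : Φ.F) (G : E3 → ℝ) (lo hi : ℝ) : Prop where
  lo0 : 0 ≤ lo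
  lt : lo < hi
  lip : ∃ k : NNReal, LipschitzOnWith k G (frontier c.1.set)
  low : ∃ q ∈ frontier c.1.set, G q ≤ lo
  high : ∃ q ∈ frontier c.1.set, hi ≤ G q
  eq : ∀ t ∈ Ioo lo hi, IsPreconnected {q | q ∈ frontier c.1.set ∧ G q = t}
  triv : ∀ t ∈ Ioo lo hi, TrivF (ZMod 2) {q | q ∈ frontier c.1.set ∧ G q ≤ t}

/-- the barrier function -/
noncomputable def bl (c : Φ.F) (rm h hi : ℝ) (G : E3 → ℝ) (y : E3) : ℝ :=
  min hi (max (|ga Φ c y - rm| / h) (G (Φ.Psi y)))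

variable {Φ} {c : Φ.F} {G : E3 → ℝ} {lo hi rm h ρ : ℝ}


theorem bl_eq_iff {t : ℝ} (ht : t < hi) {y : E3} :
    bl Φ c rm h hi G y = t ↔ max (|ga Φ c y - rm| / h) (G (Φ.Psi y)) = t := by
  unfold bl
  constructor
  · intro h1
    rcases min_choice hi (max (|ga Φ c y - rm| / h) (G (Φ.Psi y))) with h2 | h2
    · rw [h2] at h1; exact absurd h1 ht.ne'
    · rw [← h2]; exact h1
  · intro h1
    rw [h1]; exact min_eq_right ht.le


theorem bl_lt_iff {t : ℝ} (ht : t ≤ hi) {y : E3} :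
    bl Φ c rm h hi G y < t ↔ |ga Φ c y - rm| / h < t ∧ G (Φ.Psi y) < t := by
  unfold bl
  rw [min_lt_iff, max_lt_iff]
  exact ⟨fun h1 => h1.resolve_left (not_lt.2 ht), Or.inr⟩

theorem le_bl_iff {t : ℝ} (ht : t ≤ hi) {y : E3} :
    t ≤ bl Φ c rm h hi G y ↔ t ≤ |ga Φ c y - rm| / h ∨ t ≤ G (Φ.Psi y) := by
  unfold bl
  rw [le_min_iff, le_max_iff]
  exact ⟨fun h1 => h1.2, fun h1 => ⟨ht, h1⟩⟩

/-- far from the sphere of radius `rm` the function is `hi` -/
theorem bl_far (hh : 0 < h) {y : E3} (hy : h * hi ≤ |ga Φ c y - rm|) :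
    bl Φ c rm h hi G y = hi := by
  unfold bl
  refine min_eq_left (le_max_of_le_left ?_)
  rw [le_div_iff₀ hh]; linarith

theorem bl_gau (hh : 0 < h) {t : ℝ} (ht : t ≤ hi) {y : E3} (hy : bl Φ c rm h hi G y < t) :
    |ga Φ c y - rm| < h * t := by
  have h1 := ((bl_lt_iff ht).1 hy).1
  rw [div_lt_iff₀ hh] at h1
  linarith

/-- the frame of a barrier function: radii -/
structure Rad (rm h hi ρ : ℝ) : Prop where
  h0 : 0 < h
  lo : 0 < rm - h * hi
  hi_ : rm + h * hi ≤ ρ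

variable {p : ℝ × E3 → E3}

/-- the set over a part of the cylinder -/
theorem Pol.image (hP : Pol Φ c ρ p) {A : Set (ℝ × E3)} (hA : A ⊆ Ioc 0 ρ ×ˢ frontier c.1.set) :
    p '' A = {y | (0 < ga Φ c y ∧ ga Φ c y ≤ ρ) ∧ (ga Φ c y, Φ.Psi y) ∈ A} := by
  ext y
  constructor
  · rintro ⟨⟨s, q⟩, hx, rfl⟩
    have h1 := hA hx
    have h2 := hP.gau s h1.1 q h1.2
    have h3 := hP.psi s h1.1 q h1.2
    refine ⟨?_, ?_⟩
    · rw [h2]; exact h1.1
    · rw [h2, h3]; exact hx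
  · rintro ⟨h1, h2⟩
    exact ⟨_, h2, (hP.inv y h1.1 h1.2).2⟩

theorem Pol.injOn (hP : Pol Φ c ρ p) {A : Set (ℝ × E3)}
    (hA : A ⊆ Ioc 0 ρ ×ˢ frontier c.1.set) : InjOn p A := by
  rintro ⟨s, q⟩ hx ⟨s', q'⟩ hx' he
  have h1 := hA hx
  have h1' := hA hx'
  have h2 := hP.gau s h1.1 q h1.2
  have h3 := hP.psi s h1.1 q h1.2
  have h2' := hP.gau s' h1'.1 q' h1'.2
  have h3' := hP.psi s' h1'.1 q' h1'.2
  rw [he] at h2 h3
  rw [h2] at h2'
  rw [h3] at h3'
  rw [h2', h3']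

theorem Pol.contOn (hP : Pol Φ c ρ p) {A : Set (ℝ × E3)}
    (hA : A ⊆ Ioc 0 ρ ×ˢ frontier c.1.set) : ContinuousOn p A :=
  hP.cont.mono fun _ hx => ⟨mem_univ _, (hA hx).2⟩

variable (hP : Pol Φ c ρ p) (hG : GM Φ c G lo hi) (hr : Rad rm h hi ρ)

theorem GM.cont {c : Φ.F} {G : E3 → ℝ} {lo hi : ℝ} (hG : GM Φ c G lo hi) :
    ContinuousOn G (frontier c.1.set) := by
  obtain ⟨k, hk⟩ := hG.lip
  exact hk.continuousOn

include hP hG

theorem GM.le_conn {t : ℝ} (ht : t ∈ Ioo lo hi) :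
    IsPreconnected {q | q ∈ frontier c.1.set ∧ G q ≤ t} :=
  preconn_le_of_eq isClosed_frontier hP.frp hG.cont (hG.eq t ht)

theorem GM.ge_conn {t : ℝ} (ht : t ∈ Ioo lo hi) :
    IsPreconnected {q | q ∈ frontier c.1.set ∧ t ≤ G q} :=
  preconn_ge_of_eq isClosed_frontier hP.frp hG.cont (hG.eq t ht)

theorem GM.eq_ne {t : ℝ} (ht : t ∈ Ioo lo hi) :
    {q | q ∈ frontier c.1.set ∧ G q = t}.Nonempty := by
  obtain ⟨q0, h1, h2⟩ := hG.low
  obtain ⟨q1, h3, h4⟩ := hG.high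
  obtain ⟨q, hq, he⟩ := hP.frp.intermediate_value h1 h3 hG.cont
    (show t ∈ Icc (G q0) (G q1) from ⟨h2.trans ht.1.le, ht.2.le.trans h4⟩)
  exact ⟨q, hq, he⟩

theorem GM.le_cpt (t : ℝ) : IsCompact {q | q ∈ frontier c.1.set ∧ G q ≤ t} :=
  hP.frc.of_isClosed_subset
    (hG.cont.preimage_isClosed_of_isClosed isClosed_frontier isClosed_Iic) fun _ hq => hq.1

theorem GM.eq_cl (t : ℝ) : IsClosed {q | q ∈ frontier c.1.set ∧ G q = t} :=
  hG.cont.preimage_isClosed_of_isClosed isClosed_frontier isClosed_singleton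

include hr

theorem Rad.mem {t s : ℝ} (ht : t ∈ Ioo lo hi) (hs : s ∈ Icc (rm - h * t) (rm + h * t)) :
    s ∈ Ioc 0 ρ := by
  have h1 : h * t < h * hi := mul_lt_mul_of_pos_left ht.2 hr.h0
  have h2 := hr.lo
  have h3 := hr.hi_
  exact ⟨by linarith [hs.1], by linarith [hs.2]⟩

/-- **the barrier is the boundary of a cylinder** -/
theorem bl_image {t : ℝ} (ht : t ∈ Ioo lo hi) : {y | bl Φ c rm h hi G y = t} =
    p '' cyl {q | q ∈ frontier c.1.set ∧ G q ≤ t} {q | q ∈ frontier c.1.set ∧ G q = t}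
      (rm - h * t) (rm + h * t) := by
  have hh := hr.h0
  rw [hP.image fun x hx => ⟨Rad.mem hP hG hr ht hx.2.1, hx.1.1⟩]
  ext y
  show bl Φ c rm h hi G y = t ↔ _
  rw [bl_eq_iff ht.2]
  constructor
  · intro h1
    have h2 : |ga Φ c y - rm| / h ≤ t := by rw [← h1]; exact le_max_left _ _
    have h3 : G (Φ.Psi y) ≤ t := by rw [← h1]; exact le_max_right _ _
    rw [div_le_iff₀ hh, abs_le] at h2
    have h4 : ga Φ c y ∈ Icc (rm - h * t) (rm + h * t) :=
      ⟨by nlinarith [h2.1], by nlinarith [h2.2]⟩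
    have h5 := Rad.mem hP hG hr ht h4
    have h6 := (hP.inv y h5.1 h5.2).1
    refine ⟨h5, ⟨h6, h3⟩, h4, ?_⟩
    rcases max_choice (|ga Φ c y - rm| / h) (G (Φ.Psi y)) with h7 | h7
    · rw [h7, div_eq_iff hh.ne'] at h1
      rcases abs_choice (ga Φ c y - rm) with h8 | h8
      · right; left
        show ga Φ c y = rm + h * t
        rw [h8] at h1; linarith
      · left
        show ga Φ c y = rm - h * t
        rw [h8] at h1; linarith
    · right; right
      rw [h7] at h1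
      exact ⟨h6, h1⟩
  · rintro ⟨h5, ⟨h6, h3⟩, h4, h7⟩
    have h3' : G (Φ.Psi y) ≤ t := h3
    have h4' : ga Φ c y ∈ Icc (rm - h * t) (rm + h * t) := h4
    have ht0 : 0 ≤ h * t := mul_nonneg hh.le (hG.lo0.trans ht.1.le)
    have h8 : |ga Φ c y - rm| / h ≤ t := by
      rw [div_le_iff₀ hh, abs_le]
      exact ⟨by linarith [h4'.1], by linarith [h4'.2]⟩
    apply le_antisymm (max_le h8 h3')
    rcases h7 with h7 | h7 | h7
    · have h7' : ga Φ c y = rm - h * t := h7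
      refine le_max_of_le_left ?_
      rw [h7', le_div_iff₀ hh, show rm - h * t - rm = -(h * t) by ring, abs_neg, abs_of_nonneg ht0]
      linarith
    · have h7' : ga Φ c y = rm + h * t := h7
      refine le_max_of_le_left ?_
      rw [h7', le_div_iff₀ hh, show rm + h * t - rm = h * t by ring, abs_of_nonneg ht0]
      linarith
    · exact le_max_of_le_right (h7.2).ge

theorem bl_cyl_sub {t : ℝ} (ht : t ∈ Ioo lo hi) :
    cyl {q | q ∈ frontier c.1.set ∧ G q ≤ t} {q | q ∈ frontier c.1.set ∧ G q = t}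
      (rm - h * t) (rm + h * t) ⊆ Ioc 0 ρ ×ˢ frontier c.1.set :=
  fun _ hx => ⟨Rad.mem hP hG hr ht hx.2.1, hx.1.1⟩

theorem bl_lip (hLa : IsOpen La) (hpt : (Φ.B c).lo = (Φ.B c).hi) (hρ : ρ < 1) :
    ∃ k, LipschitzWith k (bl Φ c rm h hi G) := by
  have hh := hr.h0
  have hb : Bod (Φ.B c).lo (Pc Φ.F c) := Pse_316.bod_brick Φ c hpt
  have hgf : ga Φ c = Ng (Φ.B c).lo (Pc Φ.F c) := funext (Etg_163.gg_eq Φ c)
  obtain ⟨K, hK, hKl⟩ := Psi_lip (Φ := Φ) hLa hpt hr.lo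
  obtain ⟨k, hk⟩ := hG.lip
  obtain ⟨L, hL⟩ := hP.lip
  have hLd : ∀ y y', |ga Φ c y - ga Φ c y'| ≤ L * ‖y - y'‖ := fun y y' => by
    have := hL.dist_le_mul y y'
    rwa [Real.dist_eq, dist_eq_norm] at this
  have hkd : ∀ q ∈ frontier c.1.set, ∀ q' ∈ frontier c.1.set, |G q - G q'| ≤ k * ‖q - q'‖ :=
    fun q hq q' hq' => by
      have := hk.dist_le_mul q hq q' hq'
      rwa [Real.dist_eq, dist_eq_norm] at this
  -- on the shell
  set M : ℝ := max (L / h) (k * K) with hM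
  have hM0 : 0 ≤ M := le_max_of_le_left (by positivity)
  have hin : ∀ y y', |ga Φ c y - rm| ≤ h * hi → |ga Φ c y' - rm| ≤ h * hi →
      |bl Φ c rm h hi G y - bl Φ c rm h hi G y'| ≤ M * ‖y - y'‖ := by
    intro y y' hy hy'
    rw [abs_le] at hy hy'
    have e1 : 0 < ga Φ c y := by linarith [hr.lo, hy.1]
    have e2 : ga Φ c y ≤ ρ := by linarith [hr.hi_, hy.2]
    have e1' : 0 < ga Φ c y' := by linarith [hr.lo, hy'.1]
    have e2' : ga Φ c y' ≤ ρ := by linarith [hr.hi_, hy'.2]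
    have q1 := (hP.inv y e1 e2).1
    have q1' := (hP.inv y' e1' e2').1
    have m1 : y ∈ c.1.set := hb.le_one_iff.1 (by rw [← hgf]; linarith)
    have m1' : y' ∈ c.1.set := hb.le_one_iff.1 (by rw [← hgf]; linarith)
    have a1 := hKl y' m1' y m1 (by show _ ≤ ga Φ c y'; linarith) (by show _ ≤ ga Φ c y; linarith)
    have a2 := hkd _ q1 _ q1'
    have a3 : |G (Φ.Psi y) - G (Φ.Psi y')| ≤ M * ‖y - y'‖ := by
      refine a2.trans ?_
      calc (k:ℝ) * ‖Φ.Psi y - Φ.Psi y'‖ ≤ k * (K * ‖y - y'‖) :=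
            mul_le_mul_of_nonneg_left a1 k.2
        _ = (k * K) * ‖y - y'‖ := by ring
        _ ≤ M * ‖y - y'‖ := mul_le_mul_of_nonneg_right (le_max_right _ _) (norm_nonneg _)
    have a4 : |(|ga Φ c y - rm| / h) - (|ga Φ c y' - rm| / h)| ≤ M * ‖y - y'‖ := by
      rw [← sub_div, abs_div, abs_of_pos hh, div_le_iff₀ hh]
      have b1 : |(|ga Φ c y - rm|) - (|ga Φ c y' - rm|)| ≤ |ga Φ c y - ga Φ c y'| := by
        have := abs_abs_sub_abs_le (ga Φ c y - rm) (ga Φ c y' - rm)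
        rwa [show ga Φ c y - rm - (ga Φ c y' - rm) = ga Φ c y - ga Φ c y' by ring] at this
      refine b1.trans ((hLd y y').trans ?_)
      have b2 : (L:ℝ) / h ≤ M := le_max_left _ _
      rw [div_le_iff₀ hh] at b2
      nlinarith [norm_nonneg (y - y')]
    unfold bl
    refine (abs_min_sub_min_le_max _ _ _ _).trans ?_
    rw [sub_self, abs_zero]
    refine max_le (mul_nonneg hM0 (norm_nonneg _)) ?_
    exact (abs_max_sub_max_le_max _ _ _ _).trans (max_le a4 a3)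
  -- mixed
  have hcon : Continuous (ga Φ c) := hL.continuous
  have hmix : ∀ y y', |ga Φ c y - rm| ≤ h * hi → h * hi < |ga Φ c y' - rm| →
      |bl Φ c rm h hi G y - bl Φ c rm h hi G y'| ≤ M * ‖y - y'‖ := by
    intro y y' hy hy'
    have hcont : ContinuousOn (fun s : ℝ => |ga Φ c (y + s • (y' - y)) - rm|) (Icc 0 1) := by
      refine Continuous.continuousOn ?_
      exact ((hcon.comp (by fun_prop)).sub continuous_const).abs
    obtain ⟨s, hs, hst⟩ := intermediate_value_Icc (zero_le_one) hcont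
      (show h * hi ∈ Icc _ _ from ⟨by simpa using hy, by simpa using hy'.le⟩)
    have hst' : |ga Φ c (y + s • (y' - y)) - rm| = h * hi := hst
    set w := y + s • (y' - y) with hw
    have e1 : bl Φ c rm h hi G w = hi := bl_far hh hst'.ge
    have e2 : bl Φ c rm h hi G y' = hi := bl_far hh hy'.le
    have a1 := hin y w hy hst'.le
    rw [e2.trans e1.symm]
    refine a1.trans (mul_le_mul_of_nonneg_left ?_ hM0)
    have : y - w = s • (y - y') := by rw [hw, ← sub_sub, sub_self, zero_sub, ← smul_neg]; congr 1; abel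
    rw [this, norm_smul, Real.norm_eq_abs, abs_of_nonneg hs.1]
    nlinarith [norm_nonneg (y - y'), hs.2]
  refine ⟨Real.toNNReal M, LipschitzWith.of_dist_le_mul fun y y' => ?_⟩
  rw [Real.coe_toNNReal _ hM0, Real.dist_eq, dist_eq_norm]
  rcases le_or_gt (|ga Φ c y - rm|) (h * hi) with h1 | h1
  · rcases le_or_gt (|ga Φ c y' - rm|) (h * hi) with h2 | h2
    · exact hin y y' h1 h2
    · exact hmix y y' h1 h2
  · rcases le_or_gt (|ga Φ c y' - rm|) (h * hi) with h2 | h2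
    · have := hmix y' y h2 h1
      rwa [abs_sub_comm, norm_sub_rev] at this
    · rw [bl_far hh h1.le, bl_far hh h2.le, sub_self, abs_zero]
      exact mul_nonneg hM0 (norm_nonneg _)

/-- **the barrier function is a barrier function** -/
theorem bfun_bl (hLa : IsOpen La) (hpt : (Φ.B c).lo = (Φ.B c).hi) (hρ : ρ < 1) :
    BFun Φ c ρ (bl Φ c rm h hi G) lo hi where
  lt := hG.lt
  lip := bl_lip hP hG hr hLa hpt hρ
  cpt := fun t ht => by
    have hh := hr.h0
    have ht0 : 0 < h * t := mul_pos hh (hG.lo0.trans_lt ht.1)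
    rw [bl_image hP hG hr ht]
    exact (cyl_cpt (hG.le_cpt hP t) (hG.eq_cl hP t) (by linarith)).image_of_continuousOn
      (hP.contOn (bl_cyl_sub hP hG hr ht))
  conn := fun t ht => by
    have hh := hr.h0
    have ht0 : 0 < h * t := mul_pos hh (hG.lo0.trans_lt ht.1)
    rw [bl_image hP hG hr ht]
    exact (cyl_pre (hG.le_cpt hP t) (hG.eq_cl hP t) (fun q hq => ⟨hq.1, hq.2.le⟩)
      (hG.le_conn hP ht) (hG.eq_ne hP ht) (by linarith)).image _
      (hP.contOn (bl_cyl_sub hP hG hr ht))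
  triv := fun t ht => by
    have hh := hr.h0
    have ht0 : 0 < h * t := mul_pos hh (hG.lo0.trans_lt ht.1)
    rw [bl_image hP hG hr ht]
    have hc := cyl_cpt (hG.le_cpt hP t) (hG.eq_cl hP t) (show rm - h * t < rm + h * t by linarith)
    exact (cyl_triv (hG.le_cpt hP t) (hG.eq_cl hP t) (fun q hq => ⟨hq.1, hq.2.le⟩)
      (hG.eq t ht) (hG.triv t ht) (by linarith)).of_image hc hc.isClosed
      (hP.contOn (bl_cyl_sub hP hG hr ht)) (hP.injOn (bl_cyl_sub hP hG hr ht))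
  sub := fun y hy => by
    have h1 := bl_gau hr.h0 le_rfl hy
    rw [abs_lt] at h1
    have h2 := hr.hi_
    show ga Φ c y ≤ ρ
    linarith [h1.2]

end Crest.Agent.R096.Bgf_4
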