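import Crest.Agent.R096.Ess9_95
import Crest.Agent.R096.Bgf7_4
import Crest.Agent.R096.Dib1_438

-- ▼ part R096/Ebr1_95
section

/-!
# Row 96, DOORS, barriers (helper95), part 1: `EG` for a barrier sheet

The sheet is a polar product `{max (|ga - rm| / h) (G ∘ Psi) = τ}` near a tiny core.

* `SB1`, `Gdn`, `Gup`, `mem_SB1`, `preconn_*` : the target sets;
* `structure GT` : target facts for the function `G` on the frontier of the brick;
* `exists_EG_bar` : `EG` for any state `s` whose points of the name `j` lie on the sheet.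
-/

set_option autoImplicit false
set_option linter.unusedSectionVars false

open Set Topology Filter Metric Module
open scoped Classical

namespace Crest.Agent.R096.Ebr1_95

open Crest.Agent.R096.Msh_715 Crest.Agent.R096.Coh_184 Crest.Agent.R096.Bsp_628
  Crest.Agent.R096.Brk1_582 Crest.Agent.R096.Brk2_582 Crest.Agent.R096.Brk3_582
  Crest.Agent.R096.Brk5_582 Crest.Agent.R096.Init_543 Crest.Agent.R096.Mbf_337
  Crest.Agent.R96.Push_899 Crest.Agent.R096.Ess1_95 Crest.Agent.R096.Ess4_95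
  Crest.Agent.R096.Ess5_95 Crest.Agent.R096.Ess6_95 Crest.Agent.R096.Ess7_95
  Crest.Agent.R096.Ess8_95 Crest.Agent.R096.Lab_184 Crest.Agent.R096.Seq_213
  Crest.Agent.R096.Main_4 Crest.Agent.R096.Exa_560 Crest.Agent.R096.Agl5_543
  Crest.Agent.R096.Agl6_543

open Crest.Agent.R096.SkC1_961 (E3 Hom3 IsPush FoamD)
open Crest.Agent.R096.Ce_537 (PLEquiv IsBall)

variable {δ κ0 R c0 : ℝ} {La : Set E3} {Φ : FoamD δ κ0 R c0 La}

/-- **target facts** for the function `G` of a barrier -/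
structure GT (Φ : FoamD δ κ0 R c0 La) (c : Φ.F) (G : E3 → ℝ) (g0 z0 τ z1 g1 : ℝ) : Prop where
  lo : IsPreconnected {q | q ∈ frontier c.1.set ∧ G q ≤ g0}
  lon : {q | q ∈ frontier c.1.set ∧ G q ≤ g0}.Nonempty
  zlo : IsPreconnected {q | q ∈ frontier c.1.set ∧ G q ≤ z0}
  le : IsPreconnected {q | q ∈ frontier c.1.set ∧ G q ≤ τ}
  eq : IsPreconnected {q | q ∈ frontier c.1.set ∧ G q = τ}
  eqn : {q | q ∈ frontier c.1.set ∧ G q = τ}.Nonempty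
  zhi : IsPreconnected {q | q ∈ frontier c.1.set ∧ z1 ≤ G q}
  hi : IsPreconnected {q | q ∈ frontier c.1.set ∧ g1 ≤ G q}
  hin : {q | q ∈ frontier c.1.set ∧ g1 ≤ G q}.Nonempty

/-- the sheet in the target -/
def SB1 (Φ : FoamD δ κ0 R c0 La) (c : Φ.F) (G : E3 → ℝ) (a0 a1 τ : ℝ) : Set E3 :=
  {y | y ∈ c.1.set ∧ a0 ≤ ga Φ c y ∧ ga Φ c y ≤ a1 ∧ G (Φ.Psi y) ≤ τ ∧
    (ga Φ c y = a0 ∨ ga Φ c y = a1 ∨ G (Φ.Psi y) = τ)}

/-- the lower part -/
def Gdn (Φ : FoamD δ κ0 R c0 La) (c : Φ.F) (G : E3 → ℝ) (a0 r τ : ℝ) : Set E3 :=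
  {y | y ∈ c.1.set ∧ a0 ≤ ga Φ c y ∧ ga Φ c y ≤ r ∧ G (Φ.Psi y) ≤ τ ∧
    (ga Φ c y = a0 ∨ G (Φ.Psi y) = τ)}

/-- the upper part -/
def Gup (Φ : FoamD δ κ0 R c0 La) (c : Φ.F) (G : E3 → ℝ) (r a1 τ : ℝ) : Set E3 :=
  {y | y ∈ c.1.set ∧ r ≤ ga Φ c y ∧ ga Φ c y ≤ a1 ∧ G (Φ.Psi y) ≤ τ ∧
    (ga Φ c y = a1 ∨ G (Φ.Psi y) = τ)}


section target

variable {c : Φ.F} {ρ : ℝ} {G : E3 → ℝ} {a0 a1 g0 z0 τ z1 g1 : ℝ}

theorem Psi_frontier (hLa : IsOpen La) (hG : GA Φ c ρ) (hpt : (Φ.B c).lo = (Φ.B c).hi) {y : E3}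
    (hy : y ∈ c.1.set) (h : 0 < ga Φ c y) : Φ.Psi y ∈ frontier c.1.set := by
  rw [frontier_c Φ hLa c]
  exact Psi_fr hLa hG hpt hy h

/-- the wall between two radii -/
theorem preconn_wall (hG : GA Φ c ρ) (hT : GT Φ c G g0 z0 τ z1 g1) {r r' : ℝ} (h0 : 0 < r)
    (h : r ≤ r') (h1 : r' ≤ ρ) :
    IsPreconnected {y | y ∈ c.1.set ∧ r ≤ ga Φ c y ∧ ga Φ c y ≤ r' ∧
      Φ.Psi y ∈ {q | q ∈ frontier c.1.set ∧ G q = τ}} :=
  hG.shell _ (fun _ hq => hq.1) hT.eq r r' h0 h h1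

/-- the cap at a radius -/
theorem preconn_cap (hG : GA Φ c ρ) (hT : GT Φ c G g0 z0 τ z1 g1) {r : ℝ} (h0 : 0 < r)
    (h1 : r ≤ ρ) :
    IsPreconnected {y | y ∈ c.1.set ∧ r ≤ ga Φ c y ∧ ga Φ c y ≤ r ∧
      Φ.Psi y ∈ {q | q ∈ frontier c.1.set ∧ G q ≤ τ}} :=
  hG.shell _ (fun _ hq => hq.1) hT.le r r h0 le_rfl h1

theorem preconn_Gdn (hLa : IsOpen La) (hG : GA Φ c ρ) (hpt : (Φ.B c).lo = (Φ.B c).hi)
    (hT : GT Φ c G g0 z0 τ z1 g1) {r : ℝ} (h0 : 0 < a0) (h : a0 ≤ r) (h1 : r ≤ ρ) :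
    IsPreconnected (Gdn Φ c G a0 r τ) := by
  obtain ⟨q, hq, hqτ⟩ := hT.eqn
  obtain ⟨y, hy, hy1, hy2⟩ := hG.ex q hq a0 h0 (h.trans h1)
  have e : Gdn Φ c G a0 r τ =
      {y | y ∈ c.1.set ∧ a0 ≤ ga Φ c y ∧ ga Φ c y ≤ r ∧
        Φ.Psi y ∈ {q | q ∈ frontier c.1.set ∧ G q = τ}} ∪
      {y | y ∈ c.1.set ∧ a0 ≤ ga Φ c y ∧ ga Φ c y ≤ a0 ∧
        Φ.Psi y ∈ {q | q ∈ frontier c.1.set ∧ G q ≤ τ}} := by
    ext z
    constructor
    · rintro ⟨g1, g2, g3, g4, g5⟩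
      have g6 := Psi_frontier hLa hG hpt g1 (h0.trans_le g2)
      rcases g5 with g5 | g5
      · exact Or.inr ⟨g1, g2, g5.le, g6, g4⟩
      · exact Or.inl ⟨g1, g2, g3, g6, g5⟩
    · rintro (⟨g1, g2, g3, g4, g5⟩ | ⟨g1, g2, g3, g4, g5⟩)
      · exact ⟨g1, g2, g3, g5.le, Or.inr g5⟩
      · exact ⟨g1, g2, g3.trans h, g5, Or.inl (le_antisymm g3 g2)⟩
  rw [e]
  refine IsPreconnected.union y ⟨hy, hy1.ge, hy1.le.trans h, by rw [hy2]; exact ⟨hq, hqτ⟩⟩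
    ⟨hy, hy1.ge, hy1.le, by rw [hy2]; exact ⟨hq, hqτ.le⟩⟩ (preconn_wall hG hT h0 h h1)
    (preconn_cap hG hT h0 (h.trans h1))

theorem preconn_Gup (hLa : IsOpen La) (hG : GA Φ c ρ) (hpt : (Φ.B c).lo = (Φ.B c).hi)
    (hT : GT Φ c G g0 z0 τ z1 g1) {r : ℝ} (h0 : 0 < r) (h : r ≤ a1) (h1 : a1 ≤ ρ) :
    IsPreconnected (Gup Φ c G r a1 τ) := by
  obtain ⟨q, hq, hqτ⟩ := hT.eqn
  obtain ⟨y, hy, hy1, hy2⟩ := hG.ex q hq a1 (h0.trans_le h) h1
  have e : Gup Φ c G r a1 τ =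
      {y | y ∈ c.1.set ∧ r ≤ ga Φ c y ∧ ga Φ c y ≤ a1 ∧
        Φ.Psi y ∈ {q | q ∈ frontier c.1.set ∧ G q = τ}} ∪
      {y | y ∈ c.1.set ∧ a1 ≤ ga Φ c y ∧ ga Φ c y ≤ a1 ∧
        Φ.Psi y ∈ {q | q ∈ frontier c.1.set ∧ G q ≤ τ}} := by
    ext z
    constructor
    · rintro ⟨g1, g2, g3, g4, g5⟩
      have g6 := Psi_frontier hLa hG hpt g1 (h0.trans_le g2)
      rcases g5 with g5 | g5
      · exact Or.inr ⟨g1, g5.ge, g3, g6, g4⟩
      · exact Or.inl ⟨g1, g2, g3, g6, g5⟩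
    · rintro (⟨g1, g2, g3, g4, g5⟩ | ⟨g1, g2, g3, g4, g5⟩)
      · exact ⟨g1, g2, g3, g5.le, Or.inr g5⟩
      · exact ⟨g1, h.trans g2, g3, g5, Or.inl (le_antisymm g3 g2)⟩
  rw [e]
  refine IsPreconnected.union y ⟨hy, h.trans hy1.ge, hy1.le, by rw [hy2]; exact ⟨hq, hqτ⟩⟩
    ⟨hy, hy1.ge, hy1.le, by rw [hy2]; exact ⟨hq, hqτ.le⟩⟩ (preconn_wall hG hT h0 h h1)
    (preconn_cap hG hT (h0.trans_le h) h1)

/-- the whole sheet is connected -/
theorem preconn_SB1 (hLa : IsOpen La) (hG : GA Φ c ρ) (hpt : (Φ.B c).lo = (Φ.B c).hi)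
    (hT : GT Φ c G g0 z0 τ z1 g1) (h0 : 0 < a0) (h : a0 ≤ a1) (h1 : a1 ≤ ρ) :
    IsPreconnected (SB1 Φ c G a0 a1 τ) := by
  obtain ⟨q, hq, hqτ⟩ := hT.eqn
  obtain ⟨y, hy, hy1, hy2⟩ := hG.ex q hq a0 h0 (h.trans h1)
  have e : SB1 Φ c G a0 a1 τ = Gdn Φ c G a0 a1 τ ∪ Gup Φ c G a0 a1 τ := by
    ext z
    constructor
    · rintro ⟨g1, g2, g3, g4, g5⟩
      rcases g5 with g5 | g5 | g5
      · exact Or.inl ⟨g1, g2, g3, g4, Or.inl g5⟩
      · exact Or.inr ⟨g1, g2, g3, g4, Or.inl g5⟩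
      · exact Or.inl ⟨g1, g2, g3, g4, Or.inr g5⟩
    · rintro (⟨g1, g2, g3, g4, g5⟩ | ⟨g1, g2, g3, g4, g5⟩)
      · exact ⟨g1, g2, g3, g4, g5.elim Or.inl fun h => Or.inr (Or.inr h)⟩
      · exact ⟨g1, g2, g3, g4, Or.inr g5⟩
  rw [e]
  refine IsPreconnected.union y ⟨hy, hy1.ge, hy1.le.trans h, by rw [hy2]; exact hqτ.le,
      Or.inl hy1⟩
    ⟨hy, hy1.ge, hy1.le.trans h, by rw [hy2]; exact hqτ.le, Or.inr (by rw [hy2]; exact hqτ)⟩
    (preconn_Gdn hLa hG hpt hT h0 h h1) (preconn_Gup hLa hG hpt hT h0 h h1)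

end target

end Crest.Agent.R096.Ebr1_95
end

-- ▼ part R096/Ebr2_95
section

/-!
# Row 96, DOORS, barriers (helper95), part 2: **`exists_EG_bar`**

`EG` (Ess4_95) for a barrier sheet at its tiny core, for ANY state `s` on the tiling whose points of
the name `j` lie on the sheet.
-/

set_option autoImplicit false
set_option linter.unusedSectionVars false

open Set Topology Filter Metric Module
open scoped Classical

namespace Crest.Agent.R096.Ebr2_95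

open Crest.Agent.R096.Msh_715 Crest.Agent.R096.Coh_184 Crest.Agent.R096.Bsp_628
  Crest.Agent.R096.Brk1_582 Crest.Agent.R096.Brk2_582 Crest.Agent.R096.Brk3_582
  Crest.Agent.R096.Brk5_582 Crest.Agent.R096.Init_543 Crest.Agent.R096.Mbf_337
  Crest.Agent.R96.Push_899 Crest.Agent.R096.Ess1_95 Crest.Agent.R096.Ess4_95
  Crest.Agent.R096.Ess5_95 Crest.Agent.R096.Ess6_95 Crest.Agent.R096.Ess7_95
  Crest.Agent.R096.Ess8_95 Crest.Agent.R096.Lab_184 Crest.Agent.R096.Seq_213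
  Crest.Agent.R096.Main_4 Crest.Agent.R096.Exa_560 Crest.Agent.R096.Agl5_543
  Crest.Agent.R096.Agl6_543 Crest.Agent.R096.Ebr1_95

open Crest.Agent.R096.SkC1_961 (E3 Hom3 IsPush FoamD)
open Crest.Agent.R096.Ce_537 (PLEquiv IsBall)

variable {δ κ0 R c0 : ℝ} {La Om : Set E3} {ι : Type} {Φ : FoamD δ κ0 R c0 La}
  {T : Tiling Om ι} {f g : E3 → E3} {κ1 κ2 : ℝ} {X : Set Φ.F} {J0 J V : Φ.F → Set ι}
  {ct : Φ.F → ι} {A : Φ.F → E3 ≃ᵃ[ℝ] E3} {lam : Φ.F → ℝ} {z : Φ.F → E3}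
  {θ : Φ.F → E3 → E3} {φ : Φ.F → E3 → ℝ}

theorem exists_EG_bar (hLa : IsOpen La) (H : Hm f g Om La)
    (hC : Cores Φ T f κ1 κ2 X J0 J V ct A lam z θ φ) (c : {c : Φ.F // c ∉ X})
    {ρ1 ρ2 ρ3 ρ4 d : ℝ}
    (hr1 : Rm Φ T f c.1 (J0 c) (J c) (V c) (θ c) ρ1 ρ2 ρ3 ρ4 d) (hG1 : GA Φ c.1 ρ4)
    {J' C' : Type} {fam : J' → C'} {s : GSt (meshC T fr3) fam} {j : J'} {Sf : Set E3}
    {G : E3 → ℝ} {a0 a1 g0 z0 τ z1 g1 ω : ℝ} (hT : GT Φ c.1 G g0 z0 τ z1 g1)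
    (ha0 : ρ1 + 2 * d ≤ a0) (ha0' : a0 ≤ ρ1 + 5 * d) (ha1 : ρ3 + 10 * d ≤ a1)
    (ha1' : a1 ≤ ρ3 + 15 * d)
    (hn1 : g0 + 2 * ω ≤ z0) (hn2 : z0 + 2 * ω < τ) (hn3 : τ + 2 * ω < z1)
    (hn4 : z1 + 2 * ω ≤ g1)
    (hS : ∀ x, x ∈ Sf ↔ x ∈ Om ∧ f x ∈ SB1 Φ c.1 G a0 a1 τ)
    (hp : ∀ u ∈ s.P, s.lab u = j → u ∈ Sf)
    (hoscG : ∀ q, ∀ x ∈ P (T.H q), ρ1 ≤ ga Φ c.1 (f x) → ga Φ c.1 (f x) ≤ ρ4 →
      ∀ y ∈ P (T.H q), |G (Φ.Psi (f x)) - G (Φ.Psi (f y))| ≤ ω)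
    (hnear : ∀ x ∈ frontier (KJ T (J c)), |G (θ c x) - G (Φ.Psi (f x))| ≤ ω)
    {v0 v1 : VxK T (KT T J X) c} (hv0 : G (θ c v0.1) ≤ z0) (hv1 : z1 ≤ G (θ c v1.1))
    {r : E3} (hr : r ∈ Sf) (hrg : ρ3 + 6 * d ≤ ga Φ c.1 (f r))
    {lm : E3 → ZMod 2} (hlam : IsLab T (gPts s j) lm)
    (hlab : ∀ q, ∀ v ∈ P (T.H q), T.dim v = 0 → |ga Φ c.1 (f v) - (a0 + a1) / 2| ≤ d →
      (G (Φ.Psi (f v)) ≤ g0 + ω → lm v = 1) ∧ (g1 - ω ≤ G (Φ.Psi (f v)) → lm v = 0)) :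
    Nonempty (EG s j Sf (KT T J X) c v0 v1 r) := by
  have hsub : ∀ c : Φ.F, c.1.set ⊆ La := fun c => (foam4 Φ hLa).sub c
  have hTc := hC.tiny c.1 c.2
  have hpt := hTc.pt
  have hd := hr1.d0
  have h12 := hr1.r12
  have h23 := hr1.r23
  have h34 := hr1.r34
  have h4 := hr1.r4
  have h01 := hr1.r1
  have hcore : CoreH T (KJ T (J c.1)) := coreH_tiny hTc
  have hcl := hcore.cpt.isClosed
  have hKloc : ∀ x ∈ KJ T (J c.1), ga Φ c.1 (f x) ≤ ρ3 := fun x hx =>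
    K_loc H (hsub c.1) hG1 hr1 hTc.sub hcl hTc.inside hx
  have hKint : ∀ x ∈ Om, ga Φ c.1 (f x) < ρ2 → x ∈ interior (KJ T (J c.1)) := fun x hx h =>
    K_int H (hsub c.1) hG1 hr1 hTc.sub0 hcl hTc.mem hx h
  have hmemc : ∀ y, ga Φ c.1 y ≤ 1 → y ∈ c.1.1.set := fun y hy => (hG1.one y).1 hy
  have hopen : ∀ y, ga Φ c.1 y < 1 → ∀ k, c.1.1.lo k < y k ∧ y k < c.1.1.hi k := hG1.lt_one
  set rD : ℝ := ρ1 + 8 * d with hrD
  set rF : ℝ := ρ3 + 8 * d with hrF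
  -- the oscillation on a tile
  have hosc : ∀ q, ∀ x ∈ P (T.H q), ρ1 ≤ ga Φ c.1 (f x) → ga Φ c.1 (f x) ≤ ρ4 →
      ∀ y ∈ P (T.H q), (ga Φ c.1 (f x) - d ≤ ga Φ c.1 (f y) ∧
        ga Φ c.1 (f y) ≤ ga Φ c.1 (f x) + d) ∧
        G (Φ.Psi (f x)) - ω ≤ G (Φ.Psi (f y)) ∧ G (Φ.Psi (f y)) ≤ G (Φ.Psi (f x)) + ω := by
    intro q x hx h1 h5 y hy
    have g4 := abs_le.1 (hr1.tile_osc hx h1 h5 hy).1
    have g5 := abs_le.1 (hoscG q x hx h1 h5 y hy)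
    exact ⟨⟨by linarith [g4.2], by linarith [g4.1]⟩, by linarith [g5.2], by linarith [g5.1]⟩
  -- points of the sheet between the two radii are on the wall
  have hwall : ∀ u ∈ s.P, s.lab u = j → a0 < ga Φ c.1 (f u) → ga Φ c.1 (f u) < a1 →
      G (Φ.Psi (f u)) = τ := by
    intro u hu hl h1 h2
    obtain ⟨-, -, -, -, -, h3⟩ := (hS u).1 (hp u hu hl)
    rcases h3 with h3 | h3 | h3
    · exact absurd h3 h1.ne'
    · exact absurd h3 h2.ne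
    · exact h3
  have hSO : ∀ x ∈ Sf, x ∈ Om := fun x hx => ((hS x).1 hx).1
  -- sets on the frontier of the brick
  let AA : Bool → Set E3 := fun i => if i then {q | q ∈ frontier c.1.1.set ∧ g1 ≤ G q} else
    {q | q ∈ frontier c.1.1.set ∧ G q ≤ g0}
  have hAAf : ∀ i, AA i ⊆ frontier c.1.1.set := by
    intro i q hq
    cases i
    · exact hq.1
    · exact hq.1
  have hAAc : ∀ i, IsPreconnected (AA i) := by
    intro i
    cases i
    · exact hT.lo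
    · exact hT.hi
  have hAAn : ∀ i, (AA i).Nonempty := by
    intro i
    cases i
    · exact hT.lon
    · exact hT.hin
  -- L
  let Lh : Bool → Set E3 := fun i => {y | y ∈ c.1.1.set ∧ rD ≤ ga Φ c.1 y ∧ ga Φ c.1 y ≤ rF ∧
    Φ.Psi y ∈ AA i}
  have hLhL : ∀ i, Lh i ⊆ La := fun i y hy => hsub c.1 hy.1
  have hLhc : ∀ i, IsPreconnected (Lh i) := fun i => hG1.shell (AA i) (hAAf i) (hAAc i) rD rF
    (by rw [hrD]; linarith) (by rw [hrD, hrF]; linarith) (by rw [hrF]; linarith)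
  have hLlev : ∀ x, x ∈ Lh false → G (Φ.Psi x) ≤ g0 := fun x hx => hx.2.2.2.2
  have hHlev : ∀ x, x ∈ Lh true → g1 ≤ G (Φ.Psi x) := fun x hx => hx.2.2.2.2
  have hLex : ∀ i, ∀ ρ, rD ≤ ρ → ρ ≤ rF → ∃ x ∈ Om, f x ∈ Lh i ∧ ga Φ c.1 (f x) = ρ := by
    intro i ρ h1 h2
    obtain ⟨q, hq⟩ := hAAn i
    obtain ⟨y, hy, hy1, hy2⟩ := hG1.ex q (hAAf i hq) ρ (by rw [hrD] at h1; linarith)
      (by rw [hrF] at h2; linarith)
    refine ⟨g y, H.gm (hsub c.1 hy), ?_, ?_⟩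
    · rw [H.fg y (hsub c.1 hy)]
      exact ⟨hy, by rw [hy1]; exact h1, by rw [hy1]; exact h2, by rw [hy2]; exact hq⟩
    · rw [H.fg y (hsub c.1 hy), hy1]
  -- Z
  obtain ⟨e, he⟩ := hTc.bij
  let ZB : Bool → Set E3 := fun i => if i then {q | q ∈ frontier c.1.1.set ∧ z1 ≤ G q} else
    {q | q ∈ frontier c.1.1.set ∧ G q ≤ z0}
  have hZBf : ∀ i, ZB i ⊆ frontier c.1.1.set := by
    intro i q hq
    cases i
    · exact hq.1
    · exact hq.1
  have hZBc : ∀ i, IsPreconnected (ZB i) := by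
    intro i
    cases i
    · exact hT.zlo
    · exact hT.zhi
  have hZmem : ∀ i, ∀ x ∈ frontier (KJ T (J c.1)), θ c.1 x ∈ ZB i → x ∈ e.g '' ZB i := by
    intro i x hx hxZ
    refine ⟨θ c.1 x, hxZ, ?_⟩
    rw [← he x hx]
    exact e.li x hx
  have hZinv : ∀ i, ∀ x ∈ e.g '' ZB i, x ∈ frontier (KJ T (J c.1)) ∧ θ c.1 x ∈ ZB i := by
    rintro i _ ⟨q, hq, rfl⟩
    have h1 := e.mg (hZBf i hq)
    refine ⟨h1, ?_⟩
    rw [← he _ h1, e.ri q (hZBf i hq)]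
    exact hq
  have hnear' : ∀ x ∈ frontier (KJ T (J c.1)), G (Φ.Psi (f x)) - ω ≤ G (θ c.1 x) ∧
      G (θ c.1 x) ≤ G (Φ.Psi (f x)) + ω := by
    intro x hx
    have h1 := abs_le.1 (hnear x hx)
    exact ⟨by linarith [h1.1], by linarith [h1.2]⟩
  have hfrO : ∀ x ∈ frontier (KJ T (J c.1)), x ∈ Om := fun x hx =>
    hcore.sub (hcl.frontier_subset hx)
  -- the parts of the sheet
  have hGdc : IsPreconnected (Gdn Φ c.1 G a0 (rD + d) τ) :=
    preconn_Gdn hLa hG1 hpt hT (by linarith) (by rw [hrD]; linarith) (by rw [hrD]; linarith)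
  have hGoc : IsPreconnected (Gup Φ c.1 G (rF - 2 * d) a1 τ) :=
    preconn_Gup hLa hG1 hpt hT (by rw [hrF]; linarith) (by rw [hrF]; linarith) (by linarith)
  have hSc : IsPreconnected (Om ∩ f ⁻¹' SB1 Φ c.1 G a0 a1 τ) :=
    H.preconn_pre (fun y hy => hsub c.1 hy.1)
      (preconn_SB1 hLa hG1 hpt hT (by linarith) (by linarith) (by linarith))
  have hSe : Om ∩ f ⁻¹' SB1 Φ c.1 G a0 a1 τ = Sf := by
    ext x
    exact (hS x).symm
  rw [hSe] at hSc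
  have hGdS : Om ∩ f ⁻¹' Gdn Φ c.1 G a0 (rD + d) τ ⊆ Sf := by
    rintro x ⟨hxO, h1, h2, h3, h5, h6⟩
    exact (hS x).2 ⟨hxO, h1, h2, by rw [hrD] at h3; linarith, h5, h6.elim Or.inl fun h =>
      Or.inr (Or.inr h)⟩
  have hGoS : Om ∩ f ⁻¹' Gup Φ c.1 G (rF - 2 * d) a1 τ ⊆ Sf := by
    rintro x ⟨hxO, h1, h2, h3, h5, h6⟩
    exact (hS x).2 ⟨hxO, h1, by rw [hrF] at h2; linarith, h3, h5, Or.inr h6⟩
  have hgaS : ∀ ρ, 0 < ρ → ρ ≤ 1 → {y | ga Φ c.1 y = ρ} ⊆ La := fun ρ _ h1 y hy =>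
    hsub c.1 (hmemc y (by
      have : ga Φ c.1 y = ρ := hy
      linarith))
  have hS0L : {y | ga Φ c.1 y ≤ ρ4} ⊆ La := fun y hy => hsub c.1 (hmemc y (by
    have : ga Φ c.1 y ≤ ρ4 := hy
    linarith))
  -- the sheet misses the other cores
  have hSx : ∀ c' : {c : Φ.F // c ∉ X}, c' ≠ c → ∀ x ∈ Sf, x ∉ KJ T (J c') := by
    intro c' hc' x hx hxK
    obtain ⟨-, -, -, h2, -⟩ := (hS x).1 hx
    have hT' := hC.tiny c'.1 c'.2
    have h5 := hT'.inside x (KJ_mono hT'.sub hxK)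
    have h6 := hopen (f x) (by linarith)
    exact hc' (Subtype.ext (only_brick hLa h5 (d := c.1)
      ⟨fun k => (h6 k).1.le, fun k => (h6 k).2.le⟩).symm)
  exact ⟨{
    lam := lm
    hlam := hlam
    S0 := Om ∩ f ⁻¹' {y | ga Φ c.1 y ≤ ρ4}
    S0c := H.isCompact_pre hS0L (hG1.cpt _ (by linarith) (by linarith))
    S0O := inter_subset_left
    S0t := by
      rw [H.pre_eq hS0L]
      exact trivF_convex (hG1.cpt _ (by linarith) (by linarith))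
        (hG1.cvx _ (by linarith) (by linarith)) (H.gc.mono hS0L) (H.injOn.mono hS0L)
    L := fun i => Om ∩ f ⁻¹' Lh i
    Lc := fun i => H.preconn_pre (hLhL i) (hLhc i)
    LO := fun i => inter_subset_left
    LS := by
      rintro i q ⟨x, hxq, hxO, hxL⟩ y hy
      have h5 := hxL.2.1
      have h6 := hxL.2.2.1
      rw [hrD] at h5
      rw [hrF] at h6
      obtain ⟨⟨g1, g2⟩, -⟩ := hosc q x hxq (by linarith) (by linarith) y hy
      refine ⟨T.sub q hy, ?_⟩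
      show ga Φ c.1 (f y) ≤ ρ4
      linarith
    Ln := by
      rintro i q ⟨x, hxq, hxO, hxL⟩ u hu hul huq
      have h5 := hxL.2.1
      have h6 := hxL.2.2.1
      rw [hrD] at h5
      rw [hrF] at h6
      obtain ⟨⟨k1, k2⟩, g1, g2⟩ := hosc q x hxq (by linarith) (by linarith) u huq
      have h7 := hwall u hu hul (by linarith) (by linarith)
      cases i
      · have h8 := hLlev _ hxL
        linarith
      · have h8 := hHlev _ hxL
        linarith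
    Ll := by
      have hv : ∀ i, ∃ v ∈ VM T (Om ∩ f ⁻¹' Lh i), ∃ q, v ∈ P (T.H q) ∧ T.dim v = 0 ∧
          |ga Φ c.1 (f v) - (a0 + a1) / 2| ≤ d ∧ ∃ x, f x ∈ Lh i ∧
          G (Φ.Psi (f x)) - ω ≤ G (Φ.Psi (f v)) ∧ G (Φ.Psi (f v)) ≤ G (Φ.Psi (f x)) + ω := by
        intro i
        obtain ⟨x, hxO, hxL, hx1⟩ := hLex i ((a0 + a1) / 2) (by rw [hrD]; linarith)
          (by rw [hrF]; linarith)
        obtain ⟨q, hq⟩ := T.cov x hxO
        obtain ⟨v, hv, hv0'⟩ := exists_vertex_tile hq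
        obtain ⟨⟨k1, k2⟩, g1, g2⟩ := hosc q x hq (by linarith) (by linarith) v hv
        refine ⟨v, mem_VM hq ⟨hxO, hxL⟩ hv hv0', q, hv, hv0', ?_, x, hxL, g1, g2⟩
        rw [abs_le]
        constructor <;> linarith
      obtain ⟨v, hvM, q, hvq, hvd, hva, x, hxL, g1, g2⟩ := hv true
      obtain ⟨v', hvM', q', hvq', hvd', hva', x', hxL', g1', g2'⟩ := hv false
      refine ⟨v, hvM, v', hvM', ?_⟩
      rw [(hlab q v hvq hvd hva).2 (by linarith [hHlev _ hxL]),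
        (hlab q' v' hvq' hvd' hva').1 (by linarith [hLlev _ hxL'])]
      exact zero_add 1
    Z := fun i => e.g '' ZB i
    Zc := fun i => (hZBc i).image _ (e.pg.1.mono (hZBf i))
    Zf := fun i x hx => (hZinv i x hx).1
    Zn := by
      rintro i q ⟨x, hxq, hxZ⟩ u hu hul huq
      obtain ⟨hxf, hxZ'⟩ := hZinv i x hxZ
      obtain ⟨k1, k2⟩ := hr1.fr x hxf
      obtain ⟨⟨m1, m2⟩, g1, g2⟩ := hosc q x hxq (by linarith) (by linarith) u huq
      have h7 := hwall u hu hul (by linarith) (by linarith)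
      obtain ⟨n1, n2⟩ := hnear' x hxf
      cases i
      · have h8 : G (θ c.1 x) ≤ z0 := hxZ'.2
        linarith
      · have h8 : z1 ≤ G (θ c.1 x) := hxZ'.2
        linarith
    LZ := by
      rintro i v ⟨hv0', q, ⟨x, hxq, hxO, hxL⟩, hvq⟩ hvf
      have h5 := hxL.2.1
      have h6 := hxL.2.2.1
      rw [hrD] at h5
      rw [hrF] at h6
      obtain ⟨-, g1, g2⟩ := hosc q x hxq (by linarith) (by linarith) v hvq
      obtain ⟨n1, n2⟩ := hnear' v hvf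
      refine hZmem i v hvf ?_
      have hth : θ c.1 v ∈ frontier c.1.1.set := th_mem hTc hvf
      cases i
      · have h8 := hLlev _ hxL
        have h9 : G (θ c.1 v) ≤ z0 := by linarith
        exact ⟨hth, h9⟩
      · have h8 := hHlev _ hxL
        have h9 : z1 ≤ G (θ c.1 v) := by linarith
        exact ⟨hth, h9⟩
    Z0 := hZmem false _ v0.2.2 ⟨th_mem hTc v0.2.2, hv0⟩
    Z1 := hZmem true _ v1.2.2 ⟨th_mem hTc v1.2.2, hv1⟩
    D := Om ∩ f ⁻¹' {y | ga Φ c.1 y = rD}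
    Dc := H.preconn_pre (hgaS rD (by rw [hrD]; linarith) (by rw [hrD]; linarith))
      (hG1.eq rD (by rw [hrD]; linarith) (by rw [hrD]; linarith))
    DO := inter_subset_left
    DS := by
      rintro q ⟨x, hxq, hxO, hxD⟩ y hy
      have h5 : ga Φ c.1 (f x) = rD := hxD
      rw [hrD] at h5
      obtain ⟨⟨g1, g2⟩, -⟩ := hosc q x hxq (by linarith) (by linarith) y hy
      refine ⟨T.sub q hy, ?_⟩
      show ga Φ c.1 (f y) ≤ ρ4
      linarith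
    DK := by
      rintro q ⟨x, hxq, hxO, hxD⟩ y hy
      have h5 : ga Φ c.1 (f x) = rD := hxD
      rw [hrD] at h5
      obtain ⟨⟨g1, g2⟩, -⟩ := hosc q x hxq (by linarith) (by linarith) y hy
      exact hKint y (T.sub q hy) (by linarith)
    LD := by
      intro i
      obtain ⟨x, hxO, hxL, hx1⟩ := hLex i rD le_rfl (by rw [hrD, hrF]; linarith)
      exact ⟨x, ⟨hxO, hxL⟩, hxO, hx1⟩
    F := Om ∩ f ⁻¹' {y | ga Φ c.1 y = rF}
    Fc := H.preconn_pre (hgaS rF (by rw [hrF]; linarith) (by rw [hrF]; linarith))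
      (hG1.eq rF (by rw [hrF]; linarith) (by rw [hrF]; linarith))
    FO := inter_subset_left
    FS := by
      rintro q ⟨x, hxq, hxO, hxD⟩ y hy
      have h5 : ga Φ c.1 (f x) = rF := hxD
      rw [hrF] at h5
      obtain ⟨⟨g1, g2⟩, -⟩ := hosc q x hxq (by linarith) (by linarith) y hy
      refine ⟨T.sub q hy, ?_⟩
      show ga Φ c.1 (f y) ≤ ρ4
      linarith
    FK := by
      rintro q ⟨x, hxq, hxO, hxD⟩
      have h5 : ga Φ c.1 (f x) = rF := hxD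
      rw [hrF] at h5
      rw [Set.eq_empty_iff_forall_notMem]
      rintro y ⟨hy, hyK⟩
      obtain ⟨⟨g1, g2⟩, -⟩ := hosc q x hxq (by linarith) (by linarith) y hy
      have := hKloc y hyK
      linarith
    LF := by
      intro i
      obtain ⟨x, hxO, hxL, hx1⟩ := hLex i rF (by rw [hrD, hrF]; linarith) le_rfl
      exact ⟨x, ⟨hxO, hxL⟩, hxO, hx1⟩
    Gd := Om ∩ f ⁻¹' Gdn Φ c.1 G a0 (rD + d) τ
    Gdc := H.preconn_pre (fun y hy => hsub c.1 hy.1) hGdc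
    GdS := hGdS
    GdK := by
      rintro q ⟨x, hxq, hxO, hx1, hx2, hx3, hx4⟩ y hy
      rw [hrD] at hx3
      obtain ⟨⟨g1, g2⟩, -⟩ := hosc q x hxq (by linarith) (by linarith) y hy
      exact hKint y (T.sub q hy) (by linarith)
    GdD := by
      rintro q ⟨x, hxq, hxO, hxD⟩ u hu hul huq
      have h5 : ga Φ c.1 (f x) = rD := hxD
      rw [hrD] at h5
      obtain ⟨⟨g1, g2⟩, -⟩ := hosc q x hxq (by linarith) (by linarith) u huq
      have h7 := hwall u hu hul (by linarith) (by linarith)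
      exact ⟨T.sub q huq, hmemc _ (by linarith), by linarith, by rw [hrD]; linarith, h7.le,
        Or.inr h7⟩
    Go := Om ∩ f ⁻¹' Gup Φ c.1 G (rF - 2 * d) a1 τ
    Goc := H.preconn_pre (fun y hy => hsub c.1 hy.1) hGoc
    GoS := hGoS
    GoK := by
      rintro q ⟨x, hxq, hxO, hx1, hx2, hx3, hx4⟩ hq
      have h5 := hKloc x (hq hxq)
      rw [hrF] at hx2
      linarith
    GoF := by
      rintro q ⟨x, hxq, hxO, hxD⟩ u hu hul huq
      have h5 : ga Φ c.1 (f x) = rF := hxD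
      rw [hrF] at h5
      obtain ⟨⟨g1, g2⟩, -⟩ := hosc q x hxq (by linarith) (by linarith) u huq
      have h7 := hwall u hu hul (by linarith) (by linarith)
      exact ⟨T.sub q huq, hmemc _ (by linarith), by rw [hrF]; linarith, by linarith, h7.le,
        Or.inr h7⟩
    Gor := by
      obtain ⟨hO, h1, h2, h3, h5, h6⟩ := (hS r).1 hr
      refine ⟨hO, h1, by rw [hrF]; linarith, h3, h5, ?_⟩
      rcases h6 with h6 | h6
      · rw [h6] at hrg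
        linarith
      · exact h6
    Gx := fun _ => Sf
    Gxc := fun _ _ => hSc
    GxS := fun _ _ => Subset.rfl
    Gxr := fun _ _ => hr
    Gxd := fun _ _ => hGdS
    GxK := by
      rintro c' hc' q ⟨x, hxq, hx⟩ hq
      exact hSx c' hc' x hx (hq hxq) }⟩

end Crest.Agent.R096.Ebr2_95
end

-- ▼ part R096/Ebr3_95
section

/-!
# Row 96, DOORS, barriers (helper95), part 3: target facts from a chart

* `preconn_ge_of_eq` : `{F = t}` connected in a connected closed set ⟹ `{t ≤ F}` connected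
  (and the same for `{F ≤ t}`);
* `gt_of_chart` : the structure `GT` from a chart of a rectangle in which `G` is the sup norm.
-/

set_option autoImplicit false
set_option linter.unusedSectionVars false

open Set Topology Filter Metric Module

namespace Crest.Agent.R096.Ebr3_95

open Crest.Agent.R096.Bsp_628 Crest.Agent.R096.Brk1_582 Crest.Agent.R096.Brk2_582
  Crest.Agent.R096.Brk3_582 Crest.Agent.R096.Init_543 Crest.Agent.R096.Mbf_337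
  Crest.Agent.R096.Exa_560 Crest.Agent.R096.Ess5_95 Crest.Agent.R096.Ebr1_95
open Crest.Agent.R096.SkC1_961 (E3 Hom3 IsPush FoamD)

section gen

variable {X : Type*} [TopologicalSpace X] {S : Set X} {F : X → ℝ} {t : ℝ}

/-- a level set which is connected does not disconnect one side -/
theorem preconn_ge_of_eq (hS : IsPreconnected S) (hcl : IsClosed S) (hF : ContinuousOn F S)
    (h : IsPreconnected {x | x ∈ S ∧ F x = t}) : IsPreconnected {x | x ∈ S ∧ t ≤ F x} := by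
  have hle : IsClosed {x | x ∈ S ∧ F x ≤ t} := by
    have := hF.preimage_isClosed_of_isClosed hcl (isClosed_Iic (a := t))
    exact this
  have hge : IsClosed {x | x ∈ S ∧ t ≤ F x} := by
    have := hF.preimage_isClosed_of_isClosed hcl (isClosed_Ici (a := t))
    exact this
  have key : ∀ u v : Set X, IsClosed u → IsClosed v → {x | x ∈ S ∧ t ≤ F x} ⊆ u ∪ v →
      ({x | x ∈ S ∧ t ≤ F x} ∩ u).Nonempty → ({x | x ∈ S ∧ t ≤ F x} ∩ v).Nonempty →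
      {x | x ∈ S ∧ t ≤ F x} ∩ (u ∩ v) = ∅ → {x | x ∈ S ∧ F x = t} ∩ v = ∅ → False := by
    intro u v hu hv huv hnu hnv hno hCv
    have h1 := isPreconnected_closed_iff.1 hS
      ({x | x ∈ S ∧ F x ≤ t} ∪ ({x | x ∈ S ∧ t ≤ F x} ∩ u)) ({x | x ∈ S ∧ t ≤ F x} ∩ v)
      (hle.union (hge.inter hu)) (hge.inter hv) ?_ ?_ ?_
    · obtain ⟨x, hxS, hx1, hx2, hxv⟩ := h1
      rcases hx1 with hx1 | ⟨hx1, hxu⟩
      · have h3 : x ∈ {x | x ∈ S ∧ F x = t} ∩ v := ⟨⟨hxS, le_antisymm hx1.2 hx2.2⟩, hxv⟩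
        rw [hCv] at h3
        exact h3
      · have h3 : x ∈ {x | x ∈ S ∧ t ≤ F x} ∩ (u ∩ v) := ⟨hx1, hxu, hxv⟩
        rw [hno] at h3
        exact h3
    · intro x hx
      rcases le_total (F x) t with h2 | h2
      · exact Or.inl (Or.inl ⟨hx, h2⟩)
      · rcases huv ⟨hx, h2⟩ with h3 | h3
        · exact Or.inl (Or.inr ⟨⟨hx, h2⟩, h3⟩)
        · exact Or.inr ⟨⟨hx, h2⟩, h3⟩
    · obtain ⟨x, hx, hxu⟩ := hnu
      exact ⟨x, hx.1, Or.inr ⟨hx, hxu⟩⟩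
    · obtain ⟨x, hx, hxv⟩ := hnv
      exact ⟨x, hx.1, hx, hxv⟩
  rw [isPreconnected_closed_iff]
  intro u v hu hv huv hnu hnv
  by_contra hno
  rw [not_nonempty_iff_eq_empty] at hno
  have hsub : {x | x ∈ S ∧ F x = t} ⊆ {x | x ∈ S ∧ t ≤ F x} := fun x hx => ⟨hx.1, hx.2.ge⟩
  by_cases hCu : ({x | x ∈ S ∧ F x = t} ∩ u).Nonempty
  · by_cases hCv : ({x | x ∈ S ∧ F x = t} ∩ v).Nonempty
    · obtain ⟨x, hx, hxu, hxv⟩ := isPreconnected_closed_iff.1 h u v hu hv (hsub.trans huv) hCu hCv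
      have h3 : x ∈ {x | x ∈ S ∧ t ≤ F x} ∩ (u ∩ v) := ⟨hsub hx, hxu, hxv⟩
      rw [hno] at h3
      exact h3
    · exact key u v hu hv huv hnu hnv hno (not_nonempty_iff_eq_empty.1 hCv)
  · refine key v u hv hu (by rwa [union_comm]) hnv hnu ?_ (not_nonempty_iff_eq_empty.1 hCu)
    rwa [inter_comm v u]

theorem preconn_le_of_eq (hS : IsPreconnected S) (hcl : IsClosed S) (hF : ContinuousOn F S)
    (h : IsPreconnected {x | x ∈ S ∧ F x = t}) : IsPreconnected {x | x ∈ S ∧ F x ≤ t} := by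
  have h1 := preconn_ge_of_eq (F := fun x => - F x) (t := -t) hS hcl hF.neg (by
    have : {x | x ∈ S ∧ - F x = -t} = {x | x ∈ S ∧ F x = t} := by
      ext x; simp
    rwa [this])
  have : {x | x ∈ S ∧ -t ≤ - F x} = {x | x ∈ S ∧ F x ≤ t} := by
    ext x; simp
  rwa [this] at h1

end gen

/-- the norm of the chart -/
noncomputable def Nr (l0 m ra : ℝ) (p : ℝ × ℝ) : ℝ := max (|p.2| / l0) (|p.1 - m| / ra)

section nr

variable {l0 m ra : ℝ} (hl0 : 0 < l0) (hra : 0 < ra)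
include hl0 hra

theorem Nr_eq (v : ℝ × ℝ) : Nr l0 m ra (m + ra * v.1, l0 * v.2) = ‖v‖ := by
  unfold Nr
  simp only [add_sub_cancel_left, abs_mul, abs_of_pos hl0, abs_of_pos hra]
  rw [mul_div_cancel_left₀ _ hl0.ne', mul_div_cancel_left₀ _ hra.ne', Prod.norm_def, max_comm]
  rfl

theorem set_eq (Q : ℝ → Prop) : {p | Q (Nr l0 m ra p)} =
    (fun v : ℝ × ℝ => ((m + ra * v.1, l0 * v.2) : ℝ × ℝ)) '' {v | Q ‖v‖} := by
  ext p
  constructor
  · intro hp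
    have h1 : ((m + ra * ((p.1 - m) / ra), l0 * (p.2 / l0)) : ℝ × ℝ) = p := by
      ext
      · simp only []
        field_simp
        ring
      · simp only []
        field_simp
    refine ⟨((p.1 - m) / ra, p.2 / l0), ?_, h1⟩
    show Q ‖(((p.1 - m) / ra, p.2 / l0) : ℝ × ℝ)‖
    rw [← Nr_eq (m := m) hl0 hra, h1]
    exact hp
  · rintro ⟨v, hv, rfl⟩
    show Q (Nr l0 m ra (m + ra * v.1, l0 * v.2))
    rw [Nr_eq hl0 hra]
    exact hv


theorem preconn_Nr_eq (t : ℝ) : IsPreconnected {p | Nr l0 m ra p = t} := by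
  rw [set_eq hl0 hra (fun x => x = t)]
  refine IsPreconnected.image ?_ _ (by fun_prop)
  have : {v : ℝ × ℝ | ‖v‖ = t} = sphere 0 t := by
    ext v; simp
  rw [this]
  refine isPreconnected_sphere ?_ _ _
  have h2 : Module.finrank ℝ (ℝ × ℝ) = 2 := by simp
  rw [← Module.finrank_eq_rank ℝ (ℝ × ℝ), h2]
  norm_num

end nr

variable {δ κ0 R c0 : ℝ} {La : Set E3} {Φ : FoamD δ κ0 R c0 La}

theorem preconn_frontier (hLa : IsOpen La) (c : Φ.F) : IsPreconnected (frontier c.1.set) := by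
  have F := foam4 Φ hLa
  have hD := Vb_965.isPreconnected_Lset F (by simp [E3]) (Vb_965.cell_nonempty Φ c) le_rfl one_pos
  rw [Lset_zero F] at hD
  rw [frontier_c Φ hLa c]
  exact hD


end Crest.Agent.R096.Ebr3_95
end

-- ▼ part R096/Ebr4_95

/-!
# Row 96, DOORS, barriers (helper95), part 4: the function `Gm` of a moat

* `gm_moat` : 4's `GM` for `Gm l0 mm ra a Z (sb Φ q)` from 106's `Mo`;
* `gm_osc`, `gm_near` : oscillation on the tiles near a tiny core, distance of `θ` and `Psi ∘ f`;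
* `moat_v0`, `moat_v1` : vertices near the middle of the moat / far from it.
-/

set_option autoImplicit false
set_option linter.unusedSectionVars false

open Set Topology Filter Metric Module
open scoped Classical

namespace Crest.Agent.R096.Ebr4_95

open Crest.Agent.R096.Msh_715 Crest.Agent.R096.Coh_184 Crest.Agent.R096.Bsp_628
  Crest.Agent.R096.Brk1_582 Crest.Agent.R096.Brk2_582 Crest.Agent.R096.Brk3_582
  Crest.Agent.R096.Brk5_582 Crest.Agent.R096.Init_543 Crest.Agent.R096.Mbf_337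
  Crest.Agent.R096.Exa_560 Crest.Agent.R096.Ess5_95 Crest.Agent.R096.Ess6_95
  Crest.Agent.R096.Ebr1_95 Crest.Agent.R096.Ebr3_95 Crest.Agent.R096.Bar_106
  Crest.Agent.R096.Bgf_4 Crest.Agent.R096.Dib_438 Crest.Agent.R096.Lab_184
  Crest.Agent.R096.Agl5_543

open Crest.Agent.R096.SkC1_961 (E3 Hom3 IsPush FoamD)
open Crest.Agent.R096.Ce_537 (PLEquiv IsBall)

variable {δ κ0 R c0 : ℝ} {La : Set E3} {Φ : FoamD δ κ0 R c0 La} {c a p m : Φ.F} {Z : Set Φ.F}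
  {l0 mm ra hi : ℝ}

/-- the function of the moat on the frontier of the brick -/
noncomputable def gmf (Φ : FoamD δ κ0 R c0 La) (l0 mm ra : ℝ) (a : Φ.F) (Z : Set Φ.F) (q : E3) : ℝ :=
  Gm l0 mm ra a Z (sb Φ q)

/-- numbers of the chart -/
structure Nm (l0 mm ra hi : ℝ) : Prop where
  hl : 0 < l0
  hra : 0 < ra
  hhi : 0 < hi
  l1 : l0 * hi < 1
  m0 : 0 < mm - ra * hi
  m1 : mm + ra * hi < 1

theorem Nm.rct (h : Nm l0 mm ra hi) {x : ℝ × ℝ} (hx : Nr l0 mm ra x ≤ hi) : x ∈ Rct := by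
  have h1 : |x.2| / l0 ≤ hi := (le_max_left _ _).trans hx
  have h2 : |x.1 - mm| / ra ≤ hi := (le_max_right _ _).trans hx
  rw [div_le_iff₀ h.hl] at h1
  rw [div_le_iff₀ h.hra] at h2
  have h3 := abs_le.1 h1
  have h4 := abs_le.1 h2
  have h5 := h.l1
  have h6 := h.m0
  have h7 := h.m1
  have e1 : hi * l0 = l0 * hi := mul_comm _ _
  have e2 : hi * ra = ra * hi := mul_comm _ _
  rw [e1] at h3
  rw [e2] at h4
  exact ⟨⟨by linarith [h4.1], by linarith [h4.2]⟩, ⟨by linarith [h3.1], by linarith [h3.2]⟩⟩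

theorem gam_fr (hLa : IsOpen La) (M : Mo (Pc Φ.F) c a Z p m) {x : ℝ × ℝ} (hx : x ∈ Rct) :
    gam (bc (F := Φ.F)) a Z p m x ∈ frontier c.1.set := by
  rw [frontier_c Φ hLa c]
  exact M.gam_mem (foam Φ.bf hLa) hx

theorem gmf_gam (hLa : IsOpen La) (M : Mo (Pc Φ.F) c a Z p m) {x : ℝ × ℝ} (hx : x ∈ Rct) :
    gmf Φ l0 mm ra a Z (gam (bc (F := Φ.F)) a Z p m x) = Nr l0 mm ra x :=
  M.Gm_gam (foam Φ.bf hLa) hx

theorem gmf_sur (hLa : IsOpen La) (M : Mo (Pc Φ.F) c a Z p m) (h : Nm l0 mm ra hi) {q : E3}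
    (hq : q ∈ frontier c.1.set) (hG : gmf Φ l0 mm ra a Z q ≤ hi) :
    ∃ x, Nr l0 mm ra x ≤ hi ∧ gam (bc (F := Φ.F)) a Z p m x = q := by
  have FF := foam Φ.bf hLa
  have h1 : Fm a Z (sb Φ q) / l0 ≤ hi := (le_max_left _ _).trans hG
  have h2 : |sb Φ q a - mm| / ra ≤ hi := (le_max_right _ _).trans hG
  rw [div_le_iff₀ h.hl] at h1
  rw [div_le_iff₀ h.hra] at h2
  have h4 := abs_le.1 h2
  have h5 := h.l1
  have h6 := h.m0
  have h7 := h.m1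
  have e1 : hi * l0 = l0 * hi := mul_comm _ _
  have e2 : hi * ra = ra * hi := mul_comm _ _
  rw [e1] at h1
  rw [e2] at h4
  have hq' := hq
  rw [frontier_c Φ hLa c] at hq'
  obtain ⟨g1, g2⟩ := M.eq_gam FF hq'.1 hq'.2 (show 0 < sb Φ q a by linarith [h4.1])
    (show sb Φ q a < 1 by linarith [h4.2]) (show Fm a Z (sb Φ q) < 1 by linarith)
  refine ⟨_, ?_, g2.symm⟩
  have g3 := gmf_gam (l0 := l0) (mm := mm) (ra := ra) hLa M g1
  rw [← g2] at g3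
  rw [← g3]
  exact hG

/-- all coordinates are Lipschitz on the frontier of a brick -/
theorem sb_lip (hLa : IsOpen La) (hδ : 0 < δ) (hR : 0 < R) {q q' : E3}
    (hq : q ∈ frontier c.1.set) (hq' : q' ∈ frontier c.1.set) (e : Φ.F) :
    |sb Φ q e - sb Φ q' e| ≤ Cn δ R / c.1.sz * ‖q' - q‖ := by
  have hsz : 0 < c.1.sz := Bx.sz_pos (Φ.bf.pos _ c.2)
  have hCn := Cn_nonneg hδ hR
  have e1 : Cn δ R * (‖q' - q‖ / c.1.sz) = Cn δ R / c.1.sz * ‖q' - q‖ := by ring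
  rw [← e1]
  by_cases hlt : Cn δ R * (‖q' - q‖ / c.1.sz) < 1
  · have hqc : q ∈ Pc Φ.F c := by
      rw [frontier_c Φ hLa c] at hq; exact hq.1
    have h6 := Lsc_965.osc_le Φ.bf hLa hδ hR Φ.cmp (c0 := c) hqc (ε := ‖q' - q‖ / c.1.sz)
      (by rw [Fintype.card_fin]; exact hlt) (by rw [div_mul_cancel₀ _ hsz.ne']) e
    rw [Fintype.card_fin] at h6
    exact h6
  · refine le_trans ?_ (not_lt.1 hlt)
    have h1 := sb_mem hLa hq e
    have h2 := sb_mem hLa hq' e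
    rw [abs_le]
    constructor <;> linarith [h1.1, h1.2, h2.1, h2.2]

theorem gmf_lip (hLa : IsOpen La) (hδ : 0 < δ) (hR : 0 < R) (hl : 0 < l0) (hra : 0 < ra) :
    ∃ k : NNReal, LipschitzOnWith k (gmf Φ l0 mm ra a Z) (frontier c.1.set) := by
  have hsz : 0 < c.1.sz := Bx.sz_pos (Φ.bf.pos _ c.2)
  have hCn := Cn_nonneg hδ hR
  have hK : 0 ≤ Cn δ R / c.1.sz * max (1 / l0) (1 / ra) := by positivity
  refine ⟨Real.toNNReal (Cn δ R / c.1.sz * max (1 / l0) (1 / ra)),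
    LipschitzOnWith.of_dist_le_mul fun q hq q' hq' => ?_⟩
  rw [Real.dist_eq, dist_comm, dist_eq_norm, Real.coe_toNNReal _ hK]
  refine (Gm_sub_le hl hra (sb_mem hLa hq) (sb_mem hLa hq') (sb_lip hLa hδ hR hq hq')).trans ?_
  have h2 : 0 ≤ Cn δ R / c.1.sz * ‖q' - q‖ := by positivity
  refine max_le ?_ ?_
  · calc Cn δ R / c.1.sz * ‖q' - q‖ / l0 = Cn δ R / c.1.sz * ‖q' - q‖ * (1 / l0) := by ring
      _ ≤ Cn δ R / c.1.sz * ‖q' - q‖ * max (1 / l0) (1 / ra) :=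
        mul_le_mul_of_nonneg_left (le_max_left _ _) h2
      _ = _ := by ring
  · calc Cn δ R / c.1.sz * ‖q' - q‖ / ra = Cn δ R / c.1.sz * ‖q' - q‖ * (1 / ra) := by ring
      _ ≤ Cn δ R / c.1.sz * ‖q' - q‖ * max (1 / l0) (1 / ra) :=
        mul_le_mul_of_nonneg_left (le_max_right _ _) h2
      _ = _ := by ring

theorem isCompact_Nr (hl : 0 < l0) (hra : 0 < ra) (t : ℝ) :
    IsCompact {x | Nr l0 mm ra x ≤ t} := by
  rw [set_eq hl hra (fun x => x ≤ t)]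
  have : {v : ℝ × ℝ | ‖v‖ ≤ t} = closedBall 0 t := by
    ext v; simp
  rw [this]
  exact (isCompact_closedBall _ _).image (by fun_prop)

theorem convex_Nr (hl : 0 < l0) (hra : 0 < ra) (t : ℝ) : Convex ℝ {x | Nr l0 mm ra x ≤ t} := by
  have h1 : {x | Nr l0 mm ra x ≤ t} = {x : ℝ × ℝ | x.2 ∈ Icc (-(t * l0)) (t * l0)} ∩
      {x : ℝ × ℝ | x.1 ∈ Icc (mm - t * ra) (mm + t * ra)} := by
    ext x
    show max (|x.2| / l0) (|x.1 - mm| / ra) ≤ t ↔ _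
    rw [max_le_iff, div_le_iff₀ hl, div_le_iff₀ hra, abs_le, abs_le]
    constructor
    · rintro ⟨⟨h1, h2⟩, h3, h4⟩
      exact ⟨⟨h1, h2⟩, ⟨by linarith, by linarith⟩⟩
    · rintro ⟨⟨h1, h2⟩, h3, h4⟩
      exact ⟨⟨h1, h2⟩, ⟨by linarith, by linarith⟩⟩
  rw [h1]
  exact ((convex_Icc _ _).is_linear_preimage (LinearMap.snd ℝ ℝ ℝ).isLinear).inter
    ((convex_Icc _ _).is_linear_preimage (LinearMap.fst ℝ ℝ ℝ).isLinear)

/-- **4's `GM` for the moats** -/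
theorem gm_moat (hLa : IsOpen La) (hδ : 0 < δ) (hR : 0 < R) (M : Mo (Pc Φ.F) c a Z p m)
    (h : Nm l0 mm ra hi) : GM Φ c (gmf Φ l0 mm ra a Z) 0 hi := by
  have FF := foam Φ.bf hLa
  have hle : ∀ t ≤ hi, {q | q ∈ frontier c.1.set ∧ gmf Φ l0 mm ra a Z q ≤ t} =
      gam (bc (F := Φ.F)) a Z p m '' {x | Nr l0 mm ra x ≤ t} := by
    intro t ht
    ext q
    constructor
    · rintro ⟨h1, h2⟩
      obtain ⟨x, hx, rfl⟩ := gmf_sur hLa M h h1 (h2.trans ht)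
      rw [gmf_gam hLa M (h.rct hx)] at h2
      exact ⟨x, h2, rfl⟩
    · rintro ⟨x, hx, rfl⟩
      have hx' : Nr l0 mm ra x ≤ t := hx
      have hr := h.rct (hx'.trans ht)
      exact ⟨gam_fr hLa M hr, by rw [gmf_gam hLa M hr]; exact hx'⟩
  have heq : ∀ t ≤ hi, {q | q ∈ frontier c.1.set ∧ gmf Φ l0 mm ra a Z q = t} =
      gam (bc (F := Φ.F)) a Z p m '' {x | Nr l0 mm ra x = t} := by
    intro t ht
    ext q
    constructor
    · rintro ⟨h1, h2⟩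
      obtain ⟨x, hx, rfl⟩ := gmf_sur hLa M h h1 (h2.le.trans ht)
      rw [gmf_gam hLa M (h.rct hx)] at h2
      exact ⟨x, h2, rfl⟩
    · rintro ⟨x, hx, rfl⟩
      have hx' : Nr l0 mm ra x = t := hx
      have hr := h.rct (hx'.le.trans ht)
      exact ⟨gam_fr hLa M hr, by rw [gmf_gam hLa M hr]; exact hx'⟩
  have hc := M.continuousOn_gam FF
  have hnr : ∀ t : ℝ, 0 ≤ t → Nr l0 mm ra (mm, l0 * t) = t := by
    intro t ht
    unfold Nr
    simp only [sub_self, abs_zero, zero_div]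
    rw [abs_of_nonneg (mul_nonneg h.hl.le ht), mul_div_cancel_left₀ _ h.hl.ne',
      max_eq_left ht]
  refine ⟨le_rfl, h.hhi, gmf_lip hLa hδ hR h.hl h.hra, ?_, ?_, fun t ht => ?_, fun t ht => ?_⟩
  · have h1 := hnr 0 le_rfl
    have hr := h.rct (h1.le.trans h.hhi.le)
    exact ⟨_, gam_fr hLa M hr, by rw [gmf_gam hLa M hr]; exact h1.le⟩
  · have h1 := hnr hi h.hhi.le
    have hr := h.rct h1.le
    exact ⟨_, gam_fr hLa M hr, by rw [gmf_gam hLa M hr]; exact h1.ge⟩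
  · rw [heq t ht.2.le]
    exact (preconn_Nr_eq h.hl h.hra t).image _ (hc.mono fun x hx => h.rct (le_of_eq_of_le hx ht.2.le))
  · rw [hle t ht.2.le]
    exact trivF_convex (isCompact_Nr h.hl h.hra t) (convex_Nr h.hl h.hra t)
      (hc.mono fun x hx => h.rct (le_trans hx ht.2.le))
      ((M.gam_injOn FF).mono fun x hx => h.rct (le_trans hx ht.2.le))

/-- `GT` from 4's `GM` -/
theorem gt_of_gm {G : E3 → ℝ} {lo : ℝ} (hLa : IsOpen La) (hG : GM Φ c G lo hi)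
    {g0 z0 τ z1 g1 : ℝ} (h0 : lo < g0) (hgz : g0 ≤ z0) (hz : z0 ≤ τ) (hτ : τ ≤ z1)
    (hzg : z1 ≤ g1) (hg1 : g1 < hi) : GT Φ c G g0 z0 τ z1 g1 := by
  have hfr := preconn_frontier hLa c
  have hcl : IsClosed (frontier c.1.set) := isClosed_frontier
  have hGc : ContinuousOn G (frontier c.1.set) := by
    obtain ⟨k, hk⟩ := hG.lip
    exact hk.continuousOn
  have hio : ∀ t, g0 ≤ t → t ≤ g1 → t ∈ Ioo lo hi := fun t h1 h2 =>
    ⟨by linarith, by linarith⟩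
  have hne : ∀ t, g0 ≤ t → t ≤ g1 → {q | q ∈ frontier c.1.set ∧ G q = t}.Nonempty := by
    intro t h1 h2
    obtain ⟨q0, h3, h4⟩ := hG.low
    obtain ⟨q1, h5, h6⟩ := hG.high
    have h7 := hio t h1 h2
    obtain ⟨q, hq, he⟩ := hfr.intermediate_value h3 h5 hGc
      (show t ∈ Icc (G q0) (G q1) from ⟨h4.trans h7.1.le, h7.2.le.trans h6⟩)
    exact ⟨q, hq, he⟩
  exact {
    lo := Ebr3_95.preconn_le_of_eq hfr hcl hGc (hG.eq g0 (hio g0 le_rfl (by linarith)))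
    lon := (hne g0 le_rfl (by linarith)).mono fun q hq => ⟨hq.1, hq.2.le⟩
    zlo := Ebr3_95.preconn_le_of_eq hfr hcl hGc (hG.eq z0 (hio z0 hgz (by linarith)))
    le := Ebr3_95.preconn_le_of_eq hfr hcl hGc (hG.eq τ (hio τ (by linarith) (by linarith)))
    eq := hG.eq τ (hio τ (by linarith) (by linarith))
    eqn := hne τ (by linarith) (by linarith)
    zhi := Ebr3_95.preconn_ge_of_eq hfr hcl hGc (hG.eq z1 (hio z1 (by linarith) hzg))
    hi := Ebr3_95.preconn_ge_of_eq hfr hcl hGc (hG.eq g1 (hio g1 (by linarith) le_rfl))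
    hin := (hne g1 (by linarith) le_rfl).mono fun q hq => ⟨hq.1, hq.2.ge⟩ }

section tiny

variable {Om : Set E3} {ι : Type} {T : Tiling Om ι} {f : E3 → E3} {κ1 : ℝ} {J0 J V : Set ι}
  {θ : E3 → E3} {φ : E3 → ℝ} {ρ1 ρ2 ρ3 ρ4 d : ℝ}


/-- `θ` against `Psi ∘ f` on the sphere -/
theorem gm_near (hLa : IsOpen La) (hδ : 0 < δ) (hR : 0 < R) (hκ : Cn δ R * κ1 < 1) (hl : 0 < l0)
    (hra : 0 < ra) (H : Tiny Φ T f κ1 c J0 J V θ φ)
    (hr : Rm Φ T f c J0 J V θ ρ1 ρ2 ρ3 ρ4 d) (hG : GA Φ c ρ4) {x : E3}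
    (hx : x ∈ frontier (KJ T J)) :
    |gmf Φ l0 mm ra a Z (θ x) - gmf Φ l0 mm ra a Z (Φ.Psi (f x))| ≤
      max (Cn δ R * κ1 / l0) (Cn δ R * κ1 / ra) := by
  have h0 := hr.fr x hx
  have h1 := hr.r1
  have h2 := hr.r12
  have h3 := hr.r34
  have h4 := hr.r4
  have h5 := hr.d0
  have hxf := Psi_frontier hLa hG H.pt ((hG.one _).1 (show ga Φ c (f x) ≤ 1 by linarith [h0.2]))
    (by linarith [h0.1])
  exact Gm_sub_le hl hra (sb_mem hLa (th_mem H hx)) (sb_mem hLa hxf)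
    fun e => tiny_near hLa hδ hR hκ H hx e


/-- the values of `Gm` and `Fm` at such a vertex -/
theorem moat_val (hLa : IsOpen La) (hl : 0 < l0) (hra : 0 < ra) (M : Mo (Pc Φ.F) c a Z p m)
    {x : ℝ × ℝ} (hx : x ∈ Rct) {q : E3} (hq : q ∈ frontier c.1.set) {r : ℝ}
    (h : ∀ e, |sb Φ q e - uu a Z p m x.1 x.2 e| ≤ r) :
    |gmf Φ l0 mm ra a Z q - max (|x.2| / l0) (|x.1 - mm| / ra)| ≤ max (r / l0) (r / ra) ∧
      |Fm a Z (sb Φ q) - abs x.2| ≤ r := by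
  have hI := uu_mem_Icc (a := a) (Z := Z) (p := p) (m := m) hx.1 hx.2
  have h1 := Gm_sub_le (a := a) (Z := Z) (m := mm) hl hra (sb_mem hLa hq) hI h
  rw [Gm_uu M.pa M.ma M.pm hx.1 hx.2] at h1
  have h2 := Fm_sub_le (a := a) (Z := Z) (sb_mem hLa hq) hI h
  rw [Fm_uu M.pa M.ma M.pm hx.1 hx.2] at h2
  exact ⟨h1, h2⟩

end tiny

end Crest.Agent.R096.Ebr4_95
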