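import Mathlib
import Crest.Agent.R096.Init4_543
import Crest.Agent.R096.Init6_543
import Crest.Agent.R096.Init7_543
import Crest.Agent.R096.Pse2_316
import Crest.Agent.R096.Init12_543

-- ▼ part R096/Tlh1_543
section

/-! # Row 96, INIT (helper543), Tlh 1: **the blob of a quad and of the doors**: strip over a quad
together with the discs of the sheet in finitely many door sets -/

set_option autoImplicit false
set_option linter.unusedSectionVars false

open Set Filter Topology Metric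

namespace Crest.Agent.R096.Init_543

open Crest.Agent.R096.Brk1_582 Crest.Agent.R096.Brk2_582 Crest.Agent.R096.Coh_184
  Crest.Agent.R096.Vb_965

variable {V : Type} [NormedAddCommGroup V] [NormedSpace ℝ V] [FiniteDimensional ℝ V] {I : Type}
variable {La : Set V} {P : I → Set V} {b : Set I → V} {N : ℕ} {R : V → V}

/-- the part of the level `t` of the cell `a` in the cell `e` -/
def disc (P : I → Set V) (b : Set I → V) (e a : I) (t : ℝ) : Set V :=
  {z | z ∈ P e ∧ sc P b z a = t}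

section disc

variable (F : Foam La P b N)
include F

theorem isCompact_disc1 {e a : I} {t : ℝ} : IsCompact (disc P b e a t) := by
  have h : disc P b e a t = P e ∩ (fun y => sc P b y a) ⁻¹' {t} := rfl
  rw [h]
  exact (F.cpt e).of_isClosed_subset (((continuousOn_sc_apply F a).mono (F.sub e)
    ).preimage_isClosed_of_isClosed (F.cpt e).isClosed isClosed_singleton) inter_subset_left

theorem trivF_disc {e a : I} (hae : a ≠ e) {t : ℝ} (h0 : 0 ≤ t) (h1 : t < 1) :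
    TrivF (ZMod 2) (disc P b e a t) := by
  classical
  have hL0 : ∀ y ∈ fc P {a, e}, y ∈ Lset La P b a 0 := by
    intro y hy
    rw [Lset_zero F]
    exact ⟨mem_fc.1 hy a (Or.inl rfl), e, hae.symm, mem_fc.1 hy e (Or.inr rfl)⟩
  have himg : disc P b e a t = mv P b a t '' (fc P {a, e}) := by
    ext z
    constructor
    · rintro ⟨h2, h3⟩
      have hzL : z ∈ Lset La P b a t := ⟨F.sub e h2, h3, e, hae.symm, h2⟩
      have h4 := mv_mem F h1 le_rfl one_pos hzL
      have h5 := sc_mv F h1 le_rfl one_pos hzL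
      refine ⟨mv P b a 0 z, ?_, mv_mv F h1 le_rfl one_pos hzL⟩
      rw [mem_fc]
      have ha : mv P b a 0 z ∈ P a := (F.sc_eq_zero h4.1).1 h4.2.1
      have he : mv P b a 0 z ∈ P e := by
        rw [← F.sc_eq_zero h4.1, h5, Function.update_of_ne hae.symm]
        exact (F.sc_eq_zero hzL.1).2 h2
      rintro c (rfl | hc)
      · exact ha
      · rw [mem_singleton_iff.1 hc]; exact he
    · rintro ⟨y, hy, rfl⟩
      have hyL := hL0 y hy
      have h4 := mv_mem F one_pos h0 h1 hyL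
      have h5 := sc_mv F one_pos h0 h1 hyL
      refine ⟨?_, h4.2.1⟩
      rw [← F.sc_eq_zero h4.1, h5, Function.update_of_ne hae.symm]
      exact (F.sc_eq_zero hyL.1).2 (mem_fc.1 hy e (Or.inr rfl))
  rw [himg]
  have hc : IsCompact (fc P {a, e}) := F.isCompact_fc ⟨a, Or.inl rfl⟩
  have ht : TrivF (ZMod 2) (fc P {a, e}) := fun n => trivAll_convex' hc F.convex_fc
  refine ht.of_image hc hc.isClosed ((continuousOn_mv F one_pos h0 h1).mono hL0) ?_
  intro y hy y' hy' he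
  have h2 := mv_mv F one_pos h0 h1 (hL0 y hy)
  have h3 := mv_mv F one_pos h0 h1 (hL0 y' hy')
  rw [he, h3] at h2
  exact h2.symm

end disc

/-! ### doors -/

/-- a door set in the cell `e`: the retraction is monotone from it onto the cell -/
structure Door (P : I → Set V) (R : V → V) (e : I) (G : Set V) : Prop where
  cpt : IsCompact G
  sub : G ⊆ P e
  ne : ∀ z ∈ P e, (G ∩ R ⁻¹' {z}).Nonempty
  conn : ∀ z ∈ P e, IsPreconnected (G ∩ R ⁻¹' {z})
  triv : ∀ z ∈ P e, TrivF (ZMod 2) (G ∩ R ⁻¹' {z})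

section door

variable (F : Foam La P b N) (hR : Ret La P R) {e : I} {G : Set V} (hG : Door P R e G)
include F hR hG

theorem Door.compact_pre {D : Set V} (hD : IsCompact D) : IsCompact (G ∩ R ⁻¹' D) :=
  hG.cpt.of_isClosed_subset ((hR.cont.mono fun _ hy => F.sub e (hG.sub hy)
    ).preimage_isClosed_of_isClosed hG.cpt.isClosed hD.isClosed) inter_subset_left

omit F hR in
theorem Door.image_pre {D : Set V} (hDP : D ⊆ P e) : R '' (G ∩ R ⁻¹' D) = D := by
  ext z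
  constructor
  · rintro ⟨y, hy, rfl⟩; exact hy.2
  · intro hz
    obtain ⟨y, hy, he⟩ := hG.ne z (hDP hz)
    exact ⟨y, ⟨hy, by show R y ∈ D; rw [show R y = z from he]; exact hz⟩, he⟩

omit F hR hG in
theorem door_fib {D : Set V} {z : V} (hz : z ∈ D) :
    (G ∩ R ⁻¹' D) ∩ R ⁻¹' {z} = G ∩ R ⁻¹' {z} := by
  ext y
  constructor
  · rintro ⟨h1, h2⟩; exact ⟨h1.1, h2⟩
  · rintro ⟨h1, h2⟩
    exact ⟨⟨h1, by show R y ∈ D; rw [show R y = z from h2]; exact hz⟩, h2⟩

theorem Door.preconn_pre {D : Set V} (hD : IsCompact D) (hDP : D ⊆ P e) (ht : IsPreconnected D) :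
    IsPreconnected (G ∩ R ⁻¹' D) := by
  refine preconn_of_fibres (hG.compact_pre F hR hD)
    (hR.cont.mono fun _ hy => F.sub e (hG.sub hy.1)) (hG.image_pre hDP) (fun z hz => ?_) ht
  rw [door_fib hz]; exact hG.conn z (hDP hz)

theorem Door.trivF_pre {D : Set V} (hD : IsCompact D) (hDP : D ⊆ P e)
    (ht : TrivF (ZMod 2) D) : TrivF (ZMod 2) (G ∩ R ⁻¹' D) := by
  have hc := hG.compact_pre F hR hD
  intro n
  refine TrivAll.of_fibres hc hc.isClosed (hR.cont.mono fun _ hy => F.sub e (hG.sub hy.1))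
    (hG.image_pre hDP) (fun z hz => ?_) (fun z hz => ?_) ht
  · rw [door_fib hz]; exact hG.conn z (hDP hz)
  · rw [door_fib hz]; exact hG.triv z (hDP hz) n

end door

/-! ### the blob in the target -/

/-- the disc of the sheet `(a, t)` in the door set `G` of the cell `e` -/
def dd (P : I → Set V) (b : Set I → V) (R : V → V) (G : I → Set V) (a : I) (t : ℝ) (e : I) :
    Set V := G e ∩ R ⁻¹' disc P b e a t

section blob

variable (F : Foam La P b 4) (hR : Ret La P R) {G : I → Set V}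
include F hR

theorem blob_triv {s : ℝ} (hs : 0 < s) {k : QK P} {a a' : I} (haa : a ≠ a') (hB : k.B = {a, a'})
    {t : ℝ} (ht : t ∈ Icc s (1 - s)) (Es : Finset I) (hG : ∀ e ∈ Es, Door P R e (G e))
    (hdis : ∀ e ∈ Es, ∀ e' ∈ Es, e ≠ e' → Disjoint (G e) (G e')) (hEa : a ∉ Es) :
    IsCompact (rpre La R (qarc La P b a a' k.Z t s (1 - s)) ∪ ⋃ e ∈ Es, dd P b R G a t e) ∧
    TrivF (ZMod 2)
      (rpre La R (qarc La P b a a' k.Z t s (1 - s)) ∪ ⋃ e ∈ Es, dd P b R G a t e) := by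
  classical
  have ha : a ∈ k.B := by rw [hB]; exact Or.inl rfl
  have ha' : a' ∈ k.B := by rw [hB]; exact Or.inr rfl
  have hU : insert a (insert a' k.Z) = k.B ∪ k.Z := by
    rw [hB]
    ext c
    simp [or_assoc]
  have haZ : a ∉ k.Z := fun h => disjoint_left.1 k.dis ha h
  have haZ' : a' ∉ k.Z := fun h => disjoint_left.1 k.dis ha' h
  have hN4 : (insert a (insert a' k.Z)).ncard = 4 := by rw [hU]; exact k.card_union
  have ht1 : t < 1 := by linarith [ht.2]
  have ht0 : 0 ≤ t := hs.le.trans ht.1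
  obtain ⟨h1, h2, h3⟩ := qarc_props F (a := a) (a' := a') (Z := k.Z) (t := t) (l := s)
    (r := 1 - s) hN4 ht0 ht1 hs.le
    (by linarith) haa haZ haZ' k.Z_nonempty (by rw [hU]; exact k.ne)
  set A := qarc La P b a a' k.Z t s (1 - s) with hA
  have hsub : A ⊆ La := fun y hy => hy.1
  have hAc := hR.isCompact_pre F h1 hsub
  have hAt := hR.trivF_pre F h1 hsub h2
  -- zero set on the arc
  have hzero : ∀ y ∈ A, ∀ e, sc P b y e = 0 → e ∈ k.Z := by
    intro y hy e he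
    have h4 := sc_qarc F hN4 ht1 (by linarith) hy
    rw [h4] at he
    by_contra hne
    unfold qu at he
    by_cases c1 : e = a
    · rw [if_pos c1] at he
      linarith [ht.1]
    · rw [if_neg c1] at he
      by_cases c2 : e = a'
      · rw [if_pos c2] at he
        linarith [hy.2.2.1.1]
      · rw [if_neg c2, if_neg hne] at he
        exact one_ne_zero he
  clear_value A
  induction Es using Finset.induction_on with
  | empty =>
    simp only [Finset.notMem_empty, iUnion_of_empty, iUnion_empty, union_empty]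
    exact ⟨hAc, hAt⟩
  | insert e s' hes ih =>
    obtain ⟨i1, i2⟩ := ih (fun e he => hG e (Finset.mem_insert_of_mem he))
      (fun e he e' he' => hdis e (Finset.mem_insert_of_mem he) e' (Finset.mem_insert_of_mem he'))
      (fun h => hEa (Finset.mem_insert_of_mem h))
    have he' : e ∈ insert e s' := Finset.mem_insert_self e s'
    have hGe := hG e he'
    have hae : a ≠ e := by
      rintro rfl
      exact hEa he'
    have hu : rpre La R A ∪ ⋃ c ∈ insert e s', dd P b R G a t c =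
        (rpre La R A ∪ ⋃ c ∈ s', dd P b R G a t c) ∪ dd P b R G a t e := by
      ext x
      simp only [mem_union, mem_iUnion, Finset.mem_insert, exists_prop, exists_eq_or_imp]
      constructor
      · rintro (h | h | h)
        · exact Or.inl (Or.inl h)
        · exact Or.inr h
        · exact Or.inl (Or.inr h)
      · rintro ((h | h) | h)
        · exact Or.inl h
        · exact Or.inr (Or.inr h)
        · exact Or.inr (Or.inl h)
    have hdc : IsCompact (dd P b R G a t e) := hGe.compact_pre F hR (isCompact_disc1 F)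
    have hdt : TrivF (ZMod 2) (dd P b R G a t e) :=
      hGe.trivF_pre F hR (isCompact_disc1 F) (fun z hz => hz.1) (trivF_disc F hae ht0 ht1)
    rw [hu]
    refine ⟨i1.union hdc, fun n => TrivAll.union i1.isClosed hdc.isClosed ?_ (i2 n) (hdt n)⟩
    -- the intersection
    have hI : (rpre La R A ∪ ⋃ c ∈ s', dd P b R G a t c) ∩ dd P b R G a t e =
        rpre La R A ∩ G e := by
      ext y
      constructor
      · rintro ⟨h5 | h5, h6⟩
        · exact ⟨h5, h6.1⟩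
        · obtain ⟨c, hc, h7⟩ := mem_iUnion₂.1 h5
          have hce : c ≠ e := by rintro rfl; exact hes hc
          exact (disjoint_left.1 (hdis c (Finset.mem_insert_of_mem hc) e he' hce) h7.1 h6.1).elim
      · rintro ⟨h5, h6⟩
        exact ⟨Or.inl h5, h6, hR.cell e (hGe.sub h6), by
          have : R y ∈ A := h5.2
          rw [hA] at this
          exact this.2.1⟩
    rw [hI]
    by_cases heZ : e ∈ k.Z
    · have h5 : rpre La R A ∩ G e = G e ∩ R ⁻¹' A := by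
        ext y
        exact ⟨fun h => ⟨h.2, h.1.2⟩, fun h => ⟨⟨F.sub e (hGe.sub h.1), h.2⟩, h.1⟩⟩
      rw [h5]
      refine hGe.preconn_pre F hR h1 (fun y hy => ?_) h3
      have : y ∈ qarc La P b a a' k.Z t s (1 - s) := by rw [← hA]; exact hy
      exact (F.sc_eq_zero this.1).1 (this.2.2.2 e heZ)
    · have h5 : rpre La R A ∩ G e = ∅ := by
        rw [eq_empty_iff_forall_notMem]
        rintro y ⟨⟨h6, h7⟩, h8⟩
        have h9 : R y ∈ P e := hR.cell e (hGe.sub h8)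
        exact heZ (hzero (R y) h7 e ((F.sc_eq_zero (F.sub e h9)).2 h9))
      rw [h5]; exact isPreconnected_empty

end blob

end Crest.Agent.R096.Init_543
end

-- ▼ part R096/Tlh2_543
section

/-! # Row 96, INIT (helper543), Tlh 2: door sets from rays; gauge balls are door sets -/

set_option autoImplicit false
set_option linter.unusedSectionVars false

open Set Filter Topology Metric

namespace Crest.Agent.R096.Init_543

open Crest.Agent.R096.Brk1_582 Crest.Agent.R096.Brk2_582 Crest.Agent.R096.Coh_184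
  Crest.Agent.R096.Vb_965

section rays

variable {V : Type} [NormedAddCommGroup V] [NormedSpace ℝ V] [FiniteDimensional ℝ V] {I : Type}
variable {La : Set V} {P : I → Set V} {b : Set I → V} {N : ℕ}

variable (F : Foam La P b N) {Ho : I → Set V} {pu : I → V → V} {rad : I → V → ℝ}
  {ray : I → V → ℝ → V} (hR : Rays P Ho pu rad ray) {r₀ : I → ℝ}
  (h0 : ∀ c, 0 < r₀ c) (h1 : ∀ c, r₀ c ≤ 1)
include F hR h0 h1

/-- **doors from rays**: a compact set which contains the cut-off region and is star-shaped along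
the rays -/
theorem door_of_rays {e : I} {G : Set V} (hGc : IsCompact G) (hGs : G ⊆ P e)
    (hcap : ∀ y ∈ P e, rad e y < r₀ e → y ∈ G)
    (hdown : ∀ z ∈ Bd P e, ∀ s ∈ Ioc (0 : ℝ) 1, ray e z s ∈ G → ∀ s' ∈ Ioc (0 : ℝ) s,
      ray e z s' ∈ G) :
    Door P (RR P b pu rad r₀) e G := by
  classical
  have hRet := ret_of_rays F hR h0 h1 (b := b)
  have key : ∀ z ∈ P e, (G ∩ RR P b pu rad r₀ ⁻¹' {z}).Nonempty ∧
      IsPreconnected (G ∩ RR P b pu rad r₀ ⁻¹' {z}) ∧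
      TrivF (ZMod 2) (G ∩ RR P b pu rad r₀ ⁻¹' {z}) := by
    intro z hz
    by_cases hw : z ∈ Bd P e
    · -- the arc
      set S : Set ℝ := {s | s ∈ Icc (r₀ e) 1 ∧ ray e z s ∈ G} with hS
      have hsub : Icc (r₀ e) 1 ⊆ Ioc (0 : ℝ) 1 := fun s hs => ⟨(h0 e).trans_le hs.1, hs.2⟩
      have hcont := (hR.cray e z hw).mono hsub
      have hSc : IsCompact S := by
        have h2 : S = Icc (r₀ e) 1 ∩ ray e z ⁻¹' G := rfl
        rw [h2]
        exact isCompact_Icc.of_isClosed_subset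
          (hcont.preimage_isClosed_of_isClosed isClosed_Icc hGc.isClosed) inter_subset_left
      have hr0 : ray e z (r₀ e) ∈ G := by
        have h3 : Tendsto (ray e z) (𝓝[Ioo 0 (r₀ e)] (r₀ e)) (𝓝 (ray e z (r₀ e))) := by
          have := (hR.cray e z hw) (r₀ e) ⟨h0 e, h1 e⟩
          exact this.mono_left (nhdsWithin_mono _ fun s hs => ⟨hs.1, hs.2.le.trans (h1 e)⟩)
        have h4 : (𝓝[Ioo 0 (r₀ e)] (r₀ e)).NeBot := by
          rw [← mem_closure_iff_nhdsWithin_neBot, closure_Ioo (h0 e).ne]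
          exact right_mem_Icc.2 (h0 e).le
        refine hGc.isClosed.mem_of_tendsto h3 ?_
        filter_upwards [self_mem_nhdsWithin] with s hs
        have hs' : s ∈ Ioc (0 : ℝ) 1 := ⟨hs.1, hs.2.le.trans (h1 e)⟩
        refine hcap _ (hR.ray_mem e z hw s hs').1 ?_
        rw [hR.rad_ray e z hw s hs']; exact hs.2
      have hSne : S.Nonempty := ⟨r₀ e, left_mem_Icc.2 (h1 e), hr0⟩
      have hS1 := hSc.sSup_mem hSne
      have hSI : S = Icc (r₀ e) (sSup S) := by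
        apply Subset.antisymm
        · exact fun s hs => ⟨hs.1.1, le_csSup hSc.bddAbove hs⟩
        · intro s hs
          refine ⟨⟨hs.1, hs.2.trans hS1.1.2⟩, ?_⟩
          exact hdown z hw _ (hsub hS1.1) hS1.2 s ⟨(h0 e).trans_le hs.1, hs.2⟩
      have hfib : G ∩ RR P b pu rad r₀ ⁻¹' {z} = ray e z '' S := by
        obtain ⟨-, c', hne, hc'⟩ := id hw
        ext y
        constructor
        · rintro ⟨hy, hyz⟩
          have hyz' : RR P b pu rad r₀ y = z := hyz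
          have hye := hGs hy
          obtain ⟨h5, h6⟩ := rad_ge_of_bd F hR h0 h1 hye hne (by rw [hyz']; exact hc')
          have h7 : pu e y = z := by rw [← RR_pu hR h0 h1 hye h6, hyz']
          have h8 := hR.ray_pu e y ⟨hye, h5⟩
          rw [h7] at h8
          exact ⟨rad e y, ⟨⟨h6, (hR.rad_mem e y ⟨hye, h5⟩).2⟩, by rw [h8]; exact hy⟩, h8⟩
        · rintro ⟨s, hs, rfl⟩
          refine ⟨hs.2, ?_⟩
          show RR P b pu rad r₀ (ray e z s) = z
          rw [RR_pu hR h0 h1 (hGs hs.2) (by rw [hR.rad_ray e z hw s (hsub hs.1)]; exact hs.1.1),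
            hR.pu_ray e z hw s (hsub hs.1)]
      have hcS : ContinuousOn (ray e z) S := hcont.mono fun s hs => hs.1
      have hinj : InjOn (ray e z) S := by
        intro s hs s' hs' he
        rw [← hR.rad_ray e z hw s (hsub hs.1), he, hR.rad_ray e z hw s' (hsub hs'.1)]
      rw [hfib]
      refine ⟨hSne.image _, ?_, ?_⟩
      · refine IsPreconnected.image ?_ _ hcS
        rw [hSI]; exact isPreconnected_Icc
      · have ht : TrivF (ZMod 2) S := by rw [hSI]; exact trivF_Icc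
        exact ht.of_image hSc hSc.isClosed hcS hinj
    · -- an interior point of the cell
      have hzL := F.sub e hz
      have hfull : La ∩ RR P b pu rad r₀ ⁻¹' {z} = G ∩ RR P b pu rad r₀ ⁻¹' {z} := by
        ext y
        constructor
        · rintro ⟨hy, hyz⟩
          have hyz' : RR P b pu rad r₀ y = z := hyz
          refine ⟨?_, hyz⟩
          obtain ⟨c, hc⟩ := F.cov y hy
          have hzc : z ∈ P c := by
            rw [← hyz']; exact hRet.cell c hc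
          have hce : c = e := by
            by_contra hne
            exact hw (bd_of_two (Ne.symm hne) hz hzc)
          subst hce
          refine hcap y hc ?_
          by_contra hcon
          push Not at hcon
          have hyH : y ∉ Ho c := by
            intro hyH
            have := hR.rad_hole c y hyH
            linarith [h0 c]
          rw [RR_pu hR h0 h1 hc hcon] at hyz'
          apply hw
          rw [← hyz']
          exact hR.pu_mem c y ⟨hc, hyH⟩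
        · rintro ⟨hy, hyz⟩
          exact ⟨F.sub e (hGs hy), hyz⟩
      rw [← hfull]
      refine ⟨?_, hRet.conn z hzL, hRet.triv z hzL⟩
      obtain ⟨y, hy, he⟩ := hRet.surj z hzL
      exact ⟨y, hy, he⟩
  exact ⟨hGc, hGs, fun z hz => (key z hz).1, fun z hz => (key z hz).2.1,
    fun z hz => (key z hz).2.2⟩

end rays

/-! ### gauge balls -/

section foamD

open Crest.Agent.R096.SkC1_961 Crest.Agent.R096.Bsp_628 Crest.Agent.R096.Brk3_582
  Crest.Agent.R096.Sphg_316 Crest.Agent.R096.Pse_316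
open Crest.Agent.R96.Push_899 (Box)

variable {δ κ0 R c0 : ℝ} {La : Set E3} (Φ : FoamD δ κ0 R c0 La)

/-- the closed gauge ball of the brick `e` about its point hole -/
def gb (e : Φ.F) (r : ℝ) : Set E3 := {y | Mbf_337.gau e.1 (Φ.B e).lo y ≤ r}

theorem gb_eq (e : Φ.F) (r : ℝ) : gb Φ e r = {y | Ng (Φ.B e).lo e.1.set y ≤ r} := by
  ext y
  show Mbf_337.gau e.1 (Φ.B e).lo y ≤ r ↔ Ng (Φ.B e).lo e.1.set y ≤ r
  rw [gau_eq]

theorem gb_compact {e : Φ.F} (hpt : (Φ.B e).lo = (Φ.B e).hi) (r : ℝ) : IsCompact (gb Φ e r) := by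
  rw [gb_eq]; exact (bod_brick Φ e hpt).isCompact_le r

theorem gb_sub {e : Φ.F} (hpt : (Φ.B e).lo = (Φ.B e).hi) {r : ℝ} (hr : r ≤ 1) :
    gb Φ e r ⊆ Pc Φ.F e := by
  rw [gb_eq]; exact (bod_brick Φ e hpt).le_sub hr

theorem gb_open {e : Φ.F} (hpt : (Φ.B e).lo = (Φ.B e).hi) {r : ℝ} (hr : r < 1) :
    gb Φ e r ⊆ interior (Pc Φ.F e) := by
  rw [gb_eq]
  intro y hy
  exact (bod_brick Φ e hpt).lt_one_iff.1 (lt_of_le_of_lt hy hr)

/-- **gauge balls are door sets** -/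
theorem door_gau (hLa : IsOpen La) {r₀ : Φ.F → ℝ} (h0 : ∀ c, 0 < r₀ c) (h1 : ∀ c, r₀ c ≤ 1)
    {e : Φ.F} (hpt : (Φ.B e).lo = (Φ.B e).hi) {r ρ : ℝ} (hr : 0 < r) (hrρ : r ≤ ρ) (hρ : ρ < 1)
    (hray : Mbf_337.RayTo Φ e ρ)
    (hcap : ∀ y ∈ Pc Φ.F e, rdF Φ e y < r₀ e → Mbf_337.gau e.1 (Φ.B e).lo y ≤ r) :
    Door (Pc Φ.F) (RF Φ r₀) e (gb Φ e r) := by
  have F := foam4 Φ hLa
  have hb := bod_brick Φ e hpt
  have hRR := raysF Φ hLa
  have hr1 : r < 1 := hrρ.trans_lt hρ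
  refine door_of_rays F hRR h0 h1 (gb_compact Φ hpt r) (gb_sub Φ hpt hr1.le) hcap ?_
  intro z hz s hs hsG s' hs'
  set p := (Φ.B e).lo with hp
  set y := ryF Φ e z s with hy
  have hyP : y ∈ Pc Φ.F e \ (Φ.B e).S := hRR.ray_mem e z hz s hs
  have hNy : Ng p e.1.set y ≤ r := by
    have := hsG
    rw [gb_eq] at this
    exact this
  have hpS : p ∈ (Φ.B e).S := fun i => ⟨le_rfl, (Φ.B e).le i⟩
  have hyp : y ≠ p := fun h => hyP.2 (h ▸ hpS)
  have hpos : 0 < Ng p e.1.set y := hb.pos.2 hyp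
  -- the straight segment
  have hseg : ∀ τ ∈ Ioc (0 : ℝ) 1, Φ.Psi (p + τ • (y - p)) = z ∧
      Ng p e.1.set (p + τ • (y - p)) = τ * Ng p e.1.set y := by
    intro τ hτ
    have h2 : Ng p e.1.set (p + τ • (y - p)) = τ * Ng p e.1.set y := Ng_ray p _ hτ.1.le _
    have h3 : p + τ • (y - p) ≠ p := hb.pos.1 (by rw [h2]; exact mul_pos hτ.1 hpos)
    have h4 := hray (p + τ • (y - p)) h3 (by
      rw [gau_eq, h2]
      nlinarith [hτ.1, hτ.2, hpos])
    have h5 := hray y hyp (by rw [gau_eq]; exact hNy.trans hrρ)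
    rw [gau_eq] at h4 h5
    rw [h2, ray_ray] at h4
    have h6 : ρ / (τ * Ng p e.1.set y) * τ = ρ / Ng p e.1.set y := by
      field_simp [hτ.1.ne', hpos.ne']
    rw [h6, ← h5] at h4
    refine ⟨?_, h2⟩
    rw [h4, Psi_eq Φ hLa hyP.1]
    exact hRR.pu_ray e z hz s hs
  -- the radius along the segment
  have hcr : ContinuousOn (fun τ : ℝ => rdF Φ e (p + τ • (y - p))) (Icc 0 1) :=
    ((braysF Φ e).crad.comp (by fun_prop)).continuousOn
  have hv : s' ∈ Icc (rdF Φ e (p + (0 : ℝ) • (y - p))) (rdF Φ e (p + (1 : ℝ) • (y - p))) := by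
    rw [zero_smul, add_zero, ray_one]
    refine ⟨((braysF Φ e).rad_hole p hpS).trans hs'.1.le, ?_⟩
    rw [hy, hRR.rad_ray e z hz s hs]
    exact hs'.2
  obtain ⟨τ, hτ, he⟩ := intermediate_value_Icc zero_le_one hcr hv
  have he' : rdF Φ e (p + τ • (y - p)) = s' := he
  have hτ0 : 0 < τ := by
    rcases hτ.1.eq_or_lt with h | h
    · rw [← h, zero_smul, add_zero] at he'
      have := (braysF Φ e).rad_hole p hpS
      rw [he'] at this
      exact absurd hs'.1 (not_lt.2 this)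
    · exact h
  obtain ⟨h2, h3⟩ := hseg τ ⟨hτ0, hτ.2⟩
  set w := p + τ • (y - p) with hw
  have hwN : Ng p e.1.set w ≤ r := by
    rw [h3]
    nlinarith [hτ.2, hpos, hNy]
  have hwP : w ∈ Pc Φ.F e := hb.le_sub hr1.le hwN
  have hwp : w ≠ p := hb.pos.1 (by rw [h3]; exact mul_pos hτ0 hpos)
  have hwH : w ∉ (Φ.B e).S := by
    intro h
    apply hwp
    funext k
    have h4 := h k
    have h5 := congrFun hpt k
    exact le_antisymm (by rw [← h5] at h4; exact h4.2) h4.1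
  have h4 := hRR.ray_pu e w ⟨hwP, hwH⟩
  rw [← Psi_eq Φ hLa hwP, h2, he'] at h4
  rw [h4, gb_eq]
  exact hwN

end foamD

end Crest.Agent.R096.Init_543
end

-- ▼ part R096/Tlh3_543

/-! # Row 96, INIT (helper543), Tlh 3: **local `H1` of the sheets near a quad and the doors of all
tiny cores** (input of `Dinv_106.tr_of_locH1`) -/

set_option autoImplicit false
set_option linter.unusedSectionVars false

open Set Filter Topology Metric

namespace Crest.Agent.R096.Init_543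

open Crest.Agent.R096.Coh_184 Crest.Agent.R096.Brk1_582 Crest.Agent.R096.Brk2_582
  Crest.Agent.R096.Brk3_582 Crest.Agent.R096.Brk5_582 Crest.Agent.R096.Bsp_628
  Crest.Agent.R096.Msh_715 Crest.Agent.R096.Agl4_543 Crest.Agent.R096.Agl5_543
  Crest.Agent.R096.Agl6_543 Crest.Agent.R096.Ginv_543 Crest.Agent.R096.Seq_213
  Crest.Agent.R096.St_147 Crest.Agent.R96.Push_899

open Crest.Agent.R096.SkC1_961 (E3 Hom3 IsPush FoamD Cfg th)

/-! ### the blob -/

section blob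

variable {E V : Type} [NormedAddCommGroup E] [NormedSpace ℝ E] [FiniteDimensional ℝ E]
  [NormedAddCommGroup V] [NormedSpace ℝ V] [FiniteDimensional ℝ V]
variable {I ι J : Type} {Om : Set E} {La : Set V} {P : I → Set V} {b : Set I → V}
  {R : V → V} {f : E → V} {g : V → E}

/-- the strip of the sheet `(a, t)` over the quad `k` and the parts of the sheet in the door sets of
the cells of `Y` -/
def blob (Om : Set E) (P : I → Set V) (b : Set I → V) (R : V → V) (f : E → V) (G : I → Set V)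
    (Y : Set I) (s : ℝ) (a : I) (t : ℝ) (k : QK P) : Set E :=
  strip Om P b R f s a t k ∪ {x | x ∈ Om ∧ va P b R f a x = t ∧ ∃ e ∈ Y, f x ∈ G e}

variable (H : Hm f g Om La) (F : Foam La P b 4) (hR : Ret La P R)
include H F hR

theorem blob_props {G : I → Set V} {Y : Set I} (hG : ∀ e ∈ Y, Door P R e (G e))
    (hdis : ∀ e ∈ Y, ∀ e' ∈ Y, e ≠ e' → Disjoint (G e) (G e')) {s : ℝ} (hs : 0 < s) {k : QK P}
    {a : I} (ha : a ∈ k.B) {t : ℝ} (ht : t ∈ Icc s (1 - s)) :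
    IsCompact (blob Om P b R f G Y s a t k) ∧ TrivF (ZMod 2) (blob Om P b R f G Y s a t k) := by
  classical
  obtain ⟨a', haa, -, hB⟩ := k.exists_other ha
  have ht1 : t < 1 := by linarith [ht.2]
  have ht0 : 0 < t := by linarith [ht.1]
  have hfin : {c | (P c ∩ P a).Nonempty ∧ c ∈ Y ∧ c ≠ a}.Finite :=
    (finite_touch F a).subset fun c hc => hc.1
  set Es : Finset I := hfin.toFinset with hEs
  have hmE : ∀ c, c ∈ Es ↔ (P c ∩ P a).Nonempty ∧ c ∈ Y ∧ c ≠ a := fun c => by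
    rw [hEs, hfin.mem_toFinset]; rfl
  have heq : blob Om P b R f G Y s a t k = Om ∩ f ⁻¹' (rpre La R (qarc La P b a a' k.Z t s (1 - s)) ∪
      ⋃ e ∈ Es, dd P b R G a t e) := by
    unfold blob
    rw [strip_eq H F hR haa hB ht, preimage_union, inter_union_distrib_left]
    congr 1
    ext x
    constructor
    · rintro ⟨hx, hv, e, he, hfx⟩
      refine ⟨hx, ?_⟩
      have hfe := (hG e he).sub hfx
      have h1 : R (f x) ∈ P e := hR.cell e hfe
      have h2 : sc P b (R (f x)) a = t := hv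
      have hL := F.sub e h1
      have h3 : sc P b (R (f x)) e = 0 := (F.sc_eq_zero hL).2 h1
      have hne : e ≠ a := by
        rintro rfl
        rw [h3] at h2
        exact ht0.ne h2
      have htouch : (P e ∩ P a).Nonempty := by
        obtain ⟨y, hy⟩ := F.sc_lt_one_fc hL
        refine ⟨y, mem_fc.1 hy e ?_, mem_fc.1 hy a ?_⟩
        · show sc P b (R (f x)) e < 1
          rw [h3]; exact one_pos
        · show sc P b (R (f x)) a < 1
          rw [h2]; exact ht1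
      exact mem_iUnion₂.2 ⟨e, (hmE e).2 ⟨htouch, he, hne⟩, hfx, h1, h2⟩
    · rintro ⟨hx, hx2⟩
      obtain ⟨e, he, h1⟩ := mem_iUnion₂.1 hx2
      exact ⟨hx, h1.2.2, e, ((hmE e).1 he).2.1, h1.1⟩
  obtain ⟨h1, h2⟩ := blob_triv F hR (G := G) hs haa hB ht Es
    (fun e he => hG e ((hmE e).1 he).2.1)
    (fun e he e' he' => hdis e ((hmE e).1 he).2.1 e' ((hmE e').1 he').2.1)
    (fun h => ((hmE a).1 h).2.2 rfl)
  have hsub : rpre La R (qarc La P b a a' k.Z t s (1 - s)) ∪ ⋃ e ∈ Es, dd P b R G a t e ⊆ La := by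
    rintro y (hy | hy)
    · exact hy.1
    · obtain ⟨e, he, h3⟩ := mem_iUnion₂.1 hy
      exact F.sub e ((hG e ((hmE e).1 he).2.1).sub h3.1)
  rw [heq]
  exact ⟨H.isCompact_pre hsub h1, H.trivF_pre hsub h1 h2⟩

end blob

/-! ### leaf tiles -/

section leaf

variable {E : Type} [NormedAddCommGroup E] [NormedSpace ℝ E] [FiniteDimensional ℝ E]
variable {Om : Set E} {ι : Type} {T : Tiling Om ι}
variable {J C : Type} {u : J → E → ℝ} {c : J → ℝ} {S : J → Set E} {fam : J → C}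

/-- `Leaf` depends only on the part of the set in the tile -/
theorem leaf_congr [Nonempty J] (h : GFam T u c S fam) (h3 : Module.finrank ℝ E = 3) (i : J)
    {S' S'' : Set E} {q : ι} (he : S' ∩ Msh_715.P (T.H q) = S'' ∩ Msh_715.P (T.H q))
    (hl : h.Leaf h3 i S' q) : h.Leaf h3 i S'' q := by
  intro κ hκ
  obtain ⟨ψ, hψ⟩ := hl κ hκ
  refine ⟨ψ, fun F w hqF hw hF hi hm => hψ F w hqF hw hF hi ?_⟩
  have h1 : S' ∩ F.set = S'' ∩ F.set := by
    ext x
    constructor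
    · rintro ⟨hx, hxF⟩
      have h2 : x ∈ S' ∩ Msh_715.P (T.H q) := ⟨hx, C2.sub_tile (h3 := h3) hqF hxF⟩
      rw [he] at h2
      exact ⟨h2.1, hxF⟩
    · rintro ⟨hx, hxF⟩
      have h2 : x ∈ S'' ∩ Msh_715.P (T.H q) := ⟨hx, C2.sub_tile (h3 := h3) hqF hxF⟩
      rw [← he] at h2
      exact ⟨h2.1, hxF⟩
  rw [h1]; exact hm

end leaf

/-! ### the machine data -/

section mach

variable {δ κ0 R c0 : ℝ} {La Om : Set E3} {ι : Type} {Φ : FoamD δ κ0 R c0 La}
  {T : Tiling Om ι} {f g : E3 → E3} {J0 : Φ.F → Set ι} {ct' : Φ.F → ι} {r₀ : Φ.F → ℝ}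

/-- **radii of the doors**: `Y` = the tiny bricks, `r e` = radius, `d e` = oscillation of the gauge on
the tiles (not in `J0 e`) which meet the gauge ball -/
structure Tlr (Φ : FoamD δ κ0 R c0 La) (T : Tiling Om ι) (f : E3 → E3) (J0 : Φ.F → Set ι)
    (Y : Set Φ.F) (r d : Φ.F → ℝ) : Prop where
  pt : ∀ e ∈ Y, (Φ.B e).lo = (Φ.B e).hi
  pos : ∀ e ∈ Y, 0 < r e
  ray : ∀ e ∈ Y, ∃ ρ, r e ≤ ρ ∧ ρ < 1 ∧ Mbf_337.RayTo Φ e ρ
  j0 : ∀ e ∈ Y, ∀ i ∈ J0 e, ∀ x ∈ Msh_715.P (T.H i), Mbf_337.gau e.1 (Φ.B e).lo (f x) ≤ r e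
  dn : ∀ e ∈ Y, 0 ≤ d e
  osc : ∀ e ∈ Y, ∀ i, i ∉ J0 e →
    (∃ x ∈ Msh_715.P (T.H i), Mbf_337.gau e.1 (Φ.B e).lo (f x) ≤ r e) →
    ∀ x ∈ Msh_715.P (T.H i), ∀ y ∈ Msh_715.P (T.H i),
      Mbf_337.gau e.1 (Φ.B e).lo (f x) ≤ Mbf_337.gau e.1 (Φ.B e).lo (f y) + d e

/-- the radii of `Tiny.room` : every radius in `[ρ1, ρ4]` is a radius of a door -/
theorem tlr_of_room {κ1 κ2 : ℝ} {X : Set Φ.F} {J V : Φ.F → Set ι}
    {ct : Φ.F → ι} {A : Φ.F → E3 ≃ᵃ[ℝ] E3} {lam : Φ.F → ℝ} {z : Φ.F → E3}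
    {θ : Φ.F → E3 → E3} {φ : Φ.F → E3 → ℝ}
    (hC : Mbf_337.Cores Φ T f κ1 κ2 X J0 J V ct A lam z θ φ) {ρ1 ρ4 r d : Φ.F → ℝ}
    (h1 : ∀ e ∉ X, 0 < ρ1 e) (h4 : ∀ e ∉ X, ρ4 e < 1) (hd : ∀ e ∉ X, 0 < d e)
    (hray : ∀ e ∉ X, Mbf_337.RayTo Φ e (ρ4 e))
    (hJ0 : ∀ e ∉ X, ∀ x ∈ Mbf_337.KJ T (J0 e), Mbf_337.gau e.1 (Φ.B e).lo (f x) < ρ1 e)
    (hV : ∀ e ∉ X, ∀ i, (∃ x ∈ Msh_715.P (T.H i),
      Mbf_337.gau e.1 (Φ.B e).lo (f x) ≤ ρ4 e) → i ∈ V e)
    (hosc : ∀ e ∉ X, ∀ i ∈ V e, i ∉ J0 e → ∀ x ∈ Msh_715.P (T.H i), ∀ y ∈ Msh_715.P (T.H i),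
      |Mbf_337.gau e.1 (Φ.B e).lo (f x) - Mbf_337.gau e.1 (Φ.B e).lo (f y)| ≤ d e)
    (hr1 : ∀ e ∉ X, ρ1 e ≤ r e) (hr4 : ∀ e ∉ X, r e ≤ ρ4 e) : Tlr Φ T f J0 Xᶜ r d where
  pt := fun e he => (hC.tiny e he).pt
  pos := fun e he => (h1 e he).trans_le (hr1 e he)
  ray := fun e he => ⟨ρ4 e, hr4 e he, h4 e he, hray e he⟩
  j0 := fun e he i hi x hx => (hJ0 e he x (mem_biUnion hi hx)).le.trans (hr1 e he)
  dn := fun e he => (hd e he).le
  osc := fun e he i hi ⟨x, hx, hxr⟩ y hy z hz => by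
    have h5 := abs_le.1 (hosc e he i (hV e he i ⟨x, hx, hxr.trans (hr4 e he)⟩) hi y hy z hz)
    linarith [h5.2]

/-- tiles near the blob -/
def Rtl (r₀ : Φ.F → ℝ) (T : Tiling Om ι) (f : E3 → E3) (J0 : Φ.F → Set ι) (Y : Set Φ.F)
    (r : Φ.F → ℝ) (s' : ℝ) (k : QK (Pc Φ.F)) : Set ι :=
  Act0 T (Pc Φ.F) (bc (F := Φ.F)) (RF Φ r₀) f (KorJ Φ J0) s' k ∪
    {q | ∃ e ∈ Y, ∃ x ∈ Msh_715.P (T.H q), Mbf_337.gau e.1 (Φ.B e).lo (f x) ≤ r e}

/-- tiles deep inside the blob -/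
def Ntl (r₀ : Φ.F → ℝ) (T : Tiling Om ι) (f : E3 → E3) (J0 : Φ.F → Set ι) (Y : Set Φ.F)
    (r d : Φ.F → ℝ) (sN : ℝ) (k : QK (Pc Φ.F)) : Set ι :=
  Act0 T (Pc Φ.F) (bc (F := Φ.F)) (RF Φ r₀) f (KorJ Φ J0) sN k ∪
    {q | ∃ e ∈ Y, q ∈ J0 e ∨ ∃ x ∈ Msh_715.P (T.H q),
      Mbf_337.gau e.1 (Φ.B e).lo (f x) ≤ r e - d e}

theorem Tlr.ntl_sub {Y : Set Φ.F} {r d : Φ.F → ℝ} (hT : Tlr Φ T f J0 Y r d) {s' sN : ℝ}
    (hs : s' ≤ sN) (k : QK (Pc Φ.F)) :
    Ntl r₀ T f J0 Y r d sN k ⊆ Rtl r₀ T f J0 Y r s' k := by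
  rintro q (hq | ⟨e, he, hq | ⟨x, hx, hxr⟩⟩)
  · left
    obtain ⟨h1, x, h2, h4, h5⟩ := hq
    refine ⟨h1, x, h2, fun a ha => ?_, h5⟩
    have := h4 a ha
    exact ⟨by linarith [this.1], by linarith [this.2]⟩
  · right
    obtain ⟨x, hx⟩ := T.ne q
    exact ⟨e, he, x, I_sub_P _ hx, hT.j0 e he q hq x (I_sub_P _ hx)⟩
  · right
    exact ⟨e, he, x, hx, by linarith [hT.dn e he]⟩

/-- **LOCAL `H1` NEAR A QUAD AND ALL DOORS.** `s'` = parameter of the strip, `sN ≥ s' + ε` = parameter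
of the tiles of `Ntl`. -/
theorem locH1_tiny (hLa : IsOpen La) (hR : InitR Φ T f g J0 ct' r₀) {ε : ℝ}
    (hM : Mesh0 T (Pc Φ.F) (bc (F := Φ.F)) (RF Φ r₀) f (KorJ Φ J0) ε) (h0 : 0 ≤ ε)
    (hε1 : ε < 1) {Y : Set Φ.F} {r d : Φ.F → ℝ} (hT : Tlr Φ T f J0 Y r d)
    {L : Φ.F → Finset ℝ} [Nonempty (JJ Φ L)] (hG : GF Φ r₀ T f L) (bp : JJ Φ L → E3)
    {s' sN : ℝ} (hs' : 0 < s') (hsN : s' + ε ≤ sN) (j : JJ Φ L) (k : QK (Pc Φ.F))
    (hk : j.1 ∈ k.B) (ht : j.2.1 ∈ Icc s' (1 - s'))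
    (hleaf : ∀ q ∈ KorJ Φ J0, (∀ e ∈ Y, q ∉ J0 e) →
      (strip Om (Pc Φ.F) (bc (F := Φ.F)) (RF Φ r₀) f s' j.1 j.2.1 k ∩ Msh_715.P (T.H q)).Nonempty →
      hG.Leaf fr3 j (strip Om (Pc Φ.F) (bc (F := Φ.F)) (RF Φ r₀) f s' j.1 j.2.1 k) q) :
    (gSht (st0 hG bp) j).LocH1 (Ntl r₀ T f J0 Y r d sN k) (Rtl r₀ T f J0 Y r s' k) := by
  classical
  have F := foam4 Φ hLa
  have hRt := retF Φ hLa hR.pos hR.le_one
  have hct : ∀ e ∈ Y, ∀ y ∈ Pc Φ.F e, rdF Φ e y < r₀ e →
      Mbf_337.gau e.1 (Φ.B e).lo y ≤ r e := by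
    intro e he y hy hr
    have hyL : y ∈ La := Φ.bf.sub e.1 e.2 hy
    have hx := hR.hm.gm hyL
    have hfg := hR.hm.fg y hyL
    by_contra hcon
    have hI : g y ∈ Msh_715.I (T.H (ct' e)) := by
      by_contra hI
      have := hR.out e (g y) hx (by rw [hfg]; exact hy) hI
      rw [hfg] at this
      linarith
    have := hT.j0 e he (ct' e) (hR.ct e) (g y) (I_sub_P _ hI)
    rw [hfg] at this
    exact hcon this
  have hdoor : ∀ e ∈ Y, Door (Pc Φ.F) (RF Φ r₀) e (gb Φ e (r e)) := by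
    intro e he
    obtain ⟨ρ, h1, h2, h3⟩ := hT.ray e he
    exact door_gau Φ hLa hR.pos hR.le_one (hT.pt e he) (hT.pos e he) h1 h2 h3 (hct e he)
  have hr1 : ∀ e ∈ Y, r e < 1 := fun e he => by
    obtain ⟨ρ, h1, h2, -⟩ := hT.ray e he
    exact h1.trans_lt h2
  have hdis : ∀ e ∈ Y, ∀ e' ∈ Y, e ≠ e' → Disjoint (gb Φ e (r e)) (gb Φ e' (r e')) := by
    intro e he e' he' hne
    rw [disjoint_left]
    intro y hy hy'
    have h1 := gb_open Φ (hT.pt e he) (hr1 e he) hy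
    rw [interior_Pc] at h1
    have h2 : y ∈ Bd (Pc Φ.F) e := bd_of_two hne
      (gb_sub Φ (hT.pt e he) (hr1 e he).le hy) (gb_sub Φ (hT.pt e' he') (hr1 e' he').le hy')
    rw [Bd_eq Φ hLa] at h2
    exact h2.2 h1
  obtain ⟨hcpt, htriv⟩ := blob_props hR.hm F hRt hdoor hdis hs' hk ht
  set S'' := blob Om (Pc Φ.F) (bc (F := Φ.F)) (RF Φ r₀) f (fun e => gb Φ e (r e)) Y s' j.1 j.2.1 k
    with hS''
  have hss : s' ≤ sN := by linarith
  have hloc : (gSht (hG.gst fr3) j).LocH1 (Ntl r₀ T f J0 Y r d sN k) (Rtl r₀ T f J0 Y r s' k) →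
      (gSht (st0 hG bp) j).LocH1 (Ntl r₀ T f J0 Y r d sN k) (Rtl r₀ T f J0 Y r s' k) :=
    fun h => locH1_restrict (hX := fun {F w} hw hF => gcomp_closed hw hF) h
  refine hloc (hG.locH1' fr3 j (S' := S'') hcpt ?_ htriv ?_ (hT.ntl_sub hss k) ?_)
  · rintro x (hx | hx)
    · exact ⟨hx.1, hx.2.1⟩
    · exact ⟨hx.1, hx.2.1⟩
  · intro q hq
    by_cases hdq : ∃ e ∈ Y, ∃ x ∈ Msh_715.P (T.H q), Mbf_337.gau e.1 (Φ.B e).lo (f x) ≤ r e
    · exact Or.inl (Or.inr hdq)
    · have hsame : strip Om (Pc Φ.F) (bc (F := Φ.F)) (RF Φ r₀) f s' j.1 j.2.1 k ∩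
          Msh_715.P (T.H q) = S'' ∩ Msh_715.P (T.H q) := by
        ext x
        constructor
        · exact fun h => ⟨Or.inl h.1, h.2⟩
        · rintro ⟨h | ⟨-, -, e, he, hx⟩, hxq⟩
          · exact ⟨h, hxq⟩
          · exact (hdq ⟨e, he, x, hxq, hx⟩).elim
      rw [← hsame] at hq
      by_cases hqK : q ∈ KorJ Φ J0
      · right
        refine leaf_congr hG fr3 j hsame (hleaf q hqK (fun e he hqe => ?_) hq)
        obtain ⟨x, hx⟩ := T.ne q
        exact hdq ⟨e, he, x, I_sub_P _ hx, hT.j0 e he q hqe x (I_sub_P _ hx)⟩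
      · left; left
        obtain ⟨x, ⟨hx, h1, h2, h4⟩, hxq⟩ := hq
        exact ⟨hqK, x, hxq, h2, h4⟩
  · rintro F2 w hwS hwF ⟨q, hqF, hqN⟩ x hx
    have hxm := connectedComponentIn_subset _ _ hx
    have hxq := C2.sub_tile (h3 := fr3) hqF hxm.2
    rcases hqN with hqN | ⟨e, he, hqN⟩
    · left
      obtain ⟨g1, x₀, g2, g3, g4⟩ := hqN
      obtain ⟨a1, a2, -, -⟩ := key hR.hm F hRt hM (s := sN) (by linarith) hε1 g1 g2 hxq g3 g4
      refine ⟨hxm.1.1, hxm.1.2, fun a ha => ?_, a2⟩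
      have := a1 a ha
      exact ⟨by linarith [this.1], by linarith [this.2]⟩
    · right
      refine ⟨hxm.1.1, hxm.1.2, e, he, ?_⟩
      show Mbf_337.gau e.1 (Φ.B e).lo (f x) ≤ r e
      by_cases hqJ : q ∈ J0 e
      · exact hT.j0 e he q hqJ x hxq
      · rcases hqN with hqN | ⟨x', hx', hxr⟩
        · exact (hqJ hqN).elim
        · have h1 := hT.osc e he q hqJ ⟨x', hx', by linarith [hT.dn e he]⟩ x hxq x' hx'
          linarith

end mach

end Crest.Agent.R096.Init_543
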