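import Mathlib
import Crest.Agent.R096.Tlh3_543
import Crest.Agent.R096.Hdr2_334
import Crest.Agent.R096.Lay2_316
import Crest.Agent.R096.Sgo1_298

-- ▼ part R096/Tlh4_543
section

/-! # Row 96, INIT (helper543), Tlh 4: **local `H1` of the sheets near the doors of all tiny cores**
(discs only, no quad) -/

set_option autoImplicit false
set_option linter.unusedSectionVars false

open Set Filter Topology Metric

namespace Crest.Agent.R096.Init_543

open Crest.Agent.R096.Coh_184 Crest.Agent.R096.Brk1_582 Crest.Agent.R096.Brk2_582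
  Crest.Agent.R096.Brk3_582 Crest.Agent.R096.Brk5_582 Crest.Agent.R096.Bsp_628
  Crest.Agent.R096.Msh_715 Crest.Agent.R096.Agl4_543 Crest.Agent.R096.Agl5_543
  Crest.Agent.R096.Agl6_543 Crest.Agent.R096.Ginv_543 Crest.Agent.R096.Seq_213
  Crest.Agent.R096.St_147 Crest.Agent.R96.Push_899 Crest.Agent.R096.Vb_965

open Crest.Agent.R096.SkC1_961 (E3 Hom3 IsPush FoamD Cfg th)

section blob

variable {E V : Type} [NormedAddCommGroup E] [NormedSpace ℝ E] [FiniteDimensional ℝ E]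
  [NormedAddCommGroup V] [NormedSpace ℝ V] [FiniteDimensional ℝ V]
variable {I ι J : Type} {Om : Set E} {La : Set V} {P : I → Set V} {b : Set I → V} {N : ℕ}
  {R : V → V} {f : E → V} {g : V → E}

/-- the parts of the sheet `(a, t)` in the door sets of the cells of `Y` -/
def discs (Om : Set E) (P : I → Set V) (b : Set I → V) (R : V → V) (f : E → V) (G : I → Set V)
    (Y : Set I) (a : I) (t : ℝ) : Set E := {x | x ∈ Om ∧ va P b R f a x = t ∧ ∃ e ∈ Y, f x ∈ G e}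

variable (H : Hm f g Om La) (F : Foam La P b N) (hR : Ret La P R)
include H F hR

theorem discs_props {G : I → Set V} {Y : Set I} (hG : ∀ e ∈ Y, Door P R e (G e))
    (hdis : ∀ e ∈ Y, ∀ e' ∈ Y, e ≠ e' → Disjoint (G e) (G e'))
    {a : I} {t : ℝ} (ht0 : 0 < t) (ht1 : t < 1) :
    IsCompact (discs Om P b R f G Y a t) ∧ TrivF (ZMod 2) (discs Om P b R f G Y a t) := by
  classical
  have hfin : {c | (P c ∩ P a).Nonempty ∧ c ∈ Y ∧ c ≠ a}.Finite :=
    (finite_touch F a).subset fun c hc => hc.1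
  set Es : Finset I := hfin.toFinset with hEs
  have hmE : ∀ c, c ∈ Es ↔ (P c ∩ P a).Nonempty ∧ c ∈ Y ∧ c ≠ a := fun c => by
    rw [hEs, hfin.mem_toFinset]; rfl
  have heq : discs Om P b R f G Y a t = Om ∩ f ⁻¹' (⋃ e ∈ Es, dd P b R G a t e) := by
    ext x
    constructor
    · rintro ⟨hx, hv, e, he, hfx⟩
      refine ⟨hx, ?_⟩
      have hfe := (hG e he).sub hfx
      have h1 : R (f x) ∈ P e := hR.cell e hfe
      have h2 : sc P b (R (f x)) a = t := hv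
      have hL := F.sub e h1
      have h3 : sc P b (R (f x)) e = 0 := (F.sc_eq_zero hL).2 h1
      have hne : e ≠ a := by
        rintro rfl
        rw [h3] at h2
        exact ht0.ne h2
      have htouch : (P e ∩ P a).Nonempty := by
        obtain ⟨y, hy⟩ := F.sc_lt_one_fc hL
        refine ⟨y, mem_fc.1 hy e ?_, mem_fc.1 hy a ?_⟩
        · show sc P b (R (f x)) e < 1
          rw [h3]; exact one_pos
        · show sc P b (R (f x)) a < 1
          rw [h2]; exact ht1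
      exact mem_iUnion₂.2 ⟨e, (hmE e).2 ⟨htouch, he, hne⟩, hfx, h1, h2⟩
    · rintro ⟨hx, hx2⟩
      obtain ⟨e, he, h1⟩ := mem_iUnion₂.1 hx2
      exact ⟨hx, h1.2.2, e, ((hmE e).1 he).2.1, h1.1⟩
  have key : ∀ s : Finset I, (∀ e ∈ s, e ∈ Y ∧ e ≠ a) →
      IsCompact (⋃ e ∈ s, dd P b R G a t e) ∧ TrivF (ZMod 2) (⋃ e ∈ s, dd P b R G a t e) := by
    intro s
    induction s using Finset.induction_on with
    | empty =>
      intro _
      simp only [Finset.notMem_empty, iUnion_of_empty, iUnion_empty]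
      exact ⟨isCompact_empty, trivF_empty⟩
    | insert e s' hes ih =>
      intro hs
      obtain ⟨i1, i2⟩ := ih fun c hc => hs c (Finset.mem_insert_of_mem hc)
      obtain ⟨heY, hea⟩ := hs e (Finset.mem_insert_self e s')
      have hGe := hG e heY
      have hdc : IsCompact (dd P b R G a t e) := hGe.compact_pre F hR (isCompact_disc1 F)
      have hdt : TrivF (ZMod 2) (dd P b R G a t e) :=
        hGe.trivF_pre F hR (isCompact_disc1 F) (fun z hz => hz.1)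
          (trivF_disc F (Ne.symm hea) ht0.le ht1)
      rw [Finset.set_biUnion_insert]
      refine ⟨hdc.union i1, fun n => TrivAll.union hdc.isClosed i1.isClosed ?_ (hdt n) (i2 n)⟩
      have h5 : dd P b R G a t e ∩ ⋃ c ∈ s', dd P b R G a t c = ∅ := by
        rw [eq_empty_iff_forall_notMem]
        rintro y ⟨h6, h7⟩
        obtain ⟨c, hc, h8⟩ := mem_iUnion₂.1 h7
        have hce : e ≠ c := by rintro rfl; exact hes hc
        exact disjoint_left.1 (hdis e heY c (hs c (Finset.mem_insert_of_mem hc)).1 hce) h6.1 h8.1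
      rw [h5]; exact isPreconnected_empty
  obtain ⟨h1, h2⟩ := key Es fun e he => ⟨((hmE e).1 he).2.1, ((hmE e).1 he).2.2⟩
  have hsub : (⋃ e ∈ Es, dd P b R G a t e) ⊆ La := by
    intro y hy
    obtain ⟨e, he, h3⟩ := mem_iUnion₂.1 hy
    exact F.sub e ((hG e ((hmE e).1 he).2.1).sub h3.1)
  rw [heq]
  exact ⟨H.isCompact_pre hsub h1, H.trivF_pre hsub h1 h2⟩

end blob

section mach

variable {δ κ0 R c0 : ℝ} {La Om : Set E3} {ι : Type} {Φ : FoamD δ κ0 R c0 La}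
  {T : Tiling Om ι} {f g : E3 → E3} {J0 : Φ.F → Set ι} {ct' : Φ.F → ι} {r₀ : Φ.F → ℝ}

/-- the caps lie in the gauge balls -/
theorem Tlr.cap (hR : InitR Φ T f g J0 ct' r₀) {Y : Set Φ.F} {r d : Φ.F → ℝ}
    (hT : Tlr Φ T f J0 Y r d) : ∀ e ∈ Y, ∀ y ∈ Pc Φ.F e, rdF Φ e y < r₀ e →
      Mbf_337.gau e.1 (Φ.B e).lo y ≤ r e := by
  intro e he y hy hr
  have hyL : y ∈ La := Φ.bf.sub e.1 e.2 hy
  have hx := hR.hm.gm hyL
  have hfg := hR.hm.fg y hyL
  by_contra hcon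
  have hI : g y ∈ Msh_715.I (T.H (ct' e)) := by
    by_contra hI
    have := hR.out e (g y) hx (by rw [hfg]; exact hy) hI
    rw [hfg] at this
    linarith
  have := hT.j0 e he (ct' e) (hR.ct e) (g y) (I_sub_P _ hI)
  rw [hfg] at this
  exact hcon this

theorem Tlr.door (hLa : IsOpen La) (hR : InitR Φ T f g J0 ct' r₀) {Y : Set Φ.F} {r d : Φ.F → ℝ}
    (hT : Tlr Φ T f J0 Y r d) : ∀ e ∈ Y, Door (Pc Φ.F) (RF Φ r₀) e (gb Φ e (r e)) := by
  intro e he
  obtain ⟨ρ, h1, h2, h3⟩ := hT.ray e he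
  exact door_gau Φ hLa hR.pos hR.le_one (hT.pt e he) (hT.pos e he) h1 h2 h3 (hT.cap hR e he)

theorem Tlr.dis (hLa : IsOpen La) {Y : Set Φ.F} {r d : Φ.F → ℝ}
    (hT : Tlr Φ T f J0 Y r d) :
    ∀ e ∈ Y, ∀ e' ∈ Y, e ≠ e' → Disjoint (gb Φ e (r e)) (gb Φ e' (r e')) := by
  have hr1 : ∀ e ∈ Y, r e < 1 := fun e he => by
    obtain ⟨ρ, h1, h2, -⟩ := hT.ray e he
    exact h1.trans_lt h2
  intro e he e' he' hne
  rw [disjoint_left]
  intro y hy hy'
  have h1 := gb_open Φ (hT.pt e he) (hr1 e he) hy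
  rw [interior_Pc] at h1
  have h2 : y ∈ Bd (Pc Φ.F) e := bd_of_two hne
    (gb_sub Φ (hT.pt e he) (hr1 e he).le hy) (gb_sub Φ (hT.pt e' he') (hr1 e' he').le hy')
  rw [Bd_eq Φ hLa] at h2
  exact h2.2 h1

/-- tiles near the doors -/
def Rdc (T : Tiling Om ι) (f : E3 → E3) (Y : Set Φ.F) (r : Φ.F → ℝ) : Set ι :=
  {q | ∃ e ∈ Y, ∃ x ∈ Msh_715.P (T.H q), Mbf_337.gau e.1 (Φ.B e).lo (f x) ≤ r e}

/-- tiles deep inside the doors -/
def Ndc (T : Tiling Om ι) (f : E3 → E3) (J0 : Φ.F → Set ι) (Y : Set Φ.F)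
    (r d : Φ.F → ℝ) : Set ι :=
  {q | ∃ e ∈ Y, q ∈ J0 e ∨ ∃ x ∈ Msh_715.P (T.H q),
      Mbf_337.gau e.1 (Φ.B e).lo (f x) ≤ r e - d e}

theorem Tlr.ndc_sub {Y : Set Φ.F} {r d : Φ.F → ℝ} (hT : Tlr Φ T f J0 Y r d) :
    Ndc T f J0 Y r d ⊆ Rdc T f Y r := by
  rintro q ⟨e, he, hq | ⟨x, hx, hxr⟩⟩
  · obtain ⟨x, hx⟩ := T.ne q
    exact ⟨e, he, x, I_sub_P _ hx, hT.j0 e he q hq x (I_sub_P _ hx)⟩
  · exact ⟨e, he, x, hx, by linarith [hT.dn e he]⟩

/-- **LOCAL `H1` NEAR ALL DOORS** (discs only) -/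
theorem locH1_doors (hLa : IsOpen La) (hR : InitR Φ T f g J0 ct' r₀)
    {Y : Set Φ.F} {r d : Φ.F → ℝ} (hT : Tlr Φ T f J0 Y r d)
    {L : Φ.F → Finset ℝ} [Nonempty (JJ Φ L)] (hG : GF Φ r₀ T f L) (bp : JJ Φ L → E3)
    (j : JJ Φ L) (ht0 : 0 < j.2.1) (ht1 : j.2.1 < 1) :
    (gSht (st0 hG bp) j).LocH1 (Ndc T f J0 Y r d) (Rdc T f Y r) := by
  classical
  have F := foam4 Φ hLa
  have hRt := retF Φ hLa hR.pos hR.le_one
  obtain ⟨hcpt, htriv⟩ := discs_props (b := bc (F := Φ.F)) hR.hm F hRt (hT.door hLa hR)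
    (hT.dis hLa) (a := j.1) ht0 ht1
  have hloc : (gSht (hG.gst fr3) j).LocH1 (Ndc T f J0 Y r d) (Rdc T f Y r) →
      (gSht (st0 hG bp) j).LocH1 (Ndc T f J0 Y r d) (Rdc T f Y r) :=
    fun h => locH1_restrict (hX := fun {F w} hw hF => gcomp_closed hw hF) h
  refine hloc (hG.locH1' fr3 j hcpt ?_ htriv ?_ hT.ndc_sub ?_)
  · rintro x hx
    exact ⟨hx.1, hx.2.1⟩
  · rintro q ⟨x, ⟨-, -, e, he, hx⟩, hxq⟩
    exact Or.inl ⟨e, he, x, hxq, hx⟩
  · rintro F2 w hwS hwF ⟨q, hqF, e, he, hqN⟩ x hx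
    have hxm := connectedComponentIn_subset _ _ hx
    have hxq := C2.sub_tile (h3 := fr3) hqF hxm.2
    refine ⟨hxm.1.1, hxm.1.2, e, he, ?_⟩
    show Mbf_337.gau e.1 (Φ.B e).lo (f x) ≤ r e
    by_cases hqJ : q ∈ J0 e
    · exact hT.j0 e he q hqJ x hxq
    · rcases hqN with hqN | ⟨x', hx', hxr⟩
      · exact (hqJ hqN).elim
      · have h1 := hT.osc e he q hqJ ⟨x', hx', by linarith [hT.dn e he]⟩ x hxq x' hx'
        linarith


end mach

end Crest.Agent.R096.Init_543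
end

-- ▼ part R096/Hdr3_334

/-!
# R096 (row 96), DOORS (helper334), part 3: the zones over 184's slices

`Zr f re c` = the tiles of `T` with a point in `{gau ≤ re c}`; `zon_sla` = `Zon` for them;
`cl_tiny` = the conclusion of 298's `cl_sheet` for the tiny giants.
-/

set_option autoImplicit false
set_option linter.unusedSectionVars false
set_option linter.unusedVariables false
set_option linter.style.longLine false

open Set Relation Module Topology Filter Metric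

namespace Crest.Agent.R096.Hdr_334

open Crest.Agent.R096.Brk1_582 Crest.Agent.R096.Brk2_582 Crest.Agent.R096.Brk3_582
open Crest.Agent.R096.Brk5_582 Crest.Agent.R096.Bsp_628
open Crest.Agent.R096.St_147 Crest.Agent.R096.Seq_213 Crest.Agent.R096.Seq_213.GSt
open Crest.Agent.R096.Lm_117 Crest.Agent.R096.Ac_117 Crest.Agent.R096.Msh_715
open Crest.Agent.R096.Agl5_543 Crest.Agent.R096.Init_543 Crest.Agent.R096.At_241
open Crest.Agent.R096.SkC1_961 (E3 Hom3 FoamD)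
open Crest.Agent.R096.Mbf_337 (KJ sb gau Cores Tiny)
open Crest.Agent.R096.Frn_337 (Ti cti Lay)
open Crest.Agent.R096.SkB_662 Crest.Agent.R096.Sgd_298 Crest.Agent.R096.Qdl_662
  Crest.Agent.R096.Dinv_106 Crest.Agent.R096.Sla_184

section zones

variable {δ κ0 R c0 : ℝ} {La Om : Set E3} {ι : Type} {Φ : FoamD δ κ0 R c0 La} {T : Tiling Om ι}
  {f : E3 → E3} {κ1 κ2 : ℝ} {X : Set Φ.F} {J0 J V : Φ.F → Set ι} {ct : Φ.F → ι}
  {A : Φ.F → E3 ≃ᵃ[ℝ] E3} {lam : Φ.F → ℝ} {z : Φ.F → E3} {θ : Φ.F → E3 → E3} {φ : Φ.F → E3 → ℝ}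

/-- the tiles with a point in `{gau ≤ re c}` -/
def Zr (T : Tiling Om ι) (f : E3 → E3) (re : Ti X → ℝ) (c : Ti X) : Set ι :=
  {i | ∃ x ∈ P (T.H i), gau c.1.1 (Φ.B c.1).lo (f x) ≤ re c}

/-- a tile of a core which is cut into layers meets the frontier of the core; all other tiles
outside the remaining cores are uncut tiles outside the cores -/
theorem zon_sla (hC : Cores Φ T f κ1 κ2 X J0 J V ct A lam z θ φ) (S : Sla T (Ti X))
    (hK : ∀ k, S.K k = KJ T (J k.1)) {re : Ti X → ℝ}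
    (h1 : ∀ c : Ti X, ∀ x ∈ frontier (KJ T (J c.1)), gau c.1.1 (Φ.B c.1).lo (f x) ≤ re c)
    (h2 : ∀ c : Ti X, ∀ i, (∃ x ∈ P (T.H i), gau c.1.1 (Φ.B c.1).lo (f x) ≤ re c) → i ∈ V c.1) :
    Zon Φ T S.T3 f X J0 S.KK Tiling.RIdx.tile (Zr T f re) where
  kor := by
    rintro c p hp hpZ
    have hpV : p.tile ∈ V c.1 := h2 c _ hpZ
    refine notKor_of_lay (c3 := Lay_316.c3 S) (Lay_316.lay_of_sla hC S hK)
      (fun p => Sla.P3_sub p) ?_ hC hp ?_
    · intro i hi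
      have h : ∀ c, ¬ P (T.H i) ⊆ S.K c := fun k hk => by
        rw [hK k] at hk
        exact hi k (Slt_471.sub_KJ_iff.1 hk)
      rw [Lay_316.c3_of h]
      rfl
    · intro c' hc' he
      rw [he] at hpV
      refine disjoint_left.1 (hC.disj c.1 c' ?_) hpV ?_
      · rintro e
        exact c.2 (e ▸ hc')
      · rw [(hC.one c' hc').2.2]
        rfl
  ins := fun c i hi x hx => (hC.tiny c.1 c.2).inside x (mem_biUnion (x := i) (h2 c i hi) hx)
  insK := by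
    intro c x hx
    have h3 : x ∈ S.K c := Sla.KK_K hx
    rw [hK c] at h3
    obtain ⟨i, hi, hxi⟩ := mem_iUnion₂.1 h3
    exact (hC.tiny c.1 c.2).inside x (mem_biUnion (x := i) ((hC.tiny c.1 c.2).sub hi) hxi)
  adj := by
    rintro c p hp ⟨x, hxp, hxK⟩
    have hxt : x ∈ P (T.H p.tile) := Sla.P3_sub p hxp
    have hxK' : x ∈ S.K c := Sla.KK_K hxK
    have hin : S.In c x := by
      refine Sla.in_of_lt hxK' ?_
      exact (Sla.mem_KK.1 hxK).2.trans_lt (Sla.tn_lt S c)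
    have hsub : P (T.H p.tile) ⊆ S.K c := hin.tile hxt
    obtain ⟨v, hv, hvf⟩ := Lay_316.layer_meets fr3 hsub hp
    rw [hK c] at hvf
    exact ⟨v, hv, h1 c v hvf⟩

/-- 543's `Rdc` is the union of the zones -/
theorem zr_of_rdc {r : Φ.F → ℝ} {q : ι} (h : q ∈ Init_543.Rdc T f Xᶜ r) :
    ∃ c : Ti X, q ∈ Zr T f (fun c : Ti X => r c.1) c := by
  obtain ⟨e, he, x, hx, hr⟩ := h
  exact ⟨⟨e, he⟩, x, hx, hr⟩

/-- `hAct` of `hdoor` and `cl_tiny` for `Act := ActR S (Rdc T f Xᶜ r)` -/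
theorem hAct_rdc (S : Sla T (Ti X)) {r : Φ.F → ℝ} (p : T.RIdx S.HH)
    (_ : ∀ k, ¬ P (S.T3.H p) ⊆ S.KK k)
    (h : Sum.inl p ∈ Sgo_298.ActR S (Init_543.Rdc T f Xᶜ r)) :
    ∃ c : Ti X, p.tile ∈ Zr T f (fun c : Ti X => r c.1) c :=
  zr_of_rdc (Sgo_298.inl_ActR.1 h)

end zones

section mach

variable {δ κ0 R c0 : ℝ} {La Om : Set E3} {ι ι3 : Type} {Φ : FoamD δ κ0 R c0 La}
  {T : Tiling Om ι} {T3 : Tiling Om ι3} {f g : E3 → E3} {X : Set Φ.F} {J0 : Φ.F → Set ι}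
  {ct' : Φ.F → ι} {r₀ : Φ.F → ℝ} {KK : Ti X → Set E3} {til : ι3 → ι}
  {ε s₁ : ℝ} {Zo : Ti X → Set ι} [Nonempty T3.Cell]
  {hH : ∀ k, CoreH T3 (KK k)} {hdis : ∀ k k', k ≠ k' → Disjoint (KK k) (KK k')}
  {hsub : ∀ p, P (T3.H p) ⊆ P (T.H (til p))} {hLa : IsOpen La}
  {hR : InitR Φ T f g J0 ct' r₀}
  {hM : Mesh0 T (Pc Φ.F) (bc (F := Φ.F)) (RF Φ r₀) f (KorJ Φ J0) ε} {hε : ε < s₁} {hε1 : ε < 1}
  {L : Φ.F → Finset ℝ}


end mach

end Crest.Agent.R096.Hdr_334
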