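import Crest.Agent.R096.F2_422
import Crest.Agent.R096.Seq2_213

-- ▼ part R096/Sec1_892
section

/-!
# R096 / DOORS-SEC, part 1 (helper892): one-sided exchange

A state with colours `true` (sheets to be cut) and `false` (barriers, never changed).
`Push s up Ph b c` : `c w` is a candidate point next to the barrier point `w` (no point of the finite
set `Ph` in between), on the side `b` of the barrier.
`pst` : the state made of the sheets of colour `true` of another state `t` (e.g. the result of the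
exchange step) whose barrier points are pushed off by `c`, and of the old barriers.
-/

set_option autoImplicit false

namespace Crest.Agent.R096.Sec_892

open Crest.Agent.R096.St_147 Crest.Agent.R096.Wk_689 Crest.Agent.R096.F_422

variable {ι Φ W I : Type} {M : MeshC ι Φ W} {col : I → Bool}

/-- `w` is a point of colour `false` (a barrier point) -/
def HP (s : St M col) (w : W) : Prop := w ∈ s.P ∧ col (s.lab w) = false

/-- `up F w = true`: the positive side of the barrier at `w` is above `w` on the face `F` -/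
def Two (s : St M col) (up : Φ → W → Bool) : Prop :=
  ∀ {F w}, HP s w → w ∈ M.On F → up F (s.mu F w) = !up F w

/-- parallel copies of the barrier points on the side `b` -/
structure Push (s : St M col) (up : Φ → W → Bool) (Ph : Finset W) (b : Bool) (c : W → W) :
    Prop where
  nin : ∀ {w}, HP s w → c w ∉ Ph
  inj : ∀ {w w'}, HP s w → HP s w' → c w = c w' → w = w'
  on : ∀ {w} (F : Φ), HP s w → (c w ∈ M.On F ↔ w ∈ M.On F)
  adj : ∀ {F w v}, HP s w → w ∈ M.On F → v ∈ Ph → v ∈ M.On F → v ≠ w →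
    (M.pos F v < M.pos F w ↔ M.pos F v < M.pos F (c w))
  ord : ∀ {F w w'}, HP s w → HP s w' → w ∈ M.On F → w' ∈ M.On F →
    M.pos F w < M.pos F w' → M.pos F (c w) < M.pos F (c w')
  side : ∀ {F w}, HP s w → w ∈ M.On F → (M.pos F w < M.pos F (c w) ↔ up F w = b)

/-- barrier points are moved by `c`, the others are not moved -/
def ph (s : St M col) (c : W → W) (w : W) : W := if col (s.lab w) = false then c w else w

section push

variable {s : St M col} {up : Φ → W → Bool} {Ph : Finset W} {b : Bool} {c : W → W}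

theorem ph_pos {w : W} (h : col (s.lab w) = false) : ph s c w = c w := if_pos h

theorem ph_neg {w : W} (h : col (s.lab w) = true) : ph s c w = w := by
  unfold ph; rw [h]; rfl

theorem hp_mu {F : Φ} {w : W} (h : HP s w) (hF : w ∈ M.On F) : HP s (s.mu F w) :=
  ⟨(s.mu_mem h.1 hF).1, by rw [s.mu_lab h.1 hF]; exact h.2⟩

theorem ph_on (hp : Push s up Ph b c) {w : W} (hw : w ∈ s.P) (F : Φ) :
    ph s c w ∈ M.On F ↔ w ∈ M.On F := by
  cases h : col (s.lab w)
  · rw [ph_pos h]; exact hp.on F ⟨hw, h⟩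
  · rw [ph_neg h]

theorem ph_inj (hp : Push s up Ph b c) (hP : s.P ⊆ Ph) {w w' : W} (hw : w ∈ s.P) (hw' : w' ∈ s.P)
    (he : ph s c w = ph s c w') : w = w' := by
  cases h : col (s.lab w) <;> cases h' : col (s.lab w')
  · rw [ph_pos h, ph_pos h'] at he; exact hp.inj ⟨hw, h⟩ ⟨hw', h'⟩ he
  · rw [ph_pos h, ph_neg h'] at he; exact absurd (hP hw') (by rw [← he]; exact hp.nin ⟨hw, h⟩)
  · rw [ph_neg h, ph_pos h'] at he; exact absurd (hP hw) (by rw [he]; exact hp.nin ⟨hw', h'⟩)
  · rwa [ph_neg h, ph_neg h'] at he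

/-- a pushed point is on the same side of every other point -/
theorem Push.adj' (hp : Push s up Ph b c) {F : Φ} {w v : W} (hw : HP s w) (hF : w ∈ M.On F)
    (hv : v ∈ Ph) (hvF : v ∈ M.On F) (hne : v ≠ w) :
    M.pos F w < M.pos F v ↔ M.pos F (c w) < M.pos F v := by
  have h1 := hp.adj hw hF hv hvF hne
  have h2 : M.pos F v ≠ M.pos F w := fun h => hne (M.pos_inj F hvF hF h)
  have h3 : M.pos F v ≠ M.pos F (c w) := fun h =>
    hp.nin hw (by rw [← M.pos_inj F hvF ((hp.on F hw).2 hF) h]; exact hv)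
  constructor
  · intro h
    exact lt_of_le_of_ne (not_lt.1 fun h4 => lt_asymm h (h1.2 h4)) h3.symm
  · intro h
    exact lt_of_le_of_ne (not_lt.1 fun h4 => lt_asymm h (h1.1 h4)) h2.symm

theorem ph_lt_aux (hp : Push s up Ph b c) (hP : s.P ⊆ Ph) {F : Φ} {u v : W} (hu : s.At F u)
    (hv : s.At F v) (h : M.pos F u < M.pos F v) :
    M.pos F (ph s c u) < M.pos F (ph s c v) := by
  have hne : u ≠ v := by rintro rfl; exact lt_irrefl _ h
  cases h1 : col (s.lab u) <;> cases h2 : col (s.lab v)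
  · rw [ph_pos h1, ph_pos h2]; exact hp.ord ⟨hu.1, h1⟩ ⟨hv.1, h2⟩ hu.2 hv.2 h
  · rw [ph_pos h1, ph_neg h2]
    exact (hp.adj' ⟨hu.1, h1⟩ hu.2 (hP hv.1) hv.2 hne.symm).1 h
  · rw [ph_neg h1, ph_pos h2]
    exact (hp.adj ⟨hv.1, h2⟩ hv.2 (hP hu.1) hu.2 hne).1 h
  · rw [ph_neg h1, ph_neg h2]; exact h

theorem ph_lt (hp : Push s up Ph b c) (hP : s.P ⊆ Ph) {F : Φ} {u v : W} (hu : s.At F u)
    (hv : s.At F v) : M.pos F (ph s c u) < M.pos F (ph s c v) ↔ M.pos F u < M.pos F v := by
  constructor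
  · intro h
    rcases lt_trichotomy (M.pos F u) (M.pos F v) with h1 | h1 | h1
    · exact h1
    · rw [M.pos_inj F hu.2 hv.2 h1] at h; exact absurd h (lt_irrefl _)
    · exact absurd h (lt_asymm (ph_lt_aux hp hP hv hu h1))
  · exact ph_lt_aux hp hP hu hv

theorem ph_lace (hp : Push s up Ph b c) (hP : s.P ⊆ Ph) {F : Φ} {u v x y : W} (hu : s.At F u)
    (hv : s.At F v) (hx : s.At F x) (hy : s.At F y) :
    M.Lace F (ph s c u) (ph s c v) (ph s c x) (ph s c y) ↔ M.Lace F u v x y := by
  unfold MeshC.Lace MeshC.Btw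
  rw [ph_lt hp hP hu hx, ph_lt hp hP hx hv, ph_lt hp hP hv hx, ph_lt hp hP hx hu,
    ph_lt hp hP hu hy, ph_lt hp hP hy hv, ph_lt hp hP hv hy, ph_lt hp hP hy hu]

end push

/-! ### the combined state -/

section comb

open Classical in
/-- kept points of colour `true` -/
noncomputable def kA (t : St M col) : Finset W := t.P.filter fun w => col (t.lab w) = true

open Classical in
noncomputable def im (s t : St M col) (c : W → W) : Finset W := (kA t).image (ph s c)

open Classical in
noncomputable def iv (s t : St M col) (c : W → W) (x : W) : W :=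
  if h : ∃ w ∈ kA t, ph s c w = x then h.choose else x

variable {s t : St M col} {up : Φ → W → Bool} {Ph : Finset W} {b : Bool} {c : W → W}

theorem mem_kA {w : W} : w ∈ kA t ↔ w ∈ t.P ∧ col (t.lab w) = true := by
  unfold kA; rw [Finset.mem_filter]

theorem mem_im {x : W} : x ∈ im s t c ↔ ∃ w ∈ kA t, ph s c w = x := by
  classical
  unfold im; rw [Finset.mem_image]

theorem iv_ph (hp : Push s up Ph b c) (hP : s.P ⊆ Ph) (ht : t.P ⊆ s.P) {w : W} (hw : w ∈ kA t) :
    iv s t c (ph s c w) = w := by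
  have h : ∃ w' ∈ kA t, ph s c w' = ph s c w := ⟨w, hw, rfl⟩
  unfold iv
  rw [dif_pos h]
  exact ph_inj hp hP (ht (mem_kA.1 h.choose_spec.1).1) (ht (mem_kA.1 hw).1) h.choose_spec.2

theorem ph_iv {x : W} (h : x ∈ im s t c) : ph s c (iv s t c x) = x := by
  have h' := mem_im.1 h
  unfold iv
  rw [dif_pos h']
  exact h'.choose_spec.2

theorem iv_mem {x : W} (h : x ∈ im s t c) : iv s t c x ∈ kA t := by
  have h' := mem_im.1 h
  unfold iv
  rw [dif_pos h']
  exact h'.choose_spec.1

theorem hp_not_im (hp : Push s up Ph b c) (hP : s.P ⊆ Ph) (ht : t.P ⊆ s.P) {x : W}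
    (hx : HP s x) : x ∉ im s t c := by
  intro h
  obtain ⟨w, hw, he⟩ := mem_im.1 h
  have hws := ht (mem_kA.1 hw).1
  cases h1 : col (s.lab w)
  · rw [ph_pos h1] at he
    exact hp.nin ⟨hws, h1⟩ (by rw [he]; exact hP hx.1)
  · rw [ph_neg h1] at he
    rw [he, hx.2] at h1
    exact Bool.false_ne_true h1

open Classical in
/-- **the state after a one-sided exchange** -/
noncomputable def pst (hp : Push s up Ph b c) (hP : s.P ⊆ Ph) (ht : t.P ⊆ s.P) : St M col where
  P := im s t c ∪ s.P.filter fun w => col (s.lab w) = false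
  lab := fun x => if x ∈ im s t c then t.lab (iv s t c x) else s.lab x
  mu := fun F x => if x ∈ im s t c then ph s c (t.mu F (iv s t c x)) else s.mu F x
  mu_mem := by
    intro F x hx hF
    by_cases h : x ∈ im s t c
    · have h1 := iv_mem h
      have h2 := mem_kA.1 h1
      have h3 : iv s t c x ∈ M.On F := by
        rw [← ph_on hp (ht h2.1) F, ph_iv h]; exact hF
      have h4 := t.mu_mem h2.1 h3
      simp only [if_pos h]
      refine ⟨Finset.mem_union_left _ (mem_im.2 ⟨_, mem_kA.2 ⟨h4.1, ?_⟩, rfl⟩), ?_⟩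
      · rw [t.mu_lab h2.1 h3]; exact h2.2
      · rw [ph_on hp (ht h4.1)]; exact h4.2
    · have h1 : HP s x := by
        rcases Finset.mem_union.1 hx with h2 | h2
        · exact absurd h2 h
        · exact Finset.mem_filter.1 h2
      simp only [if_neg h]
      exact ⟨Finset.mem_union_right _ (Finset.mem_filter.2 (hp_mu h1 hF)), (s.mu_mem h1.1 hF).2⟩
  mu_ne := by
    intro F x hx hF
    by_cases h : x ∈ im s t c
    · have h2 := mem_kA.1 (iv_mem h)
      have h3 : iv s t c x ∈ M.On F := by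
        rw [← ph_on hp (ht h2.1) F, ph_iv h]; exact hF
      simp only [if_pos h]
      intro he
      rw [← ph_iv h] at he
      have h5 := ph_inj hp hP (ht (t.mu_mem h2.1 h3).1) (ht h2.1) (by
        rw [ph_iv h] at he ⊢
        exact he)
      exact t.mu_ne h2.1 h3 h5
    · have h1 : HP s x := by
        rcases Finset.mem_union.1 hx with h2 | h2
        · exact absurd h2 h
        · exact Finset.mem_filter.1 h2
      simp only [if_neg h]
      exact s.mu_ne h1.1 hF
  mu_mu := by
    intro F x hx hF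
    by_cases h : x ∈ im s t c
    · have h2 := mem_kA.1 (iv_mem h)
      have h3 : iv s t c x ∈ M.On F := by
        rw [← ph_on hp (ht h2.1) F, ph_iv h]; exact hF
      have h4 := t.mu_mem h2.1 h3
      have h5 : t.mu F (iv s t c x) ∈ kA t := mem_kA.2 ⟨h4.1, by
        rw [t.mu_lab h2.1 h3]; exact h2.2⟩
      have h6 : ph s c (t.mu F (iv s t c x)) ∈ im s t c := mem_im.2 ⟨_, h5, rfl⟩
      simp only [if_pos h, if_pos h6]
      rw [iv_ph hp hP ht h5, t.mu_mu h2.1 h3, ph_iv h]
    · have h1 : HP s x := by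
        rcases Finset.mem_union.1 hx with h2 | h2
        · exact absurd h2 h
        · exact Finset.mem_filter.1 h2
      have h6 := hp_not_im hp hP ht (hp_mu h1 hF)
      simp only [if_neg h, if_neg h6]
      exact s.mu_mu h1.1 hF
  mu_lab := by
    intro F x hx hF
    by_cases h : x ∈ im s t c
    · have h2 := mem_kA.1 (iv_mem h)
      have h3 : iv s t c x ∈ M.On F := by
        rw [← ph_on hp (ht h2.1) F, ph_iv h]; exact hF
      have h4 := t.mu_mem h2.1 h3
      have h5 : t.mu F (iv s t c x) ∈ kA t := mem_kA.2 ⟨h4.1, by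
        rw [t.mu_lab h2.1 h3]; exact h2.2⟩
      have h6 : ph s c (t.mu F (iv s t c x)) ∈ im s t c := mem_im.2 ⟨_, h5, rfl⟩
      simp only [if_pos h, if_pos h6]
      rw [iv_ph hp hP ht h5, t.mu_lab h2.1 h3]
    · have h1 : HP s x := by
        rcases Finset.mem_union.1 hx with h2 | h2
        · exact absurd h2 h
        · exact Finset.mem_filter.1 h2
      have h6 := hp_not_im hp hP ht (hp_mu h1 hF)
      simp only [if_neg h, if_neg h6]
      exact s.mu_lab h1.1 hF
  nc := by
    intro F x y hx hF hy hF' hc hne hne'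
    by_cases h : x ∈ im s t c <;> by_cases h' : y ∈ im s t c
    · have h2 := mem_kA.1 (iv_mem h)
      have h3 : iv s t c x ∈ M.On F := by
        rw [← ph_on hp (ht h2.1) F, ph_iv h]; exact hF
      have h2' := mem_kA.1 (iv_mem h')
      have h3' : iv s t c y ∈ M.On F := by
        rw [← ph_on hp (ht h2'.1) F, ph_iv h']; exact hF'
      have h4 := t.mu_mem h2.1 h3
      have h4' := t.mu_mem h2'.1 h3'
      simp only [if_pos h] at hne' ⊢
      simp only [if_pos h']
      have key : M.Lace F x (ph s c (t.mu F (iv s t c x))) y (ph s c (t.mu F (iv s t c y))) ↔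
          M.Lace F (iv s t c x) (t.mu F (iv s t c x)) (iv s t c y) (t.mu F (iv s t c y)) := by
        have := ph_lace hp hP (s := s) (F := F) (u := iv s t c x) (v := t.mu F (iv s t c x))
          (x := iv s t c y) (y := t.mu F (iv s t c y)) ⟨ht h2.1, h3⟩ ⟨ht h4.1, h4.2⟩
          ⟨ht h2'.1, h3'⟩ ⟨ht h4'.1, h4'.2⟩
        rw [ph_iv h, ph_iv h'] at this
        exact this
      rw [key]
      refine t.nc h2.1 h3 h2'.1 h3' (h2.2.trans h2'.2.symm) ?_ ?_
      · intro he
        apply hne
        rw [← ph_iv h, ← ph_iv h', he]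
      · intro he
        apply hne'
        rw [← he, ph_iv h']
    · simp only [if_pos h, if_neg h'] at hc
      have h2 := mem_kA.1 (iv_mem h)
      have h1 : HP s y := by
        rcases Finset.mem_union.1 hy with h2 | h2
        · exact absurd h2 h'
        · exact Finset.mem_filter.1 h2
      rw [h2.2, h1.2] at hc
      exact absurd hc.symm Bool.false_ne_true
    · simp only [if_neg h, if_pos h'] at hc
      have h2 := mem_kA.1 (iv_mem h')
      have h1 : HP s x := by
        rcases Finset.mem_union.1 hx with h2 | h2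
        · exact absurd h2 h
        · exact Finset.mem_filter.1 h2
      rw [h2.2, h1.2] at hc
      exact absurd hc Bool.false_ne_true
    · have h1 : HP s x := by
        rcases Finset.mem_union.1 hx with h2 | h2
        · exact absurd h2 h
        · exact Finset.mem_filter.1 h2
      have h1' : HP s y := by
        rcases Finset.mem_union.1 hy with h2 | h2
        · exact absurd h2 h'
        · exact Finset.mem_filter.1 h2
      simp only [if_neg h] at hc hne' ⊢
      simp only [if_neg h'] at hc ⊢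
      exact s.nc h1.1 hF h1'.1 hF' hc hne hne'

variable {hp : Push s up Ph b c} {hP : s.P ⊆ Ph} {ht : t.P ⊆ s.P}

theorem pst_cases {x : W} (hx : x ∈ (pst hp hP ht).P) :
    (∃ w ∈ kA t, x = ph s c w) ∨ HP s x := by
  classical
  rcases Finset.mem_union.1 hx with h | h
  · left
    obtain ⟨w, hw, he⟩ := mem_im.1 h
    exact ⟨w, hw, he.symm⟩
  · right; exact Finset.mem_filter.1 h

theorem pst_ph {w : W} (hw : w ∈ kA t) : ph s c w ∈ (pst hp hP ht).P ∧
    (pst hp hP ht).lab (ph s c w) = t.lab w ∧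
    ∀ F, (pst hp hP ht).mu F (ph s c w) = ph s c (t.mu F w) := by
  classical
  have h : ph s c w ∈ im s t c := mem_im.2 ⟨w, hw, rfl⟩
  refine ⟨Finset.mem_union_left _ h, ?_, fun F => ?_⟩
  · show (if _ ∈ im s t c then _ else _) = _
    rw [if_pos h, iv_ph hp hP ht hw]
  · show (if _ ∈ im s t c then _ else _) = _
    rw [if_pos h, iv_ph hp hP ht hw]

theorem pst_hp {x : W} (hx : HP s x) : x ∈ (pst hp hP ht).P ∧
    (pst hp hP ht).lab x = s.lab x ∧ ∀ F, (pst hp hP ht).mu F x = s.mu F x := by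
  classical
  have h := hp_not_im hp hP ht hx
  refine ⟨Finset.mem_union_right _ (Finset.mem_filter.2 hx), ?_, fun F => ?_⟩
  · show (if _ ∈ im s t c then _ else _) = _
    rw [if_neg h]
  · show (if _ ∈ im s t c then _ else _) = _
    rw [if_neg h]

/-- the barrier points of the new state are the old ones -/
theorem pst_hp_iff {x : W} : HP (pst hp hP ht) x ↔ HP s x := by
  constructor
  · rintro ⟨h1, h2⟩
    rcases pst_cases h1 with ⟨w, hw, rfl⟩ | h
    · rw [(pst_ph hw).2.1, (mem_kA.1 hw).2] at h2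
      exact absurd h2.symm Bool.false_ne_true
    · exact h
  · intro h
    exact ⟨(pst_hp h).1, by rw [(pst_hp h).2.1]; exact h.2⟩

/-- points of colour `true` -/
theorem pst_true {x : W} (hx : x ∈ (pst hp hP ht).P)
    (hc : col ((pst hp hP ht).lab x) = true) : ∃ w ∈ kA t, x = ph s c w := by
  rcases pst_cases hx with h | h
  · exact h
  · rw [(pst_hp h).2.1, h.2] at hc
    exact absurd hc Bool.false_ne_true

theorem pst_H1 (h1 : ∀ i, s.H1 i) (h2 : ∀ i, t.H1 i) (i : I) : (pst hp hP ht).H1 i := by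
  intro κ hκ
  cases hi : col i
  · obtain ⟨Ψ, hΨ⟩ := h1 i κ (fun q => by
      obtain ⟨ψ, hψ⟩ := hκ q
      refine ⟨ψ, fun F w hq hw hl => ?_⟩
      have h3 : HP s w := ⟨hw.1, by rw [hl]; exact hi⟩
      have h4 := pst_hp (hp := hp) (hP := hP) (ht := ht) h3
      rw [hψ F w hq ⟨h4.1, hw.2⟩ (h4.2.1.trans hl), h4.2.2])
    refine ⟨Ψ, fun F x hx hl => ?_⟩
    have h3 : HP s x := pst_hp_iff.1 ⟨hx.1, by rw [hl]; exact hi⟩
    have h4 := pst_hp (hp := hp) (hP := hP) (ht := ht) h3
    rw [hΨ F x ⟨h3.1, hx.2⟩ (h4.2.1.symm.trans hl), h4.2.2]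
  · obtain ⟨Ψ, hΨ⟩ := h2 i (fun F w => κ F (ph s c w)) (fun q => by
      obtain ⟨ψ, hψ⟩ := hκ q
      refine ⟨fun w => ψ (ph s c w), fun F w hq hw hl => ?_⟩
      have h3 : w ∈ kA t := mem_kA.2 ⟨hw.1, by rw [hl]; exact hi⟩
      have h4 := pst_ph (hp := hp) (hP := hP) (ht := ht) h3
      rw [hψ F (ph s c w) hq ⟨h4.1, (ph_on hp (ht hw.1) F).2 hw.2⟩ (h4.2.1.trans hl), h4.2.2])
    refine ⟨fun x => Ψ (iv s t c x), fun F x hx hl => ?_⟩
    obtain ⟨w, hw, rfl⟩ := pst_true hx.1 (by rw [hl]; exact hi)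
    have h4 := pst_ph (hp := hp) (hP := hP) (ht := ht) hw
    have hwF : w ∈ M.On F := (ph_on hp (ht (mem_kA.1 hw).1) F).1 hx.2
    have h5 : t.mu F w ∈ kA t := mem_kA.2 ⟨(t.mu_mem (mem_kA.1 hw).1 hwF).1, by
      rw [t.mu_lab (mem_kA.1 hw).1 hwF]; exact (mem_kA.1 hw).2⟩
    show κ F (ph s c w) = Ψ (iv s t c (ph s c w)) + Ψ (iv s t c ((pst hp hP ht).mu F (ph s c w)))
    rw [h4.2.2, iv_ph hp hP ht hw, iv_ph hp hP ht h5]
    exact hΨ F w ⟨(mem_kA.1 hw).1, hwF⟩ (h4.2.1.symm.trans hl)

theorem pst_Conn (h1 : ∀ i, s.Conn i) (h2 : ∀ i, t.Conn i) (i : I) :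
    (pst hp hP ht).Conn i := by
  cases hi : col i
  · obtain ⟨⟨w, hw, hl⟩, hc⟩ := h1 i
    have h3 : HP s w := ⟨hw, by rw [hl]; exact hi⟩
    have h4 := pst_hp (hp := hp) (hP := hP) (ht := ht) h3
    refine ⟨⟨w, h4.1, h4.2.1.trans hl⟩, ?_⟩
    intro X hX x hx hxP hxl y hyP hyl
    have h5 : HP s x := pst_hp_iff.1 ⟨hxP, by rw [hxl]; exact hi⟩
    have h6 : HP s y := pst_hp_iff.1 ⟨hyP, by rw [hyl]; exact hi⟩
    rw [(pst_hp h5).2.1] at hxl
    rw [(pst_hp h6).2.1] at hyl
    refine hc X ?_ x hx h5.1 hxl y h6.1 hyl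
    intro F u hu hat hul
    have h7 : HP s u := ⟨hat.1, by rw [hul]; exact hi⟩
    have h8 := pst_hp (hp := hp) (hP := hP) (ht := ht) h7
    rw [← h8.2.2]
    exact hX F u hu ⟨h8.1, hat.2⟩ (h8.2.1.trans hul)
  · obtain ⟨⟨w, hw, hl⟩, hc⟩ := h2 i
    have h3 : w ∈ kA t := mem_kA.2 ⟨hw, by rw [hl]; exact hi⟩
    have h4 := pst_ph (hp := hp) (hP := hP) (ht := ht) h3
    refine ⟨⟨_, h4.1, h4.2.1.trans hl⟩, ?_⟩
    intro X hX x hx hxP hxl y hyP hyl
    obtain ⟨u, hu, rfl⟩ := pst_true hxP (by rw [hxl]; exact hi)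
    obtain ⟨v, hv, rfl⟩ := pst_true hyP (by rw [hyl]; exact hi)
    rw [(pst_ph hu).2.1] at hxl
    rw [(pst_ph hv).2.1] at hyl
    refine hc {w | ph s c w ∈ X} ?_ u hx (mem_kA.1 hu).1 hxl v (mem_kA.1 hv).1 hyl
    intro F w' hw' hat hwl
    have h7 : w' ∈ kA t := mem_kA.2 ⟨hat.1, by rw [hwl]; exact hi⟩
    have h8 := pst_ph (hp := hp) (hP := hP) (ht := ht) h7
    show ph s c (t.mu F w') ∈ X
    rw [← h8.2.2]
    exact hX F _ hw' ⟨h8.1, (ph_on hp (ht hat.1) F).2 hat.2⟩ (h8.2.1.trans hwl)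

end comb

end Crest.Agent.R096.Sec_892
end

-- ▼ part R096/Sec2_892
section

/-!
# R096 / DOORS-SEC, part 2 (helper892): the double points of the pushed state

`cross` : a pushed chord of the exchange which crosses a barrier chord passes through an old double
point of this barrier chord, with its dart of colour `true` on the side opposite to the push.
-/

set_option autoImplicit false

namespace Crest.Agent.R096.Sec_892

open Crest.Agent.R096.St_147 Crest.Agent.R096.Wk_689 Crest.Agent.R096.F_422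

variable {ι Φ W I : Type} {M : MeshC ι Φ W} {col : I → Bool}

section order

/-- real version of `Btw` -/
def Bt (p q x : ℝ) : Prop := (p < x ∧ x < q) ∨ (q < x ∧ x < p)

theorem bt_in {p q a a' y : ℝ} (h1 : Bt p q a) (h2 : Bt p q a') (h3 : ¬ Bt p q y) :
    ¬ Bt a a' y := by
  intro h
  apply h3
  unfold Bt at *
  rcases h1 with ⟨_, _⟩ | ⟨_, _⟩ <;> rcases h2 with ⟨_, _⟩ | ⟨_, _⟩ <;>
    rcases h with ⟨_, _⟩ | ⟨_, _⟩ <;>
    first
    | (left; constructor <;> linarith)
    | (right; constructor <;> linarith)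

theorem bt_out1 {p q a y y' : ℝ} (h1 : ¬ Bt p q a) (h2 : Bt p q y) (h3 : Bt p q y') :
    (a < y ↔ a < y') ∧ (y < a ↔ y' < a) := by
  unfold Bt at *
  rcases h2 with ⟨_, _⟩ | ⟨_, _⟩ <;> rcases h3 with ⟨_, _⟩ | ⟨_, _⟩
  · refine ⟨⟨fun h => ?_, fun h => ?_⟩, ⟨fun h => ?_, fun h => ?_⟩⟩ <;>
    · by_contra h'
      exact h1 (Or.inl ⟨by linarith, by linarith⟩)
  · linarith
  · linarith
  · refine ⟨⟨fun h => ?_, fun h => ?_⟩, ⟨fun h => ?_, fun h => ?_⟩⟩ <;>
    · by_contra h'
      exact h1 (Or.inr ⟨by linarith, by linarith⟩)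

theorem bt_out {p q a a' y y' : ℝ} (h1 : ¬ Bt p q a) (h1' : ¬ Bt p q a') (h2 : Bt p q y)
    (h3 : Bt p q y') : Bt a a' y ↔ Bt a a' y' := by
  have e1 := bt_out1 h1 h2 h3
  have e2 := bt_out1 h1' h2 h3
  unfold Bt
  rw [e1.1, e1.2, e2.1, e2.2]

/-- interlaced pairs, both not separated by `p, q`, are on the same side of `p, q` -/
theorem bt_same {p q a a' y y' : ℝ} (h1 : Bt p q a ↔ Bt p q a') (h2 : Bt p q y ↔ Bt p q y')
    (h3 : ¬ (Bt a a' y ↔ Bt a a' y')) : Bt p q a ↔ Bt p q y := by
  by_cases ha : Bt p q a <;> by_cases hy : Bt p q y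
  · exact ⟨fun _ => hy, fun _ => ha⟩
  · exfalso
    apply h3
    have e1 := bt_in ha (h1.1 ha) hy
    have e2 := bt_in ha (h1.1 ha) (fun h => hy (h2.2 h))
    exact ⟨fun h => absurd h e1, fun h => absurd h e2⟩
  · exact absurd (bt_out ha (fun h => ha (h1.2 h)) hy (h2.1 hy)) h3
  · exact ⟨fun h => absurd h ha, fun h => absurd h hy⟩

theorem bt_comm {p q a a' : ℝ} (h1 : p ≠ a) (h2 : p ≠ a') (h3 : q ≠ a) (h4 : q ≠ a')
    (h : Bt p q a ↔ Bt p q a') : Bt a a' p ↔ Bt a a' q := by
  unfold Bt at *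
  rcases lt_or_gt_of_ne h1 with d1 | d1 <;> rcases lt_or_gt_of_ne h2 with d2 | d2 <;>
    rcases lt_or_gt_of_ne h3 with d3 | d3 <;> rcases lt_or_gt_of_ne h4 with d4 | d4 <;>
    simp [d1, d2, d3, d4, not_lt.2 d1.le, not_lt.2 d2.le, not_lt.2 d3.le, not_lt.2 d4.le] at h ⊢

end order

theorem lace_comm {s : St M col} {F : Φ} {u v x y : W} (hu : s.At F u) (hv : s.At F v)
    (hx : s.At F x) (hy : s.At F y) (h1 : u ≠ x) (h2 : u ≠ y) (h3 : v ≠ x) (h4 : v ≠ y)
    (h : M.Lace F u v x y) : M.Lace F x y u v := by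
  intro h'
  exact h (bt_comm (pos_ne s hx hu h1.symm) (pos_ne s hx hv h3.symm)
    (pos_ne s hy hu h2.symm) (pos_ne s hy hv h4.symm) h')

section side

variable {s : St M col} {up : Φ → W → Bool} {Ph : Finset W} {b : Bool} {c : W → W}

theorem btw_low {F : Φ} {x x' u : W} (h : M.pos F x < M.pos F x') :
    M.Btw F x x' u ↔ M.pos F x < M.pos F u ∧ M.pos F u < M.pos F x' := by
  unfold MeshC.Btw
  constructor
  · rintro (h1 | h1)
    · exact h1
    · exact absurd (h1.1.trans h1.2) (not_lt.2 h.le)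
  · exact Or.inl

theorem Push.ne (hp : Push s up Ph b c) (hP : s.P ⊆ Ph) {F : Φ} {w v : W} (hw : HP s w)
    (hF : w ∈ M.On F) (hv : s.At F v) : M.pos F (c w) ≠ M.pos F v := by
  intro h
  have := M.pos_inj F ((hp.on F hw).2 hF) hv.2 h
  exact hp.nin hw (by rw [this]; exact hP hv.1)

/-- the parallel copy of the lower end -/
theorem inC1 (hp : Push s up Ph b c) (hP : s.P ⊆ Ph) {F : Φ} {x : W} (hx : HP s x)
    (hxF : x ∈ M.On F) (hlow : M.pos F x < M.pos F (s.mu F x)) :
    M.Btw F x (s.mu F x) (c x) ↔ M.pos F x < M.pos F (c x) := by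
  have hm := s.mu_mem hx.1 hxF
  have h1 := (hp.adj' hx hxF (hP hm.1) hm.2 (s.mu_ne hx.1 hxF)).1 hlow
  rw [btw_low hlow]
  exact ⟨fun h => h.1, fun h => ⟨h, h1⟩⟩

/-- the parallel copy of the upper end -/
theorem inC2 (hp : Push s up Ph b c) (hP : s.P ⊆ Ph) (h2 : Two s up) {F : Φ} {x : W}
    (hx : HP s x) (hxF : x ∈ M.On F) (hlow : M.pos F x < M.pos F (s.mu F x)) :
    M.Btw F x (s.mu F x) (c (s.mu F x)) ↔ M.pos F x < M.pos F (c x) := by
  have hm := s.mu_mem hx.1 hxF
  have hm' := hp_mu hx hxF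
  have h1 := (hp.adj hm' hm.2 (hP hx.1) hxF (s.mu_ne hx.1 hxF).symm).1 hlow
  have h3 := hp.side hx hxF
  have h4 := hp.side hm' hm.2
  have h5 := Push.ne hp hP hm' hm.2 hm
  rw [h2 hx hxF] at h4
  rw [btw_low hlow]
  constructor
  · rintro ⟨-, h6⟩
    rw [h3]
    by_contra h7
    have h8 : (!up F x) = b := by
      revert h7
      cases up F x <;> cases b <;> simp
    exact lt_asymm h6 (h4.2 h8)
  · intro h6
    refine ⟨h1, lt_of_le_of_ne (not_lt.1 fun h7 => ?_) h5⟩
    have h8 := h4.1 h7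
    rw [h3.1 h6] at h8
    revert h8
    cases b <;> simp

theorem side_ph (hp : Push s up Ph b c) (hP : s.P ⊆ Ph) {F : Φ} {p q u : W} (hu : s.At F u)
    (hpP : p ∈ Ph) (hpF : p ∈ M.On F) (hqP : q ∈ Ph) (hqF : q ∈ M.On F) (h1 : p ≠ u)
    (h2 : q ≠ u) : M.Btw F p q (ph s c u) ↔ M.Btw F p q u := by
  cases hc : col (s.lab u)
  · rw [ph_pos hc]
    have hu' : HP s u := ⟨hu.1, hc⟩
    unfold MeshC.Btw
    rw [hp.adj hu' hu.2 hpP hpF h1, hp.adj hu' hu.2 hqP hqF h2, hp.adj' hu' hu.2 hpP hpF h1,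
      hp.adj' hu' hu.2 hqP hqF h2]
  · rw [ph_neg hc]

/-- a barrier chord is on one side of another one -/
theorem side_nc {F : Φ} {x y : W} (hx : HP s x) (hxF : x ∈ M.On F) (hy : HP s y)
    (hyF : y ∈ M.On F) (h1 : y ≠ x) (h2 : y ≠ s.mu F x) :
    M.Btw F x (s.mu F x) y ↔ M.Btw F x (s.mu F x) (s.mu F y) := by
  have := s.nc hx.1 hxF hy.1 hyF (hx.2.trans hy.2.symm) h1 h2
  unfold MeshC.Lace at this
  exact not_not.1 this

variable (s c) in
/-- side of the node of a dart with respect to the barrier chord of `x` -/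
def sd (F : Φ) (x : W) (d : Dart s) : Prop :=
  (node d = none ∧ M.Btw F x (s.mu F x) (ph s c (pt d))) ∨
  ∃ z, node d = some z ∧ ((z.e false = x ∧ M.pos F x < M.pos F (c x)) ∨
     (z.e false ≠ x ∧ M.Btw F x (s.mu F x) (z.e false)))

theorem sd_none {F : Φ} {x : W} {d : Dart s} (h : node d = none) :
    sd s c F x d ↔ M.Btw F x (s.mu F x) (ph s c (pt d)) := by
  constructor
  · rintro (h1 | ⟨z, h1, -⟩)
    · exact h1.2
    · rw [h] at h1; exact absurd h1 (by simp)
  · intro h1; exact Or.inl ⟨h, h1⟩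

theorem sd_eq {F : Φ} {x : W} {d : Dart s} {z : s.Dbl} (h : node d = some z)
    (hz : z.e false = x) : sd s c F x d ↔ M.pos F x < M.pos F (c x) := by
  constructor
  · rintro (h1 | ⟨z', h1, h2⟩)
    · rw [h] at h1; exact absurd h1.1 (by simp)
    · rw [h] at h1
      obtain rfl := Option.some.inj h1
      rcases h2 with h2 | h2
      · exact h2.2
      · exact absurd hz h2.1
  · intro h1; exact Or.inr ⟨z, h, Or.inl ⟨hz, h1⟩⟩

theorem sd_ne {F : Φ} {x : W} {d : Dart s} {z : s.Dbl} (h : node d = some z)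
    (hz : z.e false ≠ x) : sd s c F x d ↔ M.Btw F x (s.mu F x) (z.e false) := by
  constructor
  · rintro (h1 | ⟨z', h1, h2⟩)
    · rw [h] at h1; exact absurd h1.1 (by simp)
    · rw [h] at h1
      obtain rfl := Option.some.inj h1
      rcases h2 with h2 | h2
      · exact absurd h2.1 hz
      · exact h2.2
  · intro h1; exact Or.inr ⟨z, h, Or.inr ⟨hz, h1⟩⟩

theorem node_tt {G : Set s.Dbl} {inn : s.Dbl → Bool → Bool} (d : Dart s) :
    node (tt G inn d) = node d := by
  rcases hn : node d with _ | z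
  · rw [tt_none hn, hn]
  · have h := eq_dz hn
    rw [h]
    by_cases hz : z ∈ G
    · rw [tt_dz_in hz, node_dz]
    · rw [tt_dz_out hz, node_dz]

theorem sd_congr {F : Φ} {x : W} {d d' : Dart s} {z : s.Dbl} (h : node d = some z)
    (h' : node d' = some z) : sd s c F x d ↔ sd s c F x d' := by
  by_cases hz : z.e false = x
  · rw [sd_eq h hz, sd_eq h' hz]
  · rw [sd_ne h hz, sd_ne h' hz]

theorem sd_tt {G : Set s.Dbl} {inn : s.Dbl → Bool → Bool} {F : Φ} {x : W} (d : Dart s) :
    sd s c F x (tt G inn d) ↔ sd s c F x d := by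
  rcases hn : node d with _ | z
  · rw [tt_none hn]
  · exact sd_congr (by rw [node_tt, hn]) hn

open Classical in
/-- pieces of colour `false` -/
theorem sd_false (hp : Push s up Ph b c) (hP : s.P ⊆ Ph) (h2 : Two s up) {F : Φ} {x : W}
    (hx : HP s x) (hxF : x ∈ M.On F) (hlow : M.pos F x < M.pos F (s.mu F x)) (p : s.Sub false)
    (hF : (chd p).1 = F) (β : Bool) :
    sd s c F x ⟨false, p, β⟩ ↔ if (chd p).2 = x then M.pos F x < M.pos F (c x) else
      M.Btw F x (s.mu F x) (chd p).2 := by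
  have hat := chd_at p
  have hl := chd_low p
  have hc := chd_col p
  rw [hF] at hat hl
  have hy : HP s (chd p).2 := ⟨hat.1, hc⟩
  -- the node, if any, lies on the chord of `p`
  have hnode : ∀ z, node (⟨false, p, β⟩ : Dart s) = some z → z.e false = (chd p).2 := by
    intro z hz
    have h3 := eq_dz hz
    cases β
    · have h4 : p = abv z false := prv_some.1 hz
      rw [h4]; rfl
    · have h4 : p = bel z false := nxt_some.1 hz
      rw [h4, below_chd (bel_spec z false)]
  have hm := s.mu_mem hat.1 hat.2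
  have hmy := hp_mu hy hat.2
  have hx' := s.mu_mem hx.1 hxF
  by_cases he : (chd p).2 = x
  · rw [if_pos he]
    rcases hn : node (⟨false, p, β⟩ : Dart s) with _ | z
    · rw [sd_none hn]
      cases β
      · show M.Btw F x (s.mu F x) (ph s c (chd p).2) ↔ _
        rw [he, ph_pos hx.2]
        exact inC1 hp hP hx hxF hlow
      · show M.Btw F x (s.mu F x) (ph s c (s.mu (chd p).1 (chd p).2)) ↔ _
        rw [hF, he, ph_pos (hp_mu hx hxF).2]
        exact inC2 hp hP h2 hx hxF hlow
    · rw [sd_eq hn ((hnode z hn).trans he)]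
  · rw [if_neg he]
    have hne' : (chd p).2 ≠ s.mu F x := by
      intro h
      rw [h, s.mu_mu hx.1 hxF] at hl
      exact lt_asymm hl hlow
    rcases hn : node (⟨false, p, β⟩ : Dart s) with _ | z
    · rw [sd_none hn]
      cases β
      · show M.Btw F x (s.mu F x) (ph s c (chd p).2) ↔ _
        exact side_ph hp hP hat (hP hx.1) hxF (hP hx'.1) hx'.2 (Ne.symm he) (Ne.symm hne')
      · show M.Btw F x (s.mu F x) (ph s c (s.mu (chd p).1 (chd p).2)) ↔ _
        rw [hF, side_nc hx hxF hy hat.2 he hne']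
        refine side_ph hp hP hm (hP hx.1) hxF (hP hx'.1) hx'.2 ?_ ?_
        · intro h
          exact hne' (by rw [h, s.mu_mu hat.1 hat.2])
        · intro h
          have := congrArg (s.mu F) h
          rw [s.mu_mu hat.1 hat.2, s.mu_mu hx.1 hxF] at this
          exact he this.symm
    · rw [sd_ne hn (by rw [hnode z hn]; exact he), hnode z hn]

/-- pieces of colour `true`: the node lies on the chord -/
theorem true_node {F : Φ} {a : W} {p : s.Sub true} (hp : chd p = (F, a)) {β : Bool} {z : s.Dbl}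
    (hz : node (⟨true, p, β⟩ : Dart s) = some z) : z.F = F ∧ z.e true = a := by
  cases β
  · have h4 : p = abv z true := prv_some.1 hz
    rw [h4] at hp
    exact ⟨congrArg Prod.fst hp, congrArg Prod.snd hp⟩
  · have h4 : p = bel z true := nxt_some.1 hz
    rw [h4, below_chd (bel_spec z true)] at hp
    exact ⟨congrArg Prod.fst hp, congrArg Prod.snd hp⟩

theorem col_ne {F : Φ} {x a : W} (hx : HP s x) (hxF : x ∈ M.On F) (ha : s.At F a)
    (hc : col (s.lab a) = true) : x ≠ a ∧ x ≠ s.mu F a ∧ s.mu F x ≠ a ∧ s.mu F x ≠ s.mu F a := by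
  have h1 := hx.2
  have h2 := (hp_mu hx hxF).2
  have h3 := s.mu_lab ha.1 ha.2
  refine ⟨?_, ?_, ?_, ?_⟩
  · intro h; rw [h, hc] at h1; exact absurd h1 (by simp)
  · intro h; rw [h, h3, hc] at h1; exact absurd h1 (by simp)
  · intro h; rw [h, hc] at h2; exact absurd h2 (by simp)
  · intro h; rw [h, h3, hc] at h2; exact absurd h2 (by simp)

/-- a double point on a chord which does not cross the barrier chord of `x` -/
theorem true_nolace {F : Φ} {x a : W} (hx : HP s x) (hxF : x ∈ M.On F)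
    (hlow : M.pos F x < M.pos F (s.mu F x))
    (hnl : M.Btw F x (s.mu F x) a ↔ M.Btw F x (s.mu F x) (s.mu F a)) {z : s.Dbl} (hzF : z.F = F)
    (hza : z.e true = a) :
    z.e false ≠ x ∧ (M.Btw F x (s.mu F x) (z.e false) ↔ M.Btw F x (s.mu F x) a) := by
  subst hzF
  subst hza
  have ha := z.at_ true
  have hy := z.at_ false
  have hne := col_ne hx hxF ha (z.colr true)
  have h1 : z.e false ≠ x := by
    intro h
    have hl := z.lace
    rw [h] at hl
    exact lace_comm ha (At.mu s ha) ⟨hx.1, hxF⟩ (At.mu s ⟨hx.1, hxF⟩) hne.1.symm hne.2.2.1.symm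
      hne.2.1.symm hne.2.2.2.symm hl hnl
  have h2 : z.e false ≠ s.mu z.F x := by
    intro h
    have hl := z.low false
    rw [h, s.mu_mu hx.1 hxF] at hl
    exact lt_asymm hl hlow
  exact ⟨h1, (bt_same hnl (side_nc hx hxF ⟨hy.1, z.colr false⟩ hy.2 h1 h2) z.lace).symm⟩

/-- double points on a chord which crosses the barrier chord of `x` in `zh` -/
theorem true_lace {F : Φ} {x a : W} (hx : HP s x) (hxF : x ∈ M.On F)
    (hlow : M.pos F x < M.pos F (s.mu F x))
    (hl : ¬ (M.Btw F x (s.mu F x) a ↔ M.Btw F x (s.mu F x) (s.mu F a))) {z zh : s.Dbl}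
    (hzF : z.F = F) (hza : z.e true = a) (hhF : zh.F = F) (hha : zh.e true = a)
    (hhx : zh.e false = x) (hne : z.e false ≠ x) :
    (z.key true < zh.key true →
      (M.Btw F x (s.mu F x) (z.e false) ↔ M.Btw F x (s.mu F x) a)) ∧
    (zh.key true < z.key true →
      (M.Btw F x (s.mu F x) (z.e false) ↔ M.Btw F x (s.mu F x) (s.mu F a))) := by
  have k1 := key_mem z true
  have k2 := key_mem zh true
  have hy := z.at_ false
  rw [hzF] at hy
  have hlz := z.low false
  rw [hzF] at hlz
  have h2 : z.e false ≠ s.mu F x := by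
    intro h
    rw [h, s.mu_mu hx.1 hxF] at hlz
    exact lt_asymm hlz hlow
  have hnc := side_nc hx hxF ⟨hy.1, z.colr false⟩ hy.2 hne h2
  -- the point `kp`
  have e1 : M.Btw F x (s.mu F x) (z.e false) ↔ M.Btw F x (s.mu F x) (kp z true) := by
    unfold kp
    split_ifs
    · exact Iff.rfl
    · rw [hzF]; exact hnc
  have e2 : kp zh true = x ∨ kp zh true = s.mu F x := by
    unfold kp
    split_ifs
    · left; exact hhx
    · right
      show s.mu zh.F (zh.e false) = _
      rw [hhF, hhx]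
  rw [key_eq] at k1 k2
  rw [key_eq, key_eq, e1]
  rw [hzF, hza] at k1
  rw [hhF, hha] at k2
  rw [hzF, hhF]
  rw [btw_low hlow, btw_low hlow, btw_low hlow]
  rw [btw_low hlow, btw_low hlow] at hl
  generalize M.pos F (kp z true) = k at *
  rcases e2 with e2 | e2
  · rw [e2] at k2 ⊢
    generalize M.pos F x = X at *
    generalize M.pos F (s.mu F x) = X' at *
    generalize M.pos F a = A at *
    generalize M.pos F (s.mu F a) = A' at *
    have h3 : ¬ (X < A ∧ A < X') := fun h => by linarith [h.1]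
    have h4 : X < A' ∧ A' < X' := by
      by_contra h5
      exact hl ⟨fun h => absurd h h3, fun h => absurd h h5⟩
    constructor
    · intro h6
      exact ⟨fun h => by linarith [h.1], fun h => by linarith [h.1]⟩
    · intro h6
      exact ⟨fun _ => h4, fun _ => ⟨h6, by linarith [h4.2]⟩⟩
  · rw [e2] at k2 ⊢
    generalize M.pos F x = X at *
    generalize M.pos F (s.mu F x) = X' at *
    generalize M.pos F a = A at *
    generalize M.pos F (s.mu F a) = A' at *
    have h3 : ¬ (X < A' ∧ A' < X') := fun h => by linarith [h.2]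
    have h4 : X < A ∧ A < X' := by
      by_contra h5
      exact hl ⟨fun h => absurd h h5, fun h => absurd h h3⟩
    constructor
    · intro h6
      exact ⟨fun _ => h4, fun _ => ⟨by linarith [h4.1], h6⟩⟩
    · intro h6
      exact ⟨fun h => by linarith [h.2], fun h => by linarith [h.2]⟩

/-- pieces of colour `true` -/
theorem sd_true {F : Φ} {x : W} (hx : HP s x) (hxF : x ∈ M.On F)
    (hlow : M.pos F x < M.pos F (s.mu F x)) (p : s.Sub true) (hF : (chd p).1 = F)
    (hno : ∀ (z : s.Dbl) (β : Bool), z.F = F → z.e false = x →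
      (dz z true β = ⟨true, p, false⟩ ∨ dz z true β = ⟨true, p, true⟩) →
      (M.Btw F x (s.mu F x) (pt (flip (dz z true β))) ↔ M.pos F x < M.pos F (c x))) :
    sd s c F x ⟨true, p, false⟩ ↔ sd s c F x ⟨true, p, true⟩ := by
  have hat := chd_at p
  have hlp := chd_low p
  have hc := chd_col p
  obtain ⟨a, ha⟩ : ∃ a, chd p = (F, a) := ⟨(chd p).2, Prod.ext hF rfl⟩
  rw [ha] at hat hlp hc
  change s.At F a at hat
  change M.pos F a < M.pos F (s.mu F a) at hlp
  change col (s.lab a) = true at hc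
  have hat' := At.mu s hat
  have hc' : col (s.lab (s.mu F a)) = true := by rw [s.mu_lab hat.1 hat.2]; exact hc
  have hneq := col_ne hx hxF hat hc
  -- ends
  have n0 : node (⟨true, p, false⟩ : Dart s) = none →
      (sd s c F x ⟨true, p, false⟩ ↔ M.Btw F x (s.mu F x) a) := by
    intro h
    rw [sd_none h]
    show M.Btw F x (s.mu F x) (ph s c (chd p).2) ↔ _
    rw [ha, ph_neg hc]
  have n1 : node (⟨true, p, true⟩ : Dart s) = none →
      (sd s c F x ⟨true, p, true⟩ ↔ M.Btw F x (s.mu F x) (s.mu F a)) := by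
    intro h
    rw [sd_none h]
    show M.Btw F x (s.mu F x) (ph s c (s.mu (chd p).1 (chd p).2)) ↔ _
    rw [ha, ph_neg hc']
  by_cases hl : (M.Btw F x (s.mu F x) a ↔ M.Btw F x (s.mu F x) (s.mu F a))
  · have key : ∀ β z, node (⟨true, p, β⟩ : Dart s) = some z →
        (sd s c F x ⟨true, p, β⟩ ↔ M.Btw F x (s.mu F x) a) := by
      intro β z hz
      obtain ⟨h1, h2⟩ := true_node ha hz
      obtain ⟨h3, h4⟩ := true_nolace hx hxF hlow hl h1 h2
      rw [sd_ne hz h3, h4]
    have e0 : sd s c F x ⟨true, p, false⟩ ↔ M.Btw F x (s.mu F x) a := by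
      rcases hn : node (⟨true, p, false⟩ : Dart s) with _ | z
      · exact n0 hn
      · exact key _ z hn
    have e1 : sd s c F x ⟨true, p, true⟩ ↔ M.Btw F x (s.mu F x) a := by
      rcases hn : node (⟨true, p, true⟩ : Dart s) with _ | z
      · rw [n1 hn, hl]
      · exact key _ z hn
    rw [e0, e1]
  · -- the double point of the two chords
    obtain ⟨zh, hhF, hha, hhx⟩ : ∃ zh : s.Dbl, zh.F = F ∧ zh.e true = a ∧ zh.e false = x := by
      refine ⟨⟨F, fun y => match y with | true => a | false => x, ?_, ?_, ?_, ?_⟩, rfl, rfl, rfl⟩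
      · intro y; cases y; exacts [⟨hx.1, hxF⟩, hat]
      · intro y; cases y; exacts [hlow, hlp]
      · intro y; cases y; exacts [hx.2, hc]
      · exact lace_comm ⟨hx.1, hxF⟩ (At.mu s ⟨hx.1, hxF⟩) hat hat' hneq.1 hneq.2.1 hneq.2.2.1
          hneq.2.2.2 hl
    have huniq : ∀ z : s.Dbl, z.F = F → z.e true = a → z.e false = x → z = zh := by
      intro z h1 h2 h3
      apply Dbl.ext' s (h1.trans hhF.symm)
      funext y
      cases y
      · exact h3.trans hhx.symm
      · exact h2.trans hha.symm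
    -- value at a node different from `zh`
    have hval : ∀ β z, node (⟨true, p, β⟩ : Dart s) = some z → z ≠ zh →
        (z.key true < zh.key true → (sd s c F x ⟨true, p, β⟩ ↔ M.Btw F x (s.mu F x) a)) ∧
        (zh.key true < z.key true →
          (sd s c F x ⟨true, p, β⟩ ↔ M.Btw F x (s.mu F x) (s.mu F a))) := by
      intro β z hz hne
      obtain ⟨h1, h2⟩ := true_node ha hz
      have h3 : z.e false ≠ x := fun h => hne (huniq z h1 h2 h)
      have h4 := true_lace hx hxF hlow hl h1 h2 hhF hha hhx h3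
      rw [sd_ne hz h3]
      exact h4
    have hkne : ∀ z : s.Dbl, z.F = F → z.e true = a → z ≠ zh → z.key true ≠ zh.key true := by
      intro z h1 h2 h3 h4
      exact h3 (key_inj (h1.trans hhF.symm) (h2.trans hha.symm) h4)
    by_cases hpz : p = Sum.inr zh
    · -- the piece starts at `zh`
      have hn0 : node (⟨true, p, false⟩ : Dart s) = some zh := prv_some.2 hpz
      rw [sd_eq hn0 hhx]
      have h5 := hno zh false hhF hhx (Or.inl (by rw [hpz]; rfl))
      have h6 : pt (flip (dz zh true false)) = s.mu F a := by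
        show s.mu zh.F (zh.e true) = _
        rw [hhF, hha]
      rw [h6] at h5
      rw [← h5]
      rcases hn : node (⟨true, p, true⟩ : Dart s) with _ | z
      · rw [n1 hn]
      · obtain ⟨h1, h2⟩ := true_node ha hn
        have h7 : p.Below z := below_iff.2 (nxt_some.1 hn)
        have h8 := (below_start h7).1
        rw [hpz] at h8
        change zh.key true < z.key true at h8
        exact ((hval true z hn (fun h => by rw [h] at h8; exact lt_irrefl _ h8)).2 h8).symm
    · -- lower end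
      have hlo : start p < zh.key true →
          (sd s c F x ⟨true, p, false⟩ ↔ M.Btw F x (s.mu F x) a) := by
        intro h
        rcases hn : node (⟨true, p, false⟩ : Dart s) with _ | z
        · exact n0 hn
        · have h7 : p = Sum.inr z := prv_some.1 hn
          have h8 : start p = z.key true := by rw [h7]; rfl
          rw [h8] at h
          exact (hval false z hn (fun h' => by rw [h'] at h; exact lt_irrefl _ h)).1 h
      have hchd : chd (Sum.inr zh : s.Sub true) = chd p := by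
        rw [ha]
        exact Prod.ext hhF hha
      have hsne : start p ≠ zh.key true := by
        intro h
        exact hpz (start_inj hchd.symm h)
      rcases lt_or_gt_of_ne hsne with hs | hs
      · rw [hlo hs]
        rcases hn : node (⟨true, p, true⟩ : Dart s) with _ | z
        · exfalso
          have h7 : IsTop p := nxt_none.1 hn
          exact absurd hs (not_lt.2 (top_iff.1 h7 _ hchd))
        · obtain ⟨h1, h2⟩ := true_node ha hn
          have h7 : p.Below z := below_iff.2 (nxt_some.1 hn)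
          by_cases hzz : z = zh
          · subst hzz
            rw [sd_eq hn hhx]
            have h5 := hno z true hhF hhx (Or.inr (by
              have h9 : p = bel z true := nxt_some.1 hn
              rw [h9]; rfl))
            have h6 : pt (flip (dz z true true)) = a := by
              show (chd (bel z true)).2 = _
              rw [below_chd (bel_spec z true)]
              exact hha
            rw [h6] at h5
            exact h5
          · have h8 := (below_start h7).2 _ hchd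
            have h9 : z.key true < zh.key true := by
              rcases lt_or_gt_of_ne (hkne z h1 h2 hzz) with h | h
              · exact h
              · exact absurd ⟨hs, h⟩ h8
            exact ((hval true z hn hzz).1 h9).symm
      · -- after `zh`
        have e0 : sd s c F x ⟨true, p, false⟩ ↔ M.Btw F x (s.mu F x) (s.mu F a) := by
          rcases hn : node (⟨true, p, false⟩ : Dart s) with _ | z
          · exfalso
            cases p with
            | inl q =>
              have h9 : start (Sum.inl q : s.Sub true) = M.pos F a := by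
                have : q.1 = (F, a) := ha
                show M.pos q.1.1 q.1.2 = _
                rw [this]
              have k2 := (key_mem zh true).1
              rw [hhF, hha] at k2
              rw [h9] at hs
              exact lt_asymm hs k2
            | inr z => exact absurd hn (by simp [node, prv])
          · have h7 : p = Sum.inr z := prv_some.1 hn
            have h8 : start p = z.key true := by rw [h7]; rfl
            rw [h8] at hs
            exact (hval false z hn (fun h' => by rw [h'] at hs; exact lt_irrefl _ hs)).2 hs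
        rw [e0]
        rcases hn : node (⟨true, p, true⟩ : Dart s) with _ | z
        · rw [n1 hn]
        · have h7 : p.Below z := below_iff.2 (nxt_some.1 hn)
          have h8 := (below_start h7).1
          have h9 := lt_trans hs h8
          exact ((hval true z hn (fun h' => by rw [h'] at h9; exact lt_irrefl _ h9)).2 h9).symm

end side

section main

variable {s : St M col} {up : Φ → W → Bool} {Ph : Finset W} {b : Bool} {c : W → W}
variable {G : Set s.Dbl} {inn : s.Dbl → Bool → Bool}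

/-- **a pushed chord which crosses a barrier chord** passes through an old double point of this
barrier chord, on the side opposite to the push -/
theorem cross (hp : Push s up Ph b c) (hP : s.P ⊆ Ph) (h2 : Two s up) {F : Φ} {x : W}
    (hx : HP s x) (hxF : x ∈ M.On F) (hlow : M.pos F x < M.pos F (s.mu F x)) {v : W}
    (hv : s.At F v) (hl : ¬ (M.Btw F x (s.mu F x) (ph s c v) ↔
      M.Btw F x (s.mu F x) (ph s c (mu' G inn F v)))) :
    ∃ (z : s.Dbl) (β : Bool), z.F = F ∧ z.e false = x ∧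
      orb G inn (dz z true β) = orb G inn (ed hv) ∧
      ¬ (M.Btw F x (s.mu F x) (pt (flip (dz z true β))) ↔ M.pos F x < M.pos F (c x)) := by
  by_contra hcon
  have hcon' : ∀ (z : s.Dbl) (β : Bool), z.F = F → z.e false = x →
      orb G inn (dz z true β) = orb G inn (ed hv) →
      (M.Btw F x (s.mu F x) (pt (flip (dz z true β))) ↔ M.pos F x < M.pos F (c x)) := by
    intro z β h1 h2 h3
    by_contra h4
    exact hcon ⟨z, β, h1, h2, h3, h4⟩
  apply hl
  have hv' := mu'_at G inn hv
  have e0 : sd s c F x (ed hv) ↔ M.Btw F x (s.mu F x) (ph s c v) := by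
    rw [sd_none (node_ed hv), pt_ed]
  have e1 : sd s c F x (ed hv') ↔ M.Btw F x (s.mu F x) (ph s c (mu' G inn F v)) := by
    rw [sd_none (node_ed hv'), pt_ed]
  rw [← e0, ← e1]
  have hc := orb_eq_iff.1 (orb_mu' (G := G) (inn := inn) hv).symm
  refine (hc (fun d => (fc d = F ∧ orb G inn d = orb G inn (ed hv)) ∧
    (sd s c F x d ↔ sd s c F x (ed hv))) ?_ ?_ ⟨⟨fc_ed hv, rfl⟩, Iff.rfl⟩).2.symm
  · rintro d ⟨⟨h3, h4⟩, h5⟩
    refine ⟨⟨h3, (orb_flip d).trans h4⟩, Iff.trans ?_ h5⟩
    obtain ⟨y, p, β⟩ := d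
    cases y
    · show sd s c F x ⟨false, p, !β⟩ ↔ sd s c F x ⟨false, p, β⟩
      rw [sd_false hp hP h2 hx hxF hlow p h3, sd_false hp hP h2 hx hxF hlow p h3]
    · have h6 : sd s c F x ⟨true, p, false⟩ ↔ sd s c F x ⟨true, p, true⟩ := by
        apply sd_true hx hxF hlow p h3
        intro z γ h7 h8 h9
        apply hcon' z γ h7 h8
        have h10 : orb G inn (dz z true γ) = lb G inn p := by
          rcases h9 with h9 | h9 <;> rw [h9] <;> exact orb_eq_lb _
        rw [h10, ← h4]
        exact (orb_eq_lb (⟨true, p, β⟩ : Dart s)).symm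
      cases β
      · exact h6.symm
      · exact h6
  · rintro d ⟨⟨h3, h4⟩, h5⟩
    exact ⟨⟨(fc_tt d).trans h3, (orb_tt d).trans h4⟩, (sd_tt d).trans h5⟩

variable {t : St M col} {hp : Push s up Ph b c} {hP : s.P ⊆ Ph} {ht : t.P ⊆ s.P}

/-- **double points of the pushed state** -/
theorem exists_old' (h2 : Two s up) (hmu : ∀ F w, s.At F w → t.mu F w = mu' G inn F w)
    (z' : (pst hp hP ht).Dbl) :
    ∃ (v : W) (hv : s.At z'.F v) (z : s.Dbl) (β : Bool), v ∈ kA t ∧ z'.e true = ph s c v ∧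
      z.F = z'.F ∧ z.e false = z'.e false ∧ orb G inn (dz z true β) = orb G inn (ed hv) ∧
      ¬ (M.Btw z.F (z.e false) (s.mu z.F (z.e false)) (pt (flip (dz z true β))) ↔
        M.pos z.F (z.e false) < M.pos z.F (c (z.e false))) := by
  obtain ⟨v, hv, hve⟩ := pst_true (z'.at_ true).1 (z'.colr true)
  have hx : HP s (z'.e false) := pst_hp_iff.1 ⟨(z'.at_ false).1, z'.colr false⟩
  have hxF := (z'.at_ false).2
  have hmx : (pst hp hP ht).mu z'.F (z'.e false) = s.mu z'.F (z'.e false) := (pst_hp hx).2.2 _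
  have hlow := z'.low false
  rw [hmx] at hlow
  have hvP := (mem_kA.1 hv).1
  have hvF : v ∈ M.On z'.F := by
    rw [← ph_on hp (ht hvP), ← hve]
    exact (z'.at_ true).2
  have hvA : s.At z'.F v := ⟨ht hvP, hvF⟩
  have hmv : (pst hp hP ht).mu z'.F (z'.e true) = ph s c (mu' G inn z'.F v) := by
    rw [hve, (pst_ph hv).2.2, hmu _ _ hvA]
  have hl := z'.lace
  have a1 := z'.at_ true
  have a2 := z'.at_ false
  have hne := col_ne (s := pst hp hP ht) ⟨a2.1, z'.colr false⟩ a2.2 a1 (z'.colr true)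
  have hl' := lace_comm a1 (At.mu _ a1) a2 (At.mu _ a2) hne.1.symm hne.2.2.1.symm hne.2.1.symm
    hne.2.2.2.symm hl
  rw [hmv, hmx, hve] at hl'
  obtain ⟨z, β, h3, h4, h5, h6⟩ := cross (G := G) (inn := inn) hp hP h2 hx hxF hlow hvA hl'
  refine ⟨v, hvA, z, β, hv, hve, h3, h4, h5, ?_⟩
  rw [h3, h4]
  exact h6

/-- the dart opposite to the push is unique -/
theorem anti_unique {z : s.Dbl} {β β' : Bool} {P : Prop}
    (h : ¬ (M.Btw z.F (z.e false) (s.mu z.F (z.e false)) (pt (flip (dz z true β))) ↔ P))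
    (h' : ¬ (M.Btw z.F (z.e false) (s.mu z.F (z.e false)) (pt (flip (dz z true β'))) ↔ P)) :
    β = β' := by
  have e1 : pt (flip (dz z true false)) = s.mu z.F (z.e true) := rfl
  have e2 : pt (flip (dz z true true)) = z.e true := by
    show (chd (bel z true)).2 = _
    rw [below_chd (bel_spec z true)]
  have a1 := z.at_ true
  have a2 := z.at_ false
  have hne := col_ne (s := s) ⟨a2.1, z.colr false⟩ a2.2 a1 (z.colr true)
  have hl := lace_comm a1 (At.mu _ a1) a2 (At.mu _ a2) hne.1.symm hne.2.2.1.symm hne.2.1.symm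
    hne.2.2.2.symm z.lace
  unfold MeshC.Lace at hl
  cases β <;> cases β'
  · rfl
  · exfalso
    rw [e1] at h
    rw [e2] at h'
    exact hl (by tauto)
  · exfalso
    rw [e2] at h
    rw [e1] at h'
    exact hl (by tauto)
  · rfl


/-- the map to the old double points -/
noncomputable def odp (h2 : Two s up) (hmu : ∀ F w, s.At F w → t.mu F w = mu' G inn F w)
    (z' : (pst hp hP ht).Dbl) : s.Dbl := (exists_old' h2 hmu z').choose_spec.choose_spec.choose

theorem odp_spec (h2 : Two s up) (hmu : ∀ F w, s.At F w → t.mu F w = mu' G inn F w)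
    (z' : (pst hp hP ht).Dbl) :
    ∃ (v : W) (hv : s.At z'.F v) (β : Bool), v ∈ kA t ∧ z'.e true = ph s c v ∧
      (odp h2 hmu z').F = z'.F ∧ (odp h2 hmu z').e false = z'.e false ∧
      orb G inn (dz (odp h2 hmu z') true β) = orb G inn (ed hv) ∧
      ¬ (M.Btw (odp h2 hmu z').F ((odp h2 hmu z').e false)
        (s.mu (odp h2 hmu z').F ((odp h2 hmu z').e false))
        (pt (flip (dz (odp h2 hmu z') true β))) ↔
        M.pos (odp h2 hmu z').F ((odp h2 hmu z').e false) <
          M.pos (odp h2 hmu z').F (c ((odp h2 hmu z').e false))) := by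
  obtain ⟨β, h⟩ := (exists_old' h2 hmu z').choose_spec.choose_spec.choose_spec
  exact ⟨_, _, β, h⟩

theorem odp_inj (h2 : Two s up) (hmu : ∀ F w, s.At F w → t.mu F w = mu' G inn F w) :
    Function.Injective (odp (hp := hp) (hP := hP) (ht := ht) h2 hmu) := by
  intro z1 z2 he
  obtain ⟨v1, hv1, β1, k1, e1, F1, x1, o1, n1⟩ := odp_spec h2 hmu z1
  obtain ⟨v2, hv2, β2, k2, e2, F2, x2, o2, n2⟩ := odp_spec h2 hmu z2
  rw [he] at F1 x1 o1 n1
  have hβ := anti_unique n1 n2
  have hF : z1.F = z2.F := F1.symm.trans F2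
  subst hβ
  rw [o1] at o2
  obtain ⟨-, h3⟩ := (orb_ed_iff hv2 hv1).1 o2
  have l1 := z1.low true
  have l2 := z2.low true
  have m1 : (pst hp hP ht).mu z1.F (z1.e true) = ph s c (mu' G inn z1.F v1) := by
    rw [e1, (pst_ph k1).2.2, hmu _ _ hv1]
  have m2 : (pst hp hP ht).mu z2.F (z2.e true) = ph s c (mu' G inn z2.F v2) := by
    rw [e2, (pst_ph k2).2.2, hmu _ _ hv2]
  rw [m1, e1] at l1
  rw [m2, e2] at l2
  have hv : v1 = v2 := by
    rcases h3 with h3 | h3
    · exact h3
    · exfalso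
      rw [hF, h3, mu'_mu' hv2] at l1
      exact lt_asymm l1 l2
  apply Dbl.ext' _ hF
  funext y
  cases y
  · exact x1.symm.trans x2
  · rw [e1, e2, hv]

end main

end Crest.Agent.R096.Sec_892
end

-- ▼ part R096/Sec3_892

/-!
# R096 / DOORS-SEC, part 3 (helper892): one step of the one-sided exchange
-/

set_option autoImplicit false

namespace Crest.Agent.R096.Sec_892

open Crest.Agent.R096.St_147 Crest.Agent.R096.Wk_689 Crest.Agent.R096.F_422

variable {ι Φ W I : Type} {M : MeshC ι Φ W} {col : I → Bool}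

section third

variable {s : St M col} {up : Φ → W → Bool} {Ph : Finset W} {b : Bool} {c : W → W}
variable {G : Set s.Dbl} {inn : s.Dbl → Bool → Bool}

theorem pt_dz (z : s.Dbl) (x β : Bool) :
    pt (dz z x β) = z.e x ∨ pt (dz z x β) = s.mu z.F (z.e x) := by
  cases β
  · left; rfl
  · right
    show s.mu (chd (bel z x)).1 (chd (bel z x)).2 = _
    rw [below_chd (bel_spec z x)]

theorem pt_flip (d : Dart s) : pt (flip d) = s.mu (fc d) (pt d) := by
  obtain ⟨x, p, β⟩ := d
  cases β
  · rfl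
  · show (chd p).2 = s.mu (chd p).1 (s.mu (chd p).1 (chd p).2)
    rw [s.mu_mu (chd_at p).1 (chd_at p).2]

/-- **a re-glued chord separates two points only if an old chord does** -/
theorem third (hp : Push s up Ph b c) (hP : s.P ⊆ Ph) {F : Φ} {v p q : W} (hv : s.At F v)
    (hpP : p ∈ Ph) (hqP : q ∈ Ph) (hps : p ∉ s.P) (hqs : q ∉ s.P) (hpF : p ∈ M.On F)
    (hqF : q ∈ M.On F) (hl : M.Lace F (ph s c v) (ph s c (mu' G inn F v)) p q) :
    ∃ u, s.At F u ∧ M.Lace F u (s.mu F u) p q := by
  by_contra hcon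
  have hcon' : ∀ u, s.At F u → (M.Btw F u (s.mu F u) p ↔ M.Btw F u (s.mu F u) q) := by
    intro u hu
    by_contra h
    exact hcon ⟨u, hu, h⟩
  have hne : ∀ {r u : W}, r ∉ s.P → r ∈ M.On F → s.At F u → M.pos F r ≠ M.pos F u := by
    intro r u hr hrF hu h
    exact hr (by rw [M.pos_inj F hrF hu.2 h]; exact hu.1)
  have hne' : ∀ {r u : W}, r ∉ s.P → r ∈ Ph → r ∈ M.On F → s.At F u →
      M.pos F r ≠ M.pos F (ph s c u) := by
    intro r u hr hrP hrF hu h
    cases hc : col (s.lab u)
    · rw [ph_pos hc] at h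
      exact hp.nin ⟨hu.1, hc⟩ (by rw [← M.pos_inj F hrF ((hp.on F ⟨hu.1, hc⟩).2 hu.2) h]; exact hrP)
    · rw [ph_neg hc] at h
      exact hne hr hrF hu h
  -- the side of the chord
  have hside : ∀ u, s.At F u → (M.Btw F p q u ↔ M.Btw F p q (s.mu F u)) := by
    intro u hu
    exact bt_comm (hne hps hpF hu).symm (hne hqs hqF hu).symm (hne hps hpF (At.mu s hu)).symm
      (hne hqs hqF (At.mu s hu)).symm (hcon' u hu)
  have hv' := mu'_at G inn hv
  have hc := orb_eq_iff.1 (orb_mu' (G := G) (inn := inn) hv).symm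
  have key : M.Btw F p q (mu' G inn F v) ↔ M.Btw F p q v := by
    have := (hc (fun d => fc d = F ∧ (M.Btw F p q (pt d) ↔ M.Btw F p q v)) ?_ ?_
      ⟨fc_ed hv, by rw [pt_ed]⟩).2
    · rw [pt_ed] at this
      exact this
    · rintro d ⟨h3, h4⟩
      refine ⟨h3, ?_⟩
      have h5 := pt_at d
      rw [h3] at h5
      rw [pt_flip, h3, ← hside _ h5]
      exact h4
    · rintro d ⟨h3, h4⟩
      refine ⟨(fc_tt d).trans h3, ?_⟩
      rcases hn : node d with _ | z
      · rw [tt_none hn]; exact h4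
      · have hzF : z.F = F := by
          rw [← h3, eq_dz hn, fc_dz]
        have e1 : ∀ d' : Dart s, node d' = some z →
            (M.Btw F p q (pt d') ↔ M.Btw F p q (z.e true)) := by
          intro d' hd'
          have a1 := z.at_ true
          have a2 := z.at_ false
          have hl := z.lace
          rw [hzF] at a1 a2 hl
          have e2 : M.Btw F p q (z.e true) ↔ M.Btw F p q (z.e false) :=
            bt_same (hside _ a1) (hside _ a2) hl
          have e3 : M.Btw F p q (pt d') ↔ M.Btw F p q (z.e d'.x) := by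
            have h6 := pt_dz z d'.x d'.b
            rw [← eq_dz hd', hzF] at h6
            rcases h6 with h6 | h6
            · rw [h6]
            · rw [h6]
              have a3 := z.at_ d'.x
              rw [hzF] at a3
              exact (hside _ a3).symm
          rw [e3]
          cases d'.x
          · exact e2.symm
          · exact Iff.rfl
        rw [e1 _ (by rw [node_tt, hn]), ← e1 d hn]
        exact h4
  have hpu : ∀ u, s.At F u → p ≠ u := fun u hu h => hps (h ▸ hu.1)
  have hqu : ∀ u, s.At F u → q ≠ u := fun u hu h => hqs (h ▸ hu.1)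
  have h7 : M.Btw F p q (ph s c v) ↔ M.Btw F p q (ph s c (mu' G inn F v)) := by
    rw [side_ph hp hP hv hpP hpF hqP hqF (hpu v hv) (hqu v hv),
      side_ph hp hP hv' hpP hpF hqP hqF (hpu _ hv') (hqu _ hv')]
    exact key.symm
  exact hl (bt_comm (hne' hps hpP hpF hv) (hne' hps hpP hpF hv') (hne' hqs hqP hqF hv)
    (hne' hqs hqP hqF hv') h7)

end third

section root

variable {s : St M col} {Act : Set ι} {A : s.Arcs Act} {τ : Bool → ι → s.Dbl → ZMod 2}
  {G : Set s.Dbl} {far : I → Set W} {D : s.Dbl → Bool → Dart s → ZMod 2}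

/-- **an outermost double point on the barriers** -/
theorem exists_root (hD : DD A τ G far D) (hG : A.Closed G) (hne : G.Nonempty) :
    ∃ z₀ ∈ G, nmf G D (inD (innD D) z₀ true) = some (s.lab (z₀.e false)) := by
  obtain ⟨z, hz, hmax⟩ := Set.exists_max_image G
    (fun z => {d' : Dart s | D z false d' = 1}.ncard) (Set.toFinite _) hne
  refine ⟨z, hz, ?_⟩
  rw [nmf_some hD hG]
  refine ⟨1, ?_⟩
  have hroot : ∀ z' ∈ G, D z' false (outD (innD D) z false) = 0 := by
    intro z' hz'
    by_contra h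
    have h1 := z2_ne0 h
    have h2 : z ∉ A.cv z' := by
      intro h3
      rw [D_out' hD hG hz' h3] at h1
      exact zero_ne_one h1
    have h4 : D z' false (inD (innD D) z false) = 1 := by
      unfold inD
      unfold outD at h1
      rw [D_any hD hz' h2 false _ (innD D z false)]
      exact h1
    rcases hD.lam z hz z' hz' false _ (D_in hD hz false) h4 with h5 | h5
    · have h6 : {d' : Dart s | D z false d' = 1} ⊂ {d' : Dart s | D z' false d' = 1} := by
        refine ⟨fun d hd => h5 d hd, fun h7 => ?_⟩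
        have h8 : D z false (outD (innD D) z false) = 1 := h7 h1
        rw [D_out hD hz] at h8
        exact zero_ne_one h8
      have h9 := Set.ncard_lt_ncard h6 (Set.toFinite _)
      exact absurd (hmax z' hz') (not_le.2 h9)
    · have h8 := h5 _ h1
      rw [D_out hD hz] at h8
      exact zero_ne_one h8
  rw [nm_in_iff hD hG hz, Bool.not_true]
  have h1 := Nm.root (G := G) (D := D) (outD (innD D) z false) (fun z' hz' => by
    rw [outD_x]; exact hroot z' hz')
  have h2 : s.lab (pt (outD (innD D) z false)) = s.lab (z.e false) := by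
    unfold outD; exact lab_dz _ _ _
  rwa [h2] at h1

end root

section step

variable {s : St M col} {Act : Set ι} {far : I → Set W}

/-- `w` is next to `h`: no point of `Ph` in between -/
def Nb (M : MeshC ι Φ W) (Ph : Finset W) (h w : W) : Prop :=
  (∀ F, w ∈ M.On F ↔ h ∈ M.On F) ∧ ∀ F v, h ∈ M.On F → v ∈ Ph → v ∈ M.On F → v ≠ h →
    (M.pos F v < M.pos F h ↔ M.pos F v < M.pos F w)

/-- the relation between the cut state `s'` and the old state `s` -/
structure CLe (Act : Set ι) (far : I → Set W) (Ph : Finset W) (s' s : St M col) : Prop where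
  hp : ∀ w, HP s' w ↔ HP s w
  hlab : ∀ w, HP s w → s'.lab w = s.lab w
  hmu : ∀ w F, HP s w → s'.mu F w = s.mu F w
  P : ∀ w ∈ s'.P, w ∈ s.P ∨ (w ∉ Ph ∧ ∃ h, HP s h ∧ Nb M Ph h w)
  frozen_P : ∀ F w, St.Frozen M Act F → w ∈ M.On F → (w ∈ s'.P ↔ w ∈ s.P)
  frozen_mu : ∀ F w, St.Frozen M Act F → s.At F w → s'.mu F w = s.mu F w
  free : ∀ F w, s.At F w → w ∈ far (s.lab w) → s.mu F w ∈ far (s.lab w) → s.Free F w →
    s'.mu F w = s.mu F w ∧ s'.Free F w
  dbl : ∀ z' : s'.Dbl, ∃ z : s.Dbl, z.F = z'.F ∧ z.e false = z'.e false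
  third : ∀ F w p q, s'.At F w → p ∈ Ph → q ∈ Ph → p ∉ s.P → q ∉ s.P → p ∈ M.On F →
    q ∈ M.On F → M.Lace F w (s'.mu F w) p q → ∃ u, s.At F u ∧ M.Lace F u (s.mu F u) p q

theorem CLe.refl (Act : Set ι) (far : I → Set W) (Ph : Finset W) (s : St M col) :
    CLe Act far Ph s s where
  hp _ := Iff.rfl
  hlab _ _ := rfl
  hmu _ _ _ := rfl
  P _ h := Or.inl h
  frozen_P _ _ _ _ := Iff.rfl
  frozen_mu _ _ _ _ := rfl
  free _ _ _ _ _ h := ⟨rfl, h⟩
  dbl z := ⟨z, rfl, rfl⟩
  third _ w _ _ hw _ _ _ _ _ _ hl := ⟨w, hw, hl⟩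

theorem CLe.trans {Ph Ph' : Finset W} {s'' s' s : St M col} (hPh : Ph ⊆ Ph')
    (h2 : CLe Act far Ph' s'' s') (h1 : CLe Act far Ph s' s)
    (hg' : s'.Good Act far) : CLe Act far Ph s'' s where
  hp w := (h2.hp w).trans (h1.hp w)
  hlab w h := (h2.hlab w ((h1.hp w).2 h)).trans (h1.hlab w h)
  hmu w F h := (h2.hmu w F ((h1.hp w).2 h)).trans (h1.hmu w F h)
  P w h := by
    rcases h2.P w h with h3 | ⟨h3, h, h4, h5⟩
    · exact h1.P w h3
    · exact Or.inr ⟨fun h6 => h3 (hPh h6), h, (h1.hp h).1 h4, h5.1, fun F v h6 h7 h8 h9 =>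
        h5.2 F v h6 (hPh h7) h8 h9⟩
  frozen_P F w hF hw := (h2.frozen_P F w hF hw).trans (h1.frozen_P F w hF hw)
  frozen_mu F w hF hw := (h2.frozen_mu F w hF ⟨(h1.frozen_P F w hF hw.2).2 hw.1, hw.2⟩).trans
    (h1.frozen_mu F w hF hw)
  free F w hw hf hf' hfr := by
    obtain ⟨h3, h4⟩ := h1.free F w hw hf hf' hfr
    have h5 := hg'.far_mem hf
    have h6 := h2.free F w ⟨h5.1, hw.2⟩ (by rw [h5.2]; exact hf) (by rw [h3, h5.2]; exact hf') h4
    exact ⟨h6.1.trans h3, h6.2⟩
  dbl z' := by
    obtain ⟨z1, h3, h4⟩ := h2.dbl z'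
    obtain ⟨z, h5, h6⟩ := h1.dbl z1
    exact ⟨z, h5.trans h3, h6.trans h4⟩
  third F w p q hw hp hq hps hqs hpF hqF hl := by
    have hns : ∀ r, r ∈ Ph → r ∉ s.P → r ∉ s'.P := by
      intro r hr hrs h
      rcases h1.P r h with h3 | h3
      · exact hrs h3
      · exact h3.1 hr
    obtain ⟨u, hu, hl'⟩ := h2.third F w p q hw (hPh hp) (hPh hq) (hns p hp hps) (hns q hq hqs)
      hpF hqF hl
    exact h1.third F u p q hu hp hq hps hqs hpF hqF hl'

theorem CLe.mono {Ph Ph' : Finset W} {s' s : St M col} (hPh : Ph ⊆ Ph')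
    (h : CLe Act far Ph' s' s) (hg : s.Good Act far) : CLe Act far Ph s' s :=
  CLe.trans hPh h (CLe.refl Act far Ph s) hg

variable {up : Φ → W → Bool} {Ph : Finset W} {b : Bool} {c : W → W}
variable {G : Set s.Dbl} {inn : s.Dbl → Bool → Bool} {nm : Dart s → Option I}

theorem chd_dz (z : s.Dbl) (x β : Bool) : chd (dz z x β).p = (z.F, z.e (dz z x β).x) := by
  cases β
  · rfl
  · exact below_chd (bel_spec z x)

theorem nst_sub (hg : s.Good Act far) (N : Nms s G far inn nm) : (nst hg N).P ⊆ s.P :=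
  (nmd hg N).sub

theorem nst_mu' (hg : s.Good Act far) (N : Nms s G far inn nm) (F : Φ) (w : W)
    (_ : s.At F w) : (nst hg N).mu F w = mu' G inn F w := rfl

theorem far_kA (hg : s.Good Act far) (N : Nms s G far inn nm) {i : I} {w : W} (h : w ∈ far i)
    (hi : col i = true) : w ∈ kA (nst hg N) ∧ ph s c w = w ∧ (nst hg N).lab w = i := by
  have h1 := far_mem' hg N h
  have h2 : (nst hg N).lab w = i := far_lab hg N h
  refine ⟨mem_kA.2 ⟨h1, by rw [h2]; exact hi⟩, ph_neg (by rw [(hg.far_mem h).2]; exact hi), h2⟩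

/-- partners of marked points -/
theorem pst_mu_far (hg : s.Good Act far) (N : Nms s G far inn nm) (hp : Push s up Ph b c)
    (hP : s.P ⊆ Ph) {i : I} {F : Φ} {w : W} (hw : w ∈ far i) (hmw : s.mu F w ∈ far i)
    (hmu : (nst hg N).mu F w = s.mu F w) :
    (pst hp hP (nst_sub hg N)).mu F w = s.mu F w := by
  cases hi : col i
  · have h1 : HP s w := ⟨(hg.far_mem hw).1, by rw [(hg.far_mem hw).2]; exact hi⟩
    exact (pst_hp h1).2.2 F
  · obtain ⟨h1, h2, -⟩ := far_kA (c := c) hg N hw hi
    have h3 := (pst_ph (hp := hp) (hP := hP) (ht := nst_sub hg N) h1).2.2 F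
    rw [h2, hmu, (far_kA (c := c) hg N hmw hi).2.1] at h3
    exact h3

theorem pst_far (hg : s.Good Act far) (N : Nms s G far inn nm) (hp : Push s up Ph b c)
    (hP : s.P ⊆ Ph) {i : I} {w : W} (hw : w ∈ far i) :
    w ∈ (pst hp hP (nst_sub hg N)).P ∧ (pst hp hP (nst_sub hg N)).lab w = i := by
  cases hi : col i
  · have h1 : HP s w := ⟨(hg.far_mem hw).1, by rw [(hg.far_mem hw).2]; exact hi⟩
    exact ⟨(pst_hp h1).1, (pst_hp h1).2.1.trans (hg.far_mem hw).2⟩
  · obtain ⟨h1, h2, h4⟩ := far_kA (c := c) hg N hw hi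
    have h3 := pst_ph (hp := hp) (hP := hP) (ht := nst_sub hg N) h1
    rw [h2] at h3
    exact ⟨h3.1, h3.2.1.trans h4⟩

theorem lo_at {F : Φ} {w : W} (hw : s.At F w) : s.At F (s.lo F w) := by
  unfold St.lo
  split_ifs
  · exact hw
  · exact At.mu s hw

theorem lo_lo {F : Φ} {w : W} (hw : s.At F w) : s.lo F (s.lo F w) = s.lo F w := by
  unfold St.lo
  by_cases h : M.pos F w ≤ M.pos F (s.mu F w)
  · simp only [if_pos h]
  · simp only [if_neg h, s.mu_mu hw.1 hw.2]
    rw [if_pos (not_le.1 h).le]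

/-- free chords which keep their partner stay free -/
theorem pst_free (hg : s.Good Act far) (N : Nms s G far inn nm) (hp : Push s up Ph b c)
    (hP : s.P ⊆ Ph) (h2 : Two s up) {F : Φ} {w : W} (hw : s.At F w) (hfr : s.Free F w)
    (hmu : (pst hp hP (nst_sub hg N)).mu F w = s.mu F w) :
    (pst hp hP (nst_sub hg N)).Free F w := by
  intro z' hF x he
  have hlo : (pst hp hP (nst_sub hg N)).lo F w = s.lo F w := by
    unfold St.lo
    rw [hmu]
  rw [hlo] at he
  obtain ⟨v, hv, z, β, h3, h4, h5, h6, h7, -⟩ := exists_old' h2 (nst_mu' hg N) z'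
  have hlA := lo_at hw
  subst hF
  cases x
  · exact hfr z h5 false (h6.trans he)
  · have hct : col (s.lab v) = true := by
      cases hc : col (s.lab v)
      · exfalso
        rw [ph_pos hc] at h4
        exact hp.nin ⟨hv.1, hc⟩ (by rw [← h4, he]; exact hP hlA.1)
      · rfl
    rw [ph_neg hct, he] at h4
    subst h4
    have hfr' : ∀ z ∈ G, z.F = z'.F → z.e (col (s.lab (s.lo z'.F w))) ≠
        s.lo z'.F (s.lo z'.F w) := by
      intro y _ hy
      rw [lo_lo hw]
      exact hfr y hy _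
    have h8 := orb_chd hv hfr' h7
    have h9 := chd_dz z true β
    rw [h8.2, lo_lo hw, dz_x] at h9
    exact hfr z h5 true (Prod.mk.inj h9).2.symm

/-- **the pushed state is good** -/
theorem pst_good {A : s.Arcs Act} (hG : A.Closed G) (hg : s.Good Act far)
    (N : Nms s G far inn nm) (hp : Push s up Ph b c) (hP : s.P ⊆ Ph) (h2 : Two s up) :
    (pst hp hP (nst_sub hg N)).Good Act far where
  h1 := pst_H1 hg.h1 (fun i => B_422.h1_of_sep _ i (sep' hg N i))
  conn := pst_Conn hg.conn (conn' hG hg N)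
  far_mem := fun h => pst_far hg N hp hP h
  far_ne := hg.far_ne
  far_frozen := by
    intro F w hw hF
    rcases pst_cases hw.1 with ⟨v, hv, rfl⟩ | h
    · have hvP := nst_sub hg N (mem_kA.1 hv).1
      have hvF : v ∈ M.On F := (ph_on hp hvP F).1 hw.2
      have h3 := hg.far_frozen ⟨hvP, hvF⟩ hF
      have h4 : (nst hg N).lab v = s.lab v := far_lab hg N h3
      have h5 : col (s.lab v) = true := by rw [← h4]; exact (mem_kA.1 hv).2
      rw [(pst_ph hv).2.1, h4, ph_neg h5]
      exact h3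
    · rw [(pst_hp h).2.1]
      exact hg.far_frozen ⟨h.1, hw.2⟩ hF
  far_conn := by
    intro i X hX w hw hwf
    refine hg.far_conn i X ?_ w hw hwf
    intro F w hw hwf hA hmu hfr
    have hmt : (nst hg N).mu F w = s.mu F w := by
      rcases hfr with h | h
      · exact (free_keep (nmd hg N) hA h).1
      · exact mu_frozen hG hg N h hA
    have hmw := pst_mu_far hg N hp hP hwf hmu hmt
    rw [← hmw] at hmu ⊢
    refine hX F w hw hwf ⟨(pst_far hg N hp hP hwf).1, hA.2⟩ hmu ?_
    rcases hfr with h | h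
    · exact Or.inl (pst_free hg N hp hP h2 hA h hmw)
    · exact Or.inr h

/-- the relation with the old state -/
theorem pst_cle {A : s.Arcs Act} (hG : A.Closed G) (hg : s.Good Act far)
    (N : Nms s G far inn nm) (hp : Push s up Ph b c) (hP : s.P ⊆ Ph) (h2 : Two s up) :
    CLe Act far Ph (pst hp hP (nst_sub hg N)) s where
  hp _ := pst_hp_iff
  hlab _ h := (pst_hp h).2.1
  hmu _ F h := (pst_hp h).2.2 F
  P w hw := by
    rcases pst_cases hw with ⟨v, hv, rfl⟩ | h
    · have hvP := nst_sub hg N (mem_kA.1 hv).1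
      cases hc : col (s.lab v)
      · right
        rw [ph_pos hc]
        exact ⟨hp.nin ⟨hvP, hc⟩, v, ⟨hvP, hc⟩, fun F => hp.on F ⟨hvP, hc⟩,
          fun F u h3 h4 h5 h6 => hp.adj ⟨hvP, hc⟩ h3 h4 h5 h6⟩
      · left; rw [ph_neg hc]; exact hvP
    · exact Or.inl h.1
  frozen_P F w hF hw := by
    constructor
    · intro h
      rcases pst_cases h with ⟨v, hv, rfl⟩ | h
      · have hvP := nst_sub hg N (mem_kA.1 hv).1
        have hvF : v ∈ M.On F := (ph_on hp hvP F).1 hw
        have h3 := hg.far_frozen ⟨hvP, hvF⟩ hF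
        have h4 : (nst hg N).lab v = s.lab v := far_lab hg N h3
        have h5 : col (s.lab v) = true := by rw [← h4]; exact (mem_kA.1 hv).2
        rw [ph_neg h5]
        exact hvP
      · exact h.1
    · intro h
      exact (pst_far hg N hp hP (hg.far_frozen ⟨h, hw⟩ hF)).1
  frozen_mu F w hF hw := by
    have h3 := hg.far_frozen hw hF
    have h4 := hg.far_frozen (At.mu s hw) hF
    rw [s.mu_lab hw.1 hw.2] at h4
    exact pst_mu_far hg N hp hP h3 h4 (mu_frozen hG hg N hF hw)
  free F w hw hf hf' hfr := by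
    have h3 := pst_mu_far hg N hp hP hf hf' (free_keep (nmd hg N) hw hfr).1
    exact ⟨h3, pst_free hg N hp hP h2 hw hfr h3⟩
  dbl z' := by
    obtain ⟨v, hv, z, β, -, -, h5, h6, -, -⟩ := exists_old' h2 (nst_mu' hg N) z'
    exact ⟨z, h5, h6⟩
  third F w p q hw hpP hqP hps hqs hpF hqF hl := by
    rcases pst_cases hw.1 with ⟨v, hv, rfl⟩ | h
    · have hvP := nst_sub hg N (mem_kA.1 hv).1
      have hvF : v ∈ M.On F := (ph_on hp hvP F).1 hw.2
      rw [(pst_ph hv).2.2] at hl
      exact third hp hP ⟨hvP, hvF⟩ hpP hqP hps hqs hpF hqF hl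
    · rw [(pst_hp h).2.2] at hl
      exact ⟨w, ⟨h.1, hw.2⟩, hl⟩

/-- the number of double points drops if the push is chosen well at one point of `G` -/
theorem pst_card (hg : s.Good Act far)
    (N : Nms s G far inn nm) (hp : Push s up Ph b c) (hP : s.P ⊆ Ph) (h2 : Two s up)
    {z₀ : s.Dbl} {β₀ : Bool}
    (hanti : ¬ (M.Btw z₀.F (z₀.e false) (s.mu z₀.F (z₀.e false)) (pt (flip (dz z₀ true β₀))) ↔
      M.pos z₀.F (z₀.e false) < M.pos z₀.F (c (z₀.e false))))
    {j : I} (hj : col j = false) (hnm : nm (dz z₀ true β₀) = some j) :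
    Nat.card (pst hp hP (nst_sub hg N)).Dbl < Nat.card s.Dbl := by
  classical
  have hinj := odp_inj (hp := hp) (hP := hP) (ht := nst_sub hg N) h2 (nst_mu' hg N)
  have hmiss : ∀ z', odp (hp := hp) (hP := hP) (ht := nst_sub hg N) h2 (nst_mu' hg N) z' ≠ z₀ := by
    intro z' he
    obtain ⟨v, hv, β, hk, -, -, -, h5, h6⟩ := odp_spec (hp := hp) (hP := hP)
      (ht := nst_sub hg N) h2 (nst_mu' hg N) z'
    rw [he] at h5 h6
    have hβ := anti_unique h6 hanti
    subst hβ
    have hk' := mem_kA.1 hk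
    have h7 := joined_nm N ((mem_nmd (hg := hg) (N := N)).1 hk'.1).2 hv
    rw [← nmO_orb N, ← h5, nmO_orb N, hnm] at h7
    have h8 : j = (nst hg N).lab v := Option.some.inj h7
    have h9 := hk'.2
    rw [← h8, hj] at h9
    exact Bool.false_ne_true h9
  have h1 : Nat.card (pst hp hP (nst_sub hg N)).Dbl ≤ Nat.card {z : s.Dbl // z ≠ z₀} := by
    apply Nat.card_le_card_of_injective
      (fun z' => (⟨odp h2 (nst_mu' hg N) z', hmiss z'⟩ : {z : s.Dbl // z ≠ z₀}))
    intro a b h
    exact hinj (by simpa using h)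
  have h3 : Nat.card {z : s.Dbl // z ≠ z₀} < Nat.card s.Dbl := by
    have := Fintype.ofFinite s.Dbl
    rw [Nat.card_eq_fintype_card, Nat.card_eq_fintype_card]
    exact Fintype.card_subtype_lt (x := z₀) (by simp)
  omega

/-- **one step** -/
theorem step (hg : s.Good Act far) (h2 : Two s up) (hP : s.P ⊆ Ph)
    (hroom : ∀ b, ∃ c, Push s up Ph b c) (A : s.Arcs Act) {G : Set s.Dbl} (hG : A.Closed G)
    (hne : G.Nonempty) :
    ∃ s' : St M col, s'.Good Act far ∧ CLe Act far Ph s' s ∧ Nat.card s'.Dbl < Nat.card s.Dbl := by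
  classical
  have hR := refStmt A (fun i => B_422.sep_of_h1 s i (hg.h1 i))
  obtain ⟨D, hD⟩ := Sd1_161.exists_DD hg A _ hR
  have hmx := A.mx_closed
  have N := exists_nms hD hmx hR (fun _ _ h => (hg.far_mem h).2)
  obtain ⟨z₀, hz₀, hn⟩ := exists_root hD hmx (hne.mono (A.sub_mx hG))
  have hx : HP s (z₀.e false) := ⟨(z₀.at_ false).1, z₀.colr false⟩
  by_cases hQ : M.Btw z₀.F (z₀.e false) (s.mu z₀.F (z₀.e false))
      (pt (flip (dz z₀ true (!innD D z₀ true))))
  · obtain ⟨c, hp⟩ := hroom (!up z₀.F (z₀.e false))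
    refine ⟨pst hp hP (nst_sub hg N), pst_good hmx hg N hp hP h2, pst_cle hmx hg N hp hP h2,
      pst_card hg N hp hP h2 (z₀ := z₀) (β₀ := !innD D z₀ true) ?_ (z₀.colr false) hn⟩
    intro h
    have h3 := (hp.side hx (z₀.at_ false).2).1 (h.1 hQ)
    cases up z₀.F (z₀.e false) <;> simp at h3
  · obtain ⟨c, hp⟩ := hroom (up z₀.F (z₀.e false))
    refine ⟨pst hp hP (nst_sub hg N), pst_good hmx hg N hp hP h2, pst_cle hmx hg N hp hP h2,
      pst_card hg N hp hP h2 (z₀ := z₀) (β₀ := !innD D z₀ true) ?_ (z₀.colr false) hn⟩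
    intro h
    exact hQ (h.2 ((hp.side hx (z₀.at_ false).2).2 rfl))

/-- room: there are parallel copies of the barriers on both sides, near the barriers -/
def Room (s : St M col) (up : Φ → W → Bool) : Prop :=
  ∀ (Ph : Finset W) (b : Bool), ∃ c, Push s up Ph b c

theorem Push.congr {s' : St M col} (hp : Push s up Ph b c) (h : ∀ w, HP s' w ↔ HP s w) :
    Push s' up Ph b c where
  nin hw := hp.nin ((h _).1 hw)
  inj hw hw' := hp.inj ((h _).1 hw) ((h _).1 hw')
  on F hw := hp.on F ((h _).1 hw)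
  adj hw := hp.adj ((h _).1 hw)
  ord hw hw' := hp.ord ((h _).1 hw) ((h _).1 hw')
  side hw := hp.side ((h _).1 hw)

/-- **CUT**: one-sided removal of all closed double curves -/
theorem cut (up : Φ → W → Bool) (s : St M col) (hg : s.Good Act far) (h2 : Two s up)
    (hroom : Room s up) (Ph : Finset W) (hP : s.P ⊆ Ph) :
    ∃ s' : St M col, s'.Good Act far ∧ CLe Act far Ph s' s ∧
      ∀ (A : s'.Arcs Act) (G : Set s'.Dbl), A.Closed G → G = ∅ := by
  classical
  induction hn : Nat.card s.Dbl using Nat.strong_induction_on generalizing s Ph with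
  | _ n ih =>
    by_cases h : ∀ (A : s.Arcs Act) (G : Set s.Dbl), A.Closed G → G = ∅
    · exact ⟨s, hg, CLe.refl _ _ _ _, h⟩
    · push Not at h
      obtain ⟨A, G, hG, hne⟩ := h
      obtain ⟨s₁, hg₁, hl₁, hc₁⟩ := step hg h2 hP (fun b => hroom Ph b) A hG hne
      have h2' : Two s₁ up := by
        intro F w hw hF
        have hw' := (hl₁.hp w).1 hw
        rw [hl₁.hmu w F hw']
        exact h2 hw' hF
      have hroom' : Room s₁ up := by
        intro Ph' b
        obtain ⟨c, hp⟩ := hroom Ph' b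
        exact ⟨c, hp.congr hl₁.hp⟩
      obtain ⟨s₂, hg₂, hl₂, hc₂⟩ := ih _ (hn ▸ hc₁) s₁ hg₁ h2' hroom' (Ph ∪ s₁.P)
        Finset.subset_union_right rfl
      exact ⟨s₂, hg₂, CLe.trans Finset.subset_union_left hl₂ hl₁ hg₁, hc₂⟩

end step
end Crest.Agent.R096.Sec_892
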