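import Crest.Agent.R096.Sec3_892
import Crest.Agent.R096.Cp1_298
import Crest.Agent.R096.Dinv2_106

-- ▼ part R096/Sec6_892
section

/-!
# R096 / DOORS-SEC, part 6 (helper892): SEC0, parity of crossings on a closed sheet

A function on the chords of a sheet which is exact on the boundary of every cell but one has even sum
on the boundary of this cell.
-/

set_option autoImplicit false

namespace Crest.Agent.R096.Sec_892

open Crest.Agent.R096.St_147 Crest.Agent.R096.Wk_689

variable {ι Φ W I : Type} {M : MeshC ι Φ W} {col : I → Bool} (s : St M col)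

theorem fin_darts (i : I) : {p : Φ × W | s.At p.1 p.2 ∧ s.lab p.2 = i}.Finite := by
  refine (Set.Finite.biUnion s.P.finite_toSet
    (fun w _ => ((M.fin w).image (fun F => (F, w))))).subset ?_
  rintro ⟨F, w⟩ ⟨h1, -⟩
  exact Set.mem_biUnion (x := w) h1.1 ⟨F, h1.2, rfl⟩

/-- the darts of the sheet `i` -/
noncomputable def dts (i : I) : Finset (Φ × W) := (fin_darts s i).toFinset

theorem mem_dts {i : I} {p : Φ × W} : p ∈ dts s i ↔ s.At p.1 p.2 ∧ s.lab p.2 = i := by
  unfold dts; rw [Set.Finite.mem_toFinset]; rfl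

open Classical in
/-- value of a function on the chords, counted at the lower end -/
noncomputable def lowv (ω : Φ → W → ZMod 2) (p : Φ × W) : ZMod 2 :=
  if M.pos p.1 p.2 < M.pos p.1 (s.mu p.1 p.2) then ω p.1 p.2 else 0

variable {s} {i : I} {ω : Φ → W → ZMod 2}

theorem low_alt {p : Φ × W} (h : s.At p.1 p.2) :
    (M.pos p.1 p.2 < M.pos p.1 (s.mu p.1 p.2)) ↔
      ¬ (M.pos p.1 (s.mu p.1 p.2) < M.pos p.1 (s.mu p.1 (s.mu p.1 p.2))) := by
  rw [s.mu_mu h.1 h.2]
  have := pos_ne s h (At.mu s h) (s.mu_ne h.1 h.2).symm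
  constructor
  · intro h1 h2; exact lt_asymm h1 h2
  · intro h1; exact lt_of_le_of_ne (not_lt.1 h1) this

open Classical in
/-- exact on the boundary of `q` ⟹ the sum over `∂q` vanishes -/
theorem sum_exact {q : ι} (hex : ∃ ψ : W → ZMod 2, ∀ F w, q ∈ M.side F → s.At F w →
    s.lab w = i → ω F w = ψ w + ψ (s.mu F w)) :
    ∑ p ∈ (dts s i).filter (fun p => q ∈ M.side p.1), lowv s ω p = 0 := by
  obtain ⟨ψ, hψ⟩ := hex
  have hm : ∀ p, p ∈ (dts s i).filter (fun p => q ∈ M.side p.1) ↔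
      (s.At p.1 p.2 ∧ s.lab p.2 = i) ∧ q ∈ M.side p.1 := by
    intro p
    rw [Finset.mem_filter, mem_dts]
  have h1 : ∑ p ∈ (dts s i).filter (fun p => q ∈ M.side p.1), (lowv s ω p + ψ p.2) = 0 := by
    apply Finset.sum_involution (fun p _ => (p.1, s.mu p.1 p.2))
    · intro p hp
      obtain ⟨⟨hA, hi⟩, hq⟩ := (hm p).1 hp
      have hA' := At.mu s hA
      have e := low_alt hA
      have hω := hψ p.1 p.2 hq hA hi
      have hω' := hψ p.1 (s.mu p.1 p.2) hq hA' (by rw [s.mu_lab hA.1 hA.2]; exact hi)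
      rw [s.mu_mu hA.1 hA.2] at hω'
      unfold lowv
      show (if M.pos p.1 p.2 < M.pos p.1 (s.mu p.1 p.2) then ω p.1 p.2 else 0) + ψ p.2 +
        ((if M.pos p.1 (s.mu p.1 p.2) < M.pos p.1 (s.mu p.1 (s.mu p.1 p.2)) then
          ω p.1 (s.mu p.1 p.2) else 0) + ψ (s.mu p.1 p.2)) = 0
      by_cases hl : M.pos p.1 p.2 < M.pos p.1 (s.mu p.1 p.2)
      · rw [if_pos hl, if_neg (e.1 hl), hω]
        generalize ψ p.2 = x
        generalize ψ (s.mu p.1 p.2) = y
        revert x y; decide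
      · rw [if_neg hl, if_pos (by by_contra h; exact hl (e.2 h)), hω']
        generalize ψ p.2 = x
        generalize ψ (s.mu p.1 p.2) = y
        revert x y; decide
    · intro p hp _ he
      obtain ⟨⟨hA, hi⟩, hq⟩ := (hm p).1 hp
      exact s.mu_ne hA.1 hA.2 (congrArg Prod.snd he)
    · intro p hp
      obtain ⟨⟨hA, hi⟩, hq⟩ := (hm p).1 hp
      exact (hm _).2 ⟨⟨At.mu s hA, by
        show s.lab (s.mu p.1 p.2) = i
        rw [s.mu_lab hA.1 hA.2]; exact hi⟩, hq⟩
    · intro p hp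
      obtain ⟨⟨hA, hi⟩, hq⟩ := (hm p).1 hp
      exact Prod.ext rfl (s.mu_mu hA.1 hA.2)
  have h2 : ∑ p ∈ (dts s i).filter (fun p => q ∈ M.side p.1), ψ p.2 = 0 := by
    have hex : ∀ p : Φ × W, ∃ F' : Φ, (p ∈ (dts s i).filter (fun p => q ∈ M.side p.1)) →
        F' ≠ p.1 ∧ q ∈ M.side F' ∧ p.2 ∈ M.On F' ∧
        ∀ G, q ∈ M.side G → p.2 ∈ M.On G → G = p.1 ∨ G = F' := by
      intro p
      by_cases hp : p ∈ (dts s i).filter (fun p => q ∈ M.side p.1)
      · obtain ⟨⟨hA, hi⟩, hq⟩ := (hm p).1 hp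
        obtain ⟨F', h⟩ := Cp_298.exists_other M hq hA.2
        exact ⟨F', fun _ => h⟩
      · exact ⟨p.1, fun h => absurd h hp⟩
    choose ot hot using hex
    apply Finset.sum_involution (fun p _ => (ot p, p.2))
    · intro p _
      exact add_self2 _
    · intro p hp _ he
      exact (hot p hp).1 (congrArg Prod.fst he)
    · intro p hp
      obtain ⟨⟨hA, hi⟩, hq⟩ := (hm p).1 hp
      obtain ⟨h1, h2, h3, h4⟩ := hot p hp
      exact (hm _).2 ⟨⟨⟨hA.1, h3⟩, hi⟩, h2⟩
    · intro p hp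
      obtain ⟨⟨hA, hi⟩, hq⟩ := (hm p).1 hp
      obtain ⟨h1, h2, h3, h4⟩ := hot p hp
      have hp' : (ot p, p.2) ∈ (dts s i).filter (fun p => q ∈ M.side p.1) :=
        (hm _).2 ⟨⟨⟨hA.1, h3⟩, hi⟩, h2⟩
      obtain ⟨k1, k2, k3, k4⟩ := hot _ hp'
      refine Prod.ext ?_ rfl
      rcases h4 _ k2 k3 with h | h
      · exact h
      · exact absurd h k1
  rw [Finset.sum_add_distrib, h2, add_zero] at h1
  exact h1

open Classical in
/-- **parity**: exact on every cell but `q₀` ⟹ the sum over `∂q₀` vanishes -/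
theorem sum_other (q₀ : ι) (hex : ∀ q, q ≠ q₀ → ∃ ψ : W → ZMod 2, ∀ F w, q ∈ M.side F →
    s.At F w → s.lab w = i → ω F w = ψ w + ψ (s.mu F w)) :
    ∑ p ∈ (dts s i).filter (fun p => q₀ ∈ M.side p.1), lowv s ω p = 0 := by
  let Q : Finset ι := (dts s i).biUnion (fun p => (M.side p.1).toFinset)
  have hQ : ∀ p ∈ dts s i, ∀ q ∈ M.side p.1, q ∈ Q := by
    intro p hp q hq
    exact Finset.mem_biUnion.2 ⟨p, hp, Sym2.mem_toFinset.2 hq⟩
  have h1 : ∑ q ∈ Q, ∑ p ∈ (dts s i).filter (fun p => q ∈ M.side p.1), lowv s ω p = 0 := by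
    simp only [Finset.sum_filter]
    rw [Finset.sum_comm]
    apply Finset.sum_eq_zero
    intro p hp
    rw [← Finset.sum_filter]
    obtain ⟨a, b, hab⟩ : ∃ a b, M.side p.1 = s(a, b) := ⟨_, _, (Quot.out_eq _).symm⟩
    have hnd : a ≠ b := by
      intro h
      have := M.side_nd p.1
      rw [hab, h] at this
      simp at this
    have : Q.filter (fun q => q ∈ M.side p.1) = {a, b} := by
      ext q
      rw [Finset.mem_filter, Finset.mem_insert, Finset.mem_singleton]
      constructor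
      · rintro ⟨-, h⟩
        rwa [hab, Sym2.mem_iff] at h
      · intro h
        have h' : q ∈ M.side p.1 := by rw [hab, Sym2.mem_iff]; exact h
        exact ⟨hQ p hp q h', h'⟩
    rw [this, Finset.sum_pair hnd]
    exact add_self2 _
  by_cases hq : q₀ ∈ Q
  · rw [Finset.sum_eq_single_of_mem q₀ hq (fun q _ hne => sum_exact (hex q hne))] at h1
    exact h1
  · apply Finset.sum_eq_zero
    intro p hp
    rw [Finset.mem_filter] at hp
    exact absurd (hQ p hp.1 q₀ hp.2) hq

/-- **SEC0, contradiction form** : exactly one odd chord on the boundary of the exceptional cell is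
impossible -/
theorem no_single (q₀ : ι)
    (hsym : ∀ F w, s.At F w → s.lab w = i → ω F (s.mu F w) = ω F w)
    (hex : ∀ q, q ≠ q₀ → ∃ ψ : W → ZMod 2, ∀ F w, q ∈ M.side F →
      s.At F w → s.lab w = i → ω F w = ψ w + ψ (s.mu F w))
    {F₀ : Φ} {w₀ : W} (h0 : q₀ ∈ M.side F₀) (hA0 : s.At F₀ w₀) (hi0 : s.lab w₀ = i)
    (h1 : ω F₀ w₀ = 1)
    (huniq : ∀ F w, q₀ ∈ M.side F → s.At F w → s.lab w = i → ω F w ≠ 0 →
      F = F₀ ∧ (w = w₀ ∨ w = s.mu F₀ w₀)) : False := by
  classical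
  have h := sum_other (s := s) (i := i) (ω := ω) q₀ hex
  -- the lower end of the odd chord
  obtain ⟨w₁, hA1, hi1, hω1, hl1, hu1⟩ : ∃ w₁, s.At F₀ w₁ ∧ s.lab w₁ = i ∧ ω F₀ w₁ = 1 ∧
      M.pos F₀ w₁ < M.pos F₀ (s.mu F₀ w₁) ∧
      ∀ w, (w = w₀ ∨ w = s.mu F₀ w₀) → w = w₁ ∨ w = s.mu F₀ w₁ := by
    by_cases hl : M.pos F₀ w₀ < M.pos F₀ (s.mu F₀ w₀)
    · exact ⟨w₀, hA0, hi0, h1, hl, fun w h => h⟩
    · have h2 : M.pos F₀ (s.mu F₀ w₀) < M.pos F₀ (s.mu F₀ (s.mu F₀ w₀)) := by
        by_contra hcon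
        exact hl ((low_alt (p := (F₀, w₀)) hA0).2 hcon)
      refine ⟨s.mu F₀ w₀, At.mu s hA0, by rw [s.mu_lab hA0.1 hA0.2]; exact hi0,
        by rw [hsym F₀ w₀ hA0 hi0]; exact h1, h2, ?_⟩
      intro w hw
      rw [s.mu_mu hA0.1 hA0.2]
      exact hw.symm
  rw [Finset.sum_eq_single_of_mem (F₀, w₁)] at h
  · unfold lowv at h
    rw [if_pos hl1, hω1] at h
    exact one_ne_zero h
  · exact Finset.mem_filter.2 ⟨(mem_dts s).2 ⟨hA1, hi1⟩, h0⟩
  · rintro ⟨F, w⟩ hp hne
    obtain ⟨hp1, hp2⟩ := Finset.mem_filter.1 hp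
    obtain ⟨hA, hi⟩ := (mem_dts s).1 hp1
    unfold lowv
    split_ifs with hl
    · by_contra hcon
      obtain ⟨rfl, hw⟩ := huniq F w hp2 hA hi hcon
      rcases hu1 w hw with rfl | rfl
      · exact hne rfl
      · have hl' : M.pos F (s.mu F w₁) < M.pos F (s.mu F (s.mu F w₁)) := hl
        rw [s.mu_mu hA1.1 hA1.2] at hl'
        exact lt_asymm hl1 hl'
    · rfl

open Classical in
/-- **SEC0, reach form**: `Y` = a set of points of the sheet which is closed under the odd chords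
and under all chords on the cells where `ω` is not zero; if `Y` contains the only odd chord of the
door `q₀`, it contains an odd chord of another exceptional cell -/
theorem door_reach (Bad : Set ι) (q₀ : ι)
    (hsym : ∀ F w, s.At F w → s.lab w = i → ω F (s.mu F w) = ω F w) (Y : Set W)
    (hYω : ∀ F w, w ∈ Y → s.At F w → s.lab w = i → ω F w ≠ 0 → s.mu F w ∈ Y)
    (hex : ∀ q, q ∉ Bad → (∀ F w, q ∈ M.side F → s.At F w → s.lab w = i → ω F w = 0) ∨
      ((∃ ψ : W → ZMod 2, ∀ F w, q ∈ M.side F → s.At F w → s.lab w = i →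
        ω F w = ψ w + ψ (s.mu F w)) ∧
      ∀ F w, q ∈ M.side F → s.At F w → s.lab w = i → w ∈ Y → s.mu F w ∈ Y))
    {F₀ : Φ} {w₀ : W} (h0 : q₀ ∈ M.side F₀) (hA0 : s.At F₀ w₀) (hi0 : s.lab w₀ = i)
    (hY0 : w₀ ∈ Y) (h1 : ω F₀ w₀ = 1)
    (huniq : ∀ F w, q₀ ∈ M.side F → s.At F w → s.lab w = i → ω F w ≠ 0 →
      F = F₀ ∧ (w = w₀ ∨ w = s.mu F₀ w₀)) :
    ∃ q ∈ Bad, q ≠ q₀ ∧ ∃ F w, q ∈ M.side F ∧ s.At F w ∧ s.lab w = i ∧ w ∈ Y ∧ ω F w ≠ 0 := by
  by_contra hcon
  push Not at hcon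
  -- the part of `ω` on `Y`
  have hmuY : ∀ F w, s.At F w → s.lab w = i → ω F w ≠ 0 → (s.mu F w ∈ Y ↔ w ∈ Y) := by
    intro F w hA hi hω
    constructor
    · intro h
      have h2 := hYω F _ h (At.mu s hA) (by rw [s.mu_lab hA.1 hA.2]; exact hi)
        (by rw [hsym F w hA hi]; exact hω)
      rwa [s.mu_mu hA.1 hA.2] at h2
    · intro h
      exact hYω F w h hA hi hω
  have hval : ∀ F w, s.At F w → s.lab w = i →
      (if s.mu F w ∈ Y then ω F (s.mu F w) else 0) = if w ∈ Y then ω F w else 0 := by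
    intro F w hA hi
    rw [hsym F w hA hi]
    by_cases hω : ω F w = 0
    · rw [hω, ite_self, ite_self]
    · exact if_congr (hmuY F w hA hi hω) rfl rfl
  refine no_single (s := s) (i := i) (ω := fun F w => if w ∈ Y then ω F w else 0) q₀ hval ?_
    h0 hA0 hi0 (by rw [if_pos hY0]; exact h1) ?_
  · intro q hq
    by_cases hB : q ∈ Bad
    · refine ⟨fun _ => 0, fun F w hqF hA hi => ?_⟩
      rw [add_zero]
      split_ifs with hY
      · by_contra hω
        exact hω (hcon q hB hq F w hqF hA hi hY)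
      · rfl
    · rcases hex q hB with h | ⟨⟨ψ, hψ⟩, h⟩
      · refine ⟨fun _ => 0, fun F w hqF hA hi => ?_⟩
        rw [add_zero]
        show (if w ∈ Y then ω F w else 0) = 0
        rw [h F w hqF hA hi, ite_self]
      · refine ⟨fun w => if w ∈ Y then ψ w else 0, fun F w hqF hA hi => ?_⟩
        have h3 : s.mu F w ∈ Y ↔ w ∈ Y := by
          constructor
          · intro h4
            have h5 := h F _ hqF (At.mu s hA) (by rw [s.mu_lab hA.1 hA.2]; exact hi) h4
            rwa [s.mu_mu hA.1 hA.2] at h5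
          · exact h F w hqF hA hi
        show (if w ∈ Y then ω F w else 0) = (if w ∈ Y then ψ w else 0) +
          if s.mu F w ∈ Y then ψ (s.mu F w) else 0
        by_cases hY : w ∈ Y
        · rw [if_pos hY, if_pos hY, if_pos (h3.2 hY)]
          exact hψ F w hqF hA hi
        · rw [if_neg hY, if_neg hY, if_neg (fun h4 => hY (h3.1 h4)), add_zero]
  · intro F w hqF hA hi hω
    apply huniq F w hqF hA hi
    intro h
    apply hω
    show (if w ∈ Y then ω F w else 0) = 0
    rw [h, ite_self]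

end Crest.Agent.R096.Sec_892
end

-- ▼ part R096/Dinv3_106

/-!
# Row 96, DOORS-INV (helper106), part 3: the door curve and the moat points are joined with the base

`door_in` : 892's parity lemma `door_reach` for one sheet of a global state: `ω` = crossings with one
sheet of another quad at the same core.  The only odd chord of the door lies in every set which
contains the base point and is closed under the chords which are not crossed in `k`.
-/

set_option autoImplicit false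

namespace Crest.Agent.R096.Dinv_106

open Crest.Agent.R096.St_147 Crest.Agent.R096.Seq_213 Crest.Agent.R096.Ginv_543

variable {ι Φ W J C K : Type} {M : MeshC ι Φ W} {fam : J → C}

/-- one sheet of a global state as a state of one colour -/
noncomputable def oneSt (s : GSt M fam) (j : J) : St M (fun _ : Unit => true) where
  P := (gSht s j).P
  lab := fun _ => ()
  mu := s.mu
  mu_mem := fun {_ _} hw hF => (gSht s j).mu_mem hw hF
  mu_ne := fun {_ _} hw hF => (gSht s j).mu_ne hw hF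
  mu_mu := fun {_ _} hw hF => (gSht s j).mu_mu hw hF
  mu_lab := fun _ _ => rfl
  nc := fun {F w x} hw hF hx hF' _ h1 h2 => by
    have a := mem_gSht.1 hw
    have b := mem_gSht.1 hx
    exact s.nc a.1 hF b.1 hF' (by rw [a.2, b.2]) h1 h2

theorem oneSt_at {s : GSt M fam} {j : J} {F : Φ} {w : W} :
    (oneSt s j).At F w ↔ s.At F w ∧ s.lab w = j := by
  constructor
  · rintro ⟨h1, h2⟩
    have a := mem_gSht.1 h1
    exact ⟨⟨a.1, h2⟩, a.2⟩
  · rintro ⟨h1, h2⟩
    exact ⟨mem_gSht.2 ⟨h1.1, h2⟩, h1.2⟩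


/-- a chord on a face with a side in no `Act` is not crossed in any quad -/
theorem kfree_of_side {s : GSt M fam} {Q : Quads ι C K} {k : K} {F : Φ} {w : W} {q : ι}
    (hq : q ∈ M.side F) (h : q ∉ Q.Act k) : KFree s Q k F w := fun hin => absurd (hin q hq) h


end Crest.Agent.R096.Dinv_106
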