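import Crest.Agent.R096.Sec10_892
import Crest.Agent.R096.Sec3_892
import Crest.Agent.R096.Cp13_298
import Crest.Agent.R096.Cg1_501
import Crest.Agent.R096.Sgd2_298

-- ▼ part R096/Sec11_892
section

/-!
# R096 / DOORS-SEC, part 11 (helper892): CUT with the clause (ENC)

New points lie only next to ENCLOSED barrier points: barrier points which are not joined by free
barrier chords with a point on a frozen face.
-/

set_option autoImplicit false

namespace Crest.Agent.R096.SecW_892

open Crest.Agent.R096.St_147 Crest.Agent.R096.Wk_689 Crest.Agent.R096.F_422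
open Crest.Agent.R096.Sec_892

variable {ι Φ W I : Type} {M : MeshC ι Φ W} {col : I → Bool} {s : St M col}
variable {Act : Set ι} {far : I → Set W}

/-- the barrier point `h` is not joined, by barrier chords which are free in `s`, with a point on a
frozen face (or a marked point) -/
def Encl (Act : Set ι) (far : I → Set W) (s : St M col) (h : W) : Prop :=
  ∃ X : Set W, h ∈ X ∧ (∀ x ∈ X, HP s x ∧ s.lab x = s.lab h) ∧
    (∀ F x, x ∈ X → s.At F x → s.Free F x → s.mu F x ∈ X) ∧
    ∀ x ∈ X, x ∉ far (s.lab h) ∧ ∀ F, s.At F x → ¬ St.Frozen M Act F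

/-- new points only next to enclosed barrier points (on some face) -/
def Enc (Act : Set ι) (far : I → Set W) (Ph : Finset W) (s' s : St M col) : Prop :=
  ∀ w ∈ s'.P, w ∉ s.P → ∃ h, HP s h ∧ (∃ F, h ∈ M.On F) ∧ Nb M Ph h w ∧ Encl Act far s h

theorem Encl.not {h : W} (he : Encl Act far s h)
    (hj : ∀ X : Set W, h ∈ X → (∀ F x, x ∈ X → s.At F x → s.lab x = s.lab h → s.Free F x →
      s.mu F x ∈ X) → ∃ x ∈ X, ∃ F, s.At F x ∧ St.Frozen M Act F) : False := by
  obtain ⟨X, h1, h2, h3, h4⟩ := he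
  obtain ⟨x, hx, F, hA, hF⟩ := hj X h1 (fun F x hx hA _ hf => h3 F x hx hA hf)
  exact (h4 x hx).2 F hA hF

/-- barrier chords which are free stay free -/
theorem free_hp {Ph : Finset W} {s' s : St M col} (hc : CLe Act far Ph s' s) {F : Φ} {x : W}
    (hx : HP s x) (hA : s.At F x) (hf : s.Free F x) : s'.Free F x := by
  intro z' hF y he
  have hlo : s'.lo F x = s.lo F x := by
    unfold St.lo
    rw [hc.hmu x F hx]
  rw [hlo] at he
  have h1 : HP s (s.lo F x) := by
    unfold St.lo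
    split_ifs
    · exact hx
    · exact hp_mu hx hA.2
  cases y
  · obtain ⟨z, h2, h3⟩ := hc.dbl z'
    exact hf z (h2.trans hF) false (h3.trans he)
  · have h2 := (hc.hp (s.lo F x)).2 h1
    have h3 := z'.colr true
    rw [he, h2.2] at h3
    exact Bool.false_ne_true h3

theorem Encl.of_cle {Ph : Finset W} {s' s : St M col} (hc : CLe Act far Ph s' s) {h : W}
    (he : Encl Act far s' h) : Encl Act far s h := by
  obtain ⟨X, h1, h2, h3, h4⟩ := he
  have hh := (hc.hp h).1 (h2 h h1).1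
  have hl : s'.lab h = s.lab h := hc.hlab h hh
  refine ⟨X, h1, ?_, ?_, ?_⟩
  · intro x hx
    obtain ⟨h5, h6⟩ := h2 x hx
    have h7 := (hc.hp x).1 h5
    exact ⟨h7, by rw [← hc.hlab x h7, h6, hl]⟩
  · intro F x hx hA hf
    obtain ⟨h5, -⟩ := h2 x hx
    have h7 := (hc.hp x).1 h5
    rw [← hc.hmu x F h7]
    exact h3 F x hx ⟨h5.1, hA.2⟩ (free_hp hc h7 hA hf)
  · intro x hx
    obtain ⟨h5, -⟩ := h2 x hx
    obtain ⟨h6, h7⟩ := h4 x hx
    rw [hl] at h6
    exact ⟨h6, fun F hA => h7 F ⟨h5.1, hA.2⟩⟩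

theorem Enc.refl (Act : Set ι) (far : I → Set W) (Ph : Finset W) (s : St M col) :
    Enc Act far Ph s s := fun _ h h' => absurd h h'

theorem Enc.trans {Ph Ph' : Finset W} {s'' s' s : St M col} (hPh : Ph ⊆ Ph')
    (h1 : CLe Act far Ph s' s) (e2 : Enc Act far Ph' s'' s') (e1 : Enc Act far Ph s' s) :
    Enc Act far Ph s'' s := by
  intro w hw hws
  by_cases h : w ∈ s'.P
  · exact e1 w h hws
  · obtain ⟨v, h3, h3', h4, h5⟩ := e2 w hw h
    exact ⟨v, (h1.hp v).1 h3, h3', ⟨h4.1, fun F u h6 h7 h8 h9 => h4.2 F u h6 (hPh h7) h8 h9⟩,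
      h5.of_cle h1⟩

/-! ### one curve -/

section enc

variable {G : Set s.Dbl} {inn : s.Dbl → Bool → Bool} {nm : Dart s → Option I}
variable {up : Φ → W → Bool} {Ph : Finset W} {b : Bool} {c : W → W}

/-- the two end darts of a free chord -/
theorem flip_ed {F : Φ} {w : W} (hA : s.At F w) (hf : s.Free F w) :
    flip (ed hA) = ed (At.mu s hA) := by
  have hn : node (flip (ed hA)) = none := by
    rcases h : node (flip (ed hA)) with _ | z
    · rfl
    · exfalso
      have h1 := eq_dz h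
      have h2 := chd_dz z (flip (ed hA)).x (flip (ed hA)).b
      rw [← h1] at h2
      have h3 : chd (flip (ed hA)).p = (F, s.lo F w) := Wk_689.chd_ed hA
      rw [h3] at h2
      exact hf z (Prod.mk.inj h2).1.symm _ (Prod.mk.inj h2).2.symm
  refine eq_ed hn (fc_ed hA) ?_ _
  have h1 : fc (ed hA) = F := fc_ed hA
  have h2 : pt (ed hA) = w := pt_ed hA
  rcases hd : ed hA with ⟨x, p, b⟩
  rw [hd] at h1 h2
  have h3 : (chd p).1 = F := h1
  cases b
  · have h4 : (chd p).2 = w := h2
    show s.mu (chd p).1 (chd p).2 = s.mu F w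
    rw [h3, h4]
  · have h4 : s.mu (chd p).1 (chd p).2 = w := h2
    show (chd p).2 = s.mu F w
    rw [← h4, h3]
    have h5 := chd_at p
    rw [h3] at h5
    exact (s.mu_mu h5.1 h5.2).symm




end enc

end Crest.Agent.R096.SecW_892
end

-- ▼ part R096/Sec4_892
section

/-!
# R096 / DOORS-SEC, part 4 (helper892): `Room` for the merged mesh of a tiling
-/

set_option autoImplicit false

open Set Filter Topology Metric

namespace Crest.Agent.R096.Sec_892

open Crest.Agent.R096.Msh_715 Crest.Agent.R096.Agl5_543 Crest.Agent.R096.St_147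
  Crest.Agent.R096.Agl1_543 Crest.Agent.R096.Agl2_543 Crest.Agent.R096.Agl3_543
  Crest.Agent.R096.Ori_543 Crest.Agent.R096.Cp_298

variable {E : Type} [NormedAddCommGroup E] [NormedSpace ℝ E] [FiniteDimensional ℝ E]
variable {Om : Set E} {ι : Type} {T : Tiling Om ι}

/-- the order on an edge -/
theorem pos_line_iff {F : C2 T} {w : E} (hw : w ∈ F.On) {a b : ℝ}
    (ha : w + a • dv T w ∈ T.oc w) (hb : w + b • dv T w ∈ T.oc w) :
    F.pos (w + a • dv T w) < F.pos (w + b • dv T w) ↔
      ((dirZ F w = 0 ∧ a < b) ∨ (dirZ F w = 1 ∧ b < a)) := by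
  rcases z2_cases (dirZ F w) with hz | hz
  · constructor
    · intro h
      left
      refine ⟨hz, ?_⟩
      by_contra hcon
      rcases lt_or_eq_of_le (not_lt.1 hcon) with h1 | h1
      · exact lt_asymm h ((pos_line hw h1 hb ha).1 hz)
      · rw [h1] at h; exact lt_irrefl _ h
    · rintro (h | h)
      · exact (pos_line hw h.2 ha hb).1 hz
      · rw [hz] at h; exact absurd h.1.symm z2_one_ne
  · constructor
    · intro h
      right
      refine ⟨hz, ?_⟩
      by_contra hcon
      rcases lt_or_eq_of_le (not_lt.1 hcon) with h1 | h1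
      · exact lt_asymm h ((pos_line hw h1 ha hb).2 hz)
      · rw [h1] at h; exact lt_irrefl _ h
    · rintro (h | h)
      · rw [hz] at h; exact absurd h.1 z2_one_ne
      · exact (pos_line hw h.2 hb ha).2 hz

/-- **parallel points on a prescribed side** -/
theorem exists_side (Ph S : Finset E) (hS : ∀ w ∈ S, w ∈ Om ∧ T.dim w = 1) (ε : E → Bool) :
    ∃ c : E → E, (∀ w ∈ S, c w ∈ T.oc w) ∧ (∀ w ∈ S, c w ∉ Ph) ∧
      (∀ w ∈ S, ∀ w' ∈ S, c w = c w' → w = w') ∧
      (∀ (F : C2 T), ∀ w ∈ S, w ∈ F.On → ∀ v ∈ Ph, v ∈ F.On → v ≠ w →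
        (F.pos v < F.pos w ↔ F.pos v < F.pos (c w))) ∧
      (∀ (F : C2 T), ∀ w ∈ S, ∀ w' ∈ S, w ∈ F.On → w' ∈ F.On → F.pos w < F.pos w' →
        F.pos (c w) < F.pos (c w')) ∧
      (∀ (F : C2 T), ∀ w ∈ S, w ∈ F.On →
        (F.pos w < F.pos (c w) ↔ (dirZ F w = 0 ↔ ε w = true))) := by
  classical
  set P : Set E := (↑(Ph ∪ S) : Set E) with hPdef
  have hPfin : P.Finite := Finset.finite_toSet _
  have hPl : ∀ {v}, v ∈ Ph → v ∈ P := fun h => Finset.mem_coe.2 (Finset.mem_union_left _ h)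
  have hPr : ∀ {v}, v ∈ S → v ∈ P := fun h => Finset.mem_coe.2 (Finset.mem_union_right _ h)
  have hex : ∀ w, ∃ τ : ℝ, w ∈ S → 0 < τ ∧ (∀ v ∈ T.V w, ‖v‖ < τ → w + v ∈ T.oc w) ∧
      ∀ w' ∈ P, w' ∈ T.oc w → w' ≠ w → τ ≤ dist w w' / 2 := by
    intro w
    by_cases h : w ∈ S
    · obtain ⟨τ, h1, h2, -, h4⟩ := exists_rad1 (P := P) (δ := fun _ => 1) (w := w)
        (hPfin.subset inter_subset_left) (fun _ => one_pos) (hS w h).1
      exact ⟨τ, fun _ => ⟨h1, h2, h4⟩⟩
    · exact ⟨0, fun h' => absurd h' h⟩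
  choose τ hτ using hex
  let a : E → ℝ := fun w => (if ε w = true then 1 else -1) * (τ w / (2 * ‖dv T w‖))
  let c : E → E := fun w => w + a w • dv T w
  have hn : ∀ {w}, w ∈ S → 0 < ‖dv T w‖ := fun {w} h =>
    norm_pos_iff.2 (dv_ne (hS w h).1 (hS w h).2)
  have habs : ∀ {w}, w ∈ S → |a w| * ‖dv T w‖ = τ w / 2 := by
    intro w h
    have h1 := hn h
    have h2 := (hτ w h).1
    have e : |a w| = τ w / (2 * ‖dv T w‖) := by
      show |(if ε w = true then (1 : ℝ) else -1) * (τ w / (2 * ‖dv T w‖))| = _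
      rw [abs_mul]
      have : |(if ε w = true then (1 : ℝ) else -1)| = 1 := by split_ifs <;> simp
      rw [this, one_mul, abs_of_pos (by positivity)]
    rw [e]
    field_simp
  have hnorm : ∀ {w}, w ∈ S → ‖a w • dv T w‖ = τ w / 2 := by
    intro w h
    rw [norm_smul, Real.norm_eq_abs, habs h]
  have ha0 : ∀ {w}, w ∈ S → a w ≠ 0 := by
    intro w h h0
    have h1 := habs h
    rw [h0, abs_zero, zero_mul] at h1
    have h2 := (hτ w h).1
    linarith
  have hoc : ∀ {w}, w ∈ S → c w ∈ T.oc w := by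
    intro w h
    refine (hτ w h).2.1 _ ((T.V w).smul_mem _ (dv_mem (hS w h).1 (hS w h).2)) ?_
    rw [hnorm h]
    have := (hτ w h).1
    linarith
  have hdist : ∀ {w}, w ∈ S → dist w (c w) = τ w / 2 := by
    intro w h
    show dist w (w + a w • dv T w) = _
    rw [dist_comm, dist_eq_norm, add_sub_cancel_left]
    exact hnorm h
  -- points in the same edge
  have hline : ∀ {w w'}, w ∈ S → w' ∈ T.oc w → ∃ s : ℝ, w' = w + s • dv T w ∧
      dist w w' = |s| * ‖dv T w‖ := by
    intro w w' h hw'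
    have h1 := ed1_mem (hS w h).1 (hS w h).2
    obtain ⟨s, hs⟩ := mem_V_line (hS w h).2 h1.1 h1.2 (ed1_spec (hS w h).1 (hS w h).2).1
      (T.sub_mem_V' (T.oc_sub_cc w hw') (T.self_mem_cc w))
    have e : w' = w + s • dv T w := by
      rw [show s • dv T w = w' - w from hs.symm]; abel
    refine ⟨s, e, ?_⟩
    rw [dist_comm, dist_eq_norm, hs, norm_smul, Real.norm_eq_abs]
    rfl
  refine ⟨c, fun w h => hoc h, ?_, ?_, ?_, ?_, ?_⟩
  · intro w h hc
    have h1 : c w ≠ w := by
      intro he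
      have := hdist h
      rw [he, dist_self] at this
      have := (hτ w h).1
      linarith
    have h2 := (hτ w h).2.2 (c w) (hPl hc) (hoc h) h1
    rw [hdist h] at h2
    have := (hτ w h).1
    linarith
  · intro w h w' h' he
    by_contra hne
    have h1 := hoc h
    have h2 := hoc h'
    rw [he] at h1
    have h4 : T.oc w = T.oc w' := by
      rcases T.oc_disjoint_or_eq (hS w h).1 (hS w' h').1 with h5 | h5
      · exact absurd h2 (disjoint_left.1 h5 h1)
      · exact h5
    have h5 : w' ∈ T.oc w := by rw [h4]; exact T.self_mem_oc w'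
    have h6 : w ∈ T.oc w' := by rw [← h4]; exact T.self_mem_oc w
    have h7 := (hτ w h).2.2 w' (hPr h') h5 (Ne.symm hne)
    have h8 := (hτ w' h').2.2 w (hPr h) h6 hne
    have h9 := hdist h
    have h10 := hdist h'
    rw [he] at h9
    have h11 := dist_triangle w (c w') w'
    rw [dist_comm (c w') w'] at h11
    rw [dist_comm w' w] at h8
    have := (hτ w h).1
    linarith
  · intro F w h hF v hv hvF hne
    have hO := (hS w h).1
    by_cases hoo : T.oc v = T.oc w
    · have h5 : v ∈ T.oc w := by rw [← hoo]; exact T.self_mem_oc v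
      obtain ⟨s, hs, hds⟩ := hline h h5
      have h7 := (hτ w h).2.2 v (hPl hv) h5 hne
      rw [hds] at h7
      have h8 := habs h
      have hnp := hn h
      have h9 : |a w| < |s| := by
        by_contra hcon
        have := mul_le_mul_of_nonneg_right (not_lt.1 hcon) hnp.le
        have := (hτ w h).1
        linarith
      have m0 : w + (0 : ℝ) • dv T w ∈ T.oc w := by
        rw [zero_smul, add_zero]; exact T.self_mem_oc w
      have ms : w + s • dv T w ∈ T.oc w := by rw [← hs]; exact h5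
      have m1 : w + a w • dv T w ∈ T.oc w := hoc h
      have e0 : F.pos w = F.pos (w + (0 : ℝ) • dv T w) := by rw [zero_smul, add_zero]
      rw [e0, hs]
      show _ ↔ F.pos (w + s • dv T w) < F.pos (w + a w • dv T w)
      rw [pos_line_iff hF ms m0, pos_line_iff hF ms m1]
      have h10 := abs_lt.1 (lt_of_lt_of_le h9 le_rfl)
      have k1 : s < 0 ↔ s < a w := by
        rcases lt_or_ge s 0 with h11 | h11
        · rw [abs_of_neg h11] at h10
          exact ⟨fun _ => by linarith [h10.1], fun _ => h11⟩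
        · rw [abs_of_nonneg h11] at h10
          exact ⟨fun h => by linarith, fun h => by linarith [h10.2]⟩
      have k2 : 0 < s ↔ a w < s := by
        rcases le_or_gt s 0 with h11 | h11
        · rw [abs_of_nonpos h11] at h10
          exact ⟨fun h => by linarith, fun h => by linarith [h10.1]⟩
        · rw [abs_of_pos h11] at h10
          exact ⟨fun _ => h10.2, fun _ => h11⟩
      rw [k1, k2]
    · have hne' : T.oc w ≠ T.oc v := fun h => hoo h.symm
      constructor
      · intro hlt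
        exact pos_sep hvF hF hoo hlt (T.self_mem_oc v) (hoc h)
      · intro hlt
        by_contra hcon
        rcases lt_or_eq_of_le (not_lt.1 hcon) with h11 | h11
        · exact lt_asymm hlt (pos_sep hF hvF hne' h11 (hoc h) (T.self_mem_oc v))
        · exact hne (F.pos_injOn.mono F.on_sub_bd hvF hF h11.symm)
  · intro F w h w' h' hF hF' hlt
    have hO := (hS w h).1
    have hO' := (hS w' h').1
    by_cases hoo : T.oc w = T.oc w'
    · have h5 : w' ∈ T.oc w := by rw [hoo]; exact T.self_mem_oc w'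
      have h6 : w ∈ T.oc w' := by rw [← hoo]; exact T.self_mem_oc w
      have hww : w ≠ w' := by
        rintro rfl
        exact lt_irrefl _ hlt
      obtain ⟨s, hs, hds⟩ := hline h h5
      have hdv : dv T w' = dv T w := dv_oc hO h5
      have h7 := (hτ w h).2.2 w' (hPr h') h5 (Ne.symm hww)
      have h8 := (hτ w' h').2.2 w (hPr h) h6 hww
      rw [dist_comm w' w] at h8
      rw [hds] at h7 h8
      have h9 := habs h
      have h10 := habs h'
      rw [hdv] at h10
      have hnp := hn h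
      have ha1 : |a w| ≤ |s| / 4 := by
        by_contra hcon
        have := mul_lt_mul_of_pos_right (not_le.1 hcon) hnp
        linarith
      have hb1 : |a w'| ≤ |s| / 4 := by
        by_contra hcon
        have := mul_lt_mul_of_pos_right (not_le.1 hcon) hnp
        linarith
      have e1 : c w = w + a w • dv T w := rfl
      have e2 : c w' = w + (s + a w') • dv T w := by
        show w' + a w' • dv T w' = _
        rw [hdv]
        nth_rewrite 1 [hs]
        module
      have m1 : w + a w • dv T w ∈ T.oc w := hoc h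
      have m2 : w + (s + a w') • dv T w ∈ T.oc w := by rw [← e2, hoo]; exact hoc h'
      have m0 : w + (0 : ℝ) • dv T w ∈ T.oc w := by
        rw [zero_smul, add_zero]; exact T.self_mem_oc w
      have ms : w + s • dv T w ∈ T.oc w := by rw [← hs]; exact h5
      have hlt' : F.pos (w + (0 : ℝ) • dv T w) < F.pos (w + s • dv T w) := by
        rw [zero_smul, add_zero, ← hs]; exact hlt
      rw [e1, e2, pos_line_iff hF m1 m2]
      have k1 := abs_le.1 ha1
      have k2 := abs_le.1 hb1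
      rcases (pos_line_iff hF m0 ms).1 hlt' with ⟨hz, hp⟩ | ⟨hz, hp⟩
      · left
        rw [abs_of_pos hp] at k1 k2
        exact ⟨hz, by linarith [k1.2, k2.1]⟩
      · right
        rw [abs_of_neg hp] at k1 k2
        exact ⟨hz, by linarith [k1.1, k2.2]⟩
    · exact pos_sep hF hF' hoo hlt (hoc h) (hoc h')
  · intro F w h hF
    have m0 : w + (0 : ℝ) • dv T w ∈ T.oc w := by
      rw [zero_smul, add_zero]; exact T.self_mem_oc w
    have m1 : w + a w • dv T w ∈ T.oc w := hoc h
    have e0 : F.pos w = F.pos (w + (0 : ℝ) • dv T w) := by rw [zero_smul, add_zero]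
    rw [e0]
    show F.pos (w + (0 : ℝ) • dv T w) < F.pos (w + a w • dv T w) ↔ _
    rw [pos_line_iff hF m0 m1]
    have hpos : 0 < τ w / (2 * ‖dv T w‖) := by
      have h1 := hn h
      have h2 := (hτ w h).1
      positivity
    cases he : ε w
    · have h1 : a w < 0 := by
        show (if ε w = true then (1 : ℝ) else -1) * (τ w / (2 * ‖dv T w‖)) < 0
        rw [he]
        simp only [Bool.false_eq_true, if_false]
        linarith
      constructor
      · rintro (h2 | h2)
        · exact absurd h2.2 (not_lt.2 h1.le)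
        · rw [h2.1]
          exact ⟨fun h => absurd h z2_one_ne, fun h => absurd h (by simp)⟩
      · intro h2
        right
        refine ⟨?_, h1⟩
        rcases z2_cases (dirZ F w) with hz | hz
        · exact absurd (h2.1 hz) (by simp)
        · exact hz
    · have h1 : 0 < a w := by
        show 0 < (if ε w = true then (1 : ℝ) else -1) * (τ w / (2 * ‖dv T w‖))
        rw [he]
        simp only [if_true]
        linarith
      constructor
      · rintro (h2 | h2)
        · rw [h2.1]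
          exact ⟨fun _ => rfl, fun _ => rfl⟩
        · exact absurd h2.2 (not_lt.2 h1.le)
      · intro h2
        left
        exact ⟨h2.2 rfl, h1⟩

/-! ### the merged mesh -/

section merged

variable {ι' I : Type} (h3 : Module.finrank ℝ E = 3) (π : ι → ι')
  (hc : ∀ k w, ConnAt (meshC T h3) (π ⁻¹' {k}) w) {col : I → Bool}

/-- the positive side of a sheet with transversal orientation `σ` -/
noncomputable def upS {ι Φ W : Type} {M : MeshC ι Φ W} (O : Ori M) (σ : W → ZMod 2) (F : Φ)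
    (w : W) : Bool := decide (σ w + O.dir F w = 0)

/-- a transversal orientation of the barriers gives `Two` -/
theorem two_of_ts {ι Φ W : Type} {M : MeshC ι Φ W} (O : Ori M) {s : St M col} {σ : W → ZMod 2}
    (h : ∀ F w, HP s w → w ∈ M.On F →
      σ w + σ (s.mu F w) + (O.dir F w + O.dir F (s.mu F w)) = 1) : Two s (upS O σ) := by
  intro F w hw hF
  have h1 := h F w hw hF
  unfold upS
  have h2 : (σ (s.mu F w) + O.dir F (s.mu F w) = 0) ↔ ¬ (σ w + O.dir F w = 0) := by
    have h3 : (σ w + O.dir F w) + (σ (s.mu F w) + O.dir F (s.mu F w)) = 1 := by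
      rw [← h1]; ring
    generalize σ w + O.dir F w = x at h3
    generalize σ (s.mu F w) + O.dir F (s.mu F w) = y at h3
    revert x y
    decide
  by_cases h3 : σ w + O.dir F w = 0
  · simp [h3, h2]
  · simp [h3, h2]

/-- **`Room` in a merged mesh of a tiling** -/
theorem room (s : St (mergeC (meshC T h3) π hc) col)
    (hV : ∀ w, HP s w → w ∈ Om ∧ T.dim w = 1) (σ : E → ZMod 2) :
    Room s (upS (oriC h3 π hc) σ) := by
  classical
  intro Ph b
  obtain ⟨c, h1, h2, h4, h5, h6, h7⟩ := exists_side (T := T) Ph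
    (s.P.filter fun w => col (s.lab w) = false)
    (fun w hw => hV w (Finset.mem_filter.1 hw))
    (fun w => decide (decide (σ w = 0) = b))
  have hm : ∀ {w}, HP s w → w ∈ s.P.filter fun w => col (s.lab w) = false := fun h =>
    Finset.mem_filter.2 h
  refine ⟨c, ?_, ?_, ?_, ?_, ?_, ?_⟩
  · intro w hw
    exact h2 w (hm hw)
  · intro w w' hw hw' he
    exact h4 w (hm hw) w' (hm hw') he
  · intro w F hw
    exact on_iff_oc (F := F.1) (hV w hw).1 (h1 w (hm hw))
  · intro F w v hw hF hv hvF hne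
    exact h5 F.1 w (hm hw) hF v hv hvF hne
  · intro F w w' hw hw' hF hF' hlt
    exact h6 F.1 w (hm hw) w' (hm hw') hF hF' hlt
  · intro F w hw hF
    refine (h7 F.1 w (hm hw) hF).trans ?_
    have e : (oriC h3 π hc).dir F w = dirZ F.1 w := rfl
    unfold upS
    rw [e]
    have key : ∀ (b : Bool) (x y : ZMod 2), (x = 0 ↔ decide (decide (y = 0) = b) = true) ↔
        decide (y + x = 0) = b := by decide
    have e2 : (fun w => decide (decide (σ w = 0) = b)) w = decide (decide (σ w = 0) = b) := rfl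
    exact key b (dirZ F.1 w) (σ w)

end merged

end Crest.Agent.R096.Sec_892
end

-- ▼ part R096/Sec12_892
section

/-!
# R096 / DOORS-SEC, part 12 (helper892): `Two` and `Room` of 501's pair state over a merged mesh of a
tiling, from `H1` of the barriers
-/

set_option autoImplicit false

namespace Crest.Agent.R096.SecW_892

open Crest.Agent.R096.Msh_715 Crest.Agent.R096.Agl5_543 Crest.Agent.R096.St_147
  Crest.Agent.R096.Agl1_543 Crest.Agent.R096.Agl2_543 Crest.Agent.R096.Agl3_543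
  Crest.Agent.R096.Ori_543 Crest.Agent.R096.Cp_298
open Crest.Agent.R096.Seq_213 Crest.Agent.R096.Sec_892 Crest.Agent.R096.Cg_501

variable {E : Type} [NormedAddCommGroup E] [NormedSpace ℝ E] [FiniteDimensional ℝ E]
variable {Om : Set E} {ι : Type} {T : Tiling Om ι}
variable {ι' J C Mo : Type} {fam : J → C} {am : Mo → C}

/-- **the side function of the barriers of a family** -/
theorem pr_up (h3 : Module.finrank ℝ E = 3) (π : ι → ι')
    (hc : ∀ k w, ConnAt (meshC T h3) (π ⁻¹' {k}) w)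
    (s : GSt (mergeC (meshC T h3) π hc) (Sum.map fam (id : Mo → Mo))) (hs : BSep s am)
    (hm : ∀ a, {m | am m = a}.Finite) (a : C) (i0 : PN fam am a)
    (h1 : ∀ m, am m = a → s.H1 (Sum.inr m))
    (hV : ∀ w ∈ s.P, ∀ m, am m = a → s.lab w = Sum.inr m → w ∈ Om ∧ T.dim w = 1) :
    ∃ up, Two (pr s hs hm a i0) up ∧ Room (pr s hs hm a i0) up := by
  classical
  have h2 : ∀ m, ∃ σ, am m = a → TSj s (oriC h3 π hc) (Sum.inr m) σ := by
    intro m
    by_cases h : am m = a
    · obtain ⟨σ, hσ⟩ := exists_tsj s (oriC h3 π hc) (h1 m h)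
      exact ⟨σ, fun _ => hσ⟩
    · exact ⟨fun _ => 0, fun h' => absurd h' h⟩
  choose σ hσ using h2
  set τ : E → ZMod 2 := fun w => Sum.elim (fun _ => 0) (fun m => σ m w) (s.lab w) with hτ
  refine ⟨upS (oriC h3 π hc) τ, two_of_ts _ ?_, room h3 π hc _ ?_ τ⟩
  · intro F w hw hF
    obtain ⟨hwP, m, hma, hl⟩ := pr_hp.1 hw
    have hl' : s.lab (s.mu F w) = Sum.inr m := (s.mu_lab hwP hF).trans hl
    have e1 : τ w = σ m w := by simp only [hτ, hl, Sum.elim_inr]
    have e2 : τ (s.mu F w) = σ m (s.mu F w) := by simp only [hτ, hl', Sum.elim_inr]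
    rw [pr_mu, e1, e2]
    exact hσ m hma F w ⟨hwP, hF⟩ hl
  · intro w hw
    obtain ⟨hwP, m, hma, hl⟩ := pr_hp.1 hw
    exact hV w hwP m hma hl

end Crest.Agent.R096.SecW_892
end

-- ▼ part R096/Sec14_892
section

/-!
# R096 / DOORS-SEC, part 14 (helper892): CUT with (ENC) for ONE sheet

New points of the sheet `i` lie only next to barrier points which are not joined, by barrier chords not
crossed by the sheet `i`, with a point on a frozen face.
-/

set_option autoImplicit false

namespace Crest.Agent.R096.SecW_892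

open Crest.Agent.R096.St_147 Crest.Agent.R096.Wk_689 Crest.Agent.R096.F_422
open Crest.Agent.R096.Sec_892

variable {ι Φ W I : Type} {M : MeshC ι Φ W} {col : I → Bool} {s : St M col}
variable {Act : Set ι} {far : I → Set W}

/-- the barrier chord `(F, x)` is not crossed by the sheet `i` -/
def NoC (s : St M col) (i : I) (F : Φ) (x : W) : Prop :=
  ∀ z : s.Dbl, z.F = F → z.e false = s.lo F x → s.lab (z.e true) ≠ i

/-- the barrier point `h` is not joined, by barrier chords which are not crossed by the sheet `i`, with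
a point on a frozen face (or a marked point) -/
def EnclN (Act : Set ι) (far : I → Set W) (s : St M col) (i : I) (h : W) : Prop :=
  ∃ X : Set W, h ∈ X ∧ (∀ x ∈ X, HP s x ∧ s.lab x = s.lab h) ∧
    (∀ F x, x ∈ X → s.At F x → NoC s i F x → s.mu F x ∈ X) ∧
    ∀ x ∈ X, x ∉ far (s.lab h) ∧ ∀ F, s.At F x → ¬ St.Frozen M Act F

/-- new points of the sheet `i` only next to barrier points enclosed by the sheet `i` -/
def EncN (Act : Set ι) (far : I → Set W) (Ph : Finset W) (s' s : St M col) : Prop :=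
  ∀ w ∈ s'.P, w ∉ s.P → ∃ h, HP s h ∧ (∃ F, h ∈ M.On F) ∧ Nb M Ph h w ∧
    EnclN Act far s (s'.lab w) h

/-- every double point has an old one with the same names -/
def DblN (s' s : St M col) : Prop :=
  ∀ z' : s'.Dbl, ∃ z : s.Dbl, z.F = z'.F ∧ z.e false = z'.e false ∧
    s.lab (z.e true) = s'.lab (z'.e true)

theorem DblN.refl (s : St M col) : DblN s s := fun z => ⟨z, rfl, rfl, rfl⟩

theorem DblN.trans {s'' s' s : St M col} (h2 : DblN s'' s') (h1 : DblN s' s) : DblN s'' s := by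
  intro z
  obtain ⟨z1, a1, a2, a3⟩ := h2 z
  obtain ⟨z2, b1, b2, b3⟩ := h1 z1
  exact ⟨z2, b1.trans a1, b2.trans a2, b3.trans a3⟩

/-- the named form is stronger -/
theorem EnclN.encl {i : I} {h : W} (he : EnclN Act far s i h) : Encl Act far s h := by
  obtain ⟨X, h1, h2, h3, h4⟩ := he
  refine ⟨X, h1, h2, fun F x hx hA hf => h3 F x hx hA ?_, h4⟩
  intro z hF he _
  exact hf z hF false he

theorem noC_of {Ph : Finset W} {s' s : St M col} (hc : CLe Act far Ph s' s) (hd : DblN s' s)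
    {i : I} {F : Φ} {x : W} (hx : HP s x) (h : NoC s i F x) : NoC s' i F x := by
  intro z' hF he hl
  have hlo : s'.lo F x = s.lo F x := by
    unfold St.lo
    rw [hc.hmu x F hx]
  obtain ⟨z, h1, h2, h3⟩ := hd z'
  exact h z (h1.trans hF) (by rw [h2, he, hlo]) (h3.trans hl)

theorem EnclN.of_cle {Ph : Finset W} {s' s : St M col} (hc : CLe Act far Ph s' s)
    (hd : DblN s' s) {i : I} {h : W} (he : EnclN Act far s' i h) : EnclN Act far s i h := by
  obtain ⟨X, h1, h2, h3, h4⟩ := he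
  have hh := (hc.hp h).1 (h2 h h1).1
  have hl : s'.lab h = s.lab h := hc.hlab h hh
  refine ⟨X, h1, ?_, ?_, ?_⟩
  · intro x hx
    obtain ⟨h5, h6⟩ := h2 x hx
    have h7 := (hc.hp x).1 h5
    exact ⟨h7, by rw [← hc.hlab x h7, h6, hl]⟩
  · intro F x hx hA hf
    obtain ⟨h5, -⟩ := h2 x hx
    have h7 := (hc.hp x).1 h5
    rw [← hc.hmu x F h7]
    exact h3 F x hx ⟨h5.1, hA.2⟩ (noC_of hc hd h7 hf)
  · intro x hx
    obtain ⟨h5, -⟩ := h2 x hx
    obtain ⟨h6, h7⟩ := h4 x hx
    rw [hl] at h6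
    exact ⟨h6, fun F hA => h7 F ⟨h5.1, hA.2⟩⟩

theorem EncN.refl (Act : Set ι) (far : I → Set W) (Ph : Finset W) (s : St M col) :
    EncN Act far Ph s s := fun _ h h' => absurd h h'

theorem EncN.trans {Ph Ph' : Finset W} {s'' s' s : St M col} (hPh : Ph ⊆ Ph')
    (h2 : CL2 Act far Ph' s'' s') (h1 : CLe Act far Ph s' s) (hd : DblN s' s)
    (e2 : EncN Act far Ph' s'' s') (e1 : EncN Act far Ph s' s) : EncN Act far Ph s'' s := by
  intro w hw hws
  by_cases h : w ∈ s'.P
  · rw [h2.lab w hw h]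
    exact e1 w h hws
  · obtain ⟨v, h3, h3', h4, h5⟩ := e2 w hw h
    exact ⟨v, (h1.hp v).1 h3, h3', ⟨h4.1, fun F u h6 h7 h8 h9 => h4.2 F u h6 (hPh h7) h8 h9⟩,
      h5.of_cle h1 hd⟩

theorem EncN.enc {Ph : Finset W} {s' s : St M col} (h : EncN Act far Ph s' s) :
    Enc Act far Ph s' s := by
  intro w hw hws
  obtain ⟨v, h1, h2, h3, h4⟩ := h w hw hws
  exact ⟨v, h1, h2, h3, h4.encl⟩

section enc

variable {G : Set s.Dbl} {inn : s.Dbl → Bool → Bool} {nm : Dart s → Option I}
variable {up : Φ → W → Bool} {Ph : Finset W} {b : Bool} {c : W → W}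

/-- the disc function is constant along a barrier chord without points of the curve -/
theorem D_chd {A : s.Arcs Act} {τ : Bool → ι → s.Dbl → ZMod 2}
    {D : s.Dbl → Bool → Dart s → ZMod 2} {z₀ : s.Dbl} (hD : DD A τ A.mx far D) (hz₀ : z₀ ∈ A.mx)
    {F : Φ} {x : W} (hA : s.At F x) (hx : col (s.lab x) = false)
    (hno : ∀ z ∈ A.cv z₀, z.F = F → z.e false ≠ s.lo F x) (hA' : s.At F (s.mu F x))
    (h1 : D z₀ false (ed hA) = 1) : D z₀ false (ed hA') = 1 := by
  classical
  have hG : ∀ z ∈ A.cv z₀, z.F = F → z.e (col (s.lab x)) ≠ s.lo F x := by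
    rw [hx]; exact hno
  have hmu : mu' (A.cv z₀) (innD D) F x = s.mu F x := mu'_eq_mu hA hG
  have horb : ∀ y (hy : s.At F y), y = mu' (A.cv z₀) (innD D) F x →
      orb (A.cv z₀) (innD D) (ed hy) = orb (A.cv z₀) (innD D) (ed hA) := by
    rintro y hy rfl
    exact orb_mu' hA
  have h2 := orb_eq_iff.1 (horb _ hA' hmu.symm).symm
    (fun d => (d.x = false ∧ chd d.p = (F, s.lo F x)) ∧ D z₀ false d = 1) ?_ ?_ ?_
  · exact h2.2
  · rintro d ⟨⟨h3, h4⟩, h5⟩
    exact ⟨⟨h3, h4⟩, by rw [hD.fl z₀ hz₀]; exact h5⟩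
  · rintro d ⟨⟨h3, h4⟩, h5⟩
    rcases hn : node d with _ | z
    · rw [tt_none hn]
      exact ⟨⟨h3, h4⟩, h5⟩
    · have hd := eq_dz hn
      have h6 : chd d.p = (z.F, z.e d.x) := by
        conv_lhs => rw [hd]
        rw [chd_dz, dz_x]
      rw [h4, h3] at h6
      have hzF : z.F = F := (Prod.mk.inj h6).1.symm
      have hze : z.e false = s.lo F x := (Prod.mk.inj h6).2.symm
      have hzn : z ∉ A.cv z₀ := fun h => hno z h hzF hze
      have h7 : tt (A.cv z₀) (innD D) d = dz z false (!d.b) := by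
        conv_lhs => rw [hd]
        rw [tt_dz_out hzn, h3]
      rw [h7]
      refine ⟨⟨dz_x _ _ _, ?_⟩, ?_⟩
      · rw [chd_dz, dz_x, hzF, hze]
      · have h8 : D z₀ false (dz z false (!d.b)) = D z₀ false (dz z false d.b) := by
          have h9 := hD.jump_out z₀ hz₀ z hzn false
          cases d.b
          · exact h9
          · exact h9.symm
        rw [h8]
        rw [hd, h3] at h5
        exact h5
  · refine ⟨⟨?_, Wk_689.chd_ed hA⟩, h1⟩
    rw [x_ed, hx]

/-- pushed points lie next to barrier points enclosed by the sheet -/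
theorem pst_encN {A : s.Arcs Act} {τ : Bool → ι → s.Dbl → ZMod 2}
    {D : s.Dbl → Bool → Dart s → ZMod 2} {z₀ : s.Dbl} (hD : DD A τ A.mx far D) (hz₀ : z₀ ∈ A.mx)
    (hg : s.Good Act far) (N : NmsT s (A.cv z₀) far (innD D) (nm1 D z₀))
    (hp : Push s up Ph b c) (hP : s.P ⊆ Ph) :
    EncN Act far Ph (pst hp hP (nst_sub hg N)) s := by
  intro w hw hws
  have hmx := A.mx_closed
  have hG' : A.Closed (A.cv z₀) := by
    intro u hu q hq
    exact ⟨(hmx u (cv_sub hmx hz₀ hu) q hq).1, cv_trans hu (cv_arc hq)⟩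
  have hDw : DDw A τ (A.cv z₀) far D := DDw.of hD fun u hu => cv_sub hmx hz₀ hu
  rcases pst_cases hw with ⟨v, hv, rfl⟩ | h
  · have hvP := nst_sub hg N (mem_kA.1 hv).1
    cases hc : col (s.lab v)
    · have hm := (mem_nmd (hg := hg) (N := N)).1 (mem_kA.1 hv).1
      have hface : ∃ F, s.At F v := by
        by_contra hcon
        have h1 : lab' s (nm1 D z₀) v = s.lab v := by
          classical
          unfold lab'
          rw [dif_neg hcon]
        rw [h1, hc] at hm
        exact Bool.false_ne_true hm.2.1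
      have hin : ∀ F (hA : s.At F v), D z₀ false (ed hA) = 1 ∧
          lab' s (nm1 D z₀) v = s.lab (z₀.e true) := by
        intro F hA
        have h1 := joined_nm N hm.2.1 hm.2.2 hA
        rcases z2 (D z₀ false (ed hA)) with h2 | h2
        · rw [nm1_f' (by rw [x_ed, hc]) h2] at h1
          exact absurd h1 (by simp)
        · refine ⟨h2, ?_⟩
          rw [nm1_f (by rw [x_ed, hc]) h2] at h1
          exact (Option.some.inj h1).symm
      have hlab : (pst hp hP (nst_sub hg N)).lab (ph s c v) = s.lab (z₀.e true) := by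
        rw [(pst_ph hv).2.1]
        exact (hin _ hface.choose_spec).2
      rw [hlab]
      rw [ph_pos hc] at hws ⊢
      refine ⟨v, ⟨hvP, hc⟩, ⟨_, hface.choose_spec.2⟩, ⟨fun F => hp.on F ⟨hvP, hc⟩,
          fun F u h3 h4 h5 h6 => hp.adj ⟨hvP, hc⟩ h3 h4 h5 h6⟩,
        {x | s.lab x = s.lab v ∧ (∃ F, s.At F x) ∧ ∀ F (hA : s.At F x), D z₀ false (ed hA) = 1},
        ⟨rfl, hface, fun F hA => (hin F hA).1⟩, ?_, ?_, ?_⟩
      · rintro x ⟨h1, ⟨F, hA⟩, -⟩
        exact ⟨⟨hA.1, by rw [h1]; exact hc⟩, h1⟩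
      · rintro F x ⟨h1, -, h2⟩ hA hf
        have hA' := At.mu s hA
        refine ⟨(s.mu_lab hA.1 hA.2).trans h1, ⟨F, hA'⟩, fun F' hA'' => ?_⟩
        rw [hD.cont z₀ hz₀ false F' F _ hA'' hA']
        refine D_chd hD hz₀ hA (by rw [h1]; exact hc) ?_ hA' (h2 F hA)
        intro z hz hzF hze
        exact hf z hzF hze (SecW_892.lab_cv hDw hG' (cv_refl A z₀) hz true)
      · rintro x ⟨h1, ⟨F, hA⟩, h2⟩
        constructor
        · intro hx
          have h3 := hD.far0 z₀ hz₀ false _ F x hA hx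
          rw [h2 F hA] at h3
          exact one_ne_zero h3
        · intro F' hA' hF'
          have h3 := hD.far0 z₀ hz₀ false _ F' x hA' (hg.far_frozen hA' hF')
          rw [h2 F' hA'] at h3
          exact one_ne_zero h3
    · rw [ph_neg hc] at hws
      exact absurd hvP hws
  · exact absurd h.1 hws

/-- double points keep their names -/
theorem pst_dblN {A : s.Arcs Act} {D : s.Dbl → Bool → Dart s → ZMod 2} {z₀ : s.Dbl}
    (hg : s.Good Act far) (N : NmsT s (A.cv z₀) far (innD D) (nm1 D z₀))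
    (hp : Push s up Ph b c) (hP : s.P ⊆ Ph) (h2 : Two s up) :
    DblN (pst hp hP (nst_sub hg N)) s := by
  intro z'
  obtain ⟨v, hv, z, β, hk, he, h5, h6, h7, -⟩ := exists_old' h2 (nst_mu' hg N) z'
  refine ⟨z, h5, h6, ?_⟩
  have hm := (mem_nmd (hg := hg) (N := N)).1 (mem_kA.1 hk).1
  have h8 := joined_nm N hm.2.1 hm.2.2 hv
  rw [← nmO_orb N, ← h7, nmO_orb N] at h8
  rw [he, (pst_ph hk).2.1]
  show _ = lab' s (nm1 D z₀) v
  rcases z2 (D z₀ true (dz z true β)) with h9 | h9
  · rw [nm1_t (dz_x _ _ _) h9, St_147.lab_dz] at h8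
    exact Option.some.inj h8
  · rw [nm1_t' (dz_x _ _ _) h9] at h8
    exact absurd h8 (by simp)



end enc

end Crest.Agent.R096.SecW_892
end

-- ▼ part R096/Cnp1_824
section

/-!
# R096 / DOORS-SEC (helper824): CUT with the clause (NEW) : the new points of the cut state are
joined with the base point if all points of the truthful zone are

Extension of 892's Sec10 / Sec11 (`pst_pb`, `cutE`): in `pst_pbn` the value of the closed set at
the new points is the value at the removed curve.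
-/

set_option autoImplicit false

namespace Crest.Agent.R096.Cnp_824

open Crest.Agent.R096.St_147 Crest.Agent.R096.Wk_689 Crest.Agent.R096.F_422
open Crest.Agent.R096.Sec_892 Crest.Agent.R096.SecW_892

variable {ι Φ W I : Type} {M : MeshC ι Φ W} {col : I → Bool} {s : St M col}
variable {Act : Set ι} {far : I → Set W}

/-- the part `R` (a set of faces) of the sheet `i` is joined with the point `b` by `K`-chords -/
def TrP (s : St M col) (i : I) (K : Φ → W → Prop) (b : W) (R : Set Φ) : Prop :=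
  ∀ X : Set W, b ∈ X → KCl s i K X → ∀ F ∈ R, ∀ w, s.At F w → s.lab w = i → w ∈ X

/-- the barrier points on the faces of `R` are joined, by barrier chords on the faces of `R`, with
points which are not enclosed -/
def ConnS (Act : Set ι) (far : I → Set W) (s : St M col) (R : Set Φ) : Prop :=
  ∀ h, HP s h → ∀ F ∈ R, h ∈ M.On F → ∀ Y : Set W, h ∈ Y →
    (∀ F ∈ R, ∀ y ∈ Y, s.At F y → s.lab y = s.lab h → s.mu F y ∈ Y) →
    ∃ y ∈ Y, HP s y ∧ s.lab y = s.lab h ∧ ¬ Encl Act far s y

/-- **the clause (NEW)** -/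
def TrN (Act : Set ι) (far : I → Set W) (s' s : St M col) : Prop :=
  ∀ i, col i = true → ∀ K : Φ → W → Prop, KBar s K → ∀ b ∈ far i, ∀ R : Set Φ,
    ConnS Act far s R → TrP s i K b R → TrP s' i K b R

theorem TrN.refl (Act : Set ι) (far : I → Set W) (s : St M col) : TrN Act far s s :=
  fun _ _ _ _ _ _ _ _ h => h

theorem KBar.of_cle {Ph : Finset W} {s' s : St M col} (hc : CLe Act far Ph s' s)
    {K : Φ → W → Prop} (hK : KBar s K) : KBar s' K :=
  fun q F F' h hq hq' hh hF' => hK q F F' h hq hq' ((hc.hp h).1 hh) hF'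

theorem ConnS.of_cle {Ph : Finset W} {s' s : St M col} (hc : CLe Act far Ph s' s) {R : Set Φ}
    (h : ConnS Act far s R) : ConnS Act far s' R := by
  intro x hx F hF hxF Y hxY hY
  have hx' := (hc.hp x).1 hx
  obtain ⟨y, h1, h2, h3, h4⟩ := h x hx' F hF hxF Y hxY (by
    intro F' hF' y hy hA hl
    have h5 : HP s y := ⟨hA.1, by rw [hl]; exact hx'.2⟩
    rw [← hc.hmu y F' h5]
    exact hY F' hF' y hy ⟨((hc.hp y).2 h5).1, hA.2⟩ (by
      rw [hc.hlab y h5, hc.hlab x hx', hl]))
  refine ⟨y, h1, (hc.hp y).2 h2, by rw [hc.hlab y h2, hc.hlab x hx', h3], fun he => h4 ?_⟩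
  exact he.of_cle hc

theorem TrN.trans {Ph : Finset W} {s'' s' s : St M col} (hc : CLe Act far Ph s' s)
    (h2 : TrN Act far s'' s') (h1 : TrN Act far s' s) : TrN Act far s'' s :=
  fun i hi K hK b hb R hR hT =>
    h2 i hi K (KBar.of_cle hc hK) b hb R (hR.of_cle hc) (h1 i hi K hK b hb R hR hT)

section step

variable {G : Set s.Dbl} {inn : s.Dbl → Bool → Bool} {nm : Dart s → Option I}
variable {up : Φ → W → Bool} {Ph : Finset W} {b : Bool} {c : W → W}

/-- **pull back of closed sets for one curve, with the values at the new points**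
(892's `pst_pb` with one more conclusion) -/
theorem pst_pbn {A : s.Arcs Act} {z₀ : s.Dbl} (hz₀ : z₀ ∈ A.mx) (hg : s.Good Act far)
    (N : NmsT s (A.cv z₀) far inn nm) (hp : Push s up Ph b c) (hP : s.P ⊆ Ph)
    (hgood : (pst hp hP (nst_sub hg N)).Good Act far) :
    ∀ i, col i = true → ∀ K : Φ → W → Prop, KBar s K →
      ∀ X', KCl (pst hp hP (nst_sub hg N)) i K X' → ∃ X, KCl s i K X ∧
        (∀ w, w ∈ s.P → s.lab w = i → w ∈ (pst hp hP (nst_sub hg N)).P →
          (pst hp hP (nst_sub hg N)).lab w = i → (w ∈ X ↔ w ∈ X')) ∧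
        ∀ w ∈ (pst hp hP (nst_sub hg N)).P, w ∉ s.P → (pst hp hP (nst_sub hg N)).lab w = i →
          (w ∈ X' ↔ z₀.e true ∈ X) := by
  classical
  intro i hi K hK X' hX'
  set t := nst hg N with ht
  set s' := pst hp hP (nst_sub hg N) with hs'
  set χ : W → ZMod 2 := fun w => if w ∈ X' then 1 else 0 with hχ
  have hχe : ∀ {u v : W}, (u ∈ X' ↔ v ∈ X') → χ u = χ v := fun h => if_congr h rfl rfl
  -- kept points
  have hkept : ∀ {w}, w ∈ t.P → s.lab w = i → t.lab w = i ∧ ph s c w = w ∧ w ∈ s'.P ∧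
      s'.lab w = i := by
    intro w hw hwi
    have hc : col (s.lab w) = true := by rw [hwi]; exact hi
    have h1 : t.lab w = i := (nst_same hg N hw hc).trans hwi
    have h2 : w ∈ kA t := mem_kA.2 ⟨hw, by rw [h1]; exact hi⟩
    have h3 := pst_ph (hp := hp) (hP := hP) (ht := nst_sub hg N) h2
    rw [ph_neg hc] at h3
    exact ⟨h1, ph_neg hc, h3.1, h3.2.1.trans h1⟩
  have hcom : ∀ w, w ∈ s.P → s.lab w = i → w ∈ s'.P → w ∈ t.P := by
    intro w hw hwi hw'
    rcases (pst_common hg N hp hP hw' hw).1 with h | ⟨h, hc⟩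
    · exfalso
      have h3 := h.2
      rw [hwi, hi] at h3
      exact Bool.false_ne_true h3.symm
    · exact (mem_kA.1 h).1
  have htm : ∀ {F w}, s.At F w → w ∈ t.P → t.mu F w ∈ t.P := fun hA hw => (nmd hg N).mem hA hw
  -- free chords
  have hfree : ∀ {F w}, s.At F w → s.lab w = i →
      (∀ z ∈ A.cv z₀, z.F = F → z.e true ≠ s.lo F w) → t.mu F w = s.mu F w := by
    intro F w hA hwi hz
    exact mu'_eq_mu hA (by rw [hwi, hi]; exact hz)
  have hfree_iff : ∀ {F w}, s.At F w → s.lab w = i →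
      (∀ z ∈ A.cv z₀, z.F = F → z.e true ≠ s.lo F w) →
      (w ∈ t.P → s.mu F w ∈ t.P ∧ s'.mu F w = s.mu F w) := by
    intro F w hA hwi hz hw
    have h1 := hfree hA hwi hz
    have h2 := htm hA hw
    rw [h1] at h2
    refine ⟨h2, ?_⟩
    obtain ⟨h3, h4, -, -⟩ := hkept hw hwi
    have h5 : w ∈ kA t := mem_kA.2 ⟨hw, by rw [h3]; exact hi⟩
    have h6 := (pst_ph (hp := hp) (hP := hP) (ht := nst_sub hg N) h5).2.2 F
    rw [h4] at h6
    refine h6.trans ?_
    show ph s c (t.mu F w) = _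
    rw [h1]
    exact (hkept h2 ((s.mu_lab hA.1 hA.2).trans hwi)).2.1
  have hlo : ∀ {F w}, s.At F w → s.lo F (s.mu F w) = s.lo F w := by
    intro F w hA
    unfold St.lo
    rw [s.mu_mu hA.1 hA.2]
    rcases lt_trichotomy (M.pos F w) (M.pos F (s.mu F w)) with h | h | h
    · rw [if_neg (not_le.2 h), if_pos h.le]
    · exact absurd (M.pos_inj F hA.2 (s.mu_mem hA.1 hA.2).2 h).symm (s.mu_ne hA.1 hA.2)
    · rw [if_pos h.le, if_neg (not_le.2 h)]
  -- the cochain
  set θ : Φ → W → ZMod 2 := fun F w =>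
    if w ∈ t.P ∧ ¬ K F w ∧ ¬ K F (s.mu F w) then χ w + χ (s.mu F w) else 0 with hθ
  have hθK : ∀ {F w}, K F w → θ F w = 0 := fun h => if_neg fun h' => h'.2.1 h
  obtain ⟨Ψ, hΨ⟩ := hg.h1 i θ (by
    intro q
    by_cases hq : ∃ F' h, q ∈ M.side F' ∧ HP s h ∧ h ∈ M.On F'
    · obtain ⟨F', h, hq', hh, hF'⟩ := hq
      refine ⟨fun _ => 0, fun F w hF hA hl => ?_⟩
      rw [add_zero]
      exact hθK (hK q F F' h hF hq' hh hF' w)
    · refine ⟨fun w => if w ∈ t.P then χ w else 0, fun F w hF hA hl => ?_⟩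
      have hno : ∀ z ∈ A.cv z₀, z.F = F → z.e true ≠ s.lo F w := by
        intro z _ hzF _
        exact hq ⟨z.F, z.e false, by rw [hzF]; exact hF, ⟨(z.at_ false).1, z.colr false⟩,
          (z.at_ false).2⟩
      have hA' := At.mu s hA
      have hl' : s.lab (s.mu F w) = i := (s.mu_lab hA.1 hA.2).trans hl
      have hno' : ∀ z ∈ A.cv z₀, z.F = F → z.e true ≠ s.lo F (s.mu F w) := by
        rw [hlo hA]; exact hno
      by_cases hw : w ∈ t.P
      · obtain ⟨h1, h2⟩ := hfree_iff hA hl hno hw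
        beta_reduce
        rw [if_pos hw, if_pos h1]
        by_cases hk : K F w ∨ K F (s.mu F w)
        · have h3 : w ∈ X' ↔ s.mu F w ∈ X' := by
            rcases hk with hk | hk
            · have := hX' F w ⟨(hkept hw hl).2.2.1, hA.2⟩ (hkept hw hl).2.2.2 hk
              rwa [h2] at this
            · have h4 := (hfree_iff hA' hl' hno' h1).2
              rw [s.mu_mu hA.1 hA.2] at h4
              have := hX' F (s.mu F w) ⟨(hkept h1 hl').2.2.1, hA'.2⟩ (hkept h1 hl').2.2.2 hk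
              rw [h4] at this
              exact this.symm
          rw [hχe h3, add_self2]
          exact if_neg fun h' => hk.elim h'.2.1 h'.2.2
        · rw [not_or] at hk
          exact if_pos ⟨hw, hk.1, hk.2⟩
      · have h1 : s.mu F w ∉ t.P := by
          intro h
          have := (hfree_iff hA' hl' hno' h).1
          rw [s.mu_mu hA.1 hA.2] at this
          exact hw this
        beta_reduce
        rw [if_neg hw, if_neg h1, add_zero]
        exact if_neg fun h' => hw h'.1)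
  have hΨK : ∀ {F w}, s.At F w → s.lab w = i → K F w → Ψ w = Ψ (s.mu F w) := by
    intro F w hA hl hk
    have := hΨ F w hA hl
    rw [hθK hk] at this
    exact eq_of_add2 this.symm
  -- affected chords
  have haff : ∀ {F w}, s.At F w → s.lab w = i →
      (∃ z ∈ A.cv z₀, z.F = F ∧ z.e true = s.lo F w) → Ψ w = Ψ (z₀.e true) := by
    rintro F w hA hl ⟨z, hz, hzF, hze⟩
    have hKF : ∀ u, K F u := by
      obtain ⟨q, hq⟩ := exists_side' (M := M) F
      exact hK q F F (z.e false) hq hq ⟨(z.at_ false).1, z.colr false⟩ (by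
        rw [← hzF]; exact (z.at_ false).2)
    have hloA : s.lo F w = w ∨ s.lo F w = s.mu F w := by
      unfold St.lo
      split_ifs
      · exact Or.inl rfl
      · exact Or.inr rfl
    have hl2 : s.lab (s.lo F w) = i := by
      rcases hloA with h | h
      · rw [h]; exact hl
      · rw [h, s.mu_lab hA.1 hA.2]; exact hl
    have hΨ2 : Ψ (s.lo F w) = Ψ w := by
      rcases hloA with h | h
      · rw [h]
      · rw [h]; exact (hΨK hA hl (hKF w)).symm
    have hz1 : s.lab (z.e true) = i := by rw [hze]; exact hl2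
    have hmx := A.mx_closed
    -- the curve lies on the sheet `i`
    have hi0 : s.lab (z₀.e true) = i := by
      have := (curve_const (K := K) (Ψ := fun _ => 0) hz₀ hK (fun _ _ _ _ _ => rfl) hz).1
      rw [← this]; exact hz1
    have := (curve_const (Ψ := Ψ) hz₀ hK (fun F w hA' hl' hk' => hΨK hA' (hl'.trans hi0) hk') hz).2
    rw [← this, hze]
    exact hΨ2.symm
  obtain ⟨b₀, hb₀⟩ := hg.far_ne i
  have hb1 : b₀ ∈ t.P := far_mem' hg N hi hb₀
  have hb2 : s.lab b₀ = i := (hg.far_mem hb₀).2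
  set e : ZMod 2 := Ψ b₀ + χ b₀ with he
  set Z : Set W := {x | (x ∈ s.P → Ψ x + χ x = e) ∧ (x ∉ s.P → Ψ (z₀.e true) + χ x = e)} with hZ
  have hclosed : ∀ F x, x ∈ Z → s'.At F x → s'.lab x = i → s'.mu F x ∈ Z := by
    intro F x hxZ hxA hxl
    obtain ⟨v, hv, rfl⟩ := pst_true hxA.1 (by rw [hxl]; exact hi)
    have hvP := nst_sub hg N (mem_kA.1 hv).1
    have hvF : v ∈ M.On F := (ph_on hp hvP F).1 hxA.2
    have hvA : s.At F v := ⟨hvP, hvF⟩
    have h4 := pst_ph (hp := hp) (hP := hP) (ht := nst_sub hg N) hv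
    have hvl : t.lab v = i := h4.2.1.symm.trans hxl
    have hmu : s'.mu F (ph s c v) = ph s c (t.mu F v) := h4.2.2 F
    -- the new partner
    have hv' : t.mu F v ∈ t.P := htm hvA (mem_kA.1 hv).1
    have hv'l : t.lab (t.mu F v) = i := (t.mu_lab (mem_kA.1 hv).1 hvF).trans hvl
    have hv'A : s.At F (t.mu F v) := mu'_at (A.cv z₀) inn hvA
    have hmm : t.mu F (t.mu F v) = v := t.mu_mu (mem_kA.1 hv).1 hvF
    -- values at a common point on an affected chord
    have hval : ∀ u, s.At F u → u ∈ t.P → col (s.lab u) = true → t.lab u = i →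
        (∃ z ∈ A.cv z₀, z.F = F ∧ z.e true = s.lo F u) → Ψ u = Ψ (z₀.e true) := by
      intro u hu huP huc hul hz
      exact haff hu ((nst_same hg N huP huc).symm.trans hul) hz
    by_cases haf : col (s.lab v) = true ∧ ∀ z ∈ A.cv z₀, z.F = F → z.e true ≠ s.lo F v
    · -- not affected
      obtain ⟨hc, hz⟩ := haf
      have hsl : s.lab v = i := (nst_same hg N (mem_kA.1 hv).1 hc).symm.trans hvl
      have h1 := hfree hvA hsl hz
      have hsl' : s.lab (s.mu F v) = i := (s.mu_lab hvP hvF).trans hsl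
      obtain ⟨h2, h3⟩ := hfree_iff hvA hsl hz (mem_kA.1 hv).1
      rw [ph_neg hc] at hxZ hxA hxl ⊢
      rw [h3]
      have hmP : s.mu F v ∈ s.P := (At.mu s hvA).1
      have hx1 := hxZ.1 hvP
      refine ⟨fun _ => ?_, fun h => absurd hmP h⟩
      rw [← hx1]
      have hq := hΨ F v hvA hsl
      by_cases hk : K F v ∨ K F (s.mu F v)
      · have h5 : v ∈ X' ↔ s.mu F v ∈ X' := by
          rcases hk with hk | hk
          · have := hX' F v hxA hxl hk
            rwa [h3] at this
          · have h6 := (hfree_iff (At.mu s hvA) hsl' (by rw [hlo hvA]; exact hz) h2).2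
            rw [s.mu_mu hvP hvF] at h6
            have := hX' F (s.mu F v) ⟨(hkept h2 hsl').2.2.1, (At.mu s hvA).2⟩
              (hkept h2 hsl').2.2.2 hk
            rw [h6] at this
            exact this.symm
        have h7 : θ F v = 0 := if_neg fun h' => hk.elim h'.2.1 h'.2.2
        rw [h7] at hq
        rw [← eq_of_add2 hq.symm, hχe h5]
      · rw [not_or] at hk
        have h7 : θ F v = χ v + χ (s.mu F v) := if_pos ⟨(mem_kA.1 hv).1, hk.1, hk.2⟩
        rw [h7] at hq
        have e1 := add_self2 (Ψ (s.mu F v))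
        have e2 := add_self2 (χ (s.mu F v))
        have e3 := add_self2 (χ v)
        have e4 := add_self2 (Ψ v)
        linear_combination hq + e1 - e3
    · -- affected: the face has a barrier point
      have hface : ∃ h, HP s h ∧ h ∈ M.On F := by
        by_cases hc : col (s.lab v) = true
        · have : ∃ z ∈ A.cv z₀, z.F = F ∧ z.e true = s.lo F v := by
            by_contra hcon
            apply haf
            refine ⟨hc, fun z hz hzF hze => hcon ⟨z, hz, hzF, hze⟩⟩
          obtain ⟨z, -, hzF, -⟩ := this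
          exact ⟨z.e false, ⟨(z.at_ false).1, z.colr false⟩, by rw [← hzF]; exact (z.at_ false).2⟩
        · exact ⟨v, ⟨hvP, by simpa using hc⟩, hvF⟩
      have hKF : ∀ u, K F u := by
        obtain ⟨h, hh, hhF⟩ := hface
        obtain ⟨q, hq⟩ := exists_side' (M := M) F
        exact hK q F F h hq hq hh hhF
      have hXX : (ph s c v ∈ X' ↔ s'.mu F (ph s c v) ∈ X') := hX' F _ hxA hxl (hKF _)
      -- the value at `x`
      have hx1 : Ψ (z₀.e true) + χ (ph s c v) = e := by
        by_cases hc : col (s.lab v) = true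
        · have : ∃ z ∈ A.cv z₀, z.F = F ∧ z.e true = s.lo F v := by
            by_contra hcon
            apply haf
            refine ⟨hc, fun z hz hzF hze => hcon ⟨z, hz, hzF, hze⟩⟩
          rw [ph_neg hc] at hxZ ⊢
          rw [← hval v hvA (mem_kA.1 hv).1 hc hvl this]
          exact hxZ.1 hvP
        · have hc' : col (s.lab v) = false := by simpa using hc
          refine hxZ.2 ?_
          rw [ph_pos hc']
          exact fun h => hp.nin ⟨hvP, hc'⟩ (hP h)
      have hx2 : Ψ (z₀.e true) + χ (s'.mu F (ph s c v)) = e := by rw [← hχe hXX]; exact hx1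
      rw [hmu] at hx2 ⊢
      by_cases hc' : col (s.lab (t.mu F v)) = true
      · rw [ph_neg hc'] at hx2 ⊢
        refine ⟨fun _ => ?_, fun _ => hx2⟩
        have : ∃ z ∈ A.cv z₀, z.F = F ∧ z.e true = s.lo F (t.mu F v) := by
          by_contra hcon
          push Not at hcon
          have hsl' : s.lab (t.mu F v) = i := (nst_same hg N hv' hc').symm.trans hv'l
          have h5 := hfree hv'A hsl' hcon
          rw [hmm] at h5
          -- `v` is the old partner of its new partner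
          apply haf
          have h6 : t.mu F v = s.mu F v := by
            conv_rhs => rw [h5]
            rw [s.mu_mu hv'A.1 hv'A.2]
          have hc : col (s.lab v) = true := by
            rw [h5, s.mu_lab hv'A.1 hv'A.2]; exact hc'
          refine ⟨hc, ?_⟩
          have h7 : s.lo F v = s.lo F (t.mu F v) := by
            rw [h6, hlo hvA]
          rw [h7]
          exact hcon
        rw [hval _ hv'A hv' hc' hv'l this]
        exact hx2
      · have hc'' : col (s.lab (t.mu F v)) = false := by simpa using hc'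
        rw [ph_pos hc''] at hx2 ⊢
        exact ⟨fun h => absurd (hP h) (hp.nin ⟨hv'A.1, hc''⟩), fun _ => hx2⟩
  have hbZ : b₀ ∈ Z := ⟨fun _ => rfl, fun h => absurd (hg.far_mem hb₀).1 h⟩
  have hall := (hgood.conn i).2 Z hclosed b₀ hbZ (hkept hb1 hb2).2.2.1 (hkept hb1 hb2).2.2.2
  refine ⟨{w | Ψ w = e + 1}, ?_, ?_, ?_⟩
  · intro F w hA hl hk
    show Ψ w = e + 1 ↔ Ψ (s.mu F w) = e + 1
    rw [hΨK hA hl hk]
  · intro w hw hwi hw' hwi'
    have h1 := (hall w hw' hwi').1 hw
    show Ψ w = e + 1 ↔ w ∈ X'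
    by_cases hx : w ∈ X'
    · have h2 : χ w = 1 := if_pos hx
      rw [h2] at h1
      refine ⟨fun _ => hx, fun _ => ?_⟩
      rw [← h1]
      have := add_self2 (1 : ZMod 2)
      linear_combination -this
    · have h2 : χ w = 0 := if_neg hx
      rw [h2, add_zero] at h1
      refine ⟨fun h3 => ?_, fun h => absurd h hx⟩
      exfalso
      rw [h1] at h3
      exact one_ne_zero (left_eq_add.1 h3)
  · intro w hw' hws hwi'
    have h1 := (hall w hw' hwi').2 hws
    show w ∈ X' ↔ Ψ (z₀.e true) = e + 1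
    by_cases hx : w ∈ X'
    · have h2 : χ w = 1 := if_pos hx
      rw [h2] at h1
      refine ⟨fun _ => ?_, fun _ => hx⟩
      rw [← h1]
      have := add_self2 (1 : ZMod 2)
      linear_combination -this
    · have h2 : χ w = 0 := if_neg hx
      rw [h2, add_zero] at h1
      refine ⟨fun h => absurd h hx, fun h3 => ?_⟩
      exfalso
      rw [h1] at h3
      exact one_ne_zero (left_eq_add.1 h3)

/-- the other end of a dart without a double point -/
theorem flip_ed' {F : Φ} {w : W} (hA : s.At F w) (hn : node (flip (ed hA)) = none) :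
    flip (ed hA) = ed (At.mu s hA) := by
  refine eq_ed hn (fc_ed hA) ?_ _
  have h1 : fc (ed hA) = F := fc_ed hA
  have h2 : pt (ed hA) = w := pt_ed hA
  rcases hd : ed hA with ⟨x, p, b⟩
  rw [hd] at h1 h2
  have h3 : (chd p).1 = F := h1
  cases b
  · have h4 : (chd p).2 = w := h2
    show s.mu (chd p).1 (chd p).2 = s.mu F w
    rw [h3, h4]
  · have h4 : s.mu (chd p).1 (chd p).2 = w := h2
    show (chd p).2 = s.mu F w
    rw [← h4, h3]
    have h5 := chd_at p
    rw [h3] at h5
    exact (s.mu_mu h5.1 h5.2).symm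

/-- **one curve : the clause (NEW)** -/
theorem pst_trn {A : s.Arcs Act} {τ : Bool → ι → s.Dbl → ZMod 2}
    {D : s.Dbl → Bool → Dart s → ZMod 2} {z₀ : s.Dbl} (hD : DD A τ A.mx far D) (hz₀ : z₀ ∈ A.mx)
    (hin : ∀ u ∉ A.cv z₀, ∀ b, D z₀ false (dz u false b) = 0)
    (hg : s.Good Act far) (N : NmsT s (A.cv z₀) far (innD D) (nm1 D z₀))
    (hp : Push s up Ph b c) (hP : s.P ⊆ Ph)
    (hgood : (pst hp hP (nst_sub hg N)).Good Act far) :
    TrN Act far (pst hp hP (nst_sub hg N)) s := by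
  intro i hi K hK b₀ hb₀ R hR hT X' hbX' hX' F hF w hw hwi
  obtain ⟨X, hX, hold, hnew⟩ := pst_pbn hz₀ hg N hp hP hgood i hi K hK X' hX'
  have hbs := hg.far_mem hb₀
  have hbs' := hgood.far_mem hb₀
  have hbX : b₀ ∈ X := (hold b₀ hbs.1 hbs.2 hbs'.1 hbs'.2).2 hbX'
  have hTX := hT X hbX hX
  by_cases hws : w ∈ s.P
  · have hl : s.lab w = i := by
      rw [← (pst_common hg N hp hP hw.1 hws).2]; exact hwi
    exact (hold w hws hl hw.1 hwi).1 (hTX F hF w ⟨hws, hw.2⟩ hl)
  -- a new point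
  obtain ⟨v, hv, rfl⟩ := pst_true hw.1 (by rw [hwi]; exact hi)
  have hvP := nst_sub hg N (mem_kA.1 hv).1
  have hc : col (s.lab v) = false := by
    cases hc : col (s.lab v)
    · rfl
    · exact absurd (by rw [ph_neg hc]; exact hvP) hws
  have hvF : v ∈ M.On F := (ph_on hp hvP F).1 hw.2
  have hvi : (nst hg N).lab v = i := (pst_ph hv).2.1.symm.trans hwi
  have hm := (mem_nmd (hg := hg) (N := N)).1 (mem_kA.1 hv).1
  have hval : ∀ F (hA : s.At F v), D z₀ false (ed hA) = 1 ∧ i = s.lab (z₀.e true) := by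
    intro F hA
    have h1 := joined_nm N hm.2.1 hm.2.2 hA
    rcases z2 (D z₀ false (ed hA)) with h2 | h2
    · rw [nm1_f' (by rw [x_ed, hc]) h2] at h1
      exact absurd h1 (by simp)
    · refine ⟨h2, ?_⟩
      rw [nm1_f (by rw [x_ed, hc]) h2] at h1
      rw [← hvi]
      exact (Option.some.inj h1).symm
  have hi0 : i = s.lab (z₀.e true) := (hval F ⟨hvP, hvF⟩).2
  -- one double point of the curve in the truthful zone is enough
  have key : ∀ z ∈ A.cv z₀, z.F ∈ R → z₀.e true ∈ X := by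
    intro z hz hzR
    classical
    have h1 := curve_const (K := K) hz₀ hK (Ψ := fun w => if w ∈ X then (1 : ZMod 2) else 0)
      (fun F w hA hl hk => if_congr (hX F w hA (hl.trans hi0.symm) hk) rfl rfl) hz
    have h2 : z.e true ∈ X := hTX z.F hzR (z.e true) (z.at_ true) (h1.1.trans hi0.symm)
    by_contra hcon
    have h3 := h1.2
    rw [if_pos h2, if_neg hcon] at h3
    exact one_ne_zero h3
  refine (hnew _ hw.1 hws hwi).2 ?_
  by_contra hcon
  -- the barrier points on the inner side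
  obtain ⟨y, hy, hyP, hyl, hyE⟩ := hR v ⟨hvP, hc⟩ F hF hvF
    {x | s.lab x = s.lab v ∧ (∃ F, s.At F x) ∧ ∀ F (hA : s.At F x), D z₀ false (ed hA) = 1}
    ⟨rfl, ⟨F, hvP, hvF⟩, fun F hA => (hval F hA).1⟩ (by
      rintro F' hF' x ⟨h1, -, h2⟩ hA -
      have hA' := At.mu s hA
      refine ⟨(s.mu_lab hA.1 hA.2).trans h1, ⟨F', hA'⟩, fun F'' hA'' => ?_⟩
      rcases hn : node (flip (ed hA)) with _ | z
      · rw [hD.cont z₀ hz₀ false F'' F' _ hA'' hA', ← flip_ed' hA hn, hD.fl z₀ hz₀]
        exact h2 F' hA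
      · exfalso
        have h3 := eq_dz hn
        have hx : (flip (ed hA)).x = false := by
          show (ed hA).x = false
          rw [x_ed, h1]; exact hc
        rw [hx] at h3
        have h4 : D z₀ false (flip (ed hA)) = 1 := by
          rw [hD.fl z₀ hz₀]; exact h2 F' hA
        have h5 : z ∈ A.cv z₀ := by
          by_contra h6
          rw [h3, hin z h6] at h4
          exact zero_ne_one h4
        have h6 : z.F = F' := by
          have h7 := congrArg fc h3
          rw [fc_flip, fc_ed, fc_dz] at h7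
          exact h7.symm
        exact hcon (key z h5 (by rw [h6]; exact hF')))
  refine hyE ⟨{x | s.lab x = s.lab v ∧ (∃ F, s.At F x) ∧
    ∀ F (hA : s.At F x), D z₀ false (ed hA) = 1}, hy, ?_, ?_, ?_⟩
  · rintro x ⟨h1, ⟨F, hA⟩, -⟩
    exact ⟨⟨hA.1, by rw [h1]; exact hc⟩, by rw [h1, hyl]⟩
  · rintro F x ⟨h1, -, h2⟩ hA hf
    have hA' := At.mu s hA
    refine ⟨(s.mu_lab hA.1 hA.2).trans h1, ⟨F, hA'⟩, fun F' hA'' => ?_⟩
    rw [hD.cont z₀ hz₀ false F' F _ hA'' hA', ← flip_ed hA hf, hD.fl z₀ hz₀]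
    exact h2 F hA
  · rintro x ⟨h1, ⟨F, hA⟩, h2⟩
    constructor
    · intro hx
      have h3 := hD.far0 z₀ hz₀ false _ F x hA hx
      rw [h2 F hA] at h3
      exact one_ne_zero h3
    · intro F' hA' hF'
      have h3 := hD.far0 z₀ hz₀ false _ F' x hA' (hg.far_frozen hA' hF')
      rw [h2 F' hA'] at h3
      exact one_ne_zero h3

end step



end Crest.Agent.R096.Cnp_824
end

-- ▼ part R096/Pbn1_147
section

/-!
# R096 (row 96), DOORS (helper147): pull back of closed sets with the values of the new points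

`PBN` : 892's `PB` + every double point of the cut state comes from a double point of the old state
with the same name and the same value + every new point lies next to a barrier point which is
enclosed by chords of the same sheet with the value of the new point.  `cutN` : the whole cut.
-/

set_option autoImplicit false

namespace Crest.Agent.R096.Pbn_147

open Crest.Agent.R096.St_147 Crest.Agent.R096.Wk_689 Crest.Agent.R096.F_422
open Crest.Agent.R096.Sec_892 Crest.Agent.R096.SecW_892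

variable {ι Φ W I : Type} {M : MeshC ι Φ W} {col : I → Bool} {s : St M col}
variable {Act : Set ι} {far : I → Set W}

/-- the barrier point `h` is enclosed, on its barrier, by chords of the sheet `i` whose value (with
respect to `X`) is `v`: no path of barrier chords which are not crossed by such chords leads to a
frozen face or a marked point -/
def EncV (Act : Set ι) (far : I → Set W) (s : St M col) (i : I) (X : Set W) (v : Prop) (h : W) :
    Prop :=
  ∃ B : Set W, h ∈ B ∧ (∀ x ∈ B, HP s x ∧ s.lab x = s.lab h) ∧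
    (∀ F x, x ∈ B → s.At F x →
      (∀ z : s.Dbl, z.F = F → z.e false = s.lo F x → s.lab (z.e true) = i →
        ¬ (z.e true ∈ X ↔ v)) → s.mu F x ∈ B) ∧
    ∀ x ∈ B, x ∉ far (s.lab h) ∧ ∀ F, s.At F x → ¬ St.Frozen M Act F

/-- **pull back of closed sets, with the new points** -/
def PBN (Act : Set ι) (far : I → Set W) (Ph : Finset W) (s' s : St M col) : Prop :=
  ∀ i, col i = true → ∀ K : Φ → W → Prop, KBar s K → ∀ X', KCl s' i K X' →
    ∃ X, KCl s i K X ∧
      (∀ w, w ∈ s.P → s.lab w = i → w ∈ s'.P → s'.lab w = i → (w ∈ X ↔ w ∈ X')) ∧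
      (∀ z' : s'.Dbl, s'.lab (z'.e true) = i → ∃ z : s.Dbl, z.F = z'.F ∧
        z.e false = z'.e false ∧ s.lab (z.e true) = i ∧ (z.e true ∈ X ↔ z'.e true ∈ X')) ∧
      ∀ w ∈ s'.P, w ∉ s.P → s'.lab w = i →
        ∃ h, HP s h ∧ Nb M Ph h w ∧ EncV Act far s i X (w ∈ X') h

theorem PBN.refl (Act : Set ι) (far : I → Set W) (Ph : Finset W) (s : St M col) :
    PBN Act far Ph s s := fun _ _ _ _ X h =>
  ⟨X, h, fun _ _ _ _ _ => Iff.rfl, fun z hz => ⟨z, rfl, rfl, hz, Iff.rfl⟩,
    fun _ h1 h2 => absurd h1 h2⟩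

theorem EncV.congr {i : I} {X : Set W} {v v' : Prop} {h : W} (hv : v ↔ v')
    (he : EncV Act far s i X v h) : EncV Act far s i X v' h := by
  rwa [propext hv] at he

theorem EncV.of_cle {Ph : Finset W} {s' s : St M col} (hc : CLe Act far Ph s' s) {i : I}
    {X X' : Set W} {v : Prop} {h : W}
    (hd : ∀ z' : s'.Dbl, s'.lab (z'.e true) = i → ∃ z : s.Dbl, z.F = z'.F ∧
      z.e false = z'.e false ∧ s.lab (z.e true) = i ∧ (z.e true ∈ X ↔ z'.e true ∈ X'))
    (he : EncV Act far s' i X' v h) : EncV Act far s i X v h := by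
  obtain ⟨B, h1, h2, h3, h4⟩ := he
  have hh := (hc.hp h).1 (h2 h h1).1
  have hl : s'.lab h = s.lab h := hc.hlab h hh
  refine ⟨B, h1, ?_, ?_, ?_⟩
  · intro x hx
    obtain ⟨h5, h6⟩ := h2 x hx
    have h7 := (hc.hp x).1 h5
    exact ⟨h7, by rw [← hc.hlab x h7, h6, hl]⟩
  · intro F x hx hA hf
    obtain ⟨h5, -⟩ := h2 x hx
    have h7 := (hc.hp x).1 h5
    have hlo : s'.lo F x = s.lo F x := by
      unfold St.lo
      rw [hc.hmu x F h7]
    rw [← hc.hmu x F h7]
    refine h3 F x hx ⟨h5.1, hA.2⟩ ?_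
    intro z' hF he' hi hiff
    obtain ⟨z, e1, e2, e3, e4⟩ := hd z' hi
    exact hf z (e1.trans hF) (e2.trans (he'.trans hlo)) e3 (e4.trans hiff)
  · intro x hx
    obtain ⟨h5, -⟩ := h2 x hx
    obtain ⟨h6, h7⟩ := h4 x hx
    rw [hl] at h6
    exact ⟨h6, fun F hA => h7 F ⟨h5.1, hA.2⟩⟩

/-- composition -/
theorem PBN.trans {Ph Ph' : Finset W} {s'' s' s : St M col} (hPh : Ph ⊆ Ph') (hP : s.P ⊆ Ph')
    (h2 : CL2 Act far Ph' s'' s') (h1 : CL2 Act far Ph s' s)
    (e2 : PBN Act far Ph' s'' s') (e1 : PBN Act far Ph s' s) : PBN Act far Ph s'' s := by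
  have hmid : ∀ w, w ∈ s''.P → w ∈ s.P → w ∈ s'.P := by
    intro w hw hws
    rcases h2.cle.P w hw with h | h
    · exact h
    · exact absurd (hP hws) h.1
  intro i hi K hK X'' hX''
  have hK' : KBar s' K := fun q F F' h hq hq' hh hF' => hK q F F' h hq hq' ((h1.cle.hp h).1 hh) hF'
  obtain ⟨X', hX', c2, d2, n2⟩ := e2 i hi K hK' X'' hX''
  obtain ⟨X, hX, c1, d1, n1⟩ := e1 i hi K hK X' hX'
  refine ⟨X, hX, fun w hw hwi hw'' hwi'' => ?_, fun z'' hz'' => ?_, fun w hw hws hwi => ?_⟩
  · have h := hmid w hw'' hw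
    have hl : s'.lab w = i := by rw [h1.lab w h hw, hwi]
    rw [c1 w hw hwi h hl, c2 w h hl hw'' hwi'']
  · obtain ⟨z', a1, a2, a3, a4⟩ := d2 z'' hz''
    obtain ⟨z, b1, b2, b3, b4⟩ := d1 z' a3
    exact ⟨z, b1.trans a1, b2.trans a2, b3, b4.trans a4⟩
  · by_cases h : w ∈ s'.P
    · have hl : s'.lab w = i := by rw [← h2.lab w hw h, hwi]
      obtain ⟨u, g1, g2, g3⟩ := n1 w h hws hl
      exact ⟨u, g1, g2, g3.congr (c2 w h hl hw hwi)⟩
    · obtain ⟨u, g1, g2, g3⟩ := n2 w hw h hwi
      exact ⟨u, (h1.cle.hp u).1 g1, ⟨g2.1, fun F y h6 h7 h8 h9 => g2.2 F y h6 (hPh h7) h8 h9⟩,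
        g3.of_cle h1.cle d1⟩

section step

variable {G : Set s.Dbl} {inn : s.Dbl → Bool → Bool} {nm : Dart s → Option I}
variable {up : Φ → W → Bool} {Ph : Finset W} {b : Bool} {c : W → W}

/-- **the values after the exchange along one curve** (892's proof of `pst_pb`, all conclusions) -/
theorem pst_val {A : s.Arcs Act} {z₀ : s.Dbl} (hz₀ : z₀ ∈ A.mx) (hg : s.Good Act far)
    (N : NmsT s (A.cv z₀) far inn nm) (hp : Push s up Ph b c) (hP : s.P ⊆ Ph)
    (hgood : (pst hp hP (nst_sub hg N)).Good Act far) {i : I} (hi : col i = true)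
    {K : Φ → W → Prop} (hK : KBar s K) {X' : Set W}
    (hX' : KCl (pst hp hP (nst_sub hg N)) i K X') :
    ∃ X : Set W, KCl s i K X ∧
      (∀ w, w ∈ s.P → s.lab w = i → w ∈ (pst hp hP (nst_sub hg N)).P →
        (pst hp hP (nst_sub hg N)).lab w = i → (w ∈ X ↔ w ∈ X')) ∧
      (∀ w, w ∉ s.P → w ∈ (pst hp hP (nst_sub hg N)).P →
        (pst hp hP (nst_sub hg N)).lab w = i → (z₀.e true ∈ X ↔ w ∈ X')) ∧
      ∀ F w, s.At F w → s.lab w = i → (∃ z ∈ A.cv z₀, z.F = F ∧ z.e true = s.lo F w) →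
        (w ∈ X ↔ z₀.e true ∈ X) := by
  classical
  set t := nst hg N with ht
  set s' := pst hp hP (nst_sub hg N) with hs'
  set χ : W → ZMod 2 := fun w => if w ∈ X' then 1 else 0 with hχ
  have hχe : ∀ {u v : W}, (u ∈ X' ↔ v ∈ X') → χ u = χ v := fun h => if_congr h rfl rfl
  -- kept points
  have hkept : ∀ {w}, w ∈ t.P → s.lab w = i → t.lab w = i ∧ ph s c w = w ∧ w ∈ s'.P ∧
      s'.lab w = i := by
    intro w hw hwi
    have hc : col (s.lab w) = true := by rw [hwi]; exact hi
    have h1 : t.lab w = i := (nst_same hg N hw hc).trans hwi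
    have h2 : w ∈ kA t := mem_kA.2 ⟨hw, by rw [h1]; exact hi⟩
    have h3 := pst_ph (hp := hp) (hP := hP) (ht := nst_sub hg N) h2
    rw [ph_neg hc] at h3
    exact ⟨h1, ph_neg hc, h3.1, h3.2.1.trans h1⟩
  have hcom : ∀ w, w ∈ s.P → s.lab w = i → w ∈ s'.P → w ∈ t.P := by
    intro w hw hwi hw'
    rcases (pst_common hg N hp hP hw' hw).1 with h | ⟨h, hc⟩
    · exfalso
      have h3 := h.2
      rw [hwi, hi] at h3
      exact Bool.false_ne_true h3.symm
    · exact (mem_kA.1 h).1
  have htm : ∀ {F w}, s.At F w → w ∈ t.P → t.mu F w ∈ t.P := fun hA hw => (nmd hg N).mem hA hw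
  -- free chords
  have hfree : ∀ {F w}, s.At F w → s.lab w = i →
      (∀ z ∈ A.cv z₀, z.F = F → z.e true ≠ s.lo F w) → t.mu F w = s.mu F w := by
    intro F w hA hwi hz
    exact mu'_eq_mu hA (by rw [hwi, hi]; exact hz)
  have hfree_iff : ∀ {F w}, s.At F w → s.lab w = i →
      (∀ z ∈ A.cv z₀, z.F = F → z.e true ≠ s.lo F w) →
      (w ∈ t.P → s.mu F w ∈ t.P ∧ s'.mu F w = s.mu F w) := by
    intro F w hA hwi hz hw
    have h1 := hfree hA hwi hz
    have h2 := htm hA hw
    rw [h1] at h2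
    refine ⟨h2, ?_⟩
    obtain ⟨h3, h4, -, -⟩ := hkept hw hwi
    have h5 : w ∈ kA t := mem_kA.2 ⟨hw, by rw [h3]; exact hi⟩
    have h6 := (pst_ph (hp := hp) (hP := hP) (ht := nst_sub hg N) h5).2.2 F
    rw [h4] at h6
    refine h6.trans ?_
    show ph s c (t.mu F w) = _
    rw [h1]
    exact (hkept h2 ((s.mu_lab hA.1 hA.2).trans hwi)).2.1
  have hlo : ∀ {F w}, s.At F w → s.lo F (s.mu F w) = s.lo F w := by
    intro F w hA
    unfold St.lo
    rw [s.mu_mu hA.1 hA.2]
    rcases lt_trichotomy (M.pos F w) (M.pos F (s.mu F w)) with h | h | h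
    · rw [if_neg (not_le.2 h), if_pos h.le]
    · exact absurd (M.pos_inj F hA.2 (s.mu_mem hA.1 hA.2).2 h).symm (s.mu_ne hA.1 hA.2)
    · rw [if_pos h.le, if_neg (not_le.2 h)]
  -- the cochain
  set θ : Φ → W → ZMod 2 := fun F w =>
    if w ∈ t.P ∧ ¬ K F w ∧ ¬ K F (s.mu F w) then χ w + χ (s.mu F w) else 0 with hθ
  have hθK : ∀ {F w}, K F w → θ F w = 0 := fun h => if_neg fun h' => h'.2.1 h
  obtain ⟨Ψ, hΨ⟩ := hg.h1 i θ (by
    intro q
    by_cases hq : ∃ F' h, q ∈ M.side F' ∧ HP s h ∧ h ∈ M.On F'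
    · obtain ⟨F', h, hq', hh, hF'⟩ := hq
      refine ⟨fun _ => 0, fun F w hF hA hl => ?_⟩
      rw [add_zero]
      exact hθK (hK q F F' h hF hq' hh hF' w)
    · refine ⟨fun w => if w ∈ t.P then χ w else 0, fun F w hF hA hl => ?_⟩
      have hno : ∀ z ∈ A.cv z₀, z.F = F → z.e true ≠ s.lo F w := by
        intro z _ hzF _
        exact hq ⟨z.F, z.e false, by rw [hzF]; exact hF, ⟨(z.at_ false).1, z.colr false⟩,
          (z.at_ false).2⟩
      have hA' := At.mu s hA
      have hl' : s.lab (s.mu F w) = i := (s.mu_lab hA.1 hA.2).trans hl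
      have hno' : ∀ z ∈ A.cv z₀, z.F = F → z.e true ≠ s.lo F (s.mu F w) := by
        rw [hlo hA]; exact hno
      by_cases hw : w ∈ t.P
      · obtain ⟨h1, h2⟩ := hfree_iff hA hl hno hw
        beta_reduce
        rw [if_pos hw, if_pos h1]
        by_cases hk : K F w ∨ K F (s.mu F w)
        · have h3 : w ∈ X' ↔ s.mu F w ∈ X' := by
            rcases hk with hk | hk
            · have := hX' F w ⟨(hkept hw hl).2.2.1, hA.2⟩ (hkept hw hl).2.2.2 hk
              rwa [h2] at this
            · have h4 := (hfree_iff hA' hl' hno' h1).2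
              rw [s.mu_mu hA.1 hA.2] at h4
              have := hX' F (s.mu F w) ⟨(hkept h1 hl').2.2.1, hA'.2⟩ (hkept h1 hl').2.2.2 hk
              rw [h4] at this
              exact this.symm
          rw [hχe h3, add_self2]
          exact if_neg fun h' => hk.elim h'.2.1 h'.2.2
        · rw [not_or] at hk
          exact if_pos ⟨hw, hk.1, hk.2⟩
      · have h1 : s.mu F w ∉ t.P := by
          intro h
          have := (hfree_iff hA' hl' hno' h).1
          rw [s.mu_mu hA.1 hA.2] at this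
          exact hw this
        beta_reduce
        rw [if_neg hw, if_neg h1, add_zero]
        exact if_neg fun h' => hw h'.1)
  have hΨK : ∀ {F w}, s.At F w → s.lab w = i → K F w → Ψ w = Ψ (s.mu F w) := by
    intro F w hA hl hk
    have := hΨ F w hA hl
    rw [hθK hk] at this
    exact eq_of_add2 this.symm
  -- affected chords
  have haff : ∀ {F w}, s.At F w → s.lab w = i →
      (∃ z ∈ A.cv z₀, z.F = F ∧ z.e true = s.lo F w) → Ψ w = Ψ (z₀.e true) := by
    rintro F w hA hl ⟨z, hz, hzF, hze⟩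
    have hKF : ∀ u, K F u := by
      obtain ⟨q, hq⟩ := exists_side' (M := M) F
      exact hK q F F (z.e false) hq hq ⟨(z.at_ false).1, z.colr false⟩ (by
        rw [← hzF]; exact (z.at_ false).2)
    have hloA : s.lo F w = w ∨ s.lo F w = s.mu F w := by
      unfold St.lo
      split_ifs
      · exact Or.inl rfl
      · exact Or.inr rfl
    have hl2 : s.lab (s.lo F w) = i := by
      rcases hloA with h | h
      · rw [h]; exact hl
      · rw [h, s.mu_lab hA.1 hA.2]; exact hl
    have hΨ2 : Ψ (s.lo F w) = Ψ w := by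
      rcases hloA with h | h
      · rw [h]
      · rw [h]; exact (hΨK hA hl (hKF w)).symm
    have hz1 : s.lab (z.e true) = i := by rw [hze]; exact hl2
    have hmx := A.mx_closed
    -- the curve lies on the sheet `i`
    have hi0 : s.lab (z₀.e true) = i := by
      have := (curve_const (K := K) (Ψ := fun _ => 0) hz₀ hK (fun _ _ _ _ _ => rfl) hz).1
      rw [← this]; exact hz1
    have := (curve_const (Ψ := Ψ) hz₀ hK (fun F w hA' hl' hk' => hΨK hA' (hl'.trans hi0) hk') hz).2
    rw [← this, hze]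
    exact hΨ2.symm
  obtain ⟨b₀, hb₀⟩ := hg.far_ne i
  have hb1 : b₀ ∈ t.P := far_mem' hg N hi hb₀
  have hb2 : s.lab b₀ = i := (hg.far_mem hb₀).2
  set e : ZMod 2 := Ψ b₀ + χ b₀ with he
  set Z : Set W := {x | (x ∈ s.P → Ψ x + χ x = e) ∧ (x ∉ s.P → Ψ (z₀.e true) + χ x = e)} with hZ
  have hclosed : ∀ F x, x ∈ Z → s'.At F x → s'.lab x = i → s'.mu F x ∈ Z := by
    intro F x hxZ hxA hxl
    obtain ⟨v, hv, rfl⟩ := pst_true hxA.1 (by rw [hxl]; exact hi)
    have hvP := nst_sub hg N (mem_kA.1 hv).1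
    have hvF : v ∈ M.On F := (ph_on hp hvP F).1 hxA.2
    have hvA : s.At F v := ⟨hvP, hvF⟩
    have h4 := pst_ph (hp := hp) (hP := hP) (ht := nst_sub hg N) hv
    have hvl : t.lab v = i := h4.2.1.symm.trans hxl
    have hmu : s'.mu F (ph s c v) = ph s c (t.mu F v) := h4.2.2 F
    -- the new partner
    have hv' : t.mu F v ∈ t.P := htm hvA (mem_kA.1 hv).1
    have hv'l : t.lab (t.mu F v) = i := (t.mu_lab (mem_kA.1 hv).1 hvF).trans hvl
    have hv'A : s.At F (t.mu F v) := mu'_at (A.cv z₀) inn hvA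
    have hmm : t.mu F (t.mu F v) = v := t.mu_mu (mem_kA.1 hv).1 hvF
    -- values at a common point on an affected chord
    have hval : ∀ u, s.At F u → u ∈ t.P → col (s.lab u) = true → t.lab u = i →
        (∃ z ∈ A.cv z₀, z.F = F ∧ z.e true = s.lo F u) → Ψ u = Ψ (z₀.e true) := by
      intro u hu huP huc hul hz
      exact haff hu ((nst_same hg N huP huc).symm.trans hul) hz
    by_cases haf : col (s.lab v) = true ∧ ∀ z ∈ A.cv z₀, z.F = F → z.e true ≠ s.lo F v
    · -- not affected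
      obtain ⟨hc, hz⟩ := haf
      have hsl : s.lab v = i := (nst_same hg N (mem_kA.1 hv).1 hc).symm.trans hvl
      have h1 := hfree hvA hsl hz
      have hsl' : s.lab (s.mu F v) = i := (s.mu_lab hvP hvF).trans hsl
      obtain ⟨h2, h3⟩ := hfree_iff hvA hsl hz (mem_kA.1 hv).1
      rw [ph_neg hc] at hxZ hxA hxl ⊢
      rw [h3]
      have hmP : s.mu F v ∈ s.P := (At.mu s hvA).1
      have hx1 := hxZ.1 hvP
      refine ⟨fun _ => ?_, fun h => absurd hmP h⟩
      rw [← hx1]
      have hq := hΨ F v hvA hsl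
      by_cases hk : K F v ∨ K F (s.mu F v)
      · have h5 : v ∈ X' ↔ s.mu F v ∈ X' := by
          rcases hk with hk | hk
          · have := hX' F v hxA hxl hk
            rwa [h3] at this
          · have h6 := (hfree_iff (At.mu s hvA) hsl' (by rw [hlo hvA]; exact hz) h2).2
            rw [s.mu_mu hvP hvF] at h6
            have := hX' F (s.mu F v) ⟨(hkept h2 hsl').2.2.1, (At.mu s hvA).2⟩
              (hkept h2 hsl').2.2.2 hk
            rw [h6] at this
            exact this.symm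
        have h7 : θ F v = 0 := if_neg fun h' => hk.elim h'.2.1 h'.2.2
        rw [h7] at hq
        rw [← eq_of_add2 hq.symm, hχe h5]
      · rw [not_or] at hk
        have h7 : θ F v = χ v + χ (s.mu F v) := if_pos ⟨(mem_kA.1 hv).1, hk.1, hk.2⟩
        rw [h7] at hq
        have e1 := add_self2 (Ψ (s.mu F v))
        have e2 := add_self2 (χ (s.mu F v))
        have e3 := add_self2 (χ v)
        have e4 := add_self2 (Ψ v)
        linear_combination hq + e1 - e3
    · -- affected: the face has a barrier point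
      have hface : ∃ h, HP s h ∧ h ∈ M.On F := by
        by_cases hc : col (s.lab v) = true
        · have : ∃ z ∈ A.cv z₀, z.F = F ∧ z.e true = s.lo F v := by
            by_contra hcon
            apply haf
            refine ⟨hc, fun z hz hzF hze => hcon ⟨z, hz, hzF, hze⟩⟩
          obtain ⟨z, -, hzF, -⟩ := this
          exact ⟨z.e false, ⟨(z.at_ false).1, z.colr false⟩, by rw [← hzF]; exact (z.at_ false).2⟩
        · exact ⟨v, ⟨hvP, by simpa using hc⟩, hvF⟩
      have hKF : ∀ u, K F u := by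
        obtain ⟨h, hh, hhF⟩ := hface
        obtain ⟨q, hq⟩ := exists_side' (M := M) F
        exact hK q F F h hq hq hh hhF
      have hXX : (ph s c v ∈ X' ↔ s'.mu F (ph s c v) ∈ X') := hX' F _ hxA hxl (hKF _)
      -- the value at `x`
      have hx1 : Ψ (z₀.e true) + χ (ph s c v) = e := by
        by_cases hc : col (s.lab v) = true
        · have : ∃ z ∈ A.cv z₀, z.F = F ∧ z.e true = s.lo F v := by
            by_contra hcon
            apply haf
            refine ⟨hc, fun z hz hzF hze => hcon ⟨z, hz, hzF, hze⟩⟩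
          rw [ph_neg hc] at hxZ ⊢
          rw [← hval v hvA (mem_kA.1 hv).1 hc hvl this]
          exact hxZ.1 hvP
        · have hc' : col (s.lab v) = false := by simpa using hc
          refine hxZ.2 ?_
          rw [ph_pos hc']
          exact fun h => hp.nin ⟨hvP, hc'⟩ (hP h)
      have hx2 : Ψ (z₀.e true) + χ (s'.mu F (ph s c v)) = e := by rw [← hχe hXX]; exact hx1
      rw [hmu] at hx2 ⊢
      by_cases hc' : col (s.lab (t.mu F v)) = true
      · rw [ph_neg hc'] at hx2 ⊢
        refine ⟨fun _ => ?_, fun _ => hx2⟩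
        have : ∃ z ∈ A.cv z₀, z.F = F ∧ z.e true = s.lo F (t.mu F v) := by
          by_contra hcon
          push Not at hcon
          have hsl' : s.lab (t.mu F v) = i := (nst_same hg N hv' hc').symm.trans hv'l
          have h5 := hfree hv'A hsl' hcon
          rw [hmm] at h5
          -- `v` is the old partner of its new partner
          apply haf
          have h6 : t.mu F v = s.mu F v := by
            conv_rhs => rw [h5]
            rw [s.mu_mu hv'A.1 hv'A.2]
          have hc : col (s.lab v) = true := by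
            rw [h5, s.mu_lab hv'A.1 hv'A.2]; exact hc'
          refine ⟨hc, ?_⟩
          have h7 : s.lo F v = s.lo F (t.mu F v) := by
            rw [h6, hlo hvA]
          rw [h7]
          exact hcon
        rw [hval _ hv'A hv' hc' hv'l this]
        exact hx2
      · have hc'' : col (s.lab (t.mu F v)) = false := by simpa using hc'
        rw [ph_pos hc''] at hx2 ⊢
        exact ⟨fun h => absurd (hP h) (hp.nin ⟨hv'A.1, hc''⟩), fun _ => hx2⟩
  have hbZ : b₀ ∈ Z := ⟨fun _ => rfl, fun h => absurd (hg.far_mem hb₀).1 h⟩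
  have hall := (hgood.conn i).2 Z hclosed b₀ hbZ (hkept hb1 hb2).2.2.1 (hkept hb1 hb2).2.2.2
  have hfin : ∀ {r : ZMod 2} {w : W}, r + χ w = e → (r = e + 1 ↔ w ∈ X') := by
    intro r w h1
    by_cases hx : w ∈ X'
    · have h2 : χ w = 1 := if_pos hx
      rw [h2] at h1
      refine ⟨fun _ => hx, fun _ => ?_⟩
      rw [← h1]
      have := add_self2 (1 : ZMod 2)
      linear_combination -this
    · have h2 : χ w = 0 := if_neg hx
      rw [h2, add_zero] at h1
      refine ⟨fun h3 => ?_, fun h => absurd h hx⟩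
      exfalso
      rw [h1] at h3
      exact one_ne_zero (left_eq_add.1 h3)
  refine ⟨{w | Ψ w = e + 1}, ?_, ?_, ?_, ?_⟩
  · intro F w hA hl hk
    show Ψ w = e + 1 ↔ Ψ (s.mu F w) = e + 1
    rw [hΨK hA hl hk]
  · intro w hw hwi hw' hwi'
    exact hfin ((hall w hw' hwi').1 hw)
  · intro w hw hw' hwi'
    exact hfin ((hall w hw' hwi').2 hw)
  · intro F w hA hl hz
    show Ψ w = e + 1 ↔ Ψ (z₀.e true) = e + 1
    rw [haff hA hl hz]

/-- the darts of a chord of colour `x` without nodes in `G` form a stable set -/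
theorem on_chord_iff {F : Φ} {u : W} {x : Bool}
    (hno : ∀ z ∈ G, ¬ (z.F = F ∧ z.e x = u)) {d d' : Dart s}
    (ho : orb G inn d = orb G inn d') :
    (d.x = x ∧ chd d.p = (F, u)) ↔ (d'.x = x ∧ chd d'.p = (F, u)) := by
  have h1 : ∀ d : Dart s, (d.x = x ∧ chd d.p = (F, u)) →
      ((tt G inn d).x = x ∧ chd (tt G inn d).p = (F, u)) := by
    rintro d ⟨h1, h2⟩
    have h3 := chd_tt (inn := inn) (d := d) (G := G) (by
      intro z hz h4
      rw [h2, h1] at h4
      exact hno z hz ⟨(Prod.mk.inj h4).1, (Prod.mk.inj h4).2⟩)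
    exact ⟨h3.1.trans h1, h3.2.trans h2⟩
  let f : Orb G inn → Prop := Quot.lift (fun d : Dart s => d.x = x ∧ chd d.p = (F, u)) (by
    rintro d d' (rfl | rfl)
    · rfl
    · refine propext ⟨h1 d, fun h => ?_⟩
      have := h1 _ h
      rwa [tt_tt] at this)
  have h2 := congrArg f ho
  exact Iff.of_eq h2

/-- a function on the darts which is stable under the walk has the same value at both ends of a
chord without nodes in `G` -/
theorem ends_eq (inn : s.Dbl → Bool → Bool) {f : Dart s → ZMod 2} (hfl : ∀ d, f (flip d) = f d) {F : Φ} {w : W}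
    (hA : s.At F w) (hno : ∀ z ∈ G, z.F = F → z.e (col (s.lab w)) ≠ s.lo F w)
    (hst : ∀ z ∉ G, ∀ x b, f (dz z x (!b)) = f (dz z x b)) :
    f (ed (At.mu s hA)) = f (ed hA) := by
  have hstab : ∀ d : Dart s, (d.x = (ed hA).x ∧ chd d.p = chd (ed hA).p ∧ f d = f (ed hA)) →
      ((tt G inn d).x = (ed hA).x ∧ chd (tt G inn d).p = chd (ed hA).p ∧
        f (tt G inn d) = f (ed hA)) := by
    rintro d ⟨h1, h2, h3⟩
    have hG : ∀ z ∈ G, (z.F, z.e d.x) ≠ chd d.p := by
      intro z hz h4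
      rw [h2, Wk_689.chd_ed hA] at h4
      rw [h1, x_ed hA] at h4
      simp only [Prod.mk.injEq] at h4
      exact hno z hz h4.1 h4.2
    have h4 := chd_tt (inn := inn) (d := d) (G := G) hG
    refine ⟨h4.1.trans h1, h4.2.trans h2, ?_⟩
    rcases hn : node d with _ | z
    · rw [tt_none hn]; exact h3
    · have h5 := eq_dz hn
      have hz : z ∉ G := by
        intro hz
        apply hG z hz
        conv_rhs => rw [h5]
        rw [chd_dz, dz_x]
      rw [← h3]
      conv_lhs => rw [h5]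
      conv_rhs => rw [h5]
      rw [tt_dz_out hz]
      exact hst z hz _ _
  have hc := Tig_438.conn_pr flip (tt G inn) (ed hA)
    (fun d => d.x = (ed hA).x ∧ chd d.p = chd (ed hA).p ∧ f d = f (ed hA))
    (fun d hd => ⟨hd.1, hd.2.1, (hfl d).trans hd.2.2⟩) hstab ⟨rfl, rfl, rfl⟩
  have h6 := hc.2.2
  rw [← ed_mu' hA] at h6
  have h7 : mu' G inn F w = s.mu F w := mu'_eq_mu hA hno
  have h8 : ed (mu'_at G inn hA) = ed (At.mu s hA) := by
    apply eq_ed (node_ed _) (fc_ed _)
    rw [pt_ed]; exact h7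
  rw [← h8]
  exact h6

/-- **one curve** -/
theorem pst_pbn {A : s.Arcs Act} {τ : Bool → ι → s.Dbl → ZMod 2}
    {D : s.Dbl → Bool → Dart s → ZMod 2} {z₀ : s.Dbl} (hD : DD A τ A.mx far D) (hz₀ : z₀ ∈ A.mx)
    (hg : s.Good Act far) (N : NmsT s (A.cv z₀) far (innD D) (nm1 D z₀))
    (hp : Push s up Ph b c) (hP : s.P ⊆ Ph) (h2 : Two s up)
    (hgood : (pst hp hP (nst_sub hg N)).Good Act far) :
    PBN Act far Ph (pst hp hP (nst_sub hg N)) s := by
  classical
  intro i hi K hK X' hX'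
  obtain ⟨X, hX, hcom, hnew, haff⟩ := pst_val hz₀ hg N hp hP hgood hi hK hX'
  have hlow : ∀ (z : s.Dbl) (x : Bool), s.lo z.F (z.e x) = z.e x := fun z x => by
    unfold St.lo
    rw [if_pos (z.low x).le]
  have hlow' : ∀ {F : Φ} {w : W}, s.lo F w = w ∨ s.lo F w = s.mu F w := by
    intro F w
    unfold St.lo
    split_ifs
    · exact Or.inl rfl
    · exact Or.inr rfl
  refine ⟨X, hX, hcom, ?_, ?_⟩
  · -- double points
    intro z' hz'
    obtain ⟨v, hv, z, β, hvk, he, hzF, hzf, horb, -⟩ := exists_old' h2 (nst_mu' hg N) z'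
    have h4 := pst_ph (hp := hp) (hP := hP) (ht := nst_sub hg N) hvk
    have hvl : (nst hg N).lab v = i := by
      rw [← h4.2.1, ← he]; exact hz'
    have hm := (mem_nmd (hg := hg) (N := N)).1 (mem_kA.1 hvk).1
    have hnv : nm1 D z₀ (ed hv) = some i := by
      rw [← hvl]
      exact joined_nm N hm.2.1 hm.2.2 hv
    have hnz : nm1 D z₀ (dz z true β) = some i := by
      rw [← nmO_orb N, horb, nmO_orb N]
      exact hnv
    have hlz : s.lab (z.e true) = i := by
      rcases z2 (D z₀ true (dz z true β)) with h5 | h5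
      · rw [nm1_t (dz_x _ _ _) h5] at hnz
        have h6 := Option.some.inj hnz
        rcases pt_dz z true β with h7 | h7
        · rw [h7] at h6; exact h6
        · rw [h7, s.mu_lab (z.at_ true).1 (z.at_ true).2] at h6; exact h6
      · rw [nm1_t' (dz_x _ _ _) h5] at hnz
        exact absurd hnz (by simp)
    refine ⟨z, hzF, hzf, hlz, ?_⟩
    have hzA : s.At z'.F (z.e true) := by rw [← hzF]; exact z.at_ true
    have hKF : ∀ u, K z'.F u := by
      obtain ⟨q, hq⟩ := exists_side' (M := M) z'.F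
      exact hK q z'.F z'.F (z.e false) hq hq ⟨(z.at_ false).1, z.colr false⟩ (by
        rw [← hzF]; exact (z.at_ false).2)
    have hvlo : ∀ {u}, s.At z'.F u → s.lab u = i → (s.lo z'.F u ∈ X ↔ u ∈ X) := by
      intro u hu hul
      rcases hlow' (F := z'.F) (w := u) with h | h
      · rw [h]
      · rw [h]; exact (hX _ _ hu hul (hKF _)).symm
    have hold : col (s.lab v) = true → s.lab v = i ∧ (v ∈ X ↔ z'.e true ∈ X') := by
      intro hc
      have hvsl : s.lab v = i := (nst_same hg N (mem_kA.1 hvk).1 hc).symm.trans hvl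
      have h5 := h4
      rw [ph_neg hc] at h5
      refine ⟨hvsl, ?_⟩
      rw [he, ph_neg hc]
      exact hcom v hv.1 hvsl h5.1 (h5.2.1.trans hvl)
    by_cases haz : ∃ z₁ ∈ A.cv z₀, z₁.F = z'.F ∧ z₁.e true = z.e true
    · have e1 : z.e true ∈ X ↔ z₀.e true ∈ X := by
        obtain ⟨z₁, g1, g2, g3⟩ := haz
        refine haff z'.F (z.e true) hzA hlz ⟨z₁, g1, g2, ?_⟩
        rw [g3, ← hzF, hlow]
      by_cases hs : ph s c v ∈ s.P
      · have hc : col (s.lab v) = true := by
          cases hc : col (s.lab v)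
          · rw [ph_pos hc] at hs
            exact absurd (hP hs) (hp.nin ⟨hv.1, hc⟩)
          · rfl
        obtain ⟨hvsl, g⟩ := hold hc
        rw [← g]
        by_cases hav : ∃ z₁ ∈ A.cv z₀, z₁.F = z'.F ∧ z₁.e true = s.lo z'.F v
        · rw [e1]
          exact (haff z'.F v hv hvsl hav).symm
        · have h6 := (on_chord_iff (G := A.cv z₀) (inn := innD D) (F := z'.F)
            (u := s.lo z'.F v) (x := true) (fun z₁ g1 g2 => hav ⟨z₁, g1, g2.1, g2.2⟩)
            horb.symm).1 ⟨by rw [x_ed, hc], Wk_689.chd_ed hv⟩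
          have h7 := h6.2
          rw [chd_dz, dz_x] at h7
          rw [(Prod.mk.inj h7).2]
          exact hvlo hv hvsl
      · rw [e1, he]
        refine hnew _ hs h4.1 (h4.2.1.trans hvl)
    · have h6 := (on_chord_iff (G := A.cv z₀) (inn := innD D) (F := z'.F)
        (u := z.e true) (x := true) (fun z₁ g1 g2 => haz ⟨z₁, g1, g2.1, g2.2⟩)
        horb).1 ⟨dz_x _ _ _, by rw [chd_dz, dz_x, hzF]⟩
      have hc : col (s.lab v) = true := by rw [← x_ed hv]; exact h6.1
      obtain ⟨hvsl, g⟩ := hold hc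
      have h7 := h6.2
      rw [Wk_689.chd_ed] at h7
      rw [← g, ← (Prod.mk.inj h7).2]
      exact hvlo hv hvsl
  · -- new points
    intro w hw hws hwi
    rcases pst_cases hw with ⟨v, hv, rfl⟩ | h
    · have hvP := nst_sub hg N (mem_kA.1 hv).1
      cases hc : col (s.lab v)
      · have hm := (mem_nmd (hg := hg) (N := N)).1 (mem_kA.1 hv).1
        have hface : ∃ F, s.At F v := by
          by_contra hcon
          have h1 : lab' s (nm1 D z₀) v = s.lab v := by
            classical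
            unfold lab'
            rw [dif_neg hcon]
          rw [h1, hc] at hm
          exact Bool.false_ne_true hm.2.1
        have hin : ∀ F (hA : s.At F v), D z₀ false (ed hA) = 1 := by
          intro F hA
          have h1 := joined_nm N hm.2.1 hm.2.2 hA
          rcases z2 (D z₀ false (ed hA)) with h2 | h2
          · rw [nm1_f' (by rw [x_ed, hc]) h2] at h1
            exact absurd h1 (by simp)
          · exact h2
        have hvl : (nst hg N).lab v = i := by
          rw [← (pst_ph (hp := hp) (hP := hP) (ht := nst_sub hg N) hv).2.1]; exact hwi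
        have hi0 : s.lab (z₀.e true) = i := by
          obtain ⟨F₀, hA₀⟩ := hface
          have h1 := joined_nm N hm.2.1 hm.2.2 hA₀
          rw [nm1_f (by rw [x_ed, hc]) (hin F₀ hA₀)] at h1
          exact (Option.some.inj h1).trans hvl
        have hval : z₀.e true ∈ X ↔ ph s c v ∈ X' := hnew _ hws hw hwi
        have hadj : Nb M Ph v (ph s c v) := by
          rw [ph_pos hc]
          exact ⟨fun F => hp.on F ⟨hvP, hc⟩,
            fun F u h3 h4 h5 h6 => hp.adj ⟨hvP, hc⟩ h3 h4 h5 h6⟩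
        refine ⟨v, ⟨hvP, hc⟩, hadj,
          {x | s.lab x = s.lab v ∧ (∃ F, s.At F x) ∧ ∀ F (hA : s.At F x), D z₀ false (ed hA) = 1},
          ⟨rfl, hface, hin⟩, ?_, ?_, ?_⟩
        · rintro x ⟨h1, ⟨F, hA⟩, -⟩
          exact ⟨⟨hA.1, by rw [h1]; exact hc⟩, h1⟩
        · rintro F x ⟨h1, -, h2x⟩ hA hno
          have hcx : col (s.lab x) = false := by rw [h1]; exact hc
          have hnoG : ∀ z ∈ A.cv z₀, z.F = F → z.e (col (s.lab x)) ≠ s.lo F x := by
            rw [hcx]
            intro z hz hzF hze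
            have hlz : s.lab (z.e true) = i :=
              ((curve_const (K := K) (Ψ := fun _ => 0) hz₀ hK (fun _ _ _ _ _ => rfl) hz).1).trans
                hi0
            refine hno z hzF hze hlz ?_
            rw [← hval]
            exact haff z.F (z.e true) (z.at_ true) hlz ⟨z, hz, rfl, (hlow z true).symm⟩
          have hst : ∀ z ∉ A.cv z₀, ∀ x b, D z₀ false (dz z x (!b)) = D z₀ false (dz z x b) := by
            intro z hz x b
            cases x
            · have := hD.jump_out z₀ hz₀ z hz false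
              cases b
              · exact this
              · exact this.symm
            · have h0 : ∀ b, D z₀ false (dz z true b) = 0 := by
                intro b
                by_contra h
                have := (hD.supp z₀ hz₀ false _ h).1
                rw [dz_x] at this
                exact Bool.false_ne_true this.symm
              rw [h0, h0]
          have hend := ends_eq (G := A.cv z₀) (innD D) (fun d => hD.fl z₀ hz₀ false d) hA hnoG hst
          refine ⟨(s.mu_lab hA.1 hA.2).trans h1, ⟨F, At.mu s hA⟩, fun F' hA'' => ?_⟩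
          rw [hD.cont z₀ hz₀ false F' F _ hA'' (At.mu s hA), hend]
          exact h2x F hA
        · rintro x ⟨h1, ⟨F, hA⟩, h2x⟩
          constructor
          · intro hx
            have h3 := hD.far0 z₀ hz₀ false _ F x hA hx
            rw [h2x F hA] at h3
            exact one_ne_zero h3
          · intro F' hA' hF'
            have h3 := hD.far0 z₀ hz₀ false _ F' x hA' (hg.far_frozen hA' hF')
            rw [h2x F' hA'] at h3
            exact one_ne_zero h3
      · rw [ph_neg hc] at hws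
        exact absurd hvP hws
    · exact absurd h.1 hws



end step

end Crest.Agent.R096.Pbn_147
end

-- ▼ part R096/Pbn2_147
section

/-!
# R096 (row 96), DOORS (helper147): `cutG`, CUT with the clauses of 778 (double points on a set of
faces, new points next to a set of barrier points)
-/

set_option autoImplicit false

namespace Crest.Agent.R096.Pbn_147

open Crest.Agent.R096.St_147 Crest.Agent.R096.Wk_689 Crest.Agent.R096.F_422
open Crest.Agent.R096.Sec_892 Crest.Agent.R096.SecW_892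

variable {ι Φ W I : Type} {M : MeshC ι Φ W} {col : I → Bool} {s : St M col}
variable {Act : Set ι} {far : I → Set W}

/-- the double points of the sheet `i` on the faces of `R` are joined with `b` by `K`-chords -/
def TrD (s : St M col) (i : I) (K : Φ → W → Prop) (b : W) (R : Set Φ) : Prop :=
  ∀ X : Set W, b ∈ X → KCl s i K X → ∀ z : s.Dbl, z.F ∈ R → s.lab (z.e true) = i → z.e true ∈ X

/-- and the points of `i` which are not in `P₀` and lie only next to barrier points of `S` -/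
def TrQ (s : St M col) (i : I) (K : Φ → W → Prop) (b : W) (R : Set Φ) (S : Set W)
    (P₀ Ph₀ : Finset W) : Prop :=
  TrD s i K b R ∧ ∀ X : Set W, b ∈ X → KCl s i K X → ∀ w ∈ s.P, w ∉ P₀ → s.lab w = i →
    (∀ h, HP s h → Nb M Ph₀ h w → h ∈ S) → w ∈ X

/-- the barrier points of `S` are joined, by barrier chords on the faces of `R`, with points which
are not enclosed -/
def ConnT (Act : Set ι) (far : I → Set W) (s : St M col) (R : Set Φ) (S : Set W) : Prop :=
  ∀ h ∈ S, HP s h → ∀ Y : Set W, h ∈ Y →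
    (∀ F ∈ R, ∀ y ∈ Y, s.At F y → s.lab y = s.lab h → s.mu F y ∈ Y) →
    ∃ y ∈ Y, HP s y ∧ s.lab y = s.lab h ∧ ¬ Encl Act far s y

/-- **the clause of 778 from `PBN`** -/
theorem trQ_of_pbn {Ph : Finset W} {s' s : St M col} (hc : CLe Act far Ph s' s)
    (hN : PBN Act far Ph s' s) (hg : s.Good Act far) (hg' : s'.Good Act far) {i : I}
    (hi : col i = true) {K : Φ → W → Prop} (hK : KBar s K) {b : W} (hb : b ∈ far i) {R : Set Φ}
    {S : Set W} (hR : ConnT Act far s R S) (hD : TrD s i K b R) :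
    TrQ s' i K b R S s.P Ph := by
  constructor
  · intro X' hbX' hX' z' hzR hzl
    obtain ⟨X, hX, hcom, hd, -⟩ := hN i hi K hK X' hX'
    have hbX : b ∈ X := (hcom b (hg.far_mem hb).1 (hg.far_mem hb).2 (hg'.far_mem hb).1
      (hg'.far_mem hb).2).2 hbX'
    obtain ⟨z, e1, e2, e3, e4⟩ := hd z' hzl
    exact e4.1 (hD X hbX hX z (by rw [e1]; exact hzR) e3)
  · intro X' hbX' hX' w hw hws hwl hall
    by_contra hwX
    obtain ⟨X, hX, hcom, hd, hn⟩ := hN i hi K hK X' hX'
    have hbX : b ∈ X := (hcom b (hg.far_mem hb).1 (hg.far_mem hb).2 (hg'.far_mem hb).1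
      (hg'.far_mem hb).2).2 hbX'
    obtain ⟨h, hh, hnb, B, h1, h2, h3, h4⟩ := hn w hw hws hwl
    obtain ⟨y, hyB, hy, hyl, hne⟩ := hR h (hall h ((hc.hp h).2 hh) hnb) hh B h1 (by
      intro F hF y hyB hA _
      exact h3 F y hyB hA fun z hzF _ hzl hiff =>
        hwX (hiff.1 (hD X hbX hX z (by rw [hzF]; exact hF) hzl)))
    apply hne
    refine ⟨B, hyB, fun x hx => ⟨(h2 x hx).1, (h2 x hx).2.trans hyl.symm⟩, ?_, ?_⟩
    · intro F x hx hA hf
      exact h3 F x hx hA fun z hzF hze _ _ => hf z hzF false hze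
    · intro x hx
      rw [hyl]
      exact h4 x hx


end Crest.Agent.R096.Pbn_147
end

-- ▼ part R096/Sec17_892
section

/-!
# R096 / DOORS-SEC, part 17 (helper892): CUT with all clauses (892: CL2, DblN, EncN; 824: TrN;
147: PBN)
-/

set_option autoImplicit false

namespace Crest.Agent.R096.SecW_892

open Crest.Agent.R096.St_147 Crest.Agent.R096.Wk_689 Crest.Agent.R096.F_422
open Crest.Agent.R096.Sec_892 Crest.Agent.R096.Cnp_824
open Crest.Agent.R096.Pbn_147 (PBN pst_pbn PBN.refl PBN.trans)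

variable {ι Φ W I : Type} {M : MeshC ι Φ W} {col : I → Bool} {s : St M col}
variable {Act : Set ι} {far : I → Set W} {up : Φ → W → Bool} {Ph : Finset W}

/-- **one step, all clauses** -/
theorem stepY (hg : s.Good Act far) (h2 : Two s up) (hP : s.P ⊆ Ph)
    (hroom : ∀ b, ∃ c, Push s up Ph b c) (A : s.Arcs Act) {G : Set s.Dbl} (hG : A.Closed G)
    (hne : G.Nonempty) :
    ∃ s' : St M col, s'.Good Act far ∧ CL2 Act far Ph s' s ∧ DblN s' s ∧ EncN Act far Ph s' s ∧
      TrN Act far s' s ∧ PBN Act far Ph s' s ∧ Nat.card s'.Dbl < Nat.card s.Dbl := by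
  classical
  have hR := refStmt A (fun i => B_422.sep_of_h1 s i (hg.h1 i))
  obtain ⟨D, hD⟩ := Sd1_161.exists_DD hg A _ hR
  have hmx := A.mx_closed
  obtain ⟨z₀, hz₀, hin⟩ := exists_inner hD (hne.mono (A.sub_mx hG))
  have N := exists_nms1 hD hR (fun _ _ h => (hg.far_mem h).2) hz₀ hin
  have hG' : A.Closed (A.cv z₀) := by
    intro u hu q hq
    exact ⟨(hmx u (cv_sub hmx hz₀ hu) q hq).1, cv_trans hu (cv_arc hq)⟩
  have hDw : DDw A _ (A.cv z₀) far D := DDw.of hD fun u hu => cv_sub hmx hz₀ hu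
  have hn : nm1 D z₀ (dz z₀ true (!innD D z₀ true)) = none := by
    have h1 := SecW_892.D_in hDw (cv_refl A z₀) true
    exact nm1_t' (dz_x _ _ _) h1
  have hx : HP s (z₀.e false) := ⟨(z₀.at_ false).1, z₀.colr false⟩
  have hfin : ∀ {b : Bool} {c : W → W} (hp : Push s up Ph b c),
      (¬ (M.Btw z₀.F (z₀.e false) (s.mu z₀.F (z₀.e false))
        (pt (flip (dz z₀ true (!innD D z₀ true)))) ↔
        M.pos z₀.F (z₀.e false) < M.pos z₀.F (c (z₀.e false)))) →
      ∃ s' : St M col, s'.Good Act far ∧ CL2 Act far Ph s' s ∧ DblN s' s ∧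
        EncN Act far Ph s' s ∧ TrN Act far s' s ∧ PBN Act far Ph s' s ∧ Nat.card s'.Dbl < Nat.card s.Dbl := by
    intro b c hp hanti
    have hgood := pst_good hG' hg N hp hP h2
    refine ⟨pst hp hP (nst_sub hg N), hgood,
      ⟨pst_cle hG' hg N hp hP h2, ?_, ?_, pst_pb hz₀ hg N hp hP hgood⟩,
      pst_dblN hg N hp hP h2, pst_encN hD hz₀ hg N hp hP,
      pst_trn hD hz₀ hin hg N hp hP hgood, pst_pbn hD hz₀ hg N hp hP h2 hgood,
      pst_card hg N hp hP h2 (z₀ := z₀) (β₀ := !innD D z₀ true) hanti hn⟩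
    · exact fun w hw hws => (pst_common hg N hp hP hw hws).2
    · exact fun F w hw hw' hf => pst_off hg N hp hP h2 hw hw' hf
  by_cases hQ : M.Btw z₀.F (z₀.e false) (s.mu z₀.F (z₀.e false))
      (pt (flip (dz z₀ true (!innD D z₀ true))))
  · obtain ⟨c, hp⟩ := hroom (!up z₀.F (z₀.e false))
    refine hfin hp ?_
    intro h
    have h3 := (hp.side hx (z₀.at_ false).2).1 (h.1 hQ)
    cases up z₀.F (z₀.e false) <;> simp at h3
  · obtain ⟨c, hp⟩ := hroom (up z₀.F (z₀.e false))
    refine hfin hp ?_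
    intro h
    exact hQ (h.2 ((hp.side hx (z₀.at_ false).2).2 rfl))

/-- **CUT, all clauses** -/
theorem cutY (up : Φ → W → Bool) (s : St M col) (hg : s.Good Act far) (h2 : Two s up)
    (hroom : Room s up) (Ph : Finset W) (hP : s.P ⊆ Ph) :
    ∃ s' : St M col, s'.Good Act far ∧ CL2 Act far Ph s' s ∧ DblN s' s ∧ EncN Act far Ph s' s ∧
      TrN Act far s' s ∧ PBN Act far Ph s' s ∧ ∀ (A : s'.Arcs Act) (G : Set s'.Dbl), A.Closed G → G = ∅ := by
  classical
  induction hn : Nat.card s.Dbl using Nat.strong_induction_on generalizing s Ph with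
  | _ n ih =>
    by_cases h : ∀ (A : s.Arcs Act) (G : Set s.Dbl), A.Closed G → G = ∅
    · exact ⟨s, hg, CL2.refl _ _ _ _, DblN.refl _, EncN.refl _ _ _ _, TrN.refl _ _ _, PBN.refl _ _ _ _, h⟩
    · push Not at h
      obtain ⟨A, G, hG, hne⟩ := h
      obtain ⟨s₁, hg₁, hl₁, hd₁, he₁, ht₁, hp₁, hc₁⟩ := stepY hg h2 hP (fun b => hroom Ph b) A hG hne
      have h2' : Two s₁ up := by
        intro F w hw hF
        have hw' := (hl₁.cle.hp w).1 hw
        rw [hl₁.cle.hmu w F hw']
        exact h2 hw' hF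
      have hroom' : Room s₁ up := by
        intro Ph' b
        obtain ⟨c, hp⟩ := hroom Ph' b
        exact ⟨c, hp.congr hl₁.cle.hp⟩
      obtain ⟨s₂, hg₂, hl₂, hd₂, he₂, ht₂, hp₂, hc₂⟩ := ih _ (hn ▸ hc₁) s₁ hg₁ h2' hroom' (Ph ∪ s₁.P)
        Finset.subset_union_right rfl
      exact ⟨s₂, hg₂, CL2.trans Finset.subset_union_left (hP.trans Finset.subset_union_left)
        hl₂ hl₁ hg₁, hd₂.trans hd₁,
        EncN.trans Finset.subset_union_left hl₂ hl₁.cle hd₁ he₂ he₁,
        TrN.trans hl₁.cle ht₂ ht₁,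
        PBN.trans Finset.subset_union_left (hP.trans Finset.subset_union_left) hl₂ hl₁ hp₂ hp₁, hc₂⟩

end Crest.Agent.R096.SecW_892
end

-- ▼ part R096/Sec13_892

/-!
# R096 / DOORS-SEC, part 13 (helper892): CUT for all families at once

`cutAll` : from a state with barriers `s : GSt M (Sum.map fam id)`, `Good`, `Two`, `Room` for the pair
state of every family, to the state `s₃ : GSt M fam` of the families after the cut.
-/

set_option autoImplicit false

namespace Crest.Agent.R096.SecW_892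

open Crest.Agent.R096.St_147 Crest.Agent.R096.Seq_213 Crest.Agent.R096.Sec_892
  Crest.Agent.R096.Cg_501 Crest.Agent.R096.Sgd_298 Crest.Agent.R096.Cnp_824
open Crest.Agent.R096.Pbn_147 (PBN TrD TrQ ConnT trQ_of_pbn)

/-- choices with finite support, one after the other -/
theorem exists_seqP {C W : Type} [Countable C] {T : C → Type} (pts : ∀ c, T c → Finset W)
    (good : ∀ c, Finset W → T c → Prop) (h : ∀ c (Ph : Finset W), ∃ t, good c Ph t) :
    ∃ (t : ∀ c, T c) (Ph : C → Finset W), (∀ c, good c (Ph c) (t c)) ∧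
      ∀ c c', c ≠ c' → pts c (t c) ⊆ Ph c' ∨ pts c' (t c') ⊆ Ph c := by
  classical
  obtain ⟨e, he⟩ := exists_injective_nat C
  choose ch hch using h
  let Acc : ℕ → Finset W := fun n => Nat.rec (∅ : Finset W) (fun n A => A ∪
    if h : ∃ c, e c = n then pts h.choose (ch h.choose A) else ∅) n
  have hAcc : ∀ n, Acc (n + 1) = Acc n ∪
      if h : ∃ c, e c = n then pts h.choose (ch h.choose (Acc n)) else ∅ := fun n => rfl
  have hmono : Monotone Acc := monotone_nat_of_le_succ fun n => by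
    rw [hAcc]; exact Finset.subset_union_left
  have hin : ∀ c, pts c (ch c (Acc (e c))) ⊆ Acc (e c + 1) := by
    intro c
    have h1 : ∃ c', e c' = e c := ⟨c, rfl⟩
    have h2 : h1.choose = c := he h1.choose_spec
    have h3 : ∀ c', c' = c → pts c' (ch c' (Acc (e c))) = pts c (ch c (Acc (e c))) := by
      rintro _ rfl; rfl
    rw [hAcc, dif_pos h1, h3 _ h2]
    exact Finset.subset_union_right
  refine ⟨fun c => ch c (Acc (e c)), fun c => Acc (e c), fun c => hch c _, ?_⟩
  intro c c' hne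
  rcases lt_trichotomy (e c) (e c') with h1 | h1 | h1
  · left
    exact (hin c).trans (hmono h1)
  · exact absurd (he h1) hne
  · right
    exact (hin c').trans (hmono h1)

variable {ι Φ W J C Mo : Type} {M : MeshC ι Φ W} {fam : J → C} {am : Mo → C}

/-- the pair state of the family `a` (`j0 a` = some sheet of `a`) -/
noncomputable abbrev prS (s : GSt M (Sum.map fam (id : Mo → Mo))) (hs : BSep s am)
    (hm : ∀ a, {m | am m = a}.Finite) (j0 : C → J) (hj0 : ∀ a, fam (j0 a) = a) (a : C) :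
    St M (pcol fam am a) := pr s hs hm a ⟨Sum.inl (j0 a), hj0 a⟩

/-- the name of a sheet in the pair state -/
def nL (am : Mo → C) (j : J) : PN fam am (fam j) := ⟨Sum.inl j, rfl⟩

/-- **the relation between the state with barriers and the cut state** -/
structure CutR (s : GSt M (Sum.map fam (id : Mo → Mo))) (hs : BSep s am)
    (hm : ∀ a, {m | am m = a}.Finite) (j0 : C → J) (hj0 : ∀ a, fam (j0 a) = a)
    (Act : C → Set ι) (far : ∀ a, PN fam am a → Set W) (t : ∀ a, St M (pcol fam am a))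
    (Ph : C → Finset W) (s₃ : GSt M fam) : Prop where
  good0 : ∀ a, (prS s hs hm j0 hj0 a).Good (Act a) (far a)
  good : ∀ a, (t a).Good (Act a) (far a)
  cl2 : ∀ a, CL2 (Act a) (far a) (Ph a) (t a) (prS s hs hm j0 hj0 a)
  dbl : ∀ a, DblN (t a) (prS s hs hm j0 hj0 a)
  encN : ∀ a, EncN (Act a) (far a) (Ph a) (t a) (prS s hs hm j0 hj0 a)
  trn : ∀ a, TrN (Act a) (far a) (t a) (prS s hs hm j0 hj0 a)
  /-- 147's pull back with the values of the double points and the new points -/
  pbn : ∀ a, PBN (Act a) (far a) (Ph a) (t a) (prS s hs hm j0 hj0 a)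
  /-- no closed double curves -/
  noc : ∀ a (A : (t a).Arcs (Act a)) (G : Set (t a).Dbl), A.Closed G → G = ∅
  sub : ∀ a, (prS s hs hm j0 hj0 a).P ⊆ Ph a
  /-- `Ph a` contains all points on the faces at the points of the pair state -/
  full : ∀ a h F, h ∈ (prS s hs hm j0 hj0 a).P → h ∈ M.On F → ∀ v ∈ s.P, v ∈ M.On F → v ∈ Ph a
  new : ∀ a w, w ∈ (t a).P → w ∉ (prS s hs hm j0 hj0 a).P → w ∉ s.P
  mem : ∀ {j w}, (w ∈ s₃.P ∧ s₃.lab w = j) ↔
    (w ∈ (t (fam j)).P ∧ (t (fam j)).lab w = nL am j)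
  mu : ∀ {F w}, w ∈ s₃.P → s₃.mu F w = (t (fam (s₃.lab w))).mu F w

section cutAll

variable {s : GSt M (Sum.map fam (id : Mo → Mo))} {hs : BSep s am}
  {hm : ∀ a, {m | am m = a}.Finite} {j0 : C → J} {hj0 : ∀ a, fam (j0 a) = a}
  {Act : C → Set ι} {far : ∀ a, PN fam am a → Set W}

/-- **CUT for all families at once** -/
theorem cutAll [Countable C] [Nonempty C]
    (hg : ∀ a, (prS s hs hm j0 hj0 a).Good (Act a) (far a))
    (hu : ∀ a, ∃ up, Two (prS s hs hm j0 hj0 a) up ∧ Room (prS s hs hm j0 hj0 a) up)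
    (hfin : ∀ F, (s.P ∩ M.On F).Finite) :
    ∃ (t : ∀ a, St M (pcol fam am a)) (Ph : C → Finset W) (s₃ : GSt M fam),
      CutR s hs hm j0 hj0 Act far t Ph s₃ := by
  classical
  set base : C → Finset W := fun a => (prS s hs hm j0 hj0 a).P ∪
    (prS s hs hm j0 hj0 a).P.biUnion fun h => (M.fs h).biUnion fun F => (hfin F).toFinset
    with hbase
  obtain ⟨t, Q, hgood, hdis⟩ := exists_seqP (T := fun a => St M (pcol fam am a))
    (fun a t => t.P) (fun a Q t => t.Good (Act a) (far a) ∧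
      CL2 (Act a) (far a) (base a ∪ Q) t (prS s hs hm j0 hj0 a) ∧
      DblN t (prS s hs hm j0 hj0 a) ∧
      EncN (Act a) (far a) (base a ∪ Q) t (prS s hs hm j0 hj0 a) ∧
      TrN (Act a) (far a) t (prS s hs hm j0 hj0 a) ∧
      PBN (Act a) (far a) (base a ∪ Q) t (prS s hs hm j0 hj0 a) ∧
      ∀ (A : t.Arcs (Act a)) (G : Set t.Dbl), A.Closed G → G = ∅) (by
    intro a Q
    obtain ⟨up, h2, hr⟩ := hu a
    obtain ⟨t, h3, h4, h5, h6, h7, h8, h9⟩ := cutY up (prS s hs hm j0 hj0 a) (hg a) h2 hr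
      (base a ∪ Q) (Finset.subset_union_left.trans Finset.subset_union_left)
    exact ⟨t, h3, h4, h5, h6, h7, h8, h9⟩)
  have hsub : ∀ a, (prS s hs hm j0 hj0 a).P ⊆ base a ∪ Q a := fun a =>
    Finset.subset_union_left.trans Finset.subset_union_left
  have hfull : ∀ a h F, h ∈ (prS s hs hm j0 hj0 a).P → h ∈ M.On F → ∀ v ∈ s.P, v ∈ M.On F →
      v ∈ base a ∪ Q a := by
    intro a h F h1 h2 v hv hvF
    refine Finset.mem_union_left _ (Finset.mem_union_right _ ?_)
    rw [Finset.mem_biUnion]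
    refine ⟨h, h1, ?_⟩
    rw [Finset.mem_biUnion]
    exact ⟨F, MeshC.mem_fs.2 h2, (hfin F).mem_toFinset.2 ⟨hv, hvF⟩⟩
  have hnew : ∀ a w, w ∈ (t a).P → w ∉ (prS s hs hm j0 hj0 a).P → w ∉ s.P := by
    intro a w hw hwp hws
    obtain ⟨h, h1, ⟨F, h2⟩, h3, -⟩ := (hgood a).2.2.2.1 w hw hwp
    have hwF : w ∈ M.On F := (h3.1 F).2 h2
    rcases (hgood a).2.1.cle.P w hw with h4 | h4
    · exact hwp h4
    · exact h4.1 (hfull a h F h1.1 h2 w hws hwF)
  have key : ∀ a w, w ∈ (t a).P → (w ∈ s.P ∧ Sum.elim fam am (s.lab w) = a) ∨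
      (w ∉ s.P ∧ w ∉ base a ∪ Q a) := by
    intro a w hw
    by_cases h : w ∈ (prS s hs hm j0 hj0 a).P
    · exact Or.inl (mem_pr.1 h)
    · refine Or.inr ⟨hnew a w hw h, ?_⟩
      exact ((hgood a).2.1.cle.P w hw).resolve_left h |>.1
  have hd : ∀ {a b w}, w ∈ (piece a (j0 a) (t a)).P → w ∈ (piece b (j0 b) (t b)).P → a = b := by
    rintro a b w ⟨ha, -⟩ ⟨hb, -⟩
    by_contra hne
    rcases key a w ha with ⟨h1, h2⟩ | ⟨h1, h2⟩
    · rcases key b w hb with ⟨h3, h4⟩ | ⟨h3, h4⟩
      · exact hne (h2.symm.trans h4)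
      · exact h3 h1
    · rcases key b w hb with ⟨h3, h4⟩ | ⟨h3, h4⟩
      · exact h1 h3
      · rcases hdis a b hne with h5 | h5
        · exact h4 (Finset.mem_union_right _ (h5 ha))
        · exact h2 (Finset.mem_union_right _ (h5 hb))
  refine ⟨t, fun a => base a ∪ Q a, gather (fun a => piece a (j0 a) (t a)) hd, hg,
    fun a => (hgood a).1, fun a => (hgood a).2.1, fun a => (hgood a).2.2.1,
    fun a => (hgood a).2.2.2.1, fun a => (hgood a).2.2.2.2.1, fun a => (hgood a).2.2.2.2.2.1,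
    fun a => (hgood a).2.2.2.2.2.2, hsub, hfull, hnew, ?_, ?_⟩
  · intro j w
    constructor
    · rintro ⟨h1, h2⟩
      have h3 : w ∈ (piece (fam j) (j0 (fam j)) (t (fam j))).P :=
        (gather_fam (hd := hd)).1 ⟨h1, by rw [h2]⟩
      refine (piece_iff (j0 := j0 (fam j)) rfl).1 ⟨h3, ?_⟩
      rw [← gather_lab (hd := hd) h3]; exact h2
    · intro h
      obtain ⟨h1, h2⟩ := (piece_iff (j0 := j0 (fam j)) (t := t (fam j)) (j := j) rfl).2 h
      exact ⟨⟨_, h1⟩, by rw [gather_lab (hd := hd) h1]; exact h2⟩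
  · intro F w hw
    have h3 : w ∈ (piece (fam ((gather (fun a => piece a (j0 a) (t a)) hd).lab w)) _
      (t (fam ((gather (fun a => piece a (j0 a) (t a)) hd).lab w)))).P :=
      (gather_fam (hd := hd)).1 ⟨hw, rfl⟩
    rw [gather_mu (hd := hd) F h3]
    rfl

end cutAll

namespace CutR

variable {s : GSt M (Sum.map fam (id : Mo → Mo))} {hs : BSep s am}
  {hm : ∀ a, {m | am m = a}.Finite} {j0 : C → J} {hj0 : ∀ a, fam (j0 a) = a}
  {Act : C → Set ι} {far : ∀ a, PN fam am a → Set W} {t : ∀ a, St M (pcol fam am a)}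
  {Ph : C → Finset W} {s₃ : GSt M fam}

theorem mu' (D : CutR s hs hm j0 hj0 Act far t Ph s₃) {F : Φ} {w : W} {j : J} (hw : w ∈ s₃.P)
    (hl : s₃.lab w = j) : s₃.mu F w = (t (fam j)).mu F w := by
  subst hl; exact D.mu hw

theorem at_iff (D : CutR s hs hm j0 hj0 Act far t Ph s₃) {F : Φ} {w : W} {j : J} :
    (s₃.At F w ∧ s₃.lab w = j) ↔ ((t (fam j)).At F w ∧ (t (fam j)).lab w = nL am j) := by
  constructor
  · rintro ⟨h1, h2⟩
    obtain ⟨h3, h4⟩ := D.mem.1 ⟨h1.1, h2⟩
    exact ⟨⟨h3, h1.2⟩, h4⟩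
  · rintro ⟨h1, h2⟩
    obtain ⟨h3, h4⟩ := D.mem.2 ⟨h1.1, h2⟩
    exact ⟨⟨h3, h1.2⟩, h4⟩

theorem h1 (D : CutR s hs hm j0 hj0 Act far t Ph s₃) (j : J) : s₃.H1 j := by
  intro κ hκ
  obtain ⟨Ψ, hΨ⟩ := (D.good (fam j)).h1 (nL am j) κ (fun q => by
    obtain ⟨ψ, hψ⟩ := hκ q
    refine ⟨ψ, fun F w hq hw hl => ?_⟩
    obtain ⟨e1, e2⟩ := D.at_iff.2 ⟨hw, hl⟩
    rw [hψ F w hq e1 e2, D.mu' e1.1 e2])
  refine ⟨Ψ, fun F w hw hl => ?_⟩
  obtain ⟨e1, e2⟩ := D.at_iff.1 ⟨hw, hl⟩
  rw [hΨ F w e1 e2, D.mu' hw.1 hl]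

theorem conn (D : CutR s hs hm j0 hj0 Act far t Ph s₃) (j : J) : s₃.Conn j := by
  obtain ⟨⟨w, hw, hl⟩, h2⟩ := (D.good (fam j)).conn (nL am j)
  obtain ⟨e1, e2⟩ := D.mem.2 ⟨hw, hl⟩
  refine ⟨⟨w, e1, e2⟩, ?_⟩
  intro X hX x hx hxP hxl y hyP hyl
  obtain ⟨a1, a2⟩ := D.mem.1 ⟨hxP, hxl⟩
  obtain ⟨b1, b2⟩ := D.mem.1 ⟨hyP, hyl⟩
  refine h2 X ?_ x hx a1 a2 y b1 b2
  intro F u hu hA hul
  obtain ⟨c1, c2⟩ := D.at_iff.2 ⟨hA, hul⟩
  rw [← D.mu' c1.1 c2]
  exact hX F u hu c1 c2

/-- common points have the same name -/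
theorem old (D : CutR s hs hm j0 hj0 Act far t Ph s₃) {w : W} (hw : w ∈ s₃.P) (hws : w ∈ s.P) :
    s.lab w = Sum.inl (s₃.lab w) := by
  obtain ⟨h1, h2⟩ := D.mem.1 ⟨hw, rfl⟩
  by_cases h : w ∈ (prS s hs hm j0 hj0 (fam (s₃.lab w))).P
  · have h3 := (D.cl2 _).lab w h1 h
    rw [h2] at h3
    have h4 := (pr_lab_iff (mem_pr.1 h).2).1 h3.symm
    exact h4
  · exact absurd hws (D.new _ w h1 h)


/-- a point of `s` with the name `inl j` in the pair state -/
theorem pr_of (D : CutR s hs hm j0 hj0 Act far t Ph s₃) {w : W} {j : J} (hw : w ∈ s.P)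
    (hl : s.lab w = Sum.inl j) : w ∈ (prS s hs hm j0 hj0 (fam j)).P ∧
      (prS s hs hm j0 hj0 (fam j)).lab w = nL am j := by
  have h : Sum.elim fam am (s.lab w) = fam j := by rw [hl]; rfl
  exact ⟨mem_pr.2 ⟨hw, h⟩, (pr_lab_iff h).2 hl⟩

theorem pr_of' (D : CutR s hs hm j0 hj0 Act far t Ph s₃) {w : W} {j : J}
    (hw : w ∈ (prS s hs hm j0 hj0 (fam j)).P)
    (hl : (prS s hs hm j0 hj0 (fam j)).lab w = nL am j) : w ∈ s.P ∧ s.lab w = Sum.inl j := by
  obtain ⟨h1, h2⟩ := mem_pr.1 hw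
  exact ⟨h1, (pr_lab_iff h2).1 hl⟩

/-- **new points are next to barrier points enclosed by their own sheet** -/
theorem newN (D : CutR s hs hm j0 hj0 Act far t Ph s₃) {w : W} (hw : w ∈ s₃.P) (hws : w ∉ s.P) :
    ∃ h ∈ s.P, ∃ m, s.lab h = Sum.inr m ∧ am m = fam (s₃.lab w) ∧ (∃ F, h ∈ M.On F) ∧
      (∀ F, w ∈ M.On F ↔ h ∈ M.On F) ∧
      (∀ F v, h ∈ M.On F → v ∈ s.P → v ∈ M.On F → v ≠ h →
        (M.pos F v < M.pos F h ↔ M.pos F v < M.pos F w)) ∧
      ∃ X : Set W, h ∈ X ∧ (∀ x ∈ X, x ∈ s.P ∧ s.lab x = Sum.inr m) ∧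
        (∀ F x, x ∈ X → s.At F x → (∀ y, s.At F y → s.lab y = Sum.inl (s₃.lab w) →
          ¬ M.Lace F x (s.mu F x) y (s.mu F y)) → s.mu F x ∈ X) ∧
        ∀ x ∈ X, ∀ F, s.At F x → ¬ St.Frozen M (Act (am m)) F := by
  obtain ⟨h1, h2⟩ := D.mem.1 ⟨hw, rfl⟩
  have hwp : w ∉ (prS s hs hm j0 hj0 (fam (s₃.lab w))).P := fun h => hws (mem_pr.1 h).1
  obtain ⟨h, h3, h4, h5, X, h6, h7, h8, h9⟩ := D.encN _ w h1 hwp
  obtain ⟨h10, m, h11, h12⟩ := pr_hp.1 h3
  refine ⟨h, h10, m, h12, h11, h4, h5.1, ?_, X, h6, ?_, ?_, ?_⟩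
  · intro F v hF hv hvF hne
    exact h5.2 F v hF (D.full _ h F h3.1 hF v hv hvF) hvF hne
  · intro x hx
    obtain ⟨g1, g2⟩ := h7 x hx
    obtain ⟨g3, m', g4, g5⟩ := pr_hp.1 g1
    refine ⟨g3, ?_⟩
    have e1 : Sum.elim fam am (s.lab h) = fam (s₃.lab w) := by rw [h12]; exact h11
    have e2 := (pr_lab_iff (by rw [g5]; exact g4)).1 g2
    have e3 := (pr_lab_iff (hs := hs) (hm := hm) (i0 := ⟨Sum.inl (j0 (fam (s₃.lab w))), hj0 _⟩)
      e1).1 rfl
    rw [e2, ← e3, h12]
  · intro F x hx hA hno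
    obtain ⟨g1, g2⟩ := h7 x hx
    refine h8 F x hx ⟨g1.1, hA.2⟩ ?_
    intro z hF he hl
    subst hF
    have hA' : (prS s hs hm j0 hj0 (fam (s₃.lab w))).At z.F x := ⟨g1.1, hA.2⟩
    have h13 := z.lace
    rw [he] at h13
    have h14 := (lace_lo_right (prS s hs hm j0 hj0 (fam (s₃.lab w))) hA' _ _).1 h13
    have h15 := lace_comm (prS s hs hm j0 hj0 (fam (s₃.lab w))) (z.at_ true) hA' (by
      intro e
      have h16 := z.colr true
      have h17 := g1.2
      rw [← e, h16] at h17
      exact Bool.false_ne_true h17.symm) h14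
    obtain ⟨h18, h19⟩ := pr_at.1 (z.at_ true)
    rw [h2] at hl
    exact hno (z.e true) h18 ((pr_lab_iff h19).1 hl) h15
  · intro x hx F hA
    obtain ⟨g1, g2⟩ := h7 x hx
    rw [h11]
    exact (h9 x hx).2 F ⟨g1.1, hA.2⟩

/-- new points are next to enclosed barrier points -/
theorem new' (D : CutR s hs hm j0 hj0 Act far t Ph s₃) {w : W} (hw : w ∈ s₃.P) (hws : w ∉ s.P) :
    ∃ h ∈ s.P, ∃ m, s.lab h = Sum.inr m ∧ am m = fam (s₃.lab w) ∧ (∃ F, h ∈ M.On F) ∧
      (∀ F, w ∈ M.On F ↔ h ∈ M.On F) ∧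
      ∃ X : Set W, h ∈ X ∧ (∀ x ∈ X, x ∈ s.P ∧ s.lab x = Sum.inr m) ∧
        (∀ F x, x ∈ X → s.At F x → (∀ y, s.At F y → (∃ i, s.lab y = Sum.inl i ∧ fam i = am m) →
          ¬ M.Lace F x (s.mu F x) y (s.mu F y)) → s.mu F x ∈ X) ∧
        ∀ x ∈ X, ∀ F, s.At F x → ¬ St.Frozen M (Act (am m)) F := by
  obtain ⟨h, h1, m, h2, h3, h4, h5, -, X, h6, h7, h8, h9⟩ := D.newN hw hws
  exact ⟨h, h1, m, h2, h3, h4, h5, X, h6, h7, fun F x hx hA hno => h8 F x hx hA
    fun y hy hl => hno y hy ⟨_, hl, h3.symm⟩, h9⟩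

/-- nothing changes on frozen faces -/
theorem frozen (D : CutR s hs hm j0 hj0 Act far t Ph s₃) {F : Φ} {w : W} {j : J}
    (hF : St.Frozen M (Act (fam j)) F) :
    (s₃.At F w ∧ s₃.lab w = j) ↔ (s.At F w ∧ s.lab w = Sum.inl j) := by
  constructor
  · rintro ⟨h1, h2⟩
    obtain ⟨h3, h4⟩ := D.at_iff.1 ⟨h1, h2⟩
    have h5 := ((D.cl2 (fam j)).cle.frozen_P F w hF h1.2).1 h3.1
    have h6 := (D.cl2 (fam j)).lab w h3.1 h5
    obtain ⟨h7, h8⟩ := D.pr_of' h5 (h6.symm.trans h4)
    exact ⟨⟨h7, h1.2⟩, h8⟩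
  · rintro ⟨h1, h2⟩
    obtain ⟨h3, h4⟩ := D.pr_of h1.1 h2
    have h5 := ((D.cl2 (fam j)).cle.frozen_P F w hF h1.2).2 h3
    have h6 := (D.cl2 (fam j)).lab w h5 h3
    obtain ⟨h7, h8⟩ := D.mem.2 ⟨h5, h6.trans h4⟩
    exact ⟨⟨h7, h1.2⟩, h8⟩

theorem frozen_mu (D : CutR s hs hm j0 hj0 Act far t Ph s₃) {F : Φ} {w : W} (hw : s₃.At F w)
    (hF : St.Frozen M (Act (fam (s₃.lab w))) F) : s₃.mu F w = s.mu F w := by
  obtain ⟨h1, h2⟩ := (D.frozen hF).1 ⟨hw, rfl⟩
  obtain ⟨h3, h4⟩ := D.pr_of h1.1 h2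
  rw [D.mu hw.1]
  exact (D.cl2 _).cle.frozen_mu F w hF ⟨h3, hw.2⟩




/-- **pull back of closed sets** -/
theorem pb (D : CutR s hs hm j0 hj0 Act far t Ph s₃) {j : J} {K : Φ → W → Prop}
    (hK : ∀ q F F' h m, q ∈ M.side F → q ∈ M.side F' → s.At F' h → s.lab h = Sum.inr m →
      am m = fam j → ∀ w, K F w) {X' : Set W}
    (hX' : ∀ F w, s₃.At F w → s₃.lab w = j → K F w → (w ∈ X' ↔ s₃.mu F w ∈ X')) :
    ∃ X : Set W, (∀ F w, s.At F w → s.lab w = Sum.inl j → K F w → (w ∈ X ↔ s.mu F w ∈ X)) ∧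
      ∀ w, w ∈ s.P → s.lab w = Sum.inl j → w ∈ s₃.P → (w ∈ X ↔ w ∈ X') := by
  obtain ⟨X, h1, h2⟩ := (D.cl2 (fam j)).pb (nL am j) rfl K
    (fun q F F' h hq hq' hh hF' w => by
      obtain ⟨h3, m, h4, h5⟩ := pr_hp.1 hh
      exact hK q F F' h m hq hq' ⟨h3, hF'⟩ h5 h4 w) X' (fun F w hw hl hk => by
      obtain ⟨e1, e2⟩ := D.at_iff.2 ⟨hw, hl⟩
      rw [← D.mu' e1.1 e2]
      exact hX' F w e1 e2 hk)
  refine ⟨X, ?_, ?_⟩
  · intro F w hw hl hk
    obtain ⟨e1, e2⟩ := D.pr_of hw.1 hl
    exact h1 F w ⟨e1, hw.2⟩ e2 hk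
  · intro w hw hl hw₃
    obtain ⟨e1, e2⟩ := D.pr_of hw hl
    have e3 : s₃.lab w = j := Sum.inl_injective ((D.old hw₃ hw).symm.trans hl)
    obtain ⟨e4, e5⟩ := D.mem.1 ⟨hw₃, e3⟩
    exact h2 w e1 e2 e4 e5



end CutR

end Crest.Agent.R096.SecW_892
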