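import Crest.Agent.R096.Hdr3_334
import Crest.Agent.R096.Bse2_344
import Crest.Agent.R096.Sgo2_298
import Crest.Agent.R096.Lv4_471
import Crest.Agent.R096.Dfo1_539
import Crest.Agent.R096.Dff4_539
import Crest.Agent.R096.Dfi5_471
import Crest.Agent.R096.Sgo3_298
import Crest.Agent.R096.Dfg1_539
import Crest.Agent.R096.Civ2_662
import Crest.Agent.R096.Nmd1_698

-- ▼ part R096/Hdr4_334
section

/-!
# R096 (row 96), DOORS (helper334), part 4: `hdoor` for the real state with layers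

* `pos_s2`  : (B) for the sheets of `s2` with the sharp margin `μ / 2 - Cn κ1`;
* `hAct_qd` : the active layer tiles at a giant (input `hAct` of 560's `s2_two_lev`);
* `two_s2`  : (E2) at the giants of `s2` with the quads `qdT`;
* `hdoor_m` : the hypothesis `hdoor` of 298's `good_s2` for the machine.
-/

set_option autoImplicit false
set_option linter.unusedSectionVars false
set_option linter.unusedVariables false
set_option linter.style.longLine false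

open Set Topology Filter Metric Module
open scoped Classical

namespace Crest.Agent.R096.Hdr_334

open Crest.Agent.R096.Msh_715 Crest.Agent.R096.Agl5_543 Crest.Agent.R096.St_147
  Crest.Agent.R096.Seq_213 Crest.Agent.R096.Door_501 Crest.Agent.R096.Sla_184
  Crest.Agent.R096.Twr_438 Crest.Agent.R096.Exa_560 Crest.Agent.R096.Ess3_95
  Crest.Agent.R096.Ess4_95 Crest.Agent.R096.Dfi_539 Crest.Agent.R096.Dfi_471
  Crest.Agent.R096.Cg_501 Crest.Agent.R096.Sgd_298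
open Crest.Agent.R096.Brk1_582 Crest.Agent.R096.Brk2_582 Crest.Agent.R096.Brk3_582
  Crest.Agent.R096.Brk5_582 Crest.Agent.R096.Bsp_628 Crest.Agent.R096.Init_543
open Crest.Agent.R096.Mbf_337 (sb KJ Tiny gau Cores Fine)
open Crest.Agent.R096.SkC1_961 (E3 FoamD Hom3)
open Crest.Agent.R096.Frn_337 (Ti)
open Crest.Agent.R096.Frs_662 (slC)
open Crest.Agent.R096.Lm_117 Crest.Agent.R096.SkB_662 Crest.Agent.R096.Qdl_662

variable {δ κ0 R c0 : ℝ} {La Om : Set E3} {ι : Type} {Φ : FoamD δ κ0 R c0 La} {T : Tiling Om ι}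
  {f g : E3 → E3} {κ1 κ2 μ : ℝ} {X : Set Φ.F} {J0 Jt V : Φ.F → Set ι}
  {ct ct' : Φ.F → ι} {A : Φ.F → E3 ≃ᵃ[ℝ] E3} {lam : Φ.F → ℝ} {z : Φ.F → E3}
  {θ : Φ.F → E3 → E3} {φ : Φ.F → E3 → ℝ} {r₀ : Φ.F → ℝ} {ε s₁ : ℝ}

variable {Mo : Type} {n : Ti X → ℕ} {hn : ∀ c, 0 < n c} {hLa : IsOpen La}
  {hC : Cores Φ T f κ1 κ2 X J0 Jt V ct A lam z θ φ}
  {hR : InitR Φ T f g J0 ct' r₀}
  {hM : Mesh0 T (Pc Φ.F) (bc (F := Φ.F)) (RF Φ r₀) f (KorJ Φ J0) ε} {hε : ε < s₁} {hε1 : ε < 1}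
  {L : Φ.F → Finset ℝ} [Nonempty (JJ Φ L ⊕ Mo)]
  {s : GSt (meshC T fr3) (Sum.map (fun j : JJ Φ L => j.1) (id : Mo → Mo))}
  {r : JJ Φ L ⊕ Mo → E3} {Sf : JJ Φ L ⊕ Mo → Set E3} {nb : Ti X → Φ.F ⊕ Mo → Prop}
  {v0 v1 : ∀ c, Φ.F ⊕ Mo → VxK T (slC hLa hC n hn).K c} {u : Ti X → Φ.F ⊕ Mo → E3 → ℝ}
  {Aw Bw : Ti X → Φ.F ⊕ Mo → ℝ}
  {Lv : ∀ c, Φ.F ⊕ Mo → Lev T (frontier ((slC hLa hC n hn).K c)) (JJ Φ L ⊕ Mo)}
  {Tw : Twrs ((slC hLa hC n hn).sh fr3) (slC hLa hC n hn).n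
    (outK (slC hLa hC n hn).hH (slC hLa hC n hn).dis s r)} {l0 : E3 → JJ Φ L ⊕ Mo}

/-- **(B) for the sheets of `s2`**, sharp margin -/
theorem pos_s2 (hδ : 0 < δ) (hR0 : 0 < R) (hκ1 : 0 < κ1) (hμ0 : 0 < μ) (hμ1 : μ ≤ 1 / 2)
    (hμ : (3 * Cn δ R + 1) * κ1 < μ / 2)
    (D : DIn (slC hLa hC n hn).hH s r Sf nb v0 v1 u Aw Bw) (LO : LevOut s nb u Aw Bw Lv)
    (tt : TwOut (slC hLa hC n hn) fr3 s r v0 v1 Lv Tw)
    (hnb : ∀ c a, nb c (Sum.inl a) → a ∈ nbr Φ c.1)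
    (hu : ∀ c a x, u c (Sum.inl a) x = sb Φ (θ c.1 x) a)
    (hA : ∀ c a, μ / 2 ≤ Aw c (Sum.inl a)) (hB : ∀ c a, Bw c (Sum.inl a) ≤ 1 - μ / 2)
    (hv0 : ∀ c a, nb c (Sum.inl a) → sb Φ (θ c.1 (v0 c (Sum.inl a)).1) a ≤ μ / 2)
    (hv1 : ∀ c a, nb c (Sum.inl a) → 1 - μ / 2 ≤ sb Φ (θ c.1 (v1 c (Sum.inl a)).1) a)
    (htr : ∀ w ∈ s.P, ∀ j : JJ Φ L, s.lab w = Sum.inl j →
      μ ≤ Φ.lev j.1 (f w) ∧ Φ.lev j.1 (f w) ≤ 1 - μ) (j : JJ Φ L) :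
    Pos (hH := (Lay_316.lay_sla hLa hC n hn).core) (hdis := (Lay_316.lay_sla hLa hC n hn).disj)
      T f J0 (fun p : T.RIdx (slC hLa hC n hn).HH => p.tile) (s2 (slC hLa hC n hn) fr3 Tw l0)
      (Sum.inl j) j.1 (μ / 2 - Cn δ R * κ1) := by
  have hCn := Cn_nonneg hδ hR0
  have hCκ : 0 ≤ Cn δ R * κ1 := mul_nonneg hCn hκ1.le
  have hκ : Cn δ R * κ1 < 1 := by nlinarith
  intro w hw hwl p hp hwp _
  refine Bse_344.loc2 (S := slC hLa hC n hn) (h3 := fr3) D LO tt (n := Sum.inl j)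
    (fun x => Φ.lev j.1 (f x) ∈ Icc (μ / 2 - Cn δ R * κ1) (1 - (μ / 2 - Cn δ R * κ1)))
    ?_ ?_ ?_ hw hwl hwp
  · intro x hx hl
    obtain ⟨h1, h2⟩ := htr x hx j hl
    constructor <;> linarith
  · intro c hc x hx h1 h2
    have h1' : Aw c (Sum.inl j.1) < u c (Sum.inl j.1) x := h1
    have h2' : u c (Sum.inl j.1) x < Bw c (Sum.inl j.1) := h2
    rw [hu] at h1' h2'
    have h4 := abs_le.1 (tiny_near hLa hδ hR0 hκ (hC.tiny c.1 c.2) hx j.1)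
    constructor <;> linarith [hA c j.1, hB c j.1, h4.1, h4.2]
  · intro c hc v hv
    have h := Lv4_471.tiny_rgnI (κ := Ti X) (cf := Subtype.val) (J := fun c => Jt c.1)
      (J0 := fun c => J0 c.1) (V := fun c => V c.1) (θ := fun c => θ c.1)
      (φ := fun c => φ c.1) (k := c) (a := j.1) (a' := Sum.inl j.1) hLa hδ hR0 hκ1 hμ0 hμ1 hμ
      (fun c => hC.tiny c.1 c.2) LO (hu c j.1) (hnb c j.1 hc).1 (hA c j.1) (hB c j.1)
      (hv0 c j.1 hc) (hv1 c j.1 hc) (fun w hw hl => by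
        rcases hl' : s.lab w with i | m
        · rw [hl'] at hl
          have e : i.1 = j.1 := Sum.inl.inj hl
          rw [← e]
          exact htr w hw i hl'
        · rw [hl'] at hl
          cases hl) hv
    constructor <;> linarith [h.2.2.1, h.2.2.2]

/-- a side of a face which is a tile is outside the cores -/
theorem side_out {E : Type} [NormedAddCommGroup E] [NormedSpace ℝ E] [FiniteDimensional ℝ E]
    {Om : Set E} {ι κ : Type} {T : Tiling Om ι} {Kc : κ → Set E} {h3 : finrank ℝ E = 3}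
    {hH : ∀ c, CoreH T (Kc c)} {hdis : ∀ c c', c ≠ c' → Disjoint (Kc c) (Kc c')}
    {F : {F : C2 T // ¬ (((meshC T h3).side F).map (piK T Kc)).IsDiag}} {p : ι}
    (hp : Sum.inl p ∈ (mK h3 hH hdis).side F) : ∀ k, ¬ P (T.H p) ⊆ Kc k := by
  have h1 : Sum.inl p ∈ ((meshC T h3).side F.1).map (piK T Kc) := hp
  rw [mem_map_iff] at h1
  obtain ⟨q', h2, h4⟩ := h1
  obtain ⟨rfl, h5⟩ := piK_inl.1 h4
  exact h5

/-- **the active layer tiles at a giant** -/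
theorem hAct_qd {re : Ti X → ℝ}
    (h1 : ∀ c : Ti X, ∀ x ∈ frontier (KJ T (Jt c.1)), gau c.1.1 (Φ.B c.1).lo (f x) ≤ re c)
    (h2 : ∀ c : Ti X, ∀ i, (∃ x ∈ P (T.H i), gau c.1.1 (Φ.B c.1).lo (f x) ≤ re c) → i ∈ V c.1)
    (k : QK (Pc Φ.F)) (m : Ti X) (G : ((slC hLa hC n hn).sh fr3 m).Fk) :
    Sum.inl (Sla.tg G (n m - 1)) ∈ (qdT (fun p : T.RIdx (slC hLa hC n hn).HH => p.tile)
      (fun p => Sla.P3_sub p) (slC hLa hC n hn).KK hLa hR hM hε hε1).Act k ↔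
    ∃ x ∈ P (T.H (Sla.tg G (n m - 1)).tile),
      (∀ b ∈ k.B, Φ.lev b (f x) ∈ Icc s₁ (1 - s₁)) ∧ ∀ e ∈ k.Z, Φ.lev e (f x) = 0 := by
  have hnm : 0 < n m := hn m
  have hout : ∀ k', ¬ P ((slC hLa hC n hn).T3.H (Sla.tg G (n m - 1))) ⊆ (slC hLa hC n hn).KK k' := by
    have hside := ((slC hLa hC n hn).cols fr3 |>.cl m).side_bot G
      (j := n m - 1) (by show n m - 1 + 1 = n m; omega)
    refine side_out (h3 := fr3) (hH := (Lay_316.lay_sla hLa hC n hn).core)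
      (hdis := (Lay_316.lay_sla hLa hC n hn).disj)
      (F := ((slC hLa hC n hn).cols fr3 |>.cl m).hf G (n m)) ?_
    have e := hside
    show Sum.inl (Sla.tg G (n m - 1)) ∈ ((slC hLa hC n hn).mn fr3).side _
    rw [show ((slC hLa hC n hn).mn fr3).side (((slC hLa hC n hn).cols fr3 |>.cl m).hf G (n m)) =
      s(Sum.inl (Sla.tg G (n m - 1)), Sum.inr m) from e]
    exact Sym2.mem_mk_left _ _
  have htl := tg_tile (S := slC hLa hC n hn) (h3 := fr3) (c := m) (G := G) (j := n m - 1)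
    (by show n m - 1 < n m; omega)
  have hfr : G.1.1.pt ∈ frontier (KJ T (Jt m.1)) := Sla.fk_fr G
  have hK : (Sla.tg G (n m - 1)).tile ∉ KorJ Φ J0 :=
    (zon_sla hC (slC hLa hC n hn) (fun _ => rfl) h1 h2).kor m _ hout
      ⟨G.1.1.pt, htl.1, h1 m _ hfr⟩
  rw [inl_act]
  constructor
  · rintro ⟨⟨-, x, hx, h4, h5⟩, -⟩
    refine ⟨x, hx, fun b hb => ?_, fun e he => ?_⟩
    · rw [← At_241.va_lev hLa hR hK hx b]; exact h4 b hb
    · rw [← At_241.va_lev hLa hR hK hx e]; exact h5 e he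
  · rintro ⟨x, hx, h4, h5⟩
    refine ⟨⟨hK, x, hx, fun b hb => ?_, fun e he => ?_⟩, hout⟩
    · rw [At_241.va_lev hLa hR hK hx b]; exact h4 b hb
    · rw [At_241.va_lev hLa hR hK hx e]; exact h5 e he

/-- **(E2) at the giants of `s2`** -/
theorem two_s2 (hδ : 0 < δ) (hR0 : 0 < R) (hμ0 : 0 < μ) (hμ1 : μ ≤ 1 / 2) (hκ1 : 0 ≤ κ1)
    (hs : (Cn δ R + 1) * κ1 < s₁) (hs1 : s₁ + Cn δ R * κ1 ≤ μ / 2)
    (LO : LevOut s nb u Aw Bw Lv) (tt : TwOut (slC hLa hC n hn) fr3 s r v0 v1 Lv Tw)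
    (hnb : ∀ (c : Ti X) a, a ≠ c.1 → (Pc Φ.F c.1 ∩ Pc Φ.F a).Nonempty → nb c (Sum.inl a))
    (hu : ∀ c a x, u c (Sum.inl a) x = sb Φ (θ c.1 x) a)
    (hA : ∀ c a, 1 - μ ≤ Aw c (Sum.inl a)) (hB : ∀ c a, Bw c (Sum.inl a) ≤ 1 - μ / 2)
    {re : Ti X → ℝ}
    (h1 : ∀ c : Ti X, ∀ x ∈ frontier (KJ T (Jt c.1)), gau c.1.1 (Φ.B c.1).lo (f x) ≤ re c)
    (h2 : ∀ c : Ti X, ∀ i, (∃ x ∈ P (T.H i), gau c.1.1 (Φ.B c.1).lo (f x) ≤ re c) → i ∈ V c.1)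
    (k : QK (Pc Φ.F)) (c : Ti X) (hc : c.1 ∈ k.Z) (j j' : JJ Φ L) (hj : j.1 ∈ k.B)
    (hj' : j'.1 ∈ k.B) (hjj : j.1 ≠ j'.1) :
    Two (s2 (slC hLa hC n hn) fr3 Tw l0)
      ((qdT (fun p : T.RIdx (slC hLa hC n hn).HH => p.tile) (fun p => Sla.P3_sub p)
        (slC hLa hC n hn).KK hLa hR hM hε hε1).Act k) {Sum.inr c} (Sum.inl j) (Sum.inl j') := by
  refine s2_two_lev (u := u) (Aw := Aw) (Bw := Bw) (nb := nb) (h3 := fr3) (H := hC.tiny)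
    (sC := s) hδ hR0 tt.bot LO (fa := (Sum.inl : Φ.F → Φ.F ⊕ Mo)) Sum.inl_injective
    (fun c a x _ => hu c a x) hnb hA hB hμ0 hμ1 hs hs1 hκ1 hc hj hj' hjj rfl rfl inr_act ?_
  exact fun G => hAct_qd h1 h2 k c G


end Crest.Agent.R096.Hdr_334
end

-- ▼ part R096/Dff5_539
section

/-!
# R096 (row 96), DOORS_final (helper539): 892's cut for the state with layers
-/

set_option autoImplicit false
set_option linter.unusedSectionVars false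
set_option linter.style.longLine false

open Set Module
open scoped Classical

namespace Crest.Agent.R096.Dff_539

open Crest.Agent.R096.Msh_715 Crest.Agent.R096.Agl5_543 Crest.Agent.R096.St_147
  Crest.Agent.R096.Seq_213 Crest.Agent.R096.Door_501 Crest.Agent.R096.Sla_184
  Crest.Agent.R096.Twr_438 Crest.Agent.R096.Exa_560 Crest.Agent.R096.Ess3_95
  Crest.Agent.R096.Ess4_95 Crest.Agent.R096.Dfi_539 Crest.Agent.R096.Dfi_471
  Crest.Agent.R096.Cg_501 Crest.Agent.R096.SecW_892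

variable {E : Type} [NormedAddCommGroup E] [NormedSpace ℝ E] [FiniteDimensional ℝ E]
variable {Om : Set E} {ι : Type} {T : Tiling Om ι} {κ : Type} {S : Sla T κ}
  {h3 : finrank ℝ E = 3} {J C Mo : Type} {fam : J → C} [Nonempty (J ⊕ Mo)]
  {s : GSt (meshC T h3) (Sum.map fam (id : Mo → Mo))} {r : J ⊕ Mo → E} {Sf : J ⊕ Mo → Set E}
  {nb : κ → C ⊕ Mo → Prop}
  {v0 v1 : ∀ c, C ⊕ Mo → VxK T S.K c} {u : κ → C ⊕ Mo → E → ℝ} {A B : κ → C ⊕ Mo → ℝ}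
  {L : ∀ c, C ⊕ Mo → Lev T (frontier (S.K c)) (J ⊕ Mo)}
  {Tw : Twrs (S.sh h3) S.n (outK S.hH S.dis s r)} {l0 : E → J ⊕ Mo} {am : Mo → C}

/-- **the cut of the state with layers** (892's `cutAll`) -/
theorem exists_cutR [Countable C] [Nonempty C] (D : DIn S.hH s r Sf nb v0 v1 u A B)
    (lo : LevOut s nb u A B L) (tt : TwOut S h3 s r v0 v1 L Tw)
    (hs : BSep (s2 S h3 Tw l0) am) (hm : ∀ a, {m | am m = a}.Finite) (j0 : C → J)
    (hj0 : ∀ a, fam (j0 a) = a) (Act : C → Set (T.RIdx S.HH ⊕ κ))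
    (far : ∀ a, PN fam am a → Set E)
    (hg : ∀ a, (prS (s2 S h3 Tw l0) hs hm j0 hj0 a).Good (Act a) (far a))
    (hfin : ∀ F : C2 T, (s.P ∩ F.On).Finite) :
    ∃ (t : ∀ a, St (S.mn h3) (pcol fam am a)) (Ph : C → Finset E) (s₃ : GSt (S.mn h3) fam),
      CutR (s2 S h3 Tw l0) hs hm j0 hj0 Act far t Ph s₃ :=
  cutAll hg (fun a => pr_up h3 _ _ _ hs hm a _ (fun m _ => (h12 D _).1)
    fun w hw _ _ _ => s2_dim hw) (fin2 D lo tt hfin)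

end Crest.Agent.R096.Dff_539
end

-- ▼ part R096/Lbc1_334

/-!
# R096 (row 96), DOORS (helper334): LEAF BC for the machine

`box_m`, `bsep_m`, `pos_m`, `posM_m`, `two_m` : the barriers and sheets of `s2` with the numbers of
record (`NumD`) over 539's record `BRec`;
`good_all` : `Good` for all families;
`leafBC_m` : 662's `leafBC` for the machine: everything is discharged but `TrOut`, `VIn`, `Dich`.
-/

set_option autoImplicit false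
set_option linter.unusedSectionVars false
set_option linter.unusedVariables false
set_option linter.style.longLine false

open Set Topology Filter Metric Module Relation
open scoped Classical

namespace Crest.Agent.R096.Lbc_334

open Crest.Agent.R096.Msh_715 Crest.Agent.R096.Coh_184 Crest.Agent.R096.Lab_184
  Crest.Agent.R096.Main_4 Crest.Agent.R096.Agl5_543
  Crest.Agent.R096.Seq_213 Crest.Agent.R096.St_147 Crest.Agent.R096.Door_501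
  Crest.Agent.R096.Twr_438 Crest.Agent.R096.Exa_560
  Crest.Agent.R096.Ess3_95 Crest.Agent.R096.Ess4_95 Crest.Agent.R096.Ac_117 Crest.Agent.R096.Lm_117
  Crest.Agent.R096.Dfi_539 Crest.Agent.R096.Dfi_471 Crest.Agent.R096.Dfo_539
  Crest.Agent.R096.Sla_184 Crest.Agent.R096.Gm_298
  Crest.Agent.R096.Brk1_582 Crest.Agent.R096.Brk2_582 Crest.Agent.R096.Brk3_582
  Crest.Agent.R096.Brk5_582 Crest.Agent.R096.Bsp_628 Crest.Agent.R096.Init_543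
  Crest.Agent.R096.Lv3_471 Crest.Agent.R096.Lv4_471 Crest.Agent.R096.Slt_471
  Crest.Agent.R096.Dib_438 Crest.Agent.R096.Rop_441 Crest.Agent.R096.Frk_441
  Crest.Agent.R096.Dff_539 Crest.Agent.R096.Frs_662 Crest.Agent.R096.Qdl_662
  Crest.Agent.R096.Cg_501 Crest.Agent.R096.SecW_892 Crest.Agent.R096.Sgd_298
  Crest.Agent.R096.Dfg_539 Crest.Agent.R096.Nmd1_698 Crest.Agent.R096.Civ_662
open Crest.Agent.R096.Sgo_298 (RmA rout ActR)
open Crest.Agent.R096.Bse_344 (BoxP RadV)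
open Crest.Agent.R096.Mbf_337 (KJ Tiny Cores Fine sb gau)
open Crest.Agent.R096.SkC1_961 (E3 FoamD Hom3)
open Crest.Agent.R096.Frn_337 (Ti)
open Crest.Agent.R096.Ess7_95 (KT)
open Crest.Agent.R096.Dia_316 (nbT)
open Crest.Agent.R096.Bar_106 (Fs Fm Gm)
open Crest.Agent.R096.Bgf_4 (Ext)

variable {δ κ0 R c0 : ℝ} {La Om : Set E3} {ι : Type} {Φ : FoamD δ κ0 R c0 La} {T : Tiling Om ι}
  {f g : E3 → E3} {κ1 κ2 μ : ℝ} {X : Set Φ.F} {J0 J V : Φ.F → Set ι}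
  {ct ct' : Φ.F → ι} {Aj : Φ.F → E3 ≃ᵃ[ℝ] E3} {lam : Φ.F → ℝ} {z : Φ.F → E3}
  {θ : Φ.F → E3 → E3} {φ : Φ.F → E3 → ℝ} {r₀ : Φ.F → ℝ} {ρ1 ρ2 ρ3 ρ4 d : Φ.F → ℝ}
  {L : Φ.F → Finset ℝ} [Nonempty (JJ Φ L)] {hG : GF Φ r₀ T f L} {bp : JJ Φ L → E3}
  {Mo : Type} {co : Mo → Ti X} {am : Mo → Φ.F} {Zm : Mo → Set Φ.F} [Nonempty (JJ Φ L ⊕ Mo)]
  {sB : GSt (meshC T fr3) (Sum.map (fun j : JJ Φ L => j.1) (id : Mo → Mo))}
  {r : JJ Φ L ⊕ Mo → E3} {Sf : JJ Φ L ⊕ Mo → Set E3} {nb : Ti X → Φ.F ⊕ Mo → Prop}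
  {hLa : IsOpen La} {hC : Cores Φ T f κ1 κ2 X J0 J V ct Aj lam z θ φ}
  {n : Ti X → ℕ} {hn : ∀ c, 0 < n c}
  {v0 v1 : ∀ c, Φ.F ⊕ Mo → VxK T (slC hLa hC n hn).K c} {u : Ti X → Φ.F ⊕ Mo → E3 → ℝ}
  {A B : Ti X → Φ.F ⊕ Mo → ℝ}
  {Lx : ∀ c, Φ.F ⊕ Mo → Lev T (frontier ((slC hLa hC n hn).K c)) (JJ Φ L ⊕ Mo)}
  {Tw : Twrs ((slC hLa hC n hn).sh fr3) (slC hLa hC n hn).n
    (outK (slC hLa hC n hn).hH (slC hLa hC n hn).dis sB r)} {l0' : E3 → JJ Φ L ⊕ Mo}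

/-- 539's record with the numbers of record -/
abbrev BR (hLa : IsOpen La) (s : GSt (meshC T fr3)
      (Sum.map (fun j : JJ Φ L => j.1) (id : Mo → Mo))) (f : E3 → E3) (X : Set Φ.F)
    (J : Φ.F → Set ι) (θ : Φ.F → E3 → E3)
    (co : Mo → Ti X) (am : Mo → Φ.F) (Zm : Mo → Set Φ.F) (nb : Ti X → Φ.F ⊕ Mo → Prop)
    (v0 v1 : ∀ c, Φ.F ⊕ Mo → VxK T (KT T J X) c) (u : Ti X → Φ.F ⊕ Mo → E3 → ℝ)
    (A B : Ti X → Φ.F ⊕ Mo → ℝ) (μ κ1 : ℝ) : Prop :=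
  BRec hLa s f X J θ co am Zm nb v0 v1 u A B μ (Cn δ R * κ1) (μ / 8) (1 / 2)
    (1 / 2 - 5 * μ / 16) (1 + μ / 16) (5 * μ / 32) (3 * μ / 16)

section s2

variable (N : NumD δ κ0 R c0 κ2 μ κ1)
  (hRm : RmA Φ T f X J0 J V θ ρ1 ρ2 ρ3 ρ4 d)
  (D : DIn (slC hLa hC n hn).hH sB r Sf nb v0 v1 u A B)
  (lo : LevOut (Kc := (slC hLa hC n hn).K) sB nb u A B Lx)
  (tt : TwOut (slC hLa hC n hn) fr3 sB r v0 v1 Lx Tw)
  (rec : BR hLa sB f X J θ co am Zm nb v0 v1 u A B μ κ1)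
include N hRm D lo tt rec

/-- **the barrier points of `s2` are in their boxes** -/
theorem box_m (hga : ∀ w ∈ sB.P, ∀ m, sB.lab w = Sum.inr m →
      Ess5_95.ga Φ (co m).1 (f w) ≤ ρ3 (co m).1 + 15 * d (co m).1) (m : Mo)
    {w : E3} (hw : w ∈ (s2 (slC hLa hC n hn) fr3 Tw l0').P)
    (hwl : (s2 (slC hLa hC n hn) fr3 Tw l0').lab w = Sum.inr m)
    {p : T.RIdx (slC hLa hC n hn).HH} (hp : w ∈ P ((slC hLa hC n hn).T3.H p)) :
    ∃ x ∈ P (T.H p.tile), BoxP Φ f (co m).1 (am m) (Zm m) (rout ρ3 d (co m).1)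
      (3 * μ / 16 + Cn δ R * κ1) x := by
  have hb1 : (1 : ℝ) + μ / 16 ≤ 1 + μ / 16 := le_rfl
  refine Bse_344.box_s2 (co := fun m => (co m).1) (am := am) (Zm := Zm) (ρ := rout ρ3 d)
    (N := Nb Φ hLa (co m).1) (B := 3 * μ / 16) N.hδ N.hR N.cn1 D lo tt m (rec.mo m)
    (fun c h => by rw [(rec.nbm c m).1 h]) ?_ ?_ (fun e he => mem_Nb.2 he) ?_ ?_ ?_ le_rfl hw hwl hp
  · intro c _ x hx
    have hr := hRm c.1 c.2
    have h1 : gau c.1.1 (Φ.B c.1).lo (f x) ≤ ρ3 c.1 := (hr.fr x hx).2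
    show gau c.1.1 (Φ.B c.1).lo (f x) ≤ ρ3 c.1 + 16 * d c.1
    linarith [hr.d0]
  · intro w hw hl
    have hr := hRm (co m).1 (co m).2
    have h1 : gau (co m).1.1 (Φ.B (co m).1).lo (f w) ≤ ρ3 (co m).1 + 15 * d (co m).1 :=
      hga w hw m hl
    obtain ⟨h2, h3⟩ := rec.trm w hw m hl
    refine Bse_344.boxP_of_gm N.l0 ?_ h2 h3 (N.bx' hb1)
    show gau (co m).1.1 (Φ.B (co m).1).lo (f w) ≤ ρ3 (co m).1 + 16 * d (co m).1
    linarith [hr.d0]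
  · intro c h
    funext x
    rw [rec.um c m x, (rec.nbm c m).1 h]
  · intro c _
    rw [rec.Bm c m]
  · intro c h v hv
    by_contra hcon
    have hco := (rec.nbm c m).1 h
    obtain ⟨p', q', hM⟩ := rec.mo m
    rw [hco] at hM hcon
    have hN : ∀ e, (Pc Φ.F c.1 ∩ Pc Φ.F e).Nonempty → e ∈ Nb Φ hLa c.1 := fun e he => mem_Nb.2 he
    have hB0 : B c (Sum.inr m) = 3 * μ / 16 := rec.Bm c m
    refine not_rgn_bar (κ := Ti X) (cf := Subtype.val) (J := fun c => J c.1)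
      (J0 := fun c => J0 c.1) (V := fun c => V c.1) (θ := fun c => θ c.1)
      (φ := fun c => φ c.1) (k := c) (a := am m) (b' := Sum.inr m) (N := Nb Φ hLa c.1)
      (Z := Zm m) hLa N.hδ N.hR N.hκ N.cn1
      (fun c => hC.tiny c.1 c.2) lo (rec.um c m) hM (mem_N_p hM hN) (mem_N_m hM hN) ?_
      (D.v0_lt c (Sum.inr m) h) (D.v1_gt c (Sum.inr m) h) N.l0 N.ra0 (hi := 1 + μ / 16)
      (mm := 1 / 2) (by rw [hB0]; exact N.bB hb1) (by rw [hB0]; exact N.bB1) (N.m0 hb1)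
      (N.m1 hb1) ?_ (not_le.1 hcon).le (Sum.inr m) hv
    · rw [hB0]
      exact (Bar_543.fs_ge_c hLa hM hN (t := 3 * μ / 16) (by linarith [N.hμ])
        (by linarith [N.hμb])).1
    · intro w hw hl _
      refine rec.trm w hw m ?_
      rcases hl' : sB.lab w with j | m'
      · rw [hl'] at hl; cases hl
      · rw [hl'] at hl
        have : m' = m := Sum.inr.inj hl
        rw [this]

/-- **`PosM` of the barriers** -/
theorem posM_m (hga : ∀ w ∈ sB.P, ∀ m, sB.lab w = Sum.inr m →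
      Ess5_95.ga Φ (co m).1 (f w) ≤ ρ3 (co m).1 + 15 * d (co m).1) (m : Mo) :
    Hdr_334.PosM (hH := (Lay_316.lay_sla hLa hC n hn).core)
      (hdis := (Lay_316.lay_sla hLa hC n hn).disj) T f J0
      (fun p : T.RIdx (slC hLa hC n hn).HH => p.tile) (s2 (slC hLa hC n hn) fr3 Tw l0')
      (Sum.inr m) (am m) (3 * μ / 16 + Cn δ R * κ1) :=
  Bse_344.posM_s2 (co := fun m => (co m).1) (am := am) (Zm := Zm) (ρ := rout ρ3 d)
    fun w hw hwl p _ hp => box_m N hRm D lo tt rec hga m hw hwl hp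

/-- **`BSep`** -/
theorem bsep_m (hF : Fine Φ T f κ1 J0)
    (hga : ∀ w ∈ sB.P, ∀ m, sB.lab w = Sum.inr m →
      Ess5_95.ga Φ (co m).1 (f w) ≤ ρ3 (co m).1 + 15 * d (co m).1)
    (hinj : ∀ m m', co m = co m' → am m = am m' → Zm m = Zm m' → m = m') :
    BSep (s2 (slC hLa hC n hn) fr3 Tw l0') am := by
  refine Bse_344.bsep_s2 (co := fun m => (co m).1) (am := am) (Zm := Zm) (ρ := rout ρ3 d)
    (l := 3 * μ / 16 + Cn δ R * κ1) (fun _ _ h => h) hF ?_ N.bx (fun m => (co m).2) ?_ ?_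
    fun w hw m hwl p _ hp => box_m N hRm D lo tt rec hga m hw hwl hp
  · refine ⟨fun c hc i hi => ?_⟩
    obtain ⟨x, hx, h⟩ := hi
    exact (hRm c hc).v i ⟨x, hx, h.trans (hRm c hc).r34⟩
  · intro m
    obtain ⟨p, q, hM⟩ := rec.mo m
    exact hM.aZ
  · intro m m' h1 h2 h3
    exact hinj m m' (Subtype.ext h1) h2 h3

omit hRm in
/-- **(B) of the sheets of `s2`**, sharp margin -/
theorem pos_m (j : JJ Φ L) :
    Hdr_334.Pos (hH := (Lay_316.lay_sla hLa hC n hn).core)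
      (hdis := (Lay_316.lay_sla hLa hC n hn).disj)
      T f J0 (fun p : T.RIdx (slC hLa hC n hn).HH => p.tile) (s2 (slC hLa hC n hn) fr3 Tw l0')
      (Sum.inl j) j.1 (μ / 2 - Cn δ R * κ1) :=
  Hdr_334.pos_s2 N.hδ N.hR N.hκ N.hμ N.half N.cn3 D lo tt (fun c a h => (rec.nbl c a).1 h) rec.ul
    (fun c a => by rw [rec.Al c a]; exact N.wA) (fun c a => (rec.Bl c a).le) rec.v0l rec.v1l
    rec.trl j

omit D in
/-- **(E2) of `s2`** -/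
theorem two_m {hI : InitR Φ T f g J0 ct' r₀}
    {hM : Mesh0 T (Pc Φ.F) (bc (F := Φ.F)) (RF Φ r₀) f (KorJ Φ J0) κ1} {h1 : κ1 < μ / 32}
    {h2 : κ1 < 1} (k : QK (Pc Φ.F)) (c : Ti X) (hc : c.1 ∈ k.Z) (j j' : JJ Φ L) (hj : j.1 ∈ k.B)
    (hj' : j'.1 ∈ k.B) (hjj : j.1 ≠ j'.1) :
    SkB_662.Two (s2 (slC hLa hC n hn) fr3 Tw l0')
      ((qdT (fun p : T.RIdx (slC hLa hC n hn).HH => p.tile) (sla_sub (slC hLa hC n hn))
        (slC hLa hC n hn).KK hLa hI hM h1 h2).Act k) {Sum.inr c} (Sum.inl j) (Sum.inl j') :=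
  Hdr_334.two_s2 (re := fun c : Ti X => rout ρ3 d c.1) N.hδ N.hR N.hμ N.half N.hκ.le N.ex1 N.ex2
    lo tt (fun c a h3 h4 => (rec.nbl c a).2 ⟨h3, h4⟩) rec.ul
    (fun c a => by rw [rec.Al c a]; exact N.wA') (fun c a => (rec.Bl c a).le)
    (fun c x hx => by
      have hr := hRm c.1 c.2
      have h1 : gau c.1.1 (Φ.B c.1).lo (f x) ≤ ρ3 c.1 := (hr.fr x hx).2
      show gau c.1.1 (Φ.B c.1).lo (f x) ≤ ρ3 c.1 + 16 * d c.1
      linarith [hr.d0])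
    (fun c i ⟨x, hx, h⟩ => (hRm c.1 c.2).v i ⟨x, hx, h.trans (hRm c.1 c.2).r34⟩)
    k c hc j j' hj hj' hjj

end s2

/-- **the points near the tiny cores are in the zones** -/
theorem hU_m (hC : Cores Φ T f κ1 κ2 X J0 J V ct Aj lam z θ φ)
    (hRm : RmA Φ T f X J0 J V θ ρ1 ρ2 ρ3 ρ4 d) (S : Sla T (Ti X)) {UT : Set E3}
    (hUT : ∀ w ∈ UT, ∃ (c : Ti X) (i : ι), w ∈ P (T.H i) ∧
      ∃ x ∈ P (T.H i), Ess5_95.ga Φ c.1 (f x) ≤ ρ3 c.1 + 15 * d c.1)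
    (p : T.RIdx S.HH) (hpZ : ∀ c, p.tile ∉ Hdr_334.Zr T f (fun c : Ti X => rout ρ3 d c.1) c)
    (x : E3) (hx : x ∈ P (S.T3.H p)) : x ∉ UT := by
  intro hxU
  obtain ⟨c, i, hxi, y, hy, hg⟩ := hUT x hxU
  have hr := hRm c.1 c.2
  have hiV : i ∈ V c.1 := hr.v i ⟨y, hy, by linarith [hr.r34, hr.d0]⟩
  have hxt : x ∈ P (T.H p.tile) := Sla.P3_sub p hx
  refine hpZ c ⟨x, hxt, ?_⟩
  have key : Ess5_95.ga Φ c.1 (f x) ≤ ρ3 c.1 + 16 * d c.1 := by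
    by_cases h0 : i ∈ J0 c.1
    · have := hr.j0 x (mem_biUnion (x := i) h0 hxi)
      linarith [hr.r12, hr.r23, hr.d0]
    · have := (abs_le.1 (hr.osc i hiV h0 x hxi y hy).1).2
      linarith
  exact key

/-- **LEAF BC FOR THE MACHINE** : the state after CUT with its invariant; open: `TrOut`, `VIn`,
`Dich` (hypothesis `H`) -/
theorem leafBC_m [Nonempty (slC hLa hC n hn).T3.Cell] (N : NumD δ κ0 R c0 κ2 μ κ1)
    (hF : Fine Φ T f κ1 J0) (hRm : RmA Φ T f X J0 J V θ ρ1 ρ2 ρ3 ρ4 d)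
    {hI : InitR Φ T f g J0 ct' r₀}
    {hM : Mesh0 T (Pc Φ.F) (bc (F := Φ.F)) (RF Φ r₀) f (KorJ Φ J0) κ1} {h1 : κ1 < μ / 32}
    {h2 : κ1 < 1}
    (hnC : ∃ c, OutK (slC hLa hC n hn).T3 (slC hLa hC n hn).KK c)
    (hLn : ∀ a, (L a).Nonempty) (hLm : ∀ c, ∀ t ∈ L c, μ ≤ t ∧ t ≤ 1 - μ)
    (hext : Ext (st0 hG bp) sB)
    (D : DIn (slC hLa hC n hn).hH sB r Sf nb v0 v1 u A B)
    (lo : LevOut (Kc := (slC hLa hC n hn).K) sB nb u A B Lx)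
    (tt : TwOut (slC hLa hC n hn) fr3 sB r v0 v1 Lx Tw)
    (mon : Mon (slC hLa hC n hn) fr3 Lx Tw)
    (rec : BR hLa sB f X J θ co am Zm nb v0 v1 u A B μ κ1)
    (hga : ∀ w ∈ sB.P, ∀ m, sB.lab w = Sum.inr m →
      Ess5_95.ga Φ (co m).1 (f w) ≤ ρ3 (co m).1 + 15 * d (co m).1)
    (hinj : ∀ m m', co m = co m' → am m = am m' → Zm m = Zm m' → m = m')
    (hmf : ∀ a, {m | am m = a}.Finite)
    (hrV : ∀ j : JJ Φ L, ∃ q, r (Sum.inl j) ∈ P (T.H q) ∧ ∀ c ∉ X, q ∉ V c)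
    (hfin : ∀ F : C2 T, (sB.P ∩ F.On).Finite)
    (j0 : Φ.F → JJ Φ L) (hj0 : ∀ a, (j0 a).1 = a) {UT : Set E3}
    (hUT : ∀ w ∈ UT, ∃ (c : Ti X) (i : ι), w ∈ P (T.H i) ∧
      ∃ x ∈ P (T.H i), Ess5_95.ga Φ c.1 (f x) ≤ ρ3 c.1 + 15 * d c.1)
    {sd : Mo → E3 → Prop}
    (H : ∀ (hs : BSep (s2 (slC hLa hC n hn) fr3 Tw l0') am)
      (far : ∀ a, PN (fun j : JJ Φ L => j.1) am a → Set E3)
      (t : ∀ a, St ((slC hLa hC n hn).mn fr3) (pcol (fun j : JJ Φ L => j.1) am a))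
      (Ph : Φ.F → Finset E3) (s₃ : GSt ((slC hLa hC n hn).mn fr3) (fun j : JJ Φ L => j.1)),
      (∀ a, (prS (s2 (slC hLa hC n hn) fr3 Tw l0') hs hmf j0 hj0 a).Good
        (ActR (slC hLa hC n hn) (Rdc T f Xᶜ (rout ρ3 d))) (far a)) →
      (∀ a, ∀ i : PN (fun j : JJ Φ L => j.1) am a, ∀ j, i.1 = Sum.inl j →
        r (Sum.inl j) ∈ far a i) →
      (∀ a i F w, w ∈ far a i →
        (prS (s2 (slC hLa hC n hn) fr3 Tw l0') hs hmf j0 hj0 a).At F w →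
        OKp (prS (s2 (slC hLa hC n hn) fr3 Tw l0') hs hmf j0 hj0 a)
          (ActR (slC hLa hC n hn) (Rdc T f Xᶜ (rout ρ3 d))) F w →
          (s2 (slC hLa hC n hn) fr3 Tw l0').mu F w ∈ far a i) →
      CutR (s2 (slC hLa hC n hn) fr3 Tw l0') hs hmf j0 hj0
        (fun _ => ActR (slC hLa hC n hn) (Rdc T f Xᶜ (rout ρ3 d))) far t Ph s₃ →
      PosS (hH := (Lay_316.lay_sla hLa hC n hn).core) Φ T f (μ / 4) J0 (slC hLa hC n hn) s₃ →
      TrOut (hH := (Lay_316.lay_sla hLa hC n hn).core) (hdis := Sla.dis_KK)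
        (qdT (fun p : T.RIdx (slC hLa hC n hn).HH => p.tile) (sla_sub (slC hLa hC n hn))
          (slC hLa hC n hn).KK hLa hI hM h1 h2) s₃ (fun j => r (Sum.inl j)) UT ∧
      VIn (hH := (Lay_316.lay_sla hLa hC n hn).core) (hdis := Sla.dis_KK)
        (qdT (fun p : T.RIdx (slC hLa hC n hn).HH => p.tile) (sla_sub (slC hLa hC n hn))
          (slC hLa hC n hn).KK hLa hI hM h1 h2) s₃ (fun j => r (Sum.inl j)) am sd ∧
      Dich (hH := (Lay_316.lay_sla hLa hC n hn).core) (hdis := Sla.dis_KK)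
        (qdT (fun p : T.RIdx (slC hLa hC n hn).HH => p.tile) (sla_sub (slC hLa hC n hn))
          (slC hLa hC n hn).KK hLa hI hM h1 h2) s₃ UT am sd) :
    ∃ (s₃ : GSt ((slC hLa hC n hn).mn fr3) (fun j : JJ Φ L => j.1)) (far₃ : JJ Φ L → Set E3),
      CutOut (s2 (slC hLa hC n hn) fr3 Tw l0') am
        (fun _ => ActR (slC hLa hC n hn) (Rdc T f Xᶜ (rout ρ3 d))) s₃ ∧
      s₃.Inv (qdT (fun p : T.RIdx (slC hLa hC n hn).HH => p.tile) (sla_sub (slC hLa hC n hn))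
        (slC hLa hC n hn).KK hLa hI hM h1 h2) far₃ ∧
      PosS (hH := (Lay_316.lay_sla hLa hC n hn).core) Φ T f (μ / 4) J0 (slC hLa hC n hn) s₃ ∧
      (∀ (c : Ti X) (j : JJ Φ L),
        SkB_662.One s₃ {F | Sum.inr c ∈ ((slC hLa hC n hn).mn fr3).side F} j) ∧
      ∀ (k : Init_543.QK (Pc Φ.F)) (c : Ti X), c.1 ∈ k.Z → ∀ j j' : JJ Φ L, j.1 ∈ k.B →
        j'.1 ∈ k.B → j.1 ≠ j'.1 →
        SkB_662.Two s₃ ((qdT (fun p : T.RIdx (slC hLa hC n hn).HH => p.tile)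
          (sla_sub (slC hLa hC n hn)) (slC hLa hC n hn).KK hLa hI hM h1 h2).Act k)
          {Sum.inr c} j j' := by
  have hcF : Countable Φ.F := Φ.bf.countable.to_subtype
  have hnF : Nonempty Φ.F := ⟨(Classical.arbitrary (JJ Φ L)).1⟩
  obtain ⟨n1, n2, n3, n4, n5, -⟩ := N.base
  have hs : BSep (s2 (slC hLa hC n hn) fr3 Tw l0') am := bsep_m N hRm D lo tt rec hF hga hinj
  have hgood := Sgo_298.good_m (hG := hG) (bp := bp) (co := co) (l0 := l0') hnC N.hδ N.hR hI hM h1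
    h2 hRm hLn (fun c t ht => ⟨by linarith [(hLm c t ht).1], by linarith [(hLm c t ht).2]⟩)
    (Sgo_298.part_ext hext) D lo tt rec.nbm rec.nbl hrV hga (s' := μ / 2 - Cn δ R * κ1)
    (lm := 3 * μ / 16 + Cn δ R * κ1) (by linarith) (by linarith)
    (fun j => pos_m N D lo tt rec j) (fun m => posM_m N hRm D lo tt rec hga m)
    (fun k c hc j j' hj hj' hjj => two_m N hRm lo tt rec k c hc j j' hj hj' hjj) hs hmf j0 hj0
  obtain ⟨far0, g1, g2, g3⟩ := hgood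
  refine leafBC (S := slC hLa hC n hn) (Rt := Rdc T f Xᶜ (rout ρ3 d)) (s' := μ / 4) (sd := sd)
    (Lay_316.lay_sla hLa hC n hn).core hnC (by linarith) N.ss' hLn lo tt
    (fun c a h => (rec.nbl c a).1 h) hs hmf j0 hj0 (fun a => ⟨far0 a, g1 a, ?_, g3 a⟩)
    (fun _ _ _ => True) ?_
    (Sgo_298.zon_out hC hRm (slC hLa hC n hn) fun _ => rfl)
    (fun p _ hpZ x hx => hU_m hC hRm (slC hLa hC n hn) hUT p hpZ x hx) ?_ ?_ ?_
  · rintro ⟨i, hi⟩ j hij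
    have hij' : i = Sum.inl j := hij
    subst hij'
    have hja : j.1 = a := hi
    subst hja
    exact g2 j
  · intro far hgf
    obtain ⟨t, Ph, s₃, hcut⟩ := exists_cutR (S := slC hLa hC n hn) (l0 := l0') D lo tt hs hmf j0 hj0
      (fun _ => ActR (slC hLa hC n hn) (Rdc T f Xᶜ (rout ρ3 d))) far hgf hfin
    exact ⟨t, Ph, s₃, hcut, fun _ => trivial⟩
  · intro s₃ D3
    exact posB_S3 (σ₁ := 9 * μ / 32) hLa N.hδ N.hR N.hκ N.hμ N.half hC n hn D lo tt mon rec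
      (by linarith) (by linarith) N.cn3 N.sg1 N.ne.1
      (by have := N.rh (hi := 1 + μ / 16) le_rfl; linarith)
      (by have := N.rh (hi := 1 + μ / 16) le_rfl; linarith) (by linarith) N.l0 N.ra0
      (by linarith) (N.bB le_rfl) N.bv1 D3 fun _ _ => Sgo_298.inr_ActR
  · intro s₃ D3
    refine fun k c hc j j' hj hj' hjj => D3.two ?_ (two_m N hRm lo tt rec k c hc j j' hj hj' hjj)
    rintro F ⟨q, hq, hqc⟩
    have e : q = Sum.inr c := hqc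
    subst e
    exact ⟨⟨_, hq, Sgo_298.inr_ActR⟩, ⟨_, hq, Sgo_298.inr_ActR⟩⟩
  · intro far t Ph s₃ k1 k2 k3 k4 _ k6
    exact H hs far t Ph s₃ k1 k2 k3 k4 k6

end Crest.Agent.R096.Lbc_334
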