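import Crest.Agent.R096.Twr3_438
import Crest.Agent.R096.Qp5_106
import Crest.Agent.R096.Door8_501

-- ▼ part R096/Twr4_438
section

/-!
# Row 96, DOORS-TOWER, part 4 (helper438): minimal discs and the death move
-/

set_option autoImplicit false

namespace Crest.Agent.R096.Twr_438

open Crest.Agent.R096.St_147 Crest.Agent.R096.Door_501 Crest.Agent.R096.Qp_106 Classical

variable {ι Φ W : Type} {M : MeshC ι Φ W} {k : ι} {Vx Ed : Type} {S : Shell M k Vx Ed}
variable {I : Type} {col : I → Bool}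

theorem zz_cases : ∀ a : ZMod 2, a = 0 ∨ a = 1 := by decide

/-- number of points inside the component of `w` -/
noncomputable def nIn (S : Shell M k Vx Ed) (v0 : Vx) (s : St M col) (w : W) : ℕ :=
  (s.P.filter fun x => x ∉ comp k s w ∧ sd S v0 (comp k s w) x = 1).card

/-- a curve inside a confined curve is confined, and contains fewer points -/
theorem inner_lt [Fintype Ed] (hS : S.Sph) (hC : S.Circ) (hCon : S.Con) {v0 v1 : Vx}
    (hv0 : ∃ e b, S.en e b = v0) (hv1 : ∃ e b, S.en e b = v1) {s : St M col}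
    (hcol : ∀ i j : I, col i = col j) (hs : ∀ w ∈ s.P, ∃ e, w ∈ S.OnE e) {w x : W}
    (hw : w ∈ s.P) (hwc : lbl S v0 (comp k s w) v1 = 0) (hx : x ∈ s.P) (hxw : x ∉ comp k s w)
    (hin : sd S v0 (comp k s w) x = 1) :
    lbl S v0 (comp k s x) v1 = 0 ∧ nIn S v0 s x < nIn S v0 s w := by
  have hd := comp_disj hx hxw
  obtain ⟨q, hq⟩ := sd_const hS hC v0 (cc S s hs x) (cc S s hs w) (cn_cc hs x) hd
    (nlc_cc hcol hs hd)
  obtain ⟨p, hp⟩ := sd_const hS hC v0 (cc S s hs w) (cc S s hs x) (cn_cc hs w) hd.symm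
    (nlc_cc hcol hs hd.symm)
  have hq1 : q = 1 := by rw [← hq x (self_mem hx)]; exact hin
  have hq' : ∀ y ∈ (cc S s hs x).C, sd S v0 (cc S s hs w).C y = 1 := fun y hy => by
    rw [hq y hy, hq1]
  have hp0 : p = 0 := by
    rcases zz_cases p with h | h
    · exact h
    · exfalso
      exact sd_not_both hS hCon hv0 (cc S s hs w) (cc S s hs x) hd.symm ⟨w, self_mem hw⟩
        (fun y hy => by rw [hp y hy, h]) hq'
  obtain ⟨r1, r2⟩ := sd_rule hS hCon hv0 (cc S s hs w) (cc S s hs x) hd.symm hp hq'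
  rw [hp0] at r1 r2
  constructor
  · have h1 := r2 v1 hv1
    change lbl S v0 (comp k s w) v1 * lbl S v0 (comp k s x) v1 =
      0 * lbl S v0 (comp k s w) v1 + 1 * lbl S v0 (comp k s x) v1 at h1
    rw [hwc] at h1
    have z : ∀ b : ZMod 2, 0 * b = 0 * 0 + 1 * b → b = 0 := by decide
    exact z _ h1
  · unfold nIn
    refine Finset.card_lt_card ((Finset.ssubset_iff_of_subset ?_).2 ⟨x, ?_, ?_⟩)
    · intro y hy
      obtain ⟨h1, h2, h3⟩ := Finset.mem_filter.1 hy
      refine Finset.mem_filter.2 ⟨h1, ?_, ?_⟩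
      · intro h4
        have h5 := hp y h4
        change sd S v0 (comp k s x) y = p at h5
        rw [h3, hp0] at h5
        exact absurd h5 (by decide)
      · have h5 := r1 y
        change sd S v0 (comp k s w) y * sd S v0 (comp k s x) y =
          0 * sd S v0 (comp k s w) y + 1 * sd S v0 (comp k s x) y at h5
        rw [h3] at h5
        have z : ∀ a : ZMod 2, a * 1 = 0 * a + 1 * 1 → a = 1 := by decide
        exact z _ h5
    · exact Finset.mem_filter.2 ⟨hx, hxw, hin⟩
    · intro h1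
      exact (Finset.mem_filter.1 h1).2.1 (self_mem hx)

/-- if there is a confined curve, there is one with nothing inside -/
theorem exists_min [Fintype Ed] (hS : S.Sph) (hC : S.Circ) (hCon : S.Con) {v0 v1 : Vx}
    (hv0 : ∃ e b, S.en e b = v0) (hv1 : ∃ e b, S.en e b = v1) {s : St M col}
    (hcol : ∀ i j : I, col i = col j) (hs : ∀ w ∈ s.P, ∃ e, w ∈ S.OnE e)
    (hex : ∃ w ∈ s.P, lbl S v0 (comp k s w) v1 = 0) :
    ∃ w ∈ s.P, lbl S v0 (comp k s w) v1 = 0 ∧
      ∀ x ∈ s.P, x ∉ comp k s w → sd S v0 (comp k s w) x = 0 := by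
  obtain ⟨w0, hw0, hc0⟩ := hex
  obtain ⟨w, hw, hmin⟩ := (s.P.filter fun w => lbl S v0 (comp k s w) v1 = 0).exists_min_image
    (nIn S v0 s) ⟨w0, Finset.mem_filter.2 ⟨hw0, hc0⟩⟩
  obtain ⟨hwP, hwc⟩ := Finset.mem_filter.1 hw
  refine ⟨w, hwP, hwc, fun x hx hxw => ?_⟩
  rcases zz_cases (sd S v0 (comp k s w) x) with h | h
  · exact h
  · exfalso
    obtain ⟨h1, h2⟩ := inner_lt hS hC hCon hv0 hv1 hcol hs hwP hwc hx hxw h
    exact absurd (hmin x (Finset.mem_filter.2 ⟨hx, h1⟩)) (not_le.2 h2)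

theorem par_empty (e : Ed) : S.par (∅ : Finset W) e = 0 := by
  unfold Shell.par
  simp

theorem bel_empty (e : Ed) (x : W) : S.bel (∅ : Finset W) e x = 0 := by
  unfold Shell.bel
  simp

/-- **death** of a component with nothing inside -/
noncomputable def death [Fintype Ed] (hS : S.Sph) (v0 : Vx) {s : St M col}
    (hs : ∀ w ∈ s.P, ∃ e, w ∈ S.OnE e) {w : W} (hw : w ∈ s.P)
    (hmin : ∀ x ∈ s.P, x ∉ comp k s w → sd S v0 (comp k s w) x = 0) : MvD S s where
  i0 := s.lab w
  C := comp k s w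
  D := ∅
  nuD := fun _ x => x
  q := lbl S v0 (comp k s w)
  C_P := fun h => (mem_comp.1 h).1
  C_lab := fun h => (mem_comp.1 h).2.lab
  C_on := fun h => hs _ (mem_comp.1 h).1
  C_mu := fun hF h hwF => comp_mu hF h hwF
  C_conn := conn_comp
  C_ne := ⟨w, self_mem hw⟩
  D_new := fun h => absurd h (Finset.notMem_empty _)
  D_on := fun h => absurd h (Finset.notMem_empty _)
  D_mem := fun _ h => absurd h (Finset.notMem_empty _)
  D_ne := fun _ h => absurd h (Finset.notMem_empty _)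
  D_inv := fun _ h => absurd h (Finset.notMem_empty _)
  D_nc := fun _ h => absurd h (Finset.notMem_empty _)
  D_old := fun _ h => absurd h (Finset.notMem_empty _)
  q_edge := fun e => by
    rw [par_empty, add_zero]
    exact (lbl_spec hS (cc S s hs w) v0).1 e
  free := by
    intro e x hxe hx hxC _
    rw [bel_empty, add_zero, ← sd_eq v0 _ hxe]
    exact hmin x hx hxC

/-- restriction of a state to a closed set of points -/
noncomputable def restr (s : St M col) (A : Finset W) (hA : A ⊆ s.P)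
    (hmu : ∀ {F w}, w ∈ A → w ∈ M.On F → s.mu F w ∈ A) : St M col where
  P := A
  lab := s.lab
  mu := s.mu
  mu_mem := fun h hF => ⟨hmu h hF, (s.mu_mem (hA h) hF).2⟩
  mu_ne := fun h hF => s.mu_ne (hA h) hF
  mu_mu := fun h hF => s.mu_mu (hA h) hF
  mu_lab := fun h hF => s.mu_lab (hA h) hF
  nc := fun h hF h' hF' hc h1 h2 => s.nc (hA h) hF (hA h') hF' hc h1 h2

/-- two states with the same points, names and partners -/
theorem st_ext {s t : St M col} (h1 : s.P = t.P) (h2 : s.lab = t.lab) (h3 : s.mu = t.mu) :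
    s = t := by
  cases s; cases t
  simp only at h1 h2 h3
  subst h1; subst h2; subst h3
  rfl

end Crest.Agent.R096.Twr_438
end

-- ▼ part R096/Qp6_106
section

/-!
# Row 96, DOORS (helper106), part 6: (QC) for the moves `MvD.move`, and the sphere shell.
-/

set_option autoImplicit false

namespace Crest.Agent.R096.Door_501

open Crest.Agent.R096.St_147 Crest.Agent.R096.Qp_106 Classical

variable {ι Φ W : Type} {M : MeshC ι Φ W} {k : ι} {Vx Ed : Type} {I : Type} {col : I → Bool}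

namespace Shell

variable (S : Shell M k Vx Ed)

theorem sphSh_EF [Fintype Ed] (G : S.Fk) : S.sphSh.EF G = S.EF G.1 := by
  ext e
  rw [mem_EF, mem_EF]
  constructor
  · rintro ⟨b, hb⟩
    exact ⟨b, congrArg Subtype.val hb⟩
  · rintro ⟨b, hb⟩
    exact ⟨b, Subtype.ext hb⟩

theorem sphSh_fc {e : Ed} {G : S.Fk} : (∃ b, S.sphSh.fc e b = G) ↔ ∃ b, S.fc e b = G.1 := by
  constructor
  · rintro ⟨b, hb⟩
    exact ⟨b, congrArg Subtype.val hb⟩
  · rintro ⟨b, hb⟩
    exact ⟨b, Subtype.ext hb⟩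

theorem sphSh_Sph [Fintype Ed] (h : S.Sph) : S.sphSh.Sph := by
  intro c hc
  refine h c fun F hF => ?_
  have h1 := hc ⟨F, hF⟩ (mem_bool_side _)
  rwa [S.sphSh_EF] at h1

theorem sphSh_Con (h : S.Con) : S.sphSh.Con := h

theorem sphSh_Circ (h : S.Circ) : S.sphSh.Circ where
  circ := by
    rintro ⟨F, hF⟩ _
    obtain ⟨pv, h1, h2⟩ := h.circ F hF
    exact ⟨pv, fun e he => h1 e (S.sphSh_fc.1 he), fun e he => h2 e (S.sphSh_fc.1 he)⟩
  vconn := by
    rintro ⟨F, hF⟩ _ X hX e he b hb e' he' b'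
    exact h.vconn F hF X (fun e he => hX e (S.sphSh_fc.2 he)) e (S.sphSh_fc.1 he) b hb e'
      (S.sphSh_fc.1 he') b'

end Shell

namespace MvD

variable {S : Shell M k Vx Ed} {s : St M col} (d : MvD S s) [Fintype Ed]

theorem pt_C {w : W} (h : w ∈ d.C) : d.move.pt w = S.top w := d.move.pt_top (d.C_P h)

theorem pt_D {w : W} (h : w ∈ d.D) : d.move.pt w = S.bot w := d.move.pt_bot (d.D_new h)

theorem mem_qon_C {e : Ed} {w : W} (h : w ∈ d.C) (he : w ∈ S.OnE e) :
    S.top w ∈ d.move.qon e := by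
  rw [← d.pt_C h]
  exact d.move.pt_mem_qon.2 ⟨d.mem_Dp.2 (Or.inl h), he⟩

/-- a closed set containing `C`: the vertices outside have the points of `D` outside as boundary -/
theorem qc_aux (X : Set S.Pnt)
    (hX : ∀ F x, S.Lay F → x ∈ d.move.qe → x ∈ S.On F → x ∈ X → d.move.mu' d.par F x ∈ X)
    (htop : ∀ w ∈ d.C, S.top w ∈ X) (e : Ed) :
    d.move.vq (fun x => if x ∈ X then 0 else 1) (S.en e false) +
      d.move.vq (fun x => if x ∈ X then 0 else 1) (S.en e true) =
        ∑ w ∈ d.D.filter (fun w => w ∈ S.OnE e), if S.bot w ∈ X then (0 : ZMod 2) else 1 := by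
  have hpr : ∀ x ∈ d.move.qon e, x ∈ X → d.move.pr d.par e x ∈ X := by
    intro x hx hxX
    obtain ⟨h1, h2⟩ := d.move.mem_qon.1 hx
    have h3 := hX (Sum.inr (Sum.inr e)) x (S.lay_vert e) h1 h2 hxX
    rwa [d.move.mu'_vert_qe d.par h1] at h3
  have h1 := d.move.pair_total d.par e (fun x => if x ∈ X then (0 : ZMod 2) else 1) (by
    intro x hx
    refine if_congr ?_ rfl rfl
    obtain ⟨g1, g2, g3, _⟩ := d.move.pr_spec d.par e x hx
    constructor
    · intro h
      have := hpr _ g1 h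
      rwa [g3] at this
    · exact hpr x hx)
  rw [d.move.sum_qon e (fun x => if x ∈ X then (0 : ZMod 2) else 1)] at h1
  have h2 : ∑ w ∈ d.move.Dp.filter (fun w => w ∈ S.OnE e),
      (if d.move.pt w ∈ X then (0 : ZMod 2) else 1) =
      ∑ w ∈ d.D.filter (fun w => w ∈ S.OnE e), if S.bot w ∈ X then (0 : ZMod 2) else 1 := by
    rw [d.Dp_eq, Finset.filter_union, Finset.sum_union (Finset.disjoint_filter_filter d.disj)]
    have h3 : ∑ w ∈ d.C.filter (fun w => w ∈ S.OnE e),
        (if d.move.pt w ∈ X then (0 : ZMod 2) else 1) = 0 := by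
      refine Finset.sum_eq_zero fun w hw => ?_
      have hw1 := (Finset.mem_filter.1 hw).1
      rw [d.pt_C hw1, if_pos (htop w hw1)]
    rw [h3, zero_add]
    refine Finset.sum_congr rfl fun w hw => ?_
    rw [d.pt_D (Finset.mem_filter.1 hw).1]
  rw [h2] at h1
  exact (zz_eq _ _ h1).symm

/-- all points of `D` in `X` ⟹ everything in `X` -/
theorem qc_of_D (hCon : S.Con) (X : Set S.Pnt)
    (hX : ∀ F x, S.Lay F → x ∈ d.move.qe → x ∈ S.On F → x ∈ X → d.move.mu' d.par F x ∈ X)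
    (htop : ∀ w ∈ d.C, S.top w ∈ X) (hbot : ∀ w ∈ d.D, S.bot w ∈ X) :
    ∀ x ∈ d.move.qe, x ∈ X := by
  have h1 : ∀ e, d.move.vq (fun x => if x ∈ X then 0 else 1) (S.en e false) +
      d.move.vq (fun x => if x ∈ X then 0 else 1) (S.en e true) = 0 := by
    intro e
    rw [d.qc_aux X hX htop e]
    refine Finset.sum_eq_zero fun w hw => ?_
    rw [if_pos (hbot w (Finset.mem_filter.1 hw).1)]
  have h2 : ∀ e b, S.en e b ∈ d.move.Qv → S.vert (S.en e b) ∈ X := by
    intro e b hb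
    by_contra hno
    have h3 := hCon {v | d.move.vq (fun x => if x ∈ X then (0 : ZMod 2) else 1) v = 1} (by
      intro e
      show _ = _ ↔ _ = _
      have y : ∀ p q : ZMod 2, p + q = 0 → (p = 1 ↔ q = 1) := by decide
      exact y _ _ (h1 e)) e b
    have h4 : d.move.vq (fun x => if x ∈ X then (0 : ZMod 2) else 1) (S.en e b) = 1 := by
      unfold Move.vq
      rw [if_pos hb]
      show (if S.vert (S.en e b) ∈ X then (0 : ZMod 2) else 1) = 1
      rw [if_neg hno]
    obtain ⟨w, hw⟩ := d.C_ne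
    obtain ⟨e', he'⟩ := d.C_on hw
    have h5 : d.move.vq (fun x => if x ∈ X then (0 : ZMod 2) else 1) (S.en e' false) = 1 :=
      h3 e' false h4
    have h6 : S.en e' false ∈ d.move.Qv ∧ S.vert (S.en e' false) ∉ X := by
      unfold Move.vq at h5
      split_ifs at h5 with h7
      · refine ⟨h7, fun h8 => ?_⟩
        have h9 : (if S.vert (S.en e' false) ∈ X then (0 : ZMod 2) else 1) = 1 := h5
        rw [if_pos h8] at h9
        exact zero_ne_one h9
      · exact (zero_ne_one h5).elim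
    have h7 : S.vert (S.en e' false) ∈ d.move.qon e' :=
      d.move.vert_mem_qon.2 ⟨h6.1, false, rfl⟩
    obtain ⟨g1, g2, g3, g4, _⟩ := d.move.pr_spec d.par e' _ h7
    obtain ⟨g5, g6⟩ := d.move.mem_qon.1 g1
    have h8 : S.tau e' (S.vert (S.en e' false)) = -1 / 2 := by simp [Shell.tau]
    have h9 := d.mem_qon_C hw he'
    have h10 := (g4 _ h9).1
    have h11 : S.tau e' (S.top w) = S.t w := rfl
    rw [h8, h11] at h10
    have h12 := S.t_pos he'
    have h13 := S.t_lt he'
    have h14 : S.tau e' (d.move.pr d.par e' (S.vert (S.en e' false))) ≤ S.t w := by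
      by_contra hcon
      exact h10 ⟨by linarith, not_le.1 hcon⟩
    have h15 : d.move.pr d.par e' (S.vert (S.en e' false)) ∈ X := by
      rcases d.move.qe_cases g5 with ⟨u, hu, hu2⟩ | ⟨v, hv, hv2⟩
      · rw [hu2]
        rcases d.mem_Dp.1 hu with h | h
        · rw [d.pt_C h]; exact htop u h
        · rw [d.pt_D h]; exact hbot u h
      · exfalso
        rw [hv2] at g6 g2 h14
        obtain ⟨b', hb'⟩ := S.vert_mem_vert.1 g6
        cases b'
        · exact g2 (by rw [hb'])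
        · rw [← hb'] at h14
          have h16 : S.tau e' (S.vert (S.en e' true)) = 3 / 2 := by
            simp [Shell.tau, (S.en_ne e').symm]
          rw [h16] at h14
          linarith
    have h16 := hX (Sum.inr (Sum.inr e')) _ (S.lay_vert e') g5 g6 h15
    rw [d.move.mu'_vert_qe d.par g5, g3] at h16
    exact h6.2 h16
  intro x hx
  rcases d.move.qe_cases hx with ⟨w, hw, rfl⟩ | ⟨v, hv, rfl⟩
  · rcases d.mem_Dp.1 hw with h | h
    · rw [d.pt_C h]; exact htop w h
    · rw [d.pt_D h]; exact hbot w h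
  · obtain ⟨_, e, b, rfl⟩ := S.mem_vset.1 hv
    exact h2 e b hv

/-- **(QC), death of a curve** -/
theorem qc_death (hCon : S.Con) (hD : d.D = ∅) : d.move.QC d.par := by
  intro X hX htop
  refine d.qc_of_D hCon X hX (fun w hw => htop w (d.top_qe.2 hw)) ?_
  rw [hD]
  exact fun w hw => (Finset.notMem_empty w hw).elim

/-- **(QC), slide**: `D` is connected, and two vertices outside the region are separated by `C`. -/
theorem qc_slide (hCon : S.Con)
    (hD : ∀ X : Set W, (∀ F w, k ∈ M.side F → w ∈ M.On F → w ∈ d.D → w ∈ X → d.nuD F w ∈ X) →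
      ∀ w ∈ X, w ∈ d.D → ∀ w' ∈ d.D, w' ∈ X)
    (a : Vx → ZMod 2) (ha : ∀ e, a (S.en e false) + a (S.en e true) = S.par d.C e)
    {e e' : Ed} {b b' : Bool} (h1 : d.q (S.en e b) = 0) (h2 : d.q (S.en e' b') = 0)
    (hne : a (S.en e b) ≠ a (S.en e' b')) : d.move.QC d.par := by
  intro X hX htop
  have htop' : ∀ w ∈ d.C, S.top w ∈ X := fun w hw => htop w (d.top_qe.2 hw)
  by_cases hall : ∀ w ∈ d.D, S.bot w ∈ X
  · exact d.qc_of_D hCon X hX htop' hall
  exfalso
  push Not at hall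
  obtain ⟨w0, hw0, hw0X⟩ := hall
  have h3 : ∀ w ∈ d.D, S.bot w ∉ X := by
    intro w hw
    refine hD {w | S.bot w ∉ X} (fun F u g1 g2 g3 g4 => ?_) w0 hw0X hw0 w hw
    intro h5
    apply g4
    obtain ⟨g5, g6⟩ := d.D_mem g1 g3 g2
    have h6 := hX (Sum.inr (Sum.inl ⟨F, g1⟩)) (S.bot (d.nuD F u)) (S.lay_bot _)
      (d.bot_qe.2 g5) (S.bot_mem_On.2 g6) h5
    have h7 : d.move.mu' d.par (Sum.inr (Sum.inl ⟨F, g1⟩)) (S.bot (d.nuD F u)) =
        S.bot (d.mu0 F (d.nuD F u)) := rfl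
    rw [h7, d.mu0_D g5, d.D_inv g1 g3 g2] at h6
    exact h6
  have h4 : ∀ e, d.move.vq (fun x => if x ∈ X then 0 else 1) (S.en e false) +
      d.move.vq (fun x => if x ∈ X then 0 else 1) (S.en e true) = S.par d.D e := by
    intro e
    rw [d.qc_aux X hX htop' e]
    have h5 : ∑ w ∈ d.D.filter (fun w => w ∈ S.OnE e),
        (if S.bot w ∈ X then (0 : ZMod 2) else 1) =
        ∑ w ∈ d.D.filter (fun w => w ∈ S.OnE e), (1 : ZMod 2) := by
      refine Finset.sum_congr rfl fun w hw => ?_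
      rw [if_neg (h3 w (Finset.mem_filter.1 hw).1)]
    rw [h5, Finset.sum_const, nsmul_eq_mul, mul_one]
    rfl
  obtain ⟨c, hc⟩ := S.labels_unique hCon a
    (fun v => d.q v + d.move.vq (fun x => if x ∈ X then 0 else 1) v) (by
      intro e
      have y : ∀ p q r s c d : ZMod 2, p + q = c + d → r + s = d → c = (p + r) + (q + s) := by
        decide
      rw [ha e]
      exact y _ _ _ _ _ _ (d.q_edge e) (h4 e))
  have h5 : ∀ v, d.q v = 0 → d.move.vq (fun x => if x ∈ X then (0 : ZMod 2) else 1) v = 0 := by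
    intro v hv
    unfold Move.vq
    rw [if_neg]
    intro h6
    have h7 := (S.mem_vset.1 h6).1
    rw [hv] at h7
    exact zero_ne_one h7
  apply hne
  have g1 := hc e b
  have g2 := hc e' b'
  beta_reduce at g1 g2
  rw [h1, h5 _ h1] at g1
  rw [h2, h5 _ h2] at g2
  rw [g1, g2]

end MvD

end Crest.Agent.R096.Door_501
end

-- ▼ part R096/Twr5_438
section

/-!
# Row 96, DOORS-TOWER, part 5 (helper438): chains of moves; **the deaths of all confined curves**
-/

set_option autoImplicit false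

namespace Crest.Agent.R096.Twr_438

open Crest.Agent.R096.St_147 Crest.Agent.R096.Door_501 Crest.Agent.R096.Qp_106 Classical

variable {ι Φ W : Type} {M : MeshC ι Φ W} {k : ι} {Vx Ed : Type} {S : Shell M k Vx Ed}
variable {I : Type} {col : I → Bool}

/-- the conditions on a move -/
structure Good {s : St S.sph col} (m : Move S.sphSh s) : Prop where
  par : m.Par
  qp : m.QP par
  tc : m.TC
  qc : m.QC par

/-- chains of moves -/
inductive Chn (R : ∀ s : St S.sph col, Move S.sphSh s → Prop) :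
    ℕ → St S.sph col → St S.sph col → Prop
  | nil (s : St S.sph col) : Chn R 0 s s
  | cons {n : ℕ} {s t : St S.sph col} (m : Move S.sphSh s) (hm : R s m)
      (h : Chn R n m.botS t) : Chn R (n + 1) s t

theorem Chn.trans {R : ∀ s : St S.sph col, Move S.sphSh s → Prop} {n m : ℕ}
    {s t u : St S.sph col} (h : Chn R n s t) (h' : Chn R m t u) : Chn R (n + m) s u := by
  induction h with
  | nil s => rw [Nat.zero_add]; exact h'
  | cons mv hm _ ih =>
    have h1 := Chn.cons mv hm (ih h')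
    rwa [Nat.add_right_comm] at h1

theorem Chn.mono {R R' : ∀ s : St S.sph col, Move S.sphSh s → Prop}
    (hR : ∀ s m, R s m → R' s m) {n : ℕ} {s t : St S.sph col} (h : Chn R n s t) :
    Chn R' n s t := by
  induction h with
  | nil s => exact Chn.nil s
  | cons mv hm _ ih => exact Chn.cons mv (hR _ _ hm) ih

theorem rch_restr {s t : St M col} (hP : t.P ⊆ s.P) (hmu : t.mu = s.mu)
    (hcl : ∀ F w, k ∈ M.side F → w ∈ t.P → w ∈ M.On F → s.mu F w ∈ t.P) {w : W} (hw : w ∈ t.P)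
    (x : W) : Rch k t w x ↔ Rch k s w x := by
  constructor
  · intro h
    induction h with
    | refl => exact Relation.ReflTransGen.refl
    | tail _ h2 ih =>
      obtain ⟨F, g1, g2, g3, rfl⟩ := h2
      exact Relation.ReflTransGen.tail ih ⟨F, g1, hP g2, g3, by rw [hmu]⟩
  · intro h
    have h' : Rch k t w x ∧ x ∈ t.P := by
      induction h with
      | refl => exact ⟨Relation.ReflTransGen.refl, hw⟩
      | tail _ h2 ih =>
        obtain ⟨F, g1, g2, g3, rfl⟩ := h2
        exact ⟨Relation.ReflTransGen.tail ih.1 ⟨F, g1, ih.2, g3, by rw [hmu]⟩,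
          hcl F _ g1 ih.2 g3⟩
    exact h'.1

/-- components of a closed part -/
theorem comp_restr {s t : St M col} (hP : t.P ⊆ s.P) (hmu : t.mu = s.mu)
    (hcl : ∀ F w, k ∈ M.side F → w ∈ t.P → w ∈ M.On F → s.mu F w ∈ t.P) {w : W} (hw : w ∈ t.P) :
    comp k t w = comp k s w := by
  ext x
  rw [mem_comp, mem_comp, rch_restr hP hmu hcl hw]
  constructor
  · rintro ⟨h1, h2⟩
    exact ⟨hP h1, h2⟩
  · rintro ⟨h1, h2⟩
    refine ⟨?_, h2⟩
    have h3 := (rch_restr hP hmu hcl hw x).2 h2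
    exact h3.mem hw

section deaths

variable [Fintype Ed]

/-- the pattern after a death -/
theorem death_bot (hS : S.sphSh.Sph) (v0 : Vx) {s : St S.sph col}
    (hs : ∀ w ∈ s.P, ∃ e, w ∈ S.sphSh.OnE e) {w : W} (hw : w ∈ s.P)
    (hmin : ∀ x ∈ s.P, x ∉ comp true s w → sd S.sphSh v0 (comp true s w) x = 0) :
    (death hS v0 hs hw hmin).move.botS.P = s.P.filter (fun x => x ∉ comp true s w) ∧
    (death hS v0 hs hw hmin).move.botS.lab = s.lab ∧
    (death hS v0 hs hw hmin).move.botS.mu = s.mu := by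
  refine ⟨?_, ?_, ?_⟩
  · ext x
    rw [Finset.mem_filter]
    show x ∈ (death hS v0 hs hw hmin).B ↔ _
    rw [MvD.mem_B]
    constructor
    · rintro (⟨h1, _, h3⟩ | h)
      · exact ⟨h1, h3⟩
      · exact absurd h (Finset.notMem_empty _)
    · rintro ⟨h1, h3⟩
      exact Or.inl ⟨h1, hs x h1, h3⟩
  · funext x
    exact (death hS v0 hs hw hmin).lab0_P (Finset.notMem_empty x)
  · funext F x
    exact (death hS v0 hs hw hmin).mu0_P (Finset.notMem_empty x)

/-- a death is a good move -/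
theorem death_good (hS : S.sphSh.Sph) (hC : S.sphSh.Circ) (hCon : S.sphSh.Con) (v0 : Vx)
    {s : St S.sph col} (hs : ∀ w ∈ s.P, ∃ e, w ∈ S.sphSh.OnE e) {w : W} (hw : w ∈ s.P)
    (hmin : ∀ x ∈ s.P, x ∉ comp true s w → sd S.sphSh v0 (comp true s w) x = 0) :
    Good (death hS v0 hs hw hmin).move where
  par := (death hS v0 hs hw hmin).par
  qp := (death hS v0 hs hw hmin).qp hS hC
  tc := (death hS v0 hs hw hmin).tc
  qc := (death hS v0 hs hw hmin).qc_death hCon rfl

/-- what is known about a move of the tower: `R i v` = the vertex `v` may be used by the name `i`;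
`L s` = a property of the patterns -/
def Tame (R : I → Vx → Prop) (L : St S.sph col → Prop) (s : St S.sph col)
    (m : Move S.sphSh s) : Prop :=
  Good m ∧ L s ∧ (∀ v ∈ m.Qv, R m.i0 v) ∧ (∃ w ∈ s.P, m.i0 = s.lab w)

/-- **the deaths of all confined curves** -/
theorem deaths (hS : S.sphSh.Sph) (hC : S.sphSh.Circ) (hCon : S.sphSh.Con) {v0 v1 : Vx}
    (hv0 : ∃ e b, S.en e b = v0) (hv1 : ∃ e b, S.en e b = v1) (hcol : ∀ i j : I, col i = col j)
    (R : I → Vx → Prop) (L : St S.sph col → Prop) : ∀ (n : ℕ) (s : St S.sph col), s.P.card ≤ n →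
      (∀ w ∈ s.P, ∃ e, w ∈ S.OnE e) →
      (∀ s' : St S.sph col, s'.P ⊆ s.P → s'.lab = s.lab → s'.mu = s.mu → L s') →
      (∀ w ∈ s.P, lbl S.sphSh v0 (comp true s w) v1 = 0 → ∀ v, (∃ e b, S.en e b = v) →
        lbl S.sphSh v0 (comp true s w) v = 1 → R (s.lab w) v) →
      ∃ m t, Chn (Tame R L) m s t ∧
        t.P = s.P.filter (fun w => lbl S.sphSh v0 (comp true s w) v1 = 1) ∧
        t.lab = s.lab ∧ t.mu = s.mu := by
  intro n
  induction n with
  | zero =>
    intro s hn _ _ _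
    have h0 : s.P = ∅ := Finset.card_eq_zero.1 (by omega)
    refine ⟨0, s, Chn.nil s, ?_, rfl, rfl⟩
    rw [h0, Finset.filter_empty]
  | succ n ih =>
    intro s hn hs hL hR
    by_cases hex : ∃ w ∈ s.P, lbl S.sphSh v0 (comp true s w) v1 = 0
    · obtain ⟨w, hw, hwc, hmin⟩ := exists_min hS hC hCon hv0 hv1 hcol hs hex
      obtain ⟨b1, b2, b3⟩ := death_bot hS v0 hs hw hmin
      set s1 := (death hS v0 hs hw hmin).move.botS with hs1
      have hsub : s1.P ⊆ s.P := by
        rw [b1]; exact Finset.filter_subset _ _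
      have hcl : ∀ F x, true ∈ S.sph.side F → x ∈ s1.P → x ∈ S.sph.On F → s.mu F x ∈ s1.P := by
        intro F x hF hx hxF
        rw [b1] at hx ⊢
        obtain ⟨h1, h2⟩ := Finset.mem_filter.1 hx
        refine Finset.mem_filter.2 ⟨(s.mu_mem h1 hxF).1, fun h3 => h2 ?_⟩
        have h4 := comp_mu hF h3 (s.mu_mem h1 hxF).2
        rwa [s.mu_mu h1 hxF] at h4
      have hcomp : ∀ x ∈ s1.P, comp true s1 x = comp true s x := fun x hx =>
        comp_restr hsub b3 hcl hx
      have hcard : s1.P.card ≤ n := by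
        have h1 : s1.P ⊂ s.P := by
          refine (Finset.ssubset_iff_of_subset hsub).2 ⟨w, hw, fun h => ?_⟩
          rw [b1] at h
          exact (Finset.mem_filter.1 h).2 (self_mem hw)
        have := Finset.card_lt_card h1
        omega
      obtain ⟨m, t, ht, t1, t2, t3⟩ := ih s1 hcard (fun x hx => hs x (hsub hx))
        (fun s' h1 h2 h3 => hL s' (h1.trans hsub) (h2.trans b2) (h3.trans b3))
        (fun x hx h1 v hv h2 => by
          rw [hcomp x hx] at h1 h2
          rw [b2]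
          exact hR x (hsub hx) h1 v hv h2)
      refine ⟨m + 1, t, Chn.cons (death hS v0 hs hw hmin).move ⟨death_good hS hC hCon v0 hs hw hmin,
        hL s (Finset.Subset.refl _) rfl rfl, ?_, w, hw, rfl⟩ ht, ?_, t2.trans b2, t3.trans b3⟩
      · intro v hv
        obtain ⟨h1, h2⟩ := (S.sphSh.mem_vset).1 hv
        exact hR w hw hwc v h2 h1
      · rw [t1]
        ext x
        rw [Finset.mem_filter, Finset.mem_filter]
        constructor
        · rintro ⟨h1, h2⟩
          rw [hcomp x h1] at h2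
          exact ⟨hsub h1, h2⟩
        · rintro ⟨h1, h2⟩
          have h3 : x ∈ s1.P := by
            rw [b1]
            refine Finset.mem_filter.2 ⟨h1, fun h => ?_⟩
            rw [comp_eq h, hwc] at h2
            exact absurd h2 (by decide)
          refine ⟨h3, ?_⟩
          rw [hcomp x h3]
          exact h2
    · refine ⟨0, s, Chn.nil s, ?_, rfl, rfl⟩
      refine (Finset.filter_true_of_mem fun w hw => ?_).symm
      rcases zz_cases (lbl S.sphSh v0 (comp true s w) v1) with h | h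
      · exact (hex ⟨w, hw, h⟩).elim
      · exact h

end deaths

end Crest.Agent.R096.Twr_438
end

-- ▼ part R096/Twr6_438
section

/-!
# Row 96, DOORS-TOWER, part 6 (helper438): **the slides** `γ_i → δ_i`
-/

set_option autoImplicit false

namespace Crest.Agent.R096.Twr_438

open Crest.Agent.R096.St_147 Crest.Agent.R096.Door_501 Crest.Agent.R096.Qp_106 Classical

variable {ι Φ W : Type} {M : MeshC ι Φ W} {k : ι} {Vx Ed : Type} {S : Shell M k Vx Ed}
variable {I : Type} {col : I → Bool}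

/-- The target pattern `d` of the essential pattern `t` (`t` = `s` after all deaths):
the sheets of `t` and of `d` are single curves which separate the far vertices `v0`, `v1`;
`rk` = order of the curves of `d` and of the curves of `t` (`exists_rk` of Twr10); every curve of
`t` lies below the curves of `d` of the same or of higher rank (560 #10528: the exact curves may all
be packed above the curves of `t`). -/
structure Tgt (S : Shell M k Vx Ed) (v0 v1 : Vx) (t d : St S.sph col) (rk : I → ℝ) : Prop where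
  on_s : ∀ w ∈ t.P, ∃ e, w ∈ S.OnE e
  on_d : ∀ w ∈ d.P, ∃ e, w ∈ S.OnE e
  disj : Disjoint t.P d.P
  conn_s : ∀ w ∈ t.P, ∀ w' ∈ t.P, t.lab w' = t.lab w → w' ∈ comp true t w
  conn_d : ∀ w ∈ d.P, ∀ w' ∈ d.P, d.lab w' = d.lab w → w' ∈ comp true d w
  ess_s : ∀ w ∈ t.P, lbl S.sphSh v0 (comp true t w) v1 = 1
  ess_d : ∀ w ∈ d.P, lbl S.sphSh v0 (comp true d w) v1 = 1
  ex_s : ∀ w ∈ d.P, ∃ w' ∈ t.P, t.lab w' = d.lab w
  ex_d : ∀ w ∈ t.P, ∃ w' ∈ d.P, d.lab w' = t.lab w
  nl : ∀ F w x, w ∈ t.P → w ∈ S.sph.On F → x ∈ d.P → x ∈ S.sph.On F →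
    ¬ S.sph.Lace F w (t.mu F w) x (d.mu F x)
  rk_inj : ∀ w ∈ d.P, ∀ w' ∈ d.P, rk (d.lab w) = rk (d.lab w') → d.lab w = d.lab w'
  ord_t : ∀ x ∈ t.P, ∀ w ∈ t.P, rk (t.lab x) < rk (t.lab w) →
    sd S.sphSh v0 (comp true t w) x = 0
  ord_s : ∀ x ∈ t.P, ∀ w ∈ d.P, rk (t.lab x) ≤ rk (d.lab w) →
    sd S.sphSh v0 (comp true d w) x = 0
  ord_d : ∀ x ∈ d.P, ∀ w ∈ d.P, x ∉ comp true d w →
    sd S.sphSh v0 (comp true d w) x = if rk (d.lab w) < rk (d.lab x) then 1 else 0

theorem lace_symm' {F : S.Fk} {u v x y : W} (hu : u ∈ S.sph.On F) (hv : v ∈ S.sph.On F)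
    (hx : x ∈ S.sph.On F) (hy : y ∈ S.sph.On F) (h1 : u ≠ x) (h2 : u ≠ y) (h3 : v ≠ x)
    (h4 : v ≠ y) (h : ¬ S.sph.Lace F u v x y) : ¬ S.sph.Lace F x y u v := by
  intro h'
  exact h (Crest.Agent.R096.Seq_213.lace_symm S.sph F hx hy hu hv h1.symm h3.symm h2.symm
    h4.symm h')

namespace Tgt

variable {v0 v1 : Vx} {t d : St S.sph col} {rk : I → ℝ}


theorem nlc' (h : Tgt S v0 v1 t d rk) (w x : W) :
    NLC (cc S.sphSh d h.on_d x) (cc S.sphSh t h.on_s w) := by
  intro F a b hF ha haF hb hbF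
  have ha' : a ∈ comp true d x := ha
  have hb' : b ∈ comp true t w := hb
  have a1 := (mem_comp.1 ha').1
  have b1 := (mem_comp.1 hb').1
  have a2 := d.mu_mem a1 haF
  have b2 := t.mu_mem b1 hbF
  have hne : ∀ p ∈ t.P, ∀ q ∈ d.P, p ≠ q := fun p hp q hq hpq => by
    rw [hpq] at hp
    exact Finset.disjoint_left.1 h.disj hp hq
  exact lace_symm' hbF b2.2 haF a2.2 (hne _ b1 _ a1) (hne _ b1 _ a2.1) (hne _ b2.1 _ a1)
    (hne _ b2.1 _ a2.1) (h.nl F b a b1 hbF a1 haF)

theorem disj_cc (h : Tgt S v0 v1 t d rk) (w x : W) :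
    Disjoint (cc S.sphSh t h.on_s w).C (cc S.sphSh d h.on_d x).C := by
  rw [Finset.disjoint_left]
  intro y h1 h2
  have h1' : y ∈ comp true t w := h1
  have h2' : y ∈ comp true d x := h2
  exact Finset.disjoint_left.1 h.disj (mem_comp.1 h1').1 (mem_comp.1 h2').1

/-- a `d`-curve of the same or of higher rank lies above the `t`-curve of `w` -/
theorem side_dt [Fintype Ed] (h : Tgt S v0 v1 t d rk) (hS : S.sphSh.Sph) (hC : S.sphSh.Circ)
    (hCon : S.sphSh.Con) (hv0 : ∃ e b, S.en e b = v0) (hv1 : ∃ e b, S.en e b = v1)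
    {w x : W} (hw : w ∈ t.P) (hx : x ∈ d.P) (hrk : rk (t.lab w) ≤ rk (d.lab x)) :
    ∀ y ∈ comp true d x, sd S.sphSh v0 (comp true t w) y = 1 := by
  obtain ⟨q, hq⟩ := sd_const hS hC v0 (cc S.sphSh d h.on_d x) (cc S.sphSh t h.on_s w)
    (cn_cc h.on_d x) (h.disj_cc w x).symm (h.nlc' w x)
  have hp : ∀ y ∈ (cc S.sphSh t h.on_s w).C, sd S.sphSh v0 (cc S.sphSh d h.on_d x).C y = 0 := by
    intro y hy
    have hy' : y ∈ comp true t w := hy
    refine h.ord_s y (mem_comp.1 hy').1 x hx ?_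
    rw [(mem_comp.1 hy').2.lab]
    exact hrk
  obtain ⟨_, r2⟩ := sd_rule hS hCon hv0 (cc S.sphSh t h.on_s w) (cc S.sphSh d h.on_d x)
    (h.disj_cc w x) hp hq
  have h1 := r2 v1 hv1
  have h2 : lbl S.sphSh v0 (cc S.sphSh t h.on_s w).C v1 = 1 := h.ess_s w hw
  have h3 : lbl S.sphSh v0 (cc S.sphSh d h.on_d x).C v1 = 1 := h.ess_d x hx
  rw [h2, h3] at h1
  have z : ∀ q : ZMod 2, 1 * 1 = 0 * 1 + q * 1 → q = 1 := by decide
  have h4 := z q h1
  intro y hy
  rw [← h4]
  exact hq y hy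

/-- **no lower curve of `t` and no higher curve of `d` between `γ_i` and `δ_i`** -/
theorem between [Fintype Ed] (h : Tgt S v0 v1 t d rk) (hS : S.sphSh.Sph) (hC : S.sphSh.Circ)
    (hCon : S.sphSh.Con) (hv0 : ∃ e b, S.en e b = v0) (hv1 : ∃ e b, S.en e b = v1)
    {w w' : W} (hw : w ∈ t.P) (hw' : w' ∈ d.P) (hl : d.lab w' = t.lab w) {x : W}
    (hx : (x ∈ t.P ∧ rk (t.lab x) < rk (t.lab w)) ∨ (x ∈ d.P ∧ rk (t.lab w) < rk (d.lab x))) :
    sd S.sphSh v0 (comp true t w) x = sd S.sphSh v0 (comp true d w') x := by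
  rcases hx with ⟨hx, hlt⟩ | ⟨hx, hlt⟩
  · rw [h.ord_t x hx w hw hlt, h.ord_s x hx w' hw' (by rw [hl]; exact hlt.le)]
  · have hxc : x ∉ comp true d w' := by
      intro h1
      have h2 := (mem_comp.1 h1).2.lab.trans hl
      rw [h2] at hlt
      exact lt_irrefl _ hlt
    have h1 := h.ord_d x hx w' hw' hxc
    rw [hl, if_pos hlt] at h1
    rw [h1, h.side_dt hS hC hCon hv0 hv1 hw hx hlt.le x (self_mem hx)]

/-- different names of `t` have different ranks -/
theorem rk_ne (h : Tgt S v0 v1 t d rk) {x w : W} (hx : x ∈ t.P) (hw : w ∈ t.P)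
    (hne : t.lab x ≠ t.lab w) : rk (t.lab x) ≠ rk (t.lab w) := by
  intro h1
  obtain ⟨x', hx', hlx⟩ := h.ex_d x hx
  obtain ⟨w', hw', hlw⟩ := h.ex_d w hw
  rw [← hlx, ← hlw] at h1
  exact hne (hlx.symm.trans ((h.rk_inj x' hx' w' hw' h1).trans hlw))

end Tgt

end Crest.Agent.R096.Twr_438
end

-- ▼ part R096/Twr7_438
section

/-!
# Row 96, DOORS-TOWER, part 7 (helper438): the slide move and the chain of all slides
-/

set_option autoImplicit false

namespace Crest.Agent.R096.Twr_438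

open Crest.Agent.R096.St_147 Crest.Agent.R096.Door_501 Crest.Agent.R096.Qp_106 Classical

variable {ι Φ W : Type} {M : MeshC ι Φ W} {k : ι} {Vx Ed : Type} {S : Shell M k Vx Ed}
variable {I : Type} {col : I → Bool}

/-- a pattern between `t` and `d` -/
structure Mid (t d u : St S.sph col) : Prop where
  sub : ∀ w ∈ u.P,
    (w ∈ t.P ∧ u.lab w = t.lab w ∧ ∀ F, w ∈ S.sph.On F → u.mu F w = t.mu F w) ∨
    (w ∈ d.P ∧ u.lab w = d.lab w ∧ ∀ F, w ∈ S.sph.On F → u.mu F w = d.mu F w)
  alt : ∀ i, (∀ w, (w ∈ u.P ∧ u.lab w = i) ↔ (w ∈ t.P ∧ t.lab w = i)) ∨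
    ∀ w, (w ∈ u.P ∧ u.lab w = i) ↔ (w ∈ d.P ∧ d.lab w = i)

theorem Mid.refl (t d : St S.sph col) : Mid t d t :=
  ⟨fun w hw => Or.inl ⟨hw, rfl, fun _ _ => rfl⟩, fun _ => Or.inl fun _ => Iff.rfl⟩

/-- the names which are already moved are higher than the others -/
def Hi (t d : St S.sph col) (rk : I → ℝ) (u : St S.sph col) : Prop :=
  ∀ w ∈ u.P, w ∈ d.P → ∀ x ∈ u.P, x ∈ t.P → rk (t.lab x) < rk (d.lab w)

namespace Tgt

variable {v0 v1 : Vx} {t d u : St S.sph col} {rk : I → ℝ}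

/-- the sheet of a remaining `t`-point is not yet moved -/
theorem alt_of (h : Tgt S v0 v1 t d rk) (hm : Mid t d u) {w : W} (hw : w ∈ t.P) (hwu : w ∈ u.P) :
    ∀ x, (x ∈ u.P ∧ u.lab x = t.lab w) ↔ (x ∈ t.P ∧ t.lab x = t.lab w) := by
  have hl : u.lab w = t.lab w := by
    rcases hm.sub w hwu with ⟨_, h2, _⟩ | ⟨h1, _, _⟩
    · exact h2
    · exact (Finset.disjoint_left.1 h.disj hw h1).elim
  rcases hm.alt (t.lab w) with h1 | h1
  · exact h1
  · exact (Finset.disjoint_left.1 h.disj hw ((h1 w).1 ⟨hwu, hl⟩).1).elim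

/-- **the slide** of the highest curve of `t` -/
noncomputable def slide [Fintype Ed] (h : Tgt S v0 v1 t d rk) (hS : S.sphSh.Sph)
    (hC : S.sphSh.Circ) (hCon : S.sphSh.Con) (hv0 : ∃ e b, S.en e b = v0)
    (hv1 : ∃ e b, S.en e b = v1) (hcol : ∀ i j : I, col i = col j) (hm : Mid t d u)
    (hT : Hi t d rk u) {w w' : W} (hmax : ∀ x ∈ u.P, x ∈ t.P → rk (t.lab x) ≤ rk (t.lab w))
    (hw : w ∈ t.P) (hwu : w ∈ u.P) (hw' : w' ∈ d.P) (hl : d.lab w' = t.lab w) :
    MvD S.sphSh u :=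
  have halt := h.alt_of hm hw hwu
  have hC_P : ∀ x, x ∈ comp true t w → x ∈ u.P ∧ u.lab x = t.lab w := fun x hx =>
    (halt x).2 ⟨(mem_comp.1 hx).1, (mem_comp.1 hx).2.lab⟩
  have hmuC : ∀ F x, x ∈ comp true t w → x ∈ S.sph.On F → u.mu F x = t.mu F x := by
    intro F x hx hxF
    rcases hm.sub x (hC_P x hx).1 with ⟨_, _, h3⟩ | ⟨h1, _, _⟩
    · exact h3 F hxF
    · exact (Finset.disjoint_left.1 h.disj (mem_comp.1 hx).1 h1).elim
  have hDd : ∀ x, x ∈ d.P → x ∈ u.P → d.lab x ≠ t.lab w := by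
    intro x hx hxu hlx
    rcases hm.sub x hxu with ⟨h1, _, _⟩ | ⟨_, h2, _⟩
    · exact Finset.disjoint_left.1 h.disj h1 hx
    · exact Finset.disjoint_left.1 h.disj ((halt x).1 ⟨hxu, h2.trans hlx⟩).1 hx
  have hDl : ∀ x, x ∈ comp true d w' → d.lab x = t.lab w := fun x hx =>
    (mem_comp.1 hx).2.lab.trans hl
  { i0 := t.lab w
    C := comp true t w
    D := comp true d w'
    nuD := d.mu
    q := fun v => lbl S.sphSh v0 (comp true t w) v + lbl S.sphSh v0 (comp true d w') v
    C_P := fun hx => (hC_P _ hx).1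
    C_lab := fun hx => (hC_P _ hx).2
    C_on := fun hx => h.on_s _ (mem_comp.1 hx).1
    C_mu := fun {F x} hF hx hxF => by
      rw [hmuC F x hx hxF]
      exact comp_mu hF hx hxF
    C_conn := fun X hX => conn_comp (k := true) (s := t) X fun F x h1 h2 h3 h4 => by
      have h5 := hX F x h1 h2 h3 h4
      rwa [hmuC F x h3 h2] at h5
    C_ne := ⟨w, self_mem hw⟩
    D_new := fun {x} hx hxu => hDd x (mem_comp.1 hx).1 hxu (hDl x hx)
    D_on := fun hx => h.on_d _ (mem_comp.1 hx).1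
    D_mem := fun hF hx hxF => ⟨comp_mu hF hx hxF, (d.mu_mem (mem_comp.1 hx).1 hxF).2⟩
    D_ne := fun _ hx hxF => d.mu_ne (mem_comp.1 hx).1 hxF
    D_inv := fun _ hx hxF => d.mu_mu (mem_comp.1 hx).1 hxF
    D_nc := fun _ hx hxF hy hyF h1 h2 =>
      d.nc (mem_comp.1 hx).1 hxF (mem_comp.1 hy).1 hyF (hcol _ _) h1 h2
    D_old := by
      intro F a x hF ha haF hx hxF _
      have a1 := (mem_comp.1 ha).1
      have a2 := d.mu_mem a1 haF
      have hne : ∀ p ∈ t.P, ∀ q ∈ d.P, p ≠ q := fun p hp q hq hpq => by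
        rw [hpq] at hp
        exact Finset.disjoint_left.1 h.disj hp hq
      rcases hm.sub x hx with ⟨x1, _, x3⟩ | ⟨x1, _, x3⟩
      · rw [x3 F hxF]
        have x2 := t.mu_mem x1 hxF
        have h1 := h.nl F x a x1 hxF a1 haF
        exact ⟨lace_symm' hxF x2.2 haF a2.2 (hne _ x1 _ a1) (hne _ x1 _ a2.1) (hne _ x2.1 _ a1)
          (hne _ x2.1 _ a2.1) h1, h1⟩
      · rw [x3 F hxF]
        have hlx := hDd x x1 hx
        have hla := hDl a ha
        have h1 : x ≠ a := by rintro rfl; exact hlx hla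
        have h2 : x ≠ d.mu F a := by
          rintro rfl
          exact hlx ((d.mu_lab a1 haF).trans hla)
        have h3 : a ≠ d.mu F x := by
          rintro rfl
          exact hlx ((d.mu_lab x1 hxF).symm.trans hla)
        exact ⟨d.nc a1 haF x1 hxF (hcol _ _) h1 h2, d.nc x1 hxF a1 haF (hcol _ _) h1.symm h3⟩
    q_edge := fun e => by
      have h1 := (lbl_spec hS (cc S.sphSh t h.on_s w) v0).1 e
      have h2 := (lbl_spec hS (cc S.sphSh d h.on_d w') v0).1 e
      change lbl S.sphSh v0 (comp true t w) (S.sphSh.en e false) +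
        lbl S.sphSh v0 (comp true t w) (S.sphSh.en e true) = S.sphSh.par (comp true t w) e at h1
      change lbl S.sphSh v0 (comp true d w') (S.sphSh.en e false) +
        lbl S.sphSh v0 (comp true d w') (S.sphSh.en e true) = S.sphSh.par (comp true d w') e at h2
      rw [← h1, ← h2]
      have z : ∀ p q r s : ZMod 2, (p + q) + (r + s) = p + r + (q + s) := by decide
      exact z _ _ _ _
    free := by
      intro e x hxe hx hxC _
      have h1 : (x ∈ t.P ∧ rk (t.lab x) < rk (t.lab w)) ∨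
          (x ∈ d.P ∧ rk (t.lab w) < rk (d.lab x)) := by
        rcases hm.sub x hx with ⟨x1, _, _⟩ | ⟨x1, _, _⟩
        · exact Or.inl ⟨x1, lt_of_le_of_ne (hmax x hx x1)
            (h.rk_ne x1 hw fun h2 => hxC (h.conn_s w hw x x1 h2))⟩
        · exact Or.inr ⟨x1, hT x hx x1 w hwu hw⟩
      have h2 := h.between hS hC hCon hv0 hv1 hw hw' hl h1
      have e1 := sd_eq (S := S.sphSh) v0 (comp true t w) hxe
      have e2 := sd_eq (S := S.sphSh) v0 (comp true d w') hxe
      rw [e1, e2] at h2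
      have z : ∀ p q r s : ZMod 2, p + q = r + s → p + r + q + s = 0 := by decide
      exact z _ _ _ _ h2 }

theorem slide_good [Fintype Ed] (h : Tgt S v0 v1 t d rk) (hS : S.sphSh.Sph)
    (hC : S.sphSh.Circ) (hCon : S.sphSh.Con) (hv0 : ∃ e b, S.en e b = v0)
    (hv1 : ∃ e b, S.en e b = v1) (hcol : ∀ i j : I, col i = col j) (hm : Mid t d u)
    (hT : Hi t d rk u) {w w' : W} (hmax : ∀ x ∈ u.P, x ∈ t.P → rk (t.lab x) ≤ rk (t.lab w))
    (hw : w ∈ t.P) (hwu : w ∈ u.P) (hw' : w' ∈ d.P) (hl : d.lab w' = t.lab w) :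
    Good (h.slide hS hC hCon hv0 hv1 hcol hm hT hmax hw hwu hw' hl).move where
  par := (h.slide hS hC hCon hv0 hv1 hcol hm hT hmax hw hwu hw' hl).par
  qp := (h.slide hS hC hCon hv0 hv1 hcol hm hT hmax hw hwu hw' hl).qp hS hC
  tc := (h.slide hS hC hCon hv0 hv1 hcol hm hT hmax hw hwu hw' hl).tc
  qc := by
    obtain ⟨e0, b0, h0⟩ := hv0
    obtain ⟨e1, b1, h1⟩ := hv1
    have a0 := (lbl_spec hS (cc S.sphSh t h.on_s w) v0).2
    have a1 := (lbl_spec hS (cc S.sphSh d h.on_d w') v0).2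
    change lbl S.sphSh v0 (comp true t w) v0 = 0 at a0
    change lbl S.sphSh v0 (comp true d w') v0 = 0 at a1
    have a2 := h.ess_s w hw
    have a3 := h.ess_d w' hw'
    refine (h.slide hS hC hCon ⟨e0, b0, h0⟩ ⟨e1, b1, h1⟩ hcol hm hT hmax hw hwu hw' hl).qc_slide hCon
      ?_ (lbl S.sphSh v0 (comp true t w)) (fun e => (lbl_spec hS (cc S.sphSh t h.on_s w) v0).1 e)
      (e := e0) (e' := e1) (b := b0) (b' := b1) ?_ ?_ ?_
    · intro X hX x hxX hx y hy
      exact conn_comp (k := true) (s := d) (w := w') X hX x hxX hx y hy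
    · show lbl S.sphSh v0 (comp true t w) (S.en e0 b0) +
        lbl S.sphSh v0 (comp true d w') (S.en e0 b0) = 0
      rw [h0, a0, a1, add_zero]
    · show lbl S.sphSh v0 (comp true t w) (S.en e1 b1) +
        lbl S.sphSh v0 (comp true d w') (S.en e1 b1) = 0
      rw [h1, a2, a3]
      decide
    · show lbl S.sphSh v0 (comp true t w) (S.en e0 b0) ≠ lbl S.sphSh v0 (comp true t w) (S.en e1 b1)
      rw [h0, h1, a0, a2]
      decide

/-- the pattern after a slide is again between `t` and `d` -/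
theorem slide_mid [Fintype Ed] (h : Tgt S v0 v1 t d rk) (hS : S.sphSh.Sph)
    (hC : S.sphSh.Circ) (hCon : S.sphSh.Con) (hv0 : ∃ e b, S.en e b = v0)
    (hv1 : ∃ e b, S.en e b = v1) (hcol : ∀ i j : I, col i = col j) (hm : Mid t d u)
    (hT : Hi t d rk u) {w w' : W} (hmax : ∀ x ∈ u.P, x ∈ t.P → rk (t.lab x) ≤ rk (t.lab w))
    (hw : w ∈ t.P) (hwu : w ∈ u.P) (hw' : w' ∈ d.P) (hl : d.lab w' = t.lab w) :
    Mid t d (h.slide hS hC hCon hv0 hv1 hcol hm hT hmax hw hwu hw' hl).move.botS ∧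
    (∀ x, x ∈ (h.slide hS hC hCon hv0 hv1 hcol hm hT hmax hw hwu hw' hl).move.botS.P ↔
      (x ∈ u.P ∧ x ∉ comp true t w) ∨ x ∈ comp true d w') := by
  obtain ⟨D, hDdef⟩ : ∃ D : MvD S.sphSh u,
      D = h.slide hS hC hCon hv0 hv1 hcol hm hT hmax hw hwu hw' hl := ⟨_, rfl⟩
  rw [← hDdef]
  have dC : D.C = comp true t w := by rw [hDdef]; rfl
  have dD : D.D = comp true d w' := by rw [hDdef]; rfl
  have di : D.i0 = t.lab w := by rw [hDdef]; rfl
  have dn : D.nuD = d.mu := by rw [hDdef]; rfl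
  have halt := h.alt_of hm hw hwu
  have hon : ∀ x ∈ u.P, ∃ e, x ∈ S.sphSh.OnE e := by
    intro x hx
    rcases hm.sub x hx with ⟨h1, _⟩ | ⟨h1, _⟩
    · exact h.on_s x h1
    · exact h.on_d x h1
  have hP : ∀ x, x ∈ D.move.botS.P ↔ (x ∈ u.P ∧ x ∉ comp true t w) ∨ x ∈ comp true d w' := by
    intro x
    show x ∈ D.B ↔ _
    rw [D.mem_B, dC, dD]
    constructor
    · rintro (⟨h1, _, h3⟩ | h1)
      · exact Or.inl ⟨h1, h3⟩
      · exact Or.inr h1
    · rintro (⟨h1, h3⟩ | h1)
      · exact Or.inl ⟨h1, hon x h1, h3⟩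
      · exact Or.inr h1
  have hlD : ∀ x, x ∈ comp true d w' → D.move.botS.lab x = t.lab w := by
    intro x hx
    show D.lab0 x = _
    rw [D.lab0_D (by rw [dD]; exact hx), di]
  have hmD : ∀ F x, x ∈ comp true d w' → D.move.botS.mu F x = d.mu F x := by
    intro F x hx
    show D.mu0 F x = _
    rw [D.mu0_D (by rw [dD]; exact hx), dn]
  have hlP : ∀ x ∈ u.P, D.move.botS.lab x = u.lab x := fun x hx => D.lab0_P (D.not_D hx)
  have hmP : ∀ F, ∀ x ∈ u.P, D.move.botS.mu F x = u.mu F x := fun F x hx => D.mu0_P (D.not_D hx)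
  refine ⟨⟨?_, ?_⟩, hP⟩
  · intro x hx
    rcases (hP x).1 hx with ⟨h1, h2⟩ | h1
    · rcases hm.sub x h1 with ⟨g1, g2, g3⟩ | ⟨g1, g2, g3⟩
      · exact Or.inl ⟨g1, (hlP x h1).trans g2, fun F hF => (hmP F x h1).trans (g3 F hF)⟩
      · exact Or.inr ⟨g1, (hlP x h1).trans g2, fun F hF => (hmP F x h1).trans (g3 F hF)⟩
    · obtain ⟨g1, g2⟩ := mem_comp.1 h1
      exact Or.inr ⟨g1, (hlD x h1).trans (g2.lab.trans hl).symm, fun F _ => hmD F x h1⟩
  · intro j
    by_cases hj : j = t.lab w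
    · right
      intro x
      constructor
      · rintro ⟨h1, h2⟩
        rcases (hP x).1 h1 with ⟨g1, g2⟩ | g1
        · exfalso
          rw [hlP x g1, hj] at h2
          have g3 := (halt x).1 ⟨g1, h2⟩
          exact g2 (h.conn_s w hw x g3.1 g3.2)
        · exact ⟨(mem_comp.1 g1).1, ((mem_comp.1 g1).2.lab.trans hl).trans hj.symm⟩
      · rintro ⟨h1, h2⟩
        have g1 := h.conn_d w' hw' x h1 ((h2.trans hj).trans hl.symm)
        exact ⟨(hP x).2 (Or.inr g1), (hlD x g1).trans hj.symm⟩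
    · have key : ∀ x, (x ∈ D.move.botS.P ∧ D.move.botS.lab x = j) ↔ (x ∈ u.P ∧ u.lab x = j) := by
        intro x
        constructor
        · rintro ⟨h1, h2⟩
          rcases (hP x).1 h1 with ⟨g1, g2⟩ | g1
          · rw [hlP x g1] at h2
            exact ⟨g1, h2⟩
          · exact (hj (h2.symm.trans (hlD x g1))).elim
        · rintro ⟨h1, h2⟩
          refine ⟨(hP x).2 (Or.inl ⟨h1, fun g1 => hj ?_⟩), (hlP x h1).trans h2⟩
          have g2 := (halt x).2 ⟨(mem_comp.1 g1).1, (mem_comp.1 g1).2.lab⟩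
          exact h2.symm.trans g2.2
      rcases hm.alt j with h1 | h1
      · exact Or.inl fun x => (key x).trans (h1 x)
      · exact Or.inr fun x => (key x).trans (h1 x)


end Tgt

end Crest.Agent.R096.Twr_438
end

-- ▼ part R096/Twr8_438
section

/-!
# Row 96, DOORS-TOWER, part 8 (helper438): **towers exist** (one core, one family)
-/

set_option autoImplicit false

namespace Crest.Agent.R096.Twr_438

open Crest.Agent.R096.St_147 Crest.Agent.R096.Door_501 Crest.Agent.R096.Qp_106 Classical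

variable {ι Φ W : Type} {M : MeshC ι Φ W} {k : ι} {Vx Ed : Type} {S : Shell M k Vx Ed}

section one

variable {I : Type} {col : I → Bool}

/-- the essential part of a pattern -/
noncomputable def essSt (S : Shell M k Vx Ed) (v0 v1 : Vx) (s : St S.sph col) : St S.sph col :=
  restr s (s.P.filter fun w => lbl S.sphSh v0 (comp true s w) v1 = 1) (Finset.filter_subset _ _)
    (by
      intro F w hw hF
      obtain ⟨h1, h2⟩ := Finset.mem_filter.1 hw
      refine Finset.mem_filter.2 ⟨(s.mu_mem h1 hF).1, ?_⟩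
      rw [comp_eq (comp_mu (k := true) (Shell.mem_bool_side _) (self_mem h1) hF)]
      exact h2)

theorem mem_ess {v0 v1 : Vx} {s : St S.sph col} {w : W} : w ∈ (essSt S v0 v1 s).P ↔
    w ∈ s.P ∧ lbl S.sphSh v0 (comp true s w) v1 = 1 := Finset.mem_filter

theorem comp_ess {v0 v1 : Vx} {s : St S.sph col} {w : W} (hw : w ∈ (essSt S v0 v1 s).P) :
    comp true (essSt S v0 v1 s) w = comp true s w :=
  comp_restr (s := s) (t := essSt S v0 v1 s) (Finset.filter_subset _ _) rfl
    (fun _ _ _ hx hxF => ((essSt S v0 v1 s).mu_mem hx hxF).1) hw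

/-- the patterns of the tower consist of points and chords of `s` and of `d` -/
def Fits (s d u : St S.sph col) : Prop := ∀ w ∈ u.P,
  (w ∈ s.P ∧ u.lab w = s.lab w ∧ ∀ F, w ∈ S.sph.On F → u.mu F w = s.mu F w) ∨
  (w ∈ d.P ∧ u.lab w = d.lab w ∧ ∀ F, w ∈ S.sph.On F → u.mu F w = d.mu F w)

/-- the vertices used by the moves of the name `i`: inside a confined curve of `s`, or between the
essential curve of `s` and the curve of `d` -/
def Rgn (S : Shell M k Vx Ed) (v0 v1 : Vx) (s d : St S.sph col) (i : I) (v : Vx) : Prop :=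
  (∃ w ∈ s.P, s.lab w = i ∧ lbl S.sphSh v0 (comp true s w) v1 = 0 ∧
    lbl S.sphSh v0 (comp true s w) v = 1) ∨
  ∃ w ∈ s.P, ∃ w' ∈ d.P, s.lab w = i ∧ d.lab w' = i ∧ lbl S.sphSh v0 (comp true s w) v1 = 1 ∧
    lbl S.sphSh v0 (comp true s w) v + lbl S.sphSh v0 (comp true d w') v = 1


end one

/-! ### from chains to 501's towers -/

section seq

variable {J : Type}

/-- what is known about the layer `j` -/
def Tm (R : J → Vx → Prop) (L : St S.sph (fun _ : J => true) → Prop)
    (s : St S.sph (fun _ : J => true)) (m : Move S.sphSh s) : Prop :=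
  L s ∧ ∀ v ∈ m.Qv, R m.i0 v ∧ ∃ w ∈ s.P, m.i0 = s.lab w

/-- one more layer on the top -/
noncomputable def consT {s : St S.sph (fun _ : J => true)} (m : Move S.sphSh s) (hm : Good m)
    (T : Twr S J) (h : T.pat 0 = m.botS) : Twr S J where
  pat := fun j => match j with
    | 0 => s
    | j + 1 => T.pat j
  mv := fun j => match j with
    | 0 => m
    | j + 1 => T.mv j
  par := fun j => match j with
    | 0 => hm.par
    | j + 1 => T.par j
  qp := fun j => match j with
    | 0 => hm.qp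
    | j + 1 => T.qp j
  tc := fun j => match j with
    | 0 => hm.tc
    | j + 1 => T.tc j
  qc := fun j => match j with
    | 0 => hm.qc
    | j + 1 => T.qc j
  next := fun j => match j with
    | 0 => h
    | j + 1 => T.next j

/-- nothing happens -/
noncomputable def idle (s : St S.sph (fun _ : J => true)) (i : J)
    (hs : ∀ w ∈ s.P, ∃ e, w ∈ S.OnE e) : Twr S J where
  pat := fun _ => s
  mv := fun _ => Move.triv s i hs
  par := fun _ => Move.triv_par s i hs
  qp := fun _ => Move.triv_QP s i hs _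
  tc := fun _ => Move.triv_TC s i hs
  qc := fun _ => Move.triv_QC s i hs _
  next := fun _ => rfl

theorem triv_good (s : St S.sph (fun _ : J => true)) (i : J)
    (hs : ∀ w ∈ s.P, ∃ e, w ∈ S.OnE e) : Good (Move.triv s i hs) :=
  ⟨Move.triv_par s i hs, Move.triv_QP s i hs _, Move.triv_TC s i hs, Move.triv_QC s i hs _⟩

theorem triv_tm {R : J → Vx → Prop} {L : St S.sph (fun _ : J => true) → Prop}
    (s : St S.sph (fun _ : J => true)) (i : J) (hs : ∀ w ∈ s.P, ∃ e, w ∈ S.OnE e) (hL : L s) :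
    Tm R L s (Move.triv s i hs) :=
  ⟨hL, fun v hv => absurd hv (Finset.notMem_empty v)⟩



end seq

end Crest.Agent.R096.Twr_438
end

-- ▼ part R096/Twr9_438

/-!
# Row 96, DOORS-TOWER, part 9 (helper438): **`Twrs` exists** (all cores, all families)

`trace S s a`  : the pattern of the family `a` on the sphere of a core.
`TIn`          : the input: shells with `Sph`, `Circ`, `Con`, far vertices, exact patterns `d c a`.
`exists_twrs`  : number of layers and towers for all cores and all families.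
-/

set_option autoImplicit false

namespace Crest.Agent.R096.Twr_438

open Crest.Agent.R096.St_147 Crest.Agent.R096.Seq_213 Crest.Agent.R096.Door_501
  Crest.Agent.R096.Qp_106 Classical

section tgt

variable {ι Φ W : Type} {M : MeshC ι Φ W} {k : ι} {Vx Ed : Type} {S : Shell M k Vx Ed}
variable {I : Type} {col : I → Bool}

/-- no essential curve, no target -/
theorem tgt_empty {v0 v1 : Vx} {t d : St S.sph col} (rk : I → ℝ) (ht : t.P = ∅) (hd : d.P = ∅) :
    Tgt S v0 v1 t d rk := by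
  have h1 : ∀ w, w ∉ t.P := fun w h => by rw [ht] at h; exact Finset.notMem_empty w h
  have h2 : ∀ w, w ∉ d.P := fun w h => by rw [hd] at h; exact Finset.notMem_empty w h
  exact
  { on_s := fun w hw => absurd hw (h1 w)
    on_d := fun w hw => absurd hw (h2 w)
    disj := by rw [ht]; exact Finset.disjoint_empty_left _
    conn_s := fun w hw => absurd hw (h1 w)
    conn_d := fun w hw => absurd hw (h2 w)
    ess_s := fun w hw => absurd hw (h1 w)
    ess_d := fun w hw => absurd hw (h2 w)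
    ex_s := fun w hw => absurd hw (h2 w)
    ex_d := fun w hw => absurd hw (h1 w)
    nl := fun _ w _ hw => absurd hw (h1 w)
    rk_inj := fun w hw => absurd hw (h2 w)
    ord_t := fun w hw => absurd hw (h1 w)
    ord_s := fun w hw => absurd hw (h1 w)
    ord_d := fun w hw => absurd hw (h2 w) }

end tgt

section tr

variable {ι Φ W J C : Type} {M : MeshC ι Φ W} {k : ι} {Vx Ed : Type} {fam : J → C}

/-- the trace of the family `a` on the sphere of a core -/
noncomputable def trace (S : Shell M k Vx Ed) (s : GSt M fam) (a : C) :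
    St S.sph (fun _ : J => true) where
  P := (Set.Finite.subset (s.fin a)
    (show {w | w ∈ s.P ∧ fam (s.lab w) = a ∧ ∃ e, w ∈ S.OnE e} ⊆ _ from
      fun _ hw => ⟨hw.1, hw.2.1⟩)).toFinset
  lab := s.lab
  mu := fun G w => s.mu G.1 w
  mu_mem := by
    intro G w hw hG
    rw [Set.Finite.mem_toFinset] at hw ⊢
    obtain ⟨h1, h2, h3⟩ := hw
    have h4 := s.mu_mem h1 hG
    obtain ⟨e, _, _, he⟩ := (S.onE G.2).1 h4.2
    exact ⟨⟨h4.1, by rw [s.mu_lab h1 hG]; exact h2, e, he⟩, h4.2⟩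
  mu_ne := by
    intro G w hw hG
    rw [Set.Finite.mem_toFinset] at hw
    exact s.mu_ne hw.1 hG
  mu_mu := by
    intro G w hw hG
    rw [Set.Finite.mem_toFinset] at hw
    exact s.mu_mu hw.1 hG
  mu_lab := by
    intro G w hw hG
    rw [Set.Finite.mem_toFinset] at hw
    exact s.mu_lab hw.1 hG
  nc := by
    intro G w x hw hG hx hG' _ h1 h2
    rw [Set.Finite.mem_toFinset] at hw hx
    exact s.nc hw.1 hG hx.1 hG' (by rw [hw.2.1, hx.2.1]) h1 h2

theorem mem_trace {S : Shell M k Vx Ed} {s : GSt M fam} {a : C} {w : W} :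
    w ∈ (trace S s a).P ↔ w ∈ s.P ∧ fam (s.lab w) = a ∧ ∃ e, w ∈ S.OnE e := by
  show w ∈ Set.Finite.toFinset _ ↔ _
  rw [Set.Finite.mem_toFinset]
  exact Iff.rfl

end tr

/-- disjoint windows -/
theorem exists_offsets {C : Type} (n : C → ℕ) (F : Finset C) :
    ∃ (N : C → ℕ) (B : ℕ), (∀ a ∈ F, N a + n a ≤ B) ∧
      ∀ a ∈ F, ∀ b ∈ F, a ≠ b → N a + n a ≤ N b ∨ N b + n b ≤ N a := by
  induction F using Finset.induction_on with
  | empty =>
    exact ⟨fun _ => 0, 0, fun a ha => absurd ha (Finset.notMem_empty a),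
      fun a ha => absurd ha (Finset.notMem_empty a)⟩
  | insert x F hx ih =>
    obtain ⟨N, B, h1, h2⟩ := ih
    have e1 : ∀ a ∈ F, Function.update N x B a = N a := fun a ha =>
      Function.update_of_ne (fun h => hx (by rw [← h]; exact ha)) _ _
    have e2 : Function.update N x B x = B := Function.update_self _ _ _
    refine ⟨Function.update N x B, B + n x, ?_, ?_⟩
    · intro a ha
      rcases Finset.mem_insert.1 ha with rfl | ha
      · rw [e2]
      · rw [e1 a ha]
        have := h1 a ha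
        omega
    · intro a ha b hb hab
      rcases Finset.mem_insert.1 ha with hax | ha'
      · rcases Finset.mem_insert.1 hb with hbx | hb'
        · exact (hab (hax.trans hbx.symm)).elim
        · right
          rw [e1 b hb', hax, e2]
          exact h1 b hb'
      · rcases Finset.mem_insert.1 hb with hbx | hb'
        · left
          rw [e1 a ha', hbx, e2]
          exact h1 a ha'
        · rw [e1 a ha', e1 b hb']
          exact h2 a ha' b hb' hab

variable {ι0 Φ0 W J C : Type} {M0 : MeshC ι0 Φ0 W} {κ : Type} {k0 : κ → ι0}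
  {Vx Ed : κ → Type} {fam : J → C}

/-- the input of the tower theorem -/
structure TIn [∀ c, Fintype (Ed c)] (S : ∀ c, Shell M0 (k0 c) (Vx c) (Ed c)) (s : GSt M0 fam)
    (d : ∀ c (_ : C), St (S c).sph (fun _ : J => true)) where
  sph : ∀ c, (S c).Sph
  circ : ∀ c, (S c).Circ
  con : ∀ c, (S c).Con
  v0 : ∀ c (_ : C), Vx c
  v1 : ∀ c (_ : C), Vx c
  hv0 : ∀ c a, ∃ e b, (S c).en e b = v0 c a
  hv1 : ∀ c a, ∃ e b, (S c).en e b = v1 c a
  rk : ∀ (_ : κ) (_ : C), J → ℝ
  tgt : ∀ c a, Tgt (S c) (v0 c a) (v1 c a)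
    (essSt (S c) (v0 c a) (v1 c a) (trace (S c) s a)) (d c a) (rk c a)
  d_fam : ∀ {c a w}, w ∈ (d c a).P → fam ((d c a).lab w) = a
  d_new : ∀ {c a w}, w ∈ (d c a).P → w ∉ s.P
  d_dis : ∀ {c a b w}, w ∈ (d c a).P → w ∈ (d c b).P → a = b
  fin_c : ∀ c, {a | (trace (S c) s a).P.Nonempty ∨ (d c a).P.Nonempty}.Finite
  fin_a : ∀ a, {c | (trace (S c) s a).P.Nonempty ∨ (d c a).P.Nonempty}.Finite
  on : ∀ w ∈ s.P, ∃ F0, w ∈ M0.On F0


end Crest.Agent.R096.Twr_438
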