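import Crest.Agent.R096.Vin2_527
import Crest.Agent.R096.Rop9_441
import Crest.Agent.R096.Sgo2_298
import Crest.Agent.R096.Lbc1_334
import Crest.Agent.R096.Nmd3_698

-- ▼ part R096/Vin3_527
section

/-!
# Row 96, DOORS-INV (helper527), part 3: the inputs of `vIn_cut` in the machine

* `sdm_out`   : a point on an ordinary cell outside the body of the barrier is not inside (`hroot`);
* `hsep_of`   : posB of `s₃` and the positions of the barrier points of `s₂` give `hsep`;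
* `hfr_s2`    : 298's `bar_frozen` for `Act a := ActR S (R a)`;
* `vIn_mach`  : `VIn` over any `T3`.
-/

set_option autoImplicit false
set_option linter.unusedSectionVars false
set_option linter.unusedVariables false
set_option linter.style.longLine false

open Set Relation Module Topology Filter Metric

namespace Crest.Agent.R096.Vin_527

open Crest.Agent.R096.Brk1_582 Crest.Agent.R096.Brk2_582 Crest.Agent.R096.Brk3_582
open Crest.Agent.R096.Brk5_582 Crest.Agent.R096.Bsp_628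
open Crest.Agent.R096.St_147 Crest.Agent.R096.Seq_213 Crest.Agent.R096.Seq_213.GSt
open Crest.Agent.R096.Lm_117 Crest.Agent.R096.Ac_117 Crest.Agent.R096.Msh_715
open Crest.Agent.R096.Agl5_543 Crest.Agent.R096.Init_543 Crest.Agent.R096.At_241
open Crest.Agent.R096.SkC1_961 (E3 Hom3 FoamD)
open Crest.Agent.R096.Mbf_337 (KJ sb)
open Crest.Agent.R096.Frn_337 (Ti cti Lay)
open Crest.Agent.R096.SkB_662 Crest.Agent.R096.Sgd_298 Crest.Agent.R096.Qdl_662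
  Crest.Agent.R096.Dinv_106 Crest.Agent.R096.Hdr_334 Crest.Agent.R096.Civ_662
  Crest.Agent.R096.Lmx_662 Crest.Agent.R096.Gl_422 Crest.Agent.R096.Cp_298 Crest.Agent.R096.Gm_298
  Crest.Agent.R096.Rop_441
open Crest.Agent.R096.Sec_892 Crest.Agent.R096.SecW_892 Crest.Agent.R096.Cg_501

section out

variable {E : Type} [NormedAddCommGroup E] [NormedSpace ℝ E] [FiniteDimensional ℝ E]
variable {Om : Set E} {ι : Type} {T : Tiling Om ι} {κ : Type} {Kc : κ → Set E} [Nonempty T.Cell]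
variable {h3 : finrank ℝ E = 3} {hH : ∀ c, CoreH T (Kc c)}
  {hdis : ∀ c c', c ≠ c' → Disjoint (Kc c) (Kc c')} {hne : ∃ c, OutK T Kc c}
variable {J C Mo : Type} {fam : J → C}
  {s : GSt (mK h3 hH hdis) (Sum.map fam (id : Mo → Mo))} {lam : Mo → QK (belK T Kc) → ZMod 2}

/-- **a point on an ordinary cell outside the body `Dm` of the barrier `m` is not inside `m`** -/
theorem sdm_out {m : Mo} {Dm : Set E} (hZ : ∀ v ∈ ZK T Kc Dm, lam m v = 0)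
    (hY : ∀ y ∈ s.P, s.lab y = Sum.inr m → y ∈ Dm) {w : E} (hw : w ∈ (lmK h3 hH hdis hne).W1)
    {p : ι} (hp : ∀ k, ¬ P (T.H p) ⊆ Kc k) (hwp : w ∈ P (T.H p))
    (hpD : ∀ x ∈ P (T.H p), x ∉ Dm) : ¬ sdm (lmK h3 hH hdis hne) s lam m w := by
  classical
  have hle := (ed_le_K (h3 := h3) (hH := hH) (hdis := hdis) (hne := hne) hw hp).2 hwp
  have hd := (lmK h3 hH hdis hne).ed_dim w hw
  have hen := (lmK h3 hH hdis hne).en_lt _ hd false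
  have hen0 := (lmK h3 hH hdis hne).en_dim _ hd false
  obtain ⟨c, hc, h1, h2⟩ := (le_tcK hp).1 (hen.le.trans hle)
  have h4 : lam m ((lmK h3 hH hdis hne).en ((lmK h3 hH hdis hne).ed w) false) = 0 := by
    refine hZ _ ⟨⟨c, hc⟩, Or.inl (hpD _ (h2 ?_)), ?_⟩
    · rw [c.set_eq]
      exact T.self_mem_cc _
    · rw [h1]; rfl
  have h5 : (lmK h3 hH hdis hne).toSk.pre (gp s (Sum.inr m)) w = 0 := by
    refine nW_empty fun y hy h => ?_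
    obtain ⟨h6, h7⟩ := mem_gp.1 hy
    have h8 : (lmK h3 hH hdis hne).ed y ≤ tcK T Kc (Sum.inl p) := by
      rw [h.2.1]; exact hle
    exact hpD y ((ed_le_K (h3 := h3) (hH := hH) (hdis := hdis) (hne := hne) h.1 hp).1 h8)
      (hY y h6 h7)
  intro h
  have h6 : lam m ((lmK h3 hH hdis hne).en ((lmK h3 hH hdis hne).ed w) false) +
      (lmK h3 hH hdis hne).toSk.pre (gp s (Sum.inr m)) w = 1 := h
  rw [h4, h5, add_zero] at h6
  exact zero_ne_one h6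

end out

section mach

variable {δ κ0 R c0 : ℝ} {La Om : Set E3} {ι ι3 : Type} {Φ : FoamD δ κ0 R c0 La}
  {T : Tiling Om ι} {T3 : Tiling Om ι3} {f g : E3 → E3} {X : Set Φ.F} {J0 : Φ.F → Set ι}
  {ct' : Φ.F → ι} {r₀ : Φ.F → ℝ} {KK : Ti X → Set E3} {til : ι3 → ι}
  {ε s' l : ℝ} [Nonempty T3.Cell]
  {hH : ∀ k, CoreH T3 (KK k)} {hdis : ∀ k k', k ≠ k' → Disjoint (KK k) (KK k')}
  {L : Φ.F → Finset ℝ} {Mo : Type} {am : Mo → Φ.F}
  {s : GSt (mK fr3 hH hdis) (Sum.map (fun j : JJ Φ L => j.1) (id : Mo → Mo))}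
  {s₃ : GSt (mK fr3 hH hdis) (fun j : JJ Φ L => j.1)}

/-- **no point of another family of `s₃` on an ordinary cell with a barrier point** -/
theorem hsep_of (hLa : IsOpen La) (hR : InitR Φ T f g J0 ct' r₀)
    (hM : Mesh0 T (Pc Φ.F) (bc (F := Φ.F)) (RF Φ r₀) f (KorJ Φ J0) ε) (hl : l + ε < s')
    (posB : ∀ w ∈ s₃.P, ∀ i3, (∀ k', ¬ P (T3.H i3) ⊆ KK k') → w ∈ P (T3.H i3) →
      til i3 ∉ KorJ Φ J0 → ∃ x ∈ P (T.H (til i3)), Φ.lev (s₃.lab w).1 (f x) ∈ Icc s' (1 - s'))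
    (hbar : ∀ m, PosM T f J0 til s (Sum.inr m) (am m) l)
    (hbK : ∀ h ∈ s.P, ∀ m, s.lab h = Sum.inr m → ∀ p, (∀ k, ¬ P (T3.H p) ⊆ KK k) →
      h ∈ P (T3.H p) → til p ∉ KorJ Φ J0) :
    ∀ m p F F' h w, Sum.inl p ∈ (mK fr3 hH hdis).side F →
      Sum.inl p ∈ (mK fr3 hH hdis).side F' → s.At F h → s.lab h = Sum.inr m → s₃.At F' w →
      (s₃.lab w).1 = am m := by
  intro m p F F' h w hp hp' hh hhl hw
  by_contra hne
  obtain ⟨h1, h2⟩ := side_tile hh.2 hp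
  obtain ⟨h4, -⟩ := side_tile hw.2 hp'
  have hK := hbK h hh.1 m hhl p h2 h1
  obtain ⟨x, hx, h5⟩ := posB w hw.1 p h2 h4 hK
  obtain ⟨x', hx', h6⟩ := hbar m h hh.1 hhl p h2 h1 hK _ hne
  have h7 := hM.osc _ hK _ hx _ hx' (s₃.lab w).1
  rw [va_lev hLa hR hK hx, va_lev hLa hR hK hx'] at h7
  have h8 := abs_le.1 h7
  rcases h6 with h6 | h6
  · linarith [h5.1, h5.2, h8.1, h8.2]
  · linarith [h5.1, h5.2, h8.1, h8.2]

variable {hs : BSep s am} {hm : ∀ a, {m | am m = a}.Finite} {j0 : Φ.F → JJ Φ L}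
  {hj0 : ∀ a, (j0 a).1 = a} {Act : Φ.F → Set (ι3 ⊕ Ti X)}
  {far : ∀ a, PN (fun j : JJ Φ L => j.1) am a → Set E3}
  {t : ∀ a, St (mK fr3 hH hdis) (pcol (fun j : JJ Φ L => j.1) am a)}
  {Ph : Φ.F → Finset E3}

/-- **662's `VIn` for the state after CUT, machine inputs** -/
theorem vIn_mach (D : CutR s hs hm j0 hj0 Act far t Ph s₃) (hne : ∃ c, OutK T3 KK c)
    (Q : Quads (ι3 ⊕ Ti X) Φ.F (Init_543.QK (Pc Φ.F))) {b : JJ Φ L → E3}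
    {lam : Mo → QK (belK T3 KK) → ZMod 2}
    (hG : ∀ m, GLab (lmK fr3 hH hdis hne) (gp s (Sum.inr m)) (lam m))
    {Dm : Mo → Set E3} (hZ : ∀ m, ∀ v ∈ ZK T3 KK (Dm m), lam m v = 0)
    (hY : ∀ m, ∀ y ∈ s.P, s.lab y = Sum.inr m → y ∈ Dm m)
    (hb : ∀ j, b j ∈ s₃.P ∧ s₃.lab (b j) = j)
    (hbW : ∀ j, b j ∈ (lmK fr3 hH hdis hne).W1)
    (hbD : ∀ j m, ∃ p, (∀ k, ¬ P (T3.H p) ⊆ KK k) ∧ b j ∈ P (T3.H p) ∧ ∀ x ∈ P (T3.H p), x ∉ Dm m)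
    (hLa : IsOpen La) (hR : InitR Φ T f g J0 ct' r₀)
    (hM : Mesh0 T (Pc Φ.F) (bc (F := Φ.F)) (RF Φ r₀) f (KorJ Φ J0) ε) (hl : l + ε < s')
    (posB : ∀ w ∈ s₃.P, ∀ i3, (∀ k', ¬ P (T3.H i3) ⊆ KK k') → w ∈ P (T3.H i3) →
      til i3 ∉ KorJ Φ J0 → ∃ x ∈ P (T.H (til i3)), Φ.lev (s₃.lab w).1 (f x) ∈ Icc s' (1 - s'))
    (hbar : ∀ m, PosM T f J0 til s (Sum.inr m) (am m) l)
    (hbK : ∀ h ∈ s.P, ∀ m, s.lab h = Sum.inr m → ∀ p, (∀ k, ¬ P (T3.H p) ⊆ KK k) →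
      h ∈ P (T3.H p) → til p ∉ KorJ Φ J0)
    (hact : ∀ a c, Sum.inr c ∉ Act a)
    (hfr : ∀ m F h, s.At F h → s.lab h = Sum.inr m → St.Frozen (mK fr3 hH hdis) (Act (am m)) F →
      ∃ c : Ti X, Sum.inr c ∈ (mK fr3 hH hdis).side F) :
    VIn Q s₃ b am (sdm (lmK fr3 hH hdis hne) s lam) := by
  refine vIn_cut D hne Q b (lmK fr3 hH hdis hne) hG ?_
    (hsep_of hLa hR hM hl posB hbar hbK) hact hfr
  intro m i
  obtain ⟨p, h1, h2, h4⟩ := hbD i m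
  exact ⟨b i, (hb i).1, (hb i).2, sdm_out (hZ m) (hY m) (hbW i) h1 h2 h4⟩

end mach

section sla

open Crest.Agent.R096.Door_501
  Crest.Agent.R096.Sla_184 Crest.Agent.R096.Twr_438 Crest.Agent.R096.Ess3_95
  Crest.Agent.R096.Dfi_539 Crest.Agent.R096.Dfi_471 Crest.Agent.R096.Exa_560
  Crest.Agent.R096.Sgo_298

variable {E : Type} [NormedAddCommGroup E] [NormedSpace ℝ E] [FiniteDimensional ℝ E]
variable {Om : Set E} {ι : Type} {T : Tiling Om ι} {κ : Type} {S : Sla T κ}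
  {h3 : finrank ℝ E = 3}


end sla

end Crest.Agent.R096.Vin_527
end

-- ▼ part R096/Civ3_662

/-!
# R096 (row 96), DOORS (helper662): LEAF BC of the composition, part 3

In the letters of 334's `leafBC_m`:
* `UTm` : the points near the tiny cores; `Dmm` : the body of a barrier;
* `hY_m`  : the barrier points of `s₂` are in the body; `hbD_m` : the roots are outside the bodies;
* `vIn_m` : `VIn` for the machine (527's `vIn_mach`) from the labels of the barriers.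
-/

set_option autoImplicit false
set_option linter.unusedSectionVars false
set_option linter.unusedVariables false
set_option linter.style.longLine false

open Set Topology Filter Metric Module Relation
open scoped Classical

namespace Crest.Agent.R096.Civ_662

open Crest.Agent.R096.Msh_715 Crest.Agent.R096.Coh_184 Crest.Agent.R096.Lab_184
  Crest.Agent.R096.Main_4 Crest.Agent.R096.Agl5_543
  Crest.Agent.R096.Seq_213 Crest.Agent.R096.St_147 Crest.Agent.R096.Door_501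
  Crest.Agent.R096.Twr_438 Crest.Agent.R096.Exa_560
  Crest.Agent.R096.Ess3_95 Crest.Agent.R096.Ess4_95 Crest.Agent.R096.Ac_117 Crest.Agent.R096.Lm_117
  Crest.Agent.R096.Dfi_539 Crest.Agent.R096.Dfi_471 Crest.Agent.R096.Dfo_539
  Crest.Agent.R096.Sla_184 Crest.Agent.R096.Gm_298
  Crest.Agent.R096.Brk1_582 Crest.Agent.R096.Brk2_582 Crest.Agent.R096.Brk3_582
  Crest.Agent.R096.Brk5_582 Crest.Agent.R096.Bsp_628 Crest.Agent.R096.Init_543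
  Crest.Agent.R096.Lv3_471 Crest.Agent.R096.Lv4_471 Crest.Agent.R096.Slt_471
  Crest.Agent.R096.Dib_438 Crest.Agent.R096.Frk_441
  Crest.Agent.R096.Dff_539 Crest.Agent.R096.Frs_662 Crest.Agent.R096.Qdl_662
  Crest.Agent.R096.Cg_501 Crest.Agent.R096.SecW_892 Crest.Agent.R096.Sgd_298
  Crest.Agent.R096.Dfg_539 Crest.Agent.R096.Nmd1_698 Crest.Agent.R096.Lbc_334
  Crest.Agent.R096.Gl_422 Crest.Agent.R096.Lmx_662
open Crest.Agent.R096.Gm_298 (ZK)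
open Crest.Agent.R096.Sgo_298 (RmA rout ActR ga_core)
open Crest.Agent.R096.Bse_344 (BoxP RadV kor_s2)
open Crest.Agent.R096.Mbf_337 (KJ Tiny Cores Fine sb gau)
open Crest.Agent.R096.SkC1_961 (E3 FoamD Hom3)
open Crest.Agent.R096.Frn_337 (Ti)
open Crest.Agent.R096.Ess7_95 (KT)
open Crest.Agent.R096.Ess5_95 (ga)
open Crest.Agent.R096.Dia_316 (nbT)
open Crest.Agent.R096.Bar_106 (Fs Fm Gm)
open Crest.Agent.R096.Bgf_4 (Ext)
open Crest.Agent.R096.Vin_527 (sdm vIn_mach)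

variable {δ κ0 R c0 : ℝ} {La Om : Set E3} {ι : Type} {Φ : FoamD δ κ0 R c0 La} {T : Tiling Om ι}
  {f g : E3 → E3} {κ1 κ2 μ : ℝ} {X : Set Φ.F} {J0 J V : Φ.F → Set ι}
  {ct ct' : Φ.F → ι} {Aj : Φ.F → E3 ≃ᵃ[ℝ] E3} {lam : Φ.F → ℝ} {z : Φ.F → E3}
  {θ : Φ.F → E3 → E3} {φ : Φ.F → E3 → ℝ} {r₀ : Φ.F → ℝ} {ρ1 ρ2 ρ3 ρ4 d : Φ.F → ℝ}
  {L : Φ.F → Finset ℝ}

/-- **the points near the tiny cores** -/
def UTm (Om : Set E3) (Φ : FoamD δ κ0 R c0 La) (f : E3 → E3) (X : Set Φ.F) (ρ3 d : Φ.F → ℝ) :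
    Set E3 :=
  {w | w ∈ Om ∧ ∃ c : Ti X, ga Φ c.1 (f w) ≤ ρ3 c.1 + 8 * d c.1}

/-- **the body of the barriers** at the core `c` -/
def Dmm (Om : Set E3) (Φ : FoamD δ κ0 R c0 La) (f : E3 → E3) (X : Set Φ.F) (ρ4 : Φ.F → ℝ)
    (c : Ti X) : Set E3 :=
  Om ∩ f ⁻¹' {y | ga Φ c.1 y ≤ ρ4 c.1}

variable {Mo : Type} {co : Mo → Ti X} {am : Mo → Φ.F} {Zm : Mo → Set Φ.F}

/-- 334's `hUT` -/
theorem hUT_m (hRm : RmA Φ T f X J0 J V θ ρ1 ρ2 ρ3 ρ4 d) :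
    ∀ w ∈ UTm Om Φ f X ρ3 d, ∃ (c : Ti X) (i : ι), w ∈ P (T.H i) ∧
      ∃ x ∈ P (T.H i), ga Φ c.1 (f x) ≤ ρ3 c.1 + 15 * d c.1 := by
  rintro w ⟨hw, c, hc⟩
  obtain ⟨i, hi⟩ := T.cov w hw
  exact ⟨c, i, hi, w, hi, by linarith [(hRm c.1 c.2).d0]⟩

variable [Nonempty (JJ Φ L)] [Nonempty (JJ Φ L ⊕ Mo)]
  {sB : GSt (meshC T fr3) (Sum.map (fun j : JJ Φ L => j.1) (id : Mo → Mo))}
  {r : JJ Φ L ⊕ Mo → E3} {Sf : JJ Φ L ⊕ Mo → Set E3} {nb : Ti X → Φ.F ⊕ Mo → Prop}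
  {hLa : IsOpen La} {hC : Cores Φ T f κ1 κ2 X J0 J V ct Aj lam z θ φ}
  {n : Ti X → ℕ} {hn : ∀ c, 0 < n c}
  {v0 v1 : ∀ c, Φ.F ⊕ Mo → VxK T (slC hLa hC n hn).K c} {u : Ti X → Φ.F ⊕ Mo → E3 → ℝ}
  {A B : Ti X → Φ.F ⊕ Mo → ℝ}
  {Lx : ∀ c, Φ.F ⊕ Mo → Lev T (frontier ((slC hLa hC n hn).K c)) (JJ Φ L ⊕ Mo)}
  {Tw : Twrs ((slC hLa hC n hn).sh fr3) (slC hLa hC n hn).n
    (outK (slC hLa hC n hn).hH (slC hLa hC n hn).dis sB r)} {l0' : E3 → JJ Φ L ⊕ Mo}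

/-- **the gauge of the barrier points of `s₂`** -/
theorem ga_m (hI : InitR Φ T f g J0 ct' r₀) (hRm : RmA Φ T f X J0 J V θ ρ1 ρ2 ρ3 ρ4 d)
    (D : DIn (slC hLa hC n hn).hH sB r Sf nb v0 v1 u A B)
    (lo : LevOut (Kc := (slC hLa hC n hn).K) sB nb u A B Lx)
    (tt : TwOut (slC hLa hC n hn) fr3 sB r v0 v1 Lx Tw)
    (rec : BR hLa sB f X J θ co am Zm nb v0 v1 u A B μ κ1)
    (hga : ∀ w ∈ sB.P, ∀ m, sB.lab w = Sum.inr m →
      ga Φ (co m).1 (f w) ≤ ρ3 (co m).1 + 15 * d (co m).1) (m : Mo)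
    {w : E3} (hw : w ∈ (s2 (slC hLa hC n hn) fr3 Tw l0').P)
    (hwl : (s2 (slC hLa hC n hn) fr3 Tw l0').lab w = Sum.inr m) :
    ga Φ (co m).1 (f w) ≤ ρ3 (co m).1 + 15 * d (co m).1 := by
  rcases Sla.out_or (S := slC hLa hC n hn) (s2_dim hw).1 with ho | ⟨c, hc⟩
  · obtain ⟨h1, h2, -⟩ := out2 hw ho
    exact hga w h1 m (h2.symm.trans hwl)
  · have h1 := (in2 D lo tt hw hc).1
    rw [hwl] at h1
    have h2 : co m = c := (rec.nbm c m).1 h1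
    subst h2
    have h3 : w ∈ KJ T (J (co m).1) := hc.1
    have h4 := ga_core hLa hI.hm hC hRm (co m).2 h3
    linarith [(hRm (co m).1 (co m).2).d0]

/-- **the barrier points of `s₂` are in the body** -/
theorem hY_m (hI : InitR Φ T f g J0 ct' r₀) (hRm : RmA Φ T f X J0 J V θ ρ1 ρ2 ρ3 ρ4 d)
    (D : DIn (slC hLa hC n hn).hH sB r Sf nb v0 v1 u A B)
    (lo : LevOut (Kc := (slC hLa hC n hn).K) sB nb u A B Lx)
    (tt : TwOut (slC hLa hC n hn) fr3 sB r v0 v1 Lx Tw)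
    (rec : BR hLa sB f X J θ co am Zm nb v0 v1 u A B μ κ1)
    (hga : ∀ w ∈ sB.P, ∀ m, sB.lab w = Sum.inr m →
      ga Φ (co m).1 (f w) ≤ ρ3 (co m).1 + 15 * d (co m).1) (m : Mo)
    (w : E3) (hw : w ∈ (s2 (slC hLa hC n hn) fr3 Tw l0').P)
    (hwl : (s2 (slC hLa hC n hn) fr3 Tw l0').lab w = Sum.inr m) : w ∈ Dmm Om Φ f X ρ4 (co m) := by
  have h1 := ga_m hI hRm D lo tt rec hga m hw hwl
  have hr := hRm (co m).1 (co m).2
  refine ⟨(s2_dim hw).1, ?_⟩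
  show ga Φ (co m).1 (f w) ≤ ρ4 (co m).1
  linarith [hr.r34, hr.d0]

/-- **the roots are outside the bodies** -/
theorem hbD_m (hRm : RmA Φ T f X J0 J V θ ρ1 ρ2 ρ3 ρ4 d)
    (hrV : ∀ j : JJ Φ L, ∃ q, r (Sum.inl j) ∈ P (T.H q) ∧ ∀ c ∉ X, q ∉ V c) (j : JJ Φ L)
    (c : Ti X) : ∃ p : T.RIdx (slC hLa hC n hn).HH,
      (∀ k, ¬ P ((slC hLa hC n hn).T3.H p) ⊆ (slC hLa hC n hn).KK k) ∧
      r (Sum.inl j) ∈ P ((slC hLa hC n hn).T3.H p) ∧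
      ∀ x ∈ P ((slC hLa hC n hn).T3.H p), x ∉ Dmm Om Φ f X ρ4 c := by
  obtain ⟨q, h1, h2⟩ := hrV j
  have hK : ∀ k, ¬ P (T.H q) ⊆ (slC hLa hC n hn).K k := fun k hk =>
    h2 k.1 k.2 (Nr_527.J_sub hC k.1 (Slt_471.sub_KJ_iff.1 hk))
  refine ⟨(slC hLa hC n hn).ot q hK, Lmx_662.ot_not hK, by rw [Sla.ot_P]; exact h1, ?_⟩
  rintro x hx ⟨-, hx2⟩
  rw [Sla.ot_P] at hx
  exact h2 c.1 c.2 ((hRm c.1 c.2).v q ⟨x, hx, hx2⟩)

/-- **`VIn` FOR THE MACHINE** -/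
theorem vIn_m [Nonempty (slC hLa hC n hn).T3.Cell] (N : NumD δ κ0 R c0 κ2 μ κ1)
    (hRm : RmA Φ T f X J0 J V θ ρ1 ρ2 ρ3 ρ4 d) (hI : InitR Φ T f g J0 ct' r₀)
    (hM : Mesh0 T (Pc Φ.F) (bc (F := Φ.F)) (RF Φ r₀) f (KorJ Φ J0) κ1)
    (hnC : ∃ c, OutK (slC hLa hC n hn).T3 (slC hLa hC n hn).KK c)
    (D : DIn (slC hLa hC n hn).hH sB r Sf nb v0 v1 u A B)
    (lo : LevOut (Kc := (slC hLa hC n hn).K) sB nb u A B Lx)
    (tt : TwOut (slC hLa hC n hn) fr3 sB r v0 v1 Lx Tw)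
    (rec : BR hLa sB f X J θ co am Zm nb v0 v1 u A B μ κ1)
    (hga : ∀ w ∈ sB.P, ∀ m, sB.lab w = Sum.inr m →
      ga Φ (co m).1 (f w) ≤ ρ3 (co m).1 + 15 * d (co m).1)
    (hrV : ∀ j : JJ Φ L, ∃ q, r (Sum.inl j) ∈ P (T.H q) ∧ ∀ c ∉ X, q ∉ V c)
    {hs : BSep (s2 (slC hLa hC n hn) fr3 Tw l0') am} {hmf : ∀ a, {m | am m = a}.Finite}
    {j0 : Φ.F → JJ Φ L} {hj0 : ∀ a, (j0 a).1 = a}
    {far : ∀ a, PN (fun j : JJ Φ L => j.1) am a → Set E3}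
    {t : ∀ a, St ((slC hLa hC n hn).mn fr3) (pcol (fun j : JJ Φ L => j.1) am a)}
    {Ph : Φ.F → Finset E3} {s₃ : GSt ((slC hLa hC n hn).mn fr3) (fun j : JJ Φ L => j.1)}
    (hfar : ∀ a, ∀ i : PN (fun j : JJ Φ L => j.1) am a, ∀ j, i.1 = Sum.inl j →
      r (Sum.inl j) ∈ far a i)
    (DR : CutR (s2 (slC hLa hC n hn) fr3 Tw l0') hs hmf j0 hj0
      (fun _ => ActR (slC hLa hC n hn) (Rdc T f Xᶜ (rout ρ3 d))) far t Ph s₃)
    (hB : PosS (hH := (Lay_316.lay_sla hLa hC n hn).core) Φ T f (μ / 4) J0 (slC hLa hC n hn) s₃)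
    (Q : Quads (T.RIdx (slC hLa hC n hn).HH ⊕ Ti X) Φ.F (Init_543.QK (Pc Φ.F)))
    {lm : Mo → Crest.Agent.R096.Lm_117.QK (belK (slC hLa hC n hn).T3 (slC hLa hC n hn).KK) → ZMod 2}
    (hG : ∀ m, GLab (lmK fr3 (Lay_316.lay_sla hLa hC n hn).core (Sla.dis_KK (S := slC hLa hC n hn))
      hnC) (Gl_422.gp (s2 (slC hLa hC n hn) fr3 Tw l0') (Sum.inr m)) (lm m))
    (hZ : ∀ m, ∀ v ∈ ZK (slC hLa hC n hn).T3 (slC hLa hC n hn).KK (Dmm Om Φ f X ρ4 (co m)),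
      lm m v = 0) :
    VIn (hH := (Lay_316.lay_sla hLa hC n hn).core) (hdis := Sla.dis_KK) Q s₃
      (fun j => r (Sum.inl j)) am
      (sdm (lmK fr3 (Lay_316.lay_sla hLa hC n hn).core (Sla.dis_KK (S := slC hLa hC n hn)) hnC)
        (s2 (slC hLa hC n hn) fr3 Tw l0') lm) := by
  have D3 := cutOut_of DR
  have hb := base_S3 DR hfar
  refine vIn_mach (T := T) (f := f) (g := g) (J0 := J0) (ct' := ct') (r₀ := r₀)
    (til := fun p : T.RIdx (slC hLa hC n hn).HH => p.tile) (Dm := fun m => Dmm Om Φ f X ρ4 (co m))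
    DR hnC Q hG hZ (fun m y hy hl => hY_m hI hRm D lo tt rec hga m y hy hl) hb
    (fun j => Dfn_416.on_S3 D3 _ (hb j).1)
    (fun j m => hbD_m hRm hrV j (co m)) hLa hI hM N.vin hB
    (fun m => posM_m N hRm D lo tt rec hga m) ?_ (fun _ _ => Sgo_298.inr_ActR) ?_
  · intro h hh m hl p hp hhp
    obtain ⟨x, hx, hxg, -⟩ := box_m N hRm D lo tt rec hga m hh hl hhp
    have hr := hRm (co m).1 (co m).2
    have hV : p.tile ∈ V (co m).1 := hr.v p.tile ⟨x, hx, hxg.trans hr.r34⟩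
    rintro ⟨c, hc⟩
    exact kor_s2 hLa hC n hn p hp ⟨(co m).1, (co m).2, hV⟩ c hc
  · intro m F h hA hl hFz
    exact ⟨co m, Sgo_298.bar_frozen lo tt (fun c m h => (rec.nbm c m).1 h)
      (N := Ndc T f J0 Xᶜ (rout ρ3 d) d) (R := Rdc T f Xᶜ (rout ρ3 d))
      (Sgo_298.tlr_out hC hRm).ndc_sub (fun q hq c => Sgo_298.core_ndc hLa hI.hm hC hRm hq c)
      (fun w hw hl q hq => Sgo_298.ndc_of (co m).2 hq (hga w hw m hl)) hA hl hFz⟩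

end Crest.Agent.R096.Civ_662
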