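import Crest.Agent.R096.Init12_543
import Crest.Agent.R096.Etg7_163

-- ▼ part R096/Lbp1_438
section

/-! Row 96 (helper438), DOORS-ESS, LAB-POS, part 1: facts in the target: connected parts of the walls,
shells from a gauge sphere to the walls, connectivity of the touching graph off one brick -/

set_option autoImplicit false
set_option linter.unusedSectionVars false
set_option linter.style.haveILetI false

open Set Topology Filter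

namespace Crest.Agent.R096.Lbp_438

open Crest.Agent.R096.Coh_184 Crest.Agent.R096.Brk1_582 Crest.Agent.R096.Brk2_582
open Crest.Agent.R096.Bsp_628 Crest.Agent.R096.Brk3_582 Crest.Agent.R096.Vb_965
open Crest.Agent.R096.Exc_965 Crest.Agent.R96.Push_899 Crest.Agent.R096.SkC1_961
open Crest.Agent.R096.Sphg_316 Crest.Agent.R096.Etg_163
open Crest.Agent.R096.Pse_316 (gau_eq bod_brick)

variable {δ κ0 R c0 : ℝ} {La : Set E3} (Φ : FoamD δ κ0 R c0 La)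

/-- the wall of the brick `c` -/
def Wl (c : Φ.F) : Set E3 := {q | q ∈ Pc Φ.F c ∧ ∃ d, d ≠ c ∧ q ∈ Pc Φ.F d}

variable {Φ} {a c d e : Φ.F} {t θ r ρ : ℝ}

theorem preconn_Wl (hLa : IsOpen La) : IsPreconnected (Wl Φ c) := by
  have F := Brk3_582.foam Φ.bf hLa
  have h3 : Module.finrank ℝ E3 = 3 := by simp [E3]
  have hD := isPreconnected_Lset F h3 (cell_nonempty Φ c) le_rfl one_pos
  rw [Lset_zero F] at hD
  exact hD

theorem frontier_Wl (hLa : IsOpen La) : frontier (Pc Φ.F c) = Wl Φ c :=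
  frontier_eq (Brk3_582.foam Φ.bf hLa) c

theorem Wl_nonempty (hLa : IsOpen La) : (Wl Φ c).Nonempty := by
  rw [← frontier_Wl hLa]
  have F := Brk3_582.foam Φ.bf hLa
  have h : Nontrivial E3 := inferInstance
  exact nonempty_frontier_iff.2 ⟨cell_nonempty Φ c, fun h =>
    noncompact_univ E3 (h ▸ F.cpt c)⟩

theorem lev_wall (hLa : IsOpen La) {q : E3} (hq : q ∈ Wl Φ c) :
    Φ.Psi q = q ∧ Φ.lev a q = sc (Pc Φ.F) (bc (F := Φ.F)) q a := by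
  obtain ⟨h1, d, h2, h3⟩ := hq
  have h4 := ((pushD Φ hLa).wall c d h2 q h1 h3).2
  exact ⟨h4, by unfold FoamD.lev; rw [h4]⟩

/-- the level of `a` is one on the cells which do not touch `a` -/
theorem sc_one (hLa : IsOpen La) (h : ¬ (Pc Φ.F a ∩ Pc Φ.F c).Nonempty) {q : E3}
    (hq : q ∈ Pc Φ.F c) : sc (Pc Φ.F) (bc (F := Φ.F)) q a = 1 := by
  have F := Brk3_582.foam Φ.bf hLa
  have hqL := F.sub c hq
  by_contra h1
  apply h
  obtain ⟨z, hz⟩ := F.sc_lt_one_fc hqL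
  refine ⟨z, mem_fc.1 hz a (lt_of_le_of_ne (F.sc_le_one hqL a) h1), mem_fc.1 hz c ?_⟩
  show sc _ _ q c < 1
  rw [(F.sc_eq_zero hqL).2 hq]; exact one_pos

/-- **the part `{θ ≤ s_a}` of the wall of `c` is connected**, for all `c ≠ a` -/
theorem preconn_hi (hLa : IsOpen La) (hac : a ≠ c) (h0 : 0 < θ) (h1 : θ < 1) :
    IsPreconnected (Dge (Pc Φ.F) (bc (F := Φ.F)) c a θ) ∧
      (Dge (Pc Φ.F) (bc (F := Φ.F)) c a θ).Nonempty := by
  by_cases h : (Pc Φ.F a ∩ Pc Φ.F c).Nonempty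
  · exact preconn_Dge Φ.bf hLa hac h h0 h1
  · have h2 : Dge (Pc Φ.F) (bc (F := Φ.F)) c a θ = Wl Φ c := by
      ext q
      refine ⟨fun hq => ⟨hq.1, hq.2.1⟩, fun hq => ⟨hq.1, hq.2, ?_⟩⟩
      rw [sc_one hLa h hq.1]; exact h1.le
    rw [h2]
    exact ⟨preconn_Wl hLa, Wl_nonempty hLa⟩

theorem Dge_sub_Wl : Dge (Pc Φ.F) (bc (F := Φ.F)) c a θ ⊆ Wl Φ c := fun _ h => ⟨h.1, h.2.1⟩

theorem Dle_sub_Wl : Dle (Pc Φ.F) (bc (F := Φ.F)) c a θ ⊆ Wl Φ c := fun _ h => ⟨h.1, h.2.1⟩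

/-- the centre of the wall of `c` and `d` -/
theorem bb_mem (hLa : IsOpen La) (hac : a ≠ c) (had : a ≠ d) (hcd : c ≠ d)
    (h : (Pc Φ.F c ∩ Pc Φ.F d).Nonempty) (h1 : θ ≤ 1) :
    bc (F := Φ.F) {c, d} ∈ Dge (Pc Φ.F) (bc (F := Φ.F)) c a θ ∧
      bc (F := Φ.F) {c, d} ∈ Dge (Pc Φ.F) (bc (F := Φ.F)) d a θ := by
  classical
  have F := Brk3_582.foam Φ.bf hLa
  obtain ⟨y, hy1, hy2⟩ := h
  have hA : (fc (Pc Φ.F) {c, d}).Nonempty := by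
    refine ⟨y, mem_fc.2 fun x hx => ?_⟩
    rcases hx with rfl | hx
    · exact hy1
    · rw [mem_singleton_iff.1 hx]; exact hy2
  have hAn : ({c, d} : Set Φ.F).Nonempty := ⟨c, by simp⟩
  have hm := mem_fc.1 (F.mem _ hAn hA)
  have hc := hm c (by simp)
  have hd := hm d (by simp)
  have hs := F.sc_b hAn hA a
  rw [if_neg (by simp [hac, had])] at hs
  exact ⟨⟨hc, ⟨d, hcd.symm, hd⟩, by rw [hs]; exact h1⟩, ⟨hd, ⟨c, hcd, hc⟩, by rw [hs]; exact h1⟩⟩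

/-- **the touching graph off one brick is connected** -/
theorem good_all (hLa : IsOpen La) (hLc : IsPreconnected La) {G : Φ.F → Prop} (he : e ≠ a)
    (hGe : G e) (hst : ∀ c d, c ≠ a → d ≠ a → (Pc Φ.F c ∩ Pc Φ.F d).Nonempty → G c → G d) :
    ∀ c, c ≠ a → G c := by
  classical
  have F := Brk3_582.foam Φ.bf hLa
  have hne : ∀ c, (Pc Φ.F c).Nonempty := cell_nonempty Φ
  -- one neighbour
  have h1 : ∃ c, c ≠ a ∧ (Pc Φ.F c ∩ Pc Φ.F a).Nonempty ∧ G c := by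
    by_contra hcon
    push Not at hcon
    have h2 := Init_543.touch_induction F hLc hne (X := {c | c ≠ a ∧ G c}) ?_ (a := e) ⟨he, hGe⟩ a
    · exact h2.1 rfl
    · rintro c ⟨hc, hG⟩ c' hcc
      have hc' : c' ≠ a := by
        rintro rfl
        exact hcon c hc hcc hG
      exact ⟨hc', hst c c' hc hc' hcc hG⟩
  obtain ⟨c1, hc1, ⟨y1, hy1, hy1'⟩, hG1⟩ := h1
  -- all neighbours
  have hfin := F.finite_meet (F.cpt a) (F.sub a)
  have h2 : ∀ c, c ≠ a → (Pc Φ.F c ∩ Pc Φ.F a).Nonempty → G c := by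
    intro c2 hc2 hn2
    by_contra hG2
    obtain ⟨y2, hy2, hy2'⟩ := hn2
    have hcl : ∀ Q : Φ.F → Prop, IsClosed (⋃ c ∈ {c | (Pc Φ.F c ∩ Pc Φ.F a).Nonempty ∧ c ≠ a ∧
        Q c}, Pc Φ.F c) := fun Q =>
      (hfin.subset fun c hc => hc.1).isClosed_biUnion fun c _ => (F.cpt c).isClosed
    have h3 := isPreconnected_closed_iff.1 (preconn_Wl (c := a) hLa) _ _ (hcl G) (hcl fun c => ¬ G c)
      (by
        rintro q ⟨hqa, d, hda, hqd⟩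
        by_cases hG : G d
        · exact Or.inl (mem_iUnion₂.2 ⟨d, ⟨⟨q, hqd, hqa⟩, hda, hG⟩, hqd⟩)
        · exact Or.inr (mem_iUnion₂.2 ⟨d, ⟨⟨q, hqd, hqa⟩, hda, hG⟩, hqd⟩))
      ⟨y1, ⟨hy1', c1, hc1, hy1⟩, mem_iUnion₂.2 ⟨c1, ⟨⟨y1, hy1, hy1'⟩, hc1, hG1⟩, hy1⟩⟩
      ⟨y2, ⟨hy2', c2, hc2, hy2⟩, mem_iUnion₂.2 ⟨c2, ⟨⟨y2, hy2, hy2'⟩, hc2, hG2⟩, hy2⟩⟩
    obtain ⟨y, -, h4, h5⟩ := h3
    obtain ⟨c, hc, hyc⟩ := mem_iUnion₂.1 h4
    obtain ⟨d, hd, hyd⟩ := mem_iUnion₂.1 h5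
    exact hd.2.2 (hst c d hc.2.1 hd.2.1 ⟨y, hyc, hyd⟩ hc.2.2)
  have h3 : ∀ c, c ∈ {c | c = a ∨ G c} := by
    refine Init_543.touch_induction F hLc hne ?_ (a := a) (Or.inl rfl)
    rintro c hc c' hcc
    by_cases hc'a : c' = a
    · exact Or.inl hc'a
    · right
      by_cases hca : c = a
      · subst hca
        exact h2 c' hc'a (by rwa [inter_comm])
      · exact hst c c' hca hc'a hcc (hc.resolve_left hca)
  exact fun c hc => (h3 c).resolve_left hc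

/-! ### shells up to the wall -/

section shell

variable (hLa : IsOpen La) (hpt : (Φ.B c).lo = (Φ.B c).hi) (hr1 : r < 1)
  (hray : Mbf_337.RayTo Φ c r) (h0 : 0 < ρ) (hρ : ρ ≤ r)
include hLa hpt hr1 hray h0 hρ

/-- **the shell between a gauge sphere and the wall** over a connected part of the wall -/
theorem shell_wall {D : Set E3} (hDs : D ⊆ Wl Φ c)
    (hDc : IsCompact D) (hD : IsPreconnected D) :
    IsPreconnected {y | y ∈ c.1.set ∧ Φ.Psi y ∈ D ∧ ρ ≤ gg Φ c y} ∧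
      D ⊆ {y | y ∈ c.1.set ∧ Φ.Psi y ∈ D ∧ ρ ≤ gg Φ c y} := by
  have F := Brk3_582.foam Φ.bf hLa
  have S := str_of Φ hLa hpt (h0.trans_le hρ) hr1 hray
  have h1 : {y | y ∈ c.1.set ∧ Φ.Psi y ∈ D ∧ ρ ≤ gg Φ c y} =
      {y | y ∈ Pc Φ.F c ∧ Φ.Psi y ∈ D ∧
        ρ ≤ mus (Pc Φ.F) Φ.Psi (muD Φ) c (Φ.B c).lo r y ∧
        mus (Pc Φ.F) Φ.Psi (muD Φ) c (Φ.B c).lo r y ≤ 1} := by
    ext y
    constructor
    · rintro ⟨h2, h3, h4⟩
      rw [gg_eq] at h4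
      refine ⟨h2, h3, (le_mus_iff F (pushD Φ hLa) S h2 hρ).2 h4,
        ((push_mus F (pushD Φ hLa) S).mu_mem y (F.sub c h2)).2⟩
    · rintro ⟨h2, h3, h4, -⟩
      refine ⟨h2, h3, ?_⟩
      rw [gg_eq]
      exact (le_mus_iff F (pushD Φ hLa) S h2 hρ).1 h4
  refine ⟨?_, ?_⟩
  · rw [h1]
    exact (preconn_shell F (push_mus F (pushD Φ hLa) S) h0 (hρ.trans hr1.le) le_rfl
      (fun q hq => hDs hq) hDc hD).1
  · intro q hq
    obtain ⟨h2, d, h3, h4⟩ := hDs hq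
    refine ⟨h2, ?_, ?_⟩
    · rw [(lev_wall (a := c) hLa (hDs hq)).1]; exact hq
    · rw [gg_eq, Ng_wall F (pushD Φ hLa) S h3 h2 h4]
      exact hρ.trans hr1.le

end shell

end Crest.Agent.R096.Lbp_438
end

-- ▼ part R096/Lbp2_438
section

/-! Row 96 (helper438), DOORS-ESS, LAB-POS, part 2: **labels of a sheet near the walls and near the
tiny cores** (`LabP`), from the label data `Dat` of one sheet -/

set_option autoImplicit false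
set_option linter.unusedSectionVars false
set_option linter.style.haveILetI false

open Set Topology Filter

namespace Crest.Agent.R096.Lbp_438

open Crest.Agent.R096.Coh_184 Crest.Agent.R096.Brk1_582 Crest.Agent.R096.Brk2_582
open Crest.Agent.R096.Bsp_628 Crest.Agent.R096.Brk3_582 Crest.Agent.R096.Vb_965
open Crest.Agent.R096.Exc_965 Crest.Agent.R96.Push_899 Crest.Agent.R096.SkC1_961
open Crest.Agent.R096.Sphg_316 Crest.Agent.R096.Etg_163 Crest.Agent.R096.Main_4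
open Crest.Agent.R096.Msh_715
open Crest.Agent.R096.Pse_316 (gau_eq bod_brick)

variable {δ κ0 R c0 : ℝ} {La Om : Set E3} {ι : Type}

/-- **LAB-POS near the core `c`** (outside every gauge ball which contains the tiles `J0 c`) -/
def LabP (Φ : FoamD δ κ0 R c0 La) (T : Tiling Om ι) (f : E3 → E3) (J0 : Φ.F → Set ι) (κ1 : ℝ)
    (a : Φ.F) (t : ℝ) (lm : E3 → ZMod 2) (c : Φ.F) : Prop :=
  ∀ ρ r : ℝ, 0 < ρ → ρ ≤ r → r < 1 → Mbf_337.RayTo Φ c r →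
    (∀ x ∈ Mbf_337.KJ T (J0 c), Mbf_337.gau c.1 (Φ.B c).lo (f x) < ρ) →
    ∀ q, ∀ x ∈ Msh_715.P (T.H q), f x ∈ c.1.set → ρ ≤ Mbf_337.gau c.1 (Φ.B c).lo (f x) →
      ∀ v ∈ Msh_715.P (T.H q), T.dim v = 0 →
        (Φ.lev a (f x) < t - κ1 → lm v = 1) ∧ (t + κ1 < Φ.lev a (f x) → lm v = 0)

/-- **label data** of one sheet of the brick `a` at the level `t`: `Q` = its points, `lm` = label -/
structure Dat (Φ : FoamD δ κ0 R c0 La) (T : Tiling Om ι) (f : E3 → E3) (J0 : Φ.F → Set ι) (κ1 : ℝ)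
    (a : Φ.F) (t : ℝ) (Q : Finset E3) (lm : E3 → ZMod 2) : Prop where
  hf : Hom3 f Om La
  k0 : 0 ≤ κ1
  t0 : κ1 < t
  t1 : t + κ1 < 1
  lab : IsLab T Q lm
  inside : ∀ c, ∀ q ∈ J0 c, ∀ x ∈ Msh_715.P (T.H q), ∀ k, c.1.lo k < f x k ∧ f x k < c.1.hi k
  lev : ∀ q, (∀ c, q ∉ J0 c) → ∀ x ∈ Msh_715.P (T.H q), ∀ y ∈ Msh_715.P (T.H q),
    |Φ.lev a (f y) - Φ.lev a (f x)| ≤ κ1
  pts : ∀ u ∈ Q, Φ.lev a (f u) = t
  off : ∀ u ∈ Q, f u ∉ Pc Φ.F a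
  cell : ∀ q, (∀ c, q ∉ J0 c) → ∀ x ∈ Msh_715.P (T.H q), f x ∈ Pc Φ.F a → Φ.lev a (f x) = 0
  one : ∃ v ∈ VM T {x ∈ Om | f x ∈ Pc Φ.F a}, lm v = 1
  far : ∃ e, e ≠ a ∧ ∀ v ∈ VM T {x ∈ Om | f x ∈ Pc Φ.F e}, lm v = 0

variable {Φ : FoamD δ κ0 R c0 La} {T : Tiling Om ι} {f : E3 → E3} {J0 : Φ.F → Set ι} {κ1 : ℝ}
variable {a c : Φ.F} {t θ r ρ : ℝ} {Q : Finset E3} {lm : E3 → ZMod 2}

/-- a point of the open brick `c` is in no other brick -/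
theorem eq_of_open (hLa : IsOpen La) {y : E3} (hy : ∀ k, c.1.lo k < y k ∧ y k < c.1.hi k)
    {d : Φ.F} (hd : y ∈ Pc Φ.F d) : d = c := by
  by_contra h
  have h1 : y ∈ Pc Φ.F c := interior_subset (show y ∈ interior c.1.set from interior_box.2 hy)
  have h2 : y ∈ frontier (Pc Φ.F c) := by
    rw [frontier_Wl hLa]; exact ⟨h1, d, h, hd⟩
  have h3 : y ∈ interior (Pc Φ.F c) := interior_box.2 hy
  exact disjoint_interior_frontier.le_bot ⟨h3, h2⟩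

namespace Dat

variable (D : Dat Φ T f J0 κ1 a t Q lm)
include D

theorem not_J0_wall (hLa : IsOpen La) {x : E3} (hx : f x ∈ Wl Φ c) {q : ι}
    (hq : x ∈ Msh_715.P (T.H q)) : ∀ d, q ∉ J0 d := by
  intro d hd
  obtain ⟨h1, c', h2, h3⟩ := hx
  have h4 := D.inside d q hd x hq
  have h5 := eq_of_open hLa h4 h1
  have h6 := eq_of_open hLa h4 h3
  exact h2 (h6.trans h5.symm)

/-- the label is constant on a connected set all tiles of which are fine and far from the level -/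
theorem const {A : Set E3} (hA : IsPreconnected {x ∈ Om | f x ∈ A})
    (hq : ∀ q x, x ∈ Msh_715.P (T.H q) → f x ∈ A →
      (∀ c, q ∉ J0 c) ∧ κ1 < |t - Φ.lev a (f x)|) {v w : E3}
    (hv : v ∈ VM T {x ∈ Om | f x ∈ A}) (hw : w ∈ VM T {x ∈ Om | f x ∈ A}) : lm v = lm w := by
  refine D.lab.const_geom hA (fun x hx => hx.1) (fun q hqA u hu huq => ?_) hv hw
  obtain ⟨x, hxq, hxO, hxA⟩ := hqA
  obtain ⟨h1, h2⟩ := hq q x hxq hxA
  have h3 := D.lev q h1 x hxq u huq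
  rw [D.pts u hu] at h3
  linarith

theorem exists_pre {y : E3} (hy : y ∈ La) : ∃ x ∈ Om, f x = y := by
  obtain ⟨g, a1, a2, a3, a4, a5, a6⟩ := D.hf
  exact ⟨g y, a2 hy, a4 y hy⟩

theorem exists_vm {y : E3} (hy : y ∈ La) : ∃ v, ∀ A : Set E3, y ∈ A → v ∈ VM T {x ∈ Om | f x ∈ A} := by
  obtain ⟨x, hx, hxy⟩ := D.exists_pre hy
  obtain ⟨q, hq⟩ := T.cov x hx
  obtain ⟨v, hv, h0⟩ := exists_vertex_tile hq
  exact ⟨v, fun A hA => mem_VM hq ⟨hx, by rw [hxy]; exact hA⟩ hv h0⟩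

/-- the label is one at `P a` -/
theorem at_cell (hLa : IsOpen La) {v : E3} (hv : v ∈ VM T {x ∈ Om | f x ∈ Pc Φ.F a}) : lm v = 1 := by
  have F := Brk3_582.foam Φ.bf hLa
  obtain ⟨w, hw, h1⟩ := D.one
  rw [← h1]
  refine D.lab.const_geom (isPreconnected_hom D.hf (F.cvx a).isPreconnected (F.sub a))
    (fun x hx => hx.1) (fun q hqA u hu huq => ?_) hv hw
  obtain ⟨x, hxq, hxO, hxA⟩ := hqA
  by_cases h : ∀ c, q ∉ J0 c
  · -- a fine tile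
    have h3 := D.lev q h x hxq u huq
    rw [D.pts u hu] at h3
    rw [D.cell q h x hxq hxA, sub_zero] at h3
    have h6 := abs_le.1 h3
    linarith [h6.2, D.t0]
  · push Not at h
    obtain ⟨d, hd⟩ := h
    have h4 := eq_of_open hLa (D.inside d q hd x hxq) hxA
    subst h4
    exact D.off u hu (interior_subset (show f u ∈ interior a.1.set from
      interior_box.2 (D.inside a q hd u huq)))

/-- the label is one at the walls below the level -/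
theorem wall_lo (hLa : IsOpen La) (hac : a ≠ c) (hne : (Pc Φ.F a ∩ Pc Φ.F c).Nonempty)
    (h0 : 0 ≤ θ) (hθ : θ < t - κ1) {v : E3}
    (hv : v ∈ VM T {x ∈ Om | f x ∈ Dle (Pc Φ.F) (bc (F := Φ.F)) c a θ}) : lm v = 1 := by
  have F := Brk3_582.foam Φ.bf hLa
  have ht1 := D.t1
  have hk := D.k0
  obtain ⟨y, hy1, hy2⟩ := hne
  obtain ⟨w, hw⟩ := D.exists_vm (F.sub c hy2)
  have hyD : y ∈ Dle (Pc Φ.F) (bc (F := Φ.F)) c a θ := by
    refine ⟨hy2, ⟨a, hac, hy1⟩, ?_⟩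
    rw [(F.sc_eq_zero (F.sub a hy1)).2 hy1]; exact h0
  rw [← D.at_cell hLa (hw _ hy1)]
  refine D.const (isPreconnected_hom D.hf (preconn_Dle F hac ⟨y, hy1, hy2⟩ h0 (by linarith)).1
    fun q hq => F.sub c hq.1) (fun q x hxq hx => ⟨D.not_J0_wall hLa (Dle_sub_Wl hx) hxq, ?_⟩) hv
    (hw _ hyD)
  rw [(lev_wall (a := a) hLa (Dle_sub_Wl hx)).2]
  have := hx.2.2
  exact lt_of_lt_of_le (by linarith) (le_abs_self _)

/-- the label is zero at the walls above the level -/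
theorem wall_hi (hLa : IsOpen La) (hLc : IsPreconnected La) (hθ : t + κ1 < θ) (hθ1 : θ < 1)
    (hac : a ≠ c) {v : E3}
    (hv : v ∈ VM T {x ∈ Om | f x ∈ Dge (Pc Φ.F) (bc (F := Φ.F)) c a θ}) : lm v = 0 := by
  have F := Brk3_582.foam Φ.bf hLa
  have ht1 := D.t1
  have ht0 := D.t0
  have hk := D.k0
  have hconst : ∀ c, a ≠ c → ∀ v ∈ VM T {x ∈ Om | f x ∈ Dge (Pc Φ.F) (bc (F := Φ.F)) c a θ},
      ∀ w ∈ VM T {x ∈ Om | f x ∈ Dge (Pc Φ.F) (bc (F := Φ.F)) c a θ}, lm v = lm w := by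
    intro c hac v hv w hw
    refine D.const (isPreconnected_hom D.hf (preconn_hi hLa hac (by linarith) hθ1).1
      fun q hq => F.sub c hq.1) (fun q x hxq hx => ⟨D.not_J0_wall hLa (Dge_sub_Wl hx) hxq, ?_⟩)
      hv hw
    rw [(lev_wall (a := a) hLa (Dge_sub_Wl hx)).2]
    have := hx.2.2
    exact lt_of_lt_of_le (by linarith) (neg_le_abs _)
  obtain ⟨e, hea, he⟩ := D.far
  refine good_all hLa hLc (a := a) (e := e)
    (G := fun c => ∀ v ∈ VM T {x ∈ Om | f x ∈ Dge (Pc Φ.F) (bc (F := Φ.F)) c a θ}, lm v = 0)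
    hea ?_ ?_ c hac.symm v hv
  · intro v hv
    have h1 : {x ∈ Om | f x ∈ Dge (Pc Φ.F) (bc (F := Φ.F)) e a θ} ⊆ {x ∈ Om | f x ∈ Pc Φ.F e} :=
      fun x hx => ⟨hx.1, hx.2.1⟩
    exact he v (VM_mono h1 hv)
  · intro c d hc hd hcd hG v hv
    by_cases h : c = d
    · subst h; exact hG v hv
    · obtain ⟨h1, h2⟩ := bb_mem hLa (θ := θ) hc.symm hd.symm h hcd hθ1.le
      obtain ⟨w, hw⟩ := D.exists_vm (F.sub c h1.1)
      rw [hconst d hd.symm v hv w (hw _ h2)]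
      exact hG w (hw _ h1)

/-- **LAB-POS near a point hole** -/
theorem labP (hLa : IsOpen La) (hLc : IsPreconnected La) (hac : a ≠ c)
    (hne : (Pc Φ.F a ∩ Pc Φ.F c).Nonempty) (hpt : (Φ.B c).lo = (Φ.B c).hi) :
    LabP Φ T f J0 κ1 a t lm c := by
  intro ρ r h0 hρ hr1 hray hJ q x hxq hxc hxρ v hv hv0
  have F := Brk3_582.foam Φ.bf hLa
  have ht1 := D.t1
  have ht0 := D.t0
  have hk := D.k0
  have hS := str_of Φ hLa hpt (h0.trans_le hρ) hr1 hray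
  -- the push of a point of the shell is on the wall
  have hwall : ∀ y ∈ c.1.set, ρ ≤ Mbf_337.gau c.1 (Φ.B c).lo y → Φ.Psi y ∈ Wl Φ c := by
    intro y hy h
    have h' : ρ ≤ gg Φ c y := h
    rw [gg_eq] at h'
    exact (pushD Φ hLa).mem c y hy (pos_of F (pushD Φ hLa) hS hy
      (hS.bod.pos.1 (h0.trans_le h')))
  -- tiles at points of the shell are fine
  have hfine : ∀ q x, x ∈ Msh_715.P (T.H q) → f x ∈ c.1.set →
      ρ ≤ Mbf_337.gau c.1 (Φ.B c).lo (f x) → ∀ d, q ∉ J0 d := by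
    intro q x hxq hxc hxρ d hd
    have h1 := eq_of_open hLa (D.inside d q hd x hxq) hxc
    subst h1
    have h2 := hJ x (mem_biUnion hd hxq)
    linarith
  have hO : x ∈ Om := T.sub q hxq
  constructor
  · intro hlev
    set θ := max (Φ.lev a (f x)) 0 with hθ
    have hθ0 : 0 ≤ θ := le_max_right _ _
    have hθ1 : θ < t - κ1 := max_lt hlev (by linarith)
    obtain ⟨h1, h2⟩ := shell_wall hLa hpt hr1 hray h0 hρ
      (Dle_sub_Wl (c := c) (a := a) (θ := θ)) (isCompact_Dle F)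
      (preconn_Dle F hac hne hθ0 (by linarith)).1
    obtain ⟨y, hy⟩ := (preconn_Dle F (t := θ) hac hne hθ0 (by linarith)).2
    obtain ⟨w, hw⟩ := D.exists_vm (F.sub c hy.1)
    rw [← D.wall_lo hLa hac hne hθ0 hθ1 (hw _ hy)]
    refine D.const (isPreconnected_hom D.hf h1 fun q hq => F.sub c hq.1)
      (fun q x hxq hx => ⟨hfine q x hxq hx.1 hx.2.2, ?_⟩) ?_ (hw _ (h2 hy))
    · have h3 : Φ.lev a (f x) ≤ θ := hx.2.1.2.2
      exact lt_of_lt_of_le (by linarith) (le_abs_self _)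
    · refine mem_VM hxq ⟨hO, hxc, ?_, hxρ⟩ hv hv0
      obtain ⟨g1, g2⟩ := hwall _ hxc hxρ
      exact ⟨g1, g2, le_max_left _ _⟩
  · intro hlev
    -- a level between
    obtain ⟨θ, hθ0, hθ1⟩ : ∃ θ, t + κ1 < θ ∧ θ < min (Φ.lev a (f x)) 1 :=
      exists_between (lt_min hlev ht1)
    have hθx : θ < Φ.lev a (f x) := hθ1.trans_le (min_le_left _ _)
    have hθ1' : θ < 1 := hθ1.trans_le (min_le_right _ _)
    have hd := preconn_hi (θ := θ) hLa hac (by linarith) hθ1'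
    obtain ⟨h1, h2⟩ := shell_wall hLa hpt hr1 hray h0 hρ
      (Dge_sub_Wl (c := c) (a := a) (θ := θ)) (isCompact_Dge F) hd.1
    obtain ⟨y, hy⟩ := hd.2
    obtain ⟨w, hw⟩ := D.exists_vm (F.sub c hy.1)
    rw [← D.wall_hi hLa hLc hθ0 hθ1' hac (hw _ hy)]
    refine D.const (isPreconnected_hom D.hf h1 fun q hq => F.sub c hq.1)
      (fun q x hxq hx => ⟨hfine q x hxq hx.1 hx.2.2, ?_⟩) ?_ (hw _ (h2 hy))
    · have h3 : θ ≤ Φ.lev a (f x) := hx.2.1.2.2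
      exact lt_of_lt_of_le (by linarith) (neg_le_abs _)
    · refine mem_VM hxq ⟨hO, hxc, ?_, hxρ⟩ hv hv0
      obtain ⟨g1, g2⟩ := hwall _ hxc hxρ
      exact ⟨g1, g2, hθx.le⟩

/-- **a point of the sheet in a tile at a wall** -/
theorem exists_wall_pt (hLa : IsOpen La) (hLc : IsPreconnected La) :
    ∃ r ∈ Q, ∃ q, r ∈ Msh_715.P (T.H q) ∧ ∃ c, ∃ x ∈ Msh_715.P (T.H q), f x ∈ Wl Φ c := by
  have F := Brk3_582.foam Φ.bf hLa
  have ht1 := D.t1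
  have ht0 := D.t0
  have hk := D.k0
  obtain ⟨y, hya, c, hca, hyc⟩ := Wl_nonempty (c := a) hLa
  obtain ⟨θ, hθ0, hθ1⟩ := exists_between ht1
  obtain ⟨z, hz⟩ := (preconn_hi (θ := θ) hLa hca.symm (by linarith) hθ1).2
  obtain ⟨v, hv⟩ := D.exists_vm (F.sub a hya)
  obtain ⟨w, hw⟩ := D.exists_vm (F.sub c hz.1)
  have h1 : lm v = 1 := D.at_cell hLa (hv _ hya)
  have h2 : lm w = 0 := D.wall_hi hLa hLc hθ0 hθ1 hca.symm (hw _ hz)
  obtain ⟨q, ⟨x, hxq, -, hx⟩, u, hu, huq⟩ := D.lab.reach_geom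
    (isPreconnected_hom D.hf (preconn_Wl (c := c) hLa) fun q hq => F.sub c hq.1)
    (fun x hx => hx.1) (hv (Wl Φ c) ⟨hyc, a, hca.symm, hya⟩) (hw (Wl Φ c) (Dge_sub_Wl hz))
    (by rw [h1, h2]; exact one_ne_zero)
  exact ⟨u, hu, q, huq, c, x, hxq, hx⟩

end Dat

end Crest.Agent.R096.Lbp_438
end

-- ▼ part R096/Lbp3_438

/-! Row 96 (helper438), DOORS-ESS, LAB-POS, part 3: **`labP` and `exists_root` for 543's truthful
state of the machine data** (`InitS`) -/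

set_option autoImplicit false
set_option linter.unusedSectionVars false
set_option linter.style.haveILetI false

open Set Topology Filter

namespace Crest.Agent.R096.Lbp_438

open Crest.Agent.R096.Coh_184 Crest.Agent.R096.Brk1_582 Crest.Agent.R096.Brk2_582
open Crest.Agent.R096.Bsp_628 Crest.Agent.R096.Brk3_582
open Crest.Agent.R096.Brk5_582
open Crest.Agent.R96.Push_899 Crest.Agent.R096.SkC1_961
open Crest.Agent.R096.Main_4 Crest.Agent.R096.Seq_213 Crest.Agent.R096.St_147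
open Crest.Agent.R096.Msh_715 Crest.Agent.R096.Init_543 Crest.Agent.R096.Gs_422
open Crest.Agent.R096.Agl5_543 Crest.Agent.R096.Agl6_543 Crest.Agent.R096.Ginv_543
open Crest.Agent.R096.Lab_184 Crest.Agent.R096.Agl4_543

variable {δ κ0 R c0 : ℝ} {La Om : Set E3} {ι : Type} {Φ : FoamD δ κ0 R c0 La}
  {T : Tiling Om ι} {f g : E3 → E3} {J0 : Φ.F → Set ι} {ct' : Φ.F → ι} {r₀ : Φ.F → ℝ}

/-- all tiles near the cores are mapped into the open bricks -/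
theorem cores_inside {κ1 κ2 : ℝ} {X : Set Φ.F}
    {J V : Φ.F → Set ι} {ct : Φ.F → ι} {A : Φ.F → E3 ≃ᵃ[ℝ] E3} {lam : Φ.F → ℝ} {z : Φ.F → E3}
    {θ : Φ.F → E3 → E3} {φ : Φ.F → E3 → ℝ}
    (hC : Mbf_337.Cores Φ T f κ1 κ2 X J0 J V ct A lam z θ φ) (c : Φ.F) :
    J0 c ⊆ V c ∧ ∀ q ∈ V c, ∀ x ∈ Msh_715.P (T.H q), ∀ k, c.1.lo k < f x k ∧ f x k < c.1.hi k := by
  by_cases hc : c ∈ X
  · obtain ⟨h1, h2, h3⟩ := hC.one c hc
    rw [h1, h3]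
    refine ⟨Subset.rfl, ?_⟩
    rintro q rfl x hx
    exact (hC.exact_ c hc).inside x hx
  · have hT := hC.tiny c hc
    exact ⟨hT.sub0.trans hT.sub, fun q hq x hx => hT.inside x (mem_biUnion hq hx)⟩

/-- **the label data of the sheets of INIT** -/
theorem dat_init (hLa : IsOpen La) (hf : Hom3 f Om La) {κ1 κ2 μ : ℝ} {X : Set Φ.F}
    {J V : Φ.F → Set ι} {ct : Φ.F → ι} {A : Φ.F → E3 ≃ᵃ[ℝ] E3} {lam : Φ.F → ℝ} {z : Φ.F → E3}
    {θ : Φ.F → E3 → E3} {φ : Φ.F → E3 → ℝ}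
    (hC : Mbf_337.Cores Φ T f κ1 κ2 X J0 J V ct A lam z θ φ) (hF : Mbf_337.Fine Φ T f κ1 J0)
    {hR : InitR Φ T f g J0 ct' r₀} {ε s₁ : ℝ}
    {hM : Mesh0 T (Pc Φ.F) (bc (F := Φ.F)) (RF Φ r₀) f (KorJ Φ J0) ε} {hε : ε < s₁} {hε1 : ε < 1}
    {L : Φ.F → Finset ℝ} [Nonempty (JJ Φ L)] {hG : GF Φ r₀ T f L} {D : Φ.F → Set E3}
    {bp : JJ Φ L → E3} {lam₀ : JJ Φ L → E3 → ZMod 2} {v₀ v₁ : Φ.F → E3}
    (hI : InitS hLa hR hM hε hε1 hG D bp lam₀ v₀ v₁) (h0 : 0 ≤ κ1) (hμ : κ1 < μ)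
    (hm : ∀ c, ∀ t ∈ L c, μ ≤ t ∧ t ≤ 1 - μ) (j : JJ Φ L) :
    Dat Φ T f J0 κ1 j.1 j.2.1 (gPts (st0 hG bp) j) (lam₀ j) := by
  have F := foam4 Φ hLa
  have hRet := retF Φ hLa hR.pos hR.le_one
  have hj := hm j.1 j.2.1 j.2.2
  have hu : ∀ u ∈ gPts (st0 hG bp) j, u ∈ Om ∧ T.dim u = 1 ∧ Φ.lev j.1 (f u) = j.2.1 := by
    intro u hu
    obtain ⟨h1, h2⟩ := mem_gPts.1 hu
    have h3 := st0_mem hLa hR h1
    rw [h2] at h3
    exact h3
  have hzero : ∀ x ∈ Om, f x ∈ Pc Φ.F j.1 → vF Φ r₀ f j.1 x = 0 := by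
    intro x hx hxa
    have h1 := hRet.cell j.1 hxa
    exact (F.sc_eq_zero (F.sub j.1 h1)).2 h1
  refine ⟨hf, h0, by linarith, by linarith, hI.lab.lab j,
    fun c q hq => (cores_inside hC c).2 q ((cores_inside hC c).1 hq),
    fun q hq x hx y hy => hF.lev q hq x hx y hy j.1, fun u hu' => (hu u hu').2.2, ?_, ?_, ?_, ?_⟩
  · intro u hu' hua
    obtain ⟨h1, h2, h3⟩ := hu u hu'
    have h4 := hzero u h1 hua
    rw [hR.v_eq' Φ hLa h1 (by omega), h3] at h4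
    linarith
  · intro q hq x hx hxa
    rw [← hR.v_eq Φ hLa (T.sub q hx) (fun c => ?_) j.1]
    · exact hzero x (T.sub q hx) hxa
    · refine not_mem_I (fun e => hq c ?_) hx
      rw [e]; exact hR.ct c
  · obtain ⟨q, hq, x, hx, hxa⟩ := hI.deepT j.1
    exact ⟨v₀ j.1, mem_VM hx ⟨T.sub q hx, hxa⟩ hq (hI.deep j.1).2.1, hI.lab.one j⟩
  · obtain ⟨e, he⟩ := (hI.body j.1).far
    refine ⟨e, ?_, ?_⟩
    · intro h
      rw [h] at he
      obtain ⟨g', a1, a2, a3, a4, a5, a6⟩ := hf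
      obtain ⟨y, hy⟩ := Vb_965.cell_nonempty Φ j.1
      have h1 : f (g' y) ∈ Pc Φ.F j.1 := by rw [a4 y (F.sub j.1 hy)]; exact hy
      exact he (g' y) (interior_subset ((hI.body j.1).star j.1 ⟨y, hy, hy⟩ (g' y)
        (a2 (F.sub j.1 hy)) h1)) h1
    · rintro v ⟨hv0, q, ⟨x, hxq, hxO, hxe⟩, hvq⟩
      refine (hI.farL j).far q (fun h => ?_) v hvq
      exact he x (interior_subset (h hxq)) hxe

/-- **LAB-POS for the tiny cores** -/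
theorem labP_init (hLa : IsOpen La) (hLc : IsPreconnected La) (hf : Hom3 f Om La) {κ1 κ2 μ : ℝ}
    {X : Set Φ.F}
    {J V : Φ.F → Set ι} {ct : Φ.F → ι} {A : Φ.F → E3 ≃ᵃ[ℝ] E3} {lam : Φ.F → ℝ} {z : Φ.F → E3}
    {θ : Φ.F → E3 → E3} {φ : Φ.F → E3 → ℝ}
    (hC : Mbf_337.Cores Φ T f κ1 κ2 X J0 J V ct A lam z θ φ) (hF : Mbf_337.Fine Φ T f κ1 J0)
    {hR : InitR Φ T f g J0 ct' r₀} {ε s₁ : ℝ}
    {hM : Mesh0 T (Pc Φ.F) (bc (F := Φ.F)) (RF Φ r₀) f (KorJ Φ J0) ε} {hε : ε < s₁} {hε1 : ε < 1}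
    {L : Φ.F → Finset ℝ} [Nonempty (JJ Φ L)] {hG : GF Φ r₀ T f L} {D : Φ.F → Set E3}
    {bp : JJ Φ L → E3} {lam₀ : JJ Φ L → E3 → ZMod 2} {v₀ v₁ : Φ.F → E3}
    (hI : InitS hLa hR hM hε hε1 hG D bp lam₀ v₀ v₁) (h0 : 0 ≤ κ1) (hμ : κ1 < μ)
    (hm : ∀ c, ∀ t ∈ L c, μ ≤ t ∧ t ≤ 1 - μ) (j : JJ Φ L) {c : Φ.F} (hc : c ∉ X) (hjc : j.1 ≠ c)
    (hne : (Pc Φ.F j.1 ∩ Pc Φ.F c).Nonempty) :
    LabP Φ T f J0 κ1 j.1 j.2.1 (lam₀ j) c :=
  (dat_init hLa hf hC hF hI h0 hμ hm j).labP hLa hLc hjc hne (hC.tiny c hc).pt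

/-- **ROOTS**: every sheet has a point of its family in a tile at a wall, in no `V c` -/
theorem exists_root (hLa : IsOpen La) (hLc : IsPreconnected La) (hf : Hom3 f Om La) {κ1 κ2 μ : ℝ}
    {X : Set Φ.F}
    {J V : Φ.F → Set ι} {ct : Φ.F → ι} {A : Φ.F → E3 ≃ᵃ[ℝ] E3} {lam : Φ.F → ℝ} {z : Φ.F → E3}
    {θ : Φ.F → E3 → E3} {φ : Φ.F → E3 → ℝ}
    (hC : Mbf_337.Cores Φ T f κ1 κ2 X J0 J V ct A lam z θ φ) (hF : Mbf_337.Fine Φ T f κ1 J0)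
    {hR : InitR Φ T f g J0 ct' r₀} {ε s₁ : ℝ}
    {hM : Mesh0 T (Pc Φ.F) (bc (F := Φ.F)) (RF Φ r₀) f (KorJ Φ J0) ε} {hε : ε < s₁} {hε1 : ε < 1}
    {L : Φ.F → Finset ℝ} [Nonempty (JJ Φ L)] {hG : GF Φ r₀ T f L} {D : Φ.F → Set E3}
    {bp : JJ Φ L → E3} {lam₀ : JJ Φ L → E3 → ZMod 2} {v₀ v₁ : Φ.F → E3}
    (hI : InitS hLa hR hM hε hε1 hG D bp lam₀ v₀ v₁) (h0 : 0 ≤ κ1) (hμ : κ1 < μ)
    (hm : ∀ c, ∀ t ∈ L c, μ ≤ t ∧ t ≤ 1 - μ) :
    ∃ r : JJ Φ L → E3, ∀ j, (r j ∈ (st0 hG bp).P ∧ (st0 hG bp).lab (r j) = j) ∧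
      ∃ q, r j ∈ Msh_715.P (T.H q) ∧ (∃ c, ∃ x ∈ Msh_715.P (T.H q), f x ∈ Wl Φ c) ∧
        ∀ c, q ∉ V c := by
  have h : ∀ j : JJ Φ L, ∃ r, (r ∈ (st0 hG bp).P ∧ (st0 hG bp).lab r = j) ∧
      ∃ q, r ∈ Msh_715.P (T.H q) ∧ (∃ c, ∃ x ∈ Msh_715.P (T.H q), f x ∈ Wl Φ c) ∧
        ∀ c, q ∉ V c := by
    intro j
    obtain ⟨r, hr, q, hrq, c, x, hx, hxw⟩ :=
      (dat_init hLa hf hC hF hI h0 hμ hm j).exists_wall_pt hLa hLc
    refine ⟨r, mem_gPts.1 hr, q, hrq, ⟨c, x, hx, hxw⟩, fun d hd => ?_⟩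
    have h4 := (cores_inside hC d).2 q hd x hx
    obtain ⟨h1, c', h2, h3⟩ := hxw
    have h5 := eq_of_open hLa h4 h1
    have h6 := eq_of_open hLa h4 h3
    exact h2 (h6.trans h5.symm)
  choose r hr using h
  exact ⟨r, hr⟩

end Crest.Agent.R096.Lbp_438
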