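import Crest.Agent.R096.Dfi1_539

/-!
# Row 96, DOORS (helper184): the input of the towers for machine families + barriers

* `Part s1 s i` : the names `i j` of the state `s` carry exactly the state `s1`;
* `Part.h1`, `Part.conn`, `Part.car`, `Part.eg` : transfer;
* `gsum s1 s2`  : union of two states without common points, `gsum_left`, `gsum_right : Part`;
* **`din_sum`** : `DIn` for `s` from `DIn` for the two parts.
-/

set_option autoImplicit false
set_option linter.unusedSectionVars false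
set_option linter.style.longLine false

open Set Topology Filter Metric Module
open scoped Classical

namespace Crest.Agent.R096.Dis_184

open Crest.Agent.R096.Msh_715 Crest.Agent.R096.Coh_184 Crest.Agent.R096.Lab_184
  Crest.Agent.R096.Main_4 Crest.Agent.R096.Agl5_543
  Crest.Agent.R096.Seq_213 Crest.Agent.R096.St_147 Crest.Agent.R096.Door_501
  Crest.Agent.R096.Twr_438 Crest.Agent.R096.Exa_560
  Crest.Agent.R096.Ess3_95 Crest.Agent.R096.Ess4_95 Crest.Agent.R096.Dfi_539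

section mesh

variable {ι Φ W : Type} {M : MeshC ι Φ W} {J C J1 C1 J2 C2 : Type} {fam : J → C}
  {fam1 : J1 → C1} {fam2 : J2 → C2}

/-- the names `i j` of `s` carry exactly the state `s1` -/
structure Part (s1 : GSt M fam1) (s : GSt M fam) (i : J1 → J) : Prop where
  pts : ∀ w j, (w ∈ s.P ∧ s.lab w = i j) ↔ (w ∈ s1.P ∧ s1.lab w = j)
  mu : ∀ F w, w ∈ s1.P → w ∈ M.On F → s.mu F w = s1.mu F w

namespace Part

variable {s1 : GSt M fam1} {s : GSt M fam} {i : J1 → J}

theorem mem (h : Part s1 s i) {w : W} (hw : w ∈ s1.P) : w ∈ s.P ∧ s.lab w = i (s1.lab w) :=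
  (h.pts w _).2 ⟨hw, rfl⟩

theorem mem' (h : Part s1 s i) {w : W} {j : J1} (hw : w ∈ s.P) (hl : s.lab w = i j) :
    w ∈ s1.P ∧ s1.lab w = j := (h.pts w j).1 ⟨hw, hl⟩

theorem h1 (h : Part s1 s i) {j : J1} (hj : s1.H1 j) : s.H1 (i j) := by
  intro κ hκ
  obtain ⟨Ψ, hΨ⟩ := hj κ (by
    intro q
    obtain ⟨ψ, hψ⟩ := hκ q
    refine ⟨ψ, fun F w hq hw hl => ?_⟩
    obtain ⟨h1, h2⟩ := h.mem hw.1
    rw [hψ F w hq ⟨h1, hw.2⟩ (by rw [h2, hl]), h.mu F w hw.1 hw.2])
  refine ⟨Ψ, fun F w hw hl => ?_⟩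
  obtain ⟨h1, h2⟩ := h.mem' hw.1 hl
  rw [hΨ F w ⟨h1, hw.2⟩ h2, h.mu F w h1 hw.2]

theorem conn (h : Part s1 s i) {j : J1} (hj : s1.Conn j) : s.Conn (i j) := by
  obtain ⟨⟨w0, h0, h0'⟩, hc⟩ := hj
  refine ⟨⟨w0, (h.pts w0 j).2 ⟨h0, h0'⟩⟩, fun X hX w hwX hwP hwl w' hw'P hw'l => ?_⟩
  obtain ⟨a1, a2⟩ := h.mem' hwP hwl
  obtain ⟨b1, b2⟩ := h.mem' hw'P hw'l
  refine hc X (fun F x hx hxA hxl => ?_) w hwX a1 a2 w' b1 b2
  obtain ⟨c1, c2⟩ := h.mem hxA.1
  rw [← h.mu F x hxA.1 hxA.2]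
  exact hX F x hx ⟨c1, hxA.2⟩ (by rw [c2, hxl])

end Part

/-- union of two states without common points -/
noncomputable def gsum (s1 : GSt M fam1) (s2 : GSt M fam2) (hd : ∀ w ∈ s1.P, w ∉ s2.P) :
    GSt M (Sum.map fam1 fam2) where
  P := s1.P ∪ s2.P
  lab w := if w ∈ s1.P then Sum.inl (s1.lab w) else Sum.inr (s2.lab w)
  mu F w := if w ∈ s1.P then s1.mu F w else s2.mu F w
  mu_mem := by
    intro F w hw hF
    by_cases h : w ∈ s1.P
    · rw [if_pos h]
      exact ⟨Or.inl (s1.mu_mem h hF).1, (s1.mu_mem h hF).2⟩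
    · have h' := hw.resolve_left h
      rw [if_neg h]
      exact ⟨Or.inr (s2.mu_mem h' hF).1, (s2.mu_mem h' hF).2⟩
  mu_ne := by
    intro F w hw hF
    by_cases h : w ∈ s1.P
    · rw [if_pos h]; exact s1.mu_ne h hF
    · rw [if_neg h]; exact s2.mu_ne (hw.resolve_left h) hF
  mu_mu := by
    intro F w hw hF
    by_cases h : w ∈ s1.P
    · rw [if_pos h, if_pos (s1.mu_mem h hF).1]; exact s1.mu_mu h hF
    · have h' := hw.resolve_left h
      have h2 := (s2.mu_mem h' hF).1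
      rw [if_neg h, if_neg fun h3 => hd _ h3 h2]
      exact s2.mu_mu h' hF
  mu_lab := by
    intro F w hw hF
    by_cases h : w ∈ s1.P
    · simp only [if_pos h]
      rw [if_pos (s1.mu_mem h hF).1, s1.mu_lab h hF]
    · have h' := hw.resolve_left h
      have h2 := (s2.mu_mem h' hF).1
      simp only [if_neg h]
      rw [if_neg fun h3 => hd _ h3 h2, s2.mu_lab h' hF]
  nc := by
    intro F w x hw hF hx hF' hc hne hne'
    by_cases h : w ∈ s1.P
    · by_cases h' : x ∈ s1.P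
      · simp only [if_pos h, if_pos h'] at hc hne' ⊢
        exact s1.nc h hF h' hF' (Sum.inl_injective hc) hne hne'
      · simp only [if_pos h, if_neg h'] at hc
        cases hc
    · have hw2 := hw.resolve_left h
      by_cases h' : x ∈ s1.P
      · simp only [if_neg h, if_pos h'] at hc
        cases hc
      · have hx2 := hx.resolve_left h'
        simp only [if_neg h, if_neg h'] at hc hne' ⊢
        exact s2.nc hw2 hF hx2 hF' (Sum.inr_injective hc) hne hne'
  fin := by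
    rintro (c | c)
    · refine (s1.fin c).subset ?_
      rintro w ⟨hw, hl⟩
      by_cases h : w ∈ s1.P
      · rw [if_pos h] at hl
        exact ⟨h, Sum.inl_injective hl⟩
      · rw [if_neg h] at hl
        cases hl
    · refine (s2.fin c).subset ?_
      rintro w ⟨hw, hl⟩
      by_cases h : w ∈ s1.P
      · rw [if_pos h] at hl
        cases hl
      · rw [if_neg h] at hl
        exact ⟨hw.resolve_left h, Sum.inr_injective hl⟩

section gsum

variable {s1 : GSt M fam1} {s2 : GSt M fam2} {hd : ∀ w ∈ s1.P, w ∉ s2.P}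




end gsum

end mesh

variable {E : Type} [NormedAddCommGroup E] [NormedSpace ℝ E] [FiniteDimensional ℝ E]
variable {Om : Set E} {ι : Type} {T : Tiling Om ι}
variable {J C J1 C1 J2 C2 : Type} {fam : J → C} {fam1 : J1 → C1} {fam2 : J2 → C2}
variable {κ : Type} {Kc : κ → Set E} {h3 : finrank ℝ E = 3}

namespace Part

variable {s1 : GSt (meshC T h3) fam1} {s : GSt (meshC T h3) fam} {i : J1 → J}

theorem gPts_eq (h : Part s1 s i) (j : J1) : gPts s (i j) = gPts s1 j := by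
  ext w
  rw [mem_gPts, mem_gPts]
  exact h.pts w j

theorem car (h : Part s1 s i) {j : J1} {Sj : Set E} (hc : Car s1 j Sj) : Car s (i j) Sj := by
  intro G hG hGS w hw w' hw' hwP hwl hw'P hw'l
  obtain ⟨a1, a2⟩ := h.mem' hwP hwl
  obtain ⟨b1, b2⟩ := h.mem' hw'P hw'l
  have h0 := hc G hG hGS w hw w' hw' a1 a2 b1 b2
  clear hw'P hw'l b1 b2 hw'
  have key : Relation.ReflTransGen (GSt1 s G) w w' ∧ w' ∈ s1.P := by
    induction h0 with
    | refl => exact ⟨Relation.ReflTransGen.refl, a1⟩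
    | tail _ hbc ih =>
      obtain ⟨F, hF, hA, rfl⟩ := hbc
      refine ⟨ih.1.tail ⟨F, hF, ⟨(h.mem hA.1).1, hA.2⟩, (h.mu F _ hA.1 hA.2).symm⟩, ?_⟩
      exact (s1.mu_mem hA.1 hA.2).1
  exact key.1

/-- transfer of the geometric input -/
noncomputable def eg (h : Part s1 s i) {j : J1} {Sj : Set E} {c : κ} {v0 v1 : VxK T Kc c} {r : E}
    (e : EG s1 j Sj Kc c v0 v1 r) : EG s (i j) Sj Kc c v0 v1 r where
  lam := e.lam
  hlam := by rw [h.gPts_eq]; exact e.hlam
  S0 := e.S0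
  S0c := e.S0c
  S0O := e.S0O
  S0t := e.S0t
  L := e.L
  Lc := e.Lc
  LO := e.LO
  LS := e.LS
  Ln := fun b q hq u hu hl => e.Ln b q hq u (h.mem' hu hl).1 (h.mem' hu hl).2
  Ll := e.Ll
  Z := e.Z
  Zc := e.Zc
  Zf := e.Zf
  Zn := fun b q hq u hu hl => e.Zn b q hq u (h.mem' hu hl).1 (h.mem' hu hl).2
  LZ := e.LZ
  Z0 := e.Z0
  Z1 := e.Z1
  D := e.D
  Dc := e.Dc
  DO := e.DO
  DS := e.DS
  DK := e.DK
  LD := e.LD
  F := e.F
  Fc := e.Fc
  FO := e.FO
  FS := e.FS
  FK := e.FK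
  LF := e.LF
  Gd := e.Gd
  Gdc := e.Gdc
  GdS := e.GdS
  GdK := e.GdK
  GdD := fun q hq w hw hl => e.GdD q hq w (h.mem' hw hl).1 (h.mem' hw hl).2
  Go := e.Go
  Goc := e.Goc
  GoS := e.GoS
  GoK := e.GoK
  GoF := fun q hq w hw hl => e.GoF q hq w (h.mem' hw hl).1 (h.mem' hw hl).2
  Gor := e.Gor
  Gx := e.Gx
  Gxc := e.Gxc
  GxS := e.GxS
  Gxr := e.Gxr
  Gxd := e.Gxd
  GxK := e.GxK

end Part

/-- renaming of levels along an injection -/
noncomputable def levMap {Sg : Set E} (L : Lev T Sg J1) (i : J1 ↪ J) (lv : J → ℝ)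
    (h : ∀ j, lv (i j) = L.lv j) : Lev T Sg J where
  u := L.u
  aff := L.aff
  J0 := L.J0.map i
  lv := lv
  inj := by
    intro a ha b hb e
    obtain ⟨a', ha', rfl⟩ := Finset.mem_map.1 ha
    obtain ⟨b', hb', rfl⟩ := Finset.mem_map.1 hb
    rw [h, h] at e
    rw [L.inj a' ha' b' hb' e]
  vert := by
    intro v hv h0 b hb
    obtain ⟨b', hb', rfl⟩ := Finset.mem_map.1 hb
    rw [h]
    exact L.vert v hv h0 b' hb'


end Crest.Agent.R096.Dis_184
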