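import Crest.Agent.R096.Twr10_438

/-!
# Row 96, DOORS-TOWER, part 11 (helper438): **the towers are monotone** (539 #11432 (MON)):
a point which is not a point of the outer pattern stays in all lower layers
-/

set_option autoImplicit false

namespace Crest.Agent.R096.Twr_438

open Crest.Agent.R096.St_147 Crest.Agent.R096.Seq_213 Crest.Agent.R096.Door_501
  Crest.Agent.R096.Qp_106 Classical

section chain

variable {ι Φ W : Type} {M : MeshC ι Φ W} {k : ι} {Vx Ed : Type} {S : Shell M k Vx Ed}
variable {I : Type} {col : I → Bool}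

/-- a tame move which keeps all points off `K` -/
def TameK (R : I → Vx → Prop) (L : St S.sph col → Prop) (K : Set W) (s : St S.sph col)
    (m : Move S.sphSh s) : Prop :=
  Tame R L s m ∧ ∀ x ∈ s.P, x ∉ K → x ∈ m.botS.P

namespace Tgt

variable {v0 v1 : Vx} {t d : St S.sph col} {rk : I → ℝ}


end Tgt


end chain

/-! ### from chains to 501's towers -/

section seq

variable {ι Φ W : Type} {M : MeshC ι Φ W} {k : ι} {Vx Ed : Type} {S : Shell M k Vx Ed}
variable {J : Type}



end seq

variable {ι0 Φ0 W J C : Type} {M0 : MeshC ι0 Φ0 W} {κ : Type} {k0 : κ → ι0}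
  {Vx Ed : κ → Type} {fam : J → C}


end Crest.Agent.R096.Twr_438
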