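import Crest.Agent.R096.Dfi1_539
import Crest.Agent.R096.Twr11_438
import Crest.Agent.R096.Dfo2_539
import Crest.Agent.R096.Slt1_471
import Crest.Agent.R096.Dis1_184
import Crest.Agent.R096.Dia3_316

-- ▼ part R096/Dff1_539

/-!
# R096 (row 96), DOORS_final, composition, part 1 (helper539): from `DIn` over `T` to the slices and
the towers
-/

set_option autoImplicit false
set_option linter.unusedSectionVars false
set_option linter.style.longLine false

open Set Topology Filter Metric Module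
open scoped Classical

namespace Crest.Agent.R096.Dff_539

open Crest.Agent.R096.Msh_715 Crest.Agent.R096.Coh_184 Crest.Agent.R096.Lab_184
  Crest.Agent.R096.Main_4 Crest.Agent.R096.Agl5_543
  Crest.Agent.R096.Seq_213 Crest.Agent.R096.St_147 Crest.Agent.R096.Door_501
  Crest.Agent.R096.Twr_438 Crest.Agent.R096.Exa_560 Crest.Agent.R096.Qp_106
  Crest.Agent.R096.Ess3_95 Crest.Agent.R096.Ess4_95 Crest.Agent.R096.Ac_117 Crest.Agent.R096.Lm_117
  Crest.Agent.R096.Dfi_539 Crest.Agent.R096.Dfi_471 Crest.Agent.R096.Sla_184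
open Crest.Agent.R096.Mbf_337 (KJ Tiny)
open Crest.Agent.R096.SkC1_961 (E3 FoamD Hom3)
open Crest.Agent.R096.Frn_337 (Ti)
open Crest.Agent.R096.Init_543 (fr3)
open Crest.Agent.R096.Ess7_95 (KT)
open Crest.Agent.R096.Brk1_582 Crest.Agent.R096.Brk2_582 Crest.Agent.R096.Brk3_582
  Crest.Agent.R096.Brk5_582 Crest.Agent.R096.Bsp_628

/-- (MON) of #11432 -/
def Mon {E : Type} [NormedAddCommGroup E] [NormedSpace ℝ E] [FiniteDimensional ℝ E]
    {Om : Set E} {ι : Type} {T : Tiling Om ι} {κ : Type} (S : Sla T κ) (h3 : finrank ℝ E = 3)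
    {J C : Type} {fam : J → C} [Nonempty J] {s : GSt (meshC T h3) fam} {r : J → E}
    (L : ∀ c, C → Lev T (frontier (S.K c)) J)
    (Tw : Twrs (S.sh h3) S.n (outK S.hH S.dis s r)) : Prop :=
  ∀ c a j, ∀ w ∈ (exa h3 S.hH S.dis (L c a)).P, w ∈ ((Tw.tw c a).pat j).P →
    w ∈ ((Tw.tw c a).pat (j + 1)).P

section tiny

variable {δ κ0 R c0 : ℝ} {La Om : Set E3} {ι : Type} {Φ : FoamD δ κ0 R c0 La} {T : Tiling Om ι}
  {f : E3 → E3} {κ1 : ℝ} {X : Set Φ.F} {J0 Jt V : Φ.F → Set ι} {θ : Φ.F → E3 → E3}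
  {φ : Φ.F → E3 → ℝ} {J C : Type} {fam : J → C} [Nonempty J]


end tiny

end Crest.Agent.R096.Dff_539
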