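import Crest.Agent.R096.Dff1_539
import Crest.Agent.R096.Frs2_662

/-!
# R096 (row 96), DOORS_final, composition, part 2 (helper539): the state with layers and barriers
-/

set_option autoImplicit false
set_option linter.unusedSectionVars false
set_option linter.style.longLine false

open Set Topology Filter Metric Module
open scoped Classical

namespace Crest.Agent.R096.Dff_539

open Crest.Agent.R096.Msh_715 Crest.Agent.R096.Coh_184 Crest.Agent.R096.Lab_184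
  Crest.Agent.R096.Main_4 Crest.Agent.R096.Agl4_543 Crest.Agent.R096.Agl5_543
  Crest.Agent.R096.Agl6_543
  Crest.Agent.R096.Seq_213 Crest.Agent.R096.St_147 Crest.Agent.R096.Door_501
  Crest.Agent.R096.Twr_438 Crest.Agent.R096.Exa_560 Crest.Agent.R096.Qp_106
  Crest.Agent.R096.Ess3_95 Crest.Agent.R096.Ess4_95 Crest.Agent.R096.Ac_117 Crest.Agent.R096.Lm_117
  Crest.Agent.R096.Dfi_539 Crest.Agent.R096.Dfi_471 Crest.Agent.R096.Sla_184
open Crest.Agent.R096.Mbf_337 (KJ Tiny Cores Fine sb)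
open Crest.Agent.R096.SkC1_961 (E3 FoamD Hom3)
open Crest.Agent.R096.Frn_337 (Ti)
open Crest.Agent.R096.Init_543
open Crest.Agent.R096.Ess7_95 (KT Sh)
open Crest.Agent.R096.Dia_316 (nbT)
open Crest.Agent.R096.Brk1_582 Crest.Agent.R096.Brk2_582 Crest.Agent.R096.Brk3_582
  Crest.Agent.R096.Brk5_582 Crest.Agent.R096.Bsp_628
open Crest.Agent.R96.Push_899
open Crest.Agent.R096.Frs_662 (slC)

variable {δ κ0 R c0 : ℝ} {La Om : Set E3} {ι : Type} {Φ : FoamD δ κ0 R c0 La} {T : Tiling Om ι}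
  {f g : E3 → E3} {κ1 κ2 μ : ℝ} {X : Set Φ.F} {J0 Jt V : Φ.F → Set ι}
  {ct ct' : Φ.F → ι} {A : Φ.F → E3 ≃ᵃ[ℝ] E3} {lam : Φ.F → ℝ} {z : Φ.F → E3}
  {θ : Φ.F → E3 → E3} {φ : Φ.F → E3 → ℝ} {r₀ : Φ.F → ℝ}
  {L : Φ.F → Finset ℝ} [Nonempty (JJ Φ L)] {hG : GF Φ r₀ T f L} {bp : JJ Φ L → E3}

/-- families and barriers -/
abbrev fmB (Φ : FoamD δ κ0 R c0 La) (L : Φ.F → Finset ℝ) (Mo : Type) : JJ Φ L ⊕ Mo → Φ.F ⊕ Mo :=
  Sum.map (fun j : JJ Φ L => j.1) id

/-- the truthful state of the families together with the barriers `sB` -/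
noncomputable abbrev sJB (hG : GF Φ r₀ T f L) (bp : JJ Φ L → E3) {Mo : Type}
    (sB : GSt (meshC T fr3) (id : Mo → Mo)) (hd : ∀ w ∈ (st0 hG bp).P, w ∉ sB.P) :
    GSt (meshC T fr3) (fmB Φ L Mo) := Dis_184.gsum (st0 hG bp) sB hd

/-- vertices for the families and for the barriers -/
def vS {κ C1 C2 : Type} {Kc : κ → Set E3} (v : ∀ c, C1 → VxK T Kc c) (v' : ∀ c, C2 → VxK T Kc c) :
    ∀ c, C1 ⊕ C2 → VxK T Kc c := fun c => Sum.elim (v c) (v' c)


end Crest.Agent.R096.Dff_539
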