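import Crest.Agent.R096.Rop11_441

-- ▼ part R096/Rop12_441
section

/-!
# R096 (row 96), ROPES (helper441), part 12: (K4) over `lmK` of the sliced tiling

`k4_outer`, `k4_layer`, **`k4_S`** (the field `k4` of 337's `Front`).
-/

set_option autoImplicit false
set_option linter.unusedSectionVars false

open Set Relation Module

namespace Crest.Agent.R096.Rop_441

open Crest.Agent.R096.Brk1_582 Crest.Agent.R096.Brk2_582 Crest.Agent.R096.Brk3_582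
  Crest.Agent.R096.Brk5_582 Crest.Agent.R096.Bsp_628 Crest.Agent.R096.Init_543
  Crest.Agent.R096.Vb_965 Crest.Agent.R096.Msh_715 Crest.Agent.R096.St_147
  Crest.Agent.R096.Seq_213 Crest.Agent.R096.Lm_117 Crest.Agent.R096.Gl_422
  Crest.Agent.R096.SkB_662 Crest.Agent.R096.Cpo_642
  Crest.Agent.R096.Ce_537 Crest.Agent.R096.Agl5_543
  Crest.Agent.R096.Cp_298 Crest.Agent.R096.Gm_298 Crest.Agent.R096.Ac_117
  Crest.Agent.R096.Sla_184 Crest.Agent.R096.Sla_184.Sla Crest.Agent.R096.Kin_527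
  Crest.Agent.R096.Vrt_422
open Crest.Agent.R096.SkC1_961 (E3 Hom3 FoamD)
open Crest.Agent.R096.Mbf_337 (KJ sb)
open Crest.Agent.R096.Gia_537 (Kc Kc_sub Kc_compact Kc_disj Kc_exact)

variable {δ κ0 R c0 : ℝ} {La Om : Set E3} {ι : Type} {Φ : FoamD δ κ0 R c0 La}
  {T : Tiling Om ι} {f g : E3 → E3} {κ1 κ2 s₁ σ : ℝ} {X : Set Φ.F} {J0 J V : Φ.F → Set ι}
  {ct : Φ.F → ι}
  {A : Φ.F → E3 ≃ᵃ[ℝ] E3} {lam : Φ.F → ℝ} {z : Φ.F → E3} {θ : Φ.F → E3 → E3} {φ : Φ.F → E3 → ℝ}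
  {ct' : Φ.F → ι} {r₀ : Φ.F → ℝ}
  {κ : Type} {S : Sla T κ}
variable [Nonempty S.T3.Cell] {hH : ∀ c, CoreH S.T3 (S.KK c)} {hne : ∃ c, OutK S.T3 S.KK c}
  {Kq : Type} {Qd : Quads (T.RIdx S.HH ⊕ κ) Φ.F Kq} {Jn : Type} {fam : Jn → Φ.F}
  {s₀ : GSt (mK fr3 hH dis_KK) fam}

/-- every cell of the outside is a cell of a tile outside all cores, of an exact core tile, or of a
layer tile -/
theorem cell_cases (hLa : IsOpen La)
    (hC : Mbf_337.Cores Φ T f κ1 κ2 X J0 J V ct A lam z θ φ) (hK : TinyK X J S)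
    (hX : ∀ c' : Φ.F, c' ∉ X → ∃ c, S.K c = KJ T (J c')) {q : S.T3.Cell}
    (hq : OutK S.T3 S.KK q)
    (hne : ∀ a ∈ X, q.set ≠ P (T.H (ct a))) :
    (∃ i, i ∉ KorJ Φ J ∧ q.set ⊆ P (T.H i)) ∨
      ∃ (p : T.RIdx S.HH) (c : κ), (∀ c, ¬ P (S.T3.H p) ⊆ S.KK c) ∧ P (T.H p.tile) ⊆ S.K c ∧
        q.set ⊆ P (S.T3.H p) := by
  have hO : q.pt ∈ Om := q.pt_mem
  by_cases hout : ∀ c : Φ.F, q.pt ∉ interior (Kc T J c)
  · left
    obtain ⟨i, hi, hqi⟩ := exists_out T (kor_sub (Φ := Φ) (J := J))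
      (fun _ _ h => Kc_disj hLa hC h) hO hout
    refine ⟨i, hi, ?_⟩
    have hiS := hK.subK.out hi
    have h1 : q.pt ∈ P (S.T3.H (S.ot i hiS)) := by rw [ot_P]; exact hqi
    have h2 := S.T3.cc_sub_tile h1
    rw [ot_P] at h2
    rw [q.set_eq]; exact h2
  · right
    push Not at hout
    obtain ⟨c', hc'⟩ := hout
    by_cases hX' : c' ∈ X
    · exfalso
      rw [Kc_exact hC hX', Csub_487.interior_tile] at hc'
      -- the exact core tile is not in a tiny core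
      have hiS : ∀ c, ¬ P (T.H (ct c')) ⊆ S.K c := by
        intro c hc
        obtain ⟨d, hd, e⟩ := hK c
        rw [e] at hc
        have hne' : d ≠ c' := fun h => hd (h ▸ hX')
        refine disjoint_left.1 (Kc_disj (T := T) (J := J) hLa hC hne') (hc (I_sub_P _ hc')) ?_
        rw [Kc_exact hC hX']; exact I_sub_P _ hc'
      refine hne c' hX' ?_
      have h1 : q.pt ∈ I (S.T3.H (S.ot (ct c') hiS)) := by rw [ot_H]; exact hc'
      rw [q.set_eq, S.T3.cc_eq_tile h1, ot_P]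
    · obtain ⟨c, e⟩ := hX c' hX'
      obtain ⟨p, hp, hqp⟩ := hq
      refine ⟨p, c, hp, ?_, hqp⟩
      have hin : S.In c q.pt := in_iff.2 (by rw [e]; exact hc')
      have h1 : q.pt ∈ P (S.T3.H p) := hqp (by rw [q.set_eq]; exact S.T3.self_mem_cc _)
      exact hin.tile (P3_sub p h1)

section main

variable (hLa : IsOpen La) (hLc : IsPreconnected La) (hN : Num δ κ0 R c0 κ2 κ1 s₁)
  (hσ : 2 * κ1 < σ)
  (hR : InitR Φ T f g J0 ct' r₀)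
  (hC : Mbf_337.Cores Φ T f κ1 κ2 X J0 J V ct A lam z θ φ)
  (hM : Mesh0 T (Pc Φ.F) (bc (F := Φ.F)) (RF Φ r₀) f (KorJ Φ J0) κ1)
  (hK : TinyK X J S)
  (Xc : Cplx Om (QK (belK S.T3 S.KK)) (dimK (belK S.T3 S.KK) fun c => c.1.dim)
    (setK S.T3 S.KK))
  (h : Lst Φ f J0 J r₀ S hH hne Qd s₀ s₁ σ)
  {Z : Φ.F → Set (QK (belK S.T3 S.KK))} {v₀ : Φ.F → QK (belK S.T3 S.KK)}
  (hv₀ : ∀ j, DeepS hC r₀ S (fam j) (v₀ (fam j)))
  (hv₁ : ∀ j, ∃ v' ∈ Z (fam j), FarS Φ f r₀ J S (θN δ κ0 R c0 κ2 κ1) (fam j) v')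
include hLa hLc hN hσ hR hC hM hK Xc h hv₀ hv₁

/-- **(K4) for a cell of a tile outside all cores** -/
theorem k4_outer {i : ι} (hi : i ∉ KorJ Φ J) {q : S.T3.Cell} (hqO : OutK S.T3 S.KK q)
    (hq : q.set ⊆ P (T.H i)) {x : E3} (hx : x ∈ P (T.H i)) :
    K4In (lmK fr3 hH dis_KK hne) Qd s₀ Z v₀ (Pc Φ.F) {oc q hqO}
      (fun _ a => va (Pc Φ.F) (bc (F := Φ.F)) (RF Φ r₀) f a x) := by
  have : Nonempty ι := ⟨i⟩
  have hiS := hK.subK.out hi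
  have hE := h.env hK
  refine k4in (xq := fun _ => x) Xc hE kor_sub hR.hm (foam4 Φ hLa)
    (retF Φ hLa hR.pos hR.le_one)
    (corT hLa hN.hδ hN.hR hN.hκ0 hN.hκ1 hN.hκ2 hN.hκ hN.hκn hC hR)
    (mesh0_mono hM (korJ_mono hC)) (by simp) hN.hθ hN.h00 le_rfl
    hN.hκ1 hN.hs hN.hs1 (levOn_S h.on h.lev) hLc (fun a c h => hS_x hLa a c h)
    (fun i hi x hx c => int_S hi hx c) hv₀ (fun j => ?_) (fun q' hq' => ?_)
  · obtain ⟨v', h1, h2, i', h3, h4, x', h5, h6⟩ := hv₁ j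
    exact ⟨v', h1, h2, i', h3, h4, x', h5, h6⟩
  · rw [Set.mem_singleton_iff.1 hq']
    refine ⟨Sum.inl (S.ot i hiS), ⟨i, hiS, hi, rfl⟩, ?_, ?_⟩
    · rw [le_tcK (not_KK_ot hiS)]
      exact ⟨q, hqO, rfl, by rw [ot_P]; exact hq⟩
    · rw [setK_tcK (not_KK_ot hiS), ot_P]; exact hx

/-- **(K4) for a cell of a layer tile** -/
theorem k4_layer {p : T.RIdx S.HH} {c : κ} (hp : ∀ c, ¬ P (S.T3.H p) ⊆ S.KK c)
    (hpc : P (T.H p.tile) ⊆ S.K c) {q : S.T3.Cell} (hqO : OutK S.T3 S.KK q)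
    (hq : q.set ⊆ P (S.T3.H p)) {x : E3} (hx : x ∈ P (T.H p.tile)) :
    K4In (lmK fr3 hH dis_KK hne) Qd s₀ Z v₀ (Pc Φ.F) {oc q hqO}
      (fun _ a => va (Pc Φ.F) (bc (F := Φ.F)) (RF Φ r₀) f a x) := by
  have h2N := hN.two
  have h1N := hN.hκ1
  obtain ⟨v, j, hv, hvd, hj, hvq, hvp, hv0⟩ := exists_col hp hpc hq
  have hpJ : p.tile ∉ KorJ Φ J0 := hK.notJ0 hLa hC hv hvp
  have hosc : ∀ {y y' : E3}, y ∈ P (T.H p.tile) → y' ∈ P (T.H p.tile) → ∀ a,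
      |va (Pc Φ.F) (bc (F := Φ.F)) (RF Φ r₀) f a y -
        va (Pc Φ.F) (bc (F := Φ.F)) (RF Φ r₀) f a y'| ≤ κ1 := fun {y y'} hy hy' a =>
    hM.osc p.tile hpJ y hy y' hy' a
  have hle : oc q hqO ≤ tcK S.T3 S.KK (Sum.inl p) := by
    rw [le_tcK hp]; exact ⟨q, hqO, rfl, hq⟩
  -- the end of the column
  have hvx : oc (edC S.T3 (S.hc c v j)) (outK_hc (fr_Bd hv) hj) ≤ oc q hqO := by
    show (edC S.T3 (S.hc c v j)).set ⊆ q.set
    rw [edC_set (hc_Om (fr_Bd hv) hj), q.set_eq]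
    rw [q.set_eq] at hvq
    exact S.T3.cc_sub_of_mem hvq
  have hvx0 : dimK (belK S.T3 S.KK) (fun c => c.1.dim)
      (oc (edC S.T3 (S.hc c v j)) (outK_hc (fr_Bd hv) hj)) = 0 := by
    show (edC S.T3 (S.hc c v j)).dim = 0
    exact (edC_vertex (hc_Om (fr_Bd hv) hj) (hc_dim (fr_Bd hv) (D_vx hv hvd) j)).1
  have hO0 := outK_hc (S := S) (fr_Bd hv) (Nat.zero_le (S.n c))
  have key : ∀ {w : E3}, w = v → ∀ (hO : OutK S.T3 S.KK (edC S.T3 w)) {a : Φ.F},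
      va (Pc Φ.F) (bc (F := Φ.F)) (RF Φ r₀) f a v ≤ θN δ κ0 R c0 κ2 κ1 →
      DeepS hC r₀ S a (oc (edC S.T3 w) hO) := by
    rintro w rfl hO a hl
    exact deep_fr hLa hN hσ hR hC hM hK Xc h hv hvd hl hO
  have key' : ∀ {w : E3}, w = v → ∀ (hO : OutK S.T3 S.KK (edC S.T3 w)) {a : Φ.F},
      1 - θN δ κ0 R c0 κ2 κ1 ≤ va (Pc Φ.F) (bc (F := Φ.F)) (RF Φ r₀) f a v →
      FarS Φ f r₀ J S (θN δ κ0 R c0 κ2 κ1) a (oc (edC S.T3 w) hO) := by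
    rintro w rfl hO a hl
    exact far_fr hLa hN hσ hR hC hM hK Xc h hv hvd hl hO
  have hθ : κ1 ≤ θN δ κ0 R c0 κ2 κ1 := by
    have := hN.h00
    unfold θN; linarith
  refine ⟨fun q' hq' => ?_, fun q' hq' w hw hwq => ?_, fun q' hq' k a hka w hw hwq hint' => ?_,
    fun q' hq' j' hj' => ?_, fun q' hq' j' hj' => ?_⟩
  · have F := foam4 Φ hLa
    have hy := mem_La hR.hm F (retF Φ hLa hR.pos hR.le_one) (T.sub _ hx)
    obtain ⟨c1, c2, hne', h1, h2⟩ := hM.wall p.tile hpJ _ hx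
    exact ⟨F.sc_mem_K hy, c1, c2, hne', (F.sc_eq_zero hy).2 h1, (F.sc_eq_zero hy).2 h2⟩
  · rw [Set.mem_singleton_iff.1 hq'] at hwq
    have hwp : w ∈ P (S.T3.H p) := (ed_le_K hwq.1 hp).1 (hwq.2.trans hle)
    obtain ⟨y, hy, h4, h5⟩ := h.lay w hw p c hp hpc hwp
    have h6 := abs_le.1 (hosc hx hy (fam (s₀.lab w)))
    constructor
    · show 0 < va (Pc Φ.F) (bc (F := Φ.F)) (RF Φ r₀) f _ x
      linarith [h6.1]
    · show va (Pc Φ.F) (bc (F := Φ.F)) (RF Φ r₀) f _ x < 1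
      linarith [h6.2]
  · rw [Set.mem_singleton_iff.1 hq'] at hwq
    obtain ⟨F', hF1, hF2⟩ := mid_K (h3 := fr3) (hH := hH) (hdis := dis_KK) (hne := hne) hp
      ((lmK fr3 hH dis_KK hne).ed_dim w hwq.1) (hwq.2.trans hle)
    have hact : Sum.inl p ∈ Qd.Act k :=
      hint'.2 F' (((lmK fr3 hH dis_KK hne).on_iff F' w).2 ⟨hwq.1, hF1⟩) _ hF2
    obtain ⟨k', ⟨-, y, hy, hy1, -⟩, hk'⟩ := h.act p hp k hact
    have h4 := hy1 a (hk' a hka)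
    have h6 := abs_le.1 (hosc hx hy a)
    constructor
    · show 0 < va (Pc Φ.F) (bc (F := Φ.F)) (RF Φ r₀) f a x
      linarith [h6.1, h4.1]
    · show va (Pc Φ.F) (bc (F := Φ.F)) (RF Φ r₀) f a x < 1
      linarith [h6.2, h4.2]
  · rw [Set.mem_singleton_iff.1 hq']
    have hj0 : va (Pc Φ.F) (bc (F := Φ.F)) (RF Φ r₀) f (fam j') x = 0 := hj'
    have hl : va (Pc Φ.F) (bc (F := Φ.F)) (RF Φ r₀) f (fam j') v ≤ κ1 := by
      have h6 := abs_le.1 (hosc hvp hx (fam j'))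
      linarith [h6.2]
    refine ⟨_, hvx, hvx0, ?_⟩
    exact (zero_S hLa hN hR hC hM hK Xc h (hv₀ j') (key hv0 hO0 (hl.trans hθ))).trans
      (col_S hLa hN hσ hR hC hM hK Xc h hv hvd (Or.inl hl) hj)
  · rw [Set.mem_singleton_iff.1 hq']
    have hj0 : va (Pc Φ.F) (bc (F := Φ.F)) (RF Φ r₀) f (fam j') x = 1 := hj'
    have hl : 1 - κ1 ≤ va (Pc Φ.F) (bc (F := Φ.F)) (RF Φ r₀) f (fam j') v := by
      have h6 := abs_le.1 (hosc hvp hx (fam j'))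
      linarith [h6.1]
    obtain ⟨v', h1, h2⟩ := hv₁ j'
    refine ⟨_, hvx, hvx0, v', h1, ?_⟩
    exact (far_S hLa hLc hN hR hC hM hK Xc h h2 (key' hv0 hO0 (by linarith))).trans
      (col_S hLa hN hσ hR hC hM hK Xc h hv hvd (Or.inr hl) hj)

/-- **(K4)**: the field `k4` of 337's `Front` -/
theorem k4_S (hX : ∀ c' : Φ.F, c' ∉ X → ∃ c, S.K c = KJ T (J c')) {q : S.T3.Cell}
    (hqO : OutK S.T3 S.KK q) (hnt : ∀ a ∈ X, q.set ≠ P (T.H (ct a))) :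
    ∃ i, (∀ c, i ∉ J0 c) ∧ q.set ⊆ P (T.H i) ∧ ∀ x ∈ P (T.H i),
      K4In (lmK fr3 hH dis_KK hne) Qd s₀ Z v₀ (Pc Φ.F) {oc q hqO}
        (fun _ => sb Φ (Φ.Psi (f x))) := by
  have key : ∀ {i : ι}, i ∉ KorJ Φ J0 → ∀ {x : E3}, x ∈ P (T.H i) →
      (fun _ : QK (belK S.T3 S.KK) => sb Φ (Φ.Psi (f x))) =
      fun _ a => va (Pc Φ.F) (bc (F := Φ.F)) (RF Φ r₀) f a x := fun {i} hi {x} hx => by
    funext _
    exact (va_eq_sb (R := RF Φ r₀) (RF_Psi hLa hR (T.sub _ hx) fun c =>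
      notMem_hole' hR hi hx c)).symm
  rcases cell_cases hLa hC hK hX hqO hnt with ⟨i, hi, hqi⟩ | ⟨p, c, hp, hpc, hqp⟩
  · have hi0 : i ∉ KorJ Φ J0 := fun h' => hi (korJ_mono hC h')
    refine ⟨i, fun c hc => hi0 ⟨c, hc⟩, hqi, fun x hx => ?_⟩
    rw [key hi0 hx]
    exact k4_outer hLa hLc hN hσ hR hC hM hK Xc h hv₀ hv₁ hi hqO hqi hx
  · obtain ⟨v, j, hv, hvd, hj, hvq, hvp, hv0⟩ := exists_col hp hpc hqp
    have hpJ : p.tile ∉ KorJ Φ J0 := hK.notJ0 hLa hC hv hvp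
    refine ⟨p.tile, fun c hc => hpJ ⟨c, hc⟩, hqp.trans (P3_sub p), fun x hx => ?_⟩
    rw [key hpJ hx]
    exact k4_layer hLa hLc hN hσ hR hC hM hK Xc h hv₀ hv₁ hp hpc hqO hqp hx

end main

end Crest.Agent.R096.Rop_441
end

-- ▼ part R096/Rop13_441

/-!
# R096 (row 96), ROPES (helper441), part 13: `ropX` of 337's `Front`; deep and far vertices on tiles
outside all cores
-/

set_option autoImplicit false
set_option linter.unusedSectionVars false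

open Set Relation Module

namespace Crest.Agent.R096.Rop_441

open Crest.Agent.R096.Brk1_582 Crest.Agent.R096.Brk2_582 Crest.Agent.R096.Brk3_582
  Crest.Agent.R096.Brk5_582 Crest.Agent.R096.Bsp_628 Crest.Agent.R096.Init_543
  Crest.Agent.R096.Vb_965 Crest.Agent.R096.Msh_715 Crest.Agent.R096.St_147
  Crest.Agent.R096.Seq_213 Crest.Agent.R096.Lm_117 Crest.Agent.R096.Gl_422
  Crest.Agent.R096.SkB_662 Crest.Agent.R096.Cpo_642
  Crest.Agent.R096.Ce_537 Crest.Agent.R096.Agl5_543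
  Crest.Agent.R096.Cp_298 Crest.Agent.R096.Gm_298 Crest.Agent.R096.Ac_117
  Crest.Agent.R096.Sla_184 Crest.Agent.R096.Sla_184.Sla Crest.Agent.R096.Kin_527
  Crest.Agent.R096.Vrt_422
open Crest.Agent.R096.SkC1_961 (E3 Hom3 FoamD)
open Crest.Agent.R096.Mbf_337 (KJ sb)
open Crest.Agent.R096.Gia_537 (Kc Kc_sub Kc_compact Kc_disj Kc_exact)

variable {δ κ0 R c0 : ℝ} {La Om : Set E3} {ι : Type} {Φ : FoamD δ κ0 R c0 La}
  {T : Tiling Om ι} {f g : E3 → E3} {κ1 κ2 s₁ σ : ℝ} {X : Set Φ.F} {J0 J V : Φ.F → Set ι}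
  {ct : Φ.F → ι}
  {A : Φ.F → E3 ≃ᵃ[ℝ] E3} {lam : Φ.F → ℝ} {z : Φ.F → E3} {θ : Φ.F → E3 → E3} {φ : Φ.F → E3 → ℝ}
  {ct' : Φ.F → ι} {r₀ : Φ.F → ℝ}
  {κ : Type} {S : Sla T κ}

/-- points of dimension `≤ 2` of an exact core tile are outside all open cores -/
theorem out_X (hLa : IsOpen La) (hC : Mbf_337.Cores Φ T f κ1 κ2 X J0 J V ct A lam z θ φ) {c : Φ.F}
    (hc : c ∈ X) {x : E3} (hx : x ∈ P (T.H (ct c))) (hd : T.dim x ≤ 2) (d : Φ.F) :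
    x ∉ interior (Kc T J d) := by
  by_cases hdc : d = c
  · subst hdc
    rw [Kc_exact hC hc, Csub_487.interior_tile]
    intro h
    have := dim_I h
    have h3 : finrank ℝ E3 = 3 := by simp
    rw [h3] at this
    omega
  · intro h
    exact disjoint_left.1 (Kc_disj (T := T) (J := J) hLa hC hdc) (interior_subset h)
      (by rw [Kc_exact hC hc]; exact hx)

/-- points of the frontier of a core have dimension `≤ 2` -/
theorem dim_fr {c : Φ.F} (hC : Mbf_337.Cores Φ T f κ1 κ2 X J0 J V ct A lam z θ φ)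
    (hc : c ∈ X) {x : E3} (hx : x ∈ frontier (Kc T J c)) : T.dim x ≤ 2 := by
  rw [Kc_exact hC hc] at hx
  have hxP : x ∈ P (T.H (ct c)) := (T.cpt _).isClosed.frontier_subset hx
  have hxO := T.sub _ hxP
  have h3 : finrank ℝ E3 = 3 := by simp
  by_contra hcon
  have hle : T.dim x ≤ finrank ℝ E3 := Submodule.finrank_le _
  have hV : T.V x = ⊤ := by
    refine Submodule.eq_top_of_finrank_eq ?_
    have : T.dim x = 3 := by omega
    rw [h3]; exact this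
  obtain ⟨i, hi⟩ := (T.V_eq_top_iff hxO).1 hV
  by_cases hic : i = ct c
  · subst hic
    rw [← Csub_487.interior_tile] at hi
    exact hx.2 hi
  · exact not_mem_I (T := T) (fun e => hic e.symm) hxP hi

variable [Nonempty S.T3.Cell] {hH : ∀ c, CoreH S.T3 (S.KK c)} {hne : ∃ c, OutK S.T3 S.KK c}
  {Kq : Type} {Qd : Quads (T.RIdx S.HH ⊕ κ) Φ.F Kq} {Jn : Type} {fam : Jn → Φ.F}
  {s₀ : GSt (mK fr3 hH dis_KK) fam}

/-- the vertex of `lmK` at a vertex of a tile outside all cores -/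
theorem vx_o (hK : TinyK X J S) {i : ι} (hi : i ∉ KorJ Φ J) {v : E3} (hv : v ∈ P (T.H i))
    (hd : T.dim v = 0) :
    ∃ hO : OutK S.T3 S.KK (edC S.T3 v), (edC S.T3 v).dim = 0 ∧ (edC S.T3 v).set = {v} ∧
      oc (edC S.T3 v) hO ≤ tcK S.T3 S.KK (Sum.inl (S.ot i (hK.subK.out hi))) := by
  have hvO : v ∈ Om := T.sub _ hv
  have hiS : ∀ c, ¬ P (T.H i) ⊆ S.K c := hK.subK.out hi
  have h1 : S.T3.dim v = 0 := by rw [(T3_eq hiS hv).2.2, hd]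
  have hset : (edC S.T3 v).set = {v} := by
    rw [edC_set hvO]
    exact S.T3.cc_eq_singleton (S.T3.dim_eq_zero_iff.1 h1)
  have hv' : v ∈ P (S.T3.H (S.ot i hiS)) := by rw [ot_P]; exact hv
  have hO : OutK S.T3 S.KK (edC S.T3 v) := ⟨S.ot i hiS, not_KK_ot hiS, by
    rw [hset]; exact singleton_subset_iff.2 hv'⟩
  refine ⟨hO, (edC_vertex hvO h1).1, hset, ?_⟩
  rw [le_tcK (not_KK_ot hiS)]
  exact ⟨_, hO, rfl, by rw [hset]; exact singleton_subset_iff.2 hv'⟩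

/-- **deep vertices**: a vertex of a tile outside all cores with a point of small level -/
theorem deep_o (hLa : IsOpen La) (hN : Num δ κ0 R c0 κ2 κ1 s₁) (hR : InitR Φ T f g J0 ct' r₀)
    (hC : Mbf_337.Cores Φ T f κ1 κ2 X J0 J V ct A lam z θ φ) (hK : TinyK X J S) {i : ι}
    (hi : i ∉ KorJ Φ J) {v x : E3} (hv : v ∈ P (T.H i)) (hd : T.dim v = 0) (hx : x ∈ P (T.H i))
    {a : Φ.F} (hl : va (Pc Φ.F) (bc (F := Φ.F)) (RF Φ r₀) f a x ≤ θN δ κ0 R c0 κ2 κ1)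
    (hO : OutK S.T3 S.KK (edC S.T3 v)) : DeepS hC r₀ S a (oc (edC S.T3 v) hO) := by
  obtain ⟨_, h0, -, hle⟩ := vx_o hK hi hv hd
  refine deep_of_zero hR.hm (foam4 Φ hLa) (retF Φ hLa hR.pos hR.le_one)
    (corT hLa hN.hδ hN.hR hN.hκ0 hN.hκ1 hN.hκ2 hN.hκ hN.hκn hC hR)
    (q := Sum.inl (S.ot i (hK.subK.out hi)))
    ⟨i, hK.subK.out hi, hi, rfl⟩ hle h0 (x := x) ?_ (T.sub i hx) (fun c => int_J hi hx c) hl
  rw [setK_tcK (not_KK_ot _), ot_P]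
  exact hx

/-- **far vertices** -/
theorem far_o (hK : TinyK X J S) {i : ι} {θ' : ℝ}
    (hi : i ∉ KorJ Φ J) {v x : E3} (hv : v ∈ P (T.H i)) (hd : T.dim v = 0) (hx : x ∈ P (T.H i))
    {a : Φ.F} (hl : 1 - θ' ≤ va (Pc Φ.F) (bc (F := Φ.F)) (RF Φ r₀) f a x)
    (hO : OutK S.T3 S.KK (edC S.T3 v)) :
    FarS Φ f r₀ J S θ' a (oc (edC S.T3 v) hO) := by
  obtain ⟨_, h0, -, hle⟩ := vx_o hK hi hv hd
  refine ⟨h0, Sum.inl (S.ot i (hK.subK.out hi)), ⟨i, hK.subK.out hi, hi, rfl⟩, hle, x, ?_, hl⟩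
  rw [setK_tcK (not_KK_ot _), ot_P]
  exact hx

section main

variable (hLa : IsOpen La) (hLc : IsPreconnected La) (hN : Num δ κ0 R c0 κ2 κ1 s₁)
  (hR : InitR Φ T f g J0 ct' r₀)
  (hC : Mbf_337.Cores Φ T f κ1 κ2 X J0 J V ct A lam z θ φ)
  (hM : Mesh0 T (Pc Φ.F) (bc (F := Φ.F)) (RF Φ r₀) f (KorJ Φ J0) κ1)
  (hK : TinyK X J S)
  (Xc : Cplx Om (QK (belK S.T3 S.KK)) (dimK (belK S.T3 S.KK) fun c => c.1.dim)
    (setK S.T3 S.KK))
  (h : Lst Φ f J0 J r₀ S hH hne Qd s₀ s₁ σ)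
include hLa hLc hN hR hC hM hK Xc h

/-- **`ropX`** of 337's `Front` (always the first alternative) -/
theorem ropX_S {a : Φ.F} {w₀ w₁ : QK (belK S.T3 S.KK)} (hw₀ : DeepS hC r₀ S a w₀)
    (hw₁ : FarS Φ f r₀ J S (θN δ κ0 R c0 κ2 κ1) a w₁)
    (hrope : ReflTransGen (Ed (lmK fr3 hH dis_KK hne)
      {e | FrE (lmK fr3 hH dis_KK hne) Qd a e}) w₀ w₁) {c : Φ.F} (hc : c ∈ X) :
    ∃ v : {c : S.T3.Cell // OutK S.T3 S.KK c}, v.1.dim = 0 ∧ v.1.set ⊆ P (T.H (ct c)) ∧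
      ReflTransGen (Ed (lmK fr3 hH dis_KK hne) {e | FrE (lmK fr3 hH dis_KK hne) Qd a e})
        w₀ (QK.c _ v) := by
  have hKc : Kc T J c = P (T.H (ct c)) := Kc_exact hC hc
  have hθ := hN.hθ
  have h00 := hN.h00
  have hzero : ∀ x ∈ P (T.H (ct c)), T.dim x ≤ 2 →
      va (Pc Φ.F) (bc (F := Φ.F)) (RF Φ r₀) f a x ≤ θN δ κ0 R c0 κ2 κ1 →
      ∃ v : {c : S.T3.Cell // OutK S.T3 S.KK c}, v.1.dim = 0 ∧ v.1.set ⊆ P (T.H (ct c)) ∧
      ReflTransGen (Ed (lmK fr3 hH dis_KK hne) {e | FrE (lmK fr3 hH dis_KK hne) Qd a e})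
        w₀ (QK.c _ v) := by
    intro x hx hxd hxl
    have hxO := T.sub _ hx
    obtain ⟨v, hv, hd⟩ := exists_vertex T hxO
    have hvc : v ∈ P (T.H (ct c)) := T.cc_sub_tile hx hv
    obtain ⟨q, hq, hxq⟩ := exists_out T (kor_sub (Φ := Φ) (J := J))
      (fun _ _ h => Kc_disj hLa hC h) hxO fun d => out_X hLa hC hc hx hxd d
    have hvq : v ∈ P (T.H q) := T.cc_sub_tile hxq hv
    obtain ⟨hO, b1, b2, -⟩ := vx_o hK hq hvq hd
    refine ⟨⟨_, hO⟩, b1, ?_, ?_⟩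
    · show (edC S.T3 v).set ⊆ _
      rw [b2]; exact singleton_subset_iff.2 hvc
    · exact fr0_frE (zero_S hLa hN hR hC hM hK Xc h hw₀
        (deep_o hLa hN hR hC hK hq hvq hd hxq hxl hO))
  -- a vertex of the core tile
  obtain ⟨y, hy⟩ := T.ne (ct c)
  obtain ⟨v, hv, hd⟩ := exists_vertex T (T.sub _ (I_sub_P _ hy))
  have hvc : v ∈ P (T.H (ct c)) := T.cc_sub_tile (I_sub_P _ hy) hv
  by_cases hjc : c = a
  · subst hjc
    refine hzero v hvc (by omega) ?_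
    rw [(va_core hLa hR hC (by rw [hKc]; exact hvc)).1]
    exact hN.hθ
  by_cases hac : (Pc Φ.F c ∩ Pc Φ.F a).Nonempty
  · obtain ⟨x, hx, hxl⟩ := exists_touch hLa hN hR hC hjc hac
    refine hzero x ?_ (dim_fr hC hc hx) hxl
    rw [← hKc]
    exact (Kc_compact hC c).isClosed.frontier_subset hx
  · have hone : va (Pc Φ.F) (bc (F := Φ.F)) (RF Φ r₀) f a v = 1 :=
      va_core_one hLa hR hC hac (by rw [hKc]; exact hvc)
    obtain ⟨q, hq, hvq⟩ := exists_out T (kor_sub (Φ := Φ) (J := J))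
      (fun _ _ h => Kc_disj hLa hC h) (T.sub _ hvc) fun d => out_X hLa hC hc hvc (by omega) d
    obtain ⟨hO, b1, b2, -⟩ := vx_o hK hq hvq hd
    refine ⟨⟨_, hO⟩, b1, ?_, hrope.trans (fr0_frE (far_S hLa hLc hN hR hC hM hK Xc h hw₁
      (far_o hK hq hvq hd hvq (by rw [hone]; linarith) hO)))⟩
    show (edC S.T3 v).set ⊆ _
    rw [b2]; exact singleton_subset_iff.2 hvc

end main

end Crest.Agent.R096.Rop_441
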