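import Crest.Agent.R096.Hl5_955
import Crest.Agent.R096.Onb2_63
import Crest.Agent.R096.Rop13_441
import Crest.Agent.R096.Frs2_662
import Crest.Agent.R096.Frk1_441

-- ▼ part R096/Hl6_955
section

/-!
# R096 (row 96), BASE-R (helper955), part 6: **`labX` of 337's `Front`**

`labX_core` : from `Lay`, `Cores`, `Words`, the labels over `lmK` and the two extreme values;
`labX_S`    : the machine instance over 184's `Sla` (441's ropes: `DeepS`, `FarS`, `Lst`).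
-/

set_option autoImplicit false
set_option linter.unusedSectionVars false
set_option linter.unusedVariables false
set_option linter.style.longLine false

open Set Relation Module

namespace Crest.Agent.R096.Hl_955

open Crest.Agent.R096.Brk1_582 Crest.Agent.R096.Brk2_582 Crest.Agent.R096.Brk3_582
  Crest.Agent.R096.Brk5_582 Crest.Agent.R096.Bsp_628 Crest.Agent.R096.Init_543
  Crest.Agent.R096.Vb_965 Crest.Agent.R096.Msh_715 Crest.Agent.R096.St_147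
  Crest.Agent.R096.Seq_213 Crest.Agent.R096.Seq_213.GSt Crest.Agent.R096.Lm_117
  Crest.Agent.R096.Gl_422 Crest.Agent.R096.Gm_298
  Crest.Agent.R096.SkB_662 Crest.Agent.R096.Cpo_642
  Crest.Agent.R096.Ce_537 Crest.Agent.R096.Agl5_543 Crest.Agent.R096.Ecm_446
  Crest.Agent.R096.Cp_298 Crest.Agent.R096.Ac_117
  Crest.Agent.R096.Rop_441 Crest.Agent.R096.Frn_337 Crest.Agent.R096.Onb_63
open Crest.Agent.R096.SkC1_961 (E3 Hom3 FoamD th)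
open Crest.Agent.R096.Mbf_337 (KJ sb Cores Words)
open Crest.Agent.R096.Gia_537 (Kc Kc_sub Kc_compact Kc_disj Kc_exact)
open Crest.Agent.R096.Exa_560 (Cn Cn_nonneg)

section core

variable {δ κ0 R c0 : ℝ} {La Om : Set E3} {ι : Type}
variable {Φ : FoamD δ κ0 R c0 La} {T : Tiling Om ι} {f : E3 → E3} {κ1 κ2 : ℝ} {X : Set Φ.F}
  {J0 Jt V : Φ.F → Set ι} {ct : Φ.F → ι} {A : Φ.F → E3 ≃ᵃ[ℝ] E3} {lam : Φ.F → ℝ} {z : Φ.F → E3}
  {θ : Φ.F → E3 → E3} {φ : Φ.F → E3 → ℝ} {M : Φ.F → ℕ}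
  {ι3 : Type} {T3 : Tiling Om ι3} {KK : Ti X → Set E3} {c3 : ι → ι3}
variable [Nonempty T3.Cell] {hH : ∀ k, CoreH T3 (KK k)}
    {hdis : ∀ k k', k ≠ k' → Disjoint (KK k) (KK k')} {hne : ∃ c, OutK T3 KK c}
    {L : Φ.F → Finset ℝ} {s₀ : GSt (mK fr3 hH hdis) (fun j : JJ Φ L => j.1)}
    {lam₀ : JJ Φ L → QK (belK T3 KK) → ZMod 2}

/-- **`labX` FROM THE TWO EXTREME VALUES** -/
theorem labX_core (hLa : IsOpen La) (hL : Lay Φ T X J0 Jt T3 KK c3)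
    (hC : Cores Φ T f κ1 κ2 X J0 Jt V ct A lam z θ φ) (hW : Words Φ T f X ct A lam z M L)
    {μ : ℝ} (hμ0 : 0 < μ) (hm : ∀ a, ∀ t ∈ L a, μ ≤ t ∧ t ≤ 1 - μ)
    (hlab : ∀ j, GLab (lmK fr3 hH hdis hne) (gp s₀ j) (lam₀ j)) {c : Φ.F} (hc : c ∈ X)
    (hlev : ∀ w ∈ s₀.P, w ∈ P (T.H (ct c)) → Φ.lev (s₀.lab w).1 (f w) = (s₀.lab w).2.1)
    (low : ∀ v : {c : T3.Cell // OutK T3 KK c}, v.1.dim = 0 → v.1.set ⊆ P (T.H (ct c)) →
      ∀ j : JJ Φ L, sb Φ (th (A c) (lam c) (z c) v.1.pt) j.1 = 0 → lam₀ j (QK.c _ v) = 1)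
    (high : ∀ v : {c : T3.Cell // OutK T3 KK c}, v.1.dim = 0 → v.1.set ⊆ P (T.H (ct c)) →
      ∀ j : JJ Φ L, sb Φ (th (A c) (lam c) (z c) v.1.pt) j.1 = 1 → lam₀ j (QK.c _ v) = 0) :
    ∀ v : {c : T3.Cell // OutK T3 KK c}, v.1.dim = 0 → v.1.set ⊆ P (T.H (ct c)) →
      ∀ j : JJ Φ L, lam₀ j (QK.c _ v) = 1 ↔ Φ.lev j.1 (f v.1.pt) < j.2.1 := by
  have hk := keep_ct hL hC hc
  have hcc := cc_ct hL hC hc
  have hout := out_ct hL hC hc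
  have hE := exact3 hL hC hc
  have hE0 := hC.exact_ c hc
  have hg := grid3 hL hC hW hc
  have hg0 := hW.grid c hc
  have hM0 := hg.1
  have hM' : (0 : ℝ) < M c := by exact_mod_cast hM0
  have F := foamΦ hLa Φ
  -- `Same` over `T3`
  have hS0 := same_of_words (T := T) (f := f) (fam := fun j : JJ Φ L => j.1)
    (t := fun j : JJ Φ L => j.2.1) hW hc hM0 (fun j => j.2.2)
  have hS : Same T3 (c3 (ct c)) (Ecm_446.U Φ (A c) (lam c) (z c) (M c)) (fun j : JJ Φ L => j.1)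
      (fun j => M c * j.2.1) (fun j => {y | Φ.lev j.1 (f y) = j.2.1}) := by
    intro x hx hd j hs y hy
    rw [hk] at hx
    have e1 := (hcc x hx).1
    have e2 := (hcc x hx).2
    rw [e1] at hy
    have hsub : ∀ y ∈ T.cc x, T3.dim y = T.dim y := fun y hy =>
      (hcc y (T.cc_sub_tile hx hy)).2
    refine hS0 x hx (by rw [← e2]; exact hd) j ?_ y hy
    rcases hs with hs | hs
    · left
      intro y hy hy0
      exact hs y (by rw [e1]; exact hy) (by rw [hsub y hy]; exact hy0)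
    · right
      intro y hy hy0
      exact hs y (by rw [e1]; exact hy) (by rw [hsub y hy]; exact hy0)
  have key := hl_core (L := Lp c3 ct hH hdis hne) (s := s₀) (fam := fun j : JJ Φ L => j.1)
    (X := fun j : JJ Φ L => {y | Φ.lev j.1 (f y) = j.2.1})
    (V := fun j : JJ Φ L => {y | Φ.lev j.1 (f y) < j.2.1})
    (τ := fun j : JJ Φ L => M c * j.2.1) (N := M c)
    (lam₀ := fun j v => lam₀ j v.1) onT_Lp (full_Lp hout) (cg_of_grid hLa hE hg)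
    (stp_of_grid hLa hE hg) hS (cw3 hL hC hW hc).side
    (fun w hw hwi => hlev w hw (by rw [← hk]; exact hwi)) (fun j => by
      have h3 := hm _ _ j.2.2
      refine ⟨mul_pos hM' (hμ0.trans_le h3.1), ?_⟩
      have h4 : j.2.1 < 1 := by linarith [h3.2]
      nlinarith)
    (fun v hv _ a => by
      show (M c : ℝ) * sb Φ (th (A c) (lam c) (z c) v) a ≤ M c
      have := ((F.sc_mem_K (th_La hE hv)).1 a).2
      have h4 : sb Φ (th (A c) (lam c) (z c) v) a ≤ 1 := this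
      nlinarith)
    (fun j => glab_sb (hlab j))
    (by
      rintro ⟨v | k, hv⟩ hvD hv0 j hu
      · refine low v hv0 (by rw [← hk]; exact hvD.1) j ?_
        have h5 : (M c : ℝ) * sb Φ (th (A c) (lam c) (z c) v.1.pt) j.1 = 0 := hu
        rcases mul_eq_zero.1 h5 with h | h
        · exact absurd h hM'.ne'
        · exact h
      · exact hv.elim)
    (by
      rintro ⟨v | k, hv⟩ hvD hv0 j hu
      · refine high v hv0 (by rw [← hk]; exact hvD.1) j ?_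
        have h5 : (M c : ℝ) * sb Φ (th (A c) (lam c) (z c) v.1.pt) j.1 = M c := hu
        have h4 : (M c : ℝ) * sb Φ (th (A c) (lam c) (z c) v.1.pt) j.1 = M c * 1 := by
          rw [mul_one]; exact h5
        exact mul_left_cancel₀ hM'.ne' h4
      · exact hv.elim)
  intro v hv0 hvP j
  have hp : pO T3 KK c3 ct (QK.c _ v) := pO_two _ (by
    show v.1.dim ≤ 2
    omega)
  exact key ⟨QK.c _ v, hp⟩ ⟨by rw [hk]; exact hvP, by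
    show v.1.dim ≤ 2
    omega⟩ hv0 j

end core

section S

variable {δ κ0 R c0 : ℝ} {La Om : Set E3} {ι : Type} {Φ : FoamD δ κ0 R c0 La}
  {T : Tiling Om ι} {f g : E3 → E3} {κ1 κ2 s₁ σ : ℝ} {X : Set Φ.F} {J0 J V : Φ.F → Set ι}
  {ct : Φ.F → ι}
  {A : Φ.F → E3 ≃ᵃ[ℝ] E3} {lam : Φ.F → ℝ} {z : Φ.F → E3} {θ : Φ.F → E3 → E3} {φ : Φ.F → E3 → ℝ}
  {ct' : Φ.F → ι} {r₀ : Φ.F → ℝ} {M : Φ.F → ℕ}
  {S : Sla_184.Sla T (Ti X)}
variable [Nonempty S.T3.Cell] {hH : ∀ c, CoreH S.T3 (S.KK c)} {hne : ∃ c, OutK S.T3 S.KK c}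
  {Kq : Type} {Qd : Quads (T.RIdx S.HH ⊕ Ti X) Φ.F Kq} {L : Φ.F → Finset ℝ}
  {s₀ : GSt (mK fr3 hH Sla_184.Sla.dis_KK) (fun j : JJ Φ L => j.1)}
  {lam₀ : JJ Φ L → QK (belK S.T3 S.KK) → ZMod 2}
  {v₀ v₁ : Φ.F → QK (belK S.T3 S.KK)} {c3 : ι → T.RIdx S.HH}

/-- **`labX` OF `Front`, MACHINE INSTANCE** -/
theorem labX_S (hLa : IsOpen La) (hLc : IsPreconnected La) (hN : Num δ κ0 R c0 κ2 κ1 s₁)
    (hR : InitR Φ T f g J0 ct' r₀)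
    (hC : Cores Φ T f κ1 κ2 X J0 J V ct A lam z θ φ)
    (hM : Mesh0 T (Pc Φ.F) (bc (F := Φ.F)) (RF Φ r₀) f (KorJ Φ J0) κ1)
    (hK : TinyK X J S)
    (Xc : Cplx Om (QK (belK S.T3 S.KK)) (dimK (belK S.T3 S.KK) fun c => c.1.dim)
      (setK S.T3 S.KK))
    (h : Lst Φ f J0 J r₀ S hH hne Qd s₀ s₁ σ)
    (hL : Lay Φ T X J0 J S.T3 S.KK c3) (hW : Words Φ T f X ct A lam z M L)
    {μ : ℝ} (hμ0 : 0 < μ) (hm : ∀ a, ∀ t ∈ L a, μ ≤ t ∧ t ≤ 1 - μ)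
    (hlab : ∀ j, GLab (lmK fr3 hH Sla_184.Sla.dis_KK hne) (gp s₀ j) (lam₀ j))
    (hw₀ : ∀ j : JJ Φ L, DeepS hC r₀ S j.1 (v₀ j.1))
    (hw₁ : ∀ j : JJ Φ L, FarS Φ f r₀ J S (θN δ κ0 R c0 κ2 κ1) j.1 (v₁ j.1))
    (hone : ∀ j : JJ Φ L, lam₀ j (v₀ j.1) = 1) (hzero : ∀ j : JJ Φ L, lam₀ j (v₁ j.1) = 0)
    (hlev : ∀ c ∈ X, ∀ w ∈ s₀.P, w ∈ P (T.H (ct c)) →
      Φ.lev (s₀.lab w).1 (f w) = (s₀.lab w).2.1) :
    ∀ c ∈ X, ∀ v : {c : S.T3.Cell // OutK S.T3 S.KK c}, v.1.dim = 0 →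
      v.1.set ⊆ P (T.H (ct c)) →
      ∀ j : JJ Φ L, lam₀ j (QK.c _ v) = 1 ↔ Φ.lev j.1 (f v.1.pt) < j.2.1 := by
  intro c hc
  have hE0 := hC.exact_ c hc
  have hg0 := hW.grid c hc
  have hM0 := hg0.1
  have hcc := cc_ct hL hC hc
  -- the vertex
  have key : ∀ v : {c : S.T3.Cell // OutK S.T3 S.KK c}, v.1.dim = 0 →
      v.1.set ⊆ P (T.H (ct c)) → v.1.pt ∈ P (T.H (ct c)) ∧ T.dim v.1.pt = 0 ∧
      ∃ q, ∃ hq : q ∉ KorJ Φ J, v.1.pt ∈ P (T.H q) ∧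
        ∃ hO : OutK S.T3 S.KK (edC S.T3 v.1.pt), v = ⟨edC S.T3 v.1.pt, hO⟩ := by
    intro v hv0 hvP
    have hpP : v.1.pt ∈ P (T.H (ct c)) := hvP (by rw [v.1.set_eq]; exact S.T3.self_mem_cc _)
    have hd3 : S.T3.dim v.1.pt = 0 := hv0
    have hd : T.dim v.1.pt = 0 := by rw [← (hcc _ hpP).2]; exact hd3
    obtain ⟨q, hq, hxq⟩ := exists_out T (kor_sub (Φ := Φ) (J := J))
      (fun _ _ h => Kc_disj hLa hC h) (T.sub _ hpP) fun d => out_X hLa hC hc hpP (by omega) d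
    obtain ⟨hO, b1, b2, -⟩ := vx_o hK hq hxq hd
    refine ⟨hpP, hd, q, hq, hxq, hO, Subtype.ext (Tiling.Cell.ext ?_)⟩
    rw [b2, v.1.set_eq, S.T3.cc_eq_singleton (S.T3.dim_eq_zero_iff.1 hd3)]
  refine labX_core hLa hL hC hW hμ0 hm hlab hc (hlev c hc) ?_ ?_
  · intro v hv0 hvP j hu
    obtain ⟨hpP, hd, q, hq, hxq, hO, e⟩ := key v hv0 hvP
    have hva := (va_ends hLa hN hR hE0 hM0 hpP (by omega) j.1).1 (by
      show (M c : ℝ) * sb Φ (th (A c) (lam c) (z c) v.1.pt) j.1 = 0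
      rw [hu, mul_zero])
    have h3 := zero_S hLa hN hR hC hM hK Xc h (hw₀ j)
      (deep_o hLa hN hR hC hK hq hxq hd hxq hva hO)
    have h4 := lam_fr0 h3 rfl (hlab j)
    rw [hone j] at h4
    rw [e]
    exact h4.symm
  · intro v hv0 hvP j hu
    obtain ⟨hpP, hd, q, hq, hxq, hO, e⟩ := key v hv0 hvP
    have hva := (va_ends hLa hN hR hE0 hM0 hpP (by omega) j.1).2 (by
      show (M c : ℝ) * sb Φ (th (A c) (lam c) (z c) v.1.pt) j.1 = M c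
      rw [hu, mul_one])
    have h3 := far_S hLa hLc hN hR hC hM hK Xc h (hw₁ j)
      (far_o hK hq hxq hd hxq hva hO)
    have h4 := lam_fr0 h3 rfl (hlab j)
    rw [hzero j] at h4
    rw [e]
    exact h4.symm

end S

end Crest.Agent.R096.Hl_955
end

-- ▼ part R096/Frs3_662

/-!
# R096 (row 96), FRONT (helper662): the shell of 534's `FrontP`, part 3

`FrontN` : the list of `FrontM` without `k4`, `ropX` (441) and `labX` (955);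
`frontM_of` : `FrontN → FrontM` over 471's slicing with the vertices of `VxD`;
`DoorsQb b`, **`doorsPb_of : DoorsQb b → DoorsPb b`**, **`machBF_of_doorsQ`**, `frontP_of_doorsQ`.
-/

set_option autoImplicit false
set_option linter.unusedSectionVars false
set_option linter.unusedVariables false
set_option linter.style.longLine false

open Set Relation Module Topology Filter Metric MeasureTheory

namespace Crest.Agent.R096.Frs_662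

open Crest.Agent.R096.Brk1_582 Crest.Agent.R096.Brk2_582 Crest.Agent.R096.Brk3_582
open Crest.Agent.R096.Brk5_582 Crest.Agent.R096.Bsp_628
open Crest.Agent.R096.St_147 Crest.Agent.R096.Seq_213 Crest.Agent.R096.Seq_213.GSt
open Crest.Agent.R096.Lm_117 Crest.Agent.R096.Ac_117 Crest.Agent.R096.Msh_715
open Crest.Agent.R096.Cp_298 Crest.Agent.R096.Gm_298 Crest.Agent.R096.Gl_422
open Crest.Agent.R096.SkB_662 Crest.Agent.R096.Cpo_642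
open Crest.Agent.R096.Agl5_543 Crest.Agent.R096.Ori_543
open Crest.Agent.R096.Init_543 Crest.Agent.R096.Qdl_662 Crest.Agent.R096.Lmx_662
open Crest.Agent.R096.SkC1_961 (E3 Hom3 FoamD Cfg th NN)
open Crest.Agent.R096.Mbf_337 (Star Cores Fine Levels Words KJ sb)
open Crest.Agent.R096.Frn_337 Crest.Agent.R096.Mno_534 Crest.Agent.R096.Rop_441

variable {δ κ0 R c0 : ℝ} {La Om : Set E3} {ι : Type}
variable {Φ : FoamD δ κ0 R c0 La} {T : Tiling Om ι} {X : Set Φ.F} {J0 Jt : Φ.F → Set ι}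
  {ι3 : Type} {T3 : Tiling Om ι3} {KK : Ti X → Set E3}

/-- **OUTPUT OF DOORS, REDUCED LIST** -/
structure FrontN (T : Tiling Om ι) (f : E3 → E3) (J0 V : Φ.F → Set ι)
    (til : ι3 → ι) (s' : ℝ) [Nonempty T3.Cell] (hH : ∀ k, CoreH T3 (KK k))
    (hdis : ∀ k k', k ≠ k' → Disjoint (KK k) (KK k')) (hne : ∃ c, OutK T3 KK c)
    {L : Φ.F → Finset ℝ} (Qd : Quads (ι3 ⊕ Ti X) Φ.F (Init_543.QK (Pc Φ.F)))
    (s₀ : GSt (mK fr3 hH hdis) (fun j : JJ Φ L => j.1)) (far₀ : JJ Φ L → Set E3)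
    (Gc : Φ.F → Set E3) (Zc : Φ.F → Set (QK (belK T3 KK)))
    (lam₀ : JJ Φ L → QK (belK T3 KK) → ZMod 2) (v₀ v₁ : Φ.F → QK (belK T3 KK)) : Prop where
  inv : s₀.Inv Qd far₀
  on : ∀ w ∈ s₀.P, w ∈ (lmK fr3 hH hdis hne).W1
  fin : ∀ F, (s₀.P ∩ (mK fr3 hH hdis).On F).Finite
  lab : LabIn (lmK fr3 hH hdis hne) Qd s₀ Gc Zc lam₀ v₀ v₁
  posB : ∀ w ∈ s₀.P, ∀ i3, (∀ k', ¬ P (T3.H i3) ⊆ KK k') → w ∈ P (T3.H i3) →
    til i3 ∉ KorJ Φ J0 → ∃ x ∈ P (T.H (til i3)), Φ.lev (s₀.lab w).1 (f x) ∈ Icc s' (1 - s')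
  lev : ∀ x ∈ s₀.P, ∀ i, (∀ k : Ti X, i ∉ V k.1) → x ∈ P (T.H i) →
    Φ.lev (s₀.lab x).1 (f x) = (s₀.lab x).2.1
  /-- (E1) at the tiny cores -/
  oneT : ∀ (k : Ti X) (j : JJ Φ L), One s₀ {F | Sum.inr k ∈ (mK fr3 hH hdis).side F} j
  /-- (E2) at the tiny cores -/
  twoT : ∀ (q : Init_543.QK (Pc Φ.F)) (k : Ti X), k.1 ∈ q.Z → ∀ j j' : JJ Φ L, j.1 ∈ q.B →
    j'.1 ∈ q.B → j.1 ≠ j'.1 → Two s₀ (Qd.Act q) {Sum.inr k} j j'

section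

variable {f g : E3 → E3} {κ1 κ2 s₁ s' μ : ℝ} {J V : Φ.F → Set ι} {ct ct' : Φ.F → ι}
  {r₀ : Φ.F → ℝ} {A : Φ.F → E3 ≃ᵃ[ℝ] E3} {lam : Φ.F → ℝ} {z : Φ.F → E3} {θ : Φ.F → E3 → E3}
  {φ : Φ.F → E3 → ℝ} {M : Φ.F → ℕ} {L : Φ.F → Finset ℝ}

/-- an exact tile is in no tiny `V` -/
theorem ct_notV (hC : Cores Φ T f κ1 κ2 X J0 J V ct A lam z θ φ) {c : Φ.F} (hc : c ∈ X)
    (k : Ti X) : ct c ∉ V k.1 := fun hk => by
  have hck : c ≠ k.1 := fun e => k.2 (e ▸ hc)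
  have h4 : ct c ∈ V c := by rw [(hC.one c hc).2.2]; rfl
  exact Set.disjoint_left.1 (hC.disj c k.1 hck) h4 hk

/-- **the vertex `v₀`** of the sliced mesh -/
noncomputable def vA (hLa : IsOpen La) (hC : Cores Φ T f κ1 κ2 X J0 J V ct A lam z θ φ)
    {D : Φ.F → Set E3} {q0 q1 : Φ.F → ι} {w0 w1 x0 x1 : Φ.F → E3}
    (hv : VxD Φ T f V D q0 q1 w0 w1 x0 x1) (n : Ti X → ℕ) (hn : ∀ c, 0 < n c)
    [Nonempty (slC hLa hC n hn).T3.Cell] (a : Φ.F) :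
    QK (belK (slC hLa hC n hn).T3 (slC hLa hC n hn).KK) :=
  vK (S := slC hLa hC n hn) (fun c => out_of_V hC (hv.out0 a) c) (hv.mem0 a) (hv.dim0 a)

/-- **the vertex `v₁`** of the sliced mesh -/
noncomputable def vB (hLa : IsOpen La) (hC : Cores Φ T f κ1 κ2 X J0 J V ct A lam z θ φ)
    {D : Φ.F → Set E3} {q0 q1 : Φ.F → ι} {w0 w1 x0 x1 : Φ.F → E3}
    (hv : VxD Φ T f V D q0 q1 w0 w1 x0 x1) (n : Ti X → ℕ) (hn : ∀ c, 0 < n c)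
    [Nonempty (slC hLa hC n hn).T3.Cell] (a : Φ.F) :
    QK (belK (slC hLa hC n hn).T3 (slC hLa hC n hn).KK) :=
  vK (S := slC hLa hC n hn) (fun c => out_of_V hC (hv.out1 a) c) (hv.mem1 a) (hv.dim1 a)

/-- **`FrontM` FROM `FrontN`** -/
theorem frontM_of (hLa : IsOpen La) (hLc : IsPreconnected La) (hN : Num δ κ0 R c0 κ2 κ1 s₁)
    (hC : Cores Φ T f κ1 κ2 X J0 J V ct A lam z θ φ) (hR : InitR Φ T f g J0 ct' r₀)
    (hM : Mesh0 T (Pc Φ.F) (bc (F := Φ.F)) (RF Φ r₀) f (KorJ Φ J0) κ1) (h1 : κ1 < s₁)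
    (h2 : κ1 < 1) (hs' : s₁ + κ1 ≤ s') (hσ : 2 * κ1 < s') (hW : Words Φ T f X ct A lam z M L)
    (hμ : 0 < μ) (hm : ∀ a, ∀ t ∈ L a, μ ≤ t ∧ t ≤ 1 - μ) {D : Φ.F → Set E3} {q0 q1 : Φ.F → ι}
    {w0 w1 x0 x1 : Φ.F → E3} (hv : VxD Φ T f V D q0 q1 w0 w1 x0 x1) {n : Ti X → ℕ}
    {hn : ∀ c, 0 < n c} [Nonempty (slC hLa hC n hn).T3.Cell]
    {hne : ∃ c, OutK (slC hLa hC n hn).T3 (slC hLa hC n hn).KK c}
    {s₀ : GSt (mK fr3 (Lay_316.lay_sla hLa hC n hn).core (Lay_316.lay_sla hLa hC n hn).disj)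
      (fun j : JJ Φ L => j.1)} {far₀ : JJ Φ L → Set E3} {Gc : Φ.F → Set E3}
    {Zc : Φ.F → Set (QK (belK (slC hLa hC n hn).T3 (slC hLa hC n hn).KK))}
    {lm : JJ Φ L → QK (belK (slC hLa hC n hn).T3 (slC hLa hC n hn).KK) → ZMod 2}
    (h : FrontN T f J0 V (fun p => p.tile) s'
      (Lay_316.lay_sla hLa hC n hn).core (Lay_316.lay_sla hLa hC n hn).disj hne
      (qdT (fun p : T.RIdx (slC hLa hC n hn).HH => p.tile) (sla_sub (slC hLa hC n hn))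
        (slC hLa hC n hn).KK hLa hR hM h1 h2) s₀ far₀ Gc Zc lm
      (vA hLa hC hv n hn)
      (vB hLa hC hv n hn)) :
    FrontM T f J0 V ct (Lay_316.c3 (slC hLa hC n hn)) (fun p => p.tile) s'
      (Lay_316.lay_sla hLa hC n hn).core (Lay_316.lay_sla hLa hC n hn).disj hne
      (qdT (fun p : T.RIdx (slC hLa hC n hn).HH => p.tile) (sla_sub (slC hLa hC n hn))
        (slC hLa hC n hn).KK hLa hR hM h1 h2) s₀ far₀ Gc Zc lm
      (vA hLa hC hv n hn)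
      (vB hLa hC hv n hn) := by
  have hK : ∀ k : Ti X, (slC hLa hC n hn).K k = KJ T (J k.1) := fun k => rfl
  have hTK : TinyK X J (slC hLa hC n hn) := Frk_441.tinyK_of hK
  have Xc := Frk_441.cplxS hC hK
  have h0 : ∀ j : JJ Φ L, DeepS hC r₀ (slC hLa hC n hn) j.1 (vA hLa hC hv n hn j.1) :=
    fun j => Frk_441.deep_vK hLa hN hR hC hK hv j.1 _
  have h1' : ∀ j : JJ Φ L, FarS Φ f r₀ J (slC hLa hC n hn) (θN δ κ0 R c0 κ2 κ1) j.1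
      (vB hLa hC hv n hn j.1) := fun j => Frk_441.far_vK hLa hN hR hC hK hv j.1 _
  have hLst := Frk_441.lst_of_B (hLa := hLa) (hR := hR) (hM := hM) (hε := h1) (hε1 := h2)
    (hne := hne) (s₀ := s₀) hC hK hs' h.on h.posB
  refine ⟨h.inv, h.on, h.fin, h.lab, h.posB, h.lev, ?_, ?_, ?_, h.oneT, h.twoT⟩
  · exact Hl_955.labX_S hLa hLc hN hR hC hM hTK Xc hLst (Lay_316.lay_sla hLa hC n hn) hW hμ hm
      (fun j => h.lab.lab j) h0 h1' (fun j => h.lab.one j) (fun j => h.lab.zero j)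
      (fun c hc w hw hwt => h.lev w hw (ct c) (fun k => ct_notV hC hc k) hwt)
  · exact fun c hc j => Frk_441.ropX_front hLc hN hC hK hs' h.on h.posB h0 h1' h.lab c hc j
  · exact fun q hq => Frk_441.k4_front hLc hN hσ hC hK hs' h.on h.posB h0 h1'
      (fun j => h.lab.far j) q hq

end

/-- **WHAT DOORS HAS TO PROVE, REDUCED** (`b` = bound of `κp`): all objects of INIT, 441's numbers
`Num` and the vertices `vA`, `vB` are given; the output is `FrontN` -/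
def DoorsQb (b : ℝ) : Prop :=
  ∀ δ κ0 R c0 κ2 κ3 : ℝ, 0 < δ → 1 ≤ κ0 → 1 ≤ R → 0 < c0 → 0 < κ2 → 8 ≤ κ3 →
  ∀ κp : ℝ, 0 < κp → κp ≤ b → ∀ μ : ℝ, 0 < μ → μ ≤ κp →
  ∃ s₁ s' κd : ℝ, 0 < s₁ ∧ s₁ ≤ 1 / 2 ∧ s₁ < s' ∧ 0 < κd ∧
  ∀ κ1 : ℝ, 0 < κ1 → κ1 ≤ κd → ∀ (h1 : κ1 < s₁) (h2 : κ1 < 1), Num δ κ0 R c0 κ2 κ1 s₁ →
    s₁ + κ1 ≤ s' → 2 * κ1 < s' →
  ∀ (Om La : Set E3) (f g : E3 → E3), IsOpen Om → Bornology.IsBounded Om → IsConnected Om →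
    ∀ hLa : IsOpen La, Bornology.IsBounded La → IsConnected La → Hom3 f Om La →
  ∀ (Φ : FoamD δ κ0 R c0 La) (ι : Type) (T : Tiling Om ι) (X : Set Φ.F) (J0 J V : Φ.F → Set ι)
    (ct : Φ.F → ι) (A : Φ.F → E3 ≃ᵃ[ℝ] E3) (lam : Φ.F → ℝ) (z : Φ.F → E3) (θ : Φ.F → E3 → E3)
    (φ : Φ.F → E3 → ℝ) (M : Φ.F → ℕ),
    Star Φ → ∀ hC : Cores Φ T f κ1 κ2 X J0 J V ct A lam z θ φ, Fine Φ T f κ1 J0 →
  ∀ (ct' : Φ.F → ι) (r₀ : Φ.F → ℝ) (hR : InitR Φ T f g J0 ct' r₀)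
    (hM : Mesh0 T (Pc Φ.F) (bc (F := Φ.F)) (RF Φ r₀) f (KorJ Φ J0) κ1),
  ∃ (Z : Φ.F → Set ℝ) (m0 : Φ.F → ℕ), (∀ c, volume (Z c) = 0) ∧
  ∀ (κ : Φ.F → ℕ) (L : Φ.F → Finset ℝ), Levels Φ T f κp μ κ3 Z m0 κ L →
    Words Φ T f X ct A lam z M L →
  ∀ [Nonempty (JJ Φ L)] (hG : GF Φ r₀ T f L) (D : Φ.F → Set E3) (bp : JJ Φ L → E3)
    (lam₀ : JJ Φ L → E3 → ZMod 2) (v₀ v₁ : Φ.F → E3),
    InitS hLa hR hM h1 h2 hG D bp lam₀ v₀ v₁ →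
  ∀ (q0 q1 : Φ.F → ι) (w0 w1 x0 x1 : Φ.F → E3) (hv : VxD Φ T f V D q0 q1 w0 w1 x0 x1),
  ∃ (n : Ti X → ℕ) (hn : ∀ c, 0 < n c), ∀ [Nonempty (slC hLa hC n hn).T3.Cell]
    (hne : ∃ c, OutK (slC hLa hC n hn).T3 (slC hLa hC n hn).KK c),
  ∃ (s₀ : GSt (mK fr3 (Lay_316.lay_sla hLa hC n hn).core (Lay_316.lay_sla hLa hC n hn).disj)
      (fun j : JJ Φ L => j.1)) (far₀ : JJ Φ L → Set E3) (Gc : Φ.F → Set E3)
    (Zc : Φ.F → Set (QK (belK (slC hLa hC n hn).T3 (slC hLa hC n hn).KK)))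
    (lm : JJ Φ L → QK (belK (slC hLa hC n hn).T3 (slC hLa hC n hn).KK) → ZMod 2),
    FrontN T f J0 V (fun p => p.tile) s'
      (Lay_316.lay_sla hLa hC n hn).core (Lay_316.lay_sla hLa hC n hn).disj hne
      (qdT (fun p : T.RIdx (slC hLa hC n hn).HH => p.tile) (sla_sub (slC hLa hC n hn))
        (slC hLa hC n hn).KK hLa hR hM h1 h2) s₀ far₀ Gc Zc lm
      (vA hLa hC hv n hn) (vB hLa hC hv n hn)

/-- **`DoorsPb b` FROM `DoorsQb b`** -/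
theorem doorsPb_of {b : ℝ} (hD : DoorsQb b) : DoorsPb b := by
  intro δ κ0 R c0 κ2 κ3 hδ hκ0 hR hc0 hκ2 hκ3 κp hp hpb μ hμ hμp
  obtain ⟨s₁, s', κd, hs1, hs12, hs2, hκd, hDo⟩ := hD δ κ0 R c0 κ2 κ3 hδ hκ0 hR hc0 hκ2 hκ3 κp hp
    hpb μ hμ hμp
  obtain ⟨κn, hκn, hNum⟩ := exists_num (δ := δ) (κ0 := κ0) (R := R) (c0 := c0) (κ2 := κ2) hδ
    (by linarith) (by linarith) hκ2 hs1 hs12
  refine ⟨s₁, s', min (min κd κn) (min (s' - s₁) (s' / 4)), hs1, hs2,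
    lt_min (lt_min hκd hκn) (lt_min (by linarith) (by linarith)), ?_⟩
  intro κ1 hκ1 hκle h1 h2 Om La f g hOm hOb hOc hLa hLb hLc hf Φ ι T X J0 J V ct A lam z θ φ M hSt
    hC hF ct' r₀ hRI hM
  have a1 : κ1 ≤ κd := hκle.trans ((min_le_left _ _).trans (min_le_left _ _))
  have a2 : κ1 ≤ κn := hκle.trans ((min_le_left _ _).trans (min_le_right _ _))
  have a3 : κ1 ≤ s' - s₁ := hκle.trans ((min_le_right _ _).trans (min_le_left _ _))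
  have a4 : κ1 ≤ s' / 4 := hκle.trans ((min_le_right _ _).trans (min_le_right _ _))
  have a5 : s₁ + κ1 ≤ s' := by linarith
  have a6 : 2 * κ1 < s' := by linarith
  have hN := hNum κ1 hκ1.le a2
  obtain ⟨Z, m0, hZ, hDo'⟩ := hDo κ1 hκ1 a1 h1 h2 hN a5 a6 Om La f g hOm hOb hOc hLa hLb hLc hf Φ ι
    T X J0 J V ct A lam z θ φ M hSt hC hF ct' r₀ hRI hM
  refine ⟨Z, m0, hZ, ?_⟩
  intro κ L hL hW hJJ hG D bp lam₀ v₀ v₁ hI q0 q1 w0 w1 x0 x1 hv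
  obtain ⟨n, hn, hDo''⟩ := hDo' κ L hL hW hG D bp lam₀ v₀ v₁ hI q0 q1 w0 w1 x0 x1 hv
  refine ⟨n, hn, ?_⟩
  intro hNc hne
  obtain ⟨s₀, far₀, Gc, Zc, lm, hFN⟩ := hDo'' hne
  exact ⟨s₀, far₀, Gc, Zc, lm, _, _, frontM_of hLa hLc.isPreconnected hN hC hRI hM h1 h2 a5 a6 hW
    hμ hL.marg hv hFN⟩




end Crest.Agent.R096.Frs_662
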