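import Crest.Agent.R096.Ess4_95
import Crest.Agent.R096.Exa8_560
import Crest.Agent.R096.Twr10_438
import Crest.Agent.R096.Door9_501
import Crest.Agent.R096.Mf2_113
import Crest.Agent.R096.Gm3_298

/-!
# R096 (row 96), DOORS_final, part 1 (helper539): the towers from the outer state

Generic: any tiling, any cores, any families `J → C` (the families of the machine and the barriers
of 892).  `DIn` : input; `exists_towers` : number of layers, exact levels and 438's towers over the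
outer state.
-/

set_option autoImplicit false
set_option linter.unusedSectionVars false
set_option linter.style.longLine false

open Set Topology Filter Metric Module
open scoped Classical

namespace Crest.Agent.R096.Dfi_539

open Crest.Agent.R096.Msh_715 Crest.Agent.R096.Coh_184 Crest.Agent.R096.Lab_184
  Crest.Agent.R096.Main_4 Crest.Agent.R096.Agl5_543
  Crest.Agent.R096.Seq_213 Crest.Agent.R096.St_147 Crest.Agent.R096.Door_501
  Crest.Agent.R096.Twr_438 Crest.Agent.R096.Exa_560 Crest.Agent.R096.Qp_106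
  Crest.Agent.R096.Ess3_95 Crest.Agent.R096.Ess4_95 Crest.Agent.R096.Ac_117 Crest.Agent.R096.Lm_117

variable {E : Type} [NormedAddCommGroup E] [NormedSpace ℝ E] [FiniteDimensional ℝ E]
variable {Om : Set E} {ι : Type} {T : Tiling Om ι} {J C : Type} {fam : J → C}
variable {κ : Type} {Kc : κ → Set E} {h3 : finrank ℝ E = 3}

/-- **input of the towers**: state `s` on the tiling, roots `r`, level sets `Sf`, neighbours `nb c a`
(the family `a` passes through the core `c`), far vertices `v0`, `v1`, level functions `u c a` on the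
sphere of the core, window `A c a < B c a` of the exact levels, above all the traces. -/
structure DIn (hH : ∀ c, CoreH T (Kc c)) (s : GSt (meshC T h3) fam) (r : J → E) (Sf : J → Set E)
    (nb : κ → C → Prop) (v0 v1 : ∀ c, C → VxK T Kc c) (u : κ → C → E → ℝ) (A B : κ → C → ℝ) where
  h1 : ∀ j, s.H1 j
  conn : ∀ j, s.Conn j
  root : ∀ j, r j ∈ s.P ∧ s.lab (r j) = j
  out : ∀ j c, r j ∉ interior (Kc c)
  dim1 : ∀ w ∈ s.P, w ∈ Om ∧ T.dim w = 1
  car : ∀ j, Car s j (Sf j)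
  sub : ∀ j, Sf j ⊆ Om
  finJ : ∀ a, {j | fam j = a}.Finite
  nb_c : ∀ c, {a | nb c a}.Finite
  nb_a : ∀ a, {c | nb c a}.Finite
  /-- the sheets of the other families do not meet the sphere of the core -/
  far : ∀ c w, w ∈ s.P → w ∈ frontier (Kc c) → nb c (fam (s.lab w))
  eg : ∀ c j, nb c (fam j) → Nonempty (EG s j (Sf j) Kc c (v0 c (fam j)) (v1 c (fam j)) (r j))
  low : ∀ c w, w ∈ s.P → w ∈ frontier (Kc c) →
    u c (fam (s.lab w)) w ≤ A c (fam (s.lab w))
  /-- `v0` is below, `v1` above the window -/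
  v0_lt : ∀ c a, nb c a → u c a (v0 c a).1 ≤ A c a
  v1_gt : ∀ c a, nb c a → B c a ≤ u c a (v1 c a).1
  /-- the exact levels: any order, inside the window, off a finite set, different for different
  families -/
  lev : ∀ c, ∀ lvl : J → ℝ, (∀ i j, fam i = fam j → lvl i = lvl j → i = j) →
    ∀ Q : Set E, Q.Finite → ∃ L : C → Lev T (frontier (Kc c)) J,
      (∀ a, (L a).u = u c a) ∧ (∀ a j, j ∈ (L a).J0 ↔ fam j = a ∧ nb c a) ∧
      (∀ a, ∀ j ∈ (L a).J0, A c a < (L a).lv j ∧ (L a).lv j < B c a) ∧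
      (∀ a, ∀ j ∈ (L a).J0, ∀ w ∈ Q, (L a).u w ≠ (L a).lv j) ∧
      (∀ a, ∀ i ∈ (L a).J0, ∀ j ∈ (L a).J0, (L a).lv i < (L a).lv j ↔ lvl i < lvl j) ∧
      (∀ a b, a ≠ b → ∀ i ∈ (L a).J0, ∀ j ∈ (L b).J0, ∀ y ∈ frontier (Kc c), T.dim y = 1 →
        (L a).u y = (L a).lv i → (L b).u y ≠ (L b).lv j) ∧
      ∀ a, ∀ j ∈ (L a).J0,
        IsPreconnected {x | x ∈ frontier (Kc c) ∧ (L a).u x = (L a).lv j} ∧
        {x | x ∈ frontier (Kc c) ∧ (L a).u x = (L a).lv j}.Nonempty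

/-- what is known about the exact levels -/
structure LevOut (s : GSt (meshC T h3) fam) (nb : κ → C → Prop) (u : κ → C → E → ℝ)
    (A B : κ → C → ℝ) (L : ∀ c, C → Lev T (frontier (Kc c)) J) : Prop where
  u : ∀ c a, (L c a).u = u c a
  mem : ∀ c a j, j ∈ (L c a).J0 ↔ fam j = a ∧ nb c a
  win : ∀ c a, ∀ j ∈ (L c a).J0, A c a < (L c a).lv j ∧ (L c a).lv j < B c a
  new : ∀ c a, ∀ j ∈ (L c a).J0, ∀ w ∈ s.P, w ∈ frontier (Kc c) → (L c a).u w ≠ (L c a).lv j
  sep : ∀ c a b, a ≠ b → ∀ i ∈ (L c a).J0, ∀ j ∈ (L c b).J0, ∀ y ∈ frontier (Kc c), T.dim y = 1 →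
    (L c a).u y = (L c a).lv i → (L c b).u y ≠ (L c b).lv j
  conn : ∀ c a, ∀ j ∈ (L c a).J0,
    IsPreconnected {x | x ∈ frontier (Kc c) ∧ (L c a).u x = (L c a).lv j} ∧
    {x | x ∈ frontier (Kc c) ∧ (L c a).u x = (L c a).lv j}.Nonempty


/-- every vertex of the sphere of a core is an end of an edge -/
theorem vx_edge {hH : ∀ c, CoreH T (Kc c)} {hdis : ∀ c c', c ≠ c' → Disjoint (Kc c) (Kc c')}
    {c : κ} (v : VxK T Kc c) : ∃ e b, (shellH h3 hH hdis c).en e b = v := by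
  obtain ⟨F, hF, hvF⟩ := Msh_715.exists_face h3 hH v.2.2
  have hFO : F.pt ∈ Om := F.set_sub (by rw [F.set_eq]; exact T.self_mem_cc _)
  have hvc : v.1 ∈ T.cc F.pt := by rw [← F.set_eq]; exact hvF
  obtain ⟨e, he, hd, hve⟩ := Mf_113.exists_edge_of_vertex v.2.1 hFO hvc (by
    have := F.dim_pt
    omega)
  have heF : e ∈ frontier (Kc c) := hF (by rw [F.set_eq]; exact he)
  have heO : e ∈ Om := T.cc_sub_Om hFO he
  let e' : EdK T Kc c := edK T Kc (fun c => (hH c).cc) heO heF hd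
  obtain ⟨b, hb⟩ := (endK_iff e' v).2 (by
    show v.1 ∈ (T.cl heO).set
    rw [Tiling.cl_set]; exact hve)
  exact ⟨e', b, hb⟩

section

variable {hH : ∀ c, CoreH T (Kc c)} {hdis : ∀ c c', c ≠ c' → Disjoint (Kc c) (Kc c')}
  {s : GSt (meshC T h3) fam} {r : J → E} {Sf : J → Set E} {nb : κ → C → Prop}
  {v0 v1 : ∀ c, C → VxK T Kc c} {u : κ → C → E → ℝ} {A B : κ → C → ℝ}

theorem trc_P {c : κ} {a : C} {w : E} (hw : w ∈ (trc hH hdis s r c a).P) :
    w ∈ s.P ∧ w ∈ frontier (Kc c) ∧ fam (s.lab w) = a := by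
  obtain ⟨h1, h2, e, he⟩ := mem_trc.1 hw
  exact ⟨h1.1, onE_fr he, h2⟩

/-- no trace of the families which do not pass the core -/
theorem DIn.trc_empty (D : DIn hH s r Sf nb v0 v1 u A B) {c : κ} {a : C} (h : ¬ nb c a) :
    (trc hH hdis s r c a).P = ∅ := by
  rw [Finset.eq_empty_iff_forall_notMem]
  intro w hw
  obtain ⟨h1, h2, h4⟩ := trc_P hw
  exact h (h4 ▸ D.far c w h1 h2)

/-- every point of the outer state is on a face of the merged mesh -/
theorem out_on (D : DIn hH s r Sf nb v0 v1 u A B) :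
    ∀ w ∈ (outK hH hdis s r).P, ∃ F0, w ∈ (meshK T h3 Kc (fun c => (hH c).core)
      (fun c => (hH c).cc) hdis).On F0 := by
  intro w hw
  obtain ⟨hwP, hr⟩ := hw
  rcases Relation.ReflTransGen.cases_tail hr with h | ⟨z, _, F, g1, g2, g3, g4⟩
  · obtain ⟨hO, hd⟩ := D.dim1 w hwP
    obtain ⟨q, hq, hqK⟩ := Gm_298.exists_tile_out hdis hO (fun c => by
      rw [h]; exact D.out _ c)
    obtain ⟨F, hF, hqF⟩ := Gm_298.exists_face_out (h3 := h3) hO hd hq
    have : Nonempty T.Cell := ⟨T.cl hO⟩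
    exact ⟨⟨F, Lm_117.out_face h3 F ⟨q, hqK, C2.sub_tile (h3 := h3) hqF⟩⟩, hF⟩
  · exact ⟨⟨F, g1⟩, by rw [g4]; exact (s.mu_mem g2 g3).2⟩


end

end Crest.Agent.R096.Dfi_539
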