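import Crest.Agent.R096.Slp2_316
import Crest.Agent.R096.Dfi3_471
import Crest.Agent.R096.Vrt4_422
import Crest.Agent.R096.Lmx3_662
import Crest.Agent.R096.Vrt3_422

-- ▼ part R096/Slp3_316
section

/-!
# Row 96, DOORS, leaf SLC2 (helper316), part 3: the slide from the frontier of the core, with the
explicit formula on the 1-cells
-/

set_option autoImplicit false
set_option linter.unusedSectionVars false

open Set Filter Topology Metric
open scoped Classical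

namespace Crest.Agent.R096.Slp_316

open Crest.Agent.R096.Msh_715 Crest.Agent.R096.Slc_184 Crest.Agent.R096.Sla_184
  Crest.Agent.R096.Ce_537

variable {E : Type} [NormedAddCommGroup E] [NormedSpace ℝ E] [FiniteDimensional ℝ E]
variable {Om : Set E} {ι : Type} {T : Tiling Om ι} {κ : Type} {S : Sla T κ} {c : κ}
variable {j j' : ℕ}

/-- the section point of a vertex of the frontier -/
theorem spt_mkF (hj : j ≤ S.n c) {v : E} (hv : v ∈ frontier (S.K c)) (hd : T.dim v = 0) :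
    spt S c j (mkF hv) = S.lv c v (S.t c j) := by
  have h0 : (mkF hv).dim = 0 := by
    show T.dim (mkF hv).pt = 0
    rw [T.dim_eq_of_mem_oc (S.K_sub c (S.fr_sub c hv)) (mkF_pt hv), hd]
  have h1 : v ∈ sec S c 0 (mkF hv) := by
    rw [sec_zero, mkF_set]; exact T.self_mem_cc v
  exact (lv_vert (Nat.zero_le _) hj h0 h1).symm

/-- a vertex of the frontier: the point of its vertical line at the level `j` -/
theorem h1_v (hj : j ≤ S.n c) {v : E} (hv : v ∈ frontier (S.K c)) (hd : T.dim v = 0) :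
    h1 S c 0 j v = S.lv c v (S.t c j) := by
  have h0 : (mkF hv).dim = 0 := by
    show T.dim (mkF hv).pt = 0
    rw [T.dim_eq_of_mem_oc (S.K_sub c (S.fr_sub c hv)) (mkF_pt hv), hd]
  have h1' : v ∈ sec S c 0 (mkF hv) := by
    rw [sec_zero, mkF_set]; exact T.self_mem_cc v
  rw [h1_vert (Nat.zero_le _) hj h0 h1', spt_mkF hj hv hd]

/-- **the slide on a 1-cell of the frontier** -/
theorem h1_par (hj : j ≤ S.n c) {e : T.Cell} (he : e.dim = 1) (hf : e.set ⊆ frontier (S.K c))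
    {s : ℝ} (hs : s ∈ Icc (0 : ℝ) 1) :
    h1 S c 0 j (lft e + s • (rgt e - lft e)) = S.lv c (lft e) (S.t c j) +
      s • (S.lv c (rgt e) (S.t c j) - S.lv c (lft e) (S.t c j)) := by
  obtain ⟨a1, a2, a3, a4, a5, a6, a7⟩ := lft_rgt he
  set q : FC S c := ⟨e, hf⟩ with hq
  have hqd : q.dim = 1 := he
  have hx : lft e + s • (rgt e - lft e) ∈ sec S c 0 q := by
    rw [sec_zero]
    show lft e + s • (rgt e - lft e) ∈ e.set
    rw [a2, segment_eq_image']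
    exact ⟨s, hs, rfl⟩
  rw [h1_edge (Nat.zero_le _) hj hqd hx]
  have hl : lft e ∈ sec S c 0 q := by rw [sec_zero]; exact a6
  have hr : rgt e ∈ sec S c 0 q := by rw [sec_zero]; exact a7
  have e1 : Am S c 0 j q (lft e) = S.lv c (lft e) (S.t c j) := by
    rw [← h1_edge (Nat.zero_le _) hj hqd hl, h1_v hj (hf a6) a4]
  have e2 : Am S c 0 j q (rgt e) = S.lv c (rgt e) (S.t c j) := by
    rw [← h1_edge (Nat.zero_le _) hj hqd hr, h1_v hj (hf a7) a5]
  have e3 : lft e + s • (rgt e - lft e) = AffineMap.lineMap (lft e) (rgt e) s := by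
    rw [AffineMap.lineMap_apply_module']; abel
  rw [e3, AffineMap.apply_lineMap, e1, e2, AffineMap.lineMap_apply_module']
  abel

/-- **SLC2 from the frontier of the core** -/
theorem exists_slide0 (S : Sla T κ) (c : κ) (hj : j ≤ S.n c) :
    ∃ e : PLEquiv (frontier (S.K c)) {x | S.OnS c j x},
      (∀ x ∈ frontier (S.K c), e.f x ∈ S.O c x) ∧
      (∀ y, S.OnS c j y → e.g y ∈ S.O c y) ∧
      (∀ x ∈ frontier (S.K c), e.f '' T.cc x = S.T3.cc (e.f x)) ∧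
      (∀ y, S.OnS c j y → e.g '' S.T3.cc y = T.cc (e.g y)) ∧
      (∀ x ∈ frontier (S.K c), S.T3.dim (e.f x) = T.dim x) ∧
      (∀ x ∈ frontier (S.K c), T.dim x = 0 → e.f x = S.lv c x (S.t c j)) ∧
      (∀ a : T.Cell, a.dim = 1 → a.set ⊆ frontier (S.K c) → ∀ s ∈ Icc (0 : ℝ) 1,
        e.f (lft a + s • (rgt a - lft a)) = S.lv c (lft a) (S.t c j) +
          s • (S.lv c (rgt a) (S.t c j) - S.lv c (lft a) (S.t c j))) ∧
      (∀ x ∈ frontier (S.K c), T.dim x ≤ 1 → ∃ A : E →ᵃ[ℝ] E, EqOn e.f A (T.cc x)) ∧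
      (∀ y, S.OnS c j y → S.T3.dim y ≤ 1 → ∃ A : E →ᵃ[ℝ] E, EqOn e.g A (S.T3.cc y)) := by
  obtain ⟨e, e1, e2, e3, e4, e5⟩ := exists_slide S c (Nat.zero_le (S.n c)) hj
  have h0 := sl_zero (S := S) (c := c)
  have hcel : ∀ {j j' : ℕ} {x y : E} (hx : S.OnS c j x) (hy : S.OnS c j' y), y ∈ S.O c x →
      cel S c hy.bd = cel S c hx.bd := by
    intro j j' x y hx hy h
    exact eq_of_O (cel_O hy.bd) (Sla.O_trans (cel S c hx.bd).pt_Bd (cel_O hx.bd) h)
  have e3' : ∀ y ∈ sl S c j, e.g y ∈ S.O c y := by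
    intro y hy
    have h1 := e3 (e.g y) (e.mg hy)
    rw [e.ri y hy] at h1
    exact Sla.O_symm (show S.OnS c 0 (e.g y) from e.mg hy).bd h1
  let e' : PLEquiv (frontier (S.K c)) {x | S.OnS c j x} :=
    { f := e.f
      g := e.g
      pf := h0 ▸ e.pf
      pg := e.pg
      mf := h0 ▸ e.mf
      mg := h0 ▸ e.mg
      li := h0 ▸ e.li
      ri := e.ri }
  have hcc0 : ∀ x ∈ frontier (S.K c), T.cc x = S.T3.cc x := fun x hx => (Sla.out_fr hx).cc.symm
  have hd0 : ∀ x ∈ frontier (S.K c), S.T3.dim x = T.dim x := fun x hx => (Sla.out_fr hx).dim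
  refine ⟨e', fun x hx => ?_, fun y hy => e3' y hy, fun x hx => ?_, fun y hy => ?_,
    fun x hx => ?_, fun x hx hd => ?_, fun a ha haf s hs => ?_, fun x hx hd => ?_,
    fun y hy hd => ?_⟩
  · rw [← h0] at hx; exact e3 x hx
  · have hx' : S.OnS c 0 x := Sla.onS_fr hx
    have hy' : S.OnS c j (e.f x) := e.mf hx'
    rw [hcc0 x hx]
    show e.f '' S.T3.cc x = S.T3.cc (e.f x)
    rw [cc_eq_sec hx', cc_eq_sec hy', hcel hx' hy' (e3 x hx')]
    exact e1 _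
  · have hx' : S.OnS c 0 (e.g y) := e.mg hy
    show e.g '' S.T3.cc y = T.cc (e.g y)
    rw [hcc0 _ hx'.fr, cc_eq_sec hx', cc_eq_sec hy, hcel hy hx' (e3' y hy)]
    exact e2 _
  · have hx' : S.OnS c 0 x := Sla.onS_fr hx
    have hy' : S.OnS c j (e.f x) := e.mf hx'
    show S.T3.dim (e.f x) = T.dim x
    rw [← hd0 x hx, ← dim_cel hx', ← dim_cel hy', hcel hx' hy' (e3 x hx')]
  · have h1' : x ∈ sec S c 0 (mkF hx) := by
      rw [sec_zero, mkF_set]; exact T.self_mem_cc x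
    have h2 : (mkF hx).dim ≤ 1 := by
      have : (mkF hx).dim = T.dim x :=
        T.dim_eq_of_mem_oc (S.K_sub c (S.fr_sub c hx)) (mkF_pt hx)
      omega
    show e.f x = _
    rw [e4 _ h2 h1', h1_v hj hx hd]
  · obtain ⟨q, hq⟩ : ∃ q : FC S c, q.1 = a := ⟨⟨a, haf⟩, rfl⟩
    have h1' : lft a + s • (rgt a - lft a) ∈ sec S c 0 q := by
      rw [sec_zero]
      show lft a + s • (rgt a - lft a) ∈ q.1.set
      rw [hq, (lft_rgt ha).2.1, segment_eq_image']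
      exact ⟨s, hs, rfl⟩
    have hqd : q.dim ≤ 1 := by
      show q.1.dim ≤ 1
      rw [hq]; exact ha.le
    show e.f _ = _
    rw [e4 q hqd h1', h1_par hj ha haf hs]
  · have hx' : S.OnS c 0 x := Sla.onS_fr hx
    rw [← hd0 x hx, ← dim_cel hx'] at hd
    obtain ⟨A, hA⟩ := h1_aff (Nat.zero_le _) hj hd
    refine ⟨A, ?_⟩
    rw [hcc0 x hx, cc_eq_sec hx']
    exact (e4 _ hd).trans hA
  · rw [← dim_cel hy] at hd
    obtain ⟨A, hA⟩ := h1_aff hj (Nat.zero_le _) hd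
    refine ⟨A, ?_⟩
    rw [cc_eq_sec hy]
    exact (e5 _ hd).trans hA

end Crest.Agent.R096.Slp_316
end

-- ▼ part R096/Flb1_422
section

/-!
# R096 (row 96), DOORS, `Front.lab` (helper422), part 1: the level function on the boundary of the
shrunk core.

`slg S c` : 316's slide of the boundary of the shrunk core onto the boundary of the core;
`ub S c u = u ∘ slg` : affine on the 1-cells, different from the levels at the vertices, and the
copies of the points of an exact pattern are exactly the points with `ub = lv j`.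
-/

set_option autoImplicit false
set_option linter.unusedSectionVars false

open Set Module
open scoped Classical

namespace Crest.Agent.R096.Flb_422

open Crest.Agent.R096.Msh_715 Crest.Agent.R096.Sla_184 Crest.Agent.R096.Slp_316
  Crest.Agent.R096.Ce_537 Crest.Agent.R096.Exa_560 Crest.Agent.R096.Agl5_543
  Crest.Agent.R096.Seq_213 Crest.Agent.R096.St_147 Crest.Agent.R096.Door_501
  Crest.Agent.R096.Twr_438 Crest.Agent.R096.Dfi_539 Crest.Agent.R096.Dfi_471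
  Crest.Agent.R096.Gl_422 Crest.Agent.R096.Ess3_95
open Crest.Agent.R096.Sla_184.Sla (hf vf old tg F0 Fn Out OnS InL In)

variable {E : Type} [NormedAddCommGroup E] [NormedSpace ℝ E] [FiniteDimensional ℝ E]
variable {Om : Set E} {ι : Type} {T : Tiling Om ι} {κ : Type} {S : Sla T κ} {c : κ}
variable {w x y v : E} {J : Type}

/-- the slide of the boundary of the shrunk core onto the boundary of the core -/
noncomputable def sle (S : Sla T κ) (c : κ) :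
    PLEquiv (frontier (S.K c)) {x | S.OnS c (S.n c) x} :=
  (exists_slide0 S c (le_refl (S.n c))).choose

theorem sle_spec (S : Sla T κ) (c : κ) :
      (∀ x ∈ frontier (S.K c), (sle S c).f x ∈ S.O c x) ∧
      (∀ y, S.OnS c (S.n c) y → (sle S c).g y ∈ S.O c y) ∧
      (∀ x ∈ frontier (S.K c), (sle S c).f '' T.cc x = S.T3.cc ((sle S c).f x)) ∧
      (∀ y, S.OnS c (S.n c) y → (sle S c).g '' S.T3.cc y = T.cc ((sle S c).g y)) ∧
      (∀ x ∈ frontier (S.K c), S.T3.dim ((sle S c).f x) = T.dim x) ∧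
      (∀ x ∈ frontier (S.K c), T.dim x = 0 → (sle S c).f x = S.lv c x (S.t c (S.n c))) ∧
      (∀ a : T.Cell, a.dim = 1 → a.set ⊆ frontier (S.K c) → ∀ s ∈ Icc (0 : ℝ) 1,
        (sle S c).f (lft a + s • (rgt a - lft a)) = S.lv c (lft a) (S.t c (S.n c)) +
          s • (S.lv c (rgt a) (S.t c (S.n c)) - S.lv c (lft a) (S.t c (S.n c)))) ∧
      (∀ x ∈ frontier (S.K c), T.dim x ≤ 1 → ∃ A : E →ᵃ[ℝ] E, EqOn (sle S c).f A (T.cc x)) ∧
      (∀ y, S.OnS c (S.n c) y → S.T3.dim y ≤ 1 →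
        ∃ A : E →ᵃ[ℝ] E, EqOn (sle S c).g A (S.T3.cc y)) :=
  (exists_slide0 S c (le_refl (S.n c))).choose_spec

theorem sle_gf (hx : x ∈ frontier (S.K c)) : (sle S c).g ((sle S c).f x) = x := (sle S c).li x hx

theorem sle_fg (hy : y ∈ frontier (S.KK c)) : (sle S c).f ((sle S c).g y) = y :=
  (sle S c).ri y (Sla.mem_fr_KK.1 hy)

theorem sle_fr (hy : y ∈ frontier (S.KK c)) : (sle S c).g y ∈ frontier (S.K c) :=
  (sle S c).mg (Sla.mem_fr_KK.1 hy)

theorem sle_dim (hy : y ∈ frontier (S.KK c)) : T.dim ((sle S c).g y) = S.T3.dim y := by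
  rw [← (sle_spec S c).2.2.2.2.1 _ (sle_fr hy), sle_fg hy]

/-- the slide of the copies of the vertices -/
theorem sle_hc (hv : v ∈ frontier (S.K c)) (h0 : T.dim v = 0) :
    (sle S c).g (S.hc c v (S.n c)) = v := by
  have h1 := (sle_spec S c).2.2.2.2.2.1 v hv h0
  have h2 : S.hc c v (S.n c) = (sle S c).f v := by
    rw [h1]
    unfold Sla.hc
    rw [min_self]
  rw [h2, sle_gf hv]

/-- the slide of the copies of the points of the 1-cells -/
theorem sle_hp' (hw : w ∈ frontier (S.K c)) (h1 : T.dim w = 1) :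
    (sle S c).f w = S.hp c (S.n c) w := by
  have hwo := Sla.edx_opn hw h1
  set e : S.Ed c := Sla.edx hw h1 with he
  rw [Sla.hp_eq e hwo]
  obtain ⟨s, hs, e1⟩ := exists_par e.2.1 hwo
  have h2 := (par_eq e.2.1 hs).2
  rw [← e1] at h2
  rw [h2]
  have h4 := (sle_spec S c).2.2.2.2.2.2.1 e.1 e.2.1 e.2.2 s ⟨hs.1.le, hs.2.le⟩
  rw [← e1] at h4
  rw [h4]
  unfold Sla.hc
  rw [min_self]
  rfl

theorem sle_hp (hw : w ∈ frontier (S.K c)) (h1 : T.dim w = 1) :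
    (sle S c).g (S.hp c (S.n c) w) = w := by
  rw [← sle_hp' hw h1, sle_gf hw]

theorem hp_sle (hy : y ∈ frontier (S.KK c)) (h1 : S.T3.dim y = 1) :
    S.hp c (S.n c) ((sle S c).g y) = y := by
  rw [← sle_hp' (sle_fr hy) (by rw [sle_dim hy]; exact h1), sle_fg hy]

/-- the level function on the boundary of the shrunk core -/
noncomputable def ub (S : Sla T κ) (c : κ) (u : E → ℝ) (x : E) : ℝ := u ((sle S c).g x)

theorem ub_hc (u : E → ℝ) (hv : v ∈ frontier (S.K c)) (h0 : T.dim v = 0) :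
    ub S c u (S.hc c v (S.n c)) = u v := by
  unfold ub
  rw [sle_hc hv h0]

/-- **(haff)** -/
theorem ub_aff (h3 : finrank ℝ E = 3) (L : Lev T (frontier (S.K c)) J) {e : S.T3.Cell}
    (he : e.dim = 1) (hf : e.set ⊆ frontier (S.KK c)) :
    ∃ g : E →ᵃ[ℝ] ℝ, EqOn (ub S c L.u) g e.set := by
  have hy : e.pt ∈ frontier (S.KK c) := hf (by rw [e.set_eq]; exact S.T3.self_mem_cc _)
  obtain ⟨A, hA⟩ := (sle_spec S c).2.2.2.2.2.2.2.2 e.pt (Sla.mem_fr_KK.1 hy) (le_of_eq he)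
  have him := (sle_spec S c).2.2.2.1 e.pt (Sla.mem_fr_KK.1 hy)
  obtain ⟨F, hF, hpF⟩ := (sgd h3 S.hH c).cov _ (sle_fr hy)
  have hsub : T.cc ((sle S c).g e.pt) ⊆ F.set := by
    rw [F.set_eq] at hpF ⊢
    exact T.cc_sub_of_mem hpF
  obtain ⟨g, hg⟩ := L.aff F hF
  refine ⟨g.comp A, fun x hx => ?_⟩
  have hx' : x ∈ S.T3.cc e.pt := by rw [← e.set_eq]; exact hx
  show L.u ((sle S c).g x) = g (A x)
  rw [hg (hsub (him ▸ mem_image_of_mem _ hx')), hA hx']

/-- **(hvt)** -/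
theorem ub_vert (L : Lev T (frontier (S.K c)) J) {j : J} (hj : j ∈ L.J0)
    (hv : v ∈ frontier (S.KK c)) (h0 : S.T3.dim v = 0) : ub S c L.u v ≠ L.lv j :=
  L.vert _ (sle_fr hv) (by rw [sle_dim hv]; exact h0) j hj

/-- the set `B` of points of one name on the boundary of the shrunk core is the copy of the exact
pattern -/
def ExG (S : Sla T κ) (c : κ) (L : Lev T (frontier (S.K c)) J) (j : J) (B : Set E) : Prop :=
  ∀ w ∈ frontier (S.KK c), S.T3.dim w = 1 →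
    (w ∈ B ↔ ∃ q, q ∈ frontier (S.K c) ∧ T.dim q = 1 ∧ L.u q = L.lv j ∧ w = S.hp c (S.n c) q)

/-- **(hpat)** -/
theorem ExG.pat {L : Lev T (frontier (S.K c)) J} {j : J} {B : Set E} (h : ExG S c L j B)
    (hw : w ∈ frontier (S.KK c)) (h1 : S.T3.dim w = 1) : w ∈ B ↔ ub S c L.u w = L.lv j := by
  rw [h w hw h1]
  unfold ub
  constructor
  · rintro ⟨q, hq, hq1, hqj, rfl⟩
    rw [sle_hp hq hq1]
    exact hqj
  · intro hj
    exact ⟨(sle S c).g w, sle_fr hw, by rw [sle_dim hw]; exact h1, hj, (hp_sle hw h1).symm⟩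

section s2

variable {h3 : finrank ℝ E = 3} {C : Type} {fam : J → C} [Nonempty J]
  {s : GSt (meshC T h3) fam} {r : J → E} {Sf : J → Set E} {nb : κ → C → Prop}
  {v0 v1 : ∀ c, C → VxK T S.K c} {u : κ → C → E → ℝ} {A B : κ → C → ℝ}
  {L : ∀ c, C → Lev T (frontier (S.K c)) J}
  {Tw : Twrs (S.sh h3) S.n (outK S.hH S.dis s r)} {l0 : E → J}

/-- a point of a 1-cell of the boundary of the shrunk core is on a face of the boundary -/
theorem exists_hf (h3 : finrank ℝ E = 3) (hw : w ∈ frontier (S.KK c)) (h1 : S.T3.dim w = 1) :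
    ∃ G : (S.sh h3 c).Fk, w ∈ (S.mn h3).On (hf G (S.n c)) := by
  have hq := sle_fr hw
  have hq1 : T.dim ((sle S c).g w) = 1 := by rw [sle_dim hw]; exact h1
  obtain ⟨e, he⟩ : ∃ e : S.Ed c, (sle S c).g w ∈ e.1.opn := ⟨_, Sla.edx_opn hq hq1⟩
  obtain ⟨F, hF, hpF⟩ := (sgd h3 S.hH c).cov _ hq
  have hG := (face_iff h3 (fun c => (S.hH c).core) (fun c => (S.hH c).sub) (fun c => (S.hH c).cc)
    S.dis F c).1 hF
  let G : (S.sh h3 c).Fk := ⟨⟨F, hG.1⟩, hG.2⟩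
  exact ⟨G, (Sla.on_hf (G := G) le_rfl).2 ⟨(sle S c).g w, ⟨hpF, hq1⟩, (hp_sle hw h1).symm⟩⟩

/-- **the pattern of `s₂` on the boundary of the shrunk core is exact** -/
theorem exG_s2 (lo : LevOut s nb u A B L) (tt : TwOut S h3 s r v0 v1 L Tw) {j : J}
    (hj : nb c (fam j)) : ExG S c (L c (fam j)) j
      {w | w ∈ (s2 S h3 Tw l0).P ∧ (s2 S h3 Tw l0).lab w = j} := by
  intro w hw h1
  constructor
  · rintro ⟨hP, hl⟩
    obtain ⟨G, hG⟩ := exists_hf h3 hw h1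
    obtain ⟨a, q, hq, -, hwq, hlq, -⟩ := gi2' tt hP hG
    obtain ⟨h4, h5⟩ := exa_lab (L c a) hq
    rw [hl] at hlq
    rw [← hlq] at h4 h5
    obtain ⟨rfl, -⟩ := (lo.mem c a j).1 h4
    obtain ⟨h6, h7, -⟩ := (mem_P (L c (fam j))).1 hq
    exact ⟨q, h6, h7, h5, hwq⟩
  · rintro ⟨q, h4, h5, h6, rfl⟩
    have hJ : j ∈ (L c (fam j)).J0 := (lo.mem c (fam j) j).2 ⟨rfl, hj⟩
    have hq : q ∈ (exa h3 S.hH S.dis (L c (fam j))).P := (mem_P (L c (fam j))).2 ⟨h4, h5, j, hJ, h6⟩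
    obtain ⟨h7, h8, -⟩ := gi2 (l0 := l0) tt hq
    exact ⟨h7, h8.trans (lab_of (L c (fam j)) hJ h6)⟩

end s2

end Crest.Agent.R096.Flb_422
end

-- ▼ part R096/Flb2_422

/-!
# R096 (row 96), DOORS, `Front.lab` (helper422), part 2: `LabIn` over the sliced mesh.

`Cd`        : the core datum of one family (literal inputs of 662's `labIn_mixD`);
`cd_giant`  : a shrunk core with an exact pattern, two feet on the boundary of the core and ropes to
              the feet in the outer part (the columns are added here);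
`cd_exact`  : an outer tile with the truthful state;
`labIn_sla` : **`LabIn` over `meshK S.T3 S.KK`** from one core datum per family.
-/

set_option autoImplicit false
set_option linter.unusedSectionVars false
set_option linter.unusedVariables false

open Set Module Relation
open scoped Classical

namespace Crest.Agent.R096.Flb_422

open Crest.Agent.R096.Msh_715 Crest.Agent.R096.Sla_184 Crest.Agent.R096.Slp_316
  Crest.Agent.R096.Ce_537 Crest.Agent.R096.Exa_560 Crest.Agent.R096.Agl5_543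
  Crest.Agent.R096.Seq_213 Crest.Agent.R096.St_147 Crest.Agent.R096.Door_501
  Crest.Agent.R096.Twr_438 Crest.Agent.R096.Dfi_539 Crest.Agent.R096.Dfi_471
  Crest.Agent.R096.Gl_422 Crest.Agent.R096.Vrt_422 Crest.Agent.R096.Lmx_662
  Crest.Agent.R096.Lm_117 Crest.Agent.R096.Ac_117 Crest.Agent.R096.Cp_298
  Crest.Agent.R096.Ori_543 Crest.Agent.R096.Coh_184 Crest.Agent.R096.Gm_298
open Crest.Agent.R096.Sla_184.Sla (hf vf old tg F0 Fn Out OnS InL In)

variable {E : Type} [NormedAddCommGroup E] [NormedSpace ℝ E] [FiniteDimensional ℝ E]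
variable {Om : Set E} {ι : Type} {T : Tiling Om ι} {κ : Type} {S : Sla T κ} {c : κ}
variable {w x y v : E} [Nonempty S.T3.Cell]
variable {h3 : finrank ℝ E = 3} {hH : ∀ c, CoreH S.T3 (S.KK c)} {hne : ∃ c, OutK S.T3 S.KK c}
  {C K : Type} {Qd : Quads (T.RIdx S.HH ⊕ κ) C K} {J : Type} {fam : J → C}
  {s : GSt (mK h3 hH Sla.dis_KK) fam} {a : C} {j : ℕ}

/-! ### feet -/

theorem hc_vx (hv : v ∈ frontier (S.K c)) (h0 : T.dim v = 0) (hj : j ≤ S.n c) :
    (edC S.T3 (S.hc c v j)).dim = 0 ∧ (edC S.T3 (S.hc c v j)).pt = S.hc c v j ∧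
      (edC S.T3 (S.hc c v j)).set = {S.hc c v j} := by
  have hB := Sla.fr_Bd hv
  have hD := D_vx hv h0
  have hd : S.T3.dim (S.hc c v j) = 0 := by
    have := Sla.hc_dim3 hB j
    omega
  have hO := hc_Om hB hj
  obtain ⟨h1, h2⟩ := SkB_662.edC_vertex (T := S.T3) hO hd
  exact ⟨h1, h2, by rw [edC_set hO, S.T3.cc_eq_singleton (S.T3.dim_eq_zero_iff.1 hd)]⟩

theorem hc_zero (hv : v ∈ frontier (S.K c)) (h0 : T.dim v = 0) : S.hc c v 0 = v :=
  Sla.hc_zero_vx (Sla.onS_fr hv) (D_vx hv h0)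

theorem outK_foot (hv : v ∈ frontier (S.K c)) (h0 : T.dim v = 0) : OutK S.T3 S.KK (edC S.T3 v) := by
  have h := outK_hc (Sla.fr_Bd hv) (Nat.zero_le (S.n c))
  rw [hc_zero hv h0] at h
  exact h

/-- the copy of a foot on the boundary of the shrunk core -/
theorem hc_bdc (hv : v ∈ frontier (S.K c)) (h0 : T.dim v = 0) :
    (edC S.T3 (S.hc c v (S.n c))).set ⊆ bdc S.T3 S.KK (Sum.inr c) := by
  rw [(hc_vx hv h0 le_rfl).2.2, singleton_subset_iff]
  exact Sla.mem_fr_KK.2 (Sla.hc_onS (Sla.fr_Bd hv) le_rfl)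

/-- the conditions on the column over a foot -/
structure Col (Qd : Quads (T.RIdx S.HH ⊕ κ) C K) (s : GSt (mK h3 hH Sla.dis_KK) fam) (a : C)
    (c : κ) (v : E) : Prop where
  fr : ∀ k, Qd.In k a → ∀ i < S.n c, ∃ q, S.vc c v i ∈ P (S.T3.H q) ∧ Sum.inl q ∉ Qd.Act k
  pt : ∀ i < S.n c, ∀ w ∈ s.P, w ∈ S.O c v → S.InL c i w → fam (s.lab w) ≠ a

/-- **a rope to a foot is prolonged to the shrunk core** -/
theorem Col.rope (hC : Col Qd s a c v) (hv : v ∈ frontier (S.K c)) (h0 : T.dim v = 0)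
    {p : QK (belK S.T3 S.KK)}
    (h : ReflTransGen (Ed (lmK h3 hH Sla.dis_KK hne) (Fr0 (lmK h3 hH Sla.dis_KK hne) Qd s a)) p
      (oc (edC S.T3 v) (outK_foot hv h0))) :
    ReflTransGen (Ed (lmK h3 hH Sla.dis_KK hne) (Fr0 (lmK h3 hH Sla.dis_KK hne) Qd s a)) p
      (oc (edC S.T3 (S.hc c v (S.n c))) (outK_hc (Sla.fr_Bd hv) le_rfl)) := by
  have h1 := col_path (h3 := h3) (hH := hH) (hne := hne) (Qd := Qd) (s := s) (a := a) hv h0 hC.fr
    hC.pt le_rfl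
  have e : (oc (edC S.T3 v) (outK_foot hv h0) : QK (belK S.T3 S.KK)) =
      oc (edC S.T3 (S.hc c v 0)) (outK_hc (Sla.fr_Bd hv) (Nat.zero_le _)) := by
    congr 1
    exact (congrArg (edC S.T3) (hc_zero hv h0)).symm
  rw [e] at h
  exact h.trans h1

/-! ### core data -/

/-- **the core datum of a family**: the inputs of `labIn_mixD` -/
structure Cd (hne : ∃ c, OutK S.T3 S.KK c) (Qd : Quads (T.RIdx S.HH ⊕ κ) C K)
    (s : GSt (mK h3 hH Sla.dis_KK) fam) (t0 : GSt (meshC T h3) fam) (lam0 : J → E → ZMod 2)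
    (p0 p1 : QK (belK S.T3 S.KK)) (a : C) (co : T.RIdx S.HH ⊕ κ) (u0 u1 : S.T3.Cell)
    (o0 : OutK S.T3 S.KK u0) (o1 : OutK S.T3 S.KK u1) (uu : E → ℝ) (tt : J → ℝ) : Prop where
  out : OutI S.T3 S.KK co
  act : ∀ k, Qd.In k a → co ∉ Qd.Act k
  b0 : u0.set ⊆ bdc S.T3 S.KK co ∧ u0.dim = 0
  b1 : u1.set ⊆ bdc S.T3 S.KK co ∧ u1.dim = 0
  lab : ∀ j, fam j = a → ∀ q, co = Sum.inl q → Main_4.IsLab T (Lab_184.gPts t0 j) (lam0 j)
  cell : ∀ q, co = Sum.inl q → ∀ e : S.T3.Cell, e.dim = 1 →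
      e.set ⊆ Msh_715.P (S.T3.H q) → T.cc e.pt = e.set ∧ T.dim e.pt = 1
  st : ∀ j, fam j = a → ∀ q, co = Sum.inl q → ∀ w ∈ Msh_715.P (S.T3.H q),
      ((w ∈ s.P ∧ s.lab w = j) ↔ (w ∈ t0.P ∧ t0.lab w = j))
  val : ∀ j, fam j = a → ∀ q, co = Sum.inl q → lam0 j u0.pt + lam0 j u1.pt = 1
  aff : ∀ k, co = Sum.inr k → ∀ e : S.T3.Cell, e.dim = 1 →
      e.set ⊆ frontier (S.KK k) → ∃ g : E →ᵃ[ℝ] ℝ, EqOn uu g e.set
  vt : ∀ j, fam j = a → ∀ k, co = Sum.inr k → ∀ v ∈ frontier (S.KK k), S.T3.dim v = 0 →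
      uu v ≠ tt j
  pat : ∀ j, fam j = a → ∀ k, co = Sum.inr k → ∀ w ∈ frontier (S.KK k), S.T3.dim w = 1 →
      ((w ∈ s.P ∧ s.lab w = j) ↔ uu w = tt j)
  ut : ∀ j, fam j = a → ∀ k, co = Sum.inr k → uu u0.pt < tt j ∧ tt j < uu u1.pt
  r0 : ReflTransGen (Ed (lmK h3 hH Sla.dis_KK hne) (Fr0 (lmK h3 hH Sla.dis_KK hne) Qd s a))
      p0 (oc u0 o0)
  r1 : ReflTransGen (Ed (lmK h3 hH Sla.dis_KK hne) (Fr0 (lmK h3 hH Sla.dis_KK hne) Qd s a))
      (oc u1 o1) p1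

variable {t0 : GSt (meshC T h3) fam} {lam0 : J → E → ZMod 2} {p0 p1 : QK (belK S.T3 S.KK)}

/-- **a shrunk core with exact pattern** -/
theorem cd_giant {v0 v1 : E} (hv0 : v0 ∈ frontier (S.K c)) (hd0 : T.dim v0 = 0)
    (hv1 : v1 ∈ frontier (S.K c)) (hd1 : T.dim v1 = 0) (L : Lev T (frontier (S.K c)) J)
    (hact : ∀ k, Sum.inr c ∉ Qd.Act k) (hJ : ∀ j, fam j = a → j ∈ L.J0)
    (hE : ∀ j, fam j = a → ExG S c L j {w | w ∈ s.P ∧ s.lab w = j})
    (hl : ∀ j, fam j = a → L.u v0 < L.lv j ∧ L.lv j < L.u v1)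
    (hC0 : Col Qd s a c v0) (hC1 : Col Qd s a c v1)
    (h0 : ReflTransGen (Ed (lmK h3 hH Sla.dis_KK hne) (Fr0 (lmK h3 hH Sla.dis_KK hne) Qd s a)) p0
      (oc (edC S.T3 v0) (outK_foot hv0 hd0)))
    (h1 : ReflTransGen (Ed (lmK h3 hH Sla.dis_KK hne) (Fr0 (lmK h3 hH Sla.dis_KK hne) Qd s a)) p1
      (oc (edC S.T3 v1) (outK_foot hv1 hd1))) :
    Cd hne Qd s t0 lam0 p0 p1 a (Sum.inr c) (edC S.T3 (S.hc c v0 (S.n c)))
      (edC S.T3 (S.hc c v1 (S.n c))) (outK_hc (Sla.fr_Bd hv0) le_rfl)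
      (outK_hc (Sla.fr_Bd hv1) le_rfl) (ub S c L.u) L.lv where
  out := fun q hq => by cases hq
  act := fun k _ => hact k
  b0 := ⟨hc_bdc hv0 hd0, (hc_vx hv0 hd0 le_rfl).1⟩
  b1 := ⟨hc_bdc hv1 hd1, (hc_vx hv1 hd1 le_rfl).1⟩
  lab := fun j _ q hq => by cases hq
  cell := fun q hq => by cases hq
  st := fun j _ q hq => by cases hq
  val := fun j _ q hq => by cases hq
  aff := fun k hk e he hf => by
    obtain rfl : c = k := Sum.inr.inj hk
    exact ub_aff h3 L he hf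
  vt := fun j hj k hk v hv hd => by
    obtain rfl : c = k := Sum.inr.inj hk
    exact ub_vert L (hJ j hj) hv hd
  pat := fun j hj k hk w hw hd => by
    obtain rfl : c = k := Sum.inr.inj hk
    exact (hE j hj).pat hw hd
  ut := fun j hj k hk => by
    rw [(hc_vx hv0 hd0 le_rfl).2.1, (hc_vx hv1 hd1 le_rfl).2.1, ub_hc _ hv0 hd0, ub_hc _ hv1 hd1]
    exact hl j hj
  r0 := hC0.rope hv0 hd0 h0
  r1 := path_symm (hC1.rope hv1 hd1 h1)

/-- **an outer tile with the truthful state** -/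
theorem cd_exact {q : ι} (hi : ∀ c, ¬ P (T.H q) ⊆ S.K c) {v0 v1 : E} (hv0 : v0 ∈ P (T.H q))
    (hd0 : T.dim v0 = 0) (hv1 : v1 ∈ P (T.H q)) (hd1 : T.dim v1 = 0)
    (hact : ∀ k, Qd.In k a → Sum.inl (S.ot q hi) ∉ Qd.Act k)
    (hlab : ∀ j, fam j = a → Main_4.IsLab T (Lab_184.gPts t0 j) (lam0 j))
    (hst : ∀ j, fam j = a → ∀ w ∈ P (T.H q),
      ((w ∈ s.P ∧ s.lab w = j) ↔ (w ∈ t0.P ∧ t0.lab w = j)))
    (hval : ∀ j, fam j = a → lam0 j v0 + lam0 j v1 = 1)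
    (h0 : ReflTransGen (Ed (lmK h3 hH Sla.dis_KK hne) (Fr0 (lmK h3 hH Sla.dis_KK hne) Qd s a)) p0
      (vK hi hv0 hd0))
    (h1 : ReflTransGen (Ed (lmK h3 hH Sla.dis_KK hne) (Fr0 (lmK h3 hH Sla.dis_KK hne) Qd s a)) p1
      (vK hi hv1 hd1)) :
    Cd hne Qd s t0 lam0 p0 p1 a (Sum.inl (S.ot q hi)) (edC S.T3 v0)
      (edC S.T3 v1) (vx3 hi hv0 hd0).2.2.2.2 (vx3 hi hv1 hd1).2.2.2.2 (fun _ => 0)
      (fun _ => 0) where
  out := outI_ot hi
  act := hact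
  b0 := ⟨by
    rw [(vx3 hi hv0 hd0).2.2.2.1, singleton_subset_iff]
    show v0 ∈ P (S.T3.H (S.ot q hi))
    rw [Sla.ot_P hi]; exact hv0, (vx3 hi hv0 hd0).2.1⟩
  b1 := ⟨by
    rw [(vx3 hi hv1 hd1).2.2.2.1, singleton_subset_iff]
    show v1 ∈ P (S.T3.H (S.ot q hi))
    rw [Sla.ot_P hi]; exact hv1, (vx3 hi hv1 hd1).2.1⟩
  lab := fun j hj _ _ => hlab j hj
  cell := fun p hp e he hf => by
    obtain rfl : S.ot q hi = p := Sum.inl.inj hp
    exact cell3 hi he hf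
  st := fun j hj p hp w hw => by
    obtain rfl : S.ot q hi = p := Sum.inl.inj hp
    rw [Sla.ot_P hi] at hw
    exact hst j hj w hw
  val := fun j hj _ _ => by
    rw [(vx3 hi hv0 hd0).2.2.1, (vx3 hi hv1 hd1).2.2.1]
    exact hval j hj
  aff := fun k hk => by cases hk
  vt := fun j _ k hk => by cases hk
  pat := fun j _ k hk => by cases hk
  ut := fun j _ k hk => by cases hk
  r0 := h0
  r1 := path_symm h1

/-- **`LabIn` OVER THE SLICED MESH** -/
theorem labIn_sla {v₀ v₁ : C → QK (belK S.T3 S.KK)} (D : C → Set E)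
    (hW : ∀ w ∈ s.P, w ∈ (lmK h3 hH Sla.dis_KK hne).W1)
    (hD : ∀ j, IsCompact (D (fam j))) (hDO : ∀ j, D (fam j) ⊆ Om)
    (hfr : ∀ j, IsPreconnected (frontier (D (fam j)))) (htr : ∀ j, TrivF (ZMod 2) (D (fam j)))
    (supp : ∀ w ∈ s.P, (∀ q, w ∈ Msh_715.P (S.T3.H q) →
      Msh_715.P (S.T3.H q) ⊆ interior (D (fam (s.lab w)))) ∧
      ∀ c, w ∈ S.KK c → S.KK c ⊆ interior (D (fam (s.lab w))))
    (act : ∀ j k, Qd.In k (fam j) → Qd.Act k ⊆ AD S.T3 S.KK (D (fam j)))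
    (far : ∀ j, v₁ (fam j) ∈ ZK S.T3 S.KK (D (fam j)))
    (cd : ∀ j, ∃ co u0 u1 o0 o1 uu tt,
      Cd hne Qd s t0 lam0 (v₀ (fam j)) (v₁ (fam j)) (fam j) co u0 u1 o0 o1 uu tt) :
    ∃ lam₀, Gl_422.LabIn (lmK h3 hH Sla.dis_KK hne) Qd s (fun c => GD h3 hH Sla.dis_KK (D c))
      (fun c => ZK S.T3 S.KK (D c)) lam₀ v₀ v₁ := by
  have key : ∀ a : C, ∃ co u0 u1 o0 o1 uu tt, (∃ j, fam j = a) →
      Cd hne Qd s t0 lam0 (v₀ a) (v₁ a) a co u0 u1 o0 o1 uu tt := by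
    intro a
    by_cases ha : ∃ j, fam j = a
    · obtain ⟨j, rfl⟩ := ha
      obtain ⟨co, u0, u1, o0, o1, uu, tt, h⟩ := cd j
      exact ⟨co, u0, u1, o0, o1, uu, tt, fun _ => h⟩
    · obtain ⟨c, hc⟩ := hne
      obtain ⟨q, -⟩ := id hc
      exact ⟨Sum.inl q, c, c, hc, hc, fun _ => 0, fun _ => 0, fun h => absurd h ha⟩
  choose co u0 u1 o0 o1 uu tt hcd using key
  have hc : ∀ j, Cd hne Qd s t0 lam0 (v₀ (fam j)) (v₁ (fam j)) (fam j) (co (fam j)) (u0 (fam j))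
    (u1 (fam j)) (o0 (fam j)) (o1 (fam j)) (uu (fam j)) (tt (fam j)) := fun j => hcd _ ⟨j, rfl⟩
  exact labIn_mixD D hW hD hDO hfr htr supp act far co (fun j => (hc j).out)
    (fun j k hk => (hc j).act k hk) u0 u1 o0 o1 (fun j => (hc j).b0) (fun j => (hc j).b1)
    (fun j q hq => (hc j).lab j rfl q hq) (fun j q hq => (hc j).cell q hq)
    (fun j q hq => (hc j).st j rfl q hq) (fun j q hq => (hc j).val j rfl q hq) uu
    (fun j => tt (fam j) j) (fun j k hk => (hc j).aff k hk) (fun j k hk => (hc j).vt j rfl k hk)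
    (fun j k hk => (hc j).pat j rfl k hk) (fun j k hk => (hc j).ut j rfl k hk)
    (fun j => (hc j).r0) (fun j => (hc j).r1)

end Crest.Agent.R096.Flb_422
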