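import Mathlib
import Crest.Agent.R096.Init9_543
import Crest.Agent.R096.Init6_543
import Crest.Agent.R096.Exc1_965

-- ▼ part R096/Lbp2_543

/-! # Row 96, LAB-POS (helper543), part 2: connected superlevel sets on the boundaries of the cells,
chains of cells which avoid the cell `a`. -/

set_option autoImplicit false
set_option linter.unusedSectionVars false

open Set Topology Filter

namespace Crest.Agent.R096.Lbp_543

open Crest.Agent.R096.Brk1_582 Crest.Agent.R096.Brk2_582 Crest.Agent.R096.Brk3_582
  Crest.Agent.R096.Bsp_628 Crest.Agent.R096.Coh_184 Crest.Agent.R096.Init_543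
  Crest.Agent.R096.Vb_965 Crest.Agent.R096.Exc_965 Crest.Agent.R096.Lab_184

/-! ### general foams -/

section foam

variable {V : Type*} [NormedAddCommGroup V] [NormedSpace ℝ V] [FiniteDimensional ℝ V] {I : Type*}
  {La : Set V} {P : I → Set V} {b : Set I → V} {N : ℕ}



theorem bd_eq_frontier (F : Foam La P b N) (c : I) : Bd P c = frontier (P c) := by
  rw [frontier_cell F, Lset_zero F]; rfl


theorem bd_sub (F : Foam La P b N) (c : I) : Bd P c ⊆ La := fun _ h => F.sub c h.1




/-- not touching: `s_a = 1` -/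
theorem sc_one_of_not_touch (F : Foam La P b N) {a c : I} (h : ¬ (P c ∩ P a).Nonempty) {y : V}
    (hy : y ∈ P c) : sc P b y a = 1 := by
  have hyL := F.sub c hy
  by_contra hne
  obtain ⟨z, hz⟩ := F.sc_lt_one_fc hyL
  refine h ⟨z, mem_fc.1 hz c ?_, mem_fc.1 hz a ?_⟩
  · show sc P b y c < 1
    rw [(F.sc_eq_zero hyL).2 hy]; exact one_pos
  · exact lt_of_le_of_ne (F.sc_le_one hyL a) hne



end foam

/-! ### box foams of dimension 3 -/

section box

variable {La : Set (Fin 3 → ℝ)} {F : Set (Bx (Fin 3))} {δ κ0 : ℝ}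





end box

end Crest.Agent.R096.Lbp_543
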