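import Crest.Agent.R096.Rop7_441
import Crest.Agent.R096.Lbp2_543
import Crest.Agent.R096.Csub8_487

/-!
# R096 (row 96), ROPES (helper441), part 8: the slice `X = univ`, results
-/

set_option autoImplicit false
set_option linter.unusedSectionVars false

open Set Relation Module

namespace Crest.Agent.R096.Rop_441

open Crest.Agent.R096.Brk1_582 Crest.Agent.R096.Brk2_582 Crest.Agent.R096.Brk3_582
  Crest.Agent.R096.Brk5_582 Crest.Agent.R096.Bsp_628 Crest.Agent.R096.Init_543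
  Crest.Agent.R096.Vb_965 Crest.Agent.R096.Msh_715 Crest.Agent.R096.St_147
  Crest.Agent.R096.Seq_213 Crest.Agent.R096.Lm_117 Crest.Agent.R096.Gl_422
  Crest.Agent.R096.SkB_662 Crest.Agent.R096.SkMv_362 Crest.Agent.R096.Cpo_642
  Crest.Agent.R096.Ce_537 Crest.Agent.R096.Agl5_543 Crest.Agent.R096.Ecm_446
  Crest.Agent.R096.Cp_298 Crest.Agent.R096.Kin_527 Crest.Agent.R096.Ac_117
open Crest.Agent.R096.SkC1_961 (E3 Hom3 FoamD)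
open Crest.Agent.R096.Mbf_337 (KJ sb)
open Crest.Agent.R096.Gia_537 (Kc Kc_sub Kc_compact Kc_disj Kc_exact)

section gen

variable {δ κ0 R c0 : ℝ} {La Om : Set E3} {ι : Type} {Φ : FoamD δ κ0 R c0 La}
  {T : Tiling Om ι} {f g : E3 → E3} {κ1 κ2 s₁ : ℝ} {X : Set Φ.F} {J0 J V : Φ.F → Set ι}
  {ct : Φ.F → ι}
  {A : Φ.F → E3 ≃ᵃ[ℝ] E3} {lam : Φ.F → ℝ} {z : Φ.F → E3} {θ : Φ.F → E3 → E3} {φ : Φ.F → E3 → ℝ}
  {ct' : Φ.F → ι} {r₀ : Φ.F → ℝ}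

/-- in the core `c` the function of `c` is zero -/
theorem va_core (hLa : IsOpen La) (hR : InitR Φ T f g J0 ct' r₀)
    (hC : Mbf_337.Cores Φ T f κ1 κ2 X J0 J V ct A lam z θ φ) {c : Φ.F} {x : E3}
    (hx : x ∈ Kc T J c) : va (Pc Φ.F) (bc (F := Φ.F)) (RF Φ r₀) f c x = 0 ∧
      RF Φ r₀ (f x) ∈ Pc Φ.F c := by
  have h := Nr_527.V_inside hC (Gia_537.KJ_mono (Nr_527.J_sub hC c) hx)
  have h1 : f x ∈ Pc Φ.F c := Bx.mem_set.2 fun k => ⟨(h k).1.le, (h k).2.le⟩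
  have h2 := (retF Φ hLa hR.pos hR.le_one).cell c h1
  exact ⟨((foam4 Φ hLa).sc_eq_zero ((foam4 Φ hLa).sub c h2)).2 h2, h2⟩

/-- in the core `c` the function of a brick which does not touch `c` is one -/
theorem va_core_one (hLa : IsOpen La) (hR : InitR Φ T f g J0 ct' r₀)
    (hC : Mbf_337.Cores Φ T f κ1 κ2 X J0 J V ct A lam z θ φ) {a c : Φ.F}
    (hac : ¬ (Pc Φ.F c ∩ Pc Φ.F a).Nonempty) {x : E3} (hx : x ∈ Kc T J c) :
    va (Pc Φ.F) (bc (F := Φ.F)) (RF Φ r₀) f a x = 1 :=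
  Lbp_543.sc_one_of_not_touch (foam4 Φ hLa) hac (va_core hLa hR hC hx).2

/-- over a common point of the bricks `c`, `a` there is a point of the frontier of the core `c` with
small level -/
theorem exists_touch (hLa : IsOpen La) (hN : Num δ κ0 R c0 κ2 κ1 s₁)
    (hR : InitR Φ T f g J0 ct' r₀)
    (hC : Mbf_337.Cores Φ T f κ1 κ2 X J0 J V ct A lam z θ φ) {a c : Φ.F} (hne : c ≠ a)
    (hac : (Pc Φ.F c ∩ Pc Φ.F a).Nonempty) :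
    ∃ x ∈ frontier (Kc T J c),
      va (Pc Φ.F) (bc (F := Φ.F)) (RF Φ r₀) f a x ≤ θN δ κ0 R c0 κ2 κ1 := by
  obtain ⟨y, hyc, hya⟩ := hac
  have hCT := corT hLa hN.hδ hN.hR hN.hκ0 hN.hκ1 hN.hκ2 hN.hκ hN.hκn hC hR
  have F := foam4 Φ hLa
  have hyL : y ∈ La := F.sub c hyc
  have hfr : y ∈ frontier (Pc Φ.F c) := by
    rw [frontier_cell F, Lset_zero F]
    exact ⟨hyc, a, hne.symm, hya⟩
  refine ⟨tauC hC c y, hCT.taum c hfr, ?_⟩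
  have h1 := hCT.close c _ (hCT.taum c hfr) a
  rw [hCT.ri c y hfr, (F.sc_eq_zero hyL).2 hya, abs_le] at h1
  have := hN.hκ1
  unfold θN
  linarith [h1.1]

end gen

section slice

variable {δ κ0 R c0 : ℝ} {La Om : Set E3} {ι : Type} {Φ : FoamD δ κ0 R c0 La}
  {T : Tiling Om ι} {f g : E3 → E3} [Nonempty T.Cell] {J0 : Φ.F → Set ι} {ct' : Φ.F → ι}
  {r₀ : Φ.F → ℝ} {κ1 s₁ : ℝ} {hLa : IsOpen La} {hR : InitR Φ T f g J0 ct' r₀}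
  {hM : Mesh0 T (Pc Φ.F) (bc (F := Φ.F)) (RF Φ r₀) f (KorJ Φ J0) κ1} {h1 : κ1 < s₁}
  {h2 : κ1 < 1} {ct : Φ.F → ι} {κ : Φ.F → ℕ} {L : Φ.F → Finset ℝ} [Nonempty (JJ Φ L)]
  {hG : GF Φ r₀ T f L} {D : Φ.F → Set E3} {bp : JJ Φ L → E3} {lam₀ : JJ Φ L → E3 → ZMod 2}
  {v₀ v₁ : Φ.F → E3} {far₀ : JJ Φ L → Set E3} {kap : Φ.F → ℕ}
  {s : GSt (meshC T fr3) (fam' (fun j : JJ Φ L => j.1) (Rk κ kap))}
  {far : Nm' (fun j : JJ Φ L => j.1) (Rk κ kap) → Set E3} {β : E3 → E3}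
  {lam : Nm' (fun j : JJ Φ L => j.1) (Rk κ kap) → Qx T ct → ZMod 2}
  {κ2 : ℝ} {J V : Φ.F → Set ι} {A : Φ.F → E3 ≃ᵃ[ℝ] E3} {lm : Φ.F → ℝ} {z : Φ.F → E3}
  {θ : Φ.F → E3 → E3} {φ : Φ.F → E3 → ℝ}







theorem hS_x (hLa : IsOpen La) (a c : Φ.F) (h : c ≠ a) :
    IsPreconnected (Lset La (Pc Φ.F) (bc (F := Φ.F)) c 0 \ Pc Φ.F a) := preconn_brick Φ hLa h



theorem fr0_frE {Q : Type} [PartialOrder Q] {dim : Q → ℕ} {ι' Φ' W C K Jn : Type}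
    {M : MeshC ι' Φ' W} {Lm : LM M Q dim} {Qd : Quads ι' C K} {fam : Jn → C} {s₀ : GSt M fam}
    {a : C} {v v' : Q} (h : ReflTransGen (Ed Lm (Fr0 Lm Qd s₀ a)) v v') :
    ReflTransGen (Ed Lm {e | FrE Lm Qd a e}) v v' := path_mono (fun _ he => he.1) h





end slice

end Crest.Agent.R096.Rop_441
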