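import Crest.Agent.R096.Frk1_441
import Crest.Agent.R096.Flb2_422
import Crest.Agent.R096.Hl5_955
import Crest.Agent.R096.Dia2_316
import Crest.Agent.R096.Dfn1_416
import Crest.Agent.R096.Rop13_441
import Crest.Agent.R096.Lmx2_662
import Crest.Agent.R096.Dfn4_416
import Crest.Agent.R096.Dfg1_539
import Crest.Agent.R096.Nmd1_698
import Crest.Agent.R096.Sgo3_298
import Crest.Agent.R096.Civ2_662
import Crest.Agent.R096.Dfo2_539
import Crest.Agent.R096.Dis1_184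
import Crest.Agent.R096.Frs3_662
import Crest.Agent.R096.Bgf3_4
import Crest.Agent.R096.Dff2_539
import Crest.Agent.R096.Twr11_438
import Crest.Agent.R096.Dff1_539
import Crest.Agent.R096.Lbc1_334
import Crest.Agent.R096.Dib6_438
import Crest.Agent.R096.Rte1_543
import Crest.Agent.R096.Civ3_662

-- ▼ part R096/Frk2_441
section

/-!
# R096 (row 96), FRONT (helper441): ropes to the feet, columns, core data for 422's `labIn_sla`

* `col_of`     : `Flb_422.Col` over a foot of small / large level;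
* `rope0_fr`, `rope1_fr` : ropes `v₀ a`, `v₁ a` → a foot on the frontier of a tiny core;
* `rope0_o`, `rope1_o`   : ropes to a vertex of a tile outside all cores;
* `cd_giant_L`, `cd_exact_L` : 422's `Cd` from `Lst`.
-/

set_option autoImplicit false
set_option linter.unusedSectionVars false
set_option linter.unusedVariables false

open Set Relation Module

namespace Crest.Agent.R096.Frk_441

open Crest.Agent.R096.Brk1_582 Crest.Agent.R096.Brk2_582 Crest.Agent.R096.Brk3_582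
  Crest.Agent.R096.Brk5_582 Crest.Agent.R096.Bsp_628 Crest.Agent.R096.Init_543
  Crest.Agent.R096.Vb_965 Crest.Agent.R096.Msh_715 Crest.Agent.R096.St_147
  Crest.Agent.R096.Seq_213 Crest.Agent.R096.Lm_117 Crest.Agent.R096.Gl_422
  Crest.Agent.R096.SkB_662 Crest.Agent.R096.Cpo_642
  Crest.Agent.R096.Ce_537 Crest.Agent.R096.Agl5_543
  Crest.Agent.R096.Cp_298 Crest.Agent.R096.Gm_298 Crest.Agent.R096.Ac_117
  Crest.Agent.R096.Sla_184 Crest.Agent.R096.Sla_184.Sla Crest.Agent.R096.Kin_527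
  Crest.Agent.R096.Vrt_422 Crest.Agent.R096.Rop_441
  Crest.Agent.R096.Lmx_662 Crest.Agent.R096.Flb_422
open Crest.Agent.R096.SkC1_961 (E3 Hom3 FoamD)
open Crest.Agent.R096.Mbf_337 (KJ sb)
open Crest.Agent.R096.Gia_537 (Kc Kc_sub Kc_compact Kc_disj Kc_exact)
open Crest.Agent.R096.Exa_560 (Lev)

variable {δ κ0 R c0 : ℝ} {La Om : Set E3} {ι : Type} {Φ : FoamD δ κ0 R c0 La}
  {T : Tiling Om ι} {f g : E3 → E3} {κ1 κ2 s₁ σ : ℝ} {X : Set Φ.F} {J0 J V : Φ.F → Set ι}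
  {ct : Φ.F → ι}
  {A : Φ.F → E3 ≃ᵃ[ℝ] E3} {lam : Φ.F → ℝ} {z : Φ.F → E3} {θ : Φ.F → E3 → E3} {φ : Φ.F → E3 → ℝ}
  {ct' : Φ.F → ι} {r₀ : Φ.F → ℝ}
  {κ : Type} {S : Sla T κ}
variable [Nonempty S.T3.Cell] {hH : ∀ c, CoreH S.T3 (S.KK c)} {hne : ∃ c, OutK S.T3 S.KK c}
  {Kq : Type} {Qd : Quads (T.RIdx S.HH ⊕ κ) Φ.F Kq} {Jn : Type} {fam : Jn → Φ.F}
  {s₀ : GSt (mK fr3 hH (dis_KK (S := S))) fam}

section main

variable (hLa : IsOpen La) (hLc : IsPreconnected La) (hN : Num δ κ0 R c0 κ2 κ1 s₁)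
  (hσ : s₁ ≤ σ)
  (hR : InitR Φ T f g J0 ct' r₀)
  (hC : Mbf_337.Cores Φ T f κ1 κ2 X J0 J V ct A lam z θ φ)
  (hM : Mesh0 T (Pc Φ.F) (bc (F := Φ.F)) (RF Φ r₀) f (KorJ Φ J0) κ1)
  (hK : TinyK X J S)
  (Xc : Cplx Om (QK (belK S.T3 S.KK)) (dimK (belK S.T3 S.KK) fun c => c.1.dim)
    (setK S.T3 S.KK))
  (h : Lst Φ f J0 J r₀ S hH hne Qd s₀ s₁ σ)
include hLa hN hσ hR hC hM hK h


include Xc


/-- **a rope from a deep vertex to a vertex of a tile outside all cores** -/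
theorem rope0_o {i : ι} (hi : i ∉ KorJ Φ J) {v x : E3} (hv : v ∈ P (T.H i)) (hd : T.dim v = 0)
    (hx : x ∈ P (T.H i)) {a : Φ.F}
    (hl : va (Pc Φ.F) (bc (F := Φ.F)) (RF Φ r₀) f a x ≤ θN δ κ0 R c0 κ2 κ1)
    {w₀ : QK (belK S.T3 S.KK)} (hw₀ : DeepS hC r₀ S a w₀)
    (hO : OutK S.T3 S.KK (edC S.T3 v)) :
    ReflTransGen (Ed (lmK fr3 hH (dis_KK (S := S)) hne)
      (Fr0 (lmK fr3 hH (dis_KK (S := S)) hne) Qd s₀ a)) w₀ (oc (edC S.T3 v) hO) :=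
  zero_S hLa hN hR hC hM hK Xc h hw₀ (deep_o hLa hN hR hC hK hi hv hd hx hl hO)

include hLc


/-- **a rope from a far vertex to a vertex of a tile outside all cores** -/
theorem rope1_o {i : ι} (hi : i ∉ KorJ Φ J) {v x : E3} (hv : v ∈ P (T.H i)) (hd : T.dim v = 0)
    (hx : x ∈ P (T.H i)) {a : Φ.F}
    (hl : 1 - θN δ κ0 R c0 κ2 κ1 ≤ va (Pc Φ.F) (bc (F := Φ.F)) (RF Φ r₀) f a x)
    {w₁ : QK (belK S.T3 S.KK)} (hw₁ : FarS Φ f r₀ J S (θN δ κ0 R c0 κ2 κ1) a w₁)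
    (hO : OutK S.T3 S.KK (edC S.T3 v)) :
    ReflTransGen (Ed (lmK fr3 hH (dis_KK (S := S)) hne)
      (Fr0 (lmK fr3 hH (dis_KK (S := S)) hne) Qd s₀ a)) w₁ (oc (edC S.T3 v) hO) :=
  far_S hLa hLc hN hR hC hM hK Xc h hw₁ (far_o hK hi hv hd hx hl hO)

variable {t0 : GSt (meshC T fr3) fam} {lam0 : Jn → E3 → ZMod 2}


/-- **422's core datum at an outer tile with the truthful state**; `i0`, `i1` = tiles outside all
cores at the two vertices -/
theorem cd_exact_L {q : ι} (hi : ∀ c, ¬ P (T.H q) ⊆ S.K c) {v0 v1 : E3} (hv0 : v0 ∈ P (T.H q))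
    (hd0 : T.dim v0 = 0) (hv1 : v1 ∈ P (T.H q)) (hd1 : T.dim v1 = 0) {a : Φ.F}
    (hact : ∀ k, Qd.In k a → Sum.inl (S.ot q hi) ∉ Qd.Act k)
    (hlab : ∀ j, fam j = a → Main_4.IsLab T (Lab_184.gPts t0 j) (lam0 j))
    (hst : ∀ j, fam j = a → ∀ w ∈ P (T.H q),
      ((w ∈ s₀.P ∧ s₀.lab w = j) ↔ (w ∈ t0.P ∧ t0.lab w = j)))
    (hval : ∀ j, fam j = a → lam0 j v0 + lam0 j v1 = 1)
    {i0 i1 : ι} (hi0 : i0 ∉ KorJ Φ J) (hvi0 : v0 ∈ P (T.H i0)) (hi1 : i1 ∉ KorJ Φ J)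
    (hvi1 : v1 ∈ P (T.H i1))
    (hl0 : va (Pc Φ.F) (bc (F := Φ.F)) (RF Φ r₀) f a v0 ≤ θN δ κ0 R c0 κ2 κ1)
    (hl1 : 1 - θN δ κ0 R c0 κ2 κ1 ≤ va (Pc Φ.F) (bc (F := Φ.F)) (RF Φ r₀) f a v1)
    {w₀ w₁ : QK (belK S.T3 S.KK)} (hw₀ : DeepS hC r₀ S a w₀)
    (hw₁ : FarS Φ f r₀ J S (θN δ κ0 R c0 κ2 κ1) a w₁) :
    Cd hne Qd s₀ t0 lam0 w₀ w₁ a (Sum.inl (S.ot q hi)) (edC S.T3 v0)
      (edC S.T3 v1) (vx3 hi hv0 hd0).2.2.2.2 (vx3 hi hv1 hd1).2.2.2.2 (fun _ => 0)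
      (fun _ => 0) :=
  cd_exact hi hv0 hd0 hv1 hd1 hact hlab hst hval
    (rope0_o hLa hN hσ hR hC hM hK Xc h hi0 hvi0 hd0 hvi0 hl0 hw₀ _)
    (rope1_o hLa hLc hN hσ hR hC hM hK Xc h hi1 hvi1 hd1 hvi1 hl1 hw₁ _)

end main

end Crest.Agent.R096.Frk_441
end

-- ▼ part R096/Frk3_441
section

/-!
# R096 (row 96), FRONT (helper441): the feet at a tiny core and 422's core datum

`exists_cd_tiny` : `Cd` at a tiny core which touches `a`, from the exact pattern (`ExG`).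
-/

set_option autoImplicit false
set_option linter.unusedSectionVars false
set_option linter.unusedVariables false

open Set Relation Module

namespace Crest.Agent.R096.Frk_441

open Crest.Agent.R096.Brk1_582 Crest.Agent.R096.Brk2_582 Crest.Agent.R096.Brk3_582
  Crest.Agent.R096.Brk5_582 Crest.Agent.R096.Bsp_628 Crest.Agent.R096.Init_543
  Crest.Agent.R096.Vb_965 Crest.Agent.R096.Msh_715 Crest.Agent.R096.St_147
  Crest.Agent.R096.Seq_213 Crest.Agent.R096.Lm_117 Crest.Agent.R096.Gl_422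
  Crest.Agent.R096.SkB_662 Crest.Agent.R096.Cpo_642
  Crest.Agent.R096.Ce_537 Crest.Agent.R096.Agl5_543
  Crest.Agent.R096.Cp_298 Crest.Agent.R096.Gm_298 Crest.Agent.R096.Ac_117
  Crest.Agent.R096.Sla_184 Crest.Agent.R096.Sla_184.Sla Crest.Agent.R096.Kin_527
  Crest.Agent.R096.Vrt_422 Crest.Agent.R096.Rop_441
  Crest.Agent.R096.Lmx_662 Crest.Agent.R096.Flb_422
open Crest.Agent.R096.SkC1_961 (E3 Hom3 FoamD)
open Crest.Agent.R096.Mbf_337 (KJ sb)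
open Crest.Agent.R096.Gia_537 (Kc Kc_sub Kc_compact Kc_disj Kc_exact)
open Crest.Agent.R096.Exa_560 (Lev)

variable {δ κ0 R c0 : ℝ} {La Om : Set E3} {ι : Type} {Φ : FoamD δ κ0 R c0 La}
  {T : Tiling Om ι} {f g : E3 → E3} {κ1 κ2 s₁ σ : ℝ} {X : Set Φ.F} {J0 J V : Φ.F → Set ι}
  {ct : Φ.F → ι}
  {A : Φ.F → E3 ≃ᵃ[ℝ] E3} {lam : Φ.F → ℝ} {z : Φ.F → E3} {θ : Φ.F → E3 → E3} {φ : Φ.F → E3 → ℝ}
  {ct' : Φ.F → ι} {r₀ : Φ.F → ℝ}

open scoped Classical in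
/-- **a point of `bd P_c` far from `P_a`** -/
theorem exists_one (hLa : IsOpen La) {a c : Φ.F} (hac : a ≠ c)
    (hne : (Pc Φ.F c ∩ Pc Φ.F a).Nonempty) :
    ∃ y ∈ frontier (Pc Φ.F c), sb Φ y a = 1 := by
  have FF := foam Φ.bf hLa
  obtain ⟨q, hq1, hq2⟩ := hne
  have hfc : (fc (Pc Φ.F) ({a, c} : Set Φ.F)).Nonempty := by
    refine ⟨q, mem_fc.2 ?_⟩
    rintro y (rfl | rfl)
    · exact hq2
    · exact hq1
  have h := Exc_965.isPreconnected_relbd Φ.bf hLa (A := {a, c}) (by simp) ⟨a, by simp⟩ hfc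
    (by rw [ncard_pair hac]; simp)
  rw [← Exc_965.rel2_eq] at h
  obtain ⟨p, hp1, hp2, d, hdc, hda, hpd⟩ := h.2
  have hne2 : (fc (Pc Φ.F) ({c, d} : Set Φ.F)).Nonempty := by
    refine ⟨p, mem_fc.2 ?_⟩
    rintro y (rfl | rfl)
    · exact hp1
    · exact hpd
  have hm := FF.mem {c, d} ⟨c, by simp⟩ hne2
  have hbc : bc (F := Φ.F) {c, d} ∈ Pc Φ.F c := mem_fc.1 hm c (by simp)
  have hbd : bc (F := Φ.F) {c, d} ∈ Pc Φ.F d := mem_fc.1 hm d (by simp)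
  refine ⟨bc (F := Φ.F) {c, d}, ?_, ?_⟩
  · rw [frontier_cell FF, Lset_zero FF]; exact ⟨hbc, d, hdc, hbd⟩
  · have h2 := Brk2_582.sc_chain FF (k := 0) (fun _ => ({c, d} : Set Φ.F)) (fun _ _ _ => le_rfl)
      ⟨c, by simp⟩ hne2 (fun _ => 1) (fun _ => zero_le_one) (by simp) a
    have h3 : a ∉ ({c, d} : Set Φ.F) := by
      rintro (h | h)
      · exact hac h
      · exact hda h.symm
    simp only [Fin.sum_univ_succ, one_smul, Finset.univ_eq_empty, Finset.sum_empty, add_zero,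
      if_neg h3] at h2
    exact h2

/-- **a point of `bd P_c` on `P_a`** -/
theorem exists_zero (hLa : IsOpen La) {a c : Φ.F} (hac : a ≠ c)
    (hne : (Pc Φ.F c ∩ Pc Φ.F a).Nonempty) :
    ∃ y ∈ frontier (Pc Φ.F c), sb Φ y a = 0 := by
  have FF := foam Φ.bf hLa
  obtain ⟨y, hyc, hya⟩ := hne
  refine ⟨y, ?_, (FF.sc_eq_zero (FF.sub c hyc)).2 hya⟩
  rw [frontier_cell FF, Lset_zero FF]; exact ⟨hyc, a, hac, hya⟩

/-- **a foot near a point of `bd P_c`** -/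
theorem exists_foot (hLa : IsOpen La) (hN : Num δ κ0 R c0 κ2 κ1 s₁) (hR : InitR Φ T f g J0 ct' r₀)
    (hC : Mbf_337.Cores Φ T f κ1 κ2 X J0 J V ct A lam z θ φ)
    (hM : Mesh0 T (Pc Φ.F) (bc (F := Φ.F)) (RF Φ r₀) f (KorJ Φ J0) κ1) {c : Φ.F} (hcX : c ∉ X)
    {y : E3} (hy : y ∈ frontier (Pc Φ.F c)) (a : Φ.F) :
    ∃ x v i, v ∈ frontier (KJ T (J c)) ∧ T.dim v = 0 ∧ i ∉ KorJ Φ J ∧ x ∈ P (T.H i) ∧
      v ∈ P (T.H i) ∧
      |sb Φ y a - va (Pc Φ.F) (bc (F := Φ.F)) (RF Φ r₀) f a x| ≤ η0F δ κ0 R c0 κ2 κ1 ∧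
      |va (Pc Φ.F) (bc (F := Φ.F)) (RF Φ r₀) f a v -
        va (Pc Φ.F) (bc (F := Φ.F)) (RF Φ r₀) f a x| ≤ κ1 ∧
      |sb Φ (θ c v) a - va (Pc Φ.F) (bc (F := Φ.F)) (RF Φ r₀) f a v| ≤ η0F δ κ0 R c0 κ2 κ1 := by
  have hCT := corT hLa hN.hδ hN.hR hN.hκ0 hN.hκ1 hN.hκ2 hN.hκ hN.hκn hC hR
  have hx := hCT.taum c hy
  have hxK : tauC hC c y ∈ Kc T J c := (Kc_compact hC c).isClosed.frontier_subset hx
  have hxO : tauC hC c y ∈ Om := Kc_sub c hxK
  have hout : ∀ d, tauC hC c y ∉ interior (Kc T J d) := by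
    intro d hd
    by_cases hdc : d = c
    · subst hdc; exact hx.2 hd
    · exact disjoint_left.1 (Kc_disj (T := T) (J := J) hLa hC hdc) (interior_subset hd) hxK
  obtain ⟨i, hi, hxi⟩ := exists_out T (kor_sub (Φ := Φ) (J := J)) (fun _ _ h => Kc_disj hLa hC h)
    hxO hout
  obtain ⟨v, hv, hd⟩ := exists_vertex T hxO
  have hvf : v ∈ frontier (KJ T (J c)) :=
    (Exa_560.coreH_tiny (hC.tiny c hcX)).cc _ hx hv
  have hvi : v ∈ P (T.H i) := T.cc_sub_tile hxi hv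
  have hi0 : i ∉ KorJ Φ J0 := fun h' => hi (korJ_mono hC h')
  refine ⟨_, v, i, hvf, hd, hi, hxi, hvi, ?_, hM.osc i hi0 v hvi _ hxi a, ?_⟩
  · have h1 := hCT.close c _ hx a
    rwa [hCT.ri c y hy] at h1
  · have h1 := hCT.close c v hvf a
    rwa [thC_tiny hcX] at h1

variable {κ : Type} {S : Sla T κ}
variable [Nonempty S.T3.Cell] {hH : ∀ c, CoreH S.T3 (S.KK c)} {hne : ∃ c, OutK S.T3 S.KK c}
  {Kq : Type} {Qd : Quads (T.RIdx S.HH ⊕ κ) Φ.F Kq} {Jn : Type} {fam : Jn → Φ.F}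
  {s₀ : GSt (mK fr3 hH (dis_KK (S := S))) fam}

section main

variable (hLa : IsOpen La) (hLc : IsPreconnected La) (hN : Num δ κ0 R c0 κ2 κ1 s₁)
  (hσ : s₁ ≤ σ)
  (hR : InitR Φ T f g J0 ct' r₀)
  (hC : Mbf_337.Cores Φ T f κ1 κ2 X J0 J V ct A lam z θ φ)
  (hM : Mesh0 T (Pc Φ.F) (bc (F := Φ.F)) (RF Φ r₀) f (KorJ Φ J0) κ1)
  (hK : TinyK X J S)
  (Xc : Cplx Om (QK (belK S.T3 S.KK)) (dimK (belK S.T3 S.KK) fun c => c.1.dim)
    (setK S.T3 S.KK))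
  (h : Lst Φ f J0 J r₀ S hH hne Qd s₀ s₁ σ)

section nofar

include hLa hσ hC hM hK h

/-- **the column over a foot** -/
theorem col_gen {c : κ} {v : E3} (hv : v ∈ frontier (S.K c)) {a : Φ.F}
    (hl : va (Pc Φ.F) (bc (F := Φ.F)) (RF Φ r₀) f a v + κ1 < s₁ ∨
      1 - s₁ < va (Pc Φ.F) (bc (F := Φ.F)) (RF Φ r₀) f a v - κ1) :
    Col Qd s₀ a c v := by
  have hosc : ∀ {p : T.RIdx S.HH}, v ∈ P (T.H p.tile) → ∀ {x : E3}, x ∈ P (T.H p.tile) →
      |va (Pc Φ.F) (bc (F := Φ.F)) (RF Φ r₀) f a x -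
        va (Pc Φ.F) (bc (F := Φ.F)) (RF Φ r₀) f a v| ≤ κ1 := fun {p} hp {x} hx =>
    hM.osc p.tile (hK.notJ0 hLa hC hv hp) x hx v hp a
  constructor
  · intro k hk i hi
    have hL : S.InL c i (S.vc c v i) := vc_inL (fr_Bd hv) hi
    obtain ⟨p, hp⟩ := S.T3.cov _ hL.mem
    obtain ⟨b1, b2, b3⟩ := col_tile hv (vc_O (fr_Bd hv) i) hL hp
    refine ⟨p, hp, fun hact => ?_⟩
    obtain ⟨k', ⟨-, x, hx, hx1, -⟩, hk'⟩ := h.act p b3 k hact
    have h4 := hx1 a (hk' a hk)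
    have h5 := abs_le.1 (hosc b1 hx)
    rcases hl with hl | hl
    · linarith [h4.1, h5.2]
    · linarith [h4.2, h5.1]
  · intro i hi w hw hwO hwL hwa
    obtain ⟨p, hp⟩ := S.T3.cov _ hwL.mem
    obtain ⟨b1, b2, b3⟩ := col_tile hv hwO hwL hp
    obtain ⟨x, hx, h4, h5⟩ := h.lay w hw p c b3 b2 hp
    rw [hwa] at h4 h5
    have h6 := abs_le.1 (hosc b1 hx)
    rcases hl with hl | hl
    · linarith [h4, h6.2]
    · linarith [h5, h6.1]

end nofar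

include hLa hLc hN hσ hR hC hM hK Xc h

variable {t0 : GSt (meshC T fr3) fam} {lam0 : Jn → E3 → ZMod 2}

/-- **422's core datum at a tiny core which touches `a`** -/
theorem exists_cd_tiny {k : κ} {c a : Φ.F} (hcX : c ∉ X) (hkc : S.K k = KJ T (J c)) (hac : a ≠ c)
    (hca : (Pc Φ.F c ∩ Pc Φ.F a).Nonempty) (L : Lev T (frontier (S.K k)) Jn)
    (hu : ∀ v ∈ frontier (S.K k), L.u v = sb Φ (θ c v) a) (hact : ∀ l, Sum.inr k ∉ Qd.Act l)
    (hJ : ∀ j, fam j = a → j ∈ L.J0)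
    (hlv : ∀ j, fam j = a → s₁ ≤ L.lv j ∧ L.lv j ≤ 1 - s₁)
    (hE : ∀ j, fam j = a → ExG S k L j {w | w ∈ s₀.P ∧ s₀.lab w = j})
    {w₀ w₁ : QK (belK S.T3 S.KK)} (hw₀ : DeepS hC r₀ S a w₀)
    (hw₁ : FarS Φ f r₀ J S (θN δ κ0 R c0 κ2 κ1) a w₁) :
    ∃ u0 u1 o0 o1 uu tt, Cd hne Qd s₀ t0 lam0 w₀ w₁ a (Sum.inr k) u0 u1 o0 o1 uu tt := by
  have hs := hN.hs
  have h00 := hN.h00
  have h1N := hN.hκ1
  unfold ηN θN at hs
  obtain ⟨y0, hy0, e0⟩ := exists_zero hLa hac hca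
  obtain ⟨y1, hy1, e1⟩ := exists_one hLa hac hca
  obtain ⟨x0, v0, i0, a1, a2, a3, a4, a5, a6, a7, a8⟩ := exists_foot hLa hN hR hC hM hcX hy0 a
  obtain ⟨x1, v1, i1, b1, b2, b3, b4, b5, b6, b7, b8⟩ := exists_foot hLa hN hR hC hM hcX hy1 a
  rw [e0] at a6
  rw [e1] at b6
  have a6' := abs_le.1 a6
  have a7' := abs_le.1 a7
  have a8' := abs_le.1 a8
  have b6' := abs_le.1 b6
  have b7' := abs_le.1 b7
  have b8' := abs_le.1 b8
  rw [← hkc] at a1 b1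
  refine ⟨_, _, _, _, _, _, cd_giant a1 a2 b1 b2 L hact hJ hE (fun j hj => ?_)
    (col_gen hLa hσ hC hM hK h a1 (Or.inl ?_)) (col_gen hLa hσ hC hM hK h b1 (Or.inr ?_))
    (rope0_o hLa hN hσ hR hC hM hK Xc h a3 a5 a2 a4 ?_ hw₀ _)
    (rope1_o hLa hLc hN hσ hR hC hM hK Xc h b3 b5 b2 b4 ?_ hw₁ _)⟩
  · obtain ⟨g1, g2⟩ := hlv j hj
    rw [hu v0 a1, hu v1 b1]
    constructor
    · linarith [a6'.1, a7'.2, a8'.2]
    · linarith [b6'.2, b7'.1, b8'.1]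
  · linarith [a6'.1, a7'.2]
  · linarith [b6'.2, b7'.1]
  · unfold θN; linarith [a6'.1]
  · unfold θN; linarith [b6'.2]

end main

end Crest.Agent.R096.Frk_441
end

-- ▼ part R096/Fcd1_117
section

/-!
# R096 (row 96), FRONT, field `lab` (helper117): the core datum of every family

* `GiD`       : the state on the boundary of the shrunk core is the exact pattern;
* `exists_cd` : **`Cd` for every family** (422's input of `labIn_sla`), from 441's `exists_cd_tiny`,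
  `cd_exact_L` and 955's `exists_u`.
-/

set_option autoImplicit false
set_option linter.unusedSectionVars false
set_option linter.unusedVariables false

open Set Relation Module

namespace Crest.Agent.R096.Fcd_117

open Crest.Agent.R096.Brk1_582 Crest.Agent.R096.Brk2_582 Crest.Agent.R096.Brk3_582
  Crest.Agent.R096.Brk5_582 Crest.Agent.R096.Bsp_628 Crest.Agent.R096.Init_543
  Crest.Agent.R096.Vb_965 Crest.Agent.R096.Msh_715 Crest.Agent.R096.St_147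
  Crest.Agent.R096.Seq_213 Crest.Agent.R096.Lm_117 Crest.Agent.R096.Gl_422
  Crest.Agent.R096.SkB_662 Crest.Agent.R096.Cpo_642
  Crest.Agent.R096.Ce_537 Crest.Agent.R096.Agl5_543
  Crest.Agent.R096.Cp_298 Crest.Agent.R096.Gm_298 Crest.Agent.R096.Ac_117
  Crest.Agent.R096.Sla_184 Crest.Agent.R096.Sla_184.Sla Crest.Agent.R096.Kin_527
  Crest.Agent.R096.Vrt_422 Crest.Agent.R096.Rop_441 Crest.Agent.R096.Qdl_662
  Crest.Agent.R096.Lmx_662 Crest.Agent.R096.Flb_422 Crest.Agent.R096.Frk_441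
  Crest.Agent.R096.Exa_560
open Crest.Agent.R096.SkC1_961 (E3 Hom3 FoamD)
open Crest.Agent.R096.Mbf_337 (KJ sb)
open Crest.Agent.R096.Gia_537 (Kc Kc_sub Kc_compact Kc_disj Kc_exact)
open Crest.Agent.R096.Frn_337 (Ti cti Lay pO)
open Crest.Agent.R096.Dia_316 (nbT)

variable {δ κ0 R c0 : ℝ} {La Om : Set E3} {ι : Type} {Φ : FoamD δ κ0 R c0 La}
  {T : Tiling Om ι} {f g : E3 → E3} {κ1 κ2 s₁ s' : ℝ} {X : Set Φ.F} {J0 J V : Φ.F → Set ι}
  {ct : Φ.F → ι}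
  {A : Φ.F → E3 ≃ᵃ[ℝ] E3} {lam : Φ.F → ℝ} {z : Φ.F → E3} {θ : Φ.F → E3 → E3} {φ : Φ.F → E3 → ℝ}
  {ct' : Φ.F → ι} {r₀ : Φ.F → ℝ} {S : Sla T (Ti X)} {M : Φ.F → ℕ}
  [Nonempty S.T3.Cell] {hH : ∀ k, CoreH S.T3 (S.KK k)} {hne : ∃ c, OutK S.T3 S.KK c}
  {L : Φ.F → Finset ℝ} {s₀ : GSt (mK fr3 hH (dis_KK (S := S))) (fun j : JJ Φ L => j.1)}
  {hLa : IsOpen La} {hR : InitR Φ T f g J0 ct' r₀}
  {hM : Mesh0 T (Pc Φ.F) (bc (F := Φ.F)) (RF Φ r₀) f (KorJ Φ J0) κ1} {hε : κ1 < s₁}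
  {hε1 : κ1 < 1}

variable (θ S s₀ s₁) in
/-- the state on the boundary of the shrunk core `k` is the exact pattern of the family `a` -/
def GiD (k : Ti X) (a : Φ.F) : Prop :=
  ∃ Lv : Lev T (frontier (S.K k)) (JJ Φ L), (∀ x ∈ frontier (S.K k), Lv.u x = sb Φ (θ k.1 x) a) ∧
    ∀ j : JJ Φ L, j.1 = a → j ∈ Lv.J0 ∧ s₁ ≤ Lv.lv j ∧ Lv.lv j ≤ 1 - s₁ ∧
      ExG S k Lv j {w | w ∈ s₀.P ∧ s₀.lab w = j}

/-- the tiles of the exact cores are outside the tiny cores -/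
theorem out_ct (hLa : IsOpen La) (hC : Mbf_337.Cores Φ T f κ1 κ2 X J0 J V ct A lam z θ φ)
    (hK : ∀ k : Ti X, S.K k = KJ T (J k.1)) {c : Φ.F} (hc : c ∈ X) (k : Ti X) :
    ¬ P (T.H (ct c)) ⊆ S.K k := by
  intro h
  rw [hK k] at h
  obtain ⟨y, hy⟩ := T.ne (ct c)
  have hne' : k.1 ≠ c := fun e => k.2 (e ▸ hc)
  refine disjoint_left.1 (Kc_disj (T := T) (J := J) hLa hC hne') (h (I_sub_P _ hy)) ?_
  rw [Kc_exact hC hc]; exact I_sub_P _ hy

/-- **THE CORE DATUM OF EVERY FAMILY** -/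
theorem exists_cd [Nonempty (JJ Φ L)] {hG : GF Φ r₀ T f L} {D : Φ.F → Set E3}
    {bp : JJ Φ L → E3} {lam₀ : JJ Φ L → E3 → ZMod 2} {v₀ v₁ : Φ.F → E3} {μ : ℝ}
    (hf : Hom3 f Om La) (hLc : IsPreconnected La) (hN : Num δ κ0 R c0 κ2 κ1 s₁)
    (hC : Mbf_337.Cores Φ T f κ1 κ2 X J0 J V ct A lam z θ φ) (hF : Mbf_337.Fine Φ T f κ1 J0)
    (hW : Mbf_337.Words Φ T f X ct A lam z M L)
    (hκμ : κ1 < μ) (hμ : s₁ ≤ μ) (hm : ∀ c, ∀ t ∈ L c, μ ≤ t ∧ t ≤ 1 - μ)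
    (hK : ∀ k : Ti X, S.K k = KJ T (J k.1)) (hs' : s₁ + κ1 ≤ s')
    (on : ∀ w ∈ s₀.P, w ∈ (lmK fr3 hH (dis_KK (S := S)) hne).W1)
    (posB : PosS Φ T f s' J0 S s₀)
    (hI : InitS hLa hR hM hε hε1 hG D bp lam₀ v₀ v₁)
    {q0 q1 : Φ.F → ι} {w0 w1 x0 x1 : Φ.F → E3} (hv : VxD Φ T f V D q0 q1 w0 w1 x0 x1)
    (hgi : ∀ (k : Ti X) a, nbT Φ X k a → (∃ j : JJ Φ L, j.1 = a) → GiD s₁ θ S s₀ k a)
    (hst : ∀ j : JJ Φ L, (∀ k : Ti X, ¬ nbT Φ X k j.1) → ∀ c ∈ X, ∀ w ∈ P (T.H (ct c)),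
      ((w ∈ s₀.P ∧ s₀.lab w = j) ↔ (w ∈ (st0 hG bp).P ∧ (st0 hG bp).lab w = j)))
    (j : JJ Φ L) {u₀ u₁ : QK (belK S.T3 S.KK)} (hw₀ : DeepS hC r₀ S j.1 u₀)
    (hw₁ : FarS Φ f r₀ J S (θN δ κ0 R c0 κ2 κ1) j.1 u₁) :
    ∃ co p0 p1 o0 o1 uu tt,
      Cd hne (qdT (fun p : T.RIdx S.HH => p.tile) (sla_sub S) S.KK hLa hR hM hε hε1) s₀
        (st0 hG bp) lam₀ u₀ u₁ j.1 co p0 p1 o0 o1 uu tt := by
  have h := lst_of_B (hLa := hLa) (hR := hR) (hM := hM) (hε := hε) (hε1 := hε1) (hne := hne) hC hK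
    hs' on posB
  have hσ : s₁ ≤ s' := by linarith [hN.hκ1]
  by_cases ht : ∃ k : Ti X, nbT Φ X k j.1
  · -- a tiny core
    obtain ⟨⟨c, hcX⟩, hca, hne3⟩ := ht
    obtain ⟨Lv, hu, hL⟩ := hgi ⟨c, hcX⟩ j.1 ⟨hca, hne3⟩ ⟨j, rfl⟩
    obtain ⟨p0, p1, o0, o1, uu, tt, h'⟩ := exists_cd_tiny (t0 := st0 hG bp) (lam0 := lam₀) hLa hLc
      hN hσ hR hC hM (tinyK_of hK) (cplxS hC hK) h (k := ⟨c, hcX⟩) hcX (hK ⟨c, hcX⟩) hca
      hne3 Lv hu (fun l => inr_act) (fun i hi => (hL i hi).1)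
      (fun i hi => ⟨(hL i hi).2.1, (hL i hi).2.2.1⟩) (fun i hi => (hL i hi).2.2.2) hw₀ hw₁
    exact ⟨_, _, _, _, _, _, _, h'⟩
  · -- all neighbours are exact
    push Not at ht
    obtain ⟨c, hca, hcc⟩ := hv.w0 j.1
    have hne2 : (Pc Φ.F j.1 ∩ Pc Φ.F c).Nonempty := ⟨_, hv.f0 j.1, hcc⟩
    have hcX : c ∈ X := by
      by_contra hcX
      exact ht ⟨c, hcX⟩ ⟨Ne.symm hca, by rw [inter_comm]; exact hne2⟩
    have hcell : Nonempty T.Cell := ⟨T.cl (T.sub _ (hv.mem0 j.1))⟩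
    obtain ⟨p0, hp0, p1, hp1, hd0, hd1, hl0, hl1, hj⟩ := Hl_955.exists_u hf hLc hN hC hF hW hκμ hμ
      hm hI hcX (Ne.symm hca) hne2
    have hO : ∀ {v : E3}, v ∈ P (T.H (ct c)) → T.dim v = 0 → ∃ i, i ∉ KorJ Φ J ∧ v ∈ P (T.H i) :=
      fun {v} hv hd => exists_out T (kor_sub (Φ := Φ) (J := J))
        (fun _ _ h => Kc_disj hLa hC h) (T.sub _ hv) fun d => out_X hLa hC hcX hv (by omega) d
    obtain ⟨i0, g1, g2⟩ := hO hp0 hd0
    obtain ⟨i1, g3, g4⟩ := hO hp1 hd1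
    refine ⟨_, _, _, _, _, _, _, cd_exact_L hLa hLc hN hσ hR hC hM (tinyK_of hK) (cplxS hC hK) h
      (out_ct hLa hC hK hcX) hp0 hd0 hp1 hd1 (fun k hk hact => ?_) (fun i hi => hI.lab.lab i)
      (fun i hi w hw => hst i (fun k => by rw [hi]; exact ht k) c hcX w hw) (fun i hi => ?_)
      g1 g2 g3 g4 hl0 hl1 hw₀ hw₁⟩
    · exact (inl_act.1 hact).1.1 ⟨c, by
        show ct c ∈ J0 c
        rw [(hC.one c hcX).1]; rfl⟩
    · rw [(hj i hi).1, (hj i hi).2, add_zero]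

end Crest.Agent.R096.Fcd_117
end

-- ▼ part R096/Fcd2_117
section

/-!
# R096 (row 96), FRONT, field `lab` (helper117), part 2: the inputs `hgi`, `hst` of `exists_cd` for the
state after CUT

* `levL`     : the levels of a pattern with barriers, names of the families only;
* `exG_s3`   : the state after CUT on the boundary of a shrunk core is the exact pattern;
* `giD_s3`   : **`hgi`**;
* `mem_outK` : for a family whose points are in no core the outer state contains all points;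
* `hst_s3`   : **`hst`**.
-/

set_option autoImplicit false
set_option linter.unusedSectionVars false
set_option linter.unusedVariables false

open Set Relation Module
open scoped Classical

namespace Crest.Agent.R096.Fcd_117

open Crest.Agent.R096.Brk1_582 Crest.Agent.R096.Brk2_582 Crest.Agent.R096.Brk3_582
  Crest.Agent.R096.Brk5_582 Crest.Agent.R096.Bsp_628 Crest.Agent.R096.Init_543
  Crest.Agent.R096.Vb_965 Crest.Agent.R096.Msh_715 Crest.Agent.R096.St_147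
  Crest.Agent.R096.Seq_213 Crest.Agent.R096.Lm_117 Crest.Agent.R096.Gl_422
  Crest.Agent.R096.SkB_662 Crest.Agent.R096.Cpo_642
  Crest.Agent.R096.Ce_537 Crest.Agent.R096.Agl5_543
  Crest.Agent.R096.Cp_298 Crest.Agent.R096.Gm_298 Crest.Agent.R096.Ac_117
  Crest.Agent.R096.Sla_184 Crest.Agent.R096.Kin_527
  Crest.Agent.R096.Vrt_422 Crest.Agent.R096.Rop_441 Crest.Agent.R096.Qdl_662
  Crest.Agent.R096.Lmx_662 Crest.Agent.R096.Flb_422 Crest.Agent.R096.Frk_441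
  Crest.Agent.R096.Exa_560 Crest.Agent.R096.Dfi_539 Crest.Agent.R096.Dfi_471
  Crest.Agent.R096.Dfo_539 Crest.Agent.R096.Door_501 Crest.Agent.R096.Twr_438
  Crest.Agent.R096.Ess3_95 Crest.Agent.R096.Dfn_416
open Crest.Agent.R096.Sla_184.Sla (hf vf old tg F0 Fn Out OnS InL In)
open Crest.Agent.R096.St_147.St (Frozen)
open Crest.Agent.R096.SkC1_961 (E3 Hom3 FoamD)
open Crest.Agent.R096.Mbf_337 (KJ sb)
open Crest.Agent.R096.Gia_537 (Kc Kc_sub Kc_compact Kc_disj Kc_exact)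
open Crest.Agent.R096.Frn_337 (Ti cti Lay pO)
open Crest.Agent.R096.Dia_316 (nbT)
open Crest.Agent.R096.Bgf_4 (Ext)

/-! ### levels without the barriers -/

section lev

variable {E : Type} [NormedAddCommGroup E] [NormedSpace ℝ E] [FiniteDimensional ℝ E]
variable {Om : Set E} {ι : Type} {T : Tiling Om ι} {Sg : Set E} {J Mo : Type}

/-- the levels of the families -/
noncomputable def levL (L : Lev T Sg (J ⊕ Mo)) : Lev T Sg J where
  u := L.u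
  aff := L.aff
  J0 := L.J0.preimage Sum.inl (Sum.inl_injective.injOn)
  lv := fun j => L.lv (Sum.inl j)
  inj := fun i hi j hj h => Sum.inl_injective
    (L.inj _ (Finset.mem_preimage.1 hi) _ (Finset.mem_preimage.1 hj) h)
  vert := fun v hv h0 j hj => L.vert v hv h0 _ (Finset.mem_preimage.1 hj)

theorem mem_levL {L : Lev T Sg (J ⊕ Mo)} {j : J} : j ∈ (levL L).J0 ↔ Sum.inl j ∈ L.J0 :=
  Finset.mem_preimage (hf := Sum.inl_injective.injOn)

end lev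

/-! ### the giants -/

section gi

variable {E : Type} [NormedAddCommGroup E] [NormedSpace ℝ E] [FiniteDimensional ℝ E]
variable {Om : Set E} {ι : Type} {T : Tiling Om ι} {κ : Type} {S : Sla T κ} {c : κ}
variable {h3 : finrank ℝ E = 3} {J C Mo : Type} {fam : J → C} [Nonempty (J ⊕ Mo)]
  {s : GSt (meshC T h3) (Sum.map fam (id : Mo → Mo))} {r : J ⊕ Mo → E} {Sf : J ⊕ Mo → Set E}
  {nb : κ → C ⊕ Mo → Prop} {v0 v1 : ∀ c, C ⊕ Mo → VxK T S.K c} {u : κ → C ⊕ Mo → E → ℝ}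
  {A B : κ → C ⊕ Mo → ℝ} {L : ∀ c, C ⊕ Mo → Lev T (frontier (S.K c)) (J ⊕ Mo)}
  {Tw : Twrs (S.sh h3) S.n (outK S.hH S.dis s r)} {l0 : E → J ⊕ Mo}
  {am : Mo → C} {Act : C → Set (T.RIdx S.HH ⊕ κ)} {s3 : GSt (S.mn h3) fam}

/-- the boundary faces of a giant are frozen -/
theorem frozen_hf (hact : ∀ a, Sum.inr c ∉ Act a) (a : C) (G : (S.sh h3 c).Fk) :
    Frozen (S.mn h3) (Act a) (hf G (S.n c)) := by
  exact ⟨Sum.inr c, Sla.kk_mem_side (Sla.hf_onS G le_rfl), hact a⟩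

/-- **the pattern of the state after CUT on the boundary of the shrunk core is exact** -/
theorem exG_s3 (lo : LevOut s nb u A B L) (tt : TwOut S h3 s r v0 v1 L Tw)
    (D3 : CutOut (s2 S h3 Tw l0) am Act s3) (hact : ∀ a, Sum.inr c ∉ Act a) {j : J}
    (hj : nb c (Sum.inl (fam j))) : ExG S c (levL (L c (Sum.inl (fam j)))) j
      {w | w ∈ s3.P ∧ s3.lab w = j} := by
  intro w hw h1
  have h := exG_s2 (l0 := l0) lo tt (j := Sum.inl j) hj w hw h1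
  refine Iff.trans ?_ h
  obtain ⟨G, hG⟩ := exists_hf h3 hw h1
  have h2 := D3.frozen (hf G (S.n c)) w j (frozen_hf hact _ G)
  constructor
  · rintro ⟨g1, g2⟩
    have g3 := h2.1 ⟨⟨g1, hG⟩, g2⟩
    exact ⟨g3.1.1, g3.2⟩
  · rintro ⟨g1, g2⟩
    have g3 := h2.2 ⟨⟨g1, hG⟩, g2⟩
    exact ⟨g3.1.1, g3.2⟩

end gi

/-! ### the outer state -/

section out

variable {E : Type} [NormedAddCommGroup E] [NormedSpace ℝ E] [FiniteDimensional ℝ E]
variable {Om : Set E} {ι : Type} {T : Tiling Om ι} {κ : Type} {S : Sla T κ}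
variable {h3 : finrank ℝ E = 3} {J C : Type} {fam : J → C}
  {s : GSt (meshC T h3) fam} {r : J → E}

/-- if no point of the name `j` is in a core, the outer state contains all points of `j` -/
theorem mem_outK {j : J} (hroot : r j ∈ s.P ∧ s.lab (r j) = j) (hconn : s.Conn j)
    (hfar : ∀ w ∈ s.P, s.lab w = j → ∀ k, w ∉ S.K k) {w : E} (hw : w ∈ s.P) (hl : s.lab w = j) :
    w ∈ (outK S.hH S.dis s r).P := by
  have hr : r j ∈ outerP s (piK T S.K) r := ⟨hroot.1, by rw [hroot.2]⟩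
  refine hconn.2 (outerP s (piK T S.K) r) (fun F x hx hA hxl => ?_) (r j) hr hroot.1 hroot.2 w hw hl
  refine outerP_mu (fun hd => ?_) hx hA.2
  obtain ⟨k, hk⟩ := (Slc_184.diag_iff h3 (fun c => (S.hH c).core) (fun c => (S.hH c).sub)
    (fun c => (S.hH c).cc) S.dis F).1 hd
  obtain ⟨q, hq⟩ := T.cov F.pt F.pt_mem
  have h1 := T.sub_of_mem_interior (S.hH k).cpt.isClosed (S.hH k).cc hq hk
  have h2 : x ∈ F.set := hA.2.1
  rw [F.set_eq] at h2
  exact hfar x hx.1 hxl k (h1 (T.cc_sub_tile hq h2))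

end out

/-! ### the machine -/

section mach

variable {δ κ0 R c0 : ℝ} {La Om : Set E3} {ι : Type} {Φ : FoamD δ κ0 R c0 La}
  {T : Tiling Om ι} {f g : E3 → E3} {κ1 κ2 s₁ s' μ : ℝ} {X : Set Φ.F} {J0 J V : Φ.F → Set ι}
  {ct : Φ.F → ι}
  {A : Φ.F → E3 ≃ᵃ[ℝ] E3} {lam : Φ.F → ℝ} {z : Φ.F → E3} {θ : Φ.F → E3 → E3} {φ : Φ.F → E3 → ℝ}
  {ct' : Φ.F → ι} {r₀ : Φ.F → ℝ} {S : Sla T (Ti X)} {M : Φ.F → ℕ}
  [Nonempty S.T3.Cell] {hKK : ∀ k, CoreH S.T3 (S.KK k)}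
  {L : Φ.F → Finset ℝ} [Nonempty (JJ Φ L)] {hG : GF Φ r₀ T f L} {bp : JJ Φ L → E3}
  {Mo : Type} [Nonempty (JJ Φ L ⊕ Mo)]
  {sB : GSt (meshC T fr3) (Sum.map (fun j : JJ Φ L => j.1) (id : Mo → Mo))}
  {r : JJ Φ L ⊕ Mo → E3} {Sf : JJ Φ L ⊕ Mo → Set E3} {nb : Ti X → Φ.F ⊕ Mo → Prop}
  {v0 v1 : ∀ c, Φ.F ⊕ Mo → VxK T S.K c} {u : Ti X → Φ.F ⊕ Mo → E3 → ℝ}
  {Al Bl : Ti X → Φ.F ⊕ Mo → ℝ} {Lx : ∀ c, Φ.F ⊕ Mo → Lev T (frontier (S.K c)) (JJ Φ L ⊕ Mo)}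
  {Tw : Twrs (S.sh fr3) S.n (outK S.hH S.dis sB r)} {l0 : E3 → JJ Φ L ⊕ Mo}
  {am : Mo → Φ.F} {Act : Φ.F → Set (T.RIdx S.HH ⊕ Ti X)}
  {s3 : GSt (mK fr3 hKK (Sla.dis_KK (S := S))) (fun j : JJ Φ L => j.1)}
  {hLa : IsOpen La} {hR : InitR Φ T f g J0 ct' r₀}
  {hM : Mesh0 T (Pc Φ.F) (bc (F := Φ.F)) (RF Φ r₀) f (KorJ Φ J0) κ1} {hε : κ1 < s₁}
  {hε1 : κ1 < 1}

/-- **`hgi` of `exists_cd`** -/
theorem giD_s3 (lo : LevOut (Kc := S.K) sB nb u Al Bl Lx) (tt : TwOut S fr3 sB r v0 v1 Lx Tw)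
    (D3 : CutOut (s2 S fr3 Tw l0) am Act s3)
    (hu : ∀ k a, u k (Sum.inl a) = fun x => sb Φ (θ k.1 x) a)
    (hnb : ∀ k a, nbT Φ X k a → nb k (Sum.inl a))
    (hAl : ∀ k a, s₁ ≤ Al k (Sum.inl a)) (hBl : ∀ k a, Bl k (Sum.inl a) ≤ 1 - s₁)
    (hact : ∀ a k, Sum.inr k ∉ Act a) (k : Ti X) (a : Φ.F) (hn : nbT Φ X k a) :
    GiD s₁ θ S s3 k a := by
  refine ⟨levL (Lx k (Sum.inl a)), fun x hx => ?_, fun j hj => ?_⟩
  · show (Lx k (Sum.inl a)).u x = _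
    rw [lo.u k, hu k a]
  · subst hj
    have h1 : (Sum.inl j : JJ Φ L ⊕ Mo) ∈ (Lx k (Sum.inl j.1)).J0 :=
      (lo.mem k (Sum.inl j.1) (Sum.inl j)).2 ⟨rfl, hnb k j.1 hn⟩
    have h2 := lo.win k _ _ h1
    exact ⟨mem_levL.2 h1, (hAl k j.1).trans h2.1.le, h2.2.le.trans (hBl k j.1),
      exG_s3 lo tt D3 (fun a => hact a k) (hnb k j.1 hn)⟩

/-- the points of the truthful state in a core -/
theorem st0_nb (hLa : IsOpen La) (hR : InitR Φ T f g J0 ct' r₀)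
    (hC : Mbf_337.Cores Φ T f κ1 κ2 X J0 J V ct A lam z θ φ) (hμ : 0 < μ)
    (hm : ∀ c, ∀ t ∈ L c, μ ≤ t ∧ t ≤ 1 - μ) {w : E3} (hw : w ∈ (st0 hG bp).P) {k : Φ.F}
    (hk : w ∈ KJ T (J k)) :
    ((st0 hG bp).lab w).1 ≠ k ∧ (Pc Φ.F k ∩ Pc Φ.F ((st0 hG bp).lab w).1).Nonempty := by
  obtain ⟨h1, h2, h3⟩ := st0_mem hLa hR hw
  have h4 : va (Pc Φ.F) (bc (F := Φ.F)) (RF Φ r₀) f ((st0 hG bp).lab w).1 w =
      ((st0 hG bp).lab w).2.1 := by
    rw [← h3]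
    exact hR.v_eq' Φ hLa h1 (by omega) _
  have h5 := hm _ _ ((st0 hG bp).lab w).2.2
  have hk' : w ∈ Kc T J k := hk
  constructor
  · intro e
    have h6 := (va_core hLa hR hC hk').1
    rw [← e, h4] at h6
    linarith [h5.1]
  · by_contra hne
    have h6 := va_core_one hLa hR hC hne hk'
    rw [h4] at h6
    linarith [h5.2]

/-- **`hst` of `exists_cd`** -/
theorem hst_s3 (hext : Ext (st0 hG bp) sB) (hLa : IsOpen La) (hR : InitR Φ T f g J0 ct' r₀)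
    (hC : Mbf_337.Cores Φ T f κ1 κ2 X J0 J V ct A lam z θ φ) (hμ : 0 < μ)
    (hm : ∀ c, ∀ t ∈ L c, μ ≤ t ∧ t ≤ 1 - μ) (hK : ∀ k : Ti X, S.K k = KJ T (J k.1))
    (D : DIn S.hH sB r Sf nb v0 v1 u Al Bl) (D3 : CutOut (s2 S fr3 Tw l0) am Act s3)
    (hact : ∀ (a : Φ.F), ∀ c ∈ X, ∀ h, Sum.inl (S.ot (ct c) h) ∉ Act a) (j : JJ Φ L)
    (hn : ∀ k : Ti X, ¬ nbT Φ X k j.1) (c : Φ.F) (hc : c ∈ X) (w : E3)
    (hw : w ∈ P (T.H (ct c))) :
    (w ∈ s3.P ∧ s3.lab w = j) ↔ (w ∈ (st0 hG bp).P ∧ (st0 hG bp).lab w = j) := by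
  have hiS := out_ct hLa hC hK hc
  have hq : w ∈ P (S.T3.H (S.ot (ct c) hiS)) := by rw [Sla.ot_P]; exact hw
  have hqK : ∀ c', ¬ P (S.T3.H (S.ot (ct c) hiS)) ⊆ S.KK c' := not_KK_ot hiS
  have key : w ∈ Om → S.T3.dim w = 1 → ∃ F, w ∈ (S.mn fr3).On F ∧
      Frozen (S.mn fr3) (Act j.1) F := by
    intro h1 h2
    obtain ⟨F, hF, hs, -⟩ := exists_faceK (h3 := fr3) (hH := hKK) (hdis := S.dis_KK) h1 h2 hq hqK
    exact ⟨F, hF, _, hs, hact j.1 c hc hiS⟩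
  constructor
  · rintro ⟨h1, h2⟩
    have h3 := pts3 (hKK := hKK) D3 h1
    obtain ⟨F, hF, hfz⟩ := key h3.1 h3.2.1
    have h4 := (D3.frozen F w j hfz).1 ⟨⟨h1, hF⟩, h2⟩
    obtain ⟨h8, h9⟩ := out2_tile h4.1.1 hiS hw
    exact hext.of_lab h8 (h9 ▸ h4.2)
  · rintro ⟨h1, h2⟩
    have h3 := hext.mem h1
    rw [h2] at h3
    have h4 : w ∈ (outK S.hH S.dis sB r).P := by
      refine mem_outK (D.root _) (D.conn _) (fun x hx hxl k hxk => ?_) h3.1 h3.2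
      obtain ⟨g1, g2⟩ := hext.of_lab hx hxl
      rw [hK k] at hxk
      obtain ⟨g3, g4⟩ := st0_nb hLa hR hC hμ hm g1 hxk
      rw [g2] at g3 g4
      exact hn k ⟨g3, g4⟩
    have h5 : w ∈ (s2 S fr3 Tw l0).P := mem_old h4
    have h6 : (s2 S fr3 Tw l0).lab w = Sum.inl j := (lab_old h4).trans h3.2
    have h7 := s2_dim h5
    obtain ⟨F, hF, hfz⟩ := key h7.1 h7.2
    have h8 := (D3.frozen F w j hfz).2 ⟨⟨h5, hF⟩, h6⟩
    exact ⟨h8.1.1, h8.2⟩

end mach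

end Crest.Agent.R096.Fcd_117
end

-- ▼ part R096/Flb4_422
section

/-!
# R096 (row 96), DOORS, `Front.lab` (helper422), part 4: `supp` of the state after DOORS.

Over 441's `Lst`: all tiles and all shrunk cores through a point of the state are inside the body of
the brick of its family.
-/

set_option autoImplicit false
set_option linter.unusedSectionVars false
set_option linter.unusedVariables false

open Set Relation Module
open scoped Classical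

namespace Crest.Agent.R096.Flb_422

open Crest.Agent.R096.Brk1_582 Crest.Agent.R096.Brk2_582 Crest.Agent.R096.Brk3_582
  Crest.Agent.R096.Brk5_582 Crest.Agent.R096.Bsp_628 Crest.Agent.R096.Init_543
  Crest.Agent.R096.Vb_965 Crest.Agent.R096.Msh_715 Crest.Agent.R096.St_147
  Crest.Agent.R096.Seq_213 Crest.Agent.R096.Lm_117 Crest.Agent.R096.Gl_422
  Crest.Agent.R096.SkB_662 Crest.Agent.R096.Cpo_642
  Crest.Agent.R096.Ce_537 Crest.Agent.R096.Agl5_543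
  Crest.Agent.R096.Cp_298 Crest.Agent.R096.Gm_298 Crest.Agent.R096.Ac_117
  Crest.Agent.R096.Sla_184 Crest.Agent.R096.Sla_184.Sla
  Crest.Agent.R096.Rop_441 Crest.Agent.R096.Lmx_662
open Crest.Agent.R096.SkC1_961 (E3 Hom3 FoamD)
open Crest.Agent.R096.Mbf_337 (KJ sb)
open Crest.Agent.R096.Gia_537 (Kc Kc_sub Kc_compact Kc_disj Kc_exact KJ_mono)

variable {δ κ0 R c0 : ℝ} {La Om : Set E3} {ι : Type} {Φ : FoamD δ κ0 R c0 La}
  {T : Tiling Om ι} {f g : E3 → E3} {κ1 κ2 s₁ σ : ℝ} {X : Set Φ.F} {J0 J V : Φ.F → Set ι}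
  {ct : Φ.F → ι}
  {A : Φ.F → E3 ≃ᵃ[ℝ] E3} {lam : Φ.F → ℝ} {z : Φ.F → E3} {θ : Φ.F → E3 → E3} {φ : Φ.F → E3 → ℝ}
  {ct' : Φ.F → ι} {r₀ : Φ.F → ℝ}
  {κ : Type} {S : Sla T κ}

/-- the brick of a core with a point of value `< 1` is touched -/
theorem touch_core (hLa : IsOpen La) (hR : InitR Φ T f g J0 ct' r₀)
    (hC : Mbf_337.Cores Φ T f κ1 κ2 X J0 J V ct A lam z θ φ) {a c : Φ.F} {x : E3}
    (hx : x ∈ KJ T (V c)) (h1 : va (Pc Φ.F) (bc (F := Φ.F)) (RF Φ r₀) f a x < 1) :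
    (Pc Φ.F c ∩ Pc Φ.F a).Nonempty := by
  have h2 := Nr_527.V_inside hC hx
  obtain ⟨i, -, hi⟩ := Nr_527.mem_KJ.1 hx
  exact star_of_lt hR.hm (foam4 Φ hLa) (retF Φ hLa hR.pos hR.le_one) (T.sub i hi)
    (Bx.mem_set.2 fun k => ⟨(h2 k).1.le, (h2 k).2.le⟩) h1

variable [Nonempty S.T3.Cell] {hH : ∀ c, CoreH S.T3 (S.KK c)} {hne : ∃ c, OutK S.T3 S.KK c}
  {Kq : Type} {Qd : Quads (T.RIdx S.HH ⊕ κ) Φ.F Kq} {Jn : Type} {fam : Jn → Φ.F}
  {s₀ : GSt (mK fr3 hH (dis_KK (S := S))) fam}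

/-- **`supp` at the shrunk cores** -/
theorem supp_core_S (hLa : IsOpen La) (hR : InitR Φ T f g J0 ct' r₀)
    (hC : Mbf_337.Cores Φ T f κ1 κ2 X J0 J V ct A lam z θ φ) (hK : TinyK X J S) (hσ : 0 < σ)
    (h : Lst Φ f J0 J r₀ S hH hne Qd s₀ s₁ σ) {w : E3} (hw : w ∈ s₀.P) {D : Set E3}
    (hD : Body Om f (Pc Φ.F) (fam (s₀.lab w)) D) {c : κ} (hwc : w ∈ S.KK c) :
    S.KK c ⊆ interior D := by
  obtain ⟨hO, hd, hi⟩ := mem_W1K.1 (h.on w hw)
  obtain ⟨p, hwp, hout⟩ : ∃ p : T.RIdx S.HH, w ∈ P (S.T3.H p) ∧ ∀ c, ¬ P (S.T3.H p) ⊆ S.KK c :=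
    exists_tile_out dis_KK hO hi
  have hIn : S.In c w := by
    have h1 := mem_KK.1 hwc
    exact in_of_lt h1.1 (h1.2.trans_lt (S.tn_lt c))
  have hpc : P (T.H p.tile) ⊆ S.K c := hIn.tile (P3_sub p hwp)
  obtain ⟨x, hx, -, hx1⟩ := h.lay w hw p c hout hpc hwp
  obtain ⟨c', hc', e⟩ := hK c
  have hsub : S.K c ⊆ KJ T (V c') := by
    rw [e]; exact KJ_mono (Nr_527.J_sub hC c')
  have ht := touch_core hLa hR hC (hsub (hpc hx)) (by linarith)
  exact (KK_K.trans hsub).trans (core_body hC hD ht)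

/-- **`supp` at the tiles** -/
theorem supp_tile_S (hLa : IsOpen La) (h0 : 0 ≤ κ1) (h1s : κ1 < s₁) (hR : InitR Φ T f g J0 ct' r₀)
    (hC : Mbf_337.Cores Φ T f κ1 κ2 X J0 J V ct A lam z θ φ)
    (hM : Mesh0 T (Pc Φ.F) (bc (F := Φ.F)) (RF Φ r₀) f (KorJ Φ J0) κ1)
    (hK : TinyK X J S) (hall : ∀ d, d ∉ X → ∃ k : κ, S.K k = KJ T (J d)) (hσ : κ1 < σ)
    (h : Lst Φ f J0 J r₀ S hH hne Qd s₀ s₁ σ) {w : E3} (hw : w ∈ s₀.P) {D : Set E3}
    (hD : Body Om f (Pc Φ.F) (fam (s₀.lab w)) D) {p : T.RIdx S.HH} (hwp : w ∈ P (S.T3.H p)) :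
    P (S.T3.H p) ⊆ interior D := by
  by_cases hout : ∀ c, ¬ P (S.T3.H p) ⊆ S.KK c
  · obtain ⟨hO, hd, hi⟩ := mem_W1K.1 (h.on w hw)
    have hwT := P3_sub p hwp
    rcases tile_or S p.tile with ho | ⟨c, hc⟩
    · by_cases hp : p.tile ∈ KorJ Φ J
      · obtain ⟨d, hdJ⟩ := hp
        have hdX : d ∈ X := by
          by_contra hdX
          obtain ⟨k, hk⟩ := hall d hdX
          exact ho k (by rw [hk]; exact fun x hx => Nr_527.mem_KJ.2 ⟨_, hdJ, hx⟩)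
        have hdV : p.tile ∈ V d := Nr_527.J_sub hC d hdJ
        rw [(hC.one d hdX).2.1, mem_singleton_iff] at hdJ
        have hOut := Sla.out_of_tile ho hwT
        have hd1 : T.dim w = 1 := by rw [← hOut.dim]; exact hd
        obtain ⟨i, hi', hwi⟩ := exists_out T kor_sub (fun c c' hcc => Kc_disj hLa hC hcc) hO
          (fun c => out_X hLa hC hdX (hdJ ▸ hwT) (by omega) c)
        obtain ⟨-, h2⟩ := h.lev w hw i hi' hwi
        have hsub : P (T.H p.tile) ⊆ KJ T (V d) := fun x hx => Nr_527.mem_KJ.2 ⟨_, hdV, hx⟩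
        exact (P3_sub p).trans (hsub.trans (core_body hC hD
          (touch_core hLa hR hC (hsub hwT) (by linarith))))
      · obtain ⟨-, h2⟩ := h.lev w hw p.tile hp hwT
        exact (P3_sub p).trans (tile_body hLa hR.hm (retF Φ hLa hR.pos hR.le_one) hC hM h0 hD hwT
          (by linarith))
    · obtain ⟨x, hx, -, hx1⟩ := h.lay w hw p c hout hc hwp
      exact (P3_sub p).trans (tile_body hLa hR.hm (retF Φ hLa hR.pos hR.le_one) hC hM h0 hD hx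
        (by linarith))
  · push Not at hout
    obtain ⟨c, hc⟩ := hout
    exact hc.trans (supp_core_S hLa hR hC hK (h0.trans_lt hσ) h hw hD (hc hwp))

/-- **`supp` of `labIn_mixD`** -/
theorem supp_S (hLa : IsOpen La) (h0 : 0 ≤ κ1) (h1s : κ1 < s₁) (hR : InitR Φ T f g J0 ct' r₀)
    (hC : Mbf_337.Cores Φ T f κ1 κ2 X J0 J V ct A lam z θ φ)
    (hM : Mesh0 T (Pc Φ.F) (bc (F := Φ.F)) (RF Φ r₀) f (KorJ Φ J0) κ1)
    (hK : TinyK X J S) (hall : ∀ d, d ∉ X → ∃ k : κ, S.K k = KJ T (J d)) (hσ : κ1 < σ)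
    (h : Lst Φ f J0 J r₀ S hH hne Qd s₀ s₁ σ) {D : Φ.F → Set E3}
    (hD : ∀ a, Body Om f (Pc Φ.F) a (D a)) : ∀ w ∈ s₀.P,
      (∀ q, w ∈ P (S.T3.H q) → P (S.T3.H q) ⊆ interior (D (fam (s₀.lab w)))) ∧
      ∀ c, w ∈ S.KK c → S.KK c ⊆ interior (D (fam (s₀.lab w))) := fun w hw =>
  ⟨fun q hq => supp_tile_S hLa h0 h1s hR hC hM hK hall hσ h hw (hD _) hq,
    fun c hc => supp_core_S hLa hR hC hK (h0.trans_lt hσ) h hw (hD _) hc⟩

end Crest.Agent.R096.Flb_422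
end

-- ▼ part R096/Flb5_422
section

/-!
# R096 (row 96), DOORS, `Front.lab` (helper422), part 5: `LabIn` of 662's `FrontM`.

`u0S`, `u1S`  : 662's vertices of all families (deep, far, in `ZK`);
`labIn_front` : the literal field `lab` of `FrontM` (quads `qdT`) from one core datum per family.
-/

set_option autoImplicit false
set_option linter.unusedSectionVars false
set_option linter.unusedVariables false

open Set Relation Module
open scoped Classical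

namespace Crest.Agent.R096.Flb_422

open Crest.Agent.R096.Brk1_582 Crest.Agent.R096.Brk2_582 Crest.Agent.R096.Brk3_582
  Crest.Agent.R096.Brk5_582 Crest.Agent.R096.Bsp_628 Crest.Agent.R096.Init_543
  Crest.Agent.R096.Vb_965 Crest.Agent.R096.Msh_715 Crest.Agent.R096.St_147
  Crest.Agent.R096.Seq_213 Crest.Agent.R096.Lm_117 Crest.Agent.R096.Gl_422
  Crest.Agent.R096.SkB_662 Crest.Agent.R096.Cpo_642
  Crest.Agent.R096.Ce_537 Crest.Agent.R096.Agl5_543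
  Crest.Agent.R096.Cp_298 Crest.Agent.R096.Gm_298 Crest.Agent.R096.Ac_117
  Crest.Agent.R096.Sla_184 Crest.Agent.R096.Sla_184.Sla
  Crest.Agent.R096.Rop_441 Crest.Agent.R096.Lmx_662 Crest.Agent.R096.Qdl_662
  Crest.Agent.R096.Frk_441
open Crest.Agent.R096.SkC1_961 (E3 Hom3 FoamD)
open Crest.Agent.R096.Mbf_337 (KJ sb)
open Crest.Agent.R096.Gia_537 (Kc Kc_sub Kc_compact Kc_disj Kc_exact KJ_mono)
open Crest.Agent.R096.Frn_337 (Ti cti Lay pO)

variable {δ κ0 R c0 : ℝ} {La Om : Set E3} {ι : Type} {Φ : FoamD δ κ0 R c0 La}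
  {T : Tiling Om ι} {f g : E3 → E3} {κ1 κ2 s₁ s' : ℝ} {X : Set Φ.F} {J0 J V : Φ.F → Set ι}
  {ct : Φ.F → ι}
  {A : Φ.F → E3 ≃ᵃ[ℝ] E3} {lam : Φ.F → ℝ} {z : Φ.F → E3} {θ : Φ.F → E3 → E3} {φ : Φ.F → E3 → ℝ}
  {ct' : Φ.F → ι} {r₀ : Φ.F → ℝ} {S : Sla T (Ti X)}

section vx

variable [Nonempty S.T3.Cell] {D : Φ.F → Set E3} {q0 q1 : Φ.F → ι} {v0 v1 x0 x1 : Φ.F → E3}






end vx

variable [Nonempty S.T3.Cell] {hH : ∀ k, CoreH S.T3 (S.KK k)} {hne : ∃ c, OutK S.T3 S.KK c}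
  {L : Φ.F → Finset ℝ} {s₀ : GSt (mK fr3 hH (dis_KK (S := S))) (fun j : JJ Φ L => j.1)}
  {hLa : IsOpen La} {hR : InitR Φ T f g J0 ct' r₀}
  {hM : Mesh0 T (Pc Φ.F) (bc (F := Φ.F)) (RF Φ r₀) f (KorJ Φ J0) κ1} {hε : κ1 < s₁}
  {hε1 : κ1 < 1} {D : Φ.F → Set E3} {t0 : GSt (meshC T fr3) (fun j : JJ Φ L => j.1)}
  {lam0 : JJ Φ L → E3 → ZMod 2}

/-- **`FrontM.lab`** from one core datum per family -/
theorem labIn_front (hN : Num δ κ0 R c0 κ2 κ1 s₁)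
    (hC : Mbf_337.Cores Φ T f κ1 κ2 X J0 J V ct A lam z θ φ)
    (hK : ∀ k : Ti X, S.K k = KJ T (J k.1)) (hs' : s₁ + κ1 ≤ s')
    (on : ∀ w ∈ s₀.P, w ∈ (lmK fr3 hH (dis_KK (S := S)) hne).W1)
    (posB : PosS Φ T f s' J0 S s₀) (hD : ∀ a, Body Om f (Pc Φ.F) a (D a))
    {w₀ w₁ : Φ.F → QK (belK S.T3 S.KK)} (hz : ∀ j : JJ Φ L, w₁ j.1 ∈ ZK S.T3 S.KK (D j.1))
    (cd : ∀ j : JJ Φ L, ∃ co u0 u1 o0 o1 uu tt,
      Cd hne (qdT (fun p => p.tile) (sla_sub S) S.KK hLa hR hM hε hε1) s₀ t0 lam0 (w₀ j.1)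
        (w₁ j.1) j.1 co u0 u1 o0 o1 uu tt) :
    ∃ lm, LabIn (lmK fr3 hH (dis_KK (S := S)) hne)
      (qdT (fun p => p.tile) (sla_sub S) S.KK hLa hR hM hε hε1) s₀
      (fun c => GD fr3 hH dis_KK (D c)) (fun c => ZK S.T3 S.KK (D c)) lm w₀ w₁ := by
  have h := lst_of_B (hLa := hLa) (hR := hR) (hM := hM) (hε := hε) (hε1 := hε1) (hne := hne) hC hK
    hs' on posB
  have h0 := hN.hκ1
  refine labIn_sla D on (fun j => (hD _).cpt) (fun j => (hD _).sub) (fun j => (hD _).fr)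
    (fun j => (hD _).triv)
    (supp_S hLa h0 hε hR hC hM (tinyK_of hK) (fun d hd => ⟨⟨d, hd⟩, hK ⟨d, hd⟩⟩) (by linarith) h
      hD) (fun j k hk => act_AD hC h0 (hD _) k hk) hz cd

end Crest.Agent.R096.Flb_422
end

-- ▼ part R096/Flb6_422
section

/-!
# R096 (row 96), DOORS, `Front.lab` (helper422), part 6: **`lab_front`**.

`lab_front` : the literal field `lab` of 662's `FrontM` at 662's vertices, from `posB`, the exact
pattern at the giants (`GiD`) and the truthful state at the exact core tiles.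
-/

set_option autoImplicit false
set_option linter.unusedSectionVars false
set_option linter.unusedVariables false

open Set Relation Module

namespace Crest.Agent.R096.Flb_422

open Crest.Agent.R096.Brk1_582 Crest.Agent.R096.Brk2_582 Crest.Agent.R096.Brk3_582
  Crest.Agent.R096.Brk5_582 Crest.Agent.R096.Bsp_628 Crest.Agent.R096.Init_543
  Crest.Agent.R096.Vb_965 Crest.Agent.R096.Msh_715 Crest.Agent.R096.St_147
  Crest.Agent.R096.Seq_213 Crest.Agent.R096.Lm_117 Crest.Agent.R096.Gl_422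
  Crest.Agent.R096.SkB_662 Crest.Agent.R096.Cpo_642
  Crest.Agent.R096.Ce_537 Crest.Agent.R096.Agl5_543
  Crest.Agent.R096.Cp_298 Crest.Agent.R096.Gm_298 Crest.Agent.R096.Ac_117
  Crest.Agent.R096.Sla_184 Crest.Agent.R096.Sla_184.Sla
  Crest.Agent.R096.Rop_441 Crest.Agent.R096.Lmx_662 Crest.Agent.R096.Qdl_662
  Crest.Agent.R096.Frk_441 Crest.Agent.R096.Fcd_117
open Crest.Agent.R096.SkC1_961 (E3 Hom3 FoamD)
open Crest.Agent.R096.Mbf_337 (KJ sb)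
open Crest.Agent.R096.Gia_537 (Kc Kc_sub Kc_compact Kc_disj Kc_exact KJ_mono)
open Crest.Agent.R096.Frn_337 (Ti cti Lay pO)
open Crest.Agent.R096.Dia_316 (nbT)

variable {δ κ0 R c0 : ℝ} {La Om : Set E3} {ι : Type} {Φ : FoamD δ κ0 R c0 La}
  {T : Tiling Om ι} {f g : E3 → E3} {κ1 κ2 s₁ s' : ℝ} {X : Set Φ.F} {J0 J V : Φ.F → Set ι}
  {ct : Φ.F → ι}
  {A : Φ.F → E3 ≃ᵃ[ℝ] E3} {lam : Φ.F → ℝ} {z : Φ.F → E3} {θ : Φ.F → E3 → E3} {φ : Φ.F → E3 → ℝ}
  {ct' : Φ.F → ι} {r₀ : Φ.F → ℝ} {S : Sla T (Ti X)} {M : Φ.F → ℕ}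
  [Nonempty S.T3.Cell] {hH : ∀ k, CoreH S.T3 (S.KK k)} {hne : ∃ c, OutK S.T3 S.KK c}
  {L : Φ.F → Finset ℝ} {s₀ : GSt (mK fr3 hH (dis_KK (S := S))) (fun j : JJ Φ L => j.1)}
  {hLa : IsOpen La} {hR : InitR Φ T f g J0 ct' r₀}
  {hM : Mesh0 T (Pc Φ.F) (bc (F := Φ.F)) (RF Φ r₀) f (KorJ Φ J0) κ1} {hε : κ1 < s₁}
  {hε1 : κ1 < 1}

/-- **`FrontM.lab`** at 662's vertices -/
theorem lab_front [Nonempty (JJ Φ L)] {hG : GF Φ r₀ T f L} {D : Φ.F → Set E3}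
    {bp : JJ Φ L → E3} {lam₀ : JJ Φ L → E3 → ZMod 2} {v₀ v₁ : Φ.F → E3} {μ : ℝ}
    (hf : Hom3 f Om La) (hLc : IsPreconnected La) (hN : Num δ κ0 R c0 κ2 κ1 s₁)
    (hC : Mbf_337.Cores Φ T f κ1 κ2 X J0 J V ct A lam z θ φ) (hF : Mbf_337.Fine Φ T f κ1 J0)
    (hW : Mbf_337.Words Φ T f X ct A lam z M L)
    (hκμ : κ1 < μ) (hμ : s₁ ≤ μ) (hm : ∀ c, ∀ t ∈ L c, μ ≤ t ∧ t ≤ 1 - μ)
    (hK : ∀ k : Ti X, S.K k = KJ T (J k.1)) (hs' : s₁ + κ1 ≤ s')
    (on : ∀ w ∈ s₀.P, w ∈ (lmK fr3 hH (dis_KK (S := S)) hne).W1)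
    (posB : PosS Φ T f s' J0 S s₀)
    (hI : InitS hLa hR hM hε hε1 hG D bp lam₀ v₀ v₁)
    {q0 q1 : Φ.F → ι} {w0 w1 x0 x1 : Φ.F → E3} (hv : VxD Φ T f V D q0 q1 w0 w1 x0 x1)
    (hgi : ∀ (k : Ti X) a, nbT Φ X k a → (∃ j : JJ Φ L, j.1 = a) → GiD s₁ θ S s₀ k a)
    (hst : ∀ j : JJ Φ L, (∀ k : Ti X, ¬ nbT Φ X k j.1) → ∀ c ∈ X, ∀ w ∈ P (T.H (ct c)),
      ((w ∈ s₀.P ∧ s₀.lab w = j) ↔ (w ∈ (st0 hG bp).P ∧ (st0 hG bp).lab w = j)))
    (hi0 : ∀ a c, ¬ P (T.H (q0 a)) ⊆ S.K c) (hi1 : ∀ a c, ¬ P (T.H (q1 a)) ⊆ S.K c) :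
    ∃ lm, LabIn (lmK fr3 hH (dis_KK (S := S)) hne)
      (qdT (fun p : T.RIdx S.HH => p.tile) (sla_sub S) S.KK hLa hR hM hε hε1) s₀
      (fun c => GD fr3 hH dis_KK (D c)) (fun c => ZK S.T3 S.KK (D c)) lm
      (fun a => vK (S := S) (hi0 a) (hv.mem0 a) (hv.dim0 a))
      (fun a => vK (S := S) (hi1 a) (hv.mem1 a) (hv.dim1 a)) := by
  refine labIn_front (t0 := st0 hG bp) (lam0 := lam₀)
    (w₀ := fun a => vK (S := S) (hi0 a) (hv.mem0 a) (hv.dim0 a))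
    (w₁ := fun a => vK (S := S) (hi1 a) (hv.mem1 a) (hv.dim1 a)) hN hC hK hs' on posB hI.body
    (fun j => vK_far _ (hv.mem1 j.1) (hv.dim1 j.1) (hv.far j.1)) (fun j => ?_)
  exact exists_cd hf hLc hN hC hF hW hκμ hμ hm hK hs' on posB hI hv hgi hst j
    (deep_vK hLa hN hR hC hK hv j.1 _) (far_vK hLa hN hR hC hK hv j.1 _)

end Crest.Agent.R096.Flb_422
end

-- ▼ part R096/Fcd3_117
section

/-!
# R096 (row 96), FRONT, field `lab` (helper117), part 3: **the field `lab` for the state after CUT**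

`lab_S3` : 422's `lab_front` + 117's `giD_s3`, `hst_s3` over 471's slicing `slC`, at 662's vertices
`vA`, `vB` (literal hypothesis `lab` of 416's `frontN_S3`).
-/

set_option autoImplicit false
set_option linter.unusedSectionVars false
set_option linter.unusedVariables false
set_option linter.style.longLine false

open Set Topology Filter Metric Module Relation
open scoped Classical

namespace Crest.Agent.R096.Fcd_117

open Crest.Agent.R096.Msh_715 Crest.Agent.R096.Coh_184 Crest.Agent.R096.Lab_184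
  Crest.Agent.R096.Main_4 Crest.Agent.R096.Agl5_543
  Crest.Agent.R096.Seq_213 Crest.Agent.R096.St_147 Crest.Agent.R096.Door_501
  Crest.Agent.R096.Twr_438 Crest.Agent.R096.Exa_560
  Crest.Agent.R096.Ess3_95 Crest.Agent.R096.Ess4_95 Crest.Agent.R096.Ac_117 Crest.Agent.R096.Lm_117
  Crest.Agent.R096.Dfi_539 Crest.Agent.R096.Dfi_471 Crest.Agent.R096.Dfo_539
  Crest.Agent.R096.Sla_184 Crest.Agent.R096.Gm_298
  Crest.Agent.R096.Brk1_582 Crest.Agent.R096.Brk2_582 Crest.Agent.R096.Brk3_582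
  Crest.Agent.R096.Brk5_582 Crest.Agent.R096.Bsp_628 Crest.Agent.R096.Init_543
  Crest.Agent.R096.Qdl_662 Crest.Agent.R096.Lmx_662 Crest.Agent.R096.Frs_662
  Crest.Agent.R096.Rop_441 Crest.Agent.R096.Frk_441 Crest.Agent.R096.Gl_422
  Crest.Agent.R096.Ori_543 Crest.Agent.R096.Cp_298 Crest.Agent.R096.SkB_662
  Crest.Agent.R096.Cpo_642 Crest.Agent.R096.Seq_213.GSt Crest.Agent.R096.Dfn_416
open Crest.Agent.R096.Mbf_337 (KJ Tiny Cores Words sb Fine)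
open Crest.Agent.R096.SkC1_961 (E3 FoamD Hom3)
open Crest.Agent.R096.Frn_337 (Ti)
open Crest.Agent.R096.Bgf_4 (Ext)
open Crest.Agent.R096.Dia_316 (nbT)

variable {δ κ0 R c0 : ℝ} {La Om : Set E3} {ι : Type} {Φ : FoamD δ κ0 R c0 La} {T : Tiling Om ι}
  {f g : E3 → E3} {κ1 κ2 μ s₁ s' : ℝ} {X : Set Φ.F} {J0 J V : Φ.F → Set ι}
  {ct ct' : Φ.F → ι} {A : Φ.F → E3 ≃ᵃ[ℝ] E3} {lam : Φ.F → ℝ} {z : Φ.F → E3}
  {θ : Φ.F → E3 → E3} {φ : Φ.F → E3 → ℝ} {M : Φ.F → ℕ} {r₀ : Φ.F → ℝ}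
  {L : Φ.F → Finset ℝ} [Nonempty (JJ Φ L)] {hG : GF Φ r₀ T f L} {bp : JJ Φ L → E3}
  {Mo : Type}

/-- **`lab` OF THE STATE AFTER CUT** -/
theorem lab_S3 [Nonempty (JJ Φ L ⊕ Mo)]
    {sB : GSt (meshC T fr3) (Sum.map (fun j : JJ Φ L => j.1) (id : Mo → Mo))}
    {r : JJ Φ L ⊕ Mo → E3} {Sf : JJ Φ L ⊕ Mo → Set E3} {nb : Ti X → Φ.F ⊕ Mo → Prop}
    (hf : Hom3 f Om La) (hLa : IsOpen La) (hLc : IsPreconnected La)
    (hN : Num δ κ0 R c0 κ2 κ1 s₁) (hR : InitR Φ T f g J0 ct' r₀)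
    (hC : Cores Φ T f κ1 κ2 X J0 J V ct A lam z θ φ) (hF : Fine Φ T f κ1 J0)
    (hW : Words Φ T f X ct A lam z M L)
    (hM : Mesh0 T (Pc Φ.F) (bc (F := Φ.F)) (RF Φ r₀) f (KorJ Φ J0) κ1) (h1 : κ1 < s₁) (h2 : κ1 < 1)
    (hκμ : κ1 < μ) (hμ : s₁ ≤ μ) (hm : ∀ c, ∀ t ∈ L c, μ ≤ t ∧ t ≤ 1 - μ)
    (hs' : s₁ + κ1 ≤ s') {Db : Φ.F → Set E3} {lam₀ : JJ Φ L → E3 → ZMod 2} {v₀ v₁ : Φ.F → E3}
    (hI : InitS hLa hR hM h1 h2 hG Db bp lam₀ v₀ v₁)
    {q0 q1 : Φ.F → ι} {w0 w1 x0 x1 : Φ.F → E3}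
    (hv : VxD Φ T f V Db q0 q1 w0 w1 x0 x1)
    (n : Ti X → ℕ) (hn : ∀ c, 0 < n c) [Nonempty (slC hLa hC n hn).T3.Cell]
    (hne : ∃ c, OutK (slC hLa hC n hn).T3 (slC hLa hC n hn).KK c)
    (hext : Ext (st0 hG bp) sB)
    {v0 v1 : ∀ c, Φ.F ⊕ Mo → VxK T (slC hLa hC n hn).K c} {u : Ti X → Φ.F ⊕ Mo → E3 → ℝ}
    {Al Bl : Ti X → Φ.F ⊕ Mo → ℝ}
    {Lx : ∀ c, Φ.F ⊕ Mo → Lev T (frontier ((slC hLa hC n hn).K c)) (JJ Φ L ⊕ Mo)}
    {Tw : Twrs ((slC hLa hC n hn).sh fr3) (slC hLa hC n hn).n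
      (outK (slC hLa hC n hn).hH (slC hLa hC n hn).dis sB r)} {l0 : E3 → JJ Φ L ⊕ Mo}
    (Dn : DIn (slC hLa hC n hn).hH sB r Sf nb v0 v1 u Al Bl)
    (lo : LevOut (Kc := (slC hLa hC n hn).K) sB nb u Al Bl Lx)
    (tt : TwOut (slC hLa hC n hn) fr3 sB r v0 v1 Lx Tw)
    (hu : ∀ k a, u k (Sum.inl a) = fun x => sb Φ (θ k.1 x) a)
    (hnb : ∀ k a, nbT Φ X k a → nb k (Sum.inl a))
    (hAl : ∀ k a, s₁ ≤ Al k (Sum.inl a)) (hBl : ∀ k a, Bl k (Sum.inl a) ≤ 1 - s₁)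
    {am : Mo → Φ.F} {Act : Φ.F → Set (T.RIdx (slC hLa hC n hn).HH ⊕ Ti X)}
    (hactT : ∀ a k, Sum.inr k ∉ Act a)
    (hactX : ∀ (a : Φ.F), ∀ c ∈ X, ∀ h, Sum.inl ((slC hLa hC n hn).ot (ct c) h) ∉ Act a)
    {s3 : GSt (mK fr3 (Lay_316.lay_sla hLa hC n hn).core (Lay_316.lay_sla hLa hC n hn).disj)
      (fun j : JJ Φ L => j.1)}
    (D3 : CutOut (s2 (slC hLa hC n hn) fr3 Tw l0) am Act s3)
    (posB : PosS Φ T f s' J0 (slC hLa hC n hn) s3) :
    ∃ lm, LabIn (lmK fr3 (Lay_316.lay_sla hLa hC n hn).core (Lay_316.lay_sla hLa hC n hn).disj hne)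
      (qdT (fun p : T.RIdx (slC hLa hC n hn).HH => p.tile)
      (sla_sub (slC hLa hC n hn)) (slC hLa hC n hn).KK hLa hR hM h1 h2) s3
      (fun c => GD fr3 (Lay_316.lay_sla hLa hC n hn).core (Lay_316.lay_sla hLa hC n hn).disj (Db c))
      (fun c => ZK (slC hLa hC n hn).T3 (slC hLa hC n hn).KK (Db c)) lm
      (vA hLa hC hv n hn) (vB hLa hC hv n hn) := by
  have hK : ∀ k : Ti X, (slC hLa hC n hn).K k = KJ T (J k.1) := fun k => rfl
  have hL := Lay_316.lay_sla hLa hC n hn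
  have hμ0 : 0 < μ := lt_of_le_of_lt hN.hκ1 hκμ
  have on := on_S3 (hKK := hL.core) (hne := hne) D3
  exact Flb_422.lab_front hf hLc hN hC hF hW hκμ hμ hm hK hs' on posB hI hv
    (fun k a hk _ => giD_s3 lo tt D3 hu hnb hAl hBl hactT k a hk)
    (fun j hj c hc w hw => hst_s3 (hKK := hL.core) hext hLa hR hC hμ0 hm hK Dn D3 hactX j hj c hc w hw)
    (fun a c => out_of_V hC (hv.out0 a) c) (fun a c => out_of_V hC (hv.out1 a) c)

end Crest.Agent.R096.Fcd_117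
end

-- ▼ part R096/Fcd4_117
section

/-!
# R096 (row 96), DOORS_final (helper117): **`FrontN` from the output of LEAF BC**

`frontN_m` : over 471's slicing `slC`, 539's record `BRec`, 698's numbers `NumD`
(`s₁ = μ/32`, `s' = μ/4`), 298's zones `Rdc T f Xᶜ (rout ρ3 d)`: the output of 662's `leafBC`
(state after CUT, `Inv`, (B), (E1), (E2)) gives `FrontN`; `lab` by 117's `lab_S3`, the rest by 416.
-/

set_option autoImplicit false
set_option linter.unusedSectionVars false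
set_option linter.unusedVariables false
set_option linter.style.longLine false

open Set Topology Filter Metric Module Relation
open scoped Classical

namespace Crest.Agent.R096.Fcd_117

open Crest.Agent.R096.Msh_715 Crest.Agent.R096.Coh_184 Crest.Agent.R096.Lab_184
  Crest.Agent.R096.Main_4 Crest.Agent.R096.Agl5_543
  Crest.Agent.R096.Seq_213 Crest.Agent.R096.St_147 Crest.Agent.R096.Door_501
  Crest.Agent.R096.Twr_438 Crest.Agent.R096.Exa_560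
  Crest.Agent.R096.Ess3_95 Crest.Agent.R096.Ess4_95 Crest.Agent.R096.Ac_117 Crest.Agent.R096.Lm_117
  Crest.Agent.R096.Dfi_539 Crest.Agent.R096.Dfi_471 Crest.Agent.R096.Dfo_539
  Crest.Agent.R096.Sla_184 Crest.Agent.R096.Gm_298
  Crest.Agent.R096.Brk1_582 Crest.Agent.R096.Brk2_582 Crest.Agent.R096.Brk3_582
  Crest.Agent.R096.Brk5_582 Crest.Agent.R096.Bsp_628 Crest.Agent.R096.Init_543
  Crest.Agent.R096.Qdl_662 Crest.Agent.R096.Lmx_662 Crest.Agent.R096.Frs_662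
  Crest.Agent.R096.Rop_441 Crest.Agent.R096.Frk_441 Crest.Agent.R096.Gl_422
  Crest.Agent.R096.Ori_543 Crest.Agent.R096.Cp_298 Crest.Agent.R096.SkB_662
  Crest.Agent.R096.Cpo_642 Crest.Agent.R096.Seq_213.GSt Crest.Agent.R096.Dfn_416
open Crest.Agent.R096.Mbf_337 (KJ Tiny Cores Words sb Fine)
open Crest.Agent.R096.SkC1_961 (E3 FoamD Hom3)
open Crest.Agent.R096.Frn_337 (Ti)
open Crest.Agent.R096.Bgf_4 (Ext)
open Crest.Agent.R096.Dia_316 (nbT)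
open Crest.Agent.R096.Dfg_539 (BRec)
open Crest.Agent.R096.Nmd1_698 (NumD)
open Crest.Agent.R096.Sgo_298 (ActR inl_ActR inr_ActR rout RmA notR)

variable {δ κ0 R c0 : ℝ} {La Om : Set E3} {ι : Type} {Φ : FoamD δ κ0 R c0 La} {T : Tiling Om ι}
  {f g : E3 → E3} {κ1 κ2 μ : ℝ} {X : Set Φ.F} {J0 J V : Φ.F → Set ι}
  {ct ct' : Φ.F → ι} {A : Φ.F → E3 ≃ᵃ[ℝ] E3} {lam : Φ.F → ℝ} {z : Φ.F → E3}
  {θ : Φ.F → E3 → E3} {φ : Φ.F → E3 → ℝ} {M : Φ.F → ℕ} {r₀ : Φ.F → ℝ}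
  {L : Φ.F → Finset ℝ} [Nonempty (JJ Φ L)] {hG : GF Φ r₀ T f L} {bp : JJ Φ L → E3}
  {Mo : Type}

/-- **`FrontN` FROM THE OUTPUT OF LEAF BC** : numbers of record -/
theorem frontN_m [Nonempty (JJ Φ L ⊕ Mo)]
    {sB : GSt (meshC T fr3) (Sum.map (fun j : JJ Φ L => j.1) (id : Mo → Mo))}
    {r : JJ Φ L ⊕ Mo → E3} {Sf : JJ Φ L ⊕ Mo → Set E3} {nb : Ti X → Φ.F ⊕ Mo → Prop}
    (hf : Hom3 f Om La) (hLa : IsOpen La) (hLc : IsPreconnected La)
    (hN : NumD δ κ0 R c0 κ2 μ κ1) (hR : InitR Φ T f g J0 ct' r₀)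
    (hC : Cores Φ T f κ1 κ2 X J0 J V ct A lam z θ φ) (hF : Fine Φ T f κ1 J0)
    (hW : Words Φ T f X ct A lam z M L)
    (hM : Mesh0 T (Pc Φ.F) (bc (F := Φ.F)) (RF Φ r₀) f (KorJ Φ J0) κ1) (h1 : κ1 < μ / 32)
    (h2 : κ1 < 1) (hm : ∀ c, ∀ t ∈ L c, μ ≤ t ∧ t ≤ 1 - μ)
    {Db : Φ.F → Set E3} {lam₀ : JJ Φ L → E3 → ZMod 2} {v₀ v₁ : Φ.F → E3}
    (hI : InitS hLa hR hM h1 h2 hG Db bp lam₀ v₀ v₁)
    {q0 q1 : Φ.F → ι} {w0 w1 x0 x1 : Φ.F → E3} (hv : VxD Φ T f V Db q0 q1 w0 w1 x0 x1)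
    (n : Ti X → ℕ) (hn : ∀ c, 0 < n c) [Nonempty (slC hLa hC n hn).T3.Cell]
    (hne : ∃ c, OutK (slC hLa hC n hn).T3 (slC hLa hC n hn).KK c)
    {co : Mo → Ti X} (hext : Ext (st0 hG bp) sB) (hB : BarS hG bp V co sB)
    {v0 v1 : ∀ c, Φ.F ⊕ Mo → VxK T (slC hLa hC n hn).K c} {u : Ti X → Φ.F ⊕ Mo → E3 → ℝ}
    {Al Bl : Ti X → Φ.F ⊕ Mo → ℝ}
    {Lx : ∀ c, Φ.F ⊕ Mo → Lev T (frontier ((slC hLa hC n hn).K c)) (JJ Φ L ⊕ Mo)}
    {Tw : Twrs ((slC hLa hC n hn).sh fr3) (slC hLa hC n hn).n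
      (outK (slC hLa hC n hn).hH (slC hLa hC n hn).dis sB r)} {l0 : E3 → JJ Φ L ⊕ Mo}
    (Dn : DIn (slC hLa hC n hn).hH sB r Sf nb v0 v1 u Al Bl)
    (lo : LevOut (Kc := (slC hLa hC n hn).K) sB nb u Al Bl Lx)
    (tt : TwOut (slC hLa hC n hn) fr3 sB r v0 v1 Lx Tw)
    {am : Mo → Φ.F} {Zm : Mo → Set Φ.F} {lb mm ra h W0 W1 : ℝ}
    (rec : BRec hLa sB f X J θ co am Zm nb v0 v1 u Al Bl μ (Cn δ R * κ1) lb mm ra h W0 W1)
    {ρ1 ρ2 ρ3 ρ4 d : Φ.F → ℝ} (hRm : RmA Φ T f X J0 J V θ ρ1 ρ2 ρ3 ρ4 d)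
    {s3 : GSt (mK fr3 (Lay_316.lay_sla hLa hC n hn).core (Lay_316.lay_sla hLa hC n hn).disj)
      (fun j : JJ Φ L => j.1)} {far₃ : JJ Φ L → Set E3}
    (D3 : CutOut (s2 (slC hLa hC n hn) fr3 Tw l0) am
      (fun _ => ActR (slC hLa hC n hn) (Rdc T f Xᶜ (rout ρ3 d))) s3)
    (inv : s3.Inv (qdT (fun p : T.RIdx (slC hLa hC n hn).HH => p.tile)
      (sla_sub (slC hLa hC n hn)) (slC hLa hC n hn).KK hLa hR hM h1 h2) far₃)
    (posB : PosS Φ T f (μ / 4) J0 (slC hLa hC n hn) s3)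
    (oneT : ∀ (k : Ti X) (j : JJ Φ L), One s3 {F | Sum.inr k ∈ (mK fr3
      (Lay_316.lay_sla hLa hC n hn).core (Lay_316.lay_sla hLa hC n hn).disj).side F} j)
    (twoT : ∀ (q : Init_543.QK (Pc Φ.F)) (k : Ti X), k.1 ∈ q.Z → ∀ j j' : JJ Φ L, j.1 ∈ q.B →
      j'.1 ∈ q.B → j.1 ≠ j'.1 →
      Two s3 ((qdT (fun p : T.RIdx (slC hLa hC n hn).HH => p.tile)
      (sla_sub (slC hLa hC n hn)) (slC hLa hC n hn).KK hLa hR hM h1 h2).Act q)
        {Sum.inr k} j j') :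
    ∃ (far₀ : JJ Φ L → Set E3) (Gc : Φ.F → Set E3)
      (Zc : Φ.F → Set (QK (belK (slC hLa hC n hn).T3 (slC hLa hC n hn).KK)))
      (lm : JJ Φ L → QK (belK (slC hLa hC n hn).T3 (slC hLa hC n hn).KK) → ZMod 2),
    FrontN T f J0 V (fun p => p.tile) (μ / 4)
      (Lay_316.lay_sla hLa hC n hn).core (Lay_316.lay_sla hLa hC n hn).disj hne
      (qdT (fun p : T.RIdx (slC hLa hC n hn).HH => p.tile) (sla_sub (slC hLa hC n hn))
        (slC hLa hC n hn).KK hLa hR hM h1 h2) s3 far₀ Gc Zc lm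
      (vA hLa hC hv n hn) (vB hLa hC hv n hn) := by
  have hμ0 := hN.hμ
  obtain ⟨n1, n2, n3, n4, n5, -⟩ := hN.base
  have hactX : ∀ (a : Φ.F), ∀ c ∈ X, ∀ h, Sum.inl ((slC hLa hC n hn).ot (ct c) h) ∉
      ActR (slC hLa hC n hn) (Rdc T f Xᶜ (rout ρ3 d)) := by
    intro a c hc h hin
    rw [inl_ActR] at hin
    exact notR hRm (q := ct c) (fun k hk => ct_notV hC hc ⟨k, hk⟩) hin
  obtain ⟨lm, lab⟩ := lab_S3 (hG := hG) (bp := bp) (am := am) (Tw := Tw) (Lx := Lx) (l0 := l0)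
    (s₁ := μ / 32) (s' := μ / 4) (μ := μ)
    hf hLa hLc hN.num hR hC hF hW hM h1 h2 hN.kmu (by linarith) hm hN.ss' hI hv n hn hne hext Dn lo
    tt (fun k a => funext fun x => rec.ul k a x) (fun k a h => (rec.nbl k a).2 h)
    (fun k a => by rw [rec.Al]; linarith) (fun k a => by rw [rec.Bl]; linarith)
    (Act := fun _ => ActR (slC hLa hC n hn) (Rdc T f Xᶜ (rout ρ3 d)))
    (fun a k => inr_ActR) hactX D3 posB
  exact ⟨far₃, _, _, lm, frontN_S3 (s' := μ / 4) hLa hR hC hM h1 h2 hμ0 hm hv n hn hne hB Dn lo tt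
    D3 inv lab posB oneT twoT⟩

end Crest.Agent.R096.Fcd_117
end

-- ▼ part R096/Lvs1_184
section

/-!
# Row 96, DOORS_final (helper184, second typist of leaf (13)): levels of the points of `s₃`

`s₃` = state after CUT (539's `CutOut` over 471's `s2`), `s` = truthful state with barriers.

* `lev3`     : every point of `s₃` on a tile `q` of `T3` outside the remaining cores has a point `x`
  of the `T`-tile `q.tile` with `σ ≤ lv a x ≤ 1 - σ` (input `hY` : barrier points over a tile without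
  this property are not enclosed);
* `out3`     : points on outer tiles without barrier points are points of `s`;
* `fin3`     : finitely many points on every face.
-/
namespace Crest.Agent.R096.Lvs_184
end Crest.Agent.R096.Lvs_184
end

-- ▼ part R096/Fm1_184
section

/-!
# Row 96, DOORS_final (helper184): `on`, `fin`, `lev` of 662's `FrontN` for the state after CUT

`s` = a state of all families and barriers over `T`, points of families at their exact levels, points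
of barriers only in tiles of tiny regions `V`.

* `finS`      : finitely many points on every face of `T`;
* `on_front`, `fin_front`, `lev_front` : the three fields for `s₃` with `CutOut (s2 S ..) am Act s₃`;
* `stB_famL`, `stB_barL`, `fin_stB` : the inputs for 4's `stB`.
-/

set_option autoImplicit false
set_option linter.unusedSectionVars false
set_option linter.style.longLine false

open Set Topology Filter Metric Module
open scoped Classical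

namespace Crest.Agent.R096.Fm_184

open Crest.Agent.R096.Msh_715 Crest.Agent.R096.Agl5_543 Crest.Agent.R096.Agl6_543
  Crest.Agent.R096.Agl4_543
  Crest.Agent.R096.Seq_213 Crest.Agent.R096.St_147 Crest.Agent.R096.Door_501
  Crest.Agent.R096.Twr_438 Crest.Agent.R096.Exa_560 Crest.Agent.R096.Ess3_95
  Crest.Agent.R096.Ess4_95 Crest.Agent.R096.Gm_298 Crest.Agent.R096.Lm_117
  Crest.Agent.R096.Ac_117
  Crest.Agent.R096.Sla_184 Crest.Agent.R096.Dfi_539 Crest.Agent.R096.Dfi_471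
  Crest.Agent.R096.Dfo_539 Crest.Agent.R096.Lvs_184 Crest.Agent.R096.Bgf_4
open Crest.Agent.R096.Mbf_337 (KJ Tiny Cores Fine sb)
open Crest.Agent.R096.SkC1_961 (E3 FoamD Hom3)
open Crest.Agent.R096.Frn_337 (Ti)
open Crest.Agent.R096.Init_543
open Crest.Agent.R096.Brk1_582 Crest.Agent.R096.Brk2_582 Crest.Agent.R096.Brk3_582
  Crest.Agent.R096.Brk5_582 Crest.Agent.R096.Bsp_628
open Crest.Agent.R096.Frs_662 (slC)

variable {δ κ0 R c0 : ℝ} {La Om : Set E3} {ι : Type} {Φ : FoamD δ κ0 R c0 La} {T : Tiling Om ι}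
  {f g : E3 → E3} {κ1 κ2 μ : ℝ} {X : Set Φ.F} {J0 Jt V : Φ.F → Set ι}
  {ct ct' : Φ.F → ι} {A : Φ.F → E3 ≃ᵃ[ℝ] E3} {lam : Φ.F → ℝ} {z : Φ.F → E3}
  {θ : Φ.F → E3 → E3} {φ : Φ.F → E3 → ℝ} {r₀ : Φ.F → ℝ}
  {L : Φ.F → Finset ℝ} [Nonempty (JJ Φ L)] {Mo : Type}

/-! ### finitely many points on a face -/

/-- the families with a level below `1` on a face of `T` are finitely many -/
theorem fam_fin (hLa : IsOpen La) (hR : InitR Φ T f g J0 ct' r₀) (F : C2 T) :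
    {a : Φ.F | ∃ w ∈ F.On, Φ.lev a (f w) < 1}.Finite := by
  have FF := foam4 Φ hLa
  have hcpt : IsCompact (f '' F.set) := by
    refine IsCompact.image_of_continuousOn ?_ (hR.hm.fc.mono F.set_sub)
    rw [F.set_eq]
    exact T.isCompact_cc F.pt_mem
  have hsub : f '' F.set ⊆ La := by
    rintro _ ⟨x, hx, rfl⟩
    exact hR.hm.fm (F.set_sub hx)
  have h1 := FF.finite_meet hcpt hsub
  have h2 : (⋃ c ∈ {c | (Pc Φ.F c ∩ f '' F.set).Nonempty},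
      {a | (Pc Φ.F a ∩ Pc Φ.F c).Nonempty}).Finite :=
    h1.biUnion fun c _ => FF.finite_meet (FF.cpt c) (FF.sub c)
  refine h2.subset ?_
  rintro a ⟨w, hw, hlt⟩
  have hO : w ∈ Om := F.set_sub hw.1
  obtain ⟨c, hc⟩ := FF.cov (f w) (hR.hm.fm hO)
  refine mem_iUnion₂.2 ⟨c, ⟨f w, hc, w, hw.1, rfl⟩, ?_⟩
  have e := hR.v_eq' Φ hLa hO (by rw [hw.2]; norm_num) a
  rw [← e] at hlt
  have hc' := (retF Φ hLa hR.pos hR.le_one).cell c hc
  have h6 := Nr_527.touch_of_lt FF (FF.sub c hc') hlt hc'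
  rwa [inter_comm] at h6

/-- **finitely many points on every face of `T`** -/
theorem finS (hLa : IsOpen La) (hR : InitR Φ T f g J0 ct' r₀)
    (hdV : ∀ c c', c ≠ c' → Disjoint (V c) (V c')) (hL : ∀ c, ∀ t ∈ L c, t < 1)
    {co : Mo → Φ.F} (hco : ∀ k, {m | co m = k}.Finite)
    {s : GSt (meshC T fr3) (Sum.map (fun j : JJ Φ L => j.1) (id : Mo → Mo))}
    (hA : ∀ w ∈ s.P, ∀ j, s.lab w = Sum.inl j → Φ.lev j.1 (f w) = j.2.1)
    (hB : ∀ w ∈ s.P, ∀ m, s.lab w = Sum.inr m → ∀ i, w ∈ P (T.H i) → i ∈ V (co m)) (F : C2 T) :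
    (s.P ∩ F.On).Finite := by
  obtain ⟨q0, hq0⟩ : ∃ q, q ∈ F.side fr3 := by
    induction F.side fr3 using Sym2.ind with
    | _ x y => exact ⟨x, Sym2.mem_mk_left x y⟩
  have hsub : F.set ⊆ P (T.H q0) := C2.sub_tile (h3 := fr3) hq0
  have h1 := fam_fin hLa hR F
  have h2 : {k : Φ.F | q0 ∈ V k}.Finite := by
    refine Set.Subsingleton.finite ?_
    intro a ha b hb
    by_contra hne
    exact Set.disjoint_left.1 (hdV a b hne) ha hb
  have h4 : {m : Mo | q0 ∈ V (co m)}.Finite := by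
    refine (h2.biUnion (t := fun k => {m | co m = k}) fun k _ => hco k).subset ?_
    intro m hm
    exact mem_iUnion₂.2 ⟨co m, hm, rfl⟩
  have h5 : (⋃ a ∈ {a : Φ.F | ∃ w ∈ F.On, Φ.lev a (f w) < 1},
      {w | w ∈ s.P ∧ Sum.map (fun j : JJ Φ L => j.1) (id : Mo → Mo) (s.lab w) = Sum.inl a}).Finite :=
    h1.biUnion fun a _ => s.fin (Sum.inl a)
  have h6 : (⋃ m ∈ {m : Mo | q0 ∈ V (co m)},
      {w | w ∈ s.P ∧ Sum.map (fun j : JJ Φ L => j.1) (id : Mo → Mo) (s.lab w) = Sum.inr m}).Finite :=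
    h4.biUnion fun m _ => s.fin (Sum.inr m)
  refine (h5.union h6).subset ?_
  rintro w ⟨hw, hF⟩
  rcases hl : s.lab w with j | m
  · left
    refine mem_iUnion₂.2 ⟨j.1, ⟨w, hF, ?_⟩, hw, ?_⟩
    · rw [hA w hw j hl]; exact hL _ _ j.2.2
    · rw [hl]; rfl
  · right
    refine mem_iUnion₂.2 ⟨m, hB w hw m hl q0 (hsub hF.1), hw, ?_⟩
    rw [hl]; rfl

/-! ### the fields of `FrontN` -/

section fields

variable {S : Sla T (Ti X)}
  {s : GSt (meshC T fr3) (Sum.map (fun j : JJ Φ L => j.1) (id : Mo → Mo))}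
  {r : JJ Φ L ⊕ Mo → E3} {Sf : JJ Φ L ⊕ Mo → Set E3}
  {nb : Ti X → Φ.F ⊕ Mo → Prop} {v0 v1 : ∀ c, Φ.F ⊕ Mo → VxK T S.K c}
  {u : Ti X → Φ.F ⊕ Mo → E3 → ℝ} {Aw Bw : Ti X → Φ.F ⊕ Mo → ℝ}
  {Lv : ∀ c, Φ.F ⊕ Mo → Lev T (frontier (S.K c)) (JJ Φ L ⊕ Mo)}
  {Tw : Twrs (S.sh fr3) S.n (outK S.hH S.dis s r)} {l0 : E3 → JJ Φ L ⊕ Mo}
  {am : Mo → Φ.F} {Act : Φ.F → Set (T.RIdx S.HH ⊕ Ti X)}
  {core : ∀ c, CoreH S.T3 (S.KK c)} {disj : ∀ c c', c ≠ c' → Disjoint (S.KK c) (S.KK c')}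
  {s3 : GSt (mK fr3 core disj) (fun j : JJ Φ L => j.1)}




end fields

/-! ### the inputs for `stB` -/

section stB

variable {co : Mo → Φ.F} {ρ : Mo → ℝ} {ℓ : Mo → E3 → ℝ} {lo hi : Mo → ℝ} {hG : GF Φ r₀ T f L}
  {ε : Mo → ℝ} {bp : JJ Φ L → E3} {bm : Mo → E3}




end stB

end Crest.Agent.R096.Fm_184
end

-- ▼ part R096/Mnt1_189
section

/-!
# Row 96, DOORS-TOWER (helper189): 438's Twr11 with the second monotonicity (MonT) of 527 #12116:
**a point which is not a point of the exact pattern never comes back** (trace points stay away)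
-/

set_option autoImplicit false

namespace Crest.Agent.R096.Mnt_189

open Crest.Agent.R096.St_147 Crest.Agent.R096.Seq_213 Crest.Agent.R096.Door_501
  Crest.Agent.R096.Qp_106 Crest.Agent.R096.Twr_438 Classical

section chain

variable {ι Φ W : Type} {M : MeshC ι Φ W} {k : ι} {Vx Ed : Type} {S : Shell M k Vx Ed}
variable {I : Type} {col : I → Bool}

/-- a tame move which keeps all points off `K` and has only new points in `D` -/
def TameT (R : I → Vx → Prop) (L : St S.sph col → Prop) (K D : Set W) (s : St S.sph col)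
    (m : Move S.sphSh s) : Prop :=
  TameK R L K s m ∧ ∀ x ∈ m.botS.P, x ∉ D → x ∈ s.P

/-- **the deaths of all confined curves**; no point comes back -/
theorem deathsT [Fintype Ed] (hS : S.sphSh.Sph) (hC : S.sphSh.Circ) (hCon : S.sphSh.Con) {v0 v1 : Vx}
    (hv0 : ∃ e b, S.en e b = v0) (hv1 : ∃ e b, S.en e b = v1) (hcol : ∀ i j : I, col i = col j)
    (R : I → Vx → Prop) (L : St S.sph col → Prop) : ∀ (n : ℕ) (s : St S.sph col), s.P.card ≤ n →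
      (∀ w ∈ s.P, ∃ e, w ∈ S.OnE e) →
      (∀ s' : St S.sph col, s'.P ⊆ s.P → s'.lab = s.lab → s'.mu = s.mu → L s') →
      (∀ w ∈ s.P, lbl S.sphSh v0 (comp true s w) v1 = 0 → ∀ v, (∃ e b, S.en e b = v) →
        lbl S.sphSh v0 (comp true s w) v = 1 → R (s.lab w) v) →
      ∃ m t, Chn (fun s m => Tame R L s m ∧ m.botS.P ⊆ s.P) m s t ∧
        t.P = s.P.filter (fun w => lbl S.sphSh v0 (comp true s w) v1 = 1) ∧
        t.lab = s.lab ∧ t.mu = s.mu := by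
  intro n
  induction n with
  | zero =>
    intro s hn _ _ _
    have h0 : s.P = ∅ := Finset.card_eq_zero.1 (by omega)
    refine ⟨0, s, Chn.nil s, ?_, rfl, rfl⟩
    rw [h0, Finset.filter_empty]
  | succ n ih =>
    intro s hn hs hL hR
    by_cases hex : ∃ w ∈ s.P, lbl S.sphSh v0 (comp true s w) v1 = 0
    · obtain ⟨w, hw, hwc, hmin⟩ := exists_min hS hC hCon hv0 hv1 hcol hs hex
      obtain ⟨b1, b2, b3⟩ := death_bot hS v0 hs hw hmin
      set s1 := (death hS v0 hs hw hmin).move.botS with hs1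
      have hsub : s1.P ⊆ s.P := by
        rw [b1]; exact Finset.filter_subset _ _
      have hcl : ∀ F x, true ∈ S.sph.side F → x ∈ s1.P → x ∈ S.sph.On F → s.mu F x ∈ s1.P := by
        intro F x hF hx hxF
        rw [b1] at hx ⊢
        obtain ⟨h1, h2⟩ := Finset.mem_filter.1 hx
        refine Finset.mem_filter.2 ⟨(s.mu_mem h1 hxF).1, fun h3 => h2 ?_⟩
        have h4 := comp_mu hF h3 (s.mu_mem h1 hxF).2
        rwa [s.mu_mu h1 hxF] at h4
      have hcomp : ∀ x ∈ s1.P, comp true s1 x = comp true s x := fun x hx =>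
        comp_restr hsub b3 hcl hx
      have hcard : s1.P.card ≤ n := by
        have h1 : s1.P ⊂ s.P := by
          refine (Finset.ssubset_iff_of_subset hsub).2 ⟨w, hw, fun h => ?_⟩
          rw [b1] at h
          exact (Finset.mem_filter.1 h).2 (self_mem hw)
        have := Finset.card_lt_card h1
        omega
      obtain ⟨m, t, ht, t1, t2, t3⟩ := ih s1 hcard (fun x hx => hs x (hsub hx))
        (fun s' h1 h2 h3 => hL s' (h1.trans hsub) (h2.trans b2) (h3.trans b3))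
        (fun x hx h1 v hv h2 => by
          rw [hcomp x hx] at h1 h2
          rw [b2]
          exact hR x (hsub hx) h1 v hv h2)
      refine ⟨m + 1, t, Chn.cons (death hS v0 hs hw hmin).move ⟨⟨death_good hS hC hCon v0 hs hw hmin,
        hL s (Finset.Subset.refl _) rfl rfl, ?_, w, hw, rfl⟩, hsub⟩ ht, ?_, t2.trans b2, t3.trans b3⟩
      · intro v hv
        obtain ⟨h1, h2⟩ := (S.sphSh.mem_vset).1 hv
        exact hR w hw hwc v h2 h1
      · rw [t1]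
        ext x
        rw [Finset.mem_filter, Finset.mem_filter]
        constructor
        · rintro ⟨h1, h2⟩
          rw [hcomp x h1] at h2
          exact ⟨hsub h1, h2⟩
        · rintro ⟨h1, h2⟩
          have h3 : x ∈ s1.P := by
            rw [b1]
            refine Finset.mem_filter.2 ⟨h1, fun h => ?_⟩
            rw [comp_eq h, hwc] at h2
            exact absurd h2 (by decide)
          refine ⟨h3, ?_⟩
          rw [hcomp x h3]
          exact h2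
    · refine ⟨0, s, Chn.nil s, ?_, rfl, rfl⟩
      refine (Finset.filter_true_of_mem fun w hw => ?_).symm
      rcases zz_cases (lbl S.sphSh v0 (comp true s w) v1) with h | h
      · exact (hex ⟨w, hw, h⟩).elim
      · exact h


section tgt

variable {v0 v1 : Vx} {t d : St S.sph col} {rk : I → ℝ}

/-- **all slides**, with the monotonicity: points off `t` stay -/
theorem slidesT [Fintype Ed] (h : Tgt S v0 v1 t d rk) (hS : S.sphSh.Sph)
    (hC : S.sphSh.Circ) (hCon : S.sphSh.Con) (hv0 : ∃ e b, S.en e b = v0)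
    (hv1 : ∃ e b, S.en e b = v1) (hcol : ∀ i j : I, col i = col j)
    (R : I → Vx → Prop) (L : St S.sph col → Prop) (hL : ∀ u, Mid t d u → L u)
    (hR : ∀ w ∈ t.P, ∀ w' ∈ d.P, d.lab w' = t.lab w → ∀ v, (∃ e b, S.en e b = v) →
      lbl S.sphSh v0 (comp true t w) v + lbl S.sphSh v0 (comp true d w') v = 1 →
        R (t.lab w) v) : ∀ (n : ℕ) (u : St S.sph col), Mid t d u → Hi t d rk u →
      (u.P.filter fun x => x ∈ t.P).card ≤ n →
      ∃ m u', Chn (TameT R L {w | w ∈ t.P} {w | w ∈ d.P}) m u u' ∧ u'.P = d.P ∧ (∀ w ∈ d.P, u'.lab w = d.lab w) ∧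
        ∀ F, ∀ w ∈ d.P, w ∈ S.sph.On F → u'.mu F w = d.mu F w := by
  have hdone : ∀ u : St S.sph col, Mid t d u → (∀ w ∈ u.P, w ∉ t.P) →
      ∃ m u', Chn (TameT R L {w | w ∈ t.P} {w | w ∈ d.P}) m u u' ∧ u'.P = d.P ∧ (∀ w ∈ d.P, u'.lab w = d.lab w) ∧
        ∀ F, ∀ w ∈ d.P, w ∈ S.sph.On F → u'.mu F w = d.mu F w := by
    intro u hm hno
    have hP : u.P = d.P := by
      ext x
      constructor
      · intro hx
        rcases hm.sub x hx with ⟨h1, _⟩ | ⟨h1, _⟩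
        · exact (hno x hx h1).elim
        · exact h1
      · intro hx
        rcases hm.alt (d.lab x) with h1 | h1
        · exfalso
          obtain ⟨w', hw', hl'⟩ := h.ex_s x hx
          exact hno w' ((h1 w').2 ⟨hw', hl'⟩).1 hw'
        · exact ((h1 x).2 ⟨hx, rfl⟩).1
    refine ⟨0, u, Chn.nil u, hP, fun w hw => ?_, fun F w hw hF => ?_⟩
    · rcases hm.sub w (by rw [hP]; exact hw) with ⟨h1, _⟩ | ⟨_, h2, _⟩
      · exact (Finset.disjoint_left.1 h.disj h1 hw).elim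
      · exact h2
    · rcases hm.sub w (by rw [hP]; exact hw) with ⟨h1, _⟩ | ⟨_, _, h3⟩
      · exact (Finset.disjoint_left.1 h.disj h1 hw).elim
      · exact h3 F hF
  intro n
  induction n with
  | zero =>
    intro u hm _ hn
    have h0 := Finset.filter_eq_empty_iff.1 (Finset.card_eq_zero.1 (Nat.le_zero.1 hn))
    exact hdone u hm fun w hw => h0 hw
  | succ n ih =>
    intro u hm hT hn
    by_cases hex : ∃ w ∈ u.P, w ∈ t.P
    · obtain ⟨w0, hw0u, hw0⟩ := hex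
      obtain ⟨w, hwf, hmx⟩ := (u.P.filter fun x => x ∈ t.P).exists_max_image
        (fun x => rk (t.lab x)) ⟨w0, Finset.mem_filter.2 ⟨hw0u, hw0⟩⟩
      obtain ⟨hwu, hw⟩ := Finset.mem_filter.1 hwf
      have hmax : ∀ x ∈ u.P, x ∈ t.P → rk (t.lab x) ≤ rk (t.lab w) := fun x hx hx' =>
        hmx x (Finset.mem_filter.2 ⟨hx, hx'⟩)
      obtain ⟨w', hw', hl⟩ := h.ex_d w hw
      obtain ⟨g1, g2⟩ := h.slide_mid hS hC hCon hv0 hv1 hcol hm hT hmax hw hwu hw' hl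
      have g0 : Hi t d rk
          (h.slide hS hC hCon hv0 hv1 hcol hm hT hmax hw hwu hw' hl).move.botS := by
        intro y hy hyd x hx hxt
        rcases (g2 x).1 hx with ⟨x1, x2⟩ | x1
        · rcases (g2 y).1 hy with ⟨y1, _⟩ | y1
          · exact hT y y1 hyd x x1 hxt
          · rw [(mem_comp.1 y1).2.lab, hl]
            exact lt_of_le_of_ne (hmax x x1 hxt)
              (h.rk_ne hxt hw fun e => x2 (h.conn_s w hw x hxt e))
        · exact (Finset.disjoint_left.1 h.disj hxt (mem_comp.1 x1).1).elim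
      obtain ⟨m, u', c1, c2, c3, c4⟩ := ih _ g1 g0 (by
        have h1 : ((h.slide hS hC hCon hv0 hv1 hcol hm hT hmax hw hwu hw'
            hl).move.botS.P.filter fun x => x ∈ t.P) ⊂ u.P.filter fun x => x ∈ t.P := by
          refine (Finset.ssubset_iff_of_subset ?_).2 ⟨w, Finset.mem_filter.2 ⟨hwu, hw⟩, ?_⟩
          · intro x hx
            obtain ⟨a1, a2⟩ := Finset.mem_filter.1 hx
            rcases (g2 x).1 a1 with ⟨b1, _⟩ | b1
            · exact Finset.mem_filter.2 ⟨b1, a2⟩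
            · exact (Finset.disjoint_left.1 h.disj a2 (mem_comp.1 b1).1).elim
          · intro hx
            rcases (g2 w).1 (Finset.mem_filter.1 hx).1 with ⟨_, b2⟩ | b1
            · exact b2 (self_mem hw)
            · exact Finset.disjoint_left.1 h.disj hw (mem_comp.1 b1).1
        have := Finset.card_lt_card h1
        omega)
      refine ⟨m + 1, u', Chn.cons _ ⟨⟨⟨h.slide_good hS hC hCon hv0 hv1 hcol hm hT hmax hw hwu hw' hl,
        hL u hm, ?_, w, hwu, ?_⟩, fun x hx hxt => (g2 x).2 (Or.inl ⟨hx, fun hxc =>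
          hxt (mem_comp.1 hxc).1⟩)⟩, fun x hx hxD => ((g2 x).1 hx).elim (fun h1 => h1.1)
            fun h1 => (hxD (mem_comp.1 h1).1).elim⟩ c1, c2, c3, c4⟩
      · intro v hv
        obtain ⟨a1, a2⟩ := (S.sphSh.mem_vset).1 hv
        exact hR w hw w' hw' hl v a2 a1
      · show t.lab w = u.lab w
        rcases hm.sub w hwu with ⟨_, h2, _⟩ | ⟨h1, _, _⟩
        · exact h2.symm
        · exact (Finset.disjoint_left.1 h.disj hw h1).elim
    · exact hdone u hm fun w hw h1 => hex ⟨w, hw, h1⟩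

end tgt

/-- **existence of the tower of one family at one core**, monotone -/
theorem exists_chainT [Fintype Ed] (hS : S.sphSh.Sph) (hC : S.sphSh.Circ) (hCon : S.sphSh.Con)
    {v0 v1 : Vx} (hv0 : ∃ e b, S.en e b = v0) (hv1 : ∃ e b, S.en e b = v1)
    (hcol : ∀ i j : I, col i = col j) (s d : St S.sph col) (hs : ∀ w ∈ s.P, ∃ e, w ∈ S.OnE e)
    {rk : I → ℝ} (h : Tgt S v0 v1 (essSt S v0 v1 s) d rk) :
    ∃ n u, Chn (TameT (Rgn S v0 v1 s d) (Fits s d) {w | w ∈ s.P} {w | w ∈ d.P}) n s u ∧ Fits s d u ∧ u.P = d.P ∧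
      (∀ w ∈ d.P, u.lab w = d.lab w) ∧ ∀ F, ∀ w ∈ d.P, w ∈ S.sph.On F → u.mu F w = d.mu F w := by
  obtain ⟨m, t, c1, t1, t2, t3⟩ := deathsT hS hC hCon hv0 hv1 hcol (Rgn S v0 v1 s d)
    (fun u => Fits s d u ∧ ∀ x ∈ u.P, x ∈ s.P)
    s.P.card s le_rfl hs
    (fun s' h1 h2 h3 => ⟨fun w hw => Or.inl ⟨h1 hw, by rw [h2], fun F _ => by rw [h3]⟩,
      fun x hx => h1 hx⟩)
    (fun w hw h1 v _ h2 => Or.inl ⟨w, hw, rfl, h1, h2⟩)
  have ht : t = essSt S v0 v1 s := st_ext t1 t2 t3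
  rw [ht] at c1
  have c1' : Chn (TameT (Rgn S v0 v1 s d) (Fits s d) {w | w ∈ s.P} {w | w ∈ d.P}) m s (essSt S v0 v1 s) :=
    c1.mono fun u mv hu => ⟨⟨⟨hu.1.1, hu.1.2.1.1, hu.1.2.2.1, hu.1.2.2.2⟩,
      fun x hx hxK => (hxK (hu.1.2.1.2 x hx)).elim⟩, fun x hx _ => hu.2 hx⟩
  obtain ⟨m', u, c2, u1, u2, u3⟩ := slidesT h hS hC hCon hv0 hv1 hcol (Rgn S v0 v1 s d)
    (Fits s d) (fun u hm w hw => by
      rcases hm.sub w hw with ⟨h1, h2, h3⟩ | h1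
      · exact Or.inl ⟨(mem_ess.1 h1).1, h2, h3⟩
      · exact Or.inr h1)
    (fun w hw w' hw' hl v _ h1 => by
      rw [comp_ess hw] at h1
      exact Or.inr ⟨w, (mem_ess.1 hw).1, w', hw', rfl, hl, (mem_ess.1 hw).2, h1⟩)
    _ (essSt S v0 v1 s) (Mid.refl _ _)
    (fun w hw hwd => (Finset.disjoint_left.1 h.disj hw hwd).elim) le_rfl
  have c2' : Chn (TameT (Rgn S v0 v1 s d) (Fits s d) {w | w ∈ s.P} {w | w ∈ d.P}) m' (essSt S v0 v1 s) u :=
    c2.mono fun u mv hu => ⟨⟨hu.1.1, fun x hx hxK => hu.1.2 x hx fun h1 => hxK (mem_ess.1 h1).1⟩,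
      hu.2⟩
  refine ⟨m + m', u, c1'.trans c2', fun w hw => Or.inr ?_, u1, u2, u3⟩
  rw [u1] at hw
  exact ⟨hw, u2 w hw, fun F hF => u3 F w hw hF⟩

end chain

/-! ### from chains to 501's towers -/

section seq

variable {ι Φ W : Type} {M : MeshC ι Φ W} {k : ι} {Vx Ed : Type} {S : Shell M k Vx Ed}
variable {J : Type}

/-- a chain gives a tower -/
theorem exists_twrT (i0 : J) {R : J → Vx → Prop} {L : St S.sph (fun _ : J => true) → Prop}
    {K D : Set W} {n : ℕ}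
    {s t : St S.sph (fun _ : J => true)} (h : Chn (TameT R L K D) n s t) (hL : L t)
    (hs : ∀ w ∈ s.P, ∃ e, w ∈ S.OnE e) :
    ∃ T : Twr S J, T.pat 0 = s ∧ (∀ j, n ≤ j → T.pat j = t ∧ (T.mv j).Qv = ∅) ∧
      (∀ j, Tm R L (T.pat j) (T.mv j)) ∧
      (∀ j, ∀ x ∈ (T.pat j).P, x ∉ K → x ∈ (T.pat (j + 1)).P) ∧
      ∀ j, ∀ x ∈ (T.pat (j + 1)).P, x ∉ D → x ∈ (T.pat j).P := by
  induction h with
  | nil s =>
    exact ⟨idle s i0 hs, rfl, fun _ _ => ⟨rfl, rfl⟩, fun _ => triv_tm s i0 hs hL,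
      fun _ _ hx _ => hx, fun _ _ hx _ => hx⟩
  | cons m hm _ ih =>
    obtain ⟨T, t1, t2, t3, t4, t5⟩ := ih hL (fun w hw => m.B_on hw)
    refine ⟨consT m hm.1.1.1 T t1, rfl, ?_, ?_, ?_, ?_⟩
    · intro j hj
      cases j with
      | zero => omega
      | succ j => exact t2 j (by omega)
    · intro j
      cases j with
      | zero => exact ⟨hm.1.1.2.1, fun v hv => ⟨hm.1.1.2.2.1 v hv, hm.1.1.2.2.2⟩⟩
      | succ j => exact t3 j
    · intro j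
      cases j with
      | zero =>
        intro x hx hxK
        show x ∈ (T.pat 0).P
        rw [t1]
        exact hm.1.2 x hx hxK
      | succ j => exact t4 j
    · intro j
      cases j with
      | zero =>
        intro x hx hxD
        have hx : x ∈ (T.pat 0).P := hx
        rw [t1] at hx
        exact hm.2 x hx hxD
      | succ j => exact t5 j


end seq

variable {ι0 Φ0 W J C : Type} {M0 : MeshC ι0 Φ0 W} {κ : Type} {k0 : κ → ι0}
  {Vx Ed : κ → Type} {fam : J → C}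


end Crest.Agent.R096.Mnt_189
end

-- ▼ part R096/Ord1_117
section

/-!
# Row 96, DOORS-TOWER (helper117): 189's `exists_twrsT` with the ORDER of the windows (688 #12211)

`exists_twrsO` : for a predicate `ea` on the families, the windows of the families with `ea` come first:
there is `jm ≤ n c` with: for `ea a` the pattern is final from `jm` on, for `¬ ea a` it is the trace up
to `jm`.
-/

set_option autoImplicit false

namespace Crest.Agent.R096.Ord_117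

open Crest.Agent.R096.St_147 Crest.Agent.R096.Seq_213 Crest.Agent.R096.Door_501
  Crest.Agent.R096.Qp_106 Crest.Agent.R096.Twr_438 Crest.Agent.R096.Mnt_189 Classical

section seq

variable {ι Φ W : Type} {M : MeshC ι Φ W} {k : ι} {Vx Ed : Type} {S : Shell M k Vx Ed}
variable {J : Type}

/-- the tower placed in the window `[N, N + n)` -/
theorem exists_windowO (i0 : J) {R : J → Vx → Prop} {L : St S.sph (fun _ : J => true) → Prop}
    {K D : Set W} {n : ℕ} {s t : St S.sph (fun _ : J => true)} (h : Chn (TameT R L K D) n s t)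
    (hLs : L s) (hL : L t) (hs : ∀ w ∈ s.P, ∃ e, w ∈ S.OnE e) (N : ℕ) :
    ∃ T : Twr S J, T.pat 0 = s ∧ (∀ j, N + n ≤ j → T.pat j = t ∧ (T.mv j).Qv = ∅) ∧
      (∀ j, j < N → (T.mv j).Qv = ∅) ∧ (∀ j, Tm R L (T.pat j) (T.mv j)) ∧
      (∀ j, ∀ x ∈ (T.pat j).P, x ∉ K → x ∈ (T.pat (j + 1)).P) ∧
      (∀ j, ∀ x ∈ (T.pat (j + 1)).P, x ∉ D → x ∈ (T.pat j).P) ∧
      ∀ j, j ≤ N → T.pat j = s := by
  induction N with
  | zero =>
    obtain ⟨T, t1, t2, t3, t4, t5⟩ := exists_twrT i0 h hL hs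
    exact ⟨T, t1, fun j hj => t2 j (by omega), fun j hj => absurd hj (Nat.not_lt_zero j), t3, t4, t5,
      fun j hj => by rw [Nat.le_zero.1 hj]; exact t1⟩
  | succ N ih =>
    obtain ⟨T, t1, t2, t3, t4, t5, t6, t7⟩ := ih
    refine ⟨consT (Move.triv s i0 hs) (triv_good s i0 hs) T t1, rfl, ?_, ?_, ?_, ?_, ?_, ?_⟩
    · intro j hj
      cases j with
      | zero => omega
      | succ j => exact t2 j (by omega)
    · intro j hj
      cases j with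
      | zero => rfl
      | succ j => exact t3 j (by omega)
    · intro j
      cases j with
      | zero => exact triv_tm s i0 hs hLs
      | succ j => exact t4 j
    · intro j
      cases j with
      | zero =>
        intro x hx _
        show x ∈ (T.pat 0).P
        rw [t1]
        exact hx
      | succ j => exact t5 j
    · intro j
      cases j with
      | zero =>
        intro x hx _
        have hx : x ∈ (T.pat 0).P := hx
        rw [t1] at hx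
        exact hx
      | succ j => exact t6 j
    · intro j hj
      cases j with
      | zero => rfl
      | succ j => exact t7 j (by omega)

end seq

/-- offsets in two groups: the windows of `ea` come first -/
theorem exists_offsetsO {C : Type} (ea : C → Prop) (n : C → ℕ) (F : Finset C) :
    ∃ (N : C → ℕ) (B jm : ℕ), (∀ a ∈ F, N a + n a ≤ B) ∧
      (∀ a ∈ F, ∀ b ∈ F, a ≠ b → N a + n a ≤ N b ∨ N b + n b ≤ N a) ∧ jm ≤ B ∧
      (∀ a ∈ F, ea a → N a + n a ≤ jm) ∧ ∀ a ∈ F, ¬ ea a → jm ≤ N a := by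
  obtain ⟨N1, B1, h1, h2⟩ := exists_offsets n (F.filter ea)
  obtain ⟨N2, B2, g1, g2⟩ := exists_offsets n (F.filter fun a => ¬ ea a)
  refine ⟨fun a => if ea a then N1 a else B1 + N2 a, B1 + B2, B1, ?_, ?_, Nat.le_add_right _ _, ?_, ?_⟩
  · intro a ha
    by_cases h : ea a
    · have := h1 a (Finset.mem_filter.2 ⟨ha, h⟩)
      simp only [h, if_true]
      omega
    · have := g1 a (Finset.mem_filter.2 ⟨ha, h⟩)
      simp only [h, if_false]
      omega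
  · intro a ha b hb hab
    by_cases h : ea a
    · have e1 := h1 a (Finset.mem_filter.2 ⟨ha, h⟩)
      by_cases h' : ea b
      · have := h2 a (Finset.mem_filter.2 ⟨ha, h⟩) b (Finset.mem_filter.2 ⟨hb, h'⟩) hab
        simp only [h, h', if_true]
        exact this
      · simp only [h, h', if_true, if_false]
        left; omega
    · by_cases h' : ea b
      · have e1 := h1 b (Finset.mem_filter.2 ⟨hb, h'⟩)
        simp only [h, h', if_true, if_false]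
        right; omega
      · have := g2 a (Finset.mem_filter.2 ⟨ha, h⟩) b (Finset.mem_filter.2 ⟨hb, h'⟩) hab
        simp only [h, h', if_false]
        omega
  · intro a ha h
    have := h1 a (Finset.mem_filter.2 ⟨ha, h⟩)
    simp only [h, if_true]
    exact this
  · intro a ha h
    simp only [h, if_false]
    omega

variable {ι0 Φ0 W J C : Type} {M0 : MeshC ι0 Φ0 W} {κ : Type} {k0 : κ → ι0}
  {Vx Ed : κ → Type} {fam : J → C}

/-- **the towers exist, monotone**, with the order of the windows -/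
theorem exists_twrsO (ea : C → Prop) [∀ c, Fintype (Ed c)] [Nonempty J]
    {S : ∀ c, Shell M0 (k0 c) (Vx c) (Ed c)} {s : GSt M0 fam}
    {d : ∀ c (_ : C), St (S c).sph (fun _ : J => true)} (D : TIn S s d) (m : κ → ℕ) :
    ∃ (n : κ → ℕ) (T : Twrs S n s), (∀ c, 0 < n c ∧ m c ≤ n c) ∧
      (∀ c a, ((T.tw c a).pat (n c)).P = (d c a).P ∧
        (∀ w ∈ (d c a).P, ((T.tw c a).pat (n c)).lab w = (d c a).lab w) ∧
        ∀ F, ∀ w ∈ (d c a).P, w ∈ (S c).sph.On F →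
          ((T.tw c a).pat (n c)).mu F w = (d c a).mu F w) ∧
      (∀ c a, (T.tw c a).pat 0 = trace (S c) s a) ∧
      (∀ c a j, Fits (trace (S c) s a) (d c a) ((T.tw c a).pat j)) ∧
      (∀ c a j, ∀ v ∈ ((T.tw c a).mv j).Qv,
        Rgn (S c) (D.v0 c a) (D.v1 c a) (trace (S c) s a) (d c a) ((T.tw c a).mv j).i0 v) ∧
      (∀ c a j, ∀ w ∈ (d c a).P, w ∈ ((T.tw c a).pat j).P → w ∈ ((T.tw c a).pat (j + 1)).P) ∧
      (∀ c a j, ∀ w ∈ (trace (S c) s a).P, w ∈ ((T.tw c a).pat (j + 1)).P →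
        w ∈ ((T.tw c a).pat j).P) ∧
      ∀ c, ∃ jm ≤ n c,
        (∀ a, ea a → ∀ j, jm ≤ j → (T.tw c a).pat j = (T.tw c a).pat (n c) ∧
          ((T.tw c a).mv j).Qv = ∅) ∧
        ∀ a, ¬ ea a → (∀ j, j ≤ jm → (T.tw c a).pat j = trace (S c) s a) ∧
          ∀ j, j < jm → ((T.tw c a).mv j).Qv = ∅ := by
  obtain ⟨i0⟩ := ‹Nonempty J›
  have hch : ∀ c a, ∃ n u, Chn (TameT (Rgn (S c) (D.v0 c a) (D.v1 c a) (trace (S c) s a) (d c a))
      (Fits (trace (S c) s a) (d c a)) {w | w ∈ (trace (S c) s a).P} {w | w ∈ (d c a).P}) n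
        (trace (S c) s a) u ∧
      Fits (trace (S c) s a) (d c a) u ∧ u.P = (d c a).P ∧
      (∀ w ∈ (d c a).P, u.lab w = (d c a).lab w) ∧
      ∀ F, ∀ w ∈ (d c a).P, w ∈ (S c).sph.On F → u.mu F w = (d c a).mu F w := fun c a =>
    exists_chainT ((S c).sphSh_Sph (D.sph c)) ((S c).sphSh_Circ (D.circ c))
      ((S c).sphSh_Con (D.con c)) (D.hv0 c a) (D.hv1 c a) (fun _ _ => rfl) _ _
      (fun w hw => (mem_trace.1 hw).2.2) (D.tgt c a)
  choose nn u c1 c2 c3 c4 c5 using hch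
  have hF : ∀ c, ∃ (N : C → ℕ) (B jm : ℕ), (∀ a ∈ (D.fin_c c).toFinset, N a + nn c a ≤ B) ∧
      (∀ a ∈ (D.fin_c c).toFinset, ∀ b ∈ (D.fin_c c).toFinset, a ≠ b →
        N a + nn c a ≤ N b ∨ N b + nn c b ≤ N a) ∧ jm ≤ B ∧
      (∀ a ∈ (D.fin_c c).toFinset, ea a → N a + nn c a ≤ jm) ∧
      ∀ a ∈ (D.fin_c c).toFinset, ¬ ea a → jm ≤ N a := fun c => exists_offsetsO ea (nn c) _
  choose N B jm hB hdis hjB hea hla using hF
  have hs : ∀ c a, ∀ w ∈ (trace (S c) s a).P, ∃ e, w ∈ (S c).OnE e :=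
    fun c a w hw => (mem_trace.1 hw).2.2
  have hLs : ∀ c a, Fits (trace (S c) s a) (d c a) (trace (S c) s a) :=
    fun c a w hw => Or.inl ⟨hw, rfl, fun _ _ => rfl⟩
  have htw : ∀ c a, ∃ T : Twr (S c) J, T.pat 0 = trace (S c) s a ∧
      (∀ j, B c + 1 + m c ≤ j → (T.pat j).P = (d c a).P ∧
        (∀ w ∈ (d c a).P, (T.pat j).lab w = (d c a).lab w) ∧
        ∀ F, ∀ w ∈ (d c a).P, w ∈ (S c).sph.On F → (T.pat j).mu F w = (d c a).mu F w) ∧
      (∀ j, Tm (Rgn (S c) (D.v0 c a) (D.v1 c a) (trace (S c) s a) (d c a))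
        (Fits (trace (S c) s a) (d c a)) (T.pat j) (T.mv j)) ∧
      (∀ j, (T.mv j).Qv.Nonempty → a ∈ (D.fin_c c).toFinset ∧ N c a ≤ j ∧ j < N c a + nn c a) ∧
      (∀ j, ∀ x ∈ (T.pat j).P, x ∉ (trace (S c) s a).P → x ∈ (T.pat (j + 1)).P) ∧
      (∀ j, ∀ x ∈ (T.pat (j + 1)).P, x ∉ (d c a).P → x ∈ (T.pat j).P) ∧
      (ea a → ∀ j, jm c ≤ j → T.pat j = T.pat (B c + 1 + m c) ∧ (T.mv j).Qv = ∅) ∧
      (¬ ea a → (∀ j, j ≤ jm c → T.pat j = trace (S c) s a) ∧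
        ∀ j, j < jm c → (T.mv j).Qv = ∅) := by
    intro c a
    by_cases ha : a ∈ (D.fin_c c).toFinset
    · obtain ⟨T, t1, t2, t3, t4, t5, t6, t7⟩ :=
        exists_windowO i0 (c1 c a) (hLs c a) (c2 c a) (hs c a) (N c a)
      refine ⟨T, t1, fun j hj => ?_, t4, fun j hj => ⟨ha, ?_, ?_⟩, t5, t6, fun he j hj => ?_,
        fun he => ⟨fun j hj => t7 j (hj.trans (hla c a ha he)),
          fun j hj => t3 j (lt_of_lt_of_le hj (hla c a ha he))⟩⟩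
      · have h1 := hB c a ha
        rw [(t2 j (by omega)).1]
        exact ⟨c3 c a, c4 c a, c5 c a⟩
      · by_contra h
        rw [t3 j (not_le.1 h)] at hj
        exact Finset.not_nonempty_empty hj
      · by_contra h
        rw [(t2 j (not_lt.1 h)).2] at hj
        exact Finset.not_nonempty_empty hj
      · have k1 := hea c a ha he
        have k2 := hjB c
        refine ⟨?_, (t2 j (by omega)).2⟩
        rw [(t2 j (by omega)).1, (t2 (B c + 1 + m c) (by omega)).1]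
    · have h1 : (trace (S c) s a).P = ∅ := by
        by_contra h
        exact ha ((D.fin_c c).mem_toFinset.2 (Or.inl (Finset.nonempty_iff_ne_empty.2 h)))
      have h2 : (d c a).P = ∅ := by
        by_contra h
        exact ha ((D.fin_c c).mem_toFinset.2 (Or.inr (Finset.nonempty_iff_ne_empty.2 h)))
      refine ⟨idle (trace (S c) s a) i0 (hs c a), rfl, fun j _ => ?_,
        fun j => triv_tm _ i0 (hs c a) (hLs c a), fun j hj => ?_, fun j x hx _ => hx,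
        fun j x hx _ => hx, fun _ j _ => ⟨rfl, rfl⟩, fun _ => ⟨fun j _ => rfl, fun j _ => rfl⟩⟩
      · refine ⟨h1.trans h2.symm, fun w hw => ?_, fun F w hw => ?_⟩
        · rw [h2] at hw
          exact absurd hw (Finset.notMem_empty w)
        · rw [h2] at hw
          exact absurd hw (Finset.notMem_empty w)
      · exact absurd hj Finset.not_nonempty_empty
  choose T t1 t2 t3 t4 t5 t6 t7 t8 using htw
  have hfam : ∀ c a j w, w ∈ ((T c a).pat j).P →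
      (w ∈ s.P ∧ ((T c a).pat j).lab w = s.lab w ∧ fam (s.lab w) = a) ∨
      (w ∈ (d c a).P ∧ ((T c a).pat j).lab w = (d c a).lab w) := by
    intro c a j w hw
    rcases (t3 c a j).1 w hw with ⟨h1, h2, _⟩ | ⟨h1, h2, _⟩
    · exact Or.inl ⟨(mem_trace.1 h1).1, h2, (mem_trace.1 h1).2.1⟩
    · exact Or.inr ⟨h1, h2⟩
  have hlab : ∀ c a j w, w ∈ ((T c a).pat j).P → fam (((T c a).pat j).lab w) = a := by
    intro c a j w hw
    rcases hfam c a j w hw with ⟨_, h2, h3⟩ | ⟨h1, h2⟩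
    · rw [h2]; exact h3
    · rw [h2]; exact D.d_fam h1
  refine ⟨fun c => B c + 1 + m c,
    { tw := T
      P0 := fun c a w => by
        rw [t1 c a]
        exact mem_trace
      lab0 := fun {c a w} _ => by rw [t1 c a]; rfl
      mu0 := fun {c a G w} _ _ => by rw [t1 c a]; rfl
      labj := fun {c a j w} hw => hlab c a j w hw
      dis := ?_
      labv := ?_
      disv := ?_
      fin := ?_
      on := D.on }, ?_, ?_, t1, fun c a j => (t3 c a j).1, ?_, ?_, ?_, ?_⟩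
  · intro c a b j w h1 h2
    rcases hfam c a j w h1 with ⟨g1, _, g3⟩ | ⟨g1, _⟩ <;>
      rcases hfam c b j w h2 with ⟨g1', _, g3'⟩ | ⟨g1', _⟩
    · exact g3.symm.trans g3'
    · exact (D.d_new g1' g1).elim
    · exact (D.d_new g1 g1').elim
    · exact D.d_dis g1 g1'
  · intro c a j v hv
    obtain ⟨_, w, hw, hi⟩ := (t3 c a j).2 v hv
    rw [hi]
    exact hlab c a j w hw
  · intro c a b j v h1 h2
    obtain ⟨a1, a2, a3⟩ := t4 c a j ⟨v, h1⟩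
    obtain ⟨b1, b2, b3⟩ := t4 c b j ⟨v, h2⟩
    by_contra hab
    rcases hdis c a a1 b b1 hab with h | h <;> omega
  · intro a
    refine (D.fin_a a).subset ?_
    rintro c ⟨j, _, h⟩
    rcases h with ⟨w, hw⟩ | ⟨v, hv⟩
    · rcases (t3 c a j).1 w hw with ⟨h1, _⟩ | ⟨h1, _⟩
      · exact Or.inl ⟨w, h1⟩
      · exact Or.inr ⟨w, h1⟩
    · exact (D.fin_c c).mem_toFinset.1 (t4 c a j ⟨v, hv⟩).1
  · intro c
    show 0 < B c + 1 + m c ∧ m c ≤ B c + 1 + m c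
    exact ⟨by omega, by omega⟩
  · intro c a
    exact t2 c a _ le_rfl
  · intro c a j v hv
    exact ((t3 c a j).2 v hv).1
  · intro c a j w hw hwp
    exact t5 c a j w hwp fun h => D.d_new hw (mem_trace.1 h).1
  · intro c a j w hw hwp
    exact t6 c a j w hwp fun h => D.d_new h (mem_trace.1 hw).1
  · intro c
    refine ⟨jm c, ?_, fun a he j hj => t7 c a he j hj, fun a he => t8 c a he⟩
    have := hjB c
    show jm c ≤ B c + 1 + m c
    omega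

end Crest.Agent.R096.Ord_117
end

-- ▼ part R096/Mnt2_189
section

/-!
# R096 (row 96), DOORS (helper189): 539's `exists_towersM` / `exists_pipe` with (MonT) of 527 #12116:
trace points which have left the pattern never come back
-/

set_option autoImplicit false
set_option linter.unusedSectionVars false
set_option linter.style.longLine false

open Set Topology Filter Metric Module
open scoped Classical

namespace Crest.Agent.R096.Mnt_189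

open Crest.Agent.R096.Msh_715 Crest.Agent.R096.Coh_184 Crest.Agent.R096.Lab_184
  Crest.Agent.R096.Main_4 Crest.Agent.R096.Agl5_543
  Crest.Agent.R096.Seq_213 Crest.Agent.R096.St_147 Crest.Agent.R096.Door_501
  Crest.Agent.R096.Twr_438 Crest.Agent.R096.Exa_560 Crest.Agent.R096.Qp_106
  Crest.Agent.R096.Ess3_95 Crest.Agent.R096.Ess4_95 Crest.Agent.R096.Ac_117 Crest.Agent.R096.Lm_117
  Crest.Agent.R096.Dfi_539 Crest.Agent.R096.Dfi_471 Crest.Agent.R096.Sla_184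
open Crest.Agent.R096.Dff_539 (Mon)

section towers

variable {E : Type} [NormedAddCommGroup E] [NormedSpace ℝ E] [FiniteDimensional ℝ E]
variable {Om : Set E} {ι : Type} {T : Tiling Om ι} {J C : Type} {fam : J → C}
variable {κ : Type} {Kc : κ → Set E} {h3 : finrank ℝ E = 3}

section

variable {hH : ∀ c, CoreH T (Kc c)} {hdis : ∀ c c', c ≠ c' → Disjoint (Kc c) (Kc c')}
  {s : GSt (meshC T h3) fam} {r : J → E} {Sf : J → Set E} {nb : κ → C → Prop}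
  {v0 v1 : ∀ c, C → VxK T Kc c} {u : κ → C → E → ℝ} {A B : κ → C → ℝ}


end


end towers

open Crest.Agent.R096.Mbf_337 (KJ Tiny)
open Crest.Agent.R096.SkC1_961 (E3 FoamD Hom3)
open Crest.Agent.R096.Frn_337 (Ti)
open Crest.Agent.R096.Init_543 (fr3)
open Crest.Agent.R096.Ess7_95 (KT)
open Crest.Agent.R096.Brk1_582 Crest.Agent.R096.Brk2_582 Crest.Agent.R096.Brk3_582
  Crest.Agent.R096.Brk5_582 Crest.Agent.R096.Bsp_628

/-- (MonT) of #12116 -/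
def MonT {E : Type} [NormedAddCommGroup E] [NormedSpace ℝ E] [FiniteDimensional ℝ E]
    {Om : Set E} {ι : Type} {T : Tiling Om ι} {κ : Type} (S : Sla T κ) (h3 : finrank ℝ E = 3)
    {J C : Type} {fam : J → C} [Nonempty J] {s : GSt (meshC T h3) fam} {r : J → E}
    (Tw : Twrs (S.sh h3) S.n (outK S.hH S.dis s r)) : Prop :=
  ∀ c a j, ∀ w ∈ (trc S.hH S.dis s r c a).P, w ∈ ((Tw.tw c a).pat (j + 1)).P →
    w ∈ ((Tw.tw c a).pat j).P

section tiny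

variable {δ κ0 R c0 : ℝ} {La Om : Set E3} {ι : Type} {Φ : FoamD δ κ0 R c0 La} {T : Tiling Om ι}
  {f : E3 → E3} {κ1 : ℝ} {X : Set Φ.F} {J0 Jt V : Φ.F → Set ι} {θ : Φ.F → E3 → E3}
  {φ : Φ.F → E3 → ℝ} {J C : Type} {fam : J → C} [Nonempty J]


end tiny

end Crest.Agent.R096.Mnt_189
end

-- ▼ part R096/Ord2_117
section

/-!
# R096 (row 96), DOORS (helper117): 189's `exists_towersT` / `exists_pipeT` with the order of the windows
(688 #12211): the families with `ea` move first, the others last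
-/

set_option autoImplicit false
set_option linter.unusedSectionVars false
set_option linter.style.longLine false

open Set Topology Filter Metric Module
open scoped Classical

namespace Crest.Agent.R096.Ord_117

open Crest.Agent.R096.Msh_715 Crest.Agent.R096.Coh_184 Crest.Agent.R096.Lab_184
  Crest.Agent.R096.Main_4 Crest.Agent.R096.Agl5_543
  Crest.Agent.R096.Seq_213 Crest.Agent.R096.St_147 Crest.Agent.R096.Door_501
  Crest.Agent.R096.Twr_438 Crest.Agent.R096.Exa_560 Crest.Agent.R096.Qp_106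
  Crest.Agent.R096.Ess3_95 Crest.Agent.R096.Ess4_95 Crest.Agent.R096.Ac_117 Crest.Agent.R096.Lm_117
  Crest.Agent.R096.Dfi_539 Crest.Agent.R096.Dfi_471 Crest.Agent.R096.Sla_184
open Crest.Agent.R096.Dff_539 (Mon)
open Crest.Agent.R096.Mnt_189 (MonT)

section towers

variable {E : Type} [NormedAddCommGroup E] [NormedSpace ℝ E] [FiniteDimensional ℝ E]
variable {Om : Set E} {ι : Type} {T : Tiling Om ι} {J C : Type} {fam : J → C}
variable {κ : Type} {Kc : κ → Set E} {h3 : finrank ℝ E = 3}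

section

variable {hH : ∀ c, CoreH T (Kc c)} {hdis : ∀ c c', c ≠ c' → Disjoint (Kc c) (Kc c')}
  {s : GSt (meshC T h3) fam} {r : J → E} {Sf : J → Set E} {nb : κ → C → Prop}
  {v0 v1 : ∀ c, C → VxK T Kc c} {u : κ → C → E → ℝ} {A B : κ → C → ℝ}

/-- **the towers exist**, with the monotonicity (MON) of #11432 and (MonT) of #12116: exact points
stay in all lower layers, trace points never come back -/
theorem exists_towersO (ea : C → Prop) [∀ c, Fintype (EdK T Kc c)] [Nonempty J]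
    (D : DIn hH s r Sf nb v0 v1 u A B) (m : κ → ℕ) :
    ∃ (n : κ → ℕ) (L : ∀ c, C → Lev T (frontier (Kc c)) J)
      (Tw : Twrs (fun c => shellH h3 hH hdis c) n (outK hH hdis s r)),
      LevOut s nb u A B L ∧ (∀ c, 0 < n c ∧ m c ≤ n c) ∧
      (∀ c a, ((Tw.tw c a).pat (n c)).P = (exa h3 hH hdis (L c a)).P ∧
        (∀ w ∈ (exa h3 hH hdis (L c a)).P,
          ((Tw.tw c a).pat (n c)).lab w = (exa h3 hH hdis (L c a)).lab w) ∧
        ∀ F, ∀ w ∈ (exa h3 hH hdis (L c a)).P, w ∈ (shellH h3 hH hdis c).sph.On F →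
          ((Tw.tw c a).pat (n c)).mu F w = (exa h3 hH hdis (L c a)).mu F w) ∧
      (∀ c a, (Tw.tw c a).pat 0 = trc hH hdis s r c a) ∧
      (∀ c a j, Fits (trc hH hdis s r c a) (exa h3 hH hdis (L c a)) ((Tw.tw c a).pat j)) ∧
      (∀ c a j, ∀ v ∈ ((Tw.tw c a).mv j).Qv,
        Rgn (shellH h3 hH hdis c) (v0 c a) (v1 c a) (trc hH hdis s r c a)
          (exa h3 hH hdis (L c a)) ((Tw.tw c a).mv j).i0 v) ∧
      (∀ c a j, ∀ w ∈ (exa h3 hH hdis (L c a)).P, w ∈ ((Tw.tw c a).pat j).P →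
        w ∈ ((Tw.tw c a).pat (j + 1)).P) ∧
      (∀ c a j, ∀ w ∈ (trc hH hdis s r c a).P, w ∈ ((Tw.tw c a).pat (j + 1)).P →
        w ∈ ((Tw.tw c a).pat j).P) ∧
      ∀ c, ∃ jm ≤ n c,
        (∀ a, ea a → ∀ j, jm ≤ j → (Tw.tw c a).pat j = (Tw.tw c a).pat (n c) ∧
          ((Tw.tw c a).mv j).Qv = ∅) ∧
        ∀ a, ¬ ea a → (∀ j, j ≤ jm → (Tw.tw c a).pat j = trc hH hdis s r c a) ∧
          ∀ j, j < jm → ((Tw.tw c a).mv j).Qv = ∅ := by
  have hS : ∀ c, (shellH h3 hH hdis c).Sph := fun c => shellH_sph c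
  have hCi : ∀ c, (shellH h3 hH hdis c).Circ := fun c => shellH_circ c
  have hCo : ∀ c, (shellH h3 hH hdis c).Con := fun c => shellH_con c
  have hon : ∀ w ∈ s.P, T.dim w = 1 := fun w hw => (D.dim1 w hw).2
  -- the essential pattern
  let t : ∀ c a, St (shellH h3 hH hdis c).sph (fun _ : J => true) := fun c a =>
    essSt (shellH h3 hH hdis c) (v0 c a) (v1 c a) (trc hH hdis s r c a)
  have ht_on : ∀ c a, ∀ w ∈ (t c a).P, ∃ e, w ∈ (shellH h3 hH hdis c).OnE e := fun c a w hw =>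
    (mem_trc.1 (mem_ess.1 hw).1).2.2
  have hconn : ∀ c a, nb c a → ∀ w ∈ (t c a).P, ∀ w' ∈ (t c a).P,
      (t c a).lab w' = (t c a).lab w → w' ∈ comp true (t c a) w := by
    intro c a hn
    exact Ess4_95.conn_s (fun j _ => D.car j) (fun j _ => D.sub j) hon (fun j _ => D.h1 j)
      (fun j _ => D.conn j) (fun j _ => D.root j)
      (fun j hj => by
        have h := (D.eg c j (by rw [hj]; exact hn)).some
        rw [hj] at h
        exact h)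
  have hex : ∀ c a, nb c a → ∀ j, fam j = a → ∃ w ∈ (t c a).P, (t c a).lab w = j := by
    intro c a hn
    exact Ess4_95.ex_s (fun j _ => D.car j) (fun j _ => D.sub j) hon (fun j _ => D.h1 j)
      (fun j _ => D.conn j) (fun j _ => D.root j)
      (fun j hj => by
        have h := (D.eg c j (by rw [hj]; exact hn)).some
        rw [hj] at h
        exact h)
  have hess : ∀ c a, ∀ w ∈ (t c a).P, lbl (shellH h3 hH hdis c).sphSh (v0 c a)
      (comp true (t c a) w) (v1 c a) = 1 := by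
    intro c a w hw
    rw [comp_ess hw]
    exact (mem_ess.1 hw).2
  -- the order of the essential curves
  have hrk : ∀ c a, nb c a → ∃ rk : J → ℕ, ∀ x ∈ (t c a).P, ∀ w ∈ (t c a).P,
      (t c a).lab x ≠ (t c a).lab w →
      (rk ((t c a).lab x) < rk ((t c a).lab w) ∧
        sd (shellH h3 hH hdis c).sphSh (v0 c a) (comp true (t c a) w) x = 0) ∨
      (rk ((t c a).lab w) < rk ((t c a).lab x) ∧
        sd (shellH h3 hH hdis c).sphSh (v0 c a) (comp true (t c a) w) x = 1) := by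
    intro c a hn
    obtain ⟨rk, -, h⟩ := exists_rk ((shellH h3 hH hdis c).sphSh_Sph (hS c))
      ((shellH h3 hH hdis c).sphSh_Circ (hCi c)) ((shellH h3 hH hdis c).sphSh_Con (hCo c))
      (vx_edge (v0 c a)) (vx_edge (v1 c a)) (fun _ _ => rfl) (t c a) (ht_on c a) (hconn c a hn)
      (hess c a)
    exact ⟨rk, h⟩
  -- one order for every core
  have hlvl : ∀ c, ∃ lvl : J → ℝ, (∀ i j, fam i = fam j → lvl i = lvl j → i = j) ∧
      ∀ a, nb c a → ∀ x ∈ (t c a).P, ∀ w ∈ (t c a).P, lvl ((t c a).lab x) < lvl ((t c a).lab w) →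
        sd (shellH h3 hH hdis c).sphSh (v0 c a) (comp true (t c a) w) x = 0 := by
    intro c
    choose rk hrk' using hrk c
    have henum : ∀ a, ∃ f : J → ℕ, ∀ i j, fam i = a → fam j = a → f i = f j → i = j := by
      intro a
      have hcn : Countable {j | fam j = a} := (D.finJ a).countable
      obtain ⟨f, hf⟩ := hcn.exists_injective_nat
      refine ⟨fun j => if h : fam j = a then f ⟨j, h⟩ else 0, fun i j hi hj h => ?_⟩
      simp only [dif_pos hi, dif_pos hj] at h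
      exact congrArg Subtype.val (hf h)
    choose f hf using henum
    have key : ∀ a (h : nb c a) b (h' : nb c b), a = b → ∀ x, rk a h x = rk b h' x := by
      rintro a h _ h' rfl x; rfl
    refine ⟨fun j => if h : nb c (fam j) then (rk (fam j) h j : ℝ) else (f (fam j) j : ℝ), ?_, ?_⟩
    · intro i j hij h
      by_cases hn : nb c (fam j)
      · have hn' : nb c (fam i) := hij ▸ hn
        simp only [dif_pos hn, dif_pos hn'] at h
        have h : rk (fam i) hn' i = rk (fam j) hn j := by exact_mod_cast h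
        obtain ⟨w, hw, hwl⟩ := hex c (fam j) hn i hij
        obtain ⟨w', hw', hwl'⟩ := hex c (fam j) hn j rfl
        have h' : rk (fam j) hn i = rk (fam j) hn j := by
          rw [← h]
          exact key _ _ _ _ hij.symm i
        by_contra hne
        rcases hrk' (fam j) hn w hw w' hw' (by rw [hwl, hwl']; exact hne) with h4 | h4
        · rw [hwl, hwl', h'] at h4
          exact lt_irrefl _ h4.1
        · rw [hwl, hwl', h'] at h4
          exact lt_irrefl _ h4.1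
      · have hn' : ¬ nb c (fam i) := hij ▸ hn
        simp only [dif_neg hn, dif_neg hn'] at h
        rw [hij] at h
        have h : f (fam j) i = f (fam j) j := by exact_mod_cast h
        exact hf (fam j) i j hij rfl h
    · intro a hn x hx w hw hl
      have hxa : fam ((t c a).lab x) = a := (trc_P (mem_ess.1 hx).1).2.2
      have hwa : fam ((t c a).lab w) = a := (trc_P (mem_ess.1 hw).1).2.2
      have hnx : nb c (fam ((t c a).lab x)) := hxa.symm ▸ hn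
      have hnw : nb c (fam ((t c a).lab w)) := hwa.symm ▸ hn
      simp only [dif_pos hnx, dif_pos hnw] at hl
      rw [key _ hnx a hn hxa, key _ hnw a hn hwa] at hl
      have hl : rk a hn ((t c a).lab x) < rk a hn ((t c a).lab w) := by exact_mod_cast hl
      rcases hrk' a hn x hx w hw (fun h => by rw [h] at hl; exact lt_irrefl _ hl) with h4 | h4
      · exact h4.2
      · exact absurd h4.1 (not_lt.2 hl.le)
  choose lvl lvl_inj lvl_ord using hlvl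
  -- the exact levels
  have hQ : ∀ c, {w | w ∈ s.P ∧ w ∈ frontier (Kc c)}.Finite := by
    intro c
    refine ((D.nb_c c).biUnion (t := fun a => {w | w ∈ s.P ∧ fam (s.lab w) = a})
      fun a _ => s.fin a).subset ?_
    rintro w ⟨h1, h2⟩
    exact mem_biUnion (D.far c w h1 h2) ⟨h1, rfl⟩
  choose L l1 l2 l4 l5 l6 l7 l8 using fun c => D.lev c (lvl c) (lvl_inj c) _ (hQ c)
  have hexp : ∀ c a, ¬ nb c a → (exa h3 hH hdis (L c a)).P = ∅ := by
    intro c a hn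
    rw [Finset.eq_empty_iff_forall_notMem]
    intro w hw
    exact hn ((l2 c a _).1 (exa_lab (L c a) hw).1).2
  let DT : TIn (fun c => shellH h3 hH hdis c) (outK hH hdis s r)
      (fun c a => exa h3 hH hdis (L c a)) := {
    sph := hS
    circ := hCi
    con := hCo
    v0 := v0
    v1 := v1
    hv0 := fun c a => vx_edge (v0 c a)
    hv1 := fun c a => vx_edge (v1 c a)
    rk := fun c a => (L c a).lv
    tgt := by
      intro c a
      by_cases hn : nb c a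
      · refine exa_tgt (L c a) (fun j hj => (l8 c a j hj).1) (fun j hj => (l8 c a j hj).2) ?_ ?_
          (t c a) (ht_on c a) (hconn c a hn) (hess c a) ?_ ?_ ?_ ?_
        · intro j hj
          rw [l1 c a]
          exact (D.v0_lt c a hn).trans_lt (l4 c a j hj).1
        · intro j hj
          rw [l1 c a]
          exact (l4 c a j hj).2.trans_le (D.v1_gt c a hn)
        · intro j hj
          exact hex c a hn j ((l2 c a j).1 hj).1
        · intro w hw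
          have h1 := trc_P (mem_ess.1 hw).1
          exact (l2 c a _).2 ⟨h1.2.2, hn⟩
        · intro w hw j hj
          obtain ⟨g1, g2, g3⟩ := trc_P (mem_ess.1 hw).1
          have g4 := D.low c w g1 g2
          rw [g3] at g4
          rw [l1 c a]
          exact g4.trans_lt (l4 c a j hj).1
        · intro x hx w hw hl
          have h1 := trc_P (mem_ess.1 hx).1
          have h2 := trc_P (mem_ess.1 hw).1
          exact lvl_ord c a hn x hx w hw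
            ((l6 c a _ ((l2 c a _).2 ⟨h1.2.2, hn⟩) _ ((l2 c a _).2 ⟨h2.2.2, hn⟩)).1 hl)
      · refine tgt_empty _ ?_ (hexp c a hn)
        rw [Finset.eq_empty_iff_forall_notMem]
        intro w hw
        have h1 := (mem_ess.1 hw).1
        have h2 : (trc hH hdis s r c a).P = ∅ := D.trc_empty hn
        rw [h2] at h1
        exact Finset.notMem_empty w h1
    d_fam := fun {c a w} hw => ((l2 c a _).1 (exa_lab (L c a) hw).1).1
    d_new := by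
      intro c a w hw hws
      obtain ⟨h1, h2, j, hj, h4⟩ := (mem_P (L c a)).1 hw
      exact l5 c a j hj w ⟨hws.1, h1⟩ h4
    d_dis := by
      intro c a b w hw hw'
      obtain ⟨h1, h2, j, hj, h4⟩ := (mem_P (L c a)).1 hw
      obtain ⟨g1, g2, i, hi, g4⟩ := (mem_P (L c b)).1 hw'
      by_contra hab
      exact l7 c a b hab j hj i hi w h1 h2 h4 g4
    fin_c := by
      intro c
      refine (D.nb_c c).subset ?_
      rintro a (h | h)
      · by_contra hn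
        have h2 : (trc hH hdis s r c a).P = ∅ := D.trc_empty hn
        exact Finset.not_nonempty_empty (h2 ▸ h)
      · by_contra hn
        exact Finset.not_nonempty_empty (hexp c a hn ▸ h)
    fin_a := by
      intro a
      refine (D.nb_a a).subset ?_
      rintro c (h | h)
      · by_contra hn
        have h2 : (trc hH hdis s r c a).P = ∅ := D.trc_empty hn
        exact Finset.not_nonempty_empty (h2 ▸ h)
      · by_contra hn
        exact Finset.not_nonempty_empty (hexp c a hn ▸ h)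
    on := by
      exact out_on D }
  obtain ⟨n, Tw, a1, a2, a3, a4, a5, a6, a7, a8⟩ := exists_twrsO ea DT m
  exact ⟨n, L, Tw, ⟨l1, l2, l4, fun c a j hj w h1 h2 => l5 c a j hj w ⟨h1, h2⟩, l7, l8⟩, a1, a2, a3,
    a4, a5, a6, a7, a8⟩

end


end towers

open Crest.Agent.R096.Mbf_337 (KJ Tiny)
open Crest.Agent.R096.SkC1_961 (E3 FoamD Hom3)
open Crest.Agent.R096.Frn_337 (Ti)
open Crest.Agent.R096.Init_543 (fr3)
open Crest.Agent.R096.Ess7_95 (KT)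
open Crest.Agent.R096.Brk1_582 Crest.Agent.R096.Brk2_582 Crest.Agent.R096.Brk3_582
  Crest.Agent.R096.Brk5_582 Crest.Agent.R096.Bsp_628

/-- **(Ord)** : at every core the families with `ea` are final before the others move -/
def Ord {E : Type} [NormedAddCommGroup E] [NormedSpace ℝ E] [FiniteDimensional ℝ E]
    {Om : Set E} {ι : Type} {T : Tiling Om ι} {κ : Type} (S : Sla T κ) (h3 : finrank ℝ E = 3)
    {J C : Type} {fam : J → C} [Nonempty J] {s : GSt (meshC T h3) fam} {r : J → E}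
    (Tw : Twrs (S.sh h3) S.n (outK S.hH S.dis s r)) (ea : C → Prop) : Prop :=
  ∀ c, ∃ jm ≤ S.n c,
    (∀ a, ea a → ∀ j, jm ≤ j → (Tw.tw c a).pat j = (Tw.tw c a).pat (S.n c) ∧
      ((Tw.tw c a).mv j).Qv = ∅) ∧
    ∀ a, ¬ ea a → (∀ j, j ≤ jm → (Tw.tw c a).pat j = trc S.hH S.dis s r c a) ∧
      ∀ j, j < jm → ((Tw.tw c a).mv j).Qv = ∅

section tiny

variable {δ κ0 R c0 : ℝ} {La Om : Set E3} {ι : Type} {Φ : FoamD δ κ0 R c0 La} {T : Tiling Om ι}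
  {f : E3 → E3} {κ1 : ℝ} {X : Set Φ.F} {J0 Jt V : Φ.F → Set ι} {θ : Φ.F → E3 → E3}
  {φ : Φ.F → E3 → ℝ} {J C : Type} {fam : J → C} [Nonempty J]

/-- **slices and towers** over the tiny cores, with `Mon`, `MonT` and `Ord` -/
theorem exists_pipeO (hLa : IsOpen La)
    (H : ∀ c ∉ X, Tiny Φ T f κ1 c (J0 c) (Jt c) (V c) (θ c) (φ c))
    {hH : ∀ c, CoreH T (KT T Jt X c)} {s : GSt (meshC T fr3) fam} {r : J → E3} {Sf : J → Set E3}
    {nb : Ti X → C → Prop} {v0 v1 : ∀ c, C → VxK T (KT T Jt X) c} {u : Ti X → C → E3 → ℝ}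
    {A B : Ti X → C → ℝ} (D : DIn hH s r Sf nb v0 v1 u A B) (ea : C → Prop) (m : Ti X → ℕ) :
    ∃ (n : Ti X → ℕ) (hn : ∀ c, 0 < n c), (∀ c, m c ≤ n c) ∧
      ∃ (L : ∀ c, C → Lev T (frontier ((Slt_471.sla hLa H n hn).K c)) J)
        (Tw : Twrs ((Slt_471.sla hLa H n hn).sh fr3) (Slt_471.sla hLa H n hn).n
          (outK (Slt_471.sla hLa H n hn).hH (Slt_471.sla hLa H n hn).dis s r)),
        LevOut s nb u A B L ∧ TwOut (Slt_471.sla hLa H n hn) fr3 s r v0 v1 L Tw ∧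
          Mon (Slt_471.sla hLa H n hn) fr3 L Tw ∧ MonT (Slt_471.sla hLa H n hn) fr3 Tw ∧
          Ord (Slt_471.sla hLa H n hn) fr3 Tw ea := by
  have hdis : ∀ c c' : Ti X, c ≠ c' → Disjoint (KT T Jt X c) (KT T Jt X c') := fun c c' hne =>
    Exa_560.tiny_disj hLa (H c.1 c.2) (H c'.1 c'.2) fun h => hne (Subtype.ext h)
  have hF : ∀ c, Finite (EdK T (KT T Jt X) c) := fun c => finite_EdK (hH c).cpt (hH c).sub
  have : ∀ c, Fintype (EdK T (KT T Jt X) c) := fun c => Fintype.ofFinite _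
  obtain ⟨n, L, Tw, h1, h2, h3, h4, h5, h6, h7, h8, h9⟩ := exists_towersO ea (hdis := hdis) D m
  exact ⟨n, fun c => (h2 c).1, fun c => (h2 c).2, L, Tw, h1, ⟨h3, h4, h5, h6⟩, h7, h8, h9⟩

end tiny

end Crest.Agent.R096.Ord_117
end

-- ▼ part R096/Dtf1_117

/-!
# R096 (row 96), DOORS_final (helper117): **the frame of DOORS over the closed Prop `HOpen`**

* `exists_leafAE` : 438's `exists_leafA` with 543's roots (over an edge of the foam);
* `HOpen` : CLOSED literal of the only open input `H` of 334's `leafBC_m` (`TrOut ∧ VIn ∧ Dich`);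
* **`doorsQb_of_H : HOpen → DoorsQb (1 / 64)`**.
-/

set_option autoImplicit false
set_option linter.unusedSectionVars false
set_option linter.unusedVariables false
set_option linter.style.longLine false

open Set Topology Filter Metric Module Relation MeasureTheory
open scoped Classical

namespace Crest.Agent.R096.Dtf_117

open Crest.Agent.R096.Msh_715 Crest.Agent.R096.Coh_184 Crest.Agent.R096.Lab_184
  Crest.Agent.R096.Main_4 Crest.Agent.R096.Agl5_543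
  Crest.Agent.R096.Seq_213 Crest.Agent.R096.St_147 Crest.Agent.R096.Door_501
  Crest.Agent.R096.Twr_438 Crest.Agent.R096.Exa_560
  Crest.Agent.R096.Ess3_95 Crest.Agent.R096.Ess4_95 Crest.Agent.R096.Ac_117 Crest.Agent.R096.Lm_117
  Crest.Agent.R096.Dfi_539 Crest.Agent.R096.Dfi_471 Crest.Agent.R096.Dfo_539
  Crest.Agent.R096.Sla_184 Crest.Agent.R096.Gm_298
  Crest.Agent.R096.Brk1_582 Crest.Agent.R096.Brk2_582 Crest.Agent.R096.Brk3_582
  Crest.Agent.R096.Brk5_582 Crest.Agent.R096.Bsp_628 Crest.Agent.R096.Init_543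
  Crest.Agent.R096.Lv3_471 Crest.Agent.R096.Lv4_471 Crest.Agent.R096.Slt_471
  Crest.Agent.R096.Dib_438 Crest.Agent.R096.Rop_441 Crest.Agent.R096.Frk_441
  Crest.Agent.R096.Dff_539 Crest.Agent.R096.Frs_662 Crest.Agent.R096.Qdl_662
  Crest.Agent.R096.Cg_501 Crest.Agent.R096.SecW_892 Crest.Agent.R096.Sgd_298
  Crest.Agent.R096.Dfg_539 Crest.Agent.R096.Nmd1_698 Crest.Agent.R096.Civ_662
  Crest.Agent.R096.Lbc_334 Crest.Agent.R096.Bar_106 Crest.Agent.R096.Bgf_4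
open Crest.Agent.R096.Sgo_298 (RmA rout ActR)
open Crest.Agent.R096.Mbf_337 (KJ Tiny Cores Fine sb gau Star Levels Words)
open Crest.Agent.R096.SkC1_961 (E3 FoamD Hom3)
open Crest.Agent.R096.Frn_337 (Ti)
open Crest.Agent.R096.Ess7_95 (KT Sh)
open Crest.Agent.R096.Dia_316 (nbT)
open Crest.Agent.R096.Dfn_416 (BarS)
open Crest.Agent.R096.Bmf_416 (coT coT_fin)

variable {δ κ0 R c0 : ℝ} {La Om : Set E3} {ι : Type} {Φ : FoamD δ κ0 R c0 La} {T : Tiling Om ι}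
  {f g : E3 → E3} {κ1 κ2 μ : ℝ} {X : Set Φ.F} {J0 J V : Φ.F → Set ι}
  {ct ct' : Φ.F → ι} {A : Φ.F → E3 ≃ᵃ[ℝ] E3} {lam : Φ.F → ℝ} {z : Φ.F → E3}
  {θ : Φ.F → E3 → E3} {φ : Φ.F → E3 → ℝ} {r₀ : Φ.F → ℝ}
  {L : Φ.F → Finset ℝ} [Nonempty (JJ Φ L)] {hG : GF Φ r₀ T f L} {bp : JJ Φ L → E3}

/-- **LEAF A** with 543's roots -/
theorem exists_leafAE (hLa : IsOpen La) (hLc : IsPreconnected La) (hf : Hom3 f Om La)
    (hδ : 0 < δ) (hR : 0 < R) (hκ0 : 0 < κ1) (hμ : 0 < μ) (hμ1 : μ ≤ 1 / 2)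
    (hκ : 8 * ((Cn δ R + 1) * κ1) ≤ μ) (hκ' : (2 * Cn δ R + 1) * κ1 ≤ μ ^ 2 / 512)
    (hC : Cores Φ T f κ1 κ2 X J0 J V ct A lam z θ φ) (hF : Fine Φ T f κ1 J0)
    {hI : InitR Φ T f g J0 ct' r₀} {ε₀ s₁ : ℝ}
    {hM : Mesh0 T (Pc Φ.F) (bc (F := Φ.F)) (RF Φ r₀) f (KorJ Φ J0) ε₀} {hε : ε₀ < s₁}
    {hε1 : ε₀ < 1} {D : Φ.F → Set E3} {lam₀ : JJ Φ L → E3 → ZMod 2} {v₀ v₁ : Φ.F → E3}
    (hS : InitS hLa hI hM hε hε1 hG D bp lam₀ v₀ v₁)
    (hm : ∀ c, ∀ t ∈ L c, μ ≤ t ∧ t ≤ 1 - μ)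
    (N : BM Φ X → Set ℝ) (hN0 : ∀ m, volume (N m) = 0) :
    ∃ (r : JJ Φ L → E3) (v0 v1 : ∀ c, Φ.F → VxK T (KT T J X) c)
      (ρ1 ρ2 ρ3 ρ4 d : Φ.F → ℝ) (q₀ : BM Φ X → E3) (ε : BM Φ X → ℝ) (bm : BM Φ X → E3)
      (hGB : GFB Φ r₀ T f L (lRc Φ X μ ρ1 ρ3 d) ε)
      (v0B v1B : ∀ c, BM Φ X → VxK T (KT T J X) c),
      (∀ j, (r j ∈ (st0 hG bp).P ∧ (st0 hG bp).lab (r j) = j) ∧
        ∃ q, r j ∈ P (T.H q) ∧ (∃ c, ∃ x ∈ P (T.H q), f x ∈ Lbp_438.Wl Φ c) ∧ (∀ c, q ∉ V c) ∧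
          ∀ (k : Init_543.QK (Pc Φ.F)) (s : ℝ), j.1 ∈ k.B → ε₀ < s →
            q ∉ Act0 T (Pc Φ.F) (bc (F := Φ.F)) (RF Φ r₀) f (KorJ Φ J0) s k) ∧
      (∀ (c : Ti X) a, nbT Φ X c a → sb Φ (θ c.1 (v0 c a).1) a ≤ (2 * Cn δ R + 1) * κ1) ∧
      (∀ (c : Ti X) a, nbT Φ X c a → 1 - (2 * Cn δ R + 1) * κ1 ≤ sb Φ (θ c.1 (v1 c a).1) a) ∧
      BarOut Φ T f κ1 μ X J0 J V θ hG bp N ρ1 ρ2 ρ3 ρ4 d q₀ ε bm hGB v0B v1B ∧
      BarS hG bp V coT (stB hGB bp bm) ∧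
      DIn (fun c => Dia_316.coreH_KT hC c) (stB hGB bp bm) (Sum.elim r bm)
        (SfA Om Φ X r₀ f L μ ρ1 ρ3 d ε) (nbA Φ X) (vS v0 v0B) (vS v1 v1B) (uA Φ hLa X θ)
        (AA Φ X μ κ1) (BA Φ X μ) ∧
      BRec hLa (stB hGB bp bm) f X J θ coT BM.am BM.Zm (nbA Φ X) (vS v0 v0B) (vS v1 v1B)
        (uA Φ hLa X θ) (AA Φ X μ κ1) (BA Φ X μ) μ (Cn δ R * κ1) (μ / 8) (1 / 2)
        (1 / 2 - 5 * μ / 16) (1 + μ / 16) (5 * μ / 32) (3 * μ / 16) := by
  have e2 : μ ^ 2 / 512 ≤ μ / 1024 := by nlinarith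
  obtain ⟨r, v0, v1, h1, h2, h3, D1⟩ := Rte_543.exists_dIn_initE
    (hH := fun c => Dia_316.coreH_KT hC c) hLa hLc hf hδ hR hκ0 hκ hμ1 hC hF hS hm
  have hL : ∀ c, ∀ t ∈ L c, 0 < t ∧ t < 1 := fun c t ht => by
    obtain ⟨g1, g2⟩ := hm c t ht
    exact ⟨by linarith, by linarith⟩
  have hbp : ∀ j : JJ Φ L, bp j ∈ Om ∧ T.dim (bp j) = 1 ∧ Φ.lev j.1 (f (bp j)) = j.2.1 :=
    fun j => ⟨(hS.base j).1, (hS.base j).2.1, (hS.base j).2.2.1⟩
  obtain ⟨ρ1, ρ2, ρ3, ρ4, d, q₀, ε, bm, hGB, v0B, v1B, hB⟩ :=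
    exists_barOut (hG := hG) hLa hδ hR hκ0 hμ hμ1 hκ' hC hI hL hbp N hN0
  have hD2 := hB.dinR hLa hδ hR hκ0 hμ hμ1 hκ' hC hI
  have hDIn := din_sumR (part_ext' hB.ext) D1 hD2
  refine ⟨r, v0, v1, ρ1, ρ2, ρ3, ρ4, d, q₀, ε, bm, hGB, v0B, v1B, h1, h2, h3, hB,
    ⟨hB.ext, fun w hw m hl i hi => (hB.pos m w hw hl).2.2.2.1 i hi, fun k => coT_fin hLa k⟩,
    hDIn, ?_⟩
  exact
  { nbl := fun c a => Iff.rfl
    ul := fun c a x => rfl
    Al := fun c a => rfl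
    Bl := fun c a => rfl
    v0l := fun c a ha => (h2 c a ha).trans (by linarith)
    v1l := fun c a ha => le_trans (by linarith) (h3 c a ha)
    trl := fun w hw j hl => by
      obtain ⟨g1, g2⟩ := hB.ext.of_lab hw hl
      have g3 := (st0_mem hLa hI g1).2.2
      rw [g2] at g3
      rw [g3]
      exact hm _ _ j.2.2
    mo := fun m => m.mo
    nbm := fun c m => Iff.rfl
    um := fun c m x => rfl
    Am := fun c m => rfl
    Bm := fun c m => rfl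
    trm := fun w hw m hl => hB.lev m w hw hl }

/-- **THE ONLY OPEN INPUT OF DOORS** (closed literal of `H` of 334's `leafBC_m`, all objects of the
machine and all facts about them given) -/
def HOpen : Prop :=
  ∀ (δ κ0 R c0 κ2 κ3 κp μ κ1 : ℝ), 1 ≤ κ0 → 1 ≤ R → 0 < c0 → 0 < κ2 → 8 ≤ κ3 → μ ≤ κp →
  κp ≤ 1 / 64 → NumD δ κ0 R c0 κ2 μ κ1 → ∀ (h1 : κ1 < μ / 32) (h2 : κ1 < 1),
  ∀ (Om La : Set E3) (f g : E3 → E3), IsOpen Om → Bornology.IsBounded Om → IsConnected Om →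
    ∀ hLa : IsOpen La, Bornology.IsBounded La → IsConnected La → Hom3 f Om La →
  ∀ (Φ : FoamD δ κ0 R c0 La) (ι : Type) (T : Tiling Om ι) (X : Set Φ.F) (J0 J V : Φ.F → Set ι)
    (ct : Φ.F → ι) (A : Φ.F → E3 ≃ᵃ[ℝ] E3) (lam : Φ.F → ℝ) (z : Φ.F → E3) (θ : Φ.F → E3 → E3)
    (φ : Φ.F → E3 → ℝ) (M : Φ.F → ℕ),
    Star Φ → ∀ hC : Cores Φ T f κ1 κ2 X J0 J V ct A lam z θ φ, Fine Φ T f κ1 J0 →
  ∀ (ct' : Φ.F → ι) (r₀ : Φ.F → ℝ) (hR : InitR Φ T f g J0 ct' r₀)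
    (hM : Mesh0 T (Pc Φ.F) (bc (F := Φ.F)) (RF Φ r₀) f (KorJ Φ J0) κ1),
  ∀ (L : Φ.F → Finset ℝ), (∀ c, ∀ t ∈ L c, μ ≤ t ∧ t ≤ 1 - μ) → (∀ a, (L a).Nonempty) →
    Words Φ T f X ct A lam z M L →
  ∀ [Nonempty (JJ Φ L)] (hG : GF Φ r₀ T f L) (D : Φ.F → Set E3) (bp : JJ Φ L → E3)
    (lam₀ : JJ Φ L → E3 → ZMod 2) (v₀ v₁ : Φ.F → E3),
    InitS hLa hR hM h1 h2 hG D bp lam₀ v₀ v₁ →
  ∀ (r : JJ Φ L → E3) (v0 v1 : ∀ c, Φ.F → VxK T (KT T J X) c)
      (ρ1 ρ2 ρ3 ρ4 d : Φ.F → ℝ) (q₀ : BM Φ X → E3) (ε : BM Φ X → ℝ) (bm : BM Φ X → E3)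
      (hGB : GFB Φ r₀ T f L (lRc Φ X μ ρ1 ρ3 d) ε)
      (v0B v1B : ∀ c, BM Φ X → VxK T (KT T J X) c),
      (∀ j, (r j ∈ (st0 hG bp).P ∧ (st0 hG bp).lab (r j) = j) ∧
        ∃ q, r j ∈ P (T.H q) ∧ (∃ c, ∃ x ∈ P (T.H q), f x ∈ Lbp_438.Wl Φ c) ∧ (∀ c, q ∉ V c) ∧
          ∀ (k : Init_543.QK (Pc Φ.F)) (s : ℝ), j.1 ∈ k.B → κ1 < s →
            q ∉ Act0 T (Pc Φ.F) (bc (F := Φ.F)) (RF Φ r₀) f (KorJ Φ J0) s k) →
      (∀ (c : Ti X) a, nbT Φ X c a → sb Φ (θ c.1 (v0 c a).1) a ≤ (2 * Cn δ R + 1) * κ1) →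
      (∀ (c : Ti X) a, nbT Φ X c a → 1 - (2 * Cn δ R + 1) * κ1 ≤ sb Φ (θ c.1 (v1 c a).1) a) →
      BarOut Φ T f κ1 μ X J0 J V θ hG bp (fun _ => ∅) ρ1 ρ2 ρ3 ρ4 d q₀ ε bm hGB v0B v1B →
      BarS hG bp V coT (stB hGB bp bm) →
      DIn (fun c => Dia_316.coreH_KT hC c) (stB hGB bp bm) (Sum.elim r bm)
        (SfA Om Φ X r₀ f L μ ρ1 ρ3 d ε) (nbA Φ X) (vS v0 v0B) (vS v1 v1B) (uA Φ hLa X θ)
        (AA Φ X μ κ1) (BA Φ X μ) →
      BR hLa (stB hGB bp bm) f X J θ coT BM.am BM.Zm (nbA Φ X) (vS v0 v0B) (vS v1 v1B)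
        (uA Φ hLa X θ) (AA Φ X μ κ1) (BA Φ X μ) μ κ1 →
  ∀ (n : Ti X → ℕ) (hn : ∀ c, 0 < n c)
    (Lv : ∀ c, Φ.F ⊕ BM Φ X → Lev T (frontier ((slC hLa hC n hn).K c)) (JJ Φ L ⊕ BM Φ X))
    (Tw : Twrs ((slC hLa hC n hn).sh fr3) (slC hLa hC n hn).n
      (outK (slC hLa hC n hn).hH (slC hLa hC n hn).dis (stB hGB bp bm) (Sum.elim r bm))),
    LevOut (stB hGB bp bm) (nbA Φ X) (uA Φ hLa X θ) (AA Φ X μ κ1) (BA Φ X μ) Lv →
    TwOut (slC hLa hC n hn) fr3 (stB hGB bp bm) (Sum.elim r bm) (vS v0 v0B) (vS v1 v1B) Lv Tw →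
    Mon (slC hLa hC n hn) fr3 Lv Tw →
    (∀ c a j, ∀ w ∈ (trc (slC hLa hC n hn).hH (slC hLa hC n hn).dis (stB hGB bp bm)
      (Sum.elim r bm) c a).P, w ∈ ((Tw.tw c a).pat (j + 1)).P → w ∈ ((Tw.tw c a).pat j).P) →
    -- the families move first, the barriers last (688 #12211)
    (∀ c, ∃ jm ≤ n c,
      (∀ a : Φ.F, ∀ j, jm ≤ j → (Tw.tw c (Sum.inl a)).pat j = (Tw.tw c (Sum.inl a)).pat (n c) ∧
        ((Tw.tw c (Sum.inl a)).mv j).Qv = ∅) ∧
      ∀ m : BM Φ X, (∀ j, j ≤ jm → (Tw.tw c (Sum.inr m)).pat j =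
          trc (slC hLa hC n hn).hH (slC hLa hC n hn).dis (stB hGB bp bm) (Sum.elim r bm) c
            (Sum.inr m)) ∧
        ∀ j, j < jm → ((Tw.tw c (Sum.inr m)).mv j).Qv = ∅) →
  ∀ [Nonempty (slC hLa hC n hn).T3.Cell]
    (_ : ∃ c, OutK (slC hLa hC n hn).T3 (slC hLa hC n hn).KK c)
    (l0' : E3 → JJ Φ L ⊕ BM Φ X) (hmf : ∀ a, {m : BM Φ X | m.am = a}.Finite)
    (j0 : Φ.F → JJ Φ L) (hj0 : ∀ a, (j0 a).1 = a),
  ∃ sd : BM Φ X → E3 → Prop,
    ∀ (hs : BSep (s2 (slC hLa hC n hn) fr3 Tw l0') BM.am)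
      (far : ∀ a, PN (fun j : JJ Φ L => j.1) (BM.am (X := X)) a → Set E3)
      (t : ∀ a, St ((slC hLa hC n hn).mn fr3) (pcol (fun j : JJ Φ L => j.1) (BM.am (X := X)) a))
      (Ph : Φ.F → Finset E3) (s₃ : GSt ((slC hLa hC n hn).mn fr3) (fun j : JJ Φ L => j.1)),
      (∀ a, (prS (s2 (slC hLa hC n hn) fr3 Tw l0') hs hmf j0 hj0 a).Good
        (ActR (slC hLa hC n hn) (Rdc T f Xᶜ (rout ρ3 d))) (far a)) →
      (∀ a, ∀ i : PN (fun j : JJ Φ L => j.1) BM.am a, ∀ j, i.1 = Sum.inl j →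
        (Sum.elim r bm) (Sum.inl j) ∈ far a i) →
      (∀ a i F w, w ∈ far a i →
        (prS (s2 (slC hLa hC n hn) fr3 Tw l0') hs hmf j0 hj0 a).At F w →
        OKp (prS (s2 (slC hLa hC n hn) fr3 Tw l0') hs hmf j0 hj0 a)
          (ActR (slC hLa hC n hn) (Rdc T f Xᶜ (rout ρ3 d))) F w →
          (s2 (slC hLa hC n hn) fr3 Tw l0').mu F w ∈ far a i) →
      CutR (s2 (slC hLa hC n hn) fr3 Tw l0') hs hmf j0 hj0
        (fun _ => ActR (slC hLa hC n hn) (Rdc T f Xᶜ (rout ρ3 d))) far t Ph s₃ →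
      PosS (hH := (Lay_316.lay_sla hLa hC n hn).core) Φ T f (μ / 4) J0 (slC hLa hC n hn) s₃ →
      TrOut (hH := (Lay_316.lay_sla hLa hC n hn).core) (hdis := Sla.dis_KK)
        (qdT (fun p : T.RIdx (slC hLa hC n hn).HH => p.tile) (sla_sub (slC hLa hC n hn))
          (slC hLa hC n hn).KK hLa hR hM h1 h2) s₃ (fun j => (Sum.elim r bm) (Sum.inl j))
          (UTm Om Φ f X ρ3 d) ∧
      VIn (hH := (Lay_316.lay_sla hLa hC n hn).core) (hdis := Sla.dis_KK)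
        (qdT (fun p : T.RIdx (slC hLa hC n hn).HH => p.tile) (sla_sub (slC hLa hC n hn))
          (slC hLa hC n hn).KK hLa hR hM h1 h2) s₃ (fun j => (Sum.elim r bm) (Sum.inl j)) BM.am sd ∧
      Dich (hH := (Lay_316.lay_sla hLa hC n hn).core) (hdis := Sla.dis_KK)
        (qdT (fun p : T.RIdx (slC hLa hC n hn).HH => p.tile) (sla_sub (slC hLa hC n hn))
          (slC hLa hC n hn).KK hLa hR hM h1 h2) s₃ (UTm Om Φ f X ρ3 d) BM.am sd

/-- **DOORS FROM `HOpen`** -/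
theorem doorsQb_of_H (H : HOpen) : DoorsQb (1 / 64) := by
  intro δ κ0 R c0 κ2 κ3 hδ hκ0 hR hc0 hκ2 hκ3 κp hp hpb μ hμ hμp
  have hR0 : 0 < R := zero_lt_one.trans_le hR
  have hμ64 : μ ≤ 1 / 64 := hμp.trans hpb
  obtain ⟨κd, hκd, hκd1, hnum⟩ := exists_numD (c0 := c0) hδ (zero_le_one.trans hκ0) hR0 hκ2 hμ hμ64
  refine ⟨μ / 32, μ / 4, κd, by linarith, by linarith, by linarith, hκd, ?_⟩
  intro κ1 hκ1 hκle h1 h2 hN hs' hσ Om La f g hOm hOb hOc hLa hLb hLc hf Φ ι T X J0 J V ct A lam z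
    θ φ M hSt hC hF ct' r₀ hRI hM
  refine ⟨fun _ => ∅, fun _ => 0, fun _ => measure_empty, ?_⟩
  intro κ L hL hW hJJ hG D bp lam₀ v₀ v₁ hI q0 q1 w0 w1 x0 x1 hv
  have hn := hnum κ1 hκ1 hκle
  have hm : ∀ c, ∀ t ∈ L c, μ ≤ t ∧ t ≤ 1 - μ := hL.marg
  obtain ⟨n1, n2, n3, n4, n5, n6⟩ := hn.base
  obtain ⟨r, v0, v1, ρ1, ρ2, ρ3, ρ4, d, q₀, ε, bm, hGB, v0B, v1B, hr, hv0, hv1, hB, hBS, hD, hrec⟩ :=
    exists_leafAE hLa hLc.isPreconnected hf hδ hR0 hκ1 hμ hn.half hn.cn8 (by nlinarith) hC hF hI hm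
      (fun _ => ∅) (fun _ => measure_empty)
  obtain ⟨n, hn0, -, Lv, Tw, lo, tt, mon, monT, ord⟩ :=
    Ord_117.exists_pipeO hLa hC.tiny hD (fun a => ∃ b : Φ.F, a = Sum.inl b) (fun _ => 0)
  have ord' : ∀ c, ∃ jm ≤ n c,
      (∀ a : Φ.F, ∀ j, jm ≤ j → (Tw.tw c (Sum.inl a)).pat j = (Tw.tw c (Sum.inl a)).pat (n c) ∧
        ((Tw.tw c (Sum.inl a)).mv j).Qv = ∅) ∧
      ∀ m : BM Φ X, (∀ j, j ≤ jm → (Tw.tw c (Sum.inr m)).pat j =
          trc (slC hLa hC n hn0).hH (slC hLa hC n hn0).dis (stB hGB bp bm) (Sum.elim r bm) c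
            (Sum.inr m)) ∧
        ∀ j, j < jm → ((Tw.tw c (Sum.inr m)).mv j).Qv = ∅ := by
    intro c
    obtain ⟨jm, h1, h2, h3⟩ := ord c
    exact ⟨jm, h1, fun a => h2 (Sum.inl a) ⟨a, rfl⟩,
      fun m => h3 (Sum.inr m) (by rintro ⟨b, hb⟩; cases hb)⟩
  refine ⟨n, hn0, ?_⟩
  intro hNc hne
  obtain ⟨j0, hj0⟩ := Bmf_416.exists_j0 hL
  let l0 : E3 → JJ Φ L ⊕ BM Φ X := fun _ => Sum.inl (Classical.arbitrary _)
  have hmf : ∀ a, {m : BM Φ X | m.am = a}.Finite := fun a => Bmf_416.am_fin hLa a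
  have hLn : ∀ a, (L a).Nonempty := fun a => Bmf_416.L_nonempty hL a
  have hRm : RmA Φ T f X J0 J V θ ρ1 ρ2 ρ3 ρ4 d := fun c hc => (hB.rm c hc).2
  obtain ⟨sd, hH⟩ := H δ κ0 R c0 κ2 κ3 κp μ κ1 hκ0 hR hc0 hκ2 hκ3 hμp hpb hn h1 h2 Om La f g hOm hOb
    hOc hLa hLb hLc hf Φ ι T X J0 J V ct A lam z θ φ M hSt hC hF ct' r₀ hRI hM L hm hLn hW hG D bp
    lam₀ v₀ v₁ hI r v0 v1 ρ1 ρ2 ρ3 ρ4 d q₀ ε bm hGB v0B v1B hr hv0 hv1 hB hBS hD hrec n hn0 Lv Tw lo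
    tt mon monT ord' hne l0 hmf j0 hj0
  obtain ⟨s3, far3, D3, inv, posB, one, two⟩ := leafBC_m (co := coT) (am := BM.am) (Zm := BM.Zm)
    (l0' := l0) (UT := UTm Om Φ f X ρ3 d) (sd := sd) (hI := hRI) (hM := hM) (h1 := h1) (h2 := h2)
    hn hF hRm hne hLn hm hB.ext hD lo tt mon hrec
    (fun w hw m hl => by
      have h3 := (hB.gau m w hw hl).2
      have h4 := (hRm m.co m.co_notMem).d0
      show Ess5_95.ga Φ m.co (f w) ≤ ρ3 m.co + 15 * d m.co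
      linarith)
    (fun m m' h3 h4 h5 => BM.ext (congrArg Subtype.val h3) h4 h5) hmf
    (fun j => by
      obtain ⟨q, h3, -, h4, -⟩ := (hr j).2
      exact ⟨q, h3, fun c _ => h4 c⟩)
    (fun F => Fm_184.finS (V := V) (co := fun m : BM Φ X => m.co) hLa hRI hC.disj
      (fun c t ht => by linarith [(hm c t ht).2]) (fun k => Bmf_416.co_fin hLa k)
      (fun w hw j hl => by
        obtain ⟨g1, g2⟩ := hB.ext.of_lab hw hl
        have g3 := (st0_mem hLa hRI g1).2.2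
        rw [g2] at g3
        exact g3)
      (fun w hw m hl i hi => (hB.pos m w hw hl).2.2.2.1 i hi) F)
    j0 hj0 (hUT_m hRm) hH
  obtain ⟨far₀, Gc, Zc, lm, hFN⟩ := Fcd_117.frontN_m hf hLa hLc.isPreconnected hn hRI hC hF hW hM h1
    h2 hm hI hv n hn0 hne hB.ext hBS hD lo tt hrec hRm D3 inv posB one
    (fun q k hk j j' h3 h4 h5 => two q k hk j j' h3 h4 h5)
  exact ⟨s3, far₀, Gc, Zc, lm, hFN⟩

end Crest.Agent.R096.Dtf_117
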