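import Crest.Agent.R096.Cut2_874
import Crest.Agent.R096.Sk2a_855

/-!
# Row 96 (S0127), p ≤ 2 (helper565): refinements of tilings and their 1-skeleta (leaf of 753 #11008)

`Ref T' T`: every closed cell of `T'` lies in the closed cell of `T` with the same base point
(`ref_cut`: the cut tiling refines).  Then `sk1 T ⊆ sk1 T'`, every closed cell of `T` is a finite
union of closed cells of `T'`, and every edge of `T` is partitioned into edges of `T'`
(`Ref.exists_partition`), with the formulas for integrals along the edge.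
-/

set_option autoImplicit false
set_option linter.unusedSectionVars false

open Set Metric MeasureTheory Module Filter Topology
open scoped ENNReal

namespace Crest.Agent.R096.Skc_565

open Msh_715 Cut_874
open Sk2_855 (sk1)

/-! ### sorted partitions of the unit interval -/

/-- consecutive points of a finite set containing `0` and `1` -/
theorem exists_sorted (S : Set ℝ) (hS : S.Finite) (h0 : (0 : ℝ) ∈ S) (h1 : (1 : ℝ) ∈ S)
    (hI : S ⊆ Icc 0 1) : ∃ (n : ℕ) (t : ℕ → ℝ), 0 < n ∧ t 0 = 0 ∧ t n = 1 ∧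
      (∀ i < n, t i < t (i + 1)) ∧ (∀ i, i ≤ n → t i ∈ S) ∧
      (∀ i < n, ∀ s ∈ S, s ≤ t i ∨ t (i + 1) ≤ s) ∧ ∀ s ∈ S, ∃ i, i ≤ n ∧ t i = s := by
  classical
  obtain ⟨F, rfl⟩ := hS.exists_finset_coe
  have hF0 : (0 : ℝ) ∈ F := h0
  have hF1 : (1 : ℝ) ∈ F := h1
  have hcard : 1 < F.card := Finset.one_lt_card.2 ⟨0, hF0, 1, hF1, zero_ne_one⟩
  obtain ⟨n, hn⟩ : ∃ n, F.card = n + 1 := ⟨F.card - 1, by omega⟩
  have hn0 : 0 < n := by omega
  set o : Fin (n + 1) ↪o ℝ := F.orderEmbOfFin hn with ho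
  have hmem : ∀ i, o i ∈ F := fun i => F.orderEmbOfFin_mem hn i
  have hsurj : ∀ s ∈ F, ∃ i, o i = s := by
    intro s hs
    have : s ∈ Set.range o := by
      rw [ho, Finset.range_orderEmbOfFin]; exact hs
    exact this
  refine ⟨n, fun i => if h : i < n + 1 then o ⟨i, h⟩ else 0, hn0, ?_, ?_, ?_, ?_, ?_, ?_⟩
  · obtain ⟨i, hi⟩ := hsurj 0 hF0
    have h2 : o ⟨0, by omega⟩ ≤ o i := o.monotone (Fin.mk_le_of_le_val (Nat.zero_le _))
    have h3 := (hI (hmem ⟨0, by omega⟩)).1
    simp only [show 0 < n + 1 by omega, dite_true]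
    linarith [h2.trans hi.le]
  · obtain ⟨i, hi⟩ := hsurj 1 hF1
    have h2 : o i ≤ o ⟨n, by omega⟩ := o.monotone (by
      rw [Fin.le_def]; exact Nat.lt_succ_iff.1 i.2)
    have h3 := (hI (hmem ⟨n, by omega⟩)).2
    simp only [show n < n + 1 by omega, dite_true]
    linarith [hi.symm.le.trans h2]
  · intro i hi
    simp only [show i < n + 1 by omega, show i + 1 < n + 1 by omega, dite_true]
    exact o.strictMono (by rw [Fin.lt_def]; exact Nat.lt_succ_self i)
  · intro i hi
    simp only [show i < n + 1 by omega, dite_true]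
    exact hmem _
  · intro i hi s hs
    obtain ⟨j, rfl⟩ := hsurj s hs
    simp only [show i < n + 1 by omega, show i + 1 < n + 1 by omega, dite_true]
    rcases Nat.lt_or_ge i j.1 with h | h
    · right
      exact o.monotone (by rw [Fin.le_def]; exact h)
    · left
      exact o.monotone (by rw [Fin.le_def]; exact h)
  · intro s hs
    obtain ⟨j, rfl⟩ := hsurj s hs
    refine ⟨j.1, Nat.lt_succ_iff.1 j.2, ?_⟩
    simp only [j.2, dite_true]

/-! ### refinements -/

section

variable {E : Type*} [NormedAddCommGroup E] [NormedSpace ℝ E] {Om : Set E} {ι ι' ι'' : Type*}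

/-- `T'` refines `T` -/
def Ref (T' : Tiling Om ι') (T : Tiling Om ι) : Prop := ∀ x ∈ Om, T'.cc x ⊆ T.cc x


theorem Ref.refl (T : Tiling Om ι) : Ref T T := fun _ _ => Subset.rfl

variable {T' : Tiling Om ι'} {T : Tiling Om ι} {T'' : Tiling Om ι''}

theorem Ref.trans (h' : Ref T'' T') (h : Ref T' T) : Ref T'' T := fun x hx =>
  (h' x hx).trans (h x hx)

theorem Ref.V_le (h : Ref T' T) {x : E} (hx : x ∈ Om) : T'.V x ≤ T.V x := by
  intro v hv
  obtain ⟨r, hr, h1⟩ := T'.exists_ball_oc hx
  have hpos : 0 < ‖v‖ + 1 := by positivity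
  set s : ℝ := r / (2 * (‖v‖ + 1)) with hs
  have hs0 : 0 < s := by positivity
  have h2 : ‖s • v‖ < r := by
    rw [norm_smul, Real.norm_of_nonneg hs0.le]
    have h3 : s * ‖v‖ ≤ s * (‖v‖ + 1) := mul_le_mul_of_nonneg_left (by linarith) hs0.le
    have h4 : s * (‖v‖ + 1) = r / 2 := by rw [hs]; field_simp
    linarith
  have h3 : x + s • v ∈ T.cc x := h x hx (T'.oc_sub_cc x (h1 _ ((T'.V x).smul_mem s hv) h2))
  have h4 := T.sub_mem_V h3
  rw [add_sub_cancel_left] at h4
  have h5 := (T.V x).smul_mem s⁻¹ h4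
  rwa [smul_smul, inv_mul_cancel₀ hs0.ne', one_smul] at h5

theorem Ref.dim_le [FiniteDimensional ℝ E] (h : Ref T' T) {x : E} (hx : x ∈ Om) :
    T'.dim x ≤ T.dim x := Submodule.finrank_mono (h.V_le hx)



theorem Ref.cc_sub (h : Ref T' T) {x y : E} (hx : x ∈ Om) (hy : y ∈ T.cc x) :
    T'.cc y ⊆ T.cc x := (h y (T.cc_sub_Om hx hy)).trans (T.cc_sub_of_mem hy)

/-- **a closed cell of `T` is the union of the closed cells of `T'` which it contains** -/
theorem Ref.cc_eq (h : Ref T' T) {x : E} (hx : x ∈ Om) : T.cc x = ⋃ y ∈ T.cc x, T'.cc y := by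
  apply Subset.antisymm
  · intro y hy
    exact mem_iUnion₂.2 ⟨y, hy, T'.self_mem_cc y⟩
  · exact iUnion₂_subset fun y hy => h.cc_sub hx hy

/-- the same for a tile -/
theorem Ref.cc_sub_tile (h : Ref T' T) {i : ι} {y : E} (hy : y ∈ P (T.H i)) :
    T'.cc y ⊆ P (T.H i) := (h y (T.sub i hy)).trans (T.cc_sub_tile hy)





/-- the ends of an edge -/
theorem edge_ends [FiniteDimensional ℝ E] {x : E} (hx : x ∈ Om) (hd : T.dim x = 1) {a v : E}
    (hcc : T.cc x = segment ℝ a (a + v)) : v ≠ 0 ∧ T.dim a = 0 ∧ T.dim (a + v) = 0 ∧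
      T.oc x = openSegment ℝ a (a + v) := by
  obtain ⟨p, q, hpq, h1, h2, h3, h4, h5, h6⟩ := T.edge_eq hx hd
  have hv : v ≠ 0 := by
    rintro rfl
    rw [add_zero, segment_same] at hcc
    rw [hcc] at h5 h6
    rw [mem_singleton_iff] at h5 h6
    exact hpq (h5.trans h6.symm)
  -- both ends are not in the open segment
  have hO : x ∈ openSegment ℝ p q := h2 ▸ T.self_mem_oc x
  have hseg : segment ℝ p q = segment ℝ a (a + v) := by rw [← h1, hcc]
  have key : (p = a ∧ q = a + v) ∨ (p = a + v ∧ q = a) := by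
    have hp : p ∈ segment ℝ a (a + v) := hseg ▸ left_mem_segment _ _ _
    have hq : q ∈ segment ℝ a (a + v) := hseg ▸ right_mem_segment _ _ _
    have ha : a ∈ segment ℝ p q := hseg ▸ left_mem_segment _ _ _
    have hb : a + v ∈ segment ℝ p q := hseg ▸ right_mem_segment _ _ _
    rw [segment_eq_image'] at hp hq ha hb
    obtain ⟨s, ⟨hs0, hs1⟩, hs⟩ := hp
    obtain ⟨t, ⟨ht0, ht1⟩, ht⟩ := hq
    obtain ⟨c, ⟨hc0, hc1⟩, hc⟩ := ha
    obtain ⟨d, ⟨hd0, hd1⟩, hd'⟩ := hb
    simp only [add_sub_cancel_left] at hs ht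
    have e1 : (s + c * (t - s)) • v = 0 := by
      rw [← hs, ← ht] at hc
      have : (a + s • v + c • (a + t • v - (a + s • v))) - a = (s + c * (t - s)) • v := by
        rw [add_smul, mul_smul, sub_smul]
        simp only [smul_sub, smul_add]
        abel
      rw [← this]; simp only [hc, sub_self]
    have e2 : (s + d * (t - s) - 1) • v = 0 := by
      rw [← hs, ← ht] at hd'
      have : (a + s • v + d • (a + t • v - (a + s • v))) - (a + v) = (s + d * (t - s) - 1) • v := by
        rw [sub_smul, add_smul, mul_smul, sub_smul, one_smul]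
        simp only [smul_sub, smul_add]
        abel
      rw [← this]; simp only [hd', sub_self]
    have e1' : s + c * (t - s) = 0 := (smul_eq_zero.1 e1).resolve_right hv
    have e2' : s + d * (t - s) - 1 = 0 := (smul_eq_zero.1 e2).resolve_right hv
    have hts : s ≠ t := by
      rintro rfl
      exact hpq (hs.symm.trans ht)
    rcases lt_or_gt_of_ne hts with hlt | hlt
    · left
      have hs' : s = 0 := by nlinarith
      have ht' : t = 1 := by nlinarith
      subst hs' ht'
      simp only [zero_smul, add_zero, one_smul] at hs ht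
      exact ⟨hs.symm, ht.symm⟩
    · right
      have hs' : s = 1 := by nlinarith
      have ht' : t = 0 := by nlinarith
      subst hs' ht'
      simp only [zero_smul, add_zero, one_smul] at hs ht
      exact ⟨hs.symm, ht.symm⟩
  rcases key with ⟨rfl, rfl⟩ | ⟨rfl, rfl⟩
  · exact ⟨hv, h3, h4, h2⟩
  · exact ⟨hv, h4, h3, by rw [h2, openSegment_symm]⟩


end

/-! ### integrals along a partitioned edge -/

section

variable {E : Type*} [NormedAddCommGroup E] [NormedSpace ℝ E]







end

end Crest.Agent.R096.Skc_565
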