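import Crest.Agent.R096.Msb5_432
import Crest.Agent.R096.Skc1_565

-- ▼ part R096/Msb6_432
section

/-!
# Row 96: the aligned mesh with subdivided cores, part 6: the closed cells of `meshS` at the points
of a block (walls included) are contained in the closed cells of the block tiling
-/

set_option autoImplicit false
set_option linter.unusedSectionVars false

open Set Filter Topology Metric

namespace Crest.Agent.R096.Msb_432

open Msh_715 Cut_874 Msh_810 Mal_874

variable {n : ℕ} {E : Type*} [NormedAddCommGroup E] [NormedSpace ℝ E]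

/-! ### cubes of one grid -/

/-- the conditions of the closed cell of `x` in one cube of a grid through `x` imply those in every
cube of the grid through `x` -/
theorem grid_le {φ : E ≃L[ℝ] (Fin n → ℝ)} {a : Fin n → ℝ} {k : ℕ} {z z' : Fin n → ℤ} {x y : E}
    (hx : φ x ∈ Cu a k z) (hx' : φ x ∈ Cu a k z')
    (h : ∀ g ∈ Hc φ a k z, g.1 y ≤ g.2 ∧ (g.1 x = g.2 → g.1 y = g.2)) :
    ∀ g ∈ Hc φ a k z', g.1 y ≤ g.2 ∧ (g.1 x = g.2 → g.1 y = g.2) := by
  rw [forall_Hc] at h ⊢
  rw [mem_Cu] at hx hx'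
  intro i
  have h1 := h i
  obtain ⟨h2, h3⟩ := hx i
  obtain ⟨h4, h5⟩ := hx' i
  rw [hc_true_le.1, hc_false_le.1, hc_true_le.2.2, hc_false_le.2.2, hc_true_le.2.2,
    hc_false_le.2.2] at h1 ⊢
  obtain ⟨⟨h6, h7⟩, h8, h9⟩ := h1
  have h10 : z' i ≤ z i + 1 := by
    have : (z' i : ℝ) ≤ z i + 1 := by linarith
    exact_mod_cast this
  have h11 : z i ≤ z' i + 1 := by
    have : (z i : ℝ) ≤ z' i + 1 := by linarith
    exact_mod_cast this
  have h12 : z' i = z i ∨ z' i = z i + 1 ∨ z' i = z i - 1 := by omega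
  rcases h12 with e | e | e
  · rw [e]
    exact ⟨⟨h6, h7⟩, h8, h9⟩
  · have e' : (z' i : ℝ) = z i + 1 := by rw [e]; push_cast; ring
    have h13 : ps a k (φ x) i = z i + 1 := le_antisymm h3 (by rw [← e']; exact h4)
    have h14 := h7 h13
    rw [e']
    refine ⟨⟨by linarith, fun h => by linarith⟩, by linarith, fun _ => h14⟩
  · have e' : (z' i : ℝ) = z i - 1 := by rw [e]; push_cast; ring
    have h13 : ps a k (φ x) i = z i := le_antisymm (by rw [e'] at h5; linarith) h2
    have h14 := h9 h13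
    rw [e']
    refine ⟨⟨by linarith, fun _ => by linarith⟩, by linarith, fun h => by linarith⟩

/-! ### the block tiling at the wall -/

section block

variable (Q : CB E n) (k : ℕ) (hk : Q.kc ≤ k)

/-- a tile of the block tiling at a point of the wall is a cube of scale `k` -/
theorem wall_tile [NeZero n] {q : E} (hq : q ∈ frontier Q.N)
    {i : {i // i ∉ {i | P ((Q.T0 k hk).H i) ⊆ Q.S.bp Q.ψ Q.a' Q.kc}} ⊕ Q.S.Ix}
    (hi : i ∈ (Q.T k hk).at_ q) :
    ∃ z, (Q.T k hk).H i = Hc Q.ψ Q.a' k z ∧ Q.ψ q ∈ Cu Q.a' k z := by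
  rcases i with i | i
  · have h1 : q ∈ P ((Q.T0 k hk).H i.1) := hi
    have h2 : i.1.1.1.k = k := by
      refine Q.wall_k k hk h1 ?_
      rw [Q.frontier_N] at hq
      rw [infDist_zero_of_mem (show Q.ψ q ∈ Q.W from hq)]
      positivity
    refine ⟨i.1.1.1.z, ?_, ?_⟩
    · show Hc Q.ψ Q.a' i.1.1.1.k i.1.1.1.z = _
      rw [h2]
    · have h3 : q ∈ P (Hc Q.ψ Q.a' i.1.1.1.k i.1.1.1.z) := h1
      rw [h2, P_Hc] at h3
      exact h3
  · exact absurd hq (bp_wall Q (Q.P_inr_sub k hk i hi))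

/-- at the wall the closed cell is determined by one tile -/
theorem cc_wall [NeZero n] {q y : E} (hq : q ∈ frontier Q.N)
    {i : {i // i ∉ {i | P ((Q.T0 k hk).H i) ⊆ Q.S.bp Q.ψ Q.a' Q.kc}} ⊕ Q.S.Ix}
    (hi : i ∈ (Q.T k hk).at_ q)
    (hy : ∀ g ∈ (Q.T k hk).H i, g.1 y ≤ g.2 ∧ (g.1 q = g.2 → g.1 y = g.2)) :
    y ∈ (Q.T k hk).cc q := by
  intro j hj
  obtain ⟨z, hz, hqz⟩ := wall_tile Q k hk hq hi
  obtain ⟨z', hz', hqz'⟩ := wall_tile Q k hk hq hj
  rw [hz] at hy
  rw [hz']
  exact grid_le hqz hqz' hy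

end block

/-! ### the mesh at the points of a block -/

section mesh

variable [NeZero n] {J : Type*} (M : MD E n J) {k : J → ℕ} (hk : M.Sc k) (a : Fin n → ℝ)
  {v : J → E} (hv : M.Adm v) {j : J}

/-- at the points of a block the closed cells of the mesh are contained in those of the block
tiling -/
theorem mesh_cc_T {q : E} (hq : q ∈ (M.Bk v j).N) :
    (M.mesh hk a hv).cc q ⊆ ((M.Bk v j).T (k j) (hk.kc j)).cc q := by
  by_cases hi : q ∈ interior (M.Bk v j).N
  · rw [(M.rg_block hk a hv hi).eq0.1]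
  · intro y hy
    have hf : q ∈ frontier (M.Bk v j).N := ⟨subset_closure hq, hi⟩
    obtain ⟨i, hi1, hi2⟩ := (M.Bk v j).un_N (k j) (hk.kc j) q hq
    refine cc_wall (M.Bk v j) (k j) (hk.kc j) hf hi1 ?_
    have h1 : (Sum.inr ⟨j, ⟨i, hi2⟩⟩ : M.OIx hk a hv ⊕ Σ j, M.IIx hk a hv j) ∈
      (M.mesh hk a hv).at_ q := hi1
    exact hy _ h1

/-- **at the points of a block the closed cells of `meshS` are contained in those of the block
tiling** -/
theorem meshS_cc_T {q : E} (hq : q ∈ (M.Bk v j).N) :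
    (meshS M hk a hv).cc q ⊆ ((M.Bk v j).T (k j) (hk.kc j)).cc q :=
  (meshS_cc_sub M hk a hv q).trans (mesh_cc_T M hk a hv hq)

include hk a hv in
theorem N_sub_Om {q : E} (hq : q ∈ (M.Bk v j).N) : q ∈ M.φ ⁻¹' M.D0.Om := by
  obtain ⟨i, hi1, hi2⟩ := (M.Bk v j).un_N (k j) (hk.kc j) q hq
  exact (M.mesh hk a hv).sub (Sum.inr ⟨j, ⟨i, hi2⟩⟩) hi1


theorem meshS_dim_T [FiniteDimensional ℝ E] {q : E} (hq : q ∈ (M.Bk v j).N) :
    (meshS M hk a hv).dim q ≤ ((M.Bk v j).T (k j) (hk.kc j)).dim q :=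
  dim_le_of_cc_sub (N_sub_Om M hk a hv hq) (meshS_cc_T M hk a hv hq)


/-- **in the coordinates of the block at rest: dimensions** -/
theorem meshS_dim_Q [FiniteDimensional ℝ E] {p : E} (hp : p ∈ (M.Q j).N) :
    (meshS M hk a hv).dim (p + v j) ≤ ((M.Q j).T (k j) (hk.kc j)).dim p := by
  have h1 : p + v j ∈ (M.Bk v j).N := by
    show p + v j ∈ ((M.Q j).tr (v j)).N
    rw [CB.mem_N_tr, add_sub_cancel_right]
    exact hp
  rw [← ((M.Q j).rg_tr (v j) (k j) (hk.kc j) p).dim]
  exact meshS_dim_T M hk a hv h1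

/-- **(ED)**: the points of a closed 1-cell of the block tiling, translated, are in the 1-skeleton
of `meshS` -/
theorem ed_dim [FiniteDimensional ℝ E] {x : E} (h1 : ((M.Q j).T (k j) (hk.kc j)).dim x ≤ 1)
    {y : E} (hy : y ∈ ((M.Q j).T (k j) (hk.kc j)).cc x) (hyN : y ∈ (M.Q j).N) :
    y + v j ∈ M.φ ⁻¹' M.D0.Om ∧ (meshS M hk a hv).dim (y + v j) ≤ 1 := by
  have h2 : y + v j ∈ (M.Bk v j).N := by
    show y + v j ∈ ((M.Q j).tr (v j)).N
    rw [CB.mem_N_tr, add_sub_cancel_right]
    exact hyN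
  refine ⟨N_sub_Om M hk a hv h2, (meshS_dim_Q M hk a hv hyN).trans (le_trans ?_ h1)⟩
  exact ((M.Q j).T (k j) (hk.kc j)).dim_le hy

end mesh

end Crest.Agent.R096.Msb_432
end

-- ▼ part R096/Msb7_432

/-!
# Row 96: the aligned mesh with subdivided cores, part 7: (ED), the chains of 1-cells of `meshS` in
the 1-cells of the block tiling

`exists_partition_on` is helper565's `Ref.exists_partition` (Skc1_565) for a refinement which is only
known at the points of the edge, for tilings of different sets.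
-/

set_option autoImplicit false
set_option linter.unusedSectionVars false

open Set Metric MeasureTheory Module Filter Topology

namespace Crest.Agent.R096.Msb_432

open Msh_715 Cut_874 Msh_810 Mal_874
open Skc_565 (edge_ends exists_sorted)

section part

variable {E : Type*} [NormedAddCommGroup E] [NormedSpace ℝ E] {Om Om' : Set E} {ι ι' : Type*}
variable {T' : Tiling Om' ι'} {T : Tiling Om ι}

/-- **partition of an edge of `T` into edges of `T'`** -/
theorem exists_partition_on [FiniteDimensional ℝ E] {x : E} (hx : x ∈ Om)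
    (h : ∀ y ∈ T.cc x, y ∈ Om' ∧ T'.cc y ⊆ T.cc y) (hd : T.dim x = 1) {a v : E} (hcc : T.cc x = segment ℝ a (a + v)) :
    ∃ (n : ℕ) (t : ℕ → ℝ), 0 < n ∧ t 0 = 0 ∧ t n = 1 ∧ (∀ i < n, t i < t (i + 1)) ∧
      (∀ i, i ≤ n → 0 ≤ t i ∧ t i ≤ 1 ∧ T'.dim (a + t i • v) = 0) ∧
      (∀ i < n, ∃ y ∈ Om', T'.dim y = 1 ∧
        T'.cc y = segment ℝ (a + t i • v) (a + t (i + 1) • v)) ∧
      ∀ y ∈ T.cc x, T'.dim y = 1 →
        ∃ i < n, T'.cc y = segment ℝ (a + t i • v) (a + t (i + 1) • v) := by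
  obtain ⟨hv, hda, hdb, -⟩ := edge_ends hx hd hcc
  have hmem : ∀ s : ℝ, 0 ≤ s → s ≤ 1 → a + s • v ∈ T.cc x := by
    intro s h0 h1
    rw [hcc, segment_eq_image']
    exact ⟨s, ⟨h0, h1⟩, by simp⟩
  have hinj : Function.Injective fun s : ℝ => a + s • v := by
    intro s t hst
    have : (s - t) • v = 0 := by
      rw [sub_smul, sub_eq_zero]; exact add_left_cancel hst
    exact sub_eq_zero.1 ((smul_eq_zero.1 this).resolve_right hv)
  set S : Set ℝ := {s | 0 ≤ s ∧ s ≤ 1 ∧ T'.dim (a + s • v) = 0} with hS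
  have hfin : S.Finite := by
    have h1 : ((fun s : ℝ => ({a + s • v} : Set E)) '' S).Finite := by
      refine (T'.finite_cells (T.isCompact_cc hx) (fun y hy => (h y hy).1)).subset ?_
      rintro _ ⟨s, ⟨h0, h1, h2⟩, rfl⟩
      have h3 := T'.cc_eq_singleton (T'.dim_eq_zero_iff.1 h2)
      exact ⟨⟨a + s • v, (h _ (hmem s h0 h1)).1, h3.symm⟩, a + s • v, rfl, hmem s h0 h1⟩
    refine Set.Finite.of_finite_image h1 ?_
    intro s _ t _ hst
    exact hinj (singleton_injective hst)
  have h0S : (0 : ℝ) ∈ S := by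
    refine ⟨le_rfl, zero_le_one, ?_⟩
    have hO := h a (by simpa using hmem 0 le_rfl zero_le_one)
    have := dim_le_of_cc_sub hO.1 hO.2
    rw [zero_smul, add_zero]; omega
  have h1S : (1 : ℝ) ∈ S := by
    refine ⟨zero_le_one, le_rfl, ?_⟩
    have hO := h (a + v) (by simpa using hmem 1 zero_le_one le_rfl)
    have := dim_le_of_cc_sub hO.1 hO.2
    rw [one_smul]; omega
  obtain ⟨n, t, hn, ht0, ht1, hlt, htS, hcons, hall⟩ :=
    exists_sorted S hfin h0S h1S fun s hs => ⟨hs.1, hs.2.1⟩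
  -- the key: a cell of `T'` through an interior point of the `i`-th interval
  have key : ∀ i < n, ∀ s, t i < s → s < t (i + 1) →
      T'.cc (a + s • v) = segment ℝ (a + t i • v) (a + t (i + 1) • v) ∧
        T'.dim (a + s • v) = 1 := by
    intro i hi s hs1 hs2
    have hti := htS i hi.le
    have hti' := htS (i + 1) hi
    have hs0 : 0 ≤ s := hti.1.trans hs1.le
    have hs1' : s ≤ 1 := hs2.le.trans hti'.2.1
    have hyh := h _ (hmem s hs0 hs1')
    have hyO : a + s • v ∈ Om' := hyh.1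
    have hdle : T'.dim (a + s • v) ≤ 1 := by
      refine (dim_le_of_cc_sub hyO hyh.2).trans ?_
      rw [← hd]; exact T.dim_le (hmem s hs0 hs1')
    have hdne : T'.dim (a + s • v) ≠ 0 := by
      intro h0
      rcases hcons i hi s ⟨hs0, hs1', h0⟩ with h3 | h3 <;> linarith
    have hd1 : T'.dim (a + s • v) = 1 := by omega
    refine ⟨?_, hd1⟩
    obtain ⟨p, q, hpq, h1, h2, h3, h4, h5, h6⟩ := T'.edge_eq hyO hd1
    have hsub : T'.cc (a + s • v) ⊆ T.cc x :=
      hyh.2.trans (T.cc_sub_of_mem (hmem s hs0 hs1'))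
    have hp := hsub h5
    have hq := hsub h6
    rw [hcc, segment_eq_image'] at hp hq
    obtain ⟨c, ⟨hc0, hc1⟩, hc⟩ := hp
    obtain ⟨d, ⟨hd0, hd1'⟩, hd'⟩ := hq
    simp only [add_sub_cancel_left] at hc hd'
    have hcS : c ∈ S := ⟨hc0, hc1, by rw [hc]; exact h3⟩
    have hdS : d ∈ S := ⟨hd0, hd1', by rw [hd']; exact h4⟩
    have hyo : a + s • v ∈ openSegment ℝ p q := h2 ▸ T'.self_mem_oc _
    -- points between `c` and `d` have dimension one
    have hbet : ∀ r : ℝ, 0 < r → r < 1 → c + r * (d - c) ∉ S := by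
      intro r hr0 hr1 hrS
      have h7 : a + (c + r * (d - c)) • v ∈ openSegment ℝ p q := by
        rw [openSegment_eq_image']
        refine ⟨r, ⟨hr0, hr1⟩, ?_⟩
        rw [← hc, ← hd']
        simp only [add_smul, mul_smul, sub_smul, smul_add, smul_sub]
        abel
      rw [← h2] at h7
      have h8 := T'.dim_eq_of_mem_oc hyO h7
      have := hrS.2.2
      omega
    obtain ⟨r, ⟨hr0, hr1⟩, hr⟩ : ∃ r : ℝ, (0 < r ∧ r < 1) ∧ s = c + r * (d - c) := by
      rw [openSegment_eq_image'] at hyo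
      obtain ⟨r, ⟨hr0, hr1⟩, hr⟩ := hyo
      refine ⟨r, ⟨hr0, hr1⟩, hinj ?_⟩
      rw [← hc, ← hd'] at hr
      show a + s • v = a + (c + r * (d - c)) • v
      rw [← hr]
      simp only [add_smul, mul_smul, sub_smul, smul_add, smul_sub]
      abel
    have hcd : c ≠ d := by
      rintro rfl
      exact hpq (hc.symm.trans hd')
    -- a point of `S` in the open interval between `c` and `d` is impossible
    have hno : ∀ z ∈ S, ¬ (min c d < z ∧ z < max c d) := by
      rintro z hz ⟨hz1, hz2⟩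
      have hne : d - c ≠ 0 := sub_ne_zero.2 hcd.symm
      refine hbet ((z - c) / (d - c)) ?_ ?_ ?_
      · rcases lt_or_gt_of_ne hcd with hlt' | hlt'
        · rw [min_eq_left hlt'.le] at hz1
          exact div_pos (by linarith) (by linarith)
        · rw [max_eq_left hlt'.le] at hz2
          exact div_pos_of_neg_of_neg (by linarith) (by linarith)
      · rcases lt_or_gt_of_ne hcd with hlt' | hlt'
        · rw [max_eq_right hlt'.le] at hz2
          rw [div_lt_one (by linarith)]; linarith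
        · rw [min_eq_right hlt'.le] at hz1
          rw [div_lt_one_of_neg (by linarith)]; linarith
      · have : c + (z - c) / (d - c) * (d - c) = z := by
          rw [div_mul_cancel₀ _ hne]; ring
        rw [this]; exact hz
    have hsm : min c d < s ∧ s < max c d := by
      rcases lt_or_gt_of_ne hcd with hlt' | hlt'
      · rw [min_eq_left hlt'.le, max_eq_right hlt'.le, hr]
        constructor <;> nlinarith
      · rw [min_eq_right hlt'.le, max_eq_left hlt'.le, hr]
        constructor <;> nlinarith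
    have hmn : min c d ∈ S := by
      rcases min_choice c d with h' | h' <;> rw [h'] <;> assumption
    have hmx : max c d ∈ S := by
      rcases max_choice c d with h' | h' <;> rw [h'] <;> assumption
    have e1 : min c d = t i := by
      rcases hcons i hi _ hmn with h' | h'
      · refine le_antisymm h' (not_lt.1 fun hcon => hno _ hti ⟨hcon, ?_⟩)
        linarith [hsm.2]
      · linarith [hsm.1]
    have e2 : max c d = t (i + 1) := by
      rcases hcons i hi _ hmx with h' | h'
      · linarith [hsm.2]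
      · refine le_antisymm (not_lt.1 fun hcon => hno _ hti' ⟨?_, hcon⟩) h'
        linarith [hsm.1]
    rw [h1, ← hc, ← hd', ← e1, ← e2]
    rcases lt_or_gt_of_ne hcd with hlt' | hlt'
    · rw [min_eq_left hlt'.le, max_eq_right hlt'.le]
    · rw [min_eq_right hlt'.le, max_eq_left hlt'.le, segment_symm]
  refine ⟨n, t, hn, ht0, ht1, hlt, htS, ?_, ?_⟩
  · intro i hi
    have h1 := key i hi ((t i + t (i + 1)) / 2) (by linarith [hlt i hi]) (by linarith [hlt i hi])
    have hti := htS i hi.le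
    have hti' := htS (i + 1) hi
    exact ⟨_, (h _ (hmem _ (by linarith [hti.1, hti'.1]) (by linarith [hti.2.1, hti'.2.1]))).1,
      h1.2, h1.1⟩
  · intro y hy hd1
    rw [hcc, segment_eq_image'] at hy
    obtain ⟨s, ⟨hs0, hs1⟩, hs⟩ := hy
    simp only [add_sub_cancel_left] at hs
    subst hs
    -- find the interval
    have hsS : s ∉ S := fun hs => by have := hs.2.2; omega
    have hex : ∃ i, i ≤ n ∧ s < t i := by
      refine ⟨n, le_rfl, ?_⟩
      rw [ht1]
      refine lt_of_le_of_ne hs1 ?_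
      rintro rfl
      exact hsS h1S
    classical
    have hfind := Nat.find_spec hex
    set j := Nat.find hex with hj
    have hj0 : j ≠ 0 := by
      intro h0
      rw [h0, ht0] at hfind
      linarith [hfind.2]
    obtain ⟨i, hi⟩ := Nat.exists_eq_succ_of_ne_zero hj0
    have hin : i < n := by have := hfind.1; omega
    have hle : t i ≤ s := by
      by_contra hcon
      have := Nat.find_min hex (m := i) (by omega)
      exact this ⟨by omega, not_le.1 hcon⟩
    have hlt' : t i < s := by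
      refine lt_of_le_of_ne hle ?_
      rintro rfl
      exact hsS (htS i hin.le)
    refine ⟨i, hin, (key i hin s hlt' ?_).1⟩
    have := hfind.2
    rw [hi] at this
    exact this

end part

/-! ### segments -/

section seg

variable {E : Type*} [NormedAddCommGroup E] [NormedSpace ℝ E]

theorem seg_eq {a b c d : E} (h : segment ℝ a b = segment ℝ c d) :
    (a = c ∧ b = d) ∨ (a = d ∧ b = c) := by
  have hc : c ∈ segment ℝ a b := h ▸ left_mem_segment _ _ _
  have hd : d ∈ segment ℝ a b := h ▸ right_mem_segment _ _ _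
  have ha : a ∈ segment ℝ c d := h ▸ left_mem_segment _ _ _
  have hb : b ∈ segment ℝ c d := h ▸ right_mem_segment _ _ _
  have h1 := dist_add_dist_of_mem_segment ha
  have h2 := dist_add_dist_of_mem_segment hb
  have h3 := dist_add_dist_of_mem_segment hc
  have h4 := dist_add_dist_of_mem_segment hd
  rw [segment_eq_image'] at hc hd ha
  obtain ⟨s, ⟨hs0, hs1⟩, hs⟩ := hc
  obtain ⟨t, ⟨ht0, ht1⟩, ht⟩ := hd
  obtain ⟨r, ⟨hr0, hr1⟩, hr⟩ := ha
  by_cases hab : a = b
  · subst hab
    simp only [sub_self, smul_zero, add_zero] at hs ht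
    left
    exact ⟨hs, ht⟩
  have hne : b - a ≠ 0 := sub_ne_zero.2 (fun e => hab e.symm)
  have e1 : (s + r * (t - s)) • (b - a) = 0 := by
    have : (s + r * (t - s)) • (b - a) = (c + r • (d - c)) - a := by
      rw [← hs, ← ht, add_smul, mul_smul, sub_smul]
      simp only [smul_sub, smul_add]
      abel
    have h5 : c + r • (d - c) = a := hr
    rw [this, h5, sub_self]
  have e1' : s + r * (t - s) = 0 := (smul_eq_zero.1 e1).resolve_right hne
  have hst : s = 0 ∨ t = 0 := by
    by_contra hcon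
    push Not at hcon
    have h6 : 0 < s := lt_of_le_of_ne hs0 (Ne.symm hcon.1)
    have h7 : 0 < t := lt_of_le_of_ne ht0 (Ne.symm hcon.2)
    have h8 : s * (1 - r) + r * t = 0 := by linarith [e1']
    have h9 : 0 ≤ s * (1 - r) := mul_nonneg hs0 (by linarith)
    have h10 : 0 ≤ r * t := mul_nonneg hr0 ht0
    have h11 : s * (1 - r) = 0 := by linarith
    have h12 : r * t = 0 := by linarith
    rcases mul_eq_zero.1 h11 with h | h
    · exact hcon.1 h
    · rcases mul_eq_zero.1 h12 with h' | h'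
      · linarith
      · exact hcon.2 h'
  obtain ⟨r', ⟨hr0', hr1'⟩, hr'⟩ : ∃ r' ∈ Icc (0 : ℝ) 1, c + r' • (d - c) = b := by
    have := hb
    rw [segment_eq_image'] at this
    exact this
  have e2 : (s + r' * (t - s) - 1) • (b - a) = 0 := by
    have : (s + r' * (t - s) - 1) • (b - a) = (c + r' • (d - c)) - b := by
      rw [← hs, ← ht, sub_smul, add_smul, mul_smul, sub_smul, one_smul]
      simp only [smul_sub, smul_add]
      abel
    rw [this, hr', sub_self]
  have e2' : s + r' * (t - s) - 1 = 0 := (smul_eq_zero.1 e2).resolve_right hne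
  rcases hst with h0 | h0
  · left
    subst h0
    have ht' : t = 1 := by nlinarith
    subst ht'
    simp only [zero_smul, add_zero, one_smul, add_sub_cancel] at hs ht
    exact ⟨hs, ht⟩
  · right
    subst h0
    have hs' : s = 1 := by nlinarith
    subst hs'
    simp only [zero_smul, add_zero, one_smul, add_sub_cancel] at hs ht
    exact ⟨ht, hs⟩

end seg

/-! ### (ED) -/

section ed

variable {n : ℕ} {E : Type*} [NormedAddCommGroup E] [NormedSpace ℝ E] [FiniteDimensional ℝ E]
variable [NeZero n] {J : Type*} (M : MD E n J) {k : J → ℕ} (hk : M.Sc k) (a : Fin n → ℝ)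
  {v : J → E} (hv : M.Adm v) {j : J}

/-- the closed cells of the translated block tiling -/
theorem tr_cc (x : E) : ((M.Bk v j).T (k j) (hk.kc j)).cc (x + v j) =
    (fun y => y + v j) '' ((M.Q j).T (k j) (hk.kc j)).cc x := by
  have h := (M.Q j).rg_tr (v j) (k j) (hk.kc j) x
  ext y
  constructor
  · intro hy
    refine ⟨y - v j, h.cc.1 ?_, sub_add_cancel _ _⟩
    rw [sub_add_cancel]
    exact hy
  · rintro ⟨z, hz, rfl⟩
    exact h.cc.2 hz

theorem seg_tr (e1 e2 w : E) : (fun y => y + w) '' segment ℝ e1 e2 =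
    segment ℝ (e1 + w) (e1 + w + (e2 - e1)) := by
  have h1 : e1 + w + (e2 - e1) = e2 + w := by abel
  rw [h1, segment_eq_image', segment_eq_image', image_image]
  refine image_congr fun t _ => ?_
  simp only [add_sub_add_right_eq_sub]
  abel

/-- **(ED)**: a 1-cell of the block tiling (an element of `Ea0_961.Ed`), translated with the block,
is a chain of 1-cells of `meshS` -/
theorem ed_chain {x : E} (hd : ((M.Q j).T (k j) (hk.kc j)).dim x = 1) {e1 e2 : E}
    (hcc : ((M.Q j).T (k j) (hk.kc j)).cc x = segment ℝ e1 e2)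
    (hN : segment ℝ e1 e2 ⊆ (M.Q j).N) :
    ∃ (m : ℕ) (t : ℕ → ℝ), 0 < m ∧ t 0 = 0 ∧ t m = 1 ∧ (∀ i < m, t i < t (i + 1)) ∧
      (∀ i, i ≤ m → 0 ≤ t i ∧ t i ≤ 1 ∧
        (meshS M hk a hv).dim (e1 + v j + t i • (e2 - e1)) = 0) ∧
      (∀ i < m, ∃ y ∈ M.φ ⁻¹' M.D0.Om, (meshS M hk a hv).dim y = 1 ∧
        (meshS M hk a hv).cc y = segment ℝ (e1 + v j + t i • (e2 - e1))
          (e1 + v j + t (i + 1) • (e2 - e1))) ∧
      ∀ y ∈ ((M.Q j).T (k j) (hk.kc j)).cc x, (meshS M hk a hv).dim (y + v j) = 1 →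
        ∃ i < m, (meshS M hk a hv).cc (y + v j) = segment ℝ (e1 + v j + t i • (e2 - e1))
          (e1 + v j + t (i + 1) • (e2 - e1)) := by
  have hx : x + v j ∈ (M.Bk v j).ψ ⁻¹' ((M.Bk v j).D (k j) (hk.kc j)).Om := mem_TsB_Om _ _ _ _
  have hcc' : ((M.Bk v j).T (k j) (hk.kc j)).cc (x + v j) =
      segment ℝ (e1 + v j) (e1 + v j + (e2 - e1)) := by
    rw [tr_cc M hk, hcc, seg_tr]
  have hdd : ((M.Bk v j).T (k j) (hk.kc j)).dim (x + v j) = 1 := by
    rw [← hd]
    exact ((M.Q j).rg_tr (v j) (k j) (hk.kc j) x).dim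
  have hin : ∀ y ∈ ((M.Bk v j).T (k j) (hk.kc j)).cc (x + v j), y ∈ (M.Bk v j).N := by
    intro y hy
    rw [tr_cc M hk, hcc] at hy
    obtain ⟨z, hz, rfl⟩ := hy
    show z + v j ∈ ((M.Q j).tr (v j)).N
    rw [CB.mem_N_tr, add_sub_cancel_right]
    exact hN hz
  obtain ⟨m, t, h1, h2, h3, h4, h5, h6, h7⟩ :=
    exists_partition_on (T' := meshS M hk a hv) (T := (M.Bk v j).T (k j) (hk.kc j)) hx
      (fun y hy => ⟨N_sub_Om M hk a hv (hin y hy), meshS_cc_T M hk a hv (hin y hy)⟩) hdd hcc'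
  refine ⟨m, t, h1, h2, h3, h4, h5, h6, ?_⟩
  intro y hy hdy
  exact h7 (y + v j) (by rw [tr_cc M hk]; exact mem_image_of_mem _ hy) hdy




end ed

end Crest.Agent.R096.Msb_432
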