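import Crest.Agent.R096.Mal16_874

-- ▼ part R096/Mal17_874
section

/-!
# Row 96, library (MESH-AL), part 17: rigidity (a common translation of the outer grid and of all blocks)
-/

set_option autoImplicit false

open Set Filter Topology Metric

namespace Crest.Agent.R096.Mal_874

open Msh_715 Cut_874 Msh_810

variable {n : ℕ} {E : Type*} [NormedAddCommGroup E] [NormedSpace ℝ E]

/-! ### translated inequalities -/

/-- translated inequality -/
def trh (b : E) (h : (E →L[ℝ] ℝ) × ℝ) : (E →L[ℝ] ℝ) × ℝ := (h.1, h.2 + h.1 b)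

theorem trh_inj (b : E) : Function.Injective (trh b) := by
  rintro ⟨f, s⟩ ⟨g, t⟩ h
  simp only [trh, Prod.mk.injEq] at h
  obtain ⟨rfl, h⟩ := h
  rw [add_left_inj] at h
  rw [h]

theorem opp_trh (b : E) (h : (E →L[ℝ] ℝ) × ℝ) : opp (trh b h) = trh b (opp h) := by
  unfold opp trh
  ext1
  · rfl
  · show -(h.2 + h.1 b) = -h.2 + (-h.1) b
    rw [neg_apply]
    ring

open Classical in
/-- translated system of inequalities -/
noncomputable def trS (b : E) (G : Finset ((E →L[ℝ] ℝ) × ℝ)) : Finset ((E →L[ℝ] ℝ) × ℝ) :=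
  G.image (trh b)

theorem forall_trS {b : E} {G : Finset ((E →L[ℝ] ℝ) × ℝ)} {Q : (E →L[ℝ] ℝ) × ℝ → Prop} :
    (∀ h ∈ trS b G, Q h) ↔ ∀ h ∈ G, Q (trh b h) := by
  classical
  unfold trS
  simp only [Finset.mem_image, forall_exists_index, and_imp, forall_apply_eq_imp_iff₂]

theorem mem_trS {b : E} {G : Finset ((E →L[ℝ] ℝ) × ℝ)} {h : (E →L[ℝ] ℝ) × ℝ} :
    trh b h ∈ trS b G ↔ h ∈ G := by
  classical
  unfold trS
  rw [Finset.mem_image]
  exact ⟨fun ⟨g, hg, e⟩ => trh_inj b e ▸ hg, fun hh => ⟨h, hh, rfl⟩⟩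

theorem mem_P_trS {b y : E} {G : Finset ((E →L[ℝ] ℝ) × ℝ)} : y + b ∈ P (trS b G) ↔ y ∈ P G := by
  show (∀ h ∈ trS b G, h.1 (y + b) ≤ h.2) ↔ ∀ h ∈ G, h.1 y ≤ h.2
  rw [forall_trS]
  refine forall₂_congr fun h _ => ?_
  show h.1 (y + b) ≤ h.2 + h.1 b ↔ _
  rw [map_add, add_le_add_iff_right]

theorem mem_I_trS {b y : E} {G : Finset ((E →L[ℝ] ℝ) × ℝ)} : y + b ∈ I (trS b G) ↔ y ∈ I G := by
  show (∀ h ∈ trS b G, h.1 (y + b) < h.2) ↔ ∀ h ∈ G, h.1 y < h.2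
  rw [forall_trS]
  refine forall₂_congr fun h _ => ?_
  show h.1 (y + b) < h.2 + h.1 b ↔ _
  rw [map_add, add_lt_add_iff_right]

theorem P_trS (b : E) (G : Finset ((E →L[ℝ] ℝ) × ℝ)) : P (trS b G) = (fun y => b + y) '' P G := by
  ext y
  constructor
  · intro hy
    refine ⟨y - b, mem_P_trS.1 (by rwa [sub_add_cancel]), ?_⟩
    show b + (y - b) = y
    abel
  · rintro ⟨z, hz, rfl⟩
    show b + z ∈ _
    rw [add_comm]
    exact mem_P_trS.2 hz

theorem I_trS_ne {b : E} {G : Finset ((E →L[ℝ] ℝ) × ℝ)} (h : (I G).Nonempty) :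
    (I (trS b G)).Nonempty := by
  obtain ⟨y, hy⟩ := h
  exact ⟨y + b, mem_I_trS.2 hy⟩

theorem trS_trS (b c : E) (G : Finset ((E →L[ℝ] ℝ) × ℝ)) : trS c (trS b G) = trS (b + c) G := by
  classical
  unfold trS
  rw [Finset.image_image]
  congr 1
  funext h
  show trh c (trh b h) = trh (b + c) h
  unfold trh
  ext1
  · rfl
  · show h.2 + h.1 b + h.1 c = h.2 + h.1 (b + c)
    rw [map_add]
    ring

theorem trS_zero (G : Finset ((E →L[ℝ] ℝ) × ℝ)) : trS 0 G = G := by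
  classical
  unfold trS
  have : (trh (0 : E)) = id := by
    funext h
    unfold trh
    ext1
    · rfl
    · show h.2 + h.1 0 = h.2
      rw [map_zero, add_zero]
  rw [this, Finset.image_id]

/-- a piece of a translated tile -/
theorem trS_cutH (b : E) (H A σ : Finset ((E →L[ℝ] ℝ) × ℝ)) :
    cutH (trS b H) (trS b A) (trS b σ) = trS b (cutH H A σ) := by
  classical
  ext g
  constructor
  · intro hg
    rcases mem_cutH.1 hg with h | h | ⟨a, ha, hn, rfl⟩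
    · unfold trS at h
      obtain ⟨h', hh, rfl⟩ := Finset.mem_image.1 h
      exact mem_trS.2 (mem_cutH.2 (Or.inl hh))
    · unfold trS at h
      obtain ⟨h', hh, rfl⟩ := Finset.mem_image.1 h
      exact mem_trS.2 (mem_cutH.2 (Or.inr (Or.inl hh)))
    · unfold trS at ha
      obtain ⟨a', ha', rfl⟩ := Finset.mem_image.1 ha
      rw [opp_trh]
      exact mem_trS.2 (mem_cutH.2 (Or.inr (Or.inr ⟨a', ha', fun h => hn (mem_trS.2 h), rfl⟩)))
  · intro hg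
    unfold trS at hg
    obtain ⟨g', hg', rfl⟩ := Finset.mem_image.1 hg
    rcases mem_cutH.1 hg' with h | h | ⟨a, ha, hn, rfl⟩
    · exact mem_cutH.2 (Or.inl (mem_trS.2 h))
    · exact mem_cutH.2 (Or.inr (Or.inl (mem_trS.2 h)))
    · rw [← opp_trh]
      exact mem_cutH.2 (Or.inr (Or.inr ⟨_, mem_trS.2 ha, fun h => hn (mem_trS.1 h), rfl⟩))

/-! ### rigidity at a point -/

/-- the tiles of `T'` through `p + b` are the translates of the tiles of `T` through `p`, with their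
inequalities -/
def Rg {Om Om' : Set E} {ι ι' : Type*} (T : Tiling Om ι) (T' : Tiling Om' ι') (b p : E) : Prop :=
  (∀ i ∈ T.at_ p, ∃ i' ∈ T'.at_ (p + b), T'.H i' = trS b (T.H i)) ∧
    ∀ i' ∈ T'.at_ (p + b), ∃ i ∈ T.at_ p, T'.H i' = trS b (T.H i)

section

variable {Om Om' : Set E} {ι ι' : Type*} {T : Tiling Om ι} {T' : Tiling Om' ι'} {b p : E}

/-- the tile sets through the point -/
theorem Rg.sets (h : Rg T T' b p) :
    (fun j => P (T'.H j)) '' T'.at_ (p + b) =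
      (fun i => (fun y => b + y) '' P (T.H i)) '' T.at_ p := by
  ext C
  constructor
  · rintro ⟨j, hj, rfl⟩
    obtain ⟨i, hi, e⟩ := h.2 j hj
    refine ⟨i, hi, ?_⟩
    show (fun y => b + y) '' P (T.H i) = P (T'.H j)
    rw [e, P_trS]
  · rintro ⟨i, hi, rfl⟩
    obtain ⟨j, hj, e⟩ := h.1 i hi
    refine ⟨j, hj, ?_⟩
    show P (T'.H j) = (fun y => b + y) '' P (T.H i)
    rw [e, P_trS]

/-- the closed cell -/
theorem Rg.cc (h : Rg T T' b p) {y : E} : y + b ∈ T'.cc (p + b) ↔ y ∈ T.cc p := by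
  have key : ∀ g : (E →L[ℝ] ℝ) × ℝ, ((trh b g).1 (y + b) ≤ (trh b g).2 ∧
      ((trh b g).1 (p + b) = (trh b g).2 → (trh b g).1 (y + b) = (trh b g).2)) ↔
      (g.1 y ≤ g.2 ∧ (g.1 p = g.2 → g.1 y = g.2)) := by
    intro g
    show (g.1 (y + b) ≤ g.2 + g.1 b ∧ (g.1 (p + b) = g.2 + g.1 b → g.1 (y + b) = g.2 + g.1 b)) ↔ _
    rw [map_add, map_add, add_le_add_iff_right, add_left_inj, add_left_inj]
  constructor
  · intro hy i hi g hg
    obtain ⟨j, hj, e⟩ := h.1 i hi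
    have := hy j hj (trh b g) (by rw [e]; exact mem_trS.2 hg)
    exact (key g).1 this
  · intro hy j hj
    obtain ⟨i, hi, e⟩ := h.2 j hj
    rw [e, forall_trS]
    intro g hg
    exact (key g).2 (hy i hi g hg)

/-- the directions of the cell -/
theorem Rg.V (h : Rg T T' b p) : T'.V (p + b) = T.V p := by
  ext v
  constructor
  · intro hv i hi g hg e0
    obtain ⟨j, hj, e⟩ := h.1 i hi
    refine hv j hj (trh b g) (by rw [e]; exact mem_trS.2 hg) ?_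
    show g.1 (p + b) = g.2 + g.1 b
    rw [map_add, e0]
  · intro hv j hj
    obtain ⟨i, hi, e⟩ := h.2 j hj
    rw [e, forall_trS]
    intro g hg e0
    refine hv i hi g hg ?_
    have e1 : g.1 (p + b) = g.2 + g.1 b := e0
    rw [map_add, add_left_inj] at e1
    exact e1

theorem Rg.dim (h : Rg T T' b p) : T'.dim (p + b) = T.dim p := by
  unfold Tiling.dim
  rw [h.V]


/-- rigidity of a cut mesh -/
theorem Rg.cut {A : ι → Finset ((E →L[ℝ] ℝ) × ℝ)} {hA : ∀ i, ∀ a ∈ A i, a.1 ≠ 0}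
    {A' : ι' → Finset ((E →L[ℝ] ℝ) × ℝ)} {hA' : ∀ i, ∀ a ∈ A' i, a.1 ≠ 0} (h : Rg T T' b p)
    (hAA : ∀ i ∈ T.at_ p, ∀ i', T'.H i' = trS b (T.H i) → A' i' = trS b (A i)) :
    Rg (Cut_874.cut T A hA) (Cut_874.cut T' A' hA') b p := by
  classical
  constructor
  · rintro ⟨⟨i, σ⟩, hσ, hne⟩ hi
    have hi0 : i ∈ T.at_ p := (mem_P_cutH.1 (show p ∈ P (cutH (T.H i) (A i) σ) from hi)).1
    obtain ⟨i', hi', e⟩ := h.1 i hi0
    have e2 := hAA i hi0 i' e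
    have e3 : cutH (T'.H i') (A' i') (trS b σ) = trS b (cutH (T.H i) (A i) σ) := by
      rw [e, e2, trS_cutH]
    refine ⟨⟨⟨i', trS b σ⟩, ?_, ?_⟩, ?_, e3⟩
    · rw [e2]
      exact Finset.image_subset_image hσ
    · rw [e3]
      exact I_trS_ne hne
    · show p + b ∈ P (cutH (T'.H i') (A' i') (trS b σ))
      rw [e3]
      exact mem_P_trS.2 hi
  · rintro ⟨⟨i', σ'⟩, hσ, hne⟩ hi
    have hi0 : i' ∈ T'.at_ (p + b) :=
      (mem_P_cutH.1 (show p + b ∈ P (cutH (T'.H i') (A' i') σ') from hi)).1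
    obtain ⟨i, hi1, e⟩ := h.2 i' hi0
    have e2 := hAA i hi1 i' e
    obtain ⟨σ, rfl⟩ : ∃ σ, σ' = trS b σ := ⟨trS (-b) σ', by rw [trS_trS, neg_add_cancel, trS_zero]⟩
    have e3 : cutH (T'.H i') (A' i') (trS b σ) = trS b (cutH (T.H i) (A i) σ) := by
      rw [e, e2, trS_cutH]
    refine ⟨⟨⟨i, σ⟩, ?_, ?_⟩, ?_, e3⟩
    · intro a ha
      have h1 : trh b a ∈ A' i' := hσ (mem_trS.2 ha)
      rw [e2] at h1
      exact mem_trS.1 h1
    · have h1 : (I (trS b (cutH (T.H i) (A i) σ))).Nonempty := by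
        rw [← e3]; exact hne
      obtain ⟨y, hy⟩ := h1
      refine ⟨y - b, (mem_I_trS (b := b)).1 ?_⟩
      rwa [sub_add_cancel]
    · show p ∈ P (cutH (T.H i) (A i) σ)
      have h1 : p + b ∈ P (cutH (T'.H i') (A' i') (trS b σ)) := hi
      rw [e3] at h1
      exact mem_P_trS.1 h1

/-- rigidity of a patched mesh -/
theorem Rg.patch {A : Set ι} {A' : Set ι'} {κ κ' : Type*} {H : κ → Finset ((E →L[ℝ] ℝ) × ℝ)}
    {H' : κ' → Finset ((E →L[ℝ] ℝ) × ℝ)} {R : Repl T A H} {R' : Repl T' A' H'} (h : Rg T T' b p)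
    (hA : ∀ i ∈ T.at_ p, ∀ i', T'.H i' = trS b (T.H i) → (i' ∈ A' ↔ i ∈ A))
    (h1 : ∀ k, p ∈ P (H k) → ∃ k', H' k' = trS b (H k))
    (h2 : ∀ k', p + b ∈ P (H' k') → ∃ k, H' k' = trS b (H k)) :
    Rg (Mal_874.patch T A H R) (Mal_874.patch T' A' H' R') b p := by
  constructor
  · rintro (i | k) hi
    · obtain ⟨i', hi', e⟩ := h.1 i.1 hi
      exact ⟨Sum.inl ⟨i', fun hh => i.2 ((hA i.1 hi i' e).1 hh)⟩, hi', e⟩
    · obtain ⟨k', e⟩ := h1 k hi
      refine ⟨Sum.inr k', ?_, e⟩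
      show p + b ∈ P (H' k')
      rw [e]
      exact mem_P_trS.2 hi
  · rintro (i' | k') hi'
    · obtain ⟨i, hi, e⟩ := h.2 i'.1 hi'
      exact ⟨Sum.inl ⟨i, fun hh => i'.2 ((hA i hi i'.1 e).2 hh)⟩, hi, e⟩
    · obtain ⟨k, e⟩ := h2 k' hi'
      refine ⟨Sum.inr k, ?_, e⟩
      show p ∈ P (H k)
      have h3 : p + b ∈ P (H' k') := hi'
      rw [e] at h3
      exact mem_P_trS.1 h3

end

/-! ### graded cubes -/

theorem Hc_tr (φ : E ≃L[ℝ] (Fin n → ℝ)) (a : Fin n → ℝ) (b : E) (k : ℕ) (z : Fin n → ℤ) :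
    Hc φ (a + φ b) k z = trS b (Hc φ a k z) := by
  classical
  unfold Hc trS
  rw [Finset.image_image]
  congr 1
  funext q
  show hc φ (a + φ b) k z q = trh b (hc φ a k z q)
  unfold hc trh
  by_cases h : q.2 = true
  · rw [if_pos h, if_pos h]
    ext1
    · rfl
    · show a q.1 + φ b q.1 + _ = a q.1 + _ + φ b q.1
      ring
  · rw [if_neg h, if_neg h]
    ext1
    · rfl
    · show -(a q.1 + φ b q.1 + _) = -(a q.1 + _) + -(φ b q.1)
      ring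

theorem ps_add (a c x : Fin n → ℝ) (k : ℕ) : ps (a + c) k (x + c) = ps a k x := by
  funext i
  unfold ps
  simp only [Pi.add_apply]
  ring

theorem mem_Cu_add {a c x : Fin n → ℝ} {k : ℕ} {z : Fin n → ℤ} :
    x + c ∈ Cu (a + c) k z ↔ x ∈ Cu a k z := by
  rw [mem_Cu, mem_Cu, ps_add]

theorem mem_Do_add {a c x : Fin n → ℝ} {σ : Idx n} : x + c ∈ Do (a + c) σ ↔ x ∈ Do a σ := by
  unfold Do
  rw [mem_ofPred_eq, mem_ofPred_eq, ps_add]

/-- data of a translated Whitney mesh -/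
structure TrD (D D' : Dat n) (c : Fin n → ℝ) : Prop where
  ρ : ∀ x, D'.ρ (x + c) = D.ρ x
  C : D'.C = D.C
  a : D'.a = D.a + c

theorem TrD.adm {D D' : Dat n} {c : Fin n → ℝ} (h : TrD D D' c) {k : ℕ} {z : Fin n → ℤ} :
    Msh_810.Adm D' k z ↔ Msh_810.Adm D k z := by
  unfold Msh_810.Adm
  rw [h.C, h.a]
  constructor
  · intro hx x hxz
    rw [← h.ρ x]
    exact hx _ (mem_Cu_add.2 hxz)
  · intro hx x hxz
    have e : x = (x - c) + c := by abel
    rw [e, h.ρ]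
    refine hx _ (mem_Cu_add (c := c).1 ?_)
    rwa [← e]

theorem TrD.K {D D' : Dat n} {c : Fin n → ℝ} (h : TrD D D' c) (x : Fin n → ℝ) :
    K D' (x + c) = K D x := by
  unfold Msh_810.K
  congr 1
  ext k
  unfold gd
  rw [mem_ofPred_eq, mem_ofPred_eq]
  refine forall_congr' fun z => ?_
  rw [h.adm, h.a, mem_Cu_add]

theorem TrD.isM {D D' : Dat n} {c : Fin n → ℝ} (h : TrD D D' c) {σ : Idx n} :
    IsM D' σ ↔ IsM D σ := by
  unfold IsM
  constructor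
  · rintro ⟨x, hx, hx0, hxK⟩
    have e : x = (x - c) + c := by abel
    rw [e, h.a, mem_Do_add] at hx
    rw [e, h.ρ] at hx0
    rw [e, h.K] at hxK
    exact ⟨x - c, hx, hx0, hxK⟩
  · rintro ⟨x, hx, hx0, hxK⟩
    refine ⟨x + c, ?_, ?_, ?_⟩
    · rw [h.a]; exact mem_Do_add.2 hx
    · rw [h.ρ]; exact hx0
    · rw [h.K]; exact hxK

theorem mem_at_tiling {φ : E ≃L[ℝ] (Fin n → ℝ)} {D : Dat n} {p : E} {τ : Top D} :
    τ ∈ (tiling φ D).at_ p ↔ φ p ∈ Cu D.a τ.1.1.k τ.1.1.z := by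
  have h := P_Hc φ D.a τ.1.1.k τ.1.1.z
  change p ∈ P (Hc φ D.a τ.1.1.k τ.1.1.z) ↔ _
  rw [h]
  rfl

/-- a Whitney mesh and its translate -/
theorem TrD.rg {φ : E ≃L[ℝ] (Fin n → ℝ)} {D D' : Dat n} {b : E} (h : TrD D D' (φ b)) (p : E) :
    Rg (tiling φ D) (tiling φ D') b p := by
  constructor
  · rintro τ hτ
    refine ⟨⟨⟨τ.1.1, h.isM.2 τ.1.2⟩, τ.2⟩, ?_, ?_⟩
    · rw [mem_at_tiling] at hτ ⊢
      rw [map_add, h.a]
      exact mem_Cu_add.2 hτ
    · show Hc φ D'.a _ _ = trS b (Hc φ D.a _ _)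
      rw [h.a, Hc_tr]
  · rintro τ hτ
    refine ⟨⟨⟨τ.1.1, h.isM.1 τ.1.2⟩, τ.2⟩, ?_, ?_⟩
    · rw [mem_at_tiling] at hτ ⊢
      rw [map_add, h.a] at hτ
      exact mem_Cu_add.1 hτ
    · show Hc φ D'.a _ _ = trS b (Hc φ D.a _ _)
      rw [h.a, Hc_tr]

/-- near a point where the scale is `κ` all cubes of scale `κ` are tiles -/
theorem isM_of_near {D : Dat n} {x : Fin n → ℝ} {κ : ℕ} (hx : x ∈ D.Om)
    (h : ∀ᶠ y in 𝓝 x, K D y = κ) {z : Fin n → ℤ} (hz : x ∈ Cu D.a κ z) :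
    IsM D ⟨κ, z, Finset.univ⟩ := by
  have h1 : ∀ᶠ y in 𝓝 x, 0 < D.ρ y :=
    (isOpen_lt continuous_const D.continuous_ρ).mem_nhds hx
  have h2 := (mem_closure_iff_frequently.1 (Cu_sub_closure D.a κ z hz)).and_eventually (h.and h1)
  obtain ⟨y, hy1, hy2, hy3⟩ := h2.exists
  refine ⟨y, ?_, hy3, hy2⟩
  rw [Do_univ]
  exact hy1

/-- **two Whitney meshes with constant scale near the point** -/
theorem rg_const {φ : E ≃L[ℝ] (Fin n → ℝ)} {D D' : Dat n} {b p : E} (ha : D'.a = D.a + φ b)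
    {κ : ℕ} (hp : φ p ∈ D.Om) (hp' : φ (p + b) ∈ D'.Om) (h : ∀ᶠ y in 𝓝 (φ p), K D y = κ)
    (h' : ∀ᶠ y in 𝓝 (φ (p + b)), K D' y = κ) : Rg (tiling φ D) (tiling φ D') b p := by
  constructor
  · rintro τ hτ
    have hk : τ.1.1.k = κ := tile_k_eq (φ := φ) (D := D) (x := p) hτ h
    rw [mem_at_tiling] at hτ
    have hz : φ (p + b) ∈ Cu D'.a κ τ.1.1.z := by
      rw [map_add, ha, ← hk]
      exact mem_Cu_add.2 hτ
    refine ⟨⟨⟨⟨κ, τ.1.1.z, Finset.univ⟩, isM_of_near hp' h' hz⟩, rfl⟩, ?_, ?_⟩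
    · rw [mem_at_tiling]
      exact hz
    · show Hc φ D'.a κ _ = trS b (Hc φ D.a τ.1.1.k _)
      rw [ha, Hc_tr, hk]
  · rintro τ hτ
    have hk : τ.1.1.k = κ := tile_k_eq (φ := φ) (D := D') (x := p + b) hτ h'
    rw [mem_at_tiling] at hτ
    have hz : φ p ∈ Cu D.a κ τ.1.1.z := by
      rw [map_add, ha, hk] at hτ
      exact mem_Cu_add.1 hτ
    refine ⟨⟨⟨⟨κ, τ.1.1.z, Finset.univ⟩, isM_of_near hp h hz⟩, rfl⟩, ?_, ?_⟩
    · rw [mem_at_tiling]
      exact hz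
    · show Hc φ D'.a τ.1.1.k _ = trS b (Hc φ D.a κ _)
      rw [ha, Hc_tr, hk]

end Crest.Agent.R096.Mal_874
end

-- ▼ part R096/Mal18_874

/-!
# Row 96, library (MESH-AL), part 18: rigidity of the block tilings and of the aligned mesh
-/

set_option autoImplicit false

open Set Filter Topology Metric

namespace Crest.Agent.R096.Mal_874

open Msh_715 Cut_874 Msh_810

variable {n : ℕ} {E : Type*} [NormedAddCommGroup E] [NormedSpace ℝ E]

/-! ### translated blocks -/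

theorem mem_pc_add {a c x : Fin n → ℝ} {κ : ℕ} {Z : Set (Fin n → ℤ)} :
    x + c ∈ pc (a + c) κ Z ↔ x ∈ pc a κ Z := by
  rw [mem_pc, mem_pc]
  exact exists_congr fun z => and_congr Iff.rfl mem_Cu_add

theorem mem_blk_add {ψ : E ≃L[ℝ] (Fin n → ℝ)} {a' : Fin n → ℝ} {κ : ℕ} {Z : Set (Fin n → ℤ)}
    {b y : E} : y + b ∈ blk ψ (a' + ψ b) κ Z ↔ y ∈ blk ψ a' κ Z := by
  unfold blk
  rw [mem_preimage, mem_preimage, map_add]
  exact mem_pc_add

theorem mem_frontier_blk_add {ψ : E ≃L[ℝ] (Fin n → ℝ)} {a' : Fin n → ℝ} {κ : ℕ}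
    {Z : Set (Fin n → ℤ)} {b y : E} :
    y + b ∈ frontier (blk ψ (a' + ψ b) κ Z) ↔ y ∈ frontier (blk ψ a' κ Z) := by
  have h : (Homeomorph.addRight b) ⁻¹' blk ψ (a' + ψ b) κ Z = blk ψ a' κ Z := by
    ext z
    exact mem_blk_add
  have h2 := (Homeomorph.addRight b).preimage_frontier (blk ψ (a' + ψ b) κ Z)
  rw [h] at h2
  rw [← h2]
  rfl

theorem mem_frontier_pc_add {a c x : Fin n → ℝ} {κ : ℕ} {Z : Set (Fin n → ℤ)} :
    x + c ∈ frontier (pc (a + c) κ Z) ↔ x ∈ frontier (pc a κ Z) := by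
  have h : (Homeomorph.addRight c) ⁻¹' pc (a + c) κ Z = pc a κ Z := by
    ext z
    exact mem_pc_add
  have h2 := (Homeomorph.addRight c).preimage_frontier (pc (a + c) κ Z)
  rw [h] at h2
  rw [← h2]
  rfl

theorem P_sub_iff {b : E} {G G' : Finset ((E →L[ℝ] ℝ) × ℝ)} (h : G' = trS b G) {N N' : Set E}
    (hN : ∀ y, y + b ∈ N' ↔ y ∈ N) : P G' ⊆ N' ↔ P G ⊆ N := by
  subst h
  constructor
  · intro hs y hy
    exact (hN y).1 (hs (mem_P_trS.2 hy))
  · intro hs y hy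
    have e : y = (y - b) + b := by abel
    rw [e, hN]
    refine hs ((mem_P_trS (b := b)).1 ?_)
    rwa [← e]

/-! ### the cutting planes -/

section

variable {Om Om' : Set E} {ι ι' J : Type*} {T : Tiling Om ι} {T' : Tiling Om' ι'} {b : E}

theorem plS_tr {ψ : E ≃L[ℝ] (Fin n → ℝ)} {a' : Fin n → ℝ} {κ : ℕ} {i : ι} {i' : ι'}
    (hi : T'.H i' = trS b (T.H i)) :
    plS T' ψ (a' + ψ b) κ i' = trh b '' plS T ψ a' κ i := by
  have key : ∀ (m : Fin n) (t : ℤ), ((co ψ m, (a' + ψ b) m + t / 2 ^ κ) : (E →L[ℝ] ℝ) × ℝ) =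
      trh b (co ψ m, a' m + t / 2 ^ κ) := by
    intro m t
    unfold trh
    ext1
    · rfl
    · show a' m + ψ b m + _ = a' m + _ + ψ b m
      ring
  ext h
  constructor
  · rintro ⟨m, t, rfl, y, hy, e⟩
    refine ⟨_, ⟨m, t, rfl, y - b, ?_, ?_⟩, (key m t).symm⟩
    · rw [hi] at hy
      refine (mem_P_trS (b := b)).1 ?_
      rwa [sub_add_cancel]
    · rw [map_sub]
      have e' : ψ y m = a' m + ψ b m + t / 2 ^ κ := e
      show ψ y m - ψ b m = _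
      rw [e']
      ring
  · rintro ⟨_, ⟨m, t, rfl, y, hy, e⟩, rfl⟩
    refine ⟨m, t, key m t, y + b, ?_, ?_⟩
    · rw [hi]
      exact mem_P_trS.2 hy
    · rw [map_add]
      show ψ y m + ψ b m = a' m + ψ b m + _
      rw [e]
      ring

theorem AS_tr {ψ : J → E ≃L[ℝ] (Fin n → ℝ)} {a' a'' : J → Fin n → ℝ} {κ : J → ℕ}
    {Z : J → Set (Fin n → ℤ)} (ha : ∀ j, a'' j = a' j + ψ j b) {i : ι} {i' : ι'}
    (hi : T'.H i' = trS b (T.H i)) : AS T' ψ a'' κ Z i' = trh b '' AS T ψ a' κ Z i := by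
  ext h
  constructor
  · rintro ⟨j, ⟨y, hy, hyf⟩, hj⟩
    rw [ha j] at hyf hj
    rw [plS_tr hi] at hj
    obtain ⟨g, hg, rfl⟩ := hj
    refine ⟨g, ⟨j, ⟨y - b, ?_, ?_⟩, hg⟩, rfl⟩
    · rw [hi] at hy
      refine (mem_P_trS (b := b)).1 ?_
      rwa [sub_add_cancel]
    · refine (mem_frontier_blk_add (b := b)).1 ?_
      rwa [sub_add_cancel]
  · rintro ⟨g, ⟨j, ⟨y, hy, hyf⟩, hj⟩, rfl⟩
    refine ⟨j, ⟨y + b, ?_, ?_⟩, ?_⟩
    · rw [hi]
      exact mem_P_trS.2 hy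
    · rw [ha j]
      exact mem_frontier_blk_add.2 hyf
    · rw [ha j, plS_tr hi]
      exact mem_image_of_mem _ hj

theorem AF_tr {ψ : J → E ≃L[ℝ] (Fin n → ℝ)} {a' a'' : J → Fin n → ℝ} {κ : J → ℕ}
    {Z : J → Set (Fin n → ℤ)} (ha : ∀ j, a'' j = a' j + ψ j b) {i : ι} {i' : ι'}
    (hi : T'.H i' = trS b (T.H i)) : AF T' ψ a'' κ Z i' = trS b (AF T ψ a' κ Z i) := by
  classical
  have h1 := AS_tr (κ := κ) (Z := Z) ha hi
  by_cases hf : (AS T ψ a' κ Z i).Finite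
  · have hf' : (AS T' ψ a'' κ Z i').Finite := by
      rw [h1]
      exact hf.image _
    unfold AF
    rw [dif_pos hf, dif_pos hf']
    ext h
    unfold trS
    rw [Set.Finite.mem_toFinset, Finset.mem_image, h1]
    constructor
    · rintro ⟨g, hg, rfl⟩
      exact ⟨g, (Set.Finite.mem_toFinset hf).2 hg, rfl⟩
    · rintro ⟨g, hg, rfl⟩
      exact ⟨g, (Set.Finite.mem_toFinset hf).1 hg, rfl⟩
  · have hf' : ¬ (AS T' ψ a'' κ Z i').Finite := by
      rw [h1]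
      intro h
      exact hf (Set.Finite.of_finite_image h (trh_inj b).injOn)
    unfold AF
    rw [dif_neg hf, dif_neg hf']
    unfold trS
    rw [Finset.image_empty]

end

/-! ### the block tilings -/

theorem iH_tr (ψ : E ≃L[ℝ] (Fin n → ℝ)) (a' : Fin n → ℝ) (b : E) (k : ℕ)
    (S : Finset ((Fin n → ℤ) × ℤ)) : iH ψ (a' + ψ b) k S = trS b (iH ψ a' k S) := by
  classical
  unfold iH trS
  rw [Finset.image_image]
  congr 1
  funext q
  show iq ψ (a' + ψ b) k q = trh b (iq ψ a' k q)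
  unfold iq trh
  ext1
  · rfl
  · show dt (rv q.1) (a' + ψ b) + _ = dt (rv q.1) a' + _ + (∑ m, (q.1 m : ℝ) • co ψ m) b
    rw [sum_apply]
    have e : dt (rv q.1) (a' + ψ b) = dt (rv q.1) a' + dt (rv q.1) (ψ b) := by
      unfold dt
      rw [← Finset.sum_add_distrib]
      exact Finset.sum_congr rfl fun m _ => by rw [Pi.add_apply]; ring
    rw [e]
    have e2 : ∑ m, ((q.1 m : ℝ) • co ψ m) b = dt (rv q.1) (ψ b) := rfl
    rw [e2]
    ring

namespace CB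

theorem tr_add (Q : CB E n) (v b : E) : Q.tr (v + b) = (Q.tr v).tr b := by
  unfold tr
  congr 1
  show Q.a' + Q.ψ (v + b) = Q.a' + Q.ψ v + Q.ψ b
  rw [map_add, add_assoc]

theorem mem_W_tr (Q : CB E n) (b : E) {x : Fin n → ℝ} : x + Q.ψ b ∈ (Q.tr b).W ↔ x ∈ Q.W :=
  mem_frontier_pc_add

theorem infDist_W_tr (Q : CB E n) (b : E) (x : Fin n → ℝ) :
    infDist (x + Q.ψ b) (Q.tr b).W = infDist x Q.W := by
  have h : (Q.tr b).W = (fun y => y + Q.ψ b) '' Q.W := by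
    ext y
    constructor
    · intro hy
      refine ⟨y - Q.ψ b, (Q.mem_W_tr b).1 (by rwa [sub_add_cancel]), sub_add_cancel _ _⟩
    · rintro ⟨z, hz, rfl⟩
      exact (Q.mem_W_tr b).2 hz
  rw [h]
  exact infDist_image (isometry_add_right (Q.ψ b))

theorem trD (Q : CB E n) (b : E) (k : ℕ) (hk : Q.kc ≤ k) :
    TrD (Q.D k hk) ((Q.tr b).D k hk) (Q.ψ b) where
  ρ x := by
    show max (6 / 2 ^ k) (min (6 / 2 ^ Q.kc) (infDist (x + Q.ψ b) (Q.tr b).W)) =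
      max (6 / 2 ^ k) (min (6 / 2 ^ Q.kc) (infDist x Q.W))
    rw [infDist_W_tr]
  C := rfl
  a := rfl

theorem rg_tr (Q : CB E n) (b : E) (k : ℕ) (hk : Q.kc ≤ k) (p : E) :
    Rg (Q.T k hk) ((Q.tr b).T k hk) b p := by
  have h0 : Rg (Q.T0 k hk) ((Q.tr b).T0 k hk) b p := (Q.trD b k hk).rg p
  have hbp : ∀ y, y + b ∈ (Q.tr b).S.bp (Q.tr b).ψ (Q.tr b).a' (Q.tr b).kc ↔
      y ∈ Q.S.bp Q.ψ Q.a' Q.kc := by
    intro y
    rw [PS.mem_bp, PS.mem_bp, ps_tr, add_sub_cancel_right]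
    rfl
  refine Rg.patch h0 ?_ ?_ ?_
  · intro i _ i' e
    exact P_sub_iff e hbp
  · intro i _
    exact ⟨i, iH_tr _ _ _ _ _⟩
  · intro i _
    exact ⟨i, iH_tr _ _ _ _ _⟩

/-- **the block tiling moves rigidly with the block** -/
theorem rg (Q : CB E n) (v b : E) (k : ℕ) (hk : Q.kc ≤ k) (p : E) :
    Rg ((Q.tr v).T k hk) ((Q.tr (v + b)).T k hk) b p := by
  have h := (Q.tr v).rg_tr b k hk p
  have key : ∀ Q' : CB E n, Q' = (Q.tr v).tr b → ∀ hk' : Q'.kc ≤ k,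
      Rg ((Q.tr v).T k hk) (Q'.T k hk') b p := by
    rintro _ rfl hk'
    exact h
  exact key _ (Q.tr_add v b) hk

end CB

/-! ### the aligned mesh -/

namespace MD

set_option linter.unusedSectionVars false

variable {J : Type*} (M : MD E n J) [NeZero n] {k : J → ℕ} (hk : M.Sc k) (a : Fin n → ℝ)
  {v v' : J → E} (hv : M.Adm v) (hv' : M.Adm v') {b p : E}

theorem Bk_add (hvv : ∀ j, v' j = v j + b) (j : J) :
    (M.Bk v' j).a' = (M.Bk v j).a' + (M.Q j).ψ b := by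
  show (M.Q j).a' + (M.Q j).ψ (v' j) = (M.Q j).a' + (M.Q j).ψ (v j) + (M.Q j).ψ b
  rw [hvv j, map_add, add_assoc]

theorem N_add (hvv : ∀ j, v' j = v j + b) (j : J) (y : E) :
    y + b ∈ (M.Bk v' j).N ↔ y ∈ (M.Bk v j).N := by
  rw [CB.mem_N_tr, CB.mem_N_tr, hvv j]
  have : y + b - (v j + b) = y - v j := by abel
  rw [this]

theorem S_rg (hvv : ∀ j, v' j = v j + b) (j : J) (p : E) :
    Rg (M.S hk (v := v) j) (M.S hk (v := v') j) b p := by
  have h := (M.Q j).rg (v j) b (k j) (hk.kc j) p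
  have key : ∀ w, w = v j + b → Rg (((M.Q j).tr (v j)).T (k j) (hk.kc j))
      (((M.Q j).tr w).T (k j) (hk.kc j)) b p := by
    rintro _ rfl
    exact h
  exact key _ (hvv j)

/-- the blocks part of the aligned mesh -/
theorem rg_of_T1 (hvv : ∀ j, v' j = v j + b)
    (h1 : Rg (M.ad hk a hv).T1 (M.ad hk (a + M.φ b) hv').T1 b p) :
    Rg (M.mesh hk a hv) (M.mesh hk (a + M.φ b) hv') b p := by
  have hN : ∀ y, y + b ∈ ⋃ j, (M.ad hk (a + M.φ b) hv').N j ↔ y ∈ ⋃ j, (M.ad hk a hv).N j := by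
    intro y
    rw [Set.mem_iUnion, Set.mem_iUnion]
    exact exists_congr fun j => M.N_add hvv j y
  refine Rg.patch (T := (M.ad hk a hv).T1) (T' := (M.ad hk (a + M.φ b) hv').T1)
    (R := blk_repl _ _ (M.ad hk a hv).isUn (M.inn hk a hv).un (M.ad hk a hv).isCompact_N
      (M.inn hk a hv).sub (M.ad hk a hv).dis (M.ad hk a hv).lf)
    (R' := blk_repl _ _ (M.ad hk (a + M.φ b) hv').isUn (M.inn hk (a + M.φ b) hv').un
      (M.ad hk (a + M.φ b) hv').isCompact_N (M.inn hk (a + M.φ b) hv').sub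
      (M.ad hk (a + M.φ b) hv').dis (M.ad hk (a + M.φ b) hv').lf) h1 ?_ ?_ ?_
  · intro i _ i' e
    exact P_sub_iff e hN
  · rintro ⟨j, i⟩ hi
    obtain ⟨i', -, e⟩ := (M.S_rg hk hvv j p).1 i.1 hi
    refine ⟨⟨j, ⟨i', ?_⟩⟩, e⟩
    exact (P_sub_iff e (fun y => M.N_add hvv j y)).2 i.2
  · rintro ⟨j, i'⟩ hi
    obtain ⟨i, -, e⟩ := (M.S_rg hk hvv j p).2 i'.1 hi
    refine ⟨⟨j, ⟨i, ?_⟩⟩, e⟩
    exact (P_sub_iff e (fun y => M.N_add hvv j y)).1 i'.2

/-- **rigidity of the aligned mesh**: if the outer Whitney cubes through `p` move rigidly, so does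
the whole mesh -/
theorem rigid (hvv : ∀ j, v' j = v j + b)
    (h0 : Rg (M.ad hk a hv).T0 (M.ad hk (a + M.φ b) hv').T0 b p) :
    Rg (M.mesh hk a hv) (M.mesh hk (a + M.φ b) hv') b p := by
  refine M.rg_of_T1 hk a hv hv' hvv (Rg.cut (hA := AF_ne) (hA' := AF_ne) h0 ?_)
  intro i _ i' e
  exact AF_tr (ψ := fun j => (M.Q j).ψ) (fun j => M.Bk_add hvv j) e

/-- **rigidity where the outer scale is constant** (bulk, zones of the walls) -/
theorem rigid_const (hvv : ∀ j, v' j = v j + b) {κ : ℕ} (hp : M.φ p ∈ M.D0.Om)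
    (hp' : M.φ (p + b) ∈ M.D0.Om) (h : ∀ᶠ y in 𝓝 (M.φ p), K (outD M.D0 k M.W a) y = κ)
    (h' : ∀ᶠ y in 𝓝 (M.φ (p + b)), K (outD M.D0 k M.W (a + M.φ b)) y = κ) :
    Rg (M.mesh hk a hv) (M.mesh hk (a + M.φ b) hv') b p := by
  refine M.rigid hk a hv hv' hvv (rg_const rfl (κ := κ) ?_ ?_ h h')
  · show M.φ p ∈ (outD M.D0 k M.W a).Om
    rw [M.outD_Om_eq a]
    exact hp
  · show M.φ (p + b) ∈ (outD M.D0 k M.W (a + M.φ b)).Om
    rw [M.outD_Om_eq (a + M.φ b)]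
    exact hp'

/-- the tiles through an interior point of a block -/
theorem at_in {j : J} (hp : p ∈ interior (M.Bk v j).N)
    {t : M.OIx hk a hv ⊕ Σ j, M.IIx hk a hv j} :
    t ∈ (M.mesh hk a hv).at_ p ↔ ∃ i : M.IIx hk a hv j, t = Sum.inr ⟨j, i⟩ ∧
      p ∈ P ((M.S hk (v := v) j).H i.1) := by
  constructor
  · intro ht
    rcases t with q | ⟨l, i⟩
    · exact absurd hp (AD.outer_interior (M := M.ad hk a hv) q.2 j (x := p) ht)
    · have hl : l = j := by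
        by_contra hne
        exact Set.disjoint_left.1 ((M.ad hk a hv).dis l j hne) (i.2 ht) (interior_subset hp)
      subst hl
      exact ⟨i, rfl, ht⟩
  · rintro ⟨i, rfl, hi⟩
    exact hi


end MD

end Crest.Agent.R096.Mal_874
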