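import Crest.Agent.R096.Ca15_855
import Crest.Agent.R096.Msb7_432
import Crest.Agent.R096.Ttr1_565

/-!
# Row 96 (S0127), p ≤ 2: composite A (helper855), part 16: the edges of the blocks in the mesh `h.T a`
-/

set_option autoImplicit false
set_option linter.unusedSectionVars false

open Set Metric MeasureTheory Filter
open scoped ENNReal Topology

namespace Crest.Agent.R096.Ca_855

open Crest.AnalysisR.VecCalc3 Crest.AnalysisR.Sobolev
open Crest.Agent.R096.Msh_715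
open Crest.Agent.R096.Mal_874 (MD CB RD RP reOm Rt Cn outD Rg tile_k_eq)
open Crest.Agent.R096.Msb_432 (meshS rigidS_const Scl CIx)
open Crest.Agent.R096.Pin_753 (BlkP Ed)
open Crest.Agent.R096.Ttr_565 (mem_Ed_tr)

theorem reOm_cc {E : Type} [NormedAddCommGroup E] [NormedSpace ℝ E]
    {Om Om' : Set E} (h : Om = Om') {ι : Type} (T : Tiling Om ι) (x : E) :
    (reOm T h).cc x = T.cc x ∧ (reOm T h).oc x = T.oc x ∧ (reOm T h).V x = T.V x := by
  subst h
  exact ⟨rfl, rfl, rfl⟩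

theorem reOm_dim {E : Type} [NormedAddCommGroup E] [NormedSpace ℝ E] [FiniteDimensional ℝ E]
    {Om Om' : Set E} (h : Om = Om') {ι : Type} (T : Tiling Om ι) (x : E) :
    (reOm T h).dim x = T.dim x := by
  subst h
  rfl

namespace MIn

variable {Om W : Set R3} {ρ₀ : R3 → ℝ} {J : Type} {Qb : J → CB R3 3} {k0 : ℕ} {σ : ℝ}
  [Finite J]

theorem T_cc (h : MIn Om W ρ₀ Qb k0 σ) (a x : R3) : (h.T a).cc x = (h.Ts a).cc x :=
  (reOm_cc h.dom (h.Ts a) x).1



theorem T_dim (h : MIn Om W ρ₀ Qb k0 σ) (a x : R3) : (h.T a).dim x = (h.Ts a).dim x :=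
  reOm_dim h.dom (h.Ts a) x

theorem mem_dom (h : MIn Om W ρ₀ Qb k0 σ) {y : R3} : y ∈ h.M.φ ⁻¹' h.M.D0.Om ↔ y ∈ Om := by
  rw [h.dom]



end MIn

end Crest.Agent.R096.Ca_855
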