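import Crest.Agent.R096.Msb3_432

/-!
# Row 96, p ≤ 2 (helper432), CORE-SUB, part 4: `TileG` (helper855) for EVERY tile of the mesh with
subdivided cores
-/

set_option autoImplicit false
set_option linter.unusedSectionVars false

open Set Metric Topology Filter

namespace Crest.Agent.R096.Msb_432

open Crest.Agent.R096.Msh_715 Crest.Agent.R096.Msh_715.Tiling Crest.Agent.R096.Mal_874
open Crest.Agent.R096.Gsm_432 Crest.Agent.R096.Msh_810 Crest.Agent.R096.Cut_874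

universe w

variable {n : ℕ}

/-- good tiles in a frame of bounded distortion have the shape constants at their scale -/
theorem tg_goods (E : Type) [NormedAddCommGroup E] [NormedSpace ℝ E] [FiniteDimensional ℝ E]
    {Ls : Set (Finset (Fin n → ℝ) × ℕ)} (hLs : Ls.Finite) (hpos : ∀ p ∈ Ls, 0 < p.2)
    (hrat : ∀ p ∈ Ls, ∀ ν ∈ p.1, ∀ m, ∃ c : ℤ, ν m = c / p.2) (R : ℝ) {L1 L2 : ℝ} (hL1 : 0 < L1)
    (hL2 : 0 ≤ L2) :
    ∃ β > 0, ∃ ρ > 0, ∃ D, ∃ nc : ℕ, ∀ {Om : Set E} {ι : Type w} (T : Tiling Om ι) (t : ι)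
      (φ : E ≃L[ℝ] (Fin n → ℝ)) (a : Fin n → ℝ) (κ : ℕ), ∀ p ∈ Ls,
      Good T t (chi φ a κ) κ p.1 p.2 R → (∀ v, ‖φ v‖ ≤ L1 * ‖v‖) → (∀ v, ‖v‖ ≤ L2 * ‖φ v‖) →
      TG T t β ρ D nc κ := by
  obtain ⟨β, hβ, ρ, hρ, D, nc, h⟩ := gap_goods.{0, w} E hLs hpos hrat R
  refine ⟨β, hβ, ρ / L1, by positivity, L2 * (2 * D), nc, fun T t φ a κ p hp hg h1 h2 => ?_⟩
  obtain ⟨c, hc⟩ := h T t (chi φ a κ) κ p hp hg
  exact TG.of hc hβ.le hρ hL1 hL2 h1 h2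

/-- the scale of a tile of `meshS` -/
def Scl {E : Type*} [NormedAddCommGroup E] [NormedSpace ℝ E] [NeZero n] {J : Type*} (M : MD E n J)
    {k : J → ℕ} (hk : M.Sc k) (a : Fin n → ℝ) {v : J → E} (hv : M.Adm v) :
    {t // t ∉ cores M hk a hv} ⊕ CIx M → ℕ → Prop
  | Sum.inl ⟨Sum.inl p, _⟩, κ => κ = p.1.par.1.1.k + 1 ∨ ∃ j, κ = k j ∧ p.1.par.1.1.k = k j
  | Sum.inl ⟨Sum.inr ⟨j, _⟩, _⟩, κ => (M.Q j).kc ≤ κ ∧ κ ≤ k j + 1
  | Sum.inr c, κ => κ = (M.Q c.1).kc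


end Crest.Agent.R096.Msb_432
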