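import Crest.Agent.R096.Gsm6_432
import Crest.Agent.R096.Shp4_432
import Crest.Agent.R096.Gsc2_476
import Crest.Agent.R096.Ncl1_476

-- ▼ part R096/Shp5_432
section

/-!
# Row 96 (helper432): separation of a closed cell of a tile from the tiles which do not meet it, with
uniform constants for the good tiles
-/

set_option autoImplicit false
set_option linter.unusedSectionVars false

open Set Metric Topology Filter
open scoped NNReal ENNReal

namespace Crest.Agent.R096.Shp_432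

open Crest.Agent.R096.Msh_715 Crest.Agent.R096.Mal_874 Crest.Agent.R096.Cut_874
open Crest.Agent.R096.Msh_810 Crest.Agent.R096.Gsm_432

universe u v

section pair

variable {F : Type*} [NormedAddCommGroup F] [NormedSpace ℝ F] [FiniteDimensional ℝ F]
variable {E : Type u} [NormedAddCommGroup E] [NormedSpace ℝ E] [FiniteDimensional ℝ E]
variable {Om : Set E} {ι : Type v} {T : Tiling Om ι} {i : ι} {B : E ≃ᵃ[ℝ] F}

/-- separation for a pair (tile, truncated tiles of its star) -/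
def SP (K0 : Set F) (𝒯 : Set (Set F)) (γ : ℝ) : Prop :=
  (∀ a ∈ K0, ∀ b, b ∉ interior (⋃₀ 𝒯) → γ ≤ dist a b) ∧
  ∀ u ∈ K0, ∀ Q ∈ 𝒯, Disjoint (fcell 𝒯 u) Q → ∀ a ∈ fcell 𝒯 u, ∀ b ∈ Q, γ ≤ dist a b

/-- **the closed cells of the tile `i` are at distance at least `γ` (in the frame `B`) from the tiles
which do not meet them** -/
def Sep (T : Tiling Om ι) (i : ι) (B : E ≃ᵃ[ℝ] F) (γ : ℝ) : Prop :=
  ∀ x ∈ P (T.H i), ∀ l, Disjoint (T.cc x) (P (T.H l)) → ∀ y ∈ T.cc x, ∀ z ∈ P (T.H l),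
    γ ≤ dist (B y) (B z)

theorem SP.mono {K0 : Set F} {𝒯 : Set (Set F)} {γ γ' : ℝ} (h : SP K0 𝒯 γ) (hγ : γ' ≤ γ) :
    SP K0 𝒯 γ' :=
  ⟨fun a ha b hb => hγ.trans (h.1 a ha b hb), fun u hu Q hQ hd a ha b hb =>
    hγ.trans (h.2 u hu Q hQ hd a ha b hb)⟩

theorem Sep.mono {γ γ' : ℝ} (h : Sep T i B γ) (hγ : γ' ≤ γ) : Sep T i B γ' :=
  fun x hx l hd y hy z hz => hγ.trans (h x hx l hd y hy z hz)

theorem fcell_tile {W : Set F} (hW : B '' P (T.H i) ⊆ interior W) {x : E} (hx : x ∈ P (T.H i)) :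
    fcell (stT T i B W) (B x) = B '' T.cc x := by
  have h1 : T.at_ x ⊆ star T i := fun l hl => ⟨x, hl, hx⟩
  rw [fcell_eq (hW (mem_image_of_mem _ hx)) (T.sub i hx) h1, inter_eq_left]
  exact (image_mono (T.cc_sub_tile hx)).trans (hW.trans interior_subset)

theorem pos_dist {X : Type*} [PseudoMetricSpace X] {s t : Set X} (hs : IsCompact s)
    (ht : IsClosed t) (hst : Disjoint s t) : ∃ r > 0, ∀ x ∈ s, ∀ y ∈ t, r ≤ dist x y := by
  obtain ⟨r, hr, h⟩ := exists_pos_forall_lt_edist hs ht hst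
  refine ⟨r, hr, fun x hx y hy => ?_⟩
  have h1 := (h x hx y hy).le
  rw [edist_dist] at h1
  have h2 : ENNReal.ofReal (r : ℝ) ≤ ENNReal.ofReal (dist x y) := by
    rwa [ENNReal.ofReal_coe_nnreal]
  exact (ENNReal.ofReal_le_ofReal_iff dist_nonneg).1 h2

/-- one pair -/
theorem exists_SP {W : Set F} (hWc : IsClosed W) (hW : B '' P (T.H i) ⊆ interior W) :
    ∃ γ > 0, SP (B '' P (T.H i)) (stT T i B W) γ := by
  have hcpt : IsCompact (B '' P (T.H i)) := (T.cpt i).image (continuous_aff B)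
  have hsub : B '' P (T.H i) ⊆ interior (⋃₀ stT T i B W) := by
    rw [sUnion_stT, interior_inter, ← image_interior_aff]
    exact subset_inter (image_mono (sub_interior_Ust i)) hW
  obtain ⟨γ1, hγ1, h1⟩ := pos_dist hcpt isOpen_interior.isClosed_compl
    (disjoint_compl_right_iff_subset.2 hsub)
  -- finitely many cells and tiles
  set 𝒞 : Set (Set F) := {C | ∃ u ∈ B '' P (T.H i), C = fcell (stT T i B W) u} with h𝒞
  have h𝒞f : 𝒞.Finite := by
    refine ((T.finite_cells (T.cpt i) (T.sub i)).image fun C => B '' C).subset ?_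
    rintro C ⟨_, ⟨x, hx, rfl⟩, rfl⟩
    exact ⟨T.cc x, ⟨⟨x, T.sub i hx, rfl⟩, x, T.self_mem_cc x, hx⟩, (fcell_tile hW hx).symm⟩
  have hprod := h𝒞f.prod (stT_finite i B W (T := T))
  have hb : ∀ p : Set F × Set F, ∃ γ > 0, p.1 ∈ 𝒞 → p.2 ∈ stT T i B W → Disjoint p.1 p.2 →
      ∀ a ∈ p.1, ∀ b ∈ p.2, γ ≤ dist a b := by
    rintro ⟨C, Q⟩
    by_cases h : C ∈ 𝒞 ∧ Q ∈ stT T i B W ∧ Disjoint C Q
    · obtain ⟨⟨_, ⟨x, hx, rfl⟩, hC⟩, ⟨j, hj, hQ⟩, hd⟩ := h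
      have hCc : IsCompact C := by
        rw [hC, fcell_tile hW hx]
        exact (T.isCompact_cc (T.sub i hx)).image (continuous_aff B)
      have hQc : IsClosed Q := by
        rw [hQ]
        exact ((T.cpt j).image (continuous_aff B)).isClosed.inter hWc
      obtain ⟨γ, hγ, h2⟩ := pos_dist hCc hQc hd
      exact ⟨γ, hγ, fun _ _ _ => h2⟩
    · exact ⟨1, one_pos, fun h2 h3 h4 => absurd ⟨h2, h3, h4⟩ h⟩
  choose g hg h2 using hb
  obtain ⟨γ2, hγ2, h3⟩ := exists_lb hprod hg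
  refine ⟨min γ1 γ2, lt_min hγ1 hγ2, fun a ha b hb => (min_le_left _ _).trans (h1 a ha b hb), ?_⟩
  intro u hu Q hQ hd a ha b hb
  have hC : fcell (stT T i B W) u ∈ 𝒞 := ⟨u, hu, rfl⟩
  exact (min_le_right _ _).trans ((h3 (fcell (stT T i B W) u, Q) ⟨hC, hQ⟩).trans
    (h2 (fcell (stT T i B W) u, Q) hC hQ hd a ha b hb))

theorem SP.sep {W : Set F} (hW : B '' P (T.H i) ⊆ interior W) {γ : ℝ}
    (h : SP (B '' P (T.H i)) (stT T i B W) γ) : Sep T i B γ := by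
  intro x hx l hd y hy z hz
  have hyP : y ∈ P (T.H i) := T.cc_sub_tile hx hy
  by_cases hb : B z ∈ interior (⋃₀ stT T i B W)
  · have h1 := hb
    rw [sUnion_stT, interior_inter, ← image_interior_aff] at h1
    have h2 : z ∈ interior (Ust T i) := (B.injective.mem_set_image).1 h1.1
    have h3 : l ∈ star T i := at_sub_star h2 hz
    have h4 := fcell_tile hW hx
    refine h.2 (B x) (mem_image_of_mem _ hx) (B '' P (T.H l) ∩ W) ⟨l, h3, rfl⟩ ?_ (B y) ?_ (B z)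
      ⟨mem_image_of_mem _ hz, interior_subset h1.2⟩
    · rw [h4, Set.disjoint_left]
      rintro _ ⟨w, hw, rfl⟩ ⟨hw2, -⟩
      exact Set.disjoint_left.1 hd hw ((B.injective.mem_set_image).1 hw2)
    · rw [h4]
      exact mem_image_of_mem _ hy
  · exact h.1 (B y) (mem_image_of_mem _ hyP) (B z) hb

variable (E)

/-- **uniform separation for a finite list of pairs** -/
theorem sepsim (W : Set F) (hWc : IsClosed W) {𝒮 : Set (Set F × Set (Set F))} (h𝒮 : 𝒮.Finite) :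
    ∃ γ > 0, ∀ {Om : Set E} {ι : Type v} (T : Tiling Om ι) (i : ι) (B : E ≃ᵃ[ℝ] F),
      B '' P (T.H i) ⊆ interior W → (B '' P (T.H i), stT T i B W) ∈ 𝒮 → Sep T i B γ := by
  have key : ∀ p : Set F × Set (Set F), ∃ γ > 0,
      ∀ {Om : Set E} {ι : Type v} (T : Tiling Om ι) (i : ι) (B : E ≃ᵃ[ℝ] F),
      B '' P (T.H i) ⊆ interior W → (B '' P (T.H i), stT T i B W) = p → SP p.1 p.2 γ := by
    intro p
    by_cases hr : ∃ (Om : Set E) (ι : Type v) (T : Tiling Om ι) (i : ι) (B : E ≃ᵃ[ℝ] F),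
        B '' P (T.H i) ⊆ interior W ∧ (B '' P (T.H i), stT T i B W) = p
    · obtain ⟨Om, ι, T, i, B, h1, rfl⟩ := hr
      obtain ⟨γ, hγ, h⟩ := exists_SP hWc h1
      exact ⟨γ, hγ, fun _ _ _ _ _ => h⟩
    · exact ⟨1, one_pos, fun T i B h1 h2 => absurd ⟨_, _, T, i, B, h1, h2⟩ hr⟩
  choose g hg h using key
  obtain ⟨γ0, hγ0, h1⟩ := exists_lb h𝒮 hg
  exact ⟨γ0, hγ0, fun T i B hW hp => ((h _ T i B hW rfl).mono (h1 _ hp)).sep hW⟩

end pair

/-! ### good tiles -/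

variable {n : ℕ}

/-- **separation for a tile with inequalities in good form** -/
theorem sep_tile (E : Type u) [NormedAddCommGroup E] [NormedSpace ℝ E] [FiniteDimensional ℝ E]
    (𝒩 : Finset (Fin n → ℝ)) {d : ℕ} (hd : 0 < d)
    (h𝒩 : ∀ ν ∈ 𝒩, ∀ m, ∃ c : ℤ, ν m = c / d) (R : ℝ) :
    ∃ γ > 0, ∀ {Om : Set E} {ι : Type v} (T : Tiling Om ι) (i : ι)
      (χ : E ≃ᵃ[ℝ] (Fin n → ℝ)) (k : ℕ), Good T i χ k 𝒩 d R → Sep T i χ γ := by
  have hr : (0 : ℝ) < |R| + 2 := by positivity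
  obtain ⟨γ, hγ, h⟩ := sepsim.{u, v} E (closedBall (0 : Fin n → ℝ) (|R| + 2)) isClosed_closedBall
    (((lst_finite 𝒩 d (|R| + 2))).prod (lst_finite 𝒩 d (|R| + 2)).finite_subsets)
  refine ⟨γ, hγ, fun {Om ι} T i χ k hg => ?_⟩
  have hs : (0 : ℝ) < 2 ^ k := by positivity
  obtain ⟨x0, hx0⟩ := T.ne i
  have hx0' := I_sub_P _ hx0
  set z : Fin n → ℤ := fun m => ⌊χ x0 m⌋ with hz
  have hW' : (χ.trans (tz z)) '' P (T.H i) ⊆ Metric.ball (0 : Fin n → ℝ) (|R| + 2) := by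
    rintro _ ⟨y, hy, rfl⟩
    rw [mem_ball_zero_iff, pi_norm_lt_iff hr]
    intro m
    rw [AffineEquiv.trans_apply, tz_apply, Real.norm_eq_abs, abs_lt]
    have h1 := Int.floor_le (χ x0 m)
    have h2 := Int.lt_floor_add_one (χ x0 m)
    have h3 := abs_le.1 (hg.sz x0 hx0' y hy m)
    have h4 := le_abs_self R
    constructor <;> simp only [hz] <;> linarith
  have hW : (χ.trans (tz z)) '' P (T.H i) ⊆ interior (closedBall (0 : Fin n → ℝ) (|R| + 2)) :=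
    hW'.trans ball_subset_interior_closedBall
  have hmem : ∀ l, (P (T.H l) ∩ P (T.H i)).Nonempty →
      (χ.trans (tz z)) '' P (T.H l) ∩ closedBall (0 : Fin n → ℝ) (|R| + 2) ∈
        lst 𝒩 d (|R| + 2) := by
    rintro l ⟨y, hy1, hy2⟩
    exact mem_lst hs hd h𝒩 hr.le (hg.gf l ⟨y, hy1, hy2⟩)
      ⟨y, hy1, ball_subset_closedBall (hW' (mem_image_of_mem _ hy2))⟩
  have h0 : Sep T i (χ.trans (tz z)) γ := by
    refine h T i (χ.trans (tz z)) hW ⟨?_, ?_⟩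
    · have h1 := hmem i ⟨x0, hx0', hx0'⟩
      rwa [inter_eq_left.2 (hW'.trans ball_subset_closedBall)] at h1
    · rintro Q ⟨j, hj, rfl⟩
      exact hmem j hj
  intro x hx l hdj y hy w hw
  have h1 := h0 x hx l hdj y hy w hw
  have e : (χ.trans (tz z)) y - (χ.trans (tz z)) w = χ y - χ w := by
    funext m
    rw [Pi.sub_apply, Pi.sub_apply, AffineEquiv.trans_apply, AffineEquiv.trans_apply, tz_apply,
      tz_apply]
    ring
  rwa [dist_eq_norm, e, ← dist_eq_norm] at h1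

/-- **separation for good tiles, finite list of lists** -/
theorem sep_goods (E : Type u) [NormedAddCommGroup E] [NormedSpace ℝ E] [FiniteDimensional ℝ E]
    {Ls : Set (Finset (Fin n → ℝ) × ℕ)} (hLs : Ls.Finite) (hpos : ∀ p ∈ Ls, 0 < p.2)
    (hrat : ∀ p ∈ Ls, ∀ ν ∈ p.1, ∀ m, ∃ c : ℤ, ν m = c / p.2) (R : ℝ) :
    ∃ γ > 0, ∀ {Om : Set E} {ι : Type v} (T : Tiling Om ι) (t : ι)
      (χ : E ≃ᵃ[ℝ] (Fin n → ℝ)) (k : ℕ), ∀ p ∈ Ls, Good T t χ k p.1 p.2 R → Sep T t χ γ := by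
  have key : ∀ p : Finset (Fin n → ℝ) × ℕ, ∃ γ > 0, p ∈ Ls →
      ∀ {Om : Set E} {ι : Type v} (T : Tiling Om ι) (t : ι)
      (χ : E ≃ᵃ[ℝ] (Fin n → ℝ)) (k : ℕ), Good T t χ k p.1 p.2 R → Sep T t χ γ := by
    intro p
    by_cases hp : p ∈ Ls
    · obtain ⟨γ, hγ, h⟩ := sep_tile.{u, v} E p.1 (hpos p hp) (hrat p hp) R
      exact ⟨γ, hγ, fun _ => h⟩
    · exact ⟨1, one_pos, fun h => absurd h hp⟩
  choose g hg h using key
  obtain ⟨γ0, hγ0, h1⟩ := exists_lb hLs hg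
  exact ⟨γ0, hγ0, fun T t χ k p hp hgd => (h p hp T t χ k hgd).mono (h1 _ hp)⟩

end Crest.Agent.R096.Shp_432
end

-- ▼ part R096/Shp6_432

/-!
# Row 96 (helper432): the geometry of one tile of a block of `h.T a` off the wall, at its true scale
(helper476's `scl`): size, lengths of the 1-cells, separation, number of the closed cells
-/

set_option autoImplicit false
set_option linter.unusedSectionVars false

open Set Metric MeasureTheory Filter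
open scoped ENNReal Topology

namespace Crest.Agent.R096.Shp_432

open Crest.AnalysisR.VecCalc3 Crest.AnalysisR.Sobolev
open Crest.Agent.R096.Msh_715 Crest.Agent.R096.Mal_874 Crest.Agent.R096.Cut_874
open Crest.Agent.R096.Msh_810 Crest.Agent.R096.Gsm_432 Crest.Agent.R096.Msb_432
open Crest.Agent.R096.Gsc_476
open Crest.Agent.R096.Ncl_476 (simL_cfg_ncard)

universe w

/-- **geometry of one tile** in the frame `ψ` at the scale `s` -/
structure GeoT {E : Type*} [NormedAddCommGroup E] [NormedSpace ℝ E] {n : ℕ} {Om : Set E}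
    {ι : Type*} (T : Tiling Om ι) (t : ι) (ψ : E ≃L[ℝ] (Fin n → ℝ)) (s : ℕ) (D μ γ : ℝ)
    (nE : ℕ) : Prop where
  /-- size -/
  sz : ∀ x ∈ P (T.H t), ∀ y ∈ P (T.H t), ‖ψ (y - x)‖ ≤ D / 2 ^ s
  /-- lengths of the 1-cells -/
  len : ∀ x ∈ P (T.H t), ∀ e1 e2, T.cc x = segment ℝ e1 e2 → e1 ≠ e2 →
    μ / 2 ^ s ≤ ‖ψ (e2 - e1)‖
  /-- a closed cell of the tile and a tile which does not meet it are separated -/
  sep : ∀ x ∈ P (T.H t), ∀ l, Disjoint (T.cc x) (P (T.H l)) → ∀ y ∈ T.cc x, ∀ z ∈ P (T.H l),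
    γ / 2 ^ s ≤ ‖ψ (z - y)‖
  cfin : (cfg T t).Finite
  card : (cfg T t).ncard ≤ nE

section block

variable {n : ℕ} [NeZero n] {E : Type*} [NormedAddCommGroup E] [NormedSpace ℝ E]
variable {J : Type*} (M : MD E n J) {k : J → ℕ} (hk : M.Sc k) (a : Fin n → ℝ)
  {v : J → E} (hv : M.Adm v)

/-- `in_good` with the true scale -/
theorem in_goodK (X : RD M) (RPx : RP X a v k) {j : J} {t : {t // t ∉ cores M hk a hv} ⊕ CIx M}
    (hN : P ((meshS M hk a hv).H t) ⊆ (M.Bk v j).N)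
    (hw : Disjoint (P ((meshS M hk a hv).H t)) (frontier (M.Bk v j).N)) :
    ∃ κ, scl M hk a hv t ≤ κ ∧ κ ≤ scl M hk a hv t + 1 ∧ Good (meshS M hk a hv) t
      (chi (M.Q j).ψ (M.Bk v j).a' κ) κ (NB n (X.B j)) 1 (max 2 (X.R j)) := by
  obtain ⟨x0, hx0⟩ := (meshS M hk a hv).ne t
  have hx0' := I_sub_P _ hx0
  rcases t with ⟨t, ht⟩ | c
  · rcases t with p | ⟨l, i⟩
    · exact absurd (M.outer_touch hk a hv p hx0' (hN hx0')) (Set.disjoint_left.1 hw hx0')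
    · obtain rfl : l = j := by
        by_contra hne
        exact Set.disjoint_left.1 (N_disj hk a hv hne) (i.2 hx0') (hN hx0')
      have hi : i ≠ M.core hk a hv l := by
        rintro rfl
        exact ht ⟨l, rfl⟩
      rcases M.inner_good hk a hv X RPx i hi with ⟨τ, hτ, -, hd, hg⟩ | ⟨hn, hg⟩ | ⟨-, hw', -⟩
      · have e : scl M hk a hv (Sum.inl ⟨Sum.inr ⟨l, i⟩, ht⟩) = τ.1.1.1.k := by
          show iscl (M.Bk v l) (k l) (hk.kc l) i.1 = _
          rw [hτ]; rfl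
        refine ⟨τ.1.1.1.k + 1, e.le.trans (Nat.le_succ _), Nat.succ_le_succ e.ge,
          good_old M hk a hv _
          (good_mono hg (N0_sub_NB (X.B1 l)) (le_max_left _ _)) fun c hc => ?_⟩
        exfalso
        obtain rfl := inner_same M hk a hv hc
        obtain ⟨x, hx1, hx2⟩ := hc
        exact Set.disjoint_left.1 hd hx2 (Kc_sub_bp _ (cubH_sub c hx1))
      · have e : scl M hk a hv (Sum.inl ⟨Sum.inr ⟨l, i⟩, ht⟩) = (M.Q l).kc := by
          show iscl (M.Bk v l) (k l) (hk.kc l) i.1 = (M.Bk v l).kc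
          obtain ⟨x, hx⟩ := (M.mesh hk a hv).ne (Sum.inr ⟨l, i⟩)
          have hx := I_sub_P _ hx
          have h1 := hn x hx
          have hx2 : x ∈ P (((M.Bk v l).T (k l) (hk.kc l)).H i.1) := hx
          rcases hi1 : i.1 with τ | s
          · rw [hi1] at hx2
            exact (M.Bk v l).near_k (k l) (hk.kc l) (τ := τ.1) hx2 h1
          · rfl
        refine ⟨(M.Q l).kc, e.le, e.ge.trans (Nat.le_succ _), good_old M hk a hv _
          (good_mono hg subset_rfl (le_max_right _ _)) fun c hc => ?_⟩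
        obtain rfl := inner_same M hk a hv hc
        exact gf_cube one_pos (fr_self _ _ _ (N0_sub_NB (X.B1 _)) 1) le_rfl _
      · obtain ⟨y, hy1, hy2⟩ := hw'
        exact absurd hy2 (Set.disjoint_left.1 hw hy1)
  · obtain ⟨l, z⟩ := c
    obtain rfl : l = j := by
      by_contra hne
      exact Set.disjoint_left.1 (N_disj hk a hv hne) (Kc_sub_N _ (cubH_sub (M := M) ⟨l, z⟩ hx0'))
        (hN hx0')
    exact ⟨(M.Q l).kc, le_rfl, Nat.le_succ _,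
      good_mono (cube_goodS M hk a hv X ⟨l, z⟩) subset_rfl
        (le_trans (by norm_num) (le_max_left _ _))⟩

/-- a good tile has the geometry `GeoT` -/
theorem geo_of_good [FiniteDimensional ℝ E] {Om : Set E} {ι : Type*} {T : Tiling Om ι} {t : ι}
    {ψ : E ≃L[ℝ] (Fin n → ℝ)} {a' : Fin n → ℝ} {κ s : ℕ} (h1 : s ≤ κ) (h2 : κ ≤ s + 1)
    {𝒩 : Finset (Fin n → ℝ)} {d : ℕ} {R : ℝ} (hR : 0 ≤ R) (hd : 0 < d)
    (h𝒩 : ∀ ν ∈ 𝒩, ∀ m, ∃ c : ℤ, ν m = c / d)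
    (hg : Good T t (chi ψ a' κ) κ 𝒩 d R) {μ γ : ℝ} (hμ : 0 ≤ μ) (hγ : 0 ≤ γ)
    (hlen : ∀ x ∈ P (T.H t), ∀ e1 e2, T.cc x = segment ℝ e1 e2 → e1 ≠ e2 →
      μ ≤ ‖(chi ψ a' κ).linear (e2 - e1)‖)
    (hsep : Sep T t (chi ψ a' κ) γ) :
    GeoT T t ψ s R (μ / 2) (γ / 2) (shpT 𝒩 d R).ncard := by
  have hp2 : (0 : ℝ) < 2 ^ κ := by positivity
  have hs1 : (2 : ℝ) ^ s ≤ 2 ^ κ := pow_le_pow_right₀ (by norm_num) h1
  have hs2 : (2 : ℝ) ^ κ ≤ 2 * 2 ^ s := by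
    rw [← pow_succ']
    exact pow_le_pow_right₀ (by norm_num) h2
  have hlow : ∀ {c x : ℝ}, 0 ≤ c → c ≤ 2 ^ κ * x → c / 2 / 2 ^ s ≤ x := by
    intro c x hc hcx
    have hx : 0 ≤ x := by
      by_contra hcon
      push Not at hcon
      nlinarith
    rw [div_div, div_le_iff₀ (by positivity)]
    nlinarith [mul_le_mul_of_nonneg_right hs2 hx]
  obtain ⟨z, hz⟩ := hg.sim hd h𝒩
  have hc := simL_cfg_ncard (h := hz)
  refine ⟨?_, ?_, ?_, ?_, ?_⟩
  · intro x hx y hy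
    rw [pi_norm_le_iff_of_nonneg (by positivity)]
    intro m
    have h3 := hg.sz x hx y hy m
    rw [chi_apply, chi_apply] at h3
    rw [le_div_iff₀ (by positivity), map_sub, Pi.sub_apply, Real.norm_eq_abs]
    have e : ((2 : ℝ) ^ κ * (ψ y m - a' m) - 2 ^ κ * (ψ x m - a' m)) =
        (ψ y m - ψ x m) * 2 ^ κ := by ring
    rw [e, abs_mul, abs_of_pos hp2] at h3
    exact (mul_le_mul_of_nonneg_left hs1 (abs_nonneg _)).trans h3
  · intro x hx e1 e2 he hne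
    have h3 := hlen x hx e1 e2 he hne
    rw [chi_lin] at h3
    exact hlow hμ h3
  · intro x hx l hl y hy w hw
    have h3 := hsep x hx l hl y hy w hw
    rw [dist_eq_norm, lin_sub, chi_lin] at h3
    have e : ψ (y - w) = -ψ (w - y) := by rw [← map_neg, neg_sub]
    rw [e, norm_neg] at h3
    exact hlow hγ h3
  · exact hc.1
  · exact hc.2

end block

/-- **the geometry of the tiles of `meshS` inside a block, off the wall**: constants of the shell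
only, true scale -/
theorem geo_in (E : Type) [NormedAddCommGroup E] [NormedSpace ℝ E] [FiniteDimensional ℝ E] (n : ℕ)
    [NeZero n] (B0 : ℕ) (R0 : ℝ) :
    ∃ (μ γ : ℝ) (nE : ℕ), 0 < μ ∧ 0 < γ ∧ ∀ {J : Type w} (M : MD E n J)
      {k : J → ℕ} (hk : M.Sc k) (a : Fin n → ℝ) {v : J → E} (hv : M.Adm v) (X : RD M),
      RP X a v k → ∀ j, X.B j ≤ B0 → X.R j ≤ R0 →
      ∀ t, P ((meshS M hk a hv).H t) ⊆ (M.Bk v j).N →
        Disjoint (P ((meshS M hk a hv).H t)) (frontier (M.Bk v j).N) →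
        GeoT (meshS M hk a hv) t (M.Q j).ψ (scl M hk a hv t) (max 2 R0) μ γ nE := by
  have hLs : ({(NB n B0, 1)} : Set (Finset (Fin n → ℝ) × ℕ)).Finite := finite_singleton _
  have hpos : ∀ p ∈ ({(NB n B0, 1)} : Set (Finset (Fin n → ℝ) × ℕ)), 0 < p.2 := by
    rintro p rfl
    exact one_pos
  have hrat : ∀ p ∈ ({(NB n B0, 1)} : Set (Finset (Fin n → ℝ) × ℕ)), ∀ ν ∈ p.1, ∀ m,
      ∃ c : ℤ, ν m = c / p.2 := by
    rintro p rfl
    exact NB_rat B0 one_pos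
  have hR0 : (0 : ℝ) ≤ max 2 R0 := le_trans (by norm_num) (le_max_left _ _)
  obtain ⟨μ, hμ, hlen⟩ := len_goods.{0, w} hLs hpos hrat (max 2 R0)
  obtain ⟨γ, hγ, hsep⟩ := sep_goods.{0, w} E hLs hpos hrat (max 2 R0)
  refine ⟨μ / 2, γ / 2, (shpT (NB n B0) 1 (max 2 R0)).ncard, half_pos hμ, half_pos hγ,
    fun {J} M {k} hk a {v} hv X RPx j hB hR t hN hw => ?_⟩
  obtain ⟨κ, h1, h2, hg0⟩ := in_goodK M hk a hv X RPx hN hw
  have hg := good_mono hg0 (NB_mono hB) (max_le_max le_rfl hR)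
  exact geo_of_good h1 h2 hR0 one_pos (NB_rat B0 one_pos) hg hμ.le hγ.le
    (hlen (meshS M hk a hv) t _ κ (NB n B0, 1) rfl hg)
    (hsep (meshS M hk a hv) t _ κ (NB n B0, 1) rfl hg)

/-! ### the mesh `h.T a` -/

theorem GeoT.re {E : Type*} [NormedAddCommGroup E] [NormedSpace ℝ E] [FiniteDimensional ℝ E]
    {n : ℕ} {Om Om' : Set E} (h : Om = Om') {ι : Type*} {T : Tiling Om ι} {t : ι}
    {ψ : E ≃L[ℝ] (Fin n → ℝ)} {s : ℕ} {D μ γ : ℝ} {nE : ℕ} (hT : GeoT T t ψ s D μ γ nE) :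
    GeoT (reOm T h) t ψ s D μ γ nE := by
  subst h
  exact hT

section

open Crest.Agent.R096.Ca_855
open Crest.Agent.R096.Ca_855.MIn (BQ)

variable {Om W : Set R3} {ρ₀ : R3 → ℝ} {J : Type} [Finite J] {Qb : J → CB R3 3} {k0 : ℕ} {σ : ℝ}

/-- the true scale of a tile of `h.T a` -/
noncomputable def scT (h : MIn Om W ρ₀ Qb k0 σ) (a : R3) (t : h.ιT a) : ℕ :=
  scl h.M h.sc (0 + h.M.φ (h.cl a)) (h.adm a) t

theorem Bk_cl (h : MIn Om W ρ₀ Qb k0 σ) {a : R3} (ha : ‖a‖ ≤ σ / 8) (j : J) :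
    h.M.Bk (fun _ => h.cl a) j = (Qb j).tr a := by
  show (Qb j).tr (h.cl a) = (Qb j).tr a
  rw [h.cl_eq ha]

/-- neighbours -/
theorem scT_nbr (h : MIn Om W ρ₀ Qb k0 σ) {a : R3} {t t' : h.ιT a}
    (ht : (P ((h.T a).H t) ∩ P ((h.T a).H t')).Nonempty) : scT h a t' ≤ scT h a t + 1 :=
  scl_nbr h.M h.sc (0 + h.M.φ (h.cl a)) (h.adm a) ht

theorem scT_nbr' (h : MIn Om W ρ₀ Qb k0 σ) {a : R3} {t t' : h.ιT a}
    (ht : (P ((h.T a).H t) ∩ P ((h.T a).H t')).Nonempty) : scT h a t ≤ scT h a t' + 1 :=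
  scT_nbr h (by rwa [inter_comm])

/-- a tile of scale `< k0` does not meet the walls -/
theorem T_off_wall (h : MIn Om W ρ₀ Qb k0 σ) {a : R3} (ha : ‖a‖ ≤ σ / 8) (j : J) {t : h.ιT a}
    (hs : scT h a t < k0) : Disjoint (P ((h.T a).H t)) (frontier ((Qb j).tr a).N) := by
  rw [← Bk_cl h ha j]
  exact off_wall h.M h.sc (0 + h.M.φ (h.cl a)) (h.adm a) (j := j) hs

/-- the neighbours of a tile of block `j` of scale `< k0` lie in the block -/
theorem T_nbr_in (h : MIn Om W ρ₀ Qb k0 σ) {a : R3} (ha : ‖a‖ ≤ σ / 8) {j : J} {t t' : h.ιT a}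
    (hN : P ((h.T a).H t) ⊆ ((Qb j).tr a).N) (hs : scT h a t < k0)
    (ht : (P ((h.T a).H t) ∩ P ((h.T a).H t')).Nonempty) :
    P ((h.T a).H t') ⊆ ((Qb j).tr a).N := by
  rw [← Bk_cl h ha j] at hN ⊢
  exact nbr_in h.M h.sc (0 + h.M.φ (h.cl a)) (h.adm a) hN hs ht


/-- **the geometry of the tiles of `h.T a` inside a block, off the wall**, at the true scale; the
constants depend only on `Bs` -/
theorem geo_T (Bs : ℕ) : ∃ (D μ γ : ℝ) (nE : ℕ), 0 < D ∧ 0 < μ ∧ 0 < γ ∧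
    ∀ {κ : ℝ}, 0 < κ → κ ≤ 1 → ∀ {Om W : Set R3} {ρ₀ : R3 → ℝ} {J : Type} [Finite J]
      {Qb : J → CB R3 3} {k0 Nn : ℕ} {σ : ℝ} (h : MIn Om W ρ₀ Qb k0 σ),
      (∀ j, BQ κ Bs Nn (Qb j) k0) → ∀ {a : R3}, ‖a‖ ≤ σ / 8 → ∀ (j : J) (t : h.ιT a),
      P ((h.T a).H t) ⊆ ((Qb j).tr a).N → Disjoint (P ((h.T a).H t)) (frontier ((Qb j).tr a).N) →
      GeoT (h.T a) t (Qb j).ψ (scT h a t) D μ γ nE := by
  obtain ⟨μ, γ, nE, hμ, hγ, H⟩ := geo_in.{0} R3 3 (max 1 Bs) (max 1 (Bs:ℝ))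
  refine ⟨max 2 (max 1 (Bs:ℝ)), μ, γ, nE, lt_of_lt_of_le (by norm_num) (le_max_left _ _), hμ, hγ,
    ?_⟩
  intro κ hκ hκ1 Om W ρ₀ J _ Qb k0 Nn σ h hb a ha j t hN hW
  rw [← Bk_cl h ha j] at hN hW
  exact GeoT.re h.dom (H h.M h.sc (0 + h.M.φ (h.cl a)) (h.adm a) (h.X hκ hκ1 hb)
    (h.rp hκ hκ1 hb a) j le_rfl le_rfl t hN hW)

end

end Crest.Agent.R096.Shp_432
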