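import Crest.Agent.R096.Sqt16_143
import Crest.Agent.R096.Cbs4_296
import Crest.Agent.R096.Cob10_622

/-!
Row 96 (S0127), helper143.  COMPOSITE B, [C5] LONG: 82's LONG hypothesis (`h2b_inc`) for one long edge of a
tiling, from the clause (E) of 622's `cob_T`.
-/

set_option autoImplicit false
set_option linter.unusedSectionVars false
set_option linter.style.longLine false

open Set Metric Filter Topology MeasureTheory
open scoped ENNReal NNReal

namespace Crest.Agent.R096.Sqt_143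

open Crest.AnalysisR.VecCalc3
open Crest.Agent.R096.Msh_715 (P I Tiling)
open Crest.Agent.R096.Sq_55 (E3 Sys w2)
open Crest.Agent.R096.Cob_622 (EF Jt CE SmallR)
open Crest.Agent.R096.Efi_296
open Crest.Agent.R096.Cbs_296
open Crest.Agent.R096.Slb_296
open Crest.Agent.R096.Fce_793 (pt)
open Crest.Agent.R096.H2a_821 (tube_pieces)
open Crest.Agent.R96.Coarse_538 (seg)
open Crest.Agent.R96.Lu_538 (Gmat)
open Crest.Agent.R096.Br_695 (En)

noncomputable section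

/-- the constants are monotone in the shape number -/
theorem CT_mono {p : ℝ} (hp : p < 3) {m M : ℝ≥0} (h : m ≤ M) : CT p m ≤ CT p M := by
  have h1 : 0 < 1 - Sq_55.qn 3 p := by
    have := Sq_55.qn_lt (n := 3) (p := p) (by exact_mod_cast hp)
    linarith
  have h2 : 0 < 1 - Sq_55.qF p := by
    have := Sq_55.qF_lt p
    linarith
  have h3 : (m:ℝ) ≤ M := by exact_mod_cast h
  unfold CT
  gcongr

theorem CE_mono {p : ℝ} (hp0 : 0 ≤ p) (hp : p < 3) (K : ℝ≥0) {m M : ℝ≥0} (h : m ≤ M) :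
    CE p K m ≤ CE p K M := by
  have h3 : (m:ℝ) ≤ M := by exact_mod_cast h
  have h4 := CT_mono hp h
  have h5 := CT_nonneg hp m
  unfold CE
  gcongr

variable {OmR : Set R3} {ι : Type*} {T : Tiling OmR ι} {Om : Set R3} {κe κf : Type*}
  {x v : κe → R3} {e : κf → Fin 2 → R3} {xx : κf → R3} {a : R3} {Q : κf → Set (ℝ × ℝ)}
  {s : Finset ι} {pr : (Te T).Cell → Prop}
  {c : ι → E3} {R : ι → ℝ≥0} {ρ : E3 → ℝ≥0} {m : ι → ℝ≥0} {X : Sys s (reps (Te T) s pr)}

theorem norm_v_le {i : κe} {S : Set R3} {V : ℝ} (hV : ∀ y ∈ S, ∀ z ∈ S, ‖z - y‖ ≤ V)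
    (h : seg x v a i ⊆ S) : ‖v i‖ ≤ V := by
  rw [seg_eq_pl] at h
  have h0 := h (mem_image_of_mem _ (show (0:ℝ) ∈ Icc (0:ℝ) 1 by simp))
  have h1 := h (mem_image_of_mem _ (show (1:ℝ) ∈ Icc (0:ℝ) 1 by simp))
  have h2 := hV _ h0 _ h1
  have h3 : pl (v i) (a + x i) 1 - pl (v i) (a + x i) 0 = v i := by
    unfold pl
    simp
  rwa [h3] at h2

/-- a set `D` of deep tiles: inside `C`, in `s`, shape number `M`, at most `nb` neighbours, large with
respect to `u`; a 2-cell between two deep tiles is squeezed -/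
structure DeepS (T : Tiling OmR ι) (s : Finset ι) (pr : (Te T).Cell → Prop) (R m : ι → ℝ≥0)
    (ρ : E3 → ℝ≥0) (u : ℝ) (C : Set R3) (M : ℝ≥0) (nb : ℕ) (D : Set ι) : Prop where
  sub : ∀ k ∈ D, k ∈ s
  hM : ∀ k ∈ D, m k ≤ M
  sm : ∀ k ∈ D, SmallR R m u k
  hρ : ∀ k ∈ D, ∀ y : reps (Te T) s pr, k ∈ (Te T).at_ (y : E3) → ρ y ≤ m k * R k
  hnb : ∀ k ∈ D, (nbT (Te T) k).ncard ≤ nb
  hC : ∀ k ∈ D, P (T.H k) ⊆ C
  hpr : ∀ c : (Te T).Cell, c.dim = 2 → (Te T).at_ c.pt ⊆ D → pr c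

theorem DeepS.zn {u : ℝ} (hu : 0 ≤ u) {C : Set R3} {M : ℝ≥0} {nb : ℕ} {D : Set ι}
    (h : DeepS T s pr R m ρ u C M nb D) {me : EgS (Te T) s → κe}
    (hme : ∀ c, w2 '' c.1.set = seg x v a (me c)) {k : s} (hk : (k : ι) ∈ D) {E : Set E3} {V : ℝ}
    (hV : ∀ y ∈ P (T.H (k : ι)), ∀ z ∈ P (T.H (k : ι)), ‖z - y‖ ≤ V)
    (hz : ∀ l, (P ((Te T).H l) ∩ cthickening (25 * (M : ℝ)^4 * u) E).Nonempty → l ∈ D) :
    Zn T s pr R ρ m x v a me C nb (2 ^ nb) V k E u where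
  hr := h.hρ k hk
  hn := (ncard_faces_le (Te T) s pr k).trans (h.hnb k hk)
  hnE := by
    classical
    have h1 := card_edges_le (Te T) s (k : ι)
    refine le_trans (le_of_eq ?_) (h1.trans (Nat.pow_le_pow_right (by norm_num) (h.hnb k hk)))
    rw [← Set.ncard_coe_finset]
    congr 1
    ext y
    rw [Finset.mem_coe, Finset.mem_filter]
    exact ⟨fun h => ⟨Finset.mem_univ _, h⟩, fun h => h.2⟩
  hV := by
    intro c hc
    refine norm_v_le (a := a) (x := x) hV ?_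
    rw [← hme c, ← image_P_Te]
    exact image_mono hc
  hC := by
    intro c hc
    rw [← hme c]
    refine (image_mono hc).trans ?_
    rw [image_P_Te]
    exact h.hC k hk
  hno := by
    rintro b ⟨z, hzb, hzk, hzE⟩
    refine b.2.2 (h.hpr b.1 b.2.1.1 fun l hl => hz l ⟨z, ?_, ?_⟩)
    · have h1 : z ∈ (Te T).cc b.1.pt := by rw [← b.1.set_eq]; exact hzb
      exact (Te T).at_sub_of_mem_cc h1 hl
    · refine cthickening_mono ?_ _ hzE
      have h2 : (m k : ℝ) ≤ M := by exact_mod_cast h.hM k hk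
      gcongr





end

end Crest.Agent.R096.Sqt_143
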