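import Crest.Agent.R096.Dis1_184
import Crest.Agent.R096.Bar4_543_Mg
import Crest.Agent.R096.Bgf10_4
import Crest.Agent.R096.Dia2_316
import Crest.Agent.R096.Dfn4_416
import Crest.Agent.R096.Bmf1_416
import Crest.Agent.R096.Bgf11_4
import Crest.Agent.R096.Ebr7_95
import Crest.Agent.R096.Dfg1_539
import Crest.Agent.R096.Dff2_539

-- ▼ part R096/Dib3_438
section

/-! Row 96 (helper438), DOORS, `DIn` for the barrier families, part 3: the second half of `DIn`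
given directly over the sum state

* `structure DInR` : the clauses of `DIn` for the names `Sum.inr j` of a state over
  `Sum.map fam1 fam2` (the second index type may be empty);
* **`din_sumR`** : `DIn` of the first part + `DInR` ⟹ `DIn`. -/

set_option autoImplicit false
set_option linter.unusedSectionVars false
set_option linter.style.longLine false

open Set Topology Filter Metric Module
open scoped Classical

namespace Crest.Agent.R096.Dib_438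

open Crest.Agent.R096.Msh_715 Crest.Agent.R096.Coh_184 Crest.Agent.R096.Lab_184
  Crest.Agent.R096.Main_4 Crest.Agent.R096.Agl5_543
  Crest.Agent.R096.Seq_213 Crest.Agent.R096.St_147 Crest.Agent.R096.Door_501
  Crest.Agent.R096.Twr_438 Crest.Agent.R096.Exa_560
  Crest.Agent.R096.Ess3_95 Crest.Agent.R096.Ess4_95 Crest.Agent.R096.Dfi_539
  Crest.Agent.R096.Dis_184

variable {E : Type} [NormedAddCommGroup E] [NormedSpace ℝ E] [FiniteDimensional ℝ E]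
variable {Om : Set E} {ι : Type} {T : Tiling Om ι}
variable {J1 C1 J2 C2 : Type} {fam1 : J1 → C1} {fam2 : J2 → C2}
variable {κ : Type} {Kc : κ → Set E} {h3 : finrank ℝ E = 3}

/-- **the second half of `DIn`**, over the sum state -/
structure DInR (hH : ∀ c, CoreH T (Kc c)) (s : GSt (meshC T h3) (Sum.map fam1 fam2)) (r : J2 → E)
    (Sf : J2 → Set E) (nb : κ → C2 → Prop) (v0 v1 : ∀ c, C2 → VxK T Kc c) (u : κ → C2 → E → ℝ)
    (A B : κ → C2 → ℝ) : Prop where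
  h1 : ∀ j, s.H1 (Sum.inr j)
  conn : ∀ j, s.Conn (Sum.inr j)
  root : ∀ j, r j ∈ s.P ∧ s.lab (r j) = Sum.inr j
  out : ∀ j c, r j ∉ interior (Kc c)
  dim1 : ∀ w ∈ s.P, ∀ j, s.lab w = Sum.inr j → w ∈ Om ∧ T.dim w = 1
  car : ∀ j, Car s (Sum.inr j) (Sf j)
  sub : ∀ j, Sf j ⊆ Om
  finJ : ∀ a, {j | fam2 j = a}.Finite
  nb_c : ∀ c, {a | nb c a}.Finite
  nb_a : ∀ a, {c | nb c a}.Finite
  far : ∀ c w j, w ∈ s.P → s.lab w = Sum.inr j → w ∈ frontier (Kc c) → nb c (fam2 j)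
  eg : ∀ c j, nb c (fam2 j) →
    Nonempty (EG s (Sum.inr j) (Sf j) Kc c (v0 c (fam2 j)) (v1 c (fam2 j)) (r j))
  low : ∀ c w j, w ∈ s.P → s.lab w = Sum.inr j → w ∈ frontier (Kc c) →
    u c (fam2 j) w ≤ A c (fam2 j)
  v0_lt : ∀ c a, nb c a → u c a (v0 c a).1 ≤ A c a
  v1_gt : ∀ c a, nb c a → B c a ≤ u c a (v1 c a).1
  lev : ∀ c, ∀ lvl : J2 → ℝ, (∀ i j, fam2 i = fam2 j → lvl i = lvl j → i = j) →
    ∀ Q : Set E, Q.Finite → ∃ L : C2 → Lev T (frontier (Kc c)) J2,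
      (∀ a, (L a).u = u c a) ∧ (∀ a j, j ∈ (L a).J0 ↔ fam2 j = a ∧ nb c a) ∧
      (∀ a, ∀ j ∈ (L a).J0, A c a < (L a).lv j ∧ (L a).lv j < B c a) ∧
      (∀ a, ∀ j ∈ (L a).J0, ∀ w ∈ Q, (L a).u w ≠ (L a).lv j) ∧
      (∀ a, ∀ i ∈ (L a).J0, ∀ j ∈ (L a).J0, (L a).lv i < (L a).lv j ↔ lvl i < lvl j) ∧
      (∀ a b, a ≠ b → ∀ i ∈ (L a).J0, ∀ j ∈ (L b).J0, ∀ y ∈ frontier (Kc c), T.dim y = 1 →
        (L a).u y = (L a).lv i → (L b).u y ≠ (L b).lv j) ∧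
      ∀ a, ∀ j ∈ (L a).J0,
        IsPreconnected {x | x ∈ frontier (Kc c) ∧ (L a).u x = (L a).lv j} ∧
        {x | x ∈ frontier (Kc c) ∧ (L a).u x = (L a).lv j}.Nonempty

/-- **the input of the towers for a state with two parts**: the first part through `Part`, the
second directly -/
theorem din_sumR {hH : ∀ c, CoreH T (Kc c)} {s1 : GSt (meshC T h3) fam1}
    {s : GSt (meshC T h3) (Sum.map fam1 fam2)}
    {r1 : J1 → E} {Sf1 : J1 → Set E} {nb1 : κ → C1 → Prop} {v01 v11 : ∀ c, C1 → VxK T Kc c}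
    {u1 : κ → C1 → E → ℝ} {A1 B1 : κ → C1 → ℝ}
    {r2 : J2 → E} {Sf2 : J2 → Set E} {nb2 : κ → C2 → Prop} {v02 v12 : ∀ c, C2 → VxK T Kc c}
    {u2 : κ → C2 → E → ℝ} {A2 B2 : κ → C2 → ℝ}
    (p1 : Part s1 s Sum.inl)
    (D1 : DIn hH s1 r1 Sf1 nb1 v01 v11 u1 A1 B1) (D2 : DInR hH s r2 Sf2 nb2 v02 v12 u2 A2 B2) :
    DIn hH s (Sum.elim r1 r2) (Sum.elim Sf1 Sf2) (fun c => Sum.elim (nb1 c) (nb2 c))
      (fun c => Sum.elim (v01 c) (v02 c)) (fun c => Sum.elim (v11 c) (v12 c))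
      (fun c => Sum.elim (u1 c) (u2 c)) (fun c => Sum.elim (A1 c) (A2 c))
      (fun c => Sum.elim (B1 c) (B2 c)) where
  h1 := by
    rintro (j | j)
    · exact p1.h1 (D1.h1 j)
    · exact D2.h1 j
  conn := by
    rintro (j | j)
    · exact p1.conn (D1.conn j)
    · exact D2.conn j
  root := by
    rintro (j | j)
    · exact (p1.pts _ _).2 (D1.root j)
    · exact D2.root j
  out := by
    rintro (j | j)
    · exact D1.out j
    · exact D2.out j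
  dim1 := by
    intro w hw
    rcases hl : s.lab w with j | j
    · exact D1.dim1 w (p1.mem' hw hl).1
    · exact D2.dim1 w hw j hl
  car := by
    rintro (j | j)
    · exact p1.car (D1.car j)
    · exact D2.car j
  sub := by
    rintro (j | j)
    · exact D1.sub j
    · exact D2.sub j
  finJ := by
    rintro (a | a)
    · refine ((D1.finJ a).image Sum.inl).subset ?_
      rintro (j | j) hj
      · exact ⟨j, Sum.inl_injective hj, rfl⟩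
      · cases hj
    · refine ((D2.finJ a).image Sum.inr).subset ?_
      rintro (j | j) hj
      · cases hj
      · exact ⟨j, Sum.inr_injective hj, rfl⟩
  nb_c := by
    intro c
    refine (((D1.nb_c c).image Sum.inl).union ((D2.nb_c c).image Sum.inr)).subset ?_
    rintro (a | a) ha
    · exact Or.inl ⟨a, ha, rfl⟩
    · exact Or.inr ⟨a, ha, rfl⟩
  nb_a := by
    rintro (a | a)
    · exact D1.nb_a a
    · exact D2.nb_a a
  far := by
    intro c w hw hf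
    rcases hl : s.lab w with j | j
    · obtain ⟨h1, h2⟩ := p1.mem' hw hl
      have := D1.far c w h1 hf
      rw [h2] at this
      exact this
    · exact D2.far c w j hw hl hf
  eg := by
    rintro c (j | j) hn
    · exact (D1.eg c j hn).map p1.eg
    · exact D2.eg c j hn
  low := by
    intro c w hw hf
    rcases hl : s.lab w with j | j
    · obtain ⟨h1, h2⟩ := p1.mem' hw hl
      have := D1.low c w h1 hf
      rw [h2] at this
      exact this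
    · exact D2.low c w j hw hl hf
  v0_lt := by
    rintro c (a | a) hn
    · exact D1.v0_lt c a hn
    · exact D2.v0_lt c a hn
  v1_gt := by
    rintro c (a | a) hn
    · exact D1.v1_gt c a hn
    · exact D2.v1_gt c a hn
  lev := by
    intro c lvl hinj Q hQ
    obtain ⟨L1, a1, a2, a3, a4, a5, a6, a7⟩ := D1.lev c (fun j => lvl (Sum.inl j))
      (fun i j h e => Sum.inl_injective (hinj _ _ (congrArg Sum.inl h) e)) Q hQ
    -- the points of the first levels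
    have hS := sgd h3 hH c
    have hQ2 : (Q ∪ ⋃ a ∈ {a | nb1 c a}, (L1 a).PS).Finite :=
      hQ.union ((D1.nb_c c).biUnion fun a _ => (L1 a).finite_PS hS)
    obtain ⟨L2, b1, b2, b3, b4, b5, b6, b7⟩ := D2.lev c (fun j => lvl (Sum.inr j))
      (fun i j h e => Sum.inr_injective (hinj _ _ (congrArg Sum.inr h) e)) _ hQ2
    let L : C1 ⊕ C2 → Lev T (frontier (Kc c)) (J1 ⊕ J2) := fun
      | Sum.inl a => levMap (L1 a) ⟨Sum.inl, Sum.inl_injective⟩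
          (Sum.elim (L1 a).lv fun _ => 0) fun _ => rfl
      | Sum.inr a => levMap (L2 a) ⟨Sum.inr, Sum.inr_injective⟩
          (Sum.elim (fun _ => 0) (L2 a).lv) fun _ => rfl
    have hL1 : ∀ a j, j ∈ (L (Sum.inl a)).J0 ↔ ∃ j', j' ∈ (L1 a).J0 ∧ Sum.inl j' = j := fun a j =>
      Finset.mem_map
    have hL2 : ∀ a j, j ∈ (L (Sum.inr a)).J0 ↔ ∃ j', j' ∈ (L2 a).J0 ∧ Sum.inr j' = j := fun a j =>
      Finset.mem_map
    have hmix : ∀ a b, ∀ i ∈ (L1 a).J0, ∀ j ∈ (L2 b).J0, ∀ y ∈ frontier (Kc c), T.dim y = 1 →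
        (L1 a).u y = (L1 a).lv i → (L2 b).u y ≠ (L2 b).lv j := by
      intro a b i hi j hj y hy hd e
      refine b4 b j hj y (Or.inr ?_)
      exact mem_biUnion (x := a) ((a2 a i).1 hi).2 ⟨hy, hd, i, hi, e⟩
    refine ⟨L, ?_, ?_, ?_, ?_, ?_, ?_, ?_⟩
    · rintro (a | a)
      · exact a1 a
      · exact b1 a
    · rintro (a | a) j
      · rw [hL1]
        constructor
        · rintro ⟨j', hj', rfl⟩
          obtain ⟨h1, h2⟩ := (a2 a j').1 hj'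
          exact ⟨congrArg Sum.inl h1, h2⟩
        · rintro ⟨h1, h2⟩
          rcases j with j | j
          · exact ⟨j, (a2 a j).2 ⟨Sum.inl_injective h1, h2⟩, rfl⟩
          · cases h1
      · rw [hL2]
        constructor
        · rintro ⟨j', hj', rfl⟩
          obtain ⟨h1, h2⟩ := (b2 a j').1 hj'
          exact ⟨congrArg Sum.inr h1, h2⟩
        · rintro ⟨h1, h2⟩
          rcases j with j | j
          · cases h1
          · exact ⟨j, (b2 a j).2 ⟨Sum.inr_injective h1, h2⟩, rfl⟩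
    · rintro (a | a) j hj
      · obtain ⟨j', hj', rfl⟩ := (hL1 a j).1 hj
        exact a3 a j' hj'
      · obtain ⟨j', hj', rfl⟩ := (hL2 a j).1 hj
        exact b3 a j' hj'
    · rintro (a | a) j hj w hw
      · obtain ⟨j', hj', rfl⟩ := (hL1 a j).1 hj
        exact a4 a j' hj' w hw
      · obtain ⟨j', hj', rfl⟩ := (hL2 a j).1 hj
        exact b4 a j' hj' w (Or.inl hw)
    · rintro (a | a) i hi j hj
      · obtain ⟨i', hi', rfl⟩ := (hL1 a i).1 hi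
        obtain ⟨j', hj', rfl⟩ := (hL1 a j).1 hj
        exact a5 a i' hi' j' hj'
      · obtain ⟨i', hi', rfl⟩ := (hL2 a i).1 hi
        obtain ⟨j', hj', rfl⟩ := (hL2 a j).1 hj
        exact b5 a i' hi' j' hj'
    · rintro (a | a) (b | b) hab i hi j hj y hy hd e
      · obtain ⟨i', hi', rfl⟩ := (hL1 a i).1 hi
        obtain ⟨j', hj', rfl⟩ := (hL1 b j).1 hj
        exact a6 a b (fun h => hab (congrArg Sum.inl h)) i' hi' j' hj' y hy hd e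
      · obtain ⟨i', hi', rfl⟩ := (hL1 a i).1 hi
        obtain ⟨j', hj', rfl⟩ := (hL2 b j).1 hj
        exact hmix a b i' hi' j' hj' y hy hd e
      · obtain ⟨i', hi', rfl⟩ := (hL2 a i).1 hi
        obtain ⟨j', hj', rfl⟩ := (hL1 b j).1 hj
        exact fun e' => hmix b a j' hj' i' hi' y hy hd e' e
      · obtain ⟨i', hi', rfl⟩ := (hL2 a i).1 hi
        obtain ⟨j', hj', rfl⟩ := (hL2 b j).1 hj
        exact b6 a b (fun h => hab (congrArg Sum.inr h)) i' hi' j' hj' y hy hd e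
    · rintro (a | a) j hj
      · obtain ⟨j', hj', rfl⟩ := (hL1 a j).1 hj
        exact a7 a j' hj'
      · obtain ⟨j', hj', rfl⟩ := (hL2 a j).1 hj
        exact b7 a j' hj'

end Crest.Agent.R096.Dib_438
end

-- ▼ part R096/Dib4_438
section

/-! Row 96 (helper438), DOORS, `DIn` for the barrier families, part 4: the half record `DInR` for
the moats `BM Φ X` over any state with the barriers

* `BM.cx`, `bm_fin` : the core of a moat; finitely many moats at a core;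
* `exists_vbm` : the vertices `v0`, `v1` of all moats;
* **`dinR_BM`** : `DInR` from the posts of 4's `exists_bars` and 95's `EG`. -/

set_option autoImplicit false
set_option linter.unusedSectionVars false
set_option linter.style.longLine false

open Set Topology Filter Metric Module
open scoped Classical

namespace Crest.Agent.R096.Dib_438

open Crest.Agent.R096.Msh_715 Crest.Agent.R096.Coh_184 Crest.Agent.R096.Bsp_628
  Crest.Agent.R096.Brk1_582 Crest.Agent.R096.Brk2_582 Crest.Agent.R096.Brk3_582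
  Crest.Agent.R096.Brk5_582 Crest.Agent.R096.Init_543 Crest.Agent.R096.Mbf_337
  Crest.Agent.R96.Push_899 Crest.Agent.R096.Ess4_95 Crest.Agent.R096.Ess5_95
  Crest.Agent.R096.Lab_184 Crest.Agent.R096.Main_4 Crest.Agent.R096.Exa_560
  Crest.Agent.R096.Agl5_543 Crest.Agent.R096.Agl6_543
  Crest.Agent.R096.Seq_213 Crest.Agent.R096.St_147 Crest.Agent.R096.Door_501
  Crest.Agent.R096.Twr_438 Crest.Agent.R096.Bar_106 Crest.Agent.R096.Ebr4_95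
open Crest.Agent.R096.SkC1_961 (E3 Hom3 IsPush FoamD)
open Crest.Agent.R096.Ess3_95 (Car)
open Crest.Agent.R096.Ess7_95 (KT)
open Crest.Agent.R096.Frn_337 (Ti)
open Crest.Agent.R096.Bgf_4 (psi_tile)

variable {δ κ0 R c0 : ℝ} {La Om : Set E3} {ι : Type} {Φ : FoamD δ κ0 R c0 La} {T : Tiling Om ι}
  {f g : E3 → E3} {κ1 κ2 : ℝ} {X : Set Φ.F} {J0 J V : Φ.F → Set ι}
  {ct : Φ.F → ι} {A : Φ.F → E3 ≃ᵃ[ℝ] E3} {lam : Φ.F → ℝ} {z : Φ.F → E3}
  {θ : Φ.F → E3 → E3} {φ : Φ.F → E3 → ℝ}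

/-- the core of a moat -/
def cx (m : BM Φ X) : Ti X := m.1.1

theorem cx_co (m : BM Φ X) : (cx m).1 = m.co := rfl

/-- the sides of a moat -/
noncomputable def pp (m : BM Φ X) : Φ.F := m.mo.choose
noncomputable def qq (m : BM Φ X) : Φ.F := m.mo.choose_spec.choose

theorem mo_pq (m : BM Φ X) : Mo (Pc Φ.F) m.co m.am m.Zm (pp m) (qq m) :=
  m.mo.choose_spec.choose_spec

/-- **finitely many moats at a core** -/
theorem bm_fin (hLa : IsOpen La) (c : Ti X) : {m : BM Φ X | cx m = c}.Finite := by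
  have hN : {a : Φ.F | (Pc Φ.F c.1 ∩ Pc Φ.F a).Nonempty}.Finite := finite_nbr hLa c.1
  refine Set.Finite.of_finite_image (f := fun m : BM Φ X => (m.am, m.Zm))
    ((hN.prod hN.finite_subsets).subset ?_) ?_
  · rintro _ ⟨m, hm, rfl⟩
    have hm' : m.co = c.1 := by
      have : cx m = c := hm
      rw [← cx_co, this]
    have M := mo_pq m
    obtain ⟨y, hy⟩ := M.fcp
    have hyc : y ∈ Pc Φ.F m.co := mem_fc.1 hy m.co (Or.inl M.cZ)
    rw [hm'] at hyc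
    refine ⟨⟨y, hyc, mem_fc.1 hy m.am (Or.inr (Or.inl rfl))⟩, fun e he => ?_⟩
    exact ⟨y, hyc, mem_fc.1 hy e (Or.inl he)⟩
  · intro m hm m' hm' h
    have h1 : cx m = c := hm
    have h2 : cx m' = c := hm'
    have h3 : m.am = m'.am := congrArg Prod.fst h
    have h4 : m.Zm = m'.Zm := congrArg Prod.snd h
    refine BM.ext ?_ h3 h4
    rw [← cx_co, ← cx_co, h1, h2]

theorem moD (hLa : IsOpen La) : MoD Φ (cx (Φ := Φ) (X := X)) BM.am BM.Zm pp qq where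
  mo := mo_pq
  fin := bm_fin hLa

/-- **the vertices of all moats** -/
theorem exists_vbm (hLa : IsOpen La) (hδ : 0 < δ) (hR : 0 < R) (hκ : Cn δ R * κ1 < 1)
    (hC : Cores Φ T f κ1 κ2 X J0 J V ct A lam z θ φ) {x : ℝ × ℝ} (hx : x ∈ Rct) :
    ∃ v : ∀ c, BM Φ X → VxK T (KT T J X) c, ∀ c m, cx m = c →
      ∀ e, |sb Φ (θ c.1 (v c m).1) e - uu m.am m.Zm (pp m) (qq m) x.1 x.2 e| ≤
        (2 * Cn δ R + 1) * κ1 := by
  have h : ∀ (c : Ti X) (m : BM Φ X), ∃ v : VxK T (KT T J X) c, cx m = c →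
      ∀ e, |sb Φ (θ c.1 v.1) e - uu m.am m.Zm (pp m) (qq m) x.1 x.2 e| ≤
        (2 * Cn δ R + 1) * κ1 := by
    intro c m
    by_cases hm : cx m = c
    · have M := mo_pq m
      rw [← cx_co, hm] at M
      obtain ⟨v, hv, hv0, h1⟩ := exists_vuu hLa hδ hR hκ (hC.tiny c.1 c.2) M hx
      exact ⟨⟨v, hv0, hv⟩, fun _ => h1⟩
    · obtain ⟨v, hv, hv0⟩ := tiny_vx hLa hδ hR hκ (hC.tiny c.1 c.2)
      exact ⟨⟨v, hv0, hv⟩, fun h => absurd h hm⟩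
  choose v hv using h
  exact ⟨v, hv⟩

/-- the points of a barrier on a sphere: the sphere of its own core -/
theorem bm_far (hC : Cores Φ T f κ1 κ2 X J0 J V ct A lam z θ φ) {m : BM Φ X}
    {w : E3} (hw : ∀ i, w ∈ P (T.H i) → i ∈ V m.co) {c : Ti X}
    (hf : w ∈ frontier (KT T J X c)) : cx m = c := by
  have hcl : IsClosed (KJ T (J c.1)) := (coreH_tiny (hC.tiny c.1 c.2)).cpt.isClosed
  have hwK : w ∈ KJ T (J c.1) := hcl.frontier_subset hf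
  obtain ⟨i, hi, hwi⟩ := mem_iUnion₂.1 hwK
  have h1 := (hC.tiny c.1 c.2).sub hi
  have h2 := hw i hwi
  by_contra hne
  have hne' : c.1 ≠ m.co := fun h => hne (Subtype.ext h.symm)
  exact disjoint_left.1 (hC.disj c.1 m.co hne') h1 h2

/-- the levels of `f w` for a point between the radii -/
theorem lev_Icc (hLa : IsOpen La) (H : Hm f g Om La) {c : Φ.F} {J0 J V : Set ι} {θ : E3 → E3}
    {φ : E3 → ℝ} {ρ1 ρ2 ρ3 ρ4 d : ℝ}
    (hT : Tiny Φ T f κ1 c J0 J V θ φ) (hR : Rm Φ T f c J0 J V θ ρ1 ρ2 ρ3 ρ4 d) {w : E3}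
    (hw : w ∈ Om) (h1 : ρ1 ≤ ga Φ c (f w)) (h4 : ga Φ c (f w) ≤ ρ4) :
    Φ.Psi (f w) ∈ frontier c.1.set ∧ ∀ e, 0 ≤ Φ.lev e (f w) ∧ Φ.lev e (f w) ≤ 1 := by
  obtain ⟨q, hq⟩ := T.cov w hw
  obtain ⟨hV, hJ⟩ := hR.tile hq h1 h4
  have h5 := (psi_tile hLa H hT hR hV hJ hq).2
  exact ⟨h5, fun e => sb_mem hLa h5 e⟩

variable {J1 C1 : Type} {fam1 : J1 → C1}
  {s : GSt (meshC T fr3) (Sum.map fam1 (id : BM Φ X → BM Φ X))} {bm : BM Φ X → E3}
  {Sf : BM Φ X → Set E3}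

/-- **`DInR` for the moats** -/
theorem dinR_BM (hLa : IsOpen La) (hδ : 0 < δ) (hR : 0 < R) (hκ0 : 0 < κ1) (H : Hm f g Om La)
    (hC : Cores Φ T f κ1 κ2 X J0 J V ct A lam z θ φ)
    {l0 mm ra hi' : ℝ} (hN : Nm l0 mm ra hi') {Aw Bw : ℝ}
    (n1 : l0 * hi' + (2 * Cn δ R + 1) * κ1 ≤ Aw) (n2 : Aw < Bw)
    (n3 : Bw ≤ 1 - (2 * Cn δ R + 1) * κ1) (n4 : 0 < mm - ra * hi' - Cn δ R * κ1)
    (n5 : mm + ra * hi' + Cn δ R * κ1 < 1) (n6 : (2 * Cn δ R + 1) * κ1 < 1 / 2)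
    (hH1 : ∀ m, s.H1 (Sum.inr m)) (hcn : ∀ m, s.Conn (Sum.inr m))
    (hroot : ∀ m, bm m ∈ s.P ∧ s.lab (bm m) = Sum.inr m)
    (hout : ∀ m c, bm m ∉ KJ T (J c)) (hcar : ∀ m, Car s (Sum.inr m) (Sf m))
    (hsub : ∀ m, Sf m ⊆ Om)
    (hpos : ∀ m, ∀ w ∈ s.P, s.lab w = Sum.inr m → w ∈ Om ∧ T.dim w = 1 ∧
      (∀ i, w ∈ P (T.H i) → i ∈ V m.co) ∧ gmf Φ l0 mm ra m.am m.Zm (Φ.Psi (f w)) ≤ hi')
    {v0 v1 : ∀ c, BM Φ X → VxK T (KT T J X) c}
    (hv0 : ∀ c m, cx m = c → ∀ e, |sb Φ (θ c.1 (v0 c m).1) e -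
      uu m.am m.Zm (pp m) (qq m) (1 / 2) 0 e| ≤ (2 * Cn δ R + 1) * κ1)
    (hv1 : ∀ c m, cx m = c → ∀ e, |sb Φ (θ c.1 (v1 c m).1) e -
      uu m.am m.Zm (pp m) (qq m) (1 / 2) 1 e| ≤ (2 * Cn δ R + 1) * κ1)
    (heg : ∀ c m, cx m = c → Nonempty
      (EG s (Sum.inr m) (Sf m) (KT T J X) c (v0 c m) (v1 c m) (bm m))) :
    DInR (fun c => Dia_316.coreH_KT hC c) s bm Sf (fun c m => cx m = c) v0 v1
      (uM Φ hLa BM.am BM.Zm θ) (fun _ _ => Aw) (fun _ _ => Bw) := by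
  have hCn := Cn_nonneg hδ hR
  have hk : 0 ≤ Cn δ R * κ1 := mul_nonneg hCn hκ0.le
  have e1 : (2 * Cn δ R + 1) * κ1 = 2 * (Cn δ R * κ1) + κ1 := by ring
  have hk1 : Cn δ R * κ1 < 1 := by linarith
  have hl : 0 ≤ l0 * hi' := mul_nonneg hN.hl.le hN.hhi.le
  have hM : ∀ (c : Ti X) (m : BM Φ X), cx m = c →
      Mo (Pc Φ.F) c.1 m.am m.Zm (pp m) (qq m) := by
    intro c m hm
    have M := mo_pq m
    rw [← cx_co, hm] at M
    exact M
  exact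
  { h1 := hH1
    conn := hcn
    root := hroot
    out := fun m c h => hout m c.1 (interior_subset h)
    dim1 := fun w hw m hl => ⟨(hpos m w hw hl).1, (hpos m w hw hl).2.1⟩
    car := hcar
    sub := hsub
    finJ := fun a => (finite_singleton a).subset fun j hj => hj
    nb_c := fun c => bm_fin hLa c
    nb_a := fun a => (finite_singleton (cx a)).subset fun c hc => (show cx a = c from hc).symm
    far := fun c w m hw hl hf => bm_far hC (hpos m w hw hl).2.2.1 hf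
    eg := fun c m hm => heg c m hm
    low := by
      intro c w m hw hl hf
      obtain ⟨g1, g2, g3, g4⟩ := hpos m w hw hl
      have hm := bm_far hC g3 hf
      obtain ⟨ρ1, ρ2, ρ3, ρ4, d, -, hr⟩ := exists_rm (hC.tiny c.1 c.2)
      have h5 := hr.fr w hf
      have h6 := (lev_Icc hLa H (hC.tiny c.1 c.2) hr g1
        (by linarith [h5.1, hr.r12, hr.d0]) (by linarith [h5.2, hr.r34, hr.d0])).2
      refine (fs_low hLa hδ hR hk1 (hC.tiny c.1 c.2) (hM c m hm) (mo_p (hM c m hm))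
        (mo_m (hM c m hm)) hN.hl hN.hra (mm := mm) (hi := hi') (by linarith) n4 n5 hf h6
        g4).trans ?_
      show l0 * hi' + Cn δ R * κ1 ≤ Aw
      linarith
    v0_lt := by
      intro c m hm
      refine (fs_uu0 hLa (hM c m hm) (mo_p (hM c m hm)) (mo_m (hM c m hm))
        (th_mem (hC.tiny c.1 c.2) (v0 c m).2.2) n6 (hv0 c m hm)).trans ?_
      show (2 * Cn δ R + 1) * κ1 ≤ Aw
      linarith
    v1_gt := by
      intro c m hm
      refine le_trans n3 (fs_uu1 hLa (hM c m hm) (fun e he => mem_Nb.2 he)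
        (th_mem (hC.tiny c.1 c.2) (v1 c m).2.2) (hv1 c m hm))
    lev := fun c lvl hlvl Q hQ => lev_mo hLa hC.tiny (moD hLa) (by linarith) n2 (by linarith)
      (fun c a p m Z M t ht0 ht1 => by
        obtain ⟨h1, -, h3⟩ := Bar_543.fs_eq_c hLa M (fun e he => mem_Nb.2 he) ht0 ht1
        exact ⟨h1, h3⟩) c lvl hlvl Q hQ }

end Crest.Agent.R096.Dib_438
end

-- ▼ part R096/Dib5_438

/-! Row 96 (helper438), DOORS, part 5: **LEAF A** : the combined outer state with all barriers, its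
input of the towers and the position record, from the data of INIT. -/

set_option autoImplicit false
set_option linter.unusedSectionVars false
set_option linter.style.longLine false

open Set Topology Filter Metric Module MeasureTheory
open scoped Classical

namespace Crest.Agent.R096.Dib_438

open Crest.Agent.R096.Msh_715 Crest.Agent.R096.Coh_184 Crest.Agent.R096.Bsp_628
  Crest.Agent.R096.Brk1_582 Crest.Agent.R096.Brk2_582 Crest.Agent.R096.Brk3_582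
  Crest.Agent.R096.Brk5_582 Crest.Agent.R096.Init_543 Crest.Agent.R096.Mbf_337
  Crest.Agent.R96.Push_899 Crest.Agent.R096.Ess4_95 Crest.Agent.R096.Ess5_95
  Crest.Agent.R096.Lab_184 Crest.Agent.R096.Main_4 Crest.Agent.R096.Exa_560
  Crest.Agent.R096.Agl5_543 Crest.Agent.R096.Agl6_543
  Crest.Agent.R096.Seq_213 Crest.Agent.R096.St_147 Crest.Agent.R096.Door_501
  Crest.Agent.R096.Twr_438 Crest.Agent.R096.Bar_106 Crest.Agent.R096.Ebr4_95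
  Crest.Agent.R096.Bgf_4
open Crest.Agent.R096.SkC1_961 (E3 Hom3 IsPush FoamD)
open Crest.Agent.R096.Ess3_95 (Car car_gmain)
open Crest.Agent.R096.Ess7_95 (KT Sh)
open Crest.Agent.R096.Frn_337 (Ti)
open Crest.Agent.R096.Dia_316 (nbT)
open Crest.Agent.R096.Dfi_539 (DIn)
open Crest.Agent.R096.Dff_539 (vS fmB)
open Crest.Agent.R096.Dfg_539 (BRec)
open Crest.Agent.R096.Dfn_416 (BarS)
open Crest.Agent.R096.Bmf_416 (coT)

variable {δ κ0 R c0 : ℝ} {La Om : Set E3} {ι : Type} {Φ : FoamD δ κ0 R c0 La} {T : Tiling Om ι}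
  {f g : E3 → E3} {κ1 κ2 μ : ℝ} {X : Set Φ.F} {J0 J V : Φ.F → Set ι}
  {ct ct' : Φ.F → ι} {A : Φ.F → E3 ≃ᵃ[ℝ] E3} {lam : Φ.F → ℝ} {z : Φ.F → E3}
  {θ : Φ.F → E3 → E3} {φ : Φ.F → E3 → ℝ} {r₀ : Φ.F → ℝ}
  {L : Φ.F → Finset ℝ} [Nonempty (JJ Φ L)] {hG : GF Φ r₀ T f L} {bp : JJ Φ L → E3}

/-- **the numbers of record** of the barrier functions -/
noncomputable abbrev lRc (Φ : FoamD δ κ0 R c0 La) (X : Set Φ.F) (μ : ℝ) (ρ1 ρ3 d : Φ.F → ℝ) :
    BM Φ X → E3 → ℝ := lBM Φ X ρ1 ρ3 d (μ / 16) (μ / 8) (1 / 2) (1 / 2 - 5 * μ / 16)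

/-- **the geometric output about the barriers** (4's `exists_bars`, numbers of record) and the
vertices -/
structure BarOut (Φ : FoamD δ κ0 R c0 La) (T : Tiling Om ι) (f : E3 → E3) (κ1 μ : ℝ) (X : Set Φ.F)
    (J0 J V : Φ.F → Set ι) (θ : Φ.F → E3 → E3) {r₀ : Φ.F → ℝ} {L : Φ.F → Finset ℝ}
    [Nonempty (JJ Φ L)] (hG : GF Φ r₀ T f L) (bp : JJ Φ L → E3) (N : BM Φ X → Set ℝ)
    (ρ1 ρ2 ρ3 ρ4 d : Φ.F → ℝ) (q₀ : BM Φ X → E3) (ε : BM Φ X → ℝ) (bm : BM Φ X → E3)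
    (hGB : GFB Φ r₀ T f L (lRc Φ X μ ρ1 ρ3 d) ε)
    (v0B v1B : ∀ c, BM Φ X → VxK T (KT T J X) c) : Prop where
  rm : ∀ c ∉ X, d c ≤ κ1 ∧ Rm Φ T f c (J0 c) (J c) (V c) (θ c) (ρ1 c) (ρ2 c) (ρ3 c) (ρ4 c) (d c)
  barF : BarF Φ T f J0 J V θ (fun m : BM Φ X => m.co) (fun m => ρ1 m.co)
        (fun m => ρ2 m.co) (fun m => ρ3 m.co) (fun m => ρ4 m.co) (fun m => d m.co)
        (fun m => gmf Φ (μ / 8) (1 / 2) (1 / 2 - 5 * μ / 16) m.am m.Zm)
        (fun m => rB ρ1 ρ3 d m.co)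
        (fun m => Bgf_4.hB ρ1 ρ3 d m.co) (fun _ => 1) (fun m => hiB ρ1 ρ3 d (μ / 16) m.co)
        (fun m => max (d m.co / (μ / 8)) (d m.co / (1 / 2 - 5 * μ / 16))) q₀ (fun _ => 0)
  lv : ∀ m, ε m ∈ Ioo 1 (hiB ρ1 ρ3 d (μ / 16) m.co)
  new : ∀ m, ε m ∉ N m
  base : BBase T f L (lRc Φ X μ ρ1 ρ3 d) ε bp bm
  ext : Ext (st0 hG bp) (stB hGB bp bm)
  h1 : ∀ j, (stB hGB bp bm).H1 j
  conn : ∀ j, (stB hGB bp bm).Conn j
  triv : ∀ j, TrivF (ZMod 2) (SB Om Φ r₀ f L (lRc Φ X μ ρ1 ρ3 d) ε j)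
  root : ∀ m, bm m ∈ (stB hGB bp bm).P ∧ (stB hGB bp bm).lab (bm m) = Sum.inr m
  rga : ∀ m : BM Φ X, ρ3 m.co + 6 * d m.co ≤ ga Φ m.co (f (bm m)) ∧
    ga Φ m.co (f (bm m)) ≤ ρ4 m.co
  out : ∀ (m : BM Φ X) (c : Φ.F), bm m ∉ KJ T (J c)
  pos : ∀ m, ∀ w ∈ (stB hGB bp bm).P, (stB hGB bp bm).lab w = Sum.inr m →
    w ∈ Om ∧ T.dim w = 1 ∧ lRc Φ X μ ρ1 ρ3 d m (f w) = ε m ∧
      (∀ i, w ∈ P (T.H i) → i ∈ V m.co) ∧
      (rB ρ1 ρ3 d m.co - Bgf_4.hB ρ1 ρ3 d m.co * ε m ≤ ga Φ m.co (f w) ∧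
        ga Φ m.co (f w) ≤ rB ρ1 ρ3 d m.co + Bgf_4.hB ρ1 ρ3 d m.co * ε m ∧
        gmf Φ (μ / 8) (1 / 2) (1 / 2 - 5 * μ / 16) m.am m.Zm (Φ.Psi (f w)) ≤ ε m ∧
        (ga Φ m.co (f w) = rB ρ1 ρ3 d m.co - Bgf_4.hB ρ1 ρ3 d m.co * ε m ∨
          ga Φ m.co (f w) = rB ρ1 ρ3 d m.co + Bgf_4.hB ρ1 ρ3 d m.co * ε m ∨
          gmf Φ (μ / 8) (1 / 2) (1 / 2 - 5 * μ / 16) m.am m.Zm (Φ.Psi (f w)) = ε m))
  /-- the gauge of a barrier point in the radii of `Rm` -/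
  gau : ∀ m, ∀ w ∈ (stB hGB bp bm).P, (stB hGB bp bm).lab w = Sum.inr m →
    ρ1 m.co + 3 * d m.co ≤ ga Φ m.co (f w) ∧ ga Φ m.co (f w) ≤ ρ3 m.co + 13 * d m.co
  /-- levels of a barrier point -/
  lev : ∀ m, ∀ w ∈ (stB hGB bp bm).P, (stB hGB bp bm).lab w = Sum.inr m →
    (∀ e, 0 ≤ Φ.lev e (f w) ∧ Φ.lev e (f w) ≤ 1) ∧
      Gm (μ / 8) (1 / 2) (1 / 2 - 5 * μ / 16) m.am m.Zm (fun e => Φ.lev e (f w)) ≤ 1 + μ / 16
  lab : ∀ m, ∃ lm,
        FarL T (Om ∩ f ⁻¹' {y | ga Φ m.co y ≤ ρ4 m.co}) (gPts (stB hGB bp bm) (Sum.inr m)) lm ∧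
        (∀ b, b + max (d m.co / (μ / 8)) (d m.co / (1 / 2 - 5 * μ / 16)) < ε m →
          IsPreconnected {q | q ∈ frontier m.co.1.set ∧
            gmf Φ (μ / 8) (1 / 2) (1 / 2 - 5 * μ / 16) m.am m.Zm q ≤ b} →
          0 ≤ b → ∀ v ∈ Om, T.dim v = 0 →
          rB ρ1 ρ3 d m.co - Bgf_4.hB ρ1 ρ3 d m.co * ε m + 2 * d m.co ≤ ga Φ m.co (f v) →
          ga Φ m.co (f v) ≤ rB ρ1 ρ3 d m.co + Bgf_4.hB ρ1 ρ3 d m.co * ε m - 2 * d m.co →
          gmf Φ (μ / 8) (1 / 2) (1 / 2 - 5 * μ / 16) m.am m.Zm (Φ.Psi (f v)) ≤ b → lm v = 1) ∧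
        ∀ b, ε m + max (d m.co / (μ / 8)) (d m.co / (1 / 2 - 5 * μ / 16)) < b →
          IsPreconnected {q | q ∈ frontier m.co.1.set ∧
            b ≤ gmf Φ (μ / 8) (1 / 2) (1 / 2 - 5 * μ / 16) m.am m.Zm q} →
          {q | q ∈ frontier m.co.1.set ∧
            b ≤ gmf Φ (μ / 8) (1 / 2) (1 / 2 - 5 * μ / 16) m.am m.Zm q}.Nonempty →
          ∀ v ∈ Om, T.dim v = 0 →
            (ga Φ m.co (f v) ≤ rB ρ1 ρ3 d m.co - Bgf_4.hB ρ1 ρ3 d m.co * ε m - 2 * d m.co ∨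
              rB ρ1 ρ3 d m.co + Bgf_4.hB ρ1 ρ3 d m.co * ε m + 2 * d m.co ≤ ga Φ m.co (f v) ∨
              b ≤ gmf Φ (μ / 8) (1 / 2) (1 / 2 - 5 * μ / 16) m.am m.Zm (Φ.Psi (f v))) →
            lm v = 0
  v0 : ∀ c m, coT m = c → ∀ e, |sb Φ (θ c.1 (v0B c m).1) e -
      uu m.am m.Zm (pp m) (qq m) (1 / 2) 0 e| ≤ (2 * Cn δ R + 1) * κ1
  v1 : ∀ c m, coT m = c → ∀ e, |sb Φ (θ c.1 (v1B c m).1) e -
      uu m.am m.Zm (pp m) (qq m) (1 / 2) 1 e| ≤ (2 * Cn δ R + 1) * κ1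

/-- `nb` of the combined state -/
abbrev nbA (Φ : FoamD δ κ0 R c0 La) (X : Set Φ.F) (c : Ti X) : Φ.F ⊕ BM Φ X → Prop :=
  Sum.elim (nbT Φ X c) (fun m : BM Φ X => coT m = c)

/-- level functions of the combined state -/
noncomputable abbrev uA (Φ : FoamD δ κ0 R c0 La) (hLa : IsOpen La) (X : Set Φ.F)
    (θ : Φ.F → E3 → E3) (c : Ti X) : Φ.F ⊕ BM Φ X → E3 → ℝ :=
  Sum.elim (fun a x => sb Φ (θ c.1 x) a) (uM Φ hLa BM.am BM.Zm θ c)

/-- lower ends of the windows -/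
noncomputable abbrev AA (Φ : FoamD δ κ0 R c0 La) (X : Set Φ.F) (μ κ1 : ℝ) (_ : Ti X) :
    Φ.F ⊕ BM Φ X → ℝ := Sum.elim (fun _ => 1 - μ + Cn δ R * κ1) (fun _ => 5 * μ / 32)

/-- upper ends of the windows -/
noncomputable abbrev BA (Φ : FoamD δ κ0 R c0 La) (X : Set Φ.F) (μ : ℝ) (_ : Ti X) :
    Φ.F ⊕ BM Φ X → ℝ := Sum.elim (fun _ => 1 - μ / 2) (fun _ => 3 * μ / 16)

/-- the sheets of the combined state -/
noncomputable abbrev SfA (Om : Set E3) (Φ : FoamD δ κ0 R c0 La) (X : Set Φ.F) (r₀ : Φ.F → ℝ)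
    (f : E3 → E3) (L : Φ.F → Finset ℝ) (μ : ℝ) (ρ1 ρ3 d : Φ.F → ℝ) (ε : BM Φ X → ℝ) :
    JJ Φ L ⊕ BM Φ X → Set E3 :=
  Sum.elim (fun j => Sh Om Φ r₀ f j)
    (fun m => SB Om Φ r₀ f L (lRc Φ X μ ρ1 ρ3 d) ε (Sum.inr m))

/-- **the barriers of the machine**, geometric part -/
theorem exists_barOut (hLa : IsOpen La) (hδ : 0 < δ) (hR : 0 < R) (hκ0 : 0 < κ1) (hμ : 0 < μ)
    (hμ1 : μ ≤ 1 / 2) (hκ : (2 * Cn δ R + 1) * κ1 ≤ μ ^ 2 / 512)
    (hC : Cores Φ T f κ1 κ2 X J0 J V ct A lam z θ φ) (hI : InitR Φ T f g J0 ct' r₀)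
    (hL : ∀ c, ∀ t ∈ L c, 0 < t ∧ t < 1)
    (hbp : ∀ j : JJ Φ L, bp j ∈ Om ∧ T.dim (bp j) = 1 ∧ Φ.lev j.1 (f (bp j)) = j.2.1)
    (N : BM Φ X → Set ℝ) (hN0 : ∀ m, volume (N m) = 0) :
    ∃ (ρ1 ρ2 ρ3 ρ4 d : Φ.F → ℝ) (q₀ : BM Φ X → E3) (ε : BM Φ X → ℝ) (bm : BM Φ X → E3)
      (hGB : GFB Φ r₀ T f L (lRc Φ X μ ρ1 ρ3 d) ε)
      (v0B v1B : ∀ c, BM Φ X → VxK T (KT T J X) c),
      BarOut Φ T f κ1 μ X J0 J V θ hG bp N ρ1 ρ2 ρ3 ρ4 d q₀ ε bm hGB v0B v1B := by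
  have hCn := Cn_nonneg hδ hR
  have hk : 0 ≤ Cn δ R * κ1 := mul_nonneg hCn hκ0.le
  have e1 : (2 * Cn δ R + 1) * κ1 = 2 * (Cn δ R * κ1) + κ1 := by ring
  have e2 : μ ^ 2 / 512 ≤ μ / 1024 := by nlinarith
  have hk1 : Cn δ R * κ1 < 1 := by linarith
  obtain ⟨ρ1, ρ2, ρ3, ρ4, d, hrm⟩ := Dia_316.exists_rms hC
  have hra : 0 < 1 / 2 - 5 * μ / 16 := by linarith
  obtain ⟨q₀, ε, bm, hGB, hB, hε, hεN, hb, hext, hH1, hcn, htr, hroot, hga, hout, hpos, hlab⟩ :=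
    exists_bars (hG := hG) (ρ1 := ρ1) (ρ2 := ρ2) (ρ3 := ρ3) (ρ4 := ρ4) (d := d) (l0 := μ / 8)
      (mm := 1 / 2) (ra := 1 / 2 - 5 * μ / 16) (sg := μ / 16) hLa hδ hR hC hI
      (fun c hc => (hrm c hc).2) (by positivity)
      (Ebr6_95.nm_rec' hμ hμ1 (by positivity) (by linarith))
      (fun c hc => by have := (hrm c hc).1; linarith)
      (fun c hc => by have := (hrm c hc).1; linarith) hL hbp N hN0
  obtain ⟨v0, hv0⟩ := exists_vbm (x := (1 / 2, 0)) hLa hδ hR hk1 hC r0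
  obtain ⟨v1, hv1⟩ := exists_vbm (x := (1 / 2, 1)) hLa hδ hR hk1 hC r1
  have hgau : ∀ m, ∀ w ∈ (stB hGB bp bm).P, (stB hGB bp bm).lab w = Sum.inr m →
      ρ1 m.co + 3 * d m.co ≤ ga Φ m.co (f w) ∧ ga Φ m.co (f w) ≤ ρ3 m.co + 13 * d m.co := by
    intro m w hw hl
    obtain ⟨-, -, -, -, g1, g2, -⟩ := hpos m w hw hl
    have hr := (hrm m.co m.co_notMem).2
    have hh0 : 0 < Bgf_4.hB ρ1 ρ3 d m.co := by
      unfold Bgf_4.hB
      linarith [hr.r12, hr.r23, hr.d0]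
    have e3 := rB_sub (ρ1 := ρ1) (ρ3 := ρ3) (d := d) m.co
    have e4 := rB_add (ρ1 := ρ1) (ρ3 := ρ3) (d := d) m.co
    have e5 := hB_mul_hiB (sg := μ / 16) hh0
    have e6 := mul_lt_mul_of_pos_left (hε m).2 hh0
    constructor <;> linarith
  refine ⟨ρ1, ρ2, ρ3, ρ4, d, q₀, ε, bm, hGB, v0, v1, hrm, hB, hε, hεN, hb, hext, hH1, hcn, htr,
    hroot, hga, hout, hpos, hgau, fun m w hw hl => ?_, hlab, fun c m hm => hv0 c m hm,
    fun c m hm => hv1 c m hm⟩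
  obtain ⟨g0, -, -, -, -, -, g3, -⟩ := hpos m w hw hl
  have hr := (hrm m.co m.co_notMem).2
  obtain ⟨g4, g5⟩ := hgau m w hw hl
  refine ⟨(lev_Icc hLa hI.hm (hC.tiny m.co m.co_notMem) hr g0 (by linarith [hr.d0])
    (by linarith [hr.d0, hr.r34])).2, ?_⟩
  have e5 := hiB_le (ρ1 := ρ1) (ρ3 := ρ3) (d := d) (μ / 16) m.co
  exact g3.trans ((hε m).2.le.trans e5)

/-- the half record of the barriers -/
theorem BarOut.dinR {N : BM Φ X → Set ℝ} {ρ1 ρ2 ρ3 ρ4 d : Φ.F → ℝ} {q₀ : BM Φ X → E3}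
    {ε : BM Φ X → ℝ} {bm : BM Φ X → E3} {hGB : GFB Φ r₀ T f L (lRc Φ X μ ρ1 ρ3 d) ε}
    {v0B v1B : ∀ c, BM Φ X → VxK T (KT T J X) c}
    (h : BarOut Φ T f κ1 μ X J0 J V θ hG bp N ρ1 ρ2 ρ3 ρ4 d q₀ ε bm hGB v0B v1B)
    (hLa : IsOpen La) (hδ : 0 < δ) (hR : 0 < R) (hκ0 : 0 < κ1) (hμ : 0 < μ)
    (hμ1 : μ ≤ 1 / 2) (hκ : (2 * Cn δ R + 1) * κ1 ≤ μ ^ 2 / 512)
    (hC : Cores Φ T f κ1 κ2 X J0 J V ct A lam z θ φ) (hI : InitR Φ T f g J0 ct' r₀) :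
    DInR (fun c => Dia_316.coreH_KT hC c) (stB hGB bp bm) bm
      (fun m => SB Om Φ r₀ f L (lRc Φ X μ ρ1 ρ3 d) ε (Sum.inr m)) (fun c m => coT m = c) v0B v1B
      (uM Φ hLa BM.am BM.Zm θ) (fun _ _ => 5 * μ / 32) (fun _ _ => 3 * μ / 16) := by
  have hCn := Cn_nonneg hδ hR
  have hk : 0 ≤ Cn δ R * κ1 := mul_nonneg hCn hκ0.le
  have e1 : (2 * Cn δ R + 1) * κ1 = 2 * (Cn δ R * κ1) + κ1 := by ring
  have e2 : μ ^ 2 / 512 ≤ μ / 1024 := by nlinarith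
  have e3 : μ / 8 * (1 + μ / 16) ≤ μ / 8 + μ / 256 := by nlinarith
  have e4 : (1 / 2 - 5 * μ / 16) * (1 + μ / 16) ≤ 1 / 2 - 5 * μ / 16 + μ / 32 := by nlinarith
  refine dinR_BM (l0 := μ / 8) (mm := 1 / 2) (ra := 1 / 2 - 5 * μ / 16) (hi' := 1 + μ / 16)
    hLa hδ hR hκ0 hI.hm hC (Ebr6_95.nm_rec' hμ hμ1 (by positivity) (by linarith))
    (by linarith) (by linarith) (by linarith) (by linarith) (by linarith) (by linarith)
    (fun m => h.h1 _) (fun m => h.conn _) h.root h.out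
    (fun m => car_gmain hGB (fun i => h.base.mem hLa hI i) (Sum.inr m) (h.triv _))
    (fun m x hx => hx.1) (fun m w hw hl => ?_) (fun c m hm => h.v0 c m hm)
    (fun c m hm => h.v1 c m hm) (fun c m hm => ?_)
  · obtain ⟨g0, g1, -, g2, -, -, g3, -⟩ := h.pos m w hw hl
    exact ⟨g0, g1, g2, g3.trans ((h.lv m).2.le.trans (hiB_le (μ / 16) m.co))⟩
  · refine Ebr7_95.eg_bars hLa hδ hR hI.hm hC hκ0.le hμ hμ1 hκ (fun c hc => (h.rm c hc).1) le_rfl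
      (fun c hc => (h.rm c hc).2) hGB h.barF h.lv h.base h.rga h.lab m c ?_ (mo_pq m) ?_ ?_
    · rw [← hm]; rfl
    · have := h.v0 c m hm
      rw [← hm] at this
      subst hm
      exact this
    · have := h.v1 c m hm
      subst hm
      exact this

end Crest.Agent.R096.Dib_438
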