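import Crest.Agent.R096.Cns2_778
import Crest.Agent.R096.Bgf11_4
import Crest.Agent.R096.Wy1_664
import Crest.Agent.R096.Dib5_438
import Crest.Agent.R096.Tro4_147

-- ▼ part R096/Cns3_778
section

/-!
# R096 (row 96), DOORS, CONN-T (helper778), part 3: the machine instance

* `Gma`      : the part of the sheet of a barrier above the gauge `rr m`;
* `gma_conn` : it is connected; `upp_stB` : `Upp` for 4's state `stB`;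
* `mem_SB`   : points of `s₂` of the name `m` on an outer tile above `ρ3 + 7 d` are in `SB`;
* `RB_tile`  : the tiles of the faces of `RB`;
* `connT_stB`: 147's `ConnT` from (NE) and the wall point.
-/

set_option autoImplicit false
set_option linter.unusedSectionVars false
set_option linter.style.longLine false

open Set Filter Topology Metric MeasureTheory

namespace Crest.Agent.R096.Cns_778

open Crest.Agent.R096.Msh_715 Crest.Agent.R096.Coh_184 Crest.Agent.R096.Bsp_628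
  Crest.Agent.R096.Brk1_582 Crest.Agent.R096.Brk2_582 Crest.Agent.R096.Brk3_582
  Crest.Agent.R096.Brk5_582 Crest.Agent.R096.Init_543 Crest.Agent.R096.Mbf_337
  Crest.Agent.R096.Main_4 Crest.Agent.R096.Lab_184
  Crest.Agent.R096.Seq_213 Crest.Agent.R096.Seq_213.GSt Crest.Agent.R096.Ginv_543
  Crest.Agent.R096.Agl5_543
  Crest.Agent.R96.Push_899 Crest.Agent.R096.Ess5_95 Crest.Agent.R096.Ess8_95
  Crest.Agent.R096.Ebr1_95 Crest.Agent.R096.Ebr4_95 Crest.Agent.R096.Bar_106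
  Crest.Agent.R096.Exa_560 Crest.Agent.R096.Sphg_316
  Crest.Agent.R096.Bgf_4 Crest.Agent.R096.Ess3_95 Crest.Agent.R096.Sla_184
  Crest.Agent.R096.Twr_438 Crest.Agent.R096.Dfi_471 Crest.Agent.R096.Pbn_147
  Crest.Agent.R096.Sec_892 Crest.Agent.R096.St_147 Crest.Agent.R096.Door_501
  Crest.Agent.R096.Cg_501
open Crest.Agent.R096.Frn_337 (Ti)
open Crest.Agent.R096.Sla_184.Sla (old Fn Out F0)

open Crest.Agent.R096.SkC1_961 (E3 Hom3 IsPush FoamD)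

section gen

variable {δ κ0 R c0 : ℝ} {La Om : Set E3} {ι : Type} {Φ : FoamD δ κ0 R c0 La}
  {T : Tiling Om ι} {f g : E3 → E3}
  {J0 J V : Φ.F → Set ι} {θ : Φ.F → E3 → E3} {Mo : Type} {co : Mo → Φ.F}
  {ρ1 ρ2 ρ3 ρ4 d : Mo → ℝ} {G : Mo → E3 → ℝ} {rm h lo hi ω : Mo → ℝ} {q₀ : Mo → E3}
  {g0 ε rr : Mo → ℝ}

/-- the part of the sheet of the barrier above the gauge `rr m` -/
def Gma (Om : Set E3) (Φ : FoamD δ κ0 R c0 La) (f : E3 → E3) (co : Mo → Φ.F)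
    (ℓ : Mo → E3 → ℝ) (ε rr : Mo → ℝ) (m : Mo) : Set E3 :=
  {x | x ∈ Om ∧ ℓ m (f x) = ε m ∧ rr m ≤ ga Φ (co m) (f x)}

theorem gma_conn (hB : BarF Φ T f J0 J V θ co ρ1 ρ2 ρ3 ρ4 d G rm h lo hi ω q₀ g0)
    (hLa : IsOpen La) (H : Hm f g Om La) (hε : ∀ m, ε m ∈ Ioo (lo m) (hi m)) {m : Mo}
    (h0 : 0 < rr m) (h1 : rm m - h m * ε m < rr m) (h2 : rr m ≤ rm m + h m * ε m) :
    IsPreconnected (Gma Om Φ f co (lM Φ co rm h hi G) ε rr m) := by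
  obtain ⟨p, hP⟩ := hB.pol hLa m
  have hr := hB.room m
  have hG := hB.gm m
  have hh := hB.h0 m
  have hεm := hε m
  have hεhi : h m * ε m < h m * hi m := mul_lt_mul_of_pos_left hεm.2 hh
  have hd := hr.d0
  have ha1 : rm m + h m * ε m ≤ ρ4 m := by linarith [hB.a1' m]
  have hε0 : 0 < ε m := lt_of_le_of_lt hG.lo0 hεm.1
  have hhε : 0 < h m * ε m := mul_pos hh hε0
  set a1 : ℝ := rm m + h m * ε m with ha1d
  set A : Set E3 := {q | q ∈ frontier (co m).1.set ∧ G m q = ε m} with hA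
  set B : Set E3 := {q | q ∈ frontier (co m).1.set ∧ G m q ≤ ε m} with hBd
  have c1 := hP.prod_conn (A := A) (fun q hq => hq.1) (hG.eq _ hεm) h0 ha1
  have c2 := hP.prod_conn (A := B) (fun q hq => hq.1) (GM.le_conn hP hG hεm)
    (h0.trans_le h2) ha1
  obtain ⟨q, hq, hqe⟩ := GM.eq_ne hP hG hεm
  have hmem : a1 ∈ Ioc 0 (ρ4 m) := ⟨h0.trans_le h2, ha1⟩
  have e1 := hP.gau a1 hmem q hq
  have e2 := hP.psi a1 hmem q hq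
  have m1 : p (a1, q) ∈ {y | (rr m ≤ ga Φ (co m) y ∧ ga Φ (co m) y ≤ a1) ∧ Φ.Psi y ∈ A} :=
    ⟨⟨by rw [e1]; exact h2, e1.le⟩, by rw [e2]; exact ⟨hq, hqe⟩⟩
  have m2 : p (a1, q) ∈ {y | (a1 ≤ ga Φ (co m) y ∧ ga Φ (co m) y ≤ a1) ∧ Φ.Psi y ∈ B} :=
    ⟨⟨e1.ge, e1.le⟩, by rw [e2]; exact ⟨hq, hqe.le⟩⟩
  have c3 := c1.union (p (a1, q)) m1 m2 c2
  have hb : Bod (Φ.B (co m)).lo (Pc Φ.F (co m)) := Pse_316.bod_brick Φ (co m) (hB.pt m)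
  have hgf : ga Φ (co m) = Ng (Φ.B (co m)).lo (Pc Φ.F (co m)) :=
    funext (Etg_163.gg_eq Φ (co m))
  have hDL : {y | ga Φ (co m) y ≤ ρ4 m} ⊆ La := by
    rw [hgf]
    exact (hb.le_sub hr.r4.le).trans (Φ.bf.sub (co m).1 (co m).2)
  have c4 := H.preconn_pre (D := _) (fun y hy => hDL (show ga Φ (co m) y ≤ ρ4 m by
    rcases hy with hy | hy
    · exact hy.1.2.trans ha1
    · exact hy.1.2.trans ha1)) c3
  have e : Gma Om Φ f co (lM Φ co rm h hi G) ε rr m = Om ∩ f ⁻¹'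
      ({y | (rr m ≤ ga Φ (co m) y ∧ ga Φ (co m) y ≤ a1) ∧ Φ.Psi y ∈ A} ∪
        {y | (a1 ≤ ga Φ (co m) y ∧ ga Φ (co m) y ≤ a1) ∧ Φ.Psi y ∈ B}) := by
    ext x
    constructor
    · rintro ⟨k1, k2, k3⟩
      obtain ⟨n1, n2, n3, n4⟩ := hB.pos hεm.2 k2
      have hfr := (hP.inv (f x) (h0.trans_le k3) (n2.trans ha1)).1
      refine ⟨k1, ?_⟩
      rcases n4 with n | n | n
      · linarith
      · exact Or.inr ⟨⟨n.ge, n.le⟩, hfr, n3⟩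
      · exact Or.inl ⟨⟨k3, n2⟩, hfr, n⟩
    · rintro ⟨k1, k2⟩
      have key : rr m ≤ ga Φ (co m) (f x) ∧ ga Φ (co m) (f x) ≤ a1 ∧ G m (Φ.Psi (f x)) ≤ ε m ∧
          (ga Φ (co m) (f x) = a1 ∨ G m (Φ.Psi (f x)) = ε m) := by
        rcases k2 with ⟨⟨n1, n2⟩, n3⟩ | ⟨⟨n1, n2⟩, n3⟩
        · exact ⟨n1, n2, n3.2.le, Or.inr n3.2⟩
        · exact ⟨h2.trans n1, n2, n3.2, Or.inl (le_antisymm n2 n1)⟩
      obtain ⟨n1, n2, n3, n4⟩ := key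
      refine ⟨k1, (bl_eq_iff hεm.2).2 ?_, n1⟩
      have u1 : |ga Φ (co m) (f x) - rm m| / h m ≤ ε m := by
        rw [div_le_iff₀ hh, abs_le]
        constructor <;> linarith
      rcases n4 with n | n
      · rw [n]
        have u2 : |a1 - rm m| / h m = ε m := by
          rw [ha1d, add_sub_cancel_left, abs_of_pos hhε, mul_div_cancel_left₀ _ hh.ne']
        rw [u2]
        exact max_eq_left n3
      · rw [n]
        exact max_eq_right u1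
  rw [e]
  exact c4

end gen

section bars

variable {δ κ0 R c0 : ℝ} {La Om : Set E3} {ι : Type} {Φ : FoamD δ κ0 R c0 La}
  {T : Tiling Om ι} {f g : E3 → E3}
variable {X : Set Φ.F} {J0 J V : Φ.F → Set ι} {ct : Φ.F → ι} {A : Φ.F → E3 ≃ᵃ[ℝ] E3}
  {lam : Φ.F → ℝ} {z : Φ.F → E3} {θ : Φ.F → E3 → E3} {φ : Φ.F → E3 → ℝ} {κ1 κ2 : ℝ}
  {ρ1 ρ2 ρ3 ρ4 d : Φ.F → ℝ} {sg l0 mm ra : ℝ}
variable {r₀ : Φ.F → ℝ} {L : Φ.F → Finset ℝ} [Nonempty (JJ Φ L)] {ct' : Φ.F → ι}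
  {bp : JJ Φ L → E3} {bm : BM Φ X → E3} {ε : BM Φ X → ℝ} {q₀ : BM Φ X → E3}
  {hGB : GFB Φ r₀ T f L (lBM Φ X ρ1 ρ3 d sg l0 mm ra) ε}
  {S : Sla T (Ti X)} {r : JJ Φ L → E3}

/-- the upper part of the barrier of the moat `m` -/
abbrev GmB (Om : Set E3) (Φ : FoamD δ κ0 R c0 La) (f : E3 → E3) (X : Set Φ.F)
    (ρ1 ρ3 d : Φ.F → ℝ) (sg l0 mm ra : ℝ) (ε : BM Φ X → ℝ) (m : BM Φ X) : Set E3 :=
  Gma Om Φ f (fun m : BM Φ X => m.co) (lBM Φ X ρ1 ρ3 d sg l0 mm ra) ε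
    (fun m => ρ3 m.co + 6 * d m.co) m

/-- the data of record of the barriers -/
abbrev BarM (Φ : FoamD δ κ0 R c0 La) (T : Tiling Om ι) (f : E3 → E3) (X : Set Φ.F)
    (J0 J V : Φ.F → Set ι) (θ : Φ.F → E3 → E3) (ρ1 ρ2 ρ3 ρ4 d : Φ.F → ℝ) (sg l0 mm ra : ℝ)
    (q₀ : BM Φ X → E3) : Prop :=
  BarF Φ T f J0 J V θ (fun m : BM Φ X => m.co) (fun m => ρ1 m.co)
    (fun m => ρ2 m.co) (fun m => ρ3 m.co) (fun m => ρ4 m.co) (fun m => d m.co)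
    (fun m => gmf Φ l0 mm ra m.am m.Zm) (fun m => rB ρ1 ρ3 d m.co)
    (fun m => hB ρ1 ρ3 d m.co) (fun _ => 1) (fun m => hiB ρ1 ρ3 d sg m.co)
    (fun m => max (d m.co / l0) (d m.co / ra)) q₀ (fun _ => 0)

theorem caps (hBM : BarM Φ T f X J0 J V θ ρ1 ρ2 ρ3 ρ4 d sg l0 mm ra q₀)
    (hε : ∀ m, ε m ∈ Ioo 1 (hiB ρ1 ρ3 d sg m.co)) (m : BM Φ X) :
    0 < ρ3 m.co ∧ 0 < d m.co ∧ ρ1 m.co < ρ3 m.co ∧
    rB ρ1 ρ3 d m.co - hB ρ1 ρ3 d m.co * ε m < ρ3 m.co + 6 * d m.co ∧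
    ρ1 m.co + 2 * d m.co ≤ rB ρ1 ρ3 d m.co - hB ρ1 ρ3 d m.co * ε m ∧
    ρ3 m.co + 9 * d m.co ≤ rB ρ1 ρ3 d m.co + hB ρ1 ρ3 d m.co * ε m ∧
    rB ρ1 ρ3 d m.co + hB ρ1 ρ3 d m.co * ε m + 2 * d m.co ≤ ρ4 m.co := by
  have hr := hBM.room m
  have hh := hBM.h0 m
  have h1 : hB ρ1 ρ3 d m.co * 1 < hB ρ1 ρ3 d m.co * ε m := mul_lt_mul_of_pos_left (hε m).1 hh
  have h2 : hB ρ1 ρ3 d m.co * ε m < hB ρ1 ρ3 d m.co * hiB ρ1 ρ3 d sg m.co :=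
    mul_lt_mul_of_pos_left (hε m).2 hh
  have e1 := hBM.a0 m
  have e2 := hBM.a0' m
  have e3 := hBM.a1 m
  have e4 := hBM.a1' m
  have e5 := hr.d0
  have e6 := hr.r1
  have e7 := hr.r12
  have e8 := hr.r23
  refine ⟨by linarith, e5, by linarith, by linarith, by linarith, by linarith, by linarith⟩

/-- a point of the name `m` in `stB` above the gauge `ρ3 + 6 d` -/
theorem mem_gmB (hLa : IsOpen La)
    (hBM : BarM Φ T f X J0 J V θ ρ1 ρ2 ρ3 ρ4 d sg l0 mm ra q₀)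
    (hε : ∀ m, ε m ∈ Ioo 1 (hiB ρ1 ρ3 d sg m.co)) {m : BM Φ X} {w : E3}
    (hw : w ∈ (stB hGB bp bm).P) (hl : (stB hGB bp bm).lab w = Sum.inr m)
    (hg : ρ3 m.co + 6 * d m.co ≤ ga Φ m.co (f w)) :
    w ∈ GmB Om Φ f X ρ1 ρ3 d sg l0 mm ra ε m := by
  obtain ⟨h1, h2, h3, -⟩ := stB_bar (hBM.bdata hLa) hε hGB hw hl
  exact ⟨h1, h3, hg⟩

/-- all tiles at a point of `GmB` are near the core, outside the inner core -/
theorem gmB_tile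
    (hBM : BarM Φ T f X J0 J V θ ρ1 ρ2 ρ3 ρ4 d sg l0 mm ra q₀)
    (hε : ∀ m, ε m ∈ Ioo 1 (hiB ρ1 ρ3 d sg m.co)) {m : BM Φ X} {x : E3}
    (hx : x ∈ GmB Om Φ f X ρ1 ρ3 d sg l0 mm ra ε m) {q : ι} (hq : x ∈ P (T.H q)) :
    q ∈ V m.co ∧ q ∉ J0 m.co ∧ ∀ y ∈ P (T.H q),
      ρ3 m.co + 5 * d m.co ≤ ga Φ m.co (f y) ∧
      ga Φ m.co (f y) ≤ rB ρ1 ρ3 d m.co + hB ρ1 ρ3 d m.co * ε m + d m.co ∧
      gmf Φ l0 mm ra m.am m.Zm (Φ.Psi (f y)) ≤ ε m + max (d m.co / l0) (d m.co / ra) := by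
  obtain ⟨h1, h2, h3⟩ := hx
  obtain ⟨c1, c2, c3, c4, c5, c6, c7⟩ := caps hBM hε m
  obtain ⟨n1, n2, n3, n4⟩ := hBM.pos (hε m).2 h2
  simp only at h3 n1 n2 n3 n4
  have hr := hBM.room m
  have g1 : ρ1 m.co ≤ ga Φ m.co (f x) := by linarith
  have g2 : ga Φ m.co (f x) ≤ ρ4 m.co := by linarith
  obtain ⟨t1, t2⟩ := hr.tile hq g1 g2
  refine ⟨t1, t2, fun y hy => ?_⟩
  have o1 := abs_le.1 (hr.tile_osc hq g1 g2 hy).1
  have o2 := abs_le.1 (hBM.osc m q x hq g1 g2 y hy)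
  refine ⟨by linarith [o1.2], by linarith [o1.1], by linarith [o2.1]⟩

theorem gmB_out (hLa : IsOpen La) (H : Hm f g Om La)
    (hC : Cores Φ T f κ1 κ2 X J0 J V ct A lam z θ φ)
    (hRm : ∀ c ∉ X, Rm Φ T f c (J0 c) (J c) (V c) (θ c) (ρ1 c) (ρ2 c) (ρ3 c) (ρ4 c) (d c))
    (hBM : BarM Φ T f X J0 J V θ ρ1 ρ2 ρ3 ρ4 d sg l0 mm ra q₀)
    (hε : ∀ m, ε m ∈ Ioo 1 (hiB ρ1 ρ3 d sg m.co)) {m : BM Φ X} {q : ι}
    (hq : (P (T.H q) ∩ GmB Om Φ f X ρ1 ρ3 d sg l0 mm ra ε m).Nonempty) (c : Φ.F) :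
    ¬ P (T.H q) ⊆ KJ T (J c) := by
  obtain ⟨x, hxq, hx⟩ := hq
  obtain ⟨c1, c2, c3, c4, c5, c6, c7⟩ := caps hBM hε m
  intro hsub
  refine out_core hLa H hC hRm m.co_notMem (x := x) (fun i hi => ?_) ?_ c (hsub hxq)
  · exact (gmB_tile hBM hε hx hi).1
  · have := hx.2.2
    simp only at this
    linarith

/-- **`Upp` for the state with all barriers** -/
theorem upp_stB (hLa : IsOpen La)
    (hC : Cores Φ T f κ1 κ2 X J0 J V ct A lam z θ φ) (hI : InitR Φ T f g J0 ct' r₀)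
    (hRm : ∀ c ∉ X, Rm Φ T f c (J0 c) (J c) (V c) (θ c) (ρ1 c) (ρ2 c) (ρ3 c) (ρ4 c) (d c))
    (hBM : BarM Φ T f X J0 J V θ ρ1 ρ2 ρ3 ρ4 d sg l0 mm ra q₀)
    (hε : ∀ m, ε m ∈ Ioo 1 (hiB ρ1 ρ3 d sg m.co))
    (hb : BBase T f L (lBM Φ X ρ1 ρ3 d sg l0 mm ra) ε bp bm)
    (hL : ∀ c, ∀ t ∈ L c, 0 < t ∧ t < 1)
    (hga : ∀ m, ρ3 m.co + 6 * d m.co ≤ ga Φ m.co (f (bm m)))
    (hK : ∀ k, S.K k = KJ T (J k.1)) :
    Upp S (stB hGB bp bm) (Sum.elim r bm)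
      (fun m => Bgf_4.SB Om Φ r₀ f L (lBM Φ X ρ1 ρ3 d sg l0 mm ra) ε (Sum.inr m))
      (GmB Om Φ f X ρ1 ρ3 d sg l0 mm ra ε) where
  car := fun m => car_gmain hGB (fun j => hb.mem hLa hI j) (Sum.inr m)
    (trivF_SB hLa hI (hBM.bdata hLa) hε hL (Sum.inr m))
  sub := fun m x hx => hx.1
  conn := fun m => by
    obtain ⟨c1, c2, c3, c4, c5, c6, c7⟩ := caps hBM hε m
    exact gma_conn hBM hLa hI.hm hε (m := m) (by linarith) c4 (by linarith)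
  gs := fun m x hx => ⟨hx.1, hx.2.1⟩
  out := fun m q hq c => by
    rw [hK c]
    exact gmB_out hLa hI.hm hC hRm hBM hε hq c.1
  root := fun m => by
    obtain ⟨h1, h2⟩ := stB_root hLa hI hb hGB m
    exact ⟨h1, h2, mem_gmB hLa hBM hε h1 h2 (hga m)⟩

section s2

variable {Tw : Twrs (S.sh fr3) S.n (outK S.hH S.dis (stB hGB bp bm) (Sum.elim r bm))}
  {l0' : E3 → JJ Φ L ⊕ BM Φ X}




end s2

end bars

end Crest.Agent.R096.Cns_778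
end

-- ▼ part R096/Wy2_664
section

/-!
# Row 96, DOORS (helper664): the wall point over 4's `exists_bars`

`exists_wall` : for every moat `m` a point of the barrier on a tile which has a point of gauge
`ρ3 + 9 d` with level `≤ 3 μ / 8` (the input `y` of `ConnT`, helper778).
-/

set_option autoImplicit false
set_option linter.unusedSectionVars false

open Set Topology Filter Metric Module MeasureTheory
open scoped Classical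

namespace Crest.Agent.R096.Wy_664

open Crest.Agent.R096.Msh_715 Crest.Agent.R096.Coh_184 Crest.Agent.R096.Bsp_628
  Crest.Agent.R096.Brk1_582 Crest.Agent.R096.Brk2_582 Crest.Agent.R096.Brk3_582
  Crest.Agent.R096.Brk5_582 Crest.Agent.R096.Init_543 Crest.Agent.R096.Mbf_337
  Crest.Agent.R96.Push_899 Crest.Agent.R096.Ess1_95 Crest.Agent.R096.Ess4_95
  Crest.Agent.R096.Ess5_95 Crest.Agent.R096.Ess6_95 Crest.Agent.R096.Ess7_95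
  Crest.Agent.R096.Lab_184 Crest.Agent.R096.Seq_213 Crest.Agent.R096.Seq_213.GSt
  Crest.Agent.R096.Main_4 Crest.Agent.R096.Exa_560 Crest.Agent.R096.Agl4_543
  Crest.Agent.R096.Agl5_543 Crest.Agent.R096.Agl6_543 Crest.Agent.R096.Agl8_543
  Crest.Agent.R096.Ebr1_95 Crest.Agent.R096.Ebr2_95
  Crest.Agent.R096.Ebr3_95 Crest.Agent.R096.Ebr4_95 Crest.Agent.R096.Ebr5_95
  Crest.Agent.R096.Ebr6_95 Crest.Agent.R096.Bar_106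
  Crest.Agent.R096.Bgf_4 Crest.Agent.R096.Dib_438 Crest.Agent.R096.Sphg_316

open Crest.Agent.R096.SkC1_961 (E3 Hom3 IsPush FoamD)

variable {δ κ0 R c0 : ℝ} {La Om : Set E3} {ι : Type} {Φ : FoamD δ κ0 R c0 La}
  {T : Tiling Om ι} {f g : E3 → E3}
variable {X : Set Φ.F} {J0 J V : Φ.F → Set ι} {θ : Φ.F → E3 → E3} {κ1 : ℝ}
  {ρ1 ρ2 ρ3 ρ4 d : Φ.F → ℝ} {r₀ : Φ.F → ℝ} {L : Φ.F → Finset ℝ} [Nonempty (JJ Φ L)]
  {bp : JJ Φ L → E3} {bm : BM Φ X → E3} {ε : BM Φ X → ℝ} {q₀ : BM Φ X → E3}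

/-- **THE WALL POINT** of the moat `m` (numbers of record: `l0 = μ / 8`, `mm = 1/2`,
`ra = 1/2 - 5 μ / 16`, `sg ≤ μ / 16`, `d ≤ κ1`) -/
theorem exists_wall (hLa : IsOpen La) (hδ : 0 < δ) (hR : 0 < R) (H : Hm f g Om La)
    {μ : ℝ} (hμ : 0 < μ) (hμ1 : μ ≤ 1 / 2) {sg : ℝ} (hsg : sg ≤ μ / 16)
    (hBF : BarF Φ T f J0 J V θ (fun m : BM Φ X => m.co) (fun m => ρ1 m.co)
        (fun m => ρ2 m.co) (fun m => ρ3 m.co) (fun m => ρ4 m.co) (fun m => d m.co)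
        (fun m => gmf Φ (μ / 8) (1 / 2) (1 / 2 - 5 * μ / 16) m.am m.Zm) (fun m => rB ρ1 ρ3 d m.co)
        (fun m => hB ρ1 ρ3 d m.co) (fun _ => 1) (fun m => hiB ρ1 ρ3 d sg m.co)
        (fun m => max (d m.co / (μ / 8)) (d m.co / (1 / 2 - 5 * μ / 16))) q₀ (fun _ => 0))
    (hGB : GFB Φ r₀ T f L (lBM Φ X ρ1 ρ3 d sg (μ / 8) (1 / 2) (1 / 2 - 5 * μ / 16)) ε)
    (hε : ∀ m, ε m ∈ Ioo 1 (hiB ρ1 ρ3 d sg m.co)) (m : BM Φ X)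
    (hdm : d m.co ≤ μ ^ 2 / 512) {lm : E3 → ZMod 2}
    (hlm : FarL T (Om ∩ f ⁻¹' {y | ga Φ m.co y ≤ ρ4 m.co}) (gPts (stB hGB bp bm) (Sum.inr m)) lm)
    (LOW : ∀ b, b + max (d m.co / (μ / 8)) (d m.co / (1 / 2 - 5 * μ / 16)) < ε m →
          IsPreconnected {q | q ∈ frontier m.co.1.set ∧
            gmf Φ (μ / 8) (1 / 2) (1 / 2 - 5 * μ / 16) m.am m.Zm q ≤ b} →
          0 ≤ b → ∀ v ∈ Om, T.dim v = 0 →
          rB ρ1 ρ3 d m.co - hB ρ1 ρ3 d m.co * ε m + 2 * d m.co ≤ ga Φ m.co (f v) →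
          ga Φ m.co (f v) ≤ rB ρ1 ρ3 d m.co + hB ρ1 ρ3 d m.co * ε m - 2 * d m.co →
          gmf Φ (μ / 8) (1 / 2) (1 / 2 - 5 * μ / 16) m.am m.Zm (Φ.Psi (f v)) ≤ b → lm v = 1)
    (HIGH : ∀ b, ε m + max (d m.co / (μ / 8)) (d m.co / (1 / 2 - 5 * μ / 16)) < b →
          IsPreconnected {q | q ∈ frontier m.co.1.set ∧
            b ≤ gmf Φ (μ / 8) (1 / 2) (1 / 2 - 5 * μ / 16) m.am m.Zm q} →
          {q | q ∈ frontier m.co.1.set ∧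
            b ≤ gmf Φ (μ / 8) (1 / 2) (1 / 2 - 5 * μ / 16) m.am m.Zm q}.Nonempty →
          ∀ v ∈ Om, T.dim v = 0 →
            (ga Φ m.co (f v) ≤ rB ρ1 ρ3 d m.co - hB ρ1 ρ3 d m.co * ε m - 2 * d m.co ∨
              rB ρ1 ρ3 d m.co + hB ρ1 ρ3 d m.co * ε m + 2 * d m.co ≤ ga Φ m.co (f v) ∨
              b ≤ gmf Φ (μ / 8) (1 / 2) (1 / 2 - 5 * μ / 16) m.am m.Zm (Φ.Psi (f v))) → lm v = 0) :
    ∃ w ∈ (stB hGB bp bm).P, (stB hGB bp bm).lab w = Sum.inr m ∧ w ∈ Om ∧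
      ρ3 m.co + 8 * d m.co ≤ ga Φ m.co (f w) ∧ ga Φ m.co (f w) ≤ ρ3 m.co + 10 * d m.co ∧
      gmf Φ (μ / 8) (1 / 2) (1 / 2 - 5 * μ / 16) m.am m.Zm (Φ.Psi (f w)) = ε m ∧
      Φ.lev m.am (f w) ≤ 3 * μ / 8 ∧
      ∃ q ∈ V m.co, w ∈ P (T.H q) ∧ ∃ x ∈ P (T.H q), ga Φ m.co (f x) = ρ3 m.co + 9 * d m.co ∧
        Φ.lev m.am (f x) ≤ 3 * μ / 8 ∧
        ∀ e, dv m.am m.Zm (fun e => Φ.lev e (f x)) e = 0 := by
  obtain ⟨p, q, hM⟩ := m.mo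
  have hr := hBF.room m
  have hd := hr.d0
  have h12 := hr.r12
  have h23 := hr.r23
  have hh := hBF.h0 m
  have hra : 0 < 1 / 2 - 5 * μ / 16 := by linarith
  have hω : 0 < max (d m.co / (μ / 8)) (d m.co / (1 / 2 - 5 * μ / 16)) :=
    lt_max_of_lt_left (by positivity)
  have hω1 : max (d m.co / (μ / 8)) (d m.co / (1 / 2 - 5 * μ / 16)) ≤ μ / 64 := by
    refine max_le ?_ ?_
    · rw [div_le_iff₀ (by positivity)]
      nlinarith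
    · rw [div_le_iff₀ hra]
      nlinarith
  have hεm := hε m
  have h1 : hB ρ1 ρ3 d m.co * 1 ≤ hB ρ1 ρ3 d m.co * ε m :=
    mul_le_mul_of_nonneg_left hεm.1.le hh.le
  have e1 := rB_sub (ρ1 := ρ1) (ρ3 := ρ3) (d := d) m.co
  have e2 := rB_add (ρ1 := ρ1) (ρ3 := ρ3) (d := d) m.co
  have hhi := hiB_le (ρ1 := ρ1) (ρ3 := ρ3) (d := d) (c := m.co) sg
  obtain ⟨u, hu, hul, huO, g1, g2, g3, i, hi, hui, x, hx, hxt, hl1, hl2, hdv⟩ :=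
    exists_wall_gen (m := m) (t := ρ3 m.co + 9 * d m.co) (b0 := 1 / 8) (hN' := 1 + μ / 2)
      (p := p) (q := q) hLa hδ hR H hBF hGB hεm (nm_rec hμ hμ1) hM rfl hω (by norm_num)
      (by linarith) (by linarith [hεm.1]) (by linarith [hεm.2])
      (by show rB ρ1 ρ3 d m.co - hB ρ1 ρ3 d m.co * ε m + 3 * d m.co ≤ _; linarith)
      (by show _ ≤ rB ρ1 ρ3 d m.co + hB ρ1 ρ3 d m.co * ε m - 3 * d m.co; linarith)
      hlm.lab (fun b h1 h2 h3 => LOW b h1 h2 (le_trans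
        (div_nonneg (abs_nonneg _) hra.le) ((le_max_right _ _).trans h3))) HIGH
  have hl3 : (1 / 2 : ℝ) - (1 / 2 - 5 * μ / 16) *
      (ε m - max (d m.co / (μ / 8)) (d m.co / (1 / 2 - 5 * μ / 16))) ≤ 5 * μ / 16 + μ / 128 := by
    have h6 : (1 / 2 - 5 * μ / 16) * (1 - μ / 64) ≤ (1 / 2 - 5 * μ / 16) *
        (ε m - max (d m.co / (μ / 8)) (d m.co / (1 / 2 - 5 * μ / 16))) :=
      mul_le_mul_of_nonneg_left (by linarith [hεm.1]) hra.le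
    nlinarith
  have hd2 : d m.co ≤ μ / 64 := by nlinarith
  refine ⟨u, hu, hul, huO, by
    have g1' : ρ3 m.co + 9 * d m.co - d m.co ≤ ga Φ m.co (f u) := g1
    linarith, by
    have g2' : ga Φ m.co (f u) ≤ ρ3 m.co + 9 * d m.co + d m.co := g2
    linarith, g3, ?_, i, hi, hui, x, hx, hxt, ?_, hdv⟩
  · refine hl2.trans ?_
    show (1 / 2 : ℝ) - (1 / 2 - 5 * μ / 16) *
      (ε m - max (d m.co / (μ / 8)) (d m.co / (1 / 2 - 5 * μ / 16))) + d m.co ≤ _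
    linarith
  · exact hl1.trans (by linarith)

end Crest.Agent.R096.Wy_664
end

-- ▼ part R096/Cns4_778

/-!
# R096 (row 96), DOORS, CONN-T (helper778), part 4: the inputs of 147's `trOut_m`

* `connT_prS` : `ConnT` for a smaller connected part (the root need not be in it);
* `connT_m`, `hRR_m`, `hSS_m` : `hRS`, `hRR`, `hSS` of 147's `trOut_m` (threshold `ρ3 + 7 d`); the only
  input is (NE).
-/

set_option autoImplicit false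
set_option linter.unusedSectionVars false
set_option linter.unusedVariables false
set_option linter.style.longLine false

open Set Topology Filter Metric Module Relation
open scoped Classical

namespace Crest.Agent.R096.Cns_778

open Crest.Agent.R096.Msh_715 Crest.Agent.R096.Coh_184 Crest.Agent.R096.Lab_184
  Crest.Agent.R096.Main_4 Crest.Agent.R096.Agl5_543
  Crest.Agent.R096.Seq_213 Crest.Agent.R096.St_147 Crest.Agent.R096.Door_501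
  Crest.Agent.R096.Twr_438 Crest.Agent.R096.Exa_560
  Crest.Agent.R096.Ess3_95 Crest.Agent.R096.Ess4_95
  Crest.Agent.R096.Dfi_471 Crest.Agent.R096.Sla_184
  Crest.Agent.R096.Brk1_582 Crest.Agent.R096.Brk2_582 Crest.Agent.R096.Brk3_582
  Crest.Agent.R096.Brk5_582 Crest.Agent.R096.Bsp_628 Crest.Agent.R096.Init_543
  Crest.Agent.R096.Dib_438 Crest.Agent.R096.Rop_441
  Crest.Agent.R096.Frs_662 Crest.Agent.R096.Cg_501 Crest.Agent.R096.SecW_892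
  Crest.Agent.R096.Nmd1_698 Crest.Agent.R096.Pbn_147 Crest.Agent.R096.Bar_106
  Crest.Agent.R096.Ebr4_95 Crest.Agent.R096.Bgf_4 Crest.Agent.R096.Ess5_95
open Crest.Agent.R096.Sgo_298 (RmA rout ActR)
open Crest.Agent.R096.Mbf_337 (KJ Tiny Cores Fine Words sb gau)
open Crest.Agent.R096.SkC1_961 (E3 FoamD Hom3)
open Crest.Agent.R096.Frn_337 (Ti)
open Crest.Agent.R096.Ess7_95 (KT)
open Crest.Agent.R096.Bmf_416 (coT coT_fin)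
open Crest.Agent.R096.Sla_184.Sla (old Fn Out F0)

section small

variable {E : Type} [NormedAddCommGroup E] [NormedSpace ℝ E] [FiniteDimensional ℝ E]
variable {Om : Set E} {ι : Type} {T : Tiling Om ι} {κ : Type} {S : Sla T κ}
  {h3 : finrank ℝ E = 3} {J C Mo : Type} {fam : J → C} {am : Mo → C}
  {s : GSt (meshC T h3) (Sum.map fam (id : Mo → Mo))} {r : J ⊕ Mo → E}
  {Tw : Twrs (S.sh h3) S.n (outK S.hH S.dis s r)} {l0 : E → J ⊕ Mo}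
  {Sj Gm Gn : Mo → Set E} {a : C} {h w u x y : E}

theorem cl_mono {J' C' : Type} {fam' : J' → C'} {s' : GSt (meshC T h3) fam'} {j : J'}
    {G G' : Set E} (h : G' ⊆ G) : Cl s' j G' ⊆ Cl s' j G := by
  rintro u ⟨w, hw, h1, h2, h4⟩
  refine ⟨w, h hw, h1, h2, ?_⟩
  induction h4 with
  | refl => exact .refl
  | tail _ h5 ih =>
    obtain ⟨F, ⟨q, hq, hn⟩, hA, e⟩ := h5
    exact ih.tail ⟨F, ⟨q, hq, hn.mono (inter_subset_inter_right _ h)⟩, hA, e⟩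

/-- **the points of `m` in the smaller part are joined by chords on the faces of `RB a`** -/
theorem conn_sub (U : Upp S s r Sj Gm) (hc : ∀ m, IsPreconnected (Gn m))
    (hs : ∀ m, Gn m ⊆ Gm m) {m : Mo} (ha : am m = a) (hh : h ∈ (s2 S h3 Tw l0).P)
    (hl : (s2 S h3 Tw l0).lab h = Sum.inr m) (hG : h ∈ Gn m) {Y : Set E} (hY : h ∈ Y)
    (hcl : ∀ F ∈ RB S h3 am Gn a, ∀ y ∈ Y, (s2 S h3 Tw l0).At F y →
      (s2 S h3 Tw l0).lab y = Sum.inr m → (s2 S h3 Tw l0).mu F y ∈ Y) :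
    Cl s (Sum.inr m) (Gn m) ⊆ Y := by
  have : Nonempty (J ⊕ Mo) := ⟨Sum.inr m⟩
  have hcl0 : h ∈ Cl s (Sum.inr m) (Gn m) := by
    obtain ⟨q, hq⟩ := T.cov h (U.sub m (U.gs m (hs m hG)))
    have ho : S.Out h := Sla.out_of_tile (U.out m q ⟨h, hq, hs m hG⟩) hq
    obtain ⟨h1, h2⟩ := s2_out hh ho
    exact cl_of h1.1 (h2.symm.trans hl) hG
  refine cl_sub (U.car m) (hc m) ((hs m).trans (U.gs m)) hcl0 hY ?_
  rintro F w ⟨q, hqF, hqG⟩ hwY hwC hA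
  have hqK := U.out m q (hqG.mono (inter_subset_inter_right _ (hs m)))
  set F0 : S.F0 h3 := mkF0 F hqF hqK with hF0
  obtain ⟨g1, g2⟩ := U.mem_out (cl_mono (hs m) hwC)
  have hwF : w ∈ F0.1.On := hA.2
  obtain ⟨k1, k2, k4, k5⟩ := mu_out' (Tw := Tw) (l0 := l0) g1 hwF
  have h1 := hcl (old F0) ⟨m, ha, F0, rfl, q, hqF, hqG⟩ w hwY ⟨k1, k2⟩ (k4.trans g2)
  rw [k5] at h1
  exact h1

/-- **147's `ConnT` for the pair states of `s₂`**, for a smaller part -/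
theorem connT_sub (U : Upp S s r Sj Gm) (hc : ∀ m, IsPreconnected (Gn m))
    (hGn : ∀ m, Gn m ⊆ Gm m) {Act : C → Set (T.RIdx S.HH ⊕ κ)}
    {hs : BSep (s2 S h3 Tw l0) am} {hm : ∀ a, {m | am m = a}.Finite} {i0 : PN fam am a}
    {far : PN fam am a → Set E}
    (hy : ∀ m, am m = a → ∃ y ∈ s.P, s.lab y = Sum.inr m ∧ y ∈ Gn m ∧
      ¬ Dfo_539.Encl (s2 S h3 Tw l0) am Act m y) :
    ConnT (Act a) far (pr (s2 S h3 Tw l0) hs hm a i0) (RB S h3 am Gn a)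
      (SB am Gn (s2 S h3 Tw l0).lab a) := by
  rintro h ⟨m, ha, hl, hG⟩ hh Y hY hcl
  have hh' := (pr_hp.1 hh).1
  have e1 : Sum.elim fam am ((s2 S h3 Tw l0).lab h) = a := by rw [hl]; exact ha
  have key : ∀ y, y ∈ (s2 S h3 Tw l0).P → (s2 S h3 Tw l0).lab y = Sum.inr m →
      y ∈ (pr (s2 S h3 Tw l0) hs hm a i0).P ∧
      (pr (s2 S h3 Tw l0) hs hm a i0).lab y = (pr (s2 S h3 Tw l0) hs hm a i0).lab h := by
    intro y hy hly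
    have e2 : Sum.elim fam am ((s2 S h3 Tw l0).lab y) = a := by rw [hly]; exact ha
    refine ⟨mem_pr.2 ⟨hy, e2⟩, ?_⟩
    rw [pr_lab e1, pr_lab e2]
    exact Subtype.ext (hly.trans hl.symm)
  obtain ⟨y, y1, y2, y4, y5⟩ := hy m ha
  have h1 := conn_sub U hc hGn ha hh' hl hG hY (by
    intro F hF y hyY hA hly
    obtain ⟨g1, g2⟩ := key y hA.1 hly
    exact hcl F hF y hyY ⟨g1, hA.2⟩ g2) (cl_of y1 y2 y4)
  obtain ⟨h7, h8⟩ := U.mem_s2' (Tw := Tw) (l0 := l0) (cl_mono (hGn m) (cl_of y1 y2 y4))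
  obtain ⟨g1, g2⟩ := key y h7 h8
  exact ⟨y, h1, pr_hp.2 ⟨h7, m, ha, h8⟩, g2, fun he => y5 (encl_pr ha h8 he)⟩

end small

section mach

variable {δ κ0 R c0 : ℝ} {La Om : Set E3} {ι : Type} {Φ : FoamD δ κ0 R c0 La} {T : Tiling Om ι}
  {f g : E3 → E3} {κ1 κ2 μ : ℝ} {X : Set Φ.F} {J0 J V : Φ.F → Set ι}
  {ct ct' : Φ.F → ι} {Aj : Φ.F → E3 ≃ᵃ[ℝ] E3} {lam : Φ.F → ℝ} {z : Φ.F → E3}
  {θ : Φ.F → E3 → E3} {φ : Φ.F → E3 → ℝ} {r₀ : Φ.F → ℝ} {ρ1 ρ2 ρ3 ρ4 d : Φ.F → ℝ}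
  {L : Φ.F → Finset ℝ} [Nonempty (JJ Φ L)] {hG : GF Φ r₀ T f L} {bp : JJ Φ L → E3}
  {Nn : BM Φ X → Set ℝ} {q₀ : BM Φ X → E3} {ε : BM Φ X → ℝ} {bm : BM Φ X → E3}
  {hGB : GFB Φ r₀ T f L (lRc Φ X μ ρ1 ρ3 d) ε}
  {v0B v1B : ∀ c, BM Φ X → VxK T (KT T J X) c} {r : JJ Φ L → E3}
  {hLa : IsOpen La} {hC : Cores Φ T f κ1 κ2 X J0 J V ct Aj lam z θ φ}
  {n : Ti X → ℕ} {hn : ∀ c, 0 < n c}
  {Tw : Twrs ((slC hLa hC n hn).sh fr3) (slC hLa hC n hn).n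
    (outK (slC hLa hC n hn).hH (slC hLa hC n hn).dis (stB hGB bp bm) (Sum.elim r bm))}
  {l0' : E3 → JJ Φ L ⊕ BM Φ X}

/-- the part of the barrier of record above the gauge `ρ3 + 7 d` -/
abbrev GmT (Om : Set E3) (Φ : FoamD δ κ0 R c0 La) (f : E3 → E3) (X : Set Φ.F) (μ : ℝ)
    (ρ1 ρ3 d : Φ.F → ℝ) (ε : BM Φ X → ℝ) (m : BM Φ X) : Set E3 :=
  Gma Om Φ f (fun m : BM Φ X => m.co) (lRc Φ X μ ρ1 ρ3 d) ε (fun m => ρ3 m.co + 7 * d m.co) m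

theorem gmT_sub (hRm : RmA Φ T f X J0 J V θ ρ1 ρ2 ρ3 ρ4 d) (m : BM Φ X) :
    GmT Om Φ f X μ ρ1 ρ3 d ε m ⊆
      GmB Om Φ f X ρ1 ρ3 d (μ / 16) (μ / 8) (1 / 2) (1 / 2 - 5 * μ / 16) ε m := by
  rintro x ⟨h1, h2, h3⟩
  refine ⟨h1, h2, ?_⟩
  have hd := (hRm m.co m.co_notMem).d0
  have h4 : ρ3 m.co + 7 * d m.co ≤ ga Φ m.co (f x) := h3
  show ρ3 m.co + 6 * d m.co ≤ ga Φ m.co (f x)
  linarith

/-- a point of the name `m` above the gauge `ρ3 + 7 d` -/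
theorem mem_gmT (hLa : IsOpen La)
    (B : BarOut Φ T f κ1 μ X J0 J V θ hG bp Nn ρ1 ρ2 ρ3 ρ4 d q₀ ε bm hGB v0B v1B) {m : BM Φ X}
    {w : E3} (hw : w ∈ (stB hGB bp bm).P) (hl : (stB hGB bp bm).lab w = Sum.inr m)
    (hg : ρ3 m.co + 7 * d m.co ≤ ga Φ m.co (f w)) : w ∈ GmT Om Φ f X μ ρ1 ρ3 d ε m := by
  obtain ⟨h1, h2, h3, -⟩ := B.pos m w hw hl
  exact ⟨h1, h3, hg⟩

theorem rmA_of (B : BarOut Φ T f κ1 μ X J0 J V θ hG bp Nn ρ1 ρ2 ρ3 ρ4 d q₀ ε bm hGB v0B v1B) :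
    RmA Φ T f X J0 J V θ ρ1 ρ2 ρ3 ρ4 d := fun c hc => (B.rm c hc).2

theorem upp_m (hI : InitR Φ T f g J0 ct' r₀) (hμ : 0 < μ) (hLm : ∀ c, ∀ t ∈ L c, μ ≤ t ∧ t ≤ 1 - μ)
    (B : BarOut Φ T f κ1 μ X J0 J V θ hG bp Nn ρ1 ρ2 ρ3 ρ4 d q₀ ε bm hGB v0B v1B) :
    Upp (slC hLa hC n hn) (stB hGB bp bm) (Sum.elim r bm)
      (fun m => Bgf_4.SB Om Φ r₀ f L (lRc Φ X μ ρ1 ρ3 d) ε (Sum.inr m))
      (GmB Om Φ f X ρ1 ρ3 d (μ / 16) (μ / 8) (1 / 2) (1 / 2 - 5 * μ / 16) ε) :=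
  upp_stB hLa hC hI (rmA_of B) B.barF B.lv B.base
    (fun c t ht => ⟨hμ.trans_le (hLm c t ht).1, by linarith [(hLm c t ht).2]⟩)
    (fun m => (B.rga m).1) fun _ => rfl

/-- **`hRS` OF 147's `trOut_m`** from one point above `ρ3 + 7 d` which is not enclosed, for every
barrier -/
theorem connT_m1 (hμ : 0 < μ) {hI : InitR Φ T f g J0 ct' r₀}
    (hLm : ∀ c, ∀ t ∈ L c, μ ≤ t ∧ t ≤ 1 - μ)
    (B : BarOut Φ T f κ1 μ X J0 J V θ hG bp Nn ρ1 ρ2 ρ3 ρ4 d q₀ ε bm hGB v0B v1B)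
    {Act : Φ.F → Set (T.RIdx (slC hLa hC n hn).HH ⊕ Ti X)}
    (ne : ∀ m : BM Φ X, ∃ w ∈ (stB hGB bp bm).P, (stB hGB bp bm).lab w = Sum.inr m ∧
      ρ3 m.co + 7 * d m.co ≤ Ess5_95.ga Φ m.co (f w) ∧
      ¬ Dfo_539.Encl (s2 (slC hLa hC n hn) fr3 Tw l0') BM.am Act m w)
    {hmf : ∀ a : Φ.F, {m : BM Φ X | m.am = a}.Finite} {j0 : Φ.F → JJ Φ L}
    {hj0 : ∀ a, (j0 a).1 = a}
    {hs : BSep (s2 (slC hLa hC n hn) fr3 Tw l0') BM.am}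
    {far : ∀ a, PN (fun j : JJ Φ L => j.1) BM.am a → Set E3} (a : Φ.F) :
    ConnT (Act a) (far a)
      (prS (s2 (slC hLa hC n hn) fr3 Tw l0') hs hmf j0 hj0 a)
      (RB (slC hLa hC n hn) fr3 BM.am (GmT Om Φ f X μ ρ1 ρ3 d ε) a)
      (SB BM.am (GmT Om Φ f X μ ρ1 ρ3 d ε) (s2 (slC hLa hC n hn) fr3 Tw l0').lab a) := by
  have hRm := rmA_of B
  have U := upp_m (hLa := hLa) (hC := hC) (n := n) (hn := hn) (r := r) hI hμ hLm B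
  refine connT_sub (Act := Act) U (fun m => ?_) (fun m => gmT_sub hRm m) fun m hma => ?_
  · obtain ⟨c1, c2, c3, c4, c5, c6, c7⟩ := caps B.barF B.lv m
    exact gma_conn B.barF hLa hI.hm B.lv (m := m) (by linarith)
      (by show _ < ρ3 m.co + 7 * d m.co; linarith)
      (by show ρ3 m.co + 7 * d m.co ≤ _; linarith)
  · obtain ⟨w, h1, h2, h3, h4⟩ := ne m
    exact ⟨w, h1, h2, mem_gmT hLa B h1 h2 h3, h4⟩


/-- **`hRR` OF 147's `trOut_m`** -/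
theorem hRR_m (hI : InitR Φ T f g J0 ct' r₀)
    (B : BarOut Φ T f κ1 μ X J0 J V θ hG bp Nn ρ1 ρ2 ρ3 ρ4 d q₀ ε bm hGB v0B v1B) (a : Φ.F)
    (F : (slC hLa hC n hn).Fn fr3)
    (hF : F ∈ RB (slC hLa hC n hn) fr3 BM.am (GmT Om Φ f X μ ρ1 ρ3 d ε) a) :
    ∃ p, Sum.inl p ∈ ((slC hLa hC n hn).mn fr3).side F ∧
      ∃ e ∉ X, ∃ y ∈ P (T.H p.tile), ρ3 e + 7 * d e ≤ Ess5_95.ga Φ e (f y) ∧
        Ess5_95.ga Φ e (f y) ≤ ρ4 e := by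
  obtain ⟨m, h1, F0, rfl, q, h3, y, hyq, hy⟩ := hF
  have hRm := rmA_of B
  obtain ⟨c1, c2, c3, c4, c5, c6, c7⟩ := caps B.barF B.lv m
  have hqK : ∀ c, ¬ P (T.H q) ⊆ (slC hLa hC n hn).K c := fun c =>
    gmB_out hLa hI.hm hC hRm B.barF B.lv ⟨y, hyq, gmT_sub hRm m hy⟩ c.1
  refine ⟨(slC hLa hC n hn).ot q hqK, Sgo_298.side_old h3 hqK, m.co, m.co_notMem, y, hyq,
    hy.2.2, ?_⟩
  have h4 := (B.barF.pos (B.lv m).2 hy.2.1).2.1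
  have h5 : ga Φ m.co (f y) ≤ rB ρ1 ρ3 d m.co + Bgf_4.hB ρ1 ρ3 d m.co * ε m := h4
  linarith

/-- **`hSS` OF 147's `trOut_m`** -/
theorem hSS_m (hI : InitR Φ T f g J0 ct' r₀)
    (B : BarOut Φ T f κ1 μ X J0 J V θ hG bp Nn ρ1 ρ2 ρ3 ρ4 d q₀ ε bm hGB v0B v1B) (a : Φ.F)
    (m : BM Φ X) (h : E3) (hh : h ∈ (s2 (slC hLa hC n hn) fr3 Tw l0').P)
    (hl : (s2 (slC hLa hC n hn) fr3 Tw l0').lab h = Sum.inr m) (hma : m.am = a)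
    (hg : ∀ e ∉ X, ρ3 e + 7 * d e ≤ Ess5_95.ga Φ e (f h)) :
    h ∈ SB BM.am (GmT Om Φ f X μ ρ1 ρ3 d ε) (s2 (slC hLa hC n hn) fr3 Tw l0').lab a := by
  have hRm := rmA_of B
  have ho : (slC hLa hC n hn).Out h := by
    refine ⟨(s2_dim hh).1, fun c hc => ?_⟩
    have h1 : h ∈ KJ T (J c.1) := hc.1
    have h2 := Sgo_298.ga_core hLa hI.hm hC hRm c.2 h1
    have h3 := hg c.1 c.2
    have h4 := (hRm c.1 c.2).d0
    linarith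
  obtain ⟨h1, h2⟩ := s2_out hh ho
  exact ⟨m, hma, hl, mem_gmT hLa B h1.1 (h2.symm.trans hl) (hg m.co m.co_notMem)⟩

/-- **`hConn` OF 662's `leafBC_all`** from one not enclosed point above `ρ3 + 7 d` for every
barrier -/
theorem hConn_m (hμ : 0 < μ) {hI : InitR Φ T f g J0 ct' r₀}
    (hLm : ∀ c, ∀ t ∈ L c, μ ≤ t ∧ t ≤ 1 - μ)
    (B : BarOut Φ T f κ1 μ X J0 J V θ hG bp Nn ρ1 ρ2 ρ3 ρ4 d q₀ ε bm hGB v0B v1B)
    (ne : ∀ m : BM Φ X, ∃ w ∈ (stB hGB bp bm).P, (stB hGB bp bm).lab w = Sum.inr m ∧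
      ρ3 m.co + 7 * d m.co ≤ Ess5_95.ga Φ m.co (f w) ∧
      ¬ Dfo_539.Encl (s2 (slC hLa hC n hn) fr3 Tw l0') BM.am
        (fun _ => ActR (slC hLa hC n hn) (Rdc T f Xᶜ (rout ρ3 d))) m w)
    {hmf : ∀ a : Φ.F, {m : BM Φ X | m.am = a}.Finite} {j0 : Φ.F → JJ Φ L}
    {hj0 : ∀ a, (j0 a).1 = a}
    (hs : BSep (s2 (slC hLa hC n hn) fr3 Tw l0') BM.am)
    (far : ∀ a, PN (fun j : JJ Φ L => j.1) BM.am a → Set E3) :
    ∃ (RR : Φ.F → Set ((slC hLa hC n hn).Fn fr3)) (SS : Φ.F → Set E3),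
      (∀ a, ConnT (ActR (slC hLa hC n hn) (Rdc T f Xᶜ (rout ρ3 d))) (far a)
        (prS (s2 (slC hLa hC n hn) fr3 Tw l0') hs hmf j0 hj0 a) (RR a) (SS a)) ∧
      (∀ a, ∀ F ∈ RR a, ∃ p, Sum.inl p ∈ ((slC hLa hC n hn).mn fr3).side F ∧
        ∃ e ∉ X, ∃ y ∈ P (T.H p.tile), ρ3 e + 7 * d e ≤ Ess5_95.ga Φ e (f y) ∧
          Ess5_95.ga Φ e (f y) ≤ ρ4 e) ∧
      ∀ a m h, h ∈ (s2 (slC hLa hC n hn) fr3 Tw l0').P →
        (s2 (slC hLa hC n hn) fr3 Tw l0').lab h = Sum.inr m → m.am = a →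
        (∀ e ∉ X, ρ3 e + 7 * d e ≤ Ess5_95.ga Φ e (f h)) → h ∈ SS a :=
  ⟨fun a => RB (slC hLa hC n hn) fr3 BM.am (GmT Om Φ f X μ ρ1 ρ3 d ε) a,
    fun a => SB BM.am (GmT Om Φ f X μ ρ1 ρ3 d ε) (s2 (slC hLa hC n hn) fr3 Tw l0').lab a,
    fun a => connT_m1 (Act := fun _ => ActR (slC hLa hC n hn) (Rdc T f Xᶜ (rout ρ3 d))) hμ
      (hI := hI) hLm B ne a,
    fun a F hF => hRR_m hI B a F hF, fun a m h h1 h2 h3 h4 => hSS_m hI B a m h h1 h2 h3 h4⟩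

end mach

end Crest.Agent.R096.Cns_778
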