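import Crest.Agent.R096.Sec3_892
import Crest.Agent.R096.Cp4_298
import Crest.Agent.R096.Dinv3_106

-- ▼ part R096/Sec5_892

/-!
# R096 / DOORS-SEC, part 5 (helper892): SEC1, the part of a sheet inside a barrier is connected

`s` without closed double curves, exactly two frozen double points of the sheets `i` (colour `true`)
and `j` (barrier): all double points of `i, j` lie on one chain, so the points of `i` inside the
barrier are connected by chords on the faces of the region `Rg`.
-/

set_option autoImplicit false

namespace Crest.Agent.R096.Sec_892

open Crest.Agent.R096.St_147 Crest.Agent.R096.Wk_689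

variable {ι Φ W I : Type} {M : MeshC ι Φ W} {col : I → Bool} {s : St M col} {Act : Set ι}

/-- double points of the sheets `i` and `j` -/
def DD2 (s : St M col) (i j : I) : Set s.Dbl := {z | s.lab (z.e true) = i ∧ s.lab (z.e false) = j}

/-- a set of double points closed under the arcs in the active cells -/
def ArcClosed (A : s.Arcs Act) (X : Set s.Dbl) : Prop :=
  ∀ z ∈ X, ∀ q ∈ M.side z.F, q ∈ Act → A.arc q z ∈ X

theorem arc_DD2 (A : s.Arcs Act) {i j : I} : ArcClosed A (DD2 s i j) := by
  intro z hz q hq hA
  have h1 := Cp_298.arc_lab A hA hq true
  have h2 := Cp_298.arc_lab A hA hq false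
  exact ⟨h1.trans hz.1, h2.trans hz.2⟩





end Crest.Agent.R096.Sec_892
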