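import Crest.Agent.R096.Gl1_422
import Crest.Agent.R096.Dinv4_106

/-!
# Row 96 (S0127), DOORS (helper246): the side of a point with respect to a barrier

`L : LM M Q dim` (117), `Y` = the points of one barrier, `lam` a global label of `Y` (422's `GLab`).
The side of a point `w ∉ Y` is `L.ext Y lam w`.  A chord which is laced with no chord of the barrier
joins points of the same side: hypothesis `hlam` of 106's `moat_door`.
-/

set_option autoImplicit false
set_option linter.unusedSectionVars false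

namespace Crest.Agent.R096.Sdf_246

open Crest.Agent.R096.St_147 Crest.Agent.R096.Seq_213 Crest.Agent.R096.Lm_117
  Crest.Agent.R096.Ac_117 Crest.Agent.R096.Gl_422

variable {ι Φ W Q : Type} [PartialOrder Q] {dim : Q → ℕ} {M : MeshC ι Φ W} {L : LM M Q dim}

/-- the points of a matched set between the ends of a chord laced with no chord of the matching -/
theorem bet_zero {Y : Finset W} {F : Φ} {μ : W → W}
    (hμ : ∀ q ∈ Y, q ∈ M.On F → μ q ∈ Y ∧ μ q ∈ M.On F ∧ μ (μ q) = q ∧ μ q ≠ q) {w w' : W}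
    (hl : ∀ q ∈ Y, q ∈ M.On F → ¬ M.Lace F w w' q (μ q)) : bet M F Y w w' = 0 := by
  classical
  unfold bet
  have h1 : ∑ _q ∈ Y.filter (fun q => q ∈ M.On F ∧ M.Btw F w w' q), (1 : ZMod 2) = 0 := by
    refine Finset.sum_involution (fun q _ => μ q) (fun q hq => by decide)
      (fun q hq _ => ?_) (fun q hq => ?_) (fun q hq => ?_)
    · obtain ⟨a1, a2, -⟩ := Finset.mem_filter.1 hq
      exact (hμ q a1 a2).2.2.2
    · obtain ⟨a1, a2, a3⟩ := Finset.mem_filter.1 hq
      obtain ⟨b1, b2, -, -⟩ := hμ q a1 a2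
      have hl' : (M.Btw F w w' q ↔ M.Btw F w w' (μ q)) := by
        by_contra hcon
        exact hl q a1 a2 hcon
      exact Finset.mem_filter.2 ⟨b1, b2, hl'.1 a3⟩
    · obtain ⟨a1, a2, -⟩ := Finset.mem_filter.1 hq
      exact (hμ q a1 a2).2.2.1
  rw [Finset.sum_const, nsmul_eq_mul, mul_one] at h1
  convert h1

/-- a matched set is even on a face -/
theorem even_of {Y : Finset W} {F : Φ} {μ : W → W}
    (hμ : ∀ q ∈ Y, q ∈ M.On F → μ q ∈ Y ∧ μ q ∈ M.On F ∧ μ (μ q) = q ∧ μ q ≠ q) :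
    nW Y (M.On F) = 0 := by
  classical
  rw [nW_card]
  have h1 : ∑ _q ∈ Y.filter (fun q => q ∈ M.On F), (1 : ZMod 2) = 0 := by
    refine Finset.sum_involution (fun q _ => μ q) (fun q hq => by decide)
      (fun q hq _ => ?_) (fun q hq => ?_) (fun q hq => ?_)
    · obtain ⟨h1, h2⟩ := Finset.mem_filter.1 hq
      exact (hμ q h1 h2).2.2.2
    · obtain ⟨h1, h2⟩ := Finset.mem_filter.1 hq
      obtain ⟨b1, b2, -, -⟩ := hμ q h1 h2
      exact Finset.mem_filter.2 ⟨b1, b2⟩
    · obtain ⟨h1, h2⟩ := Finset.mem_filter.1 hq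
      exact (hμ q h1 h2).2.2.1
  rw [Finset.sum_const, nsmul_eq_mul, mul_one] at h1
  convert h1

/-- **the two ends of a chord laced with no chord of the barrier are on the same side** -/
theorem ext_chord {Y : Finset W} {lam : Q → ZMod 2} (h : GLab L Y lam) {F : Φ} {μ : W → W}
    (hμ : ∀ q ∈ Y, q ∈ M.On F → μ q ∈ Y ∧ μ q ∈ M.On F ∧ μ (μ q) = q ∧ μ q ≠ q) {w w' : W}
    (hw : w ∈ M.On F) (hw' : w' ∈ M.On F) (hwY : w ∉ Y) (hwY' : w' ∉ Y)
    (hl : ∀ q ∈ Y, q ∈ M.On F → ¬ M.Lace F w w' q (μ q)) : L.ext Y lam w = L.ext Y lam w' := by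
  have e := h.ext_add (even_of hμ) hw hw' hwY hwY'
  rw [bet_zero hμ hl] at e
  exact CharTwo.add_eq_zero.1 e

section St

variable {I : Type} {col : I → Bool}

open Classical in
/-- the points of the name `j` -/
noncomputable def sp (s : St M col) (j : I) : Finset W := s.P.filter fun w => s.lab w = j






end St

section GSt

variable {J C : Type} {fam : J → C}

theorem gp_mu (s : GSt M fam) (j : J) (F : Φ) : ∀ q ∈ gp s j, q ∈ M.On F →
    s.mu F q ∈ gp s j ∧ s.mu F q ∈ M.On F ∧ s.mu F (s.mu F q) = q ∧ s.mu F q ≠ q := by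
  intro q hq hF
  obtain ⟨h1, h2⟩ := mem_gp.1 hq
  obtain ⟨h3, h4⟩ := s.mu_mem h1 hF
  exact ⟨mem_gp.2 ⟨h3, (s.mu_lab h1 hF).trans h2⟩, h4, s.mu_mu h1 hF, s.mu_ne h1 hF⟩


end GSt

/-- on a 1-cell with no point of `Y` before `w` the side is the label of the first end; if no point
of `Y` is on the 1-cell it is the label of both ends -/
theorem ext_of_free {Y : Finset W} {lam : Q → ZMod 2} {w : W}
    (hY : ∀ y ∈ Y, y ∉ L.On1 (L.ed w)) : L.ext Y lam w = lam (L.en (L.ed w) false) := by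
  have h : L.toSk.pre Y w = 0 := by
    refine nW_empty fun y hy h => hY y hy ⟨h.1, h.2.1⟩
  show lam (L.en (L.ed w) false) + L.toSk.pre Y w = _
  rw [h, add_zero]

end Crest.Agent.R096.Sdf_246
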