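import Crest.Agent.R096.Dinv4_106
import Crest.Agent.R096.Dinv2_106
import Crest.Agent.R096.Sec13_892
import Crest.Agent.R096.Civ1_662
import Crest.Agent.R096.Sdf1_246
import Crest.Agent.R096.Lmx1_662

-- ▼ part R096/Vin1_527
section

/-!
# Row 96, DOORS-INV (helper527): the field `v_in` of `DoorInv` for the state after CUT

`v_in_cut` : `s` = state with barriers, `s₃` = state after CUT (892's `CutR`), `m` = a barrier of the
family of the sheet `j`, `sd w` = "`w` is inside the barrier `m`".  All points of `j` inside `m` are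
joined with the base point by chords which are not crossed in the quad `k`.
-/

set_option autoImplicit false
set_option linter.unusedSectionVars false

namespace Crest.Agent.R096.Vin_527

open Crest.Agent.R096.St_147 Crest.Agent.R096.Seq_213 Crest.Agent.R096.Sec_892
  Crest.Agent.R096.SecW_892 Crest.Agent.R096.Cg_501 Crest.Agent.R096.Dinv_106

section door

open Crest.Agent.R096.Wk_689

variable {ι Φ W I : Type} {M : MeshC ι Φ W} {col : I → Bool} {s : St M col} {Act : Set ι}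

/-- 106's `moat_door` with `hR1` for active cells only (a giant is not small) -/
theorem moat_doorA (A : s.Arcs Act) (hno : ∀ G : Set s.Dbl, A.Closed G → G = ∅) {i j : I}
    (hi : col i = true) (hj : col j = false) (hconn : s.Conn i) (lam : W → Prop)
    (hlam : ∀ F w, s.At F w → s.lab w = i →
      (∀ x, s.At F x → s.lab x = j → ¬ M.Lace F w (s.mu F w) x (s.mu F x)) → lam w →
        lam (s.mu F w))
    (hout : ∃ v ∈ s.P, s.lab v = i ∧ ¬ lam v) (Rg : Set Φ)
    (hR1 : ∀ z ∈ DD2 s i j, ∀ q ∈ Act, ∀ F, q ∈ M.side z.F → q ∈ M.side F → F ∈ Rg)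
    (hR2 : ∀ F w, s.At F w → s.lab w = i → lam w → F ∈ Rg) (X : Set W)
    (hX : ∀ F w, F ∈ Rg → w ∈ X → s.At F w → s.lab w = i → s.mu F w ∈ X)
    (hdoor : ∀ z ∈ DD2 s i j, St.Frozen M Act z.F → z.e true ∈ X)
    {w : W} (hwP : w ∈ s.P) (hwi : s.lab w = i) (hwl : lam w) : w ∈ X := by
  classical
  by_contra hcon
  -- the complement is closed
  have hXc : ∀ F w, F ∈ Rg → w ∈ Xᶜ → s.At F w → s.lab w = i → s.mu F w ∈ Xᶜ := by
    intro F v hF hv hA hvi h
    have h1 := hX F _ hF h (s.mu_mem hA.1 hA.2) (by rw [s.mu_lab hA.1 hA.2]; exact hvi)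
    rw [s.mu_mu hA.1 hA.2] at h1
    exact hv h1
  -- the double points whose chord is not in `X`
  have hmeet : ∃ z ∈ DD2 s i j, z.e true ∈ Xᶜ := by
    by_contra hcon2
    push Not at hcon2
    obtain ⟨u, huP, hui, hul⟩ := hout
    have := hconn.2 {v | v ∈ Xᶜ ∧ lam v} ?_ w ⟨hcon, hwl⟩ hwP hwi u huP hui
    · exact hul this.2
    · rintro F y ⟨hyY, hyl⟩ hyA hyi
      have hF := hR2 F y hyA hyi hyl
      refine ⟨hXc F y hF hyY hyA hyi, hlam F y hyA hyi ?_ hyl⟩
      intro x hxA hxj hl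
      obtain ⟨z, hzF, hz1, hz2⟩ := Seq_213.exists_dbl s hyA hxA
        (by rw [hxj, hyi, hi, hj]; decide) hl
      rw [hyi, hi] at hz1
      rw [hxj, hj] at hz2
      have hzD : z ∈ DD2 s i j := by
        refine ⟨?_, ?_⟩
        · rw [hz1, Seq_213.lo_lab s hyA]; exact hyi
        · rw [hz2, Seq_213.lo_lab s hxA]; exact hxj
      refine hcon2 z hzD ?_
      rw [hz1]
      rcases Seq_213.lo_cases s F y with e | e
      · rw [e]; exact hyY
      · rw [e]; exact hXc F y hF hyY hyA hyi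
  have hZ : ArcClosed A {z | z ∈ DD2 s i j ∧ z.e true ∈ Xᶜ} := by
    rintro z ⟨hz, hzX⟩ q hq hqA
    have hz' := arc_DD2 A z hz q hq hqA
    refine ⟨hz', ?_⟩
    have h := A.same (z := z) true hqA hq
      (fun p => if s.lab (chd p).2 = i ∧ (chd p).2 ∈ Xᶜ then 1 else 0) ?_ ?_
    · have e1 : (s.lab (chd (Sum.inr z : s.Sub true)).2 = i ∧
          (chd (Sum.inr z : s.Sub true)).2 ∈ Xᶜ) := ⟨hz.1, hzX⟩
      rw [if_pos e1] at h
      by_contra hne
      rw [if_neg (fun h' => hne h'.2)] at h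
      exact one_ne_zero h
    · intro F F' v p p' hqF hqF' hp hp'
      have hFR := hR1 z hz q hqA F hq hqF
      have hFR' := hR1 z hz q hqA F' hq hqF'
      have key : ∀ F (p : s.Sub true), F ∈ Rg → p.End F v →
          ((s.lab (chd p).2 = i ∧ (chd p).2 ∈ Xᶜ) ↔ (s.lab v = i ∧ v ∈ Xᶜ)) := by
        intro F p hF hp
        have hA := hp.1
        rw [Cp_298.end_chd hp]
        show (s.lab (s.lo F v) = i ∧ s.lo F v ∈ Xᶜ) ↔ _
        rw [Seq_213.lo_lab s hA]
        constructor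
        · rintro ⟨h1, h2⟩
          refine ⟨h1, ?_⟩
          rcases Seq_213.lo_cases s F v with e | e
          · rw [e] at h2; exact h2
          · rw [e] at h2
            have h3 := hXc F _ hF h2 (s.mu_mem hA.1 hA.2) (by rw [s.mu_lab hA.1 hA.2]; exact h1)
            rw [s.mu_mu hA.1 hA.2] at h3
            exact h3
        · rintro ⟨h1, h2⟩
          refine ⟨h1, ?_⟩
          rcases Seq_213.lo_cases s F v with e | e
          · rw [e]; exact h2
          · rw [e]; exact hXc F v hF h2 hA h1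
      exact if_congr ((key F p hFR hp).trans (key F' p' hFR' hp').symm) rfl rfl
    · intro u p p' _ hb ha
      have e1 := below_chd hb
      have e2 : p' = Sum.inr u := ha
      have e3 : chd p' = (u.F, u.e true) := by rw [e2]; rfl
      show (if s.lab (chd p).2 = i ∧ (chd p).2 ∈ Xᶜ then (1 : ZMod 2) else 0) =
        (if s.lab (chd p').2 = i ∧ (chd p').2 ∈ Xᶜ then (1 : ZMod 2) else 0)
      rw [e1, e3]
  -- an arc closed nonempty set contains a frozen point
  obtain ⟨z, hz, hzX⟩ := hmeet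
  have hc : A.Closed {z | z ∈ DD2 s i j ∧ z.e true ∈ Xᶜ} := by
    intro y hy q hq
    have hqA : q ∈ Act := by
      by_contra h
      exact hy.2 (hdoor y hy.1 ⟨q, hq, h⟩)
    exact ⟨hqA, hZ y hy q hq hqA⟩
  have h1 : z ∈ {z | z ∈ DD2 s i j ∧ z.e true ∈ Xᶜ} := ⟨hz, hzX⟩
  rw [hno _ hc] at h1
  exact h1


end door

variable {ι Φ W J C K Mo : Type} {M : MeshC ι Φ W} {fam : J → C} {am : Mo → C}
variable {s : GSt M (Sum.map fam (id : Mo → Mo))} {hs : BSep s am}
  {hm : ∀ a, {m | am m = a}.Finite} {j0 : C → J} {hj0 : ∀ a, fam (j0 a) = a}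
  {Act : C → Set ι} {far : ∀ a, PN fam am a → Set W} {t : ∀ a, St M (pcol fam am a)}
  {Ph : C → Finset W} {s₃ : GSt M fam}

/-- the name of a barrier in the pair state -/
def nR (fam : J → C) {am : Mo → C} (m : Mo) : PN fam am (am m) := ⟨Sum.inr m, rfl⟩

/-- barrier points of the pair state after CUT are the barrier points before CUT -/
theorem bar_t (D : CutR s hs hm j0 hj0 Act far t Ph s₃) {F : Φ} {x : W} {m : Mo} :
    ((t (am m)).At F x ∧ (t (am m)).lab x = nR fam m) ↔ (s.At F x ∧ s.lab x = Sum.inr m) := by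
  have hc := (D.cl2 (am m)).cle
  constructor
  · rintro ⟨h1, h2⟩
    have h3 : HP (t (am m)) x := ⟨h1.1, by rw [h2]; rfl⟩
    have h4 := (hc.hp x).1 h3
    obtain ⟨h5, m', h6, h7⟩ := pr_hp.1 h4
    have h8 := hc.hlab x h4
    rw [h2] at h8
    have h9 := (pr_lab_iff (hs := hs) (hm := hm) (i0 := ⟨Sum.inl (j0 (am m)), hj0 _⟩)
      (by rw [h7]; exact h6)).1 h8.symm
    exact ⟨⟨h5, h1.2⟩, h9⟩
  · rintro ⟨h1, h2⟩
    have h3 : HP (prS s hs hm j0 hj0 (am m)) x := pr_hp.2 ⟨h1.1, m, rfl, h2⟩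
    have h4 := (hc.hp x).2 h3
    have h5 := hc.hlab x h3
    have h6 : (prS s hs hm j0 hj0 (am m)).lab x = nR fam m :=
      (pr_lab_iff (by rw [h2]; rfl)).2 h2
    exact ⟨⟨h4.1, h1.2⟩, h5.trans h6⟩

/-- their chords are the same -/
theorem bar_mu (D : CutR s hs hm j0 hj0 Act far t Ph s₃) {F : Φ} {x : W} {m : Mo}
    (h1 : x ∈ s.P) (h2 : s.lab x = Sum.inr m) : (t (am m)).mu F x = s.mu F x := by
  have h3 : HP (prS s hs hm j0 hj0 (am m)) x := pr_hp.2 ⟨h1, m, rfl, h2⟩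
  exact (D.cl2 (am m)).cle.hmu x F h3

variable {Q : Quads ι C K} {j : J} {m : Mo} {k : K}

/-- **the sheet inside the barrier `m`** -/
theorem v_in_cut (D : CutR s hs hm j0 hj0 Act far t Ph s₃) (hAr : Nonempty ((t (fam j)).Arcs (Act (fam j))))
    (ham : am m = fam j) (sd : W → Prop)
    (hlam : ∀ F w, s₃.At F w → s₃.lab w = j →
      (∀ x, s.At F x → s.lab x = Sum.inr m → ¬ M.Lace F w (s₃.mu F w) x (s.mu F x)) →
      sd w → sd (s₃.mu F w))
    (hsd : ∀ F w w', s₃.At F w → s₃.At F w' → (∀ x, s.At F x → s.lab x ≠ Sum.inr m) → sd w → sd w')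
    (hroot : ∀ i, ∃ v ∈ s₃.P, s₃.lab v = i ∧ ¬ sd v)
    (hsep1 : ∀ F h w, s.At F h → s.lab h = Sum.inr m → s₃.At F w → fam (s₃.lab w) = fam j)
    (hsep2 : ∀ q ∈ Act (fam j), ∀ F F' h w, q ∈ M.side F → q ∈ M.side F' → s.At F h →
      s.lab h = Sum.inr m → s₃.At F' w → fam (s₃.lab w) = fam j) (X : Set W)
    (hX : KCl s₃ Q j k X)
    (hdoor : ∀ F w h, s₃.At F w → s₃.lab w = j → s.At F h → s.lab h = Sum.inr m →
      St.Frozen M (Act (fam j)) F → w ∈ X) :
    ∀ w ∈ s₃.P, s₃.lab w = j → sd w → w ∈ X := by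
  classical
  obtain ⟨A⟩ := hAr
  -- the barrier in `t (fam j)`
  obtain ⟨nr, hnr, hcol, hbar, hbmu⟩ : ∃ nr : PN fam am (fam j), nr.1 = Sum.inr m ∧
      pcol fam am (fam j) nr = false ∧
      (∀ F x, ((t (fam j)).At F x ∧ (t (fam j)).lab x = nr) ↔ (s.At F x ∧ s.lab x = Sum.inr m)) ∧
      ∀ F x, x ∈ s.P → s.lab x = Sum.inr m → (t (fam j)).mu F x = s.mu F x := by
    have key : ∀ a, ∀ e : am m = a, ∃ nr : PN fam am a, nr.1 = Sum.inr m ∧
        pcol fam am a nr = false ∧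
        (∀ F x, ((t a).At F x ∧ (t a).lab x = nr) ↔ (s.At F x ∧ s.lab x = Sum.inr m)) ∧
        ∀ F x, x ∈ s.P → s.lab x = Sum.inr m → (t a).mu F x = s.mu F x := by
      rintro a rfl
      exact ⟨nR fam m, rfl, rfl, fun F x => bar_t D, fun F x h1 h2 => bar_mu D h1 h2⟩
    exact key _ ham
  -- the other families are outside
  have hoth : ∀ x ∈ s₃.P, fam (s₃.lab x) ≠ fam j → ¬ sd x := by
    intro x hx hne hsx
    obtain ⟨v, hv, hvl, hvs⟩ := hroot (s₃.lab x)
    refine hvs ((D.conn (s₃.lab x)).2 {y | sd y} ?_ x hsx hx rfl v hv hvl)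
    intro F y hy hA hl
    refine hsd F y _ hA (s₃.mu_mem hA.1 hA.2) ?_ hy
    intro h hh hhl
    exact hne (by rw [← hl]; exact hsep1 F h y hh hhl hA)
  refine fun w hw hl hsw => ?_
  obtain ⟨hwt, hwl⟩ := D.mem.1 ⟨hw, hl⟩
  let Rg : Set Φ := {F | (∃ q ∈ Act (fam j), ∃ F' h, q ∈ M.side F ∧ q ∈ M.side F' ∧ s.At F' h ∧
    s.lab h = Sum.inr m) ∨ ∃ w, s₃.At F w ∧ s₃.lab w = j ∧ sd w}
  refine moat_doorA (i := nL am j) (j := nr) A (D.noc (fam j) A) rfl hcol
    ((D.good (fam j)).conn (nL am j)) sd ?_ ?_ Rg ?_ ?_ X ?_ ?_ hwt hwl hsw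
  · -- `hlam`
    intro F y hA hyl hno hsy
    obtain ⟨h1, h2⟩ := D.at_iff.2 ⟨hA, hyl⟩
    rw [← D.mu' h1.1 h2]
    refine hlam F y h1 h2 (fun x hx hxl => ?_) hsy
    obtain ⟨h3, h4⟩ := (hbar F x).2 ⟨hx, hxl⟩
    have h5 := hno x h3 h4
    rw [hbmu F x hx.1 hxl, ← D.mu' h1.1 h2] at h5
    exact h5
  · -- `hout`
    obtain ⟨v, hv, hvl, hvs⟩ := hroot j
    obtain ⟨h1, h2⟩ := D.mem.1 ⟨hv, hvl⟩
    exact ⟨v, h1, h2, hvs⟩
  · -- `hR1`
    intro z hz q hqA F hq hqF
    obtain ⟨-, h2⟩ := hz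
    obtain ⟨h3, h4⟩ := (hbar z.F (z.e false)).1 ⟨z.at_ false, h2⟩
    exact Or.inl ⟨q, hqA, z.F, z.e false, hqF, hq, h3, h4⟩
  · -- `hR2`
    intro F y hA hyl hsy
    obtain ⟨h1, h2⟩ := D.at_iff.2 ⟨hA, hyl⟩
    exact Or.inr ⟨y, h1, h2, hsy⟩
  · -- `hX`
    intro F y hF hyX hA hyl
    obtain ⟨h1, h2⟩ := D.at_iff.2 ⟨hA, hyl⟩
    rw [← D.mu' h1.1 h2]
    refine hX F y hyX h1 h2 fun _ x hx _ hne _ => ?_
    rw [h2] at hne
    rcases hF with ⟨q, hqA, F', h, hq, hq', hh, hhl⟩ | ⟨y', h3, -, h5⟩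
    · exact hne (hsep2 q hqA F' F h x hq' hq hh hhl hx)
    · by_cases hex : ∃ h, s.At F h ∧ s.lab h = Sum.inr m
      · obtain ⟨h, hh, hhl⟩ := hex
        exact hne (hsep1 F h x hh hhl hx)
      · exact hoth x hx.1 hne (hsd F y' x h3 hx (fun h hh hhl => hex ⟨h, hh, hhl⟩) h5)
  · -- `hdoor`
    intro z hz hfr
    obtain ⟨h1, h2⟩ := hz
    obtain ⟨h3, h4⟩ := (hbar z.F (z.e false)).1 ⟨z.at_ false, h2⟩
    obtain ⟨h5, h6⟩ := D.at_iff.2 ⟨z.at_ true, h1⟩
    exact hdoor z.F (z.e true) (z.e false) h5 h6 h3 h4 hfr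

end Crest.Agent.R096.Vin_527
end

-- ▼ part R096/Vin2_527

/-!
# Row 96, DOORS-INV (helper527), part 2: `VIn` of 662 for the state after CUT

* `arcs_K`    : arc pairings of every pair state over `meshK T3 KK`;
* `hlam_cut`  : the side of the barrier `m` is constant along the chords of the cut state which are
  laced with no chord of `m`;
* `hsd_cut`   : a face without points of `m` lies on one side;
* `vIn_cut`   : 662's `VIn`.
-/

set_option autoImplicit false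
set_option linter.unusedSectionVars false
set_option linter.unusedVariables false
set_option linter.style.longLine false

open Set Relation Module Topology Filter Metric

namespace Crest.Agent.R096.Vin_527

open Crest.Agent.R096.Brk1_582 Crest.Agent.R096.Brk2_582 Crest.Agent.R096.Brk3_582
open Crest.Agent.R096.Brk5_582 Crest.Agent.R096.Bsp_628
open Crest.Agent.R096.St_147 Crest.Agent.R096.Seq_213 Crest.Agent.R096.Seq_213.GSt
open Crest.Agent.R096.Lm_117 Crest.Agent.R096.Ac_117 Crest.Agent.R096.Msh_715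
open Crest.Agent.R096.Agl5_543 Crest.Agent.R096.Init_543 Crest.Agent.R096.At_241
open Crest.Agent.R096.SkC1_961 (E3 Hom3 FoamD)
open Crest.Agent.R096.Mbf_337 (KJ sb)
open Crest.Agent.R096.Frn_337 (Ti cti Lay)
open Crest.Agent.R096.SkB_662 Crest.Agent.R096.Sgd_298 Crest.Agent.R096.Qdl_662
  Crest.Agent.R096.Dinv_106 Crest.Agent.R096.Hdr_334 Crest.Agent.R096.Civ_662
  Crest.Agent.R096.Lmx_662 Crest.Agent.R096.Gl_422
open Crest.Agent.R096.Sec_892 Crest.Agent.R096.SecW_892 Crest.Agent.R096.Cg_501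

section arcs

variable {E : Type} [NormedAddCommGroup E] [NormedSpace ℝ E] [FiniteDimensional ℝ E]
variable {Om : Set E} {ι : Type} {T : Tiling Om ι} {κ : Type} {Kc : κ → Set E}
variable [Nonempty T.Cell]
variable {h3 : finrank ℝ E = 3} {hH : ∀ c, CoreH T (Kc c)}
  {hdis : ∀ c c', c ≠ c' → Disjoint (Kc c) (Kc c')}

/-- **arc pairings over `meshK`** -/
theorem arcs_K (hne : ∃ c, OutK T Kc c) {I : Type} {col : I → Bool}
    (t : St (mK h3 hH hdis) col) (Act : Set (ι ⊕ κ)) : Nonempty (t.Arcs Act) := by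
  classical
  obtain ⟨c0, hc0⟩ := hne
  obtain ⟨v, -, hv⟩ := (lmK h3 hH hdis ⟨c0, hc0⟩).base (oc c0 hc0)
  refine Sgd3_298.exists_arcs_st (lmK h3 hH hdis ⟨c0, hc0⟩) t Act
    (fun q => if OutI T Kc q then tcK T Kc q else v) ?_
  intro q _ F
  by_cases h : OutI T Kc q
  · rw [if_pos h]
    exact ⟨tcK_side h3 hH hdis ⟨c0, hc0⟩ q F, side_of_le h⟩
  · rw [if_neg h]
    constructor
    · intro hF
      exfalso
      apply h
      rintro p rfl k hk
      have h1 : Sum.inl p ∈ ((meshC T h3).side F.1).map (piK T Kc) := hF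
      rw [mem_map_iff] at h1
      obtain ⟨q', h2, h4⟩ := h1
      obtain ⟨rfl, h5⟩ := piK_inl.1 h4
      exact h5 k hk
    · intro hF
      exfalso
      have h2 := (lmK h3 hH hdis ⟨c0, hc0⟩).cf_dim F
      rcases eq_or_lt_of_le hF with h4 | h4
      · rw [h4, hv] at h2; omega
      · have h5 := (lmK h3 hH hdis ⟨c0, hc0⟩).dim_lt _ _ h4
        omega

end arcs

section cut

variable {ι Φ W J C K Mo Q : Type} {M : MeshC ι Φ W} {fam : J → C} {am : Mo → C}
  [PartialOrder Q] {dim : Q → ℕ} {L : LM M Q dim}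
variable {s : GSt M (Sum.map fam (id : Mo → Mo))} {hs : BSep s am}
  {hm : ∀ a, {m | am m = a}.Finite} {j0 : C → J} {hj0 : ∀ a, fam (j0 a) = a}
  {Act : C → Set ι} {far : ∀ a, PN fam am a → Set W} {t : ∀ a, St M (pcol fam am a)}
  {Ph : C → Finset W} {s₃ : GSt M fam}

/-- **the side of the barrier `m`** (1 = inside) -/
def sdm (L : LM M Q dim) (s : GSt M (Sum.map fam (id : Mo → Mo))) (lam : Mo → Q → ZMod 2)
    (m : Mo) (w : W) : Prop := L.ext (gp s (Sum.inr m)) (lam m) w = 1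

theorem not_gp (D : CutR s hs hm j0 hj0 Act far t Ph s₃) {w : W} (hw : w ∈ s₃.P) (m : Mo) :
    w ∉ gp s (Sum.inr m) := by
  intro h
  obtain ⟨h1, h2⟩ := mem_gp.1 h
  have h3 := D.old hw h1
  rw [h2] at h3
  cases h3

/-- `hlam` of `v_in_cut` -/
theorem hlam_cut (D : CutR s hs hm j0 hj0 Act far t Ph s₃) {lam : Mo → Q → ZMod 2} {m : Mo}
    (hG : GLab L (gp s (Sum.inr m)) (lam m)) {F : Φ} {w : W} (hA : s₃.At F w)
    (hno : ∀ x, s.At F x → s.lab x = Sum.inr m → ¬ M.Lace F w (s₃.mu F w) x (s.mu F x)) :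
    sdm L s lam m w ↔ sdm L s lam m (s₃.mu F w) := by
  have h1 := s₃.mu_mem hA.1 hA.2
  have e := Sdf_246.ext_chord hG (Sdf_246.gp_mu s (Sum.inr m) F) hA.2 h1.2 (not_gp D hA.1 m)
    (not_gp D h1.1 m) (fun q hq hF => hno q ⟨(mem_gp.1 hq).1, hF⟩ (mem_gp.1 hq).2)
  unfold sdm
  rw [e]

/-- `hsd` of `v_in_cut` -/
theorem hsd_cut (D : CutR s hs hm j0 hj0 Act far t Ph s₃) {lam : Mo → Q → ZMod 2} {m : Mo}
    (hG : GLab L (gp s (Sum.inr m)) (lam m)) {F : Φ} {w w' : W} (hA : s₃.At F w)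
    (hA' : s₃.At F w') (hno : ∀ x, s.At F x → s.lab x ≠ Sum.inr m) (h : sdm L s lam m w) :
    sdm L s lam m w' := by
  classical
  have e := hG.ext_add (gp_even s (Sum.inr m) F) hA.2 hA'.2 (not_gp D hA.1 m) (not_gp D hA'.1 m)
  have h0 : bet M F (gp s (Sum.inr m)) w w' = 0 := by
    unfold bet
    have h1 : (gp s (Sum.inr m)).filter (fun q => q ∈ M.On F ∧ M.Btw F w w' q) = ∅ := by
      rw [Finset.filter_eq_empty_iff]
      rintro q hq ⟨h2, -⟩
      obtain ⟨h3, h4⟩ := mem_gp.1 hq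
      exact hno q ⟨h3, h2⟩ h4
    convert Nat.cast_zero
    rw [Finset.card_eq_zero]
    convert h1
  rw [h0] at e
  have e2 := CharTwo.add_eq_zero.1 e
  unfold sdm at h ⊢
  rw [← e2]; exact h

end cut

section mach

variable {δ κ0 R c0 : ℝ} {La Om : Set E3} {ι ι3 : Type} {Φ : FoamD δ κ0 R c0 La}
  {T3 : Tiling Om ι3} {X : Set Φ.F} {KK : Ti X → Set E3} [Nonempty T3.Cell]
  {hH : ∀ k, CoreH T3 (KK k)} {hdis : ∀ k k', k ≠ k' → Disjoint (KK k) (KK k')}
  {L : Φ.F → Finset ℝ} {Mo : Type} {am : Mo → Φ.F}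
  {s : GSt (mK fr3 hH hdis) (Sum.map (fun j : JJ Φ L => j.1) (id : Mo → Mo))} {hs : BSep s am}
  {hm : ∀ a, {m | am m = a}.Finite} {j0 : Φ.F → JJ Φ L} {hj0 : ∀ a, (j0 a).1 = a}
  {Act : Φ.F → Set (ι3 ⊕ Ti X)} {far : ∀ a, PN (fun j : JJ Φ L => j.1) am a → Set E3}
  {t : ∀ a, St (mK fr3 hH hdis) (pcol (fun j : JJ Φ L => j.1) am a)}
  {Ph : Φ.F → Finset E3} {s₃ : GSt (mK fr3 hH hdis) (fun j : JJ Φ L => j.1)}

/-- a face with a point has an ordinary side -/
theorem exists_ord {F : {F : C2 T3 // ¬ (((meshC T3 fr3).side F).map (piK T3 KK)).IsDiag}} {w : E3}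
    (hw : w ∈ (mK fr3 hH hdis).On F) : ∃ p, Sum.inl p ∈ (mK fr3 hH hdis).side F := by
  have hd := F.2
  have hs : (mK fr3 hH hdis).side F = ((meshC T3 fr3).side F.1).map (piK T3 KK) := rfl
  rw [← hs] at hd
  have key : ∀ z, z = (mK fr3 hH hdis).side F → ∃ p, Sum.inl p ∈ z := by
    intro z
    induction z using Sym2.ind with
    | _ x y =>
      intro hz
      have hx : x ∈ (mK fr3 hH hdis).side F := by rw [← hz]; exact Sym2.mem_mk_left _ _
      have hy : y ∈ (mK fr3 hH hdis).side F := by rw [← hz]; exact Sym2.mem_mk_right _ _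
      rcases x with p | c
      · exact ⟨p, Sym2.mem_mk_left _ _⟩
      rcases y with p | c'
      · exact ⟨p, Sym2.mem_mk_right _ _⟩
      exfalso
      by_cases hcc : c = c'
      · apply hd
        rw [← hz, hcc]
        exact rfl
      · exact Set.disjoint_left.1 (hdis c c' hcc) (side_core hw hx) (side_core hw hy)
  exact key _ rfl

/-- **662's `VIn` for the state after CUT** : `hroot` = every sheet has a point outside `m`,
`hsep` = no point of another family on an ordinary cell with a point of `m`, `hfr` = a frozen face with a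
point of `m` lies on a giant -/
theorem vIn_cut (D : CutR s hs hm j0 hj0 Act far t Ph s₃) (hne : ∃ c, OutK T3 KK c)
    (Q : Quads (ι3 ⊕ Ti X) Φ.F (Init_543.QK (Pc Φ.F))) (b : JJ Φ L → E3) {Qd : Type}
    [PartialOrder Qd] {dim : Qd → ℕ} (Lm : LM (mK fr3 hH hdis) Qd dim)
    {lam : Mo → Qd → ZMod 2} (hG : ∀ m, GLab Lm (gp s (Sum.inr m)) (lam m))
    (hroot : ∀ m i, ∃ v ∈ s₃.P, s₃.lab v = i ∧ ¬ sdm Lm s lam m v)
    (hsep : ∀ m p F F' h w, Sum.inl p ∈ (mK fr3 hH hdis).side F →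
      Sum.inl p ∈ (mK fr3 hH hdis).side F' → s.At F h → s.lab h = Sum.inr m → s₃.At F' w →
      (s₃.lab w).1 = am m) (hact : ∀ a c, Sum.inr c ∉ Act a)
    (hfr : ∀ m F h, s.At F h → s.lab h = Sum.inr m → St.Frozen (mK fr3 hH hdis) (Act (am m)) F →
      ∃ c : Ti X, Sum.inr c ∈ (mK fr3 hH hdis).side F) :
    VIn Q s₃ b am (sdm Lm s lam) := by
  intro j m k ham _ Y _ hY hgi
  refine v_in_cut D (arcs_K hne _ _) ham (sdm Lm s lam m) ?_ ?_ (hroot m) ?_ ?_ Y hY ?_
  · intro F w hA _ hno h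
    exact (hlam_cut D (hG m) hA hno).1 h
  · intro F w w' hA hA' hno h
    exact hsd_cut D (hG m) hA hA' hno h
  · intro F h w hh hhl hw
    obtain ⟨p, hp⟩ := exists_ord hw.2
    exact (hsep m p F F h w hp hp hh hhl hw).trans ham
  · intro q hq F F' h w hqF hqF' hh hhl hw
    rcases q with p | c
    · exact (hsep m p F F' h w hqF hqF' hh hhl hw).trans ham
    · exact absurd hq (hact _ c)
  · intro F w h hA hl hh hhl hF
    rw [← ham] at hF
    obtain ⟨c, hc⟩ := hfr m F h hh hhl hF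
    exact hgi w hA.1 hl ⟨c, F, hc, hA.2⟩

end mach

end Crest.Agent.R096.Vin_527
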