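import Crest.Agent.R096.Gl3_422
import Crest.Agent.R096.Flb2_422
import Crest.Agent.R096.Rop11_441
import Crest.Agent.R096.Rop13_441
import Crest.Agent.R096.Ebr5_95
import Crest.Agent.R096.Sdf1_246
import Crest.Agent.R096.Dfi4_471
import Crest.Agent.R096.Bse1_344
import Crest.Agent.R096.Frk1_441
import Crest.Agent.R096.Bgf10_4
import Crest.Agent.R096.Bgf11_4
import Crest.Agent.R096.Rgl2_527
import Crest.Agent.R096.Lam1_847
import Crest.Agent.R096.Dib5_438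
import Crest.Agent.R096.Nmd2_698
import Crest.Agent.R096.Vin2_527
import Crest.Agent.R096.Dfo2_539

-- ▼ part R096/Sid1_422
section

/-!
# R096 (row 96), DOORS (helper422): the side of the points of a state with respect to a sheet, and
interlaced chords: `L.ext (gp s i) lam` changes along a chord by the number of the chords of `i`
which are interlaced with it.
-/

set_option autoImplicit false
set_option linter.unusedSectionVars false

open Set Relation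

namespace Crest.Agent.R096.Sid_422

open Crest.Agent.R096.St_147 Crest.Agent.R096.Seq_213 Crest.Agent.R096.Lm_117
  Crest.Agent.R096.Ac_117 Crest.Agent.R096.Gl_422

variable {ι Φ W Q : Type} [PartialOrder Q] {dim : Q → ℕ} {M : MeshC ι Φ W}
variable {J C K : Type} {fam : J → C} {L : LM M Q dim}

/-- the side of the points with respect to the sheet `i` -/
noncomputable def side (L : LM M Q dim) (s : GSt M fam) (i : J) (lam : Q → ZMod 2) (w : W) :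
    ZMod 2 := L.ext (gp s i) lam w


variable {s : GSt M fam} {i : J} {lam : Q → ZMod 2} {F : Φ} {w w' : W}






/-- a point on a frozen empty path has the label of its vertex -/
theorem side_first (h : GLab L (gp s i) lam) {w : W} (hw : w ∈ L.W1)
    (hno : ∀ q ∈ gp s i, q ∉ L.toSk.On1 (L.ed w)) :
    side L s i lam w = lam (L.en (L.ed w) false) ∧
      side L s i lam w = lam (L.en (L.ed w) true) := by
  classical
  have h0 : L.pre (gp s i) w = 0 := nW_empty fun q hq h' => hno q hq ⟨h'.1, h'.2.1⟩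
  have h1 : nW (gp s i) (L.On1 (L.ed w)) = 0 := nW_empty fun q hq h' => hno q hq h'
  have h2 := h (L.ed w) (L.ed_dim w hw)
  rw [h1] at h2
  have h3 : side L s i lam w = lam (L.en (L.ed w) false) := by
    show lam (L.en (L.ed w) false) + L.pre (gp s i) w = _
    rw [h0, add_zero]
  exact ⟨h3, h3.trans (CharTwo.add_eq_zero.1 h2)⟩

end Crest.Agent.R096.Sid_422
end

-- ▼ part R096/Sde1_422
section

/-!
# R096 (row 96), DOORS, G4 (helper422), part 1: **the side function of one sheet on the sliced mesh**.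

`oneS s i`  : the state of the points of one name;
`NP L s i`  : the 1-cells without points of `i`;  labels are constant along `NP`-paths;
`exists_sd` : a label of `i` with value 0 outside the body and 1 at the inner foot, from the exact
              circle on the boundary of one shrunk core.
-/

set_option autoImplicit false
set_option linter.unusedSectionVars false
set_option linter.unusedVariables false

open Set Module Relation
open scoped Classical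

namespace Crest.Agent.R096.Sde_422

open Crest.Agent.R096.Msh_715 Crest.Agent.R096.Sla_184 Crest.Agent.R096.Slp_316
  Crest.Agent.R096.Ce_537 Crest.Agent.R096.Exa_560 Crest.Agent.R096.Agl5_543
  Crest.Agent.R096.Seq_213 Crest.Agent.R096.St_147 Crest.Agent.R096.Door_501
  Crest.Agent.R096.Gl_422 Crest.Agent.R096.Vrt_422 Crest.Agent.R096.Lmx_662
  Crest.Agent.R096.Lm_117 Crest.Agent.R096.Ac_117 Crest.Agent.R096.Cp_298
  Crest.Agent.R096.Ori_543 Crest.Agent.R096.Coh_184 Crest.Agent.R096.Gm_298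
  Crest.Agent.R096.Flb_422 Crest.Agent.R096.Sid_422
open Crest.Agent.R096.Sla_184.Sla (hf vf old tg F0 Fn Out OnS InL In)

/-! ### one name of a state -/

section gen

variable {ι Φ W Q : Type} [PartialOrder Q] {dim : Q → ℕ} {M : MeshC ι Φ W}
variable {J C : Type} {fam : J → C} {L : LM M Q dim} {s : GSt M fam} {i : J}

/-- the points of one name -/
def oneS (s : GSt M fam) (i : J) : GSt M (fun _ : Unit => ()) where
  P := {w | w ∈ s.P ∧ s.lab w = i}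
  lab := fun _ => ()
  mu := s.mu
  mu_mem := fun h hw => ⟨⟨(s.mu_mem h.1 hw).1, (s.mu_lab h.1 hw).trans h.2⟩, (s.mu_mem h.1 hw).2⟩
  mu_ne := fun h hw => s.mu_ne h.1 hw
  mu_mu := fun h hw => s.mu_mu h.1 hw
  mu_lab := fun _ _ => rfl
  nc := fun h hw hx hxF _ hne hne' => s.nc h.1 hw hx.1 hxF (by rw [h.2, hx.2]) hne hne'
  fin := fun c => (s.fin (fam i)).subset (by rintro w ⟨⟨h1, h2⟩, -⟩; exact ⟨h1, by rw [h2]⟩)

theorem gp_one : gp (oneS s i) () = gp s i := by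
  ext w
  rw [mem_gp, mem_gp]
  exact ⟨fun h => h.1, fun h => ⟨h, rfl⟩⟩

/-- no quads -/
def qd0 (ι : Type) : Quads ι Unit Empty where
  pr := fun k => k.elim
  ne := fun k => k.elim
  Act := fun k => k.elim
  fin := fun k => k.elim
  disj := fun k => k.elim
  finK := fun _ => Set.toFinite _

/-- the 1-cells without points of `i` -/
def NP (L : LM M Q dim) (s : GSt M fam) (i : J) : Set Q :=
  {e | ∀ w ∈ s.P, s.lab w = i → w ∉ L.toSk.On1 e}

theorem np_fr0 {e : Q} : e ∈ NP L s i ↔ e ∈ Fr0 L (qd0 ι) (oneS s i) () := by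
  constructor
  · intro h
    exact ⟨fun k => k.elim, fun w hw _ => h w hw.1 hw.2⟩
  · rintro ⟨-, h⟩ w hw hl
    exact h w ⟨hw, hl⟩ rfl

/-- the sum of two labels of the same points is constant along all paths -/
theorem add_path {Y : Finset W} {lam lam' : Q → ZMod 2} (h : GLab L Y lam) (h' : GLab L Y lam')
    {Z : Set Q} {v v' : Q} (hp : ReflTransGen (Ed L Z) v v') :
    lam v + lam' v = lam v' + lam' v' := by
  induction hp with
  | refl => rfl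
  | tail _ hbc ih =>
    obtain ⟨e, -, he, b, rfl, rfl⟩ := hbc
    rw [ih]
    have h1 := (h e he).trans (h' e he).symm
    have key : ∀ a b c d : ZMod 2, a + b = c + d → a + c = b + d := by decide
    have h2 := key _ _ _ _ h1
    cases b
    · exact h2
    · exact h2.symm

/-- labels are constant along `NP`-paths -/
theorem np_path {lam : Q → ZMod 2} (h : GLab L (gp s i) lam) {v v' : Q}
    (hp : ReflTransGen (Ed L (NP L s i)) v v') : lam v' = lam v := by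
  induction hp with
  | refl => rfl
  | tail _ hbc ih =>
    obtain ⟨e, he, he1, b, rfl, rfl⟩ := hbc
    rw [← ih]
    have h1 : nW (gp s i) (L.toSk.On1 e) = 0 := nW_empty fun w hw hwe => by
      obtain ⟨h2, h4⟩ := mem_gp.1 hw
      exact he w h2 h4 hwe
    have h2 := h e he1
    rw [h1] at h2
    have h4 : lam (L.en e false) = lam (L.en e true) := by
      have e1 : ∀ x y : ZMod 2, x + y = 0 → x = y := by decide
      exact e1 _ _ h2
    cases b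
    · exact h4.symm
    · exact h4

end gen

/-! ### the sliced mesh -/

section lev

variable {E : Type} [NormedAddCommGroup E] [NormedSpace ℝ E] [FiniteDimensional ℝ E]
variable {Om : Set E} {ι : Type} {T : Tiling Om ι} {Sg : Set E} {J : Type}

/-- one level -/
noncomputable def levOne (L : Lev T Sg J) {j : J} (hj : j ∈ L.J0) : Lev T Sg Unit where
  u := L.u
  aff := L.aff
  J0 := {()}
  lv := fun _ => L.lv j
  inj := fun _ _ _ _ _ => rfl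
  vert := fun v hv h0 _ _ => L.vert v hv h0 j hj

end lev

section sla

variable {E : Type} [NormedAddCommGroup E] [NormedSpace ℝ E] [FiniteDimensional ℝ E]
variable {Om : Set E} {ι : Type} {T : Tiling Om ι} {κ : Type} {S : Sla T κ} {c : κ}
variable {w x y v : E} [Nonempty S.T3.Cell]
variable {h3 : finrank ℝ E = 3} {hH : ∀ c, CoreH S.T3 (S.KK c)} {hne : ∃ c, OutK S.T3 S.KK c}
  {C : Type} {J J' : Type} {fam : J → C}
  {s : GSt (mK h3 hH Sla.dis_KK) fam} {i : J}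

/-- no point of `i` in the column over `v` -/
def NoCol (S : Sla T κ) (s : GSt (mK h3 hH Sla.dis_KK) fam) (i : J) (c : κ) (v : E) : Prop :=
  ∀ l < S.n c, ∀ w ∈ s.P, s.lab w = i → w ∈ S.O c v → ¬ S.InL c l w

theorem NoCol.col (h : NoCol S s i c v) : Col (qd0 (T.RIdx S.HH ⊕ κ)) (oneS s i) () c v where
  fr := fun k => k.elim
  pt := fun l hl w hw hO hL _ => h l hl w hw.1 hw.2 hO hL

/-- the column over a vertex without points is an `NP`-path -/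
theorem NoCol.path (h : NoCol S s i c v) (hv : v ∈ frontier (S.K c)) (h0 : T.dim v = 0) {j : ℕ}
    (hj : j ≤ S.n c) :
    ReflTransGen (Ed (lmK h3 hH Sla.dis_KK hne) (NP (lmK h3 hH Sla.dis_KK hne) s i))
      (oc (edC S.T3 v) (outK_foot hv h0))
      (oc (edC S.T3 (S.hc c v j)) (outK_hc (Sla.fr_Bd hv) hj)) := by
  have h1 := col_path (h3 := h3) (hH := hH) (hne := hne) (Qd := qd0 (T.RIdx S.HH ⊕ κ))
    (s := oneS s i) (a := ()) hv h0 h.col.fr h.col.pt hj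
  have e : (oc (edC S.T3 v) (outK_foot hv h0) : QK (belK S.T3 S.KK)) =
      oc (edC S.T3 (S.hc c v 0)) (outK_hc (Sla.fr_Bd hv) (Nat.zero_le _)) := by
    congr 1
    exact (congrArg (edC S.T3) (hc_zero hv h0)).symm
  rw [e]
  refine ReflTransGen.mono (fun a b hab => hab.mono fun e he => np_fr0.2 he) _ _ h1

/-- the empty state of the old mesh -/
noncomputable def st00 (T : Tiling Om ι) (h3 : finrank ℝ E = 3) :
    GSt (meshC T h3) (fun _ : Unit => ()) where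
  P := ∅
  lab := fun _ => ()
  mu := fun _ w => w
  mu_mem := fun h => h.elim
  mu_ne := fun h => h.elim
  mu_mu := fun h => h.elim
  mu_lab := fun _ _ => rfl
  nc := fun h => h.elim
  fin := fun _ => (Set.finite_empty (α := E)).subset fun w hw => hw.1

/-- **THE SIDE FUNCTION OF ONE SHEET** -/
theorem exists_sd {D : Set E} (hD : IsCompact D) (hDO : D ⊆ Om) (hfr : IsPreconnected (frontier D))
    (htr : TrivF (ZMod 2) D)
    (hW : ∀ w ∈ s.P, s.lab w = i → w ∈ (lmK h3 hH Sla.dis_KK hne).W1)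
    (supp : ∀ w ∈ s.P, s.lab w = i → (∀ q, w ∈ Msh_715.P (S.T3.H q) →
      Msh_715.P (S.T3.H q) ⊆ interior D) ∧ ∀ c, w ∈ S.KK c → S.KK c ⊆ interior D)
    (L : Lev T (frontier (S.K c)) J') {j : J'} (hj : j ∈ L.J0)
    (hE : ExG S c L j {w | w ∈ s.P ∧ s.lab w = i}) {v0 v1 : E} (hv0 : v0 ∈ frontier (S.K c))
    (hd0 : T.dim v0 = 0) (hv1 : v1 ∈ frontier (S.K c)) (hd1 : T.dim v1 = 0)
    (hl0 : L.u v0 < L.lv j) (hl1 : L.lv j < L.u v1) (hC0 : NoCol S s i c v0)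
    (hC1 : NoCol S s i c v1) {q1 : QK (belK S.T3 S.KK)} (hq1 : q1 ∈ ZK S.T3 S.KK D)
    (hp : ReflTransGen (Ed (lmK h3 hH Sla.dis_KK hne) (NP (lmK h3 hH Sla.dis_KK hne) s i))
      q1 (oc (edC S.T3 v1) (outK_foot hv1 hd1))) :
    ∃ lam : QK (belK S.T3 S.KK) → ZMod 2, GLab (lmK h3 hH Sla.dis_KK hne) (gp s i) lam ∧
      (∀ v ∈ ZK S.T3 S.KK D, lam v = 0) ∧
      (∀ p, ReflTransGen (Ed (lmK h3 hH Sla.dis_KK hne) (NP (lmK h3 hH Sla.dis_KK hne) s i))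
        (oc (edC S.T3 v0) (outK_foot hv0 hd0)) p → lam p = 1) ∧
      ∀ v ∈ ZK S.T3 S.KK D, ∀ p,
        ReflTransGen (Ed (lmK h3 hH Sla.dis_KK hne) (NP (lmK h3 hH Sla.dis_KK hne) s i)) v p →
          lam p = 0 := by
  -- a label with value 0 outside the body
  obtain ⟨lam, hlam, hz⟩ : ∃ lam : QK (belK S.T3 S.KK) → ZMod 2,
      GLab (lmK h3 hH Sla.dis_KK hne) (gp s i) lam ∧ ∀ v ∈ ZK S.T3 S.KK D, lam v = 0 :=
    hasLab_K (h3 := h3) (hH := hH) (hdis := Sla.dis_KK) (hne := hne) hD hDO hfr htr (gp s i)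
      (fun w hw => hW w (mem_gp.1 hw).1 (mem_gp.1 hw).2) (fun w hw => by
        obtain ⟨h1, h2⟩ := mem_gp.1 hw
        exact GD_of (hne := hne) (hW w h1 h2) (supp w h1 h2).1 (supp w h1 h2).2) (gp_even s i)
  -- a label with value 1 at `v0`
  have hmono : ∀ {a b : QK (belK S.T3 S.KK)},
      ReflTransGen (Ed (lmK h3 hH Sla.dis_KK hne) (NP (lmK h3 hH Sla.dis_KK hne) s i)) a b →
      ReflTransGen (Ed (lmK h3 hH Sla.dis_KK hne)
        (Fr0 (lmK h3 hH Sla.dis_KK hne) (qd0 (T.RIdx S.HH ⊕ κ)) (oneS s i) ())) a b :=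
    fun {a b} h => ReflTransGen.mono (fun a b hab => hab.mono fun e he => np_fr0.1 he) _ _ h
  have hcd : Cd hne (qd0 (T.RIdx S.HH ⊕ κ)) (oneS s i) (st00 T h3) (fun _ _ => 0)
      (oc (edC S.T3 v0) (outK_foot hv0 hd0)) q1 () (Sum.inr c) (edC S.T3 (S.hc c v0 (S.n c)))
      (edC S.T3 (S.hc c v1 (S.n c))) (outK_hc (Sla.fr_Bd hv0) le_rfl)
      (outK_hc (Sla.fr_Bd hv1) le_rfl) (ub S c (levOne L hj).u) (levOne L hj).lv := by
    refine cd_giant hv0 hd0 hv1 hd1 (levOne L hj) (fun k => k.elim)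
      (fun _ _ => Finset.mem_singleton_self _) (fun _ _ => ?_) (fun _ _ => ⟨hl0, hl1⟩)
      hC0.col hC1.col .refl (hmono hp)
    intro w hw h1
    constructor
    · rintro ⟨h2, -⟩
      exact (hE w hw h1).1 h2
    · intro h2
      exact ⟨(hE w hw h1).2 h2, rfl⟩
  obtain ⟨lam', hl'⟩ := labIn_sla (Qd := qd0 (T.RIdx S.HH ⊕ κ)) (s := oneS s i) (fam := fun _ => ())
    (v₀ := fun _ => oc (edC S.T3 v0) (outK_foot hv0 hd0)) (v₁ := fun _ => q1) (fun _ => D)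
    (fun w hw => hW w hw.1 hw.2) (fun _ => hD) (fun _ => hDO) (fun _ => hfr) (fun _ => htr)
    (fun w hw => supp w hw.1 hw.2) (fun _ k => k.elim) (fun _ => hq1)
    (fun _ => ⟨_, _, _, _, _, _, _, hcd⟩)
  have hlab := hl'.lab ()
  rw [gp_one] at hlab
  have h1 := add_path hlam hlab (hl'.rope ())
  have h2 : lam' () (oc (edC S.T3 v0) (outK_foot hv0 hd0)) = 1 := hl'.one ()
  have h4 : lam' () q1 = 0 := hl'.zero ()
  rw [h2, h4, hz q1 hq1] at h1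
  have h5 : lam (oc (edC S.T3 v0) (outK_foot hv0 hd0)) = 1 := by
    have key : ∀ a : ZMod 2, a + 1 = 0 + 0 → a = 1 := by decide
    exact key _ h1
  exact ⟨lam, hlam, hz, fun p hp => (np_path hlam hp).trans h5,
    fun v hv p hp => (np_path hlam hp).trans (hz v hv)⟩

end sla

end Crest.Agent.R096.Sde_422
end

-- ▼ part R096/Sde2_422
section

/-!
# R096 (row 96), DOORS, G4 (helper422), part 2: **values of the side function, tile by tile**.

`NoT S s i Lo`  : no point of `i` on the ordinary tiles of `T3` over the tiles of `Lo`;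
`rope_np`       : `NP`-paths along a compact connected set covered by outer tiles of `Lo`;
`side_face`     : the side is constant on a face without points of `i`;
`side_tile`     : the side of a point on an ordinary tile over `Lo₁` is the label of a vertex of `T`
                  of this tile (outer tiles and layers);
`side_zone`     : the side is constant over the zone.
-/

set_option autoImplicit false
set_option linter.unusedSectionVars false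
set_option linter.unusedVariables false

open Set Module Relation
open scoped Classical

namespace Crest.Agent.R096.Sde_422

open Crest.Agent.R096.Msh_715 Crest.Agent.R096.Sla_184 Crest.Agent.R096.Slp_316
  Crest.Agent.R096.Ce_537 Crest.Agent.R096.Exa_560 Crest.Agent.R096.Agl5_543
  Crest.Agent.R096.Seq_213 Crest.Agent.R096.St_147 Crest.Agent.R096.Door_501
  Crest.Agent.R096.Gl_422 Crest.Agent.R096.Vrt_422 Crest.Agent.R096.Lmx_662
  Crest.Agent.R096.Lm_117 Crest.Agent.R096.Ac_117 Crest.Agent.R096.Cp_298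
  Crest.Agent.R096.Ori_543 Crest.Agent.R096.Coh_184 Crest.Agent.R096.Gm_298
  Crest.Agent.R096.Flb_422 Crest.Agent.R096.Sid_422 Crest.Agent.R096.Cpo_642
  Crest.Agent.R096.Init_543
open Crest.Agent.R096.Sla_184.Sla (hf vf old tg F0 Fn Out OnS InL In)
open Crest.Agent.R096.SkC1_961 (E3)

/-! ### faces without points -/

section gen

variable {ι Φ W Q : Type} [PartialOrder Q] {dim : Q → ℕ} {M : MeshC ι Φ W}
variable {J C : Type} {fam : J → C} {L : LM M Q dim} {s : GSt M fam} {i : J}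


end gen

/-! ### the sliced mesh -/

variable {Om : Set E3} {ι : Type} {T : Tiling Om ι} {κ : Type} {S : Sla T κ} {c : κ}
variable {w x y v : E3} [Nonempty S.T3.Cell]
variable {hH : ∀ c, CoreH S.T3 (S.KK c)} {hne : ∃ c, OutK S.T3 S.KK c}
  {C : Type} {J : Type} {fam : J → C}
  {s : GSt (mK fr3 hH Sla.dis_KK) fam} {i : J} {Lo Lo₁ : Set ι}

/-- no point of `i` on the ordinary tiles of `T3` over the tiles of `Lo` -/
def NoT (S : Sla T κ) (s : GSt (mK fr3 hH Sla.dis_KK) fam) (i : J) (Lo : Set ι) : Prop :=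
  ∀ p : T.RIdx S.HH, p.tile ∈ Lo → (∀ c, ¬ P (S.T3.H p) ⊆ S.KK c) → ∀ w ∈ s.P, s.lab w = i →
    w ∉ P (S.T3.H p)

/-- the 1-cells of an ordinary tile over `Lo` carry no point -/
theorem NoT.np (h : NoT S s i Lo) {p : T.RIdx S.HH} (hp : p.tile ∈ Lo)
    (hout : ∀ c, ¬ P (S.T3.H p) ⊆ S.KK c) {e : QK (belK S.T3 S.KK)}
    (he : e ≤ tcK S.T3 S.KK (Sum.inl p)) : e ∈ NP (lmK fr3 hH Sla.dis_KK hne) s i := by
  obtain ⟨d, hd, rfl, h1⟩ := (Rop_441.le_tcK hout).1 he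
  intro w hw hl hw1
  have h2 : w ∈ (lmK fr3 hH Sla.dis_KK hne).On1 (oc d hd) := hw1
  rw [on_K hd] at h2
  obtain ⟨h3, h4⟩ := h2
  refine h p hp hout w hw hl (h1 ?_)
  rw [← h4, edC_set h3.1]
  exact S.T3.self_mem_cc w

/-- no point in the column over a vertex -/
theorem NoT.col (h : NoT S s i Lo) (hv : v ∈ frontier (S.K c))
    (hq : ∀ q, v ∈ P (T.H q) → P (T.H q) ⊆ S.K c → q ∈ Lo) : NoCol S s i c v := by
  intro l hl w hw hi hO hL
  obtain ⟨p, hp⟩ := S.T3.cov _ hL.mem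
  obtain ⟨b1, b2, b3⟩ := Rop_441.col_tile hv hO hL hp
  exact h p (hq _ b1 b2) b3 w hw hi hp


/-- a cell of dimension 0 is the cell of its point -/
theorem cell_pt {q : S.T3.Cell} (hd : q.dim = 0) {y : E3} (hy : y ∈ q.set) : edC S.T3 y = q := by
  have h1 : q.set = {q.pt} := by
    rw [q.set_eq]; exact S.T3.cc_eq_singleton (S.T3.dim_eq_zero_iff.1 hd)
  rw [h1, mem_singleton_iff] at hy
  subst hy
  apply Tiling.Cell.ext
  rw [edC_set q.pt_mem, q.set_eq]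

/-- **the side of a point on an ordinary tile over `Lo₁`** is the label of a vertex of `T` of this
tile: `v` is a vertex of an outer tile, or a vertex on the frontier of a core -/
theorem side_tile {lam : QK (belK S.T3 S.KK) → ZMod 2}
    (hlam : GLab (lmK fr3 hH Sla.dis_KK hne) (gp s i) lam) (h : NoT S s i Lo)
    (h1 : ∀ q ∈ Lo₁, ∀ q', (P (T.H q) ∩ P (T.H q')).Nonempty → q' ∈ Lo)
    {w : E3} (hw : w ∈ (lmK fr3 hH Sla.dis_KK hne).W1) {p : T.RIdx S.HH} (hp : p.tile ∈ Lo₁)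
    (hout : ∀ c, ¬ P (S.T3.H p) ⊆ S.KK c) (hwp : w ∈ P (S.T3.H p)) :
    ∃ v ∈ P (T.H p.tile), T.dim v = 0 ∧ (∃ q, (∀ c, ¬ P (T.H q) ⊆ S.K c) ∧ v ∈ P (T.H q)) ∧
      ∀ hO : OutK S.T3 S.KK (edC S.T3 v),
        side (lmK fr3 hH Sla.dis_KK hne) s i lam w = lam (oc (edC S.T3 v) hO) := by
  have hpL : p.tile ∈ Lo := by
    obtain ⟨x, hx⟩ := T.ne p.tile
    exact h1 _ hp _ ⟨x, I_sub_P _ hx, I_sub_P _ hx⟩
  obtain ⟨h', e'⟩ := Rop_441.ed_K hw
  have hwO : w ∈ Om := (Gm_298.mem_W1K.1 hw).1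
  have hw1 : w ∈ W1 S.T3 := ⟨hwO, (Gm_298.mem_W1K.1 hw).2.1⟩
  have hed : (edC S.T3 w).set ⊆ P (S.T3.H p) := by
    rw [edC_set hwO]; exact S.T3.cc_sub_tile hwp
  have hno : ∀ q ∈ gp s i, q ∉ (lmK fr3 hH Sla.dis_KK hne).toSk.On1
      ((lmK fr3 hH Sla.dis_KK hne).ed w) := by
    intro q hq
    obtain ⟨g1, g2⟩ := mem_gp.1 hq
    exact (h.np (hne := hne) hpL hout (e := (lmK fr3 hH Sla.dis_KK hne).ed w)
      ((Rop_441.ed_le_K hw hout).2 hwp)) q g1 g2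
  have hside := (side_first hlam hw hno).1
  have hd1 := edC_dim hw1
  rw [e'] at hside
  obtain ⟨o1, e1⟩ := en_K (h3 := fr3) (hH := hH) (hdis := Sla.dis_KK) (hne := hne) h' hd1 false
  rw [e1] at hside
  -- the vertex of `T3`
  set q := enC (edC S.T3 w) false with hqdef
  have hqs : q.set = {epE (edC S.T3 w) false} := en_set hd1 false
  have hsp := (ep_spec hd1).2.2 false
  have hqsub : q.set ⊆ P (S.T3.H p) := by
    rw [hqs, singleton_subset_iff]; exact hed hsp.2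
  have hqpt : q.pt = epE (edC S.T3 w) false := en_pt hd1 false
  have hqd : q.dim = 0 := by
    show S.T3.dim q.pt = 0
    rw [hqpt]; exact hsp.1
  rcases Sla.tile_or S p.tile with ho | ⟨c, hc⟩
  · -- an outer tile
    have hyp : q.pt ∈ P (T.H p.tile) := Sla.P3_sub p (hqsub (pt_set q))
    have hy0 : T.dim q.pt = 0 := by
      rw [← (Sla.T3_eq ho hyp).2.2]; exact hqd
    refine ⟨q.pt, hyp, hy0, ⟨p.tile, ho, hyp⟩, fun hO => ?_⟩
    rw [hside]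
    have hc := cell_pt hqd (pt_set q)
    congr 1
    unfold oc
    congr 1
    exact Subtype.ext hc.symm
  · -- a layer
    obtain ⟨v, j, b1, b2, b3, b4, b5, b6⟩ := Rop_441.exists_col hout hc hqsub
    have hcol : NoCol S s i c v := h.col b1 fun q' hv' hq' => h1 _ hp _ ⟨v, b5, hv'⟩
    have hpath := hcol.path (hne := hne) b1 b2 b3
    have hval := np_path hlam hpath
    refine ⟨v, b5, b2, ?_, fun hO => ?_⟩
    · have hvO : v ∈ Om := T.sub _ b5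
      obtain ⟨q', hq', hq''⟩ := Rop_441.exists_out T (Kor := {q | ∃ c, P (T.H q) ⊆ S.K c})
        (Kc := S.K) (fun q hq => hq) (fun c c' hcc => S.dis c c' hcc) hvO
        (fun c' hc' => by
          by_cases hcc : c' = c
          · subst hcc; exact b1.2 hc'
          · exact disjoint_left.1 (S.dis c' c hcc) (interior_subset hc') (S.fr_sub c b1))
      exact ⟨q', fun c' hc' => hq' ⟨c', hc'⟩, hq''⟩
    · rw [hside]
      have hc' := cell_pt hqd b4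
      have e2 : (oc q o1 : QK (belK S.T3 S.KK)) =
          oc (edC S.T3 (S.hc c v j)) (outK_hc (Sla.fr_Bd b1) b3) := by
        unfold oc
        congr 1
        exact Subtype.ext hc'.symm
      rw [e2, hval]


end Crest.Agent.R096.Sde_422
end

-- ▼ part R096/Rop14_441
section

/-!
# Row 96 (S0127), DOORS, G4 (R): ROPES OF A BARRIER (helper441)

* `NoP L s i` : the 1-cells without points of the name `i`;
* `rope_out`  : a path of such 1-cells along a compact connected set covered by tiles outside the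
  cores which carry no point of the name `i`;
* `Zo`        : shell over a set `A` of the frontier of the brick, outside the core, led round it.
-/

set_option autoImplicit false
set_option linter.unusedSectionVars false
set_option linter.unusedVariables false

open Set Relation Module

namespace Crest.Agent.R096.Rop_441

open Crest.Agent.R096.Brk1_582 Crest.Agent.R096.Brk2_582 Crest.Agent.R096.Brk3_582
  Crest.Agent.R096.Brk5_582 Crest.Agent.R096.Bsp_628 Crest.Agent.R096.Init_543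
  Crest.Agent.R096.Vb_965 Crest.Agent.R096.Msh_715 Crest.Agent.R096.St_147
  Crest.Agent.R096.Seq_213 Crest.Agent.R096.Lm_117 Crest.Agent.R096.Gl_422
  Crest.Agent.R096.SkB_662 Crest.Agent.R096.Cpo_642
  Crest.Agent.R096.Ce_537 Crest.Agent.R096.Agl5_543
  Crest.Agent.R096.Cp_298 Crest.Agent.R096.Gm_298 Crest.Agent.R096.Ac_117
  Crest.Agent.R096.Sla_184 Crest.Agent.R096.Sla_184.Sla
open Crest.Agent.R096.SkC1_961 (E3 Hom3 FoamD)
open Crest.Agent.R096.Mbf_337 (KJ sb)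
open Crest.Agent.R096.Ess5_95 (ga)

section nop

variable {ι Φ W Q : Type} [PartialOrder Q] {dim : Q → ℕ} {M : MeshC ι Φ W} {J C : Type}
  {fam : J → C}

/-- the 1-cells without points of the name `i` -/
def NoP (L : LM M Q dim) (s : GSt M fam) (i : J) : Set Q :=
  {e | ∀ w ∈ s.P, s.lab w = i → L.ed w ≠ e}


end nop

section out

variable {Om : Set E3} {ι : Type} {T : Tiling Om ι} {κ : Type} {S : Sla T κ}
  [Nonempty S.T3.Cell] {hH : ∀ c, CoreH S.T3 (S.KK c)} {hne : ∃ c, OutK S.T3 S.KK c}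
  {Jn Cn : Type} {fam : Jn → Cn} {s₀ : GSt (mK fr3 hH dis_KK) fam}

/-- a point of `Om` in the interior of no core lies on a tile outside the cores -/
theorem exists_out_S (S : Sla T κ) {x : E3} (hx : x ∈ Om) (hxi : ∀ c, x ∉ interior (S.K c)) :
    ∃ p, (∀ c, ¬ P (T.H p) ⊆ S.K c) ∧ x ∈ P (T.H p) := by
  obtain ⟨q, hq, hxq⟩ := exists_out T (Kor := {q | ∃ c, P (T.H q) ⊆ S.K c}) (fun q hq => hq)
    S.dis hx hxi
  exact ⟨q, fun c hc => hq ⟨c, hc⟩, hxq⟩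

/-- **ROPE OUTSIDE THE CORES** without points of the name `i` -/
theorem rope_out (Xc : Cplx Om (QK (belK S.T3 S.KK)) (dimK (belK S.T3 S.KK) fun c => c.1.dim)
      (setK S.T3 S.KK))
    (hon : ∀ w ∈ s₀.P, w ∈ (lmK fr3 hH dis_KK hne).W1) {i : Jn} {A : Set E3}
    (hA : IsCompact A) (hAc : IsPreconnected A)
    (hcov : ∀ x ∈ A, ∃ p, (∀ c, ¬ P (T.H p) ⊆ S.K c) ∧ x ∈ P (T.H p))
    (hno : ∀ p, (∀ c, ¬ P (T.H p) ⊆ S.K c) → (P (T.H p) ∩ A).Nonempty →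
      ∀ w ∈ s₀.P, s₀.lab w = i → w ∉ P (T.H p))
    {p p' : ι} (hp : ∀ c, ¬ P (T.H p) ⊆ S.K c) (hpA : (P (T.H p) ∩ A).Nonempty)
    {v v' : QK (belK S.T3 S.KK)} (hv : v ≤ tcK S.T3 S.KK (Sum.inl (S.ot p hp)))
    (hv0 : dimK (belK S.T3 S.KK) (fun c => c.1.dim) v = 0)
    (hp' : ∀ c, ¬ P (T.H p') ⊆ S.K c) (hpA' : (P (T.H p') ∩ A).Nonempty)
    (hv' : v' ≤ tcK S.T3 S.KK (Sum.inl (S.ot p' hp')))
    (hv0' : dimK (belK S.T3 S.KK) (fun c => c.1.dim) v' = 0) :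
    ReflTransGen (Ed (lmK fr3 hH dis_KK hne) (NoP (lmK fr3 hH dis_KK hne) s₀ i)) v v' := by
  have hset : ∀ (p : ι) (hp : ∀ c, ¬ P (T.H p) ⊆ S.K c),
      setK S.T3 S.KK (tcK S.T3 S.KK (Sum.inl (S.ot p hp))) = P (T.H p) := fun p hp => by
    rw [setK_tcK (not_KK_ot hp), ot_P hp]
  have h := rope_EdJ Xc (lmK fr3 hH dis_KK hne) hA hAc
    (Jc := {q | ∃ p, ∃ hp : ∀ c, ¬ P (T.H p) ⊆ S.K c,
      q = tcK S.T3 S.KK (Sum.inl (S.ot p hp))}) (fun x hx => by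
        obtain ⟨p, hp, hxp⟩ := hcov x hx
        exact mem_biUnion (show _ ∈ {q | ∃ p, ∃ hp : ∀ c, ¬ P (T.H p) ⊆ S.K c,
          q = tcK S.T3 S.KK (Sum.inl (S.ot p hp))} from ⟨p, hp, rfl⟩) (by rw [hset p hp]; exact hxp))
    ⟨p, hp, rfl⟩ (by rw [hset p hp]; exact hpA) hv hv0 ⟨p', hp', rfl⟩
    (by rw [hset p' hp']; exact hpA') hv' hv0'
  refine path_mono ?_ h
  rintro e ⟨q, ⟨r, hr, rfl⟩, heq, hqA⟩ w hw hl hwe
  rw [hset r hr] at hqA
  refine hno r hr hqA w hw hl ?_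
  have h1 := (ed_le_K (hon w hw) (not_KK_ot hr)).1 (hwe ▸ heq)
  rw [ot_P hr] at h1
  exact h1

end out

section shl

variable {δ κ0 R c0 : ℝ} {La Om : Set E3} {ι : Type} {Φ : FoamD δ κ0 R c0 La}
  {T : Tiling Om ι} {f g : E3 → E3} {κ1 : ℝ} {J0 J V : Set ι}
  {θ : E3 → E3} {φ : E3 → ℝ} {c : Φ.F} {ρ1 ρ2 ρ3 ρ4 d : ℝ} {p : ℝ × E3 → E3}

/-- shell over the set `A` of the frontier of the brick `c` -/
def Shl (Φ : FoamD δ κ0 R c0 La) (Om : Set E3) (f : E3 → E3) (c : Φ.F) (A : Set E3) (r r' : ℝ) :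
    Set E3 :=
  Om ∩ f ⁻¹' {y | (r ≤ ga Φ c y ∧ ga Φ c y ≤ r') ∧ Φ.Psi y ∈ A}

/-- the shell outside the core `K`, led round it over `B` -/
def Zo (Φ : FoamD δ κ0 R c0 La) (Om : Set E3) (f : E3 → E3) (c : Φ.F) (K : Set E3)
    (θ : E3 → E3) (A B : Set E3) (r r' : ℝ) : Set E3 :=
  Shl Φ Om f c A r r' \ interior K ∪ {x | x ∈ frontier K ∧ θ x ∈ B}

variable (hLa : IsOpen La) (H : Hm f g Om La) (hTc : Mbf_337.Tiny Φ T f κ1 c J0 J V θ φ)
  (hr : Ess5_95.Rm Φ T f c J0 J V θ ρ1 ρ2 ρ3 ρ4 d) (hG : Ess5_95.GA Φ c ρ4)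
  (hPol : Bgf_4.Pol Φ c ρ4 p)
include hLa H hTc hr hG hPol

theorem shl_cc {A : Set E3} (hA : A ⊆ frontier c.1.set) (hAc : IsCompact A)
    (hAp : IsPreconnected A) {r r' : ℝ} (h0 : 0 < r) (h4 : r' ≤ ρ4) :
    IsCompact (Shl Φ Om f c A r r') ∧ IsPreconnected (Shl Φ Om f c A r r') := by
  have hL : {y | (r ≤ ga Φ c y ∧ ga Φ c y ≤ r') ∧ Φ.Psi y ∈ A} ⊆ La := fun y hy =>
    (foam4 Φ hLa).sub c ((hG.one y).1 (by linarith [hy.1.2, hr.r4]))
  refine ⟨H.isCompact_pre hL ?_, H.preconn_pre hL (hPol.prod_conn hA hAp h0 h4)⟩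
  rw [← hPol.prod hA h0 h4]
  exact (isCompact_Icc.prod hAc).image_of_continuousOn
    (hPol.cont.mono fun x hx => ⟨mem_univ _, hA hx.2⟩)

/-- **the zone is compact and connected** -/
theorem zo_cc {A B : Set E3} (hA : A ⊆ frontier c.1.set) (hAc : IsCompact A)
    (hAp : IsPreconnected A) (hAn : A.Nonempty) (hB : B ⊆ frontier c.1.set) (hBc : IsCompact B)
    (hBp : IsPreconnected B) (hBn : B.Nonempty)
    (hAB : ∀ x ∈ frontier (KJ T J), Φ.Psi (f x) ∈ A → θ x ∈ B) {r r' : ℝ} (h0 : 0 < r)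
    (h2 : r < ρ2) (hrr : r ≤ r') (h4 : r' ≤ ρ4) :
    IsCompact (Zo Φ Om f c (KJ T J) θ A B r r') ∧
      IsPreconnected (Zo Φ Om f c (KJ T J) θ A B r r') := by
  classical
  obtain ⟨hc1, hc2⟩ := shl_cc hLa H hTc hr hG hPol hA hAc hAp h0 h4
  have hcore : CoreH T (KJ T J) := Exa_560.coreH_tiny hTc
  have hcl : IsClosed (KJ T J) := hcore.cpt.isClosed
  obtain ⟨e, he⟩ := hTc.bij
  have hpat : {x | x ∈ frontier (KJ T J) ∧ θ x ∈ B} = e.g '' B := by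
    ext x
    constructor
    · rintro ⟨h1, h2⟩
      refine ⟨θ x, h2, ?_⟩
      rw [← he x h1]
      exact e.li x h1
    · rintro ⟨q, hq, rfl⟩
      have h1 := e.mg (hB hq)
      refine ⟨h1, ?_⟩
      rw [← he _ h1, e.ri q (hB hq)]
      exact hq
  have hpc : IsCompact {x | x ∈ frontier (KJ T J) ∧ θ x ∈ B} := by
    rw [hpat]; exact hBc.image_of_continuousOn (e.pg.1.mono hB)
  have hpp : IsPreconnected {x | x ∈ frontier (KJ T J) ∧ θ x ∈ B} := by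
    rw [hpat]; exact hBp.image _ (e.pg.1.mono hB)
  have hpn : {x | x ∈ frontier (KJ T J) ∧ θ x ∈ B}.Nonempty := by
    rw [hpat]; exact hBn.image _
  -- the shell meets the core
  have hmeet : (Shl Φ Om f c A r r' ∩ KJ T J).Nonempty := by
    obtain ⟨q, hq⟩ := hAn
    obtain ⟨y, hy, hy1, hy2⟩ := hG.ex q (hA hq) r h0 (hrr.trans h4)
    have hyL : y ∈ La := (foam4 Φ hLa).sub c hy
    refine ⟨g y, ⟨H.gm hyL, ?_⟩, ?_⟩
    · show (r ≤ ga Φ c (f (g y)) ∧ ga Φ c (f (g y)) ≤ r') ∧ Φ.Psi (f (g y)) ∈ A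
      rw [H.fg y hyL, hy1, hy2]
      exact ⟨⟨le_rfl, hrr⟩, hq⟩
    · refine interior_subset (Ess5_95.K_int H ((foam4 Φ hLa).sub c) hG hr hTc.sub0 hcl hTc.mem
        (H.gm hyL) ?_)
      rw [H.fg y hyL, hy1]
      exact h2
  have hdet : det (Shl Φ Om f c A r r') (fun _ : Unit => KJ T J)
      (fun _ => {x | x ∈ frontier (KJ T J) ∧ θ x ∈ B}) = Zo Φ Om f c (KJ T J) θ A B r r' := by
    unfold det Zo
    ext x
    constructor
    · rintro (⟨h1, h⟩ | h)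
      · exact Or.inl ⟨h1, fun h' => h (mem_iUnion.2 ⟨(), h'⟩)⟩
      · obtain ⟨_, _, h⟩ := mem_iUnion₂.1 h
        exact Or.inr h
    · rintro (⟨h1, h⟩ | h)
      · refine Or.inl ⟨h1, fun h' => ?_⟩
        obtain ⟨_, h2⟩ := mem_iUnion.1 h'
        exact h h2
      · exact Or.inr (mem_iUnion₂.2 ⟨(), hmeet, h⟩)
  rw [← hdet]
  refine ⟨isCompact_det hc1 (Set.toFinite _) fun _ _ => hpc,
    detour hc1 hc2 (fun _ => hcl) (fun a b hab => absurd rfl hab) (Set.toFinite _)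
      (fun _ _ => ⟨hpn, hpp⟩) fun _ x hx => ?_⟩
  have hxf : x ∈ frontier (KJ T J) := by
    rw [hcl.frontier_eq]; exact ⟨hx.1.2, hx.2⟩
  exact ⟨hxf, hAB x hxf hx.1.1.2.2⟩

end shl

end Crest.Agent.R096.Rop_441
end

-- ▼ part R096/Rop15_441
section

/-!
# Row 96 (S0127), DOORS, G4 (R), part 2: THE LOW ZONE AND THE HIGH ZONE OF A BARRIER (helper441)

`ZL` (inside the barrier) and `ZH` (outside the barrier), both outside the core and led round it: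
**two vertices of the outer tiles which meet `ZL` (`ZH`) are joined by a path without points of the
barrier** (`low_path`, `high_path`).
-/

set_option autoImplicit false
set_option linter.unusedSectionVars false
set_option linter.unusedVariables false

open Set Relation Module

namespace Crest.Agent.R096.Rop_441

open Crest.Agent.R096.Brk1_582 Crest.Agent.R096.Brk2_582 Crest.Agent.R096.Brk3_582
  Crest.Agent.R096.Brk5_582 Crest.Agent.R096.Bsp_628 Crest.Agent.R096.Init_543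
  Crest.Agent.R096.Vb_965 Crest.Agent.R096.Msh_715 Crest.Agent.R096.St_147
  Crest.Agent.R096.Seq_213 Crest.Agent.R096.Lm_117 Crest.Agent.R096.Gl_422
  Crest.Agent.R096.SkB_662 Crest.Agent.R096.Cpo_642
  Crest.Agent.R096.Ce_537 Crest.Agent.R096.Agl5_543
  Crest.Agent.R096.Cp_298 Crest.Agent.R096.Gm_298 Crest.Agent.R096.Ac_117
  Crest.Agent.R096.Sla_184 Crest.Agent.R096.Sla_184.Sla
  Crest.Agent.R096.Ess5_95 Crest.Agent.R096.Bgf_4 Crest.Agent.R096.Ebr1_95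
open Crest.Agent.R096.SkC1_961 (E3 Hom3 FoamD)
open Crest.Agent.R096.Mbf_337 (KJ sb)

variable {δ κ0 R c0 : ℝ} {La Om : Set E3} {ι : Type} {Φ : FoamD δ κ0 R c0 La}
  {T : Tiling Om ι} {f g : E3 → E3} {κ1 κ2 : ℝ} {X : Set Φ.F} {J0 J V : Φ.F → Set ι}
  {ct : Φ.F → ι} {A : Φ.F → E3 ≃ᵃ[ℝ] E3} {lam : Φ.F → ℝ} {z : Φ.F → E3} {θ : Φ.F → E3 → E3}
  {φ : Φ.F → E3 → ℝ} {κ : Type} {S : Sla T κ}

/-- a vertex of a tile outside the cores which meets `Z` -/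
def NearZ (S : Sla T κ) [Nonempty S.T3.Cell] (Z : Set E3) (v : QK (belK S.T3 S.KK)) : Prop :=
  dimK (belK S.T3 S.KK) (fun c => c.1.dim) v = 0 ∧ ∃ p, ∃ hp : ∀ c, ¬ P (T.H p) ⊆ S.K c,
    v ≤ tcK S.T3 S.KK (Sum.inl (S.ot p hp)) ∧ (P (T.H p) ∩ Z).Nonempty

/-- inside the barrier -/
def ZL (Φ : FoamD δ κ0 R c0 La) (T : Tiling Om ι) (f : E3 → E3) (c : Φ.F) (J : Set ι)
    (θ : E3 → E3) (G : E3 → ℝ) (b ω r r' : ℝ) : Set E3 :=
  Zo Φ Om f c (KJ T J) θ {q | q ∈ frontier c.1.set ∧ G q ≤ b}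
    {q | q ∈ frontier c.1.set ∧ G q ≤ b + ω} r r'

/-- outside the barrier -/
def ZH (Φ : FoamD δ κ0 R c0 La) (T : Tiling Om ι) (f : E3 → E3) (c : Φ.F) (J : Set ι)
    (θ : E3 → E3) (G : E3 → ℝ) (b ω r r' : ℝ) : Set E3 :=
  Zo Φ Om f c (KJ T J) θ {q | q ∈ frontier c.1.set ∧ b ≤ G q}
    {q | q ∈ frontier c.1.set ∧ b - ω ≤ G q} r r'

/-- the function of a barrier at the tiny core `c` -/
structure BZ (Φ : FoamD δ κ0 R c0 La) (T : Tiling Om ι) (f : E3 → E3) (J0 J V : Φ.F → Set ι)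
    (θ : Φ.F → E3 → E3) (c : Φ.F) (G : E3 → ℝ) (ρ1 ρ2 ρ3 ρ4 d lo' hi' ω : ℝ) : Prop where
  hr : Rm Φ T f c (J0 c) (J c) (V c) (θ c) ρ1 ρ2 ρ3 ρ4 d
  gm : GM Φ c G lo' hi'
  w0 : 0 ≤ ω
  osc : ∀ q, ∀ x ∈ P (T.H q), ρ1 ≤ ga Φ c (f x) → ga Φ c (f x) ≤ ρ4 → ∀ y ∈ P (T.H q),
    |G (Φ.Psi (f x)) - G (Φ.Psi (f y))| ≤ ω
  near : ∀ x ∈ frontier (KJ T (J c)), |G (θ c x) - G (Φ.Psi (f x))| ≤ ω

section bz

variable (hLa : IsOpen La) (H : Hm f g Om La)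
  (hC : Mbf_337.Cores Φ T f κ1 κ2 X J0 J V ct A lam z θ φ) {c : Φ.F} (hc : c ∉ X)
  {G : E3 → ℝ} {ρ1 ρ2 ρ3 ρ4 d lo' hi' ω : ℝ}
  (hZ : BZ Φ T f J0 J V θ c G ρ1 ρ2 ρ3 ρ4 d lo' hi' ω)
include hLa H hC hc hZ

theorem bz_ga : GA Φ c ρ4 := by
  have hr := hZ.hr
  exact Etg_163.ga_gau Φ hLa (hC.tiny c hc).pt
    (by linarith [hr.r1, hr.r12, hr.r23, hr.r34, hr.d0]) hr.r4 hr.ray

theorem bz_pol : ∃ p, Pol Φ c ρ4 p := by
  have hr := hZ.hr
  exact exists_pol hLa (hC.tiny c hc).pt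
    (by linarith [hr.r1, hr.r12, hr.r23, hr.r34, hr.d0]) hr.r4 hr.ray

theorem bz_cl : IsClosed (KJ T (J c)) := (Exa_560.coreH_tiny (hC.tiny c hc)).cpt.isClosed

/-- the low zone is compact and connected -/
theorem zl_cc {b : ℝ} (hb0 : lo' < b) (hb1 : b + ω < hi') {r r' : ℝ} (h0 : 0 < r) (h2 : r < ρ2)
    (hrr : r ≤ r') (h4 : r' ≤ ρ4) :
    IsCompact (ZL Φ T f c (J c) (θ c) G b ω r r') ∧
      IsPreconnected (ZL Φ T f c (J c) (θ c) G b ω r r') := by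
  obtain ⟨p, hP⟩ := bz_pol hLa H hC hc hZ
  have w0 := hZ.w0
  have hcpt : ∀ t, IsCompact {q | q ∈ frontier c.1.set ∧ G q ≤ t} := fun t => by
    have h1 : {q | q ∈ frontier c.1.set ∧ G q ≤ t} = frontier c.1.set ∩ G ⁻¹' Iic t := rfl
    rw [h1]
    exact hP.frc.of_isClosed_subset
      (hZ.gm.cont.preimage_isClosed_of_isClosed hP.frc.isClosed isClosed_Iic) inter_subset_left
  obtain ⟨q0, q1, q2⟩ := hZ.gm.low
  refine zo_cc hLa H (hC.tiny c hc) hZ.hr (bz_ga hLa H hC hc hZ) hP (fun q hq => hq.1)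
    (hcpt _) (hZ.gm.le_conn hP ⟨hb0, by linarith⟩) ⟨q0, q1, by linarith⟩ (fun q hq => hq.1)
    (hcpt _) (hZ.gm.le_conn hP ⟨by linarith, hb1⟩) ⟨q0, q1, by linarith⟩
    (fun x hx hxA => ⟨Exa_560.th_mem (hC.tiny c hc) hx, ?_⟩) h0 h2 hrr h4
  have h1 := abs_le.1 (hZ.near x hx)
  have h2 : G (Φ.Psi (f x)) ≤ b := hxA.2
  linarith [h1.2]

/-- the high zone is compact and connected -/
theorem zh_cc {b : ℝ} (hb0 : lo' < b - ω) (hb1 : b < hi') {r r' : ℝ} (h0 : 0 < r) (h2 : r < ρ2)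
    (hrr : r ≤ r') (h4 : r' ≤ ρ4) :
    IsCompact (ZH Φ T f c (J c) (θ c) G b ω r r') ∧
      IsPreconnected (ZH Φ T f c (J c) (θ c) G b ω r r') := by
  obtain ⟨p, hP⟩ := bz_pol hLa H hC hc hZ
  have w0 := hZ.w0
  have hcpt : ∀ t, IsCompact {q | q ∈ frontier c.1.set ∧ t ≤ G q} := fun t => by
    have h1 : {q | q ∈ frontier c.1.set ∧ t ≤ G q} = frontier c.1.set ∩ G ⁻¹' Ici t := rfl
    rw [h1]
    exact hP.frc.of_isClosed_subset
      (hZ.gm.cont.preimage_isClosed_of_isClosed hP.frc.isClosed isClosed_Ici) inter_subset_left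
  obtain ⟨q0, q1, q2⟩ := hZ.gm.high
  refine zo_cc hLa H (hC.tiny c hc) hZ.hr (bz_ga hLa H hC hc hZ) hP (fun q hq => hq.1)
    (hcpt _) (hZ.gm.ge_conn hP ⟨by linarith, hb1⟩) ⟨q0, q1, by linarith⟩ (fun q hq => hq.1)
    (hcpt _) (hZ.gm.ge_conn hP ⟨hb0, by linarith⟩) ⟨q0, q1, by linarith⟩
    (fun x hx hxA => ⟨Exa_560.th_mem (hC.tiny c hc) hx, ?_⟩) h0 h2 hrr h4
  have h1 := abs_le.1 (hZ.near x hx)
  have h2 : b ≤ G (Φ.Psi (f x)) := hxA.2
  linarith [h1.1]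

/-- the gauge on the zone -/
theorem zo_ga {A' B : Set E3} {r r' : ℝ} (h1 : ρ1 ≤ r) (h4 : r' ≤ ρ4) {x : E3}
    (hx : x ∈ Zo Φ Om f c (KJ T (J c)) (θ c) A' B r r') :
    x ∈ Om ∧ x ∉ interior (KJ T (J c)) ∧ ρ1 ≤ ga Φ c (f x) ∧ ga Φ c (f x) ≤ ρ4 := by
  have hr := hZ.hr
  have hcl := bz_cl hLa H hC hc hZ
  rcases hx with ⟨⟨h5, h6, h7⟩, h8⟩ | ⟨h5, h6⟩
  · exact ⟨h5, h8, h1.trans h6.1, h6.2.trans h4⟩
  · have h7 := hr.fr x h5
    refine ⟨(Exa_560.coreH_tiny (hC.tiny c hc)).sub (hcl.frontier_subset h5), fun h => ?_,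
      by linarith [hr.r12, hr.d0, h7.1], by linarith [hr.r34, hr.d0, h7.2]⟩
    rw [hcl.frontier_eq] at h5
    exact h5.2 h

/-- the zone is covered by tiles outside the cores -/
theorem zo_cov (hK : TinyK X J S) {A' B : Set E3} {r r' : ℝ} (h1 : ρ1 ≤ r) (h4 : r' ≤ ρ4)
    {x : E3} (hx : x ∈ Zo Φ Om f c (KJ T (J c)) (θ c) A' B r r') :
    ∃ p, (∀ c, ¬ P (T.H p) ⊆ S.K c) ∧ x ∈ P (T.H p) := by
  have hr := hZ.hr
  have hG := bz_ga hLa H hC hc hZ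
  obtain ⟨g1, g2, g3, g4⟩ := zo_ga hLa H hC hc hZ h1 h4 hx
  refine exists_out_S S g1 fun k hk => ?_
  obtain ⟨c', hc', e⟩ := hK k
  rw [e] at hk
  by_cases hcc : c' = c
  · subst hcc
    exact g2 hk
  · have hT' := hC.tiny c' hc'
    have h5 := hT'.inside x (by
      obtain ⟨i, hi, hxi⟩ := mem_iUnion₂.1 (interior_subset hk)
      exact mem_iUnion₂.2 ⟨i, hT'.sub hi, hxi⟩)
    exact hcc (Exa_560.only_brick hLa h5 (d := c)
      ((hG.one _).1 (by linarith [hr.r4]))).symm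

variable [Nonempty S.T3.Cell] {hH : ∀ c, CoreH S.T3 (S.KK c)} {hne : ∃ c, OutK S.T3 S.KK c}
  {Jn Cn : Type} {fam : Jn → Cn} {s₀ : GSt (mK fr3 hH dis_KK) fam}

/-- **PATH INSIDE THE BARRIER** -/
theorem low_path (hK : TinyK X J S)
    (Xc : Cplx Om (QK (belK S.T3 S.KK)) (dimK (belK S.T3 S.KK) fun c => c.1.dim)
      (setK S.T3 S.KK))
    (hon : ∀ w ∈ s₀.P, w ∈ (lmK fr3 hH dis_KK hne).W1) {i : Jn} {a0 a1 τ : ℝ}
    (hp : ∀ w ∈ s₀.P, s₀.lab w = i → ∀ p, (∀ c, ¬ P (T.H p) ⊆ S.K c) → w ∈ P (T.H p) →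
      f w ∈ SB1 Φ c G a0 a1 τ)
    {b : ℝ} (hb0 : lo' < b) (hb1 : b + ω < hi') (hbτ : b + 3 * ω < τ) {r r' : ℝ} (h1 : ρ1 ≤ r)
    (h2 : r < ρ2) (hrr : r ≤ r') (h4 : r' ≤ ρ4) (ha0 : a0 + d < r) (ha0' : a0 + d < ρ2)
    (ha1 : r' + d < a1) (ha1' : ρ3 + d < a1) {v v' : QK (belK S.T3 S.KK)}
    (hv : NearZ S (ZL Φ T f c (J c) (θ c) G b ω r r') v)
    (hv' : NearZ S (ZL Φ T f c (J c) (θ c) G b ω r r') v') :
    ReflTransGen (Ed (lmK fr3 hH dis_KK hne) (NoP (lmK fr3 hH dis_KK hne) s₀ i)) v v' := by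
  have hr := hZ.hr
  have w0 := hZ.w0
  obtain ⟨hv0, p, hpo, hvp, hpA⟩ := hv
  obtain ⟨hv0', p', hpo', hvp', hpA'⟩ := hv'
  obtain ⟨hc1, hc2⟩ := zl_cc hLa H hC hc hZ hb0 hb1 (by linarith [hr.r1]) h2 hrr h4
  refine rope_out Xc hon hc1 hc2 (fun x hx => zo_cov hLa H hC hc hZ hK h1 h4 hx) ?_ hpo hpA hvp hv0
    hpo' hpA' hvp' hv0'
  rintro q hq ⟨x, hxq, hx⟩ w hw hl hwq
  obtain ⟨g1, g2, g3, g4⟩ := zo_ga hLa H hC hc hZ h1 h4 hx
  obtain ⟨-, s1, s2, s3, s4⟩ := hp w hw hl q hq hwq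
  have o1 := abs_le.1 (hr.tile_osc hxq g3 g4 hwq).1
  have o2 := abs_le.1 (hZ.osc q x hxq g3 g4 w hwq)
  have hgx : a0 + d < ga Φ c (f x) ∧ ga Φ c (f x) + d < a1 ∧ G (Φ.Psi (f x)) ≤ b + 2 * ω := by
    rcases hx with ⟨⟨h5, h6, h7⟩, h8⟩ | ⟨h5, h6⟩
    · have h9 : G (Φ.Psi (f x)) ≤ b := h7.2
      exact ⟨by linarith [h6.1], by linarith [h6.2], by linarith⟩
    · have h7 := hr.fr x h5
      have h8 := abs_le.1 (hZ.near x h5)
      have h9 : G (θ c x) ≤ b + ω := h6.2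
      exact ⟨by linarith [h7.1], by linarith [h7.2], by linarith [h8.1]⟩
  rcases s4 with s4 | s4 | s4
  · linarith [o1.2]
  · linarith [o1.1]
  · linarith [o2.1]

/-- **PATH OUTSIDE THE BARRIER** -/
theorem high_path (hK : TinyK X J S)
    (Xc : Cplx Om (QK (belK S.T3 S.KK)) (dimK (belK S.T3 S.KK) fun c => c.1.dim)
      (setK S.T3 S.KK))
    (hon : ∀ w ∈ s₀.P, w ∈ (lmK fr3 hH dis_KK hne).W1) {i : Jn} {a0 a1 τ : ℝ}
    (hp : ∀ w ∈ s₀.P, s₀.lab w = i → ∀ p, (∀ c, ¬ P (T.H p) ⊆ S.K c) → w ∈ P (T.H p) →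
      f w ∈ SB1 Φ c G a0 a1 τ)
    {b : ℝ} (hb0 : lo' < b - ω) (hb1 : b < hi') (hbτ : τ < b - 3 * ω) {r r' : ℝ} (h1 : ρ1 ≤ r)
    (h2 : r < ρ2) (hrr : r ≤ r') (h4 : r' ≤ ρ4) {v v' : QK (belK S.T3 S.KK)}
    (hv : NearZ S (ZH Φ T f c (J c) (θ c) G b ω r r') v)
    (hv' : NearZ S (ZH Φ T f c (J c) (θ c) G b ω r r') v') :
    ReflTransGen (Ed (lmK fr3 hH dis_KK hne) (NoP (lmK fr3 hH dis_KK hne) s₀ i)) v v' := by
  have hr := hZ.hr
  have w0 := hZ.w0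
  obtain ⟨hv0, p, hpo, hvp, hpA⟩ := hv
  obtain ⟨hv0', p', hpo', hvp', hpA'⟩ := hv'
  obtain ⟨hc1, hc2⟩ := zh_cc hLa H hC hc hZ hb0 hb1 (by linarith [hr.r1]) h2 hrr h4
  refine rope_out Xc hon hc1 hc2 (fun x hx => zo_cov hLa H hC hc hZ hK h1 h4 hx) ?_ hpo hpA hvp hv0
    hpo' hpA' hvp' hv0'
  rintro q hq ⟨x, hxq, hx⟩ w hw hl hwq
  obtain ⟨g1, g2, g3, g4⟩ := zo_ga hLa H hC hc hZ h1 h4 hx
  obtain ⟨-, s1, s2, s3, s4⟩ := hp w hw hl q hq hwq
  have o2 := abs_le.1 (hZ.osc q x hxq g3 g4 w hwq)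
  have hgx : b - 2 * ω ≤ G (Φ.Psi (f x)) := by
    rcases hx with ⟨⟨h5, h6, h7⟩, h8⟩ | ⟨h5, h6⟩
    · have h9 : b ≤ G (Φ.Psi (f x)) := h7.2
      linarith
    · have h8 := abs_le.1 (hZ.near x h5)
      have h9 : b - ω ≤ G (θ c x) := h6.2
      linarith [h8.2]
  linarith [o2.2]

end bz

end Crest.Agent.R096.Rop_441
end

-- ▼ part R096/Rop16_441
section

/-!
# Row 96 (S0127), DOORS, G4 (R), part 3: VERTICES AND SIDES IN THE ZONES OF A BARRIER (helper441)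

`nearZ_of_pt`, `nearZ_vx`, `low_out`, `low_fr`, `high_out`, `high_fr` : vertices near the zones;
`exists_farZ` : a vertex of the high zone outside the body `{ga ≤ r}`;
`side_low`, `side_high` : the side of a point of a 1-cell of a tile which meets the zone.
-/

set_option autoImplicit false
set_option linter.unusedSectionVars false
set_option linter.unusedVariables false

open Set Relation Module

namespace Crest.Agent.R096.Rop_441

open Crest.Agent.R096.Brk1_582 Crest.Agent.R096.Brk2_582 Crest.Agent.R096.Brk3_582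
  Crest.Agent.R096.Brk5_582 Crest.Agent.R096.Bsp_628 Crest.Agent.R096.Init_543
  Crest.Agent.R096.Vb_965 Crest.Agent.R096.Msh_715 Crest.Agent.R096.St_147
  Crest.Agent.R096.Seq_213 Crest.Agent.R096.Lm_117 Crest.Agent.R096.Gl_422
  Crest.Agent.R096.SkB_662 Crest.Agent.R096.Cpo_642
  Crest.Agent.R096.Ce_537 Crest.Agent.R096.Agl5_543
  Crest.Agent.R096.Cp_298 Crest.Agent.R096.Gm_298 Crest.Agent.R096.Ac_117
  Crest.Agent.R096.Sla_184 Crest.Agent.R096.Sla_184.Sla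
  Crest.Agent.R096.Ess5_95 Crest.Agent.R096.Bgf_4 Crest.Agent.R096.Ebr1_95
open Crest.Agent.R096.SkC1_961 (E3 Hom3 FoamD)
open Crest.Agent.R096.Mbf_337 (KJ sb)

section vx

variable {Om : Set E3} {ι : Type} {T : Tiling Om ι} {κ : Type} {S : Sla T κ}
  [Nonempty S.T3.Cell] {Z : Set E3}

/-- a vertex of the mesh with layers at a point of the zone -/
theorem nearZ_vx (hcov : ∀ x ∈ Z, ∃ p, (∀ c, ¬ P (T.H p) ⊆ S.K c) ∧ x ∈ P (T.H p)) {x : E3}
    (hx : x ∈ Z) (hxO : x ∈ Om) (hx0 : S.T3.dim x = 0)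
    (h : OutK S.T3 S.KK (edC S.T3 x)) : NearZ S Z (oc (edC S.T3 x) h) := by
  obtain ⟨p, hp, hxp⟩ := hcov x hx
  have hx3 : x ∈ P (S.T3.H (S.ot p hp)) := by rw [ot_P hp]; exact hxp
  refine ⟨?_, p, hp, (le_tcK (not_KK_ot hp)).2 ⟨_, h, rfl, ?_⟩, x, hxp, hx⟩
  · show (edC S.T3 x).dim = 0
    unfold edC
    rw [dif_pos hxO]
    exact (S.T3.dim_cl hxO).trans hx0
  · rw [edC_set hxO]
    exact S.T3.cc_sub_tile hx3


/-- a tile outside the cores which is not inside `D` has a vertex in `ZK` -/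
theorem exists_ZK {p : ι} (hp : ∀ c, ¬ P (T.H p) ⊆ S.K c) {x : E3} (hxp : x ∈ P (T.H p))
    (hx : x ∈ Z) {D : Set E3} (hD : ¬ P (T.H p) ⊆ interior D) :
    ∃ q ∈ ZK S.T3 S.KK D, NearZ S Z q := by
  have hx3 : x ∈ P (S.T3.H (S.ot p hp)) := by rw [ot_P hp]; exact hxp
  obtain ⟨v, hv, hv0⟩ := Main_4.exists_vertex_tile hx3
  have hvO : v ∈ Om := S.T3.sub _ hv
  have hout : OutK S.T3 S.KK (S.T3.cl hvO) := by
    have h1 := out_tile (T := S.T3) (Kg := S.KK) (not_KK_ot hp)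
    have h2 : S.T3.cl hvO ≤ tcell S.T3 (S.ot p hp) := by
      show (S.T3.cl hvO).set ⊆ (tcell S.T3 (S.ot p hp)).set
      rw [S.T3.cl_set, tcell_set]
      exact S.T3.cc_sub_tile hv
    exact outK_down _ _ h2 h1
  have hset : (S.T3.cl hvO).set = {v} := by
    rw [S.T3.cl_set]; exact S.T3.cc_eq_singleton (S.T3.dim_eq_zero_iff.1 hv0)
  have hpt : (S.T3.cl hvO).pt = v := by
    have h1 : (S.T3.cl hvO).pt ∈ (S.T3.cl hvO).set :=
      (S.T3.cl hvO).opn_sub (S.T3.self_mem_oc _)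
    rw [hset] at h1
    exact h1
  refine ⟨oc (S.T3.cl hvO) hout, ⟨⟨_, hout⟩, Or.inr ⟨S.ot p hp, ?_, ?_⟩, rfl⟩, ?_, p, hp,
    (le_tcK (not_KK_ot hp)).2 ⟨_, hout, rfl, ?_⟩, x, hxp, hx⟩
  · show (S.T3.cl hvO).pt ∈ _
    rw [hpt]; exact hv
  · rw [ot_P hp]; exact hD
  · exact (S.T3.dim_cl hvO).trans hv0
  · rw [S.T3.cl_set]; exact S.T3.cc_sub_tile hv

end vx

section side

variable {Om : Set E3} {ι : Type} {T : Tiling Om ι} {κ : Type} {S : Sla T κ}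
  [Nonempty S.T3.Cell] {hH : ∀ c, CoreH S.T3 (S.KK c)} {hne : ∃ c, OutK S.T3 S.KK c}
  {Jn Cn : Type} {fam : Jn → Cn} {s₀ : GSt (mK fr3 hH dis_KK) fam} {Z : Set E3}

/-- **the side of a point on an outer tile without points of the name `i`** is the label of the
vertices of the tile -/
theorem side_tile (hon : ∀ w ∈ s₀.P, w ∈ (lmK fr3 hH dis_KK hne).W1) {i : Jn} {p : ι}
    (hp : ∀ c, ¬ P (T.H p) ⊆ S.K c) (hno : ∀ w ∈ s₀.P, s₀.lab w = i → w ∉ P (T.H p)) {w : E3}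
    (hw : w ∈ (lmK fr3 hH dis_KK hne).W1) (hwp : w ∈ P (T.H p))
    {lam : QK (belK S.T3 S.KK) → ZMod 2} {t : ZMod 2}
    (hlam : ∀ v, dimK (belK S.T3 S.KK) (fun c => c.1.dim) v = 0 →
      v ≤ tcK S.T3 S.KK (Sum.inl (S.ot p hp)) → lam v = t) :
    (lmK fr3 hH dis_KK hne).ext (gp s₀ i) lam w = t := by
  have hw3 : w ∈ P (S.T3.H (S.ot p hp)) := by rw [ot_P hp]; exact hwp
  have hle := (ed_le_K hw (not_KK_ot hp)).2 hw3
  have hd : dimK (belK S.T3 S.KK) (fun c => c.1.dim) ((lmK fr3 hH dis_KK hne).ed w) = 1 :=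
    (lmK fr3 hH dis_KK hne).ed_dim w hw
  rw [Sdf_246.ext_of_free]
  · exact hlam _ ((lmK fr3 hH dis_KK hne).en_dim _ hd false)
      (((lmK fr3 hH dis_KK hne).en_lt _ hd false).le.trans hle)
  · intro y hy hye
    obtain ⟨h1, h2⟩ := mem_gp.1 hy
    refine hno y h1 h2 ?_
    have h3 := (ed_le_K (hon y h1) (not_KK_ot hp)).1 (hye.2.trans_le hle)
    rw [ot_P hp] at h3
    exact h3

end side

section bz

variable {δ κ0 R c0 : ℝ} {La Om : Set E3} {ι : Type} {Φ : FoamD δ κ0 R c0 La}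
  {T : Tiling Om ι} {f g : E3 → E3} {κ1 κ2 : ℝ} {X : Set Φ.F} {J0 J V : Φ.F → Set ι}
  {ct : Φ.F → ι} {A : Φ.F → E3 ≃ᵃ[ℝ] E3} {lam : Φ.F → ℝ} {z : Φ.F → E3} {θ : Φ.F → E3 → E3}
  {φ : Φ.F → E3 → ℝ} {κ : Type} {S : Sla T κ}

variable (hLa : IsOpen La) (H : Hm f g Om La)
  (hC : Mbf_337.Cores Φ T f κ1 κ2 X J0 J V ct A lam z θ φ) {c : Φ.F} (hc : c ∉ X)
  {G : E3 → ℝ} {ρ1 ρ2 ρ3 ρ4 d lo' hi' ω : ℝ}
  (hZ : BZ Φ T f J0 J V θ c G ρ1 ρ2 ρ3 ρ4 d lo' hi' ω)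
include hLa H hC hc hZ

/-- a point of a tile outside the cores is not in the interior of the core -/
theorem notInt_tile (hck : ∃ k, S.K k = KJ T (J c)) {p : ι} (hp : ∀ c, ¬ P (T.H p) ⊆ S.K c)
    {x : E3} (hx : x ∈ P (T.H p)) : x ∉ interior (KJ T (J c)) := by
  obtain ⟨k, hk⟩ := hck
  refine notMem_int T (Kc := fun _ : Unit => KJ T (J c)) (Jc := fun _ => J c)
    (fun _ => Subset.rfl) (fun _ h => hp k ?_) hx ()
  rw [hk]
  exact subset_biUnion_of_mem (u := fun i => P (T.H i)) h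

theorem low_out (hck : ∃ k, S.K k = KJ T (J c)) {b r r' : ℝ} {p : ι}
    (hp : ∀ c, ¬ P (T.H p) ⊆ S.K c) {x : E3} (hx : x ∈ P (T.H p)) (h1 : r ≤ ga Φ c (f x))
    (h2 : ga Φ c (f x) ≤ r') (h3 : Φ.Psi (f x) ∈ frontier c.1.set) (h4 : G (Φ.Psi (f x)) ≤ b) :
    x ∈ ZL Φ T f c (J c) (θ c) G b ω r r' :=
  Or.inl ⟨⟨T.sub p hx, ⟨h1, h2⟩, h3, h4⟩, notInt_tile hLa H hC hc hZ hck hp hx⟩


theorem low_fr {b r r' : ℝ} {x : E3} (hx : x ∈ frontier (KJ T (J c))) (h : G (θ c x) ≤ b + ω) :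
    x ∈ ZL Φ T f c (J c) (θ c) G b ω r r' :=
  Or.inr ⟨hx, Exa_560.th_mem (hC.tiny c hc) hx, h⟩

theorem high_fr {b r r' : ℝ} {x : E3} (hx : x ∈ frontier (KJ T (J c)))
    (h : b - ω ≤ G (θ c x)) : x ∈ ZH Φ T f c (J c) (θ c) G b ω r r' :=
  Or.inr ⟨hx, Exa_560.th_mem (hC.tiny c hc) hx, h⟩

/-- **a vertex of the high zone outside a body inside `{ga < ρ4}`** -/
theorem exists_farZ [Nonempty S.T3.Cell] (hK : TinyK X J S) {b r : ℝ} (hb : b ≤ hi')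
    (h1 : ρ1 ≤ r) (hrr : r ≤ ρ4) {D : Set E3}
    (hD : ∀ x ∈ interior D, ga Φ c (f x) < ρ4) :
    ∃ q ∈ ZK S.T3 S.KK D, NearZ S (ZH Φ T f c (J c) (θ c) G b ω r ρ4) q := by
  have hr := hZ.hr
  have hG := bz_ga hLa H hC hc hZ
  obtain ⟨q, hq, hqb⟩ := hZ.gm.high
  have h40 : 0 < ρ4 := by linarith [hr.r1]
  obtain ⟨y, hy, hy1, hy2⟩ := hG.ex q hq ρ4 h40 le_rfl
  have hyL : y ∈ La := (foam4 Φ hLa).sub c hy
  have hxO : g y ∈ Om := H.gm hyL
  have hTc := hC.tiny c hc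
  have hxZ : g y ∈ ZH Φ T f c (J c) (θ c) G b ω r ρ4 := by
    refine Or.inl ⟨⟨hxO, ?_⟩, fun hi => ?_⟩
    · show (r ≤ ga Φ c (f (g y)) ∧ ga Φ c (f (g y)) ≤ ρ4) ∧ Φ.Psi (f (g y)) ∈ _
      rw [H.fg y hyL, hy1, hy2]
      exact ⟨⟨hrr, le_rfl⟩, hq, hb.trans hqb⟩
    · have h5 := K_loc H ((foam4 Φ hLa).sub c) hG hr hTc.sub (bz_cl hLa H hC hc hZ) hTc.inside
        (interior_subset hi)
      rw [H.fg y hyL, hy1] at h5
      linarith [hr.r34, hr.d0]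
  obtain ⟨p, hp, hxp⟩ := zo_cov hLa H hC hc hZ hK h1 le_rfl hxZ
  refine exists_ZK hp hxp hxZ fun hsub => ?_
  have h6 := hD _ (hsub hxp)
  rw [H.fg y hyL, hy1] at h6
  exact lt_irrefl _ h6

end bz

end Crest.Agent.R096.Rop_441
end

-- ▼ part R096/Sdf2_246
section

/-!
# R096 (row 96), DOORS, G4 (helper246), part 2: **columns and faces**

`hlam3`, `hsd3` : the side function of a barrier of `s` along the chords of another state `s₃` on the
same mesh (hypotheses `hlam`, `hsd` of 527's `v_in_cut`);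
`side_end`      : the side of a point of a 1-cell without barrier points = the label of its end;
`side_vert`, `side_hor` : the side over a vertex / over an edge of the frontier of a core = the label
of the vertex of the frontier;
`noCol_s2`, `noHor_s2`  : no points of `i` in the column over a vertex which is not in the regions /
over an edge without trace points and exact points.
-/

set_option autoImplicit false
set_option linter.unusedSectionVars false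
set_option linter.unusedVariables false

open Set Module Relation
open scoped Classical

namespace Crest.Agent.R096.Sdf_246

open Crest.Agent.R096.Msh_715 Crest.Agent.R096.Sla_184 Crest.Agent.R096.Slp_316
  Crest.Agent.R096.Ce_537 Crest.Agent.R096.Exa_560 Crest.Agent.R096.Agl5_543
  Crest.Agent.R096.Seq_213 Crest.Agent.R096.St_147 Crest.Agent.R096.Door_501
  Crest.Agent.R096.Gl_422 Crest.Agent.R096.Vrt_422 Crest.Agent.R096.Lmx_662
  Crest.Agent.R096.Lm_117 Crest.Agent.R096.Ac_117 Crest.Agent.R096.Cp_298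
  Crest.Agent.R096.Ori_543 Crest.Agent.R096.Coh_184 Crest.Agent.R096.Gm_298
  Crest.Agent.R096.Flb_422 Crest.Agent.R096.Sid_422 Crest.Agent.R096.Sde_422
  Crest.Agent.R096.Twr_438 Crest.Agent.R096.Dfi_539 Crest.Agent.R096.Dfi_471
  Crest.Agent.R096.Ess3_95
open Crest.Agent.R096.Sla_184.Sla (hf vf old tg F0 Fn Out OnS InL In)

/-! ### chords of another state -/

section gen

variable {ι Φ W Q : Type} [PartialOrder Q] {dim : Q → ℕ} {M : MeshC ι Φ W}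
variable {J C J3 C3 : Type} {fam : J → C} {fam3 : J3 → C3} {L : LM M Q dim} {s : GSt M fam}
  {s3 : GSt M fam3} {i : J} {lam : Q → ZMod 2} {F : Φ} {w w' : W}





end gen

/-! ### the side of a point of a 1-cell without points of `i` -/

section ends

variable {E : Type} [NormedAddCommGroup E] [NormedSpace ℝ E] [FiniteDimensional ℝ E]
variable {Om : Set E} {ι : Type} {T : Tiling Om ι} {κ : Type} {Kc : κ → Set E} [Nonempty T.Cell]
variable {h3 : finrank ℝ E = 3} {hH : ∀ c, CoreH T (Kc c)}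
  {hdis : ∀ c c', c ≠ c' → Disjoint (Kc c) (Kc c')} {hne : ∃ c, OutK T Kc c}
  {J C : Type} {fam : J → C} {s : GSt (mK h3 hH hdis) fam} {i : J}
  {lam : QK (belK T Kc) → ZMod 2}



end ends

/-! ### the columns of the sliced mesh -/

section sla

variable {E : Type} [NormedAddCommGroup E] [NormedSpace ℝ E] [FiniteDimensional ℝ E]
variable {Om : Set E} {ι : Type} {T : Tiling Om ι} {κ : Type} {S : Sla T κ} {c : κ}
variable {w x y v q : E} [Nonempty S.T3.Cell]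
variable {h3 : finrank ℝ E = 3} {hH : ∀ c, CoreH S.T3 (S.KK c)} {hne : ∃ c, OutK S.T3 S.KK c}
  {C J : Type} {fam : J → C} {s : GSt (mK h3 hH Sla.dis_KK) fam} {i : J}
  {lam : QK (belK S.T3 S.KK) → ZMod 2} {j : ℕ}







end sla

/-! ### the state with layers -/

section s2

variable {E : Type} [NormedAddCommGroup E] [NormedSpace ℝ E] [FiniteDimensional ℝ E]
variable {Om : Set E} {ι : Type} {T : Tiling Om ι} {κ : Type} {S : Sla T κ}
  {h3 : finrank ℝ E = 3} {J C : Type} {fam : J → C} [Nonempty J]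
  {s : GSt (meshC T h3) fam} {r : J → E} {Sf : J → Set E} {nb : κ → C → Prop}
  {v0 v1 : ∀ c, C → VxK T S.K c} {u : κ → C → E → ℝ} {A B : κ → C → ℝ}
  {L : ∀ c, C → Lev T (frontier (S.K c)) J}
  {Tw : Twrs (S.sh h3) S.n (outK S.hH S.dis s r)} {l0 : E → J}
  {hH : ∀ c, CoreH S.T3 (S.KK c)} {c : κ} {i : J} {j : ℕ} {w x y : E}

/-- **(b)**: no point of `i` in the column over a vertex outside the regions -/
theorem noCol_s2 (D : DIn S.hH s r Sf nb v0 v1 u A B) (lo : LevOut s nb u A B L)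
    (tt : TwOut S h3 s r v0 v1 L Tw) {v : S.Vx c}
    (hR : ¬ Rgn (S.sh h3 c) (v0 c (fam i)) (v1 c (fam i)) (trc S.hH S.dis s r c (fam i))
      (exa h3 S.hH S.dis (L c (fam i))) i v) :
    NoCol (hH := hH) S (s2 S h3 Tw l0) i c v.1 := by
  intro l hl w hw hwi hO hL
  rcases (in2 D lo tt hw hL.bo.1).2 with ⟨j, q, h1, h2, h4, h5, -⟩ | ⟨j, v', h1, -, h4, h5⟩
  · obtain ⟨e, he⟩ := pat_onE h4
    exact hL.not_onS (h5 ▸ Sla.hp_onS e he h2)
  · have h6 : S.vc c v'.1 j ∈ S.O c v'.1 := Sla.vc_O (Sla.vx_bd v') j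
    have h7 : v' = v := by
      refine Sla.vx_eq (S := S) (c := c) (v := v') (v' := v) ?_
      exact Sla.O_trans (Sla.vx_bd v') h6 (Sla.O_symm (Sla.vx_bd v) (h4 ▸ hO))
    rw [hwi, h7] at h5
    exact hR h5


variable [Nonempty S.T3.Cell] {hne : ∃ c, OutK S.T3 S.KK c} {lam : QK (belK S.T3 S.KK) → ZMod 2}


end s2

end Crest.Agent.R096.Sdf_246
end

-- ▼ part R096/Sde3_422
section

/-!
# R096 (row 96), DOORS, G4 (helper422), part 3: **the side function of a barrier at a tiny core**.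

`loc3`       : location of the points of one name of `s2`, feet outside the open cores;
`body_facts` : the body `Om ∩ f⁻¹ {ga ≤ ρ}`;
`exists_lamM`: label, `0` on `ZK` of the body, side `1` over the low zone (outer tiles and layers).
-/

set_option autoImplicit false
set_option linter.unusedSectionVars false
set_option linter.unusedVariables false
set_option linter.style.longLine false

open Set Filter Topology Metric Module Relation
open scoped Classical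

namespace Crest.Agent.R096.Sde_422

open Crest.Agent.R096.Msh_715 Crest.Agent.R096.Sla_184 Crest.Agent.R096.Slp_316
  Crest.Agent.R096.Ce_537 Crest.Agent.R096.Exa_560 Crest.Agent.R096.Agl5_543
  Crest.Agent.R096.Seq_213 Crest.Agent.R096.St_147 Crest.Agent.R096.Door_501
  Crest.Agent.R096.Gl_422 Crest.Agent.R096.Vrt_422 Crest.Agent.R096.Lmx_662
  Crest.Agent.R096.Lm_117 Crest.Agent.R096.Ac_117 Crest.Agent.R096.Cp_298
  Crest.Agent.R096.Ori_543 Crest.Agent.R096.Coh_184 Crest.Agent.R096.Gm_298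
  Crest.Agent.R096.Flb_422 Crest.Agent.R096.Sid_422 Crest.Agent.R096.Cpo_642
  Crest.Agent.R096.Init_543 Crest.Agent.R096.Dfi_539 Crest.Agent.R096.Dfi_471
  Crest.Agent.R096.Twr_438 Crest.Agent.R096.Ess3_95 Crest.Agent.R096.Ess4_95

open Crest.Agent.R096.Brk1_582 Crest.Agent.R096.Brk2_582 Crest.Agent.R096.Brk3_582
  Crest.Agent.R096.Brk5_582 Crest.Agent.R096.Bsp_628
open Crest.Agent.R096.Ess5_95 Crest.Agent.R096.Bgf_4 Crest.Agent.R096.Ebr1_95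
  Crest.Agent.R096.Rop_441 Crest.Agent.R096.Sphg_316
open Crest.Agent.R096.Sla_184.Sla (hf vf old tg F0 Fn Out OnS InL In)
open Crest.Agent.R096.SkC1_961 (E3 Hom3 FoamD)
open Crest.Agent.R096.Mbf_337 (KJ sb Tiny)
open Crest.Agent.R096.Frn_337 (Ti)

section loc

variable {E : Type} [NormedAddCommGroup E] [NormedSpace ℝ E] [FiniteDimensional ℝ E]
variable {Om : Set E} {ι : Type} {T : Tiling Om ι} {κ : Type} {S : Sla T κ}
  {h3 : finrank ℝ E = 3}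
variable {J C : Type} {fam : J → C} [Nonempty J]
  {s : GSt (meshC T h3) fam} {r : J → E} {Sf : J → Set E} {nb : κ → C → Prop}
  {v0 v1 : ∀ c, C → VxK T S.K c} {u : κ → C → E → ℝ} {A B : κ → C → ℝ}
  {L : ∀ c, C → Lev T (frontier (S.K c)) J}
  {Tw : Twrs (S.sh h3) S.n (outK S.hH S.dis s r)} {l0 : E → J} {w : E}

/-- **location of the points of the name `n` of `s2`** -/
theorem loc3 (D : DIn S.hH s r Sf nb v0 v1 u A B) (lo : LevOut s nb u A B L)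
    (tt : TwOut S h3 s r v0 v1 L Tw) {n : J} (Bx : E → Prop)
    (htr : ∀ w ∈ s.P, s.lab w = n → S.Out w → Bx w)
    (hex : ∀ c, nb c (fam n) → ∀ x ∈ frontier (S.K c), A c (fam n) < u c (fam n) x →
      u c (fam n) x < B c (fam n) → Bx x)
    (hR : ∀ c, nb c (fam n) → ∀ v : S.Vx c,
      Rgn (S.sh h3 c) (v0 c (fam n)) (v1 c (fam n)) (trc S.hH S.dis s r c (fam n))
        (exa h3 S.hH S.dis (L c (fam n))) n v → Bx v.1)
    (hw : w ∈ (s2 S h3 Tw l0).P) (hl : (s2 S h3 Tw l0).lab w = n)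
    {p : T.RIdx S.HH} (hp : w ∈ P (S.T3.H p)) : ∃ x ∈ P (T.H p.tile), Bx x := by
  have hpw : w ∈ P (T.H p.tile) := Sla.P3_sub p hp
  have hO : w ∈ Om := (s2_dim hw).1
  rcases Sla.out_or (S := S) hO with ho | ⟨c, hc⟩
  · obtain ⟨h1, h2, -⟩ := out2 hw ho
    exact ⟨w, hpw, htr w h1 (h2.symm.trans hl) ho⟩
  · have hn := (in2 D lo tt hw hc).1
    obtain ⟨q, h1, -, h2, h4⟩ := base2 D lo tt hw hc
    have hq : q ∈ P (T.H p.tile) := by
      have h5 : p.tile ∈ T.at_ w := hpw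
      rw [h2] at h5
      exact h5.1
    refine ⟨q, hq, ?_⟩
    rw [hl] at hn
    rcases h4 with ⟨h5, h6⟩ | ⟨i, h5, -, h7⟩ | ⟨v, h5, h6⟩
    · refine htr q h5 (h6.trans hl) ⟨T.sub _ hq, fun c' hc' => ?_⟩
      by_cases hcc : c' = c
      · subst hcc; exact hc'.2 h1
      · exact disjoint_left.1 (S.dis c' c hcc) hc'.1 (S.fr_sub c h1)
    · have h8 := lo.win c _ i h5
      rw [hl] at h7 h8
      exact hex c hn q h1 (by rw [h7]; exact h8.1) (by rw [h7]; exact h8.2)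
    · rw [hl] at h6
      rw [← h5]
      exact hR c hn v h6

end loc

section body

variable {δ κ0 R c0 : ℝ} {La Om : Set E3} {ι : Type} {Φ : FoamD δ κ0 R c0 La}
  {T : Tiling Om ι} {f g : E3 → E3} {c : Φ.F} {ρ : ℝ}


end body

section low

variable {δ κ0 R c0 : ℝ} {La Om : Set E3} {ι : Type} {Φ : FoamD δ κ0 R c0 La}
  {T : Tiling Om ι} {f g : E3 → E3} {κ1 κ2 : ℝ} {X : Set Φ.F} {J0 J V : Φ.F → Set ι}
  {ct : Φ.F → ι} {A' : Φ.F → E3 ≃ᵃ[ℝ] E3} {lam : Φ.F → ℝ} {z : Φ.F → E3} {θ : Φ.F → E3 → E3}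
  {φ : Φ.F → E3 → ℝ} {κ : Type} {S : Sla T κ}
  {c : Φ.F} {G : E3 → ℝ} {ρ1 ρ2 ρ3 ρ4 d lo' hi' ω : ℝ}
  {Jn Cn : Type} {fam : Jn → Cn} [Nonempty Jn]
  {s : GSt (meshC T fr3) fam} {rt : Jn → E3} {Sf : Jn → Set E3} {nb : κ → Cn → Prop}
  {v0 v1 : ∀ c, Cn → VxK T S.K c} {u : κ → Cn → E3 → ℝ} {A B : κ → Cn → ℝ}
  {L : ∀ c, Cn → Lev T (frontier (S.K c)) Jn}
  {Tw : Twrs (S.sh fr3) S.n (outK S.hH S.dis s rt)} {l0 : E3 → Jn}
  [Nonempty S.T3.Cell] {hH : ∀ c, CoreH S.T3 (S.KK c)} {hne : ∃ c, OutK S.T3 S.KK c}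

/-- points outside the open core have gauge `≥ ρ2` -/
theorem ga_ge (hLa : IsOpen La) (H : Hm f g Om La)
    (hC : Mbf_337.Cores Φ T f κ1 κ2 X J0 J V ct A' lam z θ φ) (hc : c ∉ X)
    (hZ : BZ Φ T f J0 J V θ c G ρ1 ρ2 ρ3 ρ4 d lo' hi' ω) {x : E3} (hx : x ∈ Om)
    (h : x ∉ interior (KJ T (J c))) : ρ2 ≤ ga Φ c (f x) := by
  have hT := hC.tiny c hc
  by_contra hcon
  exact h (K_int H ((foam4 Φ hLa).sub c) (bz_ga hLa H hC hc hZ) hZ.hr hT.sub0
    (bz_cl hLa H hC hc hZ) hT.mem hx (not_le.1 hcon))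

/-- **the position of the points of the barrier in `s2`** -/
theorem pos_bar (hLa : IsOpen La) (H : Hm f g Om La)
    (hC : Mbf_337.Cores Φ T f κ1 κ2 X J0 J V ct A' lam z θ φ) (hc : c ∉ X)
    (hZ : BZ Φ T f J0 J V θ c G ρ1 ρ2 ρ3 ρ4 d lo' hi' ω)
    (D : DIn S.hH s rt Sf nb v0 v1 u A B) (lo : LevOut s nb u A B L)
    (tt : TwOut S fr3 s rt v0 v1 L Tw) {i : Jn} {k : κ} (hk : S.K k = KJ T (J c))
    (hnb' : ∀ k', nb k' (fam i) → k' = k) {a0 a1 τ : ℝ}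
    (hp : ∀ w ∈ s.P, s.lab w = i → f w ∈ SB1 Φ c G a0 a1 τ) (ha0 : a0 < ρ2) (ha4 : a1 ≤ ρ4)
    {z1 : ℝ} (hz1 : z1 - ω ≤ τ)
    (hex : ∀ x ∈ frontier (KJ T (J c)), A k (fam i) < u k (fam i) x →
      u k (fam i) x < B k (fam i) → z1 ≤ G (θ c x))
    (hRg : ∀ v : S.Vx k, Rgn (S.sh fr3 k) (v0 k (fam i)) (v1 k (fam i))
      (trc S.hH S.dis s rt k (fam i)) (exa fr3 S.hH S.dis (L k (fam i))) i v → z1 ≤ G (θ c v.1))
    {w : E3} (hw : w ∈ (s2 S fr3 Tw l0).P) (hl : (s2 S fr3 Tw l0).lab w = i)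
    {p : T.RIdx S.HH} (hwp : w ∈ P (S.T3.H p)) :
    ∃ x ∈ P (T.H p.tile), ρ2 ≤ ga Φ c (f x) ∧ ga Φ c (f x) ≤ ρ4 ∧
      (a1 ≤ ga Φ c (f x) ∨ z1 - ω ≤ G (Φ.Psi (f x))) := by
  have hr := hZ.hr
  have key : ∀ x ∈ frontier (KJ T (J c)), z1 ≤ G (θ c x) → ρ2 ≤ ga Φ c (f x) ∧
      ga Φ c (f x) ≤ ρ4 ∧ (a1 ≤ ga Φ c (f x) ∨ z1 - ω ≤ G (Φ.Psi (f x))) := by
    intro x hx h
    have h1 := hr.fr x hx
    have h2 := abs_le.1 (hZ.near x hx)
    exact ⟨h1.1, by linarith [hr.r34, hr.d0], Or.inr (by linarith [h2.2])⟩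
  refine loc3 D lo tt (n := i) (fun x => ρ2 ≤ ga Φ c (f x) ∧ ga Φ c (f x) ≤ ρ4 ∧
      (a1 ≤ ga Φ c (f x) ∨ z1 - ω ≤ G (Φ.Psi (f x)))) ?_ ?_ ?_ hw hl hwp
  · intro w hw hl ho
    obtain ⟨-, e1, e2, e3, e4⟩ := hp w hw hl
    have h1 : ρ2 ≤ ga Φ c (f w) := by
      refine ga_ge hLa H hC hc hZ ho.1 fun h => ?_
      rw [← hk] at h
      exact ho.2 k (Sla.in_iff.2 h)
    refine ⟨h1, e2.trans ha4, ?_⟩
    rcases e4 with e4 | e4 | e4
    · linarith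
    · exact Or.inl e4.ge
    · exact Or.inr (by linarith)
  · intro k' hn x hx h1 h2
    obtain rfl := hnb' k' hn
    rw [hk] at hx
    exact key x hx (hex x hx h1 h2)
  · intro k' hn v hv
    obtain rfl := hnb' k' hn
    have hx := v.2.2
    have hx' : v.1 ∈ frontier (KJ T (J c)) := by rw [← hk]; exact hx
    exact key v.1 hx' (hRg v hv)

/-- **THE SIDE OVER THE LOW ZONE** -/
theorem side_low (hLa : IsOpen La) (H : Hm f g Om La)
    (hC : Mbf_337.Cores Φ T f κ1 κ2 X J0 J V ct A' lam z θ φ) (hc : c ∉ X)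
    (hZ : BZ Φ T f J0 J V θ c G ρ1 ρ2 ρ3 ρ4 d lo' hi' ω) (hK : TinyK X J S)
    (D : DIn S.hH s rt Sf nb v0 v1 u A B) (lo : LevOut s nb u A B L)
    (tt : TwOut S fr3 s rt v0 v1 L Tw) {i : Jn} {k : κ} (hk : S.K k = KJ T (J c))
    (hnb' : ∀ k', nb k' (fam i) → k' = k) {a0 a1 τ : ℝ}
    (hp : ∀ w ∈ s.P, s.lab w = i → f w ∈ SB1 Φ c G a0 a1 τ) (ha0 : a0 < ρ2) (ha4 : a1 ≤ ρ4)
    {z1 : ℝ} (hz1 : z1 - ω ≤ τ)
    (hex : ∀ x ∈ frontier (KJ T (J c)), A k (fam i) < u k (fam i) x →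
      u k (fam i) x < B k (fam i) → z1 ≤ G (θ c x))
    (hRg : ∀ v : S.Vx k, Rgn (S.sh fr3 k) (v0 k (fam i)) (v1 k (fam i))
      (trc S.hH S.dis s rt k (fam i)) (exa fr3 S.hH S.dis (L k (fam i))) i v → z1 ≤ G (θ c v.1))
    {b r r' : ℝ} (h1 : ρ1 ≤ r) (h2 : r < ρ2) (h4 : r' ≤ ρ4)
    {lm : QK (belK S.T3 S.KK) → ZMod 2}
    (hlm : GLab (lmK fr3 hH Sla.dis_KK hne) (gp (s2 S fr3 Tw l0) i) lm)
    (hone : ∀ v, NearZ S (ZL Φ T f c (J c) (θ c) G b ω r r') v → lm v = 1)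
    {g0 zz : ℝ} (hg0 : g0 + 2 * d < a1) (hg1 : g0 + d ≤ r') (hz : zz + 3 * ω < z1)
    (hzb : zz + ω ≤ b) {w : E3} (hw : w ∈ (lmK fr3 hH Sla.dis_KK hne).W1)
    {p : T.RIdx S.HH} (hout : ∀ c, ¬ P (S.T3.H p) ⊆ S.KK c) (hwp : w ∈ P (S.T3.H p))
    (hy : ∃ y ∈ P (T.H p.tile), ρ1 ≤ ga Φ c (f y) ∧ ga Φ c (f y) ≤ g0 ∧ G (Φ.Psi (f y)) ≤ zz) :
    side (lmK fr3 hH Sla.dis_KK hne) (s2 S fr3 Tw l0) i lm w = 1 := by
  have hr := hZ.hr
  have hT := hC.tiny c hc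
  have w0 := hZ.w0
  have hd0 := hr.d0
  set Lo : Set ι := {q | ∃ y ∈ P (T.H q), ga Φ c (f y) ≤ g0 + d ∧ G (Φ.Psi (f y)) ≤ zz + ω}
    with hLo
  set Lo₁ : Set ι := {q | ∃ y ∈ P (T.H q), ρ1 ≤ ga Φ c (f y) ∧ ga Φ c (f y) ≤ g0 ∧
    G (Φ.Psi (f y)) ≤ zz} with hLo1
  have hg4 : g0 ≤ ρ4 := by linarith
  have hno : NoT (hH := hH) S (s2 S fr3 Tw l0) i Lo := by
    rintro p' ⟨y, hy, hy1, hy2⟩ - w' hw' hl' hwp'
    obtain ⟨x, hx, x1, x2, x4⟩ := pos_bar hLa H hC hc hZ D lo tt hk hnb' hp ha0 ha4 hz1 hex hRg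
      hw' hl' hwp'
    have x1' : ρ1 ≤ ga Φ c (f x) := by linarith [hr.r12, hd0]
    have o1 := abs_le.1 (hr.tile_osc hx x1' x2 hy).1
    have o2 := abs_le.1 (hZ.osc _ x hx x1' x2 y hy)
    rcases x4 with x4 | x4
    · linarith [o1.2]
    · linarith [o2.2]
  have hnb1 : ∀ q ∈ Lo₁, ∀ q', (P (T.H q) ∩ P (T.H q')).Nonempty → q' ∈ Lo := by
    rintro q ⟨y, hy, y0, y1, y2⟩ q' ⟨x, hx, hx'⟩
    have o1 := abs_le.1 (hr.tile_osc hy y0 (by linarith) hx).1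
    have o2 := abs_le.1 (hZ.osc _ y hy y0 (by linarith) x hx)
    exact ⟨x, hx', by linarith [o1.1], by linarith [o2.1]⟩
  obtain ⟨v, hv, hd, ⟨q, hq, hvq⟩, hval⟩ := side_tile hlm hno hnb1 hw (p := p) hy hout hwp
  obtain ⟨y, hyp, y0, y1, y2⟩ := hy
  have o1 := abs_le.1 (hr.tile_osc hyp y0 (by linarith) hv).1
  have o2 := abs_le.1 (hZ.osc _ y hyp y0 (by linarith) v hv)
  have hvO : v ∈ Om := T.sub _ hv
  have hvi := notInt_tile hLa H hC hc hZ ⟨k, hk⟩ hq hvq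
  have hv2 := ga_ge hLa H hC hc hZ hvO hvi
  have hv3 : ga Φ c (f v) ≤ r' := by linarith [o1.1]
  obtain ⟨hqV, hqJ⟩ := hr.tile hvq (by linarith) (hv3.trans h4)
  have hfr := (psi_tile hLa H hT hr hqV hqJ hvq).2
  have hvZ : v ∈ ZL Φ T f c (J c) (θ c) G b ω r r' :=
    low_out hLa H hC hc hZ ⟨k, hk⟩ hq hvq (by linarith) hv3 hfr (by linarith [o2.1])
  rw [hval (vx3 hq hvq hd).2.2.2.2]
  exact hone _ (nearZ_vx (fun x hx => zo_cov hLa H hC hc hZ hK h1 h4 hx) hvZ hvO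
    ((Sla.T3_eq hq hvq).2.2.trans hd) _)

end low

end Crest.Agent.R096.Sde_422
end

-- ▼ part R096/Rop17_441
section

/-!
# Row 96 (S0127), DOORS, G4 (R), part 4: THE BARRIERS OF THE MACHINE (helper441)

`bz_mach` : `BZ` for the function `Gm` of a moat; `sb1_of` : the points of a barrier of 4's state in
95's format; `body_D` : the body `{ga ≤ ρ4}`; `noP_np` : my paths are 422's paths.
-/

set_option autoImplicit false
set_option linter.unusedSectionVars false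
set_option linter.unusedVariables false

open Set Relation Module Filter Topology

namespace Crest.Agent.R096.Rop_441

open Crest.Agent.R096.Brk1_582 Crest.Agent.R096.Brk2_582 Crest.Agent.R096.Brk3_582
  Crest.Agent.R096.Brk5_582 Crest.Agent.R096.Bsp_628 Crest.Agent.R096.Init_543
  Crest.Agent.R096.Vb_965 Crest.Agent.R096.Msh_715 Crest.Agent.R096.St_147
  Crest.Agent.R096.Seq_213 Crest.Agent.R096.Lm_117 Crest.Agent.R096.Gl_422
  Crest.Agent.R096.SkB_662 Crest.Agent.R096.Cpo_642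
  Crest.Agent.R096.Ce_537 Crest.Agent.R096.Agl5_543
  Crest.Agent.R096.Cp_298 Crest.Agent.R096.Gm_298 Crest.Agent.R096.Ac_117
  Crest.Agent.R096.Sla_184 Crest.Agent.R096.Sla_184.Sla
  Crest.Agent.R096.Ess5_95 Crest.Agent.R096.Bgf_4 Crest.Agent.R096.Ebr1_95
  Crest.Agent.R096.Ebr4_95 Crest.Agent.R096.Bar_106 Crest.Agent.R96.Push_899
  Crest.Agent.R096.Lab_184 Crest.Agent.R096.Exa_560 Crest.Agent.R096.Sphg_316
  Crest.Agent.R096.Agl6_543 Crest.Agent.R096.Coh_184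
open Crest.Agent.R096.SkC1_961 (E3 Hom3 FoamD)
open Crest.Agent.R096.Mbf_337 (KJ sb)

section nop

variable {ι Φ W Q : Type} [PartialOrder Q] {dim : Q → ℕ} {M : MeshC ι Φ W} {J C : Type}
  {fam : J → C}

theorem noP_sub_np (L : LM M Q dim) (s : GSt M fam) (i : J) : NoP L s i ⊆ Sde_422.NP L s i :=
  fun e he w hw hl h => he w hw hl h.2

/-- paths without points in 422's format -/
theorem noP_np {L : LM M Q dim} {s : GSt M fam} {i : J} {v v' : Q}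
    (h : ReflTransGen (Ed L (NoP L s i)) v v') :
    ReflTransGen (Ed L (Sde_422.NP L s i)) v v' := path_mono (noP_sub_np L s i) h


end nop

variable {δ κ0 R c0 : ℝ} {La Om : Set E3} {ι : Type} {Φ : FoamD δ κ0 R c0 La}
  {T : Tiling Om ι} {f g : E3 → E3} {κ1 κ2 : ℝ} {X : Set Φ.F} {J0 J V : Φ.F → Set ι}
  {ct : Φ.F → ι} {A : Φ.F → E3 ≃ᵃ[ℝ] E3} {lam : Φ.F → ℝ} {z : Φ.F → E3} {θ : Φ.F → E3 → E3}
  {φ : Φ.F → E3 → ℝ} {ρ1 ρ2 ρ3 ρ4 d : Φ.F → ℝ} {l0 mm ra sg : ℝ}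

/-- **`BZ` of a moat** -/
theorem bz_mach (hLa : IsOpen La) (hδ : 0 < δ) (hR0 : 0 < R) (H : Hm f g Om La)
    (hκ : Cn δ R * κ1 < 1) (hC : Mbf_337.Cores Φ T f κ1 κ2 X J0 J V ct A lam z θ φ)
    (hRm : ∀ c ∉ X, Rm Φ T f c (J0 c) (J c) (V c) (θ c) (ρ1 c) (ρ2 c) (ρ3 c) (ρ4 c) (d c))
    {hi' : ℝ} (hN : Nm l0 mm ra hi') (m : BM Φ X) {ω : ℝ}
    (h1 : max (d m.co / l0) (d m.co / ra) ≤ ω)
    (h2 : max (Cn δ R * κ1 / l0) (Cn δ R * κ1 / ra) ≤ ω) :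
    BZ Φ T f J0 J V θ m.co (gmf Φ l0 mm ra m.am m.Zm) (ρ1 m.co) (ρ2 m.co) (ρ3 m.co) (ρ4 m.co)
      (d m.co) 0 hi' ω := by
  have hr := hRm m.co m.co_notMem
  have hT := hC.tiny m.co m.co_notMem
  have hG : GA Φ m.co (ρ4 m.co) := Etg_163.ga_gau Φ hLa hT.pt
    (by linarith [hr.r1, hr.r12, hr.r23, hr.r34, hr.d0]) hr.r4 hr.ray
  obtain ⟨p, q, hM⟩ := m.mo
  exact {
    hr := hr
    gm := gm_moat hLa hδ hR0 hM hN
    w0 := (div_nonneg hr.d0.le hN.hl.le).trans ((le_max_left _ _).trans h1)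
    osc := fun i x hx g1 g4 y hy =>
      (Ebr5_95.gm_osc' hLa H hN.hl hN.hra hT hr hG hx g1 g4 hy).trans h1
    near := fun x hx => (gm_near hLa hδ hR0 hκ hN.hl hN.hra hT hr hG hx).trans h2 }

/-- the radii of a barrier -/
theorem rad_bar (hRm : ∀ c ∉ X, Rm Φ T f c (J0 c) (J c) (V c) (θ c) (ρ1 c) (ρ2 c) (ρ3 c) (ρ4 c)
      (d c)) (m : BM Φ X) {ε : ℝ} (hε : ε ∈ Ioo 1 (hiB ρ1 ρ3 d sg m.co)) :
    ρ1 m.co + 3 * d m.co < rB ρ1 ρ3 d m.co - hB ρ1 ρ3 d m.co * ε ∧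
      rB ρ1 ρ3 d m.co - hB ρ1 ρ3 d m.co * ε ≤ ρ1 m.co + 4 * d m.co ∧
      ρ3 m.co + 12 * d m.co ≤ rB ρ1 ρ3 d m.co + hB ρ1 ρ3 d m.co * ε ∧
      rB ρ1 ρ3 d m.co + hB ρ1 ρ3 d m.co * ε < ρ3 m.co + 13 * d m.co := by
  have hr := hRm m.co m.co_notMem
  have hd := hr.d0
  have hh : 0 < hB ρ1 ρ3 d m.co := by
    unfold hB; linarith [hr.r12, hr.r23]
  have e1 := rB_sub (ρ1 := ρ1) (ρ3 := ρ3) (d := d) m.co
  have e2 := rB_add (ρ1 := ρ1) (ρ3 := ρ3) (d := d) m.co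
  have h1 : ε < 1 + d m.co / hB ρ1 ρ3 d m.co :=
    hε.2.trans_le (by unfold hiB; linarith [min_le_left (d m.co / hB ρ1 ρ3 d m.co) sg])
  have h2 : hB ρ1 ρ3 d m.co * ε < hB ρ1 ρ3 d m.co + d m.co := by
    have h3 := mul_lt_mul_of_pos_left h1 hh
    rw [mul_add, mul_one, mul_div_cancel₀ _ hh.ne'] at h3
    exact h3
  have h3 : hB ρ1 ρ3 d m.co ≤ hB ρ1 ρ3 d m.co * ε := by
    have := mul_le_mul_of_nonneg_left hε.1.le hh.le
    rwa [mul_one] at this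
  exact ⟨by linarith, by linarith, by linarith, by linarith⟩

/-- **a point of a barrier in 95's format** -/
theorem sb1_of (hLa : IsOpen La) (hC : Mbf_337.Cores Φ T f κ1 κ2 X J0 J V ct A lam z θ φ)
    (hRm : ∀ c ∉ X, Rm Φ T f c (J0 c) (J c) (V c) (θ c) (ρ1 c) (ρ2 c) (ρ3 c) (ρ4 c) (d c))
    (m : BM Φ X) {ε : ℝ} (hε : ε ∈ Ioo 1 (hiB ρ1 ρ3 d sg m.co)) {y : E3}
    (h : rB ρ1 ρ3 d m.co - hB ρ1 ρ3 d m.co * ε ≤ ga Φ m.co y ∧
      ga Φ m.co y ≤ rB ρ1 ρ3 d m.co + hB ρ1 ρ3 d m.co * ε ∧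
      gmf Φ l0 mm ra m.am m.Zm (Φ.Psi y) ≤ ε ∧
      (ga Φ m.co y = rB ρ1 ρ3 d m.co - hB ρ1 ρ3 d m.co * ε ∨
        ga Φ m.co y = rB ρ1 ρ3 d m.co + hB ρ1 ρ3 d m.co * ε ∨
        gmf Φ l0 mm ra m.am m.Zm (Φ.Psi y) = ε)) :
    y ∈ SB1 Φ m.co (gmf Φ l0 mm ra m.am m.Zm) (rB ρ1 ρ3 d m.co - hB ρ1 ρ3 d m.co * ε)
      (rB ρ1 ρ3 d m.co + hB ρ1 ρ3 d m.co * ε) ε := by
  have hr := hRm m.co m.co_notMem
  have hT := hC.tiny m.co m.co_notMem
  have hG : GA Φ m.co (ρ4 m.co) := Etg_163.ga_gau Φ hLa hT.pt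
    (by linarith [hr.r1, hr.r12, hr.r23, hr.r34, hr.d0]) hr.r4 hr.ray
  obtain ⟨h1, h2, h3, h4⟩ := h
  obtain ⟨-, -, -, r4⟩ := rad_bar hRm m hε
  exact ⟨(hG.one y).1 (by linarith [hr.r34, hr.r4, hr.d0]), h1, h2, h3, h4⟩

/-- **the body of the barriers of the core `c`** -/
theorem body_D (T0 : IsOpen Om) (hLa : IsOpen La) (H : Hm f g Om La) {c : Φ.F} {r : ℝ}
    (hpt : (Φ.B c).lo = (Φ.B c).hi) (h0 : 0 < r) (hG : GA Φ c r) (h1 : r < 1) :
    IsCompact (Om ∩ f ⁻¹' {y | ga Φ c y ≤ r}) ∧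
      IsPreconnected (frontier (Om ∩ f ⁻¹' {y | ga Φ c y ≤ r})) ∧
      TrivF (ZMod 2) (Om ∩ f ⁻¹' {y | ga Φ c y ≤ r}) ∧
      interior (Om ∩ f ⁻¹' {y | ga Φ c y ≤ r}) = {x | x ∈ Om ∧ ga Φ c (f x) < r} := by
  have hb : Bod (Φ.B c).lo (Pc Φ.F c) := Pse_316.bod_brick Φ c hpt
  have hgf : ga Φ c = Ng (Φ.B c).lo (Pc Φ.F c) := funext (Etg_163.gg_eq Φ c)
  have hDc : IsCompact {y | ga Φ c y ≤ r} := by rw [hgf]; exact hb.isCompact_le r
  have hDv : Convex ℝ {y | ga Φ c y ≤ r} := hG.cvx r h0 h1.le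
  have hgc : Continuous (ga Φ c) := by rw [hgf]; exact hb.continuous
  have hlt : {y | ga Φ c y < r} ⊆ interior {y | ga Φ c y ≤ r} :=
    interior_maximal (fun y (hy : ga Φ c y < r) => (show ga Φ c y ≤ r from hy.le))
      (isOpen_lt hgc continuous_const)
  have hz : ga Φ c (Φ.B c).lo = 0 := hG.zero
  have hDi : (interior {y | ga Φ c y ≤ r}).Nonempty :=
    ⟨(Φ.B c).lo, hlt (by show ga Φ c _ < r; rw [hz]; exact h0)⟩
  have hDL : {y | ga Φ c y ≤ r} ⊆ La := fun y hy =>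
    (foam4 Φ hLa).sub c ((hG.one y).1 (le_trans hy h1.le))
  have hDi' : ∀ y ∈ interior {y | ga Φ c y ≤ r}, ga Φ c y < r := by
    intro y hy
    by_contra hcon
    have hle0 : y ∈ {y | ga Φ c y ≤ r} := interior_subset hy
    have hle : ga Φ c y ≤ r := hle0
    have he : ga Φ c y = r := le_antisymm hle (not_lt.1 hcon)
    have ht : Tendsto (fun s : ℝ => (Φ.B c).lo + s • (y - (Φ.B c).lo)) (𝓝[>] 1) (𝓝 y) := by
      have : Tendsto (fun s : ℝ => (Φ.B c).lo + s • (y - (Φ.B c).lo)) (𝓝 1)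
          (𝓝 ((Φ.B c).lo + (1:ℝ) • (y - (Φ.B c).lo))) := by
        apply Continuous.tendsto; fun_prop
      rw [one_smul, add_sub_cancel] at this
      exact this.mono_left nhdsWithin_le_nhds
    have h1 := ht.eventually (isOpen_interior.mem_nhds hy)
    have h2 : ∀ᶠ s : ℝ in 𝓝[>] 1, 1 < s := self_mem_nhdsWithin
    obtain ⟨s, hs1, hs2⟩ := (h1.and h2).exists
    have h3 : ga Φ c ((Φ.B c).lo + s • (y - (Φ.B c).lo)) = s * r := by
      rw [← he, hgf]; exact Ng_ray _ _ (by linarith) y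
    have h4' : (Φ.B c).lo + s • (y - (Φ.B c).lo) ∈ {y | ga Φ c y ≤ r} := interior_subset hs1
    have h4 : ga Φ c ((Φ.B c).lo + s • (y - (Φ.B c).lo)) ≤ r := h4'
    rw [h3] at h4
    nlinarith
  have hint : interior {y | ga Φ c y ≤ r} = {y | ga Φ c y < r} :=
    Subset.antisymm hDi' hlt
  refine ⟨H.isCompact_pre hDL hDc, ?_, ?_, ?_⟩
  · rw [frontier_pre T0 H hLa hDc hDL]
    exact H.preconn_pre (hDc.isClosed.frontier_subset.trans hDL)
      (isPreconnected_frontier fr3 hDc hDv hDi)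
  · exact H.trivF_pre hDL hDc fun n => Vb_965.trivAll_convex' hDc hDv
  · rw [interior_pre T0 H hLa, hint]
    rfl

end Crest.Agent.R096.Rop_441
end

-- ▼ part R096/Rop18_441
section

/-!
# Row 96 (S0127), DOORS, G4 (helper441): **THE SIDE FUNCTION OF A BARRIER**

`exists_sdm` : for a state `s₀` over the sliced mesh and one name `i` whose points on the outer
tiles lie on the barrier `{SB1}`: there is a global label which is 0 outside the body, 1 near the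
low zone `ZL` and 0 near the high zone `ZH`.
-/

set_option autoImplicit false
set_option linter.unusedSectionVars false
set_option linter.unusedVariables false

open Set Relation Module Filter Topology

namespace Crest.Agent.R096.Rop_441

open Crest.Agent.R096.Brk1_582 Crest.Agent.R096.Brk2_582 Crest.Agent.R096.Brk3_582
  Crest.Agent.R096.Brk5_582 Crest.Agent.R096.Bsp_628 Crest.Agent.R096.Init_543
  Crest.Agent.R096.Vb_965 Crest.Agent.R096.Msh_715 Crest.Agent.R096.St_147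
  Crest.Agent.R096.Seq_213 Crest.Agent.R096.Lm_117 Crest.Agent.R096.Gl_422
  Crest.Agent.R096.SkB_662 Crest.Agent.R096.Cpo_642
  Crest.Agent.R096.Ce_537 Crest.Agent.R096.Agl5_543
  Crest.Agent.R096.Cp_298 Crest.Agent.R096.Gm_298 Crest.Agent.R096.Ac_117
  Crest.Agent.R096.Sla_184 Crest.Agent.R096.Sla_184.Sla
  Crest.Agent.R096.Ess5_95 Crest.Agent.R096.Bgf_4 Crest.Agent.R096.Ebr1_95
  Crest.Agent.R096.Ebr4_95 Crest.Agent.R096.Bar_106 Crest.Agent.R96.Push_899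
  Crest.Agent.R096.Lab_184 Crest.Agent.R096.Exa_560 Crest.Agent.R096.Sphg_316
  Crest.Agent.R096.Agl6_543 Crest.Agent.R096.Coh_184 Crest.Agent.R096.Flb_422
  Crest.Agent.R096.Vrt_422
open Crest.Agent.R096.SkC1_961 (E3 Hom3 FoamD)
open Crest.Agent.R096.Mbf_337 (KJ sb)

variable {δ κ0 R c0 : ℝ} {La Om : Set E3} {ι : Type} {Φ : FoamD δ κ0 R c0 La}
  {T : Tiling Om ι} {f g : E3 → E3} {κ1 κ2 : ℝ} {X : Set Φ.F} {J0 J V : Φ.F → Set ι}
  {ct : Φ.F → ι} {A : Φ.F → E3 ≃ᵃ[ℝ] E3} {lam : Φ.F → ℝ} {z : Φ.F → E3} {θ : Φ.F → E3 → E3}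
  {φ : Φ.F → E3 → ℝ} {κ : Type} {S : Sla T κ}

/-- a vertex of `T` on the frontier of a core is a vertex of the sliced mesh -/
theorem dim3_foot [Nonempty S.T3.Cell] {k : κ} {v : E3} (hv : v ∈ frontier (S.K k)) (h0 : T.dim v = 0) :
    S.T3.dim v = 0 := by
  have h1 := hc_dim (S := S) (Sla.fr_Bd hv) (Crest.Agent.R096.Vrt_422.D_vx hv h0) 0
  rwa [hc_zero hv h0] at h1

variable (hLa : IsOpen La) (H : Hm f g Om La)
  (hC : Mbf_337.Cores Φ T f κ1 κ2 X J0 J V ct A lam z θ φ) {c : Φ.F} (hc : c ∉ X)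
  {G : E3 → ℝ} {ρ1 ρ2 ρ3 ρ4 d lo' hi' ω : ℝ}
  (hZ : BZ Φ T f J0 J V θ c G ρ1 ρ2 ρ3 ρ4 d lo' hi' ω)
  [Nonempty S.T3.Cell] {hH : ∀ c, CoreH S.T3 (S.KK c)} {hne : ∃ c, OutK S.T3 S.KK c}
  {Jn Cn : Type} {fam : Jn → Cn} {s₀ : GSt (mK fr3 hH dis_KK) fam} {J' : Type}
include hLa H hC hc hZ

/-- **THE SIDE FUNCTION OF A BARRIER** -/
theorem exists_sdm (hK : TinyK X J S)
    (Xc : Cplx Om (QK (belK S.T3 S.KK)) (dimK (belK S.T3 S.KK) fun c => c.1.dim)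
      (setK S.T3 S.KK))
    (hon : ∀ w ∈ s₀.P, w ∈ (lmK fr3 hH dis_KK hne).W1) {i : Jn} {a0 a1 τ : ℝ}
    (hp : ∀ w ∈ s₀.P, s₀.lab w = i → ∀ p, (∀ c, ¬ P (T.H p) ⊆ S.K c) → w ∈ P (T.H p) →
      f w ∈ SB1 Φ c G a0 a1 τ)
    (supp : ∀ w ∈ s₀.P, s₀.lab w = i → (∀ q, w ∈ P (S.T3.H q) →
      P (S.T3.H q) ⊆ interior (Om ∩ f ⁻¹' {y | ga Φ c y ≤ ρ4})) ∧
      ∀ k, w ∈ S.KK k → S.KK k ⊆ interior (Om ∩ f ⁻¹' {y | ga Φ c y ≤ ρ4}))
    {k : κ} (hk : S.K k = KJ T (J c)) (L : Lev T (frontier (S.K k)) J') {j : J'} (hj : j ∈ L.J0)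
    (hE : ExG S k L j {w | w ∈ s₀.P ∧ s₀.lab w = i}) {v0 v1 : E3} (hv0 : v0 ∈ frontier (S.K k))
    (hd0 : T.dim v0 = 0) (hv1 : v1 ∈ frontier (S.K k)) (hd1 : T.dim v1 = 0)
    (hl0 : L.u v0 < L.lv j) (hl1 : L.lv j < L.u v1) (hC0 : Sde_422.NoCol S s₀ i k v0)
    (hC1 : Sde_422.NoCol S s₀ i k v1)
    {b b' : ℝ} (hb0 : lo' < b) (hbτ : b + 3 * ω < τ) (hb1 : τ < b' - 3 * ω) (hb' : b' < hi')
    (hG0 : G (θ c v0) ≤ b + ω) (hG1 : b' - ω ≤ G (θ c v1)) {r r' : ℝ} (h1 : ρ1 ≤ r)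
    (h2 : r < ρ2) (hrr : r ≤ r') (h4 : r' ≤ ρ4) (ha0 : a0 + d < r) (ha0' : a0 + d < ρ2)
    (ha1 : r' + d < a1) (ha1' : ρ3 + d < a1) :
    ∃ lm : QK (belK S.T3 S.KK) → ZMod 2, GLab (lmK fr3 hH dis_KK hne) (gp s₀ i) lm ∧
      (∀ v ∈ ZK S.T3 S.KK (Om ∩ f ⁻¹' {y | ga Φ c y ≤ ρ4}), lm v = 0) ∧
      (∀ v, NearZ S (ZL Φ T f c (J c) (θ c) G b ω r r') v → lm v = 1) ∧
      ∀ v, NearZ S (ZH Φ T f c (J c) (θ c) G b' ω r ρ4) v → lm v = 0 := by
  have hr := hZ.hr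
  have w0 := hZ.w0
  have hT := hC.tiny c hc
  have hG := bz_ga hLa H hC hc hZ
  have h40 : 0 < ρ4 := by linarith [hr.r1]
  obtain ⟨D1, D2, D3, D4⟩ := body_D T.op hLa H hT.pt h40 hG hr.r4
  have hcov : ∀ {A' B : Set E3} {r' : ℝ}, r' ≤ ρ4 → ∀ x ∈ Zo Φ Om f c (KJ T (J c)) (θ c) A' B r r',
      ∃ p, (∀ c, ¬ P (T.H p) ⊆ S.K c) ∧ x ∈ P (T.H p) := fun h x hx =>
    zo_cov hLa H hC hc hZ hK h1 h hx
  have hfO : ∀ {v}, v ∈ frontier (S.K k) → v ∈ Om := fun {v} hv =>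
    (S.hH k).sub ((S.hH k).cpt.isClosed.frontier_subset hv)
  -- the foot `v1` is near the high zone, the foot `v0` near the low zone
  have n1 : NearZ S (ZH Φ T f c (J c) (θ c) G b' ω r ρ4) (oc (edC S.T3 v1) (outK_foot hv1 hd1)) :=
    nearZ_vx (hcov le_rfl) (high_fr hLa H hC hc hZ (by rw [← hk]; exact hv1) hG1) (hfO hv1)
      (dim3_foot hv1 hd1) _
  have n0 : NearZ S (ZL Φ T f c (J c) (θ c) G b ω r r') (oc (edC S.T3 v0) (outK_foot hv0 hd0)) :=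
    nearZ_vx (hcov h4) (low_fr hLa H hC hc hZ (by rw [← hk]; exact hv0) hG0) (hfO hv0)
      (dim3_foot hv0 hd0) _
  obtain ⟨q1, hq1, n2⟩ := exists_farZ (S := S) hLa H hC hc hZ hK (b := b') (r := r) hb'.le h1
    (hrr.trans h4) (D := Om ∩ f ⁻¹' {y | ga Φ c y ≤ ρ4}) (fun x hx => by
      rw [D4] at hx; exact hx.2)
  have hhigh : ∀ {v v'}, NearZ S (ZH Φ T f c (J c) (θ c) G b' ω r ρ4) v →
      NearZ S (ZH Φ T f c (J c) (θ c) G b' ω r ρ4) v' →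
      ReflTransGen (Ed (lmK fr3 hH dis_KK hne) (NoP (lmK fr3 hH dis_KK hne) s₀ i)) v v' :=
    fun hv hv' => high_path hLa H hC hc hZ hK Xc hon hp (by linarith) hb' (by linarith) h1 h2
      (hrr.trans h4) le_rfl hv hv'
  obtain ⟨lm, e1, e2, e3, e4⟩ := Sde_422.exists_sd (s := s₀) (i := i) D1 inter_subset_left D2 D3
    (fun w hw _ => hon w hw) supp L hj hE hv0 hd0 hv1 hd1 hl0 hl1 hC0 hC1 hq1
    (noP_np (hhigh n2 n1))
  refine ⟨lm, e1, e2, fun v hv => e3 v (noP_np ?_), fun v hv => e4 q1 hq1 v (noP_np (hhigh n2 hv))⟩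
  exact low_path hLa H hC hc hZ hK Xc hon hp hb0 (by linarith) hbτ h1 h2 hrr h4 ha0 ha0' ha1 ha1'
    n0 hv

end Crest.Agent.R096.Rop_441
end

-- ▼ part R096/Rop19_441
section

/-!
# Row 96 (S0127), DOORS, G4 (helper441): **THE SIDE FUNCTION OF A BARRIER OF `s₂`**

`not_rgn_v0`, `not_rgn_v1` : the moves of the towers do not touch the vertices `v0`, `v1`;
`sdm_s2`  : `exists_sdm` for the state `s₂` and one name `i` of a barrier at the core `k`.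
-/

set_option autoImplicit false
set_option linter.unusedSectionVars false
set_option linter.unusedVariables false

open Set Relation Module Filter Topology
open scoped Classical

namespace Crest.Agent.R096.Rop_441

open Crest.Agent.R096.Brk1_582 Crest.Agent.R096.Brk2_582 Crest.Agent.R096.Brk3_582
  Crest.Agent.R096.Brk5_582 Crest.Agent.R096.Bsp_628 Crest.Agent.R096.Init_543
  Crest.Agent.R096.Vb_965 Crest.Agent.R096.Msh_715 Crest.Agent.R096.St_147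
  Crest.Agent.R096.Seq_213 Crest.Agent.R096.Lm_117 Crest.Agent.R096.Gl_422
  Crest.Agent.R096.SkB_662 Crest.Agent.R096.Cpo_642
  Crest.Agent.R096.Ce_537 Crest.Agent.R096.Agl5_543
  Crest.Agent.R096.Cp_298 Crest.Agent.R096.Gm_298 Crest.Agent.R096.Ac_117
  Crest.Agent.R096.Sla_184 Crest.Agent.R096.Sla_184.Sla
  Crest.Agent.R096.Ess5_95 Crest.Agent.R096.Bgf_4 Crest.Agent.R096.Ebr1_95
  Crest.Agent.R096.Ebr4_95 Crest.Agent.R096.Bar_106 Crest.Agent.R96.Push_899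
  Crest.Agent.R096.Lab_184 Crest.Agent.R096.Exa_560 Crest.Agent.R096.Sphg_316
  Crest.Agent.R096.Agl6_543 Crest.Agent.R096.Coh_184 Crest.Agent.R096.Flb_422
  Crest.Agent.R096.Vrt_422 Crest.Agent.R096.Twr_438 Crest.Agent.R096.Dfi_539
  Crest.Agent.R096.Dfi_471 Crest.Agent.R096.Ess3_95 Crest.Agent.R096.Door_501
  Crest.Agent.R096.Qp_106
open Crest.Agent.R096.SkC1_961 (E3 Hom3 FoamD)
open Crest.Agent.R096.Mbf_337 (KJ sb)

section rgn

variable {E : Type} [NormedAddCommGroup E] [NormedSpace ℝ E] [FiniteDimensional ℝ E]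
variable {Om : Set E} {ι : Type} {T : Tiling Om ι} {J C : Type} {fam : J → C}
variable {κ : Type} {Kc : κ → Set E} {h3 : finrank ℝ E = 3} [Nonempty J]
variable {hH : ∀ c, CoreH T (Kc c)} {hdis : ∀ c c', c ≠ c' → Disjoint (Kc c) (Kc c')}
  {s : GSt (meshC T h3) fam} {r : J → E} {nb : κ → C → Prop} {u : κ → C → E → ℝ}
  {A B : κ → C → ℝ} {L : ∀ c, C → Lev T (frontier (Kc c)) J}

/-- **the moves do not touch `v0`** -/
theorem not_rgn_v0 (lo : LevOut s nb u A B L) {k : κ} {a : C} {v0 v1 : VxK T Kc k}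
    (h0 : u k a v0.1 ≤ A k a) (i : J) :
    ¬ Rgn (shellH h3 hH hdis k) v0 v1 (trc hH hdis s r k a) (exa h3 hH hdis (L k a)) i v0 := by
  have := Rgl_527.finite_EdK hH k
  have := Fintype.ofFinite (EdK T Kc k)
  have hz : ∀ w, lbl (shellH h3 hH hdis k).sphSh v0 (comp true (trc (h3 := h3) hH hdis s r k a) w) v0
      = 0 := fun w => Rgl_527.lbl_zero (h3 := h3) (hH := hH) (hdis := hdis) (c := k)
        (s := trc hH hdis s r k a) (fun w hw => (mem_trc.1 hw).2.2) v0 w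
  rintro (⟨w, hw, -, -, h⟩ | ⟨w, hw, w', hw', -, -, -, h⟩)
  · rw [hz w] at h
    exact zero_ne_one h
  · obtain ⟨g1, g2⟩ := exa_lab (h3 := h3) (hH := hH) (hdis := hdis) (c := k) (L k a) hw'
    have g4 := lo.win k a _ g1
    have e0 : (L k a).u v0.1 = u k a v0.1 := by rw [lo.u]
    have hn : ¬ (L k a).lv ((exa h3 hH hdis (L k a)).lab w') < (L k a).u v0.1 :=
      not_lt.2 (by rw [e0]; linarith [g4.1])
    rw [hz w, exa_lbl (h3 := h3) (hH := hH) (hdis := hdis) (c := k)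
      (L k a) g1 (lo.conn k a _ g1).1 hw' rfl v0 v0 hn, if_neg hn, add_zero] at h
    exact zero_ne_one h

/-- **the moves do not touch `v1`** -/
theorem not_rgn_v1 (lo : LevOut s nb u A B L) {k : κ} {a : C} {v0 v1 : VxK T Kc k}
    (h0 : u k a v0.1 ≤ A k a) (h1 : B k a ≤ u k a v1.1) (i : J) :
    ¬ Rgn (shellH h3 hH hdis k) v0 v1 (trc hH hdis s r k a) (exa h3 hH hdis (L k a)) i v1 := by
  have := Rgl_527.finite_EdK hH k
  have := Fintype.ofFinite (EdK T Kc k)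
  rintro (⟨w, hw, -, h2, h⟩ | ⟨w, hw, w', hw', -, -, h2, h⟩)
  · rw [h2] at h
    exact zero_ne_one h
  · obtain ⟨g1, g2⟩ := exa_lab (h3 := h3) (hH := hH) (hdis := hdis) (c := k) (L k a) hw'
    have g4 := lo.win k a _ g1
    have e0 : (L k a).u v0.1 = u k a v0.1 := by rw [lo.u]
    have e1 : (L k a).u v1.1 = u k a v1.1 := by rw [lo.u]
    rw [h2, exa_lbl (h3 := h3) (hH := hH) (hdis := hdis) (c := k)
      (L k a) g1 (lo.conn k a _ g1).1 hw' rfl v0 v1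
      (not_lt.2 (by rw [e0]; linarith [g4.1])),
      if_pos (by rw [e1]; linarith [g4.2])] at h
    exact absurd h (by decide)

end rgn

section s2

variable {δ κ0 R c0 : ℝ} {La Om : Set E3} {ι : Type} {Φ : FoamD δ κ0 R c0 La}
  {T : Tiling Om ι} {f g : E3 → E3} {κ1 κ2 : ℝ} {X : Set Φ.F} {J0 J V : Φ.F → Set ι}
  {ct : Φ.F → ι} {A' : Φ.F → E3 ≃ᵃ[ℝ] E3} {lam : Φ.F → ℝ} {z : Φ.F → E3} {θ : Φ.F → E3 → E3}
  {φ : Φ.F → E3 → ℝ} {κ : Type} {S : Sla T κ}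
  {c : Φ.F} {G : E3 → ℝ} {ρ1 ρ2 ρ3 ρ4 d lo' hi' ω : ℝ}
  {Jn Cn : Type} {fam : Jn → Cn} [Nonempty Jn]
  {s : GSt (meshC T fr3) fam} {rt : Jn → E3} {Sf : Jn → Set E3} {nb : κ → Cn → Prop}
  {v0 v1 : ∀ c, Cn → VxK T S.K c} {u : κ → Cn → E3 → ℝ} {A B : κ → Cn → ℝ}
  {L : ∀ c, Cn → Lev T (frontier (S.K c)) Jn}
  {Tw : Twrs (S.sh fr3) S.n (outK S.hH S.dis s rt)} {l0 : E3 → Jn}
  [Nonempty S.T3.Cell] {hH : ∀ c, CoreH S.T3 (S.KK c)} {hne : ∃ c, OutK S.T3 S.KK c}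

/-- **THE SIDE FUNCTION OF A BARRIER OF `s₂`** -/
theorem sdm_s2 (hLa : IsOpen La) (H : Hm f g Om La)
    (hC : Mbf_337.Cores Φ T f κ1 κ2 X J0 J V ct A' lam z θ φ) (hc : c ∉ X)
    (hZ : BZ Φ T f J0 J V θ c G ρ1 ρ2 ρ3 ρ4 d lo' hi' ω) (hK : TinyK X J S)
    (Xc : Cplx Om (QK (belK S.T3 S.KK)) (dimK (belK S.T3 S.KK) fun c => c.1.dim)
      (setK S.T3 S.KK))
    (D : DIn S.hH s rt Sf nb v0 v1 u A B) (lo : LevOut s nb u A B L)
    (tt : TwOut S fr3 s rt v0 v1 L Tw)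
    (hon : ∀ w ∈ (s2 S fr3 Tw l0).P, w ∈ (lmK fr3 hH dis_KK hne).W1) {i : Jn}
    (hfi : ∀ j, fam j = fam i → j = i) {k : κ} (hk : S.K k = KJ T (J c)) (hnb : nb k (fam i))
    (hnb' : ∀ k', nb k' (fam i) → k' = k) {a0 a1 τ : ℝ}
    (hp : ∀ w ∈ s.P, s.lab w = i → f w ∈ SB1 Φ c G a0 a1 τ) (h0' : ρ1 ≤ a0)
    (ha4 : a1 + d < ρ4)
    {b b' : ℝ} (hb0 : lo' < b) (hbτ : b + 3 * ω < τ) (hb1 : τ < b' - 3 * ω) (hb' : b' < hi')
    (hG0 : G (θ c (v0 k (fam i)).1) ≤ b + ω) (hG1 : b' - ω ≤ G (θ c (v1 k (fam i)).1))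
    {r r' : ℝ} (h1 : ρ1 ≤ r)
    (h2 : r < ρ2) (hrr : r ≤ r') (h4 : r' ≤ ρ4) (ha0 : a0 + d < r) (ha0' : a0 + d < ρ2)
    (ha1 : r' + d < a1) (ha1' : ρ3 + d < a1) :
    ∃ lm : QK (belK S.T3 S.KK) → ZMod 2,
      GLab (lmK fr3 hH dis_KK hne) (gp (s2 S fr3 Tw l0) i) lm ∧
      (∀ v ∈ ZK S.T3 S.KK (Om ∩ f ⁻¹' {y | ga Φ c y ≤ ρ4}), lm v = 0) ∧
      (∀ v, NearZ S (ZL Φ T f c (J c) (θ c) G b ω r r') v → lm v = 1) ∧
      ∀ v, NearZ S (ZH Φ T f c (J c) (θ c) G b' ω r ρ4) v → lm v = 0 := by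
  have hr := hZ.hr
  have hT := hC.tiny c hc
  have hG := bz_ga hLa H hC hc hZ
  have h40 : 0 < ρ4 := by linarith [hr.r1]
  obtain ⟨D1, D2, D3, D4⟩ := body_D T.op hLa H hT.pt h40 hG hr.r4
  have hcl := bz_cl hLa H hC hc hZ
  -- the supports
  have hs : ∀ w ∈ s.P, ∀ q, w ∈ P (T.H q) → P (T.H q) ⊆ interior
      ((fun a : Cn => if a = fam i then Om ∩ f ⁻¹' {y | ga Φ c y ≤ ρ4} else univ)
        (fam (s.lab w))) := by
    intro w hw q hq x hx
    by_cases hl : fam (s.lab w) = fam i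
    · simp only [hl, if_true]
      rw [D4]
      obtain ⟨-, e1, e2, -, -⟩ := hp w hw (hfi _ hl)
      have o1 := abs_le.1 (hr.tile_osc hq (by linarith) (by linarith [hr.d0]) hx).1
      exact ⟨T.sub q hx, by linarith [o1.1]⟩
    · simp only [hl, if_false, interior_univ]
      exact mem_univ _
  have hKs : ∀ k' a, nb k' a → S.K k' ⊆ interior
      ((fun a : Cn => if a = fam i then Om ∩ f ⁻¹' {y | ga Φ c y ≤ ρ4} else univ) a) := by
    intro k' a hn x hx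
    by_cases hl : a = fam i
    · subst hl
      simp only [if_true]
      rw [hnb' k' hn, hk] at hx
      rw [D4]
      have h5 := K_loc H ((foam4 Φ hLa).sub c) hG hr hT.sub hcl hT.inside hx
      exact ⟨(Exa_560.coreH_tiny hT).sub hx, by linarith [hr.r34, hr.d0]⟩
    · simp only [hl, if_false, interior_univ]
      exact mem_univ _
  have supp : ∀ w ∈ (s2 S fr3 Tw l0).P, (s2 S fr3 Tw l0).lab w = i → (∀ q, w ∈ P (S.T3.H q) →
      P (S.T3.H q) ⊆ interior (Om ∩ f ⁻¹' {y | ga Φ c y ≤ ρ4})) ∧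
      ∀ k, w ∈ S.KK k → S.KK k ⊆ interior (Om ∩ f ⁻¹' {y | ga Φ c y ≤ ρ4}) := by
    intro w hw hl
    obtain ⟨e1, e2⟩ := supp2 D lo tt hs hKs hw
    rw [hl] at e1 e2
    simp only [if_true] at e1 e2
    exact ⟨e1, fun k hk => KK_K.trans (e2 k (KK_K hk))⟩
  have hi : i ∈ (L k (fam i)).J0 := (lo.mem k (fam i) i).2 ⟨rfl, hnb⟩
  have hw := lo.win k (fam i) i hi
  have hu : (L k (fam i)).u = u k (fam i) := lo.u k (fam i)
  refine exists_sdm (s₀ := s2 S fr3 Tw l0) hLa H hC hc hZ hK Xc hon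
    (fun w hw hl p hpo hwp => ?_) supp hk (L k (fam i)) hi (exG_s2 lo tt hnb)
    (v0 k (fam i)).2.2 (v0 k (fam i)).2.1 (v1 k (fam i)).2.2 (v1 k (fam i)).2.1 ?_ ?_
    (Sdf_246.noCol_s2 D lo tt (v := v0 k (fam i))
      (not_rgn_v0 (h3 := fr3) lo (D.v0_lt k _ hnb) i))
    (Sdf_246.noCol_s2 D lo tt (v := v1 k (fam i))
      (not_rgn_v1 (h3 := fr3) lo (D.v0_lt k _ hnb) (D.v1_gt k _ hnb) i))
    hb0 hbτ hb1 hb' hG0 hG1 h1 h2 hrr h4 ha0 ha0' ha1 ha1'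
  · obtain ⟨g1, g2⟩ := out2_tile hw hpo hwp
    exact hp w g1 (g2 ▸ hl)
  · rw [hu]; exact (D.v0_lt k _ hnb).trans_lt hw.1
  · rw [hu]; exact hw.2.trans_le (D.v1_gt k _ hnb)

end s2

end Crest.Agent.R096.Rop_441
end

-- ▼ part R096/Sde4_422

/-!
# R096 (row 96), DOORS, G4 (helper422), part 4: **THE SIDE FUNCTIONS OF ALL BARRIERS, MACHINE**.

`exists_lmU` : labels `lm m` of all moats `m : BM Φ X` over `s2` (438's `BarOut`, 534's `Up`):
`GLab`, `0` on `ZK` of the body, `sdm` near the axis.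
-/

set_option autoImplicit false
set_option linter.unusedSectionVars false
set_option linter.unusedVariables false
set_option linter.style.longLine false

open Set Topology Filter Metric Module Relation
open scoped Classical

namespace Crest.Agent.R096.Sde_422

open Crest.Agent.R096.Msh_715 Crest.Agent.R096.Agl5_543 Crest.Agent.R096.St_147
  Crest.Agent.R096.Seq_213 Crest.Agent.R096.Door_501 Crest.Agent.R096.Sla_184
  Crest.Agent.R096.Twr_438 Crest.Agent.R096.Exa_560 Crest.Agent.R096.Ess3_95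
  Crest.Agent.R096.Ess4_95 Crest.Agent.R096.Dfi_539 Crest.Agent.R096.Dfi_471
  Crest.Agent.R096.Ac_117 Crest.Agent.R096.Lm_117 Crest.Agent.R096.Cp_298
  Crest.Agent.R096.Coh_184 Crest.Agent.R096.Gm_298 Crest.Agent.R096.Cpo_642
  Crest.Agent.R096.Gl_422 Crest.Agent.R096.Flb_422 Crest.Agent.R096.Sid_422
  Crest.Agent.R096.Vrt_422 Crest.Agent.R096.Dfo_539
open Crest.Agent.R096.Brk1_582 Crest.Agent.R096.Brk2_582 Crest.Agent.R096.Brk3_582
  Crest.Agent.R096.Brk5_582 Crest.Agent.R096.Bsp_628 Crest.Agent.R096.Init_543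
  Crest.Agent.R096.Bar_106 Crest.Agent.R096.Dib_438 Crest.Agent.R096.Lam_847
  Crest.Agent.R096.Ess5_95 Crest.Agent.R096.Bgf_4 Crest.Agent.R096.Ebr1_95
  Crest.Agent.R096.Ebr4_95 Crest.Agent.R096.Rop_441 Crest.Agent.R096.Nmd1_698
open Crest.Agent.R096.Mbf_337 (sb KJ Tiny gau Cores Fine)
open Crest.Agent.R096.SkC1_961 (E3 FoamD Hom3)
open Crest.Agent.R096.Frn_337 (Ti)
open Crest.Agent.R096.Frs_662 (slC)
open Crest.Agent.R096.Ess7_95 (KT Sh)
open Crest.Agent.R096.Dff_539 (vS)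
open Crest.Agent.R096.Bmf_416 (coT)
open Crest.Agent.R096.Vin_527 (sdm)

variable {δ κ0 R c0 : ℝ} {La Om : Set E3} {ι : Type} {Φ : FoamD δ κ0 R c0 La} {T : Tiling Om ι}
  {f g : E3 → E3} {κ1 κ2 μ : ℝ} {X : Set Φ.F} {J0 J V : Φ.F → Set ι}
  {ct ct' : Φ.F → ι} {A : Φ.F → E3 ≃ᵃ[ℝ] E3} {lam : Φ.F → ℝ} {z : Φ.F → E3}
  {θ : Φ.F → E3 → E3} {φ : Φ.F → E3 → ℝ} {r₀ : Φ.F → ℝ}
  {L : Φ.F → Finset ℝ} [Nonempty (JJ Φ L)] {hG : GF Φ r₀ T f L} {bp : JJ Φ L → E3}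
  {N' : BM Φ X → Set ℝ} {ρ1 ρ2 ρ3 ρ4 d : Φ.F → ℝ} {q₀ : BM Φ X → E3} {ε : BM Φ X → ℝ}
  {bm : BM Φ X → E3} {hGB : GFB Φ r₀ T f L (lRc Φ X μ ρ1 ρ3 d) ε}
  {v0F v1F : ∀ c, Φ.F → VxK T (KT T J X) c} {v0B v1B : ∀ c, BM Φ X → VxK T (KT T J X) c}
  {hLa : IsOpen La} {hC : Cores Φ T f κ1 κ2 X J0 J V ct A lam z θ φ}
  {n : Ti X → ℕ} {hn : ∀ c, 0 < n c} {r : JJ Φ L ⊕ BM Φ X → E3}
  {Sf : JJ Φ L ⊕ BM Φ X → Set E3}
  {Lv : ∀ c, Φ.F ⊕ BM Φ X → Lev T (frontier ((slC hLa hC n hn).K c)) (JJ Φ L ⊕ BM Φ X)}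
  {Tw : Twrs ((slC hLa hC n hn).sh fr3) (slC hLa hC n hn).n
    (outK (slC hLa hC n hn).hH (slC hLa hC n hn).dis (stB hGB bp bm) r)}
  {l0' : E3 → JJ Φ L ⊕ BM Φ X}

/-- the patch function of record -/
noncomputable abbrev gR (Φ : FoamD δ κ0 R c0 La) (X : Set Φ.F) (μ : ℝ) (m : BM Φ X) : E3 → ℝ :=
  gmf Φ (μ / 8) (1 / 2) (1 / 2 - 5 * μ / 16) m.am m.Zm

/-- `BZ` of record -/
theorem bz_rec (N : NumD δ κ0 R c0 κ2 μ κ1) (H : Hm f g Om La) (hLa : IsOpen La)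
    (hC : Cores Φ T f κ1 κ2 X J0 J V ct A lam z θ φ)
    (bar : BarOut Φ T f κ1 μ X J0 J V θ hG bp N' ρ1 ρ2 ρ3 ρ4 d q₀ ε bm hGB v0B v1B)
    (m : BM Φ X) : BZ Φ T f J0 J V θ m.co (gR Φ X μ m) (ρ1 m.co) (ρ2 m.co) (ρ3 m.co) (ρ4 m.co)
      (d m.co) 0 (1 + μ / 2) (μ / 1024) := by
  have hμ := N.hμ
  refine bz_mach hLa N.hδ N.hR H N.cn1 hC (fun c hc => (bar.rm c hc).2)
    (nm_rec hμ N.hμb (by linarith) le_rfl) m ?_ ?_
  · exact (N.om (bar.rm m.co m.co_notMem).1).trans (by linarith)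
  · exact N.om2 (by nlinarith [N.cn0, N.hκ])

/-- the foot `v0` is near the axis -/
theorem g_v0 (N : NumD δ κ0 R c0 κ2 μ κ1) (hLa : IsOpen La)
    (hC : Cores Φ T f κ1 κ2 X J0 J V ct A lam z θ φ)
    (bar : BarOut Φ T f κ1 μ X J0 J V θ hG bp N' ρ1 ρ2 ρ3 ρ4 d q₀ ε bm hGB v0B v1B)
    (m : BM Φ X) : gR Φ X μ m (θ m.co (v0B (coT m) m).1) ≤ μ / 1024 := by
  have hT := hC.tiny m.co m.co_notMem
  have h1 := gm_uu0 (l0 := μ / 8) (mm := 1 / 2) (ra := 1 / 2 - 5 * μ / 16) hLa (mo_pq m) N.l0 N.ra0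
    (th_mem hT (v0B (coT m) m).2.2) (bar.v0 (coT m) m rfl)
  rw [sub_self, abs_zero, zero_div, zero_add] at h1
  exact h1.trans (N.om2 (by nlinarith [N.cn0, N.hκ]))

/-- the foot `v1` is far from the axis -/
theorem g_v1 (N : NumD δ κ0 R c0 κ2 μ κ1) (hLa : IsOpen La)
    (hC : Cores Φ T f κ1 κ2 X J0 J V ct A lam z θ φ)
    (bar : BarOut Φ T f κ1 μ X J0 J V θ hG bp N' ρ1 ρ2 ρ3 ρ4 d q₀ ε bm hGB v0B v1B)
    (m : BM Φ X) : 2 ≤ gR Φ X μ m (θ m.co (v1B (coT m) m).1) := by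
  have hT := hC.tiny m.co m.co_notMem
  have hμ := N.hμ
  have h1 := gm_uu1 (l0 := μ / 8) (mm := 1 / 2) (ra := 1 / 2 - 5 * μ / 16) hLa (mo_pq m) N.l0 N.ra0
    (th_mem hT (v1B (coT m) m).2.2) (bar.v1 (coT m) m rfl)
  have h2 := N.om2 (r := (2 * Cn δ R + 1) * κ1) (by nlinarith [N.cn0, N.hκ])
  have h3 : (3 : ℝ) ≤ 1 / (μ / 8) := by
    rw [le_div_iff₀ N.l0]
    linarith [N.hμb]
  have h4 : gR Φ X μ m (θ m.co (v1B (coT m) m).1) =
      Gm (μ / 8) (1 / 2) (1 / 2 - 5 * μ / 16) m.am m.Zm (sb Φ (θ m.co (v1B (coT m) m).1)) := rfl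
  rw [h4]
  linarith [N.hμb]

/-- the exact points are not near the axis -/
theorem g_exact (N : NumD δ κ0 R c0 κ2 μ κ1) (hLa : IsOpen La) (m : BM Φ X) {q : E3}
    (hq : q ∈ frontier m.co.1.set)
    (h : 5 * μ / 32 < Fs (Nb Φ hLa m.co) m.am m.Zm (sb Φ q)) : 1 ≤ gR Φ X μ m q := by
  have hμ := N.hμ
  by_contra hcon
  push Not at hcon
  have h1 : Fm m.am m.Zm (sb Φ q) / (μ / 8) < 1 := (le_max_left _ _).trans_lt hcon
  have h2 : |sb Φ q m.am - 1 / 2| / (1 / 2 - 5 * μ / 16) < 1 := (le_max_right _ _).trans_lt hcon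
  rw [div_lt_one N.l0] at h1
  rw [div_lt_one N.ra0] at h2
  have h3 := abs_lt.1 h2
  rw [fs_eq_fm hLa (mo_pq m) (mo_p (mo_pq m)) (mo_m (mo_pq m)) hq (by linarith [h3.1])
    (by linarith [h3.2]) (by linarith [N.hμb])] at h
  linarith

section s2

variable (N : NumD δ κ0 R c0 κ2 μ κ1) (H : Hm f g Om La)
  (bar : BarOut Φ T f κ1 μ X J0 J V θ hG bp N' ρ1 ρ2 ρ3 ρ4 d q₀ ε bm hGB v0B v1B)
  (D : DIn (slC hLa hC n hn).hH (stB hGB bp bm) r Sf (nbA Φ X) (vS v0F v0B) (vS v1F v1B)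
    (uA Φ hLa X θ) (AA Φ X μ κ1) (BA Φ X μ))
  (lo : LevOut (Kc := (slC hLa hC n hn).K) (stB hGB bp bm) (nbA Φ X) (uA Φ hLa X θ)
    (AA Φ X μ κ1) (BA Φ X μ) Lv)
  (tt : TwOut (slC hLa hC n hn) fr3 (stB hGB bp bm) r (vS v0F v0B) (vS v1F v1B) Lv Tw)
include N H bar D lo tt

/-- the moved vertices are not near the axis -/
theorem g_rgn (m : BM Φ X) (v : (slC hLa hC n hn).Vx (coT m))
    (hv : Rgn ((slC hLa hC n hn).sh fr3 (coT m)) (vS v0F v0B (coT m) (Sum.inr m))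
      (vS v1F v1B (coT m) (Sum.inr m))
      (trc (slC hLa hC n hn).hH (slC hLa hC n hn).dis (stB hGB bp bm) r (coT m) (Sum.inr m))
      (exa fr3 (slC hLa hC n hn).hH (slC hLa hC n hn).dis (Lv (coT m) (Sum.inr m))) (Sum.inr m) v) :
    1 - μ / 64 ≤ gR Φ X μ m (θ m.co v.1) := by
  have hμ := N.hμ
  have hr := (bar.rm m.co m.co_notMem).2
  by_contra hno
  push Not at hno
  refine not_rgn_axis (κ := Ti X) (cf := fun k => k.1) (J0 := fun k => J0 k.1)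
    (J := fun k => J k.1) (V := fun k => V k.1) (θ := fun k => θ k.1) (φ := fun k => φ k.1)
    (h3 := fr3) (hH := (slC hLa hC n hn).hH) (hdis := (slC hLa hC n hn).dis) (k := coT m)
    (b' := Sum.inr m) (N := Nb Φ hLa m.co) (a := m.am) (Z := m.Zm) (p := pp m) (m := qq m)
    (z0 := 1 - μ / 64) (zb := 1) hLa N.hδ N.hR N.hκ N.cn1
    (fun k => hC.tiny k.1 k.2) lo (v0 := vS v0F v0B) (v1 := vS v1F v1B) (fun x => rfl) (mo_pq m)
    (mo_p (mo_pq m)) (mo_m (mo_pq m)) N.nm (by linarith)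
    (show μ / 8 * (1 - μ / 64) ≤ 5 * μ / 32 by nlinarith) ?_ ?_ ?_ (v := v) hno.le _ hv
  · have h1 := N.om2 (r := (3 * Cn δ R + 1) * κ1) (by nlinarith [N.cn0, N.hκ])
    linarith
  · exact (g_v0 N hLa hC bar m).trans (by linarith [N.hμb])
  · intro w hw hl hwf
    have hl' : (stB hGB bp bm).lab w = Sum.inr m := by
      rcases hj : (stB hGB bp bm).lab w with j | m'
      · rw [hj] at hl; cases hl
      · rw [hj] at hl
        exact congrArg Sum.inr (Sum.inr_injective hl)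
    have hε := bar.lv m
    obtain ⟨b1, b2, b3, b4⟩ := rad_bar (fun c hc => (bar.rm c hc).2) m hε
    obtain ⟨-, -, -, -, -, -, -, e4⟩ := bar.pos m w hw hl'
    obtain ⟨g1, g2⟩ := bar.lev m w hw hl'
    have hfr := hr.fr w hwf
    refine ⟨g1, ?_⟩
    rcases e4 with e4 | e4 | e4
    · linarith [hr.r12, hr.d0, hfr.1]
    · linarith [hr.d0, hfr.2]
    · exact hε.1.le.trans e4.ge

/-- **the labels of all barriers** -/
theorem exists_lmU [Nonempty (slC hLa hC n hn).T3.Cell]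
    (hnC : ∃ c, OutK (slC hLa hC n hn).T3 (slC hLa hC n hn).KK c) :
    ∃ lm : BM Φ X → Lm_117.QK (belK (slC hLa hC n hn).T3 (slC hLa hC n hn).KK) → ZMod 2,
      (∀ m, GLab (lmK fr3 (Lay_316.lay_sla hLa hC n hn).core (Sla.dis_KK (S := slC hLa hC n hn))
        hnC) (Gl_422.gp (s2 (slC hLa hC n hn) fr3 Tw l0') (Sum.inr m)) (lm m)) ∧
      (∀ m, ∀ v ∈ ZK (slC hLa hC n hn).T3 (slC hLa hC n hn).KK
        (Om ∩ f ⁻¹' {y | ga Φ (coT m).1 y ≤ ρ4 (coT m).1}), lm m v = 0) ∧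
      ∀ m, ∀ w ∈ (lmK fr3 (Lay_316.lay_sla hLa hC n hn).core
          (Sla.dis_KK (S := slC hLa hC n hn)) hnC).W1,
        ∀ p, (∀ c, ¬ P ((slC hLa hC n hn).T3.H p) ⊆ (slC hLa hC n hn).KK c) →
        w ∈ P ((slC hLa hC n hn).T3.H p) → ga Φ m.co (f w) ≤ ρ3 m.co + 8 * d m.co →
        gR Φ X μ m (Φ.Psi (f w)) ≤ 1 - μ / 16 →
        sdm (lmK fr3 (Lay_316.lay_sla hLa hC n hn).core (Sla.dis_KK (S := slC hLa hC n hn)) hnC)
          (s2 (slC hLa hC n hn) fr3 Tw l0') lm m w := by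
  have hμ := N.hμ
  have hμb := N.hμb
  have hK : TinyK X J (slC hLa hC n hn) := Frk_441.tinyK_of (fun k => rfl)
  have Xc := Frk_441.cplxS (S := slC hLa hC n hn) hC (fun k => rfl)
  have hon : ∀ w ∈ (s2 (slC hLa hC n hn) fr3 Tw l0').P,
      w ∈ (lmK fr3 (Lay_316.lay_sla hLa hC n hn).core (Sla.dis_KK (S := slC hLa hC n hn)) hnC).W1 :=
    fun w hw => mem_W1K.2 ⟨(s2_dim hw).1, (s2_dim hw).2, fun c => s2_not_int hw c⟩
  have key : ∀ m : BM Φ X, ∃ lm : Lm_117.QK (belK (slC hLa hC n hn).T3 (slC hLa hC n hn).KK) →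
      ZMod 2, GLab (lmK fr3 (Lay_316.lay_sla hLa hC n hn).core (Sla.dis_KK (S := slC hLa hC n hn))
        hnC) (Gl_422.gp (s2 (slC hLa hC n hn) fr3 Tw l0') (Sum.inr m)) lm ∧
      (∀ v ∈ ZK (slC hLa hC n hn).T3 (slC hLa hC n hn).KK
        (Om ∩ f ⁻¹' {y | ga Φ (coT m).1 y ≤ ρ4 (coT m).1}), lm v = 0) ∧
      ∀ w ∈ (lmK fr3 (Lay_316.lay_sla hLa hC n hn).core
          (Sla.dis_KK (S := slC hLa hC n hn)) hnC).W1,
        ∀ p, (∀ c, ¬ P ((slC hLa hC n hn).T3.H p) ⊆ (slC hLa hC n hn).KK c) →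
        w ∈ P ((slC hLa hC n hn).T3.H p) → ga Φ m.co (f w) ≤ ρ3 m.co + 8 * d m.co →
        gR Φ X μ m (Φ.Psi (f w)) ≤ 1 - μ / 16 →
        side (lmK fr3 (Lay_316.lay_sla hLa hC n hn).core (Sla.dis_KK (S := slC hLa hC n hn)) hnC)
          (s2 (slC hLa hC n hn) fr3 Tw l0') (Sum.inr m) lm w = 1 := by
    intro m
    have hc := m.co_notMem
    have hr := (bar.rm m.co hc).2
    have hd0 := hr.d0
    have hZ := bz_rec N H hLa hC bar m
    have hT := hC.tiny m.co hc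
    obtain ⟨b1, b2, b3, b4⟩ := rad_bar (fun c hc => (bar.rm c hc).2) m (bar.lv m)
    have hε1 : 1 < ε m := (bar.lv m).1
    have hε2 : ε m ≤ 1 + μ / 16 := (bar.lv m).2.le.trans (hiB_le _ _)
    have hp : ∀ w ∈ (stB hGB bp bm).P, (stB hGB bp bm).lab w = Sum.inr m →
        f w ∈ SB1 Φ m.co (gR Φ X μ m) (rB ρ1 ρ3 d m.co - Bgf_4.hB ρ1 ρ3 d m.co * ε m)
          (rB ρ1 ρ3 d m.co + Bgf_4.hB ρ1 ρ3 d m.co * ε m) (ε m) := fun w hw hl => by
      obtain ⟨-, -, -, -, e⟩ := bar.pos m w hw hl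
      exact sb1_of hLa hC (fun c hc => (bar.rm c hc).2) m (bar.lv m) e
    have hnb' : ∀ k', nbA Φ X k' (Sum.inr m) → k' = coT m := fun k' h => (show coT m = k' from h).symm
    obtain ⟨lm, h1, h2, h3, -⟩ := sdm_s2 (S := slC hLa hC n hn) (l0 := l0')
      (hH := (Lay_316.lay_sla hLa hC n hn).core) (hne := hnC) hLa H hC hc hZ hK Xc D lo tt hon
      (i := Sum.inr m) (fun j hj => by
        rcases j with j | m'
        · cases hj
        · exact congrArg Sum.inr (Sum.inr_injective hj))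
      (k := coT m) rfl rfl hnb' hp (by linarith) (by linarith [hr.r34])
      (b := 1 - μ / 32) (b' := 1 + μ / 4) (by linarith) (by linarith) (by linarith)
      (by linarith) ((g_v0 N hLa hC bar m).trans (by linarith))
      (le_trans (by linarith) (g_v1 N hLa hC bar m)) (r := ρ1 m.co + 6 * d m.co)
      (r' := ρ3 m.co + 10 * d m.co) (by linarith) (by linarith [hr.r12]) (by linarith [hr.r12, hr.r23])
      (by linarith [hr.r34]) (by linarith) (by linarith [hr.r12]) (by linarith) (by linarith)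
    refine ⟨lm, h1, h2, fun w hw p hout hwp hga hgm => ?_⟩
    refine side_low (S := slC hLa hC n hn) (l0 := l0')
      (hH := (Lay_316.lay_sla hLa hC n hn).core) (hne := hnC) hLa H hC hc hZ hK D lo tt
      (i := Sum.inr m) (k := coT m) rfl hnb' hp (by linarith [hr.r12]) (by linarith [hr.r34])
      (z1 := 1 - μ / 64) (by linarith) (fun x hx hx1 _ => ?_) (g_rgn N H bar D lo tt m)
      (b := 1 - μ / 32) (r := ρ1 m.co + 6 * d m.co) (r' := ρ3 m.co + 10 * d m.co) (by linarith)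
      (by linarith [hr.r12]) (by linarith [hr.r34]) h1 h3 (g0 := ρ3 m.co + 8 * d m.co)
      (zz := 1 - μ / 16) (by linarith) (by linarith) (by linarith) (by linarith) hw hout hwp
      ⟨w, Sla.P3_sub p hwp, ?_, hga, hgm⟩
    · have h5 := g_exact N hLa m (q := θ m.co x) (th_mem hT hx) hx1
      linarith
    · -- the gauge of a point of an ordinary cell
      have hwt : w ∈ P (T.H p.tile) := Sla.P3_sub p hwp
      rcases Sla.tile_or (slC hLa hC n hn) p.tile with ho | ⟨c', hc'⟩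
      · have h5 := ga_ge hLa H hC hc hZ (T.sub _ hwt)
          (notInt_tile (S := slC hLa hC n hn) hLa H hC hc hZ ⟨coT m, rfl⟩ ho hwt)
        linarith [hr.r12]
      · have hV : p.tile ∈ V m.co := hr.v p.tile ⟨w, hwt, by linarith [hr.r34]⟩
        have hJ' : p.tile ∈ J c'.1 := Slt_471.sub_KJ_iff.1 hc'
        have hcc : c'.1 = m.co := by
          by_contra hne
          exact Set.disjoint_left.1 (hC.disj c'.1 m.co hne)
            ((hC.tiny c'.1 c'.2).sub hJ') hV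
        obtain ⟨v, j, g1, g2, -, -, g5, -⟩ := Rop_441.exists_col (S := slC hLa hC n hn) hout hc'
          (q := edC (slC hLa hC n hn).T3 w) (by
            rw [edC_set (mem_W1K.1 hw).1]
            exact (slC hLa hC n hn).T3.cc_sub_tile hwp)
        have g1' : v ∈ frontier (KJ T (J m.co)) := by rw [← hcc]; exact g1
        have g6 := hr.fr v g1'
        have g7 := abs_le.1 (hr.tile_osc g5 (by linarith [hr.r12]) (by linarith [hr.r34]) hwt).1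
        linarith [g7.2, hr.r12]
  choose lm h1 h2 h3 using key
  exact ⟨lm, h1, h2, fun m w hw p hout hwp g1 g2 => h3 m w hw p hout hwp g1 g2⟩

end s2

end Crest.Agent.R096.Sde_422
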