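import Crest.Agent.R096.Nbr1_896

-- ▼ part R096/Nbr2_896
section

/-!
# Row 96, p ≤ 2 (helper896), leaf NBR, part 2: outer pieces and cubes at the walls
-/

set_option autoImplicit false
set_option linter.unusedSectionVars false

open Set Metric Topology Filter

namespace Crest.Agent.R096.Nbr_896

open Crest.Agent.R096.Msh_715 Crest.Agent.R096.Msh_715.Tiling Crest.Agent.R096.Mal_874
open Crest.Agent.R096.Msh_810 Crest.Agent.R096.Cut_874 Crest.Agent.R096.Msb_432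

variable {n : ℕ} {E : Type*} [NormedAddCommGroup E] [NormedSpace ℝ E]
variable [NeZero n] {J : Type*} (M : MD E n J) {k : J → ℕ} (hk : M.Sc k) (a : Fin n → ℝ)
  {v : J → E} (hv : M.Adm v)

include hv in
/-- a tile of the outer mesh at a wall has the scale of the wall -/
theorem zone_par {j : J} {y : E} (hy : y ∈ frontier (M.Bk v j).N) {τ : Top (M.ad hk a hv).D}
    (hτ : y ∈ P ((M.ad hk a hv).T0.H τ)) : τ.1.1.k = k j := by
  have hp : (0 : ℝ) < 5 / 2 ^ k j := by positivity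
  refine AD.zone_k (M := M.ad hk a hv) (j := j) ?_ hτ
  show infDist (M.φ y) (M.W j) < 5 / 2 ^ k j
  rw [infDist_zero_of_mem (MD.wall_mem hv j hy)]
  exact hp

/-- a tile of the outer mesh meets at most one wall -/
theorem zone_one {j l : J} {y : E} (hy : y ∈ frontier (M.Bk v j).N) {τ : Top (M.ad hk a hv).D}
    (hτ : y ∈ P ((M.ad hk a hv).T0.H τ))
    (hl : (P ((M.ad hk a hv).T0.H τ) ∩ frontier (M.Bk v l).N).Nonempty) : l = j := by
  have hp : (0 : ℝ) ≤ 3 / 2 ^ k j := by positivity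
  refine AD.zone_wall (M := M.ad hk a hv) hτ ?_ hl
  show infDist (M.φ y) (M.W j) ≤ 3 / 2 ^ k j
  rw [infDist_zero_of_mem (MD.wall_mem hv j hy)]
  exact hp

/-- the number of planes which cut a tile -/
theorem AF_card {c1 : ℕ} (hc1 : ∀ j, Cn (M.Q j).ψ M.φ c1) (τ : Top (M.ad hk a hv).D) :
    (AF (M.ad hk a hv).T0 (M.ad hk a hv).ψ (M.ad hk a hv).a' (M.ad hk a hv).κ
      (M.ad hk a hv).Z τ).card ≤ n * (2 * c1 + 2) := by
  classical
  by_cases hne : (AF (M.ad hk a hv).T0 (M.ad hk a hv).ψ (M.ad hk a hv).a' (M.ad hk a hv).κ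
      (M.ad hk a hv).Z τ).Nonempty
  swap
  · rw [Finset.not_nonempty_iff_eq_empty] at hne
    rw [hne, Finset.card_empty]
    exact Nat.zero_le _
  obtain ⟨h0, hh0⟩ := hne
  obtain ⟨j, ⟨y0, hy0, hy0f⟩, -⟩ := of_mem_AF hh0
  have hy0f' : y0 ∈ frontier (M.Bk v j).N := hy0f
  have hkj : τ.1.1.k = k j := zone_par M hk a hv hy0f' hy0
  set Q := M.Bk v j with hQ
  set pm : Fin n → ℝ := fun m => ps Q.a' Q.kc (Q.ψ y0) m with hpm
  set S : Finset (Σ _ : Fin n, ℤ) :=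
    Finset.univ.sigma (fun m : Fin n => Finset.Icc (⌊pm m⌋ - c1) (⌊pm m⌋ + c1 + 1)) with hS
  have hsub : AF (M.ad hk a hv).T0 (M.ad hk a hv).ψ (M.ad hk a hv).a' (M.ad hk a hv).κ
      (M.ad hk a hv).Z τ ⊆ S.image (fun q : (Σ _ : Fin n, ℤ) =>
        ((co Q.ψ q.1, Q.a' q.1 + (q.2 : ℝ) / 2 ^ Q.kc) : (E →L[ℝ] ℝ) × ℝ)) := by
    intro h hh
    obtain ⟨l, ⟨y1, hy1, hy1f⟩, m, t, rfl, y, hy, e⟩ := of_mem_AF hh
    have hlj : l = j := zone_one M hk a hv hy0f' hy0 ⟨y1, hy1, hy1f⟩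
    subst hlj
    refine Finset.mem_image.2 ⟨⟨m, t⟩, ?_, rfl⟩
    rw [hS, Finset.mem_sigma]
    refine ⟨Finset.mem_univ _, ?_⟩
    have e' : ps Q.a' Q.kc (Q.ψ y) m = t := by
      have e2 : Q.ψ y m = Q.a' m + t / 2 ^ Q.kc := e
      unfold ps
      rw [e2]
      field_simp
      ring
    have h1 : |ps Q.a' Q.kc (Q.ψ y) m - ps Q.a' Q.kc (Q.ψ y0) m| ≤
        2 ^ Q.kc * dist (Q.ψ y) (Q.ψ y0) := ps_dist m
    have h2 : dist (Q.ψ y) (Q.ψ y0) ≤ c1 * dist (M.φ y) (M.φ y0) := hc1 l y y0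
    have h3 : dist (M.φ y) (M.φ y0) ≤ 1 / 2 ^ k l := by
      have h4 := dist_cube ((AD.tile_T0 (M := M.ad hk a hv) τ).1 hy)
        ((AD.tile_T0 (M := M.ad hk a hv) τ).1 hy0)
      rwa [hkj] at h4
    have h5 : (1 : ℝ) / 2 ^ k l ≤ 1 / 2 ^ Q.kc :=
      one_div_le_one_div_of_le (by positivity) (pow_le_pow_right₀ (by norm_num) (hk.kc l))
    have h6 : 2 ^ Q.kc * dist (Q.ψ y) (Q.ψ y0) ≤ c1 := by
      calc (2 : ℝ) ^ Q.kc * dist (Q.ψ y) (Q.ψ y0) ≤ 2 ^ Q.kc * (c1 * (1 / 2 ^ Q.kc)) := by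
            refine mul_le_mul_of_nonneg_left (h2.trans ?_) (by positivity)
            exact mul_le_mul_of_nonneg_left (h3.trans h5) (Nat.cast_nonneg _)
        _ = c1 := by field_simp
    rw [e'] at h1
    have h7 := abs_le.1 (h1.trans h6)
    have h8 := Int.floor_le (pm m)
    have h9 := Int.lt_floor_add_one (pm m)
    have h10 : pm m = ps Q.a' Q.kc (Q.ψ y0) m := rfl
    rw [← h10] at h7
    rw [Finset.mem_Icc]
    constructor
    · have : ((⌊pm m⌋ - c1 : ℤ) : ℝ) ≤ t := by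
        push_cast
        linarith [h7.1]
      exact_mod_cast this
    · have : (t : ℝ) ≤ ((⌊pm m⌋ + c1 + 1 : ℤ) : ℝ) := by
        push_cast
        linarith [h7.2]
      exact_mod_cast this
  refine (Finset.card_le_card hsub).trans (Finset.card_image_le.trans ?_)
  rw [hS, Finset.card_sigma]
  have h2 : ∀ m : Fin n, (Finset.Icc (⌊pm m⌋ - c1) (⌊pm m⌋ + c1 + 1)).card = 2 * c1 + 2 := by
    intro m
    rw [Int.card_Icc]
    omega
  rw [Finset.sum_congr rfl fun m _ => h2 m, Finset.sum_const, Finset.card_univ, Fintype.card_fin,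
    smul_eq_mul]

/-- outer pieces near `x` of scale about `κ` -/
def OS (x : E) (κ r : ℕ) : Set (M.OIx hk a hv) :=
  {q | κ ≤ q.1.par.1.1.k + 1 ∧ q.1.par.1.1.k ≤ κ + 1 ∧
    ∃ y ∈ P ((M.mesh hk a hv).H (Sum.inl q)), dist (M.φ y) (M.φ x) ≤ r / 2 ^ κ}

/-- bound for the number of outer pieces -/
def nO (n c1 r : ℕ) : ℕ := 3 * (4 * r + 3) ^ n * 2 ^ (n * (2 * c1 + 2))

theorem OS_card {c1 : ℕ} (hc1 : ∀ j, Cn (M.Q j).ψ M.φ c1) (x : E) (κ r : ℕ) :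
    (OS M hk a hv x κ r).Finite ∧ (OS M hk a hv x κ r).ncard ≤ nO n c1 r := by
  obtain ⟨h1, h2⟩ := tile_card (M.ad hk a hv).D (M.φ x) κ r
  set S := {τ : Top (M.ad hk a hv).D | κ ≤ τ.1.1.k + 1 ∧ τ.1.1.k ≤ κ + 1 ∧
      ∃ y ∈ Cu (M.ad hk a hv).D.a τ.1.1.k τ.1.1.z, dist y (M.φ x) ≤ r / 2 ^ κ} with hS
  have hfin : (⋃ τ ∈ S, {p : CutIx (M.ad hk a hv).T0 (AF (M.ad hk a hv).T0 (M.ad hk a hv).ψ
      (M.ad hk a hv).a' (M.ad hk a hv).κ (M.ad hk a hv).Z) | p.par = τ}).Finite :=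
    h1.biUnion fun τ _ => (pieces_card τ).1
  have hmaps : ∀ q ∈ OS M hk a hv x κ r, q.1 ∈ (⋃ τ ∈ S, {p : CutIx (M.ad hk a hv).T0
      (AF (M.ad hk a hv).T0 (M.ad hk a hv).ψ (M.ad hk a hv).a' (M.ad hk a hv).κ
        (M.ad hk a hv).Z) | p.par = τ}) := by
    rintro q ⟨hq1, hq2, y, hy, hyx⟩
    refine mem_iUnion₂.2 ⟨q.1.par, ⟨hq1, hq2, M.φ y, ?_, hyx⟩, rfl⟩
    exact (AD.tile_T0 (M := M.ad hk a hv) _).1 (cut_tile_sub (hA := AF_ne) q.1 hy)
  have hinj : InjOn (fun q : M.OIx hk a hv => q.1) (OS M hk a hv x κ r) :=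
    Subtype.val_injective.injOn
  refine ⟨Set.Finite.of_injOn (fun q hq => hmaps q hq) hinj hfin, ?_⟩
  refine (Set.ncard_le_ncard_of_injOn _ hmaps hinj hfin).trans ?_
  refine (Ca_855.Regs.ncard_biUnion_le h1 (n := 2 ^ (n * (2 * c1 + 2))) fun τ _ => ?_).trans
    (Nat.mul_le_mul_right _ h2)
  exact (pieces_card τ).2.trans (Nat.pow_le_pow_right (by norm_num) (AF_card M hk a hv hc1 τ))

/-- inner cubes of the scale of the wall near `x` -/
def IS (j : J) (x : E) (r : ℕ) : Set (M.IIx hk a hv j) :=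
  {i | ∃ τ, i.1 = Sum.inl τ ∧ τ.1.1.1.k = k j ∧
    ∃ y ∈ P ((M.mesh hk a hv).H (Sum.inr ⟨j, i⟩)), dist ((M.Q j).ψ y) ((M.Q j).ψ x) ≤ r / 2 ^ k j}

/-- bound for the number of inner cubes -/
def nI (n r : ℕ) : ℕ := 3 * (4 * r + 3) ^ n

theorem IS_card (j : J) (x : E) (r : ℕ) :
    (IS M hk a hv j x r).Finite ∧ (IS M hk a hv j x r).ncard ≤ nI n r := by
  obtain ⟨h1, h2⟩ := tile_card ((M.Bk v j).D (k j) (hk.kc j)) ((M.Q j).ψ x) (k j) r
  set S := {τ : Top ((M.Bk v j).D (k j) (hk.kc j)) | k j ≤ τ.1.1.k + 1 ∧ τ.1.1.k ≤ k j + 1 ∧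
      ∃ y ∈ Cu ((M.Bk v j).D (k j) (hk.kc j)).a τ.1.1.k τ.1.1.z,
        dist y ((M.Q j).ψ x) ≤ r / 2 ^ k j} with hS
  have key : ∀ i ∈ IS M hk a hv j x r, ∃ σ ∈ S, ∃ h, i.1 = Sum.inl ⟨σ, h⟩ := by
    rintro i ⟨τ, hτ, hτk, y, hy, hyx⟩
    refine ⟨τ.1, ⟨by omega, by omega, (M.Q j).ψ y, ?_, hyx⟩, τ.2, hτ⟩
    have hy' : y ∈ P ((M.S hk (v := v) j).H i.1) := hy
    rw [hτ] at hy'
    exact ((M.Bk v j).tile_T0 (k j) (hk.kc j)).1 hy'
  classical
  let g : M.IIx hk a hv j → Top ((M.Bk v j).D (k j) (hk.kc j)) ⊕ Unit := fun i =>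
    if h : i ∈ IS M hk a hv j x r then Sum.inl (key i h).choose else Sum.inr ()
  have hg : ∀ i (h : i ∈ IS M hk a hv j x r), g i = Sum.inl (key i h).choose := fun i h => dif_pos h
  have hmaps : ∀ i ∈ IS M hk a hv j x r, g i ∈ Sum.inl '' S := by
    intro i hi
    rw [hg i hi]
    exact mem_image_of_mem _ (key i hi).choose_spec.1
  have hinj : InjOn g (IS M hk a hv j x r) := by
    intro i hi i' hi' e
    rw [hg i hi, hg i' hi'] at e
    have e' := Sum.inl.inj e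
    obtain ⟨h3, h4⟩ := (key i hi).choose_spec.2
    obtain ⟨h5, h6⟩ := (key i' hi').choose_spec.2
    apply Subtype.ext
    rw [h4, h6]
    congr 1
    exact Subtype.ext e'
  have hfin : ((Sum.inl '' S : Set (Top ((M.Bk v j).D (k j) (hk.kc j)) ⊕ Unit))).Finite :=
    h1.image _
  refine ⟨Set.Finite.of_injOn (fun i hi => hmaps i hi) hinj hfin, ?_⟩
  refine (Set.ncard_le_ncard_of_injOn _ hmaps hinj hfin).trans ?_
  rw [Set.ncard_image_of_injective _ Sum.inl_injective]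
  exact h2

end Crest.Agent.R096.Nbr_896
end

-- ▼ part R096/Nbr3_896
section

/-!
# Row 96, p ≤ 2 (helper896), leaf NBR, part 3: the number of tiles which touch a tile of `meshS`
-/

set_option autoImplicit false
set_option linter.unusedSectionVars false

open Set Metric Topology Filter

namespace Crest.Agent.R096.Nbr_896

open Crest.Agent.R096.Msh_715 Crest.Agent.R096.Msh_715.Tiling Crest.Agent.R096.Mal_874
open Crest.Agent.R096.Msh_810 Crest.Agent.R096.Cut_874 Crest.Agent.R096.Msb_432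
open Crest.Agent.R096.Gsm_432 (star)

section

variable {n : ℕ} {E : Type*} [NormedAddCommGroup E] [NormedSpace ℝ E]
variable [NeZero n] {J : Type*} (M : MD E n J) {k : J → ℕ} (hk : M.Sc k) (a : Fin n → ℝ)
  {v : J → E} (hv : M.Adm v)

/-- a bound for the star of a tile which touches no unit cube of a core -/
theorem star_le {t : {t // t ∉ cores M hk a hv} ⊕ CIx M}
    {A0 : Set (M.OIx hk a hv ⊕ Σ j, M.IIx hk a hv j)} (hA : A0.Finite)
    (h : ∀ s ∈ star (meshS M hk a hv) t, ∃ s0 : {t // t ∉ cores M hk a hv},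
      s = Sum.inl s0 ∧ s0.1 ∈ A0) : (star (meshS M hk a hv) t).ncard ≤ A0.ncard := by
  classical
  let f : {t // t ∉ cores M hk a hv} ⊕ CIx M → Option (M.OIx hk a hv ⊕ Σ j, M.IIx hk a hv j) :=
    Sum.elim (fun s0 => some s0.1) (fun _ => none)
  have hmaps : ∀ s ∈ star (meshS M hk a hv) t, f s ∈ some '' A0 := by
    intro s hs
    obtain ⟨s0, rfl, hs0⟩ := h s hs
    exact ⟨s0.1, hs0, rfl⟩
  have hinj : InjOn f (star (meshS M hk a hv) t) := by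
    intro s hs s' hs' e
    obtain ⟨s0, rfl, -⟩ := h s hs
    obtain ⟨s0', rfl, -⟩ := h s' hs'
    have e' : some s0.1 = some s0'.1 := e
    rw [Subtype.ext (Option.some.inj e')]
  have h1 := Set.ncard_le_ncard_of_injOn f hmaps hinj (hA.image _)
  rwa [Set.ncard_image_of_injective _ (Option.some_injective _)] at h1

/-- **outer tiles** -/
theorem star_outer {c1 : ℕ} (hc1 : ∀ j, Cn (M.Q j).ψ M.φ c1) (p : M.OIx hk a hv)
    (ht : Sum.inl p ∉ cores M hk a hv) :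
    (star (meshS M hk a hv) (Sum.inl ⟨Sum.inl p, ht⟩)).ncard ≤ nO n c1 1 + nI n c1 := by
  obtain ⟨x, hx⟩ := (M.mesh hk a hv).ne (Sum.inl p)
  have hxP : x ∈ P ((M.mesh hk a hv).H (Sum.inl p)) := I_sub_P _ hx
  have hsub : ∀ q : M.OIx hk a hv, P ((M.mesh hk a hv).H (Sum.inl q)) ⊆
      P ((M.ad hk a hv).T0.H q.1.par) := fun q => cut_tile_sub (hA := AF_ne) q.1
  have hdist : ∀ y ∈ P ((M.mesh hk a hv).H (Sum.inl p)),
      dist (M.φ y) (M.φ x) ≤ 1 / 2 ^ p.1.par.1.1.k := fun y hy =>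
    dist_cube ((AD.tile_T0 (M := M.ad hk a hv) _).1 (hsub p hy))
      ((AD.tile_T0 (M := M.ad hk a hv) _).1 (hsub p hxP))
  have hout : ∀ q : M.OIx hk a hv, (P ((M.mesh hk a hv).H (Sum.inl q)) ∩
      P ((M.mesh hk a hv).H (Sum.inl p))).Nonempty → q ∈ OS M hk a hv x p.1.par.1.1.k 1 := by
    rintro q ⟨y, hyq, hyp⟩
    have h1 : q.1.par ∈ (tiling M.φ (outD M.D0 k M.W a)).at_ y := hsub q hyq
    have h2 : p.1.par ∈ (tiling M.φ (outD M.D0 k M.W a)).at_ y := hsub p hyp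
    refine ⟨(tile_k_le h2).trans (K_le_succ (mem_at.1 h1)),
      (tile_k_le h1).trans (K_le_succ (mem_at.1 h2)), y, hyq, ?_⟩
    rw [Nat.cast_one]
    exact hdist y hyp
  by_cases hin : ∃ (l : J) (i : M.IIx hk a hv l) (y : E),
      y ∈ P ((M.mesh hk a hv).H (Sum.inr ⟨l, i⟩)) ∧ y ∈ P ((M.mesh hk a hv).H (Sum.inl p))
  · obtain ⟨l, i0, y0, hy0i, hy0p⟩ := hin
    have hf0 : y0 ∈ frontier (M.Bk v l).N := M.outer_touch hk a hv p hy0p (i0.2 hy0i)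
    have hkl : p.1.par.1.1.k = k l := zone_par M hk a hv hf0 (hsub p hy0p)
    obtain ⟨f1, g1⟩ := OS_card M hk a hv hc1 x p.1.par.1.1.k 1
    obtain ⟨f2, g2⟩ := IS_card M hk a hv l x c1
    refine (star_le M hk a hv (A0 := Sum.inl '' OS M hk a hv x p.1.par.1.1.k 1 ∪
      (fun i => Sum.inr ⟨l, i⟩) '' IS M hk a hv l x c1) ((f1.image _).union (f2.image _)) ?_).trans
      ((Set.ncard_union_le _ _).trans (add_le_add ?_ ?_))
    · rintro (⟨q | ⟨l', i⟩, hq⟩ | c) hs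
      · exact ⟨_, rfl, Or.inl ⟨q, hout q hs, rfl⟩⟩
      · obtain ⟨y, hyi, hyp⟩ := hs
        have hyi' : y ∈ P ((M.mesh hk a hv).H (Sum.inr ⟨l', i⟩)) := hyi
        have hyp' : y ∈ P ((M.mesh hk a hv).H (Sum.inl p)) := hyp
        have hf : y ∈ frontier (M.Bk v l').N := M.outer_touch hk a hv p hyp' (i.2 hyi')
        obtain rfl : l' = l := zone_one M hk a hv hf0 (hsub p hy0p) ⟨y, hsub p hyp', hf⟩
        refine ⟨_, rfl, Or.inr ⟨i, ?_, rfl⟩⟩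
        obtain ⟨τ, hτ, hτk⟩ := (M.Bk v l').wall_tile (k l') (hk.kc l') (t := i.1) (s := i.1)
          ⟨y, hyi', hf⟩ ⟨y, hyi', hyi'⟩
        refine ⟨τ, hτ, hτk, y, hyi', ?_⟩
        refine (hc1 l' y x).trans ?_
        have h3 := hdist y hyp'
        rw [hkl] at h3
        calc (c1 : ℝ) * dist (M.φ y) (M.φ x) ≤ c1 * (1 / 2 ^ k l') :=
              mul_le_mul_of_nonneg_left h3 (Nat.cast_nonneg _)
          _ = c1 / 2 ^ k l' := by ring
      · refine absurd (show (P (cubH M v c) ∩ P ((M.mesh hk a hv).H (Sum.inl p))).Nonempty from hs)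
          (outer_off M hk a hv p c)
    · exact (Set.ncard_image_le f1).trans g1
    · exact (Set.ncard_image_le f2).trans g2
  · obtain ⟨f1, g1⟩ := OS_card M hk a hv hc1 x p.1.par.1.1.k 1
    refine (star_le M hk a hv (A0 := Sum.inl '' OS M hk a hv x p.1.par.1.1.k 1)
      (f1.image _) ?_).trans (((Set.ncard_image_le f1).trans g1).trans (Nat.le_add_right _ _))
    rintro (⟨q | ⟨l', i⟩, hq⟩ | c) hs
    · exact ⟨_, rfl, ⟨q, hout q hs, rfl⟩⟩
    · obtain ⟨y, hyi, hyp⟩ := hs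
      exact absurd ⟨l', i, y, hyi, hyp⟩ hin
    · refine absurd (show (P (cubH M v c) ∩ P ((M.mesh hk a hv).H (Sum.inl p))).Nonempty from hs)
        (outer_off M hk a hv p c)

/-- **inner tiles at the wall** -/
theorem star_wall {c0 c1 : ℕ} (hc0 : ∀ j, Cn M.φ (M.Q j).ψ c0) (hc1 : ∀ j, Cn (M.Q j).ψ M.φ c1)
    {j : J} (i : M.IIx hk a hv j) (ht : Sum.inr ⟨j, i⟩ ∉ cores M hk a hv)
    (hw : (P ((M.mesh hk a hv).H (Sum.inr ⟨j, i⟩)) ∩ frontier (M.Bk v j).N).Nonempty) :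
    (star (meshS M hk a hv) (Sum.inl ⟨Sum.inr ⟨j, i⟩, ht⟩)).ncard ≤ nO n c1 c0 + nI n 1 := by
  have hw' : (P (((M.Bk v j).T (k j) (hk.kc j)).H i.1) ∩ frontier (M.Bk v j).N).Nonempty := hw
  obtain ⟨x, hx, hxf⟩ := id hw
  have hx' : x ∈ P (((M.Bk v j).T (k j) (hk.kc j)).H i.1) := hx
  obtain ⟨σ, hσ, hσk⟩ := (M.Bk v j).wall_tile (k j) (hk.kc j) (t := i.1) (s := i.1)
    hw' ⟨x, hx', hx'⟩
  have hdist : ∀ y ∈ P ((M.mesh hk a hv).H (Sum.inr ⟨j, i⟩)),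
      dist ((M.Q j).ψ y) ((M.Q j).ψ x) ≤ 1 / 2 ^ k j := by
    intro y hy
    have hy' : y ∈ P (((M.Bk v j).T (k j) (hk.kc j)).H i.1) := hy
    rw [hσ] at hy' hx'
    have h1 := dist_cube (((M.Bk v j).tile_T0 (k j) (hk.kc j)).1 hy')
      (((M.Bk v j).tile_T0 (k j) (hk.kc j)).1 hx')
    rwa [hσk] at h1
  obtain ⟨f1, g1⟩ := OS_card M hk a hv hc1 x (k j) c0
  obtain ⟨f2, g2⟩ := IS_card M hk a hv j x 1
  refine (star_le M hk a hv (A0 := Sum.inl '' OS M hk a hv x (k j) c0 ∪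
    (fun i => Sum.inr ⟨j, i⟩) '' IS M hk a hv j x 1) ((f1.image _).union (f2.image _)) ?_).trans
    ((Set.ncard_union_le _ _).trans (add_le_add ?_ ?_))
  · rintro (⟨q | ⟨l, i'⟩, hq⟩ | c) hs
    · obtain ⟨y, hyq, hyi⟩ := hs
      have hyq' : y ∈ P ((M.mesh hk a hv).H (Sum.inl q)) := hyq
      have hyi' : y ∈ P ((M.mesh hk a hv).H (Sum.inr ⟨j, i⟩)) := hyi
      have hf : y ∈ frontier (M.Bk v j).N := M.outer_touch hk a hv q hyq' (i.2 hyi')
      have hqk : q.1.par.1.1.k = k j :=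
        zone_par M hk a hv hf (cut_tile_sub (hA := AF_ne) q.1 hyq')
      refine ⟨_, rfl, Or.inl ⟨q, ⟨by omega, by omega, y, hyq', ?_⟩, rfl⟩⟩
      refine (hc0 j y x).trans ?_
      calc (c0 : ℝ) * dist ((M.Q j).ψ y) ((M.Q j).ψ x) ≤ c0 * (1 / 2 ^ k j) :=
            mul_le_mul_of_nonneg_left (hdist y hyi') (Nat.cast_nonneg _)
        _ = c0 / 2 ^ k j := by ring
    · obtain ⟨y, hyl, hyi⟩ := hs
      have hyl' : y ∈ P ((M.mesh hk a hv).H (Sum.inr ⟨l, i'⟩)) := hyl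
      have hyi' : y ∈ P ((M.mesh hk a hv).H (Sum.inr ⟨j, i⟩)) := hyi
      have hlj : l = j := by
        by_contra hne
        exact Set.disjoint_left.1 ((M.ad hk a hv).dis l j hne) (i'.2 hyl') (i.2 hyi')
      subst hlj
      refine ⟨_, rfl, Or.inr ⟨i', ?_, rfl⟩⟩
      obtain ⟨τ, hτ, hτk⟩ := (M.Bk v l).wall_tile (k l) (hk.kc l) (t := i.1) (s := i'.1)
        hw' ⟨y, hyl', hyi'⟩
      refine ⟨τ, hτ, hτk, y, hyl', ?_⟩
      rw [Nat.cast_one]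
      exact hdist y hyi'
    · exfalso
      have hs' : (P (cubH M v c) ∩ P ((M.mesh hk a hv).H (Sum.inr ⟨j, i⟩))).Nonempty := hs
      obtain rfl := inner_same M hk a hv hs'
      obtain ⟨y, hy1, hy2⟩ := hs'
      have hx3 := bp_dist (M.Bk v c.1) (Kc_sub_bp _ (cubH_sub c hy1))
      have h1 := hdist y hy2
      rw [(M.Bk v c.1).frontier_N] at hxf
      have h2 : infDist ((M.Bk v c.1).ψ y) (M.Bk v c.1).W ≤
          infDist ((M.Bk v c.1).ψ x) (M.Bk v c.1).W + dist ((M.Bk v c.1).ψ y) ((M.Bk v c.1).ψ x) :=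
        infDist_le_infDist_add_dist
      rw [infDist_zero_of_mem (show (M.Bk v c.1).ψ x ∈ (M.Bk v c.1).W from hxf), zero_add] at h2
      have h3 : (1 : ℝ) / 2 ^ k c.1 ≤ 1 / 2 ^ (M.Bk v c.1).kc :=
        one_div_le_one_div_of_le (by positivity)
          (pow_le_pow_right₀ (by norm_num) (hk.kc c.1))
      have h4 : (0 : ℝ) < 1 / 2 ^ (M.Bk v c.1).kc := by positivity
      have h5 : (7 : ℝ) / 2 ^ (M.Bk v c.1).kc = 7 * (1 / 2 ^ (M.Bk v c.1).kc) := by ring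
      rw [h5] at hx3
      have h6 : dist ((M.Bk v c.1).ψ y) ((M.Bk v c.1).ψ x) ≤ 1 / 2 ^ k c.1 := h1
      linarith
  · exact (Set.ncard_image_le f1).trans g1
  · exact (Set.ncard_image_le f2).trans g2

/-- **inner tiles**: good with a structural list, or at the wall -/
theorem inner_goodW (X : RD M) (RPx : RP X a v k) {j : J} (i : M.IIx hk a hv j)
    (hi : i ≠ M.core hk a hv j) :
    (∃ τ, i.1 = Sum.inl τ ∧
      Good (meshS M hk a hv) (Sum.inl ⟨Sum.inr ⟨j, i⟩, inr_not_core M hk a hv hi⟩)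
        (chi (M.Q j).ψ (M.Bk v j).a' (τ.1.1.1.k + 1)) (τ.1.1.1.k + 1) (N0 n) 1 2) ∨
    Good (meshS M hk a hv) (Sum.inl ⟨Sum.inr ⟨j, i⟩, inr_not_core M hk a hv hi⟩)
      (chi (M.Q j).ψ (M.Bk v j).a' (M.Q j).kc) (M.Q j).kc (NB n (X.B j)) 1 (X.R j) ∨
    ((∃ τ, i.1 = Sum.inl τ ∧ τ.1.1.1.k = k j) ∧
      (P ((M.mesh hk a hv).H (Sum.inr ⟨j, i⟩)) ∩ frontier (M.Bk v j).N).Nonempty ∧
      Good (meshS M hk a hv) (Sum.inl ⟨Sum.inr ⟨j, i⟩, inr_not_core M hk a hv hi⟩)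
        (chi M.φ a (k j)) (k j) (NR (X.A j) (X.d j)) (X.d j) (X.c j)) := by
  rcases M.inner_good hk a hv X RPx i hi with ⟨τ, hτ, -, hd, hg⟩ | ⟨-, hg⟩ | ⟨⟨τ, hτ, hτk⟩, hw, hg⟩
  · refine Or.inl ⟨τ, hτ, good_old M hk a hv _ hg fun c hc => ?_⟩
    exfalso
    obtain rfl := inner_same M hk a hv hc
    obtain ⟨x, hx1, hx2⟩ := hc
    exact Set.disjoint_left.1 hd hx2 (Kc_sub_bp _ (cubH_sub c hx1))
  · refine Or.inr (Or.inl (good_old M hk a hv _ hg fun c hc => ?_))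
    obtain rfl := inner_same M hk a hv hc
    exact gf_cube one_pos (fr_self _ _ _ (N0_sub_NB (X.B1 _)) 1) le_rfl _
  · refine Or.inr (Or.inr ⟨⟨τ, hτ, hτk⟩, hw, good_old M hk a hv _ hg fun c hc => ?_⟩)
    exfalso
    obtain rfl := inner_same M hk a hv hc
    obtain ⟨x, hx1, hx2⟩ := hc
    obtain ⟨y, hy1, hy2⟩ := hw
    have hx3 := bp_dist (M.Bk v c.1) (Kc_sub_bp _ (cubH_sub c hx1))
    rw [MD.mesh_inr, hτ] at hx2 hy1
    have h1 := dist_cube (((M.Bk v c.1).tile_T0 (k c.1) (hk.kc c.1)).1 hx2)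
      (((M.Bk v c.1).tile_T0 (k c.1) (hk.kc c.1)).1 hy1)
    rw [hτk] at h1
    rw [(M.Bk v c.1).frontier_N] at hy2
    have h2 : infDist ((M.Bk v c.1).ψ x) (M.Bk v c.1).W ≤
        infDist ((M.Bk v c.1).ψ y) (M.Bk v c.1).W + dist ((M.Bk v c.1).ψ x) ((M.Bk v c.1).ψ y) :=
      infDist_le_infDist_add_dist
    rw [infDist_zero_of_mem (show (M.Bk v c.1).ψ y ∈ (M.Bk v c.1).W from hy2), zero_add] at h2
    have h3 : (1 : ℝ) / 2 ^ k c.1 ≤ 1 / 2 ^ (M.Bk v c.1).kc :=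
      one_div_le_one_div_of_le (by positivity)
        (pow_le_pow_right₀ (by norm_num) (hk.kc c.1))
    have h4 : (0 : ℝ) < 1 / 2 ^ (M.Bk v c.1).kc := by positivity
    have h5 : (7 : ℝ) / 2 ^ (M.Bk v c.1).kc = 7 * (1 / 2 ^ (M.Bk v c.1).kc) := by ring
    rw [h5] at hx3
    linarith

end

end Crest.Agent.R096.Nbr_896
end

-- ▼ part R096/Nbr4_896

/-!
# Row 96, p ≤ 2 (helper896), leaf NBR, part 4: `nc` and the diameters BEFORE the net

`Fb K M`: all frames and their inverses have norm `≤ K`.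

* `nbr_meshS` (a): a bound of the number of tiles which touch a tile of `meshS`, and of the crossing
  edges, which depends only on `K`, `B0`, `R0` (no net, no denominators, no scales).
* `diam_block` (b): diameters of the tiles which meet a block.
* `tileG_struct`: helper432's `tileG_meshS` with `D`, `nc` BEFORE the net.
-/

set_option autoImplicit false
set_option linter.unusedSectionVars false

open Set Metric Topology Filter

namespace Crest.Agent.R096.Nbr_896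

open Crest.Agent.R096.Msh_715 Crest.Agent.R096.Msh_715.Tiling Crest.Agent.R096.Mal_874
open Crest.Agent.R096.Msh_810 Crest.Agent.R096.Cut_874 Crest.Agent.R096.Msb_432
open Crest.Agent.R096.Gsm_432 (star TG gap_goods good_mono NB_mono)

universe w

variable {n : ℕ}

/-- all frames and their inverses have norm at most `K` -/
structure Fb {E : Type*} [NormedAddCommGroup E] [NormedSpace ℝ E] {J : Type*} (K : ℝ)
    (M : MD E n J) : Prop where
  φ1 : ∀ v, ‖M.φ v‖ ≤ K * ‖v‖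
  φ2 : ∀ v, ‖v‖ ≤ K * ‖M.φ v‖
  ψ1 : ∀ j v, ‖(M.Q j).ψ v‖ ≤ K * ‖v‖
  ψ2 : ∀ j v, ‖v‖ ≤ K * ‖(M.Q j).ψ v‖

section

variable {E : Type*} [NormedAddCommGroup E] [NormedSpace ℝ E] {J : Type*} {M : MD E n J} {K : ℝ}

theorem Fb.mono (h : Fb K M) {K' : ℝ} (hK : K ≤ K') : Fb K' M where
  φ1 v := (h.φ1 v).trans (mul_le_mul_of_nonneg_right hK (norm_nonneg _))
  φ2 v := (h.φ2 v).trans (mul_le_mul_of_nonneg_right hK (norm_nonneg _))
  ψ1 j v := (h.ψ1 j v).trans (mul_le_mul_of_nonneg_right hK (norm_nonneg _))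
  ψ2 j v := (h.ψ2 j v).trans (mul_le_mul_of_nonneg_right hK (norm_nonneg _))

theorem cn_of {φ ψ : E ≃L[ℝ] (Fin n → ℝ)} (hK : 0 ≤ K) (h1 : ∀ v, ‖φ v‖ ≤ K * ‖v‖)
    (h2 : ∀ v, ‖v‖ ≤ K * ‖ψ v‖) : Cn φ ψ ⌈K * K⌉₊ := by
  intro x y
  rw [dist_eq_norm, dist_eq_norm, ← map_sub, ← map_sub]
  calc ‖φ (x - y)‖ ≤ K * ‖x - y‖ := h1 _
    _ ≤ K * (K * ‖ψ (x - y)‖) := mul_le_mul_of_nonneg_left (h2 _) hK
    _ = (K * K) * ‖ψ (x - y)‖ := by ring
    _ ≤ ⌈K * K⌉₊ * ‖ψ (x - y)‖ := mul_le_mul_of_nonneg_right (Nat.le_ceil _) (norm_nonneg _)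

theorem Fb.cn0 (h : Fb K M) (hK : 0 ≤ K) (j : J) : Cn M.φ (M.Q j).ψ ⌈K * K⌉₊ :=
  cn_of hK h.φ1 (h.ψ2 j)

theorem Fb.cn1 (h : Fb K M) (hK : 0 ≤ K) (j : J) : Cn (M.Q j).ψ M.φ ⌈K * K⌉₊ :=
  cn_of hK (h.ψ1 j) h.φ2

end

/-! ### (a) -/

/-- **NBR (a)** -/
theorem nbr_meshS (E : Type) [NormedAddCommGroup E] [NormedSpace ℝ E] [FiniteDimensional ℝ E]
    [NeZero n] (K R0 : ℝ) (B0 : ℕ) :
    ∃ nc : ℕ, ∀ {J : Type w} (M : MD E n J) {k : J → ℕ} (hk : M.Sc k)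
      (a : Fin n → ℝ) {v : J → E} (hv : M.Adm v) (X : RD M), RP X a v k → Fb K M →
      (∀ j, X.B j ≤ B0) → (∀ j, X.R j ≤ R0) → ∀ t,
      (star (meshS M hk a hv) t).ncard ≤ nc ∧ Nat.card (Tgr_335.KT (meshS M hk a hv) t) ≤ nc ∧
        Nat.card (Sk3_812.KT (meshS M hk a hv) t) ≤ nc := by
  classical
  set Ls : Set (Finset (Fin n → ℝ) × ℕ) := {(N0 n, 1)} ∪ {(NB n B0, 1)} with hLs
  have hfin : Ls.Finite := (finite_singleton _).union (finite_singleton _)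
  have hpos : ∀ p ∈ Ls, 0 < p.2 := by
    rintro p (rfl | rfl)
    · exact one_pos
    · exact one_pos
  have hrat : ∀ p ∈ Ls, ∀ ν ∈ p.1, ∀ m, ∃ c : ℤ, ν m = c / p.2 := by
    rintro p (rfl | rfl)
    · exact N0_rat one_pos
    · exact NB_rat B0 one_pos
  obtain ⟨β, -, ρ, -, D, n1, h⟩ := gap_goods.{0, w} E hfin hpos hrat (max 2 R0)
  set c : ℕ := ⌈|K| * |K|⌉₊ with hc
  set N : ℕ := n1 + (nO n c 1 + nI n c) + (nO n c c + nI n 1) with hN
  refine ⟨2 ^ N, fun {J} M {k} hk a {v} hv X RPx hF hB hR => ?_⟩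
  have m0 : (N0 n, 1) ∈ Ls := Or.inl rfl
  have mB : (NB n B0, 1) ∈ Ls := Or.inr rfl
  have hF' : Fb |K| M := hF.mono (le_abs_self K)
  have hc0 : ∀ j, Cn M.φ (M.Q j).ψ c := hF'.cn0 (abs_nonneg K)
  have hc1 : ∀ j, Cn (M.Q j).ψ M.φ c := hF'.cn1 (abs_nonneg K)
  have r1 : (1 : ℝ) ≤ max 2 R0 := le_trans (by norm_num) (le_max_left _ _)
  have r3 : ∀ j, X.R j ≤ max 2 R0 := fun j => (hR j).trans (le_max_right _ _)
  have key : ∀ t, (star (meshS M hk a hv) t).ncard ≤ N := by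
    rintro (⟨p | ⟨j, i⟩, ht⟩ | z)
    · exact (star_outer M hk a hv hc1 p ht).trans (by omega)
    · have hi : i ≠ M.core hk a hv j := by
        rintro rfl
        exact ht ⟨j, rfl⟩
      rcases inner_goodW M hk a hv X RPx i hi with ⟨τ, hτ, hg⟩ | hg | ⟨-, hw, -⟩
      · obtain ⟨c', hc'⟩ := h _ _ _ _ _ m0 (good_mono hg subset_rfl (le_max_left _ _))
        exact hc'.nbr.trans (by omega)
      · obtain ⟨c', hc'⟩ := h _ _ _ _ _ mB (good_mono hg (NB_mono (hB j)) (r3 j))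
        exact hc'.nbr.trans (by omega)
      · exact (star_wall M hk a hv hc0 hc1 i ht hw).trans (by omega)
    · obtain ⟨c', hc'⟩ := h _ _ _ _ _ mB
        (good_mono (cube_goodS M hk a hv X z) (NB_mono (hB _)) r1)
      exact hc'.nbr.trans (by omega)
  intro t
  have h1 := key t
  have h2 : N ≤ 2 ^ N := Nat.lt_two_pow_self.le
  refine ⟨h1.trans h2, ?_, ?_⟩
  · exact (card_KT _ t).trans (Nat.pow_le_pow_right (by norm_num) h1)
  · exact (card_KT' _ t).trans (Nat.pow_le_pow_right (by norm_num) h1)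

/-! ### (b) -/

section diam

variable {E : Type*} [NormedAddCommGroup E] [NormedSpace ℝ E]

theorem diam_of_ps {φ : E ≃L[ℝ] (Fin n → ℝ)} {a : Fin n → ℝ} {κ : ℕ} {K R : ℝ} (hK : 0 ≤ K)
    (h2 : ∀ v, ‖v‖ ≤ K * ‖φ v‖) (hR : 0 ≤ R) {x y : E}
    (h : ∀ m, |ps a κ (φ x) m - ps a κ (φ y) m| ≤ R) : ‖x - y‖ ≤ K * R / 2 ^ κ := by
  have hp : (0 : ℝ) < 2 ^ κ := by positivity
  have h3 : ‖φ (x - y)‖ ≤ R / 2 ^ κ := by
    rw [pi_norm_le_iff_of_nonneg (by positivity)]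
    intro m
    rw [le_div_iff₀' hp, map_sub, Pi.sub_apply, Real.norm_eq_abs]
    have h4 := h m
    unfold ps at h4
    have e : 2 ^ κ * (φ x m - a m) - 2 ^ κ * (φ y m - a m) = 2 ^ κ * (φ x m - φ y m) := by ring
    rwa [e, abs_mul, abs_of_pos hp] at h4
  calc ‖x - y‖ ≤ K * ‖φ (x - y)‖ := h2 _
    _ ≤ K * (R / 2 ^ κ) := mul_le_mul_of_nonneg_left h3 hK
    _ = K * R / 2 ^ κ := by ring

theorem diam_of_dist {φ : E ≃L[ℝ] (Fin n → ℝ)} {K r : ℝ} (hK : 0 ≤ K)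
    (h2 : ∀ v, ‖v‖ ≤ K * ‖φ v‖) {x y : E} (h : dist (φ x) (φ y) ≤ r) : ‖x - y‖ ≤ K * r := by
  rw [dist_eq_norm, ← map_sub] at h
  exact (h2 _).trans (mul_le_mul_of_nonneg_left h hK)

theorem good_diam {Om : Set E} {ι : Type*} {T : Tiling Om ι} {t : ι} {φ : E ≃L[ℝ] (Fin n → ℝ)}
    {a : Fin n → ℝ} {κ κ' : ℕ} {𝒩 : Finset (Fin n → ℝ)} {d : ℕ} {K R : ℝ} (hK : 0 ≤ K)
    (h2 : ∀ v, ‖v‖ ≤ K * ‖φ v‖) (hR : 0 ≤ R) (h : Good T t (chi φ a κ) κ' 𝒩 d R) :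
    ∀ x ∈ P (T.H t), ∀ y ∈ P (T.H t), ‖x - y‖ ≤ K * R / 2 ^ κ := by
  intro x hx y hy
  refine diam_of_ps (a := a) hK h2 hR fun m => ?_
  have h3 := h.sz y hy x hx m
  rwa [chi_eq_ps, chi_eq_ps] at h3

variable [NeZero n] {J : Type*} (M : MD E n J) {k : J → ℕ} (hk : M.Sc k) (a : Fin n → ℝ)
  {v : J → E} (hv : M.Adm v)

/-- **NBR (b)**: the tiles of `meshS` which meet the block `j` have diameter `≤ K max 1 R / 2^kc` -/
theorem diam_block (X : RD M) {K R0 : ℝ} (hK : 0 ≤ K) (hF : Fb K M) (hR : ∀ j, X.R j ≤ R0) {j : J}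
    (t : {t // t ∉ cores M hk a hv} ⊕ CIx M)
    (ht : (P ((meshS M hk a hv).H t) ∩ (M.Bk v j).N).Nonempty) :
    ∀ x ∈ P ((meshS M hk a hv).H t), ∀ y ∈ P ((meshS M hk a hv).H t),
      ‖x - y‖ ≤ K * max 1 R0 / 2 ^ (M.Q j).kc := by
  intro x hx y hy
  have hp : (0 : ℝ) < 2 ^ (M.Q j).kc := by positivity
  have hm : (1 : ℝ) ≤ max 1 R0 := le_max_left _ _
  -- from a distance in a frame
  have key : ∀ φ : E ≃L[ℝ] (Fin n → ℝ), (∀ v, ‖v‖ ≤ K * ‖φ v‖) →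
      dist (φ x) (φ y) ≤ 1 / 2 ^ (M.Q j).kc → ‖x - y‖ ≤ K * max 1 R0 / 2 ^ (M.Q j).kc := by
    intro φ h2 hd
    refine (diam_of_dist hK h2 hd).trans ?_
    rw [mul_one_div]
    exact div_le_div_of_nonneg_right (by nlinarith) hp.le
  rcases t with ⟨p | ⟨l, i⟩, hc⟩ | ⟨l, z⟩
  · obtain ⟨y0, hy0, hy0N⟩ := ht
    have hsub : P ((M.mesh hk a hv).H (Sum.inl p)) ⊆ P ((M.ad hk a hv).T0.H p.1.par) :=
      cut_tile_sub (hA := AF_ne) p.1
    have hf : y0 ∈ frontier (M.Bk v j).N := M.outer_touch hk a hv p hy0 hy0N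
    have hkp : p.1.par.1.1.k = k j := zone_par M hk a hv hf (hsub hy0)
    refine key M.φ hF.φ2 ?_
    have h1 := dist_cube ((AD.tile_T0 (M := M.ad hk a hv) _).1 (hsub hx))
      ((AD.tile_T0 (M := M.ad hk a hv) _).1 (hsub hy))
    rw [hkp] at h1
    exact h1.trans (one_div_le_one_div_of_le (by positivity)
      (pow_le_pow_right₀ (by norm_num) (hk.kc j)))
  · obtain ⟨y0, hy0, hy0N⟩ := ht
    have hlj : l = j := by
      by_contra hne
      exact Set.disjoint_left.1 ((M.ad hk a hv).dis l j hne) (i.2 hy0) hy0N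
    subst hlj
    rcases hi1 : i.1 with τ | s
    · exact key (M.Q l).ψ (hF.ψ2 l) (M.inner_size hk a hv hi1 hx hy)
    · have hx' : x ∈ P (((M.Bk v l).T (k l) (hk.kc l)).H i.1) := hx
      have hy' : y ∈ P (((M.Bk v l).T (k l) (hk.kc l)).H i.1) := hy
      rw [hi1] at hx' hy'
      have hx2 := mem_P_iH.1 (show x ∈ P (iH (M.Bk v l).ψ (M.Bk v l).a' (M.Bk v l).kc
        ((M.Bk v l).S.GG s)) from hx')
      have hy2 := mem_P_iH.1 (show y ∈ P (iH (M.Bk v l).ψ (M.Bk v l).a' (M.Bk v l).kc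
        ((M.Bk v l).S.GG s)) from hy')
      have hs : s ≠ (M.Q l).S.core := by
        rintro rfl
        exact hc ⟨l, congrArg (fun q : M.IIx hk a hv l => (Sum.inr ⟨l, q⟩ :
          M.OIx hk a hv ⊕ Σ j, M.IIx hk a hv j)) (Subtype.ext hi1)⟩
      refine diam_of_ps (a := (M.Bk v l).a') hK (hF.ψ2 l) (zero_le_one.trans hm) fun m => ?_
      exact (X.hR l s hs _ hy2 _ hx2 m).trans ((hR l).trans (le_max_right _ _))
  · obtain ⟨y0, hy0, hy0N⟩ := ht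
    have hlj : l = j := by
      by_contra hne
      exact Set.disjoint_left.1 ((M.ad hk a hv).dis l j hne) (Kc_sub_N _ (cubH_sub _ hy0)) hy0N
    subst hlj
    refine diam_of_ps (a := (M.Bk v l).a') hK (hF.ψ2 l) (zero_le_one.trans hm) fun m => ?_
    have hx' := (mem_cuH (M.Bk v l)).1 hx m
    have hy' := (mem_cuH (M.Bk v l)).1 hy m
    refine le_trans ?_ hm
    rw [abs_le]
    constructor
    · have h1 := hx'.1
      have h2 := hy'.2
      show (-1 : ℝ) ≤ ps (M.Bk v l).a' (M.Bk v l).kc ((M.Bk v l).ψ x) m -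
        ps (M.Bk v l).a' (M.Bk v l).kc ((M.Bk v l).ψ y) m
      linarith
    · have h1 := hx'.2
      have h2 := hy'.1
      show ps (M.Bk v l).a' (M.Bk v l).kc ((M.Bk v l).ψ x) m -
        ps (M.Bk v l).a' (M.Bk v l).kc ((M.Bk v l).ψ y) m ≤ (1 : ℝ)
      linarith

end diam

/-! ### `TileG` with structural `D`, `nc` -/

/-- better constants -/
theorem TG.better {E : Type} [NormedAddCommGroup E] [NormedSpace ℝ E] [FiniteDimensional ℝ E]
    {Om : Set E} {ι : Type*} {T : Tiling Om ι} {t : ι} {β ρ D D' : ℝ} {nc nc' κ : ℕ}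
    (h : TG T t β ρ D' nc' κ) (hd : ∀ y ∈ P (T.H t), ∀ y' ∈ P (T.H t), ‖y - y'‖ ≤ D / 2 ^ κ)
    (h1 : (star T t).ncard ≤ nc) (h2 : Nat.card (Sk3_812.KT T t) ≤ nc) :
    TG T t β ρ D nc κ := by
  obtain ⟨-, c, hc⟩ := h
  refine ⟨hd, c, fun hne K t' hK ht' => ?_⟩
  have h3 := hc hne K (max t' (D' / 2 ^ κ)) hK (le_max_right _ _)
  exact
    { cI := h3.cI
      ball := h3.ball
      gap := h3.gap
      star := h3.star
      cardK := h2
      cardN := h1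
      diam := fun y hy y' hy' => (hd y hy y' hy').trans ht' }

/-- **432's `tileG_meshS` with `D` and `nc` before the net** -/
theorem tileG_struct (E : Type) [NormedAddCommGroup E] [NormedSpace ℝ E] [FiniteDimensional ℝ E]
    [NeZero n] (K R0 : ℝ) (B0 : ℕ) :
    ∃ D : ℝ, 0 < D ∧ ∃ nc : ℕ,
      (∀ {J : Type w} (M : MD E n J) {k : J → ℕ} (hk : M.Sc k)
        (a : Fin n → ℝ) {v : J → E} (hv : M.Adm v) (X : RD M), RP X a v k → Fb K M →
        (∀ j, X.B j ≤ B0) → (∀ j, X.R j ≤ R0) →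
        (∀ t, (star (meshS M hk a hv) t).ncard ≤ nc ∧
          Nat.card (Tgr_335.KT (meshS M hk a hv) t) ≤ nc ∧
          Nat.card (Sk3_812.KT (meshS M hk a hv) t) ≤ nc) ∧
        ∀ j t, (P ((meshS M hk a hv).H t) ∩ (M.Bk v j).N).Nonempty →
          ∀ x ∈ P ((meshS M hk a hv).H t), ∀ y ∈ P ((meshS M hk a hv).H t),
            ‖x - y‖ ≤ D / 2 ^ (M.Q j).kc) ∧
      ∀ {Ps : Set ((Fin n → Fin n → ℤ) × ℕ)}, Ps.Finite → ∀ c0 : ℝ, ∃ β > 0, ∃ ρ > 0,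
      ∀ {J : Type w} (M : MD E n J) {k : J → ℕ} (hk : M.Sc k)
        (a : Fin n → ℝ) {v : J → E} (hv : M.Adm v) (X : RD M), RP X a v k → Fb K M →
        (∀ j, (X.A j, X.d j) ∈ Ps) → (∀ j, X.c j ≤ c0) → (∀ j, X.B j ≤ B0) → (∀ j, X.R j ≤ R0) →
        ∀ t, ∃ κ, Scl M hk a hv t κ ∧ TG (meshS M hk a hv) t β ρ D nc κ := by
  classical
  obtain ⟨nc, hnc⟩ := nbr_meshS.{w} (n := n) E K R0 B0
  set L : ℝ := |K| + 1 with hL
  have hL0 : 0 < L := by positivity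
  have hKL : K ≤ L := (le_abs_self K).trans (by rw [hL]; linarith)
  set D : ℝ := L * max 2 R0 with hD
  have hm2 : (2 : ℝ) ≤ max 2 R0 := le_max_left _ _
  have hD0 : 0 < D := by
    rw [hD]
    have : (0 : ℝ) < max 2 R0 := by linarith
    positivity
  refine ⟨D, hD0, nc, ?_, ?_⟩
  · intro J M k hk a v hv X RPx hF hB hR
    refine ⟨hnc M hk a hv X RPx hF hB hR, fun j t ht x hx y hy => ?_⟩
    refine (diam_block M hk a hv X hL0.le (hF.mono hKL) hR t ht x hx y hy).trans ?_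
    refine div_le_div_of_nonneg_right ?_ (by positivity)
    rw [hD]
    exact mul_le_mul_of_nonneg_left (max_le_max (by norm_num) le_rfl) hL0.le
  intro Ps hPs c0
  set Ls : Set (Finset (Fin n → ℝ) × ℕ) := {(N0 n, 1)} ∪ {(NB n B0, 1)} ∪
    (fun p : (Fin n → Fin n → ℤ) × ℕ => (NR p.1 p.2, p.2)) '' {p ∈ Ps | 0 < p.2} with hLs
  have hfin : Ls.Finite := ((finite_singleton _).union (finite_singleton _)).union
    ((hPs.subset (sep_subset _ _)).image _)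
  have hpos : ∀ p ∈ Ls, 0 < p.2 := by
    rintro p ((rfl | rfl) | ⟨q, hq, rfl⟩)
    · exact one_pos
    · exact one_pos
    · exact hq.2
  have hrat : ∀ p ∈ Ls, ∀ ν ∈ p.1, ∀ m, ∃ c : ℤ, ν m = c / p.2 := by
    rintro p ((rfl | rfl) | ⟨q, hq, rfl⟩)
    · exact N0_rat one_pos
    · exact NB_rat B0 one_pos
    · exact NR_rat q.1 hq.2
  obtain ⟨β, hβ, ρ, hρ, D', nc', h⟩ := tg_goods E hfin hpos hrat (max 2 (max R0 c0)) hL0 hL0.le
  refine ⟨β, hβ, ρ, hρ, fun {J} M {k} hk a {v} hv X RPx hF0 hA hc hB hR => ?_⟩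
  have hn := hnc M hk a hv X RPx hF0 hB hR
  have hF : Fb L M := hF0.mono hKL
  have m0 : (N0 n, 1) ∈ Ls := Or.inl (Or.inl rfl)
  have mB : (NB n B0, 1) ∈ Ls := Or.inl (Or.inr rfl)
  have mR : ∀ j, (NR (X.A j) (X.d j), X.d j) ∈ Ls := fun j =>
    Or.inr ⟨_, ⟨hA j, X.dpos j⟩, rfl⟩
  have r1 : (1 : ℝ) ≤ max 2 (max R0 c0) := le_trans (by norm_num) (le_max_left _ _)
  have r2 : ∀ j, X.c j ≤ max 2 (max R0 c0) := fun j =>
    (hc j).trans ((le_max_right _ _).trans (le_max_right _ _))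
  have r3 : ∀ j, X.R j ≤ max 2 (max R0 c0) := fun j =>
    (hR j).trans ((le_max_left _ _).trans (le_max_right _ _))
  -- diameters
  have dd : ∀ {R : ℝ} {κ : ℕ}, 0 ≤ R → R ≤ max 2 R0 → L * R / 2 ^ κ ≤ D / 2 ^ κ := by
    intro R κ _ h1
    refine div_le_div_of_nonneg_right ?_ (by positivity)
    rw [hD]
    exact mul_le_mul_of_nonneg_left h1 hL0.le
  rintro (⟨t, ht⟩ | c)
  · rcases t with p | ⟨j, i⟩
    · have hsub : P ((M.mesh hk a hv).H (Sum.inl p)) ⊆ P ((M.ad hk a hv).T0.H p.1.par) :=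
        cut_tile_sub (hA := AF_ne) p.1
      have hdist : ∀ x ∈ P ((M.mesh hk a hv).H (Sum.inl p)),
          ∀ y ∈ P ((M.mesh hk a hv).H (Sum.inl p)), ‖x - y‖ ≤ L * 1 / 2 ^ p.1.par.1.1.k := by
        intro x hx y hy
        have h1 := diam_of_dist hL0.le hF.φ2 (dist_cube
          ((AD.tile_T0 (M := M.ad hk a hv) _).1 (hsub hx))
          ((AD.tile_T0 (M := M.ad hk a hv) _).1 (hsub hy)))
        rwa [mul_one_div, ← mul_one L] at h1
      rcases outer_goodS M hk a hv X RPx p with hg | ⟨j, hj, hg⟩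
      · have hTG := h _ _ _ _ _ _ m0 (good_mono hg subset_rfl (le_max_left _ _)) hF.φ1 hF.φ2
        exact ⟨_, Or.inl rfl, TG.better hTG (fun y hy y' hy' =>
          (good_diam hL0.le hF.φ2 (by norm_num) hg y hy y' hy').trans (dd (by norm_num) hm2))
          (hn _).1 (hn _).2.2⟩
      · have hTG := h _ _ _ _ _ _ (mR j) (good_mono hg subset_rfl (r2 j)) hF.φ1 hF.φ2
        refine ⟨_, Or.inr ⟨j, rfl, hj⟩, TG.better hTG (fun y hy y' hy' => ?_) (hn _).1 (hn _).2.2⟩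
        have h1 := hdist y hy y' hy'
        rw [hj] at h1
        exact h1.trans (dd (by norm_num) (by linarith))
    · have hi : i ≠ M.core hk a hv j := by
        rintro rfl
        exact ht ⟨j, rfl⟩
      rcases inner_goodW M hk a hv X RPx i hi with ⟨τ, hτ, hg⟩ | hg | ⟨⟨τ, hτ, hτk⟩, -, hg⟩
      · have hTG := h _ _ _ _ _ _ m0 (good_mono hg subset_rfl (le_max_left _ _))
          (hF.ψ1 j) (hF.ψ2 j)
        refine ⟨_, ⟨?_, ?_⟩, TG.better hTG (fun y hy y' hy' =>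
          (good_diam hL0.le (hF.ψ2 j) (by norm_num) hg y hy y' hy').trans
            (dd (by norm_num) hm2)) (hn _).1 (hn _).2.2⟩
        · have := (M.Bk v j).kc_le (k j) (hk.kc j) (τ := τ.1)
          exact this.trans (Nat.le_succ _)
        · exact Nat.succ_le_succ ((M.Bk v j).le_k (k j) (hk.kc j) (τ := τ.1))
      · have hR0 : 0 ≤ X.R j := zero_le_one.trans (X.R1 j)
        exact ⟨_, ⟨le_rfl, (hk.kc j).trans (Nat.le_succ _)⟩, TG.better
          (h _ _ _ _ _ _ mB (good_mono hg (NB_mono (hB j)) (r3 j)) (hF.ψ1 j) (hF.ψ2 j))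
          (fun y hy y' hy' => (good_diam hL0.le (hF.ψ2 j) hR0 hg y hy y' hy').trans
            (dd hR0 ((hR j).trans (le_max_right _ _)))) (hn _).1 (hn _).2.2⟩
      · refine ⟨_, ⟨hk.kc j, Nat.le_succ _⟩, TG.better
          (h _ _ _ _ _ _ (mR j) (good_mono hg subset_rfl (r2 j)) hF.φ1 hF.φ2)
          (fun y hy y' hy' => ?_) (hn _).1 (hn _).2.2⟩
        have hy1 : y ∈ P (((M.Bk v j).T (k j) (hk.kc j)).H i.1) := hy
        have hy2 : y' ∈ P (((M.Bk v j).T (k j) (hk.kc j)).H i.1) := hy'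
        rw [hτ] at hy1 hy2
        have h1 := dist_cube (((M.Bk v j).tile_T0 (k j) (hk.kc j)).1 hy1)
          (((M.Bk v j).tile_T0 (k j) (hk.kc j)).1 hy2)
        rw [hτk] at h1
        have h2 := diam_of_dist hL0.le (hF.ψ2 j) h1
        rw [mul_one_div, ← mul_one L] at h2
        exact h2.trans (dd (by norm_num) (by linarith))
  · exact ⟨_, rfl, TG.better
      (h _ _ _ _ _ _ mB (good_mono (cube_goodS M hk a hv X c) (NB_mono (hB _)) r1)
        (hF.ψ1 _) (hF.ψ2 _))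
      (fun y hy y' hy' => (good_diam hL0.le (hF.ψ2 _) (by norm_num)
        (cube_goodS M hk a hv X c) y hy y' hy').trans (dd (by norm_num) (by linarith)))
      (hn _).1 (hn _).2.2⟩

end Crest.Agent.R096.Nbr_896
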