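import Crest.Agent.R096.Sqt7_143
import Crest.Agent.R096.Sbc3_447
import Crest.Agent.R96.Lu7_538

-- ▼ part R096/Sqt8_143
section

/-!
Row 96 (S0127), helper143.  SQ-TUBE, part 8: **the derivative of `f ∘ Ψ` in the direction `e` at a point
where `Ψ` keeps the direction `e`** is the derivative of `f` at `Ψ x` (equality almost everywhere).
-/

set_option autoImplicit false

open Set Metric Filter Topology MeasureTheory

namespace Crest.Agent.R096.Sqt_143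

open Crest.Agent.R096.Ce_537 Crest.Agent.R096.Bd_416 Crest.Agent.R96.Hole_348
open Crest.Agent.R096.Sq_55
open Crest.Agent.R96.Acl_392 Crest.Agent.R96.Sob1_199 Crest.Agent.R96.Sob2_199
  Crest.Agent.R96.Sob3_199 Crest.Agent.R96.Sob6_199 Crest.Agent.R96.Sob7_199
  Crest.Agent.R96.Sob8_199
open Crest.AnalysisR.VecCalc3 Crest.AnalysisR.Sobolev
open Crest.Agent.R096.Sk_962
open scoped NNReal ENNReal

/-- the difference quotient is the weak derivative -/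
theorem dq_grad {Om : Set R3} (hOm : IsOpen Om) {v : R3 → ℝ} {G : R3 → R3}
    (h : HasWeakGradOn Om v G) (hv : ContinuousOn v Om) (e : R3) :
    ∀ᵐ x, x ∈ Om → inner ℝ (G x) e = dq Om v e x := by
  have h1 := wd_of_grad hOm h e
  have h2 := acl hOm h1 hv
  have h4 : LocallyIntegrableOn (fun x => |inner ℝ (G x) e|) Om := by
    intro x hx
    obtain ⟨t, ht1, ht2⟩ := h1.lg x hx
    exact ⟨t, ht1, ht2.abs⟩
  have h3 := wd_of_ug hOm hv h4 (by
    filter_upwards [h2] with x hx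
    exact ug_of_acl hx)
  exact wd_unique hOm h1 h3.1

lemma dq_tv {Om : Set R3} {v : R3 → ℝ} {Ψ : R3 → R3} (hΨ : ∀ x, Ψ x ∈ Om ↔ x ∈ Om) {x e : R3}
    (hx : Tv Ψ x e e) : dq Om (fun x => v (Ψ x)) e x = dq Om v e (Ψ x) := by
  have hi : ∀ y, Om.indicator (fun x => v (Ψ x)) y = Om.indicator v (Ψ y) := by
    intro y
    by_cases hy : y ∈ Om
    · rw [indicator_of_mem hy, indicator_of_mem ((hΨ y).2 hy)]
    · rw [indicator_of_notMem hy, indicator_of_notMem (fun h => hy ((hΨ y).1 h))]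
  unfold dq
  apply limsup_congr
  have h1 : Tendsto (fun n : ℕ => ((n:ℝ) + 1)⁻¹) atTop (𝓝 0) := by
    have := tendsto_one_div_add_atTop_nhds_zero_nat (𝕜 := ℝ)
    simpa only [one_div] using this
  filter_upwards [h1.eventually hx] with n hn
  rw [hi, hi, hn]

/-- `Ψ` pulls back null sets -/
lemma null_sel (Ψ : R3 ≃ₜ R3) (h1 : PLOn Ψ univ) {P : R3 → Prop} (hP : ∀ᵐ y, P y) :
    ∀ᵐ x, P (Ψ x) := by
  obtain ⟨-, S, hS'⟩ := h1
  obtain ⟨K, hK, hle⟩ := Crest.Agent.R096.Sbc_447.map_le (volume : Measure R3) Ψ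
    (S := S) (fun x => hS' x (mem_univ x))
  have h2 : ∀ᵐ y ∂(Measure.map Ψ volume), P y :=
    (Measure.absolutelyContinuous_of_le_smul hle).ae_le hP
  exact (Ψ.measurableEmbedding.ae_map_iff).1 h2

/-- **the direction derivative of a composition** -/
theorem dir_eq {Om : Set R3} (hOm : IsOpen Om) {v : R3 → ℝ} {G G' : R3 → R3}
    (h : HasWeakGradOn Om v G) (hv : ContinuousOn v Om) (Ψ : R3 ≃ₜ R3) (h1 : PLOn Ψ univ)
    (hΨ : ∀ x, Ψ x ∈ Om ↔ x ∈ Om) (h' : HasWeakGradOn Om (fun x => v (Ψ x)) G') (e : R3) :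
    ∀ᵐ x, x ∈ Om → Tv Ψ x e e → inner ℝ (G' x) e = inner ℝ (G (Ψ x)) e := by
  have a1 := null_sel Ψ h1 (dq_grad hOm h hv e)
  have a2 := dq_grad hOm h' (hv.comp Ψ.continuous.continuousOn fun x hx => (hΨ x).2 hx) e
  filter_upwards [a1, a2] with x b1 b2 hx ht
  rw [b2 hx, b1 ((hΨ x).2 hx), dq_tv hΨ ht]

/-- the same for maps -/
theorem Gmat_eq {Om La : Set R3} (hOm : IsOpen Om) {p : ℝ} {f : R3 → R3} {G G' : Fin 3 → R3 → R3}
    (h : SH p Om La f G) (Ψ : R3 ≃ₜ R3) (h1 : PLOn Ψ univ) (hΨ : ∀ x, Ψ x ∈ Om ↔ x ∈ Om)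
    (h' : ∀ j : Fin 3, HasWeakGradOn Om (fun x => f (Ψ x) j) (G' j)) (e : R3) :
    ∀ᵐ x, x ∈ Om → Tv Ψ x e e →
      Crest.Agent.R96.Lu_538.Gmat G' x e = Crest.Agent.R96.Lu_538.Gmat G (Ψ x) e := by
  obtain ⟨finv, hf1, hf2, hf3, hf4, hf5, hf6⟩ := h.homeo
  have hfj : ∀ j : Fin 3, ContinuousOn (fun x => f x j) Om := fun j =>
    (EuclideanSpace.proj j : R3 →L[ℝ] ℝ).continuous.comp_continuousOn hf5
  have key : ∀ᵐ x, ∀ j : Fin 3, x ∈ Om → Tv Ψ x e e →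
      inner ℝ (G' j x) e = inner ℝ (G j (Ψ x)) e := by
    rw [ae_all_iff]
    intro j
    exact dir_eq hOm (h.wg j) (hfj j) Ψ h1 hΨ (h' j) e
  filter_upwards [key] with x hx hxO ht
  ext j
  rw [Crest.Agent.R96.Lu_538.Gmat_apply, Crest.Agent.R96.Lu_538.Gmat_apply]
  exact hx j hxO ht

lemma tv_toR {χ : E3 ≃ₜ E3} {x v w : E3} (h : Tv χ x v w) : Tv (toR χ) (w2 x) (w2 v) (w2 w) := by
  filter_upwards [h] with σ hσ
  show w2 (χ (x + σ • v)) = w2 (χ x) + σ • w2 w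
  rw [hσ]
  rfl

/-- **the same in the coordinates of `E3`** -/
theorem Gmat_chi {Om La : Set R3} (hOm : IsOpen Om) {p : ℝ} {f : R3 → R3}
    {G G' : Fin 3 → R3 → R3} (h : SH p Om La f G) (χ : E3 ≃ₜ E3) (h1 : PLOn χ univ)
    (hΨ : ∀ z, w2 (χ z) ∈ Om ↔ w2 z ∈ Om)
    (h' : ∀ j : Fin 3, HasWeakGradOn Om (fun x => f (toR χ x) j) (G' j)) (v : E3) :
    ∀ᵐ z : E3, w2 z ∈ Om → Tv χ z v v →
      Crest.Agent.R96.Lu_538.Gmat G' (w2 z) (w2 v) =
        Crest.Agent.R96.Lu_538.Gmat G (w2 (χ z)) (w2 v) := by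
  have hΨ' : ∀ x, toR χ x ∈ Om ↔ x ∈ Om := fun x => by
    have := hΨ (w2.symm x)
    rw [w2.apply_symm_apply] at this
    exact this
  have key := ae_w2.1 (Gmat_eq hOm h (toR χ) (plOn_toR h1) hΨ' h' (w2 v))
  filter_upwards [key] with z hz hzO ht
  have := hz hzO (tv_toR ht)
  rwa [toR_apply, w2.symm_apply_apply] at this

end Crest.Agent.R096.Sqt_143
end

-- ▼ part R096/Sqt9_143
section

/-!
Row 96 (S0127), helper143.  SQ-TUBE, part 9: **the integral estimate near the edges** (`tube_int`):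
the localised form of 55's estimate, with the thickness `δ` replaced by `C (δ/R) u`.
-/

set_option autoImplicit false

open Set Metric Filter Topology MeasureTheory

namespace Crest.Agent.R096.Sqt_143

open Crest.Agent.R096.Ce_537 Crest.Agent.R096.Bd_416 Crest.Agent.R96.Hole_348
open Crest.Agent.R096.Sq_55
open scoped NNReal ENNReal

variable {κ ι : Type*} [Fintype κ] [Fintype ι] {X : Sys κ ι} {p δ : ℝ}

/-- **change of variables for `chi` where only the outermost shells act**, with separate targets -/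
theorem lint_chi2 (h : X.Adm p δ) (N₁ N₂ : ℕ) (k : κ)
    (hτF : ∀ j, X.ηF δ j * (1 - qF p) ≤ 1/8) {S : Set E3} (mS : MeasurableSet S)
    (hS : S ⊆ CW (X.C k)) {A : Set E3} (mA : MeasurableSet A) {B : ι → Set E3}
    (mB : ∀ j, MeasurableSet (B j))
    (hA : ∀ x ∈ S, (∀ j, Sys.Y h (N₂+1) x ∉ (X.F j).V) → Sys.chi h (N₁+1) (N₂+1) x ∈ A)
    (hB : ∀ x ∈ S, ∀ j, Sys.Y h (N₂+1) x ∈ (X.F j).V → Sys.Y h (N₂+1) x ∈ FW (X.F j) ∧
      Sys.chi h (N₁+1) (N₂+1) x ∈ B j)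
    {g : E3 → ℝ≥0∞} (hg : Measurable g) :
    ∫⁻ x in S, g (Sys.chi h (N₁+1) (N₂+1) x) ≤
      (((X.C k).M * (X.C k).M : ℝ≥0) : ℝ≥0∞)^3 *
        ENNReal.ofReal (kap 3 / (X.ηC δ k * (1 - qn 3 p))) * ((∫⁻ x in A, g x) +
        ∑ j, (((X.F j).M * (X.F j).M : ℝ≥0) : ℝ≥0∞)^3 *
          ENNReal.ofReal (kd / (X.ηF δ j * (1 - qF p))) * ∫⁻ x in (X.F j).V ∩ B j, g x) := by
  classical
  set Y := Sys.Y h (N₂+1) with hY
  set H := Sys.H h (N₁+1) with hH
  set A0 : Set E3 := ⋂ j, ((X.F j).V)ᶜ with hA0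
  have mA0 : MeasurableSet A0 :=
    MeasurableSet.iInter fun j => (X.F j).cht.opU.measurableSet.compl
  set t : ι → E3 → ℝ≥0∞ := fun j => (FW (X.F j)).indicator fun y => (B j).indicator g (H y) with ht
  have mt : ∀ j, Measurable (t j) := fun j =>
    ((hg.indicator (mB j)).comp H.continuous.measurable).indicator (isOpen_FW _).measurableSet
  set g1 : E3 → ℝ≥0∞ := fun y => A0.indicator (A.indicator g) y + ∑ j, t j y with hg1
  have m0 : Measurable (A0.indicator (A.indicator g)) := (hg.indicator mA).indicator mA0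
  have mg1 : Measurable g1 := m0.add (Finset.measurable_sum _ fun j _ => mt j)
  have hpt : ∀ x ∈ S, g (H (Y x)) ≤ g1 (Y x) := by
    intro x hx
    by_cases hV : ∃ j, Y x ∈ (X.F j).V
    · obtain ⟨j, hj⟩ := hV
      obtain ⟨k1, k2⟩ := hB x hx j hj
      have k2' : H (Y x) ∈ B j := k2
      refine le_trans ?_ le_add_self
      refine le_trans (le_of_eq ?_) (Finset.single_le_sum (f := fun j => t j (Y x))
        (fun _ _ => zero_le) (Finset.mem_univ j))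
      show g (H (Y x)) = (FW (X.F j)).indicator (fun y => (B j).indicator g (H y)) (Y x)
      rw [indicator_of_mem k1, indicator_of_mem k2']
    · push Not at hV
      have h1 : H (Y x) = Y x := Sys.H_out h (N₁+1) hV
      have h2 : H (Y x) ∈ A := hA x hx hV
      have h3 : Y x ∈ A0 := mem_iInter.2 hV
      refine le_trans (le_of_eq ?_) le_self_add
      rw [indicator_of_mem h3]
      rw [h1] at h2 ⊢
      rw [indicator_of_mem h2]
  -- the cell step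
  have s1 : ∫⁻ x in S, g (Sys.chi h (N₁+1) (N₂+1) x) ≤
      (((X.C k).M * (X.C k).M : ℝ≥0) : ℝ≥0∞)^3 *
        ENNReal.ofReal (kap 3 / (X.ηC δ k * (1 - qn 3 p))) * ∫⁻ x in (X.C k).P, g1 x := by
    have e1 : ∫⁻ x in S, g (Sys.chi h (N₁+1) (N₂+1) x) ≤
        ∫⁻ x in CW (X.C k), g1 ((X.C k).e' (outer (X.ηC δ k * (1 - qn 3 p)) 1 ((X.C k).e x))) := by
      refine le_trans (setLIntegral_mono_ae' mS (Eventually.of_forall fun x hx => ?_))
        (lintegral_mono_set hS)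
      rw [← Y_outer h N₂ (hS hx)]
      exact hpt x hx
    refine e1.trans (lint_cell (X.C k) (Sys.gC h k).t0 ?_ mg1)
    have := (Sys.gC h k).half_le; linarith
  refine s1.trans (mul_le_mul' le_rfl ((setLIntegral_le_lintegral _ _).trans ?_))
  rw [lintegral_add_left m0, lintegral_finsetSum _ fun j _ => mt j]
  refine add_le_add ?_ (Finset.sum_le_sum fun j _ => ?_)
  · refine (lintegral_mono (indicator_le_self' fun _ _ => zero_le)).trans ?_
    rw [lintegral_indicator mA]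
  · show ∫⁻ x, (FW (X.F j)).indicator (fun y => (B j).indicator g (H y)) x ≤ _
    rw [lintegral_indicator (isOpen_FW _).measurableSet]
    have e1 : ∫⁻ x in FW (X.F j), (B j).indicator g (H x) =
        ∫⁻ x in FW (X.F j), (B j).indicator g
          ((X.F j).e' (fo (X.ηF δ j * (1 - qF p)) ((X.F j).e x))) := by
      refine setLIntegral_congr_fun (isOpen_FW _).measurableSet fun x hx => ?_
      show (B j).indicator g (H x) = _
      rw [hH, H_fo h N₁ hx]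
    rw [e1]
    refine (lint_face (X.F j) (Sys.gF h j).t0 (hτF j) (hg.indicator (mB j))).trans
      (mul_le_mul' le_rfl ?_)
    have e2 : (X.F j).K ⊆ (X.F j).V ∪ ((X.F j).K \ (X.F j).V) := by
      intro x hx
      by_cases h1 : x ∈ (X.F j).V
      · exact Or.inl h1
      · exact Or.inr ⟨hx, h1⟩
    refine (lintegral_mono_set e2).trans ((lintegral_union_le _ _ _).trans ?_)
    rw [setLIntegral_measure_zero _ _ (X.F j).null, add_zero, setLIntegral_indicator (mB j),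
      inter_comm]

/-- the constant of the tube -/
noncomputable def CT (p : ℝ) (m : ℝ≥0) : ℝ :=
  ((m:ℝ)^6 * (3 * (m:ℝ)^3 * (|kap 3| / (1 - qn 3 p)))) *
    (1 + (m:ℝ)^6 * (2 * (m:ℝ) * (|kd| / (1 - qF p))))

lemma inf_pt {E : Set E3} (hE : IsCompact E) {u : ℝ} {x : E3} (hx : x ∈ cthickening u E) (hu : 0 ≤ u) :
    ∃ y ∈ E, ‖x - y‖ ≤ u := by
  rw [hE.cthickening_eq_biUnion_closedBall hu] at hx
  obtain ⟨y, hy, hxy⟩ := mem_iUnion₂.1 hx
  exact ⟨y, hy, by rwa [mem_closedBall, dist_eq_norm] at hxy⟩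

lemma mem_cth {E : Set E3} {u : ℝ} {x y : E3} (hy : y ∈ E) (h : ‖x - y‖ ≤ u) :
    x ∈ cthickening u E := by
  refine mem_cthickening_of_dist_le x y u E hy ?_
  rwa [dist_eq_norm]

/-- **the localised estimate** -/
theorem tube_int (h : X.Adm p δ) (N₁ N₂ : ℕ) (k : κ) (hδ : ∀ j, 4 * δ ≤ (X.F j).ρ)
    (hρ : ∀ j, ((X.F j).V ∩ (X.C k).P).Nonempty → (X.C k).R ≤ X.m k * (X.F j).ρ)
    {E : Set E3} (hE : IsCompact E) (hEU : ∀ y ∈ E, y ∉ (X.C k).U)
    (hEV : ∀ y ∈ E, ∀ j, y ∉ (X.F j).V) {u : ℝ} (hu0 : 0 ≤ u)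
    (hu : 40 * (X.m k : ℝ)^4 * u ≤ (X.C k).R) {g : E3 → ℝ≥0∞} (hg : Measurable g) :
    ∫⁻ x in (X.C k).P ∩ cthickening u E, g (Sys.chi h (N₁+1) (N₂+1) x) ≤
      ENNReal.ofReal (CT p (X.m k)) * (ENNReal.ofReal ((X.C k).R / δ) *
        ((∑ j, ENNReal.ofReal ((X.F j).ρ / δ) *
          ∫⁻ x in (X.C k).P ∩ (X.F j).V ∩ cthickening (25 * (X.m k : ℝ)^4 * u) E ∩
            cthickening (11 * (X.m k : ℝ)^4 * (δ / (X.C k).R) * u) (X.F j).rim, g x) +
        ∫⁻ x in (X.C k).P ∩ cthickening (25 * (X.m k : ℝ)^4 * u) E ∩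
          (cthickening (11 * (X.m k : ℝ)^4 * (δ / (X.C k).R) * u) X.Z ∪
            ⋃ j, cthickening (11 * (X.m k : ℝ)^4 * (δ / (X.C k).R) * u) (X.F j).rim), g x)) := by
  classical
  have hm1 := Sys.m_one (X := X) k
  have hR := (X.C k).R_pos
  have hd := h.d0
  have hm4 : (1:ℝ) ≤ (X.m k : ℝ)^4 := one_le_pow₀ hm1
  have hm24 : (X.m k : ℝ)^2 ≤ (X.m k : ℝ)^4 := pow_le_pow_right₀ hm1 (by norm_num)
  have hm14 : (X.m k : ℝ) ≤ (X.m k : ℝ)^4 := by
    calc (X.m k : ℝ) = (X.m k : ℝ)^1 := (pow_one _).symm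
      _ ≤ _ := pow_le_pow_right₀ hm1 (by norm_num)
  set r1 : ℝ := 25 * (X.m k : ℝ)^4 * u with hr1
  set r2 : ℝ := 11 * (X.m k : ℝ)^4 * (δ / (X.C k).R) * u with hr2
  set Θ : Set E3 := cthickening r2 X.Z ∪ ⋃ j, cthickening r2 (X.F j).rim with hΘ
  have mΘ : MeasurableSet Θ := isClosed_cthickening.measurableSet.union
    (MeasurableSet.iUnion fun j => isClosed_cthickening.measurableSet)
  set S : Set E3 := (X.C k).U ∩ cthickening u E with hS
  have mS : MeasurableSet S := (X.C k).cht.opU.measurableSet.inter isClosed_cthickening.measurableSet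
  have hq3 : 0 < 1 - qn 3 p := by
    have := qn_lt (n := 3) (p := p) (by exact_mod_cast h.p3)
    linarith
  have hqF : 0 < 1 - qF p := by have := qF_lt p; linarith
  have huC : 4 * (X.m k : ℝ) * u ≤ (X.C k).R := by nlinarith
  have huF : ∀ j, ((X.F j).V ∩ (X.C k).P).Nonempty → 40 * (X.m k : ℝ)^3 * u ≤ (X.F j).ρ := by
    intro j hj
    have h1 : (X.C k).R ≤ X.m k * (X.F j).ρ := hρ j hj
    have h2 : ((X.C k).R : ℝ) ≤ (X.m k : ℝ) * (X.F j).ρ := by exact_mod_cast h1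
    have h3 : (X.m k : ℝ) * (40 * (X.m k : ℝ)^3 * u) ≤ (X.m k : ℝ) * (X.F j).ρ := by
      calc (X.m k : ℝ) * (40 * (X.m k : ℝ)^3 * u) = 40 * (X.m k : ℝ)^4 * u := by ring
        _ ≤ _ := hu.trans h2
    exact le_of_mul_le_mul_left h3 (by linarith)
  -- the points
  have pts : ∀ x ∈ S, ∃ y0 ∈ E, ‖x - y0‖ ≤ u ∧ y0 ∉ (X.C k).U ∧ ∀ j, y0 ∉ (X.F j).V := by
    rintro x ⟨hx1, hx2⟩
    obtain ⟨y0, h1, h2⟩ := inf_pt hE hx2 hu0
    exact ⟨y0, h1, h2, hEU y0 h1, hEV y0 h1⟩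
  have near : ∀ x ∈ S, Sys.chi h (N₁+1) (N₂+1) x ∈ (X.C k).P ∩ cthickening r1 E := by
    intro x hx
    obtain ⟨y0, h1, h2, h3, h4⟩ := pts x hx
    obtain ⟨c1, c2, -, -⟩ := chi_pt h N₁ N₂ hx.1 h3 h4 h2 huC huF
    refine ⟨(Sys.chi_P h (N₁+1) (N₂+1) k x).2 ((X.C k).cht.sub hx.1), mem_cth h1 ?_⟩
    have e1 : Sys.chi h (N₁+1) (N₂+1) x - y0 = (Sys.chi h (N₁+1) (N₂+1) x - x) + (x - y0) := by abel
    rw [e1]
    refine (norm_add_le _ _).trans ?_
    have : u ≤ (X.m k : ℝ)^4 * u := by nlinarith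
    rw [hr1]; linarith
  have hτF : ∀ j, X.ηF δ j * (1 - qF p) ≤ 1/8 := by
    intro j
    have h1 := (X.F j).M_one
    have h2 := (X.F j).ρ_pos
    have h3 := hδ j
    have h4 : X.ηF δ j ≤ 1/8 := by
      unfold Sys.ηF
      rw [div_le_iff₀ (by positivity)]
      nlinarith
    have h5 := Sys.ηF_pos h j
    have h6 := qF_pos p
    nlinarith
  have mP : MeasurableSet (X.C k).P := (X.C k).cht.clK.measurableSet
  have key := lint_chi2 h N₁ N₂ k hτF mS (fun x hx => by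
      obtain ⟨y0, h1, h2, h3, h4⟩ := pts x hx
      exact (chi_pt h N₁ N₂ hx.1 h3 h4 h2 huC huF).1)
    (A := (X.C k).P ∩ cthickening r1 E ∩ Θ)
    ((mP.inter isClosed_cthickening.measurableSet).inter mΘ)
    (B := fun j => {x | ((X.F j).V ∩ (X.C k).P).Nonempty} ∩
      ((X.C k).P ∩ cthickening r1 E ∩ cthickening r2 (X.F j).rim))
    (fun j => (MeasurableSet.const _).inter ((mP.inter isClosed_cthickening.measurableSet).inter
      isClosed_cthickening.measurableSet))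
    (fun x hx hV => by
      obtain ⟨y0, h1, h2, h3, h4⟩ := pts x hx
      obtain ⟨-, -, c3, -⟩ := chi_pt h N₁ N₂ hx.1 h3 h4 h2 huC huF
      refine ⟨near x hx, ?_⟩
      rcases c3 hV with ⟨y, hy, hyd⟩ | ⟨j, y, hy, hyd⟩
      · refine Or.inl (mem_cth hy (hyd.trans ?_))
        rw [hr2]
        have : 0 ≤ δ / (X.C k).R * u := by positivity
        calc δ / (X.C k).R * u = 1 * (δ / (X.C k).R * u) := (one_mul _).symm
          _ ≤ 11 * (X.m k : ℝ)^4 * (δ / (X.C k).R * u) :=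
            mul_le_mul_of_nonneg_right (by linarith) this
          _ = _ := by ring
      · refine Or.inr (mem_iUnion.2 ⟨j, mem_cth hy (hyd.trans ?_)⟩)
        rw [hr2]
        have : 0 ≤ δ / (X.C k).R * u := by positivity
        calc 3 * (X.m k : ℝ)^2 * (δ / (X.C k).R) * u =
              3 * (X.m k : ℝ)^2 * (δ / (X.C k).R * u) := by ring
          _ ≤ 11 * (X.m k : ℝ)^4 * (δ / (X.C k).R * u) :=
            mul_le_mul_of_nonneg_right (by linarith) this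
          _ = _ := by ring)
    (fun x hx j hj => by
      obtain ⟨y0, h1, h2, h3, h4⟩ := pts x hx
      obtain ⟨-, -, -, c4⟩ := chi_pt h N₁ N₂ hx.1 h3 h4 h2 huC huF
      obtain ⟨d1, y, hy, hyd⟩ := c4 j hj
      have hne : ((X.F j).V ∩ (X.C k).P).Nonempty :=
        ⟨_, hj, (Sys.Y_P h (N₂+1) k x).2 ((X.C k).cht.sub hx.1)⟩
      refine ⟨d1, hne, near x hx, mem_cth hy (hyd.trans ?_)⟩
      have hρ0 := (X.F j).ρ_pos
      have h7 : ((X.C k).R : ℝ) ≤ (X.m k : ℝ) * (X.F j).ρ := by exact_mod_cast hρ j hne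
      have h8 : δ / (X.F j).ρ ≤ (X.m k : ℝ) * (δ / (X.C k).R) := by
        rw [div_le_iff₀ hρ0]
        calc δ = δ / (X.C k).R * (X.C k).R := by field_simp
          _ ≤ δ / (X.C k).R * ((X.m k : ℝ) * (X.F j).ρ) :=
            mul_le_mul_of_nonneg_left h7 (by positivity)
          _ = _ := by ring
      rw [hr2]
      have : 0 ≤ δ / (X.C k).R * u := by positivity
      have e3 : 10 * (X.m k : ℝ)^3 * (δ / (X.F j).ρ) * u ≤
          10 * (X.m k : ℝ)^4 * (δ / (X.C k).R * u) := by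
        calc 10 * (X.m k : ℝ)^3 * (δ / (X.F j).ρ) * u
            ≤ 10 * (X.m k : ℝ)^3 * ((X.m k : ℝ) * (δ / (X.C k).R)) * u := by gcongr
          _ = _ := by ring
      have e4 : (X.m k : ℝ)^2 * (δ / (X.C k).R) * u ≤ (X.m k : ℝ)^4 * (δ / (X.C k).R * u) := by
        calc (X.m k : ℝ)^2 * (δ / (X.C k).R) * u = (X.m k : ℝ)^2 * (δ / (X.C k).R * u) := by ring
          _ ≤ _ := mul_le_mul_of_nonneg_right hm24 this
      calc _ ≤ (X.m k : ℝ)^4 * (δ / (X.C k).R * u) + 10 * (X.m k : ℝ)^4 * (δ / (X.C k).R * u) :=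
            add_le_add e4 e3
        _ = _ := by ring)
    hg
  -- from `P` to `U`
  have e0 : (X.C k).P ∩ cthickening u E ⊆ S ∪ ((X.C k).P \ (X.C k).U) := by
    rintro x ⟨hx1, hx2⟩
    by_cases h1 : x ∈ (X.C k).U
    · exact Or.inl ⟨h1, hx2⟩
    · exact Or.inr ⟨hx1, h1⟩
  refine (lintegral_mono_set e0).trans ((lintegral_union_le _ _ _).trans ?_)
  rw [setLIntegral_measure_zero _ _ (X.C k).null, add_zero]
  refine key.trans ?_
  -- constants
  have hMk : ((X.C k).M : ℝ) ≤ X.m k := by exact_mod_cast X.mC k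
  have c1 : (((X.C k).M * (X.C k).M : ℝ≥0) : ℝ≥0∞)^3 *
      ENNReal.ofReal (kap 3 / (X.ηC δ k * (1 - qn 3 p))) ≤
      ENNReal.ofReal ((X.m k : ℝ)^6 * (3 * (X.m k : ℝ)^3 * (|kap 3| / (1 - qn 3 p)))) *
        ENNReal.ofReal ((X.C k).R / δ) := by
    rw [← ENNReal.ofReal_coe_nnreal, ← ENNReal.ofReal_pow (by positivity),
      ← ENNReal.ofReal_mul (by positivity), ← ENNReal.ofReal_mul (by positivity)]
    apply ENNReal.ofReal_le_ofReal
    have h0 := Sys.ηC_pos h k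
    have e1 : ((((X.C k).M * (X.C k).M : ℝ≥0) : ℝ))^3 ≤ (X.m k : ℝ)^6 := by
      push_cast
      calc ((X.C k).M * (X.C k).M : ℝ)^3 = ((X.C k).M : ℝ)^6 := by ring
        _ ≤ _ := by gcongr
    have e2 : kap 3 / (X.ηC δ k * (1 - qn 3 p)) ≤
        3 * (X.m k : ℝ)^3 * (|kap 3| / (1 - qn 3 p)) * ((X.C k).R / δ) := by
      have e3 : kap 3 / (X.ηC δ k * (1 - qn 3 p)) =
          3 * (X.m k : ℝ)^3 * (kap 3 / (1 - qn 3 p)) * ((X.C k).R / δ) := by
        unfold Sys.ηC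
        field_simp
      rw [e3]
      have := le_abs_self (kap 3)
      gcongr
    have e4 : 0 ≤ 3 * (X.m k : ℝ)^3 * (|kap 3| / (1 - qn 3 p)) * ((X.C k).R / δ) := by positivity
    calc _ ≤ (((X.C k).M * (X.C k).M : ℝ≥0) : ℝ)^3 *
          (3 * (X.m k : ℝ)^3 * (|kap 3| / (1 - qn 3 p)) * ((X.C k).R / δ)) :=
          mul_le_mul_of_nonneg_left e2 (by positivity)
      _ ≤ (X.m k : ℝ)^6 * (3 * (X.m k : ℝ)^3 * (|kap 3| / (1 - qn 3 p)) * ((X.C k).R / δ)) :=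
          mul_le_mul_of_nonneg_right e1 e4
      _ = _ := by ring
  set K2 : ℝ := (X.m k : ℝ)^6 * (2 * (X.m k : ℝ) * (|kd| / (1 - qF p))) with hK2
  have hK20 : 0 ≤ K2 := by positivity
  have c2 : ∀ j, (((X.F j).M * (X.F j).M : ℝ≥0) : ℝ≥0∞)^3 *
      ENNReal.ofReal (kd / (X.ηF δ j * (1 - qF p))) * ∫⁻ x in (X.F j).V ∩
        ({x | ((X.F j).V ∩ (X.C k).P).Nonempty} ∩
          ((X.C k).P ∩ cthickening r1 E ∩ cthickening r2 (X.F j).rim)), g x ≤
      ENNReal.ofReal K2 * (ENNReal.ofReal ((X.F j).ρ / δ) *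
        ∫⁻ x in (X.C k).P ∩ (X.F j).V ∩ cthickening r1 E ∩ cthickening r2 (X.F j).rim, g x) := by
    intro j
    by_cases hne : ((X.F j).V ∩ (X.C k).P).Nonempty
    · have hMj : ((X.F j).M : ℝ) ≤ X.m k := by exact_mod_cast X.mF k j hne
      have hρ0 := (X.F j).ρ_pos
      have hM1 := (X.F j).M_pos
      rw [← mul_assoc]
      refine mul_le_mul' ?_ (lintegral_mono_set ?_)
      · rw [← ENNReal.ofReal_coe_nnreal, ← ENNReal.ofReal_pow (by positivity),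
          ← ENNReal.ofReal_mul (by positivity), ← ENNReal.ofReal_mul (by positivity)]
        apply ENNReal.ofReal_le_ofReal
        have e1 : ((((X.F j).M * (X.F j).M : ℝ≥0) : ℝ))^3 ≤ (X.m k : ℝ)^6 := by
          push_cast
          calc ((X.F j).M * (X.F j).M : ℝ)^3 = ((X.F j).M : ℝ)^6 := by ring
            _ ≤ _ := by gcongr
        have e2 : kd / (X.ηF δ j * (1 - qF p)) ≤
            2 * (X.m k : ℝ) * (|kd| / (1 - qF p)) * ((X.F j).ρ / δ) := by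
          have e3 : kd / (X.ηF δ j * (1 - qF p)) =
              2 * ((X.F j).M : ℝ) * (kd / (1 - qF p)) * ((X.F j).ρ / δ) := by
            unfold Sys.ηF
            field_simp
          rw [e3]
          have h5 := le_abs_self kd
          have h6 : 2 * ((X.F j).M : ℝ) * (kd / (1 - qF p)) * ((X.F j).ρ / δ) ≤
              2 * ((X.F j).M : ℝ) * (|kd| / (1 - qF p)) * ((X.F j).ρ / δ) := by gcongr
          refine h6.trans ?_
          gcongr
        calc _ ≤ (((X.F j).M * (X.F j).M : ℝ≥0) : ℝ)^3 *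
              (2 * (X.m k : ℝ) * (|kd| / (1 - qF p)) * ((X.F j).ρ / δ)) :=
              mul_le_mul_of_nonneg_left e2 (by positivity)
          _ ≤ (X.m k : ℝ)^6 * (2 * (X.m k : ℝ) * (|kd| / (1 - qF p)) * ((X.F j).ρ / δ)) :=
              mul_le_mul_of_nonneg_right e1 (by positivity)
          _ = _ := by rw [hK2]; ring
      · rintro x ⟨hx1, -, ⟨hx2, hx3⟩, hx4⟩
        exact ⟨⟨⟨hx2, hx1⟩, hx3⟩, hx4⟩
    · have e1 : (X.F j).V ∩ ({x | ((X.F j).V ∩ (X.C k).P).Nonempty} ∩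
          ((X.C k).P ∩ cthickening r1 E ∩ cthickening r2 (X.F j).rim)) = ∅ := by
        rw [← not_nonempty_iff_eq_empty]
        rintro ⟨x, -, hx, -⟩
        exact hne hx
      rw [e1, Measure.restrict_empty, lintegral_zero_measure, mul_zero]
      exact zero_le
  set K1 : ℝ := (X.m k : ℝ)^6 * (3 * (X.m k : ℝ)^3 * (|kap 3| / (1 - qn 3 p))) with hK1
  have hK10 : 0 ≤ K1 := by positivity
  set I0 := ∫⁻ x in (X.C k).P ∩ cthickening r1 E ∩ Θ, g x with hI0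
  set Sm := ∑ j, ENNReal.ofReal ((X.F j).ρ / δ) *
    ∫⁻ x in (X.C k).P ∩ (X.F j).V ∩ cthickening r1 E ∩ cthickening r2 (X.F j).rim, g x with hSm
  have t1 : (1:ℝ≥0∞) ≤ ENNReal.ofReal (1 + K2) := by
    rw [← ENNReal.ofReal_one]; exact ENNReal.ofReal_le_ofReal (by linarith)
  have t2 : ENNReal.ofReal K2 ≤ ENNReal.ofReal (1 + K2) := ENNReal.ofReal_le_ofReal (by linarith)
  calc _ ≤ (ENNReal.ofReal K1 * ENNReal.ofReal ((X.C k).R / δ)) *
        (I0 + ∑ j, ENNReal.ofReal K2 * (ENNReal.ofReal ((X.F j).ρ / δ) *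
          ∫⁻ x in (X.C k).P ∩ (X.F j).V ∩ cthickening r1 E ∩ cthickening r2 (X.F j).rim, g x)) :=
        mul_le_mul' c1 (add_le_add le_rfl (Finset.sum_le_sum fun j _ => c2 j))
    _ = (ENNReal.ofReal K1 * ENNReal.ofReal ((X.C k).R / δ)) * (I0 + ENNReal.ofReal K2 * Sm) := by
        rw [← Finset.mul_sum]
    _ ≤ (ENNReal.ofReal K1 * ENNReal.ofReal ((X.C k).R / δ)) *
        (ENNReal.ofReal (1 + K2) * I0 + ENNReal.ofReal (1 + K2) * Sm) := by
        refine mul_le_mul' le_rfl (add_le_add ?_ (mul_le_mul' t2 le_rfl))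
        calc I0 = 1 * I0 := (one_mul _).symm
          _ ≤ _ := mul_le_mul' t1 le_rfl
    _ = _ := by
        have e : ENNReal.ofReal (CT p (X.m k)) = ENNReal.ofReal K1 * ENNReal.ofReal (1 + K2) := by
          rw [← ENNReal.ofReal_mul hK10]
          rfl
        rw [e]
        ring

end Crest.Agent.R096.Sqt_143
end

-- ▼ part R096/Sqt10_143
section

/-!
Row 96 (S0127), helper143.  SQ-TUBE, part 10: **energies near the edges** (`tube_energy`) and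
**near-optimality in the direction of an edge** (`tube_near`) of `f ∘ chi`.
-/

set_option autoImplicit false
set_option linter.unusedSectionVars false

open Set Metric Filter Topology MeasureTheory

namespace Crest.Agent.R096.Sqt_143

open Crest.Agent.R096.Ce_537 Crest.Agent.R096.Bd_416 Crest.Agent.R96.Hole_348
open Crest.Agent.R096.Sq_55
open Crest.Agent.R96.Acl_392 Crest.Agent.R96.Sob1_199 Crest.Agent.R96.Sob2_199
  Crest.Agent.R96.Sob3_199 Crest.Agent.R96.Sob6_199 Crest.Agent.R96.Sob7_199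
  Crest.Agent.R96.Sob8_199
open Crest.AnalysisR.VecCalc3 Crest.AnalysisR.Sobolev
open Crest.Agent.R096.Sk_962
open Crest.Agent.R96.Lu_538
open scoped NNReal ENNReal

variable {κ ι : Type*} [Fintype κ] [Fintype ι] {X : Sys κ ι} {p δ : ℝ}

/-- the right side of `tube_int` -/
noncomputable def tb (X : Sys κ ι) (δ : ℝ) (k : κ) (E : Set E3) (u : ℝ) (g : E3 → ℝ≥0∞) : ℝ≥0∞ :=
  ENNReal.ofReal ((X.C k).R / δ) *
    ((∑ j, ENNReal.ofReal ((X.F j).ρ / δ) *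
      ∫⁻ x in (X.C k).P ∩ (X.F j).V ∩ cthickening (25 * (X.m k : ℝ)^4 * u) E ∩
        cthickening (11 * (X.m k : ℝ)^4 * (δ / (X.C k).R) * u) (X.F j).rim, g x) +
    ∫⁻ x in (X.C k).P ∩ cthickening (25 * (X.m k : ℝ)^4 * u) E ∩
      (cthickening (11 * (X.m k : ℝ)^4 * (δ / (X.C k).R) * u) X.Z ∪
        ⋃ j, cthickening (11 * (X.m k : ℝ)^4 * (δ / (X.C k).R) * u) (X.F j).rim), g x)

lemma tb_mono {k : κ} {E : Set E3} {u : ℝ} {g g' : E3 → ℝ≥0∞}
    (h : ∀ᵐ x, x ∈ (X.C k).P → g x ≤ g' x) : tb X δ k E u g ≤ tb X δ k E u g' := by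
  have h1 : ∀ T : Set E3, T ⊆ (X.C k).P → ∫⁻ x in T, g x ≤ ∫⁻ x in T, g' x := by
    intro T hT
    have h2 : ∀ᵐ x ∂(volume.restrict (X.C k).P), g x ≤ g' x :=
      (ae_restrict_iff' (X.C k).cht.clK.measurableSet).2 h
    exact lintegral_mono_ae (ae_mono (Measure.restrict_mono hT le_rfl) h2)
  unfold tb
  refine mul_le_mul' le_rfl (add_le_add (Finset.sum_le_sum fun j _ => mul_le_mul' le_rfl
    (h1 _ fun x hx => hx.1.1.1)) (h1 _ fun x hx => hx.1.1))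

/-- the hypotheses on the closed set `E` and the radius -/
structure Tb (X : Sys κ ι) (δ : ℝ) (k : κ) (E : Set E3) (u : ℝ) : Prop where
  d4 : ∀ j, 4 * δ ≤ (X.F j).ρ
  sz : ∀ j, ((X.F j).V ∩ (X.C k).P).Nonempty → (X.C k).R ≤ X.m k * (X.F j).ρ
  cpt : IsCompact E
  EU : ∀ y ∈ E, y ∉ (X.C k).U
  EV : ∀ y ∈ E, ∀ j, y ∉ (X.F j).V
  u0 : 0 ≤ u
  uR : 40 * (X.m k : ℝ)^4 * u ≤ (X.C k).R

/-- `tube_int` for almost everywhere measurable functions -/
theorem tube_int_ae (h : X.Adm p δ) (N₁ N₂ : ℕ) {k : κ} {E : Set E3} {u : ℝ} (H : Tb X δ k E u)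
    {g : E3 → ℝ≥0∞} (hg : AEMeasurable g (volume.restrict (X.C k).P)) :
    ∫⁻ x in (X.C k).P ∩ cthickening u E, g (Sys.chi h (N₁+1) (N₂+1) x) ≤
      ENNReal.ofReal (CT p (X.m k)) * tb X δ k E u g := by
  have mP : MeasurableSet (X.C k).P := (X.C k).cht.clK.measurableSet
  have e1 : ∀ᵐ y, y ∈ (X.C k).P → g y = hg.mk g y := (ae_restrict_iff' mP).1 hg.ae_eq_mk
  have e2 := null_pre (Sys.plOn_chi_symm h (N₁+1) (N₂+1)) e1
  have key := tube_int h N₁ N₂ k H.d4 H.sz H.cpt H.EU H.EV H.u0 H.uR hg.measurable_mk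
  refine le_trans (le_of_eq ?_) (key.trans (mul_le_mul' le_rfl ?_))
  · refine setLIntegral_congr_fun_ae (mP.inter isClosed_cthickening.measurableSet) ?_
    filter_upwards [e2] with x hx hxS
    exact hx ((Sys.chi_P h (N₁+1) (N₂+1) k x).2 hxS.1)
  · refine tb_mono ?_
    filter_upwards [e1] with x hx hxP
    exact (hx hxP).ge

/-- the local Lipschitz constant near `E` -/
theorem ae_llv (h : X.Adm p δ) (N₁ N₂ : ℕ) {k : κ} {E : Set E3} {u : ℝ} (H : Tb X δ k E u) :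
    ∀ᵐ x, x ∈ (X.C k).P → x ∈ cthickening u E →
      LLV (528 * (X.m k : ℝ)^4) (Sys.chi h (N₁+1) (N₂+1)) x := by
  have hm1 := Sys.m_one (X := X) k
  have hm4 : (1:ℝ) ≤ (X.m k : ℝ)^4 := one_le_pow₀ hm1
  have hm14 : (X.m k : ℝ) ≤ (X.m k : ℝ)^4 := by
    calc (X.m k : ℝ) = (X.m k : ℝ)^1 := (pow_one _).symm
      _ ≤ _ := pow_le_pow_right₀ hm1 (by norm_num)
  have hu0 := H.u0
  have huR := H.uR
  have huC : 4 * (X.m k : ℝ) * u ≤ (X.C k).R := by nlinarith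
  have huF : ∀ j, ((X.F j).V ∩ (X.C k).P).Nonempty → 40 * (X.m k : ℝ)^3 * u ≤ (X.F j).ρ := by
    intro j hj
    have h2 : ((X.C k).R : ℝ) ≤ (X.m k : ℝ) * (X.F j).ρ := by exact_mod_cast H.sz j hj
    have h3 : (X.m k : ℝ) * (40 * (X.m k : ℝ)^3 * u) ≤ (X.m k : ℝ) * (X.F j).ρ := by
      calc (X.m k : ℝ) * (40 * (X.m k : ℝ)^3 * u) = 40 * (X.m k : ℝ)^4 * u := by ring
        _ ≤ _ := huR.trans h2
    exact le_of_mul_le_mul_left h3 (by linarith)
  have n1 : ∀ᵐ x : E3, x ∉ (X.C k).P \ (X.C k).U :=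
    measure_eq_zero_iff_ae_notMem.1 (X.C k).null
  have n2 : ∀ᵐ x : E3, ∀ j, x ∉ (X.F j).K \ (X.F j).V := by
    rw [ae_all_iff]
    intro j
    exact measure_eq_zero_iff_ae_notMem.1 (X.F j).null
  have n3 := null_pre (Sys.plOn_Y_symm h (N₂+1)) n2
  filter_upwards [n1, n3] with x a1 a3 hxP hxE
  have hxU : x ∈ (X.C k).U := by
    by_contra hxU
    exact a1 ⟨hxP, hxU⟩
  obtain ⟨y0, h1, h2⟩ := inf_pt H.cpt hxE hu0
  obtain ⟨c1, -, -, c4⟩ := chi_pt h N₁ N₂ hxU (H.EU y0 h1) (H.EV y0 h1) h2 huC huF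
  exact chi_llv h N₁ N₂ c1 (fun j hj => (c4 j hj).1) a3

/-- **energies near the edges** -/
theorem tube_energy (h : X.Adm p δ) (N₁ N₂ : ℕ) {k : κ} {E : Set E3} {u : ℝ} (H : Tb X δ k E u)
    {q : ℝ} {v : E3 → ℝ≥0∞} (hv : AEMeasurable v (volume.restrict (X.C k).P))
    {w : E3 → ℝ≥0∞} (hw : ∀ᵐ x, x ∈ (X.C k).P → ∀ c, 1 ≤ c →
      LLV c (Sys.chi h (N₁+1) (N₂+1)) x →
      w x ≤ ENNReal.ofReal (c^q) * v (Sys.chi h (N₁+1) (N₂+1) x)) :
    ∫⁻ x in (X.C k).P ∩ cthickening u E, w x ≤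
      ENNReal.ofReal ((528 * (X.m k : ℝ)^4)^q) *
        (ENNReal.ofReal (CT p (X.m k)) * tb X δ k E u v) := by
  have hm1 := Sys.m_one (X := X) k
  have hm4 : (1:ℝ) ≤ (X.m k : ℝ)^4 := one_le_pow₀ hm1
  have mP : MeasurableSet (X.C k).P := (X.C k).cht.clK.measurableSet
  have s1 : ∫⁻ x in (X.C k).P ∩ cthickening u E, w x ≤
      ∫⁻ x in (X.C k).P ∩ cthickening u E, ENNReal.ofReal ((528 * (X.m k : ℝ)^4)^q) *
        v (Sys.chi h (N₁+1) (N₂+1) x) := by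
    refine setLIntegral_mono_ae' (mP.inter isClosed_cthickening.measurableSet) ?_
    filter_upwards [hw, ae_llv h N₁ N₂ H] with x h1 h2 hx
    exact h1 hx.1 _ (by linarith) (h2 hx.1 hx.2)
  refine s1.trans ?_
  rw [lintegral_const_mul' _ _ ENNReal.ofReal_ne_top]
  exact mul_le_mul' le_rfl (tube_int_ae h N₁ N₂ H hv)

/-! ### the derivative in one direction -/

/-- the bound of the derivative of a composition in one direction -/
theorem dir_le {Om : Set R3} (hOm : IsOpen Om) {v : R3 → ℝ} {G G' : R3 → R3}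
    (h : HasWeakGradOn Om v G) (hv : ContinuousOn v Om) (Ψ : R3 ≃ₜ R3) (h1 : PLOn Ψ univ)
    (hΨ : ∀ x, Ψ x ∈ Om ↔ x ∈ Om) (hG : LocallyIntegrableOn (fun y => G (Ψ y)) Om)
    (h' : HasWeakGradOn Om (fun x => v (Ψ x)) G') (e : R3) :
    ∀ᵐ x, x ∈ Om → ∀ c : ℝ, LLV c Ψ x → |inner ℝ (G' x) e| ≤ c * ‖e‖ * ‖G (Ψ x)‖ := by
  obtain ⟨-, S, hS'⟩ := h1
  have hS : ∀ x, ∃ a ∈ S, Ψ x = a x := fun x => hS' x (mem_univ x)
  have a1 := (Crest.Agent.R096.Sbc_447.wd_comp_pl hOm h hv Ψ hS hΨ hG e).2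
  have a2 := dq_grad hOm h' (hv.comp Ψ.continuous.continuousOn fun x hx => (hΨ x).2 hx) e
  have a3 : ∀ᵐ x : R3, x ∉ Crest.Agent.R096.Sbc_447.Nn S :=
    measure_eq_zero_iff_ae_notMem.1 (Crest.Agent.R096.Sbc_447.null_Nn _ S)
  filter_upwards [a1, a2, a3] with x b1 b2 b3 hx c hc
  obtain ⟨a, ha, hxa⟩ := hS x
  have hn := Crest.Agent.R096.Sbc_447.near Ψ.continuous hS b3 ha hxa
  have h4 := Crest.Agent.R096.Sbc_447.norm_linear_le hn hc e
  rw [b2 hx]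
  refine (b1 hx).trans ?_
  rw [Crest.Agent.R096.Sbc_447.maj_eq b3 ha hxa]
  refine (abs_real_inner_le_norm _ _).trans ?_
  rw [mul_comm]
  exact mul_le_mul_of_nonneg_right h4 (norm_nonneg _)

theorem Gmat_le {Om La : Set R3} (hOm : IsOpen Om) {p : ℝ} (hp : 1 ≤ p) {f : R3 → R3}
    {G G' : Fin 3 → R3 → R3} (h : SH p Om La f G) (Ψ : R3 ≃ₜ R3) (h1 : PLOn Ψ univ)
    (hΨ : ∀ x, Ψ x ∈ Om ↔ x ∈ Om)
    (h' : ∀ j : Fin 3, HasWeakGradOn Om (fun x => f (Ψ x) j) (G' j)) (e : R3) :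
    ∀ᵐ x, x ∈ Om → ∀ c : ℝ, 0 ≤ c → LLV c Ψ x → ‖Gmat G' x e‖ ≤ 2 * c * ‖e‖ * ‖Gmat G (Ψ x)‖ := by
  obtain ⟨finv, hf1, hf2, hf3, hf4, hf5, hf6⟩ := h.homeo
  have hfj : ∀ j : Fin 3, ContinuousOn (fun x => f x j) Om := fun j =>
    (EuclideanSpace.proj j : R3 →L[ℝ] ℝ).continuous.comp_continuousOn hf5
  have hp' : 1 ≤ ENNReal.ofReal p := by
    rw [← ENNReal.ofReal_one]; exact ENNReal.ofReal_le_ofReal hp
  obtain ⟨-, S, hS'⟩ := id h1
  have hS : ∀ x, ∃ a ∈ S, Ψ x = a x := fun x => hS' x (mem_univ x)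
  have hGl : ∀ j, LocallyIntegrableOn (fun x => G j (Ψ x)) Om := fun j =>
    Crest.Agent.R096.Sbc_447.locInt_of_memLp hOm hp'
      (Crest.Agent.R096.Sbc_447.memLp_comp Ψ hS hΨ (h.memG j))
  have key : ∀ᵐ x, ∀ j : Fin 3, x ∈ Om → ∀ c : ℝ, LLV c Ψ x →
      |inner ℝ (G' j x) e| ≤ c * ‖e‖ * ‖G j (Ψ x)‖ := by
    rw [ae_all_iff]
    intro j
    exact dir_le hOm (h.wg j) (hfj j) Ψ h1 hΨ (hGl j) (h' j) e
  filter_upwards [key] with x hx hxO c hc hcx
  have hj : ∀ j : Fin 3, |Gmat G' x e j| ≤ c * ‖e‖ * ‖Gmat G (Ψ x)‖ := by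
    intro j
    rw [Gmat_apply]
    refine (hx j hxO c hcx).trans ?_
    exact mul_le_mul_of_nonneg_left (norm_row_le (fun j => G j (Ψ x)) j) (by positivity)
  have h0 : 0 ≤ c * ‖e‖ * ‖Gmat G (Ψ x)‖ := by positivity
  have h5 : ‖Gmat G' x e‖ ^ 2 ≤ (2 * c * ‖e‖ * ‖Gmat G (Ψ x)‖) ^ 2 := by
    rw [EuclideanSpace.norm_sq_eq, Fin.sum_univ_three]
    have h6 : ∀ i : Fin 3, ‖Gmat G' x e i‖ ^ 2 ≤ (c * ‖e‖ * ‖Gmat G (Ψ x)‖) ^ 2 := by
      intro i
      rw [Real.norm_eq_abs]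
      exact pow_le_pow_left₀ (abs_nonneg _) (hj i) 2
    have h7 := h6 0
    have h8 := h6 1
    have h9 := h6 2
    have e1 : (2 * c * ‖e‖ * ‖Gmat G (Ψ x)‖) ^ 2 = 4 * (c * ‖e‖ * ‖Gmat G (Ψ x)‖) ^ 2 := by ring
    rw [e1]
    have := sq_nonneg (c * ‖e‖ * ‖Gmat G (Ψ x)‖)
    linarith
  exact le_of_sq_le_sq h5 (by positivity)

end Crest.Agent.R096.Sqt_143
end

-- ▼ part R096/Sqt11_143

/-!
Row 96 (S0127), helper143.  SQ-TUBE, part 11: **near-optimality of `f ∘ chi` in the direction of an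
edge** (`tube_near`).
-/

set_option autoImplicit false
set_option linter.unusedSectionVars false

open Set Metric Filter Topology MeasureTheory

namespace Crest.Agent.R096.Sqt_143

open Crest.Agent.R096.Ce_537 Crest.Agent.R096.Bd_416 Crest.Agent.R96.Hole_348
open Crest.Agent.R096.Sq_55
open Crest.AnalysisR.VecCalc3 Crest.AnalysisR.Sobolev
open Crest.Agent.R096.Sk_962
open Crest.Agent.R96.Lu_538
open scoped NNReal ENNReal

/-- the edge as a set -/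
def sg (a v : E3) : Set E3 := (fun t : ℝ => a + t • v) '' Icc (0:ℝ) 1

lemma isCompact_sg (a v : E3) : IsCompact (sg a v) := by
  refine isCompact_Icc.image ?_
  fun_prop

/-- the exceptional balls -/
def Bd (a v : E3) (W : Finset ℝ) (ρ : ℝ) : Set E3 := ⋃ s ∈ W, closedBall (a + s • v) ρ

lemma measurableSet_Bd (a v : E3) (W : Finset ℝ) (ρ : ℝ) : MeasurableSet (Bd a v W ρ) :=
  W.measurableSet_biUnion fun _ _ => isClosed_closedBall.measurableSet

lemma vol_Bd (a v : E3) (W : Finset ℝ) {ρ : ℝ} (h : 0 ≤ ρ) :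
    volume (Bd a v W ρ) ≤ W.card * ENNReal.ofReal ((2 * ρ)^3) := by
  refine (measure_biUnion_finset_le _ _).trans ?_
  refine (Finset.sum_le_card_nsmul _ _ (ENNReal.ofReal ((2 * ρ)^3)) fun s _ => ?_).trans ?_
  · rw [Real.volume_pi_closedBall _ h, Fintype.card_fin]
  · rw [nsmul_eq_mul]

lemma enorm_rpow_le {E F : Type*} [SeminormedAddCommGroup E] [SeminormedAddCommGroup F] {x : E}
    {y : F} {K b q : ℝ} (hK : 0 ≤ K) (hb : 0 ≤ b) (hq : 1 ≤ q) (h : ‖x‖ ≤ K * (‖y‖ + b)) :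
    ‖x‖ₑ ^ q ≤ ENNReal.ofReal ((2 * K)^q) * (‖y‖ₑ ^ q + (ENNReal.ofReal b) ^ q) := by
  have hq0 : 0 ≤ q := by linarith
  have h1 : ‖x‖ₑ ≤ ENNReal.ofReal K * (‖y‖ₑ + ENNReal.ofReal b) := by
    rw [← ofReal_norm, ← ofReal_norm, ← ENNReal.ofReal_add (norm_nonneg _) hb,
      ← ENNReal.ofReal_mul hK]
    exact ENNReal.ofReal_le_ofReal h
  calc ‖x‖ₑ ^ q ≤ (ENNReal.ofReal K * (‖y‖ₑ + ENNReal.ofReal b)) ^ q :=
        ENNReal.rpow_le_rpow h1 hq0
    _ = (ENNReal.ofReal K) ^ q * (‖y‖ₑ + ENNReal.ofReal b) ^ q := ENNReal.mul_rpow_of_nonneg _ _ hq0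
    _ ≤ (ENNReal.ofReal K) ^ q * (2 ^ (q - 1) * (‖y‖ₑ ^ q + (ENNReal.ofReal b) ^ q)) :=
        mul_le_mul' le_rfl (ENNReal.rpow_add_le_mul_rpow_add_rpow _ _ hq)
    _ ≤ (ENNReal.ofReal K) ^ q * (2 ^ q * (‖y‖ₑ ^ q + (ENNReal.ofReal b) ^ q)) := by
        refine mul_le_mul' le_rfl (mul_le_mul' ?_ le_rfl)
        exact ENNReal.rpow_le_rpow_of_exponent_le (by norm_num) (by linarith)
    _ = _ := by
        rw [← mul_assoc, ← ENNReal.mul_rpow_of_nonneg _ _ hq0, mul_comm (ENNReal.ofReal K),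
          ENNReal.ofReal_rpow_of_nonneg (by positivity) hq0 |>.symm,
          ENNReal.ofReal_mul (by norm_num : (0:ℝ) ≤ 2), ENNReal.ofReal_ofNat]

variable {κ ι : Type*} [Fintype κ] [Fintype ι] {X : Sys κ ι} {p δ : ℝ}

lemma aem_G {Om La : Set R3} (hOm : IsOpen Om) {p : ℝ} {f : R3 → R3}
    {G : Fin 3 → R3 → R3} (hf : SH p Om La f G) (L : R3 →L[ℝ] R3) (q : ℝ) {S : Set E3}
    (hS : S ⊆ w2 ⁻¹' Om) :
    AEMeasurable (fun y => ‖Gmat G (w2 y) - L‖ₑ ^ q) (volume.restrict S) := by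
  have h1 : AEStronglyMeasurable (Gmat G) (volume.restrict Om) :=
    aesm_Gmat fun j => (hf.memG j).1
  have h2 : AEStronglyMeasurable (fun z => Gmat G (w2 z)) (volume.restrict (w2 ⁻¹' Om)) :=
    h1.comp_measurePreserving (mp_w2.restrict_preimage hOm.measurableSet)
  have h3 : AEMeasurable (fun y => ‖Gmat G (w2 y) - L‖ₑ ^ q) (volume.restrict (w2 ⁻¹' Om)) :=
    (h2.sub aestronglyMeasurable_const).enorm.pow_const q
  exact h3.mono_measure (Measure.restrict_mono hS le_rfl)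

/-- **near-optimality in the direction of the edge** -/
theorem tube_near {a v : E3} {u0 β : ℝ} {n : ℕ} (hE : Edge X a v u0 β n) {m : ℝ} (hm : 1 ≤ m)
    (hmC : ∀ k, OnC (X.C k) a v → ((X.C k).M : ℝ) ≤ m) :
    ∃ W : Finset ℝ, W.card ≤ ({k | OnC (X.C k) a v}.ncard + {j | OnF (X.F j) a v}.ncard) * n + 2 ∧
      (∀ s ∈ W, s ∈ Icc (0:ℝ) 1) ∧
      ∀ (δ p : ℝ) (h : X.Adm p δ) (N₁ N₂ : ℕ) (Om La : Set R3) (f : R3 → R3)
        (G G' : Fin 3 → R3 → R3), IsOpen Om → 1 ≤ p → SH p Om La f G →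
        (∀ k, (X.C k).P ⊆ w2 ⁻¹' Om) → (∀ j, (X.F j).K ⊆ w2 ⁻¹' Om) →
        (∀ j : Fin 3, HasWeakGradOn Om
          (fun x => f (toR (Sys.chi h (N₁+1) (N₂+1)) x) j) (G' j)) →
        ∀ (L : R3 →L[ℝ] R3) (k : κ) (u : ℝ), Tb X δ k (sg a v) u → (1 + 4 * (m * m)) * u ≤ u0 →
        ∀ q : ℝ, 1 ≤ q →
        ∫⁻ x in (X.C k).P ∩ cthickening u (sg a v),
            ‖Gmat G' (w2 x) (w2 v) - L (w2 v)‖ₑ ^ q ≤
          ENNReal.ofReal ((2 * (2113 * (X.m k : ℝ)^4 * ‖w2 v‖))^q) *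
            (ENNReal.ofReal (CT p (X.m k)) *
              tb X δ k (sg a v) u (fun y => ‖Gmat G (w2 y) - L‖ₑ ^ q) +
            ‖L‖ₑ ^ q * (W.card *
              ENNReal.ofReal ((2 * ((1 + β * (1 + 4 * (m * m)) * ‖v‖) * u))^3))) := by
  obtain ⟨W, hW1, hW2, hW3⟩ := chi_tv hE hm hmC
  refine ⟨W, hW1, hW2, ?_⟩
  intro δ p h N₁ N₂ Om La f G G' hOm hp hf hC hF h' L k u H huE q hq
  have hq0 : 0 < q := by linarith
  have hm1 := Sys.m_one (X := X) k
  have hm4 : (1:ℝ) ≤ (X.m k : ℝ)^4 := one_le_pow₀ hm1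
  have hβ := hE.βpos
  have hu0 := H.u0
  set ρ : ℝ := (1 + β * (1 + 4 * (m * m)) * ‖v‖) * u with hρ
  have hρ0 : 0 ≤ ρ := by positivity
  set B : Set E3 := Bd a v W ρ with hB
  have mB : MeasurableSet B := measurableSet_Bd a v W ρ
  have mP : MeasurableSet (X.C k).P := (X.C k).cht.clK.measurableSet
  have mT : MeasurableSet ((X.C k).P ∩ cthickening u (sg a v)) :=
    mP.inter isClosed_cthickening.measurableSet
  set χ := Sys.chi h (N₁+1) (N₂+1) with hχ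
  have hΨ : ∀ z, w2 (χ z) ∈ Om ↔ w2 z ∈ Om := fun z =>
    Sys.chi_Om h (N₁+1) (N₂+1) (O := w2 ⁻¹' Om) hC hF z
  have hΨ' : ∀ x, toR χ x ∈ Om ↔ x ∈ Om := fun x => by
    have := hΨ (w2.symm x)
    rw [w2.apply_symm_apply] at this
    exact this
  have plχ : PLOn χ univ := Sys.plOn_chi h (N₁+1) (N₂+1)
  have f1 := Gmat_chi hOm hf χ plχ hΨ h' v
  have f2 := ae_w2.1 (Gmat_le hOm hp hf (toR χ) (plOn_toR plχ) hΨ' h' (w2 v))
  have f3 := hW3 δ p h N₁ N₂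
  have f4 := ae_llv h N₁ N₂ H
  set K : ℝ := 2113 * (X.m k : ℝ)^4 * ‖w2 v‖ with hK
  have hK0 : 0 ≤ K := by positivity
  have pt : ∀ᵐ x, x ∈ (X.C k).P ∩ cthickening u (sg a v) →
      ‖Gmat G' (w2 x) (w2 v) - L (w2 v)‖ₑ ^ q ≤ ENNReal.ofReal ((2 * K)^q) *
        (‖Gmat G (w2 (χ x)) - L‖ₑ ^ q + B.indicator (fun _ => ‖L‖ₑ ^ q) x) := by
    filter_upwards [f1, f2, f3, f4] with x g1 g2 g3 g4 hx
    have hxO : w2 x ∈ Om := hC k hx.1
    have hL4 := g4 hx.1 hx.2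
    by_cases hxB : x ∈ B
    · have l1 := g2 hxO (2 * (528 * (X.m k : ℝ)^4)) (by positivity)
        (LLV_toR (by positivity) hL4)
      rw [toR_apply, w2.symm_apply_apply] at l1
      have l2 : ‖Gmat G (w2 (χ x))‖ ≤ ‖Gmat G (w2 (χ x)) - L‖ + ‖L‖ := by
        have := norm_add_le (Gmat G (w2 (χ x)) - L) L
        rwa [sub_add_cancel] at this
      have l3 : ‖L (w2 v)‖ ≤ ‖L‖ * ‖w2 v‖ := L.le_opNorm _
      have l4 : ‖Gmat G' (w2 x) (w2 v) - L (w2 v)‖ ≤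
          K * (‖Gmat G (w2 (χ x)) - L‖ + ‖L‖) := by
        refine (norm_sub_le _ _).trans ?_
        have n1 := norm_nonneg (w2 v)
        have n2 := norm_nonneg (Gmat G (w2 (χ x)) - L)
        have n3 := norm_nonneg L
        have l5 : ‖Gmat G' (w2 x) (w2 v)‖ ≤ 2112 * (X.m k : ℝ)^4 * ‖w2 v‖ *
            (‖Gmat G (w2 (χ x)) - L‖ + ‖L‖) := by
          refine l1.trans ?_
          calc 2 * (2 * (528 * (X.m k : ℝ)^4)) * ‖w2 v‖ * ‖Gmat G (w2 (χ x))‖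
              ≤ 2 * (2 * (528 * (X.m k : ℝ)^4)) * ‖w2 v‖ *
                (‖Gmat G (w2 (χ x)) - L‖ + ‖L‖) := by gcongr
            _ = _ := by ring
        have l6 : ‖L (w2 v)‖ ≤ (X.m k : ℝ)^4 * ‖w2 v‖ *
            (‖Gmat G (w2 (χ x)) - L‖ + ‖L‖) := by
          calc ‖L (w2 v)‖ ≤ ‖w2 v‖ * ‖L‖ := by linarith
            _ ≤ ‖w2 v‖ * (‖Gmat G (w2 (χ x)) - L‖ + ‖L‖) :=
              mul_le_mul_of_nonneg_left (by linarith) n1
            _ = 1 * (‖w2 v‖ * (‖Gmat G (w2 (χ x)) - L‖ + ‖L‖)) := (one_mul _).symm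
            _ ≤ (X.m k : ℝ)^4 * (‖w2 v‖ * (‖Gmat G (w2 (χ x)) - L‖ + ‖L‖)) :=
              mul_le_mul_of_nonneg_right hm4 (by positivity)
            _ = _ := by ring
        calc _ ≤ 2112 * (X.m k : ℝ)^4 * ‖w2 v‖ * (‖Gmat G (w2 (χ x)) - L‖ + ‖L‖) +
              (X.m k : ℝ)^4 * ‖w2 v‖ * (‖Gmat G (w2 (χ x)) - L‖ + ‖L‖) := add_le_add l5 l6
          _ = _ := by rw [hK]; ring
      have l7 := enorm_rpow_le hK0 (norm_nonneg L) hq l4
      rw [ofReal_norm] at l7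
      rw [indicator_of_mem hxB]
      exact l7
    · -- the direction is kept
      obtain ⟨y, ⟨t, ht, rfl⟩, hxy⟩ := inf_pt (isCompact_sg a v) hx.2 hu0
      have ht' : ∀ s ∈ W, (β * (1 + 4 * (m * m))) * u < |t - s| := by
        intro s hs
        by_contra hlt
        push Not at hlt
        apply hxB
        refine mem_iUnion₂.2 ⟨s, hs, ?_⟩
        rw [mem_closedBall, dist_eq_norm]
        have e1 : x - (a + s • v) = (x - (a + t • v)) + (t - s) • v := by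
          rw [sub_smul]; abel
        rw [e1]
        refine (norm_add_le _ _).trans ?_
        rw [norm_smul, Real.norm_eq_abs]
        have := mul_le_mul_of_nonneg_right hlt (norm_nonneg v)
        have hxy' : ‖x - (a + t • v)‖ ≤ u := hxy
        rw [hρ]
        nlinarith
      have hT : Tv χ x v v := g3 t ht u huE hxy ht'
      have l1 := g1 hxO hT
      have l4 : ‖Gmat G' (w2 x) (w2 v) - L (w2 v)‖ ≤
          K * (‖Gmat G (w2 (χ x)) - L‖ + 0) := by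
        rw [l1, add_zero, ← ContinuousLinearMap.sub_apply]
        refine ((Gmat G (w2 (χ x)) - L).le_opNorm _).trans ?_
        have n1 := norm_nonneg (w2 v)
        have n2 := norm_nonneg (Gmat G (w2 (χ x)) - L)
        calc ‖Gmat G (w2 (χ x)) - L‖ * ‖w2 v‖ =
              1 * (‖w2 v‖ * ‖Gmat G (w2 (χ x)) - L‖) := by ring
          _ ≤ (2113 * (X.m k : ℝ)^4) * (‖w2 v‖ * ‖Gmat G (w2 (χ x)) - L‖) :=
            mul_le_mul_of_nonneg_right (by linarith) (by positivity)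
          _ = _ := by rw [hK]; ring
      have l7 := enorm_rpow_le hK0 le_rfl hq l4
      rw [ENNReal.ofReal_zero, ENNReal.zero_rpow_of_pos hq0] at l7
      rw [indicator_of_notMem hxB]
      exact l7
  have s1 := setLIntegral_mono_ae' mT pt
  refine s1.trans ?_
  rw [lintegral_const_mul' _ _ ENNReal.ofReal_ne_top]
  refine mul_le_mul' le_rfl ?_
  rw [lintegral_add_right _ (measurable_const.indicator mB)]
  refine add_le_add (tube_int_ae h N₁ N₂ H (aem_G hOm hf L q (hC k))) ?_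
  refine (setLIntegral_le_lintegral _ _).trans ?_
  rw [lintegral_indicator mB, setLIntegral_const]
  exact mul_le_mul' le_rfl (vol_Bd a v W hρ0)

end Crest.Agent.R096.Sqt_143
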