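import Crest.Agent.R096.Red1_58
import Crest.Agent.R096.Fub1_216

-- ▼ part R096/H2a1_821
section

/-!
Row 96 (S0127), `p ≤ 2`, COMPOSITE B, leaf [L4] of helper622 #11433 (helper821), part 1:
**(2a) from an `L^p` bound on the tube.**  Hoelder on `B × [0,1]` and helper58's `red_edges` (the target
squeeze `R` does not destroy near-optimality), integrated over the translations.
-/

set_option autoImplicit false

namespace Crest.Agent.R096.H2a_821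

open MeasureTheory Set Filter Topology
open Crest.AnalysisR.VecCalc3 Crest.AnalysisR.Sobolev
open Crest.Agent.R96.Lu_538
open Crest.Agent.R096.Sk_962 (SH)
open scoped ENNReal

noncomputable section

variable {x v : R3} {B S : Set R3}

/-- the measure on `B × [0,1]` -/
def mu (B : Set R3) : Measure (R3 × ℝ) :=
  (volume.restrict B).prod (volume.restrict (Icc (0:ℝ) 1))

theorem mu_univ (B : Set R3) : mu B univ = volume B := by
  unfold mu
  rw [← univ_prod_univ, Measure.prod_prod]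
  simp

/-- `(w, τ) ↦ x + w + τ v` maps null sets back to null sets -/
theorem qmp (h : ∀ w ∈ B, ∀ τ ∈ Icc (0:ℝ) 1, x + w + τ • v ∈ S) :
    Measure.QuasiMeasurePreserving (fun q : R3 × ℝ => x + q.1 + q.2 • v) (mu B)
      (volume.restrict S) := by
  have hm : Measurable (fun q : R3 × ℝ => x + q.1 + q.2 • v) := by fun_prop
  refine ⟨hm, Measure.AbsolutelyContinuous.mk fun s hs h0 => ?_⟩
  rw [Measure.map_apply hm hs]
  unfold mu
  rw [Measure.prod_apply_symm (hm hs)]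
  rw [lintegral_eq_zero_iff' (measurable_measure_prodMk_right (hm hs)).aemeasurable]
  filter_upwards [ae_restrict_mem measurableSet_Icc] with τ hτ
  have h1 : MeasurableSet ((fun w : R3 => (w, τ)) ⁻¹' ((fun q : R3 × ℝ => x + q.1 + q.2 • v) ⁻¹' s)) :=
    (hm.comp (by fun_prop : Measurable fun w : R3 => (w, τ))) hs
  rw [Measure.restrict_apply h1]
  rw [Measure.restrict_apply hs] at h0
  have hsub : ((fun w : R3 => (w, τ)) ⁻¹' ((fun q : R3 × ℝ => x + q.1 + q.2 • v) ⁻¹' s)) ∩ B ⊆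
      (fun w : R3 => w + (x + τ • v)) ⁻¹' (s ∩ S) := by
    rintro w ⟨hw, hwB⟩
    have e : w + (x + τ • v) = x + w + τ • v := by abel
    show w + (x + τ • v) ∈ s ∩ S
    rw [e]
    exact ⟨hw, h w hwB τ hτ⟩
  refine measure_mono_null hsub ?_
  rw [measure_preimage_add_right]
  exact h0

theorem lint_eq (h : ∀ w ∈ B, ∀ τ ∈ Icc (0:ℝ) 1, x + w + τ • v ∈ S)
    {F : R3 → ℝ≥0∞} (hF : AEMeasurable F (volume.restrict S)) :
    ∫⁻ w in B, ∫⁻ τ in Icc (0:ℝ) 1, F (x + w + τ • v) =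
      ∫⁻ q, F (x + q.1 + q.2 • v) ∂(mu B) := by
  have h1 : AEMeasurable (fun q : R3 × ℝ => F (x + q.1 + q.2 • v)) (mu B) :=
    hF.comp_quasiMeasurePreserving (qmp h)
  unfold mu
  rw [lintegral_prod _ h1]

/-- **Hoelder on `B × [0,1]`** -/
theorem hold (h : ∀ w ∈ B, ∀ τ ∈ Icc (0:ℝ) 1, x + w + τ • v ∈ S)
    {F : R3 → ℝ≥0∞} (hF : AEMeasurable F (volume.restrict S)) {p : ℝ} (hp : 1 ≤ p) :
    ∫⁻ w in B, ∫⁻ τ in Icc (0:ℝ) 1, F (x + w + τ • v) ≤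
      (∫⁻ w in B, ∫⁻ τ in Icc (0:ℝ) 1, F (x + w + τ • v) ^ p) ^ (1 / p) *
        (volume B) ^ (1 - 1 / p) := by
  have h1 : AEMeasurable (fun q : R3 × ℝ => F (x + q.1 + q.2 • v)) (mu B) :=
    hF.comp_quasiMeasurePreserving (qmp h)
  rw [lint_eq h hF, lint_eq h (hF.pow_const p), ← mu_univ B]
  rcases hp.eq_or_lt with rfl | hp1
  · simp
  · set q : ℝ := p / (p - 1) with hq
    have hpq : p.HolderConjugate q := Real.HolderConjugate.conjExponent hp1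
    have key := ENNReal.lintegral_mul_le_Lp_mul_Lq (mu B) hpq h1
      (g := fun _ => (1:ℝ≥0∞)) aemeasurable_const
    have e1 : (fun q : R3 × ℝ => F (x + q.1 + q.2 • v)) * (fun _ => (1:ℝ≥0∞)) =
        fun q => F (x + q.1 + q.2 • v) := by
      ext a; simp
    rw [e1] at key
    have e2 : ∫⁻ _ : R3 × ℝ, (1:ℝ≥0∞) ^ q ∂(mu B) = mu B univ := by
      simp
    have e3 : 1 / q = 1 - 1 / p := by
      rw [hq]
      field_simp
    rw [e2, e3] at key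
    exact key

/-- **the `L¹` bound from the `L^p` bound** -/
theorem l1_of_lp
    (h : ∀ w ∈ B, ∀ τ ∈ Icc (0:ℝ) 1, x + w + τ • v ∈ S)
    {F : R3 → ℝ≥0∞} (hF : AEMeasurable F (volume.restrict S)) {p : ℝ} (hp : 1 ≤ p) {η : ℝ≥0∞}
    (hE : ∫⁻ w in B, ∫⁻ τ in Icc (0:ℝ) 1, F (x + w + τ • v) ^ p ≤ η ^ p * volume B) :
    ∫⁻ w in B, ∫⁻ τ in Icc (0:ℝ) 1, F (x + w + τ • v) ≤ η * volume B := by
  have hp0 : 0 < p := by linarith
  have hp1 : 0 ≤ 1 / p := by positivity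
  have hp2 : 0 ≤ 1 - 1 / p := by
    rw [sub_nonneg, div_le_one hp0]
    exact hp
  refine (hold h hF hp).trans ?_
  calc (∫⁻ w in B, ∫⁻ τ in Icc (0:ℝ) 1, F (x + w + τ • v) ^ p) ^ (1 / p) *
        (volume B) ^ (1 - 1 / p)
      ≤ (η ^ p * volume B) ^ (1 / p) * (volume B) ^ (1 - 1 / p) := by
        gcongr
    _ = η * volume B := by
        rw [ENNReal.mul_rpow_of_nonneg _ _ hp1, ← ENNReal.rpow_mul, mul_one_div_cancel hp0.ne',
          ENNReal.rpow_one, mul_assoc, ← ENNReal.rpow_add_of_nonneg _ _ hp1 hp2]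
        norm_num

/-- **the target squeeze, integrated over the translations** -/
theorem red_B {p : ℝ} {Om La : Set R3} (hOm : IsOpen Om) {g : R3 → R3}
    {G G2 : Fin 3 → R3 → R3} {R : R3 → R3} (hg : SH p Om La g G)
    (hRg : SH p Om La (fun x => R (g x)) G2) {ψ : Fin 3 → ℝ → ℝ} {σ : ℝ} (hσ : 0 ≤ σ)
    (hm : ∀ a, Monotone (ψ a)) (hL : ∀ a x y, |ψ a x - ψ a y| ≤ |x - y|)
    (h0 : ∀ a x, 0 ≤ ψ a x) (h1 : ∀ a x, ψ a x ≤ σ) {O : Set R3}
    (hR : ∀ y ∈ O, ∀ a, R y a = y a - ψ a (y a)) (hB : MeasurableSet B)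
    (hBO : ∀ w ∈ B, ∀ t ∈ Icc (0:ℝ) 1, x + w + t • v ∈ Om ∧ g (x + w + t • v) ∈ O) (u : R3) :
    ∫⁻ w in B, ∫⁻ t in Icc (0:ℝ) 1, ‖Gmat G2 (x + w + t • v) v - u‖ₑ ≤
      7 * (∫⁻ w in B, ∫⁻ t in Icc (0:ℝ) 1, ‖Gmat G (x + w + t • v) v - u‖ₑ) +
        ENNReal.ofReal (3 * σ) * volume B := by
  have key := Crest.Agent.R096.Red_58.red_edges hOm hg hRg hσ hm hL h0 h1 hR
    (ι := Unit) (fun _ => x) (fun _ => v)
  have e : ∀ (F : ℝ → ℝ≥0∞), ∫⁻ t in Icc (0:ℝ) 1, F t = ∫⁻ t in Ioc (0:ℝ) 1, F t := fun F =>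
    setLIntegral_congr Ioc_ae_eq_Icc.symm
  calc ∫⁻ w in B, ∫⁻ t in Icc (0:ℝ) 1, ‖Gmat G2 (x + w + t • v) v - u‖ₑ
      ≤ ∫⁻ w in B, (7 * (∫⁻ t in Icc (0:ℝ) 1, ‖Gmat G (x + w + t • v) v - u‖ₑ) +
          ENNReal.ofReal (3 * σ)) := by
        refine lintegral_mono_ae ?_
        filter_upwards [ae_restrict_of_ae key, ae_restrict_mem hB] with w hw hwB
        rw [e, e]
        exact hw () (hBO w hwB) u
    _ = _ := by
        rw [lintegral_add_right _ measurable_const, lintegral_const_mul' _ _ (by norm_num),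
          setLIntegral_const]

end

end Crest.Agent.R096.H2a_821
end

-- ▼ part R096/H2a2_821
section

/-!
Row 96 (S0127), `p ≤ 2`, COMPOSITE B, leaf [L4] of helper622 #11433 (helper821), part 2:
**(2a) = (h2a) of [L1] for `f₂ = R ∘ g` from the tube estimates (N) of `cob_main`**, summed over the pieces
of the edge and over the cells of the system.
-/

set_option autoImplicit false

namespace Crest.Agent.R096.H2a_821

open MeasureTheory Set Filter Topology Metric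
open Crest.AnalysisR.VecCalc3 Crest.AnalysisR.Sobolev
open Crest.Agent.R96.Lu_538
open Crest.Agent.R096.Sk_962 (SH)
open Crest.Agent.R096.Mal_874 (CB)
open Crest.Agent.R096.Pin_753
open Crest.Agent.R096.Sq_55
open Crest.Agent.R096.Fub_216
open Crest.Agent.R096.Sqt_143 (sg isCompact_sg)
open scoped ENNReal

noncomputable section

variable {Q : CB R3 3} {k0 : ℕ}

theorem aem_Gv {Om La : Set R3} {p : ℝ} {f : R3 → R3} {G : Fin 3 → R3 → R3}
    (hf : SH p Om La f G) (L : R3 →L[ℝ] R3) (v : R3) {S : Set R3} (hS : S ⊆ Om) :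
    AEMeasurable (fun y => ‖Gmat G y v - L v‖ₑ) (volume.restrict S) := by
  have h1 : AEStronglyMeasurable (Gmat G) (volume.restrict Om) :=
    aesm_Gmat fun j => (hf.memG j).1
  have h2 : AEStronglyMeasurable (fun y => Gmat G y v - L v) (volume.restrict Om) :=
    ((ContinuousLinearMap.apply ℝ R3 v).continuous.comp_aestronglyMeasurable h1).sub
      aestronglyMeasurable_const
  exact (h2.enorm).mono_measure (Measure.restrict_mono hS le_rfl)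

/-- **(2a) from an `L^p` bound on the tube of the edge** -/
theorem h2a_tube {p : ℝ} (hp : 1 ≤ p) {Om La : Set R3} (hOm : IsOpen Om) {g : R3 → R3}
    {G G2 : Fin 3 → R3 → R3} {R : R3 → R3} (hg : SH p Om La g G)
    (hRg : SH p Om La (fun x => R (g x)) G2) {ψ : Fin 3 → ℝ → ℝ} {σ : ℝ} (hσ : 0 ≤ σ)
    (hm : ∀ a, Monotone (ψ a)) (hL : ∀ a x y, |ψ a x - ψ a y| ≤ |x - y|)
    (h0 : ∀ a x, 0 ≤ ψ a x) (h1 : ∀ a x, ψ a x ≤ σ) {O : Set R3}
    (hR : ∀ y ∈ O, ∀ a, R y a = y a - ψ a (y a))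
    {κ : ℝ} (hκ : 0 < κ) (cnd : ∀ v, κ / 4 * ‖v‖ ≤ ‖Q.ψ v‖) {u : ℝ}
    (hu : 4 * κ⁻¹ / (5 * 2 ^ k0) ≤ u) {x v : R3} (hv : v ≠ 0)
    (hT : cthickening u (sg (w2.symm x) (w2.symm v)) ⊆ w2 ⁻¹' Om)
    (hO : ∀ z ∈ cthickening u (sg (w2.symm x) (w2.symm v)), g (w2 z) ∈ O)
    (L : R3 →L[ℝ] R3) {η : ℝ≥0∞}
    (hN : ENNReal.ofReal ((5 * 2 ^ k0) ^ 2 / (4 * dv Q.ψ * ‖Q.ψ v‖)) *
      (∫⁻ z in cthickening u (sg (w2.symm x) (w2.symm v)), ‖Gmat G (w2 z) v - L v‖ₑ ^ p) ≤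
        η ^ p) :
    ∫⁻ w in Tw Q k0, ∫⁻ τ in Icc (0:ℝ) 1, ‖Gmat G2 (x + w + τ • v) v - L v‖ₑ ≤
      (7 * η + ENNReal.ofReal (3 * σ)) * volume (Tw Q k0) := by
  set T := cthickening u (sg (w2.symm x) (w2.symm v)) with hTdef
  have hmem := seg_add_Tw (k0 := k0) hκ cnd hu x v
  have hTO : w2 '' T ⊆ Om := by
    rintro _ ⟨z, hz, rfl⟩
    exact hT hz
  have hBO : ∀ w ∈ Tw Q k0, ∀ t ∈ Icc (0:ℝ) 1, x + w + t • v ∈ Om ∧ g (x + w + t • v) ∈ O := by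
    intro w hw t ht
    obtain ⟨z, hz, he⟩ := hmem w hw t ht
    refine ⟨hTO ⟨z, hz, he⟩, ?_⟩
    rw [← he]
    exact hO z hz
  have hF := aem_Gv hg L v hTO
  have key := red_B (x := x) (v := v) hOm hg hRg hσ hm hL h0 h1 hR (measurableSet_Tw Q k0) hBO (L v)
  refine key.trans ?_
  have h2 := l1_of_lp hmem hF hp (η := η) (by
    refine (fub_tube hκ cnd hu hv (hF.pow_const p)).trans ?_
    rw [coef_eq, mul_right_comm]
    gcongr)
  rw [add_mul, mul_assoc]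
  gcongr

/-- the tube of an edge is covered by the tubes of its pieces -/
theorem sg_pieces {a v : Fin 3 → ℝ} {m : ℕ} {t : ℕ → ℝ} (h0 : t 0 = 0) (hm : t m = 1)
    (ht : ∀ i < m, t i < t (i + 1)) :
    sg a v ⊆ ⋃ i ∈ Finset.range m, sg (a + t i • v) ((t (i + 1) - t i) • v) := by
  rintro _ ⟨τ, hτ, rfl⟩
  have hex : ∃ i, i < m ∧ t i ≤ τ ∧ τ ≤ t (i + 1) := by
    by_contra hcon
    push Not at hcon
    have hle : ∀ i ≤ m, t i ≤ τ := by
      intro i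
      induction i with
      | zero => intro _; rw [h0]; exact hτ.1
      | succ i ih =>
        intro hi
        exact (hcon i (by omega) (ih (by omega))).le
    have hmpos : 0 < m := by
      rcases Nat.eq_zero_or_pos m with h | h
      · subst h; rw [h0] at hm; norm_num at hm
      · exact h
    have h1 := hcon (m - 1) (by omega) (hle _ (by omega))
    rw [Nat.sub_add_cancel hmpos, hm] at h1
    exact absurd hτ.2 (not_le.2 h1)
  obtain ⟨i, him, h1, h2⟩ := hex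
  have hlt := ht i him
  refine mem_iUnion₂.2 ⟨i, Finset.mem_range.2 him, (τ - t i) / (t (i + 1) - t i), ⟨?_, ?_⟩, ?_⟩
  · exact div_nonneg (by linarith) (by linarith)
  · rw [div_le_one (by linarith)]; linarith
  · show a + t i • v + ((τ - t i) / (t (i + 1) - t i)) • (t (i + 1) - t i) • v = a + τ • v
    rw [smul_smul, div_mul_cancel₀ _ (by linarith : t (i + 1) - t i ≠ 0), add_assoc, ← add_smul]
    congr 2
    ring



theorem cth_mem {E : Set (Fin 3 → ℝ)} (hE : IsCompact E) {u : ℝ} (hu : 0 ≤ u) {z : Fin 3 → ℝ} :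
    z ∈ cthickening u E ↔ ∃ y ∈ E, dist z y ≤ u := by
  rw [hE.cthickening_eq_biUnion_closedBall hu]
  simp only [mem_iUnion₂, mem_closedBall, exists_prop]

theorem tube_pieces {a v : Fin 3 → ℝ} {m : ℕ} {t : ℕ → ℝ} (h0 : t 0 = 0) (hm : t m = 1)
    (ht : ∀ i < m, t i < t (i + 1)) {u : ℝ} (hu : 0 ≤ u) :
    cthickening u (sg a v) ⊆
      ⋃ i ∈ Finset.range m, cthickening u (sg (a + t i • v) ((t (i + 1) - t i) • v)) := by
  intro z hz
  obtain ⟨y, hy, hzy⟩ := (cth_mem (isCompact_sg a v) hu).1 hz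
  obtain ⟨i, hi, hyi⟩ := mem_iUnion₂.1 (sg_pieces h0 hm ht hy)
  exact mem_iUnion₂.2 ⟨i, hi, (cth_mem (isCompact_sg _ _) hu).2 ⟨y, hyi, hzy⟩⟩

/-- the `L^p` bound on a set from the bounds on the pieces (directions `λ_i v`) -/
theorem tube_sum {I : Type*} (s : Finset I) {T : Set (Fin 3 → ℝ)} {A : I → Set (Fin 3 → ℝ)}
    (hT : T ⊆ ⋃ i ∈ s, A i) {p : ℝ} (hp : 0 ≤ p) (G : Fin 3 → R3 → R3) (L : R3 →L[ℝ] R3) (v : R3)
    {lam : I → ℝ} (hlam : ∀ i ∈ s, lam i ≠ 0) {b : I → ℝ≥0∞}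
    (hb : ∀ i ∈ s, ∫⁻ z in A i, ‖Gmat G (w2 z) (lam i • v) - L (lam i • v)‖ₑ ^ p ≤ b i) :
    ∫⁻ z in T, ‖Gmat G (w2 z) v - L v‖ₑ ^ p ≤ ∑ i ∈ s, ENNReal.ofReal ((|lam i| ^ p)⁻¹) * b i := by
  calc ∫⁻ z in T, ‖Gmat G (w2 z) v - L v‖ₑ ^ p
      ≤ ∫⁻ z in ⋃ i ∈ s, A i, ‖Gmat G (w2 z) v - L v‖ₑ ^ p := lintegral_mono_set hT
    _ ≤ ∑ i ∈ s, ∫⁻ z in A i, ‖Gmat G (w2 z) v - L v‖ₑ ^ p := by
        classical
        clear hlam hb hT
        induction s using Finset.induction_on with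
        | empty => simp
        | insert j s hj ih =>
          rw [Finset.set_biUnion_insert, Finset.sum_insert hj]
          exact (lintegral_union_le _ _ _).trans (by gcongr)
    _ ≤ _ := by
        refine Finset.sum_le_sum fun i hi => ?_
        have hl : 0 < |lam i| := abs_pos.2 (hlam i hi)
        have e : ∀ z, ‖Gmat G (w2 z) v - L v‖ₑ ^ p = ENNReal.ofReal ((|lam i| ^ p)⁻¹) *
            ‖Gmat G (w2 z) (lam i • v) - L (lam i • v)‖ₑ ^ p := by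
          intro z
          rw [map_smul, map_smul, ← smul_sub, enorm_smul, ENNReal.mul_rpow_of_nonneg _ _ hp,
            ← mul_assoc, Real.enorm_eq_ofReal_abs, ENNReal.ofReal_rpow_of_nonneg hl.le hp,
            ← ENNReal.ofReal_mul (by positivity), inv_mul_cancel₀ (by positivity),
            ENNReal.ofReal_one, one_mul]
        simp_rw [e]
        rw [lintegral_const_mul' _ _ ENNReal.ofReal_ne_top]
        gcongr
        exact hb i hi

end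

end Crest.Agent.R096.H2a_821
end

-- ▼ part R096/H2a3_821

/-!
Row 96 (S0127), `p ≤ 2`, COMPOSITE B, leaf [L4] of helper622 #11433 (helper821), part 3:
**`h2a_of_N`: (h2a) of [L1] from the tube estimates (N) of `cob_main`**, and bounds for the constant
`(5 2^k0)² / (4 dv ‖ψ v‖)`.
-/

set_option autoImplicit false

namespace Crest.Agent.R096.H2a_821

open MeasureTheory Set Filter Topology Metric
open Crest.AnalysisR.VecCalc3 Crest.AnalysisR.Sobolev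
open Crest.Agent.R96.Lu_538
open Crest.Agent.R096.Sk_962 (SH)
open Crest.Agent.R096.Mal_874 (CB)
open Crest.Agent.R096.Pin_753
open Crest.Agent.R096.Sq_55
open Crest.Agent.R096.Fub_216
open Crest.Agent.R96.En10_199 (P3 P3_mp)
open Crest.Agent.R096.Sqt_143 (sg isCompact_sg)
open Crest.Agent.R96.Hole_348 (norm_toLp_le)
open scoped ENNReal

noncomputable section

variable {Q : CB R3 3} {k0 : ℕ}

/-- the volume of the `ψ`-unit cube is at least `(κ/8)³` -/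
theorem dv_ge {κ : ℝ} (hκ : 0 < κ) (cnd : ∀ v, ‖Q.ψ v‖ ≤ 4 * κ⁻¹ * ‖v‖) :
    (κ / 8) ^ 3 ≤ dv Q.ψ := by
  have h1 := vol_psi Q.ψ (closedBall 0 1)
  rw [Real.volume_pi_closedBall _ zero_le_one, Fintype.card_fin,
    ← ENNReal.ofReal_mul (dv_pos _).le] at h1
  have h2 : volume (P3 ⁻¹' (Q.ψ ⁻¹' closedBall (0 : Fin 3 → ℝ) 1)) =
      volume (Q.ψ ⁻¹' closedBall (0 : Fin 3 → ℝ) 1) :=
    P3_mp.measure_preimage_emb P3.toHomeomorph.measurableEmbedding _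
  have h3 : closedBall (0 : Fin 3 → ℝ) (κ / 8) ⊆ P3 ⁻¹' (Q.ψ ⁻¹' closedBall (0 : Fin 3 → ℝ) 1) := by
    intro z hz
    rw [mem_closedBall_zero_iff] at hz
    show Q.ψ (P3 z) ∈ closedBall 0 1
    rw [mem_closedBall_zero_iff]
    have h4 : ‖P3 z‖ ≤ 2 * ‖z‖ := norm_toLp_le z
    calc ‖Q.ψ (P3 z)‖ ≤ 4 * κ⁻¹ * ‖P3 z‖ := cnd _
      _ ≤ 4 * κ⁻¹ * (2 * (κ / 8)) := by gcongr; linarith
      _ = 1 := by field_simp; norm_num
  have h5 := measure_mono (μ := volume) h3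
  rw [h2, h1, Real.volume_pi_closedBall _ (by positivity), Fintype.card_fin] at h5
  have h6 := (ENNReal.ofReal_le_ofReal_iff (by have := dv_pos Q.ψ; positivity)).1 h5
  have e1 : (2 * (κ / 8)) ^ 3 = 8 * (κ / 8) ^ 3 := by ring
  have e2 : dv Q.ψ * (2 * 1) ^ 3 = 8 * dv Q.ψ := by ring
  rw [e1, e2] at h6
  linarith

/-- **the constant of Fubini + Hoelder** -/
theorem coef_le {κ : ℝ} (hκ : 0 < κ) (cnd1 : ∀ v, κ / 4 * ‖v‖ ≤ ‖Q.ψ v‖)
    (cnd2 : ∀ v, ‖Q.ψ v‖ ≤ 4 * κ⁻¹ * ‖v‖) {v : R3} (hv : v ≠ 0) :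
    (5 * 2 ^ k0) ^ 2 / (4 * dv Q.ψ * ‖Q.ψ v‖) ≤ 12800 * 4 ^ k0 / (κ ^ 4 * ‖v‖) := by
  have h1 := dv_ge hκ cnd2
  have h2 := cnd1 v
  have hv' : 0 < ‖v‖ := norm_pos_iff.2 hv
  have e1 : ((5:ℝ) * 2 ^ k0) ^ 2 = 25 * 4 ^ k0 := by
    rw [mul_pow, ← pow_mul, mul_comm k0 2, pow_mul]
    norm_num
  rw [e1]
  have h0 := dv_pos Q.ψ
  have h3 : 4 * (κ / 8) ^ 3 * (κ / 4 * ‖v‖) ≤ 4 * dv Q.ψ * ‖Q.ψ v‖ :=
    mul_le_mul (by linarith) h2 (by positivity) (by positivity)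
  calc 25 * (4:ℝ) ^ k0 / (4 * dv Q.ψ * ‖Q.ψ v‖)
      ≤ 25 * 4 ^ k0 / (4 * (κ / 8) ^ 3 * (κ / 4 * ‖v‖)) := by
        apply div_le_div_of_nonneg_left (by positivity) (by positivity) h3
    _ = 12800 * 4 ^ k0 / (κ ^ 4 * ‖v‖) := by
        field_simp
        norm_num

set_option maxHeartbeats 1000000 in
/-- **[L4]: (h2a) from (N)**; the pieces `[t_i, t_{i+1}]` of the edge `x + [0,1] v` (helper432's `ed_chain`),
cells `k ∈ s i` covering the tube of the piece `i`, (N) in the form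
`∫_(P k ∩ tube) ≤ ofReal ((K ‖w2 v_i‖)^p) * J i k + e i k`. -/
theorem h2a_of_N {p : ℝ} (hp : 1 ≤ p) {Om La : Set R3} (hOm : IsOpen Om) {g : R3 → R3}
    {G G2 : Fin 3 → R3 → R3} {R : R3 → R3} (hg : SH p Om La g G)
    (hRg : SH p Om La (fun x => R (g x)) G2) {ψ : Fin 3 → ℝ → ℝ} {σ : ℝ} (hσ : 0 ≤ σ)
    (hm : ∀ a, Monotone (ψ a)) (hL : ∀ a x y, |ψ a x - ψ a y| ≤ |x - y|)
    (h0 : ∀ a x, 0 ≤ ψ a x) (h1 : ∀ a x, ψ a x ≤ σ) {O : Set R3}
    (hR : ∀ y ∈ O, ∀ a, R y a = y a - ψ a (y a))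
    {κ : ℝ} (hκ : 0 < κ) (cnd1 : ∀ v, κ / 4 * ‖v‖ ≤ ‖Q.ψ v‖)
    (cnd2 : ∀ v, ‖Q.ψ v‖ ≤ 4 * κ⁻¹ * ‖v‖) {u : ℝ}
    (hu : 4 * κ⁻¹ / (5 * 2 ^ k0) ≤ u) {x v : R3} (hv : v ≠ 0)
    (hT : cthickening u (sg (w2.symm x) (w2.symm v)) ⊆ w2 ⁻¹' Om)
    (hO : ∀ z ∈ cthickening u (sg (w2.symm x) (w2.symm v)), g (w2 z) ∈ O)
    (L : R3 →L[ℝ] R3)
    -- the pieces
    {m : ℕ} {t : ℕ → ℝ} (ht0 : t 0 = 0) (htm : t m = 1) (ht : ∀ i < m, t i < t (i + 1))
    -- the cells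
    {κX : Type*} {PP : κX → Set (Fin 3 → ℝ)} (s : ℕ → Finset κX)
    (hcov : ∀ i < m, cthickening u (sg (w2.symm x + t i • w2.symm v)
      ((t (i + 1) - t i) • w2.symm v)) ⊆ ⋃ k ∈ s i, PP k)
    {K : ℝ} (hK : 0 ≤ K) (J e : ℕ → κX → ℝ≥0∞)
    (N : ∀ i < m, ∀ k ∈ s i, ∫⁻ z in PP k ∩ cthickening u (sg (w2.symm x + t i • w2.symm v)
        ((t (i + 1) - t i) • w2.symm v)),
        ‖Gmat G (w2 z) (w2 ((t (i + 1) - t i) • w2.symm v)) -
          L (w2 ((t (i + 1) - t i) • w2.symm v))‖ₑ ^ p ≤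
      ENNReal.ofReal ((K * ‖w2 ((t (i + 1) - t i) • w2.symm v)‖) ^ p) * J i k + e i k)
    -- the numbers
    {κw : ℝ} {n : ℕ} {η : ℝ} (hη : 0 ≤ η) (hsm : 7 * (η * ‖v‖) + 3 * σ ≤ κw * ‖v‖ / (512 * n))
    (hnum : ENNReal.ofReal (12800 * 4 ^ k0 / (κ ^ 4 * ‖v‖)) *
      (∑ i ∈ Finset.range m, ∑ k ∈ s i, (ENNReal.ofReal ((K * ‖v‖) ^ p) * J i k +
        ENNReal.ofReal (((t (i + 1) - t i) ^ p)⁻¹) * e i k)) ≤ ENNReal.ofReal ((η * ‖v‖) ^ p)) :
    ∫⁻ w in Tw Q k0, ∫⁻ τ in Icc (0:ℝ) 1, ‖Gmat G2 (x + w + τ • v) v - L v‖ₑ ≤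
      ENNReal.ofReal (κw * ‖v‖ / (512 * n)) * volume (Tw Q k0) := by
  have hp0 : 0 ≤ p := by linarith
  have hu0 : 0 ≤ u := le_trans (by positivity) hu
  have hv' : 0 < ‖v‖ := norm_pos_iff.2 hv
  have hww : ∀ c : ℝ, w2 (c • w2.symm v) = c • v := fun c => rfl
  -- the sum over the pieces and the cells
  have hsum := tube_sum ((Finset.range m).sigma s)
    (T := cthickening u (sg (w2.symm x) (w2.symm v)))
    (A := fun q => PP q.2 ∩ cthickening u (sg (w2.symm x + t q.1 • w2.symm v)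
        ((t (q.1 + 1) - t q.1) • w2.symm v))) (by
      intro z hz
      obtain ⟨i, hi, hzi⟩ := mem_iUnion₂.1 (tube_pieces ht0 htm ht hu0 hz)
      obtain ⟨k, hk, hzk⟩ := mem_iUnion₂.1 (hcov i (Finset.mem_range.1 hi) hzi)
      exact mem_iUnion₂.2 ⟨⟨i, k⟩, Finset.mem_sigma.2 ⟨hi, hk⟩, hzk, hzi⟩) hp0 G L v
    (lam := fun q => t (q.1 + 1) - t q.1)
    (fun q hq => (sub_pos.2 (ht q.1 (Finset.mem_range.1 (Finset.mem_sigma.1 hq).1))).ne')
    (b := fun q => ENNReal.ofReal ((K * ‖w2 ((t (q.1 + 1) - t q.1) • w2.symm v)‖) ^ p) * J q.1 q.2 +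
      e q.1 q.2)
    (fun q hq => by
      have hq' := Finset.mem_sigma.1 hq
      have := N q.1 (Finset.mem_range.1 hq'.1) q.2 hq'.2
      rwa [hww] at this)
  rw [Finset.sum_sigma] at hsum
  have key := h2a_tube (Q := Q) (k0 := k0) hp hOm hg hRg hσ hm hL h0 h1 hR hκ cnd1 hu hv hT hO L
    (η := ENNReal.ofReal (η * ‖v‖)) (by
      rw [ENNReal.ofReal_rpow_of_nonneg (by positivity) hp0]
      refine le_trans ?_ hnum
      refine mul_le_mul' (ENNReal.ofReal_le_ofReal (coef_le hκ cnd1 cnd2 hv)) ?_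
      · refine hsum.trans (Finset.sum_le_sum fun i hi => Finset.sum_le_sum fun k hk => ?_)
        have hlt := sub_pos.2 (ht i (Finset.mem_range.1 hi))
        rw [mul_add, abs_of_pos hlt, ← mul_assoc, hww, norm_smul, Real.norm_eq_abs,
          abs_of_pos hlt, ← ENNReal.ofReal_mul (by positivity)]
        have e1 : ((t (i + 1) - t i) ^ p)⁻¹ * (K * ((t (i + 1) - t i) * ‖v‖)) ^ p =
            (K * ‖v‖) ^ p := by
          rw [show K * ((t (i + 1) - t i) * ‖v‖) = (t (i + 1) - t i) * (K * ‖v‖) by ring,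
            Real.mul_rpow hlt.le (by positivity), ← mul_assoc,
            inv_mul_cancel₀ (Real.rpow_pos_of_pos hlt p).ne', one_mul]
        rw [e1])
  refine key.trans ?_
  gcongr
  rw [show (7:ℝ≥0∞) = ENNReal.ofReal 7 by norm_num, ← ENNReal.ofReal_mul (by norm_num),
    ← ENNReal.ofReal_add (by positivity) (by positivity)]
  exact ENNReal.ofReal_le_ofReal hsm

end

end Crest.Agent.R096.H2a_821
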