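import Crest.Agent.R096.Cob7_622
import Crest.Agent.R096.Efi4_296
import Crest.Agent.R096.Naf1_372
import Crest.Agent.R096.H2a3_821
import Crest.Agent.R096.Cbs2_296

-- ▼ part R096/Sqt13_143
section

/-!
Row 96 (S0127), helper143.  COMPOSITE B, [L6]: **the right sides of 622's `cob_main` in explicit terms**
(functional `Jt` of a tube at a tile, from the edges of the tile and the unsqueezed faces in the zone).
-/

set_option autoImplicit false
set_option linter.unusedSectionVars false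
set_option linter.style.longLine false

open Set Metric Filter Topology MeasureTheory
open scoped ENNReal NNReal

namespace Crest.Agent.R096.Sqt_143

open Crest.AnalysisR.VecCalc3
open Crest.Agent.R096.Msh_715 (P I Tiling)
open Crest.Agent.R096.Sq_55 (E3 Sys Face FaceOf w2)
open Crest.Agent.R096.Cob_622 (EF Jt zn Tub)
open Crest.Agent.R096.Str_968 (EFN)
open Crest.Agent.R096.Efi_296
open Crest.Agent.R96.Lu_538 (Gmat)
open Crest.Agent.R96.Coarse_538 (seg)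
open Crest.Agent.R096.Fce_793 (pt)
open Crest.Agent.R096.Slb_296 (pl)
open Crest.Agent.R096.Br_695 (En)
open Crest.Agent.R096.Naf_372 (en_le)

noncomputable section


/-! ### the edges -/

/-- the density along an edge which lies in `C` -/
theorem edge_near {κe : Type*} {x v : κe → R3} {a : R3} {i : κe} {C Om : Set R3}
    {g : R3 → ℝ≥0∞} {A : ℝ≥0∞} (hseg : seg x v a i ⊆ C)
    (h : ∫⁻ σ in Ioc (0:ℝ) 1, C.indicator g (a + x i + σ • v i) ≤ A) (K : Set ℝ) :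
    ∫⁻ σ in Icc (0:ℝ) 1 ∩ K, Om.indicator g (pl (v i) (a + x i) σ) ≤ A := by
  refine le_trans ?_ h
  refine (lintegral_mono_set inter_subset_left).trans ?_
  rw [restrict_Ioc_eq_restrict_Icc]
  refine setLIntegral_mono' measurableSet_Icc fun σ hσ => ?_
  have h1 : a + x i + σ • v i ∈ C := hseg ⟨σ, hσ, rfl⟩
  rw [indicator_of_mem h1]
  exact indicator_le_self' (fun _ _ => zero_le) _

/-- the energy along an edge which lies in `C` -/
theorem edge_en {p : ℝ} (hp1 : 1 ≤ p) (hp2 : p ≤ 2) {G : Fin 3 → R3 → R3} (L : R3 →L[ℝ] R3)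
    {κe : Type*} {x v : κe → R3} {a : R3} {i : κe} {C Om : Set R3} {A : ℝ≥0∞}
    (hseg : seg x v a i ⊆ C)
    (h : ∫⁻ σ in Ioc (0:ℝ) 1, C.indicator (fun y => ‖Gmat G y - L‖ₑ ^ p)
      (a + x i + σ • v i) ≤ A) (K : Set ℝ) :
    ∫⁻ σ in Icc (0:ℝ) 1 ∩ K, Om.indicator (En p G) (pl (v i) (a + x i) σ) ≤
      6 * ‖L‖ₑ ^ p + 6 * A := by
  have h1 : ∀ σ : ℝ, Om.indicator (En p G) (pl (v i) (a + x i) σ) ≤
      6 * ‖L‖ₑ ^ p + 6 * (univ : Set R3).indicator (fun y => ‖Gmat G y - L‖ₑ ^ p)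
        (pl (v i) (a + x i) σ) := by
    intro σ
    rw [indicator_univ]
    exact (indicator_le_self' (fun _ _ => zero_le) _).trans (en_le hp1 hp2 G _ L)
  refine (lintegral_mono fun σ => h1 σ).trans ?_
  rw [lintegral_add_left measurable_const, setLIntegral_const]
  refine add_le_add ?_ ((lintegral_const_mul' _ _ (by norm_num)).le.trans
    (mul_le_mul' le_rfl (edge_near hseg h K)))
  calc 6 * ‖L‖ₑ ^ p * volume (Icc (0:ℝ) 1 ∩ K) ≤ 6 * ‖L‖ₑ ^ p * 1 := by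
        gcongr
        refine (measure_mono inter_subset_left).trans ?_
        rw [Real.volume_Icc]; simp
    _ = _ := mul_one _

/-! ### the faces -/





/-! ### the two right sides -/

section final

variable {OmR : Set R3} {ι : Type*} {T : Tiling OmR ι} {s : Finset ι} {pr : (Te T).Cell → Prop}
  {X : Sys s (reps (Te T) s pr)} {Om : Set R3} {κe κf : Type*} {x v : κe → R3}
  {e : κf → Fin 2 → R3} {xx : κf → R3} {a : R3} {Q : κf → Set (ℝ × ℝ)}
  {me : EgS (Te T) s → κe} {mf : FcS (Te T) s pr → κf} {c : ι → E3}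



end final

end

end Crest.Agent.R096.Sqt_143
end

-- ▼ part R096/Sqt14_143
section

/-!
Row 96 (S0127), helper143.  COMPOSITE B, the LONG half of [C5]: **the energy of the translates of one long
edge**, from the energies of the tubes around its pieces.
-/

set_option autoImplicit false
set_option linter.unusedSectionVars false
set_option linter.style.longLine false

open Set Metric Filter Topology MeasureTheory
open scoped ENNReal NNReal

namespace Crest.Agent.R096.Sqt_143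

open Crest.AnalysisR.VecCalc3
open Crest.Agent.R096.Sk_962 (SH)
open Crest.Agent.R096.Sq_55 (E3 w2)
open Crest.Agent.R096.Mal_874 (CB)
open Crest.Agent.R096.Pin_753 (Tw)
open Crest.Agent.R096.Fub_216 (fub_tube dv)
open Crest.Agent.R096.H2a_821 (coef_le tube_pieces aem_Gv)
open Crest.Agent.R096.Br_695 (En)
open Crest.Agent.R96.Lu_538 (Gmat Gmat_apply)

noncomputable section

/-- the derivative in a direction and the energy density -/
theorem Gv_le {p : ℝ} (hp1 : 1 ≤ p) (hp2 : p ≤ 2) (G : Fin 3 → R3 → R3) (x v : R3) :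
    ‖Gmat G x v‖ₑ ^ p ≤ 3 * ‖v‖ₑ ^ p * En p G x := by
  have hp0 : 0 ≤ p := by linarith
  have h0 : ‖Gmat G x v‖ ≤ ∑ j : Fin 3, ‖G j x‖ * ‖v‖ := by
    have h1 : ∀ j : Fin 3, ‖Gmat G x v j‖ ≤ ‖G j x‖ * ‖v‖ := by
      intro j
      rw [Gmat_apply, Real.norm_eq_abs]
      exact abs_real_inner_le_norm _ _
    have h2 : ‖Gmat G x v‖ ≤ ∑ j : Fin 3, ‖Gmat G x v j‖ := by
      rw [EuclideanSpace.norm_eq, Real.sqrt_le_iff]
      refine ⟨by positivity, ?_⟩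
      simp only [Fin.sum_univ_three]
      have a0 := norm_nonneg (Gmat G x v 0)
      have a1 := norm_nonneg (Gmat G x v 1)
      have a2 := norm_nonneg (Gmat G x v 2)
      nlinarith [mul_nonneg a0 a1, mul_nonneg a0 a2, mul_nonneg a1 a2]
    exact h2.trans (Finset.sum_le_sum fun j _ => h1 j)
  have h3 : ‖Gmat G x v‖ₑ ≤ ∑ j : Fin 3, ‖G j x‖ₑ * ‖v‖ₑ := by
    rw [← ofReal_norm]
    refine (ENNReal.ofReal_le_ofReal h0).trans (le_of_eq ?_)
    rw [ENNReal.ofReal_sum_of_nonneg fun j _ => by positivity]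
    refine Finset.sum_congr rfl fun j _ => ?_
    rw [ENNReal.ofReal_mul (norm_nonneg _), ofReal_norm, ofReal_norm]
  calc ‖Gmat G x v‖ₑ ^ p ≤ (∑ j : Fin 3, ‖G j x‖ₑ * ‖v‖ₑ) ^ p := ENNReal.rpow_le_rpow h3 hp0
    _ ≤ ((Finset.univ : Finset (Fin 3)).card : ℝ≥0∞) ^ (p - 1) *
        ∑ j : Fin 3, (‖G j x‖ₑ * ‖v‖ₑ) ^ p :=
      ENNReal.rpow_sum_le_const_mul_sum_rpow _ _ hp1
    _ ≤ 3 * ∑ j : Fin 3, (‖G j x‖ₑ * ‖v‖ₑ) ^ p := by
        refine mul_le_mul' ?_ le_rfl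
        simp only [Finset.card_univ, Fintype.card_fin, Nat.cast_ofNat]
        calc (3:ℝ≥0∞) ^ (p - 1) ≤ 3 ^ (1:ℝ) :=
              ENNReal.rpow_le_rpow_of_exponent_le (by norm_num) (by linarith)
          _ = 3 := ENNReal.rpow_one _
    _ = 3 * ‖v‖ₑ ^ p * En p G x := by
        unfold En
        simp_rw [ENNReal.mul_rpow_of_nonneg _ _ hp0]
        rw [← Finset.sum_mul]
        ring

lemma lint_bU {γ : Type*} (s : Finset γ) (A : γ → Set E3) (g : E3 → ℝ≥0∞) :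
    ∫⁻ y in ⋃ a ∈ s, A a, g y ≤ ∑ a ∈ s, ∫⁻ y in A a, g y := by
  classical
  induction s using Finset.induction_on with
  | empty => simp
  | insert j s hj ih =>
    rw [Finset.set_biUnion_insert, Finset.sum_insert hj]
    exact (lintegral_union_le _ _ _).trans (by gcongr)

variable {Q : CB R3 3} {k0 : ℕ}

/-- **the energy of the translates of one edge** -/
theorem long_edge {p : ℝ} (hp1 : 1 ≤ p) (hp2 : p ≤ 2) {Om La : Set R3}
    {g : R3 → R3} {G2 : Fin 3 → R3 → R3} (hg : SH p Om La g G2)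
    {κ : ℝ} (hκ : 0 < κ) (cnd1 : ∀ v, κ / 4 * ‖v‖ ≤ ‖Q.ψ v‖)
    (cnd2 : ∀ v, ‖Q.ψ v‖ ≤ 4 * κ⁻¹ * ‖v‖) {u : ℝ}
    (hu : 4 * κ⁻¹ / (5 * 2 ^ k0) ≤ u) {x v : R3} (hv : v ≠ 0)
    (hT : cthickening u (sg (w2.symm x) (w2.symm v)) ⊆ w2 ⁻¹' Om)
    {m : ℕ} {t : ℕ → ℝ} (ht0 : t 0 = 0) (htm : t m = 1) (ht : ∀ i < m, t i < t (i + 1))
    {κX : Type*} {PP : κX → Set (Fin 3 → ℝ)} (s : ℕ → Finset κX)
    (hcov : ∀ i < m, cthickening u (sg (w2.symm x + t i • w2.symm v)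
      ((t (i + 1) - t i) • w2.symm v)) ⊆ ⋃ k ∈ s i, PP k)
    (J : ℕ → κX → ℝ≥0∞)
    (E : ∀ i < m, ∀ k ∈ s i, ∫⁻ z in PP k ∩ cthickening u (sg (w2.symm x + t i • w2.symm v)
        ((t (i + 1) - t i) • w2.symm v)), En p G2 (w2 z) ≤ J i k) :
    ∫⁻ w in Tw Q k0, ∫⁻ τ in Icc (0:ℝ) 1, ‖Gmat G2 (x + w + τ • v) v‖ₑ ^ p ≤
      ENNReal.ofReal (12800 * 4 ^ k0 / (κ ^ 4 * ‖v‖)) *
        (3 * ‖v‖ₑ ^ p * ∑ i ∈ Finset.range m, ∑ k ∈ s i, J i k) * volume (Tw Q k0) := by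
  have hp0 : 0 ≤ p := by linarith
  have hu0 : 0 ≤ u := le_trans (by positivity) hu
  set S := cthickening u (sg (w2.symm x) (w2.symm v)) with hS
  have hSO : w2 '' S ⊆ Om := by
    rintro _ ⟨z, hz, rfl⟩
    exact hT hz
  have mF : AEMeasurable (fun y => ‖Gmat G2 y v‖ₑ ^ p) (volume.restrict (w2 '' S)) := by
    have h1 : AEStronglyMeasurable (Gmat G2) (volume.restrict Om) :=
      Crest.Agent.R96.Lu_538.aesm_Gmat fun j => (hg.memG j).1
    have h2 : AEStronglyMeasurable (fun y => Gmat G2 y v) (volume.restrict Om) :=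
      (ContinuousLinearMap.apply ℝ R3 v).continuous.comp_aestronglyMeasurable h1
    exact (h2.enorm.pow_const p).mono_measure (Measure.restrict_mono hSO le_rfl)
  have h1 := fub_tube (Q := Q) (k0 := k0) hκ cnd1 hu hv mF
  refine h1.trans ?_
  rw [Fub_216.coef_eq]
  have h2 : ∫⁻ z in S, ‖Gmat G2 (w2 z) v‖ₑ ^ p ≤
      3 * ‖v‖ₑ ^ p * ∑ i ∈ Finset.range m, ∑ k ∈ s i, J i k := by
    have hne : (3:ℝ≥0∞) * ‖v‖ₑ ^ p ≠ ∞ :=
      ENNReal.mul_ne_top (by norm_num) (ENNReal.rpow_ne_top_of_nonneg hp0 enorm_ne_top)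
    refine (lintegral_mono fun z => Gv_le hp1 hp2 G2 (w2 z) v).trans ?_
    rw [lintegral_const_mul' _ _ hne]
    refine mul_le_mul' le_rfl ?_
    have hsub : S ⊆ ⋃ q ∈ (Finset.range m).sigma s, (PP q.2 ∩
        cthickening u (sg (w2.symm x + t q.1 • w2.symm v)
          ((t (q.1 + 1) - t q.1) • w2.symm v))) := by
      intro z hz
      obtain ⟨i, hi, hzi⟩ := mem_iUnion₂.1 (tube_pieces ht0 htm ht hu0 hz)
      obtain ⟨k, hk, hzk⟩ := mem_iUnion₂.1 (hcov i (Finset.mem_range.1 hi) hzi)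
      exact mem_iUnion₂.2 ⟨⟨i, k⟩, Finset.mem_sigma.2 ⟨hi, hk⟩, hzk, hzi⟩
    refine (lintegral_mono_set hsub).trans ?_
    rw [← Finset.sum_sigma (s := Finset.range m) (t := s) (f := fun q => J q.1 q.2)]
    refine (lint_bU _ _ _).trans ?_
    refine Finset.sum_le_sum fun q hq => ?_
    have hq' := Finset.mem_sigma.1 hq
    exact E q.1 (Finset.mem_range.1 hq'.1) q.2 hq'.2
  calc _ ≤ ENNReal.ofReal (12800 * 4 ^ k0 / (κ ^ 4 * ‖v‖)) * volume (Tw Q k0) *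
        (3 * ‖v‖ₑ ^ p * ∑ i ∈ Finset.range m, ∑ k ∈ s i, J i k) := by
        refine mul_le_mul' (mul_le_mul' (ENNReal.ofReal_le_ofReal ?_) le_rfl) h2
        exact coef_le hκ cnd1 cnd2 hv
    _ = _ := by ring

/-- **the energy of the translates of one long edge**, structural constant `A`: `N` = number of pairs
(piece, cell) -/
theorem long_num {p : ℝ} (hp1 : 1 ≤ p) (hp2 : p ≤ 2) {Om La : Set R3}
    {g : R3 → R3} {G2 : Fin 3 → R3 → R3} (hg : SH p Om La g G2)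
    {κ : ℝ} (hκ : 0 < κ) (cnd1 : ∀ v, κ / 4 * ‖v‖ ≤ ‖Q.ψ v‖)
    (cnd2 : ∀ v, ‖Q.ψ v‖ ≤ 4 * κ⁻¹ * ‖v‖) {u : ℝ}
    (hu : u = 4 * κ⁻¹ / (5 * 2 ^ k0)) {x v : R3} (hv : v ≠ 0)
    (hT : cthickening u (sg (w2.symm x) (w2.symm v)) ⊆ w2 ⁻¹' Om)
    {m : ℕ} {t : ℕ → ℝ} (ht0 : t 0 = 0) (htm : t m = 1) (ht : ∀ i < m, t i < t (i + 1))
    {κX : Type*} {PP : κX → Set (Fin 3 → ℝ)} (s : ℕ → Finset κX)
    (hcov : ∀ i < m, cthickening u (sg (w2.symm x + t i • w2.symm v)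
      ((t (i + 1) - t i) • w2.symm v)) ⊆ ⋃ k ∈ s i, PP k)
    {N : ℕ} (hN : ∑ i ∈ Finset.range m, (s i).card ≤ N) {A : ℝ} (L : R3 →L[ℝ] R3)
    (E : ∀ i < m, ∀ k ∈ s i, ∫⁻ z in PP k ∩ cthickening u (sg (w2.symm x + t i • w2.symm v)
        ((t (i + 1) - t i) • w2.symm v)), En p G2 (w2 z) ≤
        ENNReal.ofReal (A * u^2 * ‖v‖) * ‖L‖ₑ ^ p) :
    ∫⁻ w in Tw Q k0, ∫⁻ τ in Icc (0:ℝ) 1, ‖Gmat G2 (x + w + τ • v) v‖ₑ ^ p ≤
      ENNReal.ofReal (24576 * A * N / κ ^ 6) * ‖L‖ₑ ^ p * ‖v‖ₑ ^ p * volume (Tw Q k0) := by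
  have hv' : 0 < ‖v‖ := norm_pos_iff.2 hv
  refine (long_edge hp1 hp2 hg hκ cnd1 cnd2 hu.ge hv hT ht0 htm ht s hcov
    (fun _ _ => ENNReal.ofReal (A * u^2 * ‖v‖) * ‖L‖ₑ ^ p) E).trans ?_
  refine mul_le_mul' ?_ le_rfl
  have h1 : ∑ i ∈ Finset.range m, ∑ _k ∈ s i, ENNReal.ofReal (A * u^2 * ‖v‖) * ‖L‖ₑ ^ p ≤
      N * (ENNReal.ofReal (A * u^2 * ‖v‖) * ‖L‖ₑ ^ p) := by
    simp only [Finset.sum_const, nsmul_eq_mul]
    rw [← Finset.sum_mul]
    refine mul_le_mul' ?_ le_rfl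
    exact_mod_cast hN
  calc ENNReal.ofReal (12800 * 4 ^ k0 / (κ ^ 4 * ‖v‖)) *
        (3 * ‖v‖ₑ ^ p * ∑ i ∈ Finset.range m, ∑ _k ∈ s i,
          ENNReal.ofReal (A * u^2 * ‖v‖) * ‖L‖ₑ ^ p)
      ≤ ENNReal.ofReal (12800 * 4 ^ k0 / (κ ^ 4 * ‖v‖)) *
        (3 * ‖v‖ₑ ^ p * (N * (ENNReal.ofReal (A * u^2 * ‖v‖) * ‖L‖ₑ ^ p))) := by gcongr
    _ = ENNReal.ofReal (12800 * 4 ^ k0 / (κ ^ 4 * ‖v‖)) * (3 * (N * ENNReal.ofReal (A * u^2 * ‖v‖))) *
        ‖L‖ₑ ^ p * ‖v‖ₑ ^ p := by ring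
    _ = _ := by
        congr 2
        rw [← ENNReal.ofReal_natCast N, ← ENNReal.ofReal_ofNat 3,
          ← ENNReal.ofReal_mul (by positivity), ← ENNReal.ofReal_mul (by positivity),
          ← ENNReal.ofReal_mul (by positivity)]
        congr 1
        have e1 : (4:ℝ) ^ k0 = (2 ^ k0) ^ 2 := by rw [← pow_mul, mul_comm, pow_mul]; norm_num
        rw [hu, e1]
        field_simp
        ring

end

end Crest.Agent.R096.Sqt_143
end

-- ▼ part R096/Sqt15_143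

/-!
Row 96 (S0127), helper143.  COMPOSITE B, [C2] and the numbers of one long edge: 296's `Jt_le` for tubes in a
good cube without unsqueezed faces in the zone, and the right sides of `cob_main` (E), (N) in numbers.
-/

set_option autoImplicit false
set_option linter.unusedSectionVars false
set_option linter.style.longLine false

open Set Metric Filter Topology MeasureTheory
open scoped ENNReal NNReal

namespace Crest.Agent.R096.Sqt_143

open Crest.AnalysisR.VecCalc3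
open Crest.Agent.R096.Msh_715 (P I Tiling)
open Crest.Agent.R096.Sq_55 (E3 Sys w2)
open Crest.Agent.R096.Cob_622 (EF Jt CE)
open Crest.Agent.R096.Efi_296
open Crest.Agent.R096.Cbs_296
open Crest.Agent.R096.Slb_296
open Crest.Agent.R096.Fce_793 (pt)
open Crest.Agent.R96.Coarse_538 (seg)
open Crest.Agent.R96.Lu_538 (Gmat)
open Crest.Agent.R096.Br_695 (En)

noncomputable section

variable {OmR : Set R3} {ι : Type*} {T : Tiling OmR ι} {Om : Set R3} {κe κf : Type*}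
  {x v : κe → R3} {e : κf → Fin 2 → R3} {xx : κf → R3} {a : R3} {Q : κf → Set (ℝ × ℝ)}
  {s : Finset ι} {pr : (Te T).Cell → Prop} {g : R3 → ℝ≥0∞}
  {c : ι → E3} {R : ι → ℝ≥0} {ρ : E3 → ℝ≥0} {m : ι → ℝ≥0} {X : Sys s (reps (Te T) s pr)}

/-- the data of the tile `k` in the good cube `C` (closed), shape numbers `n`, `nE`, lengths `≤ V`, no
unsqueezed face in the zone of `E`, `u` -/
structure Zn (T : Tiling OmR ι) (s : Finset ι) (pr : (Te T).Cell → Prop) (R : ι → ℝ≥0)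
    (ρ : E3 → ℝ≥0) (m : ι → ℝ≥0) (x v : κe → R3) (a : R3) (me : EgS (Te T) s → κe) (C : Set R3)
    (n nE : ℕ) (V : ℝ) (k : s) (E : Set E3) (u : ℝ) : Prop where
  hr : ∀ y : reps (Te T) s pr, (k : ι) ∈ (Te T).at_ (y : E3) → ρ y ≤ m k * R k
  hn : {y : reps (Te T) s pr | (k : ι) ∈ (Te T).at_ (y : E3)}.ncard ≤ n
  hnE : {c : EgS (Te T) s | c.1.set ⊆ P ((Te T).H k)}.ncard ≤ nE
  hV : ∀ c : EgS (Te T) s, c.1.set ⊆ P ((Te T).H k) → ‖v (me c)‖ ≤ V
  hC : ∀ c : EgS (Te T) s, c.1.set ⊆ P ((Te T).H k) → seg x v a (me c) ⊆ C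
  hno : ∀ b : FcS (Te T) s pr,
    ¬ (b.1.set ∩ (P ((Te T).H k) ∩ cthickening (25 * (m k : ℝ)^4 * u) E)).Nonempty

theorem Jt_zn (h : SysOf (Te T) s pr c R ρ m X) (hG : GoodA Om g x v e xx a)
    (hQ : ∀ φ, IsCompact (Q φ))
    {me : EgS (Te T) s → κe} {mf : FcS (Te T) s pr → κf}
    (hme : ∀ c, w2 '' c.1.set = seg x v a (me c))
    (hmf : ∀ c, w2 '' c.1.set = pt (e (mf c)) (a + xx (mf c)) '' Q (mf c)) {B0 : Set R3}
    (hB0 : IsClosed B0) {C : Set R3} {n nE : ℕ} {V : ℝ} {k : s} {E : Set E3} {u : ℝ}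
    (hZ : Zn T s pr R ρ m x v a me C n nE V k E u) {b : ℝ≥0∞}
    (hb : ∀ c : EgS (Te T) s, c.1.set ⊆ P ((Te T).H k) →
      ∫⁻ σ in Icc 0 1 ∩ pl (v (me c)) (a + x (me c)) ⁻¹' B0,
        Om.indicator g (pl (v (me c)) (a + x (me c)) σ) ≤ b) :
    Jt (efLoc hG hQ hme hmf X h.rim h.Z hB0) k E u ≤
      ENNReal.ofReal (34848 * (m k : ℝ)^9 * n * nE * V * u^2) * b := by
  classical
  refine (Cbs_296.Jt_le h hG hQ hme hmf hB0 k E u hZ.hr hZ.hn).trans ?_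
  have h1 : (Finset.univ.filter fun b : FcS (Te T) s pr =>
      (b.1.set ∩ (P ((Te T).H k) ∩ cthickening (25 * (m k : ℝ)^4 * u) E)).Nonempty) = ∅ := by
    rw [Finset.filter_eq_empty_iff]
    exact fun b _ => hZ.hno b
  have h2 : (Finset.univ.filter fun c : EgS (Te T) s => c.1.set ⊆ P ((Te T).H k)).card ≤ nE := by
    rw [← Set.ncard_coe_finset]
    refine le_trans (le_of_eq ?_) hZ.hnE
    congr 1
    ext y
    rw [Finset.mem_coe, Finset.mem_filter]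
    exact ⟨fun h => h.2, fun h => ⟨Finset.mem_univ _, h⟩⟩
  rw [h1, Finset.sum_empty, mul_zero, add_zero]
  have h3 : (∑ c ∈ Finset.univ.filter fun c : EgS (Te T) s => c.1.set ⊆ P ((Te T).H k),
      eI Om g x v a B0 (me c)) ≤ nE * (ENNReal.ofReal (32 * V) * b) := by
    refine (Finset.sum_le_card_nsmul _ _ (ENNReal.ofReal (32 * V) * b) fun c hc => ?_).trans ?_
    · have hc' := (Finset.mem_filter.1 hc).2
      unfold eI
      refine mul_le_mul' (ENNReal.ofReal_le_ofReal ?_) (hb c hc')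
      have := hZ.hV c hc'
      linarith
    · rw [nsmul_eq_mul]
      gcongr
  refine (mul_le_mul' le_rfl h3).trans (le_of_eq ?_)
  rw [← ENNReal.ofReal_natCast nE, ← mul_assoc, ← mul_assoc, ← ENNReal.ofReal_mul (by positivity),
    ← ENNReal.ofReal_mul (by positivity)]
  congr 2
  ring

/-- **near tubes** -/
theorem Jt_near_sys {p : ℝ} {G : Fin 3 → R3 → R3} {L : R3 →L[ℝ] R3}
    (h : SysOf (Te T) s pr c R ρ m X)
    (hG : GoodA Om (fun y => ‖Gmat G y - L‖ₑ ^ p) x v e xx a)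
    (hQ : ∀ φ, IsCompact (Q φ))
    {me : EgS (Te T) s → κe} {mf : FcS (Te T) s pr → κf}
    (hme : ∀ c, w2 '' c.1.set = seg x v a (me c))
    (hmf : ∀ c, w2 '' c.1.set = pt (e (mf c)) (a + xx (mf c)) '' Q (mf c)) {B0 : Set R3}
    (hB0 : IsClosed B0) {C : Set R3} {n nE : ℕ} {V η' : ℝ} {k : s} {E : Set E3} {u : ℝ}
    (hZ : Zn T s pr R ρ m x v a me C n nE V k E u) (hV0 : 0 ≤ V)
    (hg : ∀ i, ∫⁻ σ in Ioc (0:ℝ) 1, C.indicator (fun y => ‖Gmat G y - L‖ₑ ^ p)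
      (a + x i + σ • v i) ≤ ENNReal.ofReal η') :
    Jt (efLoc hG hQ hme hmf X h.rim h.Z hB0) k E u ≤
      ENNReal.ofReal (34848 * (m k : ℝ)^9 * n * nE * V * u^2 * η') := by
  refine (Jt_zn h hG hQ hme hmf hB0 hZ (b := ENNReal.ofReal η')
    fun c hc => edge_near (hZ.hC c hc) (hg (me c)) _).trans (le_of_eq ?_)
  rw [← ENNReal.ofReal_mul (by positivity)]


/-- the structural constant of the energy of a tube -/
def AE (p : ℝ) (K M : ℝ≥0) (n nE : ℕ) (cV : ℝ) : ℝ :=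
  CE p K M * (418176 * (M : ℝ)^9 * n * nE * cV) + 1

lemma CT_nonneg {p : ℝ} (hp : p < 3) (M : ℝ≥0) : 0 ≤ CT p M := by
  have h1 : 0 < 1 - Sq_55.qn 3 p := by
    have := Sq_55.qn_lt (n := 3) (p := p) (by exact_mod_cast hp)
    linarith
  have h2 : 0 < 1 - Sq_55.qF p := by
    have := Sq_55.qF_lt p
    linarith
  unfold CT
  positivity

lemma CE_nonneg {p : ℝ} (hp : p < 3) (K M : ℝ≥0) : 0 ≤ CE p K M := by
  have := CT_nonneg hp M
  unfold CE; positivity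


end

end Crest.Agent.R096.Sqt_143
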