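import Mathlib
import Crest.Prelude.Def_VecCalc3
import Crest.Agent.R096.Sk4b_663

-- ▼ part R096/Cub1_298
section

/-!
Row 96, SK-CUBES (1): L^p Lebesgue points and rotated cubes.
-/

set_option autoImplicit false

open MeasureTheory Set Metric Filter Topology
open scoped ENNReal NNReal

namespace Crest.Agent.R096.Cub_298

open Crest.AnalysisR.VecCalc3

noncomputable section

/-- closed cube with centre `x`, half side `r`, in the frame `V` -/
def Kc (V : R3 ≃ₗᵢ[ℝ] R3) (x : R3) (r : ℝ) : Set R3 :=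
  {y | ∃ u : R3, (∀ i, |u i| ≤ 1) ∧ y = x + r • V u}

theorem norm_le_two {u : R3} (h : ∀ i, |u i| ≤ 1) : ‖u‖ ≤ 2 := by
  rw [EuclideanSpace.norm_eq, Real.sqrt_le_iff]
  refine ⟨by norm_num, ?_⟩
  have h1 : ∀ i : Fin 3, ‖u i‖ ^ 2 ≤ 1 := by
    intro i
    rw [Real.norm_eq_abs]
    have := h i
    have h0 := abs_nonneg (u i)
    nlinarith
  rw [Fin.sum_univ_three]
  linarith [h1 0, h1 1, h1 2]

theorem abs_le_of_norm {u : R3} (h : ‖u‖ ≤ 1) (i : Fin 3) : |u i| ≤ 1 := by
  have h1 := PiLp.norm_apply_le u i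
  rw [Real.norm_eq_abs] at h1
  exact h1.trans h

theorem Kc_subset (V : R3 ≃ₗᵢ[ℝ] R3) (x : R3) {r : ℝ} (hr : 0 ≤ r) :
    Kc V x r ⊆ closedBall x (2 * r) := by
  rintro y ⟨u, hu, rfl⟩
  rw [mem_closedBall, dist_eq_norm]
  have h1 := norm_le_two hu
  have : x + r • V u - x = r • V u := by abel
  rw [this, norm_smul, Real.norm_of_nonneg hr, LinearIsometryEquiv.norm_map]
  nlinarith

theorem subset_Kc (V : R3 ≃ₗᵢ[ℝ] R3) (x : R3) {r : ℝ} (hr : 0 < r) :
    closedBall x r ⊆ Kc V x r := by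
  intro y hy
  rw [mem_closedBall, dist_eq_norm] at hy
  refine ⟨V.symm (r⁻¹ • (y - x)), ?_, ?_⟩
  · apply abs_le_of_norm
    rw [LinearIsometryEquiv.norm_map, norm_smul, norm_inv, Real.norm_of_nonneg hr.le]
    rw [inv_mul_le_iff₀ hr]
    linarith
  · rw [LinearIsometryEquiv.apply_symm_apply, smul_smul, mul_inv_cancel₀ hr.ne', one_smul]
    abel

theorem isCompact_Kc (V : R3 ≃ₗᵢ[ℝ] R3) (x : R3) (r : ℝ) : IsCompact (Kc V x r) := by
  have h1 : IsCompact {u : R3 | ∀ i, |u i| ≤ 1} := by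
    apply Metric.isCompact_of_isClosed_isBounded
    · have : {u : R3 | ∀ i, |u i| ≤ 1} = ⋂ i, {u : R3 | |u i| ≤ 1} := by
        ext u; simp
      rw [this]
      apply isClosed_iInter
      intro i
      have hc : Continuous (fun u : R3 => |u i|) :=
        (EuclideanSpace.proj (𝕜 := ℝ) i).continuous.abs
      exact isClosed_le hc continuous_const
    · refine (Metric.isBounded_closedBall (x := (0 : R3)) (r := 2)).subset ?_
      intro u hu
      rw [mem_closedBall_zero_iff]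
      exact norm_le_two hu
  have h2 : Kc V x r = (fun u : R3 => x + r • V u) '' {u : R3 | ∀ i, |u i| ≤ 1} := by
    ext y
    constructor
    · rintro ⟨u, hu, rfl⟩
      exact ⟨u, hu, rfl⟩
    · rintro ⟨u, hu, rfl⟩
      exact ⟨u, hu, rfl⟩
  rw [h2]
  apply h1.image
  fun_prop

theorem vol_closedBall (x : R3) {r : ℝ} (hr : 0 ≤ r) :
    volume (closedBall x r) = ENNReal.ofReal (r ^ 3) * volume (closedBall (0 : R3) 1) := by
  rw [Measure.addHaar_closedBall' volume x hr]
  simp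

theorem vol_ball_comp (V : R3 ≃ₗᵢ[ℝ] R3) (x : R3) {r c : ℝ} (hr : 0 < r) (hc : 0 ≤ c) :
    volume (closedBall x (c * r)) ≤ ENNReal.ofReal (c ^ 3) * volume (Kc V x r) := by
  have h1 : volume (closedBall x r) ≤ volume (Kc V x r) := measure_mono (subset_Kc V x hr)
  have h2 : volume (closedBall x (c * r)) = ENNReal.ofReal (c ^ 3) * volume (closedBall x r) := by
    rw [vol_closedBall x (mul_nonneg hc hr.le), vol_closedBall x hr.le, mul_pow,
      ENNReal.ofReal_mul (by positivity), mul_assoc]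
  rw [h2]
  gcongr

/-- `L^p` Lebesgue points. -/
theorem ae_leb {Om : Set R3} (hO : IsOpen Om) (hb : Bornology.IsBounded Om) {p : ℝ} (hp : 1 ≤ p)
    {G : R3 → R3} (hG : MemLp G (ENNReal.ofReal p) (volume.restrict Om)) :
    ∀ᵐ x ∂(volume.restrict Om), ∀ δ : ℝ≥0∞, 0 < δ → ∀ᶠ r in 𝓝[>] (0 : ℝ),
      ∫⁻ y in closedBall x r, ‖G y - G x‖ₑ ^ p ≤ δ * volume (closedBall x r) := by
  have hp0 : 0 < p := by linarith
  have hfin : volume Om ≠ ∞ := hb.measure_lt_top.ne
  have hint : ∫⁻ y in Om, ‖G y‖ₑ ^ p ≠ ∞ := by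
    have h1 := hG.2
    rw [eLpNorm_lt_top_iff_lintegral_rpow_enorm_lt_top (by simpa using hp0)
      ENNReal.ofReal_ne_top] at h1
    rw [ENNReal.toReal_ofReal hp0.le] at h1
    exact h1.ne
  -- the comparison functions
  set S := TopologicalSpace.denseSeq R3 with hS
  have key : ∀ n : ℕ, ∀ᵐ x ∂(volume : Measure R3), x ∈ Om →
      Tendsto (fun r => (∫⁻ y in closedBall x r, Om.indicator (fun y => ‖G y - S n‖ₑ ^ p) y) /
        volume (closedBall x r)) (𝓝[>] 0) (𝓝 (‖G x - S n‖ₑ ^ p)) := by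
    intro n
    have hm : AEMeasurable (Om.indicator (fun y => ‖G y - S n‖ₑ ^ p)) volume := by
      rw [aemeasurable_indicator_iff hO.measurableSet]
      exact ((hG.1.aemeasurable.sub aemeasurable_const).enorm).pow_const _
    have hi : ∫⁻ y, Om.indicator (fun y => ‖G y - S n‖ₑ ^ p) y ≠ ∞ := by
      rw [lintegral_indicator hO.measurableSet]
      have h1 : ∫⁻ y in Om, ‖G y - S n‖ₑ ^ p ≤
          ∫⁻ y in Om, 2 ^ (p - 1) * (‖G y‖ₑ ^ p + ‖S n‖ₑ ^ p) := by
        apply lintegral_mono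
        intro y
        refine le_trans ?_ (ENNReal.rpow_add_le_mul_rpow_add_rpow _ _ hp)
        exact ENNReal.rpow_le_rpow enorm_sub_le hp0.le
      have h2 : ∫⁻ y in Om, 2 ^ (p - 1) * (‖G y‖ₑ ^ p + ‖S n‖ₑ ^ p) < ∞ := by
        rw [lintegral_const_mul' _ _ (by
          exact ENNReal.rpow_ne_top_of_nonneg (by linarith) (by simp)),
          lintegral_add_right _ measurable_const, lintegral_const,
          Measure.restrict_apply_univ]
        apply ENNReal.mul_lt_top
        · exact ENNReal.rpow_lt_top_of_nonneg (by linarith) (by simp)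
        · apply ENNReal.add_lt_top.2 ⟨hint.lt_top, ?_⟩
          apply ENNReal.mul_lt_top _ hfin.lt_top
          exact ENNReal.rpow_lt_top_of_nonneg hp0.le (by simp)
      exact (h1.trans_lt h2).ne
    have h3 := (Besicovitch.vitaliFamily (volume : Measure R3)).ae_tendsto_lintegral_div hm hi
    filter_upwards [h3] with x hx hxO
    have h4 := hx.comp (Besicovitch.tendsto_filterAt (volume : Measure R3) x)
    rw [indicator_of_mem hxO] at h4
    exact h4
  rw [ae_restrict_iff' hO.measurableSet]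
  filter_upwards [ae_all_iff.2 key] with x hx hxO
  intro δ hδ
  -- choose a dense point near G x
  have hc : (0 : ℝ≥0∞) < 2 ^ (p - 1) := ENNReal.rpow_pos (by simp) (by simp)
  have hcT : (2 : ℝ≥0∞) ^ (p - 1) ≠ ∞ :=
    ENNReal.rpow_ne_top_of_nonneg (by linarith) (by simp)
  obtain ⟨n, hn⟩ : ∃ n, 2 ^ (p - 1) * (3 * ‖G x - S n‖ₑ ^ p) < δ := by
    have h1 : Tendsto (fun c : R3 => 2 ^ (p - 1) * (3 * ‖G x - c‖ₑ ^ p)) (𝓝 (G x)) (𝓝 0) := by
      have h2 : Tendsto (fun c : R3 => ‖G x - c‖ₑ) (𝓝 (G x)) (𝓝 0) := by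
        have : Tendsto (fun c : R3 => G x - c) (𝓝 (G x)) (𝓝 (G x - G x)) :=
          tendsto_const_nhds.sub tendsto_id
        rw [sub_self] at this
        have h5 := this.enorm
        simpa using h5
      have h3 := h2.ennrpow_const p
      rw [ENNReal.zero_rpow_of_pos hp0] at h3
      have h4 := ENNReal.Tendsto.const_mul (a := (2 : ℝ≥0∞) ^ (p - 1))
        (ENNReal.Tendsto.const_mul (a := (3 : ℝ≥0∞)) h3 (Or.inr (by simp))) (Or.inr hcT)
      simpa using h4
    have h2 : ∀ᶠ c in 𝓝 (G x), 2 ^ (p - 1) * (3 * ‖G x - c‖ₑ ^ p) < δ :=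
      h1.eventually (gt_mem_nhds hδ)
    obtain ⟨n, hn⟩ := (TopologicalSpace.denseRange_denseSeq R3).exists_mem_open
      (isOpen_interior (s := {c : R3 | 2 ^ (p - 1) * (3 * ‖G x - c‖ₑ ^ p) < δ}))
      ⟨G x, mem_interior_iff_mem_nhds.2 h2⟩
    have hn' := interior_subset hn
    exact ⟨n, hn'⟩
  set c : ℝ≥0∞ := ‖G x - S n‖ₑ ^ p with hcdef
  have hcT' : c ≠ ∞ := ENNReal.rpow_ne_top_of_nonneg hp0.le (by simp)
  have h1 : 2 ^ (p - 1) * (c + c) < δ := by
    refine lt_of_le_of_lt ?_ hn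
    gcongr
    rw [show (3 : ℝ≥0∞) = 2 + 1 by norm_num, add_mul, two_mul, one_mul]
    exact le_self_add
  have h2 : Tendsto (fun r => 2 ^ (p - 1) * ((∫⁻ y in closedBall x r,
      Om.indicator (fun y => ‖G y - S n‖ₑ ^ p) y) / volume (closedBall x r) + c))
      (𝓝[>] 0) (𝓝 (2 ^ (p - 1) * (c + c))) :=
    ENNReal.Tendsto.const_mul ((hx n hxO).add_const c) (Or.inr hcT)
  have h3 := h2.eventually (gt_mem_nhds h1)
  obtain ⟨ρ, hρ, hρO⟩ := Metric.isOpen_iff.1 hO x hxO
  have h4 : ∀ᶠ r in 𝓝[>] (0 : ℝ), r ∈ Ioo 0 ρ := Ioo_mem_nhdsGT hρ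
  filter_upwards [h3, h4] with r hr hr2
  have hsub : closedBall x r ⊆ Om := (closedBall_subset_ball hr2.2).trans hρO
  have hv0 : volume (closedBall x r) ≠ 0 := (measure_closedBall_pos volume x hr2.1).ne'
  have hvT : volume (closedBall x r) ≠ ∞ := measure_closedBall_lt_top.ne
  have h5 : ∫⁻ y in closedBall x r, ‖G y - G x‖ₑ ^ p ≤
      ∫⁻ y in closedBall x r, 2 ^ (p - 1) *
        (Om.indicator (fun y => ‖G y - S n‖ₑ ^ p) y + c) := by
    apply setLIntegral_mono_ae' measurableSet_closedBall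
    refine Eventually.of_forall fun y hy => ?_
    rw [indicator_of_mem (hsub hy), hcdef]
    refine le_trans ?_ (ENNReal.rpow_add_le_mul_rpow_add_rpow _ _ hp)
    apply ENNReal.rpow_le_rpow _ hp0.le
    have : G y - G x = (G y - S n) - (G x - S n) := by abel
    rw [this]
    exact enorm_sub_le
  refine h5.trans ?_
  rw [lintegral_const_mul' _ _ hcT, lintegral_add_right _ measurable_const, lintegral_const,
    Measure.restrict_apply_univ]
  have h6 : ∫⁻ y in closedBall x r, Om.indicator (fun y => ‖G y - S n‖ₑ ^ p) y =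
      (∫⁻ y in closedBall x r, Om.indicator (fun y => ‖G y - S n‖ₑ ^ p) y) /
        volume (closedBall x r) * volume (closedBall x r) := by
    rw [ENNReal.div_mul_cancel hv0 hvT]
  rw [h6, ← add_mul, ← mul_assoc]
  gcongr

end

end Crest.Agent.R096.Cub_298
end

-- ▼ part R096/Sk4a_663
section

/-!
Row 96 (S0127), helper663.  Finitely many disjoint rotated cubes centred at points of a given set
`S`, with an arbitrary "eventual" property, covering `S` up to small `F`-mass.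
-/

set_option autoImplicit false
set_option linter.unusedSectionVars false
set_option linter.style.longLine false

open MeasureTheory Set Metric Filter Topology
open scoped ENNReal NNReal

namespace Crest.Agent.R096.Sk4_663

open Crest.AnalysisR.VecCalc3
open Crest.Agent.R096.Cub_298 (Kc Kc_subset subset_Kc isCompact_Kc vol_ball_comp ae_leb)

noncomputable section

theorem cubesP {Om : Set R3} (hO : IsOpen Om) {S : Set R3} (hS : S ⊆ Om)
    (V : R3 → (R3 ≃ₗᵢ[ℝ] R3)) {P : R3 → ℝ → Prop}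
    (hP : ∀ᵐ x : R3, x ∈ S → ∀ᶠ r in 𝓝[>] (0 : ℝ), P x r)
    {F : R3 → ℝ≥0∞} (hF : ∫⁻ x in Om, F x ≠ ∞) {ε : ℝ≥0∞} (hε : 0 < ε) :
    ∃ T : Finset (R3 × ℝ),
      (∀ a ∈ T, a.1 ∈ S ∧ 0 < a.2 ∧ Kc (V a.1) a.1 a.2 ⊆ Om ∧ P a.1 a.2) ∧
      (T : Set (R3 × ℝ)).PairwiseDisjoint (fun a => Kc (V a.1) a.1 a.2) ∧
      ∫⁻ y in S \ ⋃ a ∈ T, Kc (V a.1) a.1 a.2, F y < ε := by
  set B : R3 × ℝ → Set R3 := fun a => Kc (V a.1) a.1 a.2 with hB
  have hBc : ∀ a, IsClosed (B a) := fun a => (isCompact_Kc _ _ _).isClosed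
  set good : Set R3 := {x | x ∈ S ∧ ∀ᶠ r in 𝓝[>] (0 : ℝ), P x r} with hgd
  have hnull : volume (S \ good) = 0 := by
    refine measure_mono_null ?_ (mem_ae_iff.1 hP)
    rintro x ⟨hx1, hx2⟩ hx3
    exact hx2 ⟨hx1, hx3 hx1⟩
  set t : Set (R3 × ℝ) := {a | a.1 ∈ S ∧ 0 < a.2 ∧ B a ⊆ Om ∧ P a.1 a.2} with ht
  obtain ⟨u, hut, huc, hud, hu0⟩ := Vitali.exists_disjoint_covering_ae (volume : Measure R3) good t
    216 (fun a => 2 * a.2) (fun a => a.1) B
    (fun a ha => Kc_subset _ _ ha.2.1.le)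
    (by
      intro a ha
      have h1 := vol_ball_comp (V a.1) a.1 (r := a.2) (c := 6) ha.2.1 (by norm_num)
      have h2 : 3 * (2 * a.2) = 6 * a.2 := by ring
      rw [h2]
      refine h1.trans (le_of_eq ?_)
      congr 1
      norm_num)
    (by
      intro a ha
      refine ⟨a.1, ?_⟩
      rw [mem_interior_iff_mem_nhds]
      exact mem_of_superset (closedBall_mem_nhds _ ha.2.1) (subset_Kc _ _ ha.2.1))
    (fun a _ => hBc a)
    (by
      intro x hx η hη
      obtain ⟨ρ, hρ, hρO⟩ := Metric.isOpen_iff.1 hO x (hS hx.1)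
      have h2 : ∀ᶠ s in 𝓝[>] (0 : ℝ), s ∈ Ioo 0 (min ρ η / 2) :=
        Ioo_mem_nhdsGT (by have := lt_min hρ hη; linarith)
      obtain ⟨s, hs1, hs2⟩ := (hx.2.and h2).exists
      refine ⟨(x, s), ⟨hx.1, hs2.1, ?_, hs1⟩, ?_, rfl⟩
      · have h3 := Kc_subset (V x) x (r := s) hs2.1.le
        refine h3.trans ((closedBall_subset_ball ?_).trans hρO)
        have := min_le_left ρ η
        linarith [hs2.2]
      · have := min_le_right ρ η
        change 2 * s ≤ η
        linarith [hs2.2])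
  -- the finite measure
  set ν : Measure R3 := (volume.restrict Om).withDensity F with hν
  have hνfin : ν univ ≠ ∞ := by
    rw [hν, withDensity_apply _ MeasurableSet.univ, Measure.restrict_univ]
    exact hF
  have : Countable u := huc.to_subtype
  have hdis : Pairwise (Function.onFun Disjoint (fun a : u => B a.1)) := by
    intro a b hab
    exact hud a.2 b.2 (fun h => hab (Subtype.ext h))
  have hsum : ∑' a : u, ν (B a.1) ≠ ∞ := by
    rw [← measure_iUnion hdis (fun a => (hBc a.1).measurableSet)]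
    exact ne_top_of_le_ne_top hνfin (measure_mono (subset_univ _))
  have htend := ENNReal.tendsto_tsum_compl_atTop_zero hsum
  obtain ⟨S', hS'⟩ := (htend.eventually (gt_mem_nhds hε)).exists
  set T : Finset (R3 × ℝ) := S'.map (Function.Embedding.subtype _) with hT
  have hTu : ∀ a ∈ T, a ∈ u := by
    intro a ha
    rw [hT, Finset.mem_map] at ha
    obtain ⟨b, _, rfl⟩ := ha
    exact b.2
  have hνOm : ν (S \ ⋃ a ∈ u, B a) = 0 := by
    have h1 : volume (S \ ⋃ a ∈ u, B a) = 0 := by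
      refine measure_mono_null ?_ (measure_union_null hnull hu0)
      rintro x ⟨hx1, hx2⟩
      by_cases hg : x ∈ good
      · exact Or.inr ⟨hg, hx2⟩
      · exact Or.inl ⟨hx1, hg⟩
    have h2 : (volume.restrict Om) (S \ ⋃ a ∈ u, B a) = 0 :=
      le_antisymm ((Measure.restrict_apply_le _ _).trans h1.le) bot_le
    exact withDensity_absolutelyContinuous _ _ h2
  have hmain : ν (S \ ⋃ a ∈ T, B a) < ε := by
    refine lt_of_le_of_lt ?_ hS'
    calc ν (S \ ⋃ a ∈ T, B a)
        ≤ ν ((S \ ⋃ a ∈ u, B a) ∪ ⋃ b : {x // x ∉ S'}, B (b.1.1)) := by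
          apply measure_mono
          rintro x ⟨hx1, hx2⟩
          by_cases hx3 : x ∈ ⋃ a ∈ u, B a
          · right
            rw [mem_iUnion₂] at hx3
            obtain ⟨a, ha, hxa⟩ := hx3
            rw [mem_iUnion]
            refine ⟨⟨⟨a, ha⟩, ?_⟩, hxa⟩
            intro hS''
            apply hx2
            rw [mem_iUnion₂]
            refine ⟨a, ?_, hxa⟩
            rw [hT, Finset.mem_map]
            exact ⟨⟨a, ha⟩, hS'', rfl⟩
          · exact Or.inl ⟨hx1, hx3⟩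
      _ ≤ ν (S \ ⋃ a ∈ u, B a) + ν (⋃ b : {x // x ∉ S'}, B (b.1.1)) := measure_union_le _ _
      _ ≤ 0 + ∑' b : {x // x ∉ S'}, ν (B (b.1.1)) := by
          gcongr
          · exact hνOm.le
          · exact measure_iUnion_le _
      _ = _ := by rw [zero_add]
  refine ⟨T, fun a ha => hut (hTu a ha), ?_, ?_⟩
  · intro a ha b hb hab
    exact hud (hTu a (by simpa using ha)) (hTu b (by simpa using hb)) hab
  · refine lt_of_le_of_lt ?_ hmain
    have h1 := withDensity_apply_le (μ := volume.restrict Om) F (S \ ⋃ a ∈ T, B a)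
    rw [Measure.restrict_restrict' hO.measurableSet,
      inter_eq_left.2 (sdiff_subset.trans hS)] at h1
    exact h1

/-- Lebesgue points, on rotated cubes, for three functions. -/
theorem ev_mean {Om : Set R3} (hO : IsOpen Om) (hb : Bornology.IsBounded Om) {p : ℝ} (hp : 1 ≤ p)
    {G : Fin 3 → R3 → R3} (hG : ∀ j, MemLp (G j) (ENNReal.ofReal p) (volume.restrict Om))
    (V : R3 → (R3 ≃ₗᵢ[ℝ] R3)) (d : R3 → ℝ) (hd : ∀ x, 0 < d x) :
    ∀ᵐ x : R3, x ∈ Om → ∀ᶠ r in 𝓝[>] (0 : ℝ),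
      ∫⁻ y in Kc (V x) x r, ∑ j, ‖G j y - G j x‖ₑ ^ p ≤
        ENNReal.ofReal (d x) * volume (Kc (V x) x r) := by
  have hgood : ∀ᵐ x ∂(volume.restrict Om), ∀ j, ∀ δ : ℝ≥0∞, 0 < δ → ∀ᶠ r in 𝓝[>] (0 : ℝ),
      ∫⁻ y in closedBall x r, ‖G j y - G j x‖ₑ ^ p ≤ δ * volume (closedBall x r) :=
    ae_all_iff.2 fun j => ae_leb hO hb hp (hG j)
  rw [ae_restrict_iff' hO.measurableSet] at hgood
  filter_upwards [hgood] with x hx hxO
  set δ : ℝ≥0∞ := ENNReal.ofReal (d x / 24) with hδ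
  have hδ0 : 0 < δ := ENNReal.ofReal_pos.2 (by have := hd x; positivity)
  have h1 : ∀ᶠ s in 𝓝[>] (0 : ℝ), ∀ j,
      ∫⁻ y in closedBall x s, ‖G j y - G j x‖ₑ ^ p ≤ δ * volume (closedBall x s) :=
    eventually_all.2 fun j => hx hxO j δ hδ0
  obtain ⟨ρ, hρ, hρO⟩ := Metric.isOpen_iff.1 hO x hxO
  have ht : Tendsto (fun r : ℝ => 2 * r) (𝓝[>] 0) (𝓝[>] 0) := by
    apply tendsto_nhdsWithin_iff.2
    constructor
    · have : Tendsto (fun r : ℝ => 2 * r) (𝓝 0) (𝓝 (2 * 0)) :=
        (continuous_const.mul continuous_id).tendsto 0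
      rw [mul_zero] at this
      exact this.mono_left nhdsWithin_le_nhds
    · filter_upwards [self_mem_nhdsWithin] with r hr
      have : (0:ℝ) < r := hr
      change (0:ℝ) < 2 * r
      linarith
  have h2 : ∀ᶠ s in 𝓝[>] (0 : ℝ), s ∈ Ioo 0 (ρ / 2) := Ioo_mem_nhdsGT (by linarith)
  filter_upwards [ht.eventually h1, h2] with s hs1 hs2
  have hs0 : 0 < s := hs2.1
  have h3 := Kc_subset (V x) x (r := s) hs0.le
  have h5 : Kc (V x) x s ⊆ Om := by
    refine h3.trans ((closedBall_subset_ball ?_).trans hρO)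
    linarith [hs2.2]
  have h6 : ∫⁻ y in Kc (V x) x s, ∑ j, ‖G j y - G j x‖ₑ ^ p =
      ∑ j, ∫⁻ y in Kc (V x) x s, ‖G j y - G j x‖ₑ ^ p := by
    apply lintegral_finsetSum'
    intro j _
    have h7 : AEMeasurable (G j) (volume.restrict (Kc (V x) x s)) :=
      (hG j).1.aemeasurable.mono_measure (Measure.restrict_mono h5 le_rfl)
    exact ((h7.sub aemeasurable_const).enorm).pow_const _
  rw [h6]
  have h8 : ∀ j, ∫⁻ y in Kc (V x) x s, ‖G j y - G j x‖ₑ ^ p ≤
      δ * volume (closedBall x (2 * s)) := fun j =>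
    (lintegral_mono_set h3).trans (hs1 j)
  have h9 : volume (closedBall x (2 * s)) ≤ ENNReal.ofReal (2 ^ 3) * volume (Kc (V x) x s) :=
    vol_ball_comp (V x) x (r := s) (c := 2) hs0 (by norm_num)
  calc ∑ j, ∫⁻ y in Kc (V x) x s, ‖G j y - G j x‖ₑ ^ p
      ≤ ∑ _j : Fin 3, δ * (ENNReal.ofReal (2 ^ 3) * volume (Kc (V x) x s)) := by
        apply Finset.sum_le_sum
        intro j _
        refine (h8 j).trans ?_
        gcongr
    _ = ENNReal.ofReal (d x) * volume (Kc (V x) x s) := by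
        rw [Finset.sum_const, Finset.card_univ, Fintype.card_fin, nsmul_eq_mul,
          ← mul_assoc, ← mul_assoc, hδ]
        congr 1
        have : ((3 : ℕ) : ℝ≥0∞) = ENNReal.ofReal 3 := by norm_num
        rw [this, ← ENNReal.ofReal_mul (by norm_num), ← ENNReal.ofReal_mul (by
          have := hd x; positivity)]
        congr 1
        ring

/-- density points, on rotated cubes. -/
theorem ev_dens {S : Set R3} (hS : NullMeasurableSet S)
    (V : R3 → (R3 ≃ₗᵢ[ℝ] R3)) (d : R3 → ℝ) (hd : ∀ x, 0 < d x) :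
    ∀ᵐ x : R3, x ∈ S → ∀ᶠ r in 𝓝[>] (0 : ℝ),
      volume (Kc (V x) x r \ S) ≤ ENNReal.ofReal (d x) * volume (Kc (V x) x r) := by
  have h0 := Besicovitch.ae_tendsto_measure_inter_div (volume : Measure R3) S
  rw [ae_restrict_iff'₀ hS] at h0
  filter_upwards [h0] with x hx hxS
  have hx := hx hxS
  have ht : Tendsto (fun r : ℝ => 2 * r) (𝓝[>] 0) (𝓝[>] 0) := by
    apply tendsto_nhdsWithin_iff.2
    constructor
    · have : Tendsto (fun r : ℝ => 2 * r) (𝓝 0) (𝓝 (2 * 0)) :=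
        (continuous_const.mul continuous_id).tendsto 0
      rw [mul_zero] at this
      exact this.mono_left nhdsWithin_le_nhds
    · filter_upwards [self_mem_nhdsWithin] with r hr
      have : (0:ℝ) < r := hr
      change (0:ℝ) < 2 * r
      linarith
  set δ : ℝ≥0∞ := ENNReal.ofReal (d x / 8) with hδ
  have hδ0 : 0 < δ := ENNReal.ofReal_pos.2 (by have := hd x; positivity)
  have h1 : ∀ᶠ r in 𝓝[>] (0:ℝ), 1 - δ < volume (S ∩ closedBall x r) / volume (closedBall x r) := by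
    apply hx.eventually
    apply lt_mem_nhds
    exact ENNReal.sub_lt_self (by simp) (by simp) hδ0.ne'
  filter_upwards [ht.eventually h1, self_mem_nhdsWithin] with r hr hr0
  have hr0 : 0 < r := hr0
  have hv0 : volume (closedBall x (2 * r)) ≠ 0 := (measure_closedBall_pos volume x (by linarith)).ne'
  have hvT : volume (closedBall x (2 * r)) ≠ ∞ := measure_closedBall_lt_top.ne
  have h2 : (1 - δ) * volume (closedBall x (2 * r)) ≤ volume (S ∩ closedBall x (2 * r)) := by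
    rw [← ENNReal.le_div_iff_mul_le (Or.inl hv0) (Or.inl hvT)]
    exact hr.le
  have h3 : volume (closedBall x (2 * r) ∩ S) + volume (closedBall x (2 * r) \ S) =
      volume (closedBall x (2 * r)) := measure_inter_add_sdiff₀ _ hS
  have h4 : volume (closedBall x (2 * r) \ S) ≤ δ * volume (closedBall x (2 * r)) := by
    have h5 : volume (closedBall x (2 * r)) ≤
        (1 - δ) * volume (closedBall x (2 * r)) + δ * volume (closedBall x (2 * r)) := by
      rw [← add_mul]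
      calc volume (closedBall x (2 * r)) = 1 * volume (closedBall x (2 * r)) := (one_mul _).symm
        _ ≤ (1 - δ + δ) * volume (closedBall x (2 * r)) := by
            gcongr
            exact le_tsub_add
    have h6 : volume (closedBall x (2 * r) ∩ S) + volume (closedBall x (2 * r) \ S) ≤
        volume (closedBall x (2 * r) ∩ S) + δ * volume (closedBall x (2 * r)) := by
      rw [h3]
      refine h5.trans ?_
      gcongr
      rwa [inter_comm] at h2
    refine (ENNReal.add_le_add_iff_left ?_).1 h6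
    exact ne_top_of_le_ne_top hvT (measure_mono inter_subset_left)
  have h9 : volume (closedBall x (2 * r)) ≤ ENNReal.ofReal (2 ^ 3) * volume (Kc (V x) x r) :=
    vol_ball_comp (V x) x (r := r) (c := 2) hr0 (by norm_num)
  calc volume (Kc (V x) x r \ S) ≤ volume (closedBall x (2 * r) \ S) :=
        measure_mono (sdiff_subset_sdiff_left (Kc_subset (V x) x hr0.le))
    _ ≤ δ * volume (closedBall x (2 * r)) := h4
    _ ≤ δ * (ENNReal.ofReal (2 ^ 3) * volume (Kc (V x) x r)) := by gcongr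
    _ = ENNReal.ofReal (d x) * volume (Kc (V x) x r) := by
        rw [← mul_assoc, hδ, ← ENNReal.ofReal_mul (by have := hd x; positivity)]
        congr 2
        ring

/-- continuity, on rotated cubes. -/
theorem ev_cont {Om : Set R3} (hO : IsOpen Om) {f : R3 → R3} (hf : ContinuousOn f Om)
    (V : R3 → (R3 ≃ₗᵢ[ℝ] R3)) {η : ℝ} (hη : 0 < η) {x : R3} (hx : x ∈ Om) :
    ∀ᶠ r in 𝓝[>] (0 : ℝ), ∀ y ∈ Kc (V x) x r, ‖f y - f x‖ ≤ η := by
  have h1 : ContinuousAt f x := hf.continuousAt (hO.mem_nhds hx)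
  obtain ⟨ρ, hρ, hρ2⟩ := Metric.continuousAt_iff.1 h1 η hη
  have h2 : ∀ᶠ s in 𝓝[>] (0 : ℝ), s ∈ Ioo 0 (ρ / 2) := Ioo_mem_nhdsGT (by linarith)
  filter_upwards [h2] with s hs y hy
  have h3 := Kc_subset (V x) x hs.1.le hy
  rw [mem_closedBall] at h3
  have h4 := hρ2 (show dist y x < ρ by linarith [hs.2])
  rw [dist_eq_norm] at h4
  exact h4.le

end

end Crest.Agent.R096.Sk4_663
end

-- ▼ part R096/Sk4c_663
section

/-!
Row 96 (S0127), helper663.  Patching a Sobolev homeomorphism on finitely many disjoint open sets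
(LOCALITY) by locally PL homeomorphisms.
-/

set_option autoImplicit false
set_option linter.unusedSectionVars false
set_option linter.style.longLine false

open MeasureTheory Set Filter Topology Metric
open scoped ENNReal Gradient NNReal
open Crest.AnalysisR.VecCalc3 Crest.AnalysisR.Sobolev
open Crest.Agent.R096.Str_696 (LocPL)
open Crest.Agent.R096.Sk_962 (SH Gr Q0 Qc0 Kc Ko dg PLA)
open Crest.Agent.R96.Lu_538 (Gmat Gmat_apply gmatL)

namespace Crest.Agent.R096.Sk4_663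

noncomputable section

theorem measurable_Gr (g : R3 → R3) (j : Fin 3) : Measurable (Gr g j) := by
  unfold Gr gradient
  exact (InnerProductSpace.toDual ℝ R3).symm.continuous.measurable.comp (measurable_fderiv ℝ _)

theorem lintegral_of_memLp {Om : Set R3} {p : ℝ} (hp : 1 ≤ p) {G : R3 → R3}
    (hG : MemLp G (ENNReal.ofReal p) (volume.restrict Om)) : ∫⁻ y in Om, ‖G y‖ₑ ^ p ≠ ∞ := by
  have hp0 : 0 < p := by linarith
  have h1 := hG.2
  rw [eLpNorm_lt_top_iff_lintegral_rpow_enorm_lt_top (by simpa using hp0)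
    ENNReal.ofReal_ne_top] at h1
  rw [ENNReal.toReal_ofReal hp0.le] at h1
  exact h1.ne

theorem memLp_of_lintegral {Om : Set R3} {p : ℝ} (hp : 1 ≤ p) {G : R3 → R3}
    (hm : AEStronglyMeasurable G (volume.restrict Om)) (hG : ∫⁻ y in Om, ‖G y‖ₑ ^ p ≠ ∞) :
    MemLp G (ENNReal.ofReal p) (volume.restrict Om) := by
  have hp0 : 0 < p := by linarith
  refine ⟨hm, ?_⟩
  rw [eLpNorm_lt_top_iff_lintegral_rpow_enorm_lt_top (by simpa using hp0)
    ENNReal.ofReal_ne_top, ENNReal.toReal_ofReal hp0.le]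
  exact lt_top_iff_ne_top.2 hG

/-- **LOCALITY**: the patched map is a Sobolev homeomorphism. -/
theorem pat_SH {p : ℝ} (hp : 1 ≤ p) {Om La U : Set R3} {f g : R3 → R3} {G : Fin 3 → R3 → R3}
    (hO : IsOpen Om) (hOb : Bornology.IsBounded Om) (hLb : Bornology.IsBounded La)
    (H : SH p Om La f G) (hU : IsOpen U) (hUc : IsCompact (closure U))
    (hUO : closure U ⊆ Om) (hg : IsHomeomorphOn g U (f '' U)) (hpl : LocPL g U)
    (hbd : ∀ z ∈ frontier U, Tendsto (fun x => g x - f x) (𝓝[U] z) (𝓝 0))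
    (hE : ∀ j, ∫⁻ x in U, ‖Gr g j x‖ₑ ^ p ≠ ∞) :
    SH p Om La (pat U g f) (fun j => pat U (Gr g j) (G j)) := by
  have hp0 : 0 < p := by linarith
  have hUO' : U ⊆ Om := subset_closure.trans hUO
  have hfin : volume Om ≠ ∞ := hOb.measure_lt_top.ne
  have : IsFiniteMeasure (volume.restrict Om) :=
    ⟨by rw [Measure.restrict_apply_univ]; exact hfin.lt_top⟩
  have hh : IsHomeomorphOn (pat U g f) Om La := pat_homeo hO hU hUc hUO H.homeo hg hbd
  have hcf : ContinuousOn f Om := by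
    obtain ⟨fi, f1, f2, f3, f4, f5, f6⟩ := H.homeo
    exact f5
  have hcg : ContinuousOn g U := by
    obtain ⟨fi, f1, f2, f3, f4, f5, f6⟩ := hg
    exact f5
  have hGm : ∀ j, MemLp (pat U (Gr g j) (G j)) (ENNReal.ofReal p) (volume.restrict Om) := by
    intro j
    apply memLp_of_lintegral hp
    · have h1 : AEStronglyMeasurable (U.indicator (Gr g j)) (volume.restrict Om) :=
        ((measurable_Gr g j).indicator hU.measurableSet).aestronglyMeasurable
      have h2 : AEStronglyMeasurable (Uᶜ.indicator (G j)) (volume.restrict Om) :=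
        (H.memG j).1.indicator hU.measurableSet.compl
      refine (h1.add h2).congr (Eventually.of_forall fun x => ?_)
      by_cases hx : x ∈ U
      · simp [pat_of_mem hx, hx]
      · simp [pat_of_not hx, hx]
    · have h1 : ∫⁻ y in Om, ‖pat U (Gr g j) (G j) y‖ₑ ^ p ≤
          (∫⁻ y in U, ‖pat U (Gr g j) (G j) y‖ₑ ^ p) +
            ∫⁻ y in Om \ U, ‖pat U (Gr g j) (G j) y‖ₑ ^ p := by
        have : Om ⊆ U ∪ (Om \ U) := by
          intro x hx
          by_cases h : x ∈ U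
          · exact Or.inl h
          · exact Or.inr ⟨hx, h⟩
        exact (lintegral_mono_set this).trans (lintegral_union_le _ _ _)
      have h2 : ∫⁻ y in U, ‖pat U (Gr g j) (G j) y‖ₑ ^ p = ∫⁻ y in U, ‖Gr g j y‖ₑ ^ p := by
        apply setLIntegral_congr_fun hU.measurableSet
        intro x hx
        simp only [pat_of_mem hx]
      have h3 : ∫⁻ y in Om \ U, ‖pat U (Gr g j) (G j) y‖ₑ ^ p ≤ ∫⁻ y in Om, ‖G j y‖ₑ ^ p := by
        have h4 : ∫⁻ y in Om \ U, ‖pat U (Gr g j) (G j) y‖ₑ ^ p = ∫⁻ y in Om \ U, ‖G j y‖ₑ ^ p := by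
          apply setLIntegral_congr_fun (hO.measurableSet.diff hU.measurableSet)
          intro x hx
          simp only [pat_of_not hx.2]
        rw [h4]
        exact lintegral_mono_set sdiff_subset
      refine ne_top_of_le_ne_top ?_ h1
      rw [h2]
      exact ENNReal.add_ne_top.2 ⟨hE j, ne_top_of_le_ne_top (lintegral_of_memLp hp (H.memG j)) h3⟩
  refine ⟨hh, ?_, ?_, hGm⟩
  · obtain ⟨fi, f1, f2, f3, f4, f5, f6⟩ := hh
    obtain ⟨M, hM⟩ := hLb.exists_norm_le
    have hm : AEStronglyMeasurable (pat U g f) (volume.restrict Om) :=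
      f5.aestronglyMeasurable hO.measurableSet
    refine MemLp.of_bound hm M ?_
    rw [ae_restrict_iff' hO.measurableSet]
    exact Eventually.of_forall fun x hx => hM _ (f1 hx)
  · intro j
    have hL : LocallyLipschitzOn U g := Crest.Agent.R96.Sob7_199.locallyLipschitzOn_of_locPL hpl
    have hwg := Crest.Agent.R96.Sob7_199.grad_of_loclip' hU hL j
    have hD := pat_sub_cont hO hU hUO hcf hcg hbd
    refine Crest.Agent.R96.Sob7_199.grad_glue hO hU hUO' (H.wg j) hwg
      (fun x hx => by rw [pat_of_mem hx]) (fun x _ hx => by rw [pat_of_not hx])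
      (fun x hx => by rw [pat_of_mem hx]; rfl) (fun x _ hx => by rw [pat_of_not hx]) ?_ ?_
    · have h1 : Continuous fun x => (pat U g f x - f x) j :=
        (EuclideanSpace.proj (𝕜 := ℝ) (ι := Fin 3) j).continuous.comp hD
      exact h1.continuousOn
    · have h1 : Integrable (pat U (Gr g j) (G j)) (volume.restrict Om) :=
        (hGm j).integrable (by simpa using hp)
      exact IntegrableOn.locallyIntegrableOn h1

/-- **finitely many patches**. -/
theorem pat_finset {p : ℝ} (hp : 1 ≤ p) {Om La : Set R3} {f : R3 → R3} {G : Fin 3 → R3 → R3}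
    (hO : IsOpen Om) (hOb : Bornology.IsBounded Om) (hLb : Bornology.IsBounded La)
    (H : SH p Om La f G) {ι : Type*} (T : Finset ι) (U : ι → Set R3) (g : ι → R3 → R3)
    (hU : ∀ a ∈ T, IsOpen (U a)) (hUc : ∀ a ∈ T, IsCompact (closure (U a)))
    (hUO : ∀ a ∈ T, closure (U a) ⊆ Om)
    (hdis : (T : Set ι).PairwiseDisjoint (fun a => closure (U a)))
    (hg : ∀ a ∈ T, IsHomeomorphOn (g a) (U a) (f '' U a)) (hpl : ∀ a ∈ T, LocPL (g a) (U a))
    (hbd : ∀ a ∈ T, ∀ z ∈ frontier (U a), Tendsto (fun x => g a x - f x) (𝓝[U a] z) (𝓝 0))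
    (hE : ∀ a ∈ T, ∀ j, ∫⁻ x in U a, ‖Gr (g a) j x‖ₑ ^ p ≠ ∞) :
    ∃ (f' : R3 → R3) (G' : Fin 3 → R3 → R3), SH p Om La f' G' ∧
      (∀ a ∈ T, ∀ x ∈ U a, f' x = g a x ∧ ∀ j, G' j x = Gr (g a) j x) ∧
      (∀ x, (∀ a ∈ T, x ∉ U a) → f' x = f x ∧ ∀ j, G' j x = G j x) := by
  classical
  induction T using Finset.induction_on with
  | empty =>
    refine ⟨f, G, H, ?_, ?_⟩
    · intro a ha; simp at ha
    · intro x _; exact ⟨rfl, fun _ => rfl⟩
  | insert b T hb ih =>
    have hmem : ∀ a ∈ T, a ∈ insert b T := fun a ha => Finset.mem_insert_of_mem ha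
    have hbm : b ∈ insert b T := Finset.mem_insert_self b T
    obtain ⟨f', G', H', h1, h2⟩ := ih (fun a ha => hU a (hmem a ha))
      (fun a ha => hUc a (hmem a ha)) (fun a ha => hUO a (hmem a ha))
      (hdis.subset (by simp)) (fun a ha => hg a (hmem a ha)) (fun a ha => hpl a (hmem a ha))
      (fun a ha => hbd a (hmem a ha)) (fun a ha => hE a (hmem a ha))
    have hdisb : ∀ a ∈ T, Disjoint (closure (U a)) (closure (U b)) := by
      intro a ha
      exact hdis (by simpa using hmem a ha) (by simp) (fun h => hb (h ▸ ha))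
    have hout : ∀ x ∈ closure (U b), ∀ a ∈ T, x ∉ U a := by
      intro x hx a ha hxa
      exact disjoint_left.1 (hdisb a ha) (subset_closure hxa) hx
    have himg : f' '' U b = f '' U b := by
      apply image_congr
      intro x hx
      exact (h2 x (hout x (subset_closure hx))).1
    have hgb : IsHomeomorphOn (g b) (U b) (f' '' U b) := by
      rw [himg]; exact hg b hbm
    refine ⟨pat (U b) (g b) f', fun j => pat (U b) (Gr (g b) j) (G' j),
      pat_SH hp hO hOb hLb H' (hU b hbm) (hUc b hbm) (hUO b hbm) hgb (hpl b hbm) ?_ (hE b hbm),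
      ?_, ?_⟩
    · intro z hz
      refine (hbd b hbm z hz).congr' ?_
      filter_upwards [self_mem_nhdsWithin] with x hx
      rw [(h2 x (hout x (subset_closure hx))).1]
    · intro a ha x hx
      rcases Finset.mem_insert.1 ha with rfl | ha'
      · exact ⟨pat_of_mem hx, fun j => pat_of_mem hx⟩
      · have hxb : x ∉ U b := fun h =>
          hout x (subset_closure h) a ha' hx
        refine ⟨?_, fun j => ?_⟩
        · rw [pat_of_not hxb]; exact (h1 a ha' x hx).1
        · exact (pat_of_not hxb).trans ((h1 a ha' x hx).2 j)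
    · intro x hx
      have hxb : x ∉ U b := hx b hbm
      have h3 := h2 x (fun a ha => hx a (hmem a ha))
      refine ⟨?_, fun j => ?_⟩
      · rw [pat_of_not hxb]; exact h3.1
      · exact (pat_of_not hxb).trans (h3.2 j)

end

end Crest.Agent.R096.Sk4_663
end

-- ▼ part R096/Sk4d_663
section

/-!
Row 96 (S0127), helper663.  Frames: the singular value decomposition of a singular matrix and the
conjugation of the rows of a matrix by two isometries.
-/

set_option autoImplicit false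
set_option linter.unusedSectionVars false
set_option linter.style.longLine false

open MeasureTheory Set Filter Topology Metric
open scoped ENNReal Gradient NNReal
open Crest.AnalysisR.VecCalc3 Crest.AnalysisR.Sobolev
open Crest.Agent.R096.Str_696 (LocPL)
open Crest.Agent.R096.Sk_962 (SH Gr Q0 Qc0 Kc Ko dg PLA)
open Crest.Agent.R96.Lu_538 (Gmat Gmat_apply gmatL gmatL_apply)

namespace Crest.Agent.R096.Sk4_663

noncomputable section

/-! ### singular value decomposition -/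

theorem svd (A : R3 →L[ℝ] R3) : ∃ (v w : OrthonormalBasis (Fin 3) ℝ R3) (s : Fin 3 → ℝ),
    (∀ i, 0 ≤ s i) ∧ ∀ i, A (v i) = s i • w i := by
  classical
  set T : R3 →L[ℝ] R3 := (ContinuousLinearMap.adjoint A).comp A with hT
  have hsym : (T : R3 →ₗ[ℝ] R3).IsSymmetric := by
    intro x y
    simp only [hT, ContinuousLinearMap.coe_coe, ContinuousLinearMap.comp_apply]
    rw [ContinuousLinearMap.adjoint_inner_left, ContinuousLinearMap.adjoint_inner_right]
  have hn : Module.finrank ℝ R3 = 3 := by simp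
  set v := hsym.eigenvectorBasis hn with hv
  have hAv : ∀ i j, i ≠ j → inner ℝ (A (v i)) (A (v j)) = 0 := by
    intro i j hij
    have h1 : inner ℝ (A (v i)) (A (v j)) = inner ℝ (T (v i)) (v j) := by
      simp only [hT, ContinuousLinearMap.comp_apply]
      rw [ContinuousLinearMap.adjoint_inner_left]
    rw [h1]
    have h2 : T (v i) = (hsym.eigenvalues hn i : ℝ) • v i := hsym.apply_eigenvectorBasis hn i
    rw [h2, inner_smul_left, v.orthonormal.2 hij, mul_zero]
  set s : Fin 3 → ℝ := fun i => ‖A (v i)‖ with hs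
  set w0 : Fin 3 → R3 := fun i => (s i)⁻¹ • A (v i) with hw0
  set S : Set (Fin 3) := {i | s i ≠ 0} with hS
  have hon : Orthonormal ℝ (S.domRestrict w0) := by
    constructor
    · rintro ⟨i, hi⟩
      have hi' : s i ≠ 0 := hi
      have hi0 : 0 ≤ s i := norm_nonneg _
      change ‖(s i)⁻¹ • A (v i)‖ = 1
      rw [norm_smul, norm_inv, Real.norm_of_nonneg hi0]
      exact inv_mul_cancel₀ hi'
    · rintro ⟨i, hi⟩ ⟨j, hj⟩ hij
      have hij' : i ≠ j := fun h => hij (Subtype.ext h)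
      change inner ℝ ((s i)⁻¹ • A (v i)) ((s j)⁻¹ • A (v j)) = 0
      rw [inner_smul_left, inner_smul_right, hAv i j hij', mul_zero, mul_zero]
  obtain ⟨w, hw⟩ := hon.exists_orthonormalBasis_extension_of_card_eq (by simp)
  refine ⟨v, w, s, fun i => norm_nonneg _, fun i => ?_⟩
  by_cases hi : s i = 0
  · rw [hi, zero_smul]
    exact norm_eq_zero.1 hi
  · rw [hw i hi]
    simp only [hw0, smul_smul]
    rw [mul_inv_cancel₀ hi, one_smul]

/-- a singular matrix has a singular value decomposition with last singular value `0`. -/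
theorem svd0 (A : R3 →L[ℝ] R3) (hA : A.det = 0) :
    ∃ (V R : R3 ≃ₗᵢ[ℝ] R3) (s : Fin 3 → ℝ), (∀ i, 0 ≤ s i) ∧ s 2 = 0 ∧
      ∀ i, A (V (EuclideanSpace.single i 1)) = s i • R (EuclideanSpace.single i 1) := by
  classical
  obtain ⟨v, w, s, hs, hA'⟩ := svd A
  have h0 : ∃ i, s i = 0 := by
    by_contra hcon
    push Not at hcon
    have hker : LinearMap.ker (A : R3 →ₗ[ℝ] R3) ≠ ⊥ := by
      intro hk
      have := LinearMap.isUnit_det (A : R3 →ₗ[ℝ] R3) ((LinearMap.isUnit_iff_ker_eq_bot _).2 hk)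
      exact this.ne_zero hA
    obtain ⟨x, hx, hx0⟩ := (Submodule.ne_bot_iff _).1 hker
    have hx : A x = 0 := hx
    apply hx0
    have h1 : x = ∑ i, v.repr x i • v i := (v.sum_repr x).symm
    have h2 : ∀ k, v.repr x k = 0 := by
      intro k
      have h3 : A x = ∑ i, (v.repr x i * s i) • w i := by
        conv_lhs => rw [h1, map_sum]
        apply Finset.sum_congr rfl
        intro i _
        rw [map_smul, hA', smul_smul]
      have h4 : inner ℝ (w k) (A x) = v.repr x k * s k := by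
        rw [h3, w.orthonormal.inner_right_sum _ (Finset.mem_univ k)]
      rw [hx, inner_zero_right] at h4
      exact (mul_eq_zero.1 h4.symm).resolve_right (hcon k)
    rw [h1]
    simp [h2]
  obtain ⟨i0, hi0⟩ := h0
  set σ : Equiv.Perm (Fin 3) := Equiv.swap i0 2 with hσ
  refine ⟨(v.reindex σ).repr.symm, (w.reindex σ).repr.symm, fun i => s (σ.symm i),
    fun i => hs _, ?_, fun i => ?_⟩
  · have : σ.symm 2 = i0 := by simp [hσ]
    simp only [this, hi0]
  · rw [OrthonormalBasis.repr_symm_single, OrthonormalBasis.repr_symm_single,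
      OrthonormalBasis.reindex_apply, OrthonormalBasis.reindex_apply]
    exact hA' _

/-! ### conjugation of rows -/

theorem gmatL_injective : Function.Injective gmatL := by
  intro g g' h
  funext j
  apply ext_inner_right ℝ
  intro w
  have := congrArg (fun L : R3 →L[ℝ] R3 => L w j) h
  exact this

/-- the rows of `R⁻¹ M V`, where `g` are the rows of `M`. -/
def cj (V R : R3 ≃ₗᵢ[ℝ] R3) (g : Fin 3 → R3) (j : Fin 3) : R3 :=
  ∑ k, R.symm (EuclideanSpace.single k 1) j • V.symm (g k)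

theorem gmatL_cj (V R : R3 ≃ₗᵢ[ℝ] R3) (g : Fin 3 → R3) (w : R3) :
    gmatL (cj V R g) w = R.symm (gmatL g (V w)) := by
  ext j
  rw [gmatL_apply, cj, sum_inner]
  have h1 : gmatL g (V w) = ∑ k, inner ℝ (g k) (V w) • EuclideanSpace.single k (1:ℝ) := by
    ext i
    rw [gmatL_apply]
    simp [Pi.single_apply]
  rw [h1, map_sum]
  have h2 : (∑ k, R.symm (inner ℝ (g k) (V w) • EuclideanSpace.single k (1:ℝ))) j =
      ∑ k, inner ℝ (g k) (V w) * R.symm (EuclideanSpace.single k (1:ℝ)) j := by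
    rw [WithLp.ofLp_sum, Finset.sum_apply]
    apply Finset.sum_congr rfl
    intro k _
    rw [map_smul]
    simp
  rw [h2]
  apply Finset.sum_congr rfl
  intro k _
  rw [inner_smul_left, mul_comm]
  congr 1
  have h3 : inner ℝ (V.symm (g k)) w = inner ℝ (g k) (V w) := by
    rw [← V.inner_map_map, V.apply_symm_apply]
  exact h3

theorem cj_sub (V R : R3 ≃ₗᵢ[ℝ] R3) (g g' : Fin 3 → R3) (j : Fin 3) :
    cj V R g j - cj V R g' j = cj V R (fun k => g k - g' k) j := by
  simp only [cj, ← Finset.sum_sub_distrib, ← smul_sub, map_sub]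

theorem norm_cj_le (V R : R3 ≃ₗᵢ[ℝ] R3) (g : Fin 3 → R3) (j : Fin 3) :
    ‖cj V R g j‖ ≤ ∑ k, ‖g k‖ := by
  refine (norm_sum_le _ _).trans (Finset.sum_le_sum fun k _ => ?_)
  rw [norm_smul, LinearIsometryEquiv.norm_map]
  have h1 : ‖R.symm (EuclideanSpace.single k (1:ℝ)) j‖ ≤ 1 := by
    refine (PiLp.norm_apply_le _ j).trans ?_
    rw [LinearIsometryEquiv.norm_map]
    simp
  calc _ ≤ 1 * ‖g k‖ := mul_le_mul_of_nonneg_right h1 (norm_nonneg _)
    _ = ‖g k‖ := one_mul _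

/-- the constant `3 ^ p` -/
def cp (p : ℝ) : ℝ≥0∞ := 3 * 3 ^ (p - 1)

theorem cp_ne_top {p : ℝ} (hp : 1 ≤ p) : cp p ≠ ∞ :=
  ENNReal.mul_ne_top (by simp) (ENNReal.rpow_ne_top_of_nonneg (by linarith) (by simp))

theorem sum_cj_le (V R : R3 ≃ₗᵢ[ℝ] R3) (g : Fin 3 → R3) {p : ℝ} (hp : 1 ≤ p) :
    ∑ j, ‖cj V R g j‖ₑ ^ p ≤ cp p * ∑ k, ‖g k‖ₑ ^ p := by
  have hp0 : 0 ≤ p := by linarith
  have h1 : ∀ j, ‖cj V R g j‖ₑ ^ p ≤ 3 ^ (p - 1) * ∑ k, ‖g k‖ₑ ^ p := by
    intro j
    have h2 : ‖cj V R g j‖ₑ ≤ ∑ k, ‖g k‖ₑ := by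
      have h3 := norm_cj_le V R g j
      have h4 : ‖cj V R g j‖ₑ ≤ ENNReal.ofReal (∑ k, ‖g k‖) := by
        rw [← ofReal_norm]
        exact ENNReal.ofReal_le_ofReal h3
      refine h4.trans (le_of_eq ?_)
      rw [ENNReal.ofReal_sum_of_nonneg fun _ _ => norm_nonneg _]
      simp only [ofReal_norm]
    refine (ENNReal.rpow_le_rpow h2 hp0).trans ?_
    have h5 := ENNReal.rpow_sum_le_const_mul_sum_rpow Finset.univ (fun k => ‖g k‖ₑ) hp
    simpa using h5
  calc ∑ j, ‖cj V R g j‖ₑ ^ p ≤ ∑ _j : Fin 3, 3 ^ (p - 1) * ∑ k, ‖g k‖ₑ ^ p :=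
        Finset.sum_le_sum fun j _ => h1 j
    _ = 3 * 3 ^ (p - 1) * ∑ k, ‖g k‖ₑ ^ p := by
        rw [Finset.sum_const, Finset.card_univ, Fintype.card_fin, nsmul_eq_mul, mul_assoc]
        norm_num
    _ = cp p * ∑ k, ‖g k‖ₑ ^ p := rfl

end

end Crest.Agent.R096.Sk4_663
end

-- ▼ part R096/Sk4e_663
section

/-!
Row 96 (S0127), helper663.  Transport of Sobolev homeomorphisms by similarities.
-/

set_option autoImplicit false
set_option linter.unusedSectionVars false
set_option linter.style.longLine false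

open MeasureTheory Set Filter Topology Metric
open scoped ENNReal Gradient NNReal
open Crest.AnalysisR.VecCalc3 Crest.AnalysisR.Sobolev
open Crest.Agent.R096.Str_696 (LocPL)
open Crest.Agent.R096.Sk_962 (SH Gr Q0 Qc0 Kc Ko dg PLA)
open Crest.Agent.R96.Lu_538 (Gmat Gmat_apply gmatL gmatL_apply)
open Crest.Agent.R96.Sob8_199 (aff aff_apply aff_symm_apply fac fac_ne_zero fac_ne_top map_aff
  grad_similarity)

namespace Crest.Agent.R096.Sk4_663

noncomputable section

/-- the similarity `u ↦ r V u` -/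
def simL (V : R3 ≃ₗᵢ[ℝ] R3) (r : ℝ) (hr : r ≠ 0) : R3 ≃L[ℝ] R3 :=
  ContinuousLinearEquiv.equivOfInverse (r • (V.toContinuousLinearEquiv : R3 →L[ℝ] R3))
    (r⁻¹ • (V.symm.toContinuousLinearEquiv : R3 →L[ℝ] R3))
    (fun u => by simp [smul_smul, hr]) (fun u => by simp [smul_smul, hr])

theorem simL_apply (V : R3 ≃ₗᵢ[ℝ] R3) (r : ℝ) (hr : r ≠ 0) (u : R3) :
    simL V r hr u = r • V u := rfl

theorem simL_symm_apply (V : R3 ≃ₗᵢ[ℝ] R3) (r : ℝ) (hr : r ≠ 0) (u : R3) :
    (simL V r hr).symm u = r⁻¹ • V.symm u := rfl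

theorem lint_aff (a : R3) (A : R3 ≃L[ℝ] R3) (S : Set R3) (F : R3 → ℝ≥0∞) :
    ∫⁻ u in aff a A ⁻¹' S, F (aff a A u) = fac A * ∫⁻ y in S, F y := by
  have hme := (aff a A).measurableEmbedding
  have h1 := hme.lintegral_map (μ := volume.restrict (aff a A ⁻¹' S)) F
  rw [← h1, ← hme.restrict_map, map_aff, Measure.restrict_smul, lintegral_smul_measure]
  rfl

theorem vol_aff (a : R3) (A : R3 ≃L[ℝ] R3) (S : Set R3) :
    volume (aff a A ⁻¹' S) = fac A * volume S := by
  have := lint_aff a A S (fun _ => 1)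
  simpa using this

theorem aesm_aff (a : R3) (A : R3 ≃L[ℝ] R3) {S : Set R3} {F : R3 → R3}
    (hF : AEStronglyMeasurable F (volume.restrict S)) :
    AEStronglyMeasurable (fun u => F (aff a A u)) (volume.restrict (aff a A ⁻¹' S)) := by
  have hme := (aff a A).measurableEmbedding
  have h1 : Measure.map (aff a A) (volume.restrict (aff a A ⁻¹' S)) = fac A • volume.restrict S := by
    rw [← hme.restrict_map, map_aff, Measure.restrict_smul]
  have h2 : AEStronglyMeasurable F (Measure.map (aff a A) (volume.restrict (aff a A ⁻¹' S))) := by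
    rw [h1]
    exact hF.smul_measure _
  exact h2.comp_measurable hme.measurable

theorem homeo_conj {Om La : Set R3} {f : R3 → R3} (φ ψ : R3 ≃ₜ R3) (h : IsHomeomorphOn f Om La) :
    IsHomeomorphOn (fun u => ψ.symm (f (φ u))) (φ ⁻¹' Om) (ψ ⁻¹' La) := by
  obtain ⟨fi, f1, f2, f3, f4, f5, f6⟩ := h
  refine ⟨fun w => φ.symm (fi (ψ w)), ?_, ?_, ?_, ?_, ?_, ?_⟩
  · intro u hu
    simp only [mem_preimage, Homeomorph.apply_symm_apply]
    exact f1 hu
  · intro w hw
    simp only [mem_preimage, Homeomorph.apply_symm_apply]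
    exact f2 hw
  · intro u hu
    simp only [Homeomorph.apply_symm_apply]
    rw [f3 _ hu, Homeomorph.symm_apply_apply]
  · intro w hw
    simp only [Homeomorph.apply_symm_apply]
    rw [f4 _ hw, Homeomorph.symm_apply_apply]
  · exact ψ.symm.continuous.comp_continuousOn (f5.comp φ.continuous.continuousOn fun u hu => hu)
  · exact φ.symm.continuous.comp_continuousOn (f6.comp ψ.continuous.continuousOn fun u hu => hu)

theorem adjoint_simL (V : R3 ≃ₗᵢ[ℝ] R3) (r : ℝ) (hr : r ≠ 0) (v : R3) :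
    ContinuousLinearMap.adjoint (simL V r hr : R3 →L[ℝ] R3) v = r • V.symm v := by
  apply ext_inner_right ℝ
  intro w
  rw [ContinuousLinearMap.adjoint_inner_left]
  change inner ℝ v (r • V w) = inner ℝ (r • V.symm v) w
  rw [inner_smul_left, inner_smul_right]
  congr 1
  rw [← V.inner_map_map (V.symm v) w, V.apply_symm_apply]

/-- **transport of Sobolev homeomorphisms** by `u ↦ x + r V u` in the domain and `w ↦ r R w` in
the target. -/
theorem SH_conj {p : ℝ} (hp : 1 ≤ p) {Om La : Set R3} {f : R3 → R3} {G : Fin 3 → R3 → R3}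
    (hO : IsOpen Om) (H : SH p Om La f G) (V R : R3 ≃ₗᵢ[ℝ] R3) (x : R3) {r : ℝ} (hr : r ≠ 0) :
    SH p (aff x (simL V r hr) ⁻¹' Om) (simL R r hr ⁻¹' La)
      (fun u => (simL R r hr).symm (f (aff x (simL V r hr) u)))
      (fun j u => cj V R (fun k => G k (aff x (simL V r hr) u)) j) := by
  have hp0 : 0 < p := by linarith
  set φ := aff x (simL V r hr) with hφ
  have hO' : IsOpen (φ ⁻¹' Om) := hO.preimage φ.continuous
  have hh : IsHomeomorphOn (fun u => (simL R r hr).symm (f (φ u))) (φ ⁻¹' Om)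
      (simL R r hr ⁻¹' La) := homeo_conj φ (simL R r hr).toHomeomorph H.homeo
  refine ⟨hh, ?_, ?_, ?_⟩
  · apply memLp_of_lintegral hp
    · obtain ⟨fi, f1, f2, f3, f4, f5, f6⟩ := hh
      exact f5.aestronglyMeasurable hO'.measurableSet
    · have h1 : ∀ u, ‖(simL R r hr).symm (f (φ u))‖ₑ ^ p = ‖r⁻¹‖ₑ ^ p * ‖f (φ u)‖ₑ ^ p := by
        intro u
        rw [simL_symm_apply, enorm_smul, LinearIsometryEquiv.enorm_map,
          ENNReal.mul_rpow_of_nonneg _ _ hp0.le]
      simp only [h1]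
      rw [lintegral_const_mul' _ _ (ENNReal.rpow_ne_top_of_nonneg hp0.le (by simp)),
        lint_aff x (simL V r hr) Om (fun y => ‖f y‖ₑ ^ p)]
      exact ENNReal.mul_ne_top (ENNReal.rpow_ne_top_of_nonneg hp0.le (by simp))
        (ENNReal.mul_ne_top (fac_ne_top _) (lintegral_of_memLp hp H.mem))
  · intro j
    have h1 := grad_similarity hO H.wg x 0 (simL V r hr) ((simL R r hr).symm : R3 →L[ℝ] R3) j
    convert h1 using 1
    · funext u
      simp [hφ]
    · funext u
      simp only [cj]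
      apply Finset.sum_congr rfl
      intro k _
      rw [adjoint_simL]
      change _ = (r⁻¹ • R.symm (EuclideanSpace.single k 1)) j • _
      simp [smul_smul, hφ]
      field_simp
  · intro j
    have hm : ∀ k, AEStronglyMeasurable (fun u => G k (φ u)) (volume.restrict (φ ⁻¹' Om)) :=
      fun k => aesm_aff x (simL V r hr) (H.memG k).1
    apply memLp_of_lintegral hp
    · unfold cj
      apply Finset.aestronglyMeasurable_fun_sum
      intro k _
      exact (V.symm.continuous.comp_aestronglyMeasurable (hm k)).const_smul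
        (R.symm (EuclideanSpace.single k (1:ℝ)) j)
    · have h1 : ∀ u, ‖cj V R (fun k => G k (φ u)) j‖ₑ ^ p ≤ cp p * ∑ k, ‖G k (φ u)‖ₑ ^ p := by
        intro u
        refine le_trans ?_ (sum_cj_le V R (fun k => G k (φ u)) hp)
        exact Finset.single_le_sum (f := fun j => ‖cj V R (fun k => G k (φ u)) j‖ₑ ^ p)
          (fun _ _ => zero_le) (Finset.mem_univ j)
      refine ne_top_of_le_ne_top ?_ (lintegral_mono h1)
      rw [lintegral_const_mul' _ _ (cp_ne_top hp),
        lint_aff x (simL V r hr) Om (fun y => ∑ k, ‖G k y‖ₑ ^ p),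
        lintegral_finsetSum' _ fun j _ => ((H.memG j).1.aemeasurable.enorm).pow_const _]
      exact ENNReal.mul_ne_top (cp_ne_top hp) (ENNReal.mul_ne_top (fac_ne_top _)
        (ENNReal.sum_ne_top.2 fun k _ => lintegral_of_memLp hp (H.memG k)))

end

end Crest.Agent.R096.Sk4_663
end

-- ▼ part R096/Sk4f_663
section

/-!
Row 96 (S0127), helper663.  Transport back from the unit cube to a rotated cube, and the
replacement of a Sobolev homeomorphism in one cube, from `NO0`.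
-/

set_option autoImplicit false
set_option linter.unusedSectionVars false
set_option linter.style.longLine false

open MeasureTheory Set Filter Topology Metric
open scoped ENNReal Gradient NNReal
open Crest.AnalysisR.VecCalc3 Crest.AnalysisR.Sobolev
open Crest.Agent.R096.Str_696 (LocPL)
open Crest.Agent.R096.Sk_962 (SH Gr Q0 Qc0 Kc Ko dg PLA)
open Crest.Agent.R96.Lu_538 (Gmat Gmat_apply gmatL gmatL_apply)
open Crest.Agent.R96.Sob8_199 (aff aff_apply aff_symm_apply fac fac_ne_zero fac_ne_top map_aff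
  grad_similarity)
open Crest.Agent.R096.DetN_663 (Gmat_Gr ae_Gmat_det)

namespace Crest.Agent.R096.Sk4_663

noncomputable section

/-! ### the cubes -/

theorem isOpen_Q0 : IsOpen Q0 := by
  have : Q0 = ⋂ i : Fin 3, {x : R3 | |x i| < 1} := by
    ext x; simp [Q0]
  rw [this]
  apply isOpen_iInter_of_finite
  intro i
  exact isOpen_lt ((EuclideanSpace.proj (𝕜 := ℝ) i).continuous.abs) continuous_const

theorem Q0_subset : Q0 ⊆ Qc0 := fun _ hx i => (hx i).le

theorem Ko_eq (V : R3 ≃ₗᵢ[ℝ] R3) (x : R3) {r : ℝ} (hr : r ≠ 0) :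
    Ko V x r = (aff x (simL V r hr)).symm ⁻¹' Q0 := by
  ext y
  constructor
  · rintro ⟨u, hu, rfl⟩
    have : (aff x (simL V r hr)).symm (x + r • V u) = u := by
      rw [Homeomorph.symm_apply_eq]; rfl
    rw [mem_preimage, this]
    exact hu
  · intro hy
    refine ⟨(aff x (simL V r hr)).symm y, hy, ?_⟩
    exact ((aff x (simL V r hr)).apply_symm_apply y).symm

theorem preimage_Ko (V : R3 ≃ₗᵢ[ℝ] R3) (x : R3) {r : ℝ} (hr : r ≠ 0) :
    aff x (simL V r hr) ⁻¹' Ko V x r = Q0 := by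
  rw [Ko_eq V x hr, ← preimage_comp]
  simp

theorem preimage_Kc (V : R3 ≃ₗᵢ[ℝ] R3) (x : R3) {r : ℝ} (hr : r ≠ 0) :
    aff x (simL V r hr) ⁻¹' Kc V x r = Qc0 := by
  ext u
  constructor
  · rintro ⟨v, hv, h⟩
    have h1 : aff x (simL V r hr) u = aff x (simL V r hr) v := h
    rw [(aff x (simL V r hr)).injective h1]
    exact hv
  · intro hu
    exact ⟨u, hu, rfl⟩

theorem isOpen_Ko (V : R3 ≃ₗᵢ[ℝ] R3) (x : R3) {r : ℝ} (hr : r ≠ 0) : IsOpen (Ko V x r) := by
  rw [Ko_eq V x hr]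
  exact isOpen_Q0.preimage (aff x (simL V r hr)).symm.continuous

theorem Ko_subset_Kc (V : R3 ≃ₗᵢ[ℝ] R3) (x : R3) (r : ℝ) : Ko V x r ⊆ Kc V x r := by
  rintro y ⟨u, hu, rfl⟩
  exact ⟨u, Q0_subset hu, rfl⟩

theorem isCompact_Kc' (V : R3 ≃ₗᵢ[ℝ] R3) (x : R3) (r : ℝ) : IsCompact (Kc V x r) :=
  Crest.Agent.R096.Cub_298.isCompact_Kc V x r

theorem closure_Q0 : closure Q0 = Qc0 := by
  apply Subset.antisymm
  · apply closure_minimal Q0_subset
    have : Qc0 = ⋂ i : Fin 3, {x : R3 | |x i| ≤ 1} := by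
      ext x; simp [Qc0]
    rw [this]
    apply isClosed_iInter
    intro i
    exact isClosed_le ((EuclideanSpace.proj (𝕜 := ℝ) i).continuous.abs) continuous_const
  · intro x hx
    have h1 : Tendsto (fun t : ℝ => t • x) (𝓝[<] 1) (𝓝 ((1:ℝ) • x)) :=
      ((continuous_id.smul continuous_const).tendsto 1).mono_left nhdsWithin_le_nhds
    rw [one_smul] at h1
    refine mem_closure_of_tendsto h1 ?_
    have h2 : ∀ᶠ t in 𝓝[<] (1:ℝ), t ∈ Ioo (0:ℝ) 1 := Ioo_mem_nhdsLT (by norm_num)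
    filter_upwards [h2] with t ht i
    have h3 := hx i
    have h4 : (t • x) i = t * x i := rfl
    rw [h4, abs_mul, abs_of_pos ht.1]
    have := abs_nonneg (x i)
    nlinarith [ht.2, ht.1]

theorem closure_Ko (V : R3 ≃ₗᵢ[ℝ] R3) (x : R3) {r : ℝ} (hr : r ≠ 0) :
    closure (Ko V x r) = Kc V x r := by
  rw [Ko_eq V x hr, ← Homeomorph.preimage_closure, closure_Q0, ← preimage_Kc V x hr,
    ← preimage_comp]
  simp

/-! ### transport back -/

theorem dist_aff_symm (V : R3 ≃ₗᵢ[ℝ] R3) (x : R3) {r : ℝ} (hr : 0 < r) (y z : R3) :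
    dist ((aff x (simL V r hr.ne')).symm y) ((aff x (simL V r hr.ne')).symm z) =
      r⁻¹ * dist y z := by
  rw [aff_symm_apply, aff_symm_apply, simL_symm_apply, simL_symm_apply, dist_smul₀,
    LinearIsometryEquiv.dist_map, dist_add_left, Real.norm_of_nonneg (by positivity)]

theorem LocPL_back {h : R3 → R3} {Ω : Set R3} (H : LocPL h Ω) (V R : R3 ≃ₗᵢ[ℝ] R3) (x : R3)
    {r : ℝ} (hr : 0 < r) :
    LocPL (fun y => simL R r hr.ne' (h ((aff x (simL V r hr.ne')).symm y)))
      ((aff x (simL V r hr.ne')).symm ⁻¹' Ω) := by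
  classical
  intro y hy
  obtain ⟨ρ, hρ, S, hc, hS⟩ := H _ hy
  have hmaps : MapsTo (aff x (simL V r hr.ne')).symm (ball y (r * ρ))
      (ball ((aff x (simL V r hr.ne')).symm y) ρ) := by
    intro z hz
    rw [mem_ball] at hz ⊢
    rw [dist_aff_symm V x hr]
    rw [inv_mul_lt_iff₀ hr]
    exact hz
  let α : R3 →ᵃ[ℝ] R3 :=
    { toFun := fun z => (simL V r hr.ne').symm (-x + z)
      linear := ((simL V r hr.ne').symm : R3 →L[ℝ] R3)
      map_vadd' := by
        intro z v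
        simp only [vadd_eq_add, ContinuousLinearMap.coe_coe, ContinuousLinearEquiv.coe_coe]
        rw [← map_add]
        congr 1
        abel }
  let β : R3 →ᵃ[ℝ] R3 := ((simL R r hr.ne' : R3 →L[ℝ] R3) : R3 →ₗ[ℝ] R3).toAffineMap
  refine ⟨r * ρ, by positivity, S.image (fun g => β.comp (g.comp α)), ?_, ?_⟩
  · exact (simL R r hr.ne').continuous.comp_continuousOn
      (hc.comp (aff x (simL V r hr.ne')).symm.continuous.continuousOn hmaps)
  · intro z hz
    obtain ⟨g, hg, hgz⟩ := hS _ (hmaps hz)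
    refine ⟨β.comp (g.comp α), Finset.mem_image_of_mem _ hg, ?_⟩
    simp only [hgz]
    rfl

theorem Gr_back {h : R3 → R3} (V R : R3 ≃ₗᵢ[ℝ] R3) (x : R3) {r : ℝ} (hr : 0 < r) {u : R3}
    (hd : DifferentiableAt ℝ h u) (j : Fin 3) :
    Gr (fun y => simL R r hr.ne' (h ((aff x (simL V r hr.ne')).symm y))) j
      (aff x (simL V r hr.ne') u) = cj V.symm R.symm (fun k => Gr h k u) j := by
  set φ := aff x (simL V r hr.ne') with hφ
  have h1 : HasFDerivAt (fun y => φ.symm y) ((simL V r hr.ne').symm : R3 →L[ℝ] R3) (φ u) := by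
    have h2 : HasFDerivAt (fun y : R3 => -x + y) (ContinuousLinearMap.id ℝ R3) (φ u) :=
      (hasFDerivAt_id _).const_add (-x)
    have h3 := ((simL V r hr.ne').symm : R3 →L[ℝ] R3).hasFDerivAt (x := -x + φ u)
    have h4 := h3.comp (φ u) h2
    rw [ContinuousLinearMap.comp_id] at h4
    exact h4
  have h5 : HasFDerivAt h (fderiv ℝ h u) (φ.symm (φ u)) := by
    rw [Homeomorph.symm_apply_apply]; exact hd.hasFDerivAt
  have h6 := (simL R r hr.ne' : R3 →L[ℝ] R3).hasFDerivAt.comp (φ u) (h5.comp (φ u) h1)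
  have h7 : HasFDerivAt (fun y => simL R r hr.ne' (h (φ.symm y)))
      ((simL R r hr.ne' : R3 →L[ℝ] R3).comp
        ((fderiv ℝ h u).comp ((simL V r hr.ne').symm : R3 →L[ℝ] R3))) (φ u) := h6
  have h8 := Gmat_Gr h7.differentiableAt
  have h9 := Gmat_Gr hd
  have key : (fun j => Gr (fun y => simL R r hr.ne' (h (φ.symm y))) j (φ u)) =
      cj V.symm R.symm (fun k => Gr h k u) := by
    apply gmatL_injective
    ext1 w
    rw [gmatL_cj]
    change Gmat (Gr fun y => simL R r hr.ne' (h (φ.symm y))) (φ u) w =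
      R.symm.symm (Gmat (Gr h) u (V.symm w))
    rw [h8, h9, h7.fderiv]
    simp only [ContinuousLinearMap.comp_apply, ContinuousLinearEquiv.coe_coe, simL_apply,
      simL_symm_apply, map_smul, smul_smul, LinearIsometryEquiv.symm_symm]
    rw [inv_mul_cancel₀ hr.ne', one_smul]
  exact congrFun key j

theorem exists_small {c b : ℝ≥0∞} (hc : c ≠ ∞) (hb : 0 < b) :
    ∃ t : ℝ, 0 < t ∧ c * ENNReal.ofReal t ≤ b := by
  set b' := min b 1 with hb'
  have hb0 : 0 < b' := lt_min hb (by simp)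
  have hbT : b' ≠ ∞ := ne_top_of_le_ne_top (by simp) (min_le_right b 1)
  have hc1 : c + 1 ≠ ∞ := by simp [hc]
  have hc0 : c + 1 ≠ 0 := by simp
  have h1 : b' / (c + 1) ≠ ∞ := ENNReal.div_ne_top hbT hc0
  have h2 : 0 < b' / (c + 1) := ENNReal.div_pos hb0.ne' hc1
  refine ⟨(b' / (c + 1)).toReal, ENNReal.toReal_pos h2.ne' h1, ?_⟩
  rw [ENNReal.ofReal_toReal h1]
  calc c * (b' / (c + 1)) ≤ (c + 1) * (b' / (c + 1)) := by gcongr; exact le_self_add
    _ = b' := ENNReal.mul_div_cancel hc0 hc1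
    _ ≤ b := min_le_left _ _

/-! ### one cube -/

theorem vol_Qc0_pos : 0 < volume Qc0 := by
  refine lt_of_lt_of_le ?_ (measure_mono Q0_subset)
  exact isOpen_Q0.measure_pos volume ⟨0, fun i => by simp⟩

theorem isCompact_Qc0 : IsCompact Qc0 := by
  have h := isCompact_Kc' (LinearIsometryEquiv.refl ℝ R3) 0 1
  have h2 := preimage_Kc (LinearIsometryEquiv.refl ℝ R3) 0 (r := 1) one_ne_zero
  have h3 : Qc0 = Kc (LinearIsometryEquiv.refl ℝ R3) 0 1 := by
    rw [← h2]
    ext u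
    have : aff (0:R3) (simL (LinearIsometryEquiv.refl ℝ R3) 1 one_ne_zero) u = u := by
      rw [aff_apply, simL_apply]
      simp
    rw [mem_preimage, this]
  rw [h3]
  exact h

theorem vol_Qc0_ne_top : volume Qc0 ≠ ∞ := isCompact_Qc0.measure_lt_top.ne

theorem isBounded_preimage {Om : Set R3} (hb : Bornology.IsBounded Om) (φ : R3 ≃ₜ R3) :
    Bornology.IsBounded (φ ⁻¹' Om) := by
  have h1 : IsCompact (closure Om) := hb.isCompact_closure
  have h2 : IsCompact (φ.symm '' closure Om) := h1.image φ.symm.continuous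
  refine h2.isBounded.subset ?_
  rintro u hu
  exact ⟨φ u, subset_closure hu, φ.symm_apply_apply u⟩

theorem isConnected_preimage {Om : Set R3} (hc : IsConnected Om) (φ : R3 ≃ₜ R3) :
    IsConnected (φ ⁻¹' Om) := by
  have h1 := hc.image φ.symm φ.symm.continuous.continuousOn
  have h2 : φ.symm '' Om = φ ⁻¹' Om := φ.symm.image_eq_preimage_symm Om
  rwa [h2] at h1

theorem det_conj {V R : R3 ≃ₗᵢ[ℝ] R3} {M M' : R3 →L[ℝ] R3} (h : ∀ w, M' w = R.symm (M (V w)))
    (h0 : M.det = 0) : M'.det = 0 := by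
  have h1 : (M' : R3 →ₗ[ℝ] R3) = (R.symm.toLinearEquiv : R3 →ₗ[ℝ] R3) ∘ₗ
      ((M : R3 →ₗ[ℝ] R3) ∘ₗ (V.toLinearEquiv : R3 →ₗ[ℝ] R3)) := by
    ext1 w
    exact h w
  change LinearMap.det (M' : R3 →ₗ[ℝ] R3) = 0
  have h2 : LinearMap.det (M : R3 →ₗ[ℝ] R3) = 0 := h0
  rw [h1, LinearMap.det_comp, LinearMap.det_comp, h2, zero_mul, mul_zero]

/-- **replacement in one cube** from `NO0`. -/
theorem cube_repl {p : ℝ} (hp : 1 ≤ p) (hN : NO0 p) (a : Fin 3 → R3) (ha : (gmatL a).det = 0)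
    {e : ℝ} (he : 0 < e) : ∃ (V : R3 ≃ₗᵢ[ℝ] R3) (d : ℝ), 0 < d ∧
      ∀ (Om La : Set R3) (f : R3 → R3) (G : Fin 3 → R3 → R3),
        IsOpen Om → Bornology.IsBounded Om → IsConnected Om →
        IsOpen La → Bornology.IsBounded La → IsConnected La → SH p Om La f G →
        ∀ (x : R3) (r : ℝ), 0 < r → Kc V x r ⊆ Om →
          ∫⁻ y in Kc V x r, ∑ j, ‖G j y - a j‖ₑ ^ p ≤ ENNReal.ofReal d * volume (Kc V x r) →
          volume (Kc V x r \ Zd G) ≤ ENNReal.ofReal d * volume (Kc V x r) →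
          ∃ g : R3 → R3, IsHomeomorphOn g (Ko V x r) (f '' Ko V x r) ∧ LocPL g (Ko V x r) ∧
            (∀ z ∈ frontier (Ko V x r),
              Tendsto (fun y => g y - f y) (𝓝[Ko V x r] z) (𝓝 0)) ∧
            ∫⁻ y in Ko V x r, ∑ j, ‖Gr g j y - a j‖ₑ ^ p ≤
              ENNReal.ofReal e * volume (Kc V x r) := by
  have hp0 : 0 < p := by linarith
  obtain ⟨V, R, s, hs0, hs2, hs⟩ := svd0 (gmatL a) ha
  have hcja : cj V R a = dg s := by
    apply gmatL_injective
    ext1 w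
    rw [gmatL_cj]
    have h1 : w = ∑ i, w i • EuclideanSpace.single i (1:ℝ) := by
      ext k; simp [Pi.single_apply]
    have h2 : ∀ i, R.symm (gmatL a (V (EuclideanSpace.single i 1))) =
        gmatL (dg s) (EuclideanSpace.single i 1) := by
      intro i
      rw [hs i, map_smul, LinearIsometryEquiv.symm_apply_apply]
      ext k
      rw [gmatL_apply]
      rcases eq_or_ne i k with h | h
      · subst h
        simp [dg, EuclideanSpace.inner_single_left]
      · simp [dg, EuclideanSpace.inner_single_left, h.symm]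
    conv_lhs => rw [h1]
    conv_rhs => rw [h1]
    simp only [map_sum, map_smul, h2]
  have hcjs : cj V.symm R.symm (dg s) = a := by
    apply gmatL_injective
    ext1 w
    rw [gmatL_cj, ← hcja, gmatL_cj]
    simp
  obtain ⟨e', he', hee⟩ := exists_small (c := cp p) (b := ENNReal.ofReal e * volume Qc0)
    (cp_ne_top hp) (ENNReal.mul_pos (by simpa using he) vol_Qc0_pos.ne')
  obtain ⟨d', hd', hd''⟩ := hN s hs0 hs2 e' he'
  obtain ⟨d, hd, hdd⟩ := exists_small (c := (cp p + 1) * volume Qc0) (b := ENNReal.ofReal d')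
    (ENNReal.mul_ne_top (by simp [cp_ne_top hp]) vol_Qc0_ne_top) (by simpa using hd')
  refine ⟨V, d, hd, ?_⟩
  intro Om La f G hO hOb hOc hL hLb hLc H x r hr hK hE hZ
  have hr0 : r ≠ 0 := hr.ne'
  set φ := aff x (simL V r hr0) with hφ
  set ψ := (simL R r hr0).toHomeomorph with hψ
  set f' : R3 → R3 := fun u => (simL R r hr0).symm (f (φ u)) with hf'
  set G' : Fin 3 → R3 → R3 := fun j u => cj V R (fun k => G k (φ u)) j with hG'
  have hSH : SH p (φ ⁻¹' Om) (ψ ⁻¹' La) f' G' := SH_conj hp hO H V R x hr0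
  have hfac : fac (simL V r hr0) * volume (Kc V x r) = volume Qc0 := by
    rw [← vol_aff x, preimage_Kc]
  have hQU : Qc0 ⊆ φ ⁻¹' Om := by
    rw [← preimage_Kc V x hr0]
    exact preimage_mono hK
  -- energy
  have hen : ∫⁻ u in Q0, ∑ j, ‖G' j u - dg s j‖ₑ ^ p ≤ ENNReal.ofReal d' := by
    have h1 : ∀ u, ∑ j, ‖G' j u - dg s j‖ₑ ^ p ≤ cp p * ∑ k, ‖G k (φ u) - a k‖ₑ ^ p := by
      intro u
      have h2 : ∀ j, G' j u - dg s j = cj V R (fun k => G k (φ u) - a k) j := by
        intro j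
        rw [← hcja, hG']
        exact cj_sub V R _ _ j
      simp only [h2]
      exact sum_cj_le V R _ hp
    calc ∫⁻ u in Q0, ∑ j, ‖G' j u - dg s j‖ₑ ^ p
        ≤ ∫⁻ u in Qc0, cp p * ∑ k, ‖G k (φ u) - a k‖ₑ ^ p :=
          (lintegral_mono_set Q0_subset).trans (lintegral_mono h1)
      _ = cp p * (fac (simL V r hr0) * ∫⁻ y in Kc V x r, ∑ k, ‖G k y - a k‖ₑ ^ p) := by
          rw [lintegral_const_mul' _ _ (cp_ne_top hp), ← preimage_Kc V x hr0,
            lint_aff x (simL V r hr0) (Kc V x r) (fun y => ∑ k, ‖G k y - a k‖ₑ ^ p)]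
      _ ≤ cp p * (fac (simL V r hr0) * (ENNReal.ofReal d * volume (Kc V x r))) := by gcongr
      _ = cp p * volume Qc0 * ENNReal.ofReal d := by rw [← hfac]; ring
      _ ≤ (cp p + 1) * volume Qc0 * ENNReal.ofReal d := by gcongr; exact le_self_add
      _ ≤ ENNReal.ofReal d' := hdd
  have hvol : volume (Q0 \ Zd G') ≤ ENNReal.ofReal d' := by
    have h1 : Q0 \ Zd G' ⊆ φ ⁻¹' (Kc V x r \ Zd G) := by
      rintro u ⟨hu1, hu2⟩
      refine ⟨?_, ?_⟩
      · have : u ∈ φ ⁻¹' Kc V x r := by rw [hφ, preimage_Kc V x hr0]; exact Q0_subset hu1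
        exact this
      · intro hu3
        apply hu2
        exact det_conj (V := V) (R := R) (fun w => gmatL_cj V R (fun k => G k (φ u)) w) hu3
    calc volume (Q0 \ Zd G') ≤ volume (φ ⁻¹' (Kc V x r \ Zd G)) := measure_mono h1
      _ = fac (simL V r hr0) * volume (Kc V x r \ Zd G) := vol_aff _ _ _
      _ ≤ fac (simL V r hr0) * (ENNReal.ofReal d * volume (Kc V x r)) := by gcongr
      _ = 1 * volume Qc0 * ENNReal.ofReal d := by rw [← hfac]; ring
      _ ≤ (cp p + 1) * volume Qc0 * ENNReal.ofReal d := by gcongr; exact le_add_self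
      _ ≤ ENNReal.ofReal d' := hdd
  obtain ⟨g', hg1, hg2, hg3, hg4⟩ := hd'' (φ ⁻¹' Om) (ψ ⁻¹' La) f' G'
    (hO.preimage φ.continuous) (isBounded_preimage hOb φ) (isConnected_preimage hOc φ)
    (hL.preimage ψ.continuous) (isBounded_preimage hLb ψ) (isConnected_preimage hLc ψ) hQU hSH
    hen hvol
  set g : R3 → R3 := fun y => simL R r hr0 (g' (φ.symm y)) with hg
  have hKo : Ko V x r = φ.symm ⁻¹' Q0 := Ko_eq V x hr0
  have himg : ψ.symm ⁻¹' (f' '' Q0) = f '' Ko V x r := by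
    ext w
    constructor
    · rintro ⟨u, hu, hw⟩
      refine ⟨φ u, ?_, ?_⟩
      · rw [hKo, mem_preimage, Homeomorph.symm_apply_apply]; exact hu
      · have h1 : (simL R r hr0).symm (f (φ u)) = (simL R r hr0).symm w := hw
        exact (simL R r hr0).symm.injective h1
    · rintro ⟨y, hy, rfl⟩
      rw [hKo] at hy
      refine ⟨φ.symm y, hy, ?_⟩
      change (simL R r hr0).symm (f (φ (φ.symm y))) = (simL R r hr0).symm (f y)
      rw [Homeomorph.apply_symm_apply]
  refine ⟨g, ?_, ?_, ?_, ?_⟩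
  · have h1 := homeo_conj φ.symm ψ.symm hg1
    rw [himg, ← hKo] at h1
    exact h1
  · rw [hKo]
    exact LocPL_back hg2 V R x hr
  · intro z hz
    have hz' : φ.symm z ∈ frontier Q0 := by
      rw [hKo, ← Homeomorph.preimage_frontier] at hz
      exact hz
    have h1 := hg3 _ hz'
    have h2 : Tendsto φ.symm (𝓝[Ko V x r] z) (𝓝[Q0] (φ.symm z)) := by
      apply tendsto_nhdsWithin_iff.2
      refine ⟨φ.symm.continuous.continuousAt.mono_left nhdsWithin_le_nhds, ?_⟩
      rw [hKo]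
      exact self_mem_nhdsWithin
    have h3 := h1.comp h2
    have h4 : Tendsto (fun y => simL R r hr0 (g' (φ.symm y) - f' (φ.symm y)))
        (𝓝[Ko V x r] z) (𝓝 (simL R r hr0 0)) :=
      ((simL R r hr0).continuous.tendsto 0).comp h3
    rw [map_zero] at h4
    refine h4.congr fun y => ?_
    rw [map_sub]
    congr 1
    simp only [hf', ContinuousLinearEquiv.apply_symm_apply, Homeomorph.apply_symm_apply]
  · -- energy
    have hdiff : ∀ᵐ u ∂(volume.restrict Q0), DifferentiableAt ℝ g' u := by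
      obtain ⟨gi, q1, q2, q3, q4, q5, q6⟩ := hg1
      have hinj : InjOn g' Q0 := fun u hu v hv huv => by
        rw [← q3 u hu, ← q3 v hv, huv]
      filter_upwards [ae_Gmat_det isOpen_Q0 hg2 hinj] with u hu using hu.1
    have h1 : ∫⁻ u in Q0, ∑ j, ‖Gr g j (φ u) - a j‖ₑ ^ p ≤
        ∫⁻ u in Q0, cp p * ∑ j, ‖Gr g' j u - dg s j‖ₑ ^ p := by
      apply lintegral_mono_ae
      filter_upwards [hdiff] with u hu
      have h2 : ∀ j, Gr g j (φ u) - a j =
          cj V.symm R.symm (fun k => Gr g' k u - dg s k) j := by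
        intro j
        have h3 : Gr g j (φ u) = cj V.symm R.symm (fun k => Gr g' k u) j := Gr_back V R x hr hu j
        rw [h3, ← cj_sub, hcjs]
      simp only [h2]
      exact sum_cj_le _ _ _ hp
    have h2 : fac (simL V r hr0) * ∫⁻ y in Ko V x r, ∑ j, ‖Gr g j y - a j‖ₑ ^ p ≤
        fac (simL V r hr0) * (ENNReal.ofReal e * volume (Kc V x r)) := by
      rw [← lint_aff x (simL V r hr0) (Ko V x r) (fun y => ∑ j, ‖Gr g j y - a j‖ₑ ^ p),
        preimage_Ko V x hr0]
      calc _ ≤ ∫⁻ u in Q0, cp p * ∑ j, ‖Gr g' j u - dg s j‖ₑ ^ p := h1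
        _ = cp p * ∫⁻ u in Q0, ∑ j, ‖Gr g' j u - dg s j‖ₑ ^ p :=
            lintegral_const_mul' _ _ (cp_ne_top hp)
        _ ≤ cp p * ENNReal.ofReal e' := by gcongr
        _ ≤ ENNReal.ofReal e * volume Qc0 := hee
        _ = _ := by rw [← hfac]; ring
    exact (ENNReal.mul_le_mul_iff_right (fac_ne_zero _) (fac_ne_top _)).1 h2

end

end Crest.Agent.R096.Sk4_663
end

-- ▼ part R096/Sk4g_663

/-!
Row 96 (S0127), helper663.  **Assembly**: `BFs p → NO0 p → PLA p`.
-/

set_option autoImplicit false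
set_option linter.unusedSectionVars false
set_option linter.style.longLine false

open MeasureTheory Set Filter Topology Metric
open scoped ENNReal Gradient NNReal
open Crest.AnalysisR.VecCalc3 Crest.AnalysisR.Sobolev
open Crest.Agent.R096.Str_696 (LocPL)
open Crest.Agent.R096.Sk_962 (SH Gr Q0 Qc0 Kc Ko dg PLA)
open Crest.Agent.R96.Lu_538 (Gmat Gmat_apply gmatL gmatL_apply aesm_Gmat)
open Crest.Agent.R096.DetN_663 (Gmat_Gr ae_Gmat_det)
open Crest.Agent.R96.Sob8_199 (aff aff_apply aff_symm_apply fac fac_ne_zero fac_ne_top map_aff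
  grad_similarity)

namespace Crest.Agent.R096.Sk4_663

noncomputable section

theorem convex_Q0 : Convex ℝ Q0 := by
  intro x hx y hy a b ha hb hab i
  have h1 : x i ∈ Ioo (-1:ℝ) 1 := abs_lt.1 (hx i)
  have h2 : y i ∈ Ioo (-1:ℝ) 1 := abs_lt.1 (hy i)
  have h3 := (convex_Ioo (-1:ℝ) 1) h1 h2 ha hb hab
  exact abs_lt.2 h3

theorem vol_bd (V : R3 ≃ₗᵢ[ℝ] R3) (x : R3) {r : ℝ} (hr : r ≠ 0) :
    volume (Kc V x r \ Ko V x r) = 0 := by
  have h1 : volume (Qc0 \ Q0) = 0 := by
    have h2 := convex_Q0.addHaar_frontier volume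
    rwa [frontier, closure_Q0, isOpen_Q0.interior_eq] at h2
  have h2 : fac (simL V r hr) * volume (Kc V x r \ Ko V x r) = 0 := by
    rw [← vol_aff x, preimage_sdiff, preimage_Kc, preimage_Ko, h1]
  exact (mul_eq_zero.1 h2).resolve_left (fac_ne_zero _)

theorem nullMeas_Zd {p : ℝ} {Om : Set R3} (hO : IsOpen Om) {G : Fin 3 → R3 → R3}
    (hG : ∀ j, MemLp (G j) (ENNReal.ofReal p) (volume.restrict Om)) :
    NullMeasurableSet (Om ∩ Zd G) volume := by
  have h1 : AEStronglyMeasurable (Gmat G) (volume.restrict Om) := aesm_Gmat fun j => (hG j).1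
  have h2 : Continuous fun M : R3 →L[ℝ] R3 => M.det := ContinuousLinearMap.continuous_det
  have h3 : AEMeasurable (fun x => (Gmat G x).det) (volume.restrict Om) :=
    (h2.comp_aestronglyMeasurable h1).aemeasurable
  have h4 : NullMeasurableSet ((fun x => (Gmat G x).det) ⁻¹' {0}) (volume.restrict Om) :=
    h3.nullMeasurableSet_preimage (measurableSet_singleton 0)
  rw [nullMeasurableSet_restrict hO.measurableSet.nullMeasurableSet] at h4
  rw [inter_comm]
  exact h4

theorem enorm_sub_rpow_le {p : ℝ} (hp : 1 ≤ p) (a b c : R3) :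
    ‖a - c‖ₑ ^ p ≤ 2 ^ (p - 1) * (‖a - b‖ₑ ^ p + ‖b - c‖ₑ ^ p) := by
  refine le_trans ?_ (ENNReal.rpow_add_le_mul_rpow_add_rpow _ _ hp)
  apply ENNReal.rpow_le_rpow _ (by linarith)
  have : a - c = (a - b) + (b - c) := by abel
  rw [this]
  exact enorm_add_le _ _

theorem sum_sub_rpow_le {p : ℝ} (hp : 1 ≤ p) (a b c : Fin 3 → R3) :
    ∑ j, ‖a j - c j‖ₑ ^ p ≤
      2 ^ (p - 1) * (∑ j, ‖a j - b j‖ₑ ^ p + ∑ j, ‖b j - c j‖ₑ ^ p) := by
  rw [← Finset.sum_add_distrib, Finset.mul_sum]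
  exact Finset.sum_le_sum fun j _ => enorm_sub_rpow_le hp _ _ _

theorem pla_of {p : ℝ} (hp : 1 ≤ p) (hB : BFs p) (hN : NO0 p) : PLA p := by
  classical
  intro Om La f G hO hOb hOc hL hLb hLc H ε hε
  have hp0 : 0 < p := by linarith
  obtain ⟨C, hC⟩ := hB
  have hvO : volume Om ≠ ∞ := hOb.measure_lt_top.ne
  set c : ℝ≥0∞ := 2 ^ (p - 1) with hc
  have hcT : c ≠ ∞ := ENNReal.rpow_ne_top_of_nonneg (by linarith) (by simp)
  have hcf : ContinuousOn f Om := by
    obtain ⟨fi, f1, f2, f3, f4, f5, f6⟩ := H.homeo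
    exact f5
  have hmf : MapsTo f Om La := by
    obtain ⟨fi, f1, f2, f3, f4, f5, f6⟩ := H.homeo
    exact f1
  -- the constants
  obtain ⟨t0, ht0, ht0'⟩ := exists_small (c := 5) (b := ε) (by simp) hε
  set δ : ℝ≥0∞ := ENNReal.ofReal t0 with hδ
  have hδ0 : 0 < δ := by simpa [hδ] using ht0
  obtain ⟨t3, ht3, ht3'⟩ := exists_small (c := volume Om) (b := δ) hvO hδ0
  obtain ⟨t1, ht1, ht1'⟩ := exists_small (c := c) (b := δ) hcT hδ0
  obtain ⟨t2, ht2, ht2'⟩ := exists_small (c := c * C) (b := δ)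
    (ENNReal.mul_ne_top hcT (by simp)) hδ0
  obtain ⟨e, he, he'⟩ := exists_small (c := c * (c * (2 * volume Om))) (b := δ)
    (ENNReal.mul_ne_top hcT (ENNReal.mul_ne_top hcT (ENNReal.mul_ne_top (by simp) hvO))) hδ0
  set η : ℝ := t3 ^ (1 / p) / 3 with hη
  have hη0 : 0 < η := by positivity
  have hη3 : (3 * η) ^ p = t3 := by
    rw [hη, mul_div_cancel₀ _ (by norm_num : (3:ℝ) ≠ 0), ← Real.rpow_mul ht3.le,
      one_div_mul_cancel hp0.ne', Real.rpow_one]
  -- the frames
  have hfr : ∀ x : R3, ∃ (V : R3 ≃ₗᵢ[ℝ] R3) (d : ℝ), 0 < d ∧ d ≤ e ∧ (x ∈ Zd G →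
      ∀ (r : ℝ), 0 < r → Kc V x r ⊆ Om →
        ∫⁻ y in Kc V x r, ∑ j, ‖G j y - G j x‖ₑ ^ p ≤ ENNReal.ofReal d * volume (Kc V x r) →
        volume (Kc V x r \ Zd G) ≤ ENNReal.ofReal d * volume (Kc V x r) →
        ∃ g : R3 → R3, IsHomeomorphOn g (Ko V x r) (f '' Ko V x r) ∧ LocPL g (Ko V x r) ∧
          (∀ z ∈ frontier (Ko V x r),
            Tendsto (fun y => g y - f y) (𝓝[Ko V x r] z) (𝓝 0)) ∧
          ∫⁻ y in Ko V x r, ∑ j, ‖Gr g j y - G j x‖ₑ ^ p ≤
            ENNReal.ofReal e * volume (Kc V x r)) := by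
    intro x
    by_cases hx : x ∈ Zd G
    · obtain ⟨V, d, hd, hV⟩ := cube_repl hp hN (fun j => G j x) hx he
      refine ⟨V, min d e, lt_min hd he, min_le_right _ _, fun _ r hr hK h1 h2 => ?_⟩
      refine hV Om La f G hO hOb hOc hL hLb hLc H x r hr hK (h1.trans ?_) (h2.trans ?_)
      · gcongr; exact min_le_left _ _
      · gcongr; exact min_le_left _ _
    · exact ⟨LinearIsometryEquiv.refl ℝ R3, e, he, le_rfl, fun h => absurd h hx⟩
  choose V d hd hde hV using hfr
  -- the cubes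
  set S : Set R3 := Om ∩ Zd G with hS
  set F : R3 → ℝ≥0∞ := fun x => 1 + ∑ j, ‖G j x‖ₑ ^ p with hF
  have hFfin : ∫⁻ x in Om, F x ≠ ∞ := by
    rw [hF, lintegral_add_left measurable_const,
      lintegral_finsetSum' _ fun j _ => ((H.memG j).1.aemeasurable.enorm).pow_const _]
    refine ENNReal.add_ne_top.2 ⟨?_, ENNReal.sum_ne_top.2 fun j _ => lintegral_of_memLp hp (H.memG j)⟩
    rw [lintegral_one, Measure.restrict_apply_univ]
    exact hvO
  have hSnm : NullMeasurableSet S volume := nullMeas_Zd hO H.memG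
  have hPev : ∀ᵐ x : R3, x ∈ S → ∀ᶠ r in 𝓝[>] (0 : ℝ),
      (∫⁻ y in Kc (V x) x r, ∑ j, ‖G j y - G j x‖ₑ ^ p ≤
        ENNReal.ofReal (d x) * volume (Kc (V x) x r)) ∧
      volume (Kc (V x) x r \ S) ≤ ENNReal.ofReal (d x) * volume (Kc (V x) x r) ∧
      ∀ y ∈ Kc (V x) x r, ‖f y - f x‖ ≤ η := by
    filter_upwards [ev_mean hO hOb hp H.memG V d hd, ev_dens hSnm V d hd] with x h1 h2 hx
    exact (h1 hx.1).and ((h2 hx).and (ev_cont hO hcf V hη0 hx.1))
  obtain ⟨T, hT1, hT2, hT3⟩ := cubesP hO (S := S) inter_subset_left V hPev hFfin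
    (ε := ENNReal.ofReal t2) (by simpa using ht2)
  have hT1' : ∀ a ∈ T, a.1 ∈ S ∧ 0 < a.2 ∧ Kc (V a.1) a.1 a.2 ⊆ Om ∧
      (∫⁻ y in Kc (V a.1) a.1 a.2, ∑ j, ‖G j y - G j a.1‖ₑ ^ p ≤
        ENNReal.ofReal (d a.1) * volume (Kc (V a.1) a.1 a.2)) ∧
      volume (Kc (V a.1) a.1 a.2 \ S) ≤ ENNReal.ofReal (d a.1) * volume (Kc (V a.1) a.1 a.2) ∧
      ∀ y ∈ Kc (V a.1) a.1 a.2, ‖f y - f a.1‖ ≤ η := hT1
  have hT2' : (T : Set (R3 × ℝ)).PairwiseDisjoint (fun a => Kc (V a.1) a.1 a.2) := hT2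
  have hT3' : ∫⁻ y in S \ ⋃ a ∈ T, Kc (V a.1) a.1 a.2, F y < ENNReal.ofReal t2 := hT3
  -- the replacements
  have hex : ∀ a : R3 × ℝ, ∃ g : R3 → R3, a ∈ T →
      (IsHomeomorphOn g (Ko (V a.1) a.1 a.2) (f '' Ko (V a.1) a.1 a.2) ∧
        LocPL g (Ko (V a.1) a.1 a.2) ∧
        (∀ z ∈ frontier (Ko (V a.1) a.1 a.2),
          Tendsto (fun y => g y - f y) (𝓝[Ko (V a.1) a.1 a.2] z) (𝓝 0)) ∧
        ∫⁻ y in Ko (V a.1) a.1 a.2, ∑ j, ‖Gr g j y - G j a.1‖ₑ ^ p ≤
          ENNReal.ofReal e * volume (Kc (V a.1) a.1 a.2)) := by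
    intro a
    by_cases ha : a ∈ T
    · obtain ⟨h1, h2, h3, h4, h5, h6⟩ := hT1' a ha
      obtain ⟨g, hg⟩ := hV a.1 h1.2 a.2 h2 h3 h4 (by
        refine le_trans (measure_mono ?_) h5
        rintro y ⟨hy1, hy2⟩
        exact ⟨hy1, fun h => hy2 h.2⟩)
      exact ⟨g, fun _ => hg⟩
    · exact ⟨f, fun h => absurd h ha⟩
  choose g hg using hex
  have hUc : ∀ a ∈ T, closure (Ko (V a.1) a.1 a.2) = Kc (V a.1) a.1 a.2 := fun a ha =>
    closure_Ko _ _ (hT1' a ha).2.1.ne'
  obtain ⟨f', G', H', h1, h2⟩ := pat_finset hp hO hOb hLb H T (fun a => Ko (V a.1) a.1 a.2) g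
    (fun a ha => isOpen_Ko _ _ (hT1' a ha).2.1.ne')
    (fun a ha => by rw [hUc a ha]; exact isCompact_Kc' _ _ _)
    (fun a ha => by rw [hUc a ha]; exact (hT1' a ha).2.2.1)
    (by
      intro a ha b hb hab
      have ha' : a ∈ T := ha
      have hb' : b ∈ T := hb
      change Disjoint (closure (Ko (V a.1) a.1 a.2)) (closure (Ko (V b.1) b.1 b.2))
      rw [hUc a ha', hUc b hb']
      exact hT2' ha hb hab)
    (fun a ha => (hg a ha).1) (fun a ha => (hg a ha).2.1) (fun a ha => (hg a ha).2.2.1)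
    (by
      intro a ha j
      have hvK : volume (Ko (V a.1) a.1 a.2) ≠ ∞ :=
        ne_top_of_le_ne_top hvO (measure_mono ((Ko_subset_Kc _ _ _).trans (hT1' a ha).2.2.1))
      have hvK2 : volume (Kc (V a.1) a.1 a.2) ≠ ∞ :=
        ne_top_of_le_ne_top hvO (measure_mono (hT1' a ha).2.2.1)
      have h3 : ∀ y, ‖Gr (g a) j y‖ₑ ^ p ≤
          c * (∑ j, ‖Gr (g a) j y - G j a.1‖ₑ ^ p + ‖G j a.1‖ₑ ^ p) := by
        intro y
        have h4 := enorm_sub_rpow_le hp (Gr (g a) j y) (G j a.1) 0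
        rw [sub_zero, sub_zero] at h4
        refine h4.trans ?_
        gcongr
        exact Finset.single_le_sum (f := fun j => ‖Gr (g a) j y - G j a.1‖ₑ ^ p)
          (fun _ _ => zero_le) (Finset.mem_univ j)
      refine ne_top_of_le_ne_top ?_ (lintegral_mono h3)
      rw [lintegral_const_mul' _ _ hcT, lintegral_add_right _ measurable_const, lintegral_const,
        Measure.restrict_apply_univ]
      refine ENNReal.mul_ne_top hcT (ENNReal.add_ne_top.2 ⟨?_, ?_⟩)
      · exact ne_top_of_le_ne_top (ENNReal.mul_ne_top (by simp) hvK2) (hg a ha).2.2.2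
      · exact ENNReal.mul_ne_top (ENNReal.rpow_ne_top_of_nonneg hp0.le (by simp)) hvK)
  -- the second pass
  obtain ⟨h, hh1, hh2, hh3, hh4⟩ := hC Om La f' G' hO hOb hOc hL hLb hLc H' (fun _ => η)
    continuousOn_const (fun _ _ => hη0) (ENNReal.ofReal t1) (by simpa using ht1)
  refine ⟨h, hh1, hh2, ?_⟩
  -- (I) the singular part
  have hI : ∫⁻ x in Om ∩ Zd G', (1 + ∑ j, ‖G' j x‖ₑ ^ p) ≤ ENNReal.ofReal t2 := by
    set N : Set R3 := ⋃ a ∈ T, ({x | x ∈ Ko (V a.1) a.1 a.2 ∧ ¬ (Gmat (Gr (g a)) x).det ≠ 0} ∪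
      (Kc (V a.1) a.1 a.2 \ Ko (V a.1) a.1 a.2)) with hN'
    have hN0 : volume N = 0 := by
      refine (measure_biUnion_null_iff T.countable_toSet).2 fun a ha => ?_
      refine measure_union_null ?_ (vol_bd _ _ (hT1' a ha).2.1.ne')
      obtain ⟨gi, q1, q2, q3, q4, q5, q6⟩ := (hg a ha).1
      have hinj : InjOn (g a) (Ko (V a.1) a.1 a.2) := fun u hu v hv huv => by
        rw [← q3 u hu, ← q3 v hv, huv]
      have hop := isOpen_Ko (V a.1) a.1 (hT1' a ha).2.1.ne'
      have h3 := ae_Gmat_det hop (hg a ha).2.1 hinj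
      rw [ae_restrict_iff' hop.measurableSet] at h3
      refine measure_mono_null ?_ (mem_ae_iff.1 h3)
      rintro x ⟨hx1, hx2⟩ hx3
      exact hx2 (hx3 hx1).2
    have hsub : Om ∩ Zd G' ⊆ (S \ ⋃ a ∈ T, Kc (V a.1) a.1 a.2) ∪ N := by
      rintro x ⟨hx1, hx2⟩
      by_cases hx : ∃ a ∈ T, x ∈ Kc (V a.1) a.1 a.2
      · right
        obtain ⟨a, ha, hxa⟩ := hx
        refine mem_iUnion₂.2 ⟨a, ha, ?_⟩
        by_cases hxo : x ∈ Ko (V a.1) a.1 a.2
        · left
          refine ⟨hxo, not_not.2 ?_⟩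
          have h4 : (fun j => G' j x) = fun j => Gr (g a) j x := funext (h1 a ha x hxo).2
          have h5 : (gmatL fun j => G' j x).det = 0 := hx2
          rw [h4] at h5
          exact h5
        · exact Or.inr ⟨hxa, hxo⟩
      · left
        push Not at hx
        have h4 : (fun j => G' j x) = fun j => G j x :=
          funext (h2 x fun a ha hxa => hx a ha (Ko_subset_Kc _ _ _ hxa)).2
        have h5 : (gmatL fun j => G' j x).det = 0 := hx2
        rw [h4] at h5
        refine ⟨⟨hx1, h5⟩, ?_⟩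
        rw [mem_iUnion₂]
        push Not
        exact hx
    have hM : MeasurableSet (Om \ ⋃ a ∈ T, Kc (V a.1) a.1 a.2) :=
      hO.measurableSet.diff (Finset.measurableSet_biUnion _ fun a _ =>
        (isCompact_Kc' _ _ _).isClosed.measurableSet)
    have hcongr : ∫⁻ x in S \ ⋃ a ∈ T, Kc (V a.1) a.1 a.2, (1 + ∑ j, ‖G' j x‖ₑ ^ p) =
        ∫⁻ x in S \ ⋃ a ∈ T, Kc (V a.1) a.1 a.2, F x := by
      apply lintegral_congr_ae
      refine ae_restrict_of_ae_restrict_of_subset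
        (t := Om \ ⋃ a ∈ T, Kc (V a.1) a.1 a.2) (sdiff_subset_sdiff_left inter_subset_left) ?_
      refine (ae_restrict_iff' hM).2 (Eventually.of_forall fun x hx => ?_)
      have h4 := (h2 x fun a ha hxa => hx.2
        (mem_iUnion₂.2 ⟨a, ha, Ko_subset_Kc _ _ _ hxa⟩)).2
      simp only [hF, h4]
    calc ∫⁻ x in Om ∩ Zd G', (1 + ∑ j, ‖G' j x‖ₑ ^ p)
        ≤ (∫⁻ x in S \ ⋃ a ∈ T, Kc (V a.1) a.1 a.2, (1 + ∑ j, ‖G' j x‖ₑ ^ p)) +
            ∫⁻ x in N, (1 + ∑ j, ‖G' j x‖ₑ ^ p) :=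
          (lintegral_mono_set hsub).trans (lintegral_union_le _ _ _)
      _ = ∫⁻ x in S \ ⋃ a ∈ T, Kc (V a.1) a.1 a.2, F x := by
          rw [setLIntegral_measure_zero _ _ hN0, add_zero, hcongr]
      _ ≤ ENNReal.ofReal t2 := hT3'.le
  -- (II) the difference of the gradients in the cubes
  have hII : ∫⁻ x in Om, ∑ j, ‖G' j x - G j x‖ₑ ^ p ≤
      c * (2 * volume Om) * ENNReal.ofReal e := by
    have hKom : ∀ a ∈ T, MeasurableSet (Ko (V a.1) a.1 a.2) := fun a ha =>
      (isOpen_Ko _ _ (hT1' a ha).2.1.ne').measurableSet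
    have hKod : (T : Set (R3 × ℝ)).PairwiseDisjoint (fun a => Ko (V a.1) a.1 a.2) :=
      fun a ha b hb hab => (hT2' ha hb hab).mono (Ko_subset_Kc _ _ _) (Ko_subset_Kc _ _ _)
    have hUm : MeasurableSet (⋃ a ∈ T, Ko (V a.1) a.1 a.2) :=
      Finset.measurableSet_biUnion _ hKom
    have hsub : Om ⊆ (⋃ a ∈ T, Ko (V a.1) a.1 a.2) ∪ (Om \ ⋃ a ∈ T, Ko (V a.1) a.1 a.2) := by
      intro x hx
      by_cases h : x ∈ ⋃ a ∈ T, Ko (V a.1) a.1 a.2
      · exact Or.inl h
      · exact Or.inr ⟨hx, h⟩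
    have hzero : ∫⁻ x in Om \ ⋃ a ∈ T, Ko (V a.1) a.1 a.2, ∑ j, ‖G' j x - G j x‖ₑ ^ p = 0 := by
      rw [setLIntegral_congr_fun (g := fun _ => 0) (hO.measurableSet.diff hUm), lintegral_zero]
      intro x hx
      have h4 := (h2 x fun a ha hxa => hx.2 (mem_iUnion₂.2 ⟨a, ha, hxa⟩)).2
      simp [h4, ENNReal.zero_rpow_of_pos hp0]
    have hone : ∀ a ∈ T, ∫⁻ x in Ko (V a.1) a.1 a.2, ∑ j, ‖G' j x - G j x‖ₑ ^ p ≤
        c * (2 * ENNReal.ofReal e) * volume (Kc (V a.1) a.1 a.2) := by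
      intro a ha
      have hGm : ∀ j, AEMeasurable (fun x => ‖Gr (g a) j x - G j a.1‖ₑ ^ p)
          (volume.restrict (Ko (V a.1) a.1 a.2)) := fun j =>
        (((measurable_Gr (g a) j).sub_const _).enorm.pow_const _).aemeasurable
      calc ∫⁻ x in Ko (V a.1) a.1 a.2, ∑ j, ‖G' j x - G j x‖ₑ ^ p
          ≤ ∫⁻ x in Ko (V a.1) a.1 a.2, c * (∑ j, ‖Gr (g a) j x - G j a.1‖ₑ ^ p +
              ∑ j, ‖G j x - G j a.1‖ₑ ^ p) := by
            refine setLIntegral_mono_ae' (hKom a ha) (Eventually.of_forall fun x hx => ?_)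
            have h4 := (h1 a ha x hx).2
            have h5 : ∀ j, ‖G j a.1 - G j x‖ₑ = ‖G j x - G j a.1‖ₑ := fun j => enorm_sub_rev _ _
            have h6 := sum_sub_rpow_le hp (fun j => Gr (g a) j x) (fun j => G j a.1)
              (fun j => G j x)
            simp only [h5] at h6
            simp only [h4]
            exact h6
        _ = c * ((∫⁻ x in Ko (V a.1) a.1 a.2, ∑ j, ‖Gr (g a) j x - G j a.1‖ₑ ^ p) +
              ∫⁻ x in Ko (V a.1) a.1 a.2, ∑ j, ‖G j x - G j a.1‖ₑ ^ p) := by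
            rw [lintegral_const_mul' _ _ hcT, lintegral_add_left']
            exact Finset.aemeasurable_fun_sum _ fun j _ => hGm j
        _ ≤ c * (ENNReal.ofReal e * volume (Kc (V a.1) a.1 a.2) +
              ENNReal.ofReal e * volume (Kc (V a.1) a.1 a.2)) := by
            gcongr
            · exact (hg a ha).2.2.2
            · refine (lintegral_mono_set (Ko_subset_Kc _ _ _)).trans
                ((hT1' a ha).2.2.2.1.trans ?_)
              gcongr
              exact hde a.1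
        _ = c * (2 * ENNReal.ofReal e) * volume (Kc (V a.1) a.1 a.2) := by ring
    calc ∫⁻ x in Om, ∑ j, ‖G' j x - G j x‖ₑ ^ p
        ≤ (∫⁻ x in ⋃ a ∈ T, Ko (V a.1) a.1 a.2, ∑ j, ‖G' j x - G j x‖ₑ ^ p) +
            ∫⁻ x in Om \ ⋃ a ∈ T, Ko (V a.1) a.1 a.2, ∑ j, ‖G' j x - G j x‖ₑ ^ p :=
          (lintegral_mono_set hsub).trans (lintegral_union_le _ _ _)
      _ = ∑ a ∈ T, ∫⁻ x in Ko (V a.1) a.1 a.2, ∑ j, ‖G' j x - G j x‖ₑ ^ p := by
          rw [hzero, add_zero, lintegral_biUnion_finset hKod hKom]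
      _ ≤ ∑ a ∈ T, c * (2 * ENNReal.ofReal e) * volume (Kc (V a.1) a.1 a.2) :=
          Finset.sum_le_sum hone
      _ = c * (2 * ENNReal.ofReal e) * volume (⋃ a ∈ T, Kc (V a.1) a.1 a.2) := by
          rw [← Finset.mul_sum, measure_biUnion_finset hT2' fun a _ =>
            (isCompact_Kc' _ _ _).isClosed.measurableSet]
      _ ≤ c * (2 * ENNReal.ofReal e) * volume Om := by
          gcongr
          exact iUnion₂_subset fun a ha => (hT1' a ha).2.2.1
      _ = c * (2 * volume Om) * ENNReal.ofReal e := by ring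
  -- (III) the uniform distance
  have hIII : ∀ x ∈ Om, ‖h x - f x‖ₑ ^ p ≤ ENNReal.ofReal t3 := by
    intro x hx
    have h4 : ‖f' x - f x‖ ≤ 2 * η := by
      by_cases hxa : ∃ a ∈ T, x ∈ Ko (V a.1) a.1 a.2
      · obtain ⟨a, ha, hxa⟩ := hxa
        rw [(h1 a ha x hxa).1]
        obtain ⟨gi, q1, -⟩ := (hg a ha).1
        obtain ⟨y, hy, hyx⟩ := q1 hxa
        rw [← hyx]
        have h5 := (hT1' a ha).2.2.2.2.2 y (Ko_subset_Kc _ _ _ hy)
        have h6 := (hT1' a ha).2.2.2.2.2 x (Ko_subset_Kc _ _ _ hxa)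
        have h7 : f y - f x = (f y - f a.1) - (f x - f a.1) := by abel
        rw [h7]
        exact (norm_sub_le _ _).trans (by linarith)
      · push Not at hxa
        rw [(h2 x hxa).1, sub_self, norm_zero]
        positivity
    have h5 : ‖h x - f x‖ ≤ 3 * η := by
      have h6 : h x - f x = (h x - f' x) + (f' x - f x) := by abel
      rw [h6]
      have h7 := hh3 x hx
      exact (norm_add_le _ _).trans (by linarith)
    rw [← ofReal_norm, ENNReal.ofReal_rpow_of_nonneg (norm_nonneg _) hp0.le, ← hη3]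
    apply ENNReal.ofReal_le_ofReal
    exact Real.rpow_le_rpow (norm_nonneg _) h5 hp0.le
  -- conclusion
  have hAm : AEMeasurable (fun x => ∑ j, ‖Gr h j x - G' j x‖ₑ ^ p) (volume.restrict Om) :=
    Finset.aemeasurable_fun_sum _ fun j _ =>
      ((((measurable_Gr h j).aemeasurable).sub (H'.memG j).1.aemeasurable).enorm).pow_const _
  calc ∫⁻ x in Om, (‖h x - f x‖ₑ ^ p + ∑ j : Fin 3, ‖Gr h j x - G j x‖ₑ ^ p)
      ≤ ∫⁻ x in Om, (ENNReal.ofReal t3 + c * (∑ j, ‖Gr h j x - G' j x‖ₑ ^ p +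
          ∑ j, ‖G' j x - G j x‖ₑ ^ p)) := by
        refine setLIntegral_mono_ae' hO.measurableSet (Eventually.of_forall fun x hx => ?_)
        exact add_le_add (hIII x hx) (sum_sub_rpow_le hp (fun j => Gr h j x) (fun j => G' j x)
          (fun j => G j x))
    _ = ENNReal.ofReal t3 * volume Om + c * ((∫⁻ x in Om, ∑ j, ‖Gr h j x - G' j x‖ₑ ^ p) +
          ∫⁻ x in Om, ∑ j, ‖G' j x - G j x‖ₑ ^ p) := by
        rw [lintegral_add_left measurable_const, lintegral_const, Measure.restrict_apply_univ,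
          lintegral_const_mul' _ _ hcT, lintegral_add_left' hAm]
    _ ≤ ENNReal.ofReal t3 * volume Om + c * ((C * ENNReal.ofReal t2 + ENNReal.ofReal t1) +
          c * (2 * volume Om) * ENNReal.ofReal e) := by
        gcongr
        refine hh4.trans ?_
        gcongr
    _ = volume Om * ENNReal.ofReal t3 + (c * C * ENNReal.ofReal t2 + c * ENNReal.ofReal t1 +
          c * (c * (2 * volume Om)) * ENNReal.ofReal e) := by ring
    _ ≤ δ + (δ + δ + δ) := by gcongr
    _ = 4 * δ := by ring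
    _ < 5 * δ := by
        rw [hδ, show (4 : ℝ≥0∞) = ENNReal.ofReal 4 by norm_num,
          show (5 : ℝ≥0∞) = ENNReal.ofReal 5 by norm_num,
          ← ENNReal.ofReal_mul (by norm_num), ← ENNReal.ofReal_mul (by norm_num)]
        exact (ENNReal.ofReal_lt_ofReal_iff (by positivity)).2 (by linarith)
    _ ≤ ε := ht0'

end

end Crest.Agent.R096.Sk4_663
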