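import Crest.Agent.R096.Mal14_874

/-!
# Row 96, library (MESH-AL), part 15: shapes and sizes of the tiles of the aligned mesh
-/

set_option autoImplicit false

open Set Filter Topology Metric

namespace Crest.Agent.R096.Mal_874

open Msh_715 Cut_874 Msh_810

variable {n : ℕ} {E : Type*} [NormedAddCommGroup E] [NormedSpace ℝ E]

/-- comparison of two frames -/
def Cn (φ ψ : E ≃L[ℝ] (Fin n → ℝ)) (c : ℝ) : Prop :=
  ∀ x y : E, dist (φ x) (φ y) ≤ c * dist (ψ x) (ψ y)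

theorem exists_cn (φ ψ : E ≃L[ℝ] (Fin n → ℝ)) : ∃ c : ℝ, 1 ≤ c ∧ Cn φ ψ c := by
  set L : (Fin n → ℝ) →L[ℝ] (Fin n → ℝ) := (φ : E →L[ℝ] (Fin n → ℝ)).comp
    (ψ.symm : (Fin n → ℝ) →L[ℝ] E) with hL
  refine ⟨max 1 ‖L‖, le_max_left _ _, fun x y => ?_⟩
  have e : φ x - φ y = L (ψ x - ψ y) := by
    rw [hL]
    simp
  rw [dist_eq_norm, dist_eq_norm, e]
  refine (L.le_opNorm _).trans ?_
  exact mul_le_mul_of_nonneg_right (le_max_right _ _) (norm_nonneg _)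

theorem dist_cube {a : Fin n → ℝ} {k : ℕ} {z : Fin n → ℤ} {x y : Fin n → ℝ} (hx : x ∈ Cu a k z)
    (hy : y ∈ Cu a k z) : dist x y ≤ 1 / 2 ^ k := by
  have hp : (0 : ℝ) < 2 ^ k := by positivity
  rw [le_div_iff₀' hp]
  exact dist_le_of_mem_Cu hx hy

theorem chi_dist {φ : E ≃L[ℝ] (Fin n → ℝ)} {a : Fin n → ℝ} {k : ℕ} {x y : E} {c : ℝ}
    (h : dist (φ y) (φ x) ≤ c / 2 ^ k) (m : Fin n) : |chi φ a k y m - chi φ a k x m| ≤ c := by
  have hp : (0 : ℝ) < 2 ^ k := by positivity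
  have h2 : dist (φ y m) (φ x m) ≤ dist (φ y) (φ x) := dist_le_pi_dist _ _ m
  rw [Real.dist_eq] at h2
  rw [chi_apply, chi_apply, ← mul_sub, abs_mul, abs_of_pos hp]
  have e : φ y m - a m - (φ x m - a m) = φ y m - φ x m := by ring
  rw [e]
  rw [le_div_iff₀' hp] at h
  nlinarith

/-- rational data of the blocks: the list of shapes at the wall of the block `j` is
`simL (NR (A j) (d j)) (d j) (c j)` -/
structure RD {J : Type*} (M : MD E n J) where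
  A : J → Fin n → Fin n → ℤ
  d : J → ℕ
  dpos : ∀ j, 0 < d j
  rat : ∀ j, Rt M.φ (M.Q j).ψ (A j) (d j)
  c : J → ℝ
  c1 : ∀ j, 1 ≤ c j
  cn : ∀ j, Cn M.φ (M.Q j).ψ (c j)
  B : J → ℕ
  B1 : ∀ j, 1 ≤ B j
  hB : ∀ j i, ∀ p ∈ (M.Q j).S.GG i, ∀ l, |p.1 l| ≤ B j
  R : J → ℝ
  R1 : ∀ j, 1 ≤ R j
  hR : ∀ j i, i ≠ (M.Q j).S.core → ∀ u ∈ ZP ((M.Q j).S.GG i), ∀ v ∈ ZP ((M.Q j).S.GG i), ∀ l,
    |v l - u l| ≤ R j

/-- the positions are rational relative to the outer grid -/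
structure RP {J : Type*} {M : MD E n J} (X : RD M) (a : Fin n → ℝ) (v : J → E) (k : J → ℕ) where
  κ : J → ℕ
  hκ : ∀ j, κ j ≤ k j
  h0 : ∀ j m, ∃ c : ℤ, 2 ^ κ j * (X.d j : ℝ) * (M.Q j).a' m = c
  hv : ∀ j l, ∃ z : ℤ, 2 ^ κ j * (M.φ (v j) l - a l) = z

namespace MD

variable {J : Type*} (M : MD E n J) [NeZero n] {k : J → ℕ} (hk : M.Sc k) (a : Fin n → ℝ)
  {v : J → E} (hv : M.Adm v)

/-! ### names of the tiles -/

/-- the outer pieces -/
abbrev OIx : Type _ := {p // p ∉ {p | P ((M.ad hk a hv).T1.H p) ⊆ ⋃ j, (M.ad hk a hv).N j}}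

/-- the inner tiles of the block `j` -/
abbrev IIx (j : J) : Type _ := {i // P ((M.S hk (v := v) j).H i) ⊆ (M.ad hk a hv).N j}

theorem N_eq (j : J) : (M.ad hk a hv).N j = (M.Bk v j).N := rfl

/-- the core of the block `j` -/
noncomputable def core (j : J) : M.IIx hk a hv j :=
  ⟨(M.Bk v j).cix (k j) (hk.kc j), ((M.Bk v j).P_inr_sub (k j) (hk.kc j) _).trans
    (M.Bk v j).bp_sub_N⟩

/-- **the core of the block `j` is one tile** -/
theorem P_core (j : J) :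
    P ((M.mesh hk a hv).H (Sum.inr ⟨j, M.core hk a hv j⟩)) = (M.Bk v j).Kc :=
  (M.Bk v j).P_core (k j) (hk.kc j)

/-! ### sizes -/

/-- an outer piece lies in a cube of size at most `ρ / C` at each of its points -/
theorem outer_size (p : M.OIx hk a hv) {x y : E} (hx : x ∈ P ((M.mesh hk a hv).H (Sum.inl p)))
    (hy : y ∈ P ((M.mesh hk a hv).H (Sum.inl p))) :
    dist (M.φ x) (M.φ y) ≤ M.D0.ρ (M.φ x) / M.D0.C := by
  have hC := M.hC
  have hC0 : 0 < M.D0.C := by linarith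
  have hx' : x ∈ P ((M.ad hk a hv).T0.H p.1.par) := cut_tile_sub (hA := AF_ne) p.1 hx
  have hy' : y ∈ P ((M.ad hk a hv).T0.H p.1.par) := cut_tile_sub (hA := AF_ne) p.1 hy
  have hx2 := (AD.tile_T0 _).1 hx'
  have hy2 := (AD.tile_T0 _).1 hy'
  have h1 : dist (M.φ x) (M.φ y) ≤ 1 / 2 ^ p.1.par.1.1.k := dist_cube hx2 hy2
  have h2 : (M.φ x) ∈ p.1.par.1.c := by
    have := mem_at.1 (show p.1.par ∈ (tiling M.φ (outD M.D0 k M.W a)).at_ x from hx')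
    exact this
  have h3 := p.1.par.1.2.lower h2
  have h4 := outD_le_ρ0 (D0 := M.D0) (k := k) (W := M.W) (a := a) (M.φ x)
  have hp : (0 : ℝ) < 2 ^ p.1.par.1.1.k := by positivity
  refine h1.trans ?_
  rw [div_le_div_iff₀ hp hC0, one_mul, mul_comm]
  change M.D0.C ≤ _ at h3
  exact h3.trans (mul_le_mul_of_nonneg_left h4 hp.le)

/-- an inner cube has size at most `2^-kc` -/
theorem inner_size {j : J} {i : M.IIx hk a hv j} {τ} (hi : i.1 = Sum.inl τ) {x y : E}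
    (hx : x ∈ P ((M.mesh hk a hv).H (Sum.inr ⟨j, i⟩)))
    (hy : y ∈ P ((M.mesh hk a hv).H (Sum.inr ⟨j, i⟩))) :
    dist ((M.Q j).ψ x) ((M.Q j).ψ y) ≤ 1 / 2 ^ (M.Q j).kc := by
  have hx' : x ∈ P ((M.S hk (v := v) j).H i.1) := hx
  have hy' : y ∈ P ((M.S hk (v := v) j).H i.1) := hy
  rw [hi] at hx' hy'
  have h1 := dist_cube (((M.Bk v j).tile_T0 (k j) (hk.kc j)).1 hx')
    (((M.Bk v j).tile_T0 (k j) (hk.kc j)).1 hy')
  refine le_trans h1 ?_
  exact one_div_le_one_div_of_le (by positivity)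
    (pow_le_pow_right₀ (by norm_num) ((M.Bk v j).kc_le (k j) (hk.kc j)))

/-! ### shapes -/

variable (X : RD M)



end MD

end Crest.Agent.R096.Mal_874
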