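import Crest.Agent.R096.Gsm4_432
import Crest.Agent.R096.Gau1_812

/-!
# Row 96, GAPSIM (helper432), part 5: the gap in terms of the gauge `ug` of helper812
-/

set_option autoImplicit false
set_option linter.unusedSectionVars false

open Set Metric Topology Filter

namespace Crest.Agent.R096.Gsm_432

open Crest.Agent.R096.Msh_715 Crest.Agent.R096.Msh_715.Tiling Crest.Agent.R096.Tgr_335
open Crest.Agent.R096.Sk2_855 Crest.Agent.R096.Sk3_812

variable {F : Type*} [NormedAddCommGroup F] [NormedSpace ℝ F] [FiniteDimensional ℝ F]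
variable {E : Type*} [NormedAddCommGroup E] [NormedSpace ℝ E] [FiniteDimensional ℝ E]

theorem ug_le_iff_hom {H : Finset ((E →L[ℝ] ℝ) × ℝ)} (hne : H.Nonempty) {c : E} (hc : c ∈ I H)
    (A : E ≃ᵃ[ℝ] E) {t : ℝ} (ht : 0 < t) (x : E) : ug H hne c A (A x) ≤ t ↔ x ∈ hom c t (P H) := by
  rw [ug_comp]
  have h := ug_level hne hc (AffineEquiv.refl ℝ E) ht
  have h1 : ug H hne c (AffineEquiv.refl ℝ E) x ≤ t ↔
      x ∈ {y | ug H hne c (AffineEquiv.refl ℝ E) y ≤ t} := Iff.rfl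
  rw [h1, h]
  rfl

variable {Om : Set E} {ι : Type*} {T : Tiling Om ι} {i : ι} {B : E ≃ᵃ[ℝ] F} {c : E}
  {β ρ D : ℝ} {nc : ℕ}

/-- **a closed cell which misses the tile is far from it, in the gauge** -/
theorem GapT.gap_ug (h : GapT T i B c β ρ D nc) (hβ : 0 ≤ β) (hne : (T.H i).Nonempty)
    (A : E ≃ᵃ[ℝ] E) {x : E} (hx : x ∈ Om) (hd : Disjoint (T.cc x) (P (T.H i))) :
    1 + 4 * β < ug (T.H i) hne c A (A x) := by
  rw [← not_le, ug_le_iff_hom hne h.mem A (by linarith)]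
  exact h.gap x hx hd

/-- **the gap for the 1-skeleton, in the gauge** -/
theorem GapT.gap1_ug (h : GapT T i B c β ρ D nc) (hβ : 0 ≤ β) (hne : (T.H i).Nonempty)
    (A : E ≃ᵃ[ℝ] E) {x : E} (hx : x ∈ sk1 T) (h1 : x ∉ P (T.H i)) (h2 : ¬ Crs T i x) :
    1 + 4 * β < ug (T.H i) hne c A (A x) :=
  h.gap_ug hβ hne A hx.1 (disjoint_of_sk1 hx h1 h2)


/-- near the tile, in the gauge, there are only the tiles which touch it -/
theorem GapT.sub_ug (h : GapT T i B c β ρ D nc) (hβ : 0 ≤ β) (hne : (T.H i).Nonempty)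
    (A : E ≃ᵃ[ℝ] E) {x : E} (hx : ug (T.H i) hne c A (A x) ≤ 1 + 4 * β) :
    x ∈ interior (Ust T i) :=
  h.sub ((ug_le_iff_hom hne h.mem A (by linarith) x).1 hx)



end Crest.Agent.R096.Gsm_432
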