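import Crest.Agent.R096.Pin1_753
import Crest.Agent.R096.Osc1_400
import Crest.Agent.R096.Gno5_324
import Crest.Agent.R096.Nbr4_896
import Crest.Agent.R096.Msb5_432
import Crest.Agent.R096.Ca8_855
import Crest.Agent.R096.Ttr1_622
import Crest.Agent.R096.Gsm5_432

-- ▼ part R096/Ca13_855
section

/-!
# Row 96 (S0127), p ≤ 2: composite A (helper855), part 13: the mesh data of the blocks of `PreIN`

`MIn` : what is known about size function, blocks, scale; `MIn.M : MD R3 3 J`; all scales are `k0`;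
`MIn.sc`; positions `cl a`; `MIn.T a : Tiling Om _` (432's `meshS`); the outer scale is `k0` near `W`;
rigidity; the rational data.
-/

set_option autoImplicit false
set_option linter.unusedSectionVars false

open Set Metric MeasureTheory Filter
open scoped ENNReal Topology

namespace Crest.Agent.R096.Ca_855

open Crest.AnalysisR.VecCalc3 Crest.AnalysisR.Sobolev
open Crest.Agent.R096.Msh_715
open Crest.Agent.R096.Mal_874 (MD CB RD RP reOm Rt Cn outD Rg)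
open Crest.Agent.R096.Msh_810 (Dat K)
open Crest.Agent.R096.Gno_324 (capD K_cap)
open Crest.Agent.R096.Msb_432 (meshS rigidS_const Scl)
open Crest.Agent.R96.En10_199 (P3)
open Crest.Agent.R096.Osc_400 (datP datP_Om norm_P3_le)

/-- the inputs of the mesh: size function, blocks, scale `k0`, separation `σ` -/
structure MIn (Om W : Set R3) (ρ₀ : R3 → ℝ) {J : Type} (Qb : J → CB R3 3) (k0 : ℕ) (σ : ℝ) :
    Prop where
  lip : ∀ x y, ρ₀ x ≤ ρ₀ y + ‖x - y‖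
  nn : ∀ x, 0 ≤ ρ₀ x
  le1 : ∀ x, ρ₀ x ≤ 1
  pos : ∀ x, 0 < ρ₀ x ↔ x ∈ Om
  hW : ∀ x ∈ W, σ ≤ ρ₀ x
  hN : ∀ j, (Qb j).N ⊆ W
  h48 : 48 / 2 ^ k0 < σ
  hk : ∀ j, (Qb j).kc ≤ k0
  sep : ∀ i j, i ≠ j → ∀ x ∈ (Qb i).N, ∀ y ∈ (Qb j).N, σ ≤ dist x y

theorem norm_P3_symm_le (v : R3) : ‖P3.symm v‖ ≤ ‖v‖ := by
  rw [pi_norm_le_iff_of_nonneg (norm_nonneg _)]
  intro i
  exact PiLp.norm_apply_le v i

theorem dist_P3_le (x y : Fin 3 → ℝ) : dist (P3 x) (P3 y) ≤ 2 * dist x y := by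
  rw [dist_eq_norm, dist_eq_norm, ← map_sub]
  exact norm_P3_le _

theorem dist_P3s_le (x y : R3) : dist (P3.symm x) (P3.symm y) ≤ dist x y := by
  rw [dist_eq_norm, dist_eq_norm, ← map_sub]
  exact norm_P3_symm_le _

theorem dist_le_P3s (x y : R3) : dist x y ≤ 2 * dist (P3.symm x) (P3.symm y) := by
  have := dist_P3_le (P3.symm x) (P3.symm y)
  rwa [P3.apply_symm_apply, P3.apply_symm_apply] at this

namespace MIn

variable {Om W : Set R3} {ρ₀ : R3 → ℝ} {J : Type} {Qb : J → CB R3 3} {k0 : ℕ} {σ : ℝ}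

theorem h2 : (0:ℝ) < 1 / 2 ^ k0 := by positivity

theorem h48' (h : MIn Om W ρ₀ Qb k0 σ) : 48 * (1 / 2 ^ k0) < σ := by
  have := h.h48
  rwa [show (48:ℝ) / 2 ^ k0 = 48 * (1 / 2 ^ k0) by ring] at this

theorem σ0 (h : MIn Om W ρ₀ Qb k0 σ) : 0 < σ := by
  have h1 := h.h48'
  have h2 : (0:ℝ) < 1 / 2 ^ k0 := by positivity
  linarith

theorem near (h : MIn Om W ρ₀ Qb k0 σ) {x : R3} (hx : x ∈ W) {y : Fin 3 → ℝ} {d : ℝ}
    (hd : dist (P3.symm x) y ≤ d) : σ - 2 * d ≤ ρ₀ (P3 y) := by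
  have h1 := h.lip x (P3 y)
  have h2 := dist_P3_le (P3.symm x) y
  rw [P3.apply_symm_apply, dist_eq_norm] at h2
  have h3 := h.hW x hx
  linarith

/-- the base size function -/
noncomputable def D1 (h : MIn Om W ρ₀ Qb k0 σ) : Dat 3 :=
  datP ρ₀ h.lip h.nn h.le1 (1 / 2) (by norm_num) le_rfl 6 (by norm_num) 0

theorem hc (h : MIn Om W ρ₀ Qb k0 σ) : 0 < h.D1.C / 2 ^ k0 := by
  have : 0 < h.D1.C := h.D1.C_pos
  positivity


/-- the size function of the outer mesh -/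
noncomputable def D0 (h : MIn Om W ρ₀ Qb k0 σ) : Dat 3 := capD h.D1 (h.D1.C / 2 ^ k0) h.hc

theorem D0_ρ (h : MIn Om W ρ₀ Qb k0 σ) (y : Fin 3 → ℝ) :
    h.D0.ρ y = min (ρ₀ (P3 y) * (1 / 2)) (6 / 2 ^ k0) := rfl

theorem D0_Om (h : MIn Om W ρ₀ Qb k0 σ) : h.D0.Om = P3 ⁻¹' Om := by
  have h1 : h.D0.Om = h.D1.Om := Crest.Agent.R096.Gno_324.capD_Om _ _ _
  rw [h1]
  exact datP_Om (by norm_num) h.pos


variable [Finite J]

/-- **the mesh data** -/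
noncomputable def M (h : MIn Om W ρ₀ Qb k0 σ) : MD R3 3 J where
  φ := P3.symm
  D0 := h.D0
  hC := le_refl (6:ℝ)
  Q := Qb
  r _ := σ / 8
  r_pos _ := by have := h.σ0; positivity
  Vdis j l hjl := by
    have h0 := h.σ0
    rw [Set.disjoint_left]
    intro y hy hy'
    rw [(((Qb j).isCompact_N).image P3.symm.continuous).cthickening_eq_biUnion_closedBall
      (by positivity)] at hy
    rw [(((Qb l).isCompact_N).image P3.symm.continuous).cthickening_eq_biUnion_closedBall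
      (by positivity)] at hy'
    simp only [mem_iUnion, exists_prop] at hy hy'
    obtain ⟨_, ⟨x, hx, rfl⟩, hz⟩ := hy
    obtain ⟨_, ⟨x', hx', rfl⟩, hz'⟩ := hy'
    rw [mem_closedBall] at hz hz'
    have h1 := h.sep j l hjl x hx x' hx'
    have h2 := dist_le_P3s x x'
    have h3 := dist_triangle (P3.symm x) y (P3.symm x')
    rw [dist_comm (P3.symm x) y] at h3
    linarith
  Vsub j := by
    have h0 := h.σ0
    intro y hy
    rw [(((Qb j).isCompact_N).image P3.symm.continuous).cthickening_eq_biUnion_closedBall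
      (by positivity)] at hy
    simp only [mem_iUnion, exists_prop] at hy
    obtain ⟨_, ⟨x, hx, rfl⟩, hz⟩ := hy
    rw [mem_closedBall, dist_comm] at hz
    have h1 := h.near (h.hN j hx) hz
    rw [h.D0_Om, mem_preimage, ← h.pos]
    linarith
  Vlf x _ := ⟨1, one_pos, Set.toFinite _⟩

@[simp] theorem M_φ (h : MIn Om W ρ₀ Qb k0 σ) : h.M.φ = P3.symm := rfl

@[simp] theorem M_Q (h : MIn Om W ρ₀ Qb k0 σ) : h.M.Q = Qb := rfl

@[simp] theorem M_r (h : MIn Om W ρ₀ Qb k0 σ) (j : J) : h.M.r j = σ / 8 := rfl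

@[simp] theorem M_D0 (h : MIn Om W ρ₀ Qb k0 σ) : h.M.D0 = h.D0 := rfl

theorem W_near (h : MIn Om W ρ₀ Qb k0 σ) {j : J} {y : Fin 3 → ℝ} (hy : y ∈ h.M.W j) :
    ∃ x ∈ (Qb j).N, dist (P3.symm x) y ≤ σ / 8 := by
  have h0 := h.σ0
  have h1 := h.M.W_sub_V j hy
  have h2 : y ∈ cthickening (σ / 8) (P3.symm '' (Qb j).N) := h1
  rw [(((Qb j).isCompact_N).image P3.symm.continuous).cthickening_eq_biUnion_closedBall
      (by positivity)] at h2
  simp only [mem_iUnion, exists_prop] at h2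
  obtain ⟨_, ⟨x, hx, rfl⟩, hz⟩ := h2
  exact ⟨x, hx, by rw [dist_comm]; exact hz⟩

theorem Wi_near (h : MIn Om W ρ₀ Qb k0 σ) {j : J} {y : Fin 3 → ℝ} {d : ℝ}
    (hy : infDist y (h.M.W j) ≤ d) : ∃ x ∈ (Qb j).N, dist (P3.symm x) y ≤ σ / 8 + d := by
  obtain ⟨z, hz, e⟩ := (h.M.isCompact_W j).exists_infDist_eq_dist (h.M.W_ne j) y
  obtain ⟨x, hx, h1⟩ := h.W_near hz
  refine ⟨x, hx, ?_⟩
  have h2 := dist_triangle (P3.symm x) z y
  rw [e, dist_comm] at hy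
  linarith

/-- all scales are `k0` -/
theorem sc (h : MIn Om W ρ₀ Qb k0 σ) : h.M.Sc (fun _ => k0) where
  kc := h.hk
  rho j y hy := by
    obtain ⟨x, hx, h1⟩ := h.Wi_near hy
    have h2 := h.near (h.hN j hx) h1
    have h3 := h.h48'
    show 6 / 2 ^ k0 ≤ h.D0.ρ y
    rw [h.D0_ρ]
    refine le_min ?_ le_rfl
    have e6 : (6:ℝ) / 2 ^ k0 = 6 * (1 / 2 ^ k0) := by ring
    rw [e6] at h2 ⊢
    have h4 : (0:ℝ) < 1 / 2 ^ k0 := by positivity
    nlinarith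
  sep j l hjl y hy := by
    obtain ⟨x, hx, h1⟩ := h.Wi_near hy
    have h3 := h.h48'
    have e6 : (6:ℝ) / 2 ^ k0 = 6 * (1 / 2 ^ k0) := by ring
    have e5 : (5:ℝ) / 2 ^ k0 = 5 * (1 / 2 ^ k0) := by ring
    have h4 : (0:ℝ) < 1 / 2 ^ k0 := by positivity
    have h5 : 6 / 2 ^ k0 ≤ infDist y (h.M.W l) := by
      rw [le_infDist (h.M.W_ne l)]
      intro w hw
      by_contra hcon
      push Not at hcon
      obtain ⟨x', hx', h6⟩ := h.W_near hw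
      have h7 := h.sep j l hjl x hx x' hx'
      have h8 := dist_le_P3s x x'
      have h9 := dist_triangle (P3.symm x) y (P3.symm x')
      have h10 := dist_triangle y w (P3.symm x')
      rw [dist_comm w] at h10
      rw [e6] at h1 hcon
      linarith
    refine ⟨h5, le_trans ?_ h5⟩
    rw [e5, e6]
    linarith

/-- the position, cut off outside the ball of radius `σ / 8` -/
noncomputable def cl (_ : MIn Om W ρ₀ Qb k0 σ) (a : R3) : R3 := by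
  classical exact if ‖a‖ ≤ σ / 8 then a else 0

theorem cl_eq (h : MIn Om W ρ₀ Qb k0 σ) {a : R3} (ha : ‖a‖ ≤ σ / 8) : h.cl a = a := by
  classical
  unfold cl
  rw [if_pos ha]

theorem norm_cl (h : MIn Om W ρ₀ Qb k0 σ) (a : R3) : ‖h.cl a‖ ≤ σ / 8 := by
  classical
  have := h.σ0
  unfold cl
  split_ifs with h1
  · exact h1
  · rw [norm_zero]; positivity

theorem adm (h : MIn Om W ρ₀ Qb k0 σ) (a : R3) : h.M.Adm fun _ => h.cl a := fun _ =>
  (norm_P3_symm_le _).trans (h.norm_cl a)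

theorem adm0 (h : MIn Om W ρ₀ Qb k0 σ) : h.M.Adm fun _ => (0 : R3) := fun j => by
  have := h.σ0
  show ‖h.M.φ 0‖ ≤ σ / 8
  rw [map_zero, norm_zero]
  positivity

theorem dom (h : MIn Om W ρ₀ Qb k0 σ) : h.M.φ ⁻¹' h.M.D0.Om = Om := by
  show P3.symm ⁻¹' h.D0.Om = Om
  rw [h.D0_Om]
  ext x
  simp

/-- the mesh data of 432's mesh at the position `a` -/
noncomputable def Ts (h : MIn Om W ρ₀ Qb k0 σ) (a : R3) :=
  meshS h.M h.sc (0 + h.M.φ (h.cl a)) (h.adm a)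

/-- the index type of the tiles -/
def ιT (h : MIn Om W ρ₀ Qb k0 σ) (a : R3) : Type := by
  have T := h.Ts a
  exact ({t // t ∉ Crest.Agent.R096.Msb_432.cores h.M h.sc (0 + h.M.φ (h.cl a)) (h.adm a)} ⊕
    Crest.Agent.R096.Msb_432.CIx h.M)

/-- **the mesh at the position `a`** -/
noncomputable def T (h : MIn Om W ρ₀ Qb k0 σ) (a : R3) : Tiling Om (h.ιT a) :=
  reOm (h.Ts a) h.dom

/-- the model -/
noncomputable def T0 (h : MIn Om W ρ₀ Qb k0 σ) :=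
  meshS h.M h.sc 0 h.adm0

end MIn

end Crest.Agent.R096.Ca_855
end

-- ▼ part R096/Ca11_855
section

/-!
# Row 96 (S0127), p ≤ 2: composite A (helper855), part 11: transport of `TileG` and `Rig`
-/

set_option autoImplicit false
set_option linter.unusedSectionVars false

open Set Metric MeasureTheory Filter
open scoped ENNReal Topology

namespace Crest.Agent.R096.Ca_855

open Crest.Agent.R096.Msh_715
open Crest.Agent.R096.Sk2_855 (sk1)
open Crest.Agent.R096.Sk3_812 (ug KT Crs crs_congr exists_KT)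
open Crest.Agent.R096.Ttr_622
open Crest.Agent.R096.Gsm_432 (hom ug_le_iff_hom)
open Crest.Agent.R096.Mf_113 (Rig)

section

variable {E F : Type} [NormedAddCommGroup E] [NormedSpace ℝ E] [FiniteDimensional ℝ E]
  [NormedAddCommGroup F] [NormedSpace ℝ F] [FiniteDimensional ℝ F]
  {Om : Set E} {ι : Type*} {T : Tiling Om ι} {i : ι}


theorem TileG.diam' {hne : (T.H i).Nonempty} {c : E} {β ρ ρ' t t' : ℝ} {nc : ℕ}
    (h : TileG T i hne c β ρ t nc) (hρ : ρ' ≤ ρ)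
    (ht : ∀ y ∈ P (T.H i), ∀ y' ∈ P (T.H i), ‖y - y'‖ ≤ t') : TileG T i hne c β ρ' t' nc :=
  ⟨h.cI, (closedBall_subset_closedBall hρ).trans h.ball, h.gap, h.star, h.cardK, h.cardN, ht⟩

variable (e : E ≃L[ℝ] F)

theorem hom_tr {c : E} {t : ℝ} {y : F} :
    y ∈ hom (e c) t (P ((tr e T).H i)) ↔ e.symm y ∈ hom c t (P (T.H i)) := by
  constructor
  · rintro ⟨z, hz, rfl⟩
    refine ⟨e.symm z, (mem_P_tr e T).1 hz, ?_⟩
    simp
  · rintro ⟨z, hz, hzy⟩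
    refine ⟨e z, (mem_P_tr e T).2 (by simpa using hz), ?_⟩
    simp only at hzy ⊢
    rw [← map_sub, ← map_smul, ← map_add, hzy, ContinuousLinearEquiv.apply_symm_apply]

theorem ug_tr {hne : (T.H i).Nonempty} {hne' : ((tr e T).H i).Nonempty} {c : E}
    (hc : c ∈ I (T.H i)) {t : ℝ} (ht : 0 < t) (y : F) :
    ug ((tr e T).H i) hne' (e c) (AffineEquiv.refl ℝ F) y ≤ t ↔
      ug (T.H i) hne c (AffineEquiv.refl ℝ E) (e.symm y) ≤ t := by
  have hc' : e c ∈ I ((tr e T).H i) := (mem_I_tr e T).2 (by simpa using hc)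
  have h1 := ug_le_iff_hom hne' hc' (AffineEquiv.refl ℝ F) ht y
  have h2 := ug_le_iff_hom hne hc (AffineEquiv.refl ℝ E) ht (e.symm y)
  rw [AffineEquiv.refl_apply] at h1 h2
  rw [h1, h2]
  exact hom_tr e

theorem crs_tr {y : F} : Crs (tr e T) i y ↔ Crs T i (e.symm y) := by
  unfold Crs
  rw [dim_tr, mem_P_tr]
  refine and_congr Iff.rfl (and_congr Iff.rfl (and_congr Iff.rfl ?_))
  constructor
  · rintro ⟨z, hz, hz'⟩
    exact ⟨e.symm z, (mem_cc_tr e T).1 hz, (mem_P_tr e T).1 hz'⟩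
  · rintro ⟨z, hz, hz'⟩
    exact ⟨e z, (mem_cc_tr e T).2 (by simpa using hz), (mem_P_tr e T).2 (by simpa using hz')⟩

theorem card_KT_tr : Nat.card (KT (tr e T) i) ≤ Nat.card (KT T i) := by
  have h1 : ∀ k : KT (tr e T) i, ∃ k' : KT T i, e.symm k.e ∈ T.oc k'.e := fun k =>
    exists_KT ((crs_tr e).1 k.crs)
  choose g hg using h1
  refine Nat.card_le_card_of_injective g fun k k' hkk => ?_
  have h2 := hg k
  have h3 := hg k'
  rw [← hkk] at h3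
  refine (Sk3_812.KT.inj (k := k') (k' := k) ?_)
  rw [mem_oc_tr]
  have h4 := T.oc_eq_of_mem (g k).eOm h3
  rw [h4]
  exact h2

/-- **transport of `TileG`** -/
theorem TileG.tr {hne : (T.H i).Nonempty} {c : E} {β ρ t : ℝ} {nc : ℕ}
    (h : TileG T i hne c β ρ t nc) (hβ : 0 ≤ β) {ρ' t' : ℝ}
    (h1 : ∀ v : F, ‖v‖ ≤ ρ' → ‖e.symm v‖ ≤ ρ) (h2 : ∀ v : E, ‖v‖ ≤ t → ‖e v‖ ≤ t')
    (hne' : ((Ttr_622.tr e T).H i).Nonempty) :
    TileG (Ttr_622.tr e T) i hne' (e c) β ρ' t' nc where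
  cI := (mem_I_tr e T).2 (by simpa using h.cI)
  ball := by
    intro y hy
    refine (mem_P_tr e T).2 (h.ball ?_)
    rw [mem_closedBall, dist_eq_norm] at hy ⊢
    have := h1 _ hy
    rwa [map_sub, ContinuousLinearEquiv.symm_apply_apply] at this
  gap := by
    intro y hy hyP hyC
    by_contra hcon
    rw [not_le] at hcon
    obtain ⟨t1, ht1, ht1'⟩ := exists_between (max_lt hcon (by linarith : (0:ℝ) < 1 + 4 * β))
    have ht0 : 0 < t1 := lt_of_le_of_lt (le_max_right _ _) ht1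
    have h3 := (ug_tr e (hne := hne) (hne' := hne') h.cI ht0 y).1
      ((le_max_left _ _).trans ht1.le)
    have h4 := h.gap (e.symm y) ((mem_sk1_tr e T).1 hy) (fun hh => hyP ((mem_P_tr e T).2 hh))
      (fun hh => hyC ((crs_tr e).2 hh))
    linarith
  star := by
    intro y hy
    have h3 := (ug_tr e (hne := hne) (hne' := hne') h.cI (by linarith : (0:ℝ) < 1 + 4 * β) y).1 hy
    obtain ⟨m, ⟨z, hz, hz'⟩, hm⟩ := h.star _ h3
    exact ⟨m, ⟨e z, (mem_P_tr e T).2 (by simpa using hz), (mem_P_tr e T).2 (by simpa using hz')⟩,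
      (mem_P_tr e T).2 hm⟩
  cardK := (card_KT_tr e).trans h.cardK
  cardN := by
    have : {j | (P ((Ttr_622.tr e T).H j) ∩ P ((Ttr_622.tr e T).H i)).Nonempty} =
        {j | (P (T.H j) ∩ P (T.H i)).Nonempty} := by
      ext j
      constructor
      · rintro ⟨z, hz, hz'⟩
        exact ⟨e.symm z, (mem_P_tr e T).1 hz, (mem_P_tr e T).1 hz'⟩
      · rintro ⟨z, hz, hz'⟩
        exact ⟨e z, (mem_P_tr e T).2 (by simpa using hz), (mem_P_tr e T).2 (by simpa using hz')⟩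
    rw [this]
    exact h.cardN
  diam := by
    intro y hy y' hy'
    have h3 := h.diam _ ((mem_P_tr e T).1 hy) _ ((mem_P_tr e T).1 hy')
    rw [← map_sub] at h3
    have h4 := h2 _ h3
    rwa [ContinuousLinearEquiv.apply_symm_apply] at h4


end

end Crest.Agent.R096.Ca_855
end

-- ▼ part R096/Ca14_855
section

/-!
# Row 96 (S0127), p ≤ 2: composite A (helper855), part 14: rigidity, rational data, tiles
-/

set_option autoImplicit false
set_option linter.unusedSectionVars false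

open Set Metric MeasureTheory Filter
open scoped ENNReal Topology

namespace Crest.Agent.R096.Ca_855

open Crest.AnalysisR.VecCalc3 Crest.AnalysisR.Sobolev
open Crest.Agent.R096.Msh_715
open Crest.Agent.R096.Mal_874 (MD CB RD RP reOm Rt Cn outD Rg tile_k_eq)
open Crest.Agent.R096.Msh_810 (Dat K)
open Crest.Agent.R096.Gno_324 (capD K_cap)
open Crest.Agent.R096.Msb_432 (meshS rigidS_const Scl)
open Crest.Agent.R96.En10_199 (P3)
open Crest.Agent.R096.Mf_113 (Rig)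
open Crest.Agent.R096.Pin_753 (BlkP)

namespace MIn

variable {Om W : Set R3} {ρ₀ : R3 → ℝ} {J : Type} {Qb : J → CB R3 3} {k0 : ℕ} {σ : ℝ}
  [Finite J]

/-- **the outer scale is `k0` near `W`** (radius `σ / 4`) -/
theorem K_eq (h : MIn Om W ρ₀ Qb k0 σ) {x : R3} (hx : x ∈ W) {y : Fin 3 → ℝ}
    (hy : dist (P3.symm x) y < σ / 4) (g : Fin 3 → ℝ) :
    K (outD h.M.D0 (fun _ => k0) h.M.W g) y = k0 := by
  have h3 := h.h48'
  refine K_cap (D0 := h.D1) (hc := h.hc) (fun z hz => ?_) fun j => Or.inl rfl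
  have h1 := dist_triangle (P3.symm x) y z
  have h2 := h.near hx (h1.trans (add_le_add hy.le hz))
  show 6 / 2 ^ k0 ≤ ρ₀ (P3 z) * (1 / 2)
  have e6 : (6:ℝ) / 2 ^ k0 = 6 * (1 / 2 ^ k0) := by ring
  rw [← one_div] at h2
  rw [e6]
  have h4 : (0:ℝ) < 1 / 2 ^ k0 := by positivity
  nlinarith

theorem K_ev (h : MIn Om W ρ₀ Qb k0 σ) {x x' : R3} (hx : x ∈ W) (hx' : dist x x' < σ / 4)
    (g : Fin 3 → ℝ) :
    ∀ᶠ y in 𝓝 (P3.symm x'), K (outD h.M.D0 (fun _ => k0) h.M.W g) y = k0 := by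
  have h1 := (dist_P3s_le x x').trans_lt hx'
  filter_upwards [ball_mem_nhds (P3.symm x') (sub_pos.2 h1)] with y hy
  refine h.K_eq hx ?_ g
  rw [mem_ball, dist_comm] at hy
  have := dist_triangle (P3.symm x) (P3.symm x') y
  linarith

theorem mem_Om_of (h : MIn Om W ρ₀ Qb k0 σ) {x x' : R3} (hx : x ∈ W) (hx' : dist x x' < σ / 4) :
    x' ∈ Om := by
  have h1 := h.lip x x'
  have h2 := h.hW x hx
  have h3 := h.σ0
  rw [dist_eq_norm] at hx'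
  rw [← h.pos]
  linarith

theorem W_sub (h : MIn Om W ρ₀ Qb k0 σ) : W ⊆ Om := fun x hx =>
  h.mem_Om_of hx (by rw [dist_self]; have := h.σ0; positivity)

/-- **rigidity** -/
theorem rg (h : MIn Om W ρ₀ Qb k0 σ) {p : R3} (hp : p ∈ W) (a : R3) :
    Rg h.T0 (h.Ts a) (h.cl a) (p - h.cl a) := by
  have hσ := h.σ0
  have hd : dist p (p - h.cl a) < σ / 4 := by
    rw [dist_eq_norm, sub_sub_cancel]
    have := h.norm_cl a
    linarith
  have hd0 : dist p p < σ / 4 := by rw [dist_self]; positivity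
  have hD : ∀ x, x ∈ Om → h.M.φ x ∈ h.M.D0.Om := by
    intro x hx
    have : x ∈ h.M.φ ⁻¹' h.M.D0.Om := by rw [h.dom]; exact hx
    exact this
  refine rigidS_const h.M h.sc 0 h.adm0 (h.adm a) (κ := k0) (fun j => by rw [zero_add]) ?_ ?_ ?_ ?_
  · exact hD _ (h.mem_Om_of hp hd)
  · rw [sub_add_cancel]
    exact hD _ (h.mem_Om_of hp hd0)
  · exact h.K_ev hp hd 0
  · rw [sub_add_cancel]
    exact h.K_ev hp hd0 _

/-- **the family is rigid near `W`** -/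
theorem rig (h : MIn Om W ρ₀ Qb k0 σ) {Tr : Set R3} (hTr : ∀ a ∈ Tr, ‖a‖ ≤ σ / 8) :
    Rig h.T0 h.T Tr W := by
  intro a ha p hp
  have hσ := h.σ0
  have e := h.cl_eq (hTr a ha)
  have key : ∀ b, h.cl a = b → p ∈ Om ∧ p - b ∈ Om ∧
      (fun j => P ((h.T a).H j)) '' (h.T a).at_ p =
        (fun i => (b + ·) '' P (h.T0.H i)) '' h.T0.at_ (p - b) := by
    rintro b rfl
    refine ⟨h.W_sub hp, h.mem_Om_of hp ?_, ?_⟩
    · rw [dist_eq_norm, sub_sub_cancel]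
      have := h.norm_cl a
      linarith
    · have h1 := (h.rg hp a).sets
      rw [sub_add_cancel] at h1
      exact h1
  have h2 := key a e
  refine ⟨h2.1, ?_, h2.2.2⟩
  have : p - a ∈ h.M.φ ⁻¹' h.M.D0.Om := by rw [h.dom]; exact h2.2.1
  exact this

/-! ### the rational data -/

/-- the part of `BlkP` which is used for the shapes -/
structure BQ (κ : ℝ) (Bs Nn : ℕ) (Q : CB R3 3) (k0 : ℕ) : Prop where
  cnd : ∀ v, κ / 4 * ‖v‖ ≤ ‖Q.ψ v‖ ∧ ‖Q.ψ v‖ ≤ 4 * κ⁻¹ * ‖v‖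
  net : ∃ (d : ℕ) (B : Fin 3 → Fin 3 → ℤ), 0 < d ∧ d ≤ Nn ∧ (∀ i j, |B i j| ≤ Nn) ∧
    Rt P3.symm Q.ψ B d ∧ ∀ m, ∃ c : ℤ, 2 ^ k0 * (d : ℝ) * Q.a' m = c
  hB : ∀ i, ∀ p ∈ Q.S.GG i, ∀ l, |p.1 l| ≤ Bs
  hR : ∀ i, i ≠ Q.S.core → ∀ v ∈ Crest.Agent.R096.Mal_874.ZP (Q.S.GG i),
    ∀ w ∈ Crest.Agent.R096.Mal_874.ZP (Q.S.GG i), ∀ l, |w l - v l| ≤ Bs

theorem bq_of_blkP {κ s τ hh c1 θ0 θ1 : ℝ} {Bs Nn : ℕ} {z : R3} {Q : CB R3 3}
    (hb : BlkP κ s τ hh c1 θ0 θ1 Bs Nn z Q k0) : BQ κ Bs Nn Q k0 :=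
  ⟨hb.cnd, hb.net, hb.hB, hb.hR⟩

variable {κ : ℝ} {Bs Nn : ℕ}

theorem BQ.ψ2 {Q : CB R3 3} (hb : BQ κ Bs Nn Q k0) (hκ : 0 < κ) (v : R3) :
    ‖v‖ ≤ 4 * κ⁻¹ * ‖Q.ψ v‖ := by
  have h1 := (hb.cnd v).1
  have h2 : 4 * κ⁻¹ * (κ / 4 * ‖v‖) = ‖v‖ := by field_simp
  rw [← h2]
  exact mul_le_mul_of_nonneg_left h1 (by positivity)

/-- the rational data of the blocks -/
noncomputable def X (h : MIn Om W ρ₀ Qb k0 σ) (hκ : 0 < κ) (hκ1 : κ ≤ 1)
    (hb : ∀ j, BQ κ Bs Nn (Qb j) k0) : RD h.M where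
  A j := (hb j).net.choose_spec.choose
  d j := (hb j).net.choose
  dpos j := (hb j).net.choose_spec.choose_spec.1
  rat j := (hb j).net.choose_spec.choose_spec.2.2.2.1
  c _ := 4 * κ⁻¹
  c1 _ := by
    have : 1 ≤ κ⁻¹ := (one_le_inv₀ hκ).2 hκ1
    linarith
  cn j x y := by
    show dist (P3.symm x) (P3.symm y) ≤ 4 * κ⁻¹ * dist ((Qb j).ψ x) ((Qb j).ψ y)
    rw [dist_eq_norm, dist_eq_norm, ← map_sub, ← map_sub]
    exact (norm_P3_symm_le _).trans ((hb j).ψ2 hκ _)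
  B _ := max 1 Bs
  B1 _ := le_max_left _ _
  hB j i p hp l := by
    refine ((hb j).hB i p hp l).trans ?_
    push_cast
    exact le_max_right _ _
  R _ := max 1 (Bs:ℝ)
  R1 _ := le_max_left _ _
  hR j i hi u hu v hv l := ((hb j).hR i hi u hu v hv l).trans (le_max_right _ _)

/-- the positions are rational -/
noncomputable def rp (h : MIn Om W ρ₀ Qb k0 σ) (hκ : 0 < κ) (hκ1 : κ ≤ 1)
    (hb : ∀ j, BQ κ Bs Nn (Qb j) k0) (a : R3) :
    RP (h.X hκ hκ1 hb) (0 + h.M.φ (h.cl a)) (fun _ => h.cl a) (fun _ => k0) where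
  κ _ := k0
  hκ _ := le_rfl
  h0 j := (hb j).net.choose_spec.choose_spec.2.2.2.2
  hv j l := ⟨0, by rw [zero_add, sub_self, mul_zero, Int.cast_zero]⟩

/-- the finite net of rational frames -/
def Ps (Nn : ℕ) : Set ((Fin 3 → Fin 3 → ℤ) × ℕ) :=
  {p | p.2 ≤ Nn ∧ ∀ i j, |p.1 i j| ≤ Nn}

theorem Ps_finite (Nn : ℕ) : (Ps Nn).Finite := by
  have h1 : (Set.Icc (fun _ _ => -(Nn:ℤ)) (fun _ _ => (Nn:ℤ)) :
      Set (Fin 3 → Fin 3 → ℤ)).Finite := Set.finite_Icc _ _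
  refine (h1.prod (Set.finite_Iic Nn)).subset ?_
  rintro ⟨A, d⟩ ⟨hd, hA⟩
  refine ⟨⟨fun i j => (abs_le.1 (hA i j)).1, fun i j => (abs_le.1 (hA i j)).2⟩, hd⟩

theorem X_Ps (h : MIn Om W ρ₀ Qb k0 σ) (hκ : 0 < κ) (hκ1 : κ ≤ 1)
    (hb : ∀ j, BQ κ Bs Nn (Qb j) k0) (j : J) :
    ((h.X hκ hκ1 hb).A j, (h.X hκ hκ1 hb).d j) ∈ Ps Nn :=
  ⟨(hb j).net.choose_spec.choose_spec.2.1, (hb j).net.choose_spec.choose_spec.2.2.1⟩

theorem fb (h : MIn Om W ρ₀ Qb k0 σ) (hκ : 0 < κ) (hκ1 : κ ≤ 1)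
    (hb : ∀ j, BQ κ Bs Nn (Qb j) k0) : Crest.Agent.R096.Nbr_896.Fb (4 * κ⁻¹) h.M where
  φ1 v := by
    have h1 : 1 ≤ κ⁻¹ := (one_le_inv₀ hκ).2 hκ1
    have h2 := norm_P3_symm_le v
    have h3 := norm_nonneg v
    show ‖P3.symm v‖ ≤ 4 * κ⁻¹ * ‖v‖
    nlinarith
  φ2 v := by
    have h1 : 1 ≤ κ⁻¹ := (one_le_inv₀ hκ).2 hκ1
    have h2 := dist_le_P3s v 0
    rw [map_zero, dist_zero_right, dist_zero_right] at h2
    have h3 := norm_nonneg (P3.symm v)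
    show ‖v‖ ≤ 4 * κ⁻¹ * ‖P3.symm v‖
    nlinarith
  ψ1 j v := ((hb j).cnd v).2
  ψ2 j v := (hb j).ψ2 hκ v

end MIn

end Crest.Agent.R096.Ca_855
end

-- ▼ part R096/Ca15_855

/-!
# Row 96 (S0127), p ≤ 2: composite A (helper855), part 15: `mfamS`, the mesh family of `PreIN`
-/

set_option autoImplicit false
set_option linter.unusedSectionVars false

open Set Metric MeasureTheory Filter
open scoped ENNReal Topology

namespace Crest.Agent.R096.Ca_855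

open Crest.AnalysisR.VecCalc3 Crest.AnalysisR.Sobolev
open Crest.Agent.R096.Msh_715
open Crest.Agent.R096.Mal_874 (MD CB RD RP reOm Rt Cn outD Rg tile_k_eq)
open Crest.Agent.R096.Msh_810 (Dat K)
open Crest.Agent.R096.Msb_432 (meshS rigidS_const Scl CIx)
open Crest.Agent.R96.En10_199 (P3)
open Crest.Agent.R096.Mf_113 (Rig)
open Crest.Agent.R096.Pin_753 (BlkP)
open Crest.Agent.R096.Gsm_432 (TG)
open Crest.Agent.R096.Nbr_896 (tileG_struct)

theorem TileG.re {E : Type} [NormedAddCommGroup E] [NormedSpace ℝ E] [FiniteDimensional ℝ E]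
    {Om Om' : Set E} (h : Om = Om') {ι : Type} {T : Tiling Om ι} {i : ι} {hne : (T.H i).Nonempty}
    {hne' : ((reOm T h).H i).Nonempty} {c : E} {β ρ t : ℝ} {nc : ℕ}
    (hT : TileG T i hne c β ρ t nc) : TileG (reOm T h) i hne' c β ρ t nc := by
  subst h
  exact hT

theorem card_re {E : Type} [NormedAddCommGroup E] [NormedSpace ℝ E] [FiniteDimensional ℝ E]
    {Om Om' : Set E} (h : Om = Om') {ι : Type} (T : Tiling Om ι) (i : ι) :
    {j | (P ((reOm T h).H j) ∩ P ((reOm T h).H i)).Nonempty} =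
        {j | (P (T.H j) ∩ P (T.H i)).Nonempty} ∧
      Nat.card (Crest.Agent.R096.Tgr_335.KT (reOm T h) i) =
        Nat.card (Crest.Agent.R096.Tgr_335.KT T i) ∧
      Nat.card (Crest.Agent.R096.Sk3_812.KT (reOm T h) i) =
        Nat.card (Crest.Agent.R096.Sk3_812.KT T i) := by
  subst h
  exact ⟨rfl, rfl, rfl⟩

/-- **the constants of the tiles** (896's `tileG_struct` on the blocks of `PreIN`): `D`, `nc` depend
on `κ`, `Bs` only; `β`, `ρ` on the net -/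
theorem exists_tile {κ : ℝ} (hκ : 0 < κ) (hκ1 : κ ≤ 1) (Bs : ℕ) :
    ∃ D : ℝ, 0 < D ∧ ∃ nc : ℕ,
      (∀ {Om W : Set R3} {ρ₀ : R3 → ℝ} {J : Type} [Finite J] {Qb : J → CB R3 3} {k0 Nn : ℕ}
        {σ : ℝ} (h : MIn Om W ρ₀ Qb k0 σ), (∀ j, MIn.BQ κ Bs Nn (Qb j) k0) → ∀ a,
        (∀ t, {j | (P ((h.T a).H j) ∩ P ((h.T a).H t)).Nonempty}.ncard ≤ nc ∧
          Nat.card (Crest.Agent.R096.Tgr_335.KT (h.T a) t) ≤ nc ∧
          Nat.card (Crest.Agent.R096.Sk3_812.KT (h.T a) t) ≤ nc) ∧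
        ∀ j t, (P ((h.T a).H t) ∩ (h.M.Bk (fun _ => h.cl a) j).N).Nonempty →
          ∀ x ∈ P ((h.T a).H t), ∀ y ∈ P ((h.T a).H t), ‖x - y‖ ≤ D / 2 ^ (Qb j).kc) ∧
      ∀ Nn : ℕ, ∃ β > 0, ∃ ρ > 0, ∀ {Om W : Set R3} {ρ₀ : R3 → ℝ} {J : Type} [Finite J]
        {Qb : J → CB R3 3} {k0 : ℕ} {σ : ℝ} (h : MIn Om W ρ₀ Qb k0 σ),
        (∀ j, MIn.BQ κ Bs Nn (Qb j) k0) → ∀ a t,
          ∃ κ', Scl h.M h.sc (0 + h.M.φ (h.cl a)) (h.adm a) t κ' ∧
            TG (h.Ts a) t β ρ D nc κ' := by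
  obtain ⟨D, hD, nc, h1, h2⟩ := tileG_struct (n := 3) R3 (4 * κ⁻¹) (max 1 (Bs:ℝ)) (max 1 Bs)
  refine ⟨D, hD, nc, ?_, fun Nn => ?_⟩
  · intro Om W ρ₀ J _ Qb k0 Nn σ h hb a
    obtain ⟨h2, h3⟩ := h1 h.M h.sc (0 + h.M.φ (h.cl a)) (h.adm a) (h.X hκ hκ1 hb)
      (h.rp hκ hκ1 hb a) (h.fb hκ hκ1 hb) (fun _ => le_rfl) (fun _ => le_rfl)
    refine ⟨fun t => ?_, h3⟩
    obtain ⟨e1, e2, e3⟩ := card_re h.dom (h.Ts a) t
    exact ⟨(congrArg Set.ncard e1).le.trans (h2 t).1, e2.le.trans (h2 t).2.1,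
      e3.le.trans (h2 t).2.2⟩
  · obtain ⟨β, hβ, ρ, hρ, h3⟩ := h2 (MIn.Ps_finite Nn) (4 * κ⁻¹)
    refine ⟨β, hβ, ρ, hρ, ?_⟩
    intro Om W ρ₀ J _ Qb k0 σ h hb a t
    exact h3 h.M h.sc (0 + h.M.φ (h.cl a)) (h.adm a) (h.X hκ hκ1 hb) (h.rp hκ hκ1 hb a)
      (h.fb hκ hκ1 hb) (h.X_Ps hκ hκ1 hb) (fun _ => le_rfl) (fun _ => le_rfl) (fun _ => le_rfl) t

namespace MIn

variable {Om W : Set R3} {ρ₀ : R3 → ℝ} {J : Type} {Qb : J → CB R3 3} {k0 : ℕ} {σ : ℝ}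
  [Finite J]

/-- the scale of an outer piece which meets `W` -/
theorem outer_k (h : MIn Om W ρ₀ Qb k0 σ) {a x : R3} (hx : x ∈ W)
    (p : h.M.OIx h.sc (0 + h.M.φ (h.cl a)) (h.adm a))
    (hp : x ∈ P ((h.M.mesh h.sc (0 + h.M.φ (h.cl a)) (h.adm a)).H (Sum.inl p))) :
    p.1.par.1.1.k = k0 := by
  have hx' : x ∈ P ((h.M.ad h.sc (0 + h.M.φ (h.cl a)) (h.adm a)).T0.H p.1.par) :=
    Crest.Agent.R096.Cut_874.cut_tile_sub (hA := Crest.Agent.R096.Mal_874.AF_ne) p.1 hp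
  refine tile_k_eq (φ := h.M.φ) (x := x) hx' ?_
  have h0 := h.σ0
  exact h.K_ev hx (by rw [dist_self]; positivity) _

/-- the scale of a tile which meets `W` -/
theorem scl_le (h : MIn Om W ρ₀ Qb k0 σ) {a : R3} {t : h.ιT a}
    (ht : (P ((h.T a).H t) ∩ W).Nonempty) {κ' : ℕ}
    (hs : Scl h.M h.sc (0 + h.M.φ (h.cl a)) (h.adm a) t κ') :
    κ' ≤ k0 + 1 ∧ (k0 ≤ κ' ∨ ∃ j, (Qb j).kc ≤ κ') := by
  obtain ⟨x, hx, hxW⟩ := ht
  rcases t with ⟨t, ht⟩ | c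
  · rcases t with p | ⟨j, i⟩
    · have hk : p.1.par.1.1.k = k0 := h.outer_k hxW p hx
      rcases hs with hs | ⟨j, hs, -⟩
      · rw [hk] at hs
        omega
      · simp only at hs
        omega
    · obtain ⟨h1, h2⟩ := hs
      exact ⟨h2, Or.inr ⟨j, h1⟩⟩
  · have h1 : κ' = (h.M.Q c.1).kc := hs
    have h2 := h.hk c.1
    rw [h1]
    exact ⟨h2.trans (Nat.le_succ _), Or.inr ⟨c.1, le_rfl⟩⟩

/-- **`TileG` for the tiles which meet `W`** -/
theorem tile (h : MIn Om W ρ₀ Qb k0 σ) {D β ρ t r : ℝ} {nc : ℕ} (hD : 0 ≤ D)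
    (hTG : ∀ a i, ∃ κ', Scl h.M h.sc (0 + h.M.φ (h.cl a)) (h.adm a) i κ' ∧
      TG (h.Ts a) i β ρ D nc κ')
    (hDk : ∀ j, D / 2 ^ (Qb j).kc ≤ t) (hD0 : D / 2 ^ k0 ≤ t) (hrt : r * t ≤ ρ / 2 ^ (k0 + 1))
    (a : R3) (i : h.ιT a) : ∃ c, (P ((h.T a).H i) ∩ W).Nonempty →
      TileG (h.T a) i (Gsm_432.H_ne (h.T a) i) c β (r * t) t nc := by
  obtain ⟨κ', h1, -, c, h3⟩ := hTG a i
  refine ⟨c, fun hi => ?_⟩
  obtain ⟨h4, h5⟩ := h.scl_le hi h1
  have hmono : ∀ {k k' : ℕ}, k ≤ k' → D / 2 ^ k' ≤ D / 2 ^ k := fun hkk =>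
    div_le_div_of_nonneg_left hD (by positivity) (pow_le_pow_right₀ (by norm_num) hkk)
  have h6 : D / 2 ^ κ' ≤ t := by
    rcases h5 with h5 | ⟨j, h5⟩
    · exact (hmono h5).trans hD0
    · exact (hmono h5).trans (hDk j)
  have h7 : TileG (h.T a) i (Gsm_432.H_ne (h.T a) i) c β (ρ / 2 ^ (k0 + 1)) t nc :=
    TileG.re h.dom (T := h.Ts a) (h3 (Gsm_432.H_ne (h.T a) i) (k0 + 1) t h4 h6)
  exact h7.diam' hrt h7.diam


end MIn

end Crest.Agent.R096.Ca_855
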