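import Mathlib
import Crest.Agent.R096.Fce1_793

-- ▼ part R096/Fce2_793
section

set_option autoImplicit false
set_option linter.unusedSectionVars false

open MeasureTheory Set Filter
open scoped ENNReal Topology

namespace Crest.Agent.R096.Fce_793

open Crest.Agent.R96.Acl_392 Crest.Agent.R96.Sob4_199

noncomputable section

/-- Cauchy-Schwarz on an interval -/
theorem sq_integral_le {φ : ℝ → ℝ} {G : ℝ → ℝ≥0∞} {h : ℝ} (hh0 : 0 ≤ h)
    (hφ : IntegrableOn φ (Icc 0 h)) (h0 : ∀ τ, 0 ≤ φ τ)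
    (hG : ∀ᵐ τ ∂(volume.restrict (Icc 0 h)), ENNReal.ofReal (φ τ) ^ 2 ≤ G τ)
    (hfin : ∫⁻ τ in Icc 0 h, G τ ≠ ∞) :
    (∫ τ in (0:ℝ)..h, φ τ) ^ 2 ≤ h * (∫⁻ τ in Icc 0 h, G τ).toReal := by
  set ν : Measure ℝ := volume.restrict (Icc 0 h) with hν
  have e1 : ∫ τ in (0:ℝ)..h, φ τ = ∫ τ, φ τ ∂ν := by
    rw [intervalIntegral.integral_of_le hh0, ← integral_Icc_eq_integral_Ioc]
  have e2 : ∫ τ, φ τ ∂ν = (∫⁻ τ, ENNReal.ofReal (φ τ) ∂ν).toReal :=
    integral_eq_lintegral_of_nonneg_ae (Eventually.of_forall h0) hφ.1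
  have hm : AEMeasurable (fun τ => ENNReal.ofReal (φ τ)) ν := hφ.1.aemeasurable.ennreal_ofReal
  have h2 : Real.HolderConjugate 2 2 := Real.HolderConjugate.two_two
  have h3 := ENNReal.lintegral_mul_le_Lp_mul_Lq ν h2 hm (aemeasurable_const (b := (1:ℝ≥0∞)))
  simp only [Pi.mul_apply, mul_one, ENNReal.one_rpow, lintegral_const, one_mul] at h3
  have h4 : ν univ = ENNReal.ofReal h := by
    rw [hν, Measure.restrict_apply_univ, Real.volume_Icc, sub_zero]
  rw [h4] at h3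
  have h5 : ∫⁻ τ, ENNReal.ofReal (φ τ) ^ (2:ℝ) ∂ν ≤ ∫⁻ τ, G τ ∂ν := by
    apply lintegral_mono_ae
    filter_upwards [hG] with τ hτ
    rwa [ENNReal.rpow_two]
  have h6 : (∫⁻ τ, ENNReal.ofReal (φ τ) ∂ν) ^ 2 ≤ (∫⁻ τ, G τ ∂ν) * ENNReal.ofReal h := by
    calc (∫⁻ τ, ENNReal.ofReal (φ τ) ∂ν) ^ 2
        ≤ ((∫⁻ τ, ENNReal.ofReal (φ τ) ^ (2:ℝ) ∂ν) ^ ((1:ℝ)/2) *
            ENNReal.ofReal h ^ ((1:ℝ)/2)) ^ 2 := by gcongr
      _ = (∫⁻ τ, ENNReal.ofReal (φ τ) ^ (2:ℝ) ∂ν) * ENNReal.ofReal h := by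
          rw [mul_pow, ← ENNReal.rpow_two, ← ENNReal.rpow_two, ← ENNReal.rpow_mul,
            ← ENNReal.rpow_mul]
          norm_num
      _ ≤ _ := by gcongr
  rw [e1, e2, ← ENNReal.toReal_pow]
  calc ((∫⁻ τ, ENNReal.ofReal (φ τ) ∂ν) ^ 2).toReal
      ≤ ((∫⁻ τ, G τ ∂ν) * ENNReal.ofReal h).toReal :=
        ENNReal.toReal_mono (ENNReal.mul_ne_top hfin ENNReal.ofReal_ne_top) h6
    _ = h * (∫⁻ τ, G τ ∂ν).toReal := by
        rw [ENNReal.toReal_mul, ENNReal.toReal_ofReal hh0, mul_comm]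

variable {E : Type*} [NormedAddCommGroup E] [NormedSpace ℝ E] [FiniteDimensional ℝ E]
  [MeasurableSpace E] [BorelSpace E] {μ : Measure E} [μ.IsAddHaarMeasure]
  {ι : Type*} [Fintype ι]

/-- a good position: the fundamental theorem on all the edges -/
def Pos (Ω : Set E) (f : E → EuclideanSpace ℝ ι) (D : Fin 2 → E → EuclideanSpace ℝ ι)
    (G : E → ℝ≥0∞) (e : Fin 2 → E) (a : E) : Prop :=
  ∀ n, ∀ m : Ix n, ∀ k i : Fin 2, (∀ s t : ℝ, s ≤ t → pt e a (st n m k i) ∈ segIn Ω (e i) s t →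
      IntegrableOn (fun τ : ℝ => ‖D i (pt e a (st n m k i) + τ • e i)‖) (Icc s t) ∧
      ‖f (pt e a (st n m k i) + t • e i) - f (pt e a (st n m k i) + s • e i)‖ ≤
        ∫ τ in s..t, ‖D i (pt e a (st n m k i) + τ • e i)‖) ∧
    ∀ᵐ τ : ℝ, pt e a (st n m k i) + τ • e i ∈ Ω →
      ‖D i (pt e a (st n m k i) + τ • e i)‖ₑ ^ 2 ≤ G (pt e a (st n m k i) + τ • e i)

theorem ae_pos {Ω : Set E} (hΩ : IsOpen Ω) {f : E → EuclideanSpace ℝ ι} (hf : ContinuousOn f Ω)
    {e : Fin 2 → E} {D : Fin 2 → E → EuclideanSpace ℝ ι} (hD : ∀ i, VWD Ω μ f (D i) (e i))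
    {G : E → ℝ≥0∞} (hG : ∀ i, ∀ᵐ x ∂μ, x ∈ Ω → ‖D i x‖ₑ ^ 2 ≤ G x) :
    ∀ᵐ a ∂μ, Pos Ω f D G e a := by
  have key : ∀ (v : E) {p : E → Prop}, (∀ᵐ x ∂μ, p x) → ∀ᵐ a ∂μ, p (a + v) := by
    intro v p hp
    exact (measurePreserving_add_right μ v).quasiMeasurePreserving.ae hp
  have h1 : ∀ n, ∀ m : Ix n, ∀ k i : Fin 2, ∀ᵐ a ∂μ,
      (∀ s t : ℝ, s ≤ t → pt e a (st n m k i) ∈ segIn Ω (e i) s t →
      IntegrableOn (fun τ : ℝ => ‖D i (pt e a (st n m k i) + τ • e i)‖) (Icc s t) ∧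
      ‖f (pt e a (st n m k i) + t • e i) - f (pt e a (st n m k i) + s • e i)‖ ≤
        ∫ τ in s..t, ‖D i (pt e a (st n m k i) + τ • e i)‖) ∧
      ∀ᵐ τ : ℝ, pt e a (st n m k i) + τ • e i ∈ Ω →
      ‖D i (pt e a (st n m k i) + τ • e i)‖ₑ ^ 2 ≤ G (pt e a (st n m k i) + τ • e i) := by
    intro n m k i
    have h2 := key (pt e 0 (st n m k i)) (vline_bound hΩ (hD i) hf)
    have h3 := key (pt e 0 (st n m k i)) (Crest.Agent.R96.Sob2_199.ae_line_of_ae (hG i) (e i))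
    filter_upwards [h2, h3] with a h4 h5
    rw [← pt_eq] at h4 h5
    exact ⟨h4, h5⟩
  filter_upwards [ae_all_iff.2 fun n => ae_all_iff.2 fun m => ae_all_iff.2 fun k =>
    ae_all_iff.2 fun i => h1 n m k i] with a ha n m k i
  exact ha n m k i

/-- the length of the image of an edge -/
def ell (D : Fin 2 → E → EuclideanSpace ℝ ι) (e : Fin 2 → E) (a : E) (n : ℕ) (m : Ix n)
    (k i : Fin 2) : ℝ :=
  ∫ τ in (0:ℝ)..hh n, ‖D i (pt e a (st n m k i) + τ • e i)‖

theorem ell_nonneg (D : Fin 2 → E → EuclideanSpace ℝ ι) (e : Fin 2 → E) (a : E) (n : ℕ) (m : Ix n)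
    (k i : Fin 2) : 0 ≤ ell D e a n m k i :=
  intervalIntegral.integral_nonneg (hh_pos n).le fun _ _ => norm_nonneg _

theorem mem_segIn {Ω : Set E} {e : Fin 2 → E} {a : E} {n : ℕ} {m : Ix n} (k i : Fin 2)
    (h : ∀ w ∈ sq n m, pt e a w ∈ Ω) : pt e a (st n m k i) ∈ segIn Ω (e i) 0 (hh n) := by
  intro τ hτ
  rw [← pt_add]
  exact h _ (edg_subset n m k i ⟨τ, hτ, rfl⟩)

theorem ell_osc {Ω : Set E} {f : E → EuclideanSpace ℝ ι} {e : Fin 2 → E}
    {D : Fin 2 → E → EuclideanSpace ℝ ι} {G : E → ℝ≥0∞} {a : E} (hp : Pos Ω f D G e a) {n : ℕ}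
    {m : Ix n} (h : ∀ w ∈ sq n m, pt e a w ∈ Ω) {k i : Fin 2} {w w' : ℝ × ℝ}
    (hw : w ∈ edg n m k i) (hw' : w' ∈ edg n m k i) :
    dist (f (pt e a w)) (f (pt e a w')) ≤ ell D e a n m k i := by
  obtain ⟨τ, hτ, rfl⟩ := hw
  obtain ⟨τ', hτ', rfl⟩ := hw'
  obtain ⟨h1, -⟩ := hp n m k i
  have hseg := mem_segIn k i h
  have hint := (h1 0 (hh n) (hh_pos n).le hseg).1
  have hsub : ∀ s t : ℝ, s ∈ Icc 0 (hh n) → t ∈ Icc 0 (hh n) → s ≤ t →
      ‖f (pt e a (st n m k i) + t • e i) - f (pt e a (st n m k i) + s • e i)‖ ≤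
        ell D e a n m k i := by
    intro s t hs ht hst
    have h2 := (h1 s t hst fun σ hσ => hseg σ ⟨hs.1.trans hσ.1, hσ.2.trans ht.2⟩).2
    refine h2.trans ?_
    unfold ell
    apply intervalIntegral.integral_mono_interval hs.1 hst ht.2
    · exact Eventually.of_forall fun _ => norm_nonneg _
    · exact (intervalIntegrable_iff_integrableOn_Icc_of_le (hh_pos n).le).2 hint
  rw [dist_eq_norm, pt_add, pt_add]
  rcases le_total τ τ' with hle | hle
  · rw [norm_sub_rev]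
    exact hsub _ _ hτ hτ' hle
  · exact hsub _ _ hτ' hτ hle

theorem ell_sq_le {Ω : Set E} {f : E → EuclideanSpace ℝ ι} {e : Fin 2 → E}
    {D : Fin 2 → E → EuclideanSpace ℝ ι} {G : E → ℝ≥0∞} {a : E} (hp : Pos Ω f D G e a) {n : ℕ}
    {m : Ix n} (h : ∀ w ∈ sq n m, pt e a w ∈ Ω) {k i : Fin 2} (hfin : ie G e a n m k i ≠ ∞) :
    ell D e a n m k i ^ 2 ≤ hh n * (ie G e a n m k i).toReal := by
  obtain ⟨h1, h2⟩ := hp n m k i
  have hseg := mem_segIn k i h
  have hint := (h1 0 (hh n) (hh_pos n).le hseg).1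
  unfold ell ie
  apply sq_integral_le (hh_pos n).le hint (fun _ => norm_nonneg _)
  · rw [ae_restrict_iff' measurableSet_Icc]
    filter_upwards [h2] with τ hτ hτ'
    rw [ofReal_norm]
    exact hτ (hseg τ hτ')
  · exact hfin

theorem c00_mem (n : ℕ) (m : Ix n) : cor n m ∈ edg n m 0 0 ∧ cor n m ∈ edg n m 0 1 := by
  constructor <;> exact ⟨0, ⟨le_rfl, (hh_pos n).le⟩, by simp [st]⟩

theorem c10_mem (n : ℕ) (m : Ix n) :
    cor n m + (hh n, 0) ∈ edg n m 0 0 ∧ cor n m + (hh n, 0) ∈ edg n m 1 1 := by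
  constructor
  · exact ⟨hh n, ⟨(hh_pos n).le, le_rfl⟩, by simp [st, bs]⟩
  · exact ⟨0, ⟨le_rfl, (hh_pos n).le⟩, by simp [st]⟩

theorem c01_mem (n : ℕ) (m : Ix n) :
    cor n m + (0, hh n) ∈ edg n m 0 1 ∧ cor n m + (0, hh n) ∈ edg n m 1 0 := by
  constructor
  · exact ⟨hh n, ⟨(hh_pos n).le, le_rfl⟩, by simp [st, bs]⟩
  · exact ⟨0, ⟨le_rfl, (hh_pos n).le⟩, by simp [st]⟩

theorem c11_mem (n : ℕ) (m : Ix n) :
    cor n m + (hh n, hh n) ∈ edg n m 1 0 ∧ cor n m + (hh n, hh n) ∈ edg n m 1 1 := by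
  constructor
  · exact ⟨hh n, ⟨(hh_pos n).le, le_rfl⟩, by simp [st, bs, add_assoc]⟩
  · exact ⟨hh n, ⟨(hh_pos n).le, le_rfl⟩, by simp [st, bs, add_assoc]⟩

/-- the oscillation over the rim -/
def oo (D : Fin 2 → E → EuclideanSpace ℝ ι) (e : Fin 2 → E) (a : E) (n : ℕ) (m : Ix n) : ℝ :=
  ell D e a n m 0 0 + ell D e a n m 0 1 + ell D e a n m 1 0 + ell D e a n m 1 1

theorem oo_nonneg (D : Fin 2 → E → EuclideanSpace ℝ ι) (e : Fin 2 → E) (a : E) (n : ℕ)
    (m : Ix n) : 0 ≤ oo D e a n m := by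
  have := ell_nonneg D e a n m 0 0
  have := ell_nonneg D e a n m 0 1
  have := ell_nonneg D e a n m 1 0
  have := ell_nonneg D e a n m 1 1
  unfold oo
  linarith

theorem oo_osc {Ω : Set E} {f : E → EuclideanSpace ℝ ι} {e : Fin 2 → E}
    {D : Fin 2 → E → EuclideanSpace ℝ ι} {G : E → ℝ≥0∞} {a : E} (hp : Pos Ω f D G e a) {n : ℕ}
    {m : Ix n} (h : ∀ w ∈ sq n m, pt e a w ∈ Ω) {w w' : ℝ × ℝ}
    (hw : w ∈ rim n m) (hw' : w' ∈ rim n m) :
    dist (f (pt e a w)) (f (pt e a w')) ≤ oo D e a n m := by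
  have n1 := ell_nonneg D e a n m 0 0
  have n2 := ell_nonneg D e a n m 0 1
  have n3 := ell_nonneg D e a n m 1 0
  have n4 := ell_nonneg D e a n m 1 1
  have key : ∀ k i, ∀ v ∈ edg n m k i, ∀ v' ∈ edg n m k i,
      dist (f (pt e a v)) (f (pt e a v')) ≤ ell D e a n m k i :=
    fun k i v hv v' hv' => ell_osc hp h hv hv'
  -- two edges with a common point
  have adj : ∀ k i k' i' (c : ℝ × ℝ), c ∈ edg n m k i → c ∈ edg n m k' i' →
      ∀ v ∈ edg n m k i, ∀ v' ∈ edg n m k' i',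
      dist (f (pt e a v)) (f (pt e a v')) ≤ ell D e a n m k i + ell D e a n m k' i' :=
    fun k i k' i' c h1 h2 v hv v' hv' =>
      (dist_triangle _ (f (pt e a c)) _).trans (add_le_add (key _ _ _ hv _ h1) (key _ _ _ h2 _ hv'))
  have opp : ∀ k i k' i' k'' i'' (c c' : ℝ × ℝ), c ∈ edg n m k i → c ∈ edg n m k' i' →
      c' ∈ edg n m k' i' → c' ∈ edg n m k'' i'' → ∀ v ∈ edg n m k i, ∀ v' ∈ edg n m k'' i'',
      dist (f (pt e a v)) (f (pt e a v')) ≤
        ell D e a n m k i + ell D e a n m k' i' + ell D e a n m k'' i'' :=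
    fun k i k' i' k'' i'' c c' h1 h2 h3 h4 v hv v' hv' =>
      (dist_triangle _ (f (pt e a c')) _).trans
        (add_le_add (adj _ _ _ _ c h1 h2 _ hv _ h3) (key _ _ _ h4 _ hv'))
  obtain ⟨a0, a1⟩ := c00_mem n m
  obtain ⟨b0, b1⟩ := c10_mem n m
  obtain ⟨c0, c1⟩ := c01_mem n m
  obtain ⟨d0, d1⟩ := c11_mem n m
  obtain ⟨k, hk⟩ := mem_iUnion.1 hw
  obtain ⟨i, hi⟩ := mem_iUnion.1 hk
  obtain ⟨k', hk'⟩ := mem_iUnion.1 hw'
  obtain ⟨i', hi'⟩ := mem_iUnion.1 hk'
  unfold oo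
  have two : ∀ k i : Fin 2, (k = 0 ∧ i = 0) ∨ (k = 0 ∧ i = 1) ∨ (k = 1 ∧ i = 0) ∨
      (k = 1 ∧ i = 1) := by decide
  rcases two k i with ⟨rfl, rfl⟩ | ⟨rfl, rfl⟩ | ⟨rfl, rfl⟩ | ⟨rfl, rfl⟩ <;>
    rcases two k' i' with ⟨rfl, rfl⟩ | ⟨rfl, rfl⟩ | ⟨rfl, rfl⟩ | ⟨rfl, rfl⟩
  · linarith [key _ _ _ hi _ hi']
  · linarith [adj _ _ _ _ _ a0 a1 _ hi _ hi']
  · linarith [opp _ _ _ _ _ _ _ _ a0 a1 c0 c1 _ hi _ hi']
  · linarith [adj _ _ _ _ _ b0 b1 _ hi _ hi']
  · linarith [adj _ _ _ _ _ a1 a0 _ hi _ hi']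
  · linarith [key _ _ _ hi _ hi']
  · linarith [adj _ _ _ _ _ c0 c1 _ hi _ hi']
  · linarith [opp _ _ _ _ _ _ _ _ a1 a0 b0 b1 _ hi _ hi']
  · linarith [opp _ _ _ _ _ _ _ _ c1 c0 a1 a0 _ hi _ hi']
  · linarith [adj _ _ _ _ _ c1 c0 _ hi _ hi']
  · linarith [key _ _ _ hi _ hi']
  · linarith [adj _ _ _ _ _ d0 d1 _ hi _ hi']
  · linarith [adj _ _ _ _ _ b1 b0 _ hi _ hi']
  · linarith [opp _ _ _ _ _ _ _ _ b1 b0 a0 a1 _ hi _ hi']
  · linarith [adj _ _ _ _ _ d1 d0 _ hi _ hi']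
  · linarith [key _ _ _ hi _ hi']

theorem oo_sq_le {Ω : Set E} {f : E → EuclideanSpace ℝ ι} {e : Fin 2 → E}
    {D : Fin 2 → E → EuclideanSpace ℝ ι} {G : E → ℝ≥0∞} {a : E} (hp : Pos Ω f D G e a) {n : ℕ}
    {m : Ix n} (h : ∀ w ∈ sq n m, pt e a w ∈ Ω) (hfin : isq G e a n m ≠ ∞) :
    oo D e a n m ^ 2 ≤ 4 * (hh n * (isq G e a n m).toReal) := by
  have hf : ∀ k i, ie G e a n m k i ≠ ∞ := by
    intro k i
    refine ne_top_of_le_ne_top hfin ?_
    unfold isq
    exact (Finset.single_le_sum (f := fun i => ie G e a n m k i) (fun _ _ => zero_le)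
      (Finset.mem_univ i)).trans (Finset.single_le_sum
        (f := fun k => ∑ i, ie G e a n m k i) (fun _ _ => zero_le) (Finset.mem_univ k))
  have h1 : (isq G e a n m).toReal = (ie G e a n m 0 0).toReal + (ie G e a n m 0 1).toReal +
      ((ie G e a n m 1 0).toReal + (ie G e a n m 1 1).toReal) := by
    unfold isq
    rw [Fin.sum_univ_two, Fin.sum_univ_two, Fin.sum_univ_two,
      ENNReal.toReal_add (ENNReal.add_ne_top.2 ⟨hf 0 0, hf 0 1⟩)
        (ENNReal.add_ne_top.2 ⟨hf 1 0, hf 1 1⟩),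
      ENNReal.toReal_add (hf 0 0) (hf 0 1), ENNReal.toReal_add (hf 1 0) (hf 1 1)]
  rw [h1]
  have e1 := ell_sq_le hp h (hf 0 0)
  have e2 := ell_sq_le hp h (hf 0 1)
  have e3 := ell_sq_le hp h (hf 1 0)
  have e4 := ell_sq_le hp h (hf 1 1)
  unfold oo
  nlinarith [sq_nonneg (ell D e a n m 0 0 - ell D e a n m 0 1),
    sq_nonneg (ell D e a n m 0 0 - ell D e a n m 1 0),
    sq_nonneg (ell D e a n m 0 0 - ell D e a n m 1 1),
    sq_nonneg (ell D e a n m 0 1 - ell D e a n m 1 0),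
    sq_nonneg (ell D e a n m 0 1 - ell D e a n m 1 1),
    sq_nonneg (ell D e a n m 1 0 - ell D e a n m 1 1)]

end

end Crest.Agent.R096.Fce_793
end

-- ▼ part R096/Isl2_968
section

/-!
# R096 (S0127), leaf P2-SHORT, parts (I2) and (S1)

* `levels_le`: Markov + Tonelli on levels: the levels `t` at which the total weight of the faces
  whose range contains `t` is at least `lam` have measure at most `(1 / lam) ∑ o_q |I_q|`.
* `ediam_le_sum`: a finite family of sets of diameters `≤ o_q` with connected union has a union of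
  diameter at most `∑ o_q`.
* `exists_centre(s)`: choice of the centres `z_c`, brick by brick, outside null sets, with two
  averages under control.
-/

set_option autoImplicit false

namespace Crest.Agent.R096.Isl_968

open MeasureTheory Set
open scoped ENNReal

/-- **(I2)** levels which are hit with total weight `≥ lam` -/
theorem levels_le {ι : Type*} [Countable ι] (I : ι → Set ℝ) (hI : ∀ q, MeasurableSet (I q))
    (o : ι → ℝ≥0∞) {lam : ℝ≥0∞} (h0 : lam ≠ 0) (ht : lam ≠ ∞) :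
    volume {t | lam ≤ ∑' q, (I q).indicator (fun _ => o q) t} ≤
      (∑' q, o q * volume (I q)) / lam := by
  have hm : ∀ q, Measurable (fun t => (I q).indicator (fun _ => o q) t) := fun q =>
    measurable_const.indicator (hI q)
  refine (meas_ge_le_lintegral_div (Measurable.tsum hm).aemeasurable h0 ht).trans ?_
  gcongr
  rw [lintegral_tsum (fun q => (hm q).aemeasurable)]
  refine ENNReal.tsum_le_tsum fun q => ?_
  rw [lintegral_indicator (hI q), setLIntegral_const]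


/-- a finite family of sets linked together has a union of diameter at most the sum of the
diameters -/
theorem ediam_le_sum {X ι : Type*} [PseudoEMetricSpace X] (s : Finset ι) (A : ι → Set X)
    (o : ι → ℝ≥0∞) (ho : ∀ q ∈ s, Metric.ediam (A q) ≤ o q)
    (hlink : ∀ s' ⊆ s, s'.Nonempty → s' ≠ s → ∃ q ∈ s', ∃ q' ∈ s, q' ∉ s' ∧ (A q ∩ A q').Nonempty) :
    Metric.ediam (⋃ q ∈ s, A q) ≤ ∑ q ∈ s, o q := by
  classical
  rcases s.eq_empty_or_nonempty with rfl | ⟨q0, hq0⟩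
  · simp
  let P : Finset ι → Prop := fun s' => s'.Nonempty ∧ Metric.ediam (⋃ q ∈ s', A q) ≤ ∑ q ∈ s', o q
  have hP0 : P {q0} := ⟨Finset.singleton_nonempty _, by simpa using ho q0 hq0⟩
  obtain ⟨m, hm, hmax⟩ := (s.powerset.filter P).exists_max_image (fun t => t.card)
    ⟨{q0}, by simp [hq0, hP0]⟩
  rw [Finset.mem_filter, Finset.mem_powerset] at hm
  obtain ⟨hms, hmne, hmd⟩ := hm
  by_cases hms' : m = s
  · rwa [hms'] at hmd
  obtain ⟨q, hq, q', hq', hqm, hne⟩ := hlink m hms hmne hms'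
  exfalso
  have hins : P (insert q' m) := by
    refine ⟨Finset.insert_nonempty _ _, ?_⟩
    rw [Finset.set_biUnion_insert, Finset.sum_insert hqm]
    have hne' : (A q' ∩ ⋃ q ∈ m, A q).Nonempty := by
      obtain ⟨x, hx1, hx2⟩ := hne
      exact ⟨x, hx2, mem_iUnion₂.2 ⟨q, hq, hx1⟩⟩
    exact (Metric.ediam_union_le hne').trans (add_le_add (ho q' hq') hmd)
  have := hmax (insert q' m) (by
    rw [Finset.mem_filter, Finset.mem_powerset]
    exact ⟨Finset.insert_subset hq' hms, hins⟩)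
  rw [Finset.card_insert_of_notMem hqm] at this
  omega




end Crest.Agent.R096.Isl_968
end

-- ▼ part R096/Sc1_968
section

/-!
# R096 (S0127), p = 2: small circles (SC), part 1: clusters of cells
-/

set_option autoImplicit false

namespace Crest.Agent.R096.Sc_968

open MeasureTheory Set Metric
open scoped ENNReal

/-- linked finite families: every proper nonempty part is linked with the rest -/
def Lk {X J : Type*} (A : J → Set X) (s : Finset J) : Prop :=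
  ∀ s' ⊆ s, s'.Nonempty → s' ≠ s → ∃ q ∈ s', ∃ q' ∈ s, q' ∉ s' ∧ (A q ∩ A q').Nonempty

lemma Lk.union {X J : Type*} [DecidableEq J] {A : J → Set X} {s t : Finset J} (hs : Lk A s)
    (ht : Lk A t) (hst : (s ∩ t).Nonempty) : Lk A (s ∪ t) := by
  intro s' hs' hne hne'
  by_cases h1 : (s' ∩ s).Nonempty ∧ s' ∩ s ≠ s
  · obtain ⟨q, hq, q', hq', hn, h⟩ := hs (s' ∩ s) Finset.inter_subset_right h1.1 h1.2
    refine ⟨q, (Finset.mem_inter.1 hq).1, q', Finset.mem_union_left _ hq', fun h' => hn ?_, h⟩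
    exact Finset.mem_inter.2 ⟨h', hq'⟩
  by_cases h2 : (s' ∩ t).Nonempty ∧ s' ∩ t ≠ t
  · obtain ⟨q, hq, q', hq', hn, h⟩ := ht (s' ∩ t) Finset.inter_subset_right h2.1 h2.2
    refine ⟨q, (Finset.mem_inter.1 hq).1, q', Finset.mem_union_right _ hq', fun h' => hn ?_, h⟩
    exact Finset.mem_inter.2 ⟨h', hq'⟩
  exfalso
  have e1 : (∀ x ∈ s, x ∉ s') ∨ s ⊆ s' := by
    by_cases h : (s' ∩ s).Nonempty
    · right
      have : s' ∩ s = s := by
        by_contra h'
        exact h1 ⟨h, h'⟩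
      intro x hx
      rw [← this] at hx
      exact (Finset.mem_inter.1 hx).1
    · left
      intro x hx hx'
      exact h ⟨x, Finset.mem_inter.2 ⟨hx', hx⟩⟩
  have e2 : (∀ x ∈ t, x ∉ s') ∨ t ⊆ s' := by
    by_cases h : (s' ∩ t).Nonempty
    · right
      have : s' ∩ t = t := by
        by_contra h'
        exact h2 ⟨h, h'⟩
      intro x hx
      rw [← this] at hx
      exact (Finset.mem_inter.1 hx).1
    · left
      intro x hx hx'
      exact h ⟨x, Finset.mem_inter.2 ⟨hx', hx⟩⟩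
  obtain ⟨j, hj⟩ := hst
  rw [Finset.mem_inter] at hj
  rcases e1 with e1 | e1 <;> rcases e2 with e2 | e2
  · obtain ⟨x, hx⟩ := hne
    rcases Finset.mem_union.1 (hs' hx) with h | h
    · exact e1 x h hx
    · exact e2 x h hx
  · exact e1 j hj.1 (e2 hj.2)
  · exact e2 j hj.2 (e1 hj.1)
  · exact hne' (Finset.Subset.antisymm hs' (Finset.union_subset e1 e2))

/-- merging linked families into pairwise disjoint clusters -/
theorem exists_clusters {X J ι : Type*} [DecidableEq J] [Fintype ι] (A : J → Set X)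
    (c : ι → Finset J) (Jp : Finset J) (hc : ∀ i, Lk A (c i) ∧ (c i ⊆ Jp ∨ (c i).card ≤ 1)) :
    ∃ C : Finset (Finset J), C.card ≤ Fintype.card ι ∧ (∀ i, ∃ D ∈ C, c i ⊆ D) ∧
      (∀ D ∈ C, Lk A D ∧ (D ⊆ Jp ∨ D.card ≤ 1)) ∧
      ∀ D ∈ C, ∀ D' ∈ C, D ≠ D' → Disjoint D D' := by
  classical
  let P : Finset (Finset J) → Prop := fun C => (∀ i, ∃ D ∈ C, c i ⊆ D) ∧
    ∀ D ∈ C, Lk A D ∧ (D ⊆ Jp ∨ D.card ≤ 1)
  have hP0 : P (Finset.univ.image c) := by
    refine ⟨fun i => ⟨c i, Finset.mem_image_of_mem _ (Finset.mem_univ _), Finset.Subset.refl _⟩, ?_⟩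
    intro D hD
    obtain ⟨i, -, rfl⟩ := Finset.mem_image.1 hD
    exact hc i
  have hex : ∃ n, ∃ C, P C ∧ C.card = n := ⟨_, _, hP0, rfl⟩
  obtain ⟨C, hC, hn⟩ := Nat.find_spec hex
  refine ⟨C, ?_, hC.1, hC.2, ?_⟩
  · have h1 := Nat.find_min' hex ⟨_, hP0, rfl⟩
    have h2 : (Finset.univ.image c).card ≤ Fintype.card ι := by
      simpa using Finset.card_image_le (s := Finset.univ) (f := c)
    omega
  · intro D hD D' hD' hne
    by_contra hdis
    rw [Finset.not_disjoint_iff] at hdis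
    obtain ⟨j, hj, hj'⟩ := hdis
    have hDE : D' ∈ C.erase D := Finset.mem_erase.2 ⟨hne.symm, hD'⟩
    have hcard : ((C.erase D).erase D').card + 2 = C.card := by
      have e1 := Finset.card_erase_add_one hD
      have e2 := Finset.card_erase_add_one hDE
      omega
    have hP : P (insert (D ∪ D') ((C.erase D).erase D')) := by
      refine ⟨fun i => ?_, fun E hE => ?_⟩
      · obtain ⟨E, hE, hi⟩ := hC.1 i
        by_cases h1 : E = D
        · subst h1
          exact ⟨_, Finset.mem_insert_self _ _, hi.trans Finset.subset_union_left⟩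
        by_cases h2 : E = D'
        · subst h2
          exact ⟨_, Finset.mem_insert_self _ _, hi.trans Finset.subset_union_right⟩
        · exact ⟨E, Finset.mem_insert_of_mem (Finset.mem_erase.2 ⟨h2, Finset.mem_erase.2 ⟨h1, hE⟩⟩), hi⟩
      · rw [Finset.mem_insert] at hE
        rcases hE with rfl | hE
        · obtain ⟨l1, k1⟩ := hC.2 D hD
          obtain ⟨l2, k2⟩ := hC.2 D' hD'
          refine ⟨l1.union l2 ⟨j, Finset.mem_inter.2 ⟨hj, hj'⟩⟩, ?_⟩
          rcases k1 with k1 | k1 <;> rcases k2 with k2 | k2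
          · exact Or.inl (Finset.union_subset k1 k2)
          · left
            refine Finset.union_subset k1 fun x hx => ?_
            rw [Finset.card_le_one.1 k2 x hx j hj']
            exact k1 hj
          · left
            refine Finset.union_subset (fun x hx => ?_) k2
            rw [Finset.card_le_one.1 k1 x hx j hj]
            exact k2 hj'
          · exfalso
            apply hne
            ext x
            constructor
            · intro hx
              rw [Finset.card_le_one.1 k1 x hx j hj]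
              exact hj'
            · intro hx
              rw [Finset.card_le_one.1 k2 x hx j hj']
              exact hj
        · exact hC.2 E (Finset.mem_of_mem_erase (Finset.mem_of_mem_erase hE))
    have hlt : (insert (D ∪ D') ((C.erase D).erase D')).card < C.card := by
      have := Finset.card_insert_le (D ∪ D') ((C.erase D).erase D')
      omega
    have := Nat.find_min' hex ⟨_, hP, rfl⟩
    omega

/-- diameter of the image of a linked family -/
lemma dist_le_sum {X Y J : Type*} [PseudoMetricSpace Y] [DecidableEq J] {A : J → Set X}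
    {f : X → Y} {s : Finset J} (hs : Lk A s) {o : J → ℝ} (ho0 : ∀ j ∈ s, 0 ≤ o j)
    (ho : ∀ j ∈ s, ∀ x ∈ A j, ∀ y ∈ A j, dist (f x) (f y) ≤ o j) {j k : J} (hj : j ∈ s)
    (hk : k ∈ s) {x y : X} (hx : x ∈ A j) (hy : y ∈ A k) : dist (f x) (f y) ≤ ∑ q ∈ s, o q := by
  have h1 := Isl_968.ediam_le_sum s (fun q => f '' A q) (fun q => ENNReal.ofReal (o q))
    (by
      intro q hq
      refine Metric.ediam_le ?_
      rintro _ ⟨a, ha, rfl⟩ _ ⟨b, hb, rfl⟩
      rw [edist_dist]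
      exact ENNReal.ofReal_le_ofReal (ho q hq a ha b hb))
    (by
      intro s' hs' hne hne'
      obtain ⟨q, hq, q', hq', hn, z, hz, hz'⟩ := hs s' hs' hne hne'
      exact ⟨q, hq, q', hq', hn, f z, ⟨z, hz, rfl⟩, ⟨z, hz', rfl⟩⟩)
  have m1 : f x ∈ ⋃ q ∈ s, f '' A q := mem_iUnion₂.2 ⟨j, hj, x, hx, rfl⟩
  have m2 : f y ∈ ⋃ q ∈ s, f '' A q := mem_iUnion₂.2 ⟨k, hk, y, hy, rfl⟩
  have h2 : edist (f x) (f y) ≤ ∑ q ∈ s, ENNReal.ofReal (o q) :=
    (Metric.edist_le_ediam_of_mem m1 m2).trans h1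
  rw [← ENNReal.ofReal_sum_of_nonneg ho0, edist_dist] at h2
  exact (ENNReal.ofReal_le_ofReal_iff (Finset.sum_nonneg ho0)).1 h2

end Crest.Agent.R096.Sc_968
end

-- ▼ part R096/Sc2_968
section

/-!
# R096 (S0127), p = 2: small circles (SC), part 2: the theorem

`small_circles`: `f` continuous on a compact convex `F` (mesh face), `u` Lipschitz on the target.
Hypothesis: arbitrarily fine cell structures of `F` (squares of a grid) with
`∑ (osc over the rim)² ≤ E` over the cells whose rim reaches `{t0 ≤ u ∘ f}`.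
Then for all levels `t ∈ (t0, tm)` outside a set of measure `θ`, all maps `h` close to `f`, and all
families of disjoint `K i` (discs) reaching `{t1 ≤ u ∘ h}` with connected rims `Γ i ⊆ {u ∘ h = t}`:
the images `h (Γ i)` lie in finitely many balls, sum of radii `≤ σ`.
-/

set_option autoImplicit false

namespace Crest.Agent.R096.Sc_968

open MeasureTheory Set Metric
open scoped ENNReal

/-- closed cells `Q j` of `F` with rims `B j` -/
structure Cells {X : Type*} [TopologicalSpace X] (F : Set X) {J : Type*} (Q B : J → Set X) :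
    Prop where
  closed : ∀ j, IsClosed (Q j)
  sub : ∀ j, B j ⊆ Q j
  cov : F ⊆ ⋃ j, Q j
  meet : ∀ j k, j ≠ k → Q j ∩ Q k ⊆ B j ∩ B k
  cut : ∀ j (S : Set X), S ⊆ F → IsPreconnected S → (S ∩ Q j).Nonempty → ¬ S ⊆ Q j →
    (S ∩ B j).Nonempty


end Crest.Agent.R096.Sc_968
end

-- ▼ part R096/Sc3_968
section

/-!
# R096 (S0127), p = 2: small circles (SC), part 3: `small_circles`
-/

set_option autoImplicit false

namespace Crest.Agent.R096.Sc_968

open MeasureTheory Set Metric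
open scoped ENNReal

/-- the levels met by many rims have small measure -/
theorem level_select {J : Type*} [Fintype J] {o : J → ℝ} (ho0 : ∀ j, 0 ≤ o j) (ctr : J → ℝ)
    (Jb : Finset J) {L η σ E : ℝ} (hL : 0 ≤ L) (hη : 0 ≤ η) (hσ : 0 < σ)
    (hE : ∑ j ∈ Jb, o j ^ 2 ≤ E) :
    ∃ Bad : Set ℝ, MeasurableSet Bad ∧
      volume Bad ≤ ENNReal.ofReal (4 * L * (E + η * ∑ j, o j) / σ) ∧
      ∀ t ∉ Bad, ∑ j ∈ Jb.filter (fun j => |t - ctr j| ≤ L * (o j + η)), o j < σ / 2 := by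
  classical
  let I : J → Set ℝ := fun j => Icc (ctr j - L * (o j + η)) (ctr j + L * (o j + η))
  let w : J → ℝ≥0∞ := fun j => if j ∈ Jb then ENNReal.ofReal (o j) else 0
  have hm : ∀ q, Measurable (fun t => (I q).indicator (fun _ => w q) t) := fun q =>
    measurable_const.indicator measurableSet_Icc
  have hσ' : ENNReal.ofReal (σ / 2) ≠ 0 := by
    rw [Ne, ENNReal.ofReal_eq_zero]
    linarith
  refine ⟨{t | ENNReal.ofReal (σ / 2) ≤ ∑' q, (I q).indicator (fun _ => w q) t},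
    measurableSet_le measurable_const (Measurable.tsum hm), ?_, ?_⟩
  · refine (Isl_968.levels_le I (fun q => measurableSet_Icc) w hσ' ENNReal.ofReal_ne_top).trans ?_
    have h1 : ∑' q, w q * volume (I q) ≤ ENNReal.ofReal (2 * L * (E + η * ∑ j, o j)) := by
      rw [tsum_fintype]
      have h2 : ∀ q ∈ Finset.univ, w q * volume (I q) ≤
          ENNReal.ofReal (if q ∈ Jb then 2 * L * (o q ^ 2 + η * o q) else 0) := by
        intro q _
        by_cases hq : q ∈ Jb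
        · simp only [w, if_pos hq, I]
          rw [Real.volume_Icc, ← ENNReal.ofReal_mul (ho0 q)]
          refine ENNReal.ofReal_le_ofReal (le_of_eq ?_)
          ring
        · simp only [w, if_neg hq, zero_mul]
          exact zero_le
      refine (Finset.sum_le_sum h2).trans ?_
      have h3 : ∀ q : J, 0 ≤ (if q ∈ Jb then 2 * L * (o q ^ 2 + η * o q) else 0) := by
        intro q
        split_ifs
        · have := ho0 q
          positivity
        · exact le_refl 0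
      rw [← ENNReal.ofReal_sum_of_nonneg (fun q _ => h3 q)]
      refine ENNReal.ofReal_le_ofReal ?_
      rw [← Finset.sum_filter]
      have h4 : Finset.univ.filter (fun q => q ∈ Jb) = Jb := by ext; simp
      rw [h4, ← Finset.mul_sum, Finset.sum_add_distrib, ← Finset.mul_sum]
      have h5 : ∑ j ∈ Jb, o j ≤ ∑ j, o j :=
        Finset.sum_le_sum_of_subset_of_nonneg (Finset.subset_univ _) (fun j _ _ => ho0 j)
      have h6 := mul_le_mul_of_nonneg_left h5 hη
      exact mul_le_mul_of_nonneg_left (by linarith) (by linarith)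
    refine (ENNReal.div_le_div_right h1 _).trans ?_
    rw [← ENNReal.ofReal_div_of_pos (by linarith)]
    refine ENNReal.ofReal_le_ofReal (le_of_eq ?_)
    field_simp
    ring
  · intro t ht
    rw [mem_ofPred_eq, not_le] at ht
    have h1 : ENNReal.ofReal (∑ j ∈ Jb.filter (fun j => |t - ctr j| ≤ L * (o j + η)), o j) ≤
        ∑' q, (I q).indicator (fun _ => w q) t := by
      rw [ENNReal.ofReal_sum_of_nonneg (fun j _ => ho0 j), tsum_fintype]
      refine le_trans (Finset.sum_le_sum fun j hj => ?_)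
        (Finset.sum_le_sum_of_subset_of_nonneg (Finset.subset_univ _) (fun j _ _ => zero_le))
      rw [Finset.mem_filter] at hj
      have hI : t ∈ I j := by
        have := abs_le.1 hj.2
        exact ⟨by linarith [this.1], by linarith [this.2]⟩
      rw [indicator_of_mem hI]
      simp only [w, if_pos hj.1]
      exact le_refl _
    have h2 := h1.trans_lt ht
    exact (ENNReal.ofReal_lt_ofReal_iff (by linarith)).1 h2


end Crest.Agent.R096.Sc_968
end

-- ▼ part R096/Fce3_793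
section

set_option autoImplicit false
set_option linter.unusedSectionVars false

open MeasureTheory Set Filter
open scoped ENNReal Topology

namespace Crest.Agent.R096.Fce_793

open Crest.Agent.R96.Acl_392 Crest.Agent.R96.Sob4_199 Crest.Agent.R096.Sc_968

noncomputable section

theorem st_edge (n : ℕ) (m : Ix n) {w : ℝ × ℝ} (hw : w ∈ sq n m)
    (h : w.1 = (cor n m).1 ∨ w.1 = (cor n m).1 + hh n ∨ w.2 = (cor n m).2 ∨
      w.2 = (cor n m).2 + hh n) : w ∈ rim n m := by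
  obtain ⟨⟨h1, h2⟩, h3, h4⟩ := hw
  rcases h with h | h | h | h
  · refine mem_iUnion.2 ⟨0, mem_iUnion.2 ⟨1, w.2 - (cor n m).2, ⟨by linarith, by linarith⟩, ?_⟩⟩
    ext <;> simp [st, bs, h]
  · refine mem_iUnion.2 ⟨1, mem_iUnion.2 ⟨1, w.2 - (cor n m).2, ⟨by linarith, by linarith⟩, ?_⟩⟩
    ext <;> simp [st, bs, h]
  · refine mem_iUnion.2 ⟨0, mem_iUnion.2 ⟨0, w.1 - (cor n m).1, ⟨by linarith, by linarith⟩, ?_⟩⟩
    ext <;> simp [st, bs, h]
  · refine mem_iUnion.2 ⟨1, mem_iUnion.2 ⟨0, w.1 - (cor n m).1, ⟨by linarith, by linarith⟩, ?_⟩⟩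
    ext <;> simp [st, bs, h]

theorem sq_inter (n : ℕ) {m m' : Ix n} (hm : m ≠ m') {w : ℝ × ℝ} (hw : w ∈ sq n m)
    (hw' : w ∈ sq n m') : w ∈ rim n m := by
  apply st_edge n m hw
  obtain ⟨⟨h1, h2⟩, h3, h4⟩ := hw
  obtain ⟨⟨h1', h2'⟩, h3', h4'⟩ := hw'
  have hp := hh_pos n
  have key : ∀ (a b : ℕ) (x : ℝ), a ≠ b → a * hh n ≤ x → x ≤ a * hh n + hh n → b * hh n ≤ x →
      x ≤ b * hh n + hh n → x = a * hh n ∨ x = a * hh n + hh n := by
    intro a b x hab ha ha' hb hb'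
    rcases lt_or_gt_of_ne hab with h | h
    · right
      have h5 : (a:ℝ) + 1 ≤ b := by exact_mod_cast h
      nlinarith
    · left
      have h5 : (b:ℝ) + 1 ≤ a := by exact_mod_cast h
      nlinarith
  by_cases h1m : m.1 = m'.1
  · have h2m : (m.2 : ℕ) ≠ m'.2 := fun h => hm (Prod.ext h1m (Fin.ext h))
    rcases key _ _ w.2 h2m h3 h4 h3' h4' with h | h
    · exact Or.inr (Or.inr (Or.inl h))
    · exact Or.inr (Or.inr (Or.inr h))
  · have h2m : (m.1 : ℕ) ≠ m'.1 := fun h => h1m (Fin.ext h)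
    rcases key _ _ w.1 h2m h1 h2 h1' h2' with h | h
    · exact Or.inl h
    · exact Or.inr (Or.inl h)

theorem exists_ix (n : ℕ) {x : ℝ} (hx : x ∈ Icc (0:ℝ) 1) :
    ∃ k : Fin (2 ^ n), (k : ℕ) * hh n ≤ x ∧ x ≤ (k : ℕ) * hh n + hh n := by
  have hp : (0:ℝ) < 2 ^ n := by positivity
  have hN : 0 < 2 ^ n := by positivity
  have he : hh n * 2 ^ n = 1 := by unfold hh; field_simp
  by_cases h1 : ⌊x * 2 ^ n⌋₊ < 2 ^ n
  · refine ⟨⟨_, h1⟩, ?_, ?_⟩
    · have h2 := Nat.floor_le (mul_nonneg hx.1 hp.le)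
      calc (⌊x * 2 ^ n⌋₊ : ℝ) * hh n ≤ x * 2 ^ n * hh n := by
            gcongr
            exact (hh_pos n).le
        _ = x := by rw [mul_assoc, mul_comm (2 ^ n) (hh n), he, mul_one]
    · have h2 := (Nat.lt_floor_add_one (x * 2 ^ n)).le
      calc x = x * 2 ^ n * hh n := by rw [mul_assoc, mul_comm (2 ^ n) (hh n), he, mul_one]
        _ ≤ ((⌊x * 2 ^ n⌋₊ : ℝ) + 1) * hh n := by
            gcongr
            exact (hh_pos n).le
        _ = _ := by ring
  · have h2 : x = 1 := by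
      apply le_antisymm hx.2
      have h3 : (2:ℝ) ^ n ≤ x * 2 ^ n := by
        have h4 : ((2 ^ n : ℕ) : ℝ) ≤ ⌊x * 2 ^ n⌋₊ := by exact_mod_cast not_lt.1 h1
        have h5 := Nat.floor_le (mul_nonneg hx.1 hp.le)
        push_cast at h4
        linarith
      by_contra h
      nlinarith
    refine ⟨⟨2 ^ n - 1, by omega⟩, ?_, ?_⟩
    · have h3 : (((2 ^ n - 1 : ℕ)) : ℝ) = 2 ^ n - 1 := by
        rw [Nat.cast_sub (by omega)]; push_cast; rfl
      simp only [h3]
      rw [h2, sub_mul, mul_comm, he]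
      linarith [hh_pos n]
    · have h3 : (((2 ^ n - 1 : ℕ)) : ℝ) = 2 ^ n - 1 := by
        rw [Nat.cast_sub (by omega)]; push_cast; rfl
      simp only [h3]
      rw [h2, sub_mul, mul_comm, he]
      linarith [hh_pos n]

theorem sq_cover (n : ℕ) {w : ℝ × ℝ} (hw : w ∈ Icc (0:ℝ) 1 ×ˢ Icc (0:ℝ) 1) :
    ∃ m, w ∈ sq n m := by
  obtain ⟨k, h1, h2⟩ := exists_ix n hw.1
  obtain ⟨l, h3, h4⟩ := exists_ix n hw.2
  exact ⟨(k, l), ⟨h1, h2⟩, h3, h4⟩

theorem isCompact_sq (n : ℕ) (m : Ix n) : IsCompact (sq n m) := isCompact_Icc.prod isCompact_Icc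

theorem dist_sq_le {n : ℕ} {m : Ix n} {w w' : ℝ × ℝ} (hw : w ∈ sq n m) (hw' : w' ∈ sq n m) :
    dist w w' ≤ hh n := by
  obtain ⟨⟨h1, h2⟩, h3, h4⟩ := hw
  obtain ⟨⟨h1', h2'⟩, h3', h4'⟩ := hw'
  rw [Prod.dist_eq, Real.dist_eq, Real.dist_eq]
  exact max_le (abs_sub_le_iff.2 ⟨by linarith, by linarith⟩)
    (abs_sub_le_iff.2 ⟨by linarith, by linarith⟩)

theorem sq_cut (n : ℕ) (m : Ix n) {S : Set (ℝ × ℝ)} (hS : IsPreconnected S)
    (h1 : (S ∩ sq n m).Nonempty) (h2 : ¬ S ⊆ sq n m) : (S ∩ rim n m).Nonempty := by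
  by_contra hne
  rw [not_nonempty_iff_eq_empty] at hne
  set U : Set (ℝ × ℝ) := Ioo (cor n m).1 ((cor n m).1 + hh n) ×ˢ
    Ioo (cor n m).2 ((cor n m).2 + hh n) with hU
  have hUo : IsOpen U := isOpen_Ioo.prod isOpen_Ioo
  have hVo : IsOpen (sq n m)ᶜ := (isCompact_sq n m).isClosed.isOpen_compl
  have hmem : ∀ w ∈ S, w ∈ sq n m → w ∈ U := by
    intro w hw hws
    have h3 : w ∉ rim n m := fun h => by
      have : w ∈ S ∩ rim n m := ⟨hw, h⟩
      rw [hne] at this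
      exact this
    have h4 : ¬ (w.1 = (cor n m).1 ∨ w.1 = (cor n m).1 + hh n ∨ w.2 = (cor n m).2 ∨
      w.2 = (cor n m).2 + hh n) := fun h => h3 (st_edge n m hws h)
    push Not at h4
    obtain ⟨⟨h5, h6⟩, h7, h8⟩ := hws
    exact ⟨⟨lt_of_le_of_ne h5 (Ne.symm h4.1), lt_of_le_of_ne h6 h4.2.1⟩,
      lt_of_le_of_ne h7 (Ne.symm h4.2.2.1), lt_of_le_of_ne h8 h4.2.2.2⟩
  have hsub : S ⊆ U ∪ (sq n m)ᶜ := by
    intro w hw
    by_cases h : w ∈ sq n m
    · exact Or.inl (hmem w hw h)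
    · exact Or.inr h
  obtain ⟨w1, hw1, hw1'⟩ := h1
  obtain ⟨w2, hw2, hw2'⟩ := not_subset.1 h2
  obtain ⟨w, -, hwU, hwV⟩ := hS U _ hUo hVo hsub ⟨w1, hw1, hmem _ hw1 hw1'⟩ ⟨w2, hw2, hw2'⟩
  exact hwV ⟨⟨hwU.1.1.le, hwU.1.2.le⟩, hwU.2.1.le, hwU.2.2.le⟩

variable {E : Type*} [NormedAddCommGroup E] [NormedSpace ℝ E] [FiniteDimensional ℝ E]
  [MeasurableSpace E] [BorelSpace E]

/-- the parametrisation as a closed embedding -/
theorem isClosedEmbedding_pt {e : Fin 2 → E} (hli : LinearIndependent ℝ e) (a : E) :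
    Topology.IsClosedEmbedding (pt e a) := by
  let L : (ℝ × ℝ) →ₗ[ℝ] E := (LinearMap.fst ℝ ℝ ℝ).smulRight (e 0) +
    (LinearMap.snd ℝ ℝ ℝ).smulRight (e 1)
  have hL : ∀ w, L w = w.1 • e 0 + w.2 • e 1 := fun w => by simp [L]
  have hker : LinearMap.ker L = ⊥ := by
    rw [LinearMap.ker_eq_bot']
    intro w hw
    rw [hL] at hw
    have h1 := linearIndependent_fin2.1 hli
    have h2 := Fintype.linearIndependent_iff.1 hli ![w.1, w.2] (by simpa [Fin.sum_univ_two] using hw)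
    have h3 := h2 0
    have h4 := h2 1
    simp at h3 h4
    exact Prod.ext h3 h4
  have h1 : Topology.IsClosedEmbedding L := L.isClosedEmbedding_of_injective hker
  have h2 : pt e a = (Homeomorph.addLeft a) ∘ L := by
    funext w
    simp [pt, hL]
  rw [h2]
  exact (Homeomorph.addLeft a).isClosedEmbedding.comp h1

theorem cells {e : Fin 2 → E} (hli : LinearIndependent ℝ e) (a : E) {P : Set (ℝ × ℝ)}
    (hP : P ⊆ Icc (0:ℝ) 1 ×ˢ Icc (0:ℝ) 1) (n : ℕ) :
    Cells (pt e a '' P) (fun m : Ix n => pt e a '' sq n m) (fun m => pt e a '' rim n m) := by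
  have hemb := isClosedEmbedding_pt hli a
  refine ⟨?_, ?_, ?_, ?_, ?_⟩
  · intro m
    exact ((isCompact_sq n m).image (continuous_pt e a)).isClosed
  · intro m
    exact image_mono (rim_subset n m)
  · rintro _ ⟨w, hw, rfl⟩
    obtain ⟨m, hm⟩ := sq_cover n (hP hw)
    exact mem_iUnion.2 ⟨m, w, hm, rfl⟩
  · rintro m m' hm _ ⟨⟨w, hw, rfl⟩, w', hw', he⟩
    have : w' = w := hemb.injective he
    subst this
    exact ⟨⟨w', sq_inter n hm hw hw', rfl⟩, ⟨w', sq_inter n hm.symm hw' hw, rfl⟩⟩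
  · intro m S hS hSc h1 h2
    have h3 : pt e a '' ((pt e a) ⁻¹' S) = S := by
      rw [image_preimage_eq_iff]
      exact hS.trans (image_subset_range _ _)
    have h4 : IsPreconnected ((pt e a) ⁻¹' S) := by
      rw [← hemb.isInducing.isPreconnected_image, h3]
      exact hSc
    obtain ⟨x, hxS, w, hw, rfl⟩ := h1
    obtain ⟨w', hw', hw''⟩ := sq_cut n m h4 ⟨w, hxS, hw⟩ (by
      intro hsub
      apply h2
      rw [← h3]
      exact image_mono hsub)
    exact ⟨pt e a w', hw', w', hw'', rfl⟩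

variable {μ : Measure E} [μ.IsAddHaarMeasure] {ι : Type*} [Fintype ι]

theorem ofReal_oo_sq_le {Ω : Set E} {f : E → EuclideanSpace ℝ ι} {e : Fin 2 → E}
    {D : Fin 2 → E → EuclideanSpace ℝ ι} {G : E → ℝ≥0∞} {a : E} (hp : Pos Ω f D G e a) {n : ℕ}
    {m : Ix n} (h : ∀ w ∈ sq n m, pt e a w ∈ Ω) :
    ENNReal.ofReal (oo D e a n m ^ 2) ≤ 4 * (ENNReal.ofReal (hh n) * isq G e a n m) := by
  by_cases hfin : isq G e a n m = ∞
  · have h1 : ENNReal.ofReal (hh n) ≠ 0 := by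
      rw [Ne, ENNReal.ofReal_eq_zero, not_le]
      exact hh_pos n
    rw [hfin, ENNReal.mul_top h1, ENNReal.mul_top (by norm_num)]
    exact le_top
  · have h1 := oo_sq_le hp h hfin
    calc ENNReal.ofReal (oo D e a n m ^ 2)
        ≤ ENNReal.ofReal (4 * (hh n * (isq G e a n m).toReal)) := ENNReal.ofReal_le_ofReal h1
      _ = 4 * (ENNReal.ofReal (hh n) * isq G e a n m) := by
          rw [ENNReal.ofReal_mul (by norm_num), ENNReal.ofReal_mul (hh_pos n).le,
            ENNReal.ofReal_toReal hfin]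
          norm_num

theorem ie_indicator {G : E → ℝ≥0∞} {e : Fin 2 → E} {a : E} {S : Set E} {n : ℕ} {m : Ix n}
    {w0 : ℝ × ℝ} (hw0 : w0 ∈ sq n m) (hS : pt e a w0 ∈ S) :
    isq ((TT e S n).indicator G) e a n m = isq G e a n m := by
  unfold isq ie
  refine Finset.sum_congr rfl fun k _ => Finset.sum_congr rfl fun i _ => ?_
  apply setLIntegral_congr_fun measurableSet_Icc
  intro τ hτ
  have h1 : pt e a (st n m k i) + τ • e i ∈ TT e S n := by
    rw [← pt_add]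
    exact Metric.mem_cthickening_of_dist_le _ (pt e a w0) _ _ hS
      (dist_pt_le e a (edg_subset n m k i ⟨τ, hτ, rfl⟩) hw0)
  simp only [indicator_of_mem h1]

/-- **the energy of a face in a good position** -/
theorem hE_of_pos {Ω : Set E} {f : E → EuclideanSpace ℝ ι} (hf : ContinuousOn f Ω)
    {e : Fin 2 → E} (hli : LinearIndependent ℝ e)
    {D : Fin 2 → E → EuclideanSpace ℝ ι} {G : E → ℝ≥0∞} {a : E} (hp : Pos Ω f D G e a)
    {P : Set (ℝ × ℝ)} (hPc : IsCompact P) (hP : P ⊆ Icc (0:ℝ) 1 ×ˢ Icc (0:ℝ) 1)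
    (hPΩ : pt e a '' P ⊆ Ω) {S : Set E} {E0 : ℝ} (hE0 : 4 * Ee G e P S a < ENNReal.ofReal E0)
    {u : EuclideanSpace ℝ ι → ℝ} (hu : Continuous u) {t0 : ℝ}
    (hbd : ∀ w ∈ P, w ∉ interior P → u (f (pt e a w)) < t0)
    (hS : ∀ w ∈ P, t0 ≤ u (f (pt e a w)) → pt e a w ∈ S) :
    ∀ ε > 0, ∃ (J : Type) (_ : Fintype J) (Q B : J → Set E) (o : J → ℝ),
      Cells (pt e a '' P) Q B ∧
      (∀ j, ∀ x ∈ Q j ∩ pt e a '' P, ∀ y ∈ Q j ∩ pt e a '' P, dist (f x) (f y) ≤ ε) ∧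
      (∀ j, 0 ≤ o j ∧ ∀ x ∈ B j ∩ pt e a '' P, ∀ y ∈ B j ∩ pt e a '' P,
        dist (f x) (f y) ≤ o j) ∧
      ∀ Jb : Finset J, (∀ j ∈ Jb, ∃ x ∈ B j ∩ pt e a '' P, t0 ≤ u (f x)) →
        ∑ j ∈ Jb, o j ^ 2 ≤ E0 := by
  classical
  intro ε hε
  have hemb := isClosedEmbedding_pt hli a
  have hpt := continuous_pt e a
  have hfc : ContinuousOn (fun w => f (pt e a w)) P :=
    hf.comp hpt.continuousOn fun w hw => hPΩ ⟨w, hw, rfl⟩
  -- the bad points
  set Z : Set (ℝ × ℝ) := P ∩ {w | t0 ≤ u (f (pt e a w))} with hZ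
  have hZc : IsCompact Z := by
    have h1 : ContinuousOn (fun w => u (f (pt e a w))) P := hu.comp_continuousOn hfc
    have h2 : IsClosed (P ∩ (fun w => u (f (pt e a w))) ⁻¹' Ici t0) :=
      h1.preimage_isClosed_of_isClosed hPc.isClosed isClosed_Ici
    exact hPc.of_isClosed_subset h2 inter_subset_left
  have hZi : Z ⊆ interior P := by
    intro w hw
    by_contra h
    exact absurd hw.2 (not_le.2 (hbd w hw.1 h))
  obtain ⟨δ, hδ, hδZ⟩ := hZc.exists_cthickening_subset_open isOpen_interior hZi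
  -- uniform continuity
  have huc := hPc.uniformContinuousOn_of_continuous hfc
  rw [Metric.uniformContinuousOn_iff] at huc
  obtain ⟨δ', hδ', huc'⟩ := huc ε hε
  -- the level
  have hev : ∀ᶠ n in atTop, hh n < min δ δ' :=
    (tendsto_order.1 tendsto_hh).2 _ (lt_min hδ hδ')
  have hEe : Ee G e P S a < ENNReal.ofReal E0 / 4 := by
    rw [ENNReal.lt_div_iff_mul_lt (Or.inl (by norm_num)) (Or.inl (by norm_num)), mul_comm]
    exact hE0
  have hfr : ∃ᶠ n in atTop, En G e P S n a < ENNReal.ofReal E0 / 4 :=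
    frequently_lt_of_liminf_lt (by isBoundedDefault) hEe
  obtain ⟨n, hn1, hn2⟩ := (hfr.and_eventually hev).exists
  have hnδ : hh n < δ := hn2.trans_le (min_le_left _ _)
  have hnδ' : hh n < δ' := hn2.trans_le (min_le_right _ _)
  have hosc : ∀ m : Ix n, ∀ x ∈ pt e a '' sq n m ∩ pt e a '' P,
      ∀ y ∈ pt e a '' sq n m ∩ pt e a '' P, dist (f x) (f y) ≤ ε := by
    rintro m x ⟨⟨w, hw, rfl⟩, v, hv, hvw⟩ y ⟨⟨w', hw', rfl⟩, v', hv', hvw'⟩
    have e1 : v = w := hemb.injective hvw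
    have e2 : v' = w' := hemb.injective hvw'
    subst e1 e2
    exact (huc' _ hv _ hv' ((dist_sq_le hw hw').trans_lt hnδ')).le
  let bad : Ix n → Prop := fun m => ∃ w ∈ rim n m, w ∈ Z
  have hbad : ∀ m, bad m → sq n m ⊆ P := by
    rintro m ⟨w, hw, hwZ⟩ w' hw'
    apply interior_subset
    apply hδZ
    exact Metric.mem_cthickening_of_dist_le _ w _ _ hwZ
      ((dist_sq_le hw' (rim_subset n m hw)).trans hnδ.le)
  refine ⟨Ix n, inferInstance, fun m => pt e a '' sq n m, fun m => pt e a '' rim n m,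
    fun m => if bad m then oo D e a n m else ε, cells hli a hP n, hosc, ?_, ?_⟩
  · intro m
    by_cases hb : bad m
    · simp only [hb, if_true]
      refine ⟨oo_nonneg _ _ _ _ _, ?_⟩
      rintro x ⟨⟨w, hw, rfl⟩, -⟩ y ⟨⟨w', hw', rfl⟩, -⟩
      exact oo_osc hp (fun v hv => hPΩ ⟨v, hbad m hb hv, rfl⟩) hw hw'
    · simp only [hb, if_false]
      refine ⟨hε.le, ?_⟩
      rintro x ⟨⟨w, hw, rfl⟩, hx⟩ y ⟨⟨w', hw', rfl⟩, hy⟩
      exact hosc m _ ⟨⟨w, rim_subset n m hw, rfl⟩, hx⟩ _ ⟨⟨w', rim_subset n m hw', rfl⟩, hy⟩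
  · intro Jb hJb
    have hJ : ∀ m ∈ Jb, bad m := by
      intro m hm
      obtain ⟨x, ⟨⟨w, hw, rfl⟩, v, hv, hvw⟩, hx⟩ := hJb m hm
      have e1 : v = w := hemb.injective hvw
      subst e1
      exact ⟨v, hw, hv, hx⟩
    have h1 : ∑ m ∈ Jb, (if bad m then oo D e a n m else ε) ^ 2 = ∑ m ∈ Jb, oo D e a n m ^ 2 :=
      Finset.sum_congr rfl fun m hm => by rw [if_pos (hJ m hm)]
    rw [h1]
    have hE0' : 0 ≤ E0 := by
      by_contra h
      rw [ENNReal.ofReal_of_nonpos (not_le.1 h).le] at hE0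
      exact absurd hE0 (not_lt.2 (zero_le))
    have h2 : ENNReal.ofReal (∑ m ∈ Jb, oo D e a n m ^ 2) ≤ ENNReal.ofReal E0 := by
      rw [ENNReal.ofReal_sum_of_nonneg fun m _ => sq_nonneg _]
      calc ∑ m ∈ Jb, ENNReal.ofReal (oo D e a n m ^ 2)
          ≤ ∑ m ∈ Jb, 4 * (ENNReal.ofReal (hh n) *
              (if sq n m ⊆ P then isq ((TT e S n).indicator G) e a n m else 0)) := by
            refine Finset.sum_le_sum fun m hm => ?_
            have hb := hJ m hm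
            obtain ⟨w, hw, hwZ⟩ := hb
            rw [if_pos (hbad m ⟨w, hw, hwZ⟩), ie_indicator (rim_subset n m hw) (hS w hwZ.1 hwZ.2)]
            exact ofReal_oo_sq_le hp fun v hv => hPΩ ⟨v, hbad m ⟨w, hw, hwZ⟩ hv, rfl⟩
        _ ≤ ∑ m : Ix n, 4 * (ENNReal.ofReal (hh n) *
              (if sq n m ⊆ P then isq ((TT e S n).indicator G) e a n m else 0)) :=
            Finset.sum_le_sum_of_subset (Finset.subset_univ _)
        _ = 4 * En G e P S n a := by
            unfold En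
            rw [Finset.mul_sum, Finset.mul_sum]
        _ ≤ 4 * (ENNReal.ofReal E0 / 4) := by gcongr
        _ = ENNReal.ofReal E0 := ENNReal.mul_div_cancel (by norm_num) (by norm_num)
    exact (ENNReal.ofReal_le_ofReal_iff hE0').1 h2

/-- **P2-FACE** -/
theorem face {Ω : Set E} (hΩ : IsOpen Ω) {f : E → EuclideanSpace ℝ ι} (hf : ContinuousOn f Ω)
    {e : Fin 2 → E} (hli : LinearIndependent ℝ e)
    {D : Fin 2 → E → EuclideanSpace ℝ ι} (hD : ∀ i, VWD Ω μ f (D i) (e i))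
    {G : E → ℝ≥0∞} (hGm : Measurable G) (hG : ∀ i, ∀ᵐ x ∂μ, x ∈ Ω → ‖D i x‖ₑ ^ 2 ≤ G x)
    {P : Set (ℝ × ℝ)} (hPc : IsCompact P) (hP : P ⊆ Icc (0:ℝ) 1 ×ˢ Icc (0:ℝ) 1)
    {S : Set E} (hS : IsClosed S) :
    ∃ 𝓔 : E → ℝ≥0∞, Measurable 𝓔 ∧
      (∀ A R : Set E, MeasurableSet A → MeasurableSet R → (∀ a ∈ A, ∀ w ∈ P, pt e a w ∈ R) →
        ∫⁻ x in R, G x ∂μ ≠ ∞ → ∫⁻ a in A, 𝓔 a ∂μ ≤ 16 * ∫⁻ x in R ∩ S, G x ∂μ) ∧
      ∀ᵐ a ∂μ, pt e a '' P ⊆ Ω → ∀ E0 : ℝ, 𝓔 a < ENNReal.ofReal E0 →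
        ∀ u : EuclideanSpace ℝ ι → ℝ, Continuous u → ∀ t0 : ℝ,
        (∀ w ∈ P, w ∉ interior P → u (f (pt e a w)) < t0) →
        (∀ w ∈ P, t0 ≤ u (f (pt e a w)) → pt e a w ∈ S) →
        ∀ ε > 0, ∃ (J : Type) (_ : Fintype J) (Q B : J → Set E) (o : J → ℝ),
          Cells (pt e a '' P) Q B ∧
          (∀ j, ∀ x ∈ Q j ∩ pt e a '' P, ∀ y ∈ Q j ∩ pt e a '' P, dist (f x) (f y) ≤ ε) ∧
          (∀ j, 0 ≤ o j ∧ ∀ x ∈ B j ∩ pt e a '' P, ∀ y ∈ B j ∩ pt e a '' P,
            dist (f x) (f y) ≤ o j) ∧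
          ∀ Jb : Finset J, (∀ j ∈ Jb, ∃ x ∈ B j ∩ pt e a '' P, t0 ≤ u (f x)) →
            ∑ j ∈ Jb, o j ^ 2 ≤ E0 := by
  refine ⟨fun a => 4 * Ee G e P S a, (measurable_Ee hGm e P S).const_mul 4, ?_, ?_⟩
  · intro A R hA hR hAR hfin
    rw [lintegral_const_mul _ (measurable_Ee hGm e P S)]
    have h1 := lintegral_Ee_le (μ := μ) hGm e hS hA hR hAR hfin
    calc 4 * ∫⁻ a in A, Ee G e P S a ∂μ ≤ 4 * (4 * ∫⁻ x in R ∩ S, G x ∂μ) := by gcongr
      _ = 16 * ∫⁻ x in R ∩ S, G x ∂μ := by rw [← mul_assoc]; norm_num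
  · filter_upwards [ae_pos (μ := μ) hΩ hf hD hG] with a ha hPΩ E0 hE0 u hu t0 hbd hSS
    exact hE_of_pos hf hli ha hPc hP hPΩ hE0 hu hbd hSS

end

end Crest.Agent.R096.Fce_793
end

-- ▼ part R096/Fce4_793
section

set_option autoImplicit false
set_option linter.unusedSectionVars false

open MeasureTheory Set Filter
open scoped ENNReal Topology

namespace Crest.Agent.R096.Fce_793

open Crest.Agent.R96.Acl_392 Crest.Agent.R96.Sob4_199 Crest.Agent.R096.Sc_968

noncomputable section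

variable {E : Type*} [NormedAddCommGroup E] [NormedSpace ℝ E] [FiniteDimensional ℝ E]
  [MeasurableSpace E] [BorelSpace E]

variable {μ : Measure E} [μ.IsAddHaarMeasure] {ι : Type*} [Fintype ι]

theorem cc_pos {e : Fin 2 → E} (hli : LinearIndependent ℝ e) : 0 < cc e := by
  have h0 : 0 < ‖e 0‖ := norm_pos_iff.2 (hli.ne_zero 0)
  unfold cc
  have := norm_nonneg (e 1)
  linarith

theorem isCompact_edg (n : ℕ) (m : Ix n) (k i : Fin 2) : IsCompact (edg n m k i) := by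
  unfold edg
  apply isCompact_Icc.image
  fun_prop

theorem isCompact_rim (n : ℕ) (m : Ix n) : IsCompact (rim n m) := by
  unfold rim
  exact isCompact_iUnion fun k => isCompact_iUnion fun i => isCompact_edg n m k i

theorem card_Ix (n : ℕ) : (Fintype.card (Ix n) : ℝ) = 2 ^ n * 2 ^ n := by
  rw [Fintype.card_prod, Fintype.card_fin]
  push_cast
  rfl

theorem sq_card (e : Fin 2 → E) (n : ℕ) : (cc e * hh n) ^ 2 * (Fintype.card (Ix n) : ℝ) = cc e ^ 2 := by
  rw [card_Ix]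
  unfold hh
  field_simp

/-- **the energy of a face in a good position**, explicit form: the cells are the squares of a
dyadic grid, as fine as we like -/
theorem hE_n {Ω : Set E} {f : E → EuclideanSpace ℝ ι} (hf : ContinuousOn f Ω)
    {e : Fin 2 → E} (hli : LinearIndependent ℝ e)
    {D : Fin 2 → E → EuclideanSpace ℝ ι} {G : E → ℝ≥0∞} {a : E} (hp : Pos Ω f D G e a)
    {P : Set (ℝ × ℝ)} (hPc : IsCompact P) (hP : P ⊆ Icc (0:ℝ) 1 ×ˢ Icc (0:ℝ) 1)
    (hPΩ : pt e a '' P ⊆ Ω) {S : Set E} {E0 : ℝ} (hE0 : 4 * Ee G e P S a < ENNReal.ofReal E0)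
    {u : EuclideanSpace ℝ ι → ℝ} (hu : Continuous u) {t0 : ℝ}
    (hbd : ∀ w ∈ P, w ∉ interior P → u (f (pt e a w)) < t0)
    (hS : ∀ w ∈ P, t0 ≤ u (f (pt e a w)) → pt e a w ∈ S) :
    ∀ ε > 0, ∀ N : ℕ, ∃ n ≥ N, ∃ o : Ix n → ℝ,
      (∀ j, ∀ x ∈ pt e a '' sq n j ∩ pt e a '' P, ∀ y ∈ pt e a '' sq n j ∩ pt e a '' P,
        dist (f x) (f y) ≤ ε) ∧
      (∀ j, 0 ≤ o j ∧ ∀ x ∈ pt e a '' rim n j ∩ pt e a '' P, ∀ y ∈ pt e a '' rim n j ∩ pt e a '' P,
        dist (f x) (f y) ≤ o j) ∧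
      ∀ Jb : Finset (Ix n), (∀ j ∈ Jb, ∃ x ∈ pt e a '' rim n j ∩ pt e a '' P, t0 ≤ u (f x)) →
        ∑ j ∈ Jb, o j ^ 2 ≤ E0 := by
  classical
  intro ε hε N
  have hemb := isClosedEmbedding_pt hli a
  have hpt := continuous_pt e a
  have hfc : ContinuousOn (fun w => f (pt e a w)) P :=
    hf.comp hpt.continuousOn fun w hw => hPΩ ⟨w, hw, rfl⟩
  -- the bad points
  set Z : Set (ℝ × ℝ) := P ∩ {w | t0 ≤ u (f (pt e a w))} with hZ
  have hZc : IsCompact Z := by
    have h1 : ContinuousOn (fun w => u (f (pt e a w))) P := hu.comp_continuousOn hfc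
    have h2 : IsClosed (P ∩ (fun w => u (f (pt e a w))) ⁻¹' Ici t0) :=
      h1.preimage_isClosed_of_isClosed hPc.isClosed isClosed_Ici
    exact hPc.of_isClosed_subset h2 inter_subset_left
  have hZi : Z ⊆ interior P := by
    intro w hw
    by_contra h
    exact absurd hw.2 (not_le.2 (hbd w hw.1 h))
  obtain ⟨δ, hδ, hδZ⟩ := hZc.exists_cthickening_subset_open isOpen_interior hZi
  -- uniform continuity
  have huc := hPc.uniformContinuousOn_of_continuous hfc
  rw [Metric.uniformContinuousOn_iff] at huc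
  obtain ⟨δ', hδ', huc'⟩ := huc ε hε
  -- the level
  have hev : ∀ᶠ n in atTop, hh n < min δ δ' :=
    (tendsto_order.1 tendsto_hh).2 _ (lt_min hδ hδ')
  have hEe : Ee G e P S a < ENNReal.ofReal E0 / 4 := by
    rw [ENNReal.lt_div_iff_mul_lt (Or.inl (by norm_num)) (Or.inl (by norm_num)), mul_comm]
    exact hE0
  have hfr : ∃ᶠ n in atTop, En G e P S n a < ENNReal.ofReal E0 / 4 :=
    frequently_lt_of_liminf_lt (by isBoundedDefault) hEe
  obtain ⟨n, ⟨hn1, hn2⟩, hnN⟩ := ((hfr.and_eventually hev).and_eventually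
    (eventually_ge_atTop N)).exists
  have hnδ : hh n < δ := hn2.trans_le (min_le_left _ _)
  have hnδ' : hh n < δ' := hn2.trans_le (min_le_right _ _)
  have hosc : ∀ m : Ix n, ∀ x ∈ pt e a '' sq n m ∩ pt e a '' P,
      ∀ y ∈ pt e a '' sq n m ∩ pt e a '' P, dist (f x) (f y) ≤ ε := by
    rintro m x ⟨⟨w, hw, rfl⟩, v, hv, hvw⟩ y ⟨⟨w', hw', rfl⟩, v', hv', hvw'⟩
    have e1 : v = w := hemb.injective hvw
    have e2 : v' = w' := hemb.injective hvw'
    subst e1 e2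
    exact (huc' _ hv _ hv' ((dist_sq_le hw hw').trans_lt hnδ')).le
  let bad : Ix n → Prop := fun m => ∃ w ∈ rim n m, w ∈ Z
  have hbad : ∀ m, bad m → sq n m ⊆ P := by
    rintro m ⟨w, hw, hwZ⟩ w' hw'
    apply interior_subset
    apply hδZ
    exact Metric.mem_cthickening_of_dist_le _ w _ _ hwZ
      ((dist_sq_le hw' (rim_subset n m hw)).trans hnδ.le)
  refine ⟨n, hnN, fun m => if bad m then oo D e a n m else ε, hosc, ?_, ?_⟩
  · intro m
    by_cases hb : bad m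
    · simp only [hb, if_true]
      refine ⟨oo_nonneg _ _ _ _ _, ?_⟩
      rintro x ⟨⟨w, hw, rfl⟩, -⟩ y ⟨⟨w', hw', rfl⟩, -⟩
      exact oo_osc hp (fun v hv => hPΩ ⟨v, hbad m hb hv, rfl⟩) hw hw'
    · simp only [hb, if_false]
      refine ⟨hε.le, ?_⟩
      rintro x ⟨⟨w, hw, rfl⟩, hx⟩ y ⟨⟨w', hw', rfl⟩, hy⟩
      exact hosc m _ ⟨⟨w, rim_subset n m hw, rfl⟩, hx⟩ _ ⟨⟨w', rim_subset n m hw', rfl⟩, hy⟩
  · intro Jb hJb
    have hJ : ∀ m ∈ Jb, bad m := by
      intro m hm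
      obtain ⟨x, ⟨⟨w, hw, rfl⟩, v, hv, hvw⟩, hx⟩ := hJb m hm
      have e1 : v = w := hemb.injective hvw
      subst e1
      exact ⟨v, hw, hv, hx⟩
    have h1 : ∑ m ∈ Jb, (if bad m then oo D e a n m else ε) ^ 2 = ∑ m ∈ Jb, oo D e a n m ^ 2 :=
      Finset.sum_congr rfl fun m hm => by rw [if_pos (hJ m hm)]
    rw [h1]
    have hE0' : 0 ≤ E0 := by
      by_contra h
      rw [ENNReal.ofReal_of_nonpos (not_le.1 h).le] at hE0
      exact absurd hE0 (not_lt.2 (zero_le))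
    have h2 : ENNReal.ofReal (∑ m ∈ Jb, oo D e a n m ^ 2) ≤ ENNReal.ofReal E0 := by
      rw [ENNReal.ofReal_sum_of_nonneg fun m _ => sq_nonneg _]
      calc ∑ m ∈ Jb, ENNReal.ofReal (oo D e a n m ^ 2)
          ≤ ∑ m ∈ Jb, 4 * (ENNReal.ofReal (hh n) *
              (if sq n m ⊆ P then isq ((TT e S n).indicator G) e a n m else 0)) := by
            refine Finset.sum_le_sum fun m hm => ?_
            have hb := hJ m hm
            obtain ⟨w, hw, hwZ⟩ := hb
            rw [if_pos (hbad m ⟨w, hw, hwZ⟩), ie_indicator (rim_subset n m hw) (hS w hwZ.1 hwZ.2)]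
            exact ofReal_oo_sq_le hp fun v hv => hPΩ ⟨v, hbad m ⟨w, hw, hwZ⟩ hv, rfl⟩
        _ ≤ ∑ m : Ix n, 4 * (ENNReal.ofReal (hh n) *
              (if sq n m ⊆ P then isq ((TT e S n).indicator G) e a n m else 0)) :=
            Finset.sum_le_sum_of_subset (Finset.subset_univ _)
        _ = 4 * En G e P S n a := by
            unfold En
            rw [Finset.mul_sum, Finset.mul_sum]
        _ ≤ 4 * (ENNReal.ofReal E0 / 4) := by gcongr
        _ = ENNReal.ofReal E0 := ENNReal.mul_div_cancel (by norm_num) (by norm_num)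
    exact (ENNReal.ofReal_le_ofReal_iff hE0').1 h2

/-- the literal hypothesis `hE` of `small_circles_pre`, `S = cc e = ‖e 0‖ + ‖e 1‖`; the diameter
`d` of the cells can be taken `≤ d0` -/
theorem hE_pre {Ω : Set E} {f : E → EuclideanSpace ℝ ι} (hf : ContinuousOn f Ω)
    {e : Fin 2 → E} (hli : LinearIndependent ℝ e)
    {D : Fin 2 → E → EuclideanSpace ℝ ι} {G : E → ℝ≥0∞} {a : E} (hp : Pos Ω f D G e a)
    {P : Set (ℝ × ℝ)} (hPc : IsCompact P) (hP : P ⊆ Icc (0:ℝ) 1 ×ˢ Icc (0:ℝ) 1)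
    (hPΩ : pt e a '' P ⊆ Ω) {S : Set E} {E0 : ℝ} (hE0 : 4 * Ee G e P S a < ENNReal.ofReal E0)
    {u : EuclideanSpace ℝ ι → ℝ} (hu : Continuous u) {t0 : ℝ}
    (hbd : ∀ w ∈ P, w ∉ interior P → u (f (pt e a w)) < t0)
    (hS : ∀ w ∈ P, t0 ≤ u (f (pt e a w)) → pt e a w ∈ S) {d0 : ℝ} (hd0 : 0 < d0) :
    ∀ ε > 0, ∃ (J : Type) (_ : Fintype J) (Q B : J → Set E) (o : J → ℝ) (d : ℝ), 0 < d ∧ d ≤ d0 ∧
      Cells (pt e a '' P) Q B ∧ (∀ j, IsClosed (B j)) ∧
      (∀ j, ∀ x ∈ Q j ∩ pt e a '' P, ∀ y ∈ Q j ∩ pt e a '' P, dist x y ≤ d) ∧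
      d ^ 2 * Fintype.card J ≤ cc e ^ 2 ∧
      (∀ j, ∀ x ∈ Q j ∩ pt e a '' P, ∀ y ∈ Q j ∩ pt e a '' P, dist (f x) (f y) ≤ ε) ∧
      (∀ j, 0 ≤ o j ∧ ∀ x ∈ B j ∩ pt e a '' P, ∀ y ∈ B j ∩ pt e a '' P,
        dist (f x) (f y) ≤ o j) ∧
      ∀ Jb : Finset J, (∀ j ∈ Jb, ∃ x ∈ B j ∩ pt e a '' P, t0 ≤ u (f x)) →
        ∑ j ∈ Jb, o j ^ 2 ≤ E0 := by
  intro ε hε
  have h1 : Tendsto (fun n => cc e * hh n) atTop (𝓝 0) := by
    have := tendsto_hh.const_mul (cc e)
    rwa [mul_zero] at this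
  obtain ⟨N, hN⟩ := eventually_atTop.1 ((tendsto_order.1 h1).2 d0 hd0)
  obtain ⟨n, hn, o, h2, h3, h4⟩ := hE_n hf hli hp hPc hP hPΩ hE0 hu hbd hS ε hε N
  refine ⟨Ix n, inferInstance, fun m => pt e a '' sq n m, fun m => pt e a '' rim n m, o,
    cc e * hh n, mul_pos (cc_pos hli) (hh_pos n), (hN n hn).le, cells hli a hP n, ?_, ?_, ?_,
    h2, h3, h4⟩
  · intro j
    exact ((isCompact_rim n j).image (continuous_pt e a)).isClosed
  · rintro j x ⟨⟨w, hw, rfl⟩, -⟩ y ⟨⟨w', hw', rfl⟩, -⟩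
    exact dist_pt_le e a hw hw'
  · exact (sq_card e n).le


end

end Crest.Agent.R096.Fce_793
end

-- ▼ part R096/Scp1_753
section

/-!
# R096 (S0127), p = 2: small circles, balls chosen before the approximating map (helper753)

`small_circles_pre`: as `Sc_968.small_circles`, but the balls depend only on `f` and on the level
`ts`; they work for all maps `h` near `f`, all levels `t` near `ts` and all (also nested)
significant circles.  Their number is bounded by counting cells: a significant circle has diameter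
`≥ δ`, so it meets many cells, and few cells are visited at a good level.
-/

set_option autoImplicit false

namespace Crest.Agent.R096.Scp_753

open MeasureTheory Set Metric
open scoped ENNReal
open Crest.Agent.R096.Sc_968

/-- at most levels few rims are visited -/
theorem level_count {J : Type*} [Fintype J] {o : J → ℝ} (ho0 : ∀ j, 0 ≤ o j) (ctr : J → ℝ)
    (Jb : Finset J) {L E S d V : ℝ} (hL : 0 ≤ L) (hd : 0 ≤ d) (hV : 0 < V) (hS : 0 ≤ S)
    (hdS : d ^ 2 * Fintype.card J ≤ S ^ 2) (hE : ∑ j ∈ Jb, o j ^ 2 ≤ E) :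
    ∃ Bad : Set ℝ, MeasurableSet Bad ∧
      volume Bad ≤ ENNReal.ofReal (2 * L * (S * √E) / V) ∧
      ∀ t ∉ Bad, d * ((Jb.filter (fun j => |t - ctr j| ≤ L * o j)).card : ℝ) < V := by
  classical
  let I : J → Set ℝ := fun j => Icc (ctr j - L * o j) (ctr j + L * o j)
  let w : J → ℝ≥0∞ := fun j => if j ∈ Jb then ENNReal.ofReal d else 0
  have hm : ∀ q, Measurable (fun t => (I q).indicator (fun _ => w q) t) := fun q =>
    measurable_const.indicator measurableSet_Icc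
  have hV' : ENNReal.ofReal V ≠ 0 := by
    rw [Ne, ENNReal.ofReal_eq_zero]
    linarith
  have hsum : d * ∑ j ∈ Jb, o j ≤ S * √E := by
    have hE0 : 0 ≤ E := (Finset.sum_nonneg fun j _ => sq_nonneg (o j)).trans hE
    have h1 : (∑ j ∈ Jb, o j) ^ 2 ≤ Jb.card * ∑ j ∈ Jb, o j ^ 2 := sq_sum_le_card_mul_sum_sq
    have h2 : (Jb.card : ℝ) ≤ Fintype.card J := by exact_mod_cast Finset.card_le_univ Jb
    have h0 : 0 ≤ ∑ j ∈ Jb, o j := Finset.sum_nonneg fun j _ => ho0 j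
    have h3 : (d * ∑ j ∈ Jb, o j) ^ 2 ≤ (S * √E) ^ 2 := by
      rw [mul_pow, mul_pow, Real.sq_sqrt hE0]
      calc d ^ 2 * (∑ j ∈ Jb, o j) ^ 2 ≤ d ^ 2 * (Fintype.card J * E) := by
            refine mul_le_mul_of_nonneg_left (h1.trans ?_) (sq_nonneg d)
            exact mul_le_mul h2 hE (Finset.sum_nonneg fun j _ => sq_nonneg (o j)) (by positivity)
        _ = d ^ 2 * Fintype.card J * E := by ring
        _ ≤ S ^ 2 * E := mul_le_mul_of_nonneg_right hdS hE0
    exact (pow_le_pow_iff_left₀ (mul_nonneg hd h0) (mul_nonneg hS (Real.sqrt_nonneg _))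
      two_ne_zero).1 h3
  refine ⟨{t | ENNReal.ofReal V ≤ ∑' q, (I q).indicator (fun _ => w q) t},
    measurableSet_le measurable_const (Measurable.tsum hm), ?_, ?_⟩
  · refine (Isl_968.levels_le I (fun q => measurableSet_Icc) w hV' ENNReal.ofReal_ne_top).trans ?_
    have h1 : ∑' q, w q * volume (I q) ≤ ENNReal.ofReal (2 * L * (S * √E)) := by
      rw [tsum_fintype]
      have h2 : ∀ q ∈ Finset.univ, w q * volume (I q) ≤
          ENNReal.ofReal (if q ∈ Jb then 2 * L * (d * o q) else 0) := by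
        intro q _
        by_cases hq : q ∈ Jb
        · simp only [w, if_pos hq, I]
          rw [Real.volume_Icc, ← ENNReal.ofReal_mul hd]
          refine ENNReal.ofReal_le_ofReal (le_of_eq ?_)
          ring
        · simp only [w, if_neg hq, zero_mul]
          exact zero_le
      refine (Finset.sum_le_sum h2).trans ?_
      have h3 : ∀ q : J, 0 ≤ (if q ∈ Jb then 2 * L * (d * o q) else 0) := by
        intro q
        split_ifs
        · have := ho0 q
          positivity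
        · exact le_refl 0
      rw [← ENNReal.ofReal_sum_of_nonneg (fun q _ => h3 q)]
      refine ENNReal.ofReal_le_ofReal ?_
      rw [← Finset.sum_filter]
      have h4 : Finset.univ.filter (fun q => q ∈ Jb) = Jb := by ext; simp
      rw [h4, ← Finset.mul_sum, ← Finset.mul_sum]
      exact mul_le_mul_of_nonneg_left hsum (by linarith)
    refine (ENNReal.div_le_div_right h1 _).trans ?_
    rw [← ENNReal.ofReal_div_of_pos hV]
  · intro t ht
    rw [mem_ofPred_eq, not_le] at ht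
    have h1 : ENNReal.ofReal (d * ((Jb.filter (fun j => |t - ctr j| ≤ L * o j)).card : ℝ)) ≤
        ∑' q, (I q).indicator (fun _ => w q) t := by
      rw [tsum_fintype]
      have e : ENNReal.ofReal (d * ((Jb.filter (fun j => |t - ctr j| ≤ L * o j)).card : ℝ)) =
          ∑ _j ∈ Jb.filter (fun j => |t - ctr j| ≤ L * o j), ENNReal.ofReal d := by
        rw [Finset.sum_const, nsmul_eq_mul, mul_comm, ENNReal.ofReal_mul (by positivity),
          ENNReal.ofReal_natCast]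
      rw [e]
      refine le_trans (Finset.sum_le_sum fun j hj => ?_)
        (Finset.sum_le_sum_of_subset_of_nonneg (Finset.subset_univ _) (fun j _ _ => zero_le))
      rw [Finset.mem_filter] at hj
      have hI : t ∈ I j := by
        have := abs_le.1 hj.2
        exact ⟨by linarith [this.1], by linarith [this.2]⟩
      rw [indicator_of_mem hI]
      simp only [w, if_pos hj.1]
      exact le_refl _
    have h2 := h1.trans_lt ht
    exact (ENNReal.ofReal_lt_ofReal_iff hV).1 h2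

/-- all linked subfamilies lie in disjoint clusters -/
theorem exists_clusters_all {X J : Type*} [DecidableEq J] [Fintype J] (A : J → Set X)
    (Jp : Finset J) :
    ∃ C : Finset (Finset J), (∀ D ∈ C, Lk A D) ∧
      (∀ D ∈ C, ∀ D' ∈ C, D ≠ D' → Disjoint D D') ∧
      (∀ D ∈ C, D ⊆ Jp ∨ D.card ≤ 1) ∧ ∀ s ⊆ Jp, Lk A s → ∃ D ∈ C, s ⊆ D := by
  classical
  let ι := {s : Finset J // s ⊆ Jp ∧ Lk A s}
  obtain ⟨C, -, h2, h3, h4⟩ := exists_clusters A (fun s : ι => s.1) Jp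
    (fun s => ⟨s.2.2, Or.inl s.2.1⟩)
  exact ⟨C, fun D hD => (h3 D hD).1, h4, fun D hD => (h3 D hD).2,
    fun s hs hl => h2 ⟨s, hs, hl⟩⟩

/-- the cells met by a connected set are linked through their rims -/
theorem lk_met {X : Type*} [TopologicalSpace X] {F : Set X} {J : Type*} [Fintype J]
    {Q B : J → Set X} (hC : Cells F Q B) {Γ : Set X} (hΓF : Γ ⊆ F) (hΓc : IsPreconnected Γ)
    (c : Finset J) (hcmem : ∀ j, j ∈ c ↔ (Γ ∩ Q j).Nonempty) :
    Lk (fun j => B j ∩ F) c := by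
  classical
  intro s' hs' hne hne'
  obtain ⟨q1, hq1⟩ := hne
  obtain ⟨q2, hq2, hq2'⟩ : ∃ q ∈ c, q ∉ s' := by
    by_contra hno
    push Not at hno
    exact hne' (Finset.Subset.antisymm hs' hno)
  have hC1 : IsClosed (⋃ q ∈ s', Q q) :=
    Set.Finite.isClosed_biUnion s'.finite_toSet (fun q _ => hC.closed q)
  have hC2 : IsClosed (⋃ q ∈ c \ s', Q q) :=
    Set.Finite.isClosed_biUnion (c \ s').finite_toSet (fun q _ => hC.closed q)
  obtain ⟨x1, hx1, hx1'⟩ := (hcmem q1).1 (hs' hq1)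
  obtain ⟨x2, hx2, hx2'⟩ := (hcmem q2).1 hq2
  have hcl := (isPreconnected_closed_iff.1 hΓc) _ _ hC1 hC2 (by
      intro x hx
      obtain ⟨j, hj⟩ := mem_iUnion.1 (hC.cov (hΓF hx))
      have hjc : j ∈ c := (hcmem j).2 ⟨x, hx, hj⟩
      by_cases h1 : j ∈ s'
      · exact Or.inl (mem_iUnion₂.2 ⟨j, h1, hj⟩)
      · exact Or.inr (mem_iUnion₂.2 ⟨j, Finset.mem_sdiff.2 ⟨hjc, h1⟩, hj⟩))
    ⟨x1, hx1, mem_iUnion₂.2 ⟨q1, hq1, hx1'⟩⟩
    ⟨x2, hx2, mem_iUnion₂.2 ⟨q2, Finset.mem_sdiff.2 ⟨hq2, hq2'⟩, hx2'⟩⟩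
  obtain ⟨x, hx, hxa, hxb⟩ := hcl
  obtain ⟨q, hq, hxq⟩ := mem_iUnion₂.1 hxa
  obtain ⟨q', hq', hxq'⟩ := mem_iUnion₂.1 hxb
  rw [Finset.mem_sdiff] at hq'
  have hne2 : q ≠ q' := fun h => hq'.2 (h ▸ hq)
  obtain ⟨b1, b2⟩ := hC.meet q q' hne2 ⟨hxq, hxq'⟩
  exact ⟨q, hq, q', hq'.1, hq'.2, x, ⟨b1, hΓF hx⟩, ⟨b2, hΓF hx⟩⟩

theorem Lk.mono {X J : Type*} {A A' : J → Set X} {s : Finset J} (h : Lk A s)
    (hA : ∀ j, A j ⊆ A' j) : Lk A' s := by
  intro s' hs' hne hne'
  obtain ⟨q, hq, q', hq', hn, x, hx, hx'⟩ := h s' hs' hne hne'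
  exact ⟨q, hq, q', hq', hn, x, hA _ hx, hA _ hx'⟩

/-- opposite rays -/
theorem dist_opp {X : Type*} [NormedAddCommGroup X] [NormedSpace ℝ X] {x p q a b : X}
    (hx : x ∈ segment ℝ p q) (hp : x ≠ p) (hq : x ≠ q) (ha : a ∈ segment ℝ x p)
    (hb : b ∈ segment ℝ x q) : dist x a ≤ dist a b := by
  rw [segment_eq_image] at hx ha hb
  obtain ⟨s, ⟨hs0, hs1⟩, hxs⟩ := hx
  obtain ⟨α, ⟨hα0, hα1⟩, rfl⟩ := ha
  obtain ⟨β, ⟨hβ0, hβ1⟩, rfl⟩ := hb
  have hs0' : 0 < s := by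
    rcases hs0.lt_or_eq with h | h
    · exact h
    · exfalso
      apply hp
      rw [← hxs, ← h]
      simp
  have hs1' : s < 1 := by
    rcases hs1.lt_or_eq with h | h
    · exact h
    · exfalso
      apply hq
      rw [← hxs, h]
      simp
  have hQ : q - x = -((1 - s) / s) • (p - x) := by
    have : s • (q - x) = s • (-((1 - s) / s) • (p - x)) := by
      rw [smul_smul]
      have e : s * -((1 - s) / s) = -(1 - s) := by field_simp
      rw [e]
      have : x = (1 - s) • p + s • q := hxs.symm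
      have e2 : s • (q - x) + (1 - s) • (p - x) = ((1 - s) • p + s • q) - x := by module
      have e3 : s • (q - x) + (1 - s) • (p - x) = 0 := by
        rw [e2, ← this, sub_self]
      rw [neg_smul]
      exact eq_neg_of_add_eq_zero_left e3
    exact smul_right_injective X hs0'.ne' this
  have e1 : x - ((1 - α) • x + α • p) = -(α • (p - x)) := by module
  have e2 : ((1 - α) • x + α • p) - ((1 - β) • x + β • q) =
      (α + β * ((1 - s) / s)) • (p - x) := by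
    have : ((1 - α) • x + α • p) - ((1 - β) • x + β • q) = α • (p - x) - β • (q - x) := by module
    rw [this, hQ]
    module
  simp only [dist_eq_norm]
  rw [e1, e2, norm_neg, norm_smul, norm_smul, Real.norm_eq_abs, Real.norm_eq_abs]
  refine mul_le_mul_of_nonneg_right ?_ (norm_nonneg _)
  have h1 : 0 ≤ β * ((1 - s) / s) := mul_nonneg hβ0 (div_nonneg (by linarith) hs0)
  rw [abs_of_nonneg hα0, abs_of_nonneg (by linarith)]
  linarith

end Crest.Agent.R096.Scp_753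
end

-- ▼ part R096/Scp2_753
section

/-!
# R096 (S0127), p = 2: small circles, balls chosen before the approximating map, part 2 (helper753)
-/

set_option autoImplicit false

namespace Crest.Agent.R096.Scp_753

open MeasureTheory Set Metric
open scoped ENNReal
open Crest.Agent.R096.Sc_968

/-- **small circles, balls first** -/
theorem small_circles_pre {X Y : Type*} [NormedAddCommGroup X] [NormedSpace ℝ X]
    [PseudoMetricSpace Y] {F : Set X} (hF : IsCompact F) (hconv : Convex ℝ F) {f : X → Y}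
    (hf : ContinuousOn f F) {u : Y → ℝ} {L : ℝ} (hL : 0 ≤ L)
    (hu : ∀ y z, |u y - u z| ≤ L * dist y z) {t0 tm t1 : ℝ} (h1 : tm < t1)
    {E S σ θ : ℝ} (hS : 0 ≤ S) (hσ : 0 < σ) (hθ : 0 < θ)
    (hE : ∀ ε > 0, ∃ (J : Type) (_ : Fintype J) (Q B : J → Set X) (o : J → ℝ) (d : ℝ),
      0 < d ∧ d ≤ ε ∧ Cells F Q B ∧ (∀ j, IsClosed (B j)) ∧
      (∀ j, ∀ x ∈ Q j ∩ F, ∀ y ∈ Q j ∩ F, dist x y ≤ d) ∧ d ^ 2 * Fintype.card J ≤ S ^ 2 ∧
      (∀ j, ∀ x ∈ Q j ∩ F, ∀ y ∈ Q j ∩ F, dist (f x) (f y) ≤ ε) ∧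
      (∀ j, 0 ≤ o j ∧ ∀ x ∈ B j ∩ F, ∀ y ∈ B j ∩ F, dist (f x) (f y) ≤ o j) ∧
      ∀ Jb : Finset J, (∀ j ∈ Jb, ∃ x ∈ B j ∩ F, t0 ≤ u (f x)) → ∑ j ∈ Jb, o j ^ 2 ≤ E)
    (hEσ : 8 * L * E ≤ θ * σ) :
    ∃ Bad : Set ℝ, MeasurableSet Bad ∧ volume Bad ≤ ENNReal.ofReal θ ∧
      ∀ ts ∈ Ioo t0 tm, ts ∉ Bad →
        ∃ (n : ℕ) (y : Fin n → Y) (ρ : Fin n → ℝ), (∀ m, 0 < ρ m) ∧ ∑ m, ρ m ≤ σ ∧
        ∃ η > 0, ∀ t, |t - ts| ≤ η → ∀ h : X → Y, (∀ x ∈ F, dist (h x) (f x) ≤ η) →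
          ∀ K Γ : Set X, Γ ⊆ F → IsPreconnected Γ → (∀ x ∈ Γ, u (h x) = t) →
            (∃ x ∈ K ∩ F, t1 ≤ u (h x) ∧ ∃ p ∈ F, ∃ q ∈ F, p ∉ K ∧ q ∉ K ∧ x ∈ segment ℝ p q) →
            (∀ S' ⊆ F, IsPreconnected S' → (S' ∩ K).Nonempty → ¬ S' ⊆ K →
              (S' ∩ Γ).Nonempty) →
            ∃ m, h '' Γ ⊆ closedBall (y m) (ρ m) := by
  classical
  have hgap : 0 < t1 - tm := sub_pos.2 h1
  have hL1 : 0 < L + 1 := by linarith
  have huc' : Continuous u := by
    have : LipschitzWith L.toNNReal u := LipschitzWith.of_dist_le_mul fun y z => by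
      rw [Real.dist_eq, Real.coe_toNNReal L hL]; exact hu y z
    exact this.continuous
  -- modulus of continuity
  have huc := hF.uniformContinuousOn_of_continuous hf
  rw [Metric.uniformContinuousOn_iff] at huc
  obtain ⟨δ, hδ, hfδ⟩ := huc ((t1 - tm) / (4 * (L + 1))) (by positivity)
  set V : ℝ := (4 * L * (S * √E) + 1) / θ with hVdef
  have hV : 0 < V := by
    have : 0 ≤ L * (S * √E) := by positivity
    have : 0 < 4 * L * (S * √E) + 1 := by linarith
    positivity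
  set N1 : ℝ := V / δ with hN1
  have hN10 : 0 < N1 := by positivity
  set ε : ℝ := min (δ / 2) (σ / (8 * (N1 + 1))) with hεdef
  have hε : 0 < ε := lt_min (by positivity) (by positivity)
  have hεδ : ε ≤ δ / 2 := min_le_left _ _
  have hεσ : ε ≤ σ / (8 * (N1 + 1)) := min_le_right _ _
  -- the cells
  obtain ⟨J, hJ, Q, B, o, d, hd0, hdε, hC, hBc, hQd, hdS, hQ, hB, hJb⟩ := hE ε hε
  have ho0 : ∀ j, 0 ≤ o j := fun j => (hB j).1
  -- base points of the rims
  let ctr : J → ℝ := fun j => if h : (B j ∩ F).Nonempty then u (f h.some) else 0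
  let Jb : Finset J := Finset.univ.filter (fun j => ∃ x ∈ B j ∩ F, t0 ≤ u (f x))
  have hJbE : ∑ j ∈ Jb, o j ^ 2 ≤ E := hJb Jb (fun j hj => (Finset.mem_filter.1 hj).2)
  have hE0 : 0 ≤ E := (Finset.sum_nonneg fun j _ => sq_nonneg (o j)).trans hJbE
  obtain ⟨Bad1, hBm1, hBv1, hBt1⟩ := level_select ho0 ctr Jb hL le_rfl hσ hJbE
  obtain ⟨Bad2, hBm2, hBv2, hBt2⟩ := level_count ho0 ctr Jb hL hd0.le hV hS hdS hJbE
  refine ⟨Bad1 ∪ Bad2, hBm1.union hBm2, ?_, ?_⟩
  · refine (measure_union_le _ _).trans ?_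
    have e1 : 4 * L * (E + 0 * ∑ j, o j) / σ ≤ θ / 2 := by
      rw [zero_mul, add_zero, div_le_iff₀ hσ]
      linarith
    have e2 : 2 * L * (S * √E) / V ≤ θ / 2 := by
      rw [div_le_iff₀ hV, hVdef]
      have : θ / 2 * ((4 * L * (S * √E) + 1) / θ) = 2 * L * (S * √E) + 1 / 2 := by
        field_simp
        ring
      rw [this]
      linarith
    calc volume Bad1 + volume Bad2 ≤ ENNReal.ofReal (θ / 2) + ENNReal.ofReal (θ / 2) :=
          add_le_add (hBv1.trans (ENNReal.ofReal_le_ofReal e1))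
            (hBv2.trans (ENNReal.ofReal_le_ofReal e2))
      _ = ENNReal.ofReal θ := by
          rw [← ENNReal.ofReal_add (by positivity) (by positivity)]
          congr 1
          ring
  · intro ts hts htsB
    rw [mem_union, not_or] at htsB
    obtain ⟨htB1, htB2⟩ := htsB
    -- the visited cells
    let 𝒱 : Finset J := Finset.univ.filter (fun j => ∃ x ∈ B j ∩ F, u (f x) = ts)
    have h𝒱mem : ∀ j, j ∈ 𝒱 ↔ ∃ x ∈ B j ∩ F, u (f x) = ts := fun j => by simp [𝒱]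
    have h𝒱sub : ∀ j ∈ 𝒱, j ∈ Jb ∧ |ts - ctr j| ≤ L * o j := by
      intro j hj
      obtain ⟨x, hx, hxt⟩ := (h𝒱mem j).1 hj
      have hne : (B j ∩ F).Nonempty := ⟨x, hx⟩
      refine ⟨?_, ?_⟩
      · simp only [Jb, Finset.mem_filter, Finset.mem_univ, true_and]
        exact ⟨x, hx, by rw [hxt]; exact hts.1.le⟩
      · simp only [ctr, dif_pos hne]
        rw [← hxt]
        exact (hu _ _).trans (mul_le_mul_of_nonneg_left ((hB j).2 x hx _ hne.some_mem) hL)
    have h𝒱o : ∑ j ∈ 𝒱, o j < σ / 2 := by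
      refine lt_of_le_of_lt ?_ (hBt1 ts htB1)
      refine Finset.sum_le_sum_of_subset_of_nonneg (fun j hj => ?_) (fun j _ _ => ho0 j)
      rw [Finset.mem_filter, add_zero]
      exact h𝒱sub j hj
    have h𝒱c : d * (𝒱.card : ℝ) < V := by
      refine lt_of_le_of_lt ?_ (hBt2 ts htB2)
      refine mul_le_mul_of_nonneg_left ?_ hd0.le
      have : 𝒱.card ≤ (Jb.filter (fun j => |ts - ctr j| ≤ L * o j)).card := by
        refine Finset.card_le_card fun j hj => ?_
        rw [Finset.mem_filter]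
        exact h𝒱sub j hj
      exact_mod_cast this
    -- the clusters
    obtain ⟨C, hCl, hCd, hCp, hCs⟩ := exists_clusters_all (fun j => B j ∩ F) 𝒱
    let C' : Finset (Finset J) := C.filter (fun D => D ⊆ 𝒱 ∧ δ ≤ D.card * d)
    have hC'card : (C'.card : ℝ) ≤ N1 := by
      have a1 : ∑ D ∈ C', (D.card : ℝ) ≤ 𝒱.card := by
        have : (C'.biUnion id).card = ∑ D ∈ C', D.card := by
          rw [Finset.card_biUnion]
          · rfl
          · intro D hD D' hD' hne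
            exact hCd D (Finset.mem_filter.1 hD).1 D' (Finset.mem_filter.1 hD').1 hne
        have h2 : (C'.biUnion id).card ≤ 𝒱.card := by
          refine Finset.card_le_card fun j hj => ?_
          rw [Finset.mem_biUnion] at hj
          obtain ⟨D, hD, hjD⟩ := hj
          exact (Finset.mem_filter.1 hD).2.1 hjD
        rw [this] at h2
        exact_mod_cast h2
      have a2 : ∑ _D ∈ C', δ ≤ ∑ D ∈ C', (D.card : ℝ) * d :=
        Finset.sum_le_sum fun D hD => (Finset.mem_filter.1 hD).2.2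
      rw [Finset.sum_const, nsmul_eq_mul, ← Finset.sum_mul] at a2
      have a3 : (∑ D ∈ C', (D.card : ℝ)) * d ≤ 𝒱.card * d := mul_le_mul_of_nonneg_right a1 hd0.le
      rw [hN1, le_div_iff₀ hδ]
      linarith
    -- the width of the levels
    have hη : ∃ η > 0, η ≤ ε ∧ η ≤ (t1 - tm) / (8 * (L + 1)) ∧
        ∀ j, ∀ x ∈ B j ∩ F, |u (f x) - ts| ≤ (L + 1) * η → j ∈ 𝒱 := by
      have hj : ∀ j, ∃ ηj > 0, ∀ x ∈ B j ∩ F, |u (f x) - ts| ≤ (L + 1) * ηj → j ∈ 𝒱 := by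
        intro j
        by_cases hjV : j ∈ 𝒱
        · exact ⟨1, one_pos, fun _ _ _ => hjV⟩
        · have hcp : IsCompact (B j ∩ F) := hF.inter_left (hBc j)
          have hco : ContinuousOn (fun x => |u (f x) - ts|) (B j ∩ F) :=
            ((huc'.comp_continuousOn (hf.mono inter_subset_right)).sub
              continuousOn_const).abs
          rcases (B j ∩ F).eq_empty_or_nonempty with he | hne
          · exact ⟨1, one_pos, fun x hx => by rw [he] at hx; exact absurd hx (notMem_empty x)⟩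
          · obtain ⟨z, hz, hmin⟩ := hcp.exists_isMinOn hne hco
            have hz0 : 0 < |u (f z) - ts| := by
              rw [abs_pos, sub_ne_zero]
              intro he
              exact hjV ((h𝒱mem j).2 ⟨z, hz, he⟩)
            refine ⟨|u (f z) - ts| / (2 * (L + 1)), by positivity, fun x hx hxt => ?_⟩
            exfalso
            have b1 : |u (f z) - ts| ≤ |u (f x) - ts| := hmin hx
            have b2 : (L + 1) * (|u (f z) - ts| / (2 * (L + 1))) = |u (f z) - ts| / 2 := by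
              field_simp
            rw [b2] at hxt
            linarith
      choose ηj hηj0 hηj using hj
      obtain ⟨η1, hη10, hη1⟩ : ∃ η1 > 0, ∀ j, η1 ≤ ηj j := by
        rcases isEmpty_or_nonempty J with he | hne
        · exact ⟨1, one_pos, fun j => he.elim j⟩
        · obtain ⟨j0, -, hj0⟩ := Finset.exists_min_image Finset.univ ηj Finset.univ_nonempty
          exact ⟨ηj j0, hηj0 j0, fun j => hj0 j (Finset.mem_univ _)⟩
      refine ⟨min (min ε ((t1 - tm) / (8 * (L + 1)))) η1, ?_, ?_, ?_, ?_⟩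
      · exact lt_min (lt_min hε (by positivity)) hη10
      · exact (min_le_left _ _).trans (min_le_left _ _)
      · exact (min_le_left _ _).trans (min_le_right _ _)
      · intro j x hx hxt
        refine hηj j x hx (hxt.trans (mul_le_mul_of_nonneg_left ?_ hL1.le))
        exact (min_le_right _ _).trans (hη1 j)
    obtain ⟨η, hη0, hηε, hηg, hηV⟩ := hη
    -- centres
    have hbase : ∀ D ∈ C', ∃ x, ∃ j ∈ D, x ∈ B j ∩ F := by
      intro D hD
      obtain ⟨hDC, hDV, hDδ⟩ := Finset.mem_filter.1 hD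
      have hne : D.Nonempty := by
        rw [Finset.nonempty_iff_ne_empty]
        rintro rfl
        simp only [Finset.card_empty, Nat.cast_zero, zero_mul] at hDδ
        linarith
      obtain ⟨j, hj⟩ := hne
      obtain ⟨x, hx, -⟩ := (h𝒱mem j).1 (hDV hj)
      exact ⟨x, j, hj, hx⟩
    choose! x0 j0 hj0 hx0 using hbase
    let eq := C'.equivFin
    refine ⟨C'.card, fun m => f (x0 (eq.symm m).1),
      fun m => (∑ j ∈ (eq.symm m).1, o j) + (ε + η + ε), fun m => ?_, ?_, η, hη0, ?_⟩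
    · have : 0 ≤ ∑ j ∈ (eq.symm m).1, o j := Finset.sum_nonneg fun j _ => ho0 j
      linarith
    · have e1 : ∑ m, ((∑ j ∈ (eq.symm m).1, o j) + (ε + η + ε)) =
          ∑ D ∈ C', ((∑ j ∈ D, o j) + (ε + η + ε)) := by
        rw [← Finset.sum_coe_sort C']
        exact Equiv.sum_comp eq.symm (fun D : C' => (∑ j ∈ D.1, o j) + (ε + η + ε))
      rw [e1, Finset.sum_add_distrib, Finset.sum_const, nsmul_eq_mul]
      have e2 : ∑ D ∈ C', ∑ j ∈ D, o j ≤ ∑ j ∈ 𝒱, o j := by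
        rw [← Finset.sum_biUnion]
        · refine Finset.sum_le_sum_of_subset_of_nonneg (fun j hj => ?_) (fun j _ _ => ho0 j)
          rw [Finset.mem_biUnion] at hj
          obtain ⟨D, hD, hjD⟩ := hj
          exact (Finset.mem_filter.1 hD).2.1 hjD
        · intro D hD D' hD' hne
          exact hCd D (Finset.mem_filter.1 hD).1 D' (Finset.mem_filter.1 hD').1 hne
      have e3 : (C'.card : ℝ) * (ε + η + ε) ≤ (N1 + 1) * (3 * (σ / (8 * (N1 + 1)))) :=
        mul_le_mul (by linarith) (by linarith) (by positivity) (by positivity)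
      have e4 : (N1 + 1) * (3 * (σ / (8 * (N1 + 1)))) = 3 * σ / 8 := by field_simp
      linarith
    · intro t ht h hh K Γ hΓF hΓc hΓt hKx hcut
      obtain ⟨x, ⟨hxK, hxF⟩, hxt, p, hpF, q, hqF, hpK, hqK, hxpq⟩ := hKx
      have ht' := abs_le.1 ht
      -- distance of x to Γ
      have hfar : ∀ a ∈ Γ, δ ≤ dist x a := by
        intro a ha
        by_contra hno
        have d2 := hfδ x hxF a (hΓF ha) (not_le.1 hno)
        have d3 := hh x hxF
        have d4 := hh a (hΓF ha)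
        have d5 := hu (h x) (f x)
        have d6 := hu (f a) (h a)
        rw [dist_comm (f a)] at d6
        have d7 := hu (f x) (f a)
        have d8 := hΓt a ha
        have g3 : L * dist (h x) (f x) ≤ L * η := mul_le_mul_of_nonneg_left d3 hL
        have g4 : L * dist (h a) (f a) ≤ L * η := mul_le_mul_of_nonneg_left d4 hL
        have g2 : L * dist (f x) (f a) ≤ (L + 1) * ((t1 - tm) / (4 * (L + 1))) :=
          mul_le_mul (by linarith) d2.le dist_nonneg hL1.le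
        have g2' : (L + 1) * ((t1 - tm) / (4 * (L + 1))) = (t1 - tm) / 4 := by field_simp
        have g5 : (L + 1) * η ≤ (t1 - tm) / 8 := by
          have : (L + 1) * η ≤ (L + 1) * ((t1 - tm) / (8 * (L + 1))) :=
            mul_le_mul_of_nonneg_left hηg hL1.le
          refine this.trans (le_of_eq ?_)
          field_simp
        have k1 := (abs_le.1 d5).2
        have k2 := (abs_le.1 d6).2
        have k3 := (abs_le.1 d7).2
        have k4 := hts.2
        nlinarith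
      have hseg : ∀ w ∈ F, w ∉ K → ∃ a ∈ segment ℝ x w, a ∈ Γ := by
        intro w hw hwK
        obtain ⟨a, ha, ha'⟩ := hcut (segment ℝ x w) (hconv.segment_subset hxF hw)
          (convex_segment x w).isPreconnected ⟨x, left_mem_segment ℝ x w, hxK⟩
          (fun hs => hwK (hs (right_mem_segment ℝ x w)))
        exact ⟨a, ha, ha'⟩
      obtain ⟨a, ha, haΓ⟩ := hseg p hpF hpK
      obtain ⟨b, hb, hbΓ⟩ := hseg q hqF hqK
      have hxp : x ≠ p := fun e => hpK (e ▸ hxK)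
      have hxq : x ≠ q := fun e => hqK (e ▸ hxK)
      have hab : δ ≤ dist a b := (hfar a haΓ).trans (dist_opp hxpq hxp hxq ha hb)
      -- the cells met by Γ
      let c : Finset J := Finset.univ.filter (fun j => (Γ ∩ Q j).Nonempty)
      have hcmem : ∀ j, j ∈ c ↔ (Γ ∩ Q j).Nonempty := fun j => by simp [c]
      have hLk : Lk (fun j => B j ∩ F) c := lk_met hC hΓF hΓc c hcmem
      have hLk' : Lk (fun j => Q j ∩ F) c :=
        Lk.mono hLk fun j => inter_subset_inter_left _ (hC.sub j)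
      have hcell : ∀ z ∈ Γ, ∃ j ∈ c, z ∈ Q j := by
        intro z hz
        obtain ⟨j, hj⟩ := mem_iUnion.1 (hC.cov (hΓF hz))
        exact ⟨j, (hcmem j).2 ⟨z, hz, hj⟩, hj⟩
      obtain ⟨ja, hja, haQ⟩ := hcell a haΓ
      obtain ⟨jb, hjb, hbQ⟩ := hcell b hbΓ
      have hcδ : δ ≤ c.card * d := by
        have := dist_le_sum (f := (id : X → X)) hLk' (o := fun _ => d) (fun j _ => hd0.le)
          (fun j _ x hx y hy => hQd j x hx y hy) hja hjb (x := a) (y := b)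
          ⟨haQ, hΓF haΓ⟩ ⟨hbQ, hΓF hbΓ⟩
        rw [Finset.sum_const, nsmul_eq_mul] at this
        exact hab.trans this
      have hc1 : 1 < c.card := by
        by_contra hno
        have : (c.card : ℝ) ≤ 1 := by exact_mod_cast not_lt.1 hno
        have : (c.card : ℝ) * d ≤ 1 * d := mul_le_mul_of_nonneg_right this hd0.le
        linarith
      -- every met cell has a rim point in Γ
      have hrim : ∀ m ∈ c, ∃ w ∈ Γ, w ∈ B m := by
        intro m hm
        obtain ⟨m', hm', hne⟩ := Finset.exists_mem_ne hc1 m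
        by_cases h2 : Γ ⊆ Q m
        · obtain ⟨w, hw, hwm⟩ := (hcmem m').1 hm'
          exact ⟨w, hw, (hC.meet m m' hne.symm ⟨h2 hw, hwm⟩).1⟩
        · obtain ⟨w, hw, hwm⟩ := hC.cut m Γ hΓF hΓc ((hcmem m).1 hm) h2
          exact ⟨w, hw, hwm⟩
      have hcV : c ⊆ 𝒱 := by
        intro m hm
        obtain ⟨w, hw, hwB⟩ := hrim m hm
        refine hηV m w ⟨hwB, hΓF hw⟩ ?_
        have k1 := hu (f w) (h w)
        rw [dist_comm] at k1
        have k2 : L * dist (h w) (f w) ≤ L * η := mul_le_mul_of_nonneg_left (hh w (hΓF hw)) hL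
        have k3 := hΓt w hw
        have k4 := abs_le.1 (k1.trans k2)
        rw [k3] at k4
        rw [abs_le]
        constructor <;> linarith [k4.1, k4.2, ht'.1, ht'.2]
      obtain ⟨D, hDC, hcD⟩ := hCs c hcV hLk
      have hDcard : c.card ≤ D.card := Finset.card_le_card hcD
      have hDC' : D ∈ C' := by
        rw [Finset.mem_filter]
        refine ⟨hDC, ?_, ?_⟩
        · rcases hCp D hDC with h | h
          · exact h
          · omega
        · refine hcδ.trans (mul_le_mul_of_nonneg_right ?_ hd0.le)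
          exact_mod_cast hDcard
      refine ⟨eq ⟨D, hDC'⟩, ?_⟩
      rintro _ ⟨z, hz, rfl⟩
      rw [mem_closedBall]
      simp only [Equiv.symm_apply_apply]
      obtain ⟨m, hm, hzQ⟩ := hcell z hz
      obtain ⟨w, hw, hwB⟩ := hrim m hm
      have r1 := hh z (hΓF hz)
      have r2 := hQ m z ⟨hzQ, hΓF hz⟩ w ⟨hC.sub m hwB, hΓF hw⟩
      have r3 := dist_le_sum (f := f) (hCl D hDC) (fun j _ => ho0 j)
        (fun j _ => (hB j).2) (hcD hm) (hj0 D hDC') (x := w) (y := x0 D)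
        ⟨hwB, hΓF hw⟩ (hx0 D hDC')
      have r4 := dist_triangle (h z) (f z) (f (x0 D))
      have r5 := dist_triangle (f z) (f w) (f (x0 D))
      linarith

end Crest.Agent.R096.Scp_753
end

-- ▼ part R096/Fce5_793

set_option autoImplicit false
set_option linter.unusedSectionVars false

open MeasureTheory Set Filter
open scoped ENNReal Topology

namespace Crest.Agent.R096.Fce_793

open Crest.Agent.R96.Acl_392 Crest.Agent.R96.Sob4_199 Crest.Agent.R096.Sc_968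

noncomputable section

variable {E : Type*} [NormedAddCommGroup E] [NormedSpace ℝ E] [FiniteDimensional ℝ E]
  [MeasurableSpace E] [BorelSpace E]

variable {μ : Measure E} [μ.IsAddHaarMeasure] {ι : Type*} [Fintype ι]

theorem convex_pt_image (e : Fin 2 → E) (a : E) {P : Set (ℝ × ℝ)} (hP : Convex ℝ P) :
    Convex ℝ (pt e a '' P) := by
  rintro _ ⟨w, hw, rfl⟩ _ ⟨w', hw', rfl⟩ s t hs ht hst
  refine ⟨s • w + t • w', hP hw hw' hs ht hst, ?_⟩
  have h1 : a = s • a + t • a := by rw [← add_smul, hst, one_smul]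
  simp only [pt, Prod.fst_add, Prod.snd_add, Prod.smul_fst, Prod.smul_snd, smul_eq_mul, smul_add]
  rw [add_smul, add_smul, mul_smul, mul_smul, mul_smul, mul_smul]
  nth_rw 1 [h1]
  abel

/-- the conclusion of `small_circles_pre` for one face `F` -/
def SmallPre (F : Set E) (f : E → EuclideanSpace ℝ ι) (u : EuclideanSpace ℝ ι → ℝ)
    (t0 tm t1 σ θ : ℝ) : Prop :=
  ∃ Bad : Set ℝ, MeasurableSet Bad ∧ volume Bad ≤ ENNReal.ofReal θ ∧
    ∀ ts ∈ Ioo t0 tm, ts ∉ Bad →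
      ∃ (n : ℕ) (y : Fin n → EuclideanSpace ℝ ι) (ρ : Fin n → ℝ), (∀ m, 0 < ρ m) ∧
      ∑ m, ρ m ≤ σ ∧
      ∃ η > 0, ∀ t, |t - ts| ≤ η → ∀ h : E → EuclideanSpace ℝ ι,
        (∀ x ∈ F, dist (h x) (f x) ≤ η) →
        ∀ K Γ : Set E, Γ ⊆ F → IsPreconnected Γ → (∀ x ∈ Γ, u (h x) = t) →
          (∃ x ∈ K ∩ F, t1 ≤ u (h x) ∧ ∃ p ∈ F, ∃ q ∈ F, p ∉ K ∧ q ∉ K ∧ x ∈ segment ℝ p q) →
          (∀ S' ⊆ F, IsPreconnected S' → (S' ∩ K).Nonempty → ¬ S' ⊆ K →
            (S' ∩ Γ).Nonempty) →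
          ∃ m, h '' Γ ⊆ Metric.closedBall (y m) (ρ m)

/-- **SC+ on one face in a good position** -/
theorem small_of_pos {Ω : Set E} {f : E → EuclideanSpace ℝ ι} (hf : ContinuousOn f Ω)
    {e : Fin 2 → E} (hli : LinearIndependent ℝ e)
    {D : Fin 2 → E → EuclideanSpace ℝ ι} {G : E → ℝ≥0∞} {a : E} (hp : Pos Ω f D G e a)
    {P : Set (ℝ × ℝ)} (hPc : IsCompact P) (hPconv : Convex ℝ P)
    (hP : P ⊆ Icc (0:ℝ) 1 ×ˢ Icc (0:ℝ) 1)
    (hPΩ : pt e a '' P ⊆ Ω) {S : Set E} {E0 : ℝ} (hE0 : 4 * Ee G e P S a < ENNReal.ofReal E0)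
    {u : EuclideanSpace ℝ ι → ℝ} {L : ℝ} (hL : 0 ≤ L) (hu : ∀ y z, |u y - u z| ≤ L * dist y z)
    {t0 tm t1 : ℝ} (h1 : tm < t1)
    (hbd : ∀ w ∈ P, w ∉ interior P → u (f (pt e a w)) < t0)
    (hS : ∀ w ∈ P, t0 ≤ u (f (pt e a w)) → pt e a w ∈ S) {σ θ : ℝ} (hσ : 0 < σ) (hθ : 0 < θ)
    (hEσ : 8 * L * E0 ≤ θ * σ) : SmallPre (pt e a '' P) f u t0 tm t1 σ θ := by
  have huc : Continuous u := by
    have : LipschitzWith L.toNNReal u := LipschitzWith.of_dist_le_mul fun y z => by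
      rw [Real.dist_eq, Real.coe_toNNReal L hL]; exact hu y z
    exact this.continuous
  refine Scp_753.small_circles_pre (hPc.image (continuous_pt e a)) (convex_pt_image e a hPconv)
    (hf.mono hPΩ) hL hu h1 (cc_nonneg e) hσ hθ ?_ hEσ
  intro ε hε
  exact hE_pre hf hli hp hPc hP hPΩ hE0 huc hbd hS hε ε hε


end

end Crest.Agent.R096.Fce_793
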