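import Mathlib
import Crest.Agent.R096.Fce5_793
import Crest.Agent.R96.Intr14_538
import Crest.Agent.R96.Intr27_538
import Crest.Agent.R96.Intr24_538

-- ▼ part R096/Fsl1_793
section

set_option autoImplicit false
set_option linter.unusedSectionVars false
set_option maxHeartbeats 400000

open MeasureTheory Set Filter
open scoped ENNReal Topology

namespace Crest.Agent.R096.Fsl_793

open Crest.Agent.R96.Acl_392 Crest.Agent.R96.Sob4_199 Crest.Agent.R096.Sc_968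
open Crest.Agent.R096.Fce_793

noncomputable section

/-- **Markov selection**: `X k` (`k ∈ Q₀`) random, total mean at most `c`: off a set of measure
`c / (τ m)` all but `m` of the `k` have `X k ≤ τ`. -/
theorem select {α K : Type*} [DecidableEq K] [MeasurableSpace α] {μ : Measure α} {D : Set α}
    (hD : MeasurableSet D) (Q₀ : Finset K) (X : K → α → ℝ≥0∞)
    (hX : ∀ k ∈ Q₀, AEMeasurable (X k) (μ.restrict D)) {c : ℝ≥0∞}
    (hc : ∑ k ∈ Q₀, ∫⁻ a in D, X k a ∂μ ≤ c) {τ : ℝ≥0∞} (hτ0 : τ ≠ 0) (hτ : τ ≠ ∞)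
    {m : ℝ≥0∞} (hm0 : m ≠ 0) (hm : m ≠ ∞) :
    ∃ B ⊆ D, μ B ≤ c / (τ * m) ∧ ∀ a ∈ D, a ∉ B →
      ∃ Q ⊆ Q₀, ((Q₀ \ Q).card : ℝ≥0∞) ≤ m ∧ ∀ k ∈ Q, X k a ≤ τ := by
  have hsum : AEMeasurable (fun a => ∑ k ∈ Q₀, X k a) (μ.restrict D) := by
    have := Finset.aemeasurable_fun_sum (μ := μ.restrict D) Q₀ hX
    exact this
  refine ⟨D ∩ {a | τ * m ≤ ∑ k ∈ Q₀, X k a}, inter_subset_left, ?_, ?_⟩
  · have h1 := mul_meas_ge_le_lintegral₀ hsum (τ * m)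
    rw [Measure.restrict_apply₀' hD.nullMeasurableSet, inter_comm] at h1
    rw [ENNReal.le_div_iff_mul_le (Or.inl (mul_ne_zero hτ0 hm0))
      (Or.inl (ENNReal.mul_ne_top hτ hm)), mul_comm]
    refine h1.trans ?_
    rw [lintegral_finsetSum' _ hX]
    exact hc
  · intro a ha haB
    have h1 : ∑ k ∈ Q₀, X k a < τ * m := by
      by_contra h
      exact haB ⟨ha, not_lt.1 h⟩
    refine ⟨Q₀.filter fun k => X k a ≤ τ, Finset.filter_subset _ _, ?_, fun k hk =>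
      (Finset.mem_filter.1 hk).2⟩
    set Q' := Q₀.filter fun k => ¬ X k a ≤ τ with hQ'
    have h2 : Q₀ \ (Q₀.filter fun k => X k a ≤ τ) = Q' := by
      ext k
      simp only [Finset.mem_sdiff, Finset.mem_filter, hQ', not_and]
      tauto
    rw [h2]
    have h3 : τ * (Q'.card : ℝ≥0∞) ≤ τ * m := by
      calc τ * (Q'.card : ℝ≥0∞) = ∑ _k ∈ Q', τ := by
            rw [Finset.sum_const, nsmul_eq_mul, mul_comm]
        _ ≤ ∑ k ∈ Q', X k a := Finset.sum_le_sum fun k hk =>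
            (not_le.1 (Finset.mem_filter.1 hk).2).le
        _ ≤ ∑ k ∈ Q₀, X k a := Finset.sum_le_sum_of_subset (Finset.filter_subset _ _)
        _ ≤ τ * m := h1.le
    exact (ENNReal.mul_le_mul_iff_right hτ0 hτ).1 h3

variable {E : Type*} [NormedAddCommGroup E] [NormedSpace ℝ E] [FiniteDimensional ℝ E]
  [MeasurableSpace E] [BorelSpace E] {μ : Measure E} [μ.IsAddHaarMeasure]
  {ι : Type*} [Fintype ι]

/-- the mean energy of one face, translated by `x` -/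
theorem lintegral_Ee_add {G : E → ℝ≥0∞} (hG : Measurable G) (e : Fin 2 → E) (x : E)
    {P : Set (ℝ × ℝ)} {S : Set E} (hS : IsClosed S) {D R : Set E} (hD : MeasurableSet D)
    (hR : MeasurableSet R) (hDR : ∀ a ∈ D, ∀ w ∈ P, pt e (a + x) w ∈ R)
    (hfin : ∫⁻ y in R, G y ∂μ ≠ ∞) :
    ∫⁻ a in D, 4 * Ee G e P S (a + x) ∂μ ≤ 16 * ∫⁻ y in R ∩ S, G y ∂μ := by
  have hD' : MeasurableSet {a | a - x ∈ D} := hD.preimage (by fun_prop)
  have h1 : ∫⁻ a in D, 4 * Ee G e P S (a + x) ∂μ =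
      4 * ∫⁻ a in {a | a - x ∈ D}, Ee G e P S a ∂μ := by
    have hmx : Measurable fun a => Ee G e P S (a + x) :=
      (measurable_Ee hG e P S).comp (measurable_id.add_const x)
    rw [lintegral_const_mul _ hmx]
    congr 1
    rw [← lintegral_indicator hD, ← lintegral_indicator hD',
      ← lintegral_add_right_eq_self ({a | a - x ∈ D}.indicator fun a => Ee G e P S a) x]
    apply lintegral_congr
    intro a
    by_cases ha : a ∈ D
    · rw [indicator_of_mem ha, indicator_of_mem]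
      show a + x - x ∈ D
      rwa [add_sub_cancel_right]
    · rw [indicator_of_notMem ha, indicator_of_notMem]
      show ¬ (a + x - x ∈ D)
      rwa [add_sub_cancel_right]
  rw [h1]
  have h2 := lintegral_Ee_le (μ := μ) (P := P) hG e hS hD' hR (by
    intro a ha w hw
    have := hDR _ ha w hw
    rwa [sub_add_cancel] at this) hfin
  calc 4 * ∫⁻ a in {a | a - x ∈ D}, Ee G e P S a ∂μ ≤ 4 * (4 * ∫⁻ y in R ∩ S, G y ∂μ) := by
        gcongr
    _ = 16 * ∫⁻ y in R ∩ S, G y ∂μ := by rw [← mul_assoc]; norm_num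

/-- the mean energy of a countable family of faces -/
theorem lintegral_faces {κf : Type*} [Countable κf] {G : E → ℝ≥0∞} (hG : Measurable G)
    (hfin : ∫⁻ y, G y ∂μ ≠ ∞) (x : κf → E) (e : κf → Fin 2 → E) (P : κf → Set (ℝ × ℝ))
    {S : Set E} (hS : IsClosed S) {D : Set E} (hD : MeasurableSet D) {R : κf → Set E}
    (hR : ∀ φ, MeasurableSet (R φ))
    (hDR : ∀ φ, ∀ a ∈ D, ∀ w ∈ P φ, pt (e φ) (a + x φ) w ∈ R φ) {M : ℕ}
    (hM : ∀ y, {φ | y ∈ R φ}.encard ≤ M) :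
    ∫⁻ a in D, ∑' φ, 4 * Ee G (e φ) (P φ) S (a + x φ) ∂μ ≤ 16 * M * ∫⁻ y in S, G y ∂μ := by
  classical
  have hm : ∀ φ, Measurable fun a => 4 * Ee G (e φ) (P φ) S (a + x φ) := fun φ =>
    ((measurable_Ee hG (e φ) (P φ) S).comp (measurable_id.add_const (x φ))).const_mul 4
  rw [lintegral_tsum fun φ => (hm φ).aemeasurable]
  have h1 : ∀ φ, ∫⁻ a in D, 4 * Ee G (e φ) (P φ) S (a + x φ) ∂μ ≤
      16 * ∫⁻ y in S, (R φ).indicator 1 y * G y ∂μ := by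
    intro φ
    refine (lintegral_Ee_add hG (e φ) (x φ) hS hD (hR φ) (hDR φ)
      (ne_top_of_le_ne_top hfin (setLIntegral_le_lintegral _ _))).trans ?_
    have h2 : ∫⁻ y in R φ ∩ S, G y ∂μ = ∫⁻ y in S, (R φ).indicator 1 y * G y ∂μ := by
      rw [← Measure.restrict_restrict (hR φ), ← lintegral_indicator (hR φ)]
      apply lintegral_congr
      intro y
      by_cases hy : y ∈ R φ
      · simp only [indicator_of_mem hy, Pi.one_apply, one_mul]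
      · simp only [indicator_of_notMem hy, zero_mul]
    rw [h2]
  calc ∑' φ, ∫⁻ a in D, 4 * Ee G (e φ) (P φ) S (a + x φ) ∂μ
      ≤ ∑' φ, 16 * ∫⁻ y in S, (R φ).indicator 1 y * G y ∂μ := ENNReal.tsum_le_tsum h1
    _ = 16 * ∫⁻ y in S, (∑' φ, (R φ).indicator 1 y) * G y ∂μ := by
        rw [ENNReal.tsum_mul_left, ← lintegral_tsum]
        · congr 1
          apply lintegral_congr
          intro y
          rw [ENNReal.tsum_mul_right]
        · intro φ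
          exact ((measurable_one.indicator (hR φ)).mul hG).aemeasurable
    _ ≤ 16 * ∫⁻ y in S, (M : ℝ≥0∞) * G y ∂μ := by
        gcongr with y
        have h8 : ∀ φ, (R φ).indicator (1 : E → ℝ≥0∞) y =
            {φ | y ∈ R φ}.indicator (1 : κf → ℝ≥0∞) φ := by
          intro φ
          by_cases hy : y ∈ R φ
          · rw [indicator_of_mem hy, indicator_of_mem (show φ ∈ {φ | y ∈ R φ} from hy)]
            rfl
          · rw [indicator_of_notMem hy, indicator_of_notMem (show φ ∉ {φ | y ∈ R φ} from hy)]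
        rw [tsum_congr h8, ← tsum_subtype, Pi.one_def, ENNReal.tsum_set_one]
        have := hM y
        exact_mod_cast this
    _ = 16 * M * ∫⁻ y in S, G y ∂μ := by
        rw [lintegral_const_mul _ hG, mul_assoc]

end

end Crest.Agent.R096.Fsl_793
end

-- ▼ part R096/Fsl2_793
section

set_option autoImplicit false
set_option linter.unusedSectionVars false
set_option maxHeartbeats 400000

open MeasureTheory Set Filter
open scoped ENNReal Topology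

namespace Crest.Agent.R096.Fsl_793

open Crest.AnalysisR.VecCalc3 Crest.AnalysisR.Sobolev
open Crest.Agent.R96.Acl_392 Crest.Agent.R96.Sob4_199 Crest.Agent.R096.Sc_968
open Crest.Agent.R096.Fce_793 Crest.Agent.R96.Lu_538 Crest.Agent.R96.Intr_538
open Crest.Agent.R96.Coarse_538

noncomputable section

theorem vwd_Gmat {Ω : Set R3} (hΩ : IsOpen Ω) {f : R3 → R3} {G : Fin 3 → R3 → R3}
    (hG : ∀ j, HasWeakGradOn Ω (fun x => f x j) (G j)) (e : R3) :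
    VWD Ω volume f (fun x => Gmat G x e) e := fun j => wd_of_grad hΩ (hG j) e

/-- a measurable density which dominates `‖Df‖²` on `Ω`, equal to it a.e. -/
theorem exists_dens {Ω : Set R3} (hΩ : IsOpen Ω) {G : Fin 3 → R3 → R3}
    (hGp : ∀ j, MemLp (G j) 2 (volume.restrict Ω)) :
    ∃ g : R3 → ℝ≥0∞, Measurable g ∧ ∫⁻ y, g y ≠ ∞ ∧ (∀ᵐ x, x ∈ Ω → ‖Gmat G x‖ₑ ^ 2 = g x) ∧
      ∀ x ∉ Ω, g x = 0 := by
  have h0 : ∀ j, MemLp (G j) (ENNReal.ofReal 2) (volume.restrict Ω) := by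
    intro j
    have : ENNReal.ofReal 2 = 2 := by norm_num
    rw [this]
    exact hGp j
  have h1 : MemLp (Gmat G) (ENNReal.ofReal 2) (volume.restrict Ω) := memLp_Gmat h0
  have h2 : AEMeasurable (fun x => ‖Gmat G x‖ₑ ^ 2) (volume.restrict Ω) := h1.1.enorm.pow_const 2
  refine ⟨Ω.indicator (h2.mk _), h2.measurable_mk.indicator hΩ.measurableSet, ?_, ?_,
    fun x hx => indicator_of_notMem hx _⟩
  · rw [lintegral_indicator hΩ.measurableSet, ← lintegral_congr_ae h2.ae_eq_mk]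
    have h3 := h1.2
    have h4 : ENNReal.ofReal 2 = 2 := by norm_num
    rw [h4, eLpNorm_lt_top_iff_lintegral_rpow_enorm_lt_top (by norm_num) (by norm_num)] at h3
    simp only [ENNReal.toReal_ofNat, ENNReal.rpow_two] at h3
    exact h3.ne
  · have h3 := h2.ae_eq_mk
    rw [Filter.EventuallyEq, ae_restrict_iff' hΩ.measurableSet] at h3
    filter_upwards [h3] with x hx hxΩ
    rw [indicator_of_mem hxΩ]
    exact hx hxΩ

/-- **P2-SELECT.** `x φ, e φ, P φ` = a countable family of faces, position `a ∈ D`; `J k` = junk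
set of the cube `k`. Off a set of positions of measure `θ |D|` all but `δ / v` of the cubes have
random face energies `ε φ` with sum at most `E0` which control the small circles of every face. -/
theorem faces_select {Ω : Set R3} (hΩ : IsOpen Ω) {f : R3 → R3} (hf : ContinuousOn f Ω)
    {G : Fin 3 → R3 → R3} (hG : ∀ j, HasWeakGradOn Ω (fun x => f x j) (G j))
    (hGp : ∀ j, MemLp (G j) 2 (volume.restrict Ω))
    {κf : Type*} [Countable κf] (x : κf → R3) (e : κf → Fin 2 → R3)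
    (hli : ∀ φ, LinearIndependent ℝ (e φ)) {t : ℝ} (ht : 0 < t) (het : ∀ φ i, ‖e φ i‖ ≤ t)
    (P : κf → Set (ℝ × ℝ)) (hPc : ∀ φ, IsCompact (P φ)) (hPconv : ∀ φ, Convex ℝ (P φ))
    (hP : ∀ φ, P φ ⊆ Icc (0:ℝ) 1 ×ˢ Icc (0:ℝ) 1) {D : Set R3} (hD : MeasurableSet D)
    (hDt : volume D ≠ ∞) {R : κf → Set R3} (hR : ∀ φ, MeasurableSet (R φ))
    (hDR : ∀ φ, ∀ a ∈ D, ∀ w ∈ P φ, pt (e φ) (a + x φ) w ∈ R φ) {M : ℕ}
    (hM : ∀ y, {φ | y ∈ R φ}.encard ≤ M) {K : Type*} [DecidableEq K] (Q₀ : Finset K)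
    (J : K → Set R3) (hJ : ∀ k ∈ Q₀, IsClosed (J k)) (hJΩ : ∀ k ∈ Q₀, J k ⊆ Ω) {e₂ : ℝ}
    (he₂ : ∑ k ∈ Q₀, ∫⁻ y in J k, ‖Gmat G y‖ₑ ^ 2 ≤ ENNReal.ofReal e₂)
    {E0 v δ θ : ℝ} (hE0 : 0 < E0) (hv : 0 < v) (hδ : 0 < δ) (hθ : 0 ≤ θ)
    (hc : 16 * M * t ^ 2 * e₂ * v ≤ E0 * δ * θ * (volume D).toReal) :
    ∃ B : Set R3, volume B ≤ ENNReal.ofReal θ * volume D ∧ ∀ a ∈ D, a ∉ B →
      ∃ Q ⊆ Q₀, ((Q₀ \ Q).card : ℝ) * v ≤ δ ∧ ∀ k ∈ Q, ∃ ε : κf → ℝ≥0∞,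
        ∑' φ, ε φ ≤ ENNReal.ofReal E0 ∧
        ∀ φ, pt (e φ) (a + x φ) '' P φ ⊆ Ω → ∀ E1 : ℝ, ε φ < ENNReal.ofReal E1 →
          ∀ (u : R3 → ℝ) (L : ℝ), 0 ≤ L → (∀ y z, |u y - u z| ≤ L * dist y z) →
          ∀ t0 tm t1 : ℝ, tm < t1 →
          (∀ w ∈ P φ, w ∉ interior (P φ) → u (f (pt (e φ) (a + x φ) w)) < t0) →
          (∀ w ∈ P φ, t0 ≤ u (f (pt (e φ) (a + x φ) w)) → pt (e φ) (a + x φ) w ∈ J k) →
          ∀ σ θ' : ℝ, 0 < σ → 0 < θ' → 8 * L * E1 ≤ θ' * σ →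
          SmallPre (pt (e φ) (a + x φ) '' P φ) f u t0 tm t1 σ θ' := by
  obtain ⟨g, hgm, hgi, hgae, -⟩ := exists_dens hΩ hGp
  set Gt : R3 → ℝ≥0∞ := fun y => ENNReal.ofReal (t ^ 2) * g y with hGt
  have hGtm : Measurable Gt := hgm.const_mul _
  have hGti : ∫⁻ y, Gt y ≠ ∞ := by
    rw [hGt, lintegral_const_mul _ hgm]
    exact ENNReal.mul_ne_top ENNReal.ofReal_ne_top hgi
  -- positions
  have hpos : ∀ᵐ a, ∀ φ, Pos Ω f (fun i y => Gmat G y (e φ i)) Gt (e φ) (a + x φ) := by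
    rw [ae_all_iff]
    intro φ
    have h1 : ∀ᵐ a, Pos Ω f (fun i y => Gmat G y (e φ i)) Gt (e φ) a := by
      apply ae_pos hΩ hf (fun i => vwd_Gmat hΩ hG (e φ i))
      intro i
      filter_upwards [hgae] with y hy hyΩ
      have h2 : ‖Gmat G y (e φ i)‖ₑ ≤ ‖Gmat G y‖ₑ * ENNReal.ofReal t := by
        refine ((Gmat G y).le_opENorm (e φ i)).trans ?_
        gcongr
        rw [← ofReal_norm]
        exact ENNReal.ofReal_le_ofReal (het φ i)
      calc ‖Gmat G y (e φ i)‖ₑ ^ 2 ≤ (‖Gmat G y‖ₑ * ENNReal.ofReal t) ^ 2 := by gcongr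
        _ = Gt y := by
            rw [mul_pow, hy hyΩ, hGt, mul_comm, ENNReal.ofReal_pow ht.le]
    exact (measurePreserving_add_right volume (x φ)).quasiMeasurePreserving.ae h1
  obtain ⟨N, hN0, hN⟩ : ∃ N : Set R3, volume N = 0 ∧
      ∀ a ∉ N, ∀ φ, Pos Ω f (fun i y => Gmat G y (e φ i)) Gt (e φ) (a + x φ) := by
    refine ⟨_, hpos, fun a ha => ?_⟩
    by_contra h
    exact ha h
  -- the energies
  set X : K → R3 → ℝ≥0∞ := fun k a => ∑' φ, 4 * Ee Gt (e φ) (P φ) (J k) (a + x φ) with hX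
  have hXm : ∀ k ∈ Q₀, AEMeasurable (X k) (volume.restrict D) := by
    intro k _
    apply AEMeasurable.tsum
    intro φ
    have hm : Measurable fun a => 4 * Ee Gt (e φ) (P φ) (J k) (a + x φ) :=
      ((measurable_Ee hGtm (e φ) (P φ) (J k)).comp (measurable_id.add_const (x φ))).const_mul 4
    exact hm.aemeasurable
  have hXi : ∑ k ∈ Q₀, ∫⁻ a in D, X k a ≤ ENNReal.ofReal (16 * M * t ^ 2 * e₂) := by
    calc ∑ k ∈ Q₀, ∫⁻ a in D, X k a
        ≤ ∑ k ∈ Q₀, 16 * M * ∫⁻ y in J k, Gt y := Finset.sum_le_sum fun k hk =>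
          lintegral_faces hGtm hGti x e P (hJ k hk) hD hR hDR hM
      _ = 16 * M * ENNReal.ofReal (t ^ 2) * ∑ k ∈ Q₀, ∫⁻ y in J k, g y := by
          rw [Finset.mul_sum]
          refine Finset.sum_congr rfl fun k _ => ?_
          rw [hGt, lintegral_const_mul _ hgm]
          ring
      _ = 16 * M * ENNReal.ofReal (t ^ 2) * ∑ k ∈ Q₀, ∫⁻ y in J k, ‖Gmat G y‖ₑ ^ 2 := by
          congr 1
          refine Finset.sum_congr rfl fun k hk => ?_
          apply setLIntegral_congr_fun_ae (hJ k hk).measurableSet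
          filter_upwards [hgae] with y hy hyJ
          exact (hy (hJΩ k hk hyJ)).symm
      _ ≤ 16 * M * ENNReal.ofReal (t ^ 2) * ENNReal.ofReal e₂ := by gcongr
      _ = ENNReal.ofReal (16 * M * t ^ 2 * e₂) := by
          rw [ENNReal.ofReal_mul (by positivity), ENNReal.ofReal_mul (by positivity),
            ENNReal.ofReal_mul (by positivity), ENNReal.ofReal_natCast]
          norm_num
  obtain ⟨B, hBD, hB, hB'⟩ := select hD Q₀ X hXm hXi (τ := ENNReal.ofReal E0)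
    (by rw [Ne, ENNReal.ofReal_eq_zero, not_le]; exact hE0) ENNReal.ofReal_ne_top
    (m := ENNReal.ofReal (δ / v))
    (by rw [Ne, ENNReal.ofReal_eq_zero, not_le]; positivity) ENNReal.ofReal_ne_top
  refine ⟨B ∪ N, ?_, ?_⟩
  · refine (measure_union_le _ _).trans ?_
    rw [hN0, add_zero]
    refine hB.trans ?_
    rw [← ENNReal.ofReal_mul hE0.le, ← ENNReal.ofReal_div_of_pos (by positivity),
      ← ENNReal.ofReal_toReal hDt, ← ENNReal.ofReal_mul hθ]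
    apply ENNReal.ofReal_le_ofReal
    rw [div_le_iff₀ (by positivity)]
    have h1 : θ * (volume D).toReal * (E0 * (δ / v)) = E0 * δ * θ * (volume D).toReal / v := by
      field_simp
    rw [h1, le_div_iff₀ hv]
    exact hc
  · intro a haD haB
    have haB1 : a ∉ B := fun h => haB (Or.inl h)
    have haN : a ∉ N := fun h => haB (Or.inr h)
    obtain ⟨Q, hQ, hcard, hQX⟩ := hB' a haD haB1
    refine ⟨Q, hQ, ?_, ?_⟩
    · rw [← ENNReal.ofReal_natCast] at hcard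
      have h1 := (ENNReal.ofReal_le_ofReal_iff (by positivity)).1 hcard
      rwa [le_div_iff₀ hv] at h1
    · intro k hk
      refine ⟨fun φ => 4 * Ee Gt (e φ) (P φ) (J k) (a + x φ), hQX k hk, ?_⟩
      intro φ hsub E1 hE1 u L hL hu t0 tm t1 h1 hbd hSS σ θ' hσ hθ' hEσ
      exact small_of_pos hf (hli φ) (hN a haN φ) (hPc φ) (hPconv φ) (hP φ) hsub hE1 hL hu h1 hbd
        hSS hσ hθ' hEσ

end

end Crest.Agent.R096.Fsl_793
end

-- ▼ part R096/Fsl3_793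
section

set_option autoImplicit false
set_option linter.unusedSectionVars false
set_option maxHeartbeats 400000

open MeasureTheory Set Filter
open scoped ENNReal Topology

namespace Crest.Agent.R096.Fsl_793

open Crest.AnalysisR.VecCalc3 Crest.AnalysisR.Sobolev
open Crest.Agent.R96.Acl_392 Crest.Agent.R96.Sob4_199 Crest.Agent.R096.Sc_968
open Crest.Agent.R096.Fce_793 Crest.Agent.R96.Lu_538 Crest.Agent.R96.Intr_538
open Crest.Agent.R96.Coarse_538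

noncomputable section

/-- **junk set** of a cube: `f` is at distance `≥ β` from the affine map -/
def Junk (f : R3 → R3) (s : ℝ) (z b : R3) (L : R3 →L[ℝ] R3) (β : ℝ) : Set R3 :=
  {y ∈ cel Cb z s | β ≤ ‖f y - (b + L (y - z))‖}

theorem junk_sub {f : R3 → R3} {s : ℝ} {z b : R3} {L : R3 →L[ℝ] R3} {β : ℝ} :
    Junk f s z b L β ⊆ cel Cb z s := fun _ h => h.1

theorem isClosed_junk {Ω : Set R3} {f : R3 → R3} (hf : ContinuousOn f Ω) {s : ℝ} {z b : R3}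
    {L : R3 →L[ℝ] R3} {β : ℝ} (hsub : cel Cb z s ⊆ Ω) : IsClosed (Junk f s z b L β) := by
  have h1 : ContinuousOn (fun y => ‖f y - (b + L (y - z))‖) (cel Cb z s) := by
    have h2 := hf.mono hsub
    exact (h2.sub (by fun_prop)).norm
  exact h1.preimage_isClosed_of_isClosed (isClosed_cel z s) isClosed_Ici

/-- the energy of the junk set of a good cube -/
theorem junk_energy {Ω : Set R3} {f : R3 → R3} {D : R3 → R3 →L[ℝ] R3} {κ e₁ s : ℝ} {z b : R3}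
    {L : R3 →L[ℝ] R3} {S : Set R3} (hκ : 0 < κ)
    (h : GC Ω volume f D Cb κ e₁ s z b L S) {β : ℝ} (hβ : e₁ * s < β) :
    ∫⁻ y in Junk f s z b L β, ‖D y‖ₑ ^ 2 ≤
      2 * (∫⁻ y in cel Cb z s, ‖D y - L‖ₑ ^ 2) + ENNReal.ofReal (2 * κ⁻¹ ^ 2 * e₁ * s ^ 3) := by
  have h1 : Junk f s z b L β ⊆ cel Cb z s \ S := by
    intro y hy
    refine ⟨hy.1, fun hyS => ?_⟩
    have h2 := h.cf y hyS
    have h3 := hy.2
    linarith
  have hcm : MeasurableSet (cel Cb z s) := (isClosed_cel z s).measurableSet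
  have hpt : ∀ y, ‖D y‖ₑ ^ 2 ≤ 2 * ‖D y - L‖ₑ ^ 2 + 2 * ‖L‖ₑ ^ 2 := by
    intro y
    have h2 : ‖D y‖ₑ ≤ ‖D y - L‖ₑ + ‖L‖ₑ := by
      rw [← ofReal_norm, ← ofReal_norm, ← ofReal_norm,
        ← ENNReal.ofReal_add (norm_nonneg _) (norm_nonneg _)]
      apply ENNReal.ofReal_le_ofReal
      calc ‖D y‖ = ‖D y - L + L‖ := by rw [sub_add_cancel]
        _ ≤ _ := norm_add_le _ _
    calc ‖D y‖ₑ ^ 2 ≤ (‖D y - L‖ₑ + ‖L‖ₑ) ^ 2 := by gcongr
      _ ≤ 2 * (‖D y - L‖ₑ ^ 2 + ‖L‖ₑ ^ 2) := by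
          have := ENNReal.rpow_add_le_mul_rpow_add_rpow ‖D y - L‖ₑ ‖L‖ₑ (p := 2) (by norm_num)
          simp only [ENNReal.rpow_two] at this
          norm_num at this
          exact this
      _ = _ := by rw [mul_add]
  have hLb : ‖L‖ₑ ^ 2 ≤ ENNReal.ofReal (κ⁻¹ ^ 2) := by
    rw [← ofReal_norm, ← ENNReal.ofReal_pow (norm_nonneg _)]
    apply ENNReal.ofReal_le_ofReal
    gcongr
    exact h.up
  have hvol : volume (Junk f s z b L β) ≤ ENNReal.ofReal (e₁ * s ^ 3) := by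
    refine (measure_mono h1).trans ?_
    have := h.big
    rwa [show Module.finrank ℝ R3 = 3 from finrank_euclideanSpace_fin] at this
  calc ∫⁻ y in Junk f s z b L β, ‖D y‖ₑ ^ 2
      ≤ ∫⁻ y in Junk f s z b L β, (2 * ‖D y - L‖ₑ ^ 2 + 2 * ‖L‖ₑ ^ 2) := lintegral_mono hpt
    _ = (∫⁻ y in Junk f s z b L β, 2 * ‖D y - L‖ₑ ^ 2) +
        ∫⁻ _y in Junk f s z b L β, 2 * ‖L‖ₑ ^ 2 := lintegral_add_right _ measurable_const
    _ ≤ 2 * (∫⁻ y in cel Cb z s, ‖D y - L‖ₑ ^ 2) + ENNReal.ofReal (2 * κ⁻¹ ^ 2 * e₁ * s ^ 3) := by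
        apply add_le_add
        · rw [lintegral_const_mul' _ _ (by norm_num)]
          gcongr
          exact junk_sub
        · rw [setLIntegral_const]
          calc 2 * ‖L‖ₑ ^ 2 * volume (Junk f s z b L β)
              ≤ 2 * ENNReal.ofReal (κ⁻¹ ^ 2) * ENNReal.ofReal (e₁ * s ^ 3) := by gcongr
            _ = ENNReal.ofReal (2 * κ⁻¹ ^ 2 * e₁ * s ^ 3) := by
                rw [show (2 : ℝ≥0∞) = ENNReal.ofReal 2 by norm_num,
                  ← ENNReal.ofReal_mul (by norm_num), ← ENNReal.ofReal_mul (by positivity)]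
                congr 1
                ring

/-- **selection of cubes by a random measure** -/
theorem rm_select {D : Set R3} (hD : MeasurableSet D) {n : ℝ≥0∞} {μ : R3 → Measure R3}
    (hμ : RM D n μ) {K : Type*} [DecidableEq K] (Q₀ : Finset K) (C : K → Set R3)
    (hC : ∀ k ∈ Q₀, MeasurableSet (C k)) (F : K → R3 → ℝ≥0∞)
    (hF : ∀ k ∈ Q₀, AEMeasurable (F k) (volume.restrict (C k))) {c : ℝ≥0∞}
    (hc : ∑ k ∈ Q₀, ∫⁻ y in C k, F k y ≤ c) {τ : ℝ≥0∞} (hτ0 : τ ≠ 0) (hτ : τ ≠ ∞)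
    {m : ℝ≥0∞} (hm0 : m ≠ 0) (hm : m ≠ ∞) :
    ∃ B : Set R3, volume B ≤ n * volume D * c / (τ * m) ∧ ∀ a ∈ D, a ∉ B →
      ∃ Q ⊆ Q₀, ((Q₀ \ Q).card : ℝ≥0∞) ≤ m ∧ ∀ k ∈ Q, ∫⁻ y in C k, F k y ∂μ a ≤ τ := by
  classical
  -- measurable versions
  have hex : ∀ k : K, ∃ g : R3 → ℝ≥0∞, Measurable g ∧ (k ∈ Q₀ →
      (∀ᵐ y, (C k).indicator (F k) y = g y)) := by
    intro k
    by_cases hk : k ∈ Q₀
    · have h1 : AEMeasurable ((C k).indicator (F k)) volume :=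
        (aemeasurable_indicator_iff (hC k hk)).2 (hF k hk)
      exact ⟨h1.mk _, h1.measurable_mk, fun _ => h1.ae_eq_mk⟩
    · exact ⟨0, measurable_zero, fun h => absurd h hk⟩
  choose g hgm hg using hex
  have hX : ∀ k ∈ Q₀, AEMeasurable (fun a => ∫⁻ y, g k y ∂μ a) (volume.restrict D) :=
    fun k _ => hμ.meas _ (hgm k)
  have hXi : ∑ k ∈ Q₀, ∫⁻ a in D, ∫⁻ y, g k y ∂μ a ≤ n * volume D * c := by
    calc ∑ k ∈ Q₀, ∫⁻ a in D, ∫⁻ y, g k y ∂μ a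
        ≤ ∑ k ∈ Q₀, n * volume D * ∫⁻ y, g k y := Finset.sum_le_sum fun k _ => hμ.dens _ (hgm k)
      _ = n * volume D * ∑ k ∈ Q₀, ∫⁻ y in C k, F k y := by
          rw [Finset.mul_sum]
          refine Finset.sum_congr rfl fun k hk => ?_
          rw [← lintegral_indicator (hC k hk), lintegral_congr_ae (hg k hk)]
      _ ≤ n * volume D * c := by gcongr
  obtain ⟨B, -, hB, hB'⟩ := select hD Q₀ (fun k a => ∫⁻ y, g k y ∂μ a) hX hXi hτ0 hτ hm0 hm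
  -- the null sets
  have hnull : ∀ k : K, ∃ N : Set R3, volume N = 0 ∧ (k ∈ Q₀ → ∀ a ∈ D, a ∉ N →
      ∫⁻ y in C k, F k y ∂μ a = ∫⁻ y, g k y ∂μ a) := by
    intro k
    by_cases hk : k ∈ Q₀
    · obtain ⟨N, hN, hN'⟩ := hμ.null hD (Z := {y | (C k).indicator (F k) y ≠ g k y}) (hg k hk)
      refine ⟨N, hN, fun _ a ha haN => ?_⟩
      have h1 : (C k).indicator (F k) =ᵐ[μ a] g k := hN' a ha haN
      rw [← lintegral_indicator (hC k hk), lintegral_congr_ae h1]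
    · exact ⟨∅, measure_empty, fun h => absurd h hk⟩
  choose N hN hN' using hnull
  refine ⟨B ∪ ⋃ k ∈ Q₀, N k, ?_, ?_⟩
  · refine (measure_union_le _ _).trans ?_
    have h1 : volume (⋃ k ∈ Q₀, N k) = 0 :=
      (measure_biUnion_null_iff Q₀.countable_toSet).2 fun k _ => hN k
    rw [h1, add_zero]
    exact hB
  · intro a ha haB
    obtain ⟨Q, hQ, hcard, hQ'⟩ := hB' a ha fun h => haB (Or.inl h)
    refine ⟨Q, hQ, hcard, fun k hk => ?_⟩
    rw [hN' k (hQ hk) a ha fun h => haB (Or.inr (mem_iUnion₂.2 ⟨k, hQ hk, h⟩))]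
    exact hQ' k hk

end

end Crest.Agent.R096.Fsl_793
end

-- ▼ part R096/Fsl4_793

set_option autoImplicit false
set_option linter.unusedSectionVars false
set_option maxHeartbeats 400000

open MeasureTheory Set Filter
open scoped ENNReal Topology

namespace Crest.Agent.R096.Fsl_793

open Crest.AnalysisR.VecCalc3 Crest.AnalysisR.Sobolev
open Crest.Agent.R96.Acl_392 Crest.Agent.R96.Sob4_199 Crest.Agent.R096.Sc_968
open Crest.Agent.R096.Fce_793 Crest.Agent.R96.Lu_538 Crest.Agent.R96.Intr_538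
open Crest.Agent.R96.Coarse_538

noncomputable section

/-- a countable family of faces `pt (e φ) (a + x φ) '' P φ` of size `≤ t` in random position
`a ∈ D`, with overlap at most `M` -/
structure Faces {κf : Type*} (D : Set R3) (t : ℝ) (M : ℕ) (x : κf → R3) (e : κf → Fin 2 → R3)
    (P : κf → Set (ℝ × ℝ)) (R : κf → Set R3) : Prop where
  li : ∀ φ, LinearIndependent ℝ (e φ)
  le : ∀ φ i, ‖e φ i‖ ≤ t
  cpt : ∀ φ, IsCompact (P φ)
  conv : ∀ φ, Convex ℝ (P φ)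
  sub : ∀ φ, P φ ⊆ Icc (0:ℝ) 1 ×ˢ Icc (0:ℝ) 1
  meas : ∀ φ, MeasurableSet (R φ)
  mem : ∀ φ, ∀ a ∈ D, ∀ w ∈ P φ, pt (e φ) (a + x φ) w ∈ R φ
  card : ∀ y, {φ | y ∈ R φ}.encard ≤ M

/-- **all faces have small circles** relative to the junk set `J`: random energies `ε φ` with sum
at most `E0` such that every face has `SmallPre` with `8 L E1 ≤ θ' σ`, `ε φ < E1` -/
def FaceG {κf : Type*} (Ω : Set R3) (f : R3 → R3) (x : κf → R3) (e : κf → Fin 2 → R3)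
    (P : κf → Set (ℝ × ℝ)) (J : Set R3) (E0 : ℝ) (a : R3) : Prop :=
  ∃ ε : κf → ℝ≥0∞, ∑' φ, ε φ ≤ ENNReal.ofReal E0 ∧
    ∀ φ, pt (e φ) (a + x φ) '' P φ ⊆ Ω → ∀ E1 : ℝ, ε φ < ENNReal.ofReal E1 →
      ∀ (u : R3 → ℝ) (L : ℝ), 0 ≤ L → (∀ y z, |u y - u z| ≤ L * dist y z) →
      ∀ t0 tm t1 : ℝ, tm < t1 →
      (∀ w ∈ P φ, w ∉ interior (P φ) → u (f (pt (e φ) (a + x φ) w)) < t0) →
      (∀ w ∈ P φ, t0 ≤ u (f (pt (e φ) (a + x φ) w)) → pt (e φ) (a + x φ) w ∈ J) →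
      ∀ σ θ' : ℝ, 0 < σ → 0 < θ' → 8 * L * E1 ≤ θ' * σ →
      SmallPre (pt (e φ) (a + x φ) '' P φ) f u t0 tm t1 σ θ'

/-- one face: a bound for all -/
theorem FaceG.small {κf : Type*} {Ω : Set R3} {f : R3 → R3} {x : κf → R3} {e : κf → Fin 2 → R3}
    {P : κf → Set (ℝ × ℝ)} {J : Set R3} {E0 : ℝ} {a : R3} (h : FaceG Ω f x e P J E0 a)
    {E1 : ℝ} (hE1 : E0 < E1) (h0 : 0 ≤ E0) (φ : κf) (hsub : pt (e φ) (a + x φ) '' P φ ⊆ Ω)
    {u : R3 → ℝ} {L : ℝ} (hL : 0 ≤ L) (hu : ∀ y z, |u y - u z| ≤ L * dist y z)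
    {t0 tm t1 : ℝ} (h1 : tm < t1)
    (hbd : ∀ w ∈ P φ, w ∉ interior (P φ) → u (f (pt (e φ) (a + x φ) w)) < t0)
    (hJ : ∀ w ∈ P φ, t0 ≤ u (f (pt (e φ) (a + x φ) w)) → pt (e φ) (a + x φ) w ∈ J)
    {σ θ' : ℝ} (hσ : 0 < σ) (hθ : 0 < θ') (hE : 8 * L * E1 ≤ θ' * σ) :
    SmallPre (pt (e φ) (a + x φ) '' P φ) f u t0 tm t1 σ θ' := by
  obtain ⟨ε, h2, h3⟩ := h
  refine h3 φ hsub E1 ?_ u L hL hu t0 tm t1 h1 hbd hJ σ θ' hσ hθ hE
  refine ((ENNReal.le_tsum φ).trans h2).trans_lt ?_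
  exact (ENNReal.ofReal_lt_ofReal_iff (by linarith)).2 hE1

/-- the junk energies of the cubes of `coarse_G` -/
theorem junk_sum {Ω : Set R3} (hΩf : volume Ω ≠ ∞) {f : R3 → R3} {D : R3 → R3 →L[ℝ] R3}
    {κ e₁ s : ℝ} (hκ : 0 < κ) (hs : 0 < s) (he₁ : 0 ≤ e₁) (a₀ : R3) (Q₀ : Finset (Fin 3 → ℤ))
    (b : (Fin 3 → ℤ) → R3) (L : (Fin 3 → ℤ) → R3 →L[ℝ] R3) (S : (Fin 3 → ℤ) → Set R3)
    (hGC : ∀ k ∈ Q₀, GC Ω volume f D Cb κ e₁ s (vt (2 * s) a₀ k) (b k) (L k) (S k))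
    (hsum : ∑ k ∈ Q₀, ∫⁻ x in cel Cb (vt (2 * s) a₀ k) s, ‖D x - L k‖ₑ ^ 2 ≤ ENNReal.ofReal e₁)
    {β : ℝ} (hβ : e₁ * s < β) :
    ∑ k ∈ Q₀, ∫⁻ y in Junk f s (vt (2 * s) a₀ k) (b k) (L k) β, ‖D y‖ₑ ^ 2 ≤
      ENNReal.ofReal (e₁ * (2 + 2 * κ⁻¹ ^ 2 * (volume Ω).toReal)) := by
  have hcard := card_inside hΩf hs a₀ Q₀ fun k hk => (hGC k hk).sub
  have hcard' : (Q₀.card : ℝ) * s ^ 3 ≤ (volume Ω).toReal := by
    have h1 : (Q₀.card : ℝ) * (2 * s) ^ 3 = 8 * (Q₀.card * s ^ 3) := by ring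
    have h2 : 0 ≤ (Q₀.card : ℝ) * s ^ 3 := by positivity
    linarith
  calc ∑ k ∈ Q₀, ∫⁻ y in Junk f s (vt (2 * s) a₀ k) (b k) (L k) β, ‖D y‖ₑ ^ 2
      ≤ ∑ k ∈ Q₀, (2 * (∫⁻ y in cel Cb (vt (2 * s) a₀ k) s, ‖D y - L k‖ₑ ^ 2) +
          ENNReal.ofReal (2 * κ⁻¹ ^ 2 * e₁ * s ^ 3)) :=
        Finset.sum_le_sum fun k hk => junk_energy hκ (hGC k hk) hβ
    _ = 2 * (∑ k ∈ Q₀, ∫⁻ y in cel Cb (vt (2 * s) a₀ k) s, ‖D y - L k‖ₑ ^ 2) +
          ENNReal.ofReal (Q₀.card * (2 * κ⁻¹ ^ 2 * e₁ * s ^ 3)) := by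
        rw [Finset.sum_add_distrib, Finset.mul_sum, Finset.sum_const, nsmul_eq_mul,
          ENNReal.ofReal_mul (Nat.cast_nonneg _), ENNReal.ofReal_natCast]
    _ ≤ 2 * ENNReal.ofReal e₁ + ENNReal.ofReal (2 * κ⁻¹ ^ 2 * e₁ * (volume Ω).toReal) := by
        have h5 : (Q₀.card : ℝ) * (2 * κ⁻¹ ^ 2 * e₁ * s ^ 3) ≤
            2 * κ⁻¹ ^ 2 * e₁ * (volume Ω).toReal := by
          calc (Q₀.card : ℝ) * (2 * κ⁻¹ ^ 2 * e₁ * s ^ 3) =
                2 * κ⁻¹ ^ 2 * e₁ * (Q₀.card * s ^ 3) := by ring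
            _ ≤ _ := by gcongr
        exact add_le_add (by gcongr) (ENNReal.ofReal_le_ofReal h5)
    _ = ENNReal.ofReal (e₁ * (2 + 2 * κ⁻¹ ^ 2 * (volume Ω).toReal)) := by
        have h6 : (2:ℝ≥0∞) * ENNReal.ofReal e₁ = ENNReal.ofReal (2 * e₁) := by
          rw [ENNReal.ofReal_mul (by norm_num)]
          norm_num
        rw [h6, ← ENNReal.ofReal_add (by positivity) (by positivity)]
        congr 1
        ring

/-- **COARSE-G at p = 2 WITH FACES AND A RANDOM MEASURE.** -/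
theorem coarse_F {Ω Λ : Set R3} (hΩ : IsOpen Ω)
    (hΩb : Bornology.IsBounded Ω) (hΛ : IsOpen Λ) (hΛf : volume Λ ≠ ∞) {f : R3 → R3}
    {G : Fin 3 → R3 → R3} (hinj : InjOn f Ω)
    (hf : ContinuousOn f Ω) (hfΛ : MapsTo f Ω Λ)
    (hG : ∀ j, HasWeakGradOn Ω (fun x => f x j) (G j))
    (hGp : ∀ j, MemLp (G j) (ENNReal.ofReal 2) (volume.restrict Ω)) {ε : ℝ} (hε : 0 < ε) :
    ∃ κ : ℝ, 0 < κ ∧ κ ≤ 1 ∧ ∃ K ⊆ Ω, IsCompact K ∧ ∃ K' ⊆ Λ, IsCompact K' ∧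
      ∀ N n τ σ₀ η θ δ e₁ ε₀ β Λf : ℝ, ∀ M : ℕ, 0 < N → 0 < n → 0 < σ₀ → σ₀ < τ → 2 * τ ≤ 1 →
        1 ≤ σ₀ * N → 0 < η → 0 < θ → 0 < δ → 0 < e₁ → 0 < ε₀ → 0 < β → 0 < Λf →
        ∃ s₀ : ℝ, 0 < s₀ ∧ ∀ s : ℝ, 0 < s → s < s₀ → ∀ a₀ : R3,
        ∃ (Q₀ : Finset (Fin 3 → ℤ)) (b : (Fin 3 → ℤ) → R3) (L : (Fin 3 → ℤ) → R3 →L[ℝ] R3)
          (S : (Fin 3 → ℤ) → Set R3),
          (∀ k ∈ Q₀, GC Ω volume f (Gmat G) Cb κ e₁ s (vt (2 * s) a₀ k) (b k) (L k) (S k)) ∧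
          (∀ k ∈ Q₀, cel Cb (vt (2 * s) a₀ k) s ⊆ K) ∧ (∀ k ∈ Q₀, par Cb (L k) (b k) s ⊆ K') ∧
          (∀ k ∈ Q₀, ∀ l ∈ Q₀, k ≠ l →
            Disjoint (par Cb (L k) (b k) ((1 - τ) * s)) (par Cb (L l) (b l) s)) ∧
          ∑ k ∈ Q₀, ∫⁻ x in cel Cb (vt (2 * s) a₀ k) s, ‖Gmat G x - L k‖ₑ ^ (2:ℝ) ≤
            ENNReal.ofReal e₁ ∧
          volume ((Ω ∩ {x | (Gmat G x).det ≠ 0}) \ ⋃ k ∈ Q₀, cel Cb (vt (2 * s) a₀ k) s) ≤
            ENNReal.ofReal ε ∧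
          ∀ (κi : Type) [Countable κi] (x v : κi → R3) (κf : Type) [Countable κf]
            (xf : κf → R3) (ef : κf → Fin 2 → R3) (Pf : κf → Set (ℝ × ℝ)) (Rf : κf → Set R3)
            (D : Set R3), MeasurableSet D →
            ENNReal.ofReal ((s / N) ^ 3) ≤ volume D → volume D ≠ ∞ → (∀ e, ‖v e‖ ≤ s / N) →
            Dens D (ENNReal.ofReal n) x v → Faces D (Λf * (s / N)) M xf ef Pf Rf →
            ∀ μ : R3 → Measure R3, RM D (ENNReal.ofReal n) μ →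
            ∃ B : Set R3, volume B ≤ ENNReal.ofReal θ * volume D ∧
              ∀ a ∈ D, a ∉ B → ∃ Q ⊆ Q₀, ((Q₀ \ Q).card : ℝ) * (2 * s) ^ 3 ≤ δ ∧
                ∀ k ∈ Q, PerfG x v 2 Ω f (Gmat G) κ τ σ₀ η (s / N) s a (vt (2 * s) a₀ k)
                  (b k) (L k) ∧
                FaceG Ω f xf ef Pf (Junk f s (vt (2 * s) a₀ k) (b k) (L k) (β * (s / N)))
                  (ε₀ * (s / N) ^ 2) a ∧
                ∫⁻ y in cel Cb (vt (2 * s) a₀ k) s, ‖Gmat G y - L k‖ₑ ^ (2:ℝ) ∂μ a ≤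
                  ENNReal.ofReal (ε₀ * s ^ 3) := by
  classical
  have hΩf : volume Ω ≠ ∞ := hΩb.measure_lt_top.ne
  have hG2 : ∀ j, MemLp (G j) 2 (volume.restrict Ω) := by
    intro j
    have h1 : ENNReal.ofReal 2 = 2 := by norm_num
    have := hGp j
    rwa [h1] at this
  obtain ⟨κ, hκ, hκ1, K, hK, hKc, K', hK', hK'c, H⟩ :=
    coarse_G (p := 2) (by norm_num) hΩ hΩb hΛ hΛf hinj hf hfΛ hG hGp hε
  refine ⟨κ, hκ, hκ1, K, hK, hKc, K', hK', hK'c, ?_⟩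
  intro N n τ σ₀ η θ δ e₁ ε₀ β Λf M hN hn hσ₀ hσ₀τ hτ hσN hη hθ hδ he₁ hε₀ hβ hΛ0
  set V : ℝ := (volume Ω).toReal with hV
  have hV0 : 0 ≤ V := ENNReal.toReal_nonneg
  set Cκ : ℝ := 2 + 2 * κ⁻¹ ^ 2 * V with hCκ
  have hCκ0 : 0 < Cκ := by positivity
  -- the tolerance
  obtain ⟨e', he'0, he'1, he'β, he'F, he'R⟩ : ∃ e' : ℝ, 0 < e' ∧ e' ≤ e₁ ∧ e' * N < β ∧
      1152 * M * Λf ^ 2 * (e' * Cκ) * N ^ 3 ≤ ε₀ * δ * θ ∧ 72 * n * e' ≤ ε₀ * δ * θ := by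
    refine ⟨min (min e₁ (β / (2 * N))) (min (ε₀ * δ * θ / (1152 * (M + 1) * Λf ^ 2 * Cκ * N ^ 3))
      (ε₀ * δ * θ / (72 * n))), ?_, (min_le_left _ _).trans (min_le_left _ _), ?_, ?_, ?_⟩
    · have : 0 < (M : ℝ) + 1 := by positivity
      refine lt_min (lt_min he₁ (by positivity)) (lt_min (by positivity) (by positivity))
    · set e' := min (min e₁ (β / (2 * N))) (min (ε₀ * δ * θ / (1152 * (M + 1) * Λf ^ 2 * Cκ * N ^ 3))
        (ε₀ * δ * θ / (72 * n)))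
      have h1 : e' ≤ β / (2 * N) := (min_le_left _ _).trans (min_le_right _ _)
      rw [le_div_iff₀ (by positivity)] at h1
      nlinarith
    · set e' := min (min e₁ (β / (2 * N))) (min (ε₀ * δ * θ / (1152 * (M + 1) * Λf ^ 2 * Cκ * N ^ 3))
        (ε₀ * δ * θ / (72 * n))) with he'
      have hM1 : 0 < (M : ℝ) + 1 := by positivity
      have h1 : e' ≤ ε₀ * δ * θ / (1152 * (M + 1) * Λf ^ 2 * Cκ * N ^ 3) :=
        (min_le_right _ _).trans (min_le_left _ _)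
      have h0 : 0 ≤ e' := by
        rw [he']
        exact le_min (le_min he₁.le (by positivity)) (le_min (by positivity) (by positivity))
      rw [le_div_iff₀ (by positivity)] at h1
      refine le_trans ?_ h1
      have h2 : 0 ≤ e' * (1152 * Λf ^ 2 * Cκ * N ^ 3) := by positivity
      nlinarith
    · set e' := min (min e₁ (β / (2 * N))) (min (ε₀ * δ * θ / (1152 * (M + 1) * Λf ^ 2 * Cκ * N ^ 3))
        (ε₀ * δ * θ / (72 * n)))
      have h1 : e' ≤ ε₀ * δ * θ / (72 * n) := (min_le_right _ _).trans (min_le_right _ _)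
      rw [le_div_iff₀ (by positivity)] at h1
      linarith
  obtain ⟨s₀, hs₀, Hs⟩ := H N n τ σ₀ η (θ / 3) (δ / 3) e' hN hn hσ₀ hσ₀τ hτ hσN hη (by positivity)
    (by positivity) he'0
  refine ⟨s₀, hs₀, ?_⟩
  intro s hs hss a₀
  obtain ⟨Q₀, b, L, S, hGC, hcK, hpK, hdis, hsum, hvol, Hsel⟩ := Hs s hs hss a₀
  refine ⟨Q₀, b, L, S, fun k hk => Crest.Agent.R96.Coarse_538.GC.mono_e hs he'1 (hGC k hk), hcK, hpK, hdis,
    hsum.trans (ENNReal.ofReal_le_ofReal he'1), hvol, ?_⟩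
  intro κi _ x v κf _ xf ef Pf Rf D hD hDv hDt hv hDens hF μ hμ
  set t : ℝ := s / N with ht
  have ht0 : 0 < t := by positivity
  have hsN : s = t * N := by rw [ht]; field_simp
  set VD : ℝ := (volume D).toReal with hVD
  have hVD0 : t ^ 3 ≤ VD := by
    rw [hVD, ← ENNReal.ofReal_le_iff_le_toReal hDt]
    exact hDv
  have hVDV : ENNReal.ofReal VD = volume D := ENNReal.ofReal_toReal hDt
  -- 1: edges
  obtain ⟨B1, hB1, hB1'⟩ := Hsel κi x v D hD hDv hv hDens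
  -- 2: faces
  have hsum2 : ∑ k ∈ Q₀, ∫⁻ x in cel Cb (vt (2 * s) a₀ k) s, ‖Gmat G x - L k‖ₑ ^ 2 ≤
      ENNReal.ofReal e' := by
    simpa only [ENNReal.rpow_two] using hsum
  have hβs : e' * s < β * t := by
    rw [hsN]
    nlinarith
  have hjs := junk_sum hΩf hκ hs he'0.le a₀ Q₀ b L S hGC hsum2 hβs
  rw [← hV, ← hCκ] at hjs
  have hfs := faces_select hΩ hf hG hG2 xf ef hF.li (t := Λf * t) (by positivity) hF.le Pf hF.cpt
    hF.conv hF.sub hD hDt hF.meas hF.mem hF.card Q₀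
    (fun k => Junk f s (vt (2 * s) a₀ k) (b k) (L k) (β * t))
    (fun k hk => isClosed_junk hf (hGC k hk).sub)
    (fun k hk => junk_sub.trans (hGC k hk).sub) hjs (E0 := ε₀ * t ^ 2) (v := (2 * s) ^ 3)
    (δ := δ / 3) (θ := θ / 3) (by positivity) (by positivity) (by positivity) (by positivity) (by
      have h1 : ε₀ * t ^ 2 * (δ / 3) * (θ / 3) * t ^ 3 ≤
          ε₀ * t ^ 2 * (δ / 3) * (θ / 3) * VD := by gcongr
      refine le_trans ?_ h1
      have h2 : 16 * (M : ℝ) * (Λf * t) ^ 2 * (e' * Cκ) * (2 * s) ^ 3 =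
          (1152 * M * Λf ^ 2 * (e' * Cκ) * N ^ 3) * (t ^ 5 / 9) := by
        rw [hsN]; ring
      have h3 : ε₀ * t ^ 2 * (δ / 3) * (θ / 3) * t ^ 3 = ε₀ * δ * θ * (t ^ 5 / 9) := by ring
      rw [h2, h3]
      gcongr)
  obtain ⟨B2, hB2, hB2'⟩ := hfs
  -- 3: the random measure
  have hGm : AEStronglyMeasurable (Gmat G) (volume.restrict Ω) := aesm_Gmat fun j => (hGp j).1
  obtain ⟨B3, hB3, hB3'⟩ := rm_select hD hμ Q₀ (fun k => cel Cb (vt (2 * s) a₀ k) s)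
    (fun k _ => (isClosed_cel _ _).measurableSet)
    (fun k y => ‖Gmat G y - L k‖ₑ ^ (2:ℝ)) (fun k hk => by
      have h1 : AEStronglyMeasurable (Gmat G)
          (volume.restrict (cel Cb (vt (2 * s) a₀ k) s)) :=
        hGm.mono_measure (Measure.restrict_mono (hGC k hk).sub le_rfl)
      exact ((h1.sub aestronglyMeasurable_const).enorm).pow_const _) hsum
    (τ := ENNReal.ofReal (ε₀ * s ^ 3))
    (by rw [Ne, ENNReal.ofReal_eq_zero, not_le]; positivity) ENNReal.ofReal_ne_top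
    (m := ENNReal.ofReal (δ / 3 / (2 * s) ^ 3))
    (by rw [Ne, ENNReal.ofReal_eq_zero, not_le]; positivity) ENNReal.ofReal_ne_top
  have hB3'' : volume B3 ≤ ENNReal.ofReal (θ / 3) * volume D := by
    refine hB3.trans ?_
    rw [← hVDV, ← ENNReal.ofReal_mul hn.le, ← ENNReal.ofReal_mul (by positivity),
      ← ENNReal.ofReal_mul (by positivity), ← ENNReal.ofReal_div_of_pos (by positivity),
      ← ENNReal.ofReal_mul (by positivity)]
    apply ENNReal.ofReal_le_ofReal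
    rw [div_le_iff₀ (by positivity)]
    have h1 : θ / 3 * VD * (ε₀ * s ^ 3 * (δ / 3 / (2 * s) ^ 3)) = ε₀ * δ * θ * VD / 72 := by
      field_simp
      ring
    rw [h1, le_div_iff₀ (by norm_num)]
    have h2 : 0 ≤ VD := ENNReal.toReal_nonneg
    nlinarith [mul_le_mul_of_nonneg_right he'R h2]
  refine ⟨B1 ∪ B2 ∪ B3, ?_, ?_⟩
  · calc volume (B1 ∪ B2 ∪ B3) ≤ volume B1 + volume B2 + volume B3 :=
          (measure_union_le _ _).trans (by gcongr; exact measure_union_le _ _)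
      _ ≤ ENNReal.ofReal (θ / 3) * volume D + ENNReal.ofReal (θ / 3) * volume D +
          ENNReal.ofReal (θ / 3) * volume D := by gcongr
      _ = ENNReal.ofReal θ * volume D := by
          rw [← add_mul, ← add_mul, ← ENNReal.ofReal_add (by positivity) (by positivity),
            ← ENNReal.ofReal_add (by positivity) (by positivity)]
          congr 2
          ring
  · intro a ha haB
    obtain ⟨Q1, hQ1, hc1, h1⟩ := hB1' a ha fun h => haB (Or.inl (Or.inl h))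
    obtain ⟨Q2, hQ2, hc2, h2⟩ := hB2' a ha fun h => haB (Or.inl (Or.inr h))
    obtain ⟨Q3, hQ3, hc3, h3⟩ := hB3' a ha fun h => haB (Or.inr h)
    refine ⟨Q1 ∩ Q2 ∩ Q3, (Finset.inter_subset_left.trans Finset.inter_subset_left).trans hQ1,
      ?_, ?_⟩
    · have hc3' : ((Q₀ \ Q3).card : ℝ) * (2 * s) ^ 3 ≤ δ / 3 := by
        rw [← ENNReal.ofReal_natCast] at hc3
        have h4 := (ENNReal.ofReal_le_ofReal_iff (by positivity)).1 hc3
        rwa [le_div_iff₀ (by positivity)] at h4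
      have hsub : Q₀ \ (Q1 ∩ Q2 ∩ Q3) ⊆ (Q₀ \ Q1) ∪ (Q₀ \ Q2) ∪ (Q₀ \ Q3) := by
        intro k hk
        simp only [Finset.mem_sdiff, Finset.mem_inter, Finset.mem_union] at hk ⊢
        tauto
      have hcard : ((Q₀ \ (Q1 ∩ Q2 ∩ Q3)).card : ℝ) ≤
          (Q₀ \ Q1).card + (Q₀ \ Q2).card + (Q₀ \ Q3).card := by
        have h5 := (Finset.card_le_card hsub).trans ((Finset.card_union_le _ _).trans
          (Nat.add_le_add_right (Finset.card_union_le _ _) _))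
        exact_mod_cast h5
      have h6 : 0 < (2 * s) ^ 3 := by positivity
      calc ((Q₀ \ (Q1 ∩ Q2 ∩ Q3)).card : ℝ) * (2 * s) ^ 3
          ≤ ((Q₀ \ Q1).card + (Q₀ \ Q2).card + (Q₀ \ Q3).card) * (2 * s) ^ 3 := by gcongr
        _ ≤ δ := by nlinarith
    · intro k hk
      have hk1 : k ∈ Q1 := Finset.mem_of_mem_inter_left (Finset.mem_of_mem_inter_left hk)
      have hk2 : k ∈ Q2 := Finset.mem_of_mem_inter_right (Finset.mem_of_mem_inter_left hk)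
      have hk3 : k ∈ Q3 := Finset.mem_of_mem_inter_right hk
      exact ⟨h1 k hk1, h2 k hk2, h3 k hk3⟩

end

end Crest.Agent.R096.Fsl_793
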