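import Mathlib
import Crest.Agent.R96.Intr29_538
import Crest.Agent.R096.Fsl7_793

-- ▼ part R096/Rmg1_793
section

set_option autoImplicit false
set_option linter.unusedSectionVars false
set_option maxHeartbeats 400000

open MeasureTheory Set Filter Metric Module
open scoped ENNReal NNReal Topology

namespace Crest.Agent.R096.Rmg_793

open Crest.Agent.R96.Coarse_538 Crest.Agent.R96.Intr_538
open Crest.AnalysisR.VecCalc3 Crest.AnalysisR.Sobolev
open Crest.Agent.R96.Acl_392 Crest.Agent.R96.Lu_538

noncomputable section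

/-- a family of measures translated by `a`, each cut to its own set -/
def trM {ι : Type*} (ν : ι → Measure R3) (A : ι → Set R3) (a : R3) : Measure R3 :=
  Measure.sum fun e => ((ν e).map (fun x => a + x)).restrict (A e)

theorem lint_trM {ι : Type*} {ν : ι → Measure R3} {A : ι → Set R3}
    (hA : ∀ e, MeasurableSet (A e)) {F : R3 → ℝ≥0∞} (hF : Measurable F) (a : R3) :
    ∫⁻ y, F y ∂trM ν A a = ∑' e, ∫⁻ x, (A e).indicator F (a + x) ∂ν e := by
  rw [trM, lintegral_sum_measure]
  refine tsum_congr fun e => ?_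
  rw [← lintegral_indicator (hA e), lintegral_map (hF.indicator (hA e)) (by fun_prop)]

/-- **criterion** -/
theorem rm_tr {ι : Type*} [Countable ι] {D : Set R3} (hD : MeasurableSet D) {n : ℝ≥0∞}
    {ν : ι → Measure R3} [∀ e, SFinite (ν e)] {A : ι → Set R3} (hA : ∀ e, MeasurableSet (A e))
    (h : ∀ y : R3, ∑' e, (A e).indicator 1 y * ν e {x | y - x ∈ D} ≤ n * volume D) :
    RM D n (trM ν A) := by
  have h1 : ∀ F : R3 → ℝ≥0∞, Measurable F → ∀ e, AEMeasurable
      (fun a => ∫⁻ x, (A e).indicator F (a + x) ∂ν e) (volume.restrict D) := by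
    intro F hF e
    have h2 : Measurable (fun p : R3 × R3 => (A e).indicator F (p.1 + p.2)) :=
      (hF.indicator (hA e)).comp (by fun_prop)
    exact h2.lintegral_prod_right'.aemeasurable
  have hm0 : ∀ e, Measurable (fun y : R3 => ν e {x | y - x ∈ D}) := by
    intro e
    have h2 : Measurable (fun p : R3 × R3 => D.indicator (1 : R3 → ℝ≥0∞) (p.1 - p.2)) :=
      (measurable_one.indicator hD).comp (by fun_prop)
    have h3 := h2.lintegral_prod_right' (ν := ν e)
    have h4 : (fun y : R3 => ν e {x | y - x ∈ D}) =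
        fun y => ∫⁻ x, D.indicator (1 : R3 → ℝ≥0∞) (y - x) ∂ν e := by
      funext y
      have h5 : MeasurableSet {x : R3 | y - x ∈ D} := hD.preimage (by fun_prop)
      rw [← lintegral_indicator_one h5]
      rfl
    rw [h4]
    exact h3
  constructor
  · intro F hF
    simp only [lint_trM hA hF]
    exact AEMeasurable.tsum (h1 F hF)
  · intro F hF
    simp only [lint_trM hA hF]
    rw [lintegral_tsum (h1 F hF)]
    have h2 : ∀ e, ∫⁻ a in D, ∫⁻ x, (A e).indicator F (a + x) ∂ν e =
        ∫⁻ y, F y * ((A e).indicator 1 y * ν e {x | y - x ∈ D}) := by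
      intro e
      rw [tonelli_nu hD (hF.indicator (hA e)).aemeasurable]
      apply lintegral_congr
      intro y
      by_cases hy : y ∈ A e
      · simp only [indicator_of_mem hy, Pi.one_apply, one_mul]
      · simp only [indicator_of_notMem hy, zero_mul, mul_zero]
    simp only [h2]
    rw [← lintegral_tsum, ← lintegral_const_mul _ hF]
    · apply lintegral_mono
      intro y
      simp only
      rw [ENNReal.tsum_mul_left, mul_comm]
      gcongr
      exact h y
    · intro e
      exact (hF.mul ((measurable_one.indicator (hA e)).mul (hm0 e))).aemeasurable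

/-- the translates of `ν j` under the lattice of size `t / N j` -/
def latM {J : Type*} (t : ℝ) (N : J → ℕ) (ν : J → Measure R3) (q : J × (Fin 3 → ℤ)) :
    Measure R3 :=
  (ν q.1).map (fun x => ihom (t / N q.1) q.2 + x)

instance {J : Type*} (t : ℝ) (N : J → ℕ) (ν : J → Measure R3) [∀ j, SFinite (ν j)]
    (q : J × (Fin 3 → ℤ)) : SFinite (latM t N ν q) := by
  unfold latM; infer_instance

/-- one scale: the lattice sum of the masses -/
theorem sum_lat {h : ℝ} (hh : 0 < h) (N : ℕ) (ν : Measure R3) (y : R3) :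
    ∑' k : Fin 3 → ℤ, (ν.map (fun x => ihom h k + x)) {x | y - x ∈ Dt (N * h)} ≤
      (N : ℝ≥0∞) ^ 3 * ν univ := by
  have h1 : ∀ k : Fin 3 → ℤ, (ν.map (fun x => ihom h k + x)) {x | y - x ∈ Dt (N * h)} =
      ∫⁻ x, (Dt (N * h)).indicator (1 : R3 → ℝ≥0∞) (y - x - ihom h k) ∂ν := by
    intro k
    have h5 : MeasurableSet {x : R3 | y - x ∈ Dt (N * h)} := (meas_Dt _).preimage (by fun_prop)
    rw [Measure.map_apply (by fun_prop) h5, ← lintegral_indicator_one (h5.preimage (by fun_prop))]
    apply lintegral_congr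
    intro x
    have h6 : y - (ihom h k + x) = y - x - ihom h k := by abel
    by_cases hx : y - x - ihom h k ∈ Dt (N * h)
    · rw [indicator_of_mem hx, indicator_of_mem]
      · rfl
      · show y - (ihom h k + x) ∈ Dt (N * h)
        rwa [h6]
    · rw [indicator_of_notMem hx, indicator_of_notMem]
      show ¬ (y - (ihom h k + x) ∈ Dt (N * h))
      rwa [h6]
  simp only [h1]
  rw [← lintegral_tsum]
  · calc _ ≤ ∫⁻ _x, (N : ℝ≥0∞) ^ 3 ∂ν := by
          apply lintegral_mono
          intro x
          have h3 := card_lat hh N (y - x)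
          calc ∑' k : Fin 3 → ℤ, (Dt (N * h)).indicator (1 : R3 → ℝ≥0∞) (y - x - ihom h k)
              = ∑' k : Fin 3 → ℤ, {k : Fin 3 → ℤ | y - x - ihom h k ∈
                  Dt (N * h)}.indicator (1 : (Fin 3 → ℤ) → ℝ≥0∞) k := by
                refine tsum_congr fun k => ?_
                by_cases h5 : y - x - ihom h k ∈ Dt (N * h)
                · rw [indicator_of_mem h5, indicator_of_mem
                    (show k ∈ {k : Fin 3 → ℤ | y - x - ihom h k ∈ Dt (N * h)} from h5)]
                  rfl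
                · rw [indicator_of_notMem h5, indicator_of_notMem
                    (show k ∉ {k : Fin 3 → ℤ | y - x - ihom h k ∈ Dt (N * h)} from h5)]
            _ = ({k : Fin 3 → ℤ | y - x - ihom h k ∈ Dt (N * h)}.encard : ℝ≥0∞) := by
                rw [← tsum_subtype, Pi.one_def, ENNReal.tsum_set_one]
            _ ≤ (((N : ℕ∞) ^ 3 : ℕ∞) : ℝ≥0∞) := by exact_mod_cast h3
            _ = (N : ℝ≥0∞) ^ 3 := by simp
      _ = (N : ℝ≥0∞) ^ 3 * ν univ := by rw [lintegral_const]
  · intro k
    have h6 : Measurable (fun x : R3 => (Dt (N * h)).indicator (1 : R3 → ℝ≥0∞)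
        (y - x - ihom h k)) :=
      (measurable_one.indicator (meas_Dt _)).comp (by fun_prop)
    exact h6.aemeasurable


/-- the parallelogram `x + σ v + τ w`, `σ, τ ∈ (0,1]`, as a probability measure -/
def parM (x v w : R3) : Measure R3 :=
  ((volume.restrict (Ioc (0:ℝ) 1)).prod (volume.restrict (Ioc (0:ℝ) 1))).map
    (fun p : ℝ × ℝ => x + p.1 • v + p.2 • w)

instance (x v w : R3) : SFinite (parM x v w) := by unfold parM; infer_instance




end

end Crest.Agent.R096.Rmg_793
end

-- ▼ part R096/Fsl8_793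

set_option autoImplicit false
set_option linter.unusedSectionVars false
set_option maxHeartbeats 400000

open MeasureTheory Set Filter Metric
open scoped ENNReal Topology

namespace Crest.Agent.R096.Fsl_793

open Crest.AnalysisR.VecCalc3
open Crest.Agent.R096.Fce_793 Crest.Agent.R096.Rmg_793
open Crest.Agent.R96.Coarse_538

noncomputable section

/-- the part `S` of a face with weight `w`, untranslated -/
def fcM {κf : Type*} (x : κf → R3) (e : κf → Fin 2 → R3) (S : κf → Set (ℝ × ℝ))
    (w : κf → ℝ≥0∞) (φ : κf) : Measure R3 :=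
  w φ • ((volume.restrict (S φ)).map (pt (e φ) (x φ)))

instance {κf : Type*} (x : κf → R3) (e : κf → Fin 2 → R3) (S : κf → Set (ℝ × ℝ))
    (w : κf → ℝ≥0∞) (φ : κf) : SFinite (fcM x e S w φ) := by
  unfold fcM; infer_instance

theorem measurable_pt (e : Fin 2 → R3) (x : R3) : Measurable (pt e x) :=
  (continuous_pt e x).measurable

/-- the integral against the random measure -/
theorem lint_fcM {κf : Type*} {x : κf → R3} {e : κf → Fin 2 → R3} {S : κf → Set (ℝ × ℝ)}
    {w : κf → ℝ≥0∞} {A : κf → Set R3} (hA : ∀ φ, MeasurableSet (A φ))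
    {F : R3 → ℝ≥0∞} (hF : Measurable F) (a : R3) :
    ∫⁻ y, F y ∂trM (fcM x e S w) A a =
      ∑' φ, w φ * ∫⁻ u in S φ, (A φ).indicator F (pt (e φ) (a + x φ) u) := by
  rw [lint_trM hA hF]
  refine tsum_congr fun φ => ?_
  have h1 : Measurable fun y => (A φ).indicator F (a + y) :=
    (hF.indicator (hA φ)).comp (by fun_prop)
  rw [fcM, lintegral_smul_measure, lintegral_map h1 (measurable_pt _ _), smul_eq_mul]
  congr 1
  apply lintegral_congr
  intro u
  congr 1
  simp only [pt]
  abel

/-- **faces with overlap `M` and weights `w φ ≤ c` are a random measure of density `n`** if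
`M c ≤ n |D|`; `S φ ⊆ P φ` any measurable parts (strips), cut to any sets `A φ` -/
theorem Faces.rm {κf : Type*} [Countable κf] {D : Set R3} (hD : MeasurableSet D) {t : ℝ} {M : ℕ}
    {x : κf → R3} {e : κf → Fin 2 → R3} {P : κf → Set (ℝ × ℝ)} {R : κf → Set R3}
    (hF : Faces D t M x e P R) {S : κf → Set (ℝ × ℝ)} (hSP : ∀ φ, S φ ⊆ P φ)
    {w : κf → ℝ≥0∞} {c : ℝ≥0∞} (hw : ∀ φ, w φ ≤ c) {n : ℝ≥0∞} (hn : M * c ≤ n * volume D)
    {A : κf → Set R3} (hA : ∀ φ, MeasurableSet (A φ)) :
    RM D n (trM (fcM x e S w) A) := by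
  refine rm_tr hD hA fun y => ?_
  have h1 : ∀ φ, (A φ).indicator 1 y * fcM x e S w φ {z | y - z ∈ D} ≤
      c * {φ | y ∈ R φ}.indicator (1 : κf → ℝ≥0∞) φ := by
    intro φ
    have h0 : (A φ).indicator (1 : R3 → ℝ≥0∞) y ≤ 1 := by
      by_cases h : y ∈ A φ
      · rw [indicator_of_mem h]; rfl
      · rw [indicator_of_notMem h]; exact zero_le
    have hms : MeasurableSet {z : R3 | y - z ∈ D} := hD.preimage (by fun_prop)
    have h2 : fcM x e S w φ {z | y - z ∈ D} =
        w φ * (volume.restrict (S φ)) {u | y - pt (e φ) (x φ) u ∈ D} := by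
      rw [fcM, Measure.smul_apply, smul_eq_mul, Measure.map_apply (measurable_pt _ _) hms]
      rfl
    by_cases hy : y ∈ R φ
    · rw [indicator_of_mem (show φ ∈ {φ | y ∈ R φ} from hy), Pi.one_apply, mul_one, h2]
      calc (A φ).indicator 1 y * (w φ * (volume.restrict (S φ)) {u | y - pt (e φ) (x φ) u ∈ D})
          ≤ 1 * (c * 1) := by
            gcongr
            · exact hw φ
            · calc (volume.restrict (S φ)) {u | y - pt (e φ) (x φ) u ∈ D}
                  ≤ (volume.restrict (S φ)) univ := measure_mono (subset_univ _)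
                _ = volume (S φ) := Measure.restrict_apply_univ _
                _ ≤ volume (Icc (0:ℝ) 1 ×ˢ Icc (0:ℝ) 1) :=
                    measure_mono ((hSP φ).trans (hF.sub φ))
                _ = 1 := by
                    rw [Measure.volume_eq_prod, Measure.prod_prod]
                    simp
        _ = c := by ring
    · have h3 : (volume.restrict (S φ)) {u | y - pt (e φ) (x φ) u ∈ D} = 0 := by
        have hms2 : MeasurableSet {u | y - pt (e φ) (x φ) u ∈ D} :=
          hms.preimage (measurable_pt _ _)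
        rw [Measure.restrict_apply hms2]
        have h4 : {u | y - pt (e φ) (x φ) u ∈ D} ∩ S φ = ∅ := by
          ext u
          simp only [mem_inter_iff, mem_setOf_eq, mem_empty_iff_false, iff_false, not_and]
          intro hu huS
          apply hy
          have h5 := hF.mem φ _ hu u (hSP φ huS)
          have h6 : pt (e φ) (y - pt (e φ) (x φ) u + x φ) u = y := by
            simp only [pt]; abel
          rwa [h6] at h5
        rw [h4, measure_empty]
      rw [h2, h3, mul_zero, mul_zero]
      exact zero_le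
  refine (ENNReal.tsum_le_tsum h1).trans ?_
  rw [ENNReal.tsum_mul_left, ← tsum_subtype, Pi.one_def, ENNReal.tsum_set_one]
  have h2 : (({φ | y ∈ R φ}.encard : ℕ∞) : ℝ≥0∞) ≤ ((M : ℕ∞) : ℝ≥0∞) := by
    exact_mod_cast hF.card y
  calc c * (({φ | y ∈ R φ}.encard : ℕ∞) : ℝ≥0∞) ≤ c * ((M : ℕ∞) : ℝ≥0∞) := by gcongr
    _ = M * c := by rw [mul_comm]; rfl
    _ ≤ n * volume D := hn

end

end Crest.Agent.R096.Fsl_793
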