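import Crest.Agent.R096.Tgr4_335
import Crest.Agent.R096.Gau2_812

-- ▼ part R096/Spr1_113
section

/-!
# Crossing edges at the corners of a tile

* `exists_crs`: at an extreme point of a tile, every cell which leaves the tile contains a crossing
  edge of the tile which starts at the point.
* `two_crs`: two crossing edges which start at corners whose distance is more than half of the
  diameter of the tile.
-/

set_option autoImplicit false
set_option linter.unusedSectionVars false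

open Set Metric Topology Filter

namespace Crest.Agent.R096.Spr_113

open Crest.Agent.R096.Msh_715 Crest.Agent.R096.Tgr_335

variable {E : Type*} [NormedAddCommGroup E] [NormedSpace ℝ E] [FiniteDimensional ℝ E]
variable {Om : Set E} {ι : Type*} {T : Tiling Om ι} {i : ι}

/-- a functional which is positive on a cell seen from a corner of the cell -/
theorem exists_pos_functional {y v : E} (hy : y ∈ Om) (hv : v ∈ T.cc y)
    (hext : ∀ z, v + z ∈ T.cc y → v - z ∈ T.cc y → z = 0) :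
    ∃ h : E →L[ℝ] ℝ, ∀ z, v + z ∈ T.cc y → z ≠ 0 → 0 < h z := by
  classical
  set H := (T.at_finite hy).toFinset.biUnion T.H with hH
  have hmem : ∀ g : (E →L[ℝ] ℝ) × ℝ, g ∈ H ↔ ∃ q ∈ T.at_ y, g ∈ T.H q := by
    intro g; simp [hH]
  have hcc : ∀ x, x ∈ T.cc y ↔ ∀ g ∈ H, g.1 x ≤ g.2 ∧ (g.1 y = g.2 → g.1 x = g.2) := by
    intro x
    constructor
    · intro hx g hg
      obtain ⟨q, hq, hgq⟩ := (hmem g).1 hg
      exact hx q hq g hgq
    · intro hx q hq g hg
      exact hx g ((hmem g).2 ⟨q, hq, hg⟩)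
  set K := H.filter fun g => g.1 v = g.2 with hK
  refine ⟨-∑ g ∈ K, g.1, fun z hz hz0 => ?_⟩
  have hle : ∀ g ∈ K, g.1 z ≤ 0 := by
    intro g hg
    rw [hK, Finset.mem_filter] at hg
    have h1 := ((hcc _).1 hz g hg.1).1
    rw [map_add, hg.2] at h1
    linarith
  have hsum : (-∑ g ∈ K, g.1) z = -∑ g ∈ K, g.1 z := by simp
  rw [hsum]
  by_contra hcon
  have hs0 : ∑ g ∈ K, g.1 z = 0 := by
    have := Finset.sum_nonpos hle
    linarith
  have hz00 : ∀ g ∈ K, g.1 z = 0 := (Finset.sum_eq_zero_iff_of_nonpos hle).1 hs0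
  -- small multiples in both directions
  have key : ∀ w : E, (∀ g ∈ K, g.1 w = 0) → ∀ᶠ s in 𝓝[>] (0 : ℝ), v + s • w ∈ T.cc y := by
    intro w hw
    have h1 : ∀ g ∈ H, ∀ᶠ s in 𝓝[>] (0 : ℝ), g.1 (v + s • w) ≤ g.2 ∧
        (g.1 y = g.2 → g.1 (v + s • w) = g.2) := by
      intro g hg
      have hgv := (hcc v).1 hv g hg
      by_cases e : g.1 v = g.2
      · have hgK : g ∈ K := by rw [hK, Finset.mem_filter]; exact ⟨hg, e⟩
        refine Eventually.of_forall fun s => ?_
        rw [map_add, map_smul, hw g hgK, smul_zero, add_zero, e]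
        exact ⟨le_refl _, fun _ => rfl⟩
      · have hlt : g.1 v < g.2 := lt_of_le_of_ne hgv.1 e
        have hc : Tendsto (fun s : ℝ => g.1 (v + s • w)) (𝓝 0) (𝓝 (g.1 (v + (0 : ℝ) • w))) := by
          apply Continuous.tendsto
          fun_prop
        rw [zero_smul, add_zero] at hc
        have h2 := (hc.eventually (gt_mem_nhds hlt)).filter_mono
          (nhdsWithin_le_nhds (s := Ioi (0 : ℝ)))
        filter_upwards [h2] with s hs
        exact ⟨le_of_lt hs, fun ey => absurd (hgv.2 ey) e⟩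
    have h3 : ∀ᶠ s in 𝓝[>] (0 : ℝ), ∀ g ∈ H, g.1 (v + s • w) ≤ g.2 ∧
        (g.1 y = g.2 → g.1 (v + s • w) = g.2) := by
      rw [Finset.eventually_all]
      exact h1
    filter_upwards [h3] with s hs
    exact (hcc _).2 hs
  have k1 := key z hz00
  have k2 := key (-z) (fun g hg => by rw [map_neg, hz00 g hg, neg_zero])
  obtain ⟨s, ⟨hs1, hs2⟩, hs0'⟩ := ((k1.and k2).and self_mem_nhdsWithin).exists
  have hs0'' : (0 : ℝ) < s := hs0'
  have := hext (s • z) hs1 (by rw [sub_eq_add_neg, ← smul_neg]; exact hs2)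
  rcases smul_eq_zero.1 this with h | h
  · exact hs0''.ne' h
  · exact hz0 h

/-- **at a corner of a tile every cell which leaves the tile has an edge which leaves the tile** -/
theorem exists_crs {v : E} (hv : v ∈ (P (T.H i)).extremePoints ℝ) {y : E} (hy : y ∈ Om)
    (hvy : v ∈ T.cc y) (hn : y ∉ P (T.H i)) : ∃ e ∈ T.cc y, Crs T i e ∧ v ∈ T.cc e := by
  have hvP : v ∈ P (T.H i) := hv.1
  have hvO : v ∈ Om := T.sub i hvP
  have hv0 : T.dim v = 0 := by
    by_contra hd
    have hne : T.V v ≠ ⊥ := fun h => hd (T.dim_eq_zero_iff.2 h)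
    obtain ⟨d, hdV, hd0⟩ := Submodule.exists_mem_ne_zero_of_ne_bot hne
    obtain ⟨r, hr, hb⟩ := T.exists_ball_oc hvO
    have hnn : 0 < ‖d‖ := norm_pos_iff.2 hd0
    set t : ℝ := r / (2 * ‖d‖) with ht
    have ht0 : 0 < t := by positivity
    have hnt : ‖t • d‖ < r := by
      rw [norm_smul, Real.norm_of_nonneg ht0.le, ht]
      have : r / (2 * ‖d‖) * ‖d‖ = r / 2 := by field_simp
      rw [this]; linarith
    have h1 : v + t • d ∈ P (T.H i) := T.cc_sub_tile (x := v) hvP
      (T.oc_sub_cc v (hb _ ((T.V v).smul_mem _ hdV) hnt))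
    have h2 : v + -(t • d) ∈ P (T.H i) := by
      refine T.cc_sub_tile (x := v) hvP (T.oc_sub_cc v (hb _ ?_ ?_))
      · exact (T.V v).neg_mem ((T.V v).smul_mem _ hdV)
      · rw [norm_neg]; exact hnt
    have h3 : v ∈ openSegment ℝ (v + t • d) (v + -(t • d)) := by
      refine ⟨1 / 2, 1 / 2, by norm_num, by norm_num, by norm_num, ?_⟩
      module
    have h4 := hv.2 h1 h2 h3
    have h5 : t • d = 0 := by
      have : v + t • d = v + 0 := by rw [add_zero]; exact h4
      exact add_left_cancel this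
    rcases smul_eq_zero.1 h5 with h6 | h6
    · exact ht0.ne' h6
    · exact hd0 h6
  induction hd : T.dim y using Nat.strong_induction_on generalizing y with
  | _ d ih =>
  rcases Nat.lt_or_ge d 2 with h2 | h2
  · rcases Nat.eq_zero_or_pos d with h0 | h0
    · have h1 := T.cc_eq_singleton (T.dim_eq_zero_iff.1 (hd.trans h0))
      rw [h1, mem_singleton_iff] at hvy
      exact absurd (hvy ▸ hvP) hn
    · exact ⟨y, T.self_mem_cc y, ⟨hy, by omega, hn, v, hvy, hvP⟩, hvy⟩
  by_contra hcon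
  -- nearby boundary points are in the tile
  have hev := T.eventually_mem_cc hvO
  obtain ⟨r, hr, hb⟩ := Metric.eventually_nhds_iff_ball.1 hev
  have hin : ∀ p ∈ T.cc y, p ∉ T.oc y → p ∈ ball v r → p ∈ P (T.H i) := by
    intro p hp hpo hpr
    by_contra hpn
    obtain ⟨e, he, h3, h4⟩ := ih (T.dim p) (hd ▸ T.dim_lt hp hpo) (T.cc_sub_Om hy hp)
      (hb p hpr).2 hpn rfl
    exact hcon ⟨e, T.cc_sub_of_mem hp he, h3, h4⟩
  have hvo : v ∉ T.oc y := by
    intro h
    have := T.dim_eq_of_mem_oc hy h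
    omega
  have hdis := disjoint_oc T hy hn
  -- small multiples
  have hsm : ∀ z : E, ∀ᶠ s in 𝓝[>] (0 : ℝ), v + s • z ∈ ball v r := by
    intro z
    have hc : Tendsto (fun s : ℝ => v + s • z) (𝓝 0) (𝓝 (v + (0 : ℝ) • z)) := by
      apply Continuous.tendsto
      fun_prop
    rw [zero_smul, add_zero] at hc
    exact (hc.eventually (ball_mem_nhds v hr)).filter_mono nhdsWithin_le_nhds
  have hlt1 : ∀ᶠ s in 𝓝[>] (0 : ℝ), s < 1 :=
    (gt_mem_nhds (zero_lt_one' ℝ)).filter_mono nhdsWithin_le_nhds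
  -- `v` is a corner of the cell
  have hext : ∀ z, v + z ∈ T.cc y → v - z ∈ T.cc y → z = 0 := by
    intro z h3 h4
    obtain ⟨s, ⟨⟨hs1, hs2⟩, hs3⟩, hs0⟩ :=
      (((hsm z).and (hsm (-z))).and hlt1 |>.and self_mem_nhdsWithin).exists
    have hs0 : (0 : ℝ) < s := hs0
    have hmem : ∀ z : E, v + z ∈ T.cc y → v + s • z ∈ T.cc y := by
      intro z hz
      have := T.convex_cc y hvy hz (sub_nonneg.2 hs3.le) hs0.le (by ring)
      convert this using 1
      module
    have m1 := hmem z h3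
    have m2 := hmem (-z) (by rw [← sub_eq_add_neg]; exact h4)
    have key : ∀ z : E, v + z ∈ T.cc y → v + -z ∈ T.cc y → v + z ∉ T.oc y := by
      intro z h5 h6 h7
      apply hvo
      have h8 : T.cc (v + z) = T.cc y := T.cc_eq_of_mem_oc hy h7
      have h9 := T.move_mem_oc (x := v + z) (y := v + -z) (by rw [h8]; exact h6)
        (s := 1 / 2) (by norm_num) (by norm_num)
      have e : v + -z + (1 / 2 : ℝ) • (v + z - (v + -z)) = v := by module
      rw [e, T.oc_eq_of_mem hy h7] at h9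
      exact h9
    have p1 := hin _ m1 (key _ m1 (by rw [← smul_neg]; exact m2)) hs1
    have p2 := hin _ m2 (key _ m2 (by rw [← smul_neg, neg_neg]; exact m1)) hs2
    have h5 : v ∈ openSegment ℝ (v + s • z) (v + s • (-z)) := by
      refine ⟨1 / 2, 1 / 2, by norm_num, by norm_num, by norm_num, ?_⟩
      module
    have h6 := hv.2 p1 p2 h5
    have h7 : s • z = 0 := by
      have : v + s • z = v + 0 := by rw [add_zero]; exact h6
      exact add_left_cancel this
    rcases smul_eq_zero.1 h7 with h8 | h8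
    · exact absurd h8 hs0.ne'
    · exact h8
  obtain ⟨h, hh⟩ := exists_pos_functional hy hvy hext
  -- a direction in the kernel
  obtain ⟨w, hwV, hw0, hwh⟩ : ∃ w ∈ T.V y, w ≠ 0 ∧ h w = 0 := by
    have hfr : Module.finrank ℝ (T.V y) = d := hd
    have hlt : Module.finrank ℝ ℝ < Module.finrank ℝ (T.V y) := by
      rw [hfr, Module.finrank_self]; omega
    obtain ⟨w, hw, hw0⟩ := Submodule.exists_mem_ne_zero_of_ne_bot
      (LinearMap.ker_ne_bot_of_finrank_lt (f := (h : E →ₗ[ℝ] ℝ).comp (T.V y).subtype) hlt)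
    refine ⟨w, w.2, fun e => hw0 (Subtype.ext e), ?_⟩
    exact hw
  have hnot : ∀ t : ℝ, t ≠ 0 → v + t • w ∉ T.cc y := by
    intro t ht hc
    have h3 := hh _ hc (smul_ne_zero ht hw0)
    rw [map_smul, hwh, smul_zero] at h3
    exact lt_irrefl _ h3
  -- exit points near `v`
  have hwn : 0 < ‖w‖ := norm_pos_iff.2 hw0
  set δ : ℝ := r / (2 * ‖w‖) with hδ
  have hδ0 : 0 < δ := by positivity
  have hsmall : ∀ t : ℝ, t ≠ 0 → ∀ᶠ s in 𝓝[>] (0 : ℝ), v + s • (y - v) + t • w ∉ T.cc y := by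
    intro t ht
    have hc : Tendsto (fun s : ℝ => v + s • (y - v) + t • w) (𝓝 0)
        (𝓝 (v + (0 : ℝ) • (y - v) + t • w)) := by
      apply Continuous.tendsto
      fun_prop
    rw [zero_smul, add_zero] at hc
    exact (hc.eventually ((T.isClosed_cc y).isOpen_compl.mem_nhds (hnot t ht))).filter_mono
      nhdsWithin_le_nhds
  have hnear : ∀ᶠ s in 𝓝[>] (0 : ℝ), ‖s • (y - v)‖ < r / 2 := by
    have hc : Tendsto (fun s : ℝ => ‖s • (y - v)‖) (𝓝 0) (𝓝 ‖(0 : ℝ) • (y - v)‖) := by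
      apply Continuous.tendsto
      fun_prop
    rw [zero_smul, norm_zero] at hc
    exact (hc.eventually (gt_mem_nhds (by positivity : (0 : ℝ) < r / 2))).filter_mono
      nhdsWithin_le_nhds
  obtain ⟨s, ⟨⟨⟨hs1, hs2⟩, hs3⟩, hs4⟩, hs0⟩ :=
    (((hsmall δ hδ0.ne').and (hsmall (-δ) (neg_ne_zero.2 hδ0.ne'))).and hnear
      |>.and hlt1 |>.and self_mem_nhdsWithin).exists
  have hs0 : (0 : ℝ) < s := hs0
  set x := v + s • (y - v) with hx
  have hxo : x ∈ T.oc y := T.move_mem_oc hvy hs0 hs4.le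
  have hxO : x ∈ Om := T.cc_sub_Om hy (T.oc_sub_cc _ hxo)
  have hccx : T.cc x = T.cc y := T.cc_eq_of_mem_oc hy hxo
  have hocx : T.oc x = T.oc y := T.oc_eq_of_mem hy hxo
  have hVx : T.V x = T.V y := T.V_eq_of_mem_oc hy hxo
  have hexit : ∀ w' : E, w' ∈ T.V y → w' ≠ 0 → ‖w'‖ = ‖w‖ → x + δ • w' ∉ T.cc y →
      ∃ t : ℝ, 0 < t ∧ x + t • w' ∈ P (T.H i) := by
    intro w' hw' hw0' hn' hno
    obtain ⟨t, ht, h3, h4, h5⟩ := T.exists_exit hxO (by rw [hVx]; exact hw') hw0'
    rw [hccx] at h3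
    rw [hocx] at h4
    have htδ : t < δ := by
      by_contra hle
      rw [not_lt] at hle
      apply hno
      rcases eq_or_lt_of_le hle with e | hlt
      · rw [e]; exact h3
      · have := h5 δ hδ0.le hlt
        rw [hocx] at this
        exact T.oc_sub_cc _ this
    refine ⟨t, ht, hin _ h3 h4 ?_⟩
    rw [mem_ball, dist_eq_norm]
    have e : x + t • w' - v = s • (y - v) + t • w' := by rw [hx]; abel
    rw [e]
    have h6 : ‖t • w'‖ ≤ r / 2 := by
      rw [norm_smul, Real.norm_of_nonneg ht.le, hn']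
      calc t * ‖w‖ ≤ δ * ‖w‖ := mul_le_mul_of_nonneg_right htδ.le hwn.le
        _ = r / 2 := by rw [hδ]; field_simp
    calc ‖s • (y - v) + t • w'‖ ≤ ‖s • (y - v)‖ + ‖t • w'‖ := norm_add_le _ _
      _ < r / 2 + r / 2 := by linarith
      _ = r := by ring
  obtain ⟨t1, ht1, q1⟩ := hexit w hwV hw0 rfl hs1
  obtain ⟨t2, ht2, q2⟩ := hexit (-w) ((T.V y).neg_mem hwV) (neg_ne_zero.2 hw0) (norm_neg w)
    (by rw [smul_neg, ← neg_smul]; exact hs2)
  have hxP : x ∈ P (T.H i) := by
    have hab : t2 / (t1 + t2) + t1 / (t1 + t2) = 1 := by field_simp; ring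
    have this := convex_P (T.H i) q1 q2 (a := t2 / (t1 + t2)) (b := t1 / (t1 + t2))
      (by positivity) (by positivity) hab
    have e2 : t2 / (t1 + t2) * t1 = t1 / (t1 + t2) * t2 := by ring
    have e : (t2 / (t1 + t2)) • (x + t1 • w) + (t1 / (t1 + t2)) • (x + t2 • -w) =
        (t2 / (t1 + t2) + t1 / (t1 + t2)) • x +
          (t2 / (t1 + t2) * t1 - t1 / (t1 + t2) * t2) • w := by module
    rw [e, hab, e2, sub_self, one_smul, zero_smul, add_zero] at this
    exact this
  exact disjoint_left.1 hdis hxP hxo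

/-- at every corner of a tile a crossing edge starts -/
theorem exists_crs_corner [Nontrivial E] {v : E} (hv : v ∈ (P (T.H i)).extremePoints ℝ) :
    ∃ e, Crs T i e ∧ v ∈ T.cc e := by
  have hvP : v ∈ P (T.H i) := hv.1
  have hvO : v ∈ Om := T.sub i hvP
  have hev := T.eventually_mem_cc hvO
  by_cases hint : ∀ᶠ y in 𝓝 v, y ∈ P (T.H i)
  · exfalso
    obtain ⟨r, hr, hb⟩ := Metric.eventually_nhds_iff_ball.1 hint
    obtain ⟨d, hd0⟩ := exists_ne (0 : E)
    have hnn : 0 < ‖d‖ := norm_pos_iff.2 hd0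
    set t : ℝ := r / (2 * ‖d‖) with ht
    have ht0 : 0 < t := by positivity
    have hnt : ‖t • d‖ < r := by
      rw [norm_smul, Real.norm_of_nonneg ht0.le, ht]
      have : r / (2 * ‖d‖) * ‖d‖ = r / 2 := by field_simp
      rw [this]; linarith
    have h1 : v + t • d ∈ P (T.H i) := hb _ (by rw [mem_ball, dist_eq_norm, add_sub_cancel_left]
                                                exact hnt)
    have h2 : v + -(t • d) ∈ P (T.H i) := hb _ (by
      rw [mem_ball, dist_eq_norm, add_sub_cancel_left, norm_neg]; exact hnt)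
    have h3 : v ∈ openSegment ℝ (v + t • d) (v + -(t • d)) := by
      refine ⟨1 / 2, 1 / 2, by norm_num, by norm_num, by norm_num, ?_⟩
      module
    have h4 := hv.2 h1 h2 h3
    have h5 : t • d = 0 := by
      have : v + t • d = v + 0 := by rw [add_zero]; exact h4
      exact add_left_cancel this
    rcases smul_eq_zero.1 h5 with h6 | h6
    · exact ht0.ne' h6
    · exact hd0 h6
  · rw [Filter.not_eventually] at hint
    obtain ⟨y, hyn, hyO, hvy⟩ := (hint.and_eventually hev).exists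
    obtain ⟨e, -, h1, h2⟩ := exists_crs hv hyO hvy hyn
    exact ⟨e, h1, h2⟩

/-- two corners whose distance is more than half of the diameter -/
theorem two_corners {K : Set E} (hK : IsCompact K) (hc : Convex ℝ K) (hd : 0 < diam K) :
    ∃ v ∈ K.extremePoints ℝ, ∃ w ∈ K.extremePoints ℝ, diam K / 2 < dist v w := by
  by_contra hcon
  push Not at hcon
  have h1 : diam K ≤ diam K / 2 := by
    conv_lhs => rw [← closure_convexHull_extremePoints hK hc, Metric.diam_closure,
      convexHull_diam]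
    exact Metric.diam_le_of_forall_dist_le (by positivity) hcon
  linarith

/-- **two crossing edges which start far from each other** -/
theorem two_crs [Nontrivial E] (T : Tiling Om ι) (i : ι) :
    ∃ v ∈ P (T.H i), ∃ w ∈ P (T.H i), diam (P (T.H i)) / 2 < dist v w ∧
      (∃ e, Crs T i e ∧ v ∈ T.cc e) ∧ ∃ e, Crs T i e ∧ w ∈ T.cc e := by
  have hd : 0 < diam (P (T.H i)) := by
    obtain ⟨z, hz⟩ := T.ne i
    obtain ⟨r, hr, hb⟩ := Metric.isOpen_iff.1 (isOpen_I (T.H i)) z hz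
    obtain ⟨d, hd0⟩ := exists_ne (0 : E)
    have hnn : 0 < ‖d‖ := norm_pos_iff.2 hd0
    set t : ℝ := r / (2 * ‖d‖) with ht
    have ht0 : 0 < t := by positivity
    have hnt : ‖t • d‖ < r := by
      rw [norm_smul, Real.norm_of_nonneg ht0.le, ht]
      have : r / (2 * ‖d‖) * ‖d‖ = r / 2 := by field_simp
      rw [this]; linarith
    have h1 : z + t • d ∈ P (T.H i) := I_sub_P _ (hb (by
      rw [mem_ball, dist_eq_norm, add_sub_cancel_left]; exact hnt))
    have h2 := Metric.dist_le_diam_of_mem (T.cpt i).isBounded h1 (I_sub_P _ hz)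
    rw [dist_eq_norm, add_sub_cancel_left] at h2
    exact lt_of_lt_of_le (norm_pos_iff.2 (smul_ne_zero ht0.ne' hd0)) h2
  obtain ⟨v, hv, w, hw, h⟩ := two_corners (T.cpt i) (convex_P (T.H i)) hd
  exact ⟨v, hv.1, w, hw.1, h, exists_crs_corner hv, exists_crs_corner hw⟩



end Crest.Agent.R096.Spr_113
end

-- ▼ part R096/Spr2_113

/-!
# Two points of a good level which are far apart (p = 2, the field `spread`)
-/

set_option autoImplicit false
set_option linter.unusedSectionVars false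

open Set Metric

namespace Crest.Agent.R096.Spr_113

open Crest.Agent.R096.Msh_715
open Crest.Agent.R096.Sk2_855
open Crest.Agent.R096.Ub_113
open Crest.Agent.R096.Sk3_812 (GoodT HF UG ug ug_le_one_iff ug_comp ug_le_iff crs_ends cc_sub_sk1)

variable {E : Type} [NormedAddCommGroup E] [NormedSpace ℝ E] [FiniteDimensional ℝ E]
  {Om La : Set E} {ι : Type*} {T : Tiling Om ι} {i : ι}

theorem crs_iff {x : E} : Sk3_812.Crs T i x ↔ Tgr_335.Crs T i x :=
  ⟨fun h => ⟨h.1, h.2.1, h.2.2.1, h.2.2.2⟩, fun h => ⟨h.om, h.dim, h.off, h.meet⟩⟩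

/-- `β` is so small that the points of the crossing edges of gauge `≤ 1 + β` are `ε`-close to the
inner ends -/
def NearV (T : Tiling Om ι) (i : ι) (g : E → ℝ) (β ε : ℝ) : Prop :=
  ∀ e, Sk3_812.Crs T i e → ∀ v ∈ T.cc e, v ∈ P (T.H i) → ∀ z ∈ T.cc e, g z ≤ 1 + β →
    dist z v ≤ ε

theorem NearV.mono {g : E → ℝ} {β β' ε ε' : ℝ} (h : NearV T i g β ε) (h1 : β' ≤ β)
    (h2 : ε ≤ ε') : NearV T i g β' ε' := fun e he v hv hvP z hz hg =>
  (h e he v hv hvP z hz (hg.trans (by linarith))).trans h2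



variable {f fi : E → E} {u : E → ℝ} {C : E} {a b : ℝ}

/-- the point of a crossing edge at the level `s` is close to the inner end -/
theorem exists_pt (Q : GoodT T La f i u C a b) (F : HF Om La f fi) {g : E → ℝ} {β ε δ : ℝ}
    (hN : NearV T i g β ε) (hg : ∀ e, Sk3_812.Crs T i e → ∀ z ∈ T.cc e, g z ≤ u (f z) + δ)
    {s : ℝ} (hs : s ∈ Ioo a b) (hsβ : s + δ ≤ 1 + β) {e v : E} (he : Sk3_812.Crs T i e)
    (hv : v ∈ T.cc e) (hvP : v ∈ P (T.H i)) :
    ∃ x ∈ T.cc e, x ∈ sk1 T ∧ u (f x) = s ∧ dist x v ≤ ε := by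
  obtain ⟨v', hv', w, hw, dv, dw, hvi, hwi⟩ := crs_ends he
  have hcont : ContinuousOn (fun z => u (f z)) (T.cc e) :=
    Q.ug.cont.comp_continuousOn (F.cont.mono (T.cc_sub_Om he.1))
  have hpre : IsPreconnected (T.cc e) := (T.convex_cc _).isPreconnected
  have hsk := cc_sub_sk1 he.1 he.2.1
  have h1 := Q.inn v (hsk hv) hvP
  have h2 := Q.outv _ he w hw dw hwi
  obtain ⟨x, hx, e1⟩ := hpre.intermediate_value hv hw hcont
    (show s ∈ Icc (u (f v)) (u (f w)) from ⟨(h1.trans hs.1).le, (hs.2.trans h2).le⟩)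
  simp only at e1
  refine ⟨x, hx, hsk hx, e1, hN e he v hv hvP x hx ?_⟩
  have := hg e he x hx
  rw [e1] at this
  linarith

/-- **spread**: at every good level there are two points of the 1-skeleton far from each other -/
theorem spread [Nontrivial E] (Q : GoodT T La f i u C a b) (F : HF Om La f fi) {g : E → ℝ}
    {β ε δ : ℝ} (hN : NearV T i g β ε)
    (hg : ∀ e, Sk3_812.Crs T i e → ∀ z ∈ T.cc e, g z ≤ u (f z) + δ) {A : E → E} {κ ε' : ℝ}
    (hκ : 0 ≤ κ) (hA : ∀ x y, κ * ‖x - y‖ ≤ ‖A x - A y‖)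
    (hf : ∀ e, Sk3_812.Crs T i e → ∀ z ∈ T.cc e, ‖f z - A z‖ ≤ ε') :
    ∀ s ∈ Ioo a b, s + δ ≤ 1 + β → ∃ x1 ∈ sk1 T, ∃ x2 ∈ sk1 T, u (f x1) = s ∧ u (f x2) = s ∧
      κ * (diam (P (T.H i)) / 2 - 2 * ε) - 2 * ε' ≤ dist (f x1) (f x2) := by
  intro s hs hsβ
  obtain ⟨v, hv, w, hw, hvw, ⟨e, he, hve⟩, e', he', hwe⟩ := two_crs T i
  rw [← crs_iff] at he he'
  obtain ⟨x1, hx1, k1, l1, d1⟩ := exists_pt Q F hN hg hs hsβ he hve hv
  obtain ⟨x2, hx2, k2, l2, d2⟩ := exists_pt Q F hN hg hs hsβ he' hwe hw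
  refine ⟨x1, k1, x2, k2, l1, l2, ?_⟩
  have n1 := hf e he x1 hx1
  have n2 := hf e' he' x2 hx2
  have h1 : diam (P (T.H i)) / 2 - 2 * ε ≤ ‖x1 - x2‖ := by
    have t1 : dist v w ≤ dist v x1 + dist x1 x2 + dist x2 w := dist_triangle4 _ _ _ _
    rw [dist_comm v x1] at t1
    rw [← dist_eq_norm]
    linarith
  have h2 := mul_le_mul_of_nonneg_left h1 hκ
  have h3 := hA x1 x2
  have h4 : ‖A x1 - A x2‖ ≤ dist (f x1) (f x2) + ε' + ε' := by
    have e1 : A x1 - A x2 = (f x1 - f x2) + (f x2 - A x2) - (f x1 - A x1) := by abel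
    rw [e1, dist_eq_norm]
    refine (norm_sub_le _ _).trans ?_
    have := norm_add_le (f x1 - f x2) (f x2 - A x2)
    linarith
  linarith

/-- the estimate of the gauge in the domain by the gauge in the image -/
theorem gauge_le {u : E → ℝ} {L ε' : ℝ} (hL : 0 ≤ L) (hu : ∀ y y', |u y - u y'| ≤ L * ‖y - y'‖)
    {g : E → ℝ} {A : E → E} (hA : ∀ x, u (A x) = g x) {z : E} (hz : ‖f z - A z‖ ≤ ε') :
    g z ≤ u (f z) + L * ε' := by
  have h1 := (abs_le.1 (hu (f z) (A z))).1
  rw [hA] at h1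
  have h2 := mul_le_mul_of_nonneg_left hz hL
  linarith

end Crest.Agent.R096.Spr_113
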