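import Crest.Agent.R096.Gsm7_432
import Crest.Agent.R096.Nbr4_896
import Crest.Agent.R096.Spr2_113
import Crest.Agent.R096.Fsl9_793
import Crest.Agent.R096.Ca15_855

-- ▼ part R096/Nvt1_465
section

/-!
# Row 96 (S0127), p = 2 (helper465): crossing edges near a tile, uniformly for a finite list of pairs

`NearT T i B c β ε`: the points of the crossing edges of the tile `i` inside `hom c (1 + 4 β)` are
`ε`-close, in the frame `B`, to the inner ends.  `near_goods` = helper432's `gap_goods` with `NearT`,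
in the order `ρ D nc`, `ε`, `β`.
-/

set_option autoImplicit false
set_option linter.unusedSectionVars false

open Set Metric Topology Filter

namespace Crest.Agent.R096.Nvt_465

open Crest.Agent.R096.Msh_715 Crest.Agent.R096.Msh_715.Tiling
open Crest.Agent.R096.Gsm_432
open Crest.Agent.R096.Mal_874

universe u v w

variable {F : Type w} [NormedAddCommGroup F] [NormedSpace ℝ F] [FiniteDimensional ℝ F]
variable {E : Type u} [NormedAddCommGroup E] [NormedSpace ℝ E] [FiniteDimensional ℝ E]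
variable {Om : Set E} {ι : Type v} {T : Tiling Om ι}

/-- the crossing edges of the tile `i`, inside `hom c (1 + 4 β)`, are `ε`-close to the inner ends in
the frame `B` -/
def NearT (T : Tiling Om ι) (i : ι) (B : E ≃ᵃ[ℝ] F) (c : E) (β ε : ℝ) : Prop :=
  ∀ e, Sk3_812.Crs T i e → ∀ v ∈ T.cc e, v ∈ P (T.H i) → ∀ z ∈ T.cc e,
    z ∈ hom c (1 + 4 * β) (P (T.H i)) → ‖B z - B v‖ ≤ ε

/-- the same as a property of the pair (tile, truncated tiles which touch it) -/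
def NP (K0 : Set F) (𝒯 : Set (Set F)) (c : F) (β ε : ℝ) : Prop :=
  ∀ u ∈ hom c (1 + 4 * β) K0, (fcell 𝒯 u ∩ K0).Subsingleton → ∀ v ∈ fcell 𝒯 u ∩ K0, ‖u - v‖ ≤ ε

theorem NP.mono {K0 : Set F} {𝒯 : Set (Set F)} {c : F} {β β' ε : ℝ} (h : NP K0 𝒯 c β ε)
    (hK : Convex ℝ K0) (hc : c ∈ K0) (h0 : 0 ≤ β') (hβ : β' ≤ β) : NP K0 𝒯 c β' ε :=
  fun u hu => h u (hom_mono hK hc (by linarith) (by linarith) hu)

/-- **one pair** -/
theorem exists_NP {i : ι} {B : E ≃ᵃ[ℝ] F} {W : Set F} (hW : B '' P (T.H i) ⊆ interior W) {c : F}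
    (hc : c ∈ interior (B '' P (T.H i))) {ε : ℝ} (hε : 0 < ε) :
    ∃ β > 0, NP (B '' P (T.H i)) (stT T i B W) c β ε := by
  have hcpt : IsCompact (B '' P (T.H i)) := (T.cpt i).image (continuous_aff B)
  obtain ⟨c0, rfl⟩ := B.surjective c
  have hc0 : c0 ∈ interior (P (T.H i)) := by
    rw [← image_interior_aff] at hc
    exact (B.injective.mem_set_image).1 hc
  obtain ⟨β1, hβ1, h1, h2⟩ := exists_gap1 i hc0
  obtain ⟨β2, hβ2, h3⟩ := exists_hom_sub hcpt isOpen_interior hW (B c0)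
  have hDc : IsCompact (hom c0 (1 + 4 * β1) (P (T.H i))) := isCompact_hom (T.cpt i) _ _
  have hDO : hom c0 (1 + 4 * β1) (P (T.H i)) ⊆ Om :=
    h1.trans (interior_subset.trans (Ust_sub i))
  have hfin := T.finite_cells hDc hDO
  set 𝒞 := {C : Set E | (∃ x ∈ Om, C = T.cc x) ∧
    (C ∩ hom c0 (1 + 4 * β1) (P (T.H i))).Nonempty} with h𝒞
  set bad : Set E → Set E := fun C => C ∩ {z | ∀ v ∈ C ∩ P (T.H i), ε ≤ ‖B z - B v‖} with hbad
  set N : Set E := ⋃ C ∈ 𝒞, bad C with hN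
  have hcB := continuous_aff B
  have hNc : IsClosed N := by
    refine hfin.isClosed_biUnion ?_
    rintro C ⟨⟨x, -, rfl⟩, -⟩
    refine (T.isClosed_cc x).inter ?_
    have e : {z | ∀ v ∈ T.cc x ∩ P (T.H i), ε ≤ ‖B z - B v‖} =
        ⋂ v ∈ T.cc x ∩ P (T.H i), {z | ε ≤ ‖B z - B v‖} := by
      ext z
      simp only [Set.mem_ofPred_eq, mem_iInter]
    rw [e]
    refine isClosed_biInter fun v _ => isClosed_le continuous_const ?_
    exact (hcB.sub continuous_const).norm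
  have hd : P (T.H i) ⊆ Nᶜ := by
    intro y hy hyN
    obtain ⟨C, -, hyC, hy2⟩ := mem_iUnion₂.1 hyN
    have := hy2 y ⟨hyC, hy⟩
    rw [sub_self, norm_zero] at this
    linarith
  obtain ⟨β4, hβ4, h4⟩ := exists_hom_sub (T.cpt i) hNc.isOpen_compl hd c0
  have hcP : c0 ∈ P (T.H i) := interior_subset hc0
  have hcv : Convex ℝ (B '' P (T.H i)) := (convex_P (T.H i)).affine_image B.toAffineMap
  set β := min (min β1 β2) β4 with hβ
  have hβ0 : 0 < β := lt_min (lt_min hβ1 hβ2) hβ4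
  have l1 : β ≤ β1 := (min_le_left _ _).trans (min_le_left _ _)
  have l2 : β ≤ β2 := (min_le_left _ _).trans (min_le_right _ _)
  have l4 : β ≤ β4 := min_le_right _ _
  have hs1 : hom c0 (1 + 4 * β) (P (T.H i)) ⊆ hom c0 (1 + 4 * β1) (P (T.H i)) :=
    hom_mono (convex_P _) hcP (by linarith) (by linarith)
  have hs4 : hom c0 (1 + 4 * β) (P (T.H i)) ⊆ hom c0 (1 + 4 * β4) (P (T.H i)) :=
    hom_mono (convex_P _) hcP (by linarith) (by linarith)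
  have hs2 : hom (B c0) (1 + 4 * β) (B '' P (T.H i)) ⊆ hom (B c0) (1 + 4 * β2) (B '' P (T.H i)) :=
    hom_mono hcv (mem_image_of_mem _ hcP) (by linarith) (by linarith)
  have hcell : ∀ x ∈ hom c0 (1 + 4 * β) (P (T.H i)),
      fcell (stT T i B W) (B x) = B '' T.cc x ∩ W := by
    intro x hx
    refine fcell_eq (h3 (hs2 ?_)) (Ust_sub i (interior_subset (h1 (hs1 hx))))
      (at_sub_star (h1 (hs1 hx)))
    rw [← image_hom]
    exact mem_image_of_mem _ hx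
  refine ⟨β, hβ0, fun u hu hsub v hv => ?_⟩
  rw [← image_hom] at hu
  obtain ⟨x, hx, rfl⟩ := hu
  rw [hcell x hx] at hsub hv
  obtain ⟨⟨⟨y, hy, rfl⟩, hyW⟩, hyP⟩ := hv
  have hyP' : y ∈ P (T.H i) := (B.injective.mem_set_image).1 hyP
  by_contra hcon
  rw [not_le] at hcon
  have hxN : x ∈ N := by
    refine mem_iUnion₂.2 ⟨T.cc x, ⟨⟨x, hDO (hs1 hx), rfl⟩, x, T.self_mem_cc x, hs1 hx⟩,
      T.self_mem_cc x, fun v' hv' => ?_⟩
    have e : B v' = B y := hsub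
      ⟨⟨mem_image_of_mem _ hv'.1, interior_subset (hW (mem_image_of_mem _ hv'.2))⟩,
        mem_image_of_mem _ hv'.2⟩ ⟨⟨mem_image_of_mem _ hy, hyW⟩, hyP⟩
    rw [e]
    exact hcon.le
  exact h4 (hs4 hx) hxN

/-- a crossing edge meets the tile in one point -/
theorem crs_sub {i : ι} {e : E} (he : Sk3_812.Crs T i e) : (T.cc e ∩ P (T.H i)).Subsingleton := by
  obtain ⟨hO, hd, hn, -, -, -⟩ := he
  obtain ⟨p, q, hpq, e1, e2, dp, dq, hp, hq⟩ := T.edge_eq hO hd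
  have key2 : ¬ (p ∈ P (T.H i) ∧ q ∈ P (T.H i)) := by
    rintro ⟨h1, h2⟩
    refine hn ((convex_P _).segment_subset h1 h2 ?_)
    rw [← e1]
    exact T.self_mem_cc e
  have key : ∀ z ∈ T.cc e ∩ P (T.H i), z = p ∨ z = q := by
    rintro z ⟨hz, hzi⟩
    have hz' := hz
    rw [e1, ← insert_endpoints_openSegment] at hz'
    rcases hz' with rfl | rfl | hz'
    · exact Or.inl rfl
    · exact Or.inr rfl
    · exfalso
      rw [← e2] at hz'
      have := T.at_eq_of_mem_oc hO hz'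
      exact hn (show i ∈ T.at_ e by rw [← this]; exact hzi)
  intro z hz z' hz'
  rcases key z hz with rfl | rfl <;> rcases key z' hz' with rfl | rfl
  · rfl
  · exact absurd ⟨hz.2, hz'.2⟩ key2
  · exact absurd ⟨hz'.2, hz.2⟩ key2
  · rfl

/-- **`NearT` from the pair** -/
theorem NP.nearT {i : ι} {B : E ≃ᵃ[ℝ] F} {W : Set F} {c : E} {β ρ D ε : ℝ} {nc : ℕ}
    (hW : B '' P (T.H i) ⊆ interior W)
    (hg : GapT T i B c β ρ D nc) (hWβ : hom (B c) (1 + 4 * β) (B '' P (T.H i)) ⊆ interior W)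
    (hN : NP (B '' P (T.H i)) (stT T i B W) (B c) β ε) (hε : 0 ≤ ε) : NearT T i B c β ε := by
  intro e he v hv hvP z hz hzh
  have hs := crs_sub he
  by_cases hzP : z ∈ P (T.H i)
  · have : z = v := hs ⟨hz, hzP⟩ ⟨hv, hvP⟩
    rw [this, sub_self, norm_zero]
    exact hε
  -- `z` is in the open edge
  have hzO : z ∈ Om := T.cc_sub_Om he.1 hz
  have hzo : z ∈ T.oc e := by
    by_contra hcon
    have h1 := T.dim_lt hz hcon
    rw [he.2.1] at h1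
    have h0 : T.dim z = 0 := by omega
    refine hg.gap z hzO ?_ hzh
    rw [T.cc_eq_singleton (T.dim_eq_zero_iff.1 h0), disjoint_singleton_left]
    exact hzP
  have hcc : T.cc z = T.cc e := T.cc_eq_of_mem_oc he.1 hzo
  have hBz : B z ∈ hom (B c) (1 + 4 * β) (B '' P (T.H i)) := by
    rw [← image_hom]
    exact mem_image_of_mem _ hzh
  have hcell : fcell (stT T i B W) (B z) = B '' T.cc z ∩ W :=
    fcell_eq (hWβ hBz) hzO (at_sub_star (hg.sub hzh))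
  refine hN (B z) hBz ?_ (B v) ?_
  · rw [hcell, hcc]
    rintro _ ⟨⟨⟨y, hy, rfl⟩, -⟩, hyP⟩ _ ⟨⟨⟨y', hy', rfl⟩, -⟩, hyP'⟩
    rw [hs ⟨hy, (B.injective.mem_set_image).1 hyP⟩ ⟨hy', (B.injective.mem_set_image).1 hyP'⟩]
  · rw [hcell, hcc]
    exact ⟨⟨mem_image_of_mem _ hv, interior_subset (hW (mem_image_of_mem _ hvP))⟩,
      mem_image_of_mem _ hvP⟩

variable (E)

/-- **GAPSIM with near vertices** -/
theorem gapsim_near (W : Set F) {𝒮 : Set (Set F × Set (Set F))} (h𝒮 : 𝒮.Finite) :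
    ∃ ρ > 0, ∃ D, ∃ nc : ℕ, ∀ ε > 0, ∃ β > 0, ∀ {Om : Set E} {ι : Type v} (T : Tiling Om ι) (i : ι)
      (B : E ≃ᵃ[ℝ] F), B '' P (T.H i) ⊆ interior W → (B '' P (T.H i), stT T i B W) ∈ 𝒮 →
      GapT T i B (B.symm (cK (B '' P (T.H i)))) β ρ D nc ∧
        NearT T i B (B.symm (cK (B '' P (T.H i)))) β ε := by
  obtain ⟨β0, hβ0, ρ, hρ, D, nc, h⟩ := gapsim.{u, v, w} E W h𝒮
  refine ⟨ρ, hρ, D, nc, fun ε hε => ?_⟩
  have key : ∀ p : Set F × Set (Set F), ∃ β > 0,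
      ∀ {Om : Set E} {ι : Type v} (T : Tiling Om ι) (i : ι) (B : E ≃ᵃ[ℝ] F),
      B '' P (T.H i) ⊆ interior W → (B '' P (T.H i), stT T i B W) = p →
      NP p.1 p.2 (cK p.1) β ε ∧ hom (cK p.1) (1 + 4 * β) p.1 ⊆ interior W := by
    intro p
    by_cases hr : ∃ (Om : Set E) (ι : Type v) (T : Tiling Om ι) (i : ι) (B : E ≃ᵃ[ℝ] F),
        B '' P (T.H i) ⊆ interior W ∧ (B '' P (T.H i), stT T i B W) = p
    · obtain ⟨Om, ι, T, i, B, h1, rfl⟩ := hr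
      have hc : cK (B '' P (T.H i)) ∈ interior (B '' P (T.H i)) := by
        refine cK_mem ?_
        rw [← image_interior_aff, I_eq_interior]
        exact (T.ne i).image _
      obtain ⟨β1, hβ1, g1⟩ := exists_NP h1 hc hε
      have hcpt : IsCompact (B '' P (T.H i)) := (T.cpt i).image (continuous_aff B)
      obtain ⟨β2, hβ2, g2⟩ := exists_hom_sub hcpt isOpen_interior h1 (cK (B '' P (T.H i)))
      have hcv : Convex ℝ (B '' P (T.H i)) := (convex_P (T.H i)).affine_image B.toAffineMap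
      refine ⟨min β1 β2, lt_min hβ1 hβ2, fun _ _ _ _ _ => ⟨?_, ?_⟩⟩
      · exact g1.mono hcv (interior_subset hc) (lt_min hβ1 hβ2).le (min_le_left _ _)
      · exact (hom_mono hcv (interior_subset hc) (by positivity)
          (by linarith [min_le_right β1 β2])).trans g2
    · exact ⟨1, one_pos, fun T i B h1 h2 => absurd ⟨_, _, T, i, B, h1, h2⟩ hr⟩
  choose β hβ g using key
  obtain ⟨β1, hβ1, h1⟩ := exists_lb h𝒮 hβ
  have hm : 0 < min β0 β1 := lt_min hβ0 hβ1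
  refine ⟨min β0 β1, hm, fun T i B hW hp => ?_⟩
  have hc : cK (B '' P (T.H i)) ∈ interior (B '' P (T.H i)) := by
    refine cK_mem ?_
    rw [← image_interior_aff, I_eq_interior]
    exact (T.ne i).image _
  have hcv : Convex ℝ (B '' P (T.H i)) := (convex_P (T.H i)).affine_image B.toAffineMap
  have hG := (h T i B hW hp).mono hm.le (min_le_left _ _) le_rfl le_rfl le_rfl
  obtain ⟨g1, g2⟩ := g _ T i B hW rfl
  have hle : min β0 β1 ≤ β (B '' P (T.H i), stT T i B W) := (min_le_right _ _).trans (h1 _ hp)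
  have hBc : B (B.symm (cK (B '' P (T.H i)))) = cK (B '' P (T.H i)) := B.apply_symm_apply _
  refine ⟨hG, NP.nearT (W := W) hW hG ?_ ?_ hε.le⟩
  · rw [hBc]
    exact (hom_mono hcv (interior_subset hc) (by positivity) (by linarith)).trans g2
  · rw [hBc]
    exact g1.mono hcv (interior_subset hc) hm.le hle

variable {E}

/-! ### the hypotheses of `Mal_874.sim_tile` -/

variable {n : ℕ}

theorem NearT.of_tz {i : ι} {χ : E ≃ᵃ[ℝ] (Fin n → ℝ)} {z : Fin n → ℤ} {c : E} {β ε : ℝ}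
    (h : NearT T i (χ.trans (tz z)) c β ε) : NearT T i χ c β ε := by
  intro e he v hv hvP y hy hyh
  have h1 := h e he v hv hvP y hy hyh
  have e2 : (χ.trans (tz z)) y - (χ.trans (tz z)) v = χ y - χ v := by
    funext m
    rw [Pi.sub_apply, Pi.sub_apply, AffineEquiv.trans_apply, AffineEquiv.trans_apply, tz_apply,
      tz_apply]
    ring
  rwa [e2] at h1

variable (E)

/-- helper432's `gap_tile` with `NearT` -/
theorem near_tile (𝒩 : Finset (Fin n → ℝ)) {d : ℕ} (hd : 0 < d)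
    (h𝒩 : ∀ ν ∈ 𝒩, ∀ m, ∃ c : ℤ, ν m = c / d) (R : ℝ) :
    ∃ ρ > 0, ∃ D, ∃ nc : ℕ, ∀ ε > 0, ∃ β > 0, ∀ {Om : Set E} {ι : Type v} (T : Tiling Om ι) (i : ι)
      (χ : E ≃ᵃ[ℝ] (Fin n → ℝ)) (s : ℝ), 0 < s →
      (∀ l, (P (T.H l) ∩ P (T.H i)).Nonempty → ∀ h ∈ T.H l, ∃ ν, ∃ t : ℤ, GF χ s 𝒩 d h ν t) →
      (∀ x ∈ P (T.H i), ∀ y ∈ P (T.H i), ∀ m, |χ y m - χ x m| ≤ R) →
      ∃ c, GapT T i χ c β ρ D nc ∧ NearT T i χ c β ε := by
  have hr : (0 : ℝ) < |R| + 2 := by positivity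
  obtain ⟨ρ, hρ, D, nc, h⟩ := gapsim_near E (closedBall (0 : Fin n → ℝ) (|R| + 2))
    (((lst_finite 𝒩 d (|R| + 2))).prod (lst_finite 𝒩 d (|R| + 2)).finite_subsets)
  refine ⟨ρ, hρ, D, nc, fun ε hε => ?_⟩
  obtain ⟨β, hβ, h⟩ := h ε hε
  refine ⟨β, hβ, fun {Om ι} T i χ s hs hgood hR => ?_⟩
  obtain ⟨x0, hx0⟩ := T.ne i
  have hx0' := I_sub_P _ hx0
  set z : Fin n → ℤ := fun m => ⌊χ x0 m⌋ with hz
  have hW' : (χ.trans (tz z)) '' P (T.H i) ⊆ Metric.ball (0 : Fin n → ℝ) (|R| + 2) := by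
    rintro _ ⟨y, hy, rfl⟩
    rw [mem_ball_zero_iff, pi_norm_lt_iff hr]
    intro m
    rw [AffineEquiv.trans_apply, tz_apply, Real.norm_eq_abs, abs_lt]
    have h1 := Int.floor_le (χ x0 m)
    have h2 := Int.lt_floor_add_one (χ x0 m)
    have h3 := abs_le.1 (hR x0 hx0' y hy m)
    have h4 := le_abs_self R
    constructor <;> simp only [hz] <;> linarith
  have hW : (χ.trans (tz z)) '' P (T.H i) ⊆ interior (closedBall (0 : Fin n → ℝ) (|R| + 2)) :=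
    hW'.trans ball_subset_interior_closedBall
  have hmem : ∀ l, (P (T.H l) ∩ P (T.H i)).Nonempty →
      (χ.trans (tz z)) '' P (T.H l) ∩ closedBall (0 : Fin n → ℝ) (|R| + 2) ∈
        lst 𝒩 d (|R| + 2) := by
    rintro l ⟨y, hy1, hy2⟩
    exact mem_lst hs hd h𝒩 hr.le (hgood l ⟨y, hy1, hy2⟩)
      ⟨y, hy1, ball_subset_closedBall (hW' (mem_image_of_mem _ hy2))⟩
  have hp : (χ.trans (tz z)) '' P (T.H i) ∈ lst 𝒩 d (|R| + 2) := by
    have h1 := hmem i ⟨x0, hx0', hx0'⟩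
    rwa [inter_eq_left.2 (hW'.trans ball_subset_closedBall)] at h1
  obtain ⟨g1, g2⟩ := h T i (χ.trans (tz z)) hW ⟨hp, by
    rintro Q ⟨j, hj, rfl⟩
    exact hmem j hj⟩
  exact ⟨_, g1.of_tz, g2.of_tz⟩

/-- helper432's `gap_good` with `NearT` -/
theorem near_good (𝒩 : Finset (Fin n → ℝ)) {d : ℕ} (hd : 0 < d)
    (h𝒩 : ∀ ν ∈ 𝒩, ∀ m, ∃ c : ℤ, ν m = c / d) (R : ℝ) :
    ∃ ρ > 0, ∃ D, ∃ nc : ℕ, ∀ ε > 0, ∃ β > 0, ∀ {Om : Set E} {ι : Type v} (T : Tiling Om ι) (t : ι)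
      (χ : E ≃ᵃ[ℝ] (Fin n → ℝ)) (k : ℕ), Good T t χ k 𝒩 d R →
      ∃ c, GapT T t χ c β ρ D nc ∧ NearT T t χ c β ε := by
  obtain ⟨ρ, hρ, D, nc, h⟩ := near_tile.{u, v} E 𝒩 hd h𝒩 R
  refine ⟨ρ, hρ, D, nc, fun ε hε => ?_⟩
  obtain ⟨β, hβ, h⟩ := h ε hε
  exact ⟨β, hβ, fun T i χ k hg => h T i χ (2 ^ k) (by positivity) hg.gf hg.sz⟩

/-- **helper432's `gap_goods` with `NearT`**: uniform constants for a finite list of lists -/
theorem near_goods {Ls : Set (Finset (Fin n → ℝ) × ℕ)} (hLs : Ls.Finite) (hpos : ∀ p ∈ Ls, 0 < p.2)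
    (hrat : ∀ p ∈ Ls, ∀ ν ∈ p.1, ∀ m, ∃ c : ℤ, ν m = c / p.2) (R : ℝ) :
    ∃ ρ > 0, ∃ D, ∃ nc : ℕ, ∀ ε > 0, ∃ β > 0, ∀ {Om : Set E} {ι : Type v} (T : Tiling Om ι) (t : ι)
      (χ : E ≃ᵃ[ℝ] (Fin n → ℝ)) (k : ℕ), ∀ p ∈ Ls, Good T t χ k p.1 p.2 R →
      ∃ c, GapT T t χ c β ρ D nc ∧ NearT T t χ c β ε := by
  have key : ∀ p : Finset (Fin n → ℝ) × ℕ, ∃ ρ > 0, ∃ D, ∃ nc : ℕ, ∀ ε > 0, ∃ β > 0, p ∈ Ls →
      ∀ {Om : Set E} {ι : Type v} (T : Tiling Om ι) (t : ι)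
      (χ : E ≃ᵃ[ℝ] (Fin n → ℝ)) (k : ℕ), Good T t χ k p.1 p.2 R →
      ∃ c, GapT T t χ c β ρ D nc ∧ NearT T t χ c β ε := by
    intro p
    by_cases hp : p ∈ Ls
    · obtain ⟨ρ, hρ, D, nc, h⟩ := near_good.{u, v} E p.1 (hpos p hp) (hrat p hp) R
      refine ⟨ρ, hρ, D, nc, fun ε hε => ?_⟩
      obtain ⟨β, hβ, h⟩ := h ε hε
      exact ⟨β, hβ, fun _ => h⟩
    · exact ⟨1, one_pos, 0, 0, fun ε _ => ⟨1, one_pos, fun h => absurd h hp⟩⟩
  choose ρ hρ D nc h using key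
  obtain ⟨ρ0, hρ0, h2⟩ := exists_lb hLs hρ
  obtain ⟨D0, h3⟩ := (hLs.image D).bddAbove
  obtain ⟨n0, h4⟩ := (hLs.image nc).bddAbove
  refine ⟨ρ0, hρ0, D0, n0, fun ε hε => ?_⟩
  choose β hβ g using fun p => h p ε hε
  obtain ⟨β0, hβ0, h1⟩ := exists_lb hLs hβ
  refine ⟨β0, hβ0, fun T i χ k p hp hg => ?_⟩
  obtain ⟨c, hc, hn⟩ := g p hp T i χ k hg
  refine ⟨c, hc.mono hβ0.le (h1 _ hp) (h2 _ hp) (h3 (mem_image_of_mem _ hp))
    (h4 (mem_image_of_mem _ hp)), fun e he v hv hvP z hz hzh => hn e he v hv hvP z hz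
    (hom_mono (convex_P _) (I_sub_P _ hc.mem) (by linarith) (by linarith [h1 _ hp]) hzh)⟩

end Crest.Agent.R096.Nvt_465
end

-- ▼ part R096/Cp8_465
section

/-!
# Row 96 (S0127), p = 2 (helper465), part 8: the shape constants of the tiles of `meshS` together
with 113's `NearV` (the crossing edges are near their inner ends)

`TG2` = `TG` + `NearV`; `tg2_struct` = helper896's `tileG_struct` with `NearV`, in the order
`D nc`, net, `ρ`, `ε`, `β`.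
-/

set_option autoImplicit false
set_option linter.unusedSectionVars false

open Set Metric Topology Filter

namespace Crest.Agent.R096.Cp8_465

open Crest.Agent.R096.Msh_715 Crest.Agent.R096.Msh_715.Tiling Crest.Agent.R096.Mal_874
open Crest.Agent.R096.Msh_810 Crest.Agent.R096.Cut_874 Crest.Agent.R096.Msb_432
open Crest.Agent.R096.Gsm_432 Crest.Agent.R096.Sk2_855
open Crest.Agent.R096.Ca_855 (TileG)
open Crest.Agent.R096.Nbr_896 (Fb nbr_meshS good_diam diam_of_dist diam_block inner_goodW)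
open Crest.Agent.R096.Spr_113 (NearV)
open Crest.Agent.R096.Sk3_812 (ug)
open Crest.Agent.R096.Nvt_465

universe w

variable {n : ℕ} {E : Type} [NormedAddCommGroup E] [NormedSpace ℝ E] [FiniteDimensional ℝ E]

/-- the shape constants of a tile at the scale `κ`, with `NearV` -/
def TG2 {Om : Set E} {ι : Type*} (T : Tiling Om ι) (i : ι) (β ρ D : ℝ) (nc κ : ℕ) (ε : ℝ) : Prop :=
  (∀ y ∈ P (T.H i), ∀ y' ∈ P (T.H i), ‖y - y'‖ ≤ D / 2 ^ κ) ∧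
  ∃ c, (∀ (hne : (T.H i).Nonempty) (K : ℕ) (t : ℝ), κ ≤ K → D / 2 ^ κ ≤ t →
    TileG T i hne c β (ρ / 2 ^ K) t nc) ∧
    ∀ hne : (T.H i).Nonempty, NearV T i (ug (T.H i) hne c (AffineEquiv.refl ℝ E)) (4 * β)
      (ε / 2 ^ κ)

theorem TG2.of {Om : Set E} {ι : Type*} {T : Tiling Om ι} {i : ι} {φ : E ≃L[ℝ] (Fin n → ℝ)}
    {a : Fin n → ℝ} {κ : ℕ} {c : E} {β ρ D ε : ℝ} {nc : ℕ}
    (h : GapT T i (chi φ a κ) c β ρ D nc) (hN : NearT T i (chi φ a κ) c β ε) (hβ : 0 ≤ β)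
    (hρ : 0 < ρ) {L1 L2 : ℝ} (hL1 : 0 < L1)
    (hL2 : 0 ≤ L2) (h1 : ∀ v, ‖φ v‖ ≤ L1 * ‖v‖) (h2 : ∀ v, ‖v‖ ≤ L2 * ‖φ v‖) :
    TG2 T i β (ρ / L1) (L2 * (2 * D)) nc κ (L2 * ε) := by
  have hp : (0 : ℝ) < 2 ^ κ := by positivity
  have hpw := hp
  have hd : ∀ y ∈ P (T.H i), ∀ y' ∈ P (T.H i), ‖y - y'‖ ≤ L2 * (2 * D) / 2 ^ κ := by
    intro y hy y' hy'
    have h3 := h.diam (L := L2 / 2 ^ κ) (by positivity) (fun v => ?_) y hy y' hy'
    · rwa [div_mul_eq_mul_div] at h3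
    · rw [chi_linear, div_mul_eq_mul_div, mul_left_comm, mul_div_assoc, mul_comm,
        div_mul_cancel₀ _ hp.ne']
      exact h2 v
  refine ⟨hd, c, fun hne K t hK ht => ?_, fun hne e he v hv hvP z hz hg => ?_⟩
  · have hpK : (0 : ℝ) < 2 ^ K := by positivity
    have hle : (2 : ℝ) ^ κ ≤ 2 ^ K := pow_le_pow_right₀ (by norm_num) hK
    refine h.tileG hβ hne (L := 2 ^ κ * L1) (by positivity) (fun v => ?_) ?_
      (fun y hy y' hy' => (hd y hy y' hy').trans ht)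
    · rw [chi_linear, mul_assoc]
      exact mul_le_mul_of_nonneg_left (h1 v) hp.le
    · have e : (2 : ℝ) ^ κ * L1 * (ρ / L1 / 2 ^ K) = ρ * (2 ^ κ / 2 ^ K) := by
        field_simp
      rw [e]
      have h3 : (2 : ℝ) ^ κ / 2 ^ K ≤ 1 := (div_le_one hpK).2 hle
      nlinarith
  · have h3 : z ∈ hom c (1 + 4 * β) (P (T.H i)) :=
      (ug_le_iff_hom hne h.mem (AffineEquiv.refl ℝ E) (by linarith) z).1 hg
    have h4 := hN e he v hv hvP z hz h3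
    rw [aff_sub, chi_linear] at h4
    have h5 : ‖φ (z - v)‖ ≤ ε / 2 ^ κ := by
      rw [le_div_iff₀ hp, mul_comm]
      exact h4
    rw [dist_eq_norm, mul_div_assoc]
    exact (h2 _).trans (mul_le_mul_of_nonneg_left h5 hL2)

/-- better constants -/
theorem TG2.better {Om : Set E} {ι : Type*} {T : Tiling Om ι} {t : ι} {β ρ D D' ε : ℝ}
    {nc nc' κ : ℕ} (h : TG2 T t β ρ D' nc' κ ε)
    (hd : ∀ y ∈ P (T.H t), ∀ y' ∈ P (T.H t), ‖y - y'‖ ≤ D / 2 ^ κ)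
    (h1 : (star T t).ncard ≤ nc) (h2 : Nat.card (Sk3_812.KT T t) ≤ nc) :
    TG2 T t β ρ D nc κ ε := by
  obtain ⟨-, c, hc, hN⟩ := h
  refine ⟨hd, c, fun hne K t' hK ht' => ?_, hN⟩
  have h3 := hc hne K (max t' (D' / 2 ^ κ)) hK (le_max_right _ _)
  exact
    { cI := h3.cI
      ball := h3.ball
      gap := h3.gap
      star := h3.star
      cardK := h2
      cardN := h1
      diam := fun y hy y' hy' => (hd y hy y' hy').trans ht' }

/-- helper432's `tg_goods` with `NearV` -/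
theorem tg2_goods (E : Type) [NormedAddCommGroup E] [NormedSpace ℝ E] [FiniteDimensional ℝ E]
    {Ls : Set (Finset (Fin n → ℝ) × ℕ)} (hLs : Ls.Finite) (hpos : ∀ p ∈ Ls, 0 < p.2)
    (hrat : ∀ p ∈ Ls, ∀ ν ∈ p.1, ∀ m, ∃ c : ℤ, ν m = c / p.2) (R : ℝ) {L1 L2 : ℝ} (hL1 : 0 < L1)
    (hL2 : 0 < L2) :
    ∃ ρ > 0, ∃ D, ∃ nc : ℕ, ∀ ε > 0, ∃ β > 0, ∀ {Om : Set E} {ι : Type w} (T : Tiling Om ι) (t : ι)
      (φ : E ≃L[ℝ] (Fin n → ℝ)) (a : Fin n → ℝ) (κ : ℕ), ∀ p ∈ Ls,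
      Good T t (chi φ a κ) κ p.1 p.2 R → (∀ v, ‖φ v‖ ≤ L1 * ‖v‖) → (∀ v, ‖v‖ ≤ L2 * ‖φ v‖) →
      TG2 T t β ρ D nc κ ε := by
  obtain ⟨ρ, hρ, D, nc, h⟩ := near_goods.{0, w} E hLs hpos hrat R
  refine ⟨ρ / L1, by positivity, L2 * (2 * D), nc, fun ε hε => ?_⟩
  obtain ⟨β, hβ, h⟩ := h (ε / L2) (by positivity)
  refine ⟨β, hβ, fun T t φ a κ p hp hg h1 h2 => ?_⟩
  obtain ⟨c, hc, hN⟩ := h T t (chi φ a κ) κ p hp hg
  have h3 := TG2.of hc hN hβ.le hρ hL1 hL2.le h1 h2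
  rwa [mul_div_cancel₀ _ hL2.ne'] at h3

/-- **896's `tileG_struct` with `NearV`**: `D`, `nc` before the net; then `ρ`, `ε`, `β` -/
theorem tg2_struct (E : Type) [NormedAddCommGroup E] [NormedSpace ℝ E] [FiniteDimensional ℝ E]
    [NeZero n] (K R0 : ℝ) (B0 : ℕ) :
    ∃ D : ℝ, 0 < D ∧ ∃ nc : ℕ,
      (∀ {J : Type w} (M : MD E n J) {k : J → ℕ} (hk : M.Sc k)
        (a : Fin n → ℝ) {v : J → E} (hv : M.Adm v) (X : RD M), RP X a v k → Fb K M →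
        (∀ j, X.B j ≤ B0) → (∀ j, X.R j ≤ R0) →
        (∀ t, (star (meshS M hk a hv) t).ncard ≤ nc ∧
          Nat.card (Tgr_335.KT (meshS M hk a hv) t) ≤ nc ∧
          Nat.card (Sk3_812.KT (meshS M hk a hv) t) ≤ nc) ∧
        ∀ j t, (P ((meshS M hk a hv).H t) ∩ (M.Bk v j).N).Nonempty →
          ∀ x ∈ P ((meshS M hk a hv).H t), ∀ y ∈ P ((meshS M hk a hv).H t),
            ‖x - y‖ ≤ D / 2 ^ (M.Q j).kc) ∧
      ∀ {Ps : Set ((Fin n → Fin n → ℤ) × ℕ)}, Ps.Finite → ∀ c0 : ℝ, ∃ ρ > 0, ∀ ε > 0, ∃ β > 0,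
      ∀ {J : Type w} (M : MD E n J) {k : J → ℕ} (hk : M.Sc k)
        (a : Fin n → ℝ) {v : J → E} (hv : M.Adm v) (X : RD M), RP X a v k → Fb K M →
        (∀ j, (X.A j, X.d j) ∈ Ps) → (∀ j, X.c j ≤ c0) → (∀ j, X.B j ≤ B0) → (∀ j, X.R j ≤ R0) →
        ∀ t, ∃ κ, Scl M hk a hv t κ ∧ TG2 (meshS M hk a hv) t β ρ D nc κ ε := by
  classical
  obtain ⟨nc, hnc⟩ := nbr_meshS.{w} (n := n) E K R0 B0
  set L : ℝ := |K| + 1 with hL
  have hL0 : 0 < L := by positivity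
  have hKL : K ≤ L := (le_abs_self K).trans (by rw [hL]; linarith)
  set D : ℝ := L * max 2 R0 with hD
  have hm2 : (2 : ℝ) ≤ max 2 R0 := le_max_left _ _
  have hD0 : 0 < D := by
    rw [hD]
    have : (0 : ℝ) < max 2 R0 := by linarith
    positivity
  refine ⟨D, hD0, nc, ?_, ?_⟩
  · intro J M k hk a v hv X RPx hF hB hR
    refine ⟨hnc M hk a hv X RPx hF hB hR, fun j t ht x hx y hy => ?_⟩
    refine (diam_block M hk a hv X hL0.le (hF.mono hKL) hR t ht x hx y hy).trans ?_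
    refine div_le_div_of_nonneg_right ?_ (by positivity)
    rw [hD]
    exact mul_le_mul_of_nonneg_left (max_le_max (by norm_num) le_rfl) hL0.le
  intro Ps hPs c0
  set Ls : Set (Finset (Fin n → ℝ) × ℕ) := {(N0 n, 1)} ∪ {(NB n B0, 1)} ∪
    (fun p : (Fin n → Fin n → ℤ) × ℕ => (NR p.1 p.2, p.2)) '' {p ∈ Ps | 0 < p.2} with hLs
  have hfin : Ls.Finite := ((finite_singleton _).union (finite_singleton _)).union
    ((hPs.subset (sep_subset _ _)).image _)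
  have hpos : ∀ p ∈ Ls, 0 < p.2 := by
    rintro p ((rfl | rfl) | ⟨q, hq, rfl⟩)
    · exact one_pos
    · exact one_pos
    · exact hq.2
  have hrat : ∀ p ∈ Ls, ∀ ν ∈ p.1, ∀ m, ∃ c : ℤ, ν m = c / p.2 := by
    rintro p ((rfl | rfl) | ⟨q, hq, rfl⟩)
    · exact N0_rat one_pos
    · exact NB_rat B0 one_pos
    · exact NR_rat q.1 hq.2
  obtain ⟨ρ, hρ, D', nc', h⟩ := tg2_goods E hfin hpos hrat (max 2 (max R0 c0)) hL0 hL0
  refine ⟨ρ, hρ, fun ε hε => ?_⟩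
  obtain ⟨β, hβ, h⟩ := h ε hε
  refine ⟨β, hβ, fun {J} M {k} hk a {v} hv X RPx hF0 hA hc hB hR => ?_⟩
  have hn := hnc M hk a hv X RPx hF0 hB hR
  have hF : Fb L M := hF0.mono hKL
  have m0 : (N0 n, 1) ∈ Ls := Or.inl (Or.inl rfl)
  have mB : (NB n B0, 1) ∈ Ls := Or.inl (Or.inr rfl)
  have mR : ∀ j, (NR (X.A j) (X.d j), X.d j) ∈ Ls := fun j =>
    Or.inr ⟨_, ⟨hA j, X.dpos j⟩, rfl⟩
  have r1 : (1 : ℝ) ≤ max 2 (max R0 c0) := le_trans (by norm_num) (le_max_left _ _)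
  have r2 : ∀ j, X.c j ≤ max 2 (max R0 c0) := fun j =>
    (hc j).trans ((le_max_right _ _).trans (le_max_right _ _))
  have r3 : ∀ j, X.R j ≤ max 2 (max R0 c0) := fun j =>
    (hR j).trans ((le_max_left _ _).trans (le_max_right _ _))
  -- diameters
  have dd : ∀ {R : ℝ} {κ : ℕ}, 0 ≤ R → R ≤ max 2 R0 → L * R / 2 ^ κ ≤ D / 2 ^ κ := by
    intro R κ _ h1
    refine div_le_div_of_nonneg_right ?_ (by positivity)
    rw [hD]
    exact mul_le_mul_of_nonneg_left h1 hL0.le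
  rintro (⟨t, ht⟩ | c)
  · rcases t with p | ⟨j, i⟩
    · have hsub : P ((M.mesh hk a hv).H (Sum.inl p)) ⊆ P ((M.ad hk a hv).T0.H p.1.par) :=
        cut_tile_sub (hA := AF_ne) p.1
      have hdist : ∀ x ∈ P ((M.mesh hk a hv).H (Sum.inl p)),
          ∀ y ∈ P ((M.mesh hk a hv).H (Sum.inl p)), ‖x - y‖ ≤ L * 1 / 2 ^ p.1.par.1.1.k := by
        intro x hx y hy
        have h1 := diam_of_dist hL0.le hF.φ2 (dist_cube
          ((AD.tile_T0 (M := M.ad hk a hv) _).1 (hsub hx))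
          ((AD.tile_T0 (M := M.ad hk a hv) _).1 (hsub hy)))
        rwa [mul_one_div, ← mul_one L] at h1
      rcases outer_goodS M hk a hv X RPx p with hg | ⟨j, hj, hg⟩
      · have hTG := h _ _ _ _ _ _ m0 (good_mono hg subset_rfl (le_max_left _ _)) hF.φ1 hF.φ2
        exact ⟨_, Or.inl rfl, TG2.better hTG (fun y hy y' hy' =>
          (good_diam hL0.le hF.φ2 (by norm_num) hg y hy y' hy').trans (dd (by norm_num) hm2))
          (hn _).1 (hn _).2.2⟩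
      · have hTG := h _ _ _ _ _ _ (mR j) (good_mono hg subset_rfl (r2 j)) hF.φ1 hF.φ2
        refine ⟨_, Or.inr ⟨j, rfl, hj⟩, TG2.better hTG (fun y hy y' hy' => ?_) (hn _).1
          (hn _).2.2⟩
        have h1 := hdist y hy y' hy'
        rw [hj] at h1
        exact h1.trans (dd (by norm_num) (by linarith))
    · have hi : i ≠ M.core hk a hv j := by
        rintro rfl
        exact ht ⟨j, rfl⟩
      rcases inner_goodW M hk a hv X RPx i hi with ⟨τ, hτ, hg⟩ | hg | ⟨⟨τ, hτ, hτk⟩, -, hg⟩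
      · have hTG := h _ _ _ _ _ _ m0 (good_mono hg subset_rfl (le_max_left _ _))
          (hF.ψ1 j) (hF.ψ2 j)
        refine ⟨_, ⟨?_, ?_⟩, TG2.better hTG (fun y hy y' hy' =>
          (good_diam hL0.le (hF.ψ2 j) (by norm_num) hg y hy y' hy').trans
            (dd (by norm_num) hm2)) (hn _).1 (hn _).2.2⟩
        · have := (M.Bk v j).kc_le (k j) (hk.kc j) (τ := τ.1)
          exact this.trans (Nat.le_succ _)
        · exact Nat.succ_le_succ ((M.Bk v j).le_k (k j) (hk.kc j) (τ := τ.1))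
      · have hR0 : 0 ≤ X.R j := zero_le_one.trans (X.R1 j)
        exact ⟨_, ⟨le_rfl, (hk.kc j).trans (Nat.le_succ _)⟩, TG2.better
          (h _ _ _ _ _ _ mB (good_mono hg (NB_mono (hB j)) (r3 j)) (hF.ψ1 j) (hF.ψ2 j))
          (fun y hy y' hy' => (good_diam hL0.le (hF.ψ2 j) hR0 hg y hy y' hy').trans
            (dd hR0 ((hR j).trans (le_max_right _ _)))) (hn _).1 (hn _).2.2⟩
      · refine ⟨_, ⟨hk.kc j, Nat.le_succ _⟩, TG2.better
          (h _ _ _ _ _ _ (mR j) (good_mono hg subset_rfl (r2 j)) hF.φ1 hF.φ2)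
          (fun y hy y' hy' => ?_) (hn _).1 (hn _).2.2⟩
        have hy1 : y ∈ P (((M.Bk v j).T (k j) (hk.kc j)).H i.1) := hy
        have hy2 : y' ∈ P (((M.Bk v j).T (k j) (hk.kc j)).H i.1) := hy'
        rw [hτ] at hy1 hy2
        have h1 := dist_cube (((M.Bk v j).tile_T0 (k j) (hk.kc j)).1 hy1)
          (((M.Bk v j).tile_T0 (k j) (hk.kc j)).1 hy2)
        rw [hτk] at h1
        have h2 := diam_of_dist hL0.le (hF.ψ2 j) h1
        rw [mul_one_div, ← mul_one L] at h2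
        exact h2.trans (dd (by norm_num) (by linarith))
  · exact ⟨_, rfl, TG2.better
      (h _ _ _ _ _ _ mB (good_mono (cube_goodS M hk a hv X c) (NB_mono (hB _)) r1)
        (hF.ψ1 _) (hF.ψ2 _))
      (fun y hy y' hy' => (good_diam hL0.le (hF.ψ2 _) (by norm_num)
        (cube_goodS M hk a hv X c) y hy y' hy').trans (dd (by norm_num) (by linarith)))
      (hn _).1 (hn _).2.2⟩

end Crest.Agent.R096.Cp8_465
end

-- ▼ part R096/Cp9_465

/-!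
# Row 96 (S0127), p = 2 (helper465), part 9: the mesh family with faces from `TG2`
-/

set_option autoImplicit false
set_option linter.unusedSectionVars false

open Set Metric Topology Filter MeasureTheory
open scoped ENNReal

namespace Crest.Agent.R096.Cp9_465

open Crest.AnalysisR.VecCalc3
open Crest.Agent.R096.Msh_715 (Tiling P I)
open Crest.Agent.R096.Mf_113 (Rig CK)
open Crest.Agent.R096.Ca_855
open Crest.Agent.R096.Fsl_793
open Crest.Agent.R096.Cp8_465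
open Crest.Agent.R096.Spr_113 (NearV)
open Crest.Agent.R096.Sk3_812 (ug)
open Crest.Agent.R096.Mal_874 (CB reOm)
open Crest.Agent.R096.Msb_432 (Scl)
open Crest.Agent.R096.Gsm_432 (TG)

noncomputable section

/-- the two shape clauses at the scale `κ` in absolute units -/
theorem TG2.abs {Om : Set R3} {ι : Type*} {T : Tiling Om ι} {i : ι} {β ρ D ε t r : ℝ} {nc κ kM : ℕ}
    (h : TG2 T i β ρ D nc κ ε) (hκ : κ ≤ kM) (hD : D / 2 ^ κ ≤ t) (hr : r * t ≤ ρ / 2 ^ kM)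
    (hε : ε / 2 ^ κ ≤ r * t / 8) : ∃ c : R3, ∀ hne : (T.H i).Nonempty,
      TileG T i hne c β (r * t) t nc ∧
      NearV T i (ug (T.H i) hne c (AffineEquiv.refl ℝ R3)) (4 * β) (r * t / 8) := by
  obtain ⟨-, c, hc, hN⟩ := h
  refine ⟨c, fun hne => ⟨?_, (hN hne).mono le_rfl hε⟩⟩
  have h1 := hc hne kM t hκ hD
  exact h1.diam' hr h1.diam

section rig

variable {Om Om0 W Tr : Set R3} {ι0 : Type} {ι : R3 → Type} {T0 : Tiling Om0 ι0}
  {T : ∀ a, Tiling Om (ι a)} {t β r d ρ D ε : ℝ} {nc kM : ℕ}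

/-- **the mesh families (without and with faces) of a rigid family of tilings with the shape
constants `TG2`** -/
theorem mfam2_of_rig (h : Rig T0 T Tr W) (hTr : MeasurableSet Tr)
    (hvol : ENNReal.ofReal (t ^ 3) ≤ volume Tr) (hfin : volume Tr ≠ ∞) (ht0 : 0 < t)
    (hr : 0 < r) (hd0 : 0 ≤ d) (hrt : r * t ≤ ρ / 2 ^ kM)
    (hT : ∀ a ∈ Tr, ∀ i, (P ((T a).H i) ∩ W).Nonempty → ∃ κ ≤ kM,
      TG2 (T a) i β ρ D nc κ ε ∧ D / 2 ^ κ ≤ t ∧ ε / 2 ^ κ ≤ r * t / 8)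
    {a₀ : R3} (hd : ∀ a ∈ Tr, ‖a - a₀‖ ≤ d * t) {m : ℕ} (hm : ((d + 2) / r) ^ 3 ≤ m) :
    ∃ (c : ∀ a, ι a → R3) (ht : ∀ a ∈ Tr, ∀ i, (P ((T a).H i) ∩ W).Nonempty →
        TileG (T a) i (Gsm_432.H_ne (T a) i) (c a i) β (r * t) t nc),
      ∃ M : MFam2 Om W t (2 ^ ⌊((d + 1) / r) ^ 3⌋₊) β r nc (m ^ 2), M.Tr = Tr ∧
        M.toMFam = MFam.ofRig h c hTr hvol hfin ht0 hr hd0 ht hd := by
  classical
  have key : ∀ a, ∀ i, ∃ c : R3, a ∈ Tr → (P ((T a).H i) ∩ W).Nonempty →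
      TileG (T a) i (Gsm_432.H_ne (T a) i) c β (r * t) t nc ∧
      NearV (T a) i (ug ((T a).H i) (Gsm_432.H_ne (T a) i) c (AffineEquiv.refl ℝ R3))
        (4 * β) (r * t / 8) := by
    intro a i
    by_cases hi : a ∈ Tr ∧ (P ((T a).H i) ∩ W).Nonempty
    · obtain ⟨κ, hκ, h1, h2, h3⟩ := hT a hi.1 i hi.2
      obtain ⟨c, hc⟩ := TG2.abs h1 hκ h2 hrt h3
      exact ⟨c, fun _ _ => hc _⟩
    · exact ⟨0, fun h1 h2 => absurd ⟨h1, h2⟩ hi⟩
  choose c hc using key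
  have ht := fun a ha i hi => (hc a i ha hi).1
  obtain ⟨M, h1, h2⟩ := exists_ofRig h c hTr hvol hfin ht0 hr hd0 ht
    (fun a ha i hi => (hc a i ha hi).2) hd hm
  exact ⟨c, ht, M, h1, h2⟩

end rig

/-! ### the meshes `h.T a` of helper855's `MIn` -/


theorem TG2.re {E : Type} [NormedAddCommGroup E] [NormedSpace ℝ E] [FiniteDimensional ℝ E]
    {Om Om' : Set E} (h : Om = Om') {ι : Type} {T : Tiling Om ι} {i : ι} {β ρ D ε : ℝ} {nc κ : ℕ}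
    (hT : TG2 T i β ρ D nc κ ε) : TG2 (reOm T h) i β ρ D nc κ ε := by
  subst h
  exact hT

/-- **855's `exists_tile` with `NearV`**: `D`, `nc` depend on `κ`, `Bs` only; `ρ` on the net; then
`ε`, `β` -/
theorem exists_tile2 {κ : ℝ} (hκ : 0 < κ) (hκ1 : κ ≤ 1) (Bs : ℕ) :
    ∃ D : ℝ, 0 < D ∧ ∃ nc : ℕ,
      (∀ {Om W : Set R3} {ρ₀ : R3 → ℝ} {J : Type} [Finite J] {Qb : J → CB R3 3} {k0 Nn : ℕ}
        {σ : ℝ} (h : MIn Om W ρ₀ Qb k0 σ), (∀ j, MIn.BQ κ Bs Nn (Qb j) k0) → ∀ a,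
        (∀ t, {j | (P ((h.T a).H j) ∩ P ((h.T a).H t)).Nonempty}.ncard ≤ nc ∧
          Nat.card (Crest.Agent.R096.Tgr_335.KT (h.T a) t) ≤ nc ∧
          Nat.card (Crest.Agent.R096.Sk3_812.KT (h.T a) t) ≤ nc) ∧
        ∀ j t, (P ((h.T a).H t) ∩ (h.M.Bk (fun _ => h.cl a) j).N).Nonempty →
          ∀ x ∈ P ((h.T a).H t), ∀ y ∈ P ((h.T a).H t), ‖x - y‖ ≤ D / 2 ^ (Qb j).kc) ∧
      ∀ Nn : ℕ, ∃ ρ > 0, ∀ ε > 0, ∃ β > 0, ∀ {Om W : Set R3} {ρ₀ : R3 → ℝ} {J : Type} [Finite J]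
        {Qb : J → CB R3 3} {k0 : ℕ} {σ : ℝ} (h : MIn Om W ρ₀ Qb k0 σ),
        (∀ j, MIn.BQ κ Bs Nn (Qb j) k0) → ∀ a t,
          ∃ κ', Scl h.M h.sc (0 + h.M.φ (h.cl a)) (h.adm a) t κ' ∧
            TG2 (h.Ts a) t β ρ D nc κ' ε := by
  obtain ⟨D, hD, nc, h1, h2⟩ := tg2_struct (n := 3) R3 (4 * κ⁻¹) (max 1 (Bs:ℝ)) (max 1 Bs)
  refine ⟨D, hD, nc, ?_, fun Nn => ?_⟩
  · intro Om W ρ₀ J _ Qb k0 Nn σ h hb a
    obtain ⟨h2, h3⟩ := h1 h.M h.sc (0 + h.M.φ (h.cl a)) (h.adm a) (h.X hκ hκ1 hb)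
      (h.rp hκ hκ1 hb a) (h.fb hκ hκ1 hb) (fun _ => le_rfl) (fun _ => le_rfl)
    refine ⟨fun t => ?_, h3⟩
    obtain ⟨e1, e2, e3⟩ := card_re h.dom (h.Ts a) t
    exact ⟨(congrArg Set.ncard e1).le.trans (h2 t).1, e2.le.trans (h2 t).2.1,
      e3.le.trans (h2 t).2.2⟩
  · obtain ⟨ρ, hρ, h3⟩ := h2 (MIn.Ps_finite Nn) (4 * κ⁻¹)
    refine ⟨ρ, hρ, fun ε hε => ?_⟩
    obtain ⟨β, hβ, h3⟩ := h3 ε hε
    refine ⟨β, hβ, ?_⟩
    intro Om W ρ₀ J _ Qb k0 σ h hb a t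
    exact h3 h.M h.sc (0 + h.M.φ (h.cl a)) (h.adm a) (h.X hκ hκ1 hb) (h.rp hκ hκ1 hb a)
      (h.fb hκ hκ1 hb) (h.X_Ps hκ hκ1 hb) (fun _ => le_rfl) (fun _ => le_rfl) (fun _ => le_rfl) t

section MIn

variable {Om W : Set R3} {ρ₀ : R3 → ℝ} {J : Type} {Qb : J → CB R3 3} {k0 : ℕ} {σ : ℝ}
  [Finite J] {D β ρ t r ε : ℝ} {nc : ℕ}

theorem vol_closedBall_ge {t : ℝ} (ht : 0 ≤ t) :
    ENNReal.ofReal (t ^ 3) ≤ volume (closedBall (0 : R3) t) := by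
  rw [EuclideanSpace.volume_closedBall_fin_three, ENNReal.ofReal_pow ht]
  refine le_mul_of_one_le_right zero_le ?_
  rw [ENNReal.one_le_ofReal]
  have := Real.pi_gt_three
  linarith

/-- `TG2` at a scale `≤ k0 + 1` for the tiles which meet `W` -/
theorem _root_.Crest.Agent.R096.Ca_855.MIn.tile2 (h : MIn Om W ρ₀ Qb k0 σ) (hD : 0 ≤ D) (hε : 0 ≤ ε)
    (hTG : ∀ a i, ∃ κ', Scl h.M h.sc (0 + h.M.φ (h.cl a)) (h.adm a) i κ' ∧
      TG2 (h.Ts a) i β ρ D nc κ' ε)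
    (hDk : ∀ j, D / 2 ^ (Qb j).kc ≤ t) (hD0 : D / 2 ^ k0 ≤ t)
    (hεk : ∀ j, ε / 2 ^ (Qb j).kc ≤ r * t / 8) (hε0 : ε / 2 ^ k0 ≤ r * t / 8)
    (a : R3) (i : h.ιT a) (hi : (P ((h.T a).H i) ∩ W).Nonempty) : ∃ κ' ≤ k0 + 1,
      TG2 (h.T a) i β ρ D nc κ' ε ∧ D / 2 ^ κ' ≤ t ∧ ε / 2 ^ κ' ≤ r * t / 8 := by
  obtain ⟨κ', h1, h3⟩ := hTG a i
  obtain ⟨h4, h5⟩ := h.scl_le hi h1
  have hmono : ∀ {x : ℝ}, 0 ≤ x → ∀ {k k' : ℕ}, k ≤ k' → x / 2 ^ k' ≤ x / 2 ^ k :=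
    fun hx _ _ hkk =>
    div_le_div_of_nonneg_left hx (by positivity) (pow_le_pow_right₀ (by norm_num) hkk)
  refine ⟨κ', h4, TG2.re h.dom (T := h.Ts a) h3, ?_, ?_⟩
  · rcases h5 with h5 | ⟨j, h5⟩
    · exact (hmono hD h5).trans hD0
    · exact (hmono hD h5).trans (hDk j)
  · rcases h5 with h5 | ⟨j, h5⟩
    · exact (hmono hε h5).trans hε0
    · exact (hmono hε h5).trans (hεk j)

/-- **the mesh families (without and with faces) of `PreIN`**: the family of the tilings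
`h.T a`, `a ∈ closedBall 0 t`, over the model `h.T0` -/
theorem _root_.Crest.Agent.R096.Ca_855.MIn.exists_mfam2 (h : MIn Om W ρ₀ Qb k0 σ) (hD : 0 ≤ D) (hε : 0 ≤ ε)
    (hTG : ∀ a i, ∃ κ', Scl h.M h.sc (0 + h.M.φ (h.cl a)) (h.adm a) i κ' ∧
      TG2 (h.Ts a) i β ρ D nc κ' ε)
    (hDk : ∀ j, D / 2 ^ (Qb j).kc ≤ t) (hD0 : D / 2 ^ k0 ≤ t)
    (hεk : ∀ j, ε / 2 ^ (Qb j).kc ≤ r * t / 8) (hε0 : ε / 2 ^ k0 ≤ r * t / 8)
    (hrt : r * t ≤ ρ / 2 ^ (k0 + 1)) (ht : 0 < t) (htσ : t ≤ σ / 8) (hr : 0 < r)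
    {m : ℕ} (hm : ((1 + 2) / r) ^ 3 ≤ m) :
    ∃ (c : ∀ a, h.ιT a → R3)
      (htile : ∀ a ∈ closedBall (0 : R3) t, ∀ i, (P ((h.T a).H i) ∩ W).Nonempty →
        TileG (h.T a) i (Gsm_432.H_ne (h.T a) i) (c a i) β (r * t) t nc),
      ∃ M : MFam2 Om W t (2 ^ ⌊((1 + 1) / r) ^ 3⌋₊) β r nc (m ^ 2),
        M.toMFam = MFam.ofRig (T0 := h.T0) (T := h.T) (Tr := closedBall 0 t) (a₀ := 0) (d := 1)
          (h.rig fun a ha => (mem_closedBall_zero_iff.1 ha).trans htσ) c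
          measurableSet_closedBall (vol_closedBall_ge ht.le) measure_closedBall_lt_top.ne ht hr
          zero_le_one htile (fun a ha => by
            rw [sub_zero, one_mul]
            exact mem_closedBall_zero_iff.1 ha) := by
  obtain ⟨c, htile, M, -, h2⟩ := mfam2_of_rig (T0 := h.T0) (T := h.T) (Tr := closedBall 0 t)
    (a₀ := 0) (d := 1) (ρ := ρ) (D := D) (ε := ε) (kM := k0 + 1)
    (h.rig fun a ha => (mem_closedBall_zero_iff.1 ha).trans htσ) measurableSet_closedBall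
    (vol_closedBall_ge ht.le) measure_closedBall_lt_top.ne ht hr zero_le_one hrt
    (fun a _ i hi => h.tile2 hD hε hTG hDk hD0 hεk hε0 a i hi) (fun a ha => by
      rw [sub_zero, one_mul]
      exact mem_closedBall_zero_iff.1 ha) hm
  exact ⟨c, htile, M, h2⟩

end MIn

end

end Crest.Agent.R096.Cp9_465
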