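import Crest.Agent.R096.Srg6_465
import Crest.Agent.R096.Ub1_113

-- ▼ part R096/Srg7_465
section

/-!
# R096 (row 96), 2SK-SURG, part 7: the surgery with the cut discs (helper465)

* `DiscIn F rim K Γ`: `K` is a disc in the relative interior of the face `F` with rim circle `Γ`.
* `CutData`: what is known about the cut parts of the faces.
* `surgeryC`: `surgery` with `CutData`.
-/

set_option autoImplicit false
set_option linter.unusedSectionVars false

open Set Metric Topology Filter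

namespace Crest.Agent.R096.Srg_465

open Ce_537 Pl Cb_609
open Sk2_855 (HP)

variable {E : Type*} [NormedAddCommGroup E] [NormedSpace ℝ E]

/-- `K` is a disc in the relative interior of `F` with rim `Γ` -/
def DiscIn (F rim K Γ : Set E) : Prop :=
  IsBall 2 K Γ ∧ K ⊆ F \ rim ∧ ∃ O, IsOpen O ∧ O ∩ F = K \ Γ


/-- the cut parts of the faces -/
structure CutData (S : Set E) {κ : Type*} (F : κ → Set E) (u : E → ℝ)
    (𝒜 : ℝ → Set E → Prop) (K Z : ℝ → Set E) (I I' : Set ℝ) (h : E → E) (ψ : E ≃ₜ E)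
    (Cut : κ → Set E) : Prop where
  comp : ∀ k, IsCompact (Cut k)
  sub : ∀ k, Cut k ⊆ F k \ S
  near : ∀ k, ∀ x ∈ F k, x ∉ Cut k → ∀ᶠ y in 𝓝 x, ψ y = y
  mem : ∀ k, ∀ x ∈ Cut k, ∃ t ∈ I, ∃ D Γ, 𝒜 t D ∧ Side (K t) (Z t) D Γ ∧ h (ψ x) ∈ D
  emp : ∀ k, (∀ x ∈ F k, u (h x) ∉ I) → Cut k = ∅
  lev : ∀ k, ∀ x ∈ F k, u (h (ψ x)) ∈ I' → x ∉ Cut k
  comps : ∀ k, ∀ t ∈ I', ∀ x ∈ F k, u (h (ψ x)) = t →
    connectedComponentIn (Ls (F k) (fun x => u (h (ψ x))) t) x =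
      connectedComponentIn (Ls (F k) (fun x => u (h x)) t) x
  old : ∀ k, ∀ t ∈ I', ∀ Γ K', DiscIn (F k) (F k ∩ S) K' Γ →
    Circ (F k) (F k ∩ S) (fun x => u (h x)) t Γ →
    Circ (F k) (F k ∩ S) (fun x => u (h (ψ x))) t Γ ∨ K' ⊆ Cut k

section Main

variable {Om La S : Set E} {κ : Type*} {F : κ → Set E} {J : Finset κ} {u : E → ℝ}
  {𝒜 : ℝ → Set E → Prop} {I I₁ I₂ : Set ℝ} {h hi : E → E} {K Z : ℝ → Set E}

theorem CutData.refl (S : Set E) (F : κ → Set E) (u : E → ℝ) (𝒜 : ℝ → Set E → Prop)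
    (K Z : ℝ → Set E) (I : Set ℝ) (h : E → E) :
    CutData S F u 𝒜 K Z I I h (Homeomorph.refl E) (fun _ => ∅) where
  comp _ := isCompact_empty
  sub _ := empty_subset _
  near _ _ _ _ := Eventually.of_forall fun _ => rfl
  mem _ x hx := absurd hx (notMem_empty x)
  emp _ _ := rfl
  lev _ x _ _ := notMem_empty x
  comps _ _ _ _ _ _ := rfl
  old _ _ _ _ _ _ h := Or.inl h

theorem CutData.trans {ψ₁ ψ₂ : E ≃ₜ E} {C₁ C₂ : κ → Set E}
    (c1 : CutData S F u 𝒜 K Z I I₁ h ψ₁ C₁)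
    (c2 : CutData S F u 𝒜 K Z I₁ I₂ (fun x => h (ψ₁ x)) ψ₂ C₂) (h1 : I₁ ⊆ I) (h2 : I₂ ⊆ I₁) :
    CutData S F u 𝒜 K Z I I₂ h (ψ₂.trans ψ₁) (fun k => C₂ k ∪ C₁ k) where
  comp k := (c2.comp k).union (c1.comp k)
  sub k := union_subset (c2.sub k) (c1.sub k)
  near k x hx hn := by
    rw [mem_union, not_or] at hn
    filter_upwards [c1.near k x hx hn.2, c2.near k x hx hn.1] with y g1 g2
    show ψ₁ (ψ₂ y) = y
    rw [g2, g1]
  mem k x hx := by
    by_cases hx2 : x ∈ C₂ k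
    · obtain ⟨t, ht, D, Γ, g⟩ := c2.mem k x hx2
      exact ⟨t, h1 ht, D, Γ, g⟩
    · have hx1 : x ∈ C₁ k := hx.resolve_left hx2
      have e : ψ₂ x = x := (c2.near k x (c1.sub k hx1).1 hx2).self_of_nhds
      obtain ⟨t, ht, D, Γ, g1, g2, g3⟩ := c1.mem k x hx1
      refine ⟨t, ht, D, Γ, g1, g2, ?_⟩
      show h (ψ₁ (ψ₂ x)) ∈ D
      rw [e]; exact g3
  emp k hk := by
    have e1 := c1.emp k hk
    have e2 : C₂ k = ∅ := c2.emp k fun x hx hc => hk x hx (h1 (by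
      have e : ψ₁ x = x := (c1.near k x hx (by rw [e1]; exact notMem_empty x)).self_of_nhds
      change u (h (ψ₁ x)) ∈ I₁ at hc
      rwa [e] at hc))
    show C₂ k ∪ C₁ k = ∅
    rw [e1, e2, empty_union]
  lev k x hx hxI := by
    have g2 := c2.lev k x hx hxI
    have e : ψ₂ x = x := (c2.near k x hx g2).self_of_nhds
    have g1 : x ∉ C₁ k := c1.lev k x hx (h2 (by
      change u (h (ψ₁ (ψ₂ x))) ∈ I₂ at hxI
      rwa [e] at hxI))
    exact fun hc => hc.elim g2 g1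
  comps k t ht x hx hxt := by
    have g2 := c2.comps k t ht x hx hxt
    have hn := c2.lev k x hx (by
      show u (h (ψ₁ (ψ₂ x))) ∈ I₂
      have : u (h (ψ₁ (ψ₂ x))) = t := hxt
      rw [this]; exact ht)
    have e : ψ₂ x = x := (c2.near k x hx hn).self_of_nhds
    have g1 := c1.comps k t (h2 ht) x hx (by
      have : u (h (ψ₁ (ψ₂ x))) = t := hxt
      rwa [e] at this)
    exact g2.trans g1
  old k t ht Γ K' hK' hΓ := by
    rcases c1.old k t (h2 ht) Γ K' hK' hΓ with g | g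
    · rcases c2.old k t ht Γ K' hK' g with g' | g'
      · exact Or.inl g'
      · exact Or.inr (g'.trans subset_union_left)
    · exact Or.inr (g.trans subset_union_right)



end Main

end Crest.Agent.R096.Srg_465
namespace Crest.Agent.R096.Srg_465.St
end Crest.Agent.R096.Srg_465.St
end

-- ▼ part R096/Pst0_465

/-!
# Row 96, p = 2: boxes with patches, the step as a literal Prop (helper465, for 753 #10029 L2/L5/L6)

* `PBox T La`: a `UBox` with finitely many patches `c m ⊆ c' m` and an upper level `t1 ≥ b`.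
* `Own x`: a 2-cell in the list `N` without crossing edge with its rim inside.
* `Sig h θ`: every circle at a level in `(a,b)` of an own face whose disc reaches the level `θ` has
  its `h`-image in one `c m`.
* `Step2 T La`: the surgery for one box.
-/

set_option autoImplicit false
set_option linter.unusedSectionVars false

open Set Metric Filter Topology

namespace Crest.Agent.R096.Pst_465

open Msh_715 (Tiling)
open Ce_537 Srg_465 Sk2_855 Ub_113

variable {E : Type*} [NormedAddCommGroup E] [NormedSpace ℝ E] {Om La : Set E} {ι : Type*}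

/-- a box with patches -/
structure PBox (T : Tiling Om ι) (La : Set E) extends UBox T La where
  n : ℕ
  c : Fin n → Set E
  c' : Fin n → Set E
  cl : ∀ m, IsClosed (c' m)
  t1 : ℝ
  bt : b ≤ t1
  sep : ∀ t ∈ Ioo a b, ∀ m, ∃ S, IsPreconnected S ∧ S ⊆ {y | u y = t} \ c m ∧
    {y | u y = t} \ c' m ⊆ S
  far : ∀ t ∈ Ioo a b, ∀ m, ∃ k, ∃ y ∈ M k, u y = t ∧ y ∉ c' m
  N : Set E

namespace PBox

variable {T : Tiling Om ι} (B : PBox T La)

/-- the patch part of the shell -/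
def pat : Set E := B.shell ∩ ⋃ m, B.c' m

/-- the own faces -/
def Own (h : E → E) (x : E) : Prop :=
  x ∈ B.N ∧ x ∈ Om ∧ T.dim x = 2 ∧ B.NC x ∧ ∀ z ∈ T.cc x, z ∈ sk1 T → B.u (h z) < B.a

/-- the significant circles are in the patches -/
def Sig (h : E → E) (θ : ℝ) : Prop :=
  ∀ x, B.Own h x → ∀ t ∈ Ioo B.a B.b, ∀ Γ K : Set E,
    Circ (T.cc x) (T.cc x ∩ sk1 T) (fun z => B.u (h z)) t Γ →
    DiscIn (T.cc x) (T.cc x ∩ sk1 T) K Γ → (∃ z ∈ K, θ ≤ B.u (h z)) →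
    ∃ m, h '' Γ ⊆ B.c m

end PBox

/-- **the step for p = 2** (one box) -/
def Step2 (T : Tiling Om ι) (La : Set E) : Prop :=
  ∀ (B : PBox T La) (h hi : E → E), HP Om La h hi → B.Ok h → B.Sig h B.t1 →
    ∃ ψ : E ≃ₜ E, Mv T ψ ∧
      (∀ x ∈ Om, T.dim x = 2 → ∀ z ∈ T.cc x, (∀ᶠ y in 𝓝 z, ψ y = y) ∨ h (ψ z) ∈ B.pat) ∧
      (∀ x ∈ Om, T.dim x = 2 → Disjoint (h '' T.cc x) B.shell →
        ∀ z ∈ T.cc x, ∀ᶠ y in 𝓝 z, ψ y = y) ∧
      (∀ x, B.Own h x → ∀ z ∈ T.cc x, B.u (h (ψ z)) < B.t1)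

end Crest.Agent.R096.Pst_465
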