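import Mathlib
import Crest.Agent.R096.Pst0_465

-- ▼ part R096/P2l1_565
section

/-!
# Row 96 (S0127), p = 2: leaf [L7] P2-LEVELS (helper565): levels and patches, one box after the
other, from `f` alone

For every box `i` there are: a gauge `u i` (`L i`-Lipschitz), a window `(t0 i, tm i)` of levels and
a family of faces `k : K i`.  Outside a small set of levels every face has its small balls
(*patches*), of total radius at most `σ i k`, with a property `G i k ts y ρ η`, antitone in `η`.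
The levels can be chosen such that every level `ts i` stays away from the values of `u i` on the
enlarged patches of all earlier neighbours of `i`.
-/

set_option autoImplicit false

open Set Metric MeasureTheory

namespace Crest.Agent.R096.P2l_565

/-- a finite family of balls with a level and a tolerance -/
structure Dat (Y : Type*) (K : Type*) where
  ts : ℝ
  n : K → ℕ
  y : ∀ k, Fin (n k) → Y
  ρ : ∀ k, Fin (n k) → ℝ
  η : ℝ

instance {Y K : Type*} : Nonempty (Dat Y K) :=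
  ⟨⟨0, fun _ => 0, fun _ => Fin.elim0, fun _ => Fin.elim0, 0⟩⟩

variable {Y : Type*} [PseudoMetricSpace Y]

/-- one step: a level outside finitely many intervals and a small set -/
theorem exists_level {Bad : Set ℝ} {θ : ℝ} (hθ : 0 ≤ θ) (hBad : volume Bad ≤ ENNReal.ofReal θ)
    {t0 tm : ℝ} {A : Type*} (s : Finset A) (c r : A → ℝ) (hr : ∀ a ∈ s, 0 ≤ r a)
    (h : θ + ∑ a ∈ s, 2 * r a < tm - t0) :
    ∃ ts ∈ Ioo t0 tm, ts ∉ Bad ∧ ∀ a ∈ s, r a < |ts - c a| := by
  by_contra hno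
  push Not at hno
  have h1 : Ioo t0 tm ⊆ Bad ∪ ⋃ a ∈ s, Icc (c a - r a) (c a + r a) := by
    intro ts hts
    by_cases hB : ts ∈ Bad
    · exact Or.inl hB
    · obtain ⟨a, ha, hle⟩ := hno ts hts hB
      refine Or.inr (mem_iUnion₂.2 ⟨a, ha, ?_⟩)
      have := abs_le.1 hle
      exact ⟨by linarith [this.1], by linarith [this.2]⟩
  have h2 : volume (Ioo t0 tm) ≤ ENNReal.ofReal (θ + ∑ a ∈ s, 2 * r a) := by
    refine (measure_mono h1).trans ((measure_union_le _ _).trans ?_)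
    rw [ENNReal.ofReal_add hθ (Finset.sum_nonneg fun a ha => by linarith [hr a ha])]
    refine add_le_add hBad ((measure_biUnion_finset_le _ _).trans ?_)
    rw [ENNReal.ofReal_sum_of_nonneg fun a ha => by linarith [hr a ha]]
    refine Finset.sum_le_sum fun a _ => ?_
    rw [Real.volume_Icc]
    exact ENNReal.ofReal_le_ofReal (by linarith)
  rw [Real.volume_Ioo] at h2
  have h0 : 0 ≤ θ + ∑ a ∈ s, 2 * r a :=
    add_nonneg hθ (Finset.sum_nonneg fun a ha => by linarith [hr a ha])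
  have h3 := (ENNReal.ofReal_le_ofReal_iff h0).1 h2
  linarith

section Main

variable {J : Type*} [Finite J] {K : J → Type*} [∀ i, Fintype (K i)]

/-- the enlarged patches of the box `i` -/
def pat (C : ℝ) {K : Type*} (D : Dat Y K) : Set Y :=
  ⋃ k, ⋃ m, closedBall (D.y k m) (C * D.ρ k m)



end Main

end Crest.Agent.R096.P2l_565
end

-- ▼ part R096/P2l2_565
section

/-!
# Row 96 (S0127), p = 2: leaf [L7] P2-LEVELS (helper565), the form of `small_circles_pre` (753)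
-/

set_option autoImplicit false

open Set Metric MeasureTheory

namespace Crest.Agent.R096.P2l_565

variable {X : Type*} [NormedAddCommGroup X] [NormedSpace ℝ X] {Y : Type*} [PseudoMetricSpace Y]

/-- the conclusion of `small_circles_pre` (753 #10029) at the level `ts` with tolerance `η`: every
significant curve `Γ` of a map `h` near `f`, at a level `t` near `ts`, is mapped into one ball -/
def Cov (F : Set X) (f : X → Y) (u : Y → ℝ) (t1 ts : ℝ) (n : ℕ) (y : Fin n → Y) (ρ : Fin n → ℝ)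
    (η : ℝ) : Prop :=
  ∀ t, |t - ts| ≤ η → ∀ h : X → Y, (∀ x ∈ F, dist (h x) (f x) ≤ η) →
    ∀ K Γ : Set X, Γ ⊆ F → IsPreconnected Γ → (∀ x ∈ Γ, u (h x) = t) →
      (∃ x ∈ K ∩ F, t1 ≤ u (h x) ∧ ∃ p ∈ F, ∃ q ∈ F, p ∉ K ∧ q ∉ K ∧ x ∈ segment ℝ p q) →
      (∀ S ⊆ F, IsPreconnected S → (S ∩ K).Nonempty → ¬ S ⊆ K → (S ∩ Γ).Nonempty) →
      ∃ m, h '' Γ ⊆ closedBall (y m) (ρ m)

theorem Cov.mono {F : Set X} {f : X → Y} {u : Y → ℝ} {t1 ts : ℝ} {n : ℕ} {y : Fin n → Y}
    {ρ : Fin n → ℝ} {η η' : ℝ} (hη : η' ≤ η) (H : Cov F f u t1 ts n y ρ η) :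
    Cov F f u t1 ts n y ρ η' :=
  fun t ht h hh => H t (ht.trans hη) h fun x hx => (hh x hx).trans hη

/-- continuous `h` only (968's original hypothesis) -/
def CovC (F : Set X) (f : X → Y) (u : Y → ℝ) (t1 ts : ℝ) (n : ℕ) (y : Fin n → Y) (ρ : Fin n → ℝ)
    (η : ℝ) : Prop :=
  ∀ t, |t - ts| ≤ η → ∀ h : X → Y, ContinuousOn h F → (∀ x ∈ F, dist (h x) (f x) ≤ η) →
    ∀ K Γ : Set X, Γ ⊆ F → IsPreconnected Γ → (∀ x ∈ Γ, u (h x) = t) →
      (∃ x ∈ K ∩ F, t1 ≤ u (h x) ∧ ∃ p ∈ F, ∃ q ∈ F, p ∉ K ∧ q ∉ K ∧ x ∈ segment ℝ p q) →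
      (∀ S ⊆ F, IsPreconnected S → (S ∩ K).Nonempty → ¬ S ⊆ K → (S ∩ Γ).Nonempty) →
      ∃ m, h '' Γ ⊆ closedBall (y m) (ρ m)

theorem CovC.mono {F : Set X} {f : X → Y} {u : Y → ℝ} {t1 ts : ℝ} {n : ℕ} {y : Fin n → Y}
    {ρ : Fin n → ℝ} {η η' : ℝ} (hη : η' ≤ η) (H : CovC F f u t1 ts n y ρ η) :
    CovC F f u t1 ts n y ρ η' :=
  fun t ht h hc hh => H t (ht.trans hη) h hc fun x hx => (hh x hx).trans hη

section Main

variable {J : Type*} [Finite J] {K : J → Type*} [∀ i, Fintype (K i)]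




end Main

end Crest.Agent.R096.P2l_565
end

-- ▼ part R096/P2l3_565
section

/-!
# Row 96 (S0127), p = 2: leaf [L7] P2-LEVELS (helper565), part 3: the general selection
-/

set_option autoImplicit false

open Set Metric MeasureTheory

namespace Crest.Agent.R096.P2l_565

variable {Y : Type*} [PseudoMetricSpace Y]

section Main

variable {J : Type*} [Finite J] {K : J → Type*} [∀ i, Fintype (K i)]

/-- **P2-LEVELS** (general form): good sets `G0`, finitely many excluded levels `R` for every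
earlier choice, patches with their own factor `C j`. -/
theorem levels2 (rk : J → ℕ) (nb : J → Finset J) (hnb : ∀ i, ∀ j ∈ nb i, rk j < rk i)
    (u : J → Y → ℝ) (L : J → ℝ) (hL : ∀ i, 0 ≤ L i)
    (hu : ∀ i y z, |u i y - u i z| ≤ L i * dist y z)
    (t0 tm : J → ℝ) (θ0 : J → ℝ) (hθ0 : ∀ i, 0 ≤ θ0 i)
    (θ σ : ∀ i, K i → ℝ) (hθ : ∀ i k, 0 ≤ θ i k) {C : J → ℝ} (hC : ∀ i, 0 ≤ C i)
    (hsum : ∀ i, θ0 i + ∑ k, θ i k + ∑ j ∈ nb i, ∑ k, 2 * (L i * C j * σ j k) < tm i - t0 i)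
    (G0 : J → Set ℝ) (hG0 : ∀ i, volume (Ioo (t0 i) (tm i) \ G0 i) ≤ ENNReal.ofReal (θ0 i))
    (R : J → J → ℝ → ℝ → Prop)
    (hfin : ∀ i j, rk j < rk i → ∀ s ∈ G0 j, {s' | R j i s s'}.Finite)
    (G : ∀ i, K i → ℝ → ∀ n : ℕ, (Fin n → Y) → (Fin n → ℝ) → ℝ → Prop)
    (hGm : ∀ i k ts n y ρ η η', η' ≤ η → 0 < η' → G i k ts n y ρ η → G i k ts n y ρ η')
    (hG : ∀ i k, ∃ Bad : Set ℝ, MeasurableSet Bad ∧ volume Bad ≤ ENNReal.ofReal (θ i k) ∧
      ∀ ts ∈ Ioo (t0 i) (tm i), ts ∉ Bad → ∃ (n : ℕ) (y : Fin n → Y) (ρ : Fin n → ℝ),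
        (∀ m, 0 < ρ m) ∧ ∑ m, ρ m ≤ σ i k ∧ ∃ η > 0, G i k ts n y ρ η) :
    ∃ D : ∀ i, Dat Y (K i), ∃ η > 0,
      (∀ i, t0 i < (D i).ts - η ∧ (D i).ts + η < tm i) ∧
      (∀ i k m, 0 < (D i).ρ k m) ∧ (∀ i k, ∑ m, (D i).ρ k m ≤ σ i k) ∧
      (∀ i k, G i k (D i).ts ((D i).n k) ((D i).y k) ((D i).ρ k) η) ∧
      (∀ i, ∀ j ∈ nb i, ∀ z ∈ pat (C j) (D j), η < |u i z - (D i).ts|) ∧
      (∀ i, (D i).ts ∈ G0 i) ∧
      (∀ i j, rk j < rk i → ¬ R j i (D j).ts (D i).ts) := by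
  classical
  cases nonempty_fintype J
  -- the bad levels of a box
  choose Bad hBm hBv hBG using hG
  let Q : ∀ i, Dat Y (K i) → (∀ j, Dat Y (K j)) → Prop := fun i d D =>
      (0 < d.η ∧ t0 i < d.ts - d.η ∧ d.ts + d.η < tm i) ∧
      (∀ k m, 0 < d.ρ k m) ∧ (∀ k, ∑ m, d.ρ k m ≤ σ i k) ∧
      (∀ k, G i k d.ts (d.n k) (d.y k) (d.ρ k) d.η) ∧
      (∀ j ∈ nb i, ∀ z ∈ pat (C j) (D j), d.η < |u i z - d.ts|) ∧ d.ts ∈ G0 i ∧
      (∀ j, rk j < rk i → ¬ R j i (D j).ts d.ts)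
  have key : ∀ N : ℕ, ∃ D : ∀ i, Dat Y (K i), ∀ i, rk i < N → Q i (D i) D := by
    intro N
    induction N with
    | zero =>
      exact ⟨fun i => ⟨0, fun _ => 0, fun _ => Fin.elim0, fun _ => Fin.elim0, 0⟩,
        fun i h => absurd h (Nat.not_lt_zero _)⟩
    | succ N ih =>
      obtain ⟨D, hD⟩ := ih
      -- the new data of the boxes of rank `N`
      have step : ∀ i, rk i = N → ∃ D' : Dat Y (K i), Q i D' D := by
        intro i hi
        have hpos : ∀ j ∈ nb i, ∀ k m, 0 < (D j).ρ k m := fun j hj =>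
          (hD j (by rw [← hi]; exact hnb i j hj)).2.1
        have hσ : ∀ j ∈ nb i, ∀ k, ∑ m, (D j).ρ k m ≤ σ j k := fun j hj =>
          (hD j (by rw [← hi]; exact hnb i j hj)).2.2.1
        -- the forbidden intervals
        let s : Finset (Σ j : J, Σ k : K j, Fin ((D j).n k)) :=
          (nb i).sigma fun j => Finset.univ
        let Ex : Set ℝ := ⋃ j ∈ {j | rk j < rk i}, {s' | R j i (D j).ts s'}
        have hEx : volume Ex = 0 := by
          refine (Set.Finite.biUnion (Set.toFinite _) fun j hj => ?_).measure_zero _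
          exact hfin i j hj _ (hD j (by rw [← hi]; exact hj)).2.2.2.2.2.1
        obtain ⟨ts, hts, hB, hav⟩ := exists_level
          (Bad := (Ioo (t0 i) (tm i) \ G0 i) ∪ (⋃ k, Bad i k) ∪ Ex)
          (θ := θ0 i + ∑ k, θ i k) (add_nonneg (hθ0 i) (Finset.sum_nonneg fun k _ => hθ i k))
          (by
            refine (measure_union_le _ _).trans ?_
            rw [hEx, add_zero]
            refine (measure_union_le _ _).trans ?_
            rw [ENNReal.ofReal_add (hθ0 i) (Finset.sum_nonneg fun k _ => hθ i k)]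
            refine add_le_add (hG0 i) ((measure_iUnion_le _).trans ?_)
            rw [tsum_fintype, ENNReal.ofReal_sum_of_nonneg fun k _ => hθ i k]
            exact Finset.sum_le_sum fun k _ => hBv i k)
          (t0 := t0 i) (tm := tm i) s
          (fun a => u i ((D a.1).y a.2.1 a.2.2)) (fun a => L i * C a.1 * (D a.1).ρ a.2.1 a.2.2)
          (by
            intro a ha
            exact mul_nonneg (mul_nonneg (hL i) (hC _))
              (hpos a.1 (Finset.mem_sigma.1 ha).1 _ _).le)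
          (by
            refine lt_of_le_of_lt ?_ (hsum i)
            refine add_le_add le_rfl ?_
            simp only [s]
            rw [Finset.sum_sigma]
            refine Finset.sum_le_sum fun j hj => ?_
            rw [← Finset.univ_sigma_univ, Finset.sum_sigma]
            refine Finset.sum_le_sum fun k _ => ?_
            simp only
            rw [← Finset.mul_sum, ← Finset.mul_sum]
            have := mul_le_mul_of_nonneg_left (hσ j hj k) (mul_nonneg (hL i) (hC j))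
            linarith)
        have hB' : ∀ k, ts ∉ Bad i k := fun k hk =>
          hB (Or.inl (Or.inr (mem_iUnion.2 ⟨k, hk⟩)))
        have hB0 : ts ∈ G0 i := by
          by_contra hn
          exact hB (Or.inl (Or.inl ⟨hts, hn⟩))
        have hBR : ∀ j, rk j < rk i → ¬ R j i (D j).ts ts := fun j hj h =>
          hB (Or.inr (mem_iUnion₂.2 ⟨j, hj, h⟩))
        choose n y ρ hρ hρs η1 hη1 hG1 using fun k => hBG i k ts hts (hB' k)
        -- the tolerance
        obtain ⟨η2, hη2, hη2'⟩ : ∃ η2 > 0, ∀ a ∈ s,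
            η2 < |ts - u i ((D a.1).y a.2.1 a.2.2)| - L i * C a.1 * (D a.1).ρ a.2.1 a.2.2 := by
          rcases s.eq_empty_or_nonempty with hs | hs
          · exact ⟨1, one_pos, fun a ha => by rw [hs] at ha; exact absurd ha (Finset.notMem_empty _)⟩
          · obtain ⟨a0, ha0, hmin⟩ := s.exists_min_image (fun a =>
              |ts - u i ((D a.1).y a.2.1 a.2.2)| - L i * C a.1 * (D a.1).ρ a.2.1 a.2.2) hs
            have h0 := hav a0 ha0
            refine ⟨(|ts - u i ((D a0.1).y a0.2.1 a0.2.2)| -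
              L i * C a0.1 * (D a0.1).ρ a0.2.1 a0.2.2) / 2, by linarith, fun a ha => ?_⟩
            have := hmin a ha
            linarith
        obtain ⟨η3, hη3, hη3'⟩ : ∃ η3 > 0, ∀ k, η3 ≤ η1 k := by
          rcases isEmpty_or_nonempty (K i) with hK | hK
          · exact ⟨1, one_pos, fun k => (hK.false k).elim⟩
          · obtain ⟨k0, hmin⟩ := Finite.exists_min η1
            exact ⟨η1 k0, hη1 k0, hmin⟩
        obtain ⟨η, hη, h1, h2, h3, h4⟩ : ∃ η > 0, η ≤ η2 ∧ η ≤ η3 ∧ η < ts - t0 i ∧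
            η < tm i - ts := by
          refine ⟨min (min η2 η3) (min ((ts - t0 i) / 2) ((tm i - ts) / 2)), ?_, ?_, ?_, ?_, ?_⟩
          · have := hts.1
            have := hts.2
            refine lt_min (lt_min hη2 hη3) (lt_min ?_ ?_) <;> linarith
          · exact (min_le_left _ _).trans (min_le_left _ _)
          · exact (min_le_left _ _).trans (min_le_right _ _)
          · refine lt_of_le_of_lt ((min_le_right _ _).trans (min_le_left _ _)) ?_
            have := hts.1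
            linarith
          · refine lt_of_le_of_lt ((min_le_right _ _).trans (min_le_right _ _)) ?_
            have := hts.2
            linarith
        refine ⟨⟨ts, n, y, ρ, η⟩, ⟨hη, by simp only; linarith, by simp only; linarith⟩, hρ, hρs,
          fun k => hGm i k ts _ _ _ _ _ (h2.trans (hη3' k)) hη (hG1 k), ?_,
          hB0, hBR⟩
        intro j hj z hz
        simp only [pat, mem_iUnion] at hz
        obtain ⟨k, m, hz⟩ := hz
        have e1 := hη2' ⟨j, k, m⟩ (by simp [s, hj])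
        simp only at e1
        have e2 := hu i z ((D j).y k m)
        have e3 : L i * dist z ((D j).y k m) ≤ L i * (C j * (D j).ρ k m) :=
          mul_le_mul_of_nonneg_left (mem_closedBall.1 hz) (hL i)
        have e4 : |ts - u i ((D j).y k m)| ≤ |u i z - ts| + |u i z - u i ((D j).y k m)| := by
          have : ts - u i ((D j).y k m) = -(u i z - ts) + (u i z - u i ((D j).y k m)) := by ring
          rw [this]
          refine (abs_add_le _ _).trans ?_
          rw [abs_neg]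
        simp only
        have e5 : L i * C j * (D j).ρ k m = L i * (C j * (D j).ρ k m) := by ring
        linarith
      choose! D' hD' using step
      refine ⟨fun i => if rk i = N then D' i else D i, ?_⟩
      intro i hi
      have hnb' : ∀ j, rk j < rk i → (if rk j = N then D' j else D j) = D j := by
        intro j hj
        rw [if_neg (by omega)]
      have hQ : ∀ d : Dat Y (K i), Q i d D →
          Q i d (fun i => if rk i = N then D' i else D i) := by
        rintro d ⟨a1, a2, a3, a4, a5, a6, a7⟩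
        refine ⟨a1, a2, a3, a4, fun j hj z hz => a5 j hj z ?_, a6, fun j hj hR => a7 j hj ?_⟩
        · have hz' : z ∈ pat (C j) (if rk j = N then D' j else D j) := hz
          rwa [hnb' j (hnb i j hj)] at hz'
        · have hR' : R j i (if rk j = N then D' j else D j).ts d.ts := hR
          rwa [hnb' j hj] at hR'
      by_cases hiN : rk i = N
      · show Q i (if rk i = N then D' i else D i) _
        rw [if_pos hiN]
        exact hQ _ (hD' i hiN)
      · show Q i (if rk i = N then D' i else D i) _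
        rw [if_neg hiN]
        exact hQ _ (hD i (by omega))
  obtain ⟨N, hN⟩ : ∃ N, ∀ i, rk i < N := by
    refine ⟨Finset.univ.sup rk + 1, fun i => ?_⟩
    have := Finset.le_sup (f := rk) (Finset.mem_univ i)
    omega
  obtain ⟨D, hD⟩ := key N
  obtain ⟨η, hη, hη'⟩ : ∃ η > 0, ∀ i, η ≤ (D i).η := by
    rcases isEmpty_or_nonempty J with hJ | hJ
    · exact ⟨1, one_pos, fun k => (hJ.false k).elim⟩
    · obtain ⟨k0, hmin⟩ := Finite.exists_min fun i => (D i).η
      exact ⟨(D k0).η, (hD k0 (hN k0)).1.1, hmin⟩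
  refine ⟨D, η, hη, fun i => ?_, fun i => (hD i (hN i)).2.1, fun i => (hD i (hN i)).2.2.1,
    fun i k => hGm i k _ _ _ _ _ _ (hη' i) hη ((hD i (hN i)).2.2.2.1 k), fun i j hj z hz => ?_,
    fun i => (hD i (hN i)).2.2.2.2.2.1, fun i j hj => (hD i (hN i)).2.2.2.2.2.2 j hj⟩
  · obtain ⟨a1, a2, a3⟩ := (hD i (hN i)).1
    have := hη' i
    exact ⟨by linarith, by linarith⟩
  · exact lt_of_le_of_lt (hη' i) ((hD i (hN i)).2.2.2.2.1 j hj z hz)

end Main

end Crest.Agent.R096.P2l_565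
end

-- ▼ part R096/P2l4_565

/-!
# Row 96 (S0127), p = 2: leaf [L7] P2-LEVELS (helper565), part 4: one tile

`One2 T La f F Y`: what is needed from one tile `F` with its convex body `Y` (p = 2).
`exists_pbox`: the box with patches of one tile at a chosen level.
-/

set_option autoImplicit false
set_option linter.unusedSectionVars false

open Set Metric MeasureTheory

namespace Crest.Agent.R096.P2l_565

open Msh_715 (Tiling)
open Ce_537 (IsBall)
open Sk2_855 (sk1 HP Mv)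
open Srg_465 (Circ DiscIn Ls)
open Ub_113 (UBox)
open Pst_465 (PBox)

variable {E : Type*} [NormedAddCommGroup E] [NormedSpace ℝ E] {Om La : Set E} {ι : Type*}

/-- **one tile, p = 2** -/
structure One2 (T : Tiling Om ι) (La : Set E) (f : E → E) (F Y : Set E) where
  /-- the gauge -/
  u : E → ℝ
  cont : Continuous u
  L : ℝ
  L0 : 0 ≤ L
  lip : ∀ y z, |u y - u z| ≤ L * dist y z
  /-- window `(t0, tm)`, threshold `th`, upper level `t1` -/
  t0 : ℝ
  tm : ℝ
  th : ℝ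
  t1 : ℝ
  mh : tm ≤ th
  ht : th ≤ t1
  sub1 : {y | u y ≤ t1} ⊆ Y
  /-- good levels -/
  G : Set ℝ
  θ0 : ℝ
  θ00 : 0 ≤ θ0
  bad0 : volume (Ioo t0 tm \ G) ≤ ENNReal.ofReal θ0
  fin : ∀ s ∈ G, {x | x ∈ sk1 T ∧ u (f x) = s}.Finite
  box : ∀ s ∈ G, s ∈ Ioo t0 tm → ∀ ζ > 0, ∃ (B : UBox T La) (η : ℝ), 0 < η ∧ B.u = u ∧
    s - ζ ≤ B.a ∧ B.a < s ∧ s < B.b ∧ B.b ≤ s + ζ ∧
    (∀ k, ∃ x ∈ sk1 T, u (f x) = s ∧ B.M k ⊆ closedBall (f x) ζ) ∧
    ∀ h : E → E, (∀ x ∈ Om, ‖h x - f x‖ ≤ η) → B.Ok h ∧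
      ∀ x ∈ Om, T.dim x = 2 → T.cc x ⊆ F → B.NC x ∧ ∀ z ∈ T.cc x, z ∈ sk1 T → u (h z) < B.a
  /-- small patches do not separate the levels (168 `patch_level`) -/
  C : ℝ
  C0 : 0 < C
  patch : ∀ t ∈ Ioo t0 tm, ∀ (y : E) (ρ : ℝ), 0 < ρ → ∃ S, IsPreconnected S ∧
    S ⊆ {z | u z = t} \ closedBall y ρ ∧ {z | u z = t} \ closedBall y (C * ρ) ⊆ S
  /-- the 2-cells of the tile, with 753's `small_circles_pre` -/
  Fs : Finset E
  rep : ∀ x ∈ Om, T.dim x = 2 → T.cc x ⊆ F → ∃ y ∈ Fs, T.cc y = T.cc x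
  θf : ℝ
  σf : ℝ
  θf0 : 0 ≤ θf
  σf0 : 0 ≤ σf
  sc : ∀ x ∈ Fs, ∃ Bad : Set ℝ, MeasurableSet Bad ∧ volume Bad ≤ ENNReal.ofReal θf ∧
    ∀ ts ∈ Ioo t0 tm, ts ∉ Bad → ∃ (n : ℕ) (y : Fin n → E) (ρ : Fin n → ℝ),
      (∀ m, 0 < ρ m) ∧ ∑ m, ρ m ≤ σf ∧ ∃ η > 0, Cov (T.cc x) f u th ts n y ρ η
  /-- two marks far from each other -/
  D0 : ℝ
  spread : ∀ s ∈ G, s ∈ Ioo t0 tm → ∃ x1 ∈ sk1 T, ∃ x2 ∈ sk1 T, u (f x1) = s ∧ u (f x2) = s ∧
    D0 ≤ dist (f x1) (f x2)
  hD0 : 2 * (C * (Fs.card * σf)) < D0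

variable [FiniteDimensional ℝ E]

/-- a point of a 2-cell off the 1-skeleton is between two points of the 1-skeleton -/
theorem exists_rim {T : Tiling Om ι} {x z : E} (hx : x ∈ Om) (hd : T.dim x = 2)
    (hz : z ∈ T.cc x) (hz1 : z ∉ sk1 T) :
    ∃ p ∈ T.cc x, ∃ q ∈ T.cc x, p ∈ sk1 T ∧ q ∈ sk1 T ∧ z ∈ segment ℝ p q := by
  have hzO : z ∈ Om := T.cc_sub_Om hx hz
  have hzd : T.dim z = 2 := by
    have h1 := T.dim_le hz
    have h2 : ¬ T.dim z ≤ 1 := fun h => hz1 ⟨hzO, h⟩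
    omega
  have hzo : z ∈ T.oc x := by
    by_contra hn
    have := T.dim_lt hz hn
    omega
  have hcc : T.cc z = T.cc x := T.cc_eq_of_mem_oc hx hzo
  have hne : T.V z ≠ ⊥ := fun h => by
    have := T.dim_eq_zero_iff.2 h
    omega
  obtain ⟨v, hv, hv0⟩ := (T.V z).ne_bot_iff.1 hne
  obtain ⟨t, ht, h1, h2, -⟩ := T.exists_exit hzO hv hv0
  obtain ⟨t', ht', h1', h2', -⟩ := T.exists_exit hzO (neg_mem hv) (neg_ne_zero.2 hv0)
  have hsk : ∀ w, w ∈ T.cc z → w ∉ T.oc z → w ∈ sk1 T := by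
    intro w hw hwo
    refine ⟨T.cc_sub_Om hzO hw, ?_⟩
    have := T.dim_lt hw hwo
    omega
  refine ⟨_, hcc ▸ h1, _, hcc ▸ h1', hsk _ h1 h2, hsk _ h1' h2', ?_⟩
  rw [segment_eq_image]
  have h0 : 0 < t + t' := add_pos ht ht'
  refine ⟨t / (t + t'), ⟨by positivity, (div_le_one h0).2 (by linarith)⟩, ?_⟩
  have e : (1 - t / (t + t')) * t - (t / (t + t')) * t' = 0 := by
    field_simp
    ring
  calc (1 - t / (t + t')) • (z + t • v) + (t / (t + t')) • (z + t' • -v)
      = z + ((1 - t / (t + t')) * t - (t / (t + t')) * t') • v := by module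
    _ = z := by rw [e, zero_smul, add_zero]

/-- `Sig` of one face from `Cov` -/
theorem sig_of_cov {T : Tiling Om ι} {f h : E → E} {u : E → ℝ} {θ ts η : ℝ} {n : ℕ}
    {y : Fin n → E} {ρ : Fin n → ℝ} {x : E} (hx : x ∈ Om) (hd : T.dim x = 2)
    (hcov : Cov (T.cc x) f u θ ts n y ρ η) (hh : ∀ z ∈ Om, ‖h z - f z‖ ≤ η) {t : ℝ}
    (ht : |t - ts| ≤ η) {Γ K : Set E}
    (hΓ : Circ (T.cc x) (T.cc x ∩ sk1 T) (fun z => u (h z)) t Γ)
    (hK : DiscIn (T.cc x) (T.cc x ∩ sk1 T) K Γ) (hz : ∃ z ∈ K, θ ≤ u (h z)) :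
    ∃ m, h '' Γ ⊆ closedBall (y m) (ρ m) := by
  obtain ⟨⟨x0, hx0, hx0t, rfl⟩, -⟩ := hΓ
  obtain ⟨hB, hKF, O, hO, hOF⟩ := hK
  obtain ⟨z, hzK, hzθ⟩ := hz
  have hsub : connectedComponentIn (Ls (T.cc x) (fun z => u (h z)) t) x0 ⊆
      Ls (T.cc x) (fun z => u (h z)) t := connectedComponentIn_subset _ _
  have hzF : z ∈ T.cc x := (hKF hzK).1
  have hz1 : z ∉ sk1 T := fun hc => (hKF hzK).2 ⟨hzF, hc⟩
  obtain ⟨p, hp, q, hq, hp1, hq1, hseg⟩ := exists_rim hx hd hzF hz1
  refine hcov t ht h (fun w hw => ?_) K _ (hsub.trans fun w hw => hw.1)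
    isPreconnected_connectedComponentIn (fun w hw => (hsub hw).2)
    ⟨z, ⟨hzK, hzF⟩, hzθ, p, hp, q, hq, fun hc => (hKF hc).2 ⟨hp, hp1⟩,
      fun hc => (hKF hc).2 ⟨hq, hq1⟩, hseg⟩ ?_
  · rw [dist_eq_norm]
    exact hh w (T.cc_sub_Om hx hw)
  · intro S hSF hS hSK hSK'
    by_contra hne
    rw [Set.not_nonempty_iff_eq_empty, ← Set.disjoint_iff_inter_eq_empty] at hne
    have hcl : IsClosed K := hB.isCompact.isClosed
    rcases Srg_465.comp_cases hcl hO hOF hS hSF hne with h1 | h1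
    · exact hSK' fun w hw => (h1 hw).1
    · obtain ⟨w, hwS, hwK⟩ := hSK
      exact (Set.disjoint_left.1 h1) hwS hwK

end Crest.Agent.R096.P2l_565
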