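import Crest.Agent.R096.Pst0_465
import Crest.Agent.R096.Gg2_113
import Crest.Agent.R096.Sk2b_855

/-!
# Row 96, p = 2: later boxes see the original map; the iteration (helper465)

* `transfer`: significance of circles for `h ∘ Ψ` from the one for `h` (753 #10029 (1), L5).
* `iterate2`, `iterate2_col`: many boxes with patches (L6).
-/

set_option autoImplicit false
set_option linter.unusedSectionVars false

open Set Metric Filter Topology

namespace Crest.Agent.R096.Pst_465

open Msh_715 (Tiling)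
open Ce_537 Srg_465 Sk2_855 Ub_113

variable {E : Type*} [NormedAddCommGroup E] [NormedSpace ℝ E] {Om La : Set E} {ι : Type*}

/-- every face point is not moved (locally) or its image is in `PP` -/
def Near (T : Tiling Om ι) (h : E → E) (Ψ : E ≃ₜ E) (PP : Set E) : Prop :=
  ∀ x ∈ Om, T.dim x = 2 → ∀ z ∈ T.cc x, (∀ᶠ y in 𝓝 z, Ψ y = y) ∨ h (Ψ z) ∈ PP

/-- the oscillation of `u` on the connected subsets of `PP` is at most `δ` -/
def Osc (u : E → ℝ) (PP : Set E) (δ : ℝ) : Prop :=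
  ∀ S ⊆ PP, IsPreconnected S → ∀ y ∈ S, ∀ y' ∈ S, u y - u y' ≤ δ

theorem Osc.mono {u : E → ℝ} {PP PP' : Set E} {δ : ℝ} (h : Osc u PP δ) (hs : PP' ⊆ PP) :
    Osc u PP' δ := fun S hS => h S (hS.trans hs)

theorem own_congr {T : Tiling Om ι} (B : PBox T La) {h : E → E} {Ψ : E ≃ₜ E} (hΨ : Mv T Ψ)
    {x : E} : B.Own (fun z => h (Ψ z)) x ↔ B.Own h x := by
  have e : ∀ z ∈ sk1 T, B.u (h (Ψ z)) = B.u (h z) := fun z hz => by rw [hΨ.eq_on_sk1 hz]
  constructor
  · rintro ⟨h0, h1, h2, h3, h4⟩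
    exact ⟨h0, h1, h2, h3, fun z hz hz1 => by rw [← e z hz1]; exact h4 z hz hz1⟩
  · rintro ⟨h0, h1, h2, h3, h4⟩
    exact ⟨h0, h1, h2, h3, fun z hz hz1 => by
      show B.u (h (Ψ z)) < B.a
      rw [e z hz1]; exact h4 z hz hz1⟩


/-! ### the iteration -/

/-- `B` comes before `B'` -/
def Rel {T : Tiling Om ι} (B B' : PBox T La) : Prop :=
  Disjoint B.pat B'.shell ∧ ∀ k, Disjoint B.pat (B'.M k)

/-- the body of the own faces after the step -/
def PBox.Y1 {T : Tiling Om ι} (B : PBox T La) : Set E := {y | B.u y < B.t1}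




end Crest.Agent.R096.Pst_465
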