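import Crest.Agent.R096.Gg3_113
import Crest.Agent.R096.Ub1_113
import Crest.Agent.R096.Srg5_465

-- ▼ part R096/Ub2_113
section

/-!
# 2SK, CLUSTER for a general gauge: the connecting set `X t` of a box

`X B h t` = the marks at the level `t` and the images of all the components of level sets of faces
which meet the rim.  It is preconnected, lies in the level `t`, and misses the faces without
crossing edges.
-/

set_option autoImplicit false
set_option linter.unusedSectionVars false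

open Set Metric Topology

namespace Crest.Agent.R096.Ub2_113

open Crest.Agent.R096.Msh_715 Crest.Agent.R096.Agl5_543 Crest.Agent.R096.Sk2_855
open Crest.Agent.R096.Gg2_113 Crest.Agent.R096.Gg3_113 Crest.Agent.R096.Ub_113

variable {E : Type} [NormedAddCommGroup E] [NormedSpace ℝ E] [FiniteDimensional ℝ E]
variable {Om La : Set E} {ι : Type} {T : Tiling Om ι}

/-- the level set of the closed cell of `x` -/
def LS (B : UBox T La) (h : E → E) (t : ℝ) (x : E) : Set E := {z | z ∈ T.cc x ∧ B.u (h z) = t}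

/-- the connecting set at the level `t` -/
def X (B : UBox T La) (h : E → E) (t : ℝ) : Set E :=
  (⋃ k, B.M k ∩ {y | B.u y = t}) ∪
  {y | ∃ x ∈ Om, T.dim x = 2 ∧ ∃ p ∈ LS B h t x, T.dim p ≤ 1 ∧
    y ∈ h '' connectedComponentIn (LS B h t x) p}

section

variable {B : UBox T La} {h : E → E} {t : ℝ}

/-- a rim point in the shell lies on a crossing edge -/
theorem rim_pt (hO : B.Ok h) (ht : t ∈ Icc B.a B.b) {p : E} (hp : p ∈ Om) (hd : T.dim p ≤ 1)
    (e : B.u (h p) = t) : ∃ k, p ∈ T.oc (B.e k) ∧ h p ∈ B.M k ∩ {y | B.u y = t} := by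
  obtain ⟨k, h1, h2⟩ := hO.edges p ⟨hp, hd⟩ ⟨by rw [e]; exact ht.1, by rw [e]; exact ht.2⟩
  exact ⟨k, h1, h2, e⟩

theorem eq_of_oc {k k' : B.K} {p : E} (h1 : p ∈ T.oc (B.e k)) (h2 : p ∈ T.oc (B.e k')) :
    k' = k := by
  apply B.einj
  rw [← T.oc_eq_of_mem (B.eOm k) h1, T.oc_eq_of_mem (B.eOm k') h2]
  exact T.self_mem_oc _

theorem e_mem_of_oc {k : B.K} {p x : E} (h1 : p ∈ T.oc (B.e k)) (hx : p ∈ T.cc x) :
    B.e k ∈ T.cc x := by
  apply T.cc_sub_of_mem hx
  rw [T.cc_eq_of_mem_oc (B.eOm k) h1]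
  exact T.self_mem_cc _

/-- (iii) the rim of a face without crossing edges has no point in the shell -/
theorem nc_rim (hO : B.Ok h) {x : E} (hx : x ∈ Om) (hn : B.NC x) {p : E}
    (hp : p ∈ T.cc x) (hd : T.dim p ≤ 1) : h p ∉ B.shell := by
  intro hs
  obtain ⟨k, h1, -⟩ := hO.edges p ⟨T.cc_sub_Om hx hp, hd⟩ hs
  exact hn k (e_mem_of_oc h1 hp)

theorem isClosed_LS (hc : ContinuousOn h Om) {x : E} (hx : x ∈ Om) : IsClosed (LS B h t x) := by
  have hu : ContinuousOn (fun z => B.u (h z)) (T.cc x) :=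
    B.cont.comp_continuousOn (hc.mono (T.cc_sub_Om hx))
  exact hu.preimage_isClosed_of_isClosed (T.isClosed_cc x) isClosed_singleton

/-- **the joining component in a face with two crossing edges** -/
theorem join (hO : B.Ok h) (hc : ContinuousOn h Om) (ht : t ∈ Icc B.a B.b) {x : E}
    (hx : x ∈ Om) (hd : T.dim x = 2) {k k' : B.K} (hkk : k ≠ k') (hk : B.e k ∈ T.cc x)
    (hk' : B.e k' ∈ T.cc x) :
    ∃ p ∈ LS B h t x, ∃ q ∈ LS B h t x, p ∈ T.oc (B.e k) ∧ q ∈ T.oc (B.e k') ∧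
      q ∈ connectedComponentIn (LS B h t x) p := by
  set F : C2 T := mk2 T hx hd with hF
  have hFs : F.set = T.cc x := rfl
  set u : E → ℝ := fun z => B.u (h z) with hu
  have huc : ContinuousOn u (T.cc x) :=
    B.cont.comp_continuousOn (hc.mono (T.cc_sub_Om hx))
  have hsub : T.cc (B.e k) ⊆ T.cc x := T.cc_sub_of_mem hk
  have hsub' : T.cc (B.e k') ⊆ T.cc x := T.cc_sub_of_mem hk'
  -- points of edges at the level `t` are in the open edges
  have hopen : ∀ k, ∀ p ∈ T.cc (B.e k), u p = t → p ∈ T.oc (B.e k) := by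
    intro k p hp hpt
    by_contra hn
    have h1 := T.dim_lt hp hn
    rw [B.edim k] at h1
    have hpO : p ∈ Om := T.cc_sub_Om (B.eOm k) hp
    obtain ⟨k'', h2, -⟩ := rim_pt hO ht hpO (by omega) hpt
    have h3 := T.dim_eq_of_mem_oc (B.eOm k'') h2
    rw [B.edim k''] at h3
    omega
  obtain ⟨v, hv, w, hw, dv, dw, lv, lw⟩ := hO.ends k
  have hbd : ∀ y ∈ T.cc (B.e k), T.dim y = 0 → y ∈ F.bd \ T.oc (B.e k) := by
    intro y hy hy0
    refine ⟨?_, fun hyo => ?_⟩
    · rw [F.mem_bd_iff (by rw [hFs]; exact hsub hy)]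
      omega
    · have := T.dim_eq_of_mem_oc (B.eOm k) hyo
      rw [B.edim k] at this
      omega
  have key := exists_join (F := T.cc x) (T.convex_cc x) (T.isCompact_cc hx) huc (t := t)
    (P := LS B h t (B.e k)) (P' := LS B h t (B.e k')) (C1 := F.bd \ T.oc (B.e k))
    (C2 := T.cc (B.e k)) (isClosed_LS hc (B.eOm k)) (isClosed_LS hc (B.eOm k'))
    (fun z hz => ⟨hsub hz.1, hz.2⟩) (fun z hz => ⟨hsub' hz.1, hz.2⟩)
    (rim_edge F (by rw [hFs]; exact hk) (B.edim k)) (T.convex_cc _).isPreconnected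
    (fun z hz => by rw [← hFs]; exact F.bd_sub hz.1) hsub ?_ (fun z hz e => ⟨hz, e⟩)
    (hbd v hv dv) hv (hbd w hw dw) hw (lv.trans_le ht.1) (ht.2.trans_lt lw)
  · obtain ⟨p, hp, q, hq, hc⟩ := key
    exact ⟨p, ⟨hsub hp.1, hp.2⟩, q, ⟨hsub' hq.1, hq.2⟩, hopen k p hp.1 hp.2,
      hopen k' q hq.1 hq.2, hc⟩
  · rintro z ⟨hzb, hzo⟩ hzt
    have hzF : z ∈ T.cc x := by rw [← hFs]; exact F.bd_sub hzb
    have hz1 : T.dim z ≤ 1 := (F.mem_bd_iff (F.bd_sub hzb)).1 hzb
    obtain ⟨k'', h1, h2⟩ := rim_pt hO ht (T.cc_sub_Om hx hzF) hz1 hzt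
    have h3 : B.e k'' ∈ T.cc x := e_mem_of_oc h1 hzF
    have hne : k'' ≠ k := by
      rintro rfl
      exact hzo h1
    obtain ⟨k1, k2, -, -, -, hall⟩ := B.two x hx hd ⟨k, hk⟩
    have e1 := hall k hk
    have e2 := hall k' hk'
    have e3 := hall k'' h3
    have e4 : k'' = k' := by
      rcases e1 with e1 | e1 <;> rcases e2 with e2 | e2 <;> rcases e3 with e3 | e3 <;>
        subst_vars <;> first | rfl | exact absurd rfl hkk | exact absurd rfl hne
    subst e4
    exact ⟨T.oc_sub_cc _ h1, hzt⟩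

/-- (i) -/
theorem X_sub (B : UBox T La) (h : E → E) (t : ℝ) : X B h t ⊆ {y | B.u y = t} := by
  rintro y (hy | ⟨x, hx, hd, p, hp, hp1, z, hz, rfl⟩)
  · obtain ⟨k, hk⟩ := mem_iUnion.1 hy
    exact hk.2
  · exact (connectedComponentIn_subset _ _ hz).2

/-- (ii) the components of level sets of faces which meet the rim are mapped into `X` -/
theorem comp_sub_X {x : E} (hx : x ∈ Om) (hd : T.dim x = 2) {p : E} (hp : p ∈ LS B h t x)
    (hp1 : T.dim p ≤ 1) : h '' connectedComponentIn (LS B h t x) p ⊆ X B h t :=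
  fun _ hy => Or.inr ⟨x, hx, hd, p, hp, hp1, hy⟩

theorem preconn_comp (hc : ContinuousOn h Om) {x : E} (hx : x ∈ Om) (p : E) :
    IsPreconnected (h '' connectedComponentIn (LS B h t x) p) := by
  refine isPreconnected_connectedComponentIn.image _ (hc.mono ?_)
  exact (connectedComponentIn_subset _ _).trans fun z hz => T.cc_sub_Om hx hz.1

theorem mark_sub_X (k : B.K) : B.M k ∩ {y | B.u y = t} ⊆ X B h t :=
  fun _ hy => Or.inl (mem_iUnion.2 ⟨k, hy⟩)

/-- (iv) `X t` is preconnected -/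
theorem X_preconn (hO : B.Ok h) (hc : ContinuousOn h Om) (ht : t ∈ Icc B.a B.b) :
    IsPreconnected (X B h t) := by
  -- every point of `X` is joined to a mark
  have hpt : ∀ y ∈ X B h t, ∃ k, ∃ S ⊆ X B h t, IsPreconnected S ∧ y ∈ S ∧
      B.M k ∩ {y | B.u y = t} ⊆ S := by
    rintro y (hy | ⟨x, hx, hd, p, hp, hp1, hy⟩)
    · obtain ⟨k, hk⟩ := mem_iUnion.1 hy
      exact ⟨k, _, mark_sub_X k, (B.Mlev k t ht).1, hk, Subset.rfl⟩
    · obtain ⟨k, -, hk⟩ := rim_pt hO ht (T.cc_sub_Om hx hp.1) hp1 hp.2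
      refine ⟨k, _, union_subset (comp_sub_X hx hd hp hp1) (mark_sub_X k), ?_, Or.inl hy,
        subset_union_right⟩
      exact IsPreconnected.union (h p) ⟨p, mem_connectedComponentIn hp, rfl⟩ hk
        (preconn_comp hc hx p) (B.Mlev k t ht).1
  -- two marks are joined
  have hmm : ∀ k k', ∃ S ⊆ X B h t, IsPreconnected S ∧ B.M k ∩ {y | B.u y = t} ⊆ S ∧
      B.M k' ∩ {y | B.u y = t} ⊆ S := by
    intro k k'
    have hch := B.conn k k'
    induction hch with
    | refl => exact ⟨_, mark_sub_X k, (B.Mlev k t ht).1, Subset.rfl, Subset.rfl⟩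
    | @tail k1 k2 _ hst ih =>
      obtain ⟨S, hS, hSp, hSk, hS1⟩ := ih
      by_cases he : k1 = k2
      · subst he
        exact ⟨S, hS, hSp, hSk, hS1⟩
      obtain ⟨x, hx, hd, h1, h2⟩ := hst
      obtain ⟨p, hp, q, hq, hpo, hqo, hpq⟩ := join hO hc ht hx hd he h1 h2
      have hp1 : T.dim p ≤ 1 := by rw [T.dim_eq_of_mem_oc (B.eOm _) hpo, B.edim]
      have hq1 : T.dim q ≤ 1 := by rw [T.dim_eq_of_mem_oc (B.eOm _) hqo, B.edim]
      obtain ⟨k3, a1, a2⟩ := rim_pt hO ht (T.cc_sub_Om hx hp.1) hp1 hp.2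
      obtain ⟨k4, b1, b2⟩ := rim_pt hO ht (T.cc_sub_Om hx hq.1) hq1 hq.2
      have e3 : k3 = k1 := eq_of_oc hpo a1
      have e4 : k4 = k2 := eq_of_oc hqo b1
      subst e3
      subst e4
      refine ⟨S ∪ (h '' connectedComponentIn (LS B h t x) p ∪
        B.M k4 ∩ {y | B.u y = t}), ?_, ?_, hSk.trans subset_union_left, ?_⟩
      · exact union_subset hS (union_subset (comp_sub_X hx hd hp hp1) (mark_sub_X _))
      · refine IsPreconnected.union (h p) (hS1 a2)
          (Or.inl ⟨p, mem_connectedComponentIn hp, rfl⟩) hSp ?_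
        exact IsPreconnected.union (h q) ⟨q, hpq, rfl⟩ b2 (preconn_comp hc hx p)
          (B.Mlev _ t ht).1
      · exact subset_union_right.trans subset_union_right
  refine isPreconnected_of_forall_pair fun y hy y' hy' => ?_
  obtain ⟨k, S, hS, hSp, hyS, hkS⟩ := hpt y hy
  obtain ⟨k', S', hS', hSp', hyS', hkS'⟩ := hpt y' hy'
  obtain ⟨R, hR, hRp, h1, h2⟩ := hmm k k'
  obtain ⟨m, hm⟩ := (B.Mlev k t ht).2
  obtain ⟨m', hm'⟩ := (B.Mlev k' t ht).2
  refine ⟨S ∪ (R ∪ S'), union_subset hS (union_subset hR hS'), Or.inl hyS, Or.inr (Or.inr hyS'),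
    ?_⟩
  exact IsPreconnected.union m (hkS hm) (Or.inl (h1 hm)) hSp
    (IsPreconnected.union m' (h2 hm') (hkS' hm') hRp hSp')

/-- (v) the faces without crossing edges miss `X t` -/
theorem nc_disj (hO : B.Ok h) (hi : InjOn h Om) (ht : t ∈ Icc B.a B.b) {x : E}
    (hx : x ∈ Om) (hd : T.dim x = 2) (hn : B.NC x) : Disjoint (h '' T.cc x) (X B h t) := by
  rw [disjoint_left]
  rintro _ ⟨z, hz, rfl⟩ (hy | ⟨x', hx', hd', p, hp, hp1, z', hz', e⟩)
  · obtain ⟨k, hk⟩ := mem_iUnion.1 hy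
    exact (disjoint_left.1 (hO.faces x hx hd hn k)) (mem_image_of_mem _ hz) hk.1
  · have hz'L := connectedComponentIn_subset _ _ hz'
    have hzz : z' = z := hi (T.cc_sub_Om hx' hz'L.1) (T.cc_sub_Om hx hz) e
    subst hzz
    have hzt : B.u (h z') = t := hz'L.2
    have hzO : z' ∈ Om := T.cc_sub_Om hx hz
    rcases le_or_gt (T.dim z') 1 with h1 | h1
    · exact nc_rim hO hx hn hz h1 ⟨by rw [hzt]; exact ht.1, by rw [hzt]; exact ht.2⟩
    · have o1 : z' ∈ T.oc x := by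
        by_contra hno
        have := T.dim_lt hz hno
        omega
      have o2 : z' ∈ T.oc x' := by
        by_contra hno
        have := T.dim_lt hz'L.1 hno
        omega
      have ecc : T.cc x' = T.cc x := by
        rw [← T.cc_eq_of_mem_oc hx o1, ← T.cc_eq_of_mem_oc hx' o2]
      have hpx : p ∈ T.cc x := by rw [← ecc]; exact hp.1
      exact nc_rim hO hx hn hpx hp1 ⟨by rw [hp.2]; exact ht.1, by rw [hp.2]; exact ht.2⟩

end

end Crest.Agent.R096.Ub2_113
end

-- ▼ part R096/Ub3_113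

/-!
# Row 96, 2SK: the surgery for one general box (helper113, after Srg5_465)
-/

set_option autoImplicit false
set_option linter.unusedSectionVars false

open Set Metric Topology Filter Module

namespace Crest.Agent.R096.Ub3_113

open Ce_537 Pl Cb_609 Msh_715
open Sk2_855 (HP sk1 Mv)
open Srg_465 Ub_113

section Surg

variable {E : Type} [NormedAddCommGroup E] [NormedSpace ℝ E] [FiniteDimensional ℝ E]
variable {Om La : Set E} {ι : Type} {T : Tiling Om ι}

/-- finitely many faces have a point with level in `[0, b]` -/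
theorem finite_faces (B : UBox T La) {h hi : E → E} (H : HP Om La h hi) :
    {k : Face T | ∃ x ∈ k.set, B.u (h x) ≤ B.b}.Finite := by
  have hK : IsCompact (hi '' {y | B.u y ≤ B.b}) :=
    B.cpt.image_of_continuousOn ((HP.inv H).contOn.mono B.sub)
  have hKO : hi '' {y | B.u y ≤ B.b} ⊆ Om := by
    rintro _ ⟨y, hy, rfl⟩
    exact H.mti (B.sub y hy)
  have h1 := T.finite_cells hK hKO
  have hinj : InjOn (fun k : Face T => k.set) {k : Face T | ∃ x ∈ k.set, B.u (h x) ≤ B.b} :=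
    fun k _ k' _ e => Face.ext e
  refine Set.Finite.of_finite_image (h1.subset ?_) hinj
  rintro _ ⟨k, ⟨x, hx, hxb⟩, rfl⟩
  obtain ⟨p, hp, hd, e⟩ := k.exists_pt
  have hxO : x ∈ Om := by rw [e] at hx; exact T.cc_sub_Om hp hx
  exact ⟨⟨p, hp, e⟩, x, hx, h x, hxb, H.li x hxO⟩

/-- **SURG**, for one box -/
theorem usurg (h3 : finrank ℝ E = 3) (hDM : DMove E) (hLev : LevStmt T) : USurg T La := by
  classical
  intro B h hi H hOk
  have M := mesh (T := T) h3 hDM
  set u : E → ℝ := fun y => B.u y with hu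
  have huc : Continuous u := B.cont
  let J : Finset (Face T) := (finite_faces B H).toFinset
  have hJ : ∀ k, k ∈ J ↔ ∃ x ∈ k.set, B.u (h x) ≤ B.b := by
    intro k; simp [J]
  -- the regular levels
  have hlev : ∀ k : Face T, ∃ bad : Set ℝ, bad.Finite ∧ ∀ I : Set ℝ, IsPreconnected I →
      Disjoint I bad →
      Lev k.set (k.set ∩ sk1 T) (fun x => u (h x)) I ∧
        ∃ n : ℕ, ∀ t ∈ I, {Γ | Circ k.set (k.set ∩ sk1 T) (fun x => u (h x)) t Γ}.ncard ≤ n := by
    intro k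
    obtain ⟨x, hx, hd, e⟩ := k.exists_pt
    rw [e]
    refine hLev x hx hd _ ?_
    have h1 : PLOn h (T.cc x) := LocPL.plOn H.pl (T.isCompact_cc hx) (T.cc_sub_Om hx)
    have h2 : PLOn u univ := B.pl
    exact h2.comp h1 fun _ _ => mem_univ _
  choose bad hbad hn' using hlev
  have hBf : (⋃ k ∈ (J : Set (Face T)), bad k).Finite :=
    J.finite_toSet.biUnion fun k _ => hbad k
  obtain ⟨a', b', ha', hab', hb', hdis⟩ : ∃ a' b', B.a ≤ a' ∧ a' < b' ∧ b' ≤ B.b ∧
      Disjoint (Ioo a' b') (⋃ k ∈ (J : Set (Face T)), bad k) := by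
    have hop : IsOpen (Ioo B.a B.b ∩ (⋃ k ∈ (J : Set (Face T)), bad k)ᶜ) :=
      isOpen_Ioo.inter hBf.isClosed.isOpen_compl
    have hne : (Ioo B.a B.b ∩ (⋃ k ∈ (J : Set (Face T)), bad k)ᶜ).Nonempty := by
      have h1 : (Ioo B.a B.b).Infinite := Ioo_infinite B.ab
      obtain ⟨t, ht, ht'⟩ := (h1.sdiff hBf).nonempty
      exact ⟨t, ht, ht'⟩
    obtain ⟨t, ht⟩ := hne
    obtain ⟨l, m, hlm, hsub⟩ := (mem_nhds_iff_exists_Ioo_subset).1 (hop.mem_nhds ht)
    have hlm' : l < m := hlm.1.trans hlm.2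
    have h1 : Icc l m ⊆ Icc B.a B.b := by
      rw [← closure_Ioo hlm'.ne, ← closure_Ioo B.ab.ne]
      exact closure_mono fun s hs => (hsub hs).1
    have h2 := h1 (left_mem_Icc.2 hlm'.le)
    have h4 := h1 (right_mem_Icc.2 hlm'.le)
    refine ⟨l, m, h2.1, hlm', h4.2, ?_⟩
    rw [disjoint_left]
    exact fun s hs => (hsub hs).2
  have hn2 : ∀ k : Face T, ∃ n : ℕ, k ∈ J →
      Lev k.set (k.set ∩ sk1 T) (fun x => u (h x)) (Ioo a' b') ∧
        ∀ t ∈ Ioo a' b', {Γ | Circ k.set (k.set ∩ sk1 T) (fun x => u (h x)) t Γ}.ncard ≤ n := by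
    intro k
    by_cases hk : k ∈ J
    · obtain ⟨h1, n, h2⟩ := hn' k (Ioo a' b') isPreconnected_Ioo (hdis.mono_right
        (subset_biUnion_of_mem (u := bad) (show k ∈ (J : Set (Face T)) from hk)))
      exact ⟨n, fun _ => ⟨h1, h2⟩⟩
    · exact ⟨0, fun hk' => absurd hk' hk⟩
  choose n hn using hn2
  have hI : Ioo a' b' ⊆ Icc B.a B.b := fun t ht => ⟨ha'.trans ht.1.le, ht.2.le.trans hb'⟩
  have L : Lvls La u (fun t => {y | B.u y ≤ t}) (fun t => {y | B.u y = t}) (Ioo a' b') :=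
    { cont := huc.continuousOn
      ball := fun t ht => B.ball t ⟨ha'.trans_lt ht.1, ht.2.trans_le hb'⟩
      sub := fun t ht y hy => B.sub y (by
        have : B.u y = t := hy
        rw [this]; exact (hI ht).2)
      eq := fun t ht y _ => Iff.rfl }
  let 𝒜 : ℝ → Set E → Prop := fun t D => Disjoint D (Ub2_113.X B h t)
  have hA : ∀ t D D', 𝒜 t D → D' ⊆ D → 𝒜 t D' := fun t D D' h1 h2 => h1.mono_left h2
  have s : St Om La (sk1 T) (fun k : Face T => k.set) J u 𝒜 (Ioo a' b') h hi :=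
    { hp := H
      lev := fun k hk => (hn k hk).1
      off := fun k hk x hx hxI => hk ((hJ k).2 ⟨x, hx, (hI hxI).2⟩)
      rim := by
        rintro k hk t ht x hx hxt ⟨p, hp1, hp2⟩ D hD hxD
        obtain ⟨q, hq, hd, e⟩ := k.exists_pt
        change x ∈ k.set at hx
        change u (h x) = t at hxt
        have hLS : Ls k.set (fun x => u (h x)) t = Ub2_113.LS B h t q := by
          rw [e]; rfl
        rw [hLS] at hp1
        have hpL := connectedComponentIn_subset _ _ hp1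
        have hsub := Ub2_113.comp_sub_X (B := B) (h := h) hq hd hpL hp2.2.2
        rw [← connectedComponentIn_eq hp1] at hsub
        have hxL : x ∈ Ub2_113.LS B h t q := ⟨by rw [← e]; exact hx, hxt⟩
        exact disjoint_left.1 hD hxD (hsub ⟨x, mem_connectedComponentIn hxL, rfl⟩) }
  have hsum : ∀ t ∈ Ioo a' b', (∑ k ∈ J, {Γ | Circ k.set (k.set ∩ sk1 T)
      (fun x => u (h x)) t Γ}.ncard) ≤ ∑ k ∈ J, n k := by
    intro t ht
    exact Finset.sum_le_sum fun k hk => (hn k hk).2 t ht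
  obtain ⟨ψ, hψ, c1, c2, a'', b'', ha'', hab'', hb'', e1, s1, g1⟩ :=
    surgery M hA _ a' b' hab' L h hi s hsum
  have hI2 : Ioo a'' b'' ⊆ Ioo a' b' := Ioo_subset_Ioo ha'' hb''
  have hMv : Mv T ψ := ⟨hψ.plh, hψ.supp⟩
  refine ⟨ψ, hMv, ?_, ?_, ?_⟩
  · rintro x hx hd _ ⟨_, ⟨z, hz, rfl⟩, rfl⟩
    rcases c1 (mkFace hx hd) z hz with h1 | ⟨t, ht, D, Γ, -, hS, hzD⟩
    · left
      rw [h1.self_of_nhds]
      exact ⟨z, hz, rfl⟩
    · right
      have h2 : B.u (h (ψ z)) = t := hS.sub hzD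
      show B.a ≤ B.u (h (ψ z)) ∧ B.u (h (ψ z)) ≤ B.b
      rw [h2]
      exact hI ht
  · intro x hx hd hdj
    have h1 := c2 (mkFace hx hd) (fun z hz hzI => disjoint_left.1 hdj ⟨z, hz, rfl⟩ (by
      show B.a ≤ B.u (h z) ∧ B.u (h z) ≤ B.b
      exact hI hzI))
    have h2 : ∀ z ∈ T.cc x, ψ z = z := fun z hz => (h1 z hz).self_of_nhds
    ext z
    constructor
    · rintro ⟨w, hw, rfl⟩; rw [h2 w hw]; exact hw
    · intro hz; exact ⟨z, hz, h2 z hz⟩
  · obtain ⟨t, ht⟩ := nonempty_Ioo.2 hab''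
    have htI := hI (hI2 ht)
    refine ⟨t, ⟨lt_of_le_of_lt (ha'.trans ha'') ht.1, lt_of_lt_of_le ht.2 (hb''.trans hb')⟩, ?_⟩
    intro x hx hd hNC z hz hzt
    set k : Face T := mkFace hx hd with hk
    have hks : k.set = T.cc x := rfl
    have hkJ : k ∈ J := by
      by_contra hkJ
      refine s1.off k hkJ z hz ?_
      show B.u (h (ψ z)) ∈ Ioo a'' b''
      rw [hzt]; exact ht
    have hid : ∀ w ∈ T.cc x, B.u (h (ψ w)) = t → ψ w = w := fun w hw hwt =>
      (e1 k w hw (by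
        show B.u (h (ψ w)) ∈ Ioo a'' b''
        rw [hwt]; exact ht)).self_of_nhds
    rcases (s1.lev k hkJ).comp t ht z hz hzt with h1 | h1
    · obtain ⟨p, hp1, hp2⟩ := h1
      have hpL := connectedComponentIn_subset _ _ hp1
      have hpc : p ∈ T.cc x := hpL.1
      have hpt : B.u (h (ψ p)) = t := hpL.2
      have h4 := hid p hpc hpt
      rw [h4] at hpt
      exact Ub2_113.nc_rim hOk hx hNC hpc hp2.2.2 ⟨by rw [hpt]; exact htI.1, by
        rw [hpt]; exact htI.2⟩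
    · set Γ := connectedComponentIn (Ls k.set (fun x => u (h (ψ x))) t) z with hΓ
      have hΓL : Γ ⊆ Ls k.set (fun x => u (h (ψ x))) t := connectedComponentIn_subset _ _
      obtain ⟨-, Fc, hB, hsub, -⟩ := id h1
      have hFO : Fc ⊆ Om := hsub.trans fun w hw => M.sub k hw.1
      have hc : Nonempty (PLEquiv (S1 ℝ) ((fun x => h (ψ x)) '' Γ)) :=
        circle_of_disc (HP.ball_image s1.hp hB hFO)
      have hcZ : (fun x => h (ψ x)) '' Γ ⊆ {y | B.u y = t} := by
        rintro _ ⟨w, hw, rfl⟩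
        exact (hΓL hw).2
      obtain ⟨A, A', h5, h6⟩ := sphere_sides (L.ball t (hI2 ht)) hc hcZ
      have hSA : Side {y | B.u y ≤ t} {y | B.u y = t} A ((fun x => h (ψ x)) '' Γ) :=
        ⟨A', h5, h6⟩
      have hSA' : Side {y | B.u y ≤ t} {y | B.u y = t} A' ((fun x => h (ψ x)) '' Γ) :=
        ⟨A, h5.symm, by rw [union_comm]; exact h6⟩
      have hXc : Disjoint (Ub2_113.X B h t) ((fun x => h (ψ x)) '' Γ) := by
        refine Disjoint.mono_right ?_ (Ub2_113.nc_disj hOk (HP.injOn H) htI hx hd hNC).symm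
        rintro _ ⟨w, hw, rfl⟩
        have hw1 := hΓL hw
        show h (ψ w) ∈ h '' T.cc x
        rw [hid w hw1.1 hw1.2]
        exact ⟨w, hw1.1, rfl⟩
      have hXp := Ub2_113.X_preconn hOk H.contOn htI
      have hXs := Ub2_113.X_sub B h t
      rcases split_of_union hSA.isBall.isClosed hSA'.isBall.isClosed h6 h5.inter hXp hXs hXc with
        h7 | h7
      · exact g1 t ht k hkJ Γ h1 A' hSA' h7.2.symm
      · exact g1 t ht k hkJ Γ h1 A hSA h7.2.symm

end Surg

end Crest.Agent.R096.Ub3_113
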