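import Crest.Agent.R096.Gg2_113
import Crest.Agent.R096.Gg3_113
import Crest.Agent.R096.Srg2_465
import Crest.Agent.R096.Sk2a_855
import Crest.Agent.R096.Pst1_465
import Crest.Agent.R096.Ub3_113

-- ▼ part R096/Dsc1_113
section

/-!
# Finitely many closed sets none of which separates two points of a convex set

* `not_sep`: two disjoint closed sets neither of which separates `v` from `w` in the convex set
  `F` do not separate them together.
* `not_sep_fin`: the same for finitely many pairwise disjoint closed sets.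
* `conn_compl`: a compact set in the plane all of whose maps to the circle lift does not separate
  the plane; `conn_disc`: the same inside the closed unit disc.
-/

set_option autoImplicit false

open Set Metric Topology Filter

namespace Crest.Agent.R096.Dsc_113

section sep

variable {E : Type*} [NormedAddCommGroup E] [NormedSpace ℝ E]

/-- `v` and `w` are joined in `A` -/
def Jn (A : Set E) (v w : E) : Prop := ∃ C : Set E, IsPreconnected C ∧ C ⊆ A ∧ v ∈ C ∧ w ∈ C

theorem not_sep {F : Set E} (hF : Convex ℝ F) {K1 K2 : Set E} (h1 : IsClosed K1)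
    (h2 : IsClosed K2) (hd : Disjoint K1 K2) {v w : E} (j1 : Jn (F \ K1) v w)
    (j2 : Jn (F \ K2) v w) : Jn (F \ (K1 ∪ K2)) v w := by
  classical
  obtain ⟨C1, p1, s1, v1, w1⟩ := j1
  obtain ⟨C2, p2, s2, v2, w2⟩ := j2
  set K := K1 ∪ K2 with hK
  have hKc : IsClosed K := h1.union h2
  have hvK : v ∈ F \ K := ⟨(s1 v1).1, fun h => h.elim (s1 v1).2 (s2 v2).2⟩
  have hwK : w ∈ F \ K := ⟨(s1 w1).1, fun h => h.elim (s1 w1).2 (s2 w2).2⟩
  rcases K.eq_empty_or_nonempty with he | hne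
  · exact ⟨F, hF.isPreconnected, by rw [he, sdiff_empty], hvK.1, hwK.1⟩
  set C := connectedComponentIn (F \ K) v with hC
  by_cases hw : w ∈ C
  · exact ⟨C, isPreconnected_connectedComponentIn, connectedComponentIn_subset _ _,
      mem_connectedComponentIn hvK, hw⟩
  exfalso
  -- small balls
  have hball : ∀ y ∈ F \ K, ∃ ε > 0, ∀ z ∈ F, dist z y < ε → (z ∈ C ↔ y ∈ C) := by
    intro y hy
    obtain ⟨ε, hε, hb⟩ := Metric.isOpen_iff.1 hKc.isOpen_compl y hy.2
    have hconv : IsPreconnected (F ∩ ball y ε) := (hF.inter (convex_ball y ε)).isPreconnected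
    have hsub : F ∩ ball y ε ⊆ F \ K := fun z hz => ⟨hz.1, hb hz.2⟩
    have hyb : y ∈ F ∩ ball y ε := ⟨hy.1, mem_ball_self hε⟩
    refine ⟨ε, hε, fun z hz hzy => ?_⟩
    have hzb : z ∈ F ∩ ball y ε := ⟨hz, hzy⟩
    constructor
    · intro hzC
      rw [hC, connectedComponentIn_eq (hC ▸ hzC)]
      exact hconv.subset_connectedComponentIn hzb hsub hyb
    · intro hyC
      rw [hC, connectedComponentIn_eq (hC ▸ hyC)]
      exact hconv.subset_connectedComponentIn hyb hsub hzb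
  set u : E → ℝ := fun x => if x ∈ C then -infDist x K else infDist x K with hu
  have habs : ∀ x, |u x| = infDist x K := by
    intro x
    simp only [hu]
    split_ifs
    · rw [abs_neg, abs_of_nonneg infDist_nonneg]
    · rw [abs_of_nonneg infDist_nonneg]
  have hcont : ContinuousOn u F := by
    intro x hx
    by_cases hxK : x ∈ K
    · have h0 : u x = 0 := by
        rw [← abs_eq_zero, habs, infDist_zero_of_mem hxK]
      rw [ContinuousWithinAt, h0]
      have h3 : Tendsto (fun y => infDist y K) (𝓝[F] x) (𝓝 0) := by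
        have := (continuous_infDist_pt K).continuousWithinAt (s := F) (x := x)
        rw [ContinuousWithinAt, infDist_zero_of_mem hxK] at this
        exact this
      exact squeeze_zero_norm (fun y => by rw [Real.norm_eq_abs, habs]) h3
    · obtain ⟨ε, hε, hb⟩ := hball x ⟨hx, hxK⟩
      have hev : ∀ᶠ z in 𝓝[F] x, z ∈ C ↔ x ∈ C := by
        filter_upwards [inter_mem_nhdsWithin F (ball_mem_nhds x hε)] with z hz
        exact hb z hz.1 hz.2
      by_cases hxC : x ∈ C
      · refine ((continuous_infDist_pt K).neg.continuousWithinAt).congr_of_eventuallyEq ?_ ?_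
        · filter_upwards [hev] with z hz
          simp [hu, hz.2 hxC]
        · simp [hu, hxC]
      · refine ((continuous_infDist_pt K).continuousWithinAt).congr_of_eventuallyEq ?_ ?_
        · filter_upwards [hev] with z hz
          have : z ∉ C := fun h => hxC (hz.1 h)
          simp [hu, this]
        · simp [hu, hxC]
  have hpos : ∀ y ∈ F \ K, 0 < infDist y K := fun y hy =>
    (hKc.notMem_iff_infDist_pos hne).1 hy.2
  refine Gg2_113.no_sep hF h1 h2 hd hcont (t := 0) ?_ p1 p2 (s1.trans sdiff_subset)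
    (s2.trans sdiff_subset) (disjoint_left.2 fun y hy => (s1 hy).2)
    (disjoint_left.2 fun y hy => (s2 hy).2) v1 v2 w1 w2 ?_ ?_
  · intro z hz h0
    by_contra hzK
    have := hpos z ⟨hz, hzK⟩
    rw [← habs, h0, abs_zero] at this
    exact lt_irrefl _ this
  · have : v ∈ C := mem_connectedComponentIn hvK
    simp only [hu, this, if_true]
    linarith [hpos v hvK]
  · simp only [hu, hw, if_false]
    exact hpos w hwK

theorem not_sep_fin {F : Set E} (hF : Convex ℝ F) {𝒦 : Set (Set E)} (hfin : 𝒦.Finite)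
    (hcl : ∀ K ∈ 𝒦, IsClosed K) (hd : 𝒦.PairwiseDisjoint id) {v w : E} (hv : v ∈ F) (hw : w ∈ F)
    (hj : ∀ K ∈ 𝒦, Jn (F \ K) v w) : Jn (F \ ⋃₀ 𝒦) v w := by
  induction 𝒦, hfin using Set.Finite.induction_on with
  | empty =>
    refine ⟨F, hF.isPreconnected, by simp, hv, hw⟩
  | @insert K 𝒦 hK hfin ih =>
    rw [sUnion_insert]
    refine not_sep hF (hcl K (mem_insert _ _)) ?_ ?_ (hj K (mem_insert _ _)) ?_
    · rw [sUnion_eq_biUnion]
      exact hfin.isClosed_biUnion fun L hL => hcl L (mem_insert_of_mem _ hL)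
    · rw [disjoint_sUnion_right]
      intro L hL
      refine hd (mem_insert _ _) (mem_insert_of_mem _ hL) ?_
      rintro rfl
      exact hK hL
    · exact ih (fun L hL => hcl L (mem_insert_of_mem _ hL))
        (hd.subset (subset_insert _ _)) (fun L hL => hj L (mem_insert_of_mem _ hL))

end sep

section plane

/-- the angle, in turns -/
noncomputable def ang (z : ℂ) : AddCircle (1 : ℝ) :=
  ((Complex.arg z * ((2 * Real.pi)⁻¹ * 1) : ℝ) : AddCircle (1 : ℝ))

theorem continuousAt_ang {z : ℂ} (hz : z ≠ 0) : ContinuousAt ang z := by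
  have h2 : (2 * Real.pi) ≠ 0 := by positivity
  have h' : ContinuousAt (fun y : ℂ => AddCircle.homeomorphAddCircle (2 * Real.pi) 1 h2 one_ne_zero
      ((Complex.arg y : ℝ) : AddCircle (2 * Real.pi))) z :=
    (AddCircle.homeomorphAddCircle (2 * Real.pi) 1 h2
      one_ne_zero).continuous.continuousAt.comp (Complex.continuousAt_arg_coe_angle hz)
  have e : ang = fun y : ℂ => AddCircle.homeomorphAddCircle (2 * Real.pi) 1 h2 one_ne_zero
      ((Complex.arg y : ℝ) : AddCircle (2 * Real.pi)) := by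
    funext y
    exact (AddCircle.homeomorphAddCircle_apply_mk (p := 2 * Real.pi) (q := 1) h2 one_ne_zero _).symm
  rw [e]
  exact h'

theorem ang_exp {r s : ℝ} (hr : 0 < r) :
    ang (r * Complex.exp ((2 * Real.pi * s : ℝ) * Complex.I)) = (s : AddCircle (1 : ℝ)) := by
  have hpi := Real.pi_pos
  have h := Complex.arg_mul_cos_add_sin_mul_I_coe_angle hr ((2 * Real.pi * s : ℝ) : Real.Angle)
  have e : ((r : ℂ) * (((((2 * Real.pi * s : ℝ) : Real.Angle)).cos : ℝ) +
      ((((2 * Real.pi * s : ℝ) : Real.Angle)).sin : ℝ) * Complex.I)) =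
      r * Complex.exp ((2 * Real.pi * s : ℝ) * Complex.I) := by
    rw [Real.Angle.cos_coe, Real.Angle.sin_coe, Complex.exp_mul_I]
    push_cast
    ring
  rw [e] at h
  rw [Real.Angle.angle_eq_iff_two_pi_dvd_sub] at h
  obtain ⟨k, hk⟩ := h
  unfold ang
  set a := Complex.arg (r * Complex.exp ((2 * Real.pi * s : ℝ) * Complex.I)) with ha
  have e2 : a * ((2 * Real.pi)⁻¹ * 1) = s + k := by
    have : a = 2 * Real.pi * s + 2 * Real.pi * k := by linarith
    rw [this]
    field_simp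
  rw [e2, AddCircle.coe_add]
  have : ((k : ℝ) : AddCircle (1 : ℝ)) = 0 := by
    rw [AddCircle.coe_eq_zero_iff]
    exact ⟨k, by simp⟩
  rw [this, add_zero]

/-- the angle has no lift on a circle -/
theorem no_ang_lift {r : ℝ} (hr : 0 < r) {θ : ℂ → ℝ} (hθ : ContinuousOn θ (sphere 0 r))
    (h : ∀ y ∈ sphere (0 : ℂ) r, ((θ y : ℝ) : AddCircle (1 : ℝ)) = ang y) : False := by
  have hm : ∀ s : ℝ, (r : ℂ) * Complex.exp ((2 * Real.pi * s : ℝ) * Complex.I) ∈
      sphere (0 : ℂ) r := by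
    intro s
    rw [mem_sphere_zero_iff_norm, norm_mul, Complex.norm_exp_ofReal_mul_I, mul_one]
    simp [abs_of_pos hr]
  have hc : Continuous fun s : ℝ => (r : ℂ) * Complex.exp ((2 * Real.pi * s : ℝ) * Complex.I) := by
    fun_prop
  have hc2 : ContinuousOn (fun s : ℝ =>
      θ ((r : ℂ) * Complex.exp ((2 * Real.pi * s : ℝ) * Complex.I)) - s) (Icc 0 1) :=
    (hθ.comp hc.continuousOn fun s _ => hm s).sub continuousOn_id
  have := Gg2_113.const_of_int (isPreconnected_Icc (a := (0 : ℝ)) (b := 1)) hc2 (fun s _ => by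
    rw [AddCircle.coe_sub, h _ (hm s), ang_exp hr, sub_self]) (left_mem_Icc.2 zero_le_one)
    (right_mem_Icc.2 zero_le_one)
  simp only [mul_zero, Complex.ofReal_zero, zero_mul, Complex.exp_zero, mul_one, sub_zero,
    Complex.ofReal_mul, Complex.ofReal_ofNat, Complex.exp_two_pi_mul_I] at this
  linarith

/-- a compact set in the open disc on which maps to the circle lift does not separate the disc -/
theorem conn_disc {K : Set ℂ} (hK : IsCompact K) (hKb : K ⊆ ball 0 1)
    (hl : ∀ g : ℂ → AddCircle (1 : ℝ), ContinuousOn g K →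
      ∃ θ : ℂ → ℝ, ContinuousOn θ K ∧ ∀ x ∈ K, ((θ x : ℝ) : AddCircle (1 : ℝ)) = g x) :
    IsPreconnected (closedBall (0 : ℂ) 1 \ K) := by
  classical
  set D := closedBall (0 : ℂ) 1 with hD
  have hsK : sphere (0 : ℂ) 1 ⊆ D \ K := by
    intro y hy
    refine ⟨sphere_subset_closedBall hy, fun h => ?_⟩
    have h1 := mem_ball_zero_iff.1 (hKb h)
    rw [mem_sphere_zero_iff_norm.1 hy] at h1
    exact lt_irrefl _ h1
  have hsp : IsPreconnected (sphere (0 : ℂ) 1) :=
    isPreconnected_sphere (by rw [Complex.rank_real_complex]; norm_num) 0 1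
  have h1s : (1 : ℂ) ∈ sphere (0 : ℂ) 1 := by simp
  -- every component meets the circle
  have key : ∀ z ∈ D \ K, (1 : ℂ) ∈ connectedComponentIn (D \ K) z := by
    intro z hz
    set A := connectedComponentIn (D \ K) z with hA
    have hzA : z ∈ A := mem_connectedComponentIn hz
    have hAD : A ⊆ D \ K := connectedComponentIn_subset _ _
    have hAp : IsPreconnected A := isPreconnected_connectedComponentIn
    by_cases hmeet : (sphere (0 : ℂ) 1 ∩ A).Nonempty
    · obtain ⟨y, hy1, hy2⟩ := hmeet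
      rw [hA, connectedComponentIn_eq (hA ▸ hy2)]
      exact hsp.subset_connectedComponentIn hy1 hsK h1s
    exfalso
    rw [not_nonempty_iff_eq_empty] at hmeet
    have hAb : A ⊆ ball 0 1 := by
      intro y hy
      have h1 := (hAD hy).1
      rw [hD, mem_closedBall_zero_iff] at h1
      rw [mem_ball_zero_iff]
      refine lt_of_le_of_ne h1 fun e => ?_
      have : y ∈ sphere (0 : ℂ) 1 ∩ A := ⟨mem_sphere_zero_iff_norm.2 e, hy⟩
      rw [hmeet] at this
      exact this
    have hAo : IsOpen A := by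
      rw [Metric.isOpen_iff]
      intro y hy
      have ho : IsOpen (ball (0 : ℂ) 1 \ K) := isOpen_ball.sdiff hK.isClosed
      obtain ⟨ε, hε, hb⟩ := Metric.isOpen_iff.1 ho y ⟨hAb hy, (hAD hy).2⟩
      refine ⟨ε, hε, ?_⟩
      rw [hA, connectedComponentIn_eq (hA ▸ hy)]
      exact (convex_ball y ε).isPreconnected.subset_connectedComponentIn (mem_ball_self hε)
        fun w hw => ⟨ball_subset_closedBall (hb hw).1, (hb hw).2⟩
    have hcl : closure A ⊆ A ∪ K := by
      intro y hy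
      by_cases hyK : y ∈ K
      · exact Or.inr hyK
      left
      have hyD : y ∈ D :=
        (isClosed_closedBall.closure_subset_iff.2 (hAD.trans sdiff_subset)) hy
      have hp : IsPreconnected (insert y A) :=
        hAp.subset_closure (subset_insert _ _) (insert_subset hy subset_closure)
      rw [hA]
      exact hp.subset_connectedComponentIn (mem_insert_of_mem _ hzA)
        (insert_subset (show y ∈ D \ K from ⟨hyD, hyK⟩) hAD) (mem_insert _ _)
    have hAK : IsClosed (A ∪ K) := by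
      rw [← closure_subset_iff_isClosed, closure_union, hK.isClosed.closure_eq]
      exact union_subset hcl subset_union_right
    -- the lift on `K`
    have hg0 : ContinuousOn (fun y => ang (y - z)) {z}ᶜ := by
      intro y hy
      have : y - z ≠ 0 := sub_ne_zero.2 hy
      have h2 : ContinuousAt (fun y => ang (y - z)) y :=
        ContinuousAt.comp (f := fun y : ℂ => y - z) (g := ang) (continuousAt_ang this)
          (by fun_prop)
      exact h2.continuousWithinAt
    have hKz : K ⊆ {z}ᶜ := fun y hy e => hz.2 (by rw [← mem_singleton_iff.1 e]; exact hy)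
    obtain ⟨θ0, hθ0, hθ0g⟩ := hl _ (hg0.mono hKz)
    obtain ⟨Θ, hΘ⟩ := ContinuousMap.exists_restrict_eq hK.isClosed
      (⟨K.domRestrict θ0, hθ0.domRestrict⟩ : C(K, ℝ))
    have hΘK : ∀ y ∈ K, Θ y = θ0 y := fun y hy => by
      have := congrArg (fun f : C(K, ℝ) => f ⟨y, hy⟩) hΘ
      exact this
    set G : ℂ → AddCircle (1 : ℝ) := fun y => if y ∈ A then ((Θ y : ℝ) : AddCircle (1 : ℝ))
      else ang (y - z) with hG
    have hG1 : ContinuousOn G (A ∪ K) := by
      refine ContinuousOn.congr (f := fun y => ((Θ y : ℝ) : AddCircle (1 : ℝ))) ?_ ?_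
      · exact ((AddCircle.continuous_mk' (1 : ℝ)).comp Θ.continuous).continuousOn
      · intro y hy
        by_cases hyA : y ∈ A
        · simp [hG, hyA]
        · have hyK : y ∈ K := hy.resolve_left hyA
          simp only [hG, hyA, if_false]
          rw [hΘK y hyK, hθ0g y hyK]
    have hG2 : ContinuousOn G Aᶜ := by
      have hs : Aᶜ ⊆ {z}ᶜ := fun y hy e => hy (by rw [mem_singleton_iff.1 e]; exact hzA)
      refine (hg0.mono hs).congr ?_
      · intro y hy
        simp only [hG]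
        rw [if_neg hy]
    have hGc : ContinuousOn G univ := by
      have := hG1.union_of_isClosed hG2 hAK hAo.isClosed_compl
      refine this.mono fun y _ => ?_
      by_cases hy : y ∈ A
      · exact Or.inl (Or.inl hy)
      · exact Or.inr hy
    obtain ⟨θ, hθ, hθG⟩ := Gg2_113.exists_lift convex_univ hGc
    refine no_ang_lift (r := 2) (by norm_num) (θ := fun y => θ (y + z))
      ((hθ.comp (by fun_prop) fun _ _ => mem_univ _)) ?_
    intro y hy
    have hyA : y + z ∉ A := by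
      intro h
      have h1 := mem_ball_zero_iff.1 (hAb h)
      have h2 := mem_ball_zero_iff.1 (hAb hzA)
      have h3 := mem_sphere_zero_iff_norm.1 hy
      have h4 : ‖y‖ ≤ ‖y + z‖ + ‖z‖ := by
        have := norm_sub_le (y + z) z
        rwa [add_sub_cancel_right] at this
      linarith
    rw [hθG _ (mem_univ _)]
    simp only [hG]
    rw [if_neg hyA, add_sub_cancel_right]
  refine isPreconnected_of_forall (1 : ℂ) fun z hz => ?_
  exact ⟨connectedComponentIn (D \ K) z, connectedComponentIn_subset _ _, key z hz,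
    mem_connectedComponentIn hz, isPreconnected_connectedComponentIn⟩

end plane

end Crest.Agent.R096.Dsc_113
end

-- ▼ part R096/Dsc2_113
section

/-!
# A disc does not separate a 2-cell; the circle around a high point

* `IsBall.lift`: maps from a PL ball to the circle lift.
* `conn_face`: a ball `Fc` in a 2-cell, off its rim: `T.cc x \ Fc` is preconnected.
* `exists_circle`: a point above the level `t`, the rim being below: some circle component of the
  level set bounds a disc which contains the point.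
* `exists_circle'`: the version with the inequalities reversed.
-/

set_option autoImplicit false
set_option linter.unusedSectionVars false

open Set Metric Topology Filter

namespace Crest.Agent.R096.Dsc_113

open Ce_537 Msh_715 Agl5_543 Pat5_543 Srg_465

section ball

variable {E : Type*} [NormedAddCommGroup E] [NormedSpace ℝ E]

theorem lift_ball {k : ℕ} {K dK : Set E} (h : IsBall k K dK) {g : E → AddCircle (1 : ℝ)}
    (hg : ContinuousOn g K) :
    ∃ θ : E → ℝ, ContinuousOn θ K ∧ ∀ x ∈ K, ((θ x : ℝ) : AddCircle (1 : ℝ)) = g x := by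
  obtain ⟨e, -⟩ := h
  have hc : Convex ℝ (cube k) := convex_closedBall _ _
  obtain ⟨θ, hθ, hθg⟩ := Gg2_113.exists_lift hc (g := g ∘ e.f) (hg.comp e.pf.1 e.mf)
  refine ⟨θ ∘ e.g, hθ.comp e.pg.1 e.mg, fun x hx => ?_⟩
  have := hθg (e.g x) (e.mg hx)
  simp only [Function.comp_apply] at this ⊢
  rw [this, e.ri x hx]

end ball

section face

variable {E : Type} [NormedAddCommGroup E] [NormedSpace ℝ E] [FiniteDimensional ℝ E]
variable {Om : Set E} {ι : Type} {T : Tiling Om ι}

/-- a compact set off the rim on which maps to the circle lift does not separate the 2-cell -/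
theorem conn_C2 (F : C2 T) {K : Set E} (hK : IsCompact K) (hKF : K ⊆ F.set \ F.bd)
    (hl : ∀ g : E → AddCircle (1 : ℝ), ContinuousOn g K →
      ∃ θ : E → ℝ, ContinuousOn θ K ∧ ∀ x ∈ K, ((θ x : ℝ) : AddCircle (1 : ℝ)) = g x) :
    IsPreconnected (F.set \ K) := by
  have hinv : ContinuousOn F.inv F.set := by
    have h := Gg3_113.continuousOn_inv (isCompact_closedBall (0 : ℂ) 1) F.isDisc.cont (r := F.inv)
      (fun z hz => F.inv_par hz)
    rwa [F.isDisc.img] at h
  have hKs : K ⊆ F.set := fun x hx => (hKF hx).1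
  have hK1 : IsCompact (F.inv '' K) := hK.image_of_continuousOn (hinv.mono hKs)
  have hpar : ∀ w ∈ F.set, F.par (F.inv w) = w := fun w hw => (F.inv_mem hw).2
  have hb : F.inv '' K ⊆ ball 0 1 := by
    rintro _ ⟨w, hw, rfl⟩
    have h1 := (F.inv_mem (hKs hw)).1
    rw [mem_closedBall_zero_iff] at h1
    rw [mem_ball_zero_iff]
    refine lt_of_le_of_ne h1 fun e => (hKF hw).2 ?_
    rw [← F.isDisc.bd]
    exact ⟨F.inv w, mem_sphere_zero_iff_norm.2 e, hpar w (hKs hw)⟩
  have hKb : F.inv '' K ⊆ closedBall 0 1 := hb.trans ball_subset_closedBall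
  have hcon := conn_disc hK1 hb (by
    intro g hg
    obtain ⟨θ, hθ, hθg⟩ := hl (g ∘ F.inv) (hg.comp (hinv.mono hKs) (mapsTo_image _ _))
    have hpm : MapsTo F.par (F.inv '' K) K := by
      rintro _ ⟨w, hw, rfl⟩
      rw [hpar w (hKs hw)]; exact hw
    refine ⟨θ ∘ F.par, hθ.comp (F.isDisc.cont.mono hKb) hpm, ?_⟩
    intro z hz
    have := hθg (F.par z) (hpm hz)
    simp only [Function.comp_apply] at this ⊢
    rw [this, F.inv_par (hKb hz)])
  have e : F.set \ K = F.par '' (closedBall (0 : ℂ) 1 \ F.inv '' K) := by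
    ext w
    constructor
    · rintro ⟨hw, hwK⟩
      refine ⟨F.inv w, ⟨(F.inv_mem hw).1, ?_⟩, hpar w hw⟩
      rintro ⟨w', hw', e⟩
      have h2 := hpar w' (hKs hw')
      rw [e, hpar w hw] at h2
      exact hwK (h2 ▸ hw')
    · rintro ⟨z, ⟨hz, hzK⟩, rfl⟩
      refine ⟨?_, fun hc => hzK ⟨_, hc, F.inv_par hz⟩⟩
      rw [← F.isDisc.img]
      exact mem_image_of_mem _ hz
  rw [e]
  exact hcon.image _ (F.isDisc.cont.mono sdiff_subset)

/-- a disc off the rim does not separate the 2-cell -/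
theorem conn_face {x : E} (hx : x ∈ Om) (hd : T.dim x = 2) {Fc Γ : Set E} {k : ℕ}
    (hB : IsBall k Fc Γ) (hFc : Fc ⊆ T.cc x \ (T.cc x ∩ Sk2_855.sk1 T)) :
    IsPreconnected (T.cc x \ Fc) := by
  have hs : (mk2 T hx hd).set = T.cc x := mk2_set hx hd
  rw [← hs]
  refine conn_C2 _ hB.isCompact ?_ fun g hg => lift_ball hB hg
  intro y hy
  have h1 := hFc hy
  refine ⟨by rw [hs]; exact h1.1, fun hb => h1.2 ⟨h1.1, ?_⟩⟩
  have hyF : y ∈ (mk2 T hx hd).set := by rw [hs]; exact h1.1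
  exact ⟨(mk2 T hx hd).set_sub hyF, ((mk2 T hx hd).mem_bd_iff hyF).1 hb⟩

theorem rim_nonempty {x : E} (hx : x ∈ Om) : (T.cc x ∩ Sk2_855.sk1 T).Nonempty := by
  obtain ⟨v, hv, hd⟩ := exists_vertex T hx
  exact ⟨v, hv, T.cc_sub_Om hx hv, by rw [hd]; exact Nat.zero_le _⟩

end face

section circle

variable {E : Type*} [NormedAddCommGroup E] [NormedSpace ℝ E]

/-- the disc of a circle component of the level set -/
def DiscC (F rim : Set E) (φ : E → ℝ) (t : ℝ) (Γ Fc : Set E) : Prop :=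
  (∃ x ∈ F, φ x = t ∧ Γ = connectedComponentIn (Ls F φ t) x) ∧
  IsBall 2 Fc Γ ∧ Fc ⊆ F \ rim ∧ ∃ O, IsOpen O ∧ O ∩ F = Fc \ Γ

theorem DiscC.circ {F rim : Set E} {φ : E → ℝ} {t : ℝ} {Γ Fc : Set E}
    (h : DiscC F rim φ t Γ Fc) : Circ F rim φ t Γ := ⟨h.1, Fc, h.2⟩

theorem exists_circle_aux {F rim : Set E} (hF : Convex ℝ F)
    (hsep : ∀ Fc Γ : Set E, IsBall 2 Fc Γ → Fc ⊆ F \ rim → IsPreconnected (F \ Fc))
    (hrF : rim ⊆ F) (hne : rim.Nonempty) {φ : E → ℝ} {I : Set ℝ} (h : Lev F rim φ I) {t : ℝ}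
    (ht : t ∈ I) (hrt : ∀ y ∈ rim, φ y ≠ t) {z : E} (hz : z ∈ F)
    (hsg : ∀ y ∈ rim, (φ y < t ∧ t < φ z) ∨ (φ z < t ∧ t < φ y)) :
    ∃ Γ Fc : Set E, DiscC F rim φ t Γ Fc ∧ z ∈ Fc := by
  by_contra hcon
  push Not at hcon
  obtain ⟨w, hw⟩ := hne
  set 𝒦 : Set (Set E) := {Γ | Circ F rim φ t Γ} with h𝒦
  have hcov : ∀ y ∈ F, φ y = t → y ∈ ⋃₀ 𝒦 := by
    intro y hy hyt
    have hyL : y ∈ Ls F φ t := ⟨hy, hyt⟩
    rcases h.comp t ht y hy hyt with h1 | h1
    · obtain ⟨q, hq1, hq2⟩ := h1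
      exact absurd (connectedComponentIn_subset _ _ hq1).2 (hrt q hq2)
    · exact ⟨_, h1, mem_connectedComponentIn hyL⟩
  have hd : 𝒦.PairwiseDisjoint id := by
    rintro Γ ⟨⟨a, ha, hat, rfl⟩, -⟩ Γ' ⟨⟨b, hb, hbt, rfl⟩, -⟩ hne
    rw [Function.onFun, id, id, disjoint_left]
    intro q hq1 hq2
    exact hne (by rw [connectedComponentIn_eq hq1, connectedComponentIn_eq hq2])
  obtain ⟨C, hC, hCF, hzC, hwC⟩ := not_sep_fin hF (h.fin t ht) (𝒦 := 𝒦) (by
      rintro Γ ⟨-, Fc, hB, -⟩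
      exact hB.isClosed_bdry) hd hz (hrF hw) (by
      rintro Γ ⟨hΓ, Fc, hB, hFc, hO⟩
      refine ⟨F \ Fc, hsep Fc Γ hB hFc, fun y hy => ⟨hy.1, fun hyΓ => hy.2 (hB.subset hyΓ)⟩,
        ⟨hz, hcon Γ Fc ⟨hΓ, hB, hFc, hO⟩⟩, ⟨hrF hw, fun hwF => (hFc hwF).2 hw⟩⟩)
  have hcC : ContinuousOn φ C := h.cont.mono fun y hy => (hCF hy).1
  have hiv : ∃ y ∈ C, φ y = t := by
    rcases hsg w hw with h1 | h1
    · obtain ⟨y, hy, e⟩ := hC.intermediate_value hwC hzC hcC ⟨h1.1.le, h1.2.le⟩
      exact ⟨y, hy, e⟩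
    · obtain ⟨y, hy, e⟩ := hC.intermediate_value hzC hwC hcC ⟨h1.1.le, h1.2.le⟩
      exact ⟨y, hy, e⟩
  obtain ⟨y, hy, e⟩ := hiv
  exact (hCF hy).2 (hcov y (hCF hy).1 e)

end circle

section main

variable {E : Type} [NormedAddCommGroup E] [NormedSpace ℝ E] [FiniteDimensional ℝ E]
variable {Om : Set E} {ι : Type} {T : Tiling Om ι}

/-- **the circle around a high point** of a 2-cell with a low rim -/
theorem exists_circle {x : E} (hx : x ∈ Om) (hd : T.dim x = 2) {φ : E → ℝ} {I : Set ℝ}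
    (h : Lev (T.cc x) (T.cc x ∩ Sk2_855.sk1 T) φ I) {t : ℝ} (ht : t ∈ I)
    (hr : ∀ y ∈ T.cc x ∩ Sk2_855.sk1 T, φ y < t) {z : E} (hz : z ∈ T.cc x) (hzt : t < φ z) :
    ∃ Γ Fc : Set E, DiscC (T.cc x) (T.cc x ∩ Sk2_855.sk1 T) φ t Γ Fc ∧ z ∈ Fc :=
  exists_circle_aux (T.convex_cc x) (fun _ _ hB hFc => conn_face hx hd hB hFc)
    inter_subset_left (rim_nonempty hx) h ht (fun y hy => (hr y hy).ne) hz
    (fun y hy => Or.inl ⟨hr y hy, hzt⟩)


end main

end Crest.Agent.R096.Dsc_113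
end

-- ▼ part R096/Pst2_465
section

/-!
# Row 96, p = 2: the surgery for one box with patches (L2; helper465)

* `circ_back`: a circle of `h ∘ Ψ` at a level which is not reached by moved points is a circle
  of `h`.
* `step2 : Step2 T La`.
-/

set_option autoImplicit false
set_option linter.unusedSectionVars false

open Set Metric Topology Filter Module

namespace Crest.Agent.R096.Pst_465

open Ce_537 Pl Cb_609 Msh_715
open Srg_465 Sk2_855 Ub_113

/-- the circles at a level without moved points are old circles -/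
theorem circ_back {E : Type*} [NormedAddCommGroup E] [NormedSpace ℝ E] {F rim : Set E}
    (hF : IsClosed F) {φh φg : E → ℝ} {Ψ : E → E} (hcg : ContinuousOn φg F)
    (hgh : ∀ z, Ψ z = z → φg z = φh z) {t : ℝ}
    (hlevN : ∀ y ∈ F, φg y = t → ∀ᶠ z in 𝓝 y, Ψ z = z) {Γ : Set E}
    (hΓ : Circ F rim φg t Γ) :
    Circ F rim φh t Γ ∧ ∀ z ∈ Γ, Ψ z = z := by
  set N : Set E := {y | ∀ᶠ z in 𝓝 y, Ψ z = z} with hN
  have hNo : IsOpen N := isOpen_setOfPred_eventually_nhds
  have hNe : ∀ y ∈ N, Ψ y = y := fun y hy =>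
    (show ∀ᶠ z in 𝓝 y, Ψ z = z from hy).self_of_nhds
  have hlevN' : ∀ y ∈ F, φg y = t → y ∈ N := hlevN
  have hLsub : Ls F φg t ⊆ Ls F φh t := by
    rintro y ⟨hy, hyt⟩
    exact ⟨hy, by rw [← hgh y (hNe y (hlevN y hy hyt))]; exact hyt⟩
  have hLN : ∀ y ∈ Ls F φh t, y ∈ N → y ∈ Ls F φg t := by
    rintro y ⟨hy, hyt⟩ hyN
    exact ⟨hy, by rw [hgh y (hNe y hyN)]; exact hyt⟩
  have hLcl : IsClosed (Ls F φg t) := hcg.preimage_isClosed_of_isClosed hF isClosed_singleton
  obtain ⟨⟨x0, hx0, hx0t, hΓe⟩, hdisc⟩ := id hΓ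
  have hx0L : x0 ∈ Ls F φg t := ⟨hx0, hx0t⟩
  have hcomp : connectedComponentIn (Ls F φh t) x0 = connectedComponentIn (Ls F φg t) x0 := by
    apply Subset.antisymm
    · set C := connectedComponentIn (Ls F φh t) x0 with hC
      have hCp : IsPreconnected C := isPreconnected_connectedComponentIn
      have hCs : C ⊆ Ls F φh t := connectedComponentIn_subset _ _
      have hx0C : x0 ∈ C := mem_connectedComponentIn (hLsub hx0L)
      have hcov : C ⊆ N ∪ (Ls F φg t)ᶜ := by
        intro y hy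
        by_cases hyL : y ∈ Ls F φg t
        · exact Or.inl (hlevN y hyL.1 hyL.2)
        · exact Or.inr hyL
      have hdis : C ∩ (N ∩ (Ls F φg t)ᶜ) = ∅ := by
        rw [eq_empty_iff_forall_notMem]
        rintro y ⟨hy, hyN, hyL⟩
        exact hyL (hLN y (hCs hy) hyN)
      have hCN : C ⊆ N := by
        rcases isPreconnected_iff_subset_of_disjoint.1 hCp N _ hNo hLcl.isOpen_compl hcov hdis with
          h1 | h1
        · exact h1
        · exact absurd hx0L (h1 hx0C)
      exact hCp.subset_connectedComponentIn hx0C fun y hy => hLN y (hCs hy) (hCN hy)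
    · exact connectedComponentIn_mono _ hLsub
  refine ⟨⟨⟨x0, hx0, (hLsub hx0L).2, by rw [hcomp]; exact hΓe⟩, hdisc⟩, fun z hz => ?_⟩
  rw [hΓe] at hz
  have := connectedComponentIn_subset _ _ hz
  exact hNe z (hlevN z this.1 this.2)

section Surg

variable {E : Type} [NormedAddCommGroup E] [NormedSpace ℝ E] [FiniteDimensional ℝ E]
variable {Om La : Set E} {ι : Type} {T : Tiling Om ι}

/-- **L2**, for one box -/
theorem step2_aux (h3 : finrank ℝ E = 3) (hDM : DMove E) (hLev : LevStmt T) : Step2 T La := by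
  classical
  intro B h hi H hOk hSig
  have M := mesh (T := T) h3 hDM
  set u : E → ℝ := fun y => B.u y with hu
  have huc : Continuous u := B.cont
  let J : Finset (Face T) := (Ub3_113.finite_faces B.toUBox H).toFinset
  have hJ : ∀ k, k ∈ J ↔ ∃ x ∈ k.set, B.u (h x) ≤ B.b := by
    intro k; simp [J]
  -- the regular levels
  have hlev : ∀ k : Face T, ∃ bad : Set ℝ, bad.Finite ∧ ∀ I : Set ℝ, IsPreconnected I →
      Disjoint I bad →
      Lev k.set (k.set ∩ sk1 T) (fun x => u (h x)) I ∧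
        ∃ n : ℕ, ∀ t ∈ I, {Γ | Circ k.set (k.set ∩ sk1 T) (fun x => u (h x)) t Γ}.ncard ≤ n := by
    intro k
    obtain ⟨x, hx, hd, e⟩ := k.exists_pt
    rw [e]
    refine hLev x hx hd _ ?_
    have h1 : PLOn h (T.cc x) := LocPL.plOn H.pl (T.isCompact_cc hx) (T.cc_sub_Om hx)
    have h2 : PLOn u univ := B.pl
    exact h2.comp h1 fun _ _ => mem_univ _
  choose bad hbad hn' using hlev
  have hBf : (⋃ k ∈ (J : Set (Face T)), bad k).Finite :=
    J.finite_toSet.biUnion fun k _ => hbad k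
  obtain ⟨a', b', ha', hab', hb', hdis⟩ : ∃ a' b', B.a ≤ a' ∧ a' < b' ∧ b' ≤ B.b ∧
      Disjoint (Ioo a' b') (⋃ k ∈ (J : Set (Face T)), bad k) := by
    have hop : IsOpen (Ioo B.a B.b ∩ (⋃ k ∈ (J : Set (Face T)), bad k)ᶜ) :=
      isOpen_Ioo.inter hBf.isClosed.isOpen_compl
    have hne : (Ioo B.a B.b ∩ (⋃ k ∈ (J : Set (Face T)), bad k)ᶜ).Nonempty := by
      have h1 : (Ioo B.a B.b).Infinite := Ioo_infinite B.ab
      obtain ⟨t, ht, ht'⟩ := (h1.sdiff hBf).nonempty
      exact ⟨t, ht, ht'⟩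
    obtain ⟨t, ht⟩ := hne
    obtain ⟨l, m, hlm, hsub⟩ := (mem_nhds_iff_exists_Ioo_subset).1 (hop.mem_nhds ht)
    have hlm' : l < m := hlm.1.trans hlm.2
    have h1 : Icc l m ⊆ Icc B.a B.b := by
      rw [← closure_Ioo hlm'.ne, ← closure_Ioo B.ab.ne]
      exact closure_mono fun s hs => (hsub hs).1
    have h2 := h1 (left_mem_Icc.2 hlm'.le)
    have h4 := h1 (right_mem_Icc.2 hlm'.le)
    refine ⟨l, m, h2.1, hlm', h4.2, ?_⟩
    rw [disjoint_left]
    exact fun s hs => (hsub hs).2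
  have hn2 : ∀ k : Face T, ∃ n : ℕ, k ∈ J →
      Lev k.set (k.set ∩ sk1 T) (fun x => u (h x)) (Ioo a' b') ∧
        ∀ t ∈ Ioo a' b', {Γ | Circ k.set (k.set ∩ sk1 T) (fun x => u (h x)) t Γ}.ncard ≤ n := by
    intro k
    by_cases hk : k ∈ J
    · obtain ⟨h1, n, h2⟩ := hn' k (Ioo a' b') isPreconnected_Ioo (hdis.mono_right
        (subset_biUnion_of_mem (u := bad) (show k ∈ (J : Set (Face T)) from hk)))
      exact ⟨n, fun _ => ⟨h1, h2⟩⟩
    · exact ⟨0, fun hk' => absurd hk' hk⟩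
  choose n hn using hn2
  have hI : Ioo a' b' ⊆ Icc B.a B.b := fun t ht => ⟨ha'.trans ht.1.le, ht.2.le.trans hb'⟩
  have L : Lvls La u (fun t => {y | B.u y ≤ t}) (fun t => {y | B.u y = t}) (Ioo a' b') :=
    { cont := huc.continuousOn
      ball := fun t ht => B.ball t ⟨ha'.trans_lt ht.1, ht.2.trans_le hb'⟩
      sub := fun t ht y hy => B.sub y (by
        have : B.u y = t := hy
        rw [this]; exact (hI ht).2)
      eq := fun t ht y _ => Iff.rfl }
  let 𝒜 : ℝ → Set E → Prop := fun t D => Disjoint D (Ub2_113.X B.toUBox h t) ∧ ∃ m, D ⊆ B.c' m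
  have hA : ∀ t D D', 𝒜 t D → D' ⊆ D → 𝒜 t D' := by
    rintro t D D' ⟨h1, m, h2⟩ h4
    exact ⟨h1.mono_left h4, m, h4.trans h2⟩
  have s : St Om La (sk1 T) (fun k : Face T => k.set) J u 𝒜 (Ioo a' b') h hi :=
    { hp := H
      lev := fun k hk => (hn k hk).1
      off := fun k hk x hx hxI => hk ((hJ k).2 ⟨x, hx, (hI hxI).2⟩)
      rim := by
        rintro k hk t ht x hx hxt ⟨p, hp1, hp2⟩ D hD hxD
        obtain ⟨q, hq, hd, e⟩ := k.exists_pt
        change x ∈ k.set at hx
        change u (h x) = t at hxt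
        have hLS : Ls k.set (fun x => u (h x)) t = Ub2_113.LS B.toUBox h t q := by
          rw [e]; rfl
        rw [hLS] at hp1
        have hpL := connectedComponentIn_subset _ _ hp1
        have hsub := Ub2_113.comp_sub_X (B := B.toUBox) (h := h) hq hd hpL hp2.2.2
        rw [← connectedComponentIn_eq hp1] at hsub
        have hxL : x ∈ Ub2_113.LS B.toUBox h t q := ⟨by rw [← e]; exact hx, hxt⟩
        exact disjoint_left.1 hD.1 hxD (hsub ⟨x, mem_connectedComponentIn hxL, rfl⟩) }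
  have hsum : ∀ t ∈ Ioo a' b', (∑ k ∈ J, {Γ | Circ k.set (k.set ∩ sk1 T)
      (fun x => u (h x)) t Γ}.ncard) ≤ ∑ k ∈ J, n k := by
    intro t ht
    exact Finset.sum_le_sum fun k hk => (hn k hk).2 t ht
  obtain ⟨ψ, hψ, c1, c2, a'', b'', ha'', hab'', hb'', e1, s1, g1⟩ :=
    surgery M hA _ a' b' hab' L h hi s hsum
  have hI2 : Ioo a'' b'' ⊆ Ioo a' b' := Ioo_subset_Ioo ha'' hb''
  have hMv : Mv T ψ := ⟨hψ.plh, hψ.supp⟩
  refine ⟨ψ, hMv, ?_, ?_, ?_⟩
  · intro x hx hd z hz
    rcases c1 (mkFace hx hd) z hz with h1 | ⟨t, ht, D, Γ, ⟨-, m, hm⟩, hS, hzD⟩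
    · exact Or.inl h1
    · right
      have h2 : B.u (h (ψ z)) = t := hS.sub hzD
      refine ⟨?_, mem_iUnion.2 ⟨m, hm hzD⟩⟩
      show B.a ≤ B.u (h (ψ z)) ∧ B.u (h (ψ z)) ≤ B.b
      rw [h2]
      exact hI ht
  · intro x hx hd hdj
    exact c2 (mkFace hx hd) (fun z hz hzI => disjoint_left.1 hdj ⟨z, hz, rfl⟩ (by
      show B.a ≤ B.u (h z) ∧ B.u (h z) ≤ B.b
      exact hI hzI))
  · intro x hOwn z hz
    obtain ⟨-, hx, hd, hNC, hrim⟩ := id hOwn
    by_contra hcon
    rw [not_lt] at hcon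
    -- the point is not moved
    have hzN : ∀ᶠ y in 𝓝 z, ψ y = y := by
      rcases c1 (mkFace hx hd) z hz with h1 | ⟨t, ht, D, Γ, -, hS, hzD⟩
      · exact h1
      · exfalso
        have h2 : B.u (h (ψ z)) = t := hS.sub hzD
        rw [h2] at hcon
        have h4 := ht.2.trans_le (hb'.trans B.bt)
        exact absurd hcon (not_le.2 h4)
    have hzz : ψ z = z := hzN.self_of_nhds
    obtain ⟨t, ht⟩ := nonempty_Ioo.2 hab''
    have htI := hI (hI2 ht)
    have htI' : t ∈ Ioo B.a B.b :=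
      ⟨lt_of_le_of_lt (ha'.trans ha'') ht.1, lt_of_lt_of_le ht.2 (hb''.trans hb')⟩
    set k : Face T := mkFace hx hd with hk
    have hks : k.set = T.cc x := rfl
    obtain ⟨v, hv, hv1⟩ := Dsc_113.rim_nonempty (T := T) hx
    have hkJ : k ∈ J := (hJ k).2 ⟨v, hv, (hrim v hv hv1).le.trans B.ab.le⟩
    have hid : ∀ w ∈ T.cc x, B.u (h (ψ w)) = t → ∀ᶠ y in 𝓝 w, ψ y = y := fun w hw hwt =>
      e1 k w hw (by
        show B.u (h (ψ w)) ∈ Ioo a'' b''
        rw [hwt]; exact ht)
    -- the circle around `z`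
    have hLv : Lev (T.cc x) (T.cc x ∩ sk1 T) (fun z => u (h (ψ z))) (Ioo a'' b'') := s1.lev k hkJ
    obtain ⟨Γ, Fc, hDC, hzF⟩ := Dsc_113.exists_circle hx hd hLv ht (by
        rintro y ⟨hy, hy1⟩
        show B.u (h (ψ y)) < t
        rw [hMv.eq_on_sk1 hy1]
        exact (hrim y hy hy1).trans htI'.1) hz (by
        show t < B.u (h (ψ z))
        exact (htI'.2.trans_le B.bt).trans_le hcon)
    have h1 : Circ (T.cc x) (T.cc x ∩ sk1 T) (fun z => u (h (ψ z))) t Γ := hDC.circ
    obtain ⟨hΓh, hΓid⟩ := circ_back (T.isClosed_cc x) (φh := fun z => u (h z)) (Ψ := ψ)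
      hLv.cont (fun z hz => by show u (h (ψ z)) = u (h z); rw [hz]) hid h1
    obtain ⟨m, hm⟩ := hSig x hOwn t htI' Γ Fc hΓh hDC.2 ⟨z, hzF, by rwa [hzz] at hcon⟩
    have hΓL : Γ ⊆ Ls k.set (fun x => u (h (ψ x))) t := h1.subset
    obtain ⟨-, hB, hsub, -⟩ := id hDC
    have hFO : Fc ⊆ Om := hsub.trans fun w hw => M.sub k hw.1
    have himg : (fun x => h (ψ x)) '' Γ = h '' Γ := by
      ext y
      constructor
      · rintro ⟨w, hw, rfl⟩
        show h (ψ w) ∈ h '' Γ
        rw [hΓid w hw]; exact ⟨w, hw, rfl⟩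
      · rintro ⟨w, hw, rfl⟩
        refine ⟨w, hw, ?_⟩
        show h (ψ w) = h w
        rw [hΓid w hw]
    have hc : Nonempty (PLEquiv (S1 ℝ) ((fun x => h (ψ x)) '' Γ)) :=
      circle_of_disc (HP.ball_image s1.hp hB hFO)
    have hcZ : (fun x => h (ψ x)) '' Γ ⊆ {y | B.u y = t} := by
      rintro _ ⟨w, hw, rfl⟩
      exact (hΓL hw).2
    obtain ⟨A, A', h5, h6⟩ := sphere_sides (L.ball t (hI2 ht)) hc hcZ
    have hSA : Side {y | B.u y ≤ t} {y | B.u y = t} A ((fun x => h (ψ x)) '' Γ) :=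
      ⟨A', h5, h6⟩
    have hSA' : Side {y | B.u y ≤ t} {y | B.u y = t} A' ((fun x => h (ψ x)) '' Γ) :=
      ⟨A, h5.symm, by rw [union_comm]; exact h6⟩
    obtain ⟨S, hSp, hS1, hS2⟩ := B.sep t htI' m
    obtain ⟨k', y, hyM, hyt, hym⟩ := B.far t htI' m
    have hyS : y ∈ S := hS2 ⟨hyt, hym⟩
    have hyX : y ∈ Ub2_113.X B.toUBox h t := Ub2_113.mark_sub_X (B := B.toUBox) k' ⟨hyM, hyt⟩
    have hXp : IsPreconnected (Ub2_113.X B.toUBox h t ∪ S) :=
      IsPreconnected.union y hyX hyS (Ub2_113.X_preconn hOk H.contOn htI) hSp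
    have hXs : Ub2_113.X B.toUBox h t ∪ S ⊆ {y | B.u y = t} :=
      union_subset (Ub2_113.X_sub B.toUBox h t) fun w hw => (hS1 hw).1
    have hXc : Disjoint (Ub2_113.X B.toUBox h t ∪ S) ((fun x => h (ψ x)) '' Γ) := by
      rw [himg]
      refine disjoint_union_left.2 ⟨?_, ?_⟩
      · refine Disjoint.mono_right ?_ (Ub2_113.nc_disj hOk (HP.injOn H) htI hx hd hNC).symm
        exact image_mono fun w hw => (hΓL hw).1
      · rw [disjoint_left]
        exact fun w hw hw' => (hS1 hw).2 (hm hw')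
    have hall : ∀ D, Side {y | B.u y ≤ t} {y | B.u y = t} D ((fun x => h (ψ x)) '' Γ) →
        Disjoint (Ub2_113.X B.toUBox h t ∪ S) D → 𝒜 t D := by
      intro D hD hdj
      rw [disjoint_union_left] at hdj
      refine ⟨hdj.1.symm, m, fun w hw => ?_⟩
      by_contra hwm
      exact disjoint_left.1 hdj.2 (hS2 ⟨hD.sub hw, hwm⟩) hw
    rcases split_of_union hSA.isBall.isClosed hSA'.isBall.isClosed h6 h5.inter hXp hXs hXc with
      h7 | h7
    · exact g1 t ht k hkJ Γ h1 A' hSA' (hall A' hSA' h7.2)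
    · exact g1 t ht k hkJ Γ h1 A hSA (hall A hSA h7.2)

/-- **L2** -/
theorem step2 (h3 : finrank ℝ E = 3) (hDM : DMove E) (T : Tiling Om ι) : Step2 T La :=
  step2_aux h3 hDM (levStmt T)

end Surg

end Crest.Agent.R096.Pst_465
end

-- ▼ part R096/Pst3_465

/-!
# Row 96, p = 2: the iteration with thresholds along connected sets (helper465, for 565's L7)

`transfer'`, `iterate2'`, `iterate2_col'`: instead of a bound of the oscillation: a connected subset
of the patches which reaches the level `t1` stays above the threshold `θ`.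
-/

set_option autoImplicit false
set_option linter.unusedSectionVars false

open Set Metric Filter Topology

namespace Crest.Agent.R096.Pst_465

open Msh_715 (Tiling)
open Ce_537 Srg_465 Sk2_855 Ub_113

variable {E : Type*} [NormedAddCommGroup E] [NormedSpace ℝ E] {Om La : Set E} {ι : Type*}

/-- connected subsets of `P` which reach `t1` stay above `θ` -/
def Thr (u : E → ℝ) (P : Set E) (t1 θ : ℝ) : Prop :=
  ∀ S ⊆ P, IsPreconnected S → (∃ y ∈ S, t1 ≤ u y) → ∀ z ∈ S, θ ≤ u z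

theorem Thr.mono {u : E → ℝ} {P P' : Set E} {t1 θ : ℝ} (h : Thr u P t1 θ) (hs : P' ⊆ P) :
    Thr u P' t1 θ := fun S hS => h S (hS.trans hs)


/-- **L5**, general form -/
theorem transfer' {T : Tiling Om ι} (B : PBox T La) {h hi : E → E} (H : HP Om La h hi)
    {Ψ : E ≃ₜ E} (hΨ : Mv T Ψ) {PP : Set E} (hnear : Near T h Ψ PP) (hsh : Disjoint PP B.shell)
    {θ : ℝ} (hosc : Thr B.u PP B.t1 θ) (hθ : θ ≤ B.t1) (hS : B.Sig h θ) :
    B.Sig (fun x => h (Ψ x)) B.t1 := by
  intro x hOwn t ht Γ K hΓ hK hreach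
  have hOwn' := (own_congr B hΨ).1 hOwn
  obtain ⟨-, hx, hd, -, -⟩ := hOwn
  have H' := H.comp hΨ
  have hFO : T.cc x ⊆ Om := T.cc_sub_Om hx
  set N : Set E := {y | ∀ᶠ z in 𝓝 y, Ψ z = z} with hN
  have hNo : IsOpen N := isOpen_setOfPred_eventually_nhds
  have hNe : ∀ y ∈ N, Ψ y = y := fun y hy =>
    (show ∀ᶠ z in 𝓝 y, Ψ z = z from hy).self_of_nhds
  have hlevN : ∀ y ∈ T.cc x, B.u (h (Ψ y)) = t → ∀ᶠ z in 𝓝 y, Ψ z = z := by
    intro y hy hyt
    rcases hnear x hx hd y hy with h1 | h1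
    · exact h1
    · exfalso
      refine disjoint_left.1 hsh h1 ?_
      show B.a ≤ B.u (h (Ψ y)) ∧ B.u (h (Ψ y)) ≤ B.b
      rw [hyt]; exact ⟨ht.1.le, ht.2.le⟩
  have hcg : ContinuousOn (fun z => B.u (h (Ψ z))) (T.cc x) :=
    B.cont.comp_continuousOn (H'.contOn.mono hFO)
  obtain ⟨hΓh, hΓid⟩ := circ_back (T.isClosed_cc x) (φh := fun z => B.u (h z)) (Ψ := Ψ)
    hcg (fun z hz => by show B.u (h (Ψ z)) = B.u (h z); rw [hz]) hlevN hΓ
  have hΓN : Γ ⊆ N := fun y hy => by
    have := hΓ.subset hy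
    exact hlevN y this.1 this.2
  have himg : (fun z => h (Ψ z)) '' Γ = h '' Γ := by
    ext y
    constructor
    · rintro ⟨z, hz, rfl⟩
      show h (Ψ z) ∈ h '' Γ
      rw [hΓid z hz]; exact ⟨z, hz, rfl⟩
    · rintro ⟨z, hz, rfl⟩
      refine ⟨z, hz, ?_⟩
      show h (Ψ z) = h z
      rw [hΓid z hz]
  -- the disc reaches `θ`
  have hKF : K ⊆ T.cc x := fun y hy => (hK.2.1 hy).1
  have hreach' : ∃ z ∈ K, θ ≤ B.u (h z) := by
    obtain ⟨z, hz, hzt⟩ := hreach
    have hzt' : B.t1 ≤ B.u (h (Ψ z)) := hzt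
    by_cases hzN : z ∈ N
    · refine ⟨z, hz, ?_⟩
      rw [hNe z hzN] at hzt'
      linarith
    · set L : Set E := K \ N with hL
      have hLc : IsCompact L := hK.1.isCompact.diff hNo
      have hLP : ∀ y ∈ L, h (Ψ y) ∈ PP := fun y hy =>
        (hnear x hx hd y (hKF hy.1)).resolve_left hy.2
      by_cases hq : ∃ q ∈ closure (K ∩ N) ∩ L, q ∈ connectedComponentIn L z
      · obtain ⟨q, ⟨hq1, hq2⟩, hq3⟩ := hq
        have hSsub : (fun y => h (Ψ y)) '' connectedComponentIn L z ⊆ PP := by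
          rintro _ ⟨y, hy, rfl⟩
          exact hLP y (connectedComponentIn_subset _ _ hy)
        have hSp : IsPreconnected ((fun y => h (Ψ y)) '' connectedComponentIn L z) :=
          isPreconnected_connectedComponentIn.image _ (H'.contOn.mono fun y hy =>
            hFO (hKF (connectedComponentIn_subset _ _ hy).1))
        have h1 := hosc _ hSsub hSp ⟨_, ⟨z, mem_connectedComponentIn ⟨hz, hzN⟩, rfl⟩, hzt'⟩ _
          ⟨q, hq3, rfl⟩
        have h2 : θ ≤ B.u (h (Ψ q)) := h1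
        have hid : Ψ q = q := by
          have hcl : IsClosed {y | Ψ y = y} := isClosed_eq Ψ.continuous continuous_id
          exact (closure_minimal (fun y hy => hNe y hy.2) hcl) hq1
        rw [hid] at h2
        exact ⟨q, hq2.1, h2⟩
      · exfalso
        push Not at hq
        have hPcl : IsClosed (closure (K ∩ N) ∩ L) := isClosed_closure.inter hLc.isClosed
        obtain ⟨K1, K2, c1, c2, hd12, hun, hP1, hP2⟩ := Gg2_113.clopen_sep hLc
          (isClosed_singleton (x := z)) hPcl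
          (singleton_subset_iff.2 ⟨hz, hzN⟩) inter_subset_right
          (fun p hp q hq' => by
            rw [mem_singleton_iff.1 hp]
            exact hq q hq')
        have hKp : IsPreconnected K := hK.1.isPreconnected
        have hcov : K ⊆ K1 ∪ (K2 ∪ closure (K ∩ N)) := by
          intro y hy
          by_cases hyN : y ∈ N
          · exact Or.inr (Or.inr (subset_closure ⟨hy, hyN⟩))
          · have : y ∈ K1 ∪ K2 := by rw [hun]; exact ⟨hy, hyN⟩
            rcases this with h1 | h1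
            · exact Or.inl h1
            · exact Or.inr (Or.inl h1)
        have hdis : K ∩ (K1 ∩ (K2 ∪ closure (K ∩ N))) = ∅ := by
          rw [eq_empty_iff_forall_notMem]
          rintro y ⟨hy, hy1, hy2⟩
          have hyK2 : y ∈ K2 := by
            rcases hy2 with h1 | h1
            · exact h1
            · exact hP2 ⟨h1, by rw [← hun]; exact Or.inl hy1⟩
          exact disjoint_left.1 hd12 hy1 hyK2
        have hz1 : z ∈ K1 := hP1 rfl
        obtain ⟨⟨x0, hx0, hx0t, hΓe⟩, -⟩ := id hΓ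
        rcases isPreconnected_iff_subset_of_disjoint_closed.1 hKp K1 _ c1.isClosed
          (c2.isClosed.union isClosed_closure) hcov hdis with h1 | h1
        · have h2 : x0 ∈ Γ := by rw [hΓe]; exact mem_connectedComponentIn ⟨hx0, hx0t⟩
          have h3 : x0 ∈ L := by rw [← hun]; exact Or.inl (h1 (hK.1.subset h2))
          exact h3.2 (hΓN h2)
        · exact (eq_empty_iff_forall_notMem.1 hdis) z ⟨hz, hz1, h1 hz⟩
  rw [himg]
  exact hS x hOwn' t ht Γ K hΓh hK hreach'

/-- all patches of a list of indices -/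
def patsI {T : Tiling Om ι} {J : Type*} (B : J → PBox T La) (l : List J) : Set E :=
  {y | ∃ j ∈ l, y ∈ (B j).pat}

/-- **many boxes with patches, one after the other** (indexed form) -/
theorem iterate2' {T : Tiling Om ι} (hS : Step2 T La) {h hi : E → E} (H : HP Om La h hi)
    {J : Type*} (B : J → PBox T La) {PP : Set E} (θ : J → ℝ) : ∀ (l : List J),
    l.Pairwise (fun i j => Rel (B i) (B j)) →
    (∀ j ∈ l, (B j).Ok h ∧ (B j).pat ⊆ PP ∧ Thr (B j).u PP (B j).t1 (θ j) ∧ θ j ≤ (B j).t1 ∧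
      (B j).Sig h (θ j)) →
    ∀ (Ψ₀ : E ≃ₜ E) (P₀ : Set E), Mv T Ψ₀ → P₀ ⊆ PP → Near T h Ψ₀ P₀ →
    (∀ j ∈ l, Disjoint P₀ (B j).shell ∧ ∀ k, Disjoint P₀ ((B j).M k)) →
    ∃ Ψ : E ≃ₜ E, Mv T Ψ ∧ Near T h Ψ (P₀ ∪ patsI B l) ∧
      (∀ x ∈ Om, T.dim x = 2 →
        h '' (Ψ '' T.cc x) ⊆ reach (h '' (Ψ₀ '' T.cc x)) (l.map fun j => (B j).Y)) ∧
      (∀ l1 j l2, l = l1 ++ j :: l2 → ∀ x, (B j).Own h x →
        h '' (Ψ '' T.cc x) ⊆ reach (B j).Y1 (l2.map fun j => (B j).Y)) := by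
  intro l
  induction l with
  | nil =>
    intro _ _ Ψ₀ P₀ hΨ₀ _ hN _
    refine ⟨Ψ₀, hΨ₀, fun x hx hd z hz => ?_, fun x _ _ => Subset.rfl, ?_⟩
    · exact (hN x hx hd z hz).imp_right Or.inl
    · intro l1 j l2 h0
      exact absurd h0.symm (by simp)
  | cons b l ih =>
    intro hp hl Ψ₀ P₀ hΨ₀ hP₀ hN hdis
    rw [List.pairwise_cons] at hp
    obtain ⟨hOk, hBP, hosc, hθ, hSig⟩ := hl b List.mem_cons_self
    obtain ⟨hd1, hd2⟩ := hdis b List.mem_cons_self
    have H₀ : HP Om La (fun x => h (Ψ₀ x)) (fun y => Ψ₀.symm (hi y)) := H.comp hΨ₀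
    have esk : ∀ z ∈ sk1 T, h (Ψ₀ z) = h z := fun z hz => by rw [hΨ₀.eq_on_sk1 hz]
    have hOk₀ : (B b).Ok (fun x => h (Ψ₀ x)) := by
      refine ⟨fun x hx hs => ?_, fun k => ?_, fun x hx hd hn k => ?_⟩
      · show ∃ k, x ∈ T.oc ((B b).e k) ∧ h (Ψ₀ x) ∈ (B b).M k
        change h (Ψ₀ x) ∈ (B b).shell at hs
        rw [esk x hx] at hs ⊢
        exact hOk.edges x hx hs
      · obtain ⟨v, hv, w, hw, dv, dw, lv, lw⟩ := hOk.ends k
        have hk := (B b).eOm k
        refine ⟨v, hv, w, hw, dv, dw, ?_, ?_⟩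
        · show (B b).u (h (Ψ₀ v)) < (B b).a
          rw [esk v ⟨T.cc_sub_Om hk hv, by rw [dv]; exact zero_le_one⟩]; exact lv
        · show (B b).b < (B b).u (h (Ψ₀ w))
          rw [esk w ⟨T.cc_sub_Om hk hw, by rw [dw]; exact zero_le_one⟩]; exact lw
      · rw [disjoint_left]
        rintro _ ⟨z, hz, rfl⟩ hM
        change h (Ψ₀ z) ∈ (B b).M k at hM
        rcases hN x hx hd z hz with h1 | h1
        · rw [h1.self_of_nhds] at hM
          exact disjoint_left.1 (hOk.faces x hx hd hn k) ⟨z, hz, rfl⟩ hM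
        · exact disjoint_left.1 (hd2 k) h1 hM
    have hSig₀ : (B b).Sig (fun x => h (Ψ₀ x)) (B b).t1 :=
      transfer' (B b) H hΨ₀ hN hd1 (hosc.mono hP₀) hθ hSig
    obtain ⟨ψ, hψ, g1, g2, g3⟩ := hS (B b) _ _ H₀ hOk₀ hSig₀
    set Ψ₁ : E ≃ₜ E := ψ.trans Ψ₀ with hΨ₁
    have hM₁ : Mv T Ψ₁ := hψ.trans hΨ₀
    have hN₁ : Near T h Ψ₁ (P₀ ∪ (B b).pat) := by
      intro x hx hd z hz
      rcases g1 x hx hd z hz with h1 | h1
      · rcases hN x hx hd z hz with h2 | h2
        · left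
          filter_upwards [h1, h2] with y e1 e2
          show Ψ₀ (ψ y) = y
          rw [e1, e2]
        · right
          left
          show h (Ψ₀ (ψ z)) ∈ P₀
          rw [h1.self_of_nhds]; exact h2
      · exact Or.inr (Or.inr h1)
    obtain ⟨Ψ, hΨ, k1, k2, k3⟩ := ih hp.2 (fun B' hB' => hl B' (List.mem_cons_of_mem _ hB')) Ψ₁
      (P₀ ∪ (B b).pat) hM₁ (union_subset hP₀ hBP) hN₁ (fun B' hB' => by
        obtain ⟨q1, q2⟩ := hdis B' (List.mem_cons_of_mem _ hB')
        obtain ⟨q3, q4⟩ := hp.1 B' hB'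
        exact ⟨disjoint_union_left.2 ⟨q1, q3⟩, fun k => disjoint_union_left.2 ⟨q2 k, q4 k⟩⟩)
    have step : ∀ x ∈ Om, T.dim x = 2 →
        h '' (Ψ₁ '' T.cc x) ⊆ grow (h '' (Ψ₀ '' T.cc x)) (B b).Y := by
      rintro x hx hd _ ⟨_, ⟨z, hz, rfl⟩, rfl⟩
      show h (Ψ₀ (ψ z)) ∈ _
      by_cases hm : Disjoint ((fun x => h (Ψ₀ x)) '' T.cc x) (B b).shell
      · rw [(g2 x hx hd hm z hz).self_of_nhds]
        exact sub_grow _ _ ⟨_, ⟨z, hz, rfl⟩, rfl⟩
      · rcases g1 x hx hd z hz with h1 | h1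
        · rw [h1.self_of_nhds]
          exact sub_grow _ _ ⟨_, ⟨z, hz, rfl⟩, rfl⟩
        · rw [not_disjoint_iff] at hm
          obtain ⟨_, ⟨w, hw, rfl⟩, hw'⟩ := hm
          exact Or.inr ⟨h1.1.2, h (Ψ₀ w), ⟨_, ⟨w, hw, rfl⟩, rfl⟩, hw'.2⟩
    refine ⟨Ψ, hΨ, fun x hx hd z hz => ?_, fun x hx hd => ?_, ?_⟩
    · refine (k1 x hx hd z hz).imp_right ?_
      rintro ((q | q) | ⟨B', hB', q⟩)
      · exact Or.inl q
      · exact Or.inr ⟨b, List.mem_cons_self, q⟩
      · exact Or.inr ⟨B', List.mem_cons_of_mem _ hB', q⟩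
    · exact (k2 x hx hd).trans (reach_mono (step x hx hd) _)
    · intro l1 B' l2 hl' x hOwn
      cases l1 with
      | nil =>
        rw [List.nil_append, List.cons.injEq] at hl'
        obtain ⟨rfl, rfl⟩ := hl'
        refine (k2 x hOwn.2.1 hOwn.2.2.1).trans (reach_mono ?_ _)
        rintro _ ⟨_, ⟨z, hz, rfl⟩, rfl⟩
        exact g3 x ((own_congr (B b) hΨ₀).2 hOwn) z hz
      | cons B'' l1 =>
        rw [List.cons_append, List.cons.injEq] at hl'
        exact k3 l1 B' l2 hl'.2 x hOwn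

/-- **many boxes with patches, with colours** (565's form of the hypotheses) -/
theorem iterate2_col' {T : Tiling Om ι} (hS : Step2 T La) {J : Type*} [Finite J]
    (B : J → PBox T La) {n : ℕ} (col : J → Fin n)
    (hcol : ∀ j j', j ≠ j' → col j = col j' → Disjoint (B j).Y (B j').Y)
    (hM : ∀ j j', j ≠ j' → ∀ k, Disjoint (B j).shell ((B j').M k))
    (hpat : ∀ i j, col i < col j → Disjoint (B i).pat (B j).shell)
    {h hi : E → E} (H : HP Om La h hi) (hOk : ∀ j, (B j).Ok h)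
    (θ : J → ℝ) (hθ : ∀ j, θ j ≤ (B j).t1)
    (hosc : ∀ j, ∀ S ⊆ ⋃ i, (B i).pat, IsPreconnected S → (∃ y ∈ S, (B j).t1 ≤ (B j).u y) →
      ∀ z ∈ S, θ j ≤ (B j).u z)
    (hSig : ∀ j, (B j).Sig h (θ j)) :
    ∃ Ψ : E ≃ₜ E, Mv T Ψ ∧ Near T h Ψ (⋃ j, (B j).pat) ∧
      ∀ Z : ℕ → Set E, (∀ i, Z i ⊆ Z (i + 1)) →
      (∀ i < n, ∀ j, (Z i ∩ (B j).Y).Nonempty → (B j).Y ⊆ Z (i + 1)) →
      (∀ x ∈ Om, T.dim x = 2 → h '' T.cc x ⊆ Z 0 → h '' (Ψ '' T.cc x) ⊆ Z n) ∧
      (∀ j, (B j).Y1 ⊆ Z 0 → ∀ x, (B j).Own h x → h '' (Ψ '' T.cc x) ⊆ Z n) := by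
  classical
  cases nonempty_fintype J
  have hrel : ∀ j j', j ≠ j' → col j ≤ col j' → Rel (B j) (B j') := by
    intro i j hne hle
    have hps : (B i).pat ⊆ (B i).shell := inter_subset_left
    refine ⟨?_, fun k => (hM i j hne k).mono_left hps⟩
    rcases hle.lt_or_eq with h1 | h1
    · exact hpat i j h1
    · exact (hcol i j hne h1).mono (hps.trans (B i).shell_sub_Y) (B j).shell_sub_Y
  -- the classes
  let cl : Fin n → List J := fun c => (Finset.univ.filter fun j => col j = c).toList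
  let cls : List (List J) := (List.finRange n).map cl
  have hlen : cls.length = n := by simp [cls]
  have hmemcl : ∀ c j, j ∈ cl c ↔ col j = c := by
    intro c j
    simp only [cl, Finset.mem_toList, Finset.mem_filter, Finset.mem_univ, true_and]
  have hmem : ∀ j, j ∈ cls.flatten := by
    intro j
    rw [List.mem_flatten]
    exact ⟨_, List.mem_map.2 ⟨col j, List.mem_finRange _, rfl⟩, (hmemcl _ _).2 rfl⟩
  have hpw : cls.flatten.Pairwise (fun j j' => j ≠ j' ∧ col j ≤ col j') := by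
    rw [List.pairwise_flatten]
    refine ⟨fun l hl => ?_, ?_⟩
    · obtain ⟨c, -, rfl⟩ := List.mem_map.1 hl
      have h1 : (cl c).Pairwise (fun j j' => j ≠ j') := Finset.nodup_toList _
      refine h1.imp_of_mem ?_
      intro j j' hj hj' hne
      rw [hmemcl] at hj hj'
      exact ⟨hne, by rw [hj, hj']⟩
    · rw [List.pairwise_map]
      refine (List.pairwise_lt_finRange n).imp ?_
      intro c c' hcc j hj j' hj'
      rw [hmemcl] at hj hj'
      refine ⟨?_, by rw [hj, hj']; exact hcc.le⟩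
      rintro rfl
      rw [hj] at hj'
      exact hcc.ne hj'
  have hcls : ∀ l ∈ cls, l.Pairwise (fun j j' => Disjoint (B j).Y (B j').Y) := by
    intro l hl
    obtain ⟨c, -, rfl⟩ := List.mem_map.1 hl
    have h1 : (cl c).Pairwise (fun j j' => j ≠ j') := Finset.nodup_toList _
    refine h1.imp_of_mem ?_
    intro j j' hj hj' hne
    rw [hmemcl] at hj hj'
    exact hcol j j' hne (hj.trans hj'.symm)
  obtain ⟨Ψ, hΨ, g0, g1, g2⟩ := iterate2' hS H B (PP := ⋃ j, (B j).pat) θ cls.flatten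
    (hpw.imp fun hne => hrel _ _ hne.1 hne.2)
    (fun j _ => ⟨hOk j, subset_iUnion (fun j => (B j).pat) j, hosc j, hθ j, hSig j⟩)
    (Homeomorph.refl E) ∅ Mv.refl (empty_subset _)
    (fun x _ _ z _ => Or.inl (Eventually.of_forall fun _ => rfl))
    (fun b _ => ⟨empty_disjoint _, fun k => empty_disjoint _⟩)
  have hrefl : ∀ s : Set E, h '' ((Homeomorph.refl E) '' s) = h '' s := by
    intro s
    have : (Homeomorph.refl E) '' s = s := by ext z; simp
    rw [this]
  have key : ∀ (ls : List (List J)), (∀ l' ∈ ls, ∃ l ∈ cls, l'.Sublist l) → ls.length ≤ n →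
      ∀ Z : ℕ → Set E, (∀ i, Z i ⊆ Z (i + 1)) →
      (∀ i < n, ∀ j, (Z i ∩ (B j).Y).Nonempty → (B j).Y ⊆ Z (i + 1)) →
      ∀ S ⊆ Z 0, reach S (ls.flatten.map fun j => (B j).Y) ⊆ Z n := by
    intro ls hls hn Z hZ hZY S hS
    have e : (ls.flatten.map fun j => (B j).Y) =
        (ls.map fun l => l.map fun j => (B j).Y).flatten := by
      rw [List.map_flatten]
    rw [e]
    have h1 := reach_chain Z hZ (ls.map fun l => l.map fun j => (B j).Y)
      (by
        intro l hl
        obtain ⟨l', hl', rfl⟩ := List.mem_map.1 hl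
        obtain ⟨l0, h0, h0'⟩ := hls l' hl'
        rw [List.pairwise_map]
        exact (hcls l0 h0).sublist h0') 0
      (by
        intro l hl Y hY i hi hm
        obtain ⟨l', hl', rfl⟩ := List.mem_map.1 hl
        obtain ⟨j, -, rfl⟩ := List.mem_map.1 hY
        rw [List.length_map, Nat.zero_add] at hi
        exact hZY i (lt_of_lt_of_le hi hn) j hm) S hS
    refine h1.trans ?_
    rw [List.length_map, Nat.zero_add]
    exact monotone_nat_of_le_succ hZ hn
  refine ⟨Ψ, hΨ, fun x hx hd z hz => ?_, fun Z hZ hZY => ⟨fun x hx hd h0 => ?_,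
    fun j hj x hOwn => ?_⟩⟩
  · refine (g0 x hx hd z hz).imp_right ?_
    rintro (q | ⟨j, hb, q⟩)
    · exact absurd q (notMem_empty _)
    · exact mem_iUnion.2 ⟨j, q⟩
  · exact (g1 x hx hd).trans (key cls (fun l hl => ⟨l, hl, List.Sublist.refl _⟩) hlen.le Z hZ hZY
      _ (by rw [hrefl]; exact h0))
  · obtain ⟨m1, m2, e⟩ := List.append_of_mem (hmem j)
    obtain ⟨ls', e', hl', hs'⟩ := flatten_suffix cls m1 j m2 e
    have h2 := g2 m1 j m2 e x hOwn
    refine h2.trans ?_
    rw [e']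
    exact key ls' hs' (hl'.trans hlen.le) Z hZ hZY _ hj


end Crest.Agent.R096.Pst_465
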