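import Crest.Agent.R096.Pst1_465
import Crest.Agent.R096.Sk3b_270
import Crest.Agent.R096.Pst3_465
import Crest.Agent.R096.P2l4_565
import Crest.Agent.R096.Sk3a_270

-- ▼ part R096/Tsk1_879
section

/-!
# Row 96 (S0127), p = 2: lemma 2SK2 (helper879, for 753 #10340 [B]), part 1

`Out2`: the conclusion of 465's `iterate2_col`.  `Out2.tiles`: the set form on tiles.
`Out2.near`: the metric form, for a map `f` near `h`.
-/

set_option autoImplicit false
set_option linter.unusedSectionVars false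

open Set Metric Topology Filter Module

namespace Crest.Agent.R096.Tsk_879

open Crest.Agent.R096.Msh_715
open Crest.Agent.R096.Sk2_855 (sk1 HP Mv)
open Crest.Agent.R096.Ub_113 (UBox)
open Crest.Agent.R096.Pst_465
open Crest.Agent.R096.Sk3_270 (capture_tile exists_min)

variable {E : Type*} [NormedAddCommGroup E] [NormedSpace ℝ E] {Om La : Set E} {ι : Type*}

/-- the conclusion of the iteration (465's `iterate2_col`) for one map `h` -/
structure Out2 (T : Tiling Om ι) {J : Type*} (B : J → PBox T La) (n : ℕ) (h : E → E)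
    (Ψ : E ≃ₜ E) : Prop where
  mv : Mv T Ψ
  nr : Near T h Ψ (⋃ j, (B j).pat)
  gr : ∀ Z : ℕ → Set E, (∀ m, Z m ⊆ Z (m + 1)) →
    (∀ m < n, ∀ j, (Z m ∩ (B j).Y).Nonempty → (B j).Y ⊆ Z (m + 1)) →
    (∀ x ∈ Om, T.dim x = 2 → h '' T.cc x ⊆ Z 0 → h '' (Ψ '' T.cc x) ⊆ Z n) ∧
    (∀ j, (B j).Y1 ⊆ Z 0 → ∀ x, (B j).Own h x → h '' (Ψ '' T.cc x) ⊆ Z n)

variable [FiniteDimensional ℝ E] {T : Tiling Om ι} {f : E → E} {J : Type*} {B : J → PBox T La}
  {n : ℕ} {h hi : E → E} {Ψ : E ≃ₜ E} {Y : J → Set E}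

/-- the set form -/
theorem Out2.tiles (O : Out2 T B n h Ψ) (h3 : finrank ℝ E = 3) (hLa : IsOpen La)
    (H : HP Om La h hi) (i : J → ι) (hY : ∀ j, (B j).Y ⊆ Y j) (hY1 : ∀ j, (B j).Y1 ⊆ Y j)
    (hOwn : ∀ j, ∀ x ∈ Om, T.dim x = 2 → T.cc x ⊆ P (T.H (i j)) → (B j).Own h x)
    (Z : ℕ → Set E) (hZ : ∀ m, Z m ⊆ Z (m + 1))
    (hZY : ∀ m < n, ∀ j, (Z m ∩ Y j).Nonempty → Y j ⊆ Z (m + 1)) (hC : Convex ℝ (Z n))
    (hCc : IsClosed (Z n)) :
    (∀ j, Y j ⊆ Z 0 → ∀ x ∈ P (T.H (i j)), h (Ψ x) ∈ Z n) ∧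
    (∀ k, (∀ x ∈ P (T.H k), T.dim x ≤ 2 → h x ∈ Z 0) → ∀ x ∈ P (T.H k), h (Ψ x) ∈ Z n) ∧
    (∀ x ∈ Om, T.dim x = 2 → h '' T.cc x ⊆ Z 0 → ∀ z ∈ T.cc x, h (Ψ z) ∈ Z n) := by
  obtain ⟨g1, g2⟩ := O.gr Z hZ fun m hm j hne =>
    (hY j).trans (hZY m hm j (hne.mono (inter_subset_inter_right _ (hY j))))
  refine ⟨fun j hj => capture_tile h3 H hLa O.mv (i j) hC hCc fun y hy hyd hyi =>
    g2 j ((hY1 j).trans hj) y (hOwn j y hy hyd hyi), fun k hk =>
      capture_tile h3 H hLa O.mv k hC hCc fun y hy hyd hyi => ?_, fun x hx hd h0 z hz =>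
        g1 x hx hd h0 ⟨Ψ z, ⟨z, hz, rfl⟩, rfl⟩⟩
  refine g1 y hy hyd ?_
  rintro _ ⟨x, hx, rfl⟩
  refine hk x (hyi hx) ?_
  have h1 : T.dim x ≤ T.dim y := T.dim_le hx
  omega

/-- the metric form for a map `f` near `h` -/
theorem Out2.near (O : Out2 T B n h Ψ) (h3 : finrank ℝ E = 3) (hLa : IsOpen La)
    (H : HP Om La h hi) (i : J → ι) (hY : ∀ j, (B j).Y ⊆ Y j) (hY1 : ∀ j, (B j).Y1 ⊆ Y j)
    (hOwn : ∀ j, ∀ x ∈ Om, T.dim x = 2 → T.cc x ⊆ P (T.H (i j)) → (B j).Own h x)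
    {e : ℝ} (he : 0 ≤ e) (hh : ∀ x ∈ Om, ‖h x - f x‖ ≤ e / 2) :
    (∀ j (y0 : E) (R D : ℝ), 0 ≤ D → Y j ⊆ closedBall y0 R →
      (∀ j', (Y j' ∩ closedBall y0 (R + n * D + e)).Nonempty →
        ∀ y ∈ Y j', ∀ y' ∈ Y j', ‖y - y'‖ ≤ D) →
      ∀ x ∈ P (T.H (i j)), ‖f (Ψ x) - y0‖ ≤ R + n * D + e) ∧
    (∀ k (y0 : E) (R D : ℝ), 0 ≤ D → (∀ x ∈ P (T.H k), T.dim x ≤ 2 → f x ∈ closedBall y0 R) →
      (∀ j', (Y j' ∩ closedBall y0 (R + n * D + e)).Nonempty →
        ∀ y ∈ Y j', ∀ y' ∈ Y j', ‖y - y'‖ ≤ D) →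
      ∀ x ∈ P (T.H k), ‖f (Ψ x) - y0‖ ≤ R + n * D + e) ∧
    (∀ x ∈ Om, T.dim x = 2 → ∀ (y0 : E) (R D : ℝ), 0 ≤ D →
      (∀ z ∈ T.cc x, f z ∈ closedBall y0 R) →
      (∀ j', (Y j' ∩ closedBall y0 (R + n * D + e)).Nonempty →
        ∀ y ∈ Y j', ∀ y' ∈ Y j', ‖y - y'‖ ≤ D) →
      ∀ z ∈ T.cc x, ‖f (Ψ z) - y0‖ ≤ R + n * D + e) := by
  -- balls
  have key : ∀ (y0 : E) (R D : ℝ), 0 ≤ D →
      (∀ j', (Y j' ∩ closedBall y0 (R + n * D)).Nonempty → ∀ y ∈ Y j', ∀ y' ∈ Y j', ‖y - y'‖ ≤ D) →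
      (∀ j, Y j ⊆ closedBall y0 R → ∀ x ∈ P (T.H (i j)), ‖h (Ψ x) - y0‖ ≤ R + n * D) ∧
      (∀ k, (∀ x ∈ P (T.H k), T.dim x ≤ 2 → h x ∈ closedBall y0 R) →
        ∀ x ∈ P (T.H k), ‖h (Ψ x) - y0‖ ≤ R + n * D) ∧
      (∀ x ∈ Om, T.dim x = 2 → (∀ z ∈ T.cc x, h z ∈ closedBall y0 R) →
        ∀ z ∈ T.cc x, ‖h (Ψ z) - y0‖ ≤ R + n * D) := by
    intro y0 R D hD hdiam
    obtain ⟨g1, g2, g3⟩ := O.tiles h3 hLa H i hY hY1 hOwn (fun m => closedBall y0 (R + m * D))
      (by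
        intro m
        refine closedBall_subset_closedBall ?_
        push_cast
        nlinarith)
      (by
        rintro m hm j' ⟨y', hy'', hy'⟩ y hy
        have hmn : (m : ℝ) * D ≤ n * D :=
          mul_le_mul_of_nonneg_right (by exact_mod_cast hm.le) hD
        have h1 := hdiam j' ⟨y', hy', closedBall_subset_closedBall (by linarith) hy''⟩ y hy y' hy'
        have h2 : ‖y' - y0‖ ≤ R + m * D := by
          rw [← dist_eq_norm]; exact hy''
        show y ∈ closedBall y0 (R + ((m + 1 : ℕ) : ℝ) * D)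
        rw [mem_closedBall, dist_eq_norm]
        have e1 : y - y0 = (y - y') + (y' - y0) := by abel
        rw [e1]
        refine (norm_add_le _ _).trans ?_
        push_cast
        linarith)
      (convex_closedBall _ _) isClosed_closedBall
    refine ⟨fun j hj x hx => ?_, fun k hk x hx => ?_, fun x hx hd hk z hz => ?_⟩
    · have := g1 j (by simpa using hj) x hx
      rwa [mem_closedBall, dist_eq_norm] at this
    · have := g2 k (by simpa using hk) x hx
      rwa [mem_closedBall, dist_eq_norm] at this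
    · have := g3 x hx hd (by
        rintro _ ⟨w, hw, rfl⟩
        simpa using hk w hw) z hz
      rwa [mem_closedBall, dist_eq_norm] at this
  have hfΨ : ∀ x ∈ Om, ∀ y0 : E, ‖f (Ψ x) - y0‖ ≤ ‖h (Ψ x) - y0‖ + e / 2 := by
    intro x hx y0
    have h1 := hh (Ψ x) (O.mv.mapsTo hx)
    have e1 : f (Ψ x) - y0 = (h (Ψ x) - y0) - (h (Ψ x) - f (Ψ x)) := by abel
    rw [e1]
    exact (norm_sub_le _ _).trans (by linarith)
  have hfh : ∀ x ∈ Om, ∀ (y0 : E) (R : ℝ), f x ∈ closedBall y0 R →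
      h x ∈ closedBall y0 (R + e / 2) := by
    intro z hz y0 R h4
    have h5 := hh z hz
    rw [mem_closedBall, dist_eq_norm] at h4 ⊢
    have e1 : h z - y0 = (h z - f z) + (f z - y0) := by abel
    rw [e1]
    exact (norm_add_le _ _).trans (by linarith)
  refine ⟨fun j y0 R D hD hj hdiam x hx => ?_, fun k y0 R D hD hk hdiam x hx => ?_,
    fun x hx hd y0 R D hD hk hdiam z hz => ?_⟩
  · have h1 := (key y0 R D hD fun j' hj' => hdiam j' (hj'.mono (inter_subset_inter_right _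
      (closedBall_subset_closedBall (by linarith))))).1 j hj x hx
    have h2 := hfΨ x (T.sub _ hx) y0
    linarith
  · have h1 := (key y0 (R + e / 2) D hD fun j' hj' => hdiam j' (hj'.mono
      (inter_subset_inter_right _ (closedBall_subset_closedBall (by linarith))))).2.1 k
      (fun z hz hzd => hfh z (T.sub _ hz) y0 R (hk z hz hzd)) x hx
    have h2 := hfΨ x (T.sub _ hx) y0
    linarith
  · have h1 := (key y0 (R + e / 2) D hD fun j' hj' => hdiam j' (hj'.mono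
      (inter_subset_inter_right _ (closedBall_subset_closedBall (by linarith))))).2.2 x hx hd
      (fun w hw => hfh w (T.cc_sub_Om hx hw) y0 R (hk w hw)) z hz
    have h2 := hfΨ z (T.cc_sub_Om hx hz) y0
    linarith

/-- the points of the faces: `Ψ` is the identity nearby, or the image is near a patch of a shell -/
theorem Out2.patch (O : Out2 T B n h Ψ) {e : ℝ} (hh : ∀ x ∈ Om, ‖h x - f x‖ ≤ e) {x : E}
    (hx : x ∈ Om) (hd : T.dim x = 2) {z : E} (hz : z ∈ T.cc x) :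
    (∀ᶠ y in 𝓝 z, Ψ y = y) ∨
      ∃ j m, ∃ w ∈ (B j).shell, w ∈ (B j).c' m ∧ ‖f (Ψ z) - w‖ ≤ e := by
  refine (O.nr x hx hd z hz).imp_right fun h1 => ?_
  obtain ⟨j, hj⟩ := mem_iUnion.1 h1
  obtain ⟨h2, h4⟩ := hj
  obtain ⟨m, hm⟩ := mem_iUnion.1 h4
  refine ⟨j, m, h (Ψ z), h2, hm, ?_⟩
  rw [norm_sub_rev]
  exact hh _ (O.mv.mapsTo (T.cc_sub_Om hx hz))

end Crest.Agent.R096.Tsk_879
end

-- ▼ part R096/Tsk2_879
section

/-!
# Row 96 (S0127), p = 2: lemma 2SK2 (helper879, for 753 #10340 [B]), part 2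

`thr_of_clean`: a clean level gives 465's `hosc`.  `two_sk2`: the end of the chain, from the boxes
of a finite family of tiles (565's output) to the metric statement for `f ∘ Ψ`.
-/

set_option autoImplicit false
set_option linter.unusedSectionVars false

open Set Metric Topology Filter Module

namespace Crest.Agent.R096.Tsk_879

open Crest.Agent.R096.Msh_715
open Crest.Agent.R096.Sk2_855 (sk1 HP Mv)
open Crest.Agent.R096.Ub_113 (UBox)
open Crest.Agent.R096.Pst_465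
open Crest.Agent.R096.Sk3_270 (capture_tile exists_min)

variable {E : Type*} [NormedAddCommGroup E] [NormedSpace ℝ E] {Om La : Set E} {ι : Type*}


variable [FiniteDimensional ℝ E] {T : Tiling Om ι} {f : E → E} {J : Type*}

/-- the boxes of a finite family of tiles for a map `f` (output of L7, 565 #10287) : `Y j` bodies,
`θ j` thresholds, `η` the closeness -/
structure Fam2 (T : Tiling Om ι) (La : Set E) (f : E → E) (i : J → ι) (Y : J → Set E) {n : ℕ}
    (col : J → Fin n) where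
  B : J → PBox T La
  θ : J → ℝ
  η : ℝ
  hη : 0 < η
  /-- (i) -/
  hM : ∀ j j', j ≠ j' → ∀ k, Disjoint (B j).shell ((B j').M k)
  /-- (ii) -/
  hpat : ∀ j j', col j < col j' → Disjoint (B j).pat (B j').shell
  /-- (iii) -/
  hθ : ∀ j, θ j ≤ (B j).t1
  hthr : ∀ j, Thr (B j).u (⋃ j', (B j').pat) (B j).t1 (θ j)
  /-- (iv) -/
  ok : ∀ h : E → E, (∀ x ∈ Om, ‖h x - f x‖ ≤ η) → ∀ j, (B j).Ok h ∧ (B j).Sig h (θ j) ∧
    ∀ x ∈ Om, T.dim x = 2 → T.cc x ⊆ P (T.H (i j)) → (B j).Own h x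
  /-- (v) -/
  hY : ∀ j, {y | (B j).u y ≤ (B j).t1} ⊆ Y j
  hcol : ∀ j j', j ≠ j' → col j = col j' → Disjoint (Y j) (Y j')

namespace Fam2

variable {i : J → ι} {Y : J → Set E} {n : ℕ} {col : J → Fin n} (F : Fam2 T La f i Y col)

theorem Y_sub (j : J) : (F.B j).Y ⊆ Y j :=
  fun _ hy => F.hY j (le_trans hy (F.B j).bt)

theorem Y1_sub (j : J) : (F.B j).Y1 ⊆ Y j := by
  intro y hy
  have hy' : (F.B j).u y < (F.B j).t1 := hy
  exact F.hY j hy'.le

/-- one map `h` -/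
theorem out (hS : Step2 T La) [Finite J] {h hi : E → E} (H : HP Om La h hi)
    (hh : ∀ x ∈ Om, ‖h x - f x‖ ≤ F.η) : ∃ Ψ : E ≃ₜ E, Out2 T F.B n h Ψ := by
  obtain ⟨Ψ, h1, h2, h3⟩ := iterate2_col' hS F.B col
    (fun j j' hne e => (F.hcol j j' hne e).mono (F.Y_sub j) (F.Y_sub j')) F.hM F.hpat H
    (fun j => (F.ok h hh j).1) F.θ F.hθ F.hthr (fun j => (F.ok h hh j).2.1)
  exact ⟨Ψ, h1, h2, h3⟩



end Fam2

end Crest.Agent.R096.Tsk_879
end

-- ▼ part R096/P2l5_565
section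

/-!
# Row 96 (S0127), p = 2: leaf [L7] P2-LEVELS (helper565), part 5: the box with patches of one tile
-/

set_option autoImplicit false
set_option linter.unusedSectionVars false

open Set Metric MeasureTheory

namespace Crest.Agent.R096.P2l_565

open Msh_715 (Tiling)
open Ce_537 (IsBall)
open Sk2_855 (sk1 HP Mv)
open Srg_465 (Circ DiscIn Ls)
open Ub_113 (UBox)
open Pst_465 (PBox)

variable {E : Type*} [NormedAddCommGroup E] [NormedSpace ℝ E] {Om La : Set E} {ι : Type*}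
  [FiniteDimensional ℝ E]

/-- the box with patches of one tile at a chosen level -/
theorem exists_pbox {T : Tiling Om ι} {f : E → E} {F Y : Set E} (O : One2 T La f F Y)
    (D : Dat E O.Fs) {η : ℝ} (hη : 0 < η) (h0 : O.t0 < D.ts - η) (hm : D.ts + η < O.tm)
    (hρ : ∀ k m, 0 < D.ρ k m) (hσ : ∀ k, ∑ m, D.ρ k m ≤ O.σf)
    (hcov : ∀ k : O.Fs, Cov (T.cc k) f O.u O.th D.ts (D.n k) (D.y k) (D.ρ k) η)
    (hG : D.ts ∈ O.G) {ζ : ℝ} (hζ : 0 < ζ) (hζη : ζ ≤ η) :
    ∃ (B : PBox T La) (η' : ℝ), 0 < η' ∧ B.u = O.u ∧ D.ts - ζ ≤ B.a ∧ B.b ≤ D.ts + ζ ∧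
      B.t1 = O.t1 ∧ B.N = {x | T.cc x ⊆ F} ∧
      (∀ k, ∃ x ∈ sk1 T, O.u (f x) = D.ts ∧ B.M k ⊆ closedBall (f x) ζ) ∧
      (⋃ m, B.c' m = pat O.C D) ∧
      (∃ (y : Fin B.n → E) (ρ : Fin B.n → ℝ), (∀ m, 0 < ρ m) ∧
        (∀ m, B.c' m = closedBall (y m) (ρ m)) ∧ ∑ m, ρ m ≤ O.C * (O.Fs.card * O.σf)) ∧
      ∀ h : E → E, (∀ x ∈ Om, ‖h x - f x‖ ≤ η') → B.Ok h ∧ B.Sig h O.th ∧
        ∀ x ∈ Om, T.dim x = 2 → T.cc x ⊆ F → B.Own h x := by
  classical
  have hts : D.ts ∈ Ioo O.t0 O.tm := ⟨by linarith, by linarith⟩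
  set ζ' : ℝ := min ζ ((O.D0 - 2 * (O.C * (O.Fs.card * O.σf))) / 8) with hζ'
  have hgap := O.hD0
  have hζ0 : 0 < ζ' := lt_min hζ (by linarith)
  have hζ1 : ζ' ≤ ζ := min_le_left _ _
  have hζ2 : ζ' ≤ (O.D0 - 2 * (O.C * (O.Fs.card * O.σf))) / 8 := min_le_right _ _
  obtain ⟨B0, η0, hη0, hu, ha, ha', hb', hb, hM, hOk⟩ := O.box D.ts hG hts ζ' hζ0
  -- the index set of the balls
  let e := Fintype.equivFin (Σ k : O.Fs, Fin (D.n k))
  let c : Fin (Fintype.card (Σ k : O.Fs, Fin (D.n k))) → E := fun m =>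
    D.y (e.symm m).1 (e.symm m).2
  let r : Fin (Fintype.card (Σ k : O.Fs, Fin (D.n k))) → ℝ := fun m =>
    D.ρ (e.symm m).1 (e.symm m).2
  have hr : ∀ m, 0 < r m := fun m => hρ _ _
  have hrσ : ∀ m, r m ≤ O.Fs.card * O.σf := by
    intro m
    have h1 : r m ≤ ∑ m', D.ρ (e.symm m).1 m' :=
      Finset.single_le_sum (f := fun m' => D.ρ (e.symm m).1 m') (fun m' _ => (hρ _ m').le)
        (Finset.mem_univ (e.symm m).2)
    have h2 := h1.trans (hσ _)
    have h3 : 0 < O.σf := (hr m).trans_le h2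
    have h4 : (1 : ℝ) ≤ O.Fs.card := by
      have : 0 < O.Fs.card := Finset.card_pos.2 ⟨_, (e.symm m).1.2⟩
      exact_mod_cast this
    nlinarith
  have hsumr : ∑ m, r m ≤ O.Fs.card * O.σf := by
    have h1 : ∑ m, r m = ∑ a : (Σ k : O.Fs, Fin (D.n k)), D.ρ a.1 a.2 :=
      Fintype.sum_equiv e.symm _ _ fun _ => rfl
    rw [h1, ← Finset.univ_sigma_univ, Finset.sum_sigma]
    calc ∑ k : O.Fs, ∑ m, D.ρ k m ≤ ∑ _k : O.Fs, O.σf := Finset.sum_le_sum fun k _ => hσ k
      _ = O.Fs.card * O.σf := by simp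
  have hwin : ∀ t ∈ Ioo B0.a B0.b, t ∈ Ioo O.t0 O.tm ∧ |t - D.ts| ≤ η := by
    intro t ht
    refine ⟨⟨by linarith [ht.1], by linarith [ht.2]⟩, ?_⟩
    rw [abs_le]
    exact ⟨by linarith [ht.1], by linarith [ht.2]⟩
  -- the marks are not all in one patch
  have hfar : ∀ t ∈ Ioo B0.a B0.b, ∀ m, ∃ k, ∃ y ∈ B0.M k, B0.u y = t ∧
      y ∉ closedBall (c m) (O.C * r m) := by
    intro t ht m
    obtain ⟨hOf, -⟩ := hOk f fun x _ => by rw [sub_self, norm_zero]; exact hη0.le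
    have key : ∀ x ∈ sk1 T, O.u (f x) = D.ts → ∃ k, ∃ y ∈ B0.M k, B0.u y = t ∧
        dist y (f x) ≤ 2 * ζ' := by
      intro x hx hxs
      obtain ⟨k, -, hk⟩ := hOf.edges x hx ⟨by rw [hu, hxs]; exact ha'.le, by
        rw [hu, hxs]; exact hb'.le⟩
      obtain ⟨y, hy, hyt⟩ := (B0.Mlev k t ⟨ht.1.le, ht.2.le⟩).2
      obtain ⟨x', -, -, hsub⟩ := hM k
      refine ⟨k, y, hy, hyt, ?_⟩
      have d1 := mem_closedBall.1 (hsub hy)
      have d2 := mem_closedBall'.1 (hsub hk)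
      have := dist_triangle y (f x') (f x)
      linarith
    obtain ⟨x1, hx1, x2, hx2, e1, e2, hd⟩ := O.spread D.ts hG hts
    obtain ⟨k1, y1, hy1, ht1, hd1⟩ := key x1 hx1 e1
    obtain ⟨k2, y2, hy2, ht2, hd2⟩ := key x2 hx2 e2
    by_cases h1 : y1 ∈ closedBall (c m) (O.C * r m)
    · by_cases h2 : y2 ∈ closedBall (c m) (O.C * r m)
      · exfalso
        have d1 := mem_closedBall.1 h1
        have d2 := mem_closedBall'.1 h2
        have t1 := dist_triangle4 (f x1) y1 y2 (f x2)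
        have t2 := dist_triangle y1 (c m) y2
        have t3 : O.C * r m ≤ O.C * (O.Fs.card * O.σf) :=
          mul_le_mul_of_nonneg_left (hrσ m) O.C0.le
        rw [dist_comm] at hd1
        linarith
      · exact ⟨k2, y2, hy2, ht2, h2⟩
    · exact ⟨k1, y1, hy1, ht1, h1⟩
  let B : PBox T La :=
    { toUBox := B0
      n := _
      c := fun m => closedBall (c m) (r m)
      c' := fun m => closedBall (c m) (O.C * r m)
      cl := fun m => isClosed_closedBall
      t1 := O.t1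
      bt := by linarith [O.mh, O.ht]
      sep := by
        intro t ht m
        rw [hu]
        exact O.patch t (hwin t ht).1 (c m) (r m) (hr m)
      far := hfar
      N := {x | T.cc x ⊆ F} }
  refine ⟨B, min η0 η, ?_, hu, by linarith, by linarith, rfl, rfl, ?_, ?_, ?_,
    fun h hh => ?_⟩
  · exact lt_min hη0 hη
  · intro k
    obtain ⟨x, hx, hxs, hsub⟩ := hM k
    exact ⟨x, hx, hxs, hsub.trans (closedBall_subset_closedBall hζ1)⟩
  · ext z
    simp only [pat, mem_iUnion, B, c, r]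
    constructor
    · rintro ⟨m, hz⟩
      exact ⟨_, _, hz⟩
    · rintro ⟨k, m, hz⟩
      refine ⟨e ⟨k, m⟩, ?_⟩
      rw [Equiv.symm_apply_apply]
      exact hz
  · refine ⟨c, fun m => O.C * r m, fun m => mul_pos O.C0 (hr m), fun m => rfl, ?_⟩
    rw [← Finset.mul_sum]
    exact mul_le_mul_of_nonneg_left hsumr O.C0.le
  · have hh0 : ∀ x ∈ Om, ‖h x - f x‖ ≤ η0 := fun x hx => (hh x hx).trans (min_le_left _ _)
    have hh1 : ∀ x ∈ Om, ‖h x - f x‖ ≤ η := fun x hx => (hh x hx).trans (min_le_right _ _)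
    obtain ⟨hO1, hO2⟩ := hOk h hh0
    refine ⟨hO1, ?_, ?_⟩
    · rintro x ⟨hsub, hx, hd, -, hrim⟩ t ht Γ K hΓ hK hz
      obtain ⟨x', hx', ecc⟩ := O.rep x hx hd hsub
      have hc := hcov ⟨x', hx'⟩
      simp only at hc
      rw [ecc] at hc
      have hu' : ∀ z, B.u z = O.u z := fun z => congrFun hu z
      have hcirc : Circ (T.cc x) (T.cc x ∩ sk1 T) (fun z => O.u (h z)) t Γ := by
        have : (fun z => O.u (h z)) = fun z => B.u (h z) := funext fun z => (hu' (h z)).symm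
        rw [this]
        exact hΓ
      obtain ⟨m, hm'⟩ := sig_of_cov hx hd hc hh1 (hwin t ht).2 hcirc hK (by
        obtain ⟨z, hz, hz'⟩ := hz
        exact ⟨z, hz, by rw [← hu']; exact hz'⟩)
      refine ⟨e ⟨⟨x', hx'⟩, m⟩, hm'.trans (le_of_eq ?_)⟩
      exact (congrArg (fun a : (Σ k : O.Fs, Fin (D.n k)) =>
        closedBall (D.y a.1 a.2) (D.ρ a.1 a.2)) (e.symm_apply_apply ⟨⟨x', hx'⟩, m⟩)).symm
    · intro x hx hd hF
      obtain ⟨h1, h2⟩ := hO2 x hx hd hF
      refine ⟨hF, hx, hd, h1, fun z hz hz1 => ?_⟩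
      show B0.u (h z) < B0.a
      rw [hu]
      exact h2 z hz hz1

end Crest.Agent.R096.P2l_565
end

-- ▼ part R096/P2l6_565

/-!
# Row 96 (S0127), p = 2: leaf [L7] P2-LEVELS (helper565), part 6: the family of boxes
-/

set_option autoImplicit false
set_option linter.unusedSectionVars false

open Set Metric MeasureTheory

namespace Crest.Agent.R096.P2l_565

open Msh_715 (Tiling)
open Ce_537 (IsBall)
open Sk2_855 (sk1 HP Mv)
open Ub_113 (UBox)
open Pst_465 (PBox)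

/-- a preconnected subset of a finite union of balls has diameter at most the sum of the
diameters -/
theorem dist_le_of_cover {E : Type*} [PseudoMetricSpace E] {S : Set E} (hS : IsPreconnected S)
    {κ : Type*} (s : Finset κ) (c : κ → E) (r : κ → ℝ) (hr : ∀ m ∈ s, 0 ≤ r m)
    (hcov : S ⊆ ⋃ m ∈ s, closedBall (c m) (r m)) {y z : E} (hy : y ∈ S) (hz : z ∈ S) :
    dist y z ≤ ∑ m ∈ s, 2 * r m := by
  have hc : Continuous fun x => dist y x := by fun_prop
  have h1 : Icc 0 (dist y z) ⊆ ⋃ m ∈ s, Icc (dist y (c m) - r m) (dist y (c m) + r m) := by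
    have h2 : Icc 0 (dist y z) ⊆ (fun x => dist y x) '' S := by
      have := hS.intermediate_value hy hz hc.continuousOn
      simpa using this
    refine h2.trans ?_
    rintro _ ⟨x, hx, rfl⟩
    obtain ⟨m, hm, hxm⟩ := mem_iUnion₂.1 (hcov hx)
    refine mem_iUnion₂.2 ⟨m, hm, ?_⟩
    have h3 := mem_closedBall.1 hxm
    have h4 := dist_triangle y x (c m)
    have h5 := dist_triangle y (c m) x
    rw [dist_comm (c m) x] at h5
    exact ⟨by linarith, by linarith⟩
  have h2 : volume (Icc 0 (dist y z)) ≤ ENNReal.ofReal (∑ m ∈ s, 2 * r m) := by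
    refine (measure_mono h1).trans ((measure_biUnion_finset_le _ _).trans ?_)
    rw [ENNReal.ofReal_sum_of_nonneg fun m hm => by linarith [hr m hm]]
    refine Finset.sum_le_sum fun m _ => ?_
    rw [Real.volume_Icc]
    exact ENNReal.ofReal_le_ofReal (by linarith)
  rw [Real.volume_Icc, sub_zero] at h2
  exact (ENNReal.ofReal_le_ofReal_iff
    (Finset.sum_nonneg fun m hm => by linarith [hr m hm])).1 h2

/-- an injective rank which refines the colours -/
theorem exists_rank {J : Type*} [Finite J] {n : ℕ} (col : J → Fin n) :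
    ∃ rk : J → ℕ, Function.Injective rk ∧ ∀ i j, col i < col j → rk i < rk j := by
  cases nonempty_fintype J
  let e := Fintype.equivFin J
  have hlt : ∀ i j, col i < col j → (col i : ℕ) * Fintype.card J + e i <
      (col j : ℕ) * Fintype.card J + e j := by
    intro i j h
    have h1 : (col i : ℕ) + 1 ≤ col j := h
    have h2 : ((e i : Fin _) : ℕ) < Fintype.card J := (e i).2
    have h3 := Nat.mul_le_mul_right (Fintype.card J) h1
    rw [add_mul, one_mul] at h3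
    omega
  refine ⟨fun j => (col j : ℕ) * Fintype.card J + e j, fun i j h => ?_, hlt⟩
  rcases lt_trichotomy (col i) (col j) with h1 | h1 | h1
  · exact absurd h (hlt i j h1).ne
  · simp only at h
    rw [h1] at h
    exact e.injective (Fin.ext (by omega))
  · exact absurd h (hlt j i h1).ne'

variable {E : Type*} [NormedAddCommGroup E] [NormedSpace ℝ E] {Om La : Set E} {ι : Type*}
  [FiniteDimensional ℝ E]

theorem isClosed_patB {T : Tiling Om ι} (B : PBox T La) : IsClosed B.pat := by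
  unfold PBox.pat UBox.shell
  refine ((isClosed_le continuous_const B.cont).inter
    (isClosed_le B.cont continuous_const)).inter (isClosed_iUnion_of_finite fun m => B.cl m)

/-- **the boxes of a finite family of tiles, p = 2**: levels, patches and tolerance from `f`
alone.  `g` = the group of a tile (good cube); `Sg a` bounds the total radius of all patches of
the group `a`. -/
theorem family2 {T : Tiling Om ι} {f : E → E} {J : Type*} [Fintype J] {F Y : J → Set E}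
    (O : ∀ j, One2 T La f (F j) (Y j)) {n : ℕ} (col : J → Fin n) {A : Type*} [DecidableEq A]
    (g : J → A) (hg : ∀ j j', g j ≠ g j' → Disjoint (Y j) (Y j')) (Sg : A → ℝ)
    (hS : ∀ a, ∑ j ∈ Finset.univ.filter (fun j => g j = a),
      (O j).C * ((O j).Fs.card * (O j).σf) ≤ Sg a)
    (hsum : ∀ i, (O i).θ0 + (O i).Fs.card * (O i).θf + 2 * ((O i).L * Sg (g i)) <
      (O i).tm - (O i).t0)
    (hosc : ∀ i, (O i).th + 2 * ((O i).L * Sg (g i)) ≤ (O i).t1) :
    ∃ (B : J → PBox T La) (η : ℝ), 0 < η ∧ (∀ j, (B j).u = (O j).u) ∧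
      (∀ j, (B j).t1 = (O j).t1) ∧ (∀ j, (B j).N = {x | T.cc x ⊆ F j}) ∧
      (∀ j, (O j).t0 < (B j).a ∧ (B j).b < (O j).tm) ∧
      (∀ j j', j ≠ j' → ∀ k, Disjoint (B j).shell ((B j').M k)) ∧
      (∀ i j, col i < col j → Disjoint (B i).pat (B j).shell) ∧
      (∀ j, ∀ S ⊆ ⋃ i, (B i).pat, IsPreconnected S → (∃ y ∈ S, (B j).t1 ≤ (B j).u y) →
        ∀ z ∈ S, (O j).th ≤ (B j).u z) ∧
      (∀ j, ∃ (y : Fin (B j).n → E) (ρ : Fin (B j).n → ℝ), (∀ m, 0 < ρ m) ∧
        (∀ m, (B j).c' m = closedBall (y m) (ρ m)) ∧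
        ∑ m, ρ m ≤ (O j).C * ((O j).Fs.card * (O j).σf)) ∧
      ∀ h : E → E, (∀ x ∈ Om, ‖h x - f x‖ ≤ η) → ∀ j, (B j).Ok h ∧ (B j).Sig h (O j).th ∧
        ∀ x ∈ Om, T.dim x = 2 → T.cc x ⊆ F j → (B j).Own h x := by
  classical
  obtain ⟨rk, hinj, hrk⟩ := exists_rank col
  have hpos : ∀ j, 0 ≤ (O j).C * ((O j).Fs.card * (O j).σf) := fun j =>
    mul_nonneg (O j).C0.le (mul_nonneg (Nat.cast_nonneg _) (O j).σf0)
  let R : J → J → ℝ → ℝ → Prop := fun j j' s s' => ∃ x ∈ sk1 T, (O j).u (f x) = s ∧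
    (O j').u (f x) = s'
  let nb : J → Finset J := fun i => Finset.univ.filter fun j => col j < col i ∧ g j = g i
  obtain ⟨D, η, hη, hwin, hρ, hσ, hcov, hpat, hG, hR⟩ := levels2
    (K := fun i => {x // x ∈ (O i).Fs}) rk nb
    (fun i j hj => hrk j i (Finset.mem_filter.1 hj).2.1)
    (fun i => (O i).u) (fun i => (O i).L) (fun i => (O i).L0) (fun i => (O i).lip)
    (fun i => (O i).t0) (fun i => (O i).tm) (fun i => (O i).θ0) (fun i => (O i).θ00)
    (fun i _ => (O i).θf) (fun i _ => (O i).σf) (fun i _ => (O i).θf0)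
    (C := fun i => (O i).C) (fun i => (O i).C0.le)
    (by
      intro i
      refine lt_of_le_of_lt ?_ (hsum i)
      have e1 : ∑ _k : {x // x ∈ (O i).Fs}, (O i).θf = (O i).Fs.card * (O i).θf := by simp
      rw [e1]
      refine add_le_add le_rfl ?_
      have e2 : ∀ j, ∑ _k : {x // x ∈ (O j).Fs}, 2 * ((O i).L * (O j).C * (O j).σf) =
          2 * ((O i).L * ((O j).C * ((O j).Fs.card * (O j).σf))) := by
        intro j
        simp only [Finset.sum_const, Finset.card_univ, Fintype.card_coe, nsmul_eq_mul]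
        ring
      simp only [e2]
      rw [← Finset.mul_sum, ← Finset.mul_sum]
      refine mul_le_mul_of_nonneg_left (mul_le_mul_of_nonneg_left ?_ (O i).L0) zero_le_two
      refine le_trans ?_ (hS (g i))
      refine Finset.sum_le_sum_of_subset_of_nonneg ?_ fun j _ _ => hpos j
      intro j hj
      rw [Finset.mem_filter] at hj ⊢
      exact ⟨hj.1, hj.2.2⟩)
    (fun i => (O i).G) (fun i => (O i).bad0) R
    (by
      intro i j _ s hs
      refine (((O j).fin s hs).image fun x => (O i).u (f x)).subset ?_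
      rintro s' ⟨x, hx, e1, e2⟩
      exact ⟨x, ⟨hx, e1⟩, e2⟩)
    (fun i k ts n y ρ η => Cov (T.cc (k : E)) f (O i).u (O i).th ts n y ρ η)
    (fun _ _ _ _ _ _ _ _ h _ H => H.mono h)
    (fun i k => (O i).sc k k.2)
  -- the levels of different boxes do not meet on the 1-skeleton
  have hR' : ∀ j j', j ≠ j' → ¬ R j j' (D j).ts (D j').ts := by
    intro j j' hne
    rcases lt_trichotomy (rk j) (rk j') with h1 | h1 | h1
    · exact hR j' j h1
    · exact absurd (hinj h1) hne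
    · rintro ⟨x, hx, e1, e2⟩
      exact hR j j' h1 ⟨x, hx, e2, e1⟩
  -- a common margin
  have hζ : ∀ p : J × J, ∃ ζ > 0, p.1 ≠ p.2 →
      ∀ x ∈ sk1 T, (O p.2).u (f x) = (D p.2).ts → ∀ z ∈ closedBall (f x) ζ,
        ζ < |(O p.1).u z - (D p.1).ts| := by
    rintro ⟨j, j'⟩
    by_cases hne : j = j'
    · exact ⟨1, one_pos, fun h => absurd hne h⟩
    · obtain ⟨ζ, h1, h2⟩ := Sk3_270.exists_margin (O j).cont (s := (D j).ts)
        (((O j').fin (D j').ts (hG j')).image f) (by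
          rintro _ ⟨x, ⟨hx, e⟩, rfl⟩ e'
          exact hR' j j' hne ⟨x, hx, e', e⟩)
      exact ⟨ζ, h1, fun _ x hx e z hz => h2 _ ⟨x, ⟨hx, e⟩, rfl⟩ z hz⟩
  choose ζ hζ0 hζ' using hζ
  obtain ⟨ζ1, hz1, hz1'⟩ := Sk3_270.exists_min ζ hζ0
  set ζ0 : ℝ := min ζ1 (η / 2) with hζ0def
  have hz0 : 0 < ζ0 := lt_min hz1 (half_pos hη)
  have hzη : ζ0 ≤ η / 2 := min_le_right _ _
  have hzle : ∀ p, ζ0 ≤ ζ p := fun p => (min_le_left _ _).trans (hz1' p)
  -- the boxes
  choose B η' hη' hu ha hb ht1 hN hM hc' hball hOk using fun j =>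
    exists_pbox (O j) (D j) hη (hwin j).1 (hwin j).2 (hρ j) (hσ j) (hcov j) (hG j) hz0
      (hzη.trans (half_le_self hη.le))
  obtain ⟨η0, h0, h1⟩ := Sk3_270.exists_min η' hη'
  have hshell : ∀ j, ∀ y ∈ (B j).shell, |(O j).u y - (D j).ts| ≤ ζ0 := by
    rintro j y ⟨h2, h3⟩
    rw [hu j] at h2 h3
    rw [abs_le]
    exact ⟨by linarith [ha j], by linarith [hb j]⟩
  have hshY : ∀ j, (B j).shell ⊆ Y j := by
    intro j y hy
    refine (O j).sub1 ?_
    have h2 := (abs_le.1 (hshell j y hy)).2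
    have h3 := (hwin j).2
    have h4 := (O j).mh
    have h5 := (O j).ht
    show (O j).u y ≤ (O j).t1
    linarith
  have hpY : ∀ j, (B j).pat ⊆ Y j := fun j => inter_subset_left.trans (hshY j)
  refine ⟨B, η0, h0, hu, ht1, hN, fun j => ?_, fun j j' hne k => ?_, fun i j hij => ?_,
    fun j S hSsub hSp hy z hz => ?_, hball, fun h hh j => ?_⟩
  · have h2 := (hwin j).1
    have h3 := (hwin j).2
    have h4 := ha j
    have h5 := hb j
    exact ⟨by linarith, by linarith⟩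
  · rw [Set.disjoint_left]
    intro y h2 h4
    obtain ⟨x, hx, e, hsub⟩ := hM j' k
    have h5 := hζ' (j, j') hne x hx e y (closedBall_subset_closedBall (hzle (j, j')) (hsub h4))
    have h6 := hshell j y h2
    exact absurd (h5.trans_le (h6.trans (hzle (j, j')))) (lt_irrefl _)
  · by_cases hgg : g i = g j
    · rw [Set.disjoint_left]
      rintro y ⟨-, h2⟩ h3
      rw [hc' i] at h2
      have h4 := hpat j i (Finset.mem_filter.2 ⟨Finset.mem_univ _, hij, hgg⟩) y h2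
      have h5 := hshell j y h3
      linarith
    · exact (hg i j hgg).mono (hpY i) (hshY j)
  · -- the oscillation
    obtain ⟨y, hyS, hyt⟩ := hy
    rw [hu j] at hyt ⊢
    rw [ht1 j] at hyt
    -- the group of the patch through `y`
    let U : A → Set E := fun a => ⋃ i ∈ {i | g i = a}, (B i).pat
    have hUc : ∀ a, IsClosed (U a) := fun a =>
      (Set.toFinite _).isClosed_biUnion fun i _ => isClosed_patB (B i)
    obtain ⟨i0, hi0⟩ := mem_iUnion.1 (hSsub hyS)
    have hV : IsClosed (⋃ i ∈ {i | g i ≠ g i0}, (B i).pat) :=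
      (Set.toFinite _).isClosed_biUnion fun i _ => isClosed_patB (B i)
    have hSU : S ⊆ U (g i0) := by
      have hcov2 : S ⊆ U (g i0) ∪ ⋃ i ∈ {i | g i ≠ g i0}, (B i).pat := by
        intro w hw
        obtain ⟨i, hi⟩ := mem_iUnion.1 (hSsub hw)
        by_cases hgi : g i = g i0
        · exact Or.inl (mem_iUnion₂.2 ⟨i, hgi, hi⟩)
        · exact Or.inr (mem_iUnion₂.2 ⟨i, hgi, hi⟩)
      have hdis : S ∩ (U (g i0) ∩ ⋃ i ∈ {i | g i ≠ g i0}, (B i).pat) = ∅ := by
        rw [Set.eq_empty_iff_forall_notMem]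
        rintro w ⟨-, hw1, hw2⟩
        obtain ⟨i, hi, hwi⟩ := mem_iUnion₂.1 hw1
        obtain ⟨i', hi', hwi'⟩ := mem_iUnion₂.1 hw2
        have hne : g i ≠ g i' := by
          rw [show g i = g i0 from hi]
          exact fun h => hi' h.symm
        exact (Set.disjoint_left.1 (hg i i' hne)) (hpY i hwi) (hpY i' hwi')
      rcases isPreconnected_iff_subset_of_disjoint_closed.1 hSp _ _ (hUc (g i0)) hV hcov2 hdis
        with h2 | h2
      · exact h2
      · exfalso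
        obtain ⟨i, hi, hyi⟩ := mem_iUnion₂.1 (h2 hyS)
        exact (Set.disjoint_left.1 (hg i i0 hi)) (hpY i hyi) (hpY i0 hi0)
    by_cases hgj : g i0 = g j
    · -- the same group: the diameter is small
      choose yy ρρ hρ0 hcb hρs using hball
      have hd : dist y z ≤ ∑ m ∈ (Finset.univ.filter fun i => g i = g j).sigma
          (fun i => (Finset.univ : Finset (Fin (B i).n))), 2 * ρρ m.1 m.2 := by
        refine dist_le_of_cover hSp _ (fun m : (Σ i, Fin (B i).n) => yy m.1 m.2)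
          (fun m => ρρ m.1 m.2) (fun m _ => (hρ0 _ _).le) ?_ hyS hz
        intro w hw
        obtain ⟨i, hi, hwi⟩ := mem_iUnion₂.1 (hSU hw)
        obtain ⟨m, hm⟩ := mem_iUnion.1 hwi.2
        rw [hcb] at hm
        refine mem_iUnion₂.2 ⟨⟨i, m⟩, ?_, hm⟩
        rw [Finset.mem_sigma]
        refine ⟨Finset.mem_filter.2 ⟨Finset.mem_univ _, ?_⟩, Finset.mem_univ _⟩
        exact (show g i = g i0 from hi).trans hgj
      have hd2 : ∑ m ∈ (Finset.univ.filter fun i => g i = g j).sigma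
          (fun i => (Finset.univ : Finset (Fin (B i).n))), 2 * ρρ m.1 m.2 ≤ 2 * Sg (g j) := by
        rw [Finset.sum_sigma]
        refine le_trans ?_ (mul_le_mul_of_nonneg_left (hS (g j)) zero_le_two)
        rw [Finset.mul_sum]
        refine Finset.sum_le_sum fun i _ => ?_
        simp only
        rw [← Finset.mul_sum]
        exact mul_le_mul_of_nonneg_left (hρs i) zero_le_two
      have h2 := (O j).lip y z
      have h3 := mul_le_mul_of_nonneg_left (hd.trans hd2) (O j).L0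
      have h4 := (abs_le.1 (h2.trans h3)).2
      have h5 := hosc j
      have h6 : (O j).L * (2 * Sg (g j)) = 2 * ((O j).L * Sg (g j)) := by ring
      linarith
    · -- another group
      obtain ⟨i, hi, hzi⟩ := mem_iUnion₂.1 (hSU hz)
      have h2 : z ∉ Y j := fun hzY => by
        have hne : g i ≠ g j := by
          rw [show g i = g i0 from hi]
          exact hgj
        exact (Set.disjoint_left.1 (hg i j hne)) (hpY i hzi) hzY
      have h3 : ¬ (O j).u z ≤ (O j).t1 := fun h => h2 ((O j).sub1 h)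
      have h4 := (O j).ht
      linarith
  · obtain ⟨h2, h3, h4⟩ := hOk j h fun x hx => (hh x hx).trans (h1 j)
    exact ⟨h2, h3, h4⟩

end Crest.Agent.R096.P2l_565
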