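import Mathlib

-- ▼ part R096/Core1_124
section

/-!
Row 96, U3 (CORE3), part (C2): the bad-level lemma (one variable, no indicatrix).
A function which is close to an affine increasing one (in `C^0`, with an integrable
defect of its increments) crosses every level outside a small set of levels exactly
as the affine function does.
-/

namespace Crest.Agent.R096.Core_124

open MeasureTheory Set Filter Topology

noncomputable section

/-- union plus overlap of finitely many sets is at most the sum -/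
theorem measure_union_add_overlap {α ι : Type*} [MeasurableSpace α] (μ : Measure α)
    (s : Finset ι) (J : ι → Set α) (hJ : ∀ i ∈ s, MeasurableSet (J i)) :
    μ (⋃ i ∈ s, J i) + μ {y | ∃ i ∈ s, ∃ j ∈ s, i ≠ j ∧ y ∈ J i ∧ y ∈ J j} ≤ ∑ i ∈ s, μ (J i) := by
  classical
  have hB : MeasurableSet {y | ∃ i ∈ s, ∃ j ∈ s, i ≠ j ∧ y ∈ J i ∧ y ∈ J j} := by
    have : {y | ∃ i ∈ s, ∃ j ∈ s, i ≠ j ∧ y ∈ J i ∧ y ∈ J j}
        = ⋃ i ∈ s, ⋃ j ∈ s, (if i ≠ j then J i ∩ J j else ∅) := by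
      ext y
      simp only [mem_ofPred_eq, mem_iUnion, exists_prop]
      constructor
      · rintro ⟨i, hi, j, hj, hij, h1, h2⟩
        refine ⟨i, hi, j, hj, ?_⟩
        rw [if_pos hij]; exact ⟨h1, h2⟩
      · rintro ⟨i, hi, j, hj, h⟩
        by_cases hij : i ≠ j
        · rw [if_pos hij] at h; exact ⟨i, hi, j, hj, hij, h.1, h.2⟩
        · rw [if_neg hij] at h; exact absurd h (by simp)
    rw [this]
    refine Finset.measurableSet_biUnion _ (fun i hi => Finset.measurableSet_biUnion _ (fun j hj => ?_))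
    split_ifs
    · exact (hJ i hi).inter (hJ j hj)
    · exact MeasurableSet.empty
  have hU : MeasurableSet (⋃ i ∈ s, J i) := Finset.measurableSet_biUnion _ hJ
  have e1 : μ (⋃ i ∈ s, J i) = ∫⁻ y, (⋃ i ∈ s, J i).indicator (fun _ => (1 : ENNReal)) y ∂μ := by
    rw [lintegral_indicator hU]; simp
  have e2 : μ {y | ∃ i ∈ s, ∃ j ∈ s, i ≠ j ∧ y ∈ J i ∧ y ∈ J j}
      = ∫⁻ y, {y | ∃ i ∈ s, ∃ j ∈ s, i ≠ j ∧ y ∈ J i ∧ y ∈ J j}.indicator
          (fun _ => (1 : ENNReal)) y ∂μ := by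
    rw [lintegral_indicator hB]; simp
  have e3 : ∑ i ∈ s, μ (J i) = ∫⁻ y, ∑ i ∈ s, (J i).indicator (fun _ => (1 : ENNReal)) y ∂μ := by
    rw [lintegral_finsetSum' _ (fun i hi => (measurable_const.indicator (hJ i hi)).aemeasurable)]
    refine Finset.sum_congr rfl (fun i hi => ?_)
    rw [lintegral_indicator (hJ i hi)]; simp
  rw [e1, e2, e3, ← lintegral_add_left (measurable_const.indicator hU)]
  refine lintegral_mono (fun y => ?_)
  by_cases h2 : ∃ i ∈ s, ∃ j ∈ s, i ≠ j ∧ y ∈ J i ∧ y ∈ J j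
  · obtain ⟨i, hi, j, hj, hij, h1, h2'⟩ := h2
    have hyU : y ∈ ⋃ i ∈ s, J i := mem_biUnion hi h1
    rw [indicator_of_mem hyU, indicator_of_mem (show y ∈ {y | ∃ i ∈ s, ∃ j ∈ s, i ≠ j ∧ y ∈ J i ∧ y ∈ J j}
      from ⟨i, hi, j, hj, hij, h1, h2'⟩)]
    calc (1 : ENNReal) + 1 = ∑ k ∈ ({i, j} : Finset ι), (J k).indicator (fun _ => (1 : ENNReal)) y := by
          rw [Finset.sum_pair hij, indicator_of_mem h1, indicator_of_mem h2']
      _ ≤ _ := by
          refine Finset.sum_le_sum_of_subset ?_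
          intro k hk
          simp only [Finset.mem_insert, Finset.mem_singleton] at hk
          rcases hk with rfl | rfl <;> assumption
  · rw [indicator_of_notMem (show y ∉ {y | ∃ i ∈ s, ∃ j ∈ s, i ≠ j ∧ y ∈ J i ∧ y ∈ J j} from h2),
      add_zero]
    by_cases hyU : y ∈ ⋃ i ∈ s, J i
    · rw [indicator_of_mem hyU]
      obtain ⟨i, hi, h1⟩ := by simpa only [mem_iUnion, exists_prop] using hyU
      calc (1 : ENNReal) = (J i).indicator (fun _ => (1 : ENNReal)) y := by rw [indicator_of_mem h1]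
        _ ≤ _ := Finset.single_le_sum (f := fun k => (J k).indicator (fun _ => (1 : ENNReal)) y)
              (fun _ _ => zero_le) hi
    · rw [indicator_of_notMem hyU]; exact zero_le

/-- data of an edge: `v` on `[0,1]`, slope `b`, defect `g` -/
structure Near (v g : ℝ → ℝ) (a b e : ℝ) : Prop where
  cont : ContinuousOn v (Icc 0 1)
  int : IntervalIntegrable g volume 0 1
  nonneg : ∀ t ∈ Icc (0:ℝ) 1, 0 ≤ g t
  inc : ∀ s ∈ Icc (0:ℝ) 1, ∀ t ∈ Icc (0:ℝ) 1, s ≤ t → |v t - v s - b * (t - s)| ≤ ∫ τ in s..t, g τ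
  close : ∀ t ∈ Icc (0:ℝ) 1, |v t - (a + b * t)| ≤ e

/-- dyadic interval -/
def dy (n k : ℕ) : Set ℝ := Icc ((k:ℝ) / 2 ^ n) ((k + 1 : ℝ) / 2 ^ n)

theorem dy_sub {n k : ℕ} (hk : k < 2 ^ n) : dy n k ⊆ Icc 0 1 := by
  intro t ht
  have hp : (0:ℝ) < 2 ^ n := by positivity
  have h1 : (0:ℝ) ≤ (k:ℝ) / 2 ^ n := by positivity
  have h2 : ((k:ℝ) + 1) / 2 ^ n ≤ 1 := by
    rw [div_le_one hp]
    have : k + 1 ≤ 2 ^ n := hk
    exact_mod_cast this
  exact ⟨h1.trans ht.1, ht.2.trans h2⟩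

theorem mem_dy {n : ℕ} {t : ℝ} (ht : t ∈ Icc (0:ℝ) 1) (ht1 : t ≠ 1) :
    ∃ k < 2 ^ n, t ∈ dy n k ∧ k = ⌊t * 2 ^ n⌋₊ := by
  have hp : (0:ℝ) < 2 ^ n := by positivity
  have h0 : 0 ≤ t * 2 ^ n := mul_nonneg ht.1 hp.le
  refine ⟨⌊t * 2 ^ n⌋₊, ?_, ⟨?_, ?_⟩, rfl⟩
  · rw [Nat.floor_lt h0]
    have : t < 1 := lt_of_le_of_ne ht.2 ht1
    push_cast
    nlinarith
  · rw [div_le_iff₀ hp]; exact Nat.floor_le h0
  · rw [le_div_iff₀ hp]; exact (Nat.lt_floor_add_one _).le

/-- the set of levels hit by two different dyadic intervals of level `n` -/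
def badn (v : ℝ → ℝ) (n : ℕ) : Set ℝ :=
  {y | ∃ k ∈ Finset.range (2 ^ n), ∃ l ∈ Finset.range (2 ^ n), k ≠ l ∧ y ∈ v '' dy n k ∧ y ∈ v '' dy n l}

theorem image_dy_meas {v : ℝ → ℝ} (hc : ContinuousOn v (Icc 0 1)) {n k : ℕ} (hk : k < 2 ^ n) :
    MeasurableSet (v '' dy n k) :=
  ((isCompact_Icc.image_of_continuousOn (hc.mono (dy_sub hk))).measurableSet)

theorem badn_meas {v : ℝ → ℝ} (hc : ContinuousOn v (Icc 0 1)) (n : ℕ) : MeasurableSet (badn v n) := by
  classical
  have : badn v n = ⋃ k ∈ Finset.range (2 ^ n), ⋃ l ∈ Finset.range (2 ^ n),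
      (if k ≠ l then (v '' dy n k) ∩ (v '' dy n l) else ∅) := by
    ext y
    simp only [badn, mem_ofPred_eq, mem_iUnion, exists_prop]
    constructor
    · rintro ⟨i, hi, j, hj, hij, h1, h2⟩
      refine ⟨i, hi, j, hj, ?_⟩
      rw [if_pos hij]; exact ⟨h1, h2⟩
    · rintro ⟨i, hi, j, hj, h⟩
      by_cases hij : i ≠ j
      · rw [if_pos hij] at h; exact ⟨i, hi, j, hj, hij, h.1, h.2⟩
      · rw [if_neg hij] at h; exact absurd h (by simp)
  rw [this]
  refine Finset.measurableSet_biUnion _ (fun i hi => Finset.measurableSet_biUnion _ (fun j hj => ?_))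
  split_ifs
  · exact (image_dy_meas hc (Finset.mem_range.1 hi)).inter (image_dy_meas hc (Finset.mem_range.1 hj))
  · exact MeasurableSet.empty

variable {v g : ℝ → ℝ} {a b e : ℝ}

theorem Near.intOn (h : Near v g a b e) {s t : ℝ} (hs : s ∈ Icc (0:ℝ) 1) (ht : t ∈ Icc (0:ℝ) 1) :
    IntervalIntegrable g volume s t := by
  refine h.int.mono_set ?_
  rw [uIcc_of_le (zero_le_one' ℝ)]
  exact uIcc_subset_Icc hs ht

theorem Near.int_nonneg (h : Near v g a b e) {s t : ℝ} (hs : s ∈ Icc (0:ℝ) 1) (ht : t ∈ Icc (0:ℝ) 1)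
    (hst : s ≤ t) : 0 ≤ ∫ τ in s..t, g τ :=
  intervalIntegral.integral_nonneg hst (fun u hu => h.nonneg u ⟨hs.1.trans hu.1, hu.2.trans ht.2⟩)

theorem Near.int_mono (h : Near v g a b e) {s t s' t' : ℝ} (hs : s ∈ Icc (0:ℝ) 1) (ht : t ∈ Icc (0:ℝ) 1)
    (hs' : s' ∈ Icc s t) (ht' : t' ∈ Icc s t) (hst : s' ≤ t') :
    ∫ τ in s'..t', g τ ≤ ∫ τ in s..t, g τ := by
  have m1 : s' ∈ Icc (0:ℝ) 1 := ⟨hs.1.trans hs'.1, hs'.2.trans ht.2⟩
  have m2 : t' ∈ Icc (0:ℝ) 1 := ⟨hs.1.trans ht'.1, ht'.2.trans ht.2⟩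
  have e1 := intervalIntegral.integral_add_adjacent_intervals (h.intOn hs m1) (h.intOn m1 m2)
  have e2 := intervalIntegral.integral_add_adjacent_intervals (h.intOn hs m2) (h.intOn m2 ht)
  have n1 := h.int_nonneg hs m1 hs'.1
  have n2 := h.int_nonneg m2 ht ht'.2
  linarith

/-- measure of the image of an interval -/
theorem Near.image_le (h : Near v g a b e) (hb : 0 ≤ b) {s t : ℝ} (hs : s ∈ Icc (0:ℝ) 1)
    (ht : t ∈ Icc (0:ℝ) 1) (hst : s ≤ t) :
    volume (v '' Icc s t) ≤ ENNReal.ofReal (b * (t - s) + ∫ τ in s..t, g τ) := by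
  have hne : (Icc s t).Nonempty := nonempty_Icc.2 hst
  have hcs : ContinuousOn v (Icc s t) := h.cont.mono (Icc_subset_Icc hs.1 ht.2)
  obtain ⟨x1, hx1, hmin⟩ := isCompact_Icc.exists_isMinOn hne hcs
  obtain ⟨x2, hx2, hmax⟩ := isCompact_Icc.exists_isMaxOn hne hcs
  have hsub : v '' Icc s t ⊆ Icc (v x1) (v x2) := by
    rintro _ ⟨x, hx, rfl⟩
    exact ⟨hmin hx, hmax hx⟩
  refine (measure_mono hsub).trans ?_
  rw [Real.volume_Icc]
  refine ENNReal.ofReal_le_ofReal ?_
  have m1 : x1 ∈ Icc (0:ℝ) 1 := ⟨hs.1.trans hx1.1, hx1.2.trans ht.2⟩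
  have m2 : x2 ∈ Icc (0:ℝ) 1 := ⟨hs.1.trans hx2.1, hx2.2.trans ht.2⟩
  rcases le_total x1 x2 with hle | hle
  · have i1 := h.inc x1 m1 x2 m2 hle
    have i2 := h.int_mono hs ht hx1 hx2 hle
    have i3 := (abs_le.1 i1).2
    have : b * (x2 - x1) ≤ b * (t - s) := mul_le_mul_of_nonneg_left (by linarith [hx1.1, hx2.2]) hb
    linarith
  · have i1 := h.inc x2 m2 x1 m1 hle
    have i2 := h.int_mono hs ht hx2 hx1 hle
    have i3 := (abs_le.1 i1).1
    have : 0 ≤ b * (x1 - x2) := mul_nonneg hb (by linarith)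
    have : 0 ≤ b * (t - s) := mul_nonneg hb (by linarith)
    linarith

theorem iUnion_dy (n : ℕ) : (⋃ k ∈ Finset.range (2 ^ n), dy n k) = Icc 0 1 := by
  apply Subset.antisymm
  · exact iUnion₂_subset (fun k hk => dy_sub (Finset.mem_range.1 hk))
  · intro t ht
    by_cases h1 : t = 1
    · have hp : (0:ℝ) < 2 ^ n := by positivity
      have hpn : 1 ≤ 2 ^ n := Nat.one_le_two_pow
      refine mem_biUnion (x := 2 ^ n - 1) (Finset.mem_coe.2 (Finset.mem_range.2 (by omega))) ?_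
      subst h1
      have hc : ((2 ^ n - 1 : ℕ) : ℝ) = 2 ^ n - 1 := by
        rw [Nat.cast_sub hpn]; push_cast; ring
      constructor
      · rw [hc, div_le_one hp]; linarith
      · rw [hc, le_div_iff₀ hp]; linarith
    · obtain ⟨k, hk, hm, -⟩ := mem_dy (n := n) ht h1
      exact mem_biUnion (Finset.mem_coe.2 (Finset.mem_range.2 hk)) hm

theorem Near.sum_dy (h : Near v g a b e) (n : ℕ) :
    ∑ k ∈ Finset.range (2 ^ n), (b * (((k:ℝ) + 1) / 2 ^ n - (k:ℝ) / 2 ^ n)
      + ∫ τ in ((k:ℝ) / 2 ^ n)..(((k:ℝ) + 1) / 2 ^ n), g τ) = b + ∫ τ in (0:ℝ)..1, g τ := by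
  have hp : (0:ℝ) < 2 ^ n := by positivity
  rw [Finset.sum_add_distrib]
  congr 1
  · have : ∀ k ∈ Finset.range (2 ^ n), b * (((k:ℝ) + 1) / 2 ^ n - (k:ℝ) / 2 ^ n) = b / 2 ^ n := by
      intro k _; field_simp; ring
    rw [Finset.sum_congr rfl this, Finset.sum_const, Finset.card_range, nsmul_eq_mul]
    push_cast
    field_simp
  · have key := intervalIntegral.sum_integral_adjacent_intervals (μ := volume) (f := g)
      (a := fun k : ℕ => (k:ℝ) / 2 ^ n) (n := 2 ^ n) (by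
        intro k hk
        have hk1 : k + 1 ≤ 2 ^ n := hk
        have c1 : ((k:ℝ)) / 2 ^ n ∈ Icc (0:ℝ) 1 := ⟨by positivity, by
          rw [div_le_one hp]; exact_mod_cast (Nat.le_of_succ_le hk1)⟩
        have c2 : (((k + 1 : ℕ):ℝ)) / 2 ^ n ∈ Icc (0:ℝ) 1 := ⟨by positivity, by
          rw [div_le_one hp]; exact_mod_cast hk1⟩
        exact h.intOn c1 c2)
    have e0 : ((0:ℕ):ℝ) / 2 ^ n = 0 := by simp
    have e1 : (((2 ^ n : ℕ)):ℝ) / 2 ^ n = 1 := by push_cast; field_simp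
    simp only [e0, e1] at key
    rw [← key]
    refine Finset.sum_congr rfl (fun k _ => ?_)
    push_cast
    rfl

theorem Near.badn_le (h : Near v g a b e) (hb : 0 ≤ b) (n : ℕ) :
    volume (badn v n) ≤ ENNReal.ofReal (2 * ∫ τ in (0:ℝ)..1, g τ) := by
  set G := ∫ τ in (0:ℝ)..1, g τ with hG
  have hG0 : 0 ≤ G := h.int_nonneg (left_mem_Icc.2 zero_le_one) (right_mem_Icc.2 zero_le_one) zero_le_one
  have hp : (0:ℝ) < 2 ^ n := by positivity
  have key := measure_union_add_overlap (volume : Measure ℝ) (Finset.range (2 ^ n)) (fun k => v '' dy n k)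
    (fun k hk => image_dy_meas h.cont (Finset.mem_range.1 hk))
  have hU : (⋃ k ∈ Finset.range (2 ^ n), v '' dy n k) = v '' Icc 0 1 := by
    rw [← iUnion_dy n, image_iUnion₂]
  rw [hU] at key
  have hsum : ∑ k ∈ Finset.range (2 ^ n), volume (v '' dy n k) ≤ ENNReal.ofReal (b + G) := by
    rw [← h.sum_dy n, ENNReal.ofReal_sum_of_nonneg]
    · refine Finset.sum_le_sum (fun k hk => ?_)
      have hk1 : k + 1 ≤ 2 ^ n := Finset.mem_range.1 hk
      have c1 : ((k:ℝ)) / 2 ^ n ∈ Icc (0:ℝ) 1 := ⟨by positivity, by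
        rw [div_le_one hp]; exact_mod_cast (Nat.le_of_succ_le hk1)⟩
      have c2 : ((k:ℝ) + 1) / 2 ^ n ∈ Icc (0:ℝ) 1 := ⟨by positivity, by
        rw [div_le_one hp]; exact_mod_cast hk1⟩
      exact h.image_le hb c1 c2 (by gcongr; linarith)
    · intro k hk
      have hk1 : k + 1 ≤ 2 ^ n := Finset.mem_range.1 hk
      have c1 : ((k:ℝ)) / 2 ^ n ∈ Icc (0:ℝ) 1 := ⟨by positivity, by
        rw [div_le_one hp]; exact_mod_cast (Nat.le_of_succ_le hk1)⟩
      have c2 : ((k:ℝ) + 1) / 2 ^ n ∈ Icc (0:ℝ) 1 := ⟨by positivity, by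
        rw [div_le_one hp]; exact_mod_cast hk1⟩
      have hle : ((k:ℝ)) / 2 ^ n ≤ ((k:ℝ) + 1) / 2 ^ n := by gcongr; linarith
      exact add_nonneg (mul_nonneg hb (by linarith)) (h.int_nonneg c1 c2 hle)
  have hlow : ENNReal.ofReal (b - G) ≤ volume (v '' Icc 0 1) := by
    have hpre : IsPreconnected (v '' Icc 0 1) := isPreconnected_Icc.image v h.cont
    have m0 : v 0 ∈ v '' Icc 0 1 := mem_image_of_mem v (left_mem_Icc.2 zero_le_one)
    have m1 : v 1 ∈ v '' Icc 0 1 := mem_image_of_mem v (right_mem_Icc.2 zero_le_one)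
    have hsub : Icc (v 0) (v 1) ⊆ v '' Icc 0 1 := hpre.Icc_subset m0 m1
    refine le_trans ?_ (measure_mono hsub)
    rw [Real.volume_Icc]
    refine ENNReal.ofReal_le_ofReal ?_
    have := (abs_le.1 (h.inc 0 (left_mem_Icc.2 zero_le_one) 1 (right_mem_Icc.2 zero_le_one) zero_le_one)).1
    linarith
  have hbad : volume (badn v n) = volume {y | ∃ i ∈ Finset.range (2 ^ n), ∃ j ∈ Finset.range (2 ^ n),
      i ≠ j ∧ y ∈ v '' dy n i ∧ y ∈ v '' dy n j} := rfl
  rw [← hbad] at key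
  rcases le_total G b with hle | hle
  · have h1 : ENNReal.ofReal (b - G) + volume (badn v n) ≤ ENNReal.ofReal (b + G) :=
      (add_le_add_left hlow _).trans (key.trans hsum)
    have h2 : ENNReal.ofReal (b + G) = ENNReal.ofReal (b - G) + ENNReal.ofReal (2 * G) := by
      rw [← ENNReal.ofReal_add (by linarith) (by linarith)]
      congr 1; ring
    rw [h2] at h1
    exact (ENNReal.add_le_add_iff_left ENNReal.ofReal_ne_top).1 h1
  · calc volume (badn v n) ≤ volume (v '' Icc 0 1) + volume (badn v n) := le_add_self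
      _ ≤ ENNReal.ofReal (b + G) := key.trans hsum
      _ ≤ ENNReal.ofReal (2 * G) := ENNReal.ofReal_le_ofReal (by linarith)

/-- levels attained at least twice (for all large dyadic scales) -/
def multi (v : ℝ → ℝ) : Set ℝ := (⋃ m : ℕ, ⋂ n : ℕ, ⋂ (_ : m ≤ n), badn v n) ∪ {v 1}

theorem multi_meas (hc : ContinuousOn v (Icc 0 1)) : MeasurableSet (multi v) := by
  refine MeasurableSet.union ?_ (measurableSet_singleton _)
  exact MeasurableSet.iUnion (fun m => MeasurableSet.iInter (fun n => MeasurableSet.iInter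
    (fun _ => badn_meas hc n)))

theorem Near.multi_le (h : Near v g a b e) (hb : 0 ≤ b) :
    volume (multi v) ≤ ENNReal.ofReal (2 * ∫ τ in (0:ℝ)..1, g τ) := by
  refine (measure_union_le _ _).trans ?_
  rw [Real.volume_singleton, add_zero]
  have hmono : Monotone (fun m : ℕ => ⋂ n : ℕ, ⋂ (_ : m ≤ n), badn v n) := by
    intro m m' hm y hy
    simp only [mem_iInter] at hy ⊢
    intro n hn
    exact hy n (hm.trans hn)
  rw [hmono.measure_iUnion]
  refine iSup_le (fun m => ?_)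
  refine (measure_mono ?_).trans (h.badn_le hb m)
  intro y hy
  simp only [mem_iInter] at hy
  exact hy m le_rfl

theorem unique_of_notMem_multi {y : ℝ} (hy : y ∉ multi v)
    {s t : ℝ} (hs : s ∈ Icc (0:ℝ) 1) (ht : t ∈ Icc (0:ℝ) 1) (hvs : v s = y) (hvt : v t = y) : s = t := by
  classical
  by_contra hne
  wlog hlt : s < t generalizing s t with H
  · exact H ht hs hvt hvs (Ne.symm hne) (lt_of_le_of_ne (not_lt.1 hlt) (Ne.symm hne))
  have ht1 : t ≠ 1 := by
    rintro rfl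
    exact hy (Or.inr (by simp [hvt]))
  have hs1 : s ≠ 1 := by
    rintro rfl
    exact absurd ht.2 (not_le.2 hlt)
  obtain ⟨m, hm⟩ : ∃ m : ℕ, 1 < (t - s) * 2 ^ m := by
    have hpos : 0 < t - s := by linarith
    obtain ⟨m, hm⟩ := pow_unbounded_of_one_lt (1 / (t - s)) (one_lt_two : (1:ℝ) < 2)
    refine ⟨m, ?_⟩
    rw [div_lt_iff₀ hpos] at hm
    linarith
  refine hy (Or.inl ?_)
  refine mem_iUnion.2 ⟨m, ?_⟩
  simp only [mem_iInter]
  intro n hn
  obtain ⟨k, hk, hks, ek⟩ := mem_dy (n := n) hs hs1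
  obtain ⟨l, hl, hlt', el⟩ := mem_dy (n := n) ht ht1
  refine ⟨k, Finset.mem_range.2 hk, l, Finset.mem_range.2 hl, ?_, ⟨s, hks, hvs⟩, ⟨t, hlt', hvt⟩⟩
  rintro rfl
  have hp : (0:ℝ) < 2 ^ n := by positivity
  have h1 := hks.1
  have h2 := hlt'.2
  have hmn : (2:ℝ) ^ m ≤ 2 ^ n := pow_le_pow_right₀ (by norm_num) hn
  have : (t - s) * 2 ^ n ≤ 1 := by
    rw [div_le_iff₀ hp] at h1
    rw [le_div_iff₀ hp] at h2
    nlinarith
  have : (t - s) * 2 ^ m ≤ (t - s) * 2 ^ n := mul_le_mul_of_nonneg_left hmn (by linarith)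
  linarith

/-- the exact crossing pattern of an increasing affine function on one edge -/
def Exact (v : ℝ → ℝ) (a b y : ℝ) : Prop :=
  (a < y → y < a + b → ∃ t ∈ Ioo (0:ℝ) 1, v t = y ∧ (∀ s ∈ Icc (0:ℝ) 1, s < t → v s < y) ∧
      (∀ s ∈ Icc (0:ℝ) 1, t < s → y < v s)) ∧
  (y ≤ a → ∀ s ∈ Icc (0:ℝ) 1, y < v s) ∧ (a + b ≤ y → ∀ s ∈ Icc (0:ℝ) 1, v s < y)

/-- **BAD LEVEL LEMMA** -/
theorem Near.bad_levels (h : Near v g a b e) (hb : 0 ≤ b) :
    ∃ Bad : Set ℝ, MeasurableSet Bad ∧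
      volume Bad ≤ ENNReal.ofReal (2 * (∫ τ in (0:ℝ)..1, g τ) + 4 * e) ∧
      ∀ y ∉ Bad, Exact v a b y := by
  have he : 0 ≤ e := (abs_nonneg _).trans (h.close 0 (left_mem_Icc.2 zero_le_one))
  have hG0 : 0 ≤ ∫ τ in (0:ℝ)..1, g τ :=
    h.int_nonneg (left_mem_Icc.2 zero_le_one) (right_mem_Icc.2 zero_le_one) zero_le_one
  refine ⟨multi v ∪ (Icc (a - e) (a + e) ∪ Icc (a + b - e) (a + b + e)),
    (multi_meas h.cont).union (measurableSet_Icc.union measurableSet_Icc), ?_, ?_⟩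
  · refine (measure_union_le _ _).trans ?_
    refine (add_le_add (h.multi_le hb) (measure_union_le _ _)).trans ?_
    rw [Real.volume_Icc, Real.volume_Icc, ← ENNReal.ofReal_add (by linarith) (by linarith),
      ← ENNReal.ofReal_add (by linarith) (by linarith)]
    exact ENNReal.ofReal_le_ofReal (by linarith)
  · intro y hy
    have h1 : y ∉ multi v := fun hh => hy (Or.inl hh)
    have h2 : y ∉ Icc (a - e) (a + e) := fun hh => hy (Or.inr (Or.inl hh))
    have h3 : y ∉ Icc (a + b - e) (a + b + e) := fun hh => hy (Or.inr (Or.inr hh))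
    have m0 : (0:ℝ) ∈ Icc (0:ℝ) 1 := left_mem_Icc.2 zero_le_one
    have m1 : (1:ℝ) ∈ Icc (0:ℝ) 1 := right_mem_Icc.2 zero_le_one
    refine ⟨?_, ?_, ?_⟩
    · intro ha hb'
      have ya : a + e < y := by
        by_contra hh
        exact h2 ⟨by linarith, not_lt.1 hh⟩
      have yb : y < a + b - e := by
        by_contra hh
        exact h3 ⟨not_lt.1 hh, by linarith⟩
      have v0 : v 0 < y := by
        have := (abs_le.1 (h.close 0 m0)).2
        simp only [mul_zero, add_zero] at this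
        linarith
      have v1 : y < v 1 := by
        have := (abs_le.1 (h.close 1 m1)).1
        simp only [mul_one] at this
        linarith
      obtain ⟨t, ht, hvt⟩ := intermediate_value_Icc zero_le_one h.cont ⟨v0.le, v1.le⟩
      have uniq : ∀ s ∈ Icc (0:ℝ) 1, v s = y → s = t := fun s hs hvs =>
        unique_of_notMem_multi h1 hs ht hvs hvt
      refine ⟨t, ⟨?_, ?_⟩, hvt, ?_, ?_⟩
      · rcases eq_or_lt_of_le ht.1 with h0 | h0
        · rw [← h0] at hvt; exact absurd hvt v0.ne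
        · exact h0
      · rcases eq_or_lt_of_le ht.2 with h0 | h0
        · rw [h0] at hvt; exact absurd hvt.symm v1.ne
        · exact h0
      · intro s hs hst
        by_contra hh
        have hsy : y ≤ v s := not_lt.1 hh
        obtain ⟨r, hr, hvr⟩ := intermediate_value_Icc hs.1 (h.cont.mono (Icc_subset_Icc le_rfl hs.2))
          ⟨v0.le, hsy⟩
        have := uniq r ⟨hr.1, hr.2.trans hs.2⟩ hvr
        linarith [hr.2]
      · intro s hs hst
        by_contra hh
        have hsy : v s ≤ y := not_lt.1 hh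
        obtain ⟨r, hr, hvr⟩ := intermediate_value_Icc hs.2 (h.cont.mono (Icc_subset_Icc hs.1 le_rfl))
          ⟨hsy, v1.le⟩
        have := uniq r ⟨hs.1.trans hr.1, hr.2⟩ hvr
        linarith [hr.1]
    · intro ya s hs
      have ya' : y < a - e := by
        by_contra hh
        exact h2 ⟨not_lt.1 hh, by linarith⟩
      have := (abs_le.1 (h.close s hs)).1
      have hbs : 0 ≤ b * s := mul_nonneg hb hs.1
      linarith
    · intro yb s hs
      have yb' : a + b + e < y := by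
        by_contra hh
        exact h3 ⟨by linarith, not_lt.1 hh⟩
      have := (abs_le.1 (h.close s hs)).2
      have hbs : b * s ≤ b := by
        calc b * s ≤ b * 1 := mul_le_mul_of_nonneg_left hs.2 hb
          _ = b := mul_one b
      linarith

end

end Crest.Agent.R096.Core_124
end

-- ▼ part R096/Core2_124

/-!
Row 96, U3 (CORE3): from an edge on which `f` is close to an affine map to the level
structure of a nearly affine function `S ∘ f`; selection of the position of the core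
graph; no intruders.
-/

namespace Crest.Agent.R096.Core_124

open MeasureTheory Set Filter Topology Metric

noncomputable section

section seg

variable {F : Type*} [NormedAddCommGroup F] [NormedSpace ℝ F]

/-- a curve `c` on `[0,1]`, close to the affine curve `y0 + t u`, with integrable defect of its
increments -/
structure NearSeg (c : ℝ → F) (g : ℝ → ℝ) (y0 u : F) (ε : ℝ) : Prop where
  cont : ContinuousOn c (Icc 0 1)
  int : IntervalIntegrable g volume 0 1
  nonneg : ∀ t ∈ Icc (0:ℝ) 1, 0 ≤ g t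
  inc : ∀ s ∈ Icc (0:ℝ) 1, ∀ t ∈ Icc (0:ℝ) 1, s ≤ t → ‖c t - c s - (t - s) • u‖ ≤ ∫ τ in s..t, g τ
  close : ∀ t ∈ Icc (0:ℝ) 1, ‖c t - (y0 + t • u)‖ ≤ ε

/-- `S` is `L`-Lipschitz on `N` and affine with slope `β` up to `κ` in the direction `u` on `N`,
`N` contains the `ε`-neighbourhood of the segment `[y0, y0 + u]` -/
structure NearAff (S : F → ℝ) (y0 u : F) (ε L κ β : ℝ) (N : Set F) : Prop where
  L0 : 0 ≤ L
  κ0 : 0 ≤ κ
  ε0 : 0 ≤ ε
  sub : ∀ t ∈ Icc (0:ℝ) 1, closedBall (y0 + t • u) ε ⊆ N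
  lip : ∀ y ∈ N, ∀ y' ∈ N, |S y - S y'| ≤ L * ‖y - y'‖
  aff : ∀ y ∈ N, ∀ τ ∈ Icc (0:ℝ) 1, y + τ • u ∈ N → |S (y + τ • u) - S y - β * τ| ≤ κ * τ

variable {c : ℝ → F} {g : ℝ → ℝ} {y0 u : F} {ε L κ β : ℝ} {S : F → ℝ} {N : Set F}

theorem NearAff.neg (h : NearAff S y0 u ε L κ β N) : NearAff (fun y => - S y) y0 u ε L κ (-β) N where
  L0 := h.L0
  κ0 := h.κ0
  ε0 := h.ε0
  sub := h.sub
  lip := fun y hy y' hy' => by
    have := h.lip y hy y' hy'
    rwa [show -S y - -S y' = -(S y - S y') by ring, abs_neg]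
  aff := fun y hy τ hτ hN => by
    have := h.aff y hy τ hτ hN
    rwa [show -S (y + τ • u) - -S y - -β * τ = -(S (y + τ • u) - S y - β * τ) by ring, abs_neg]

/-- the level function on the edge -/
theorem NearSeg.near (hc : NearSeg c g y0 u ε) (hS : NearAff S y0 u ε L κ β N) :
    Near (fun t => S (c t)) (fun τ => L * g τ + κ) (S y0) β (L * ε + κ) := by
  have hmem : ∀ t ∈ Icc (0:ℝ) 1, c t ∈ N := fun t ht =>
    hS.sub t ht (by rw [mem_closedBall, dist_eq_norm]; exact hc.close t ht)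
  have hmem' : ∀ s ∈ Icc (0:ℝ) 1, ∀ t ∈ Icc (0:ℝ) 1, c s + (t - s) • u ∈ N := fun s hs t ht => by
    refine hS.sub t ht ?_
    rw [mem_closedBall, dist_eq_norm]
    have : c s + (t - s) • u - (y0 + t • u) = c s - (y0 + s • u) := by
      rw [sub_smul]; abel
    rw [this]; exact hc.close s hs
  have hline : ∀ t ∈ Icc (0:ℝ) 1, y0 + t • u ∈ N := fun t ht =>
    hS.sub t ht (mem_closedBall_self hS.ε0)
  refine ⟨?_, ?_, ?_, ?_, ?_⟩
  · have hl : ContinuousOn S N := by
      have : LipschitzOnWith (Real.toNNReal L) S N := by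
        refine LipschitzOnWith.of_dist_le_mul (fun y hy y' hy' => ?_)
        rw [Real.dist_eq, dist_eq_norm, Real.coe_toNNReal L hS.L0]
        exact hS.lip y hy y' hy'
      exact this.continuousOn
    exact hl.comp hc.cont hmem
  · exact (hc.int.const_mul L).add intervalIntegrable_const
  · intro t ht
    have := mul_nonneg hS.L0 (hc.nonneg t ht)
    have := hS.κ0
    linarith
  · intro s hs t ht hst
    have hτ : t - s ∈ Icc (0:ℝ) 1 := ⟨by linarith, by linarith [hs.1, ht.2]⟩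
    have e1 := hS.lip (c t) (hmem t ht) (c s + (t - s) • u) (hmem' s hs t ht)
    have e2 := hS.aff (c s) (hmem s hs) (t - s) hτ (hmem' s hs t ht)
    have e3 : ‖c t - (c s + (t - s) • u)‖ ≤ ∫ τ in s..t, g τ := by
      have := hc.inc s hs t ht hst
      rwa [← sub_sub]
    have hgi : IntervalIntegrable g volume s t := by
      refine hc.int.mono_set ?_
      rw [uIcc_of_le (zero_le_one' ℝ)]
      exact uIcc_subset_Icc hs ht
    have e4 : ∫ τ in s..t, (L * g τ + κ) = L * (∫ τ in s..t, g τ) + κ * (t - s) := by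
      rw [intervalIntegral.integral_add (hgi.const_mul L) intervalIntegrable_const,
        intervalIntegral.integral_const_mul, intervalIntegral.integral_const, smul_eq_mul]
      ring
    rw [e4]
    calc |S (c t) - S (c s) - β * (t - s)|
        = |(S (c t) - S (c s + (t - s) • u)) + (S (c s + (t - s) • u) - S (c s) - β * (t - s))| := by
          congr 1; ring
      _ ≤ |S (c t) - S (c s + (t - s) • u)| + |S (c s + (t - s) • u) - S (c s) - β * (t - s)| :=
          abs_add_le _ _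
      _ ≤ L * (∫ τ in s..t, g τ) + κ * (t - s) :=
          add_le_add (e1.trans (mul_le_mul_of_nonneg_left e3 hS.L0)) e2
  · intro t ht
    have e1 := hS.lip (c t) (hmem t ht) (y0 + t • u) (hline t ht)
    have h0 : y0 ∈ N := by simpa using hline 0 (left_mem_Icc.2 zero_le_one)
    have e2 := hS.aff y0 h0 t ht (hline t ht)
    have e3 := mul_le_mul_of_nonneg_left (hc.close t ht) hS.L0
    have e4 : κ * t ≤ κ := by
      calc κ * t ≤ κ * 1 := mul_le_mul_of_nonneg_left ht.2 hS.κ0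
        _ = κ := mul_one κ
    calc |S (c t) - (S y0 + β * t)|
        = |(S (c t) - S (y0 + t • u)) + (S (y0 + t • u) - S y0 - β * t)| := by congr 1; ring
      _ ≤ |S (c t) - S (y0 + t • u)| + |S (y0 + t • u) - S y0 - β * t| := abs_add_le _ _
      _ ≤ L * ε + κ := add_le_add (e1.trans e3) (e2.trans e4)

/-- the exact crossing pattern of an affine function of any slope -/
def ExactZ (v : ℝ → ℝ) (a b y : ℝ) : Prop :=
  (0 ≤ b → Exact v a b y) ∧ (b ≤ 0 → Exact (fun t => - v t) (-a) (-b) (-y))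

/-- **bad levels on one edge** for a nearly affine function `S` of any slope -/
theorem NearSeg.bad_levels (hc : NearSeg c g y0 u ε) (hS : NearAff S y0 u ε L κ β N) :
    ∃ Bad : Set ℝ, MeasurableSet Bad ∧
      volume Bad ≤ ENNReal.ofReal (4 * (L * ∫ τ in (0:ℝ)..1, g τ) + 8 * L * ε + 12 * κ) ∧
      ∀ y ∉ Bad, ExactZ (fun t => S (c t)) (S y0) β y := by
  have hG0 : 0 ≤ ∫ τ in (0:ℝ)..1, g τ := intervalIntegral.integral_nonneg zero_le_one hc.nonneg
  have e4 : ∫ τ in (0:ℝ)..1, (L * g τ + κ) = L * (∫ τ in (0:ℝ)..1, g τ) + κ := by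
    rw [intervalIntegral.integral_add (hc.int.const_mul L) intervalIntegrable_const,
      intervalIntegral.integral_const_mul, intervalIntegral.integral_const, smul_eq_mul]
    ring
  have pos : ∀ {β' : ℝ} {S' : F → ℝ}, NearAff S' y0 u ε L κ β' N → 0 ≤ β' →
      ∃ Bad : Set ℝ, MeasurableSet Bad ∧
      volume Bad ≤ ENNReal.ofReal (2 * (L * ∫ τ in (0:ℝ)..1, g τ) + 4 * L * ε + 6 * κ) ∧
      ∀ y ∉ Bad, Exact (fun t => S' (c t)) (S' y0) β' y := by
    intro β' S' hS' hβ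
    obtain ⟨Bad, h1, h2, h3⟩ := (hc.near hS').bad_levels hβ
    refine ⟨Bad, h1, h2.trans (ENNReal.ofReal_le_ofReal ?_), h3⟩
    rw [e4]
    nlinarith [hS.κ0]
  have hLG := mul_nonneg hS.L0 hG0
  have hLe := mul_nonneg hS.L0 hS.ε0
  have hκ := hS.κ0
  classical
  have P1 : ∃ Bad : Set ℝ, MeasurableSet Bad ∧
      volume Bad ≤ ENNReal.ofReal (2 * (L * ∫ τ in (0:ℝ)..1, g τ) + 4 * L * ε + 6 * κ) ∧
      ∀ y ∉ Bad, 0 ≤ β → Exact (fun t => S (c t)) (S y0) β y := by
    by_cases hβ : 0 ≤ β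
    · obtain ⟨Bad, h1, h2, h3⟩ := pos hS hβ
      exact ⟨Bad, h1, h2, fun y hy _ => h3 y hy⟩
    · exact ⟨∅, MeasurableSet.empty, by simp, fun y _ h => absurd h hβ⟩
  have P2 : ∃ Bad : Set ℝ, MeasurableSet Bad ∧
      volume Bad ≤ ENNReal.ofReal (2 * (L * ∫ τ in (0:ℝ)..1, g τ) + 4 * L * ε + 6 * κ) ∧
      ∀ y ∉ Bad, β ≤ 0 → Exact (fun t => - S (c t)) (- S y0) (-β) (-y) := by
    by_cases hβ : β ≤ 0
    · obtain ⟨Bad, h1, h2, h3⟩ := pos hS.neg (by linarith : (0:ℝ) ≤ -β)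
      refine ⟨Neg.neg ⁻¹' Bad, measurable_neg h1, ?_, fun y hy _ => h3 (-y) hy⟩
      have : volume (Neg.neg ⁻¹' Bad) = volume Bad := Measure.measure_preimage_neg volume Bad
      rw [this]; exact h2
    · exact ⟨∅, MeasurableSet.empty, by simp, fun y _ h => absurd h hβ⟩
  obtain ⟨B1, a1, a2, a3⟩ := P1
  obtain ⟨B2, b1, b2, b3⟩ := P2
  refine ⟨B1 ∪ B2, a1.union b1, ?_, fun y hy => ⟨a3 y (fun h => hy (Or.inl h)), b3 y (fun h => hy (Or.inr h))⟩⟩
  refine (measure_union_le _ _).trans ((add_le_add a2 b2).trans ?_)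
  have nn : 0 ≤ 2 * (L * ∫ τ in (0:ℝ)..1, g τ) + 4 * L * ε + 6 * κ := by
    have : 4 * L * ε = 4 * (L * ε) := by ring
    rw [this]; linarith
  rw [← ENNReal.ofReal_add nn nn]
  exact ENNReal.ofReal_le_ofReal (by linarith)

end seg

section select

variable {E : Type*} [NormedAddCommGroup E] [NormedSpace ℝ E] [MeasurableSpace E] [BorelSpace E]
  [SecondCountableTopology E]

theorem qmp_seg (μ : Measure E) [SFinite μ] [μ.IsAddRightInvariant] (p w : E) (B : Set E) (I : Set ℝ) :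
    Measure.QuasiMeasurePreserving (fun q : E × ℝ => q.1 + (p + q.2 • w))
      ((μ.restrict B).prod (volume.restrict I)) μ := by
  have hm : Measurable (fun q : E × ℝ => q.1 + (p + q.2 • w)) := by fun_prop
  refine ⟨hm, ?_⟩
  refine Measure.AbsolutelyContinuous.mk (fun s hs h0 => ?_)
  rw [Measure.map_apply hm hs, Measure.prod_apply_symm (hm hs)]
  have : ∀ t : ℝ, (μ.restrict B) ((fun x => (x, t)) ⁻¹' ((fun q : E × ℝ => q.1 + (p + q.2 • w)) ⁻¹' s)) = 0 := by
    intro t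
    refine le_antisymm ((Measure.restrict_apply_le _ _).trans ?_) bot_le
    have e : ((fun x => (x, t)) ⁻¹' ((fun q : E × ℝ => q.1 + (p + q.2 • w)) ⁻¹' s))
        = (fun x : E => x + (p + t • w)) ⁻¹' s := rfl
    rw [e, measure_preimage_add_right, h0]
  simp [this]

/-- **selection of positions**: average over translates of the line integrals -/
theorem seg_avg (μ : Measure E) [SFinite μ] [μ.IsAddRightInvariant] {B B' : Set E} {p w : E}
    (hsub : ∀ x ∈ B, ∀ t ∈ Icc (0:ℝ) 1, x + (p + t • w) ∈ B')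
    {h : E → ENNReal} (hh : AEMeasurable h μ) (hB : MeasurableSet B) (hB' : MeasurableSet B') :
    ∫⁻ x in B, (∫⁻ t in Icc (0:ℝ) 1, h (x + (p + t • w))) ∂μ ≤ ∫⁻ x in B', h x ∂μ := by
  have hae : AEMeasurable (fun q : E × ℝ => h (q.1 + (p + q.2 • w)))
      ((μ.restrict B).prod (volume.restrict (Icc (0:ℝ) 1))) :=
    hh.comp_quasiMeasurePreserving (qmp_seg μ p w B (Icc 0 1))
  rw [lintegral_lintegral_swap (f := fun x t => h (x + (p + t • w))) hae]
  calc ∫⁻ t in Icc (0:ℝ) 1, (∫⁻ x in B, h (x + (p + t • w)) ∂μ)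
      ≤ ∫⁻ t in Icc (0:ℝ) 1, (∫⁻ x in B', h x ∂μ) := by
        refine setLIntegral_mono' measurableSet_Icc (fun t ht => ?_)
        have hmp : MeasurePreserving (fun x : E => x + (p + t • w)) μ μ :=
          measurePreserving_add_right μ _
        have e : ∫⁻ x in B', h x ∂μ
            = ∫⁻ x in (fun x : E => x + (p + t • w)) ⁻¹' B', h (x + (p + t • w)) ∂μ := by
          rw [← hmp.setLIntegral_comp_preimage_emb (MeasurableEquiv.addRight _).measurableEmbedding]
        rw [e]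
        exact lintegral_mono_set (fun x hx => hsub x hx t ht)
    _ = ∫⁻ x in B', h x ∂μ := by simp

theorem seg_cheb (μ : Measure E) [SFinite μ] [μ.IsAddRightInvariant] {B B' : Set E} {p w : E}
    (hsub : ∀ x ∈ B, ∀ t ∈ Icc (0:ℝ) 1, x + (p + t • w) ∈ B')
    {h : E → ENNReal} (hh : AEMeasurable h μ) (hB : MeasurableSet B) (hB' : MeasurableSet B') (c : ENNReal) :
    c * μ {x ∈ B | c ≤ ∫⁻ t in Icc (0:ℝ) 1, h (x + (p + t • w))} ≤ ∫⁻ x in B', h x ∂μ := by
  have hae : AEMeasurable (fun q : E × ℝ => h (q.1 + (p + q.2 • w)))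
      ((μ.restrict B).prod (volume.restrict (Icc (0:ℝ) 1))) :=
    hh.comp_quasiMeasurePreserving (qmp_seg μ p w B (Icc 0 1))
  have h1 : AEMeasurable (fun x => ∫⁻ t in Icc (0:ℝ) 1, h (x + (p + t • w))) (μ.restrict B) :=
    hae.lintegral_prod_right'
  have h2 := mul_meas_ge_le_lintegral₀ h1 c
  refine le_trans ?_ (h2.trans (seg_avg μ hsub hh hB hB'))
  refine mul_le_mul_right ?_ c
  rw [Measure.restrict_apply₀' hB.nullMeasurableSet]
  exact measure_mono (fun x hx => ⟨hx.2, hx.1⟩)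

end select

section intruders

variable {E F : Type*} [TopologicalSpace E] [TopologicalSpace F]

/-- **no intruders**: `f` continuous and open on an open set containing the compact `K`, `P` connected,
disjoint from `f '' frontier`, meeting `f '' interior` ==> `P` is covered by `f '' interior K`. -/
theorem covers {f : E → F} {K : Set E} [T2Space F] (hK : IsCompact K) (hf : ContinuousOn f K)
    (hopen : IsOpen (f '' interior K)) {P : Set F} (hP : IsPreconnected P)
    (hdis : ∀ x ∈ K, x ∉ interior K → f x ∉ P) (hne : (P ∩ f '' interior K).Nonempty) :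
    P ⊆ f '' interior K := by
  have hcl : IsClosed (f '' K) := (hK.image_of_continuousOn hf).isClosed
  refine hP.subset_of_closure_inter_subset hopen hne ?_
  intro y hy
  have h1 : y ∈ f '' K := by
    have : closure (f '' interior K) ⊆ f '' K :=
      closure_minimal (image_mono interior_subset) hcl
    exact this hy.1
  obtain ⟨x, hx, rfl⟩ := h1
  by_cases hxi : x ∈ interior K
  · exact mem_image_of_mem f hxi
  · exact absurd hy.2 (hdis x hx hxi)

theorem no_intruders {f : E → F} {Om K : Set E} [T2Space F] (hinj : InjOn f Om) (hKO : K ⊆ Om)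
    (hK : IsCompact K) (hf : ContinuousOn f K)
    (hopen : IsOpen (f '' interior K)) {P : Set F} (hP : IsPreconnected P)
    (hdis : ∀ x ∈ K, x ∉ interior K → f x ∉ P) (hne : (P ∩ f '' interior K).Nonempty) :
    ∀ x ∈ Om, f x ∈ P → x ∈ interior K := by
  intro x hx hxP
  obtain ⟨z, hz, hzx⟩ := covers hK hf hopen hP hdis hne hxP
  have := hinj (hKO (interior_subset hz)) hx hzx
  rwa [← this]

end intruders

end

end Crest.Agent.R096.Core_124
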