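import Mathlib
import Crest.Agent.R096.Core2_124

-- ▼ part R096/Tsq1_753
section

/-!
Target squeeze (row 96, p = 2): a homeomorphism of `EuclideanSpace ℝ ι` with Lipschitz constant
close to one, close to the identity, which contracts a finite family of boxes of small total
width by an arbitrarily small factor.
-/

set_option autoImplicit false
set_option linter.unusedSectionVars false
set_option linter.unusedVariables false
set_option linter.unusedSimpArgs false

open MeasureTheory Set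
open scoped NNReal ENNReal

namespace Crest.Agent.R096.Tsq_753

section one

/-- length of the part of `P` to the left of `x` -/
noncomputable def ml (P : Set ℝ) (x : ℝ) : ℝ := (volume (P ∩ Iic x)).toReal

variable {P : Set ℝ}

theorem ml_nonneg (x : ℝ) : 0 ≤ ml P x := ENNReal.toReal_nonneg

theorem ml_le {σ : ℝ} (hσ : 0 ≤ σ) (hP : volume P ≤ ENNReal.ofReal σ) (x : ℝ) : ml P x ≤ σ := by
  unfold ml
  have h : volume (P ∩ Iic x) ≤ ENNReal.ofReal σ := (measure_mono inter_subset_left).trans hP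
  exact ENNReal.toReal_le_of_le_ofReal hσ h

theorem ml_diff (hPf : volume P ≠ ⊤) {x y : ℝ} (hxy : x ≤ y) :
    ml P y - ml P x = (volume (P ∩ Ioc x y)).toReal := by
  unfold ml
  have e : P ∩ Iic y = (P ∩ Iic x) ∪ (P ∩ Ioc x y) := by
    rw [← inter_union_distrib_left, Iic_union_Ioc_eq_Iic hxy]
  have hd : Disjoint (P ∩ Iic x) (P ∩ Ioc x y) :=
    (Iic_disjoint_Ioc le_rfl).mono inter_subset_right inter_subset_right
  have hfin : ∀ S : Set ℝ, volume (P ∩ S) ≠ ⊤ := fun S =>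
    ne_top_of_le_ne_top hPf (measure_mono inter_subset_left)
  have h1 : volume (P ∩ Iic y) = volume (P ∩ Iic x) + volume (P ∩ Ioc x y) := by
    have hm : MeasurableSet (Iic x : Set ℝ) := measurableSet_Iic
    have := measure_inter_add_sdiff (μ := volume) (P ∩ Iic y) hm
    have a1 : P ∩ Iic y ∩ Iic x = P ∩ Iic x := by
      rw [inter_assoc, Iic_inter_Iic, min_eq_right hxy]
    have a2 : (P ∩ Iic y) \ Iic x = P ∩ Ioc x y := by
      ext z; simp only [mem_sdiff, mem_inter_iff, mem_Iic, mem_Ioc, not_le]; tauto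
    rw [a1, a2] at this
    exact this.symm
  rw [h1, ENNReal.toReal_add (hfin _) (hfin _)]
  ring

theorem ml_mono_diff (hPf : volume P ≠ ⊤) {x y : ℝ} (hxy : x ≤ y) :
    0 ≤ ml P y - ml P x ∧ ml P y - ml P x ≤ y - x := by
  rw [ml_diff hPf hxy]
  refine ⟨ENNReal.toReal_nonneg, ?_⟩
  have h : volume (P ∩ Ioc x y) ≤ ENNReal.ofReal (y - x) := by
    refine (measure_mono inter_subset_right).trans ?_
    rw [Real.volume_Ioc]
  exact ENNReal.toReal_le_of_le_ofReal (by linarith) h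

theorem ml_full (hPf : volume P ≠ ⊤) {x y : ℝ} (hxy : x ≤ y) (h : Ioc x y ⊆ P) :
    ml P y - ml P x = y - x := by
  rw [ml_diff hPf hxy, inter_eq_self_of_subset_right h, Real.volume_Ioc,
    ENNReal.toReal_ofReal (by linarith)]

/-- the difference of `ml` at two points is a multiple of the difference of the points -/
theorem ml_theta (hPf : volume P ≠ ⊤) (x y : ℝ) :
    ∃ θ : ℝ, 0 ≤ θ ∧ θ ≤ 1 ∧ ml P x - ml P y = θ * (x - y) := by
  rcases lt_trichotomy x y with h | h | h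
  · obtain ⟨h1, h2⟩ := ml_mono_diff hPf h.le
    refine ⟨(ml P y - ml P x) / (y - x), div_nonneg h1 (by linarith), ?_, ?_⟩
    · rw [div_le_one (by linarith)]; exact h2
    · have : y - x ≠ 0 := by linarith
      field_simp
      ring
  · exact ⟨0, le_rfl, zero_le_one, by simp [h]⟩
  · obtain ⟨h1, h2⟩ := ml_mono_diff hPf h.le
    refine ⟨(ml P x - ml P y) / (x - y), div_nonneg h1 (by linarith), ?_, ?_⟩
    · rw [div_le_one (by linarith)]; exact h2
    · have : x - y ≠ 0 := by linarith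
      field_simp

end one

section vec

variable {ι : Type*} [Fintype ι]

local notation "E" => EuclideanSpace ℝ ι

theorem norm_le_coord {v w : EuclideanSpace ℝ ι} {c : ℝ} (hc : 0 ≤ c)
    (h : ∀ a, |v a| ≤ c * |w a|) : ‖v‖ ≤ c * ‖w‖ := by
  rw [EuclideanSpace.norm_eq, EuclideanSpace.norm_eq]
  have h1 : ∑ i, ‖v i‖ ^ 2 ≤ c ^ 2 * ∑ i, ‖w i‖ ^ 2 := by
    rw [Finset.mul_sum]
    refine Finset.sum_le_sum fun i _ => ?_
    rw [← mul_pow]
    exact pow_le_pow_left₀ (norm_nonneg _) (h i) 2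
  calc √(∑ i, ‖v i‖ ^ 2) ≤ √(c ^ 2 * ∑ i, ‖w i‖ ^ 2) := Real.sqrt_le_sqrt h1
    _ = c * √(∑ i, ‖w i‖ ^ 2) := by
        rw [Real.sqrt_mul (sq_nonneg c), Real.sqrt_sq hc]

theorem norm_le_const {v : EuclideanSpace ℝ ι} {c : ℝ} (hc : 0 ≤ c) (h : ∀ a, |v a| ≤ c) :
    ‖v‖ ≤ Fintype.card ι * c := by
  rw [EuclideanSpace.norm_eq]
  rw [Real.sqrt_le_left (by positivity)]
  have h1 : ∑ i, ‖v i‖ ^ 2 ≤ ∑ _i : ι, c ^ 2 :=
    Finset.sum_le_sum fun i _ => pow_le_pow_left₀ (norm_nonneg _) (h i) 2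
  refine h1.trans ?_
  rw [Finset.sum_const, Finset.card_univ, nsmul_eq_mul, mul_pow]
  rcases Nat.eq_zero_or_pos (Fintype.card ι) with h0 | h0
  · simp [h0]
  · have : (1 : ℝ) ≤ Fintype.card ι := by exact_mod_cast h0
    have h2 : (Fintype.card ι : ℝ) ≤ (Fintype.card ι : ℝ) ^ 2 := by nlinarith
    exact mul_le_mul_of_nonneg_right h2 (sq_nonneg c)

/-- displacement of one step -/
noncomputable def psi (P : ι → Set ℝ) (y : EuclideanSpace ℝ ι) : EuclideanSpace ℝ ι :=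
  WithLp.toLp 2 (fun a => -(ml (P a) (y a) / 2))

@[simp] theorem psi_apply (P : ι → Set ℝ) (y : EuclideanSpace ℝ ι) (a : ι) :
    psi P y a = -(ml (P a) (y a) / 2) := rfl

/-- one step -/
noncomputable def stp (χ : EuclideanSpace ℝ ι → ℝ) (P : ι → Set ℝ) (y : EuclideanSpace ℝ ι) :
    EuclideanSpace ℝ ι := y + χ y • psi P y

variable {χ : EuclideanSpace ℝ ι → ℝ} {P : ι → Set ℝ} {σ L : ℝ}

theorem norm_psi (hσ : 0 ≤ σ) (hP : ∀ a, volume (P a) ≤ ENNReal.ofReal σ)
    (y : EuclideanSpace ℝ ι) : ‖psi P y‖ ≤ Fintype.card ι * (σ / 2) := by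
  refine norm_le_const (by linarith) fun a => ?_
  rw [psi_apply, abs_neg, abs_of_nonneg (div_nonneg (ml_nonneg _) zero_le_two)]
  linarith [ml_le hσ (hP a) (y a)]

theorem fin_of {a : ι} (hP : ∀ a, volume (P a) ≤ ENNReal.ofReal σ) : volume (P a) ≠ ⊤ :=
  ne_top_of_le_ne_top ENNReal.ofReal_ne_top (hP a)

/-- the three estimates for one step -/
theorem stp_est (hσ : 0 ≤ σ) (hP : ∀ a, volume (P a) ≤ ENNReal.ofReal σ)
    (h01 : ∀ y, 0 ≤ χ y ∧ χ y ≤ 1) (hL : ∀ y z, |χ y - χ z| ≤ L * ‖y - z‖)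
    (y z : EuclideanSpace ℝ ι) :
    ‖stp χ P y - stp χ P z‖ ≤ (1 + L * (Fintype.card ι * (σ / 2))) * ‖y - z‖ ∧
    ‖(stp χ P y - stp χ P z) - (y - z)‖ ≤ (1 / 2 + L * (Fintype.card ι * (σ / 2))) * ‖y - z‖ := by
  choose θ h0 h1 he using fun a => ml_theta (fin_of (a := a) hP) (y a) (z a)
  have e1 : stp χ P y - stp χ P z =
      ((y - z) + χ y • (psi P y - psi P z)) + (χ y - χ z) • psi P z := by
    unfold stp; module
  have e2 : (stp χ P y - stp χ P z) - (y - z) =
      χ y • (psi P y - psi P z) + (χ y - χ z) • psi P z := by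
    rw [e1]; abel
  have b2 : ‖(χ y - χ z) • psi P z‖ ≤ L * (Fintype.card ι * (σ / 2)) * ‖y - z‖ := by
    rw [norm_smul, Real.norm_eq_abs]
    have := mul_le_mul (hL y z) (norm_psi hσ hP z) (norm_nonneg _)
      ((abs_nonneg _).trans (hL y z))
    calc _ ≤ _ := this
      _ = _ := by ring
  have hc : ∀ a, (psi P y - psi P z) a = -(θ a / 2) * (y a - z a) := by
    intro a
    have := he a
    simp only [PiLp.sub_apply, psi_apply]
    linarith
  have b1 : ‖(y - z) + χ y • (psi P y - psi P z)‖ ≤ 1 * ‖y - z‖ := by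
    refine norm_le_coord zero_le_one fun a => ?_
    have : ((y - z) + χ y • (psi P y - psi P z)) a = (1 - χ y * (θ a / 2)) * (y a - z a) := by
      simp only [PiLp.add_apply, PiLp.smul_apply, smul_eq_mul, hc a]
      simp only [PiLp.sub_apply]
      ring
    rw [this, abs_mul, PiLp.sub_apply]
    refine mul_le_mul_of_nonneg_right ?_ (abs_nonneg _)
    rw [abs_le]
    have := h01 y
    constructor <;> nlinarith [h0 a, h1 a, mul_nonneg this.1 (h0 a),
      mul_le_mul this.2 (h1 a) (h0 a) zero_le_one]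
  have b3 : ‖χ y • (psi P y - psi P z)‖ ≤ 1 / 2 * ‖y - z‖ := by
    refine norm_le_coord (by norm_num) fun a => ?_
    have : (χ y • (psi P y - psi P z)) a = -(χ y * (θ a / 2)) * (y a - z a) := by
      simp only [PiLp.smul_apply, smul_eq_mul, hc a]
      ring
    rw [this, abs_mul, PiLp.sub_apply]
    refine mul_le_mul_of_nonneg_right ?_ (abs_nonneg _)
    rw [abs_neg, abs_of_nonneg (mul_nonneg (h01 y).1 (by linarith [h0 a]))]
    have := h01 y
    nlinarith [h0 a, h1 a, mul_le_mul this.2 (h1 a) (h0 a) zero_le_one]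
  constructor
  · rw [e1]
    calc _ ≤ _ := norm_add_le _ _
      _ ≤ 1 * ‖y - z‖ + L * (Fintype.card ι * (σ / 2)) * ‖y - z‖ := add_le_add b1 b2
      _ = _ := by ring
  · rw [e2]
    calc _ ≤ _ := norm_add_le _ _
      _ ≤ 1 / 2 * ‖y - z‖ + L * (Fintype.card ι * (σ / 2)) * ‖y - z‖ := add_le_add b3 b2
      _ = _ := by ring

theorem stp_dist (hσ : 0 ≤ σ) (hP : ∀ a, volume (P a) ≤ ENNReal.ofReal σ)
    (h01 : ∀ y, 0 ≤ χ y ∧ χ y ≤ 1) (y : EuclideanSpace ℝ ι) :
    ‖stp χ P y - y‖ ≤ Fintype.card ι * (σ / 2) := by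
  have : stp χ P y - y = χ y • psi P y := by unfold stp; abel
  rw [this, norm_smul, Real.norm_eq_abs, abs_of_nonneg (h01 y).1]
  calc _ ≤ 1 * ‖psi P y‖ := mul_le_mul_of_nonneg_right (h01 y).2 (norm_nonneg _)
    _ ≤ _ := by rw [one_mul]; exact norm_psi hσ hP y

/-- one step is a homeomorphism -/
theorem exists_stp_homeo (hσ : 0 ≤ σ) (hP : ∀ a, volume (P a) ≤ ENNReal.ofReal σ)
    (h01 : ∀ y, 0 ≤ χ y ∧ χ y ≤ 1) (hL : ∀ y z, |χ y - χ z| ≤ L * ‖y - z‖)
    (hs : L * (Fintype.card ι * σ) ≤ 1 / 4) :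
    ∃ R : EuclideanSpace ℝ ι ≃ₜ EuclideanSpace ℝ ι, ∀ y, R y = stp χ P y := by
  set c : ℝ≥0 := 5 / 8
  have hA : ApproximatesLinearOn (stp χ P)
      ((ContinuousLinearEquiv.refl ℝ (EuclideanSpace ℝ ι) :
        EuclideanSpace ℝ ι ≃L[ℝ] EuclideanSpace ℝ ι) :
        EuclideanSpace ℝ ι →L[ℝ] EuclideanSpace ℝ ι) univ c := by
    intro y _ z _
    have := (stp_est hσ hP h01 hL y z).2
    have hc : ((c : ℝ≥0) : ℝ) = 5 / 8 := by simp [c]
    rw [hc]
    refine (le_of_eq ?_).trans (this.trans ?_)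
    · congr 1
    · refine mul_le_mul_of_nonneg_right ?_ (norm_nonneg _)
      have : L * (Fintype.card ι * (σ / 2)) = L * (Fintype.card ι * σ) / 2 := by ring
      rw [this]; linarith
  have hc' : Subsingleton (EuclideanSpace ℝ ι) ∨
      c < ‖((ContinuousLinearEquiv.refl ℝ (EuclideanSpace ℝ ι)).symm :
        EuclideanSpace ℝ ι →L[ℝ] EuclideanSpace ℝ ι)‖₊⁻¹ := by
    rcases subsingleton_or_nontrivial (EuclideanSpace ℝ ι) with h | h
    · exact Or.inl h
    · right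
      have : ‖((ContinuousLinearEquiv.refl ℝ (EuclideanSpace ℝ ι)).symm :
        EuclideanSpace ℝ ι →L[ℝ] EuclideanSpace ℝ ι)‖₊ = 1 := by
        have h1 : ((ContinuousLinearEquiv.refl ℝ (EuclideanSpace ℝ ι)).symm :
          EuclideanSpace ℝ ι →L[ℝ] EuclideanSpace ℝ ι) = ContinuousLinearMap.id ℝ _ := rfl
        rw [h1]
        ext
        simp [ContinuousLinearMap.norm_id]
      rw [this, inv_one]
      have : (c : ℝ) < 1 := by simp [c]; norm_num
      exact_mod_cast this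
  exact ⟨hA.toHomeomorph _ hc', fun y => rfl⟩

end vec

end Crest.Agent.R096.Tsq_753
end

-- ▼ part R096/Tsq2_753
section

/-!
The target squeeze: a bi-Lipschitz homeomorphism of `EuclideanSpace ℝ ι`, close to the identity,
supported in `{χ ≠ 0}`, with Lipschitz constant close to one, which contracts every box of a
finite family of small total width by the factor `(1/2)^n`, for any given `n`.
-/

set_option autoImplicit false

open MeasureTheory Set
open scoped NNReal ENNReal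

namespace Crest.Agent.R096.Tsq_753

variable {ι : Type*} [Fintype ι]

/-- the box with corners `lo`, `hi` -/
def bx (lo hi : ι → ℝ) : Set (EuclideanSpace ℝ ι) := {y | ∀ a, lo a ≤ y a ∧ y a ≤ hi a}

theorem volume_union_le {J : Type*} [Fintype J] (lo hi : J → ℝ) {σ : ℝ}
    (hlh : ∀ j, lo j ≤ hi j) (hs : ∑ j, (hi j - lo j) ≤ σ) :
    volume (⋃ j, Icc (lo j) (hi j)) ≤ ENNReal.ofReal σ := by
  calc volume (⋃ j, Icc (lo j) (hi j)) ≤ ∑ j, volume (Icc (lo j) (hi j)) :=
        measure_iUnion_fintype_le _ _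
    _ = ∑ j, ENNReal.ofReal (hi j - lo j) := by simp only [Real.volume_Icc]
    _ = ENNReal.ofReal (∑ j, (hi j - lo j)) := by
        rw [ENNReal.ofReal_sum_of_nonneg fun j _ => sub_nonneg.2 (hlh j)]
    _ ≤ _ := ENNReal.ofReal_le_ofReal hs

/-- lower bound for one step -/
theorem stp_lower {χ : EuclideanSpace ℝ ι → ℝ} {P : ι → Set ℝ} {σ L : ℝ} (hσ : 0 ≤ σ)
    (hP : ∀ a, volume (P a) ≤ ENNReal.ofReal σ)
    (h01 : ∀ y, 0 ≤ χ y ∧ χ y ≤ 1) (hL : ∀ y z, |χ y - χ z| ≤ L * ‖y - z‖)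
    (hs : L * (Fintype.card ι * σ) ≤ 1 / 4) (y z : EuclideanSpace ℝ ι) :
    1 / 4 * ‖y - z‖ ≤ ‖stp χ P y - stp χ P z‖ := by
  have h := (stp_est hσ hP h01 hL y z).2
  have h2 : ‖y - z‖ ≤ ‖stp χ P y - stp χ P z‖ + ‖(stp χ P y - stp χ P z) - (y - z)‖ := by
    calc ‖y - z‖ = ‖(stp χ P y - stp χ P z) - ((stp χ P y - stp χ P z) - (y - z))‖ := by
          congr 1; abel
      _ ≤ _ := norm_sub_le _ _
  have h3 : L * (Fintype.card ι * (σ / 2)) ≤ 1 / 8 := by
    have : L * (Fintype.card ι * (σ / 2)) = L * (Fintype.card ι * σ) / 2 := by ring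
    rw [this]; linarith
  nlinarith [norm_nonneg (y - z)]

/-- on the set where the cut-off is one, a step is the coordinatewise map -/
theorem stp_apply_of_one {χ : EuclideanSpace ℝ ι → ℝ} {P : ι → Set ℝ}
    {y : EuclideanSpace ℝ ι} (h : χ y = 1) (a : ι) :
    stp χ P y a = y a - ml (P a) (y a) / 2 := by
  unfold stp
  rw [h, one_smul, PiLp.add_apply, psi_apply]
  ring

theorem phi_mono {P : Set ℝ} (hPf : volume P ≠ ⊤) {x y : ℝ} (hxy : x ≤ y) :
    x - ml P x / 2 ≤ y - ml P y / 2 := by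
  have := (ml_mono_diff hPf hxy).2
  linarith

theorem phi_full {P : Set ℝ} (hPf : volume P ≠ ⊤) {lo hi x y : ℝ} (h : Icc lo hi ⊆ P)
    (hx : lo ≤ x) (hx' : x ≤ hi) (hy : lo ≤ y) (hy' : y ≤ hi) :
    (x - ml P x / 2) - (y - ml P y / 2) = (x - y) / 2 := by
  rcases le_total x y with hxy | hxy
  · have := ml_full hPf hxy (fun z hz => h ⟨hx.trans hz.1.le, hz.2.trans hy'⟩)
    linarith
  · have := ml_full hPf hxy (fun z hz => h ⟨hy.trans hz.1.le, hz.2.trans hx'⟩)
    linarith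

theorem clamp_exists {lo hi : ι → ℝ} (hlh : ∀ a, lo a ≤ hi a) {δ : ℝ} (hδ : 0 ≤ δ)
    {x' : EuclideanSpace ℝ ι} (h : ∀ a, lo a - δ ≤ x' a ∧ x' a ≤ hi a) :
    ∃ x ∈ bx lo hi, ‖x' - x‖ ≤ Fintype.card ι * δ := by
  refine ⟨WithLp.toLp 2 (fun a => max (lo a) (x' a)), ?_, ?_⟩
  · intro a
    exact ⟨le_max_left _ _, max_le (hlh a) (h a).2⟩
  · refine norm_le_const hδ fun a => ?_
    rw [PiLp.sub_apply]
    show |x' a - max (lo a) (x' a)| ≤ δ
    rcases le_total (lo a) (x' a) with h1 | h1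
    · rw [max_eq_right h1, sub_self, abs_zero]; exact hδ
    · rw [max_eq_left h1, abs_sub_comm, abs_of_nonneg (by linarith)]
      linarith [(h a).1]


end Crest.Agent.R096.Tsq_753
end

-- ▼ part R096/Cwr1_527
section

/-!
# R096 (row 96, p ≤ 2): words on core edges under a target squeeze (helper527)

`v` is close to affine on `[0,1]` (defect `g`), `ψ` nondecreasing, 1-Lipschitz with values in
`[0,σ]` : the increments of `ψ ∘ v` have a density of integral `≤ σ + 2 ∫ g`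
(`ψ ∘ v` moves only while `v` crosses the support of `ψ'`, and this costs at most `σ` plus the
defect).  Hence a curve `c` near an affine one (`NearSeg`) stays near after composition with
`R y = y - ∑ a, ψ a (ℓ a y) • e a`.
-/

set_option autoImplicit false

namespace Crest.Agent.R096.Cwr_527

open MeasureTheory Set Filter Topology Crest.Agent.R096.Core_124

noncomputable section

/-- domination of increments gives absolute continuity -/
theorem ac_of_le {w V : ℝ → ℝ} (hV : AbsolutelyContinuousOnInterval V 0 1)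
    (h : ∀ s ∈ Icc (0:ℝ) 1, ∀ t ∈ Icc (0:ℝ) 1, |w s - w t| ≤ |V s - V t|) :
    AbsolutelyContinuousOnInterval w 0 1 := by
  rw [absolutelyContinuousOnInterval_iff] at hV ⊢
  intro ε hε
  obtain ⟨δ, hδ, H⟩ := hV ε hε
  refine ⟨δ, hδ, fun E hE hs => lt_of_le_of_lt (Finset.sum_le_sum fun i hi => ?_) (H E hE hs)⟩
  have h1 := hE.1 i hi
  rw [uIcc_of_le (zero_le_one' ℝ)] at h1
  rw [Real.dist_eq, Real.dist_eq]
  exact h _ h1.1 _ h1.2

/-- increments dominated by `V`, nondecreasing: density -/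
theorem exists_density {w V : ℝ → ℝ} (hV : AbsolutelyContinuousOnInterval V 0 1)
    (h0 : ∀ s ∈ Icc (0:ℝ) 1, ∀ t ∈ Icc (0:ℝ) 1, s ≤ t → w s ≤ w t)
    (h1 : ∀ s ∈ Icc (0:ℝ) 1, ∀ t ∈ Icc (0:ℝ) 1, s ≤ t → w t - w s ≤ V t - V s) :
    ∃ γ : ℝ → ℝ, IntervalIntegrable γ volume 0 1 ∧ (∀ t, 0 ≤ γ t) ∧
      ∀ s ∈ Icc (0:ℝ) 1, ∀ t ∈ Icc (0:ℝ) 1, s ≤ t → ∫ τ in s..t, γ τ = w t - w s := by
  have hw : AbsolutelyContinuousOnInterval w 0 1 := by
    refine ac_of_le hV fun s hs t ht => ?_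
    rcases le_total s t with hst | hst
    · have e0 := h0 s hs t ht hst
      have e1 := h1 s hs t ht hst
      rw [abs_of_nonpos (by linarith), abs_of_nonpos (by linarith)]
      linarith
    · have e0 := h0 t ht s hs hst
      have e1 := h1 t ht s hs hst
      rw [abs_of_nonneg (by linarith), abs_of_nonneg (by linarith)]
      linarith
  refine ⟨fun t => |deriv w t|, hw.intervalIntegrable_deriv.abs, fun t => abs_nonneg _, ?_⟩
  intro s hs t ht hst
  have hsub : uIcc s t ⊆ uIcc 0 1 := by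
    rw [uIcc_of_le (zero_le_one' ℝ)]
    exact uIcc_subset_Icc hs ht
  rw [← (hw.mono hsub).integral_deriv_eq_sub]
  refine intervalIntegral.integral_congr_ae ?_
  have hne : ∀ᵐ x : ℝ, x ≠ 1 := by simp [ae_iff, measure_singleton]
  filter_upwards [hne] with x hx1 hx
  rw [uIoc_of_le hst] at hx
  have hx0 : 0 < x := lt_of_le_of_lt hs.1 hx.1
  have hx2 : x < 1 := lt_of_le_of_ne (hx.2.trans ht.2) hx1
  refine abs_of_nonneg ?_
  have hmon : MonotoneOn w (Icc 0 1) := fun a ha b hb hab => h0 a ha b hb hab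
  have h2 : 0 ≤ derivWithin w (Icc 0 1) x := hmon.derivWithin_nonneg
  rwa [derivWithin_of_mem_nhds (Icc_mem_nhds hx0 hx2)] at h2

/-- **slab lemma** : increments of `ψ ∘ v` -/
theorem slab {v g ψ : ℝ → ℝ} {b σ : ℝ} (hb : 0 ≤ b)
    (hg : IntervalIntegrable g volume 0 1) (hg0 : ∀ t ∈ Icc (0:ℝ) 1, 0 ≤ g t)
    (hv : ∀ s ∈ Icc (0:ℝ) 1, ∀ t ∈ Icc (0:ℝ) 1, s ≤ t →
      |v t - v s - b * (t - s)| ≤ ∫ τ in s..t, g τ)
    (hm : Monotone ψ) (hL : ∀ x y, |ψ x - ψ y| ≤ |x - y|) (h0 : ∀ x, 0 ≤ ψ x) (h1 : ∀ x, ψ x ≤ σ) :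
    ∃ γ : ℝ → ℝ, IntervalIntegrable γ volume 0 1 ∧ (∀ t ∈ Icc (0:ℝ) 1, 0 ≤ γ t) ∧
      (∀ s ∈ Icc (0:ℝ) 1, ∀ t ∈ Icc (0:ℝ) 1, s ≤ t →
        |ψ (v t) - ψ (v s)| ≤ ∫ τ in s..t, γ τ) ∧
      ∫ τ in (0:ℝ)..1, γ τ ≤ σ + 2 * ∫ τ in (0:ℝ)..1, g τ := by
  have m0 : (0:ℝ) ∈ Icc (0:ℝ) 1 := left_mem_Icc.2 zero_le_one
  have m1 : (1:ℝ) ∈ Icc (0:ℝ) 1 := right_mem_Icc.2 zero_le_one
  have hgi : ∀ s ∈ Icc (0:ℝ) 1, ∀ t ∈ Icc (0:ℝ) 1, IntervalIntegrable g volume s t := by
    intro s hs t ht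
    refine hg.mono_set ?_
    rw [uIcc_of_le (zero_le_one' ℝ)]
    exact uIcc_subset_Icc hs ht
  set G : ℝ → ℝ := fun t => ∫ τ in (0:ℝ)..t, g τ with hG
  have hGst : ∀ s ∈ Icc (0:ℝ) 1, ∀ t ∈ Icc (0:ℝ) 1, G t - G s = ∫ τ in s..t, g τ := by
    intro s hs t ht
    have := intervalIntegral.integral_add_adjacent_intervals (hgi 0 m0 s hs) (hgi s hs t ht)
    simp only [hG]
    linarith
  have hGn : ∀ s ∈ Icc (0:ℝ) 1, ∀ t ∈ Icc (0:ℝ) 1, s ≤ t → 0 ≤ ∫ τ in s..t, g τ :=
    fun s hs t ht hst => intervalIntegral.integral_nonneg hst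
      fun u hu => hg0 u ⟨hs.1.trans hu.1, hu.2.trans ht.2⟩
  have hACG : AbsolutelyContinuousOnInterval G 0 1 :=
    hg.absolutelyContinuousOnInterval_intervalIntegral (c := 0) (by simp)
  have hACb : AbsolutelyContinuousOnInterval (fun t => b * t) 0 1 := by
    have : LipschitzOnWith (Real.toNNReal b) (fun t : ℝ => b * t) (uIcc 0 1) := by
      refine LipschitzOnWith.of_dist_le_mul fun x _ y _ => ?_
      rw [Real.dist_eq, Real.dist_eq, Real.coe_toNNReal b hb, ← mul_sub, abs_mul, abs_of_nonneg hb]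
    exact this.absolutelyContinuousOnInterval
  have hACV : AbsolutelyContinuousOnInterval (fun t => b * t + 2 * G t) 0 1 :=
    hACb.fun_add (hACG.const_mul 2)
  obtain ⟨γ, c1, c2, c3⟩ := exists_density (w := fun t => ψ (v t) + G t) hACV (by
      intro s hs t ht hst
      have e1 := abs_le.1 (hv s hs t ht hst)
      have e2 := hGst s hs t ht
      have e3 := hGn s hs t ht hst
      show ψ (v s) + G s ≤ ψ (v t) + G t
      rcases le_total (v s) (v t) with hc | hc
      · have := hm hc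
        linarith
      · have e4 := abs_le.1 (hL (v t) (v s))
        have e5 : |v t - v s| = v s - v t := by rw [abs_sub_comm]; exact abs_of_nonneg (by linarith)
        have e6 : 0 ≤ b * (t - s) := mul_nonneg hb (by linarith)
        rw [e5] at e4
        linarith [e4.1]) (by
      intro s hs t ht hst
      have e1 := abs_le.1 (hv s hs t ht hst)
      have e2 := hGst s hs t ht
      have e3 := hGn s hs t ht hst
      have e6 : 0 ≤ b * (t - s) := mul_nonneg hb (by linarith)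
      show ψ (v t) + G t - (ψ (v s) + G s) ≤ b * t + 2 * G t - (b * s + 2 * G s)
      rcases le_total (v s) (v t) with hc | hc
      · have e4 := abs_le.1 (hL (v t) (v s))
        rw [abs_of_nonneg (by linarith : 0 ≤ v t - v s)] at e4
        nlinarith [e4.2]
      · have := hm hc
        nlinarith)
  refine ⟨fun t => γ t + g t, c1.add hg, fun t ht => add_nonneg (c2 t) (hg0 t ht), ?_, ?_⟩
  · intro s hs t ht hst
    have hγi : IntervalIntegrable γ volume s t := by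
      refine c1.mono_set ?_
      rw [uIcc_of_le (zero_le_one' ℝ)]
      exact uIcc_subset_Icc hs ht
    rw [intervalIntegral.integral_add hγi (hgi s hs t ht), c3 s hs t ht hst]
    have e2 := hGst s hs t ht
    have e3 := hGn s hs t ht hst
    have e7 : 0 ≤ ∫ τ in s..t, γ τ := intervalIntegral.integral_nonneg hst fun u _ => c2 u
    rw [c3 s hs t ht hst] at e7
    rw [abs_le]
    constructor
    · linarith
    · linarith
  · rw [intervalIntegral.integral_add c1 hg, c3 0 m0 1 m1 zero_le_one]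
    have e2 := hGst 0 m0 1 m1
    have e8 := h1 (v 1)
    have e9 := h0 (v 0)
    linarith

/-- slab lemma, any slope -/
theorem slab' {v g ψ : ℝ → ℝ} {b σ : ℝ}
    (hg : IntervalIntegrable g volume 0 1) (hg0 : ∀ t ∈ Icc (0:ℝ) 1, 0 ≤ g t)
    (hv : ∀ s ∈ Icc (0:ℝ) 1, ∀ t ∈ Icc (0:ℝ) 1, s ≤ t →
      |v t - v s - b * (t - s)| ≤ ∫ τ in s..t, g τ)
    (hm : Monotone ψ) (hL : ∀ x y, |ψ x - ψ y| ≤ |x - y|) (h0 : ∀ x, 0 ≤ ψ x) (h1 : ∀ x, ψ x ≤ σ) :
    ∃ γ : ℝ → ℝ, IntervalIntegrable γ volume 0 1 ∧ (∀ t ∈ Icc (0:ℝ) 1, 0 ≤ γ t) ∧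
      (∀ s ∈ Icc (0:ℝ) 1, ∀ t ∈ Icc (0:ℝ) 1, s ≤ t →
        |ψ (v t) - ψ (v s)| ≤ ∫ τ in s..t, γ τ) ∧
      ∫ τ in (0:ℝ)..1, γ τ ≤ σ + 2 * ∫ τ in (0:ℝ)..1, g τ := by
  rcases le_total 0 b with hb | hb
  · exact slab hb hg hg0 hv hm hL h0 h1
  · obtain ⟨γ, a1, a2, a3, a4⟩ := slab (v := fun t => - v t) (b := -b) (ψ := fun x => σ - ψ (-x))
      (σ := σ) (by linarith) hg hg0 (by
        intro s hs t ht hst
        have := hv s hs t ht hst
        rwa [show -v t - -v s - -b * (t - s) = -(v t - v s - b * (t - s)) by ring, abs_neg])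
      (fun x y hxy => by
        have := hm (neg_le_neg hxy)
        show σ - ψ (-x) ≤ σ - ψ (-y)
        linarith)
      (fun x y => by
        have := hL (-x) (-y)
        show |σ - ψ (-x) - (σ - ψ (-y))| ≤ |x - y|
        rw [show σ - ψ (-x) - (σ - ψ (-y)) = -(ψ (-x) - ψ (-y)) by ring, abs_neg]
        rwa [show -x - -y = -(x - y) by ring, abs_neg] at this)
      (fun x => by have := h1 (-x); show 0 ≤ σ - ψ (-x); linarith)
      (fun x => by have := h0 (-x); show σ - ψ (-x) ≤ σ; linarith)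
    refine ⟨γ, a1, a2, fun s hs t ht hst => ?_, a4⟩
    have := a3 s hs t ht hst
    simp only [neg_neg] at this
    rwa [show σ - ψ (v t) - (σ - ψ (v s)) = -(ψ (v t) - ψ (v s)) by ring, abs_neg] at this

section seg

variable {F : Type*} [NormedAddCommGroup F] [NormedSpace ℝ F]

/-- one shear -/
theorem NearSeg.shear {c : ℝ → F} {g : ℝ → ℝ} {y0 u : F} {ε : ℝ} (h : NearSeg c g y0 u ε)
    {k : ℝ → ℝ} {bv : ℝ} {v : ℝ → ℝ}
    (hk : IntervalIntegrable k volume 0 1) (hk0 : ∀ t ∈ Icc (0:ℝ) 1, 0 ≤ k t)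
    (hv : ∀ s ∈ Icc (0:ℝ) 1, ∀ t ∈ Icc (0:ℝ) 1, s ≤ t →
      |v t - v s - bv * (t - s)| ≤ ∫ τ in s..t, k τ)
    (hvc : ContinuousOn v (Icc 0 1))
    {ψ : ℝ → ℝ} {σ : ℝ} {e : F} (he : ‖e‖ ≤ 1)
    (hm : Monotone ψ) (hL : ∀ x y, |ψ x - ψ y| ≤ |x - y|) (h0 : ∀ x, 0 ≤ ψ x) (h1 : ∀ x, ψ x ≤ σ) :
    ∃ g' : ℝ → ℝ, NearSeg (fun t => c t - ψ (v t) • e) g' y0 u (ε + σ) ∧
      ∫ τ in (0:ℝ)..1, g' τ ≤ (∫ τ in (0:ℝ)..1, g τ) + (σ + 2 * ∫ τ in (0:ℝ)..1, k τ) := by
  obtain ⟨γ, a1, a2, a3, a4⟩ := slab' hk hk0 hv hm hL h0 h1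
  refine ⟨fun t => g t + γ t, ⟨?_, h.int.add a1, fun t ht => add_nonneg (h.nonneg t ht) (a2 t ht),
    ?_, ?_⟩, ?_⟩
  · have hψc : Continuous ψ := by
      have : LipschitzWith 1 ψ := LipschitzWith.of_dist_le_mul fun x y => by
        rw [Real.dist_eq, Real.dist_eq, NNReal.coe_one, one_mul]; exact hL x y
      exact this.continuous
    exact h.cont.sub ((hψc.comp_continuousOn hvc).smul continuousOn_const)
  · intro s hs t ht hst
    have hi : IntervalIntegrable g volume s t := by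
      refine h.int.mono_set ?_
      rw [uIcc_of_le (zero_le_one' ℝ)]
      exact uIcc_subset_Icc hs ht
    have hi2 : IntervalIntegrable γ volume s t := by
      refine a1.mono_set ?_
      rw [uIcc_of_le (zero_le_one' ℝ)]
      exact uIcc_subset_Icc hs ht
    rw [intervalIntegral.integral_add hi hi2]
    have e1 := h.inc s hs t ht hst
    have e2 := a3 s hs t ht hst
    calc ‖c t - ψ (v t) • e - (c s - ψ (v s) • e) - (t - s) • u‖
        = ‖(c t - c s - (t - s) • u) - (ψ (v t) - ψ (v s)) • e‖ := by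
          congr 1; simp only [sub_smul]; abel
      _ ≤ ‖c t - c s - (t - s) • u‖ + ‖(ψ (v t) - ψ (v s)) • e‖ := norm_sub_le _ _
      _ ≤ (∫ τ in s..t, g τ) + ∫ τ in s..t, γ τ := by
          refine add_le_add e1 ?_
          rw [norm_smul, Real.norm_eq_abs]
          calc |ψ (v t) - ψ (v s)| * ‖e‖ ≤ |ψ (v t) - ψ (v s)| * 1 :=
                mul_le_mul_of_nonneg_left he (abs_nonneg _)
            _ ≤ _ := by rw [mul_one]; exact e2
  · intro t ht
    have e1 := h.close t ht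
    calc ‖c t - ψ (v t) • e - (y0 + t • u)‖ = ‖(c t - (y0 + t • u)) - ψ (v t) • e‖ := by
          congr 1; abel
      _ ≤ ‖c t - (y0 + t • u)‖ + ‖ψ (v t) • e‖ := norm_sub_le _ _
      _ ≤ ε + σ := by
          refine add_le_add e1 ?_
          rw [norm_smul, Real.norm_eq_abs, abs_of_nonneg (h0 _)]
          calc ψ (v t) * ‖e‖ ≤ ψ (v t) * 1 := mul_le_mul_of_nonneg_left he (h0 _)
            _ ≤ σ := by rw [mul_one]; exact h1 _
  · rw [intervalIntegral.integral_add h.int a1]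
    linarith

/-- **words under a coordinatewise squeeze** `R y = y - ∑ a, ψ a (ℓ a y) • e a` -/
theorem NearSeg.squeeze {κ : Type*} (s : Finset κ) {c : ℝ → F} {g : ℝ → ℝ} {y0 u : F} {ε : ℝ}
    (h : NearSeg c g y0 u ε) (ℓ : κ → F →L[ℝ] ℝ) (e : κ → F) (ψ : κ → ℝ → ℝ) (σ : κ → ℝ)
    (hℓ : ∀ a ∈ s, ‖ℓ a‖ ≤ 1) (he : ∀ a ∈ s, ‖e a‖ ≤ 1)
    (hm : ∀ a ∈ s, Monotone (ψ a)) (hL : ∀ a ∈ s, ∀ x y, |ψ a x - ψ a y| ≤ |x - y|)
    (h0 : ∀ a ∈ s, ∀ x, 0 ≤ ψ a x) (h1 : ∀ a ∈ s, ∀ x, ψ a x ≤ σ a) :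
    ∃ g' : ℝ → ℝ, NearSeg (fun t => c t - ∑ a ∈ s, ψ a (ℓ a (c t)) • e a) g' y0 u
        (ε + ∑ a ∈ s, σ a) ∧
      ∫ τ in (0:ℝ)..1, g' τ ≤ (1 + 2 * s.card) * (∫ τ in (0:ℝ)..1, g τ) + ∑ a ∈ s, σ a := by
  classical
  induction s using Finset.induction_on with
  | empty =>
    refine ⟨g, ?_, ?_⟩
    · simpa using h
    · simp
  | insert a s ha ih =>
    obtain ⟨g1, b1, b2⟩ := ih (fun x hx => hℓ x (Finset.mem_insert_of_mem hx))
      (fun x hx => he x (Finset.mem_insert_of_mem hx))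
      (fun x hx => hm x (Finset.mem_insert_of_mem hx))
      (fun x hx => hL x (Finset.mem_insert_of_mem hx))
      (fun x hx => h0 x (Finset.mem_insert_of_mem hx))
      (fun x hx => h1 x (Finset.mem_insert_of_mem hx))
    have hma := Finset.mem_insert_self a s
    obtain ⟨g2, d1, d2⟩ := NearSeg.shear b1 (k := g) (bv := ℓ a u) (v := fun t => ℓ a (c t))
      h.int h.nonneg (by
        intro x hx t ht hxt
        have e1 := h.inc x hx t ht hxt
        have e2 : ℓ a (c t) - ℓ a (c x) - ℓ a u * (t - x) = ℓ a (c t - c x - (t - x) • u) := by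
          simp only [map_sub, map_smul, smul_eq_mul]
          ring
        rw [e2]
        calc |ℓ a (c t - c x - (t - x) • u)| ≤ ‖ℓ a‖ * ‖c t - c x - (t - x) • u‖ :=
              (ℓ a).le_opNorm _
          _ ≤ 1 * ‖c t - c x - (t - x) • u‖ :=
              mul_le_mul_of_nonneg_right (hℓ a hma) (norm_nonneg _)
          _ ≤ _ := by rw [one_mul]; exact e1)
      ((ℓ a).continuous.comp_continuousOn h.cont) (he a hma) (hm a hma) (hL a hma) (h0 a hma)
      (h1 a hma)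
    refine ⟨g2, ?_, ?_⟩
    · have e1 : (fun t => c t - ∑ x ∈ insert a s, ψ x (ℓ x (c t)) • e x)
          = fun t => c t - ∑ x ∈ s, ψ x (ℓ x (c t)) • e x - ψ a (ℓ a (c t)) • e a := by
        funext t
        rw [Finset.sum_insert ha]; abel
      have e2 : ε + ∑ x ∈ insert a s, σ x = ε + ∑ x ∈ s, σ x + σ a := by
        rw [Finset.sum_insert ha]; ring
      rw [e1, e2]
      exact d1
    · rw [Finset.sum_insert ha, Finset.card_insert_of_notMem ha]
      push_cast
      have e3 : (1 + 2 * ((s.card : ℝ) + 1)) * (∫ τ in (0:ℝ)..1, g τ)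
          = (1 + 2 * (s.card : ℝ)) * (∫ τ in (0:ℝ)..1, g τ) + 2 * ∫ τ in (0:ℝ)..1, g τ := by ring
      rw [e3]
      linarith

end seg

end

end Crest.Agent.R096.Cwr_527
end

-- ▼ part R096/Cwr2_527

/-!
# R096 (row 96, p = 2): 753's target squeeze with its coordinatewise form, and the words of the
core edges under it (helper527)
-/

set_option autoImplicit false

open MeasureTheory Set
open scoped NNReal ENNReal

namespace Crest.Agent.R096.Cwr_527

open Crest.Agent.R096.Tsq_753 Crest.Agent.R096.Core_124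

variable {ι : Type*} [Fintype ι]

/-- **Target squeeze** (753), with the coordinatewise form where the cut-off is one. -/
theorem exists_squeeze_coord {J : Type*} [Fintype J] {χ : EuclideanSpace ℝ ι → ℝ} {L : ℝ}
    (hL0 : 0 ≤ L)
    (h01 : ∀ y, 0 ≤ χ y ∧ χ y ≤ 1) (hL : ∀ y z, |χ y - χ z| ≤ L * ‖y - z‖) (n : ℕ) :
    ∀ {σ : ℝ} (_ : 0 ≤ σ) (lo hi : J → ι → ℝ) (_ : ∀ j a, lo j a ≤ hi j a)
      (_ : ∀ a, ∑ j, (hi j a - lo j a) ≤ σ) (_ : L * (Fintype.card ι * σ) ≤ 1 / 4)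
      (_ : ∀ j, ∀ x ∈ bx (lo j) (hi j), ∀ y, ‖y - x‖ ≤ Fintype.card ι * σ → χ y = 1),
    ∃ R : EuclideanSpace ℝ ι ≃ₜ EuclideanSpace ℝ ι,
      (∀ y, χ y = 0 → R y = y) ∧ (∀ y, ‖R y - y‖ ≤ Fintype.card ι * σ) ∧
      (∀ y z, ‖R y - R z‖ ≤ (1 + 2 * (L * (Fintype.card ι * σ))) * ‖y - z‖) ∧
      (∀ y z, (1 / 4) ^ n * ‖y - z‖ ≤ ‖R y - R z‖) ∧
      (∀ j, ∀ y ∈ bx (lo j) (hi j), ∀ z ∈ bx (lo j) (hi j),
        ‖R y - R z‖ ≤ (1 / 2) ^ n * ‖y - z‖) ∧
      ∃ ψ : ι → ℝ → ℝ, (∀ a, Monotone (ψ a)) ∧ (∀ a x y, |ψ a x - ψ a y| ≤ |x - y|) ∧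
        (∀ a x, 0 ≤ ψ a x) ∧ (∀ a x, ψ a x ≤ σ) ∧
        ∀ y, (∀ z, ‖z - y‖ ≤ Fintype.card ι * σ → χ z = 1) → ∀ a, R y a = y a - ψ a (y a) := by
  induction n with
  | zero =>
    intro σ hσ lo hi hlh hsum hs h1
    refine ⟨Homeomorph.refl _, fun _ _ => rfl, fun y => ?_, fun y z => ?_, fun y z => ?_,
      fun j y _ z _ => ?_, fun _ _ => 0, fun _ => monotone_const, fun _ x y => ?_,
      fun _ _ => le_rfl, fun _ _ => hσ, fun y _ a => ?_⟩
    · have e : (Homeomorph.refl (EuclideanSpace ℝ ι)) y = y := rfl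
      rw [e, sub_self, norm_zero]; positivity
    · have e : ∀ y, (Homeomorph.refl (EuclideanSpace ℝ ι)) y = y := fun _ => rfl
      rw [e, e]
      have : 0 ≤ L * (Fintype.card ι * σ) := by positivity
      nlinarith [norm_nonneg (y - z)]
    · simp
    · simp
    · simp only [sub_self, abs_zero]; exact abs_nonneg _
    · have e : (Homeomorph.refl (EuclideanSpace ℝ ι)) y = y := rfl
      rw [e, sub_zero]
  | succ n ih =>
    intro σ hσ lo hi hlh hsum hs h1
    set P : ι → Set ℝ := fun a => ⋃ j, Icc (lo j a) (hi j a) with hPdef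
    have hP : ∀ a, volume (P a) ≤ ENNReal.ofReal σ := fun a =>
      volume_union_le (fun j => lo j a) (fun j => hi j a) (fun j => hlh j a) (hsum a)
    have hPf : ∀ a, volume (P a) ≠ ⊤ := fun a => fin_of (a := a) hP
    have hsub : ∀ j a, Icc (lo j a) (hi j a) ⊆ P a := fun j a =>
      subset_iUnion (fun j => Icc (lo j a) (hi j a)) j
    obtain ⟨R1, hR1⟩ := exists_stp_homeo (P := P) hσ hP h01 hL hs
    set lo' : J → ι → ℝ := fun j a => lo j a - ml (P a) (lo j a) / 2 with hlo'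
    set hi' : J → ι → ℝ := fun j a => hi j a - ml (P a) (hi j a) / 2 with hhi'
    have hw : ∀ j a, hi' j a - lo' j a = (hi j a - lo j a) / 2 := fun j a =>
      phi_full (hPf a) (hsub j a) (hlh j a) le_rfl le_rfl (hlh j a)
    have hx0 : 0 ≤ L * (Fintype.card ι * σ) := by positivity
    have hσ2 : 0 ≤ σ / 2 := by linarith
    have key : ∀ j, ∀ x' ∈ bx (lo' j) (hi' j), ∀ y,
        ‖y - x'‖ ≤ Fintype.card ι * (σ / 2) → χ y = 1 := by
      intro j x' hx' y hy
      obtain ⟨x, hx, hxx⟩ := clamp_exists (hlh j) hσ2 (x' := x') (fun a => by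
        have ha := hx' a
        have e1 := ml_le hσ (hP a) (lo j a)
        have e2 := ml_nonneg (P := P a) (hi j a)
        simp only [hlo', hhi'] at ha
        constructor <;> linarith [ha.1, ha.2])
      refine h1 j x hx y ?_
      calc ‖y - x‖ ≤ ‖y - x'‖ + ‖x' - x‖ := by
            have := norm_sub_le_norm_sub_add_norm_sub y x' x
            exact this
        _ ≤ Fintype.card ι * (σ / 2) + Fintype.card ι * (σ / 2) := add_le_add hy hxx
        _ = _ := by ring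
    obtain ⟨R2, a1, a2, a3, a4, a5, ψ2, p1, p2, p3, p4, p5⟩ := ih (σ := σ / 2) hσ2 lo' hi'
      (fun j a => by
        have := hw j a
        have := hlh j a
        linarith)
      (fun a => by
        have : ∑ j, (hi' j a - lo' j a) = (∑ j, (hi j a - lo j a)) / 2 := by
          rw [Finset.sum_div]
          exact Finset.sum_congr rfl fun j _ => hw j a
        rw [this]; linarith [hsum a])
      (by
        have : L * (Fintype.card ι * (σ / 2)) = L * (Fintype.card ι * σ) / 2 := by ring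
        rw [this]; linarith) key
    have hone : ∀ j, ∀ y ∈ bx (lo j) (hi j), χ y = 1 := fun j y hy =>
      h1 j y hy y (by rw [sub_self, norm_zero]; positivity)
    have hml : ∀ a {x y : ℝ}, x ≤ y → 0 ≤ ml (P a) y - ml (P a) x :=
      fun a x y hxy => (ml_mono_diff (hPf a) hxy).1
    have hφm : ∀ a {x y : ℝ}, x ≤ y → x - ml (P a) x / 2 ≤ y - ml (P a) y / 2 :=
      fun a x y hxy => phi_mono (hPf a) hxy
    refine ⟨R1.trans R2, fun y hy => ?_, fun y => ?_, fun y z => ?_, fun y z => ?_,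
      fun j y hy z hz => ?_,
      fun a x => ml (P a) x / 2 + ψ2 a (x - ml (P a) x / 2), fun a x y hxy => ?_,
      fun a x y => ?_, fun a x => ?_, fun a x => ?_, fun y hy a => ?_⟩
    · have : R1 y = y := by rw [hR1]; unfold stp; rw [hy, zero_smul, add_zero]
      rw [Homeomorph.trans_apply, this, a1 y hy]
    · rw [Homeomorph.trans_apply]
      have b1 := stp_dist hσ hP h01 y
      rw [← hR1] at b1
      have b2 := a2 (R1 y)
      calc ‖R2 (R1 y) - y‖ ≤ ‖R2 (R1 y) - R1 y‖ + ‖R1 y - y‖ :=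
            norm_sub_le_norm_sub_add_norm_sub _ _ _
        _ ≤ Fintype.card ι * (σ / 2) + Fintype.card ι * (σ / 2) := add_le_add b2 b1
        _ = _ := by ring
    · rw [Homeomorph.trans_apply, Homeomorph.trans_apply]
      have b1 := (stp_est hσ hP h01 hL y z).1
      rw [← hR1, ← hR1] at b1
      have b2 := a3 (R1 y) (R1 z)
      set X := L * (Fintype.card ι * σ) with hX
      have e1 : L * (Fintype.card ι * (σ / 2)) = X / 2 := by rw [hX]; ring
      rw [e1] at b1 b2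
      have c1 : 1 + 2 * (X / 2) = 1 + X := by ring
      rw [c1] at b2
      have c2 : (1 + X) * ‖R1 y - R1 z‖ ≤ (1 + X) * ((1 + X / 2) * ‖y - z‖) :=
        mul_le_mul_of_nonneg_left b1 (by linarith)
      refine b2.trans (c2.trans ?_)
      rw [← mul_assoc]
      refine mul_le_mul_of_nonneg_right ?_ (norm_nonneg _)
      nlinarith
    · rw [Homeomorph.trans_apply, Homeomorph.trans_apply]
      have b1 := stp_lower hσ hP h01 hL hs y z
      rw [← hR1, ← hR1] at b1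
      have b2 := a4 (R1 y) (R1 z)
      refine le_trans ?_ b2
      rw [pow_succ, mul_assoc]
      exact mul_le_mul_of_nonneg_left b1 (by positivity)
    · rw [Homeomorph.trans_apply, Homeomorph.trans_apply]
      have hm : ∀ y ∈ bx (lo j) (hi j), R1 y ∈ bx (lo' j) (hi' j) := by
        intro y hy a
        rw [hR1, stp_apply_of_one (hone j y hy)]
        exact ⟨phi_mono (hPf a) (hy a).1, phi_mono (hPf a) (hy a).2⟩
      have b2 := a5 j _ (hm y hy) _ (hm z hz)
      have b1 : ‖R1 y - R1 z‖ ≤ 1 / 2 * ‖y - z‖ := by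
        refine norm_le_coord (by norm_num) fun a => ?_
        rw [PiLp.sub_apply, PiLp.sub_apply, hR1, hR1, stp_apply_of_one (hone j y hy),
          stp_apply_of_one (hone j z hz),
          phi_full (hPf a) (hsub j a) (hy a).1 (hy a).2 (hz a).1 (hz a).2, abs_div, abs_two]
        linarith
      refine b2.trans ?_
      rw [pow_succ, mul_assoc]
      exact mul_le_mul_of_nonneg_left b1 (by positivity)
    · have e1 := hml a hxy
      have e2 := p1 a (hφm a hxy)
      show ml (P a) x / 2 + ψ2 a (x - ml (P a) x / 2) ≤ ml (P a) y / 2 + ψ2 a (y - ml (P a) y / 2)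
      linarith
    · have main : ∀ {x y : ℝ}, x ≤ y →
          |ml (P a) x / 2 + ψ2 a (x - ml (P a) x / 2)
            - (ml (P a) y / 2 + ψ2 a (y - ml (P a) y / 2))| ≤ |x - y| := by
        intro x y hxy
        have e1 := hml a hxy
        have e2 := p1 a (hφm a hxy)
        have e3 := p2 a (y - ml (P a) y / 2) (x - ml (P a) x / 2)
        rw [abs_of_nonneg (sub_nonneg.2 (hφm a hxy)), abs_of_nonneg (sub_nonneg.2 e2)] at e3
        rw [abs_sub_comm, abs_sub_comm x y, abs_of_nonneg (by linarith), abs_of_nonneg (by linarith)]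
        linarith
      rcases le_total x y with h | h
      · exact main h
      · have := main h
        rwa [abs_sub_comm, abs_sub_comm y x] at this
    · exact add_nonneg (div_nonneg (ml_nonneg _) zero_le_two) (p3 a _)
    · have e1 := ml_le hσ (hP a) x
      have e2 := p4 a (x - ml (P a) x / 2)
      show ml (P a) x / 2 + ψ2 a (x - ml (P a) x / 2) ≤ σ
      linarith
    · have hc0 : (0 : ℝ) ≤ Fintype.card ι * σ := by positivity
      have h0 : χ y = 1 := hy y (by rw [sub_self, norm_zero]; exact hc0)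
      have e1 : R1 y a = y a - ml (P a) (y a) / 2 := by rw [hR1, stp_apply_of_one h0]
      have e2 := p5 (R1 y) (fun z hz => hy z (by
        have b1 := stp_dist hσ hP h01 y
        rw [← hR1] at b1
        calc ‖z - y‖ ≤ ‖z - R1 y‖ + ‖R1 y - y‖ := norm_sub_le_norm_sub_add_norm_sub _ _ _
          _ ≤ Fintype.card ι * (σ / 2) + Fintype.card ι * (σ / 2) := add_le_add hz b1
          _ = _ := by ring)) a
      rw [Homeomorph.trans_apply, e2, e1]
      ring

theorem NearSeg.congr {F : Type*} [NormedAddCommGroup F] [NormedSpace ℝ F] {c c' : ℝ → F}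
    {g : ℝ → ℝ} {y0 u : F} {ε : ℝ} (h : NearSeg c g y0 u ε) (hc : ∀ t ∈ Icc (0:ℝ) 1, c' t = c t) :
    NearSeg c' g y0 u ε where
  cont := h.cont.congr hc
  int := h.int
  nonneg := h.nonneg
  inc := fun s hs t ht hst => by rw [hc s hs, hc t ht]; exact h.inc s hs t ht hst
  close := fun t ht => by rw [hc t ht]; exact h.close t ht

/-- **core words under the target squeeze** -/
theorem NearSeg.of_coord {R : EuclideanSpace ℝ ι → EuclideanSpace ℝ ι} {ψ : ι → ℝ → ℝ} {σ : ℝ}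
    (hm : ∀ a, Monotone (ψ a)) (hL : ∀ a x y, |ψ a x - ψ a y| ≤ |x - y|)
    (h0 : ∀ a x, 0 ≤ ψ a x) (h1 : ∀ a x, ψ a x ≤ σ)
    {c : ℝ → EuclideanSpace ℝ ι} {g : ℝ → ℝ} {y0 u : EuclideanSpace ℝ ι} {ε : ℝ}
    (h : NearSeg c g y0 u ε)
    (hR : ∀ t ∈ Icc (0:ℝ) 1, ∀ a, R (c t) a = c t a - ψ a (c t a)) :
    ∃ g' : ℝ → ℝ, NearSeg (fun t => R (c t)) g' y0 u (ε + Fintype.card ι * σ) ∧
      ∫ τ in (0:ℝ)..1, g' τ ≤ (1 + 2 * Fintype.card ι) * (∫ τ in (0:ℝ)..1, g τ)
        + Fintype.card ι * σ := by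
  classical
  obtain ⟨g', b1, b2⟩ := NearSeg.squeeze (Finset.univ : Finset ι) h
    (fun a => EuclideanSpace.proj a) (fun a => EuclideanSpace.single a (1:ℝ)) ψ (fun _ => σ)
    (fun a _ => by
      refine ContinuousLinearMap.opNorm_le_bound _ zero_le_one fun x => ?_
      rw [one_mul]
      have e : (EuclideanSpace.proj a : EuclideanSpace ℝ ι →L[ℝ] ℝ) x = x a := rfl
      rw [e]
      exact PiLp.norm_apply_le x a)
    (fun a _ => by simp) (fun a _ => hm a) (fun a _ => hL a)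
    (fun a _ => h0 a) (fun a _ => h1 a)
  refine ⟨g', ?_, ?_⟩
  · have e1 : ε + ∑ _a : ι, σ = ε + Fintype.card ι * σ := by
      rw [Finset.sum_const, Finset.card_univ, nsmul_eq_mul]
    rw [← e1]
    refine NearSeg.congr b1 fun t ht => ?_
    ext a
    rw [hR t ht a, PiLp.sub_apply, WithLp.ofLp_sum, Finset.sum_apply]
    congr 1
    rw [Finset.sum_eq_single a]
    · simp
    · intro b _ hb
      simp [hb.symm]
    · intro hh; exact absurd (Finset.mem_univ a) hh
  · have e1 : ∑ _a : ι, σ = Fintype.card ι * σ := by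
      rw [Finset.sum_const, Finset.card_univ, nsmul_eq_mul]
    rw [e1, Finset.card_univ] at b2
    exact b2

end Crest.Agent.R096.Cwr_527
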