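import Mathlib
import Crest.Agent.R096.Lc2_451

-- ▼ part R096/Lc3_451
section

/-!
# R096/Lc3_451 (helper451, row 96, P2-CUBE)

Plane homology: irreducibility of the boundary `c` of a connected hole-free set `W` of squares,
connectedness of `c`, even sets of vertices of `c` are boundaries in `c`, and the relative statement
for `W` modulo `c`.
-/

set_option autoImplicit false

namespace Crest.Agent.R096.Lc_451

/-- the edge between two neighbouring squares -/
def mid (s t : Pt) : Pt := ((s.1 + t.1) / 2, (s.2 + t.2) / 2)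

theorem bd2_mid {s t : Pt} (hs : Sq s) (h : nb s t) :
    Ed (mid s t) ∧ Sq t ∧ ∀ a, bd2 a (mid s t) = a s + a t := by
  obtain ⟨x, y⟩ := s
  obtain ⟨hx, hy⟩ := hs
  simp only at hx hy
  unfold nb at h
  simp only at h
  rcases h with rfl | rfl | rfl | rfl
  · have e1 : mid (x, y) (x + 2, y) = (x + 1, y) := by
      unfold mid; simp only; ext <;> simp only <;> omega
    rw [e1]
    refine ⟨Or.inl ⟨by simp only; omega, by simp only; omega⟩, ⟨by simp only; omega, hy⟩, fun a => ?_⟩
    unfold bd2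
    simp only
    rw [if_pos (by omega), if_neg (by omega), add_zero, show x + 1 + 1 = x + 2 by ring,
      show x + 1 - 1 = x by ring, add_comm]
  · have e1 : mid (x, y) (x - 2, y) = (x - 1, y) := by
      unfold mid; simp only; ext <;> simp only <;> omega
    rw [e1]
    refine ⟨Or.inl ⟨by simp only; omega, by simp only; omega⟩, ⟨by simp only; omega, hy⟩, fun a => ?_⟩
    unfold bd2
    simp only
    rw [if_pos (by omega), if_neg (by omega), add_zero, show x - 1 + 1 = x by ring,
      show x - 1 - 1 = x - 2 by ring]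
  · have e1 : mid (x, y) (x, y + 2) = (x, y + 1) := by
      unfold mid; simp only; ext <;> simp only <;> omega
    rw [e1]
    refine ⟨Or.inr ⟨by simp only; omega, by simp only; omega⟩, ⟨hx, by simp only; omega⟩, fun a => ?_⟩
    unfold bd2
    simp only
    rw [if_neg (by omega), if_pos (by omega), zero_add, show y + 1 + 1 = y + 2 by ring,
      show y + 1 - 1 = y by ring, add_comm]
  · have e1 : mid (x, y) (x, y - 2) = (x, y - 1) := by
      unfold mid; simp only; ext <;> simp only <;> omega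
    rw [e1]
    refine ⟨Or.inr ⟨by simp only; omega, by simp only; omega⟩, ⟨hx, by simp only; omega⟩, fun a => ?_⟩
    unfold bd2
    simp only
    rw [if_neg (by omega), if_pos (by omega), zero_add, show y - 1 + 1 = y by ring,
      show y - 1 - 1 = y - 2 by ring]

/-- the two sides of an edge -/
theorem sides {e : Pt} (he : Ed e) :
    ∃ s t, Sq s ∧ Sq t ∧ nb s t ∧ mid s t = e ∧ (∀ a, bd2 a e = a s + a t) := by
  obtain ⟨x, y⟩ := e
  rcases he with ⟨hx, hy⟩ | ⟨hx, hy⟩
  · simp only at hx hy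
    have hs : Sq (x - 1, y) := ⟨by simp only; omega, hy⟩
    have hn : nb (x - 1, y) (x + 1, y) := Or.inl (by ext <;> simp only; ring)
    have hm : mid (x - 1, y) (x + 1, y) = (x, y) := by
      unfold mid; simp only; ext <;> simp only <;> omega
    obtain ⟨_, h2, h3⟩ := bd2_mid hs hn
    rw [hm] at h3
    exact ⟨_, _, hs, h2, hn, hm, h3⟩
  · simp only at hx hy
    have hs : Sq (x, y - 1) := ⟨hx, by simp only; omega⟩
    have hn : nb (x, y - 1) (x, y + 1) := Or.inr (Or.inr (Or.inl (by ext <;> simp only; ring)))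
    have hm : mid (x, y - 1) (x, y + 1) = (x, y) := by
      unfold mid; simp only; ext <;> simp only <;> omega
    obtain ⟨_, h2, h3⟩ := bd2_mid hs hn
    rw [hm] at h3
    exact ⟨_, _, hs, h2, hn, hm, h3⟩

/-- indicator -/
def ind (W : Finset Pt) (p : Pt) : ZMod 2 := if p ∈ W then 1 else 0

theorem ind_mem {W : Finset Pt} {p : Pt} (h : p ∈ W) : ind W p = 1 := if_pos h
theorem ind_not {W : Finset Pt} {p : Pt} (h : p ∉ W) : ind W p = 0 := if_neg h

theorem ind_ne {W : Finset Pt} {p : Pt} (h : ind W p ≠ 0) : p ∈ W := by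
  by_contra h'
  exact h (ind_not h')

theorem bd2_ed {a : Pt → ZMod 2} (ha : ∀ p, a p ≠ 0 → Sq p) {e : Pt} (h : bd2 a e ≠ 0) : Ed e := by
  obtain ⟨x, y⟩ := e
  unfold bd2 at h
  simp only at h
  by_cases hx : x % 2 = 0
  · by_cases hy : y % 2 = 0
    · exfalso
      apply h
      have h0 : ∀ p : Pt, (p.1 % 2 = 0 ∨ p.2 % 2 = 0) → a p = 0 := by
        intro p hp
        by_contra h1
        have := ha p h1
        unfold Sq at this
        omega
      rw [if_pos hx, if_pos hy, h0 _ (Or.inr hy), h0 _ (Or.inr hy), h0 _ (Or.inl hx),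
        h0 _ (Or.inl hx)]
      simp
    · exact Or.inl ⟨hx, by simp only; omega⟩
  · by_cases hy : y % 2 = 0
    · exact Or.inr ⟨by simp only; omega, hy⟩
    · exfalso
      apply h
      rw [if_neg hx, if_neg hy, add_zero]

theorem bd2_finite {a : Pt → ZMod 2} (h : {p | a p ≠ 0}.Finite) : {p | bd2 a p ≠ 0}.Finite := by
  obtain ⟨N, hN0, hN⟩ := exists_Bd h
  apply Bd.finite (N := N + 1)
  intro p hp
  by_contra hcon
  apply hp
  have h0 : ∀ q : Pt, (N < |q.1| ∨ N < |q.2|) → a q = 0 := by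
    intro q hq
    by_contra h1
    have := hN q h1
    omega
  have h1 : N + 1 < |p.1| ∨ N + 1 < |p.2| := by omega
  have h2 : |p.1| ≤ |p.1 + 1| + 1 := by
    have := abs_sub_abs_le_abs_sub p.1 (p.1 + 1)
    rw [show p.1 - (p.1 + 1) = -1 by ring] at this
    simp only [abs_neg, abs_one] at this
    linarith
  have h3 : |p.1| ≤ |p.1 - 1| + 1 := by
    have := abs_sub_abs_le_abs_sub p.1 (p.1 - 1)
    rw [show p.1 - (p.1 - 1) = 1 by ring] at this
    simp only [abs_one] at this
    linarith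
  have h4 : |p.2| ≤ |p.2 + 1| + 1 := by
    have := abs_sub_abs_le_abs_sub p.2 (p.2 + 1)
    rw [show p.2 - (p.2 + 1) = -1 by ring] at this
    simp only [abs_neg, abs_one] at this
    linarith
  have h5 : |p.2| ≤ |p.2 - 1| + 1 := by
    have := abs_sub_abs_le_abs_sub p.2 (p.2 - 1)
    rw [show p.2 - (p.2 - 1) = 1 by ring] at this
    simp only [abs_one] at this
    linarith
  unfold bd2
  rw [h0 (p.1 + 1, p.2) (by simp only; omega), h0 (p.1 - 1, p.2) (by simp only; omega),
    h0 (p.1, p.2 + 1) (by simp only; omega), h0 (p.1, p.2 - 1) (by simp only; omega)]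
  simp

theorem ind_finite (W : Finset Pt) : {p | ind W p ≠ 0}.Finite :=
  W.finite_toSet.subset (fun _ h => ind_ne h)

/-- **hole-free**: a finite chain of squares whose boundary misses the edges outside `W` lives in `W` -/
theorem zero_outside {W : Finset Pt} (hHF : HF W) {g : Pt → ZMod 2} (hfin : {p | g p ≠ 0}.Finite)
    (hsq : ∀ p, g p ≠ 0 → Sq p)
    (h : ∀ s t, Sq s → s ∉ W → t ∉ W → nb s t → bd2 g (mid s t) = 0) (p : Pt) (hp : p ∉ W) :
    g p = 0 := by
  classical
  have hT := hHF (hfin.toFinset.filter (fun s => s ∉ W)) (by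
    rw [Finset.disjoint_left]
    intro s hs hsW
    exact (Finset.mem_filter.1 hs).2 hsW) (by
    intro s hs t hst
    rw [Finset.mem_filter, Set.Finite.mem_toFinset] at hs
    by_cases htW : t ∈ W
    · exact Or.inr htW
    · left
      rw [Finset.mem_filter, Set.Finite.mem_toFinset]
      refine ⟨?_, htW⟩
      have h1 := h s t (hsq s hs.1) hs.2 htW hst
      rw [(bd2_mid (hsq s hs.1) hst).2.2] at h1
      show g t ≠ 0
      rw [← zmod2_eq_of_add h1]
      exact hs.1)
  by_contra hne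
  have : p ∈ hfin.toFinset.filter (fun s => s ∉ W) := by
    rw [Finset.mem_filter, Set.Finite.mem_toFinset]
    exact ⟨hne, hp⟩
  rw [hT] at this
  simp at this

/-- a chain of squares whose boundary misses the interior edges of `W` is constant on `W` -/
theorem const_inside {W : Finset Pt} (hcon : Con W) {g : Pt → ZMod 2}
    (h : ∀ s t, s ∈ W → t ∈ W → nb s t → g s + g t = 0) :
    (∀ s ∈ W, g s = 0) ∨ (∀ s ∈ W, g s = 1) := by
  classical
  rcases hcon (W.filter (fun s => g s = 1)) (Finset.filter_subset _ _) (by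
    intro s hs t ht hst
    rw [Finset.mem_filter] at hs ⊢
    refine ⟨ht, ?_⟩
    rw [← zmod2_eq_of_add (h s t hs.1 ht hst)]
    exact hs.2) with h' | h'
  · left
    intro s hs
    by_contra hne
    have : s ∈ W.filter (fun s => g s = 1) := Finset.mem_filter.2 ⟨hs, zmod2_ne_zero hne⟩
    rw [h'] at this
    simp at this
  · right
    intro s hs
    rw [← h'] at hs
    exact (Finset.mem_filter.1 hs).2

/-- **PL2**: the boundary of a connected hole-free set of squares is irreducible -/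
theorem irred {W : Finset Pt} (hW : ∀ s ∈ W, Sq s) (hcon : Con W) (hHF : HF W) {c2 : Pt → ZMod 2}
    (hle : ∀ e, c2 e ≠ 0 → bd2 (ind W) e ≠ 0) (hcl : ∀ v, Vx v → bd2 c2 v = 0) :
    (∀ e, c2 e = 0) ∨ (∀ e, c2 e = bd2 (ind W) e) := by
  have hWsq : ∀ p, ind W p ≠ 0 → Sq p := fun p hp => hW p (ind_ne hp)
  obtain ⟨g, hgf, hgs, hg⟩ := plane_H1 (γ := c2) ((bd2_finite (ind_finite W)).subset hle)
    (fun p hp => bd2_ed hWsq (hle p hp)) hcl
  have h0 := zero_outside hHF hgf hgs (by
    intro s t hs hsW htW hst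
    rw [hg]
    by_contra hne
    apply hle _ hne
    rw [(bd2_mid hs hst).2.2, ind_not hsW, ind_not htW, add_zero])
  have h1 := const_inside hcon (g := g) (by
    intro s t hs ht hst
    rw [← (bd2_mid (hW s hs) hst).2.2, hg]
    by_contra hne
    apply hle _ hne
    rw [(bd2_mid (hW s hs) hst).2.2, ind_mem hs, ind_mem ht, zmod2_self])
  rcases h1 with h1 | h1
  · left
    intro e
    rw [← hg]
    have : g = fun _ => 0 := by
      funext p
      by_cases hp : p ∈ W
      · exact h1 p hp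
      · exact h0 p hp
    rw [this]
    exact op2.zero e
  · right
    intro e
    rw [← hg]
    have : g = ind W := by
      funext p
      by_cases hp : p ∈ W
      · rw [h1 p hp, ind_mem hp]
      · rw [h0 p hp, ind_not hp]
    rw [this]

/-- the end points of an edge -/
theorem ends {e : Pt} (he : Ed e) : ∃ u v, Vx u ∧ Vx v ∧ u ≠ v ∧
    ∀ (b : Pt → ZMod 2) (w : Pt), Vx w → (∀ e', b e' ≠ 0 → e' = e) →
      bd2 b w = if w = u ∨ w = v then b e else 0 := by
  obtain ⟨x, y⟩ := e
  rcases he with ⟨hx, hy⟩ | ⟨hx, hy⟩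
  · simp only at hx hy
    refine ⟨(x, y - 1), (x, y + 1), ⟨hx, by simp only; omega⟩, ⟨hx, by simp only; omega⟩, ?_, ?_⟩
    · intro h
      have := congrArg Prod.snd h
      simp only at this
      omega
    · rintro b ⟨z, w⟩ ⟨hz, hw⟩ hb
      simp only at hz hw
      have h0 : ∀ q : Pt, q ≠ (x, y) → b q = 0 := by
        intro q hq
        by_contra h1
        exact hq (hb q h1)
      unfold bd2
      simp only
      rw [if_pos hz, if_pos hw, h0 (z + 1, w) (by
        intro h; have := congrArg Prod.fst h; simp only at this; omega), h0 (z - 1, w) (by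
        intro h; have := congrArg Prod.fst h; simp only at this; omega)]
      by_cases hc : (z, w) = (x, y - 1) ∨ (z, w) = (x, y + 1)
      · rw [if_pos hc]
        rcases hc with hc | hc
        · simp only [Prod.mk.injEq] at hc
          obtain ⟨rfl, rfl⟩ := hc
          rw [show y - 1 + 1 = y by ring, h0 (z, y - 1 - 1) (by
            intro h; have := congrArg Prod.snd h; simp only at this; omega)]
          ring
        · simp only [Prod.mk.injEq] at hc
          obtain ⟨rfl, rfl⟩ := hc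
          rw [show y + 1 - 1 = y by ring, h0 (z, y + 1 + 1) (by
            intro h; have := congrArg Prod.snd h; simp only at this; omega)]
          ring
      · rw [if_neg hc]
        push Not at hc
        rw [h0 (z, w + 1) (by
          intro h; apply hc.1; rw [Prod.ext_iff] at h ⊢; simp only at h ⊢; omega),
          h0 (z, w - 1) (by
          intro h; apply hc.2; rw [Prod.ext_iff] at h ⊢; simp only at h ⊢; omega)]
        ring
  · simp only at hx hy
    refine ⟨(x - 1, y), (x + 1, y), ⟨by simp only; omega, hy⟩, ⟨by simp only; omega, hy⟩, ?_, ?_⟩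
    · intro h
      have := congrArg Prod.fst h
      simp only at this
      omega
    · rintro b ⟨z, w⟩ ⟨hz, hw⟩ hb
      simp only at hz hw
      have h0 : ∀ q : Pt, q ≠ (x, y) → b q = 0 := by
        intro q hq
        by_contra h1
        exact hq (hb q h1)
      unfold bd2
      simp only
      rw [if_pos hz, if_pos hw, h0 (z, w + 1) (by
        intro h; have := congrArg Prod.snd h; simp only at this; omega), h0 (z, w - 1) (by
        intro h; have := congrArg Prod.snd h; simp only at this; omega)]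
      by_cases hc : (z, w) = (x - 1, y) ∨ (z, w) = (x + 1, y)
      · rw [if_pos hc]
        rcases hc with hc | hc
        · simp only [Prod.mk.injEq] at hc
          obtain ⟨rfl, rfl⟩ := hc
          rw [show x - 1 + 1 = x by ring, h0 (x - 1 - 1, w) (by
            intro h; have := congrArg Prod.fst h; simp only at this; omega)]
          ring
        · simp only [Prod.mk.injEq] at hc
          obtain ⟨rfl, rfl⟩ := hc
          rw [show x + 1 - 1 = x by ring, h0 (x + 1 + 1, w) (by
            intro h; have := congrArg Prod.fst h; simp only at this; omega)]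
          ring
      · rw [if_neg hc]
        push Not at hc
        rw [h0 (z + 1, w) (by
          intro h; apply hc.1; rw [Prod.ext_iff] at h ⊢; simp only at h ⊢; omega),
          h0 (z - 1, w) (by
          intro h; apply hc.2; rw [Prod.ext_iff] at h ⊢; simp only at h ⊢; omega)]
        ring

end Crest.Agent.R096.Lc_451
end

-- ▼ part R096/Lc4_451
section

/-!
# R096/Lc4_451 (helper451, row 96, P2-CUBE)

Plane homology, second part: connectedness of the boundary `c` of a connected hole-free set `W`,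
pairing of an even set of vertices of `c`, and the relative statement (Step A).
-/

set_option autoImplicit false

namespace Crest.Agent.R096.Lc_451

theorem bd2_vx {a : Pt → ZMod 2} {v : Pt} (hv : Vx v) :
    bd2 a v = a (v.1 + 1, v.2) + a (v.1 - 1, v.2) + (a (v.1, v.2 + 1) + a (v.1, v.2 - 1)) := by
  unfold bd2
  rw [if_pos hv.1, if_pos hv.2]

theorem bd2_eh {a : Pt → ZMod 2} {x y : ℤ} (hx : x % 2 = 1) (hy : y % 2 = 0) :
    bd2 a (x, y) = a (x, y + 1) + a (x, y - 1) := by
  unfold bd2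
  rw [if_neg (by simp only; omega), if_pos hy, zero_add]

theorem bd2_ev {a : Pt → ZMod 2} {x y : ℤ} (hx : x % 2 = 0) (hy : y % 2 = 1) :
    bd2 a (x, y) = a (x + 1, y) + a (x - 1, y) := by
  unfold bd2
  rw [if_pos hx, if_neg (by simp only; omega), add_zero]

/-- `v` lies on the curve `c` -/
def OnC (c : Pt → ZMod 2) (v : Pt) : Prop :=
  Vx v ∧ (c (v.1 + 1, v.2) ≠ 0 ∨ c (v.1 - 1, v.2) ≠ 0 ∨ c (v.1, v.2 + 1) ≠ 0 ∨ c (v.1, v.2 - 1) ≠ 0)

/-- boundary of boundary -/
theorem bd2_bd2 {a : Pt → ZMod 2} {v : Pt} (hv : Vx v) :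
    bd2 (bd2 a) v = 0 := by
  obtain ⟨x, y⟩ := v
  obtain ⟨hx, hy⟩ := hv
  simp only at hx hy
  rw [bd2_vx ⟨hx, hy⟩]
  simp only
  rw [bd2_eh (by omega) hy, bd2_eh (by omega) hy, bd2_ev hx (by omega), bd2_ev hx (by omega)]
  have h1 := zmod2_self (a (x + 1, y + 1))
  have h2 := zmod2_self (a (x + 1, y - 1))
  have h3 := zmod2_self (a (x - 1, y + 1))
  have h4 := zmod2_self (a (x - 1, y - 1))
  linear_combination h1 + h2 + h3 + h4

theorem conn_c {W : Finset Pt} (hW : ∀ s ∈ W, Sq s) (hcon : Con W) (hHF : HF W) {ω : Pt → ZMod 2}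
    (h1 : ∀ x y, x % 2 = 1 → y % 2 = 0 → bd2 (ind W) (x, y) ≠ 0 → ω (x - 1, y) = ω (x + 1, y))
    (h2 : ∀ x y, x % 2 = 0 → y % 2 = 1 → bd2 (ind W) (x, y) ≠ 0 → ω (x, y - 1) = ω (x, y + 1)) :
    (∀ v, OnC (bd2 (ind W)) v → ω v = 0) ∨ (∀ v, OnC (bd2 (ind W)) v → ω v = 1) := by
  set c := bd2 (ind W) with hc
  have hWsq : ∀ p, ind W p ≠ 0 → Sq p := fun p hp => hW p (ind_ne hp)
  let c2 : Pt → ZMod 2 := fun e => c e * ω (if e.1 % 2 = 0 then (e.1, e.2 - 1) else (e.1 - 1, e.2))
  have hr : ∀ v, Vx v → c2 (v.1 + 1, v.2) = c (v.1 + 1, v.2) * ω v ∧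
      c2 (v.1 - 1, v.2) = c (v.1 - 1, v.2) * ω v ∧ c2 (v.1, v.2 + 1) = c (v.1, v.2 + 1) * ω v ∧
      c2 (v.1, v.2 - 1) = c (v.1, v.2 - 1) * ω v := by
    rintro ⟨x, y⟩ ⟨hx, hy⟩
    simp only at hx hy ⊢
    refine ⟨?_, ?_, ?_, ?_⟩
    · simp only [c2]
      rw [if_neg (by omega), show x + 1 - 1 = x by ring]
    · simp only [c2]
      rw [if_neg (by omega)]
      by_cases h : c (x - 1, y) = 0
      · rw [h, zero_mul, zero_mul]
      · have := h1 (x - 1) y (by omega) hy h
        rw [show x - 1 + 1 = x by ring] at this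
        rw [this]
    · simp only [c2]
      rw [if_pos hx, show y + 1 - 1 = y by ring]
    · simp only [c2]
      rw [if_pos hx]
      by_cases h : c (x, y - 1) = 0
      · rw [h, zero_mul, zero_mul]
      · have := h2 x (y - 1) hx (by omega) h
        rw [show y - 1 + 1 = y by ring] at this
        rw [this]
  have key := irred hW hcon hHF (c2 := c2) (by
    intro e he hce
    apply he
    simp only [c2]
    rw [show c e = 0 from hce, zero_mul]) (by
    intro v hv
    have h0 : bd2 c v = 0 := bd2_bd2 hv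
    rw [bd2_vx hv] at h0 ⊢
    obtain ⟨e1, e2, e3, e4⟩ := hr v hv
    rw [e1, e2, e3, e4]
    linear_combination (ω v) * h0)
  rcases key with h | h
  · left
    rintro v ⟨hv, hon⟩
    obtain ⟨e1, e2, e3, e4⟩ := hr v hv
    rw [h] at e1 e2 e3 e4
    rcases hon with h' | h' | h' | h'
    · rw [zmod2_ne_zero h', one_mul] at e1; exact e1.symm
    · rw [zmod2_ne_zero h', one_mul] at e2; exact e2.symm
    · rw [zmod2_ne_zero h', one_mul] at e3; exact e3.symm
    · rw [zmod2_ne_zero h', one_mul] at e4; exact e4.symm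
  · right
    rintro v ⟨hv, hon⟩
    obtain ⟨e1, e2, e3, e4⟩ := hr v hv
    rw [h] at e1 e2 e3 e4
    rcases hon with h' | h' | h' | h'
    · rw [← hc, zmod2_ne_zero h', one_mul] at e1; exact e1.symm
    · rw [← hc, zmod2_ne_zero h', one_mul] at e2; exact e2.symm
    · rw [← hc, zmod2_ne_zero h', one_mul] at e3; exact e3.symm
    · rw [← hc, zmod2_ne_zero h', one_mul] at e4; exact e4.symm

/-- a single cell -/
def sgl (e p : Pt) : ZMod 2 := if p = e then 1 else 0

theorem sgl_self (e : Pt) : sgl e e = 1 := if_pos rfl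
theorem sgl_ne {e p : Pt} (h : p ≠ e) : sgl e p = 0 := if_neg h

theorem bd2_sgl_h {x y : ℤ} (hx : x % 2 = 1) (hy : y % 2 = 0) {w : Pt} (hw : Vx w) :
    bd2 (sgl (x, y)) w = sgl (x - 1, y) w + sgl (x + 1, y) w := by
  obtain ⟨a, b⟩ := w
  obtain ⟨ha, hb⟩ := hw
  simp only at ha hb
  rw [bd2_vx ⟨ha, hb⟩]
  unfold sgl
  simp only [Prod.mk.injEq]
  rw [if_neg (by omega : ¬ (a = x ∧ b + 1 = y)), if_neg (by omega : ¬ (a = x ∧ b - 1 = y))]
  by_cases h1 : a = x - 1 ∧ b = y
  · rw [if_pos (by omega : a + 1 = x ∧ b = y), if_neg (by omega : ¬ (a - 1 = x ∧ b = y)), if_pos h1,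
      if_neg (by omega : ¬ (a = x + 1 ∧ b = y))]
    simp
  · rw [if_neg (by omega : ¬ (a + 1 = x ∧ b = y)), if_neg h1]
    by_cases h2 : a = x + 1 ∧ b = y
    · rw [if_pos (by omega : (a - 1 = x ∧ b = y)), if_pos h2]
      simp
    · rw [if_neg (by omega : ¬ (a - 1 = x ∧ b = y)), if_neg h2]
      simp

theorem bd2_sgl_v {x y : ℤ} (hx : x % 2 = 0) (hy : y % 2 = 1) {w : Pt} (hw : Vx w) :
    bd2 (sgl (x, y)) w = sgl (x, y - 1) w + sgl (x, y + 1) w := by
  obtain ⟨a, b⟩ := w
  obtain ⟨ha, hb⟩ := hw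
  simp only at ha hb
  rw [bd2_vx ⟨ha, hb⟩]
  unfold sgl
  simp only [Prod.mk.injEq]
  rw [if_neg (by omega : ¬ (a + 1 = x ∧ b = y)), if_neg (by omega : ¬ (a - 1 = x ∧ b = y))]
  by_cases h1 : a = x ∧ b = y - 1
  · rw [if_pos (by omega : a = x ∧ b + 1 = y), if_neg (by omega : ¬ (a = x ∧ b - 1 = y)), if_pos h1,
      if_neg (by omega : ¬ (a = x ∧ b = y + 1))]
    simp
  · rw [if_neg (by omega : ¬ (a = x ∧ b + 1 = y)), if_neg h1]
    by_cases h2 : a = x ∧ b = y + 1
    · rw [if_pos (by omega : (a = x ∧ b - 1 = y)), if_pos h2]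
      simp
    · rw [if_neg (by omega : ¬ (a = x ∧ b - 1 = y)), if_neg h2]
      simp

theorem bd2_add (a b : Pt → ZMod 2) (p : Pt) : bd2 (fun q => a q + b q) p = bd2 a p + bd2 b p :=
  op2.add a b p

theorem bd2_zero (p : Pt) : bd2 (fun _ => 0) p = 0 := op2.zero p

/-- **path**: two vertices of `c` are joined by a chain of edges of `c` -/
theorem path_c {W : Finset Pt} (hW : ∀ s ∈ W, Sq s) (hcon : Con W) (hHF : HF W) {u u' : Pt}
    (hu : OnC (bd2 (ind W)) u) (hu' : OnC (bd2 (ind W)) u') :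
    ∃ β : Pt → ZMod 2, (∀ e, β e ≠ 0 → bd2 (ind W) e ≠ 0) ∧
      ∀ w, Vx w → bd2 β w = sgl u w + sgl u' w := by
  classical
  set c := bd2 (ind W) with hc
  let R : Pt → Prop := fun v => ∃ β : Pt → ZMod 2, (∀ e, β e ≠ 0 → c e ≠ 0) ∧
      ∀ w, Vx w → bd2 β w = sgl u w + sgl v w
  have hstep : ∀ (e v v' : Pt), c e ≠ 0 → (∀ w, Vx w → bd2 (sgl e) w = sgl v w + sgl v' w) →
      R v → R v' := by
    rintro e v v' hce hev ⟨β, hβ, hβ2⟩
    refine ⟨fun q => β q + sgl e q, ?_, ?_⟩
    · intro e' he'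
      by_cases h : e' = e
      · rw [h]; exact hce
      · apply hβ
        intro h0
        apply he'
        show β e' + sgl e e' = 0
        rw [h0, sgl_ne h, add_zero]
    · intro w hw
      rw [bd2_add, hβ2 w hw, hev w hw]
      have := zmod2_self (sgl v w)
      linear_combination this
  have hR : ∀ (e v v' : Pt), c e ≠ 0 → (∀ w, Vx w → bd2 (sgl e) w = sgl v w + sgl v' w) →
      (R v ↔ R v') := by
    intro e v v' hce hev
    exact ⟨hstep e v v' hce hev, hstep e v' v hce (fun w hw => by rw [hev w hw, add_comm])⟩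
  have key := conn_c hW hcon hHF (ω := fun v => if R v then 1 else 0)
    (fun x y hx hy hxy => by
      have := hR (x, y) (x - 1, y) (x + 1, y) hxy (fun w hw => bd2_sgl_h hx hy hw)
      simp only [this])
    (fun x y hx hy hxy => by
      have := hR (x, y) (x, y - 1) (x, y + 1) hxy (fun w hw => bd2_sgl_v hx hy hw)
      simp only [this])
  have hRu : R u := ⟨fun _ => 0, fun e h => absurd rfl h, fun w _ => by
    rw [bd2_zero, zmod2_self]⟩
  rcases key with h | h
  · have := h u hu
    simp only [if_pos hRu] at this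
    exact absurd this (by decide)
  · have := h u' hu'
    by_contra hcon'
    have hn : ¬ R u' := hcon'
    simp only [if_neg hn] at this
    exact absurd this (by decide)

theorem reduce_c {W : Finset Pt} (hW : ∀ s ∈ W, Sq s) (hcon : Con W) (hHF : HF W) (A : Finset Pt)
    (hA : ∀ a ∈ A, OnC (bd2 (ind W)) a) :
    ∃ β : Pt → ZMod 2, (∀ e, β e ≠ 0 → bd2 (ind W) e ≠ 0) ∧
      ((∀ w, Vx w → ind A w + bd2 β w = 0) ∨
        ∃ u, OnC (bd2 (ind W)) u ∧ ∀ w, Vx w → ind A w + bd2 β w = sgl u w) := by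
  classical
  induction A using Finset.induction with
  | empty =>
    refine ⟨fun _ => 0, fun e h => absurd rfl h, Or.inl fun w _ => ?_⟩
    rw [bd2_zero, ind_not (by simp), add_zero]
  | insert a A ha ih =>
    obtain ⟨β, hβ, h⟩ := ih (fun b hb => hA b (Finset.mem_insert_of_mem hb))
    have hins : ∀ w, ind (insert a A) w = ind A w + sgl a w := by
      intro w
      unfold ind sgl
      by_cases h1 : w = a
      · subst h1
        rw [if_pos (Finset.mem_insert_self _ _), if_neg ha, if_pos rfl, zero_add]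
      · by_cases h2 : w ∈ A
        · rw [if_pos (Finset.mem_insert_of_mem h2), if_pos h2, if_neg h1, add_zero]
        · rw [if_neg (by simp [h1, h2]), if_neg h2, if_neg h1, add_zero]
    have haC := hA a (Finset.mem_insert_self _ _)
    rcases h with h | ⟨u, hu, h⟩
    · refine ⟨β, hβ, Or.inr ⟨a, haC, fun w hw => ?_⟩⟩
      rw [hins]
      linear_combination h w hw
    · obtain ⟨β', hβ', h'⟩ := path_c hW hcon hHF hu haC
      refine ⟨fun q => β q + β' q, ?_, Or.inl fun w hw => ?_⟩
      · intro e he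
        by_cases h1 : β e = 0
        · apply hβ'
          intro h2
          apply he
          show β e + β' e = 0
          rw [h1, h2, add_zero]
        · exact hβ e h1
      · rw [bd2_add, h' w hw, hins]
        have h3 := h w hw
        have h4 := zmod2_self (sgl a w)
        have h5 := zmod2_self (sgl u w)
        linear_combination h3 + h4 + h5

/-- the total of a boundary vanishes -/
theorem tot {γ : Pt → ZMod 2} (hfin : {p | γ p ≠ 0}.Finite) :
    ∑ᶠ p : Pt, (if p.1 % 2 = 0 ∧ p.2 % 2 = 0 then bd2 γ p else 0) = 0 := by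
  classical
  have hs : ∀ (φ : Pt ≃ Pt) (P : Pt → Prop) [DecidablePred P],
      (Function.support (fun p => if P p then γ (φ p) else 0)).Finite := by
    intro φ P _
    refine (hfin.preimage (φ.injective.injOn)).subset ?_
    intro p hp
    simp only [Function.mem_support] at hp
    show γ (φ p) ≠ 0
    intro h0
    apply hp
    rw [h0]
    simp
  let X1 : Pt ≃ Pt := Equiv.prodCongr (Equiv.addRight (1 : ℤ)) (Equiv.refl ℤ)
  let X2 : Pt ≃ Pt := Equiv.prodCongr (Equiv.addRight (-1 : ℤ)) (Equiv.refl ℤ)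
  let Y1 : Pt ≃ Pt := Equiv.prodCongr (Equiv.refl ℤ) (Equiv.addRight (1 : ℤ))
  let Y2 : Pt ≃ Pt := Equiv.prodCongr (Equiv.refl ℤ) (Equiv.addRight (-1 : ℤ))
  have hdec : (fun p : Pt => if p.1 % 2 = 0 ∧ p.2 % 2 = 0 then bd2 γ p else 0) = fun p =>
      ((if p.1 % 2 = 0 ∧ p.2 % 2 = 0 then γ (X1 p) else 0) +
        (if p.1 % 2 = 0 ∧ p.2 % 2 = 0 then γ (X2 p) else 0)) +
      ((if p.1 % 2 = 0 ∧ p.2 % 2 = 0 then γ (Y1 p) else 0) +
        (if p.1 % 2 = 0 ∧ p.2 % 2 = 0 then γ (Y2 p) else 0)) := by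
    funext p
    by_cases h : p.1 % 2 = 0 ∧ p.2 % 2 = 0
    · simp only [if_pos h]
      rw [bd2_vx h]
      rfl
    · simp only [if_neg h, add_zero]
  rw [hdec, finsum_add_distrib, finsum_add_distrib (hs X1 _) (hs X2 _),
    finsum_add_distrib (hs Y1 _) (hs Y2 _)]
  · have e1 : ∑ᶠ p : Pt, (if p.1 % 2 = 0 ∧ p.2 % 2 = 0 then γ (X1 p) else 0)
        = ∑ᶠ p : Pt, (if p.1 % 2 = 1 ∧ p.2 % 2 = 0 then γ p else 0) := by
      rw [← finsum_comp_equiv X1 (f := fun p : Pt => if p.1 % 2 = 1 ∧ p.2 % 2 = 0 then γ p else 0)]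
      apply finsum_congr
      intro p
      have : (X1 p).1 = p.1 + 1 := rfl
      have h2 : (X1 p).2 = p.2 := rfl
      rw [this, h2]
      by_cases h : p.1 % 2 = 0 ∧ p.2 % 2 = 0
      · rw [if_pos h, if_pos (by omega)]
      · rw [if_neg h, if_neg (by omega)]
    have e2 : ∑ᶠ p : Pt, (if p.1 % 2 = 0 ∧ p.2 % 2 = 0 then γ (X2 p) else 0)
        = ∑ᶠ p : Pt, (if p.1 % 2 = 1 ∧ p.2 % 2 = 0 then γ p else 0) := by
      rw [← finsum_comp_equiv X2 (f := fun p : Pt => if p.1 % 2 = 1 ∧ p.2 % 2 = 0 then γ p else 0)]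
      apply finsum_congr
      intro p
      have : (X2 p).1 = p.1 + -1 := rfl
      have h2 : (X2 p).2 = p.2 := rfl
      rw [this, h2]
      by_cases h : p.1 % 2 = 0 ∧ p.2 % 2 = 0
      · rw [if_pos h, if_pos (by omega)]
      · rw [if_neg h, if_neg (by omega)]
    have e3 : ∑ᶠ p : Pt, (if p.1 % 2 = 0 ∧ p.2 % 2 = 0 then γ (Y1 p) else 0)
        = ∑ᶠ p : Pt, (if p.1 % 2 = 0 ∧ p.2 % 2 = 1 then γ p else 0) := by
      rw [← finsum_comp_equiv Y1 (f := fun p : Pt => if p.1 % 2 = 0 ∧ p.2 % 2 = 1 then γ p else 0)]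
      apply finsum_congr
      intro p
      have : (Y1 p).1 = p.1 := rfl
      have h2 : (Y1 p).2 = p.2 + 1 := rfl
      rw [this, h2]
      by_cases h : p.1 % 2 = 0 ∧ p.2 % 2 = 0
      · rw [if_pos h, if_pos (by omega)]
      · rw [if_neg h, if_neg (by omega)]
    have e4 : ∑ᶠ p : Pt, (if p.1 % 2 = 0 ∧ p.2 % 2 = 0 then γ (Y2 p) else 0)
        = ∑ᶠ p : Pt, (if p.1 % 2 = 0 ∧ p.2 % 2 = 1 then γ p else 0) := by
      rw [← finsum_comp_equiv Y2 (f := fun p : Pt => if p.1 % 2 = 0 ∧ p.2 % 2 = 1 then γ p else 0)]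
      apply finsum_congr
      intro p
      have : (Y2 p).1 = p.1 := rfl
      have h2 : (Y2 p).2 = p.2 + -1 := rfl
      rw [this, h2]
      by_cases h : p.1 % 2 = 0 ∧ p.2 % 2 = 0
      · rw [if_pos h, if_pos (by omega)]
      · rw [if_neg h, if_neg (by omega)]
    rw [e1, e2, e3, e4, zmod2_self, zmod2_self, add_zero]
  · refine ((hs X1 (fun p => p.1 % 2 = 0 ∧ p.2 % 2 = 0)).union
      (hs X2 (fun p => p.1 % 2 = 0 ∧ p.2 % 2 = 0))).subset ?_
    exact Function.support_add _ _
  · refine ((hs Y1 (fun p => p.1 % 2 = 0 ∧ p.2 % 2 = 0)).union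
      (hs Y2 (fun p => p.1 % 2 = 0 ∧ p.2 % 2 = 0))).subset ?_
    exact Function.support_add _ _

theorem no_single {γ : Pt → ZMod 2} (hfin : {p | γ p ≠ 0}.Finite)
    {u : Pt} (hu : Vx u) (h : ∀ w, Vx w → bd2 γ w = sgl u w) : False := by
  have h1 := tot hfin
  rw [finsum_eq_single _ u] at h1
  · have hu' : u.1 % 2 = 0 ∧ u.2 % 2 = 0 := hu
    rw [if_pos hu', h u hu, sgl_self] at h1
    exact absurd h1 (by decide)
  · intro w hw
    split_ifs with h2
    · rw [h w h2, sgl_ne hw]
    · rfl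

/-- interior edge of `W` -/
def IntE (W : Finset Pt) (e : Pt) : Prop := ∃ s ∈ W, ∃ t ∈ W, nb s t ∧ mid s t = e

theorem IntE_h {W : Finset Pt} (hW : ∀ s ∈ W, Sq s) {x y : ℤ} (hx : x % 2 = 1) (hy : y % 2 = 0) :
    IntE W (x, y) ↔ (x, y + 1) ∈ W ∧ (x, y - 1) ∈ W := by
  constructor
  · rintro ⟨⟨a, b⟩, hs, t, ht, hst, hm⟩
    have hsq := hW _ hs
    unfold Sq at hsq
    simp only at hsq
    unfold mid at hm
    rcases hst with rfl | rfl | rfl | rfl
    · simp only [Prod.mk.injEq] at hm; omega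
    · simp only [Prod.mk.injEq] at hm; omega
    · simp only [Prod.mk.injEq] at hm
      have e1 : (x, y + 1) = (a, b + 2) := by ext <;> simp only <;> omega
      have e2 : (x, y - 1) = (a, b) := by ext <;> simp only <;> omega
      rw [e1, e2]; exact ⟨ht, hs⟩
    · simp only [Prod.mk.injEq] at hm
      have e1 : (x, y + 1) = (a, b) := by ext <;> simp only <;> omega
      have e2 : (x, y - 1) = (a, b - 2) := by ext <;> simp only <;> omega
      rw [e1, e2]; exact ⟨hs, ht⟩
  · rintro ⟨h1, h2⟩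
    refine ⟨_, h2, _, h1, Or.inr (Or.inr (Or.inl (by ext <;> simp only; ring))), ?_⟩
    unfold mid
    ext <;> simp only <;> omega

theorem IntE_v {W : Finset Pt} (hW : ∀ s ∈ W, Sq s) {x y : ℤ} (hx : x % 2 = 0) (hy : y % 2 = 1) :
    IntE W (x, y) ↔ (x + 1, y) ∈ W ∧ (x - 1, y) ∈ W := by
  constructor
  · rintro ⟨⟨a, b⟩, hs, t, ht, hst, hm⟩
    have hsq := hW _ hs
    unfold Sq at hsq
    simp only at hsq
    unfold mid at hm
    rcases hst with rfl | rfl | rfl | rfl
    · simp only [Prod.mk.injEq] at hm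
      have e1 : (x + 1, y) = (a + 2, b) := by ext <;> simp only <;> omega
      have e2 : (x - 1, y) = (a, b) := by ext <;> simp only <;> omega
      rw [e1, e2]; exact ⟨ht, hs⟩
    · simp only [Prod.mk.injEq] at hm
      have e1 : (x + 1, y) = (a, b) := by ext <;> simp only <;> omega
      have e2 : (x - 1, y) = (a - 2, b) := by ext <;> simp only <;> omega
      rw [e1, e2]; exact ⟨hs, ht⟩
    · simp only [Prod.mk.injEq] at hm; omega
    · simp only [Prod.mk.injEq] at hm; omega
  · rintro ⟨h1, h2⟩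
    refine ⟨_, h2, _, h1, Or.inl (by ext <;> simp only; ring), ?_⟩
    unfold mid
    ext <;> simp only <;> omega

/-- if no edge of `c` ends at `v` then all or none of the four squares at `v` lie in `W` -/
theorem not_OnC {W : Finset Pt} {x y : ℤ} (hx : x % 2 = 0) (hy : y % 2 = 0)
    (h : ¬ OnC (bd2 (ind W)) (x, y)) :
    ((x + 1, y + 1) ∈ W ∧ (x + 1, y - 1) ∈ W ∧ (x - 1, y + 1) ∈ W ∧ (x - 1, y - 1) ∈ W) ∨
    ((x + 1, y + 1) ∉ W ∧ (x + 1, y - 1) ∉ W ∧ (x - 1, y + 1) ∉ W ∧ (x - 1, y - 1) ∉ W) := by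
  have hc : bd2 (ind W) (x + 1, y) = 0 ∧ bd2 (ind W) (x - 1, y) = 0 ∧ bd2 (ind W) (x, y + 1) = 0 ∧
      bd2 (ind W) (x, y - 1) = 0 := by
    unfold OnC at h
    simp only at h
    have h' : ¬ (bd2 (ind W) (x + 1, y) ≠ 0 ∨ bd2 (ind W) (x - 1, y) ≠ 0 ∨ bd2 (ind W) (x, y + 1) ≠ 0
      ∨ bd2 (ind W) (x, y - 1) ≠ 0) := fun hh => h ⟨⟨hx, hy⟩, hh⟩
    push Not at h'
    exact h'
  obtain ⟨h1, h2, h3, h4⟩ := hc
  rw [bd2_eh (by omega) hy] at h1 h2
  rw [bd2_ev hx (by omega)] at h3 h4
  have g1 := zmod2_eq_of_add h1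
  have g2 := zmod2_eq_of_add h2
  have g3 := zmod2_eq_of_add h3
  have g4 := zmod2_eq_of_add h4
  have hiff : ∀ s t : Pt, ind W s = ind W t → (s ∈ W ↔ t ∈ W) := by
    intro s t hst
    unfold ind at hst
    by_cases hs : s ∈ W
    · by_cases ht : t ∈ W
      · exact ⟨fun _ => ht, fun _ => hs⟩
      · rw [if_pos hs, if_neg ht] at hst
        exact absurd hst (by decide)
    · by_cases ht : t ∈ W
      · rw [if_neg hs, if_pos ht] at hst
        exact absurd hst (by decide)
      · exact ⟨fun h => absurd h hs, fun h => absurd h ht⟩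
  have k1 := hiff _ _ g1
  have k2 := hiff _ _ g2
  have k3 := hiff _ _ g3
  have k4 := hiff _ _ g4
  by_cases h0 : (x + 1, y + 1) ∈ W
  · left
    exact ⟨h0, k1.1 h0, k3.1 h0, k4.1 (k1.1 h0)⟩
  · right
    refine ⟨h0, fun h => h0 (k1.2 h), fun h => h0 (k3.2 h), fun h => h0 (k1.2 (k4.2 h))⟩

/-- **Step A**: a chain of edges without end point in the interior of `W` is, on the interior edges,
the boundary of a chain of squares of `W` (`H₁(W, ∂W) = 0`). -/
theorem stepA {W : Finset Pt} (hW : ∀ s ∈ W, Sq s) (hcon : Con W) (hHF : HF W) {γ : Pt → ZMod 2}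
    (hfin : {p | γ p ≠ 0}.Finite) (hE : ∀ p, γ p ≠ 0 → Ed p)
    (hV : ∀ x y, x % 2 = 0 → y % 2 = 0 → (x + 1, y + 1) ∈ W → (x + 1, y - 1) ∈ W →
      (x - 1, y + 1) ∈ W → (x - 1, y - 1) ∈ W → bd2 γ (x, y) = 0) :
    ∃ F : Pt → ZMod 2, (∀ p, F p ≠ 0 → p ∈ W) ∧
      ∀ s t, s ∈ W → t ∈ W → nb s t → F s + F t = γ (mid s t) := by
  classical
  have hWsq : ∀ p, ind W p ≠ 0 → Sq p := fun p hp => hW p (ind_ne hp)
  let γD : Pt → ZMod 2 := fun e => if IntE W e then γ e else 0
  have hγD1 : ∀ e, IntE W e → γD e = γ e := fun e he => if_pos he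
  have hγD0 : ∀ e, ¬ IntE W e → γD e = 0 := fun e he => if_neg he
  have hle : ∀ e, γD e ≠ 0 → γ e ≠ 0 := by
    intro e he h0
    apply he
    simp only [γD]
    rw [h0, ite_self]
  have hfinD : {p | γD p ≠ 0}.Finite := hfin.subset hle
  have hfinA : {v | Vx v ∧ bd2 γD v ≠ 0}.Finite := (bd2_finite hfinD).subset (fun v h => h.2)
  have hA : ∀ v ∈ hfinA.toFinset, OnC (bd2 (ind W)) v := by
    rintro ⟨x, y⟩ hv
    rw [Set.Finite.mem_toFinset] at hv
    obtain ⟨⟨hx, hy⟩, hne⟩ := hv
    simp only at hx hy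
    by_contra hcon'
    apply hne
    rcases not_OnC hx hy hcon' with ⟨h1, h2, h3, h4⟩ | ⟨h1, h2, h3, h4⟩
    · have h0 := hV x y hx hy h1 h2 h3 h4
      rw [bd2_vx ⟨hx, hy⟩] at h0 ⊢
      simp only at h0 ⊢
      rw [hγD1 _ ((IntE_h hW (by omega) hy).2 ⟨h1, h2⟩), hγD1 _ ((IntE_h hW (by omega) hy).2 ⟨h3, h4⟩),
        hγD1 _ ((IntE_v hW hx (by omega)).2 ⟨h1, h3⟩), hγD1 _ ((IntE_v hW hx (by omega)).2 ⟨h2, h4⟩)]
      exact h0
    · rw [bd2_vx ⟨hx, hy⟩]
      simp only
      rw [hγD0 _ (fun h => h1 ((IntE_h hW (by omega) hy).1 h).1),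
        hγD0 _ (fun h => h3 ((IntE_h hW (by omega) hy).1 h).1),
        hγD0 _ (fun h => h1 ((IntE_v hW hx (by omega)).1 h).1),
        hγD0 _ (fun h => h2 ((IntE_v hW hx (by omega)).1 h).1)]
      simp
  obtain ⟨β, hβ, hcase⟩ := reduce_c hW hcon hHF hfinA.toFinset hA
  have hind : ∀ w, Vx w → ind hfinA.toFinset w = bd2 γD w := by
    intro w hw
    by_cases h : bd2 γD w = 0
    · rw [h, ind_not]
      rw [Set.Finite.mem_toFinset]
      exact fun h' => h'.2 h
    · rw [zmod2_ne_zero h, ind_mem]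
      rw [Set.Finite.mem_toFinset]
      exact ⟨hw, h⟩
  have hsumfin : {p | (fun q => γD q + β q) p ≠ 0}.Finite := by
    refine (hfinD.union ((bd2_finite (ind_finite W)).subset hβ)).subset ?_
    intro p hp
    by_contra hcon'
    have h1 : γD p = 0 := by
      by_contra h1
      exact hcon' (Or.inl h1)
    have h2 : β p = 0 := by
      by_contra h2
      exact hcon' (Or.inr h2)
    apply hp
    show γD p + β p = 0
    rw [h1, h2, add_zero]
  have hsumE : ∀ p, (fun q => γD q + β q) p ≠ 0 → Ed p := by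
    intro p hp
    by_cases h : γD p = 0
    · by_cases h' : β p = 0
      · exfalso
        apply hp
        show γD p + β p = 0
        rw [h, h', add_zero]
      · exact bd2_ed hWsq (hβ p h')
    · exact hE p (hle p h)
  rcases hcase with h | ⟨u, hu, h⟩
  · obtain ⟨g, hgf, hgs, hg⟩ := plane_H1 hsumfin hsumE (by
      intro v hv
      rw [bd2_add, ← hind v hv]
      exact h v hv)
    have hβ0 : ∀ s t, Sq s → nb s t → (s ∈ W ↔ t ∈ W) → β (mid s t) = 0 := by
      intro s t hs hst hiff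
      by_contra hne
      apply hβ _ hne
      rw [(bd2_mid hs hst).2.2]
      by_cases h : s ∈ W
      · rw [ind_mem h, ind_mem (hiff.1 h), zmod2_self]
      · rw [ind_not h, ind_not (fun h' => h (hiff.2 h')), add_zero]
    have h0 := zero_outside hHF hgf hgs (by
      intro s t hs hsW htW hst
      rw [hg]
      show γD (mid s t) + β (mid s t) = 0
      rw [hβ0 s t hs hst ⟨fun h => absurd h hsW, fun h => absurd h htW⟩, add_zero]
      apply hγD0
      rintro ⟨s', hs', t', ht', hst', hm⟩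
      -- `mid` determines the sides: use the operator on the indicator of `s`
      have e1 := (bd2_mid (hW s' hs') hst').2.2 (sgl s)
      have e2 := (bd2_mid hs hst).2.2 (sgl s)
      have hts : t ≠ s := by
        rintro rfl
        rcases hst with h | h | h | h <;>
        · have h1 := congrArg Prod.fst h
          have h2 := congrArg Prod.snd h
          simp only at h1 h2
          omega
      rw [hm, e2, sgl_self, sgl_ne hts, add_zero] at e1
      have n1 : s' ≠ s := fun h => hsW (h ▸ hs')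
      have n2 : t' ≠ s := fun h => hsW (h ▸ ht')
      rw [sgl_ne n1, sgl_ne n2, add_zero] at e1
      exact absurd e1 (by decide))
    refine ⟨g, ?_, ?_⟩
    · intro p hp
      by_contra hcon'
      exact hp (h0 p hcon')
    · intro s t hs ht hst
      rw [← (bd2_mid (hW s hs) hst).2.2, hg]
      show γD (mid s t) + β (mid s t) = _
      rw [hβ0 s t (hW s hs) hst ⟨fun _ => ht, fun _ => hs⟩, add_zero]
      exact hγD1 _ ⟨s, hs, t, ht, hst, rfl⟩
  · exfalso
    refine no_single hsumfin hu.1 (fun w hw => ?_)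
    rw [bd2_add, ← hind w hw]
    exact h w hw

end Crest.Agent.R096.Lc_451
end

-- ▼ part R096/Lc5_451

/-!
# R096/Lc5_451 (helper451, row 96, P2-CUBE)

Cubical surfaces in `(ℤ × ℤ) × ℤ` (doubled coordinates): the structure `Surf`, the solid bounded by a
surface, and the two hypotheses of the planar region lemma.
-/

set_option autoImplicit false

namespace Crest.Agent.R096.Lc_451

/-- mod 2 boundary (sum over the cofaces) in dimension 3, doubled coordinates -/
def bd (A : Pt → ℤ → ZMod 2) (p : Pt) (z : ℤ) : ZMod 2 := ext op2 A p z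

theorem bd_def (A : Pt → ℤ → ZMod 2) (p : Pt) (z : ℤ) :
    bd A p z = bd2 (fun q => A q z) p + (if z % 2 = 0 then A p (z + 1) + A p (z - 1) else 0) := rfl

theorem bd_even {A : Pt → ℤ → ZMod 2} {p : Pt} {z : ℤ} (hz : z % 2 = 0) :
    bd A p z = bd2 (fun q => A q z) p + (A p (z + 1) + A p (z - 1)) := by
  rw [bd_def, if_pos hz]

theorem bd_odd {A : Pt → ℤ → ZMod 2} {p : Pt} {z : ℤ} (hz : z % 2 = 1) :
    bd A p z = bd2 (fun q => A q z) p := by
  rw [bd_def, if_neg (by omega), add_zero]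

theorem bd_add (A B : Pt → ℤ → ZMod 2) (p : Pt) (z : ℤ) :
    bd (fun q w => A q w + B q w) p z = bd A p z + bd B p z := by
  rw [bd_def, bd_def, bd_def, bd2_add]
  split_ifs <;> ring

/-- two-dimensional cells -/
def D2 (p : Pt) (z : ℤ) : Prop := (Sq p ∧ z % 2 = 0) ∨ (Ed p ∧ z % 2 = 1)
/-- edges -/
def D1 (p : Pt) (z : ℤ) : Prop := (Ed p ∧ z % 2 = 0) ∨ (Vx p ∧ z % 2 = 1)

/-- `(q, z')` is a coface of `(p, z)` -/
def Cf (p : Pt) (z : ℤ) (q : Pt) (z' : ℤ) : Prop :=
  (p.1 % 2 = 0 ∧ (q = (p.1 + 1, p.2) ∨ q = (p.1 - 1, p.2)) ∧ z' = z) ∨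
  (p.2 % 2 = 0 ∧ (q = (p.1, p.2 + 1) ∨ q = (p.1, p.2 - 1)) ∧ z' = z) ∨
  (z % 2 = 0 ∧ q = p ∧ (z' = z + 1 ∨ z' = z - 1))

/-- the box of radius one around the vertex `(v, z)` -/
def Nr (v : Pt) (z : ℤ) (p : Pt) (z' : ℤ) : Prop :=
  |p.1 - v.1| ≤ 1 ∧ |p.2 - v.2| ≤ 1 ∧ |z' - z| ≤ 1

/-- **cubical Sep-surface**: a finite nonempty closed connected surface made of lattice squares
(doubled coordinates, mod 2 chains), with `0` or `2` squares at every edge (`cl`, `m1`), connected links
(`m2`), and such that every even set of edges bounds. -/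
structure Surf (S : Pt → ℤ → ZMod 2) : Prop where
  fin : {q : Pt × ℤ | S q.1 q.2 ≠ 0}.Finite
  dim : ∀ p z, S p z ≠ 0 → D2 p z
  cl : ∀ p z, D1 p z → bd S p z = 0
  ne : ∃ p z, S p z ≠ 0
  m1 : ∀ p z, D1 p z → ∃ q z', Cf p z q z' ∧ S q z' = 0
  m2 : ∀ v z, Vx v → z % 2 = 0 → ∀ T : Pt → ℤ → ZMod 2, (∀ p z', T p z' ≠ 0 → S p z' ≠ 0) →
    (∀ p z', D1 p z' → Nr v z p z' → bd T p z' = 0) →
    (∀ p z', Nr v z p z' → T p z' = 0) ∨ (∀ p z', Nr v z p z' → T p z' = S p z')
  conn : ∀ T : Pt → ℤ → ZMod 2, (∀ p z, T p z ≠ 0 → S p z ≠ 0) →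
    (∀ p z, D1 p z → bd T p z = 0) → (∀ p z, T p z = 0) ∨ (∀ p z, T p z = S p z)
  sep : ∀ γ : Pt → ℤ → ZMod 2,
    (∀ p z, γ p z ≠ 0 → D1 p z ∧ ∃ q z', Cf p z q z' ∧ S q z' ≠ 0) →
    (∀ p z, Vx p → z % 2 = 0 → bd γ p z = 0) →
    ∃ F : Pt → ℤ → ZMod 2, (∀ p z, F p z ≠ 0 → S p z ≠ 0) ∧ ∀ p z, D1 p z → bd F p z = γ p z

/-- bounded support -/
def Bd3 (N : ℤ) (A : Pt → ℤ → ZMod 2) : Prop := ∀ p z, A p z ≠ 0 → |p.1| ≤ N ∧ |p.2| ≤ N ∧ |z| ≤ N

theorem exists_Bd3 {A : Pt → ℤ → ZMod 2} (h : {q : Pt × ℤ | A q.1 q.2 ≠ 0}.Finite) :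
    ∃ N, 0 ≤ N ∧ Bd3 N A := by
  classical
  refine ⟨∑ s ∈ h.toFinset, (|s.1.1| + |s.1.2| + |s.2|), Finset.sum_nonneg (fun i _ => by positivity), ?_⟩
  intro p z hp
  have h1 : |p.1| + |p.2| + |z| ≤ ∑ s ∈ h.toFinset, (|s.1.1| + |s.1.2| + |s.2|) :=
    Finset.single_le_sum (f := fun s : Pt × ℤ => |s.1.1| + |s.1.2| + |s.2|)
      (fun i _ => by positivity) (h.mem_toFinset.2 (show A (p, z).1 (p, z).2 ≠ 0 from hp))
  have h2 := abs_nonneg p.1
  have h3 := abs_nonneg p.2
  have h4 := abs_nonneg z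
  refine ⟨?_, ?_, ?_⟩ <;> linarith

theorem Bd3.finite {N : ℤ} {A : Pt → ℤ → ZMod 2} (h : Bd3 N A) :
    {q : Pt × ℤ | A q.1 q.2 ≠ 0}.Finite := by
  refine Set.Finite.subset (Finset.finite_toSet
    ((Finset.Icc (-N) N ×ˢ Finset.Icc (-N) N) ×ˢ Finset.Icc (-N) N)) ?_
  rintro ⟨p, z⟩ hp
  obtain ⟨h1, h2, h3⟩ := h p z hp
  rw [abs_le] at h1 h2 h3
  simp only [Finset.coe_product, Finset.coe_Icc, Set.mem_prod, Set.mem_Icc]
  exact ⟨⟨h1, h2⟩, h3⟩

theorem sec_finite {A : Pt → ℤ → ZMod 2} (h : {q : Pt × ℤ | A q.1 q.2 ≠ 0}.Finite) (z : ℤ) :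
    {p : Pt | A p z ≠ 0}.Finite := by
  obtain ⟨N, _, hN⟩ := exists_Bd3 h
  apply Bd.finite (N := N)
  intro p hp
  exact ⟨(hN p z hp).1, (hN p z hp).2.1⟩

theorem bd_dim {A : Pt → ℤ → ZMod 2} (hA : ∀ p z, A p z ≠ 0 → D2 p z) {p : Pt} {z : ℤ}
    (h : bd A p z ≠ 0) : D1 p z := by
  obtain ⟨x, y⟩ := p
  have h0 : ∀ (q : Pt) (w : ℤ), ¬ D2 q w → A q w = 0 := by
    intro q w hq
    by_contra h1
    exact hq (hA q w h1)
  by_contra hD
  apply h
  rw [bd_def]
  unfold bd2
  simp only
  have key : (x % 2 = 1 ∧ y % 2 = 1) ∨ (z % 2 = 1 ∧ ¬ (x % 2 = 0 ∧ y % 2 = 0)) ∨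
      (x % 2 = 0 ∧ y % 2 = 0 ∧ z % 2 = 0) := by
    unfold D1 Ed Vx at hD
    simp only at hD
    omega
  rcases key with ⟨hx, hy⟩ | ⟨hz, hxy⟩ | ⟨hx, hy, hz⟩
  · rw [if_neg (by omega), if_neg (by omega)]
    split_ifs with hz
    · rw [h0 (x, y) (z + 1) (by unfold D2 Sq Ed; simp only; omega),
        h0 (x, y) (z - 1) (by unfold D2 Sq Ed; simp only; omega)]
      simp
    · simp
  · rw [if_neg (by omega : ¬ z % 2 = 0)]
    by_cases hx : x % 2 = 0
    · rw [if_pos hx, if_neg (by omega), h0 (x + 1, y) z (by unfold D2 Sq Ed; simp only; omega),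
        h0 (x - 1, y) z (by unfold D2 Sq Ed; simp only; omega)]
      simp
    · rw [if_neg hx]
      by_cases hy : y % 2 = 0
      · rw [if_pos hy, h0 (x, y + 1) z (by unfold D2 Sq Ed; simp only; omega),
          h0 (x, y - 1) z (by unfold D2 Sq Ed; simp only; omega)]
        simp
      · rw [if_neg hy]
        simp
  · rw [if_pos hx, if_pos hy, if_pos hz, h0 (x + 1, y) z (by unfold D2 Sq Ed; simp only; omega),
      h0 (x - 1, y) z (by unfold D2 Sq Ed; simp only; omega),
      h0 (x, y + 1) z (by unfold D2 Sq Ed; simp only; omega),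
      h0 (x, y - 1) z (by unfold D2 Sq Ed; simp only; omega),
      h0 (x, y) (z + 1) (by unfold D2 Sq Ed; simp only; omega),
      h0 (x, y) (z - 1) (by unfold D2 Sq Ed; simp only; omega)]
    simp

theorem ext2_eq_bd (A : Pt → ℤ → ZMod 2) (p : Pt) (z : ℤ) : ext op2 A p z = bd A p z := rfl

/-- **filling**: a finite closed surface bounds a unique finite solid. -/
theorem exists_fill3 {S : Pt → ℤ → ZMod 2} (hfin : {q : Pt × ℤ | S q.1 q.2 ≠ 0}.Finite)
    (hdim : ∀ p z, S p z ≠ 0 → D2 p z) (hcl : ∀ p z, D1 p z → bd S p z = 0) :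
    ∃ X : Pt → ℤ → ZMod 2, {q : Pt × ℤ | X q.1 q.2 ≠ 0}.Finite ∧
      (∀ p z, X p z ≠ 0 → Sq p ∧ z % 2 = 1) ∧ ∀ p z, bd X p z = S p z := by
  obtain ⟨N, hN0, hN⟩ := exists_Bd3 hfin
  have hA : ∀ p : Pt, ∀ z < -(N + 1), S p z = 0 := by
    intro x z hz
    by_contra h1
    have := (hN _ _ h1).2.2
    rw [abs_le] at this
    omega
  have hcl' : ∀ p z, z % 2 = 0 → ext op2 S p z = 0 := by
    intro p z _
    rw [ext2_eq_bd]
    by_contra h
    exact h (hcl p z (bd_dim hdim h))
  have hXd : ∀ p z, prim (N + 1) S p z ≠ 0 → Sq p ∧ z % 2 = 1 := by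
    intro p z h
    refine ⟨?_, ?_⟩
    · by_contra hp
      apply h
      unfold prim
      split_ifs with h0
      · rfl
      · apply pre_eq_zero
        intro y
        split_ifs with hy
        · by_contra h1
          rcases hdim _ _ h1 with h2 | h2
          · exact hp h2.1
          · omega
        · rfl
    · by_contra hz
      apply h
      unfold prim
      rw [if_pos (by omega)]
  have hbig : ∀ (p : Pt) z, (N < |p.1| ∨ N < |p.2|) → prim (N + 1) S p z = 0 := by
    intro p z hp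
    apply prim_eq_zero_of
    intro y
    by_contra h1
    have := hN _ _ h1
    omega
  refine ⟨prim (N + 1) S, ?_, hXd, fun p z => ext_prim op2 hA hcl' p z⟩
  apply Bd3.finite (N := N + 1)
  intro p z hp
  refine ⟨?_, ?_, ?_⟩
  · by_contra h1
    exact hp (hbig p z (by omega))
  · by_contra h1
    exact hp (hbig p z (by omega))
  · by_contra h1
    apply hp
    rcases lt_abs.1 (not_le.1 h1) with h2 | h2
    · refine prim_top op2 hA hcl' ?_ (z := z) ?_ p
      · intro z hz hop p
        refine top2 (a := fun q => prim (N + 1) S q z) ?_ (fun p hp => (hXd p z hp).1)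
          (fun q _ => hop q) p
        apply Bd.finite (N := N)
        intro q hq
        constructor
        · by_contra h3
          exact hq (hbig q z (by omega))
        · by_contra h3
          exact hq (hbig q z (by omega))
      · intro q
        by_contra h3
        have := (hN _ _ h3).2.2
        rw [abs_le] at this
        omega
    · exact prim_neg (by omega)

/-- finite solid cycles vanish -/
theorem top3 {X : Pt → ℤ → ZMod 2} (hfin : {q : Pt × ℤ | X q.1 q.2 ≠ 0}.Finite)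
    (hsq : ∀ p z, X p z ≠ 0 → Sq p ∧ z % 2 = 1) (h : ∀ p z, bd X p z = 0) (p : Pt) (z : ℤ) :
    X p z = 0 := by
  obtain ⟨N, hN0, hN⟩ := exists_Bd3 hfin
  refine top_ext op2 (A := X) (fun p z hz => ?_) (fun p z _ => h p z) (z0 := N) (fun z hz => ?_) z
  · by_contra h1
    have := (hsq p z h1).2
    omega
  · by_contra h1
    have := (hN p z h1).2.2
    rw [abs_le] at this
    omega

/-- a layer of cubes -/
def layer (A : Finset Pt) (z : ℤ) (p : Pt) (z' : ℤ) : ZMod 2 := if z' = z ∧ p ∈ A then 1 else 0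

theorem layer_ne {A : Finset Pt} {z : ℤ} {p : Pt} {z' : ℤ} (h : layer A z p z' ≠ 0) :
    z' = z ∧ p ∈ A := by
  by_contra h'
  exact h (if_neg h')

theorem layer_eq (A : Finset Pt) (z : ℤ) : (fun q => layer A z q z) = ind A := by
  funext q
  unfold layer ind
  by_cases h : q ∈ A
  · rw [if_pos h, if_pos ⟨rfl, h⟩]
  · rw [if_neg h, if_neg (fun h' => h h'.2)]

theorem layer_other (A : Finset Pt) {z z' : ℤ} (h : z' ≠ z) : (fun q => layer A z q z') = fun _ => 0 := by
  funext q
  exact if_neg (fun h' => h h'.1)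

theorem layer_finite (A : Finset Pt) (z : ℤ) : {q : Pt × ℤ | layer A z q.1 q.2 ≠ 0}.Finite := by
  classical
  refine ((A ×ˢ {z}).finite_toSet).subset ?_
  rintro ⟨p, w⟩ hp
  obtain ⟨h1, h2⟩ := layer_ne hp
  simp only [Finset.coe_product, Finset.coe_singleton, Set.mem_prod, Set.mem_singleton_iff]
  exact ⟨h2, h1⟩

theorem sum_finite {A B : Pt → ℤ → ZMod 2} (hA : {q : Pt × ℤ | A q.1 q.2 ≠ 0}.Finite)
    (hB : {q : Pt × ℤ | B q.1 q.2 ≠ 0}.Finite) :
    {q : Pt × ℤ | (fun p z => A p z + B p z) q.1 q.2 ≠ 0}.Finite := by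
  refine (hA.union hB).subset ?_
  intro q hq
  by_contra hcon'
  have h1 : A q.1 q.2 = 0 := by
    by_contra h1
    exact hcon' (Or.inl h1)
  have h2 : B q.1 q.2 = 0 := by
    by_contra h2
    exact hcon' (Or.inr h2)
  apply hq
  show A q.1 q.2 + B q.1 q.2 = 0
  rw [h1, h2, add_zero]

theorem bd2_bd2' (B : Pt → ZMod 2) (p : Pt) : bd2 (bd2 B) p = 0 := by
  by_cases h1 : p.1 % 2 = 0
  · by_cases h2 : p.2 % 2 = 0
    · exact bd2_bd2 ⟨h1, h2⟩
    · obtain ⟨x, y⟩ := p
      simp only at h1 h2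
      rw [bd2_ev h1 (by omega)]
      unfold bd2
      simp only
      rw [if_neg (by omega), if_neg (by omega), if_neg (by omega), if_neg (by omega)]
      simp
  · by_cases h2 : p.2 % 2 = 0
    · obtain ⟨x, y⟩ := p
      simp only at h1 h2
      rw [bd2_eh (by omega) h2]
      unfold bd2
      simp only
      rw [if_neg (by omega), if_neg (by omega), if_neg (by omega), if_neg (by omega)]
      simp
    · rw [show bd2 (bd2 B) p = _ from rfl]
      unfold bd2
      rw [if_neg h1, if_neg h2, add_zero]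

theorem bd_bd (A : Pt → ℤ → ZMod 2) (p : Pt) (z : ℤ) : bd (bd A) p z = 0 := by
  by_cases hz : z % 2 = 0
  · rw [bd_even hz, bd_odd (z := z + 1) (by omega), bd_odd (z := z - 1) (by omega)]
    have e : (fun q => bd A q z) = fun q => bd2 (fun q => A q z) q + (A q (z + 1) + A q (z - 1)) := by
      funext q
      exact bd_even hz
    rw [e, bd2_add, bd2_add, bd2_bd2']
    have h1 := zmod2_self (bd2 (fun q => A q (z + 1)) p)
    have h2 := zmod2_self (bd2 (fun q => A q (z - 1)) p)
    linear_combination h1 + h2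
  · rw [bd_odd (by omega)]
    have e : (fun q => bd A q z) = bd2 (fun q => A q z) := by
      funext q
      exact bd_odd (by omega)
    rw [e, bd2_bd2']

section solid

variable {S X : Pt → ℤ → ZMod 2} (hS : Surf S) (hXf : {q : Pt × ℤ | X q.1 q.2 ≠ 0}.Finite)
  (hXd : ∀ p z, X p z ≠ 0 → Sq p ∧ z % 2 = 1) (hX : ∀ p z, bd X p z = S p z)

include hX in
/-- horizontal squares -/
theorem S_hor {s : Pt} (hs : Sq s) {z : ℤ} (hz : z % 2 = 0) : S s z = X s (z + 1) + X s (z - 1) := by
  rw [← hX, bd_even hz]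
  unfold bd2
  rw [if_neg (by have := hs.1; omega), if_neg (by have := hs.2; omega)]
  ring

include hX in
/-- vertical squares -/
theorem S_ver {s t : Pt} (hs : Sq s) (hst : nb s t) {z : ℤ} (hz : z % 2 = 1) :
    S (mid s t) z = X s z + X t z := by
  rw [← hX, bd_odd hz, (bd2_mid hs hst).2.2]

include hXd in
theorem X_even {p : Pt} {z : ℤ} (hz : z % 2 = 0) : X p z = 0 := by
  by_contra h
  have := (hXd p z h).2
  omega

include hXd in
theorem X_nsq {p : Pt} {z : ℤ} (hp : ¬ Sq p) : X p z = 0 := by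
  by_contra h
  exact hp (hXd p z h).1

include hS hXd hX in
theorem hyp_m1 : ∀ (h : ℤ) (s t : Pt), nb s t → X s (h - 1) ≠ X s (h + 1) →
    X t (h - 1) ≠ X t (h + 1) → X s (h + 1) = X t (h + 1) := by
  intro h s t hst hs ht
  by_contra hne
  have hh : h % 2 = 0 := by
    by_contra hh
    apply hs
    rw [X_even hXd (by omega), X_even hXd (by omega)]
  have hsq : Sq s := by
    by_contra hsq
    apply hs
    rw [X_nsq hXd hsq, X_nsq hXd hsq]
  obtain ⟨hed, htq, hb⟩ := bd2_mid hsq hst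
  -- all four cofaces
  have e1 : S s h ≠ 0 := by
    rw [S_hor hX hsq hh]
    intro h0
    exact hs (zmod2_eq_of_add h0).symm
  have e2 : S t h ≠ 0 := by
    rw [S_hor hX htq hh]
    intro h0
    exact ht (zmod2_eq_of_add h0).symm
  have e3 : S (mid s t) (h + 1) ≠ 0 := by
    rw [S_ver hX hsq hst (by omega)]
    intro h0
    exact hne (zmod2_eq_of_add h0)
  have e4 : S (mid s t) (h - 1) ≠ 0 := by
    rw [S_ver hX hsq hst (by omega)]
    intro h0
    have h1 := zmod2_eq_of_add h0
    rw [zmod2_ne hs, zmod2_ne ht] at h1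
    exact hne (add_right_cancel h1)
  obtain ⟨q, z', hc, h0⟩ := hS.m1 (mid s t) h (Or.inl ⟨hed, hh⟩)
  -- the horizontal cofaces of the edge are `s`, `t`
  have hcof : ∀ a : Pt, bd2 (sgl a) (mid s t) = sgl a s + sgl a t := fun a => hb (sgl a)
  have hq : q = mid s t ∨ ((q = s ∨ q = t) ∧ z' = h) := by
    rcases hc with ⟨hp, hq, hz⟩ | ⟨hp, hq, hz⟩ | ⟨hp, hq, hz⟩
    · right
      refine ⟨?_, hz⟩
      have hp2 : (mid s t).2 % 2 = 1 := by
        rcases hed with h | h
        · exact h.2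
        · omega
      have h1 : bd2 (sgl q) (mid s t) = 1 := by
        unfold bd2
        rw [if_pos hp, if_neg (by omega), add_zero]
        rcases hq with rfl | rfl
        · rw [sgl_self, sgl_ne, add_zero]
          intro h; have := congrArg Prod.fst h; simp only at this; omega
        · rw [sgl_self, sgl_ne, zero_add]
          intro h; have := congrArg Prod.fst h; simp only at this; omega
      rw [hcof] at h1
      by_contra hcon
      push Not at hcon
      rw [sgl_ne hcon.1.symm, sgl_ne hcon.2.symm, add_zero] at h1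
      exact absurd h1 (by decide)
    · right
      refine ⟨?_, hz⟩
      have hp2 : (mid s t).1 % 2 = 1 := by
        rcases hed with h | h
        · omega
        · exact h.1
      have h1 : bd2 (sgl q) (mid s t) = 1 := by
        unfold bd2
        rw [if_neg (by omega), if_pos hp, zero_add]
        rcases hq with rfl | rfl
        · rw [sgl_self, sgl_ne, add_zero]
          intro h; have := congrArg Prod.snd h; simp only at this; omega
        · rw [sgl_self, sgl_ne, zero_add]
          intro h; have := congrArg Prod.snd h; simp only at this; omega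
      rw [hcof] at h1
      by_contra hcon
      push Not at hcon
      rw [sgl_ne hcon.1.symm, sgl_ne hcon.2.symm, add_zero] at h1
      exact absurd h1 (by decide)
    · exact Or.inl hq
  rcases hq with hq | ⟨hq, hz⟩
  · -- vertical coface: its height is odd
    have hz' : z' = h + 1 ∨ z' = h - 1 := by
      rcases hc with ⟨hp, hq', hz⟩ | ⟨hp, hq', hz⟩ | ⟨_, _, hz⟩
      · exfalso
        rw [hq] at hq'
        rcases hq' with h5 | h5
        · have := congrArg Prod.fst h5; simp only at this; omega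
        · have := congrArg Prod.fst h5; simp only at this; omega
      · exfalso
        rw [hq] at hq'
        rcases hq' with h5 | h5
        · have := congrArg Prod.snd h5; simp only at this; omega
        · have := congrArg Prod.snd h5; simp only at this; omega
      · exact hz
    rw [hq] at h0
    rcases hz' with h6 | h6
    · rw [h6] at h0; exact e3 h0
    · rw [h6] at h0; exact e4 h0
  · rw [hz] at h0
    rcases hq with h5 | h5
    · rw [h5] at h0; exact e1 h0
    · rw [h5] at h0; exact e2 h0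

include hS hXf hXd hX in
theorem hyp_c : ∀ (z : ℤ) (a : ZMod 2) (Q : Finset Pt), Q.Nonempty →
      (∀ s ∈ Q, X s z = a ∧ X s (z + 2) = a + 1 ∧ X s (z - 2) = a + 1) →
      (∀ s ∈ Q, ∀ t, t ∉ Q → nb s t → X t z = a + 1) →
      a = 1 ∧ ∀ s z', X s z' = 1 ↔ (z' = z ∧ s ∈ Q) := by
  intro z a Q ⟨s0, hs0⟩ hQ1 hQ2
  have hz : z % 2 = 1 := by
    by_contra hz
    have h1 := (hQ1 s0 hs0).1
    have h2 := (hQ1 s0 hs0).2.1
    rw [X_even hXd (by omega)] at h1 h2
    rw [← h1] at h2
    exact absurd h2 (by decide)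
  have hsq : ∀ s ∈ Q, Sq s := by
    intro s hs
    by_contra hsq
    have h1 := (hQ1 s hs).1
    have h2 := (hQ1 s hs).2.1
    rw [X_nsq hXd hsq] at h1 h2
    rw [← h1] at h2
    exact absurd h2 (by decide)
  have haa : a + (a + 1) = 1 := by
    rw [← add_assoc, zmod2_self, zero_add]
  have hTle : ∀ p w, bd (layer Q z) p w ≠ 0 → S p w ≠ 0 := by
    intro p w hne
    by_cases hw : w % 2 = 0
    · rw [bd_even hw, layer_other Q (show w ≠ z by intro h; omega), bd2_zero, zero_add] at hne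
      by_cases h1 : layer Q z p (w + 1) = 0
      · rw [h1, zero_add] at hne
        obtain ⟨h2, h3⟩ := layer_ne hne
        rw [S_hor hX (hsq p h3) hw, show w + 1 = z + 2 by omega, show w - 1 = z by omega,
          (hQ1 p h3).1, (hQ1 p h3).2.1, add_comm, haa]
        decide
      · obtain ⟨h2, h3⟩ := layer_ne h1
        rw [S_hor hX (hsq p h3) hw, show w + 1 = z by omega, show w - 1 = z - 2 by omega,
          (hQ1 p h3).1, (hQ1 p h3).2.2, haa]
        decide
    · have hwz : w = z := by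
        by_contra hwz
        rw [bd_odd (by omega), layer_other Q hwz, bd2_zero] at hne
        exact hne rfl
      subst hwz
      rw [bd_odd hz, layer_eq] at hne
      have hed := bd2_ed (fun p hp => hsq p (ind_ne hp)) hne
      obtain ⟨s, t, hs, ht, hst, hm, hb⟩ := sides hed
      rw [hb] at hne
      rw [← hm, S_ver hX hs hst hz]
      by_cases h1 : s ∈ Q
      · have h2 : t ∉ Q := by
          intro h2
          rw [ind_mem h1, ind_mem h2] at hne
          exact hne (by decide)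
        rw [(hQ1 s h1).1, hQ2 s h1 t h2 hst, haa]
        decide
      · have h2 : t ∈ Q := by
          by_contra h2
          rw [ind_not h1, ind_not h2] at hne
          exact hne (by decide)
        rw [(hQ1 t h2).1, hQ2 t h2 s h1 hst.symm, add_comm, haa]
        decide
  rcases hS.conn (bd (layer Q z)) hTle (fun p w _ => bd_bd _ p w) with h | h
  · exfalso
    have h1 := h s0 (z + 1)
    rw [bd_even (by omega), layer_other Q (show z + 1 ≠ z by omega), bd2_zero, zero_add] at h1
    unfold layer at h1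
    rw [if_neg (by omega), if_pos ⟨by omega, hs0⟩] at h1
    exact absurd h1 (by decide)
  · have hX' : ∀ p w, X p w + layer Q z p w = 0 := by
      intro p w
      refine top3 (X := fun p w => X p w + layer Q z p w) (sum_finite hXf (layer_finite Q z)) ?_ ?_ p w
      · intro p w hne
        by_cases h1 : X p w = 0
        · have h2 : layer Q z p w ≠ 0 := by
            intro h2
            apply hne
            show X p w + layer Q z p w = 0
            rw [h1, h2, add_zero]
          obtain ⟨h3, h4⟩ := layer_ne h2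
          exact ⟨hsq p h4, by omega⟩
        · exact hXd p w h1
      · intro p w
        rw [bd_add, hX, ← h, zmod2_self]
    have hXe : ∀ p w, X p w = layer Q z p w := fun p w => zmod2_eq_of_add (hX' p w)
    refine ⟨?_, ?_⟩
    · rw [← (hQ1 s0 hs0).1, hXe]
      exact if_pos ⟨rfl, hs0⟩
    · intro s z'
      rw [hXe]
      unfold layer
      constructor
      · intro h
        by_contra h'
        rw [if_neg h'] at h
        exact absurd h (by decide)
      · intro h
        exact if_pos h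

end solid

end Crest.Agent.R096.Lc_451
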