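import Crest.Agent.R096.Ax2_914
import Crest.Agent.R096.Coh2_184
import Crest.Agent.R096.Lc5_451

-- ▼ part R096/Ax3_914
section

/-!
# Edges and vertices of a two-sided cubical surface (helper914, row 96, P2-AXIS, part 3)
-/

set_option autoImplicit false
set_option linter.unusedSectionVars false

namespace Crest.Agent.R096.Ax_914

open Set Metric Function

variable {ι : Type*} {Q : Finset (ι → ℤ)} [DecidableEq ι]

/-- codimension two cells with normal directions `i, j` -/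
def Cod2 (d : ι → ℤ) (i j : ι) : Prop :=
  i ≠ j ∧ d i % 2 = 0 ∧ d j % 2 = 0 ∧ ∀ k, k ≠ i → k ≠ j → d k % 2 = 1

theorem Cod2.symm {d : ι → ℤ} {i j : ι} (h : Cod2 d i j) : Cod2 d j i :=
  ⟨h.1.symm, h.2.2.1, h.2.1, fun k h1 h2 => h.2.2.2 k h2 h1⟩

/-- a coface of a codimension two cell -/
theorem Cod2.cof {d : ι → ℤ} {i j : ι} (h : Cod2 d i j) {x : ℤ} (hx : x = 1 ∨ x = -1) :
    Cod1 (update d i (d i + x)) j ∧ Cof d (update d i (d i + x)) := by
  obtain ⟨h1, h2, h3, h4⟩ := h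
  refine ⟨⟨?_, fun k hk => ?_⟩, fun k => ?_⟩
  · rw [update_of_ne h1.symm]; exact h3
  · by_cases hki : k = i
    · subst hki; rw [update_self]; omega
    · rw [update_of_ne hki]; exact h4 k hki hk
  · by_cases hki : k = i
    · subst hki; rw [update_self]
      right
      exact ⟨h2, by omega⟩
    · rw [update_of_ne hki]; exact Or.inl rfl

/-- the top cells round a codimension two cell -/
def quad (d : ι → ℤ) (i j : ι) (x y : ℤ) : ι → ℤ := update (update d i (d i + x)) j (d j + y)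

theorem quad_symm {d : ι → ℤ} {i j : ι} (h : i ≠ j) (x y : ℤ) : quad d i j x y = quad d j i y x := by
  unfold quad
  rw [update_comm h]

theorem Cod2.quad_top {d : ι → ℤ} {i j : ι} (h : Cod2 d i j) {x y : ℤ} (hx : x = 1 ∨ x = -1)
    (hy : y = 1 ∨ y = -1) : Cof d (quad d i j x y) ∧ Top (quad d i j x y) := by
  obtain ⟨h1, h2, h3, h4⟩ := h
  unfold quad
  constructor <;> intro k <;> by_cases hkj : k = j
  · subst hkj; rw [update_self]; right; exact ⟨h3, by omega⟩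
  · rw [update_of_ne hkj]
    by_cases hki : k = i
    · subst hki; rw [update_self]; right; exact ⟨h2, by omega⟩
    · rw [update_of_ne hki]; exact Or.inl rfl
  · subst hkj; rw [update_self]; omega
  · rw [update_of_ne hkj]
    by_cases hki : k = i
    · subst hki; rw [update_self]; omega
    · rw [update_of_ne hki]; exact h4 k hki hkj

theorem Cod2.eq_quad {d : ι → ℤ} {i j : ι} (h : Cod2 d i j) {g : ι → ℤ} (hg : Cof d g)
    (hg2 : Top g) : ∃ x y : ℤ, (x = 1 ∨ x = -1) ∧ (y = 1 ∨ y = -1) ∧ g = quad d i j x y := by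
  obtain ⟨h1, h2, h3, h4⟩ := h
  refine ⟨g i - d i, g j - d j, ?_, ?_, ?_⟩
  · have := hg2 i
    rcases hg i with h5 | ⟨_, h5 | h5⟩ <;> omega
  · have := hg2 j
    rcases hg j with h5 | ⟨_, h5 | h5⟩ <;> omega
  · funext k
    unfold quad
    by_cases hkj : k = j
    · subst hkj; rw [update_self]; ring
    · rw [update_of_ne hkj]
      by_cases hki : k = i
      · subst hki; rw [update_self]; ring
      · rw [update_of_ne hki]
        have := h4 k hki hkj
        rcases hg k with h5 | ⟨h6, _⟩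
        · exact h5
        · omega

/-- codimension one cofaces of a codimension two cell -/
theorem Cod2.eq_cof {d : ι → ℤ} {i j : ι} (h : Cod2 d i j) {s : ι → ℤ} {l : ι} (hs : Cod1 s l)
    (hds : Cof d s) : (l = j ∧ ∃ x : ℤ, (x = 1 ∨ x = -1) ∧ s = update d i (d i + x)) ∨
      (l = i ∧ ∃ x : ℤ, (x = 1 ∨ x = -1) ∧ s = update d j (d j + x)) := by
  have hl := hs.eq_of_cof hds
  have hle : d l % 2 = 0 := by rw [← hl]; exact hs.1
  have main : ∀ i j, Cod2 d i j → l = j → ∃ x : ℤ, (x = 1 ∨ x = -1) ∧ s = update d i (d i + x) := by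
    rintro i j ⟨h1, h2, h3, h4⟩ rfl
    refine ⟨s i - d i, ?_, ?_⟩
    · have := hs.2 i h1
      rcases hds i with h5 | ⟨_, h5 | h5⟩ <;> omega
    · funext k
      by_cases hki : k = i
      · subst hki; rw [update_self]; ring
      · rw [update_of_ne hki]
        by_cases hkl : k = l
        · subst hkl; exact hl
        · rcases hds k with h5 | ⟨h6, _⟩
          · exact h5
          · have := h4 k hki hkl
            omega
  by_cases hlj : l = j
  · exact Or.inl ⟨hlj, main i j h hlj⟩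
  · by_cases hli : l = i
    · exact Or.inr ⟨hli, main j i h.symm hli⟩
    · have := h.2.2.2 l hli hlj
      omega

/-- a cell of `Q` round `d` contains the centre of `d` -/
theorem ctr_mem {d s : ι → ℤ} (h : Cof d s) : ctr d ∈ cel s := by
  intro i
  unfold ctr
  rcases h i with h1 | ⟨h1, h2 | h2⟩
  · rw [h1]
    rcases Int.even_or_odd' (d i) with ⟨m, hm | hm⟩
    · exact mem_even (by omega) (sub_self _)
    · exact mem_odd (by omega) (by simp)
  · rw [h2]
    exact mem_pos h1 (by simp) (by simp)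
  · rw [h2]
    exact mem_neg h1 (by simp) (by simp)

theorem ctr_mem_car {d s : ι → ℤ} (h : Cof d s) (hs : s ∈ Q) : ctr d ∈ car Q :=
  mem_car.2 ⟨s, hs, ctr_mem h⟩

theorem edge_logic_bool (b1 b2 b3 b4 c1 c2 c3 c4 : Bool)
    (p1 : b1 = false → c1 = c2) (p2 : b2 = false → c3 = c4) (p3 : b3 = false → c1 = c3)
    (p4 : b4 = false → c2 = c4)
    (r1 : b1 = true → b3 = true → (c1 = !c2) ∧ (c1 = !c3) ∧ (c1 = !c4))
    (r2 : b1 = true → b4 = true → (c2 = !c1) ∧ (c2 = !c3) ∧ (c2 = !c4))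
    (r3 : b2 = true → b3 = true → (c3 = !c1) ∧ (c3 = !c2) ∧ (c3 = !c4))
    (r4 : b2 = true → b4 = true → (c4 = !c1) ∧ (c4 = !c2) ∧ (c4 = !c3))
    (h1 : (c1 || c2 || c3 || c4) = true) (h2 : (c1 && c2 && c3 && c4) = false) :
    ((!b1 && !b2 && !b3 && !b4) || (b1 && b2 && !b3 && !b4) || (!b1 && !b2 && b3 && b4) ||
    (b1 && !b2 && b3 && !b4) || (b1 && !b2 && !b3 && b4) || (!b1 && b2 && b3 && !b4) ||
    (!b1 && b2 && !b3 && b4)) = true := by
  cases b1 <;> cases b2 <;> cases b3 <;> cases b4 <;> simp at * <;>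
   cases c1 <;> cases c2 <;> cases c3 <;> cases c4 <;> simp at *

theorem edge_logic (b1 b2 b3 b4 c1 c2 c3 c4 : Prop)
    (p1 : ¬ b1 → (c1 ↔ c2)) (p2 : ¬ b2 → (c3 ↔ c4)) (p3 : ¬ b3 → (c1 ↔ c3))
    (p4 : ¬ b4 → (c2 ↔ c4))
    (r1 : b1 → b3 → (c1 ↔ ¬ c2) ∧ (c1 ↔ ¬ c3) ∧ (c1 ↔ ¬ c4))
    (r2 : b1 → b4 → (c2 ↔ ¬ c1) ∧ (c2 ↔ ¬ c3) ∧ (c2 ↔ ¬ c4))
    (r3 : b2 → b3 → (c3 ↔ ¬ c1) ∧ (c3 ↔ ¬ c2) ∧ (c3 ↔ ¬ c4))
    (r4 : b2 → b4 → (c4 ↔ ¬ c1) ∧ (c4 ↔ ¬ c2) ∧ (c4 ↔ ¬ c3))
    (h1 : c1 ∨ c2 ∨ c3 ∨ c4) (h2 : ¬ (c1 ∧ c2 ∧ c3 ∧ c4)) :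
    (¬ b1 ∧ ¬ b2 ∧ ¬ b3 ∧ ¬ b4) ∨ (b1 ∧ b2 ∧ ¬ b3 ∧ ¬ b4) ∨ (¬ b1 ∧ ¬ b2 ∧ b3 ∧ b4) ∨
    (b1 ∧ ¬ b2 ∧ b3 ∧ ¬ b4) ∨ (b1 ∧ ¬ b2 ∧ ¬ b3 ∧ b4) ∨ (¬ b1 ∧ b2 ∧ b3 ∧ ¬ b4) ∨
    (¬ b1 ∧ b2 ∧ ¬ b3 ∧ b4) := by
  classical
  have hn : ∀ a b : Prop, (decide a = !decide b) ↔ (a ↔ ¬ b) := by
    intro a b
    by_cases ha : a <;> by_cases hb : b <;> simp [ha, hb]
  have := edge_logic_bool (decide b1) (decide b2) (decide b3) (decide b4)
    (decide c1) (decide c2) (decide c3) (decide c4)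
    (by simpa only [decide_eq_false_iff_not, decide_eq_decide] using p1)
    (by simpa only [decide_eq_false_iff_not, decide_eq_decide] using p2)
    (by simpa only [decide_eq_false_iff_not, decide_eq_decide] using p3)
    (by simpa only [decide_eq_false_iff_not, decide_eq_decide] using p4)
    (by simpa only [decide_eq_true_iff, hn] using r1)
    (by simpa only [decide_eq_true_iff, hn] using r2)
    (by simpa only [decide_eq_true_iff, hn] using r3)
    (by simpa only [decide_eq_true_iff, hn] using r4)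
    (by simpa only [Bool.or_eq_true, decide_eq_true_iff, or_assoc] using h1)
    (by rw [← Bool.not_eq_true]; simpa only [Bool.and_eq_true, decide_eq_true_iff, and_assoc] using h2)
  simpa only [Bool.or_eq_true, Bool.and_eq_true, Bool.not_eq_true', decide_eq_true_iff,
    decide_eq_false_iff_not, or_assoc, and_assoc] using this

/-- **edges**: zero or two cofaces -/
theorem edge_two [Fintype ι] (hQ : ∀ c ∈ Q, ∃ i, Cod1 c i)
    (hS : ∀ x ∈ car Q, TwoSidedAt (car Q) x) {d : ι → ℤ} {i j : ι} (hd : Cod2 d i j) :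
    (update d i (d i + 1) ∉ Q ∧ update d i (d i + -1) ∉ Q ∧ update d j (d j + 1) ∉ Q ∧
      update d j (d j + -1) ∉ Q) ∨
    (update d i (d i + 1) ∈ Q ∧ update d i (d i + -1) ∈ Q ∧ update d j (d j + 1) ∉ Q ∧
      update d j (d j + -1) ∉ Q) ∨
    (update d i (d i + 1) ∉ Q ∧ update d i (d i + -1) ∉ Q ∧ update d j (d j + 1) ∈ Q ∧
      update d j (d j + -1) ∈ Q) ∨
    (update d i (d i + 1) ∈ Q ∧ update d i (d i + -1) ∉ Q ∧ update d j (d j + 1) ∈ Q ∧
      update d j (d j + -1) ∉ Q) ∨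
    (update d i (d i + 1) ∈ Q ∧ update d i (d i + -1) ∉ Q ∧ update d j (d j + 1) ∉ Q ∧
      update d j (d j + -1) ∈ Q) ∨
    (update d i (d i + 1) ∉ Q ∧ update d i (d i + -1) ∈ Q ∧ update d j (d j + 1) ∈ Q ∧
      update d j (d j + -1) ∉ Q) ∨
    (update d i (d i + 1) ∉ Q ∧ update d i (d i + -1) ∈ Q ∧ update d j (d j + 1) ∉ Q ∧
      update d j (d j + -1) ∈ Q) := by
  by_cases hx : ctr d ∈ car Q
  swap
  · left
    refine ⟨fun h => hx (ctr_mem_car (hd.cof (Or.inl rfl)).2 h),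
      fun h => hx (ctr_mem_car (hd.cof (Or.inr rfl)).2 h),
      fun h => hx (ctr_mem_car (hd.symm.cof (Or.inl rfl)).2 h),
      fun h => hx (ctr_mem_car (hd.symm.cof (Or.inr rfl)).2 h)⟩
  obtain ⟨A, ⟨g, hg, hg2, hgA⟩, ⟨k, hk, hk2, hkA⟩, hA, hφ⟩ := local_classes hQ (hS _ hx)
  have e1 : ∀ x y : ℤ, update (update d i (d i + x)) j (d j + y) = quad d i j x y := fun _ _ => rfl
  have e2 : ∀ x y : ℤ, update (update d j (d j + y)) i (d i + x) = quad d i j x y := fun x y => by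
    rw [quad_symm hd.1]; rfl
  -- the classes are constant across absent cells
  have a1 : ∀ (φ : (ι → ℤ) → Prop), AbsConst Q d φ → ∀ x : ℤ, (x = 1 ∨ x = -1) →
      update d i (d i + x) ∉ Q → (φ (quad d i j x 1) ↔ φ (quad d i j x (-1))) := by
    intro φ hφ x hx hm
    have := hφ _ j (hd.cof hx).1 (hd.cof hx).2 hm
    rw [update_of_ne hd.1.symm, e1, sub_eq_add_neg, e1] at this
    exact this
  have a2 : ∀ (φ : (ι → ℤ) → Prop), AbsConst Q d φ → ∀ y : ℤ, (y = 1 ∨ y = -1) →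
      update d j (d j + y) ∉ Q → (φ (quad d i j 1 y) ↔ φ (quad d i j (-1) y)) := by
    intro φ hφ y hy hm
    have := hφ _ i (hd.symm.cof hy).1 (hd.symm.cof hy).2 hm
    rw [update_of_ne hd.1, e2, sub_eq_add_neg, e2] at this
    exact this
  have a3 : ∀ (φ : (ι → ℤ) → Prop), (∀ x : ℤ, (x = 1 ∨ x = -1) →
      update d i (d i + x) ∉ Q → (φ (quad d i j x 1) ↔ φ (quad d i j x (-1)))) →
      (∀ y : ℤ, (y = 1 ∨ y = -1) →
      update d j (d j + y) ∉ Q → (φ (quad d i j 1 y) ↔ φ (quad d i j (-1) y))) →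
      AbsConst Q d φ := by
    intro φ h1 h2 s l hs hds hsQ
    rcases hd.eq_cof hs hds with ⟨rfl, x, hx, rfl⟩ | ⟨rfl, y, hy, rfl⟩
    · rw [update_of_ne hd.1.symm, e1, sub_eq_add_neg, e1]
      exact h1 x hx hsQ
    · rw [update_of_ne hd.1, e2, sub_eq_add_neg, e2]
      exact h2 y hy hsQ
  -- a top cell whose two walls are present is alone in its class
  have inj : ∀ x y x' y' : ℤ, quad d i j x y = quad d i j x' y' ↔ x = x' ∧ y = y' := by
    intro x y x' y'
    constructor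
    · intro h
      have h1 := congrFun h i
      have h2 := congrFun h j
      simp only [quad, update_self, update_of_ne hd.1] at h1 h2
      exact ⟨by omega, by omega⟩
    · rintro ⟨rfl, rfl⟩; rfl
  have alone : ∀ x y : ℤ, (x = 1 ∨ x = -1) → (y = 1 ∨ y = -1) → update d i (d i + x) ∈ Q →
      update d j (d j + y) ∈ Q → ∀ x' y' : ℤ, (x' = 1 ∨ x' = -1) → (y' = 1 ∨ y' = -1) →
      (A (quad d i j x y) ↔ A (quad d i j x' y')) → x' = x ∧ y' = y := by
    intro x y hx hy h1 h2 x' y' hx' hy' hA'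
    have hc : AbsConst Q d (fun g => g = quad d i j x y) := by
      refine a3 _ (fun u hu hm => ?_) (fun v hv hm => ?_)
      · simp only [inj]
        constructor
        · rintro ⟨rfl, _⟩; exact absurd h1 hm
        · rintro ⟨rfl, _⟩; exact absurd h1 hm
      · simp only [inj]
        constructor
        · rintro ⟨_, rfl⟩; exact absurd h2 hm
        · rintro ⟨_, rfl⟩; exact absurd h2 hm
    have := hφ _ hc _ _ (hd.quad_top hx hy).1 (hd.quad_top hx hy).2 (hd.quad_top hx' hy').1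
      (hd.quad_top hx' hy').2 hA' rfl
    exact (inj _ _ _ _).1 this
  obtain ⟨gx, gy, hgx, hgy, rfl⟩ := hd.eq_quad hg hg2
  obtain ⟨kx, ky, hkx, hky, rfl⟩ := hd.eq_quad hk hk2
  have alone' : ∀ x y : ℤ, (x = 1 ∨ x = -1) → (y = 1 ∨ y = -1) → update d i (d i + x) ∈ Q →
      update d j (d j + y) ∈ Q → ∀ x' y' : ℤ, (x' = 1 ∨ x' = -1) → (y' = 1 ∨ y' = -1) →
      ¬ (x' = x ∧ y' = y) → (A (quad d i j x y) ↔ ¬ A (quad d i j x' y')) := by
    intro x y hx hy h1 h2 x' y' hx' hy' hne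
    have := fun h => hne (alone x y hx hy h1 h2 x' y' hx' hy' h)
    constructor
    · intro a b
      exact this ⟨fun _ => b, fun _ => a⟩
    · intro a
      by_contra c
      exact this ⟨fun h => absurd h c, fun h => absurd h a⟩
  have o : (1 : ℤ) = 1 ∨ (1 : ℤ) = -1 := Or.inl rfl
  have m : (-1 : ℤ) = 1 ∨ (-1 : ℤ) = -1 := Or.inr rfl
  have p1 := a1 A hA 1 o
  have p2 := a1 A hA (-1) m
  have p3 := a2 A hA 1 o
  have p4 := a2 A hA (-1) m
  have r1 := fun h1 h2 => And.intro (alone' 1 1 o o h1 h2 1 (-1) o m (by norm_num))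
      (And.intro (alone' 1 1 o o h1 h2 (-1) 1 m o (by norm_num))
      (alone' 1 1 o o h1 h2 (-1) (-1) m m (by norm_num)))
  have r2 := fun h1 h2 => And.intro (alone' 1 (-1) o m h1 h2 1 1 o o (by norm_num))
      (And.intro (alone' 1 (-1) o m h1 h2 (-1) 1 m o (by norm_num))
      (alone' 1 (-1) o m h1 h2 (-1) (-1) m m (by norm_num)))
  have r3 := fun h1 h2 => And.intro (alone' (-1) 1 m o h1 h2 1 1 o o (by norm_num))
      (And.intro (alone' (-1) 1 m o h1 h2 1 (-1) o m (by norm_num))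
      (alone' (-1) 1 m o h1 h2 (-1) (-1) m m (by norm_num)))
  have r4 := fun h1 h2 => And.intro (alone' (-1) (-1) m m h1 h2 1 1 o o (by norm_num))
      (And.intro (alone' (-1) (-1) m m h1 h2 1 (-1) o m (by norm_num))
      (alone' (-1) (-1) m m h1 h2 (-1) 1 m o (by norm_num)))
  have q1 : A (quad d i j 1 1) ∨ A (quad d i j 1 (-1)) ∨ A (quad d i j (-1) 1) ∨
      A (quad d i j (-1) (-1)) := by
    rcases hgx with rfl | rfl <;> rcases hgy with rfl | rfl
    · exact Or.inl hgA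
    · exact Or.inr (Or.inl hgA)
    · exact Or.inr (Or.inr (Or.inl hgA))
    · exact Or.inr (Or.inr (Or.inr hgA))
  have q2 : ¬ (A (quad d i j 1 1) ∧ A (quad d i j 1 (-1)) ∧ A (quad d i j (-1) 1) ∧
      A (quad d i j (-1) (-1))) := by
    rintro ⟨u1, u2, u3, u4⟩
    rcases hkx with rfl | rfl <;> rcases hky with rfl | rfl
    · exact hkA u1
    · exact hkA u2
    · exact hkA u3
    · exact hkA u4
  clear alone' alone a1 a2 a3 e1 e2 hφ hA inj hg hg2 hk hk2 hgA hkA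
  generalize A (quad d i j 1 1) = c1 at *
  generalize A (quad d i j 1 (-1)) = c2 at *
  generalize A (quad d i j (-1) 1) = c3 at *
  generalize A (quad d i j (-1) (-1)) = c4 at *
  generalize (update d i (d i + 1) ∈ Q) = b1 at *
  generalize (update d i (d i + -1) ∈ Q) = b2 at *
  generalize (update d j (d j + 1) ∈ Q) = b3 at *
  generalize (update d j (d j + -1) ∈ Q) = b4 at *
  exact edge_logic b1 b2 b3 b4 c1 c2 c3 c4 p1 p2 p3 p4 r1 r2 r3 r4 q1 q2

end Crest.Agent.R096.Ax_914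
end

-- ▼ part R096/Ax4_914
section

/-!
# Vertices of a two-sided cubical surface (helper914, row 96, P2-AXIS, part 4)
-/

set_option autoImplicit false
set_option linter.unusedSectionVars false

namespace Crest.Agent.R096.Ax_914

open Set Metric Function

theorem two_zero : (2 : ZMod 2) = 0 := by decide

/-- the four cofaces of every half-axis at the vertex `(a, b, c)` sum up to zero -/
def ClosedAt (T : ℤ → ℤ → ℤ → ZMod 2) (a b c : ℤ) : Prop :=
  ∀ s : ℤ, (s = 1 ∨ s = -1) →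
    (T (a + s) (b + 1) c + T (a + s) (b - 1) c + T (a + s) b (c + 1) + T (a + s) b (c - 1) = 0 ∧
     T (a + 1) (b + s) c + T (a - 1) (b + s) c + T a (b + s) (c + 1) + T a (b + s) (c - 1) = 0 ∧
     T (a + 1) b (c + s) + T (a - 1) b (c + s) + T a (b + 1) (c + s) + T a (b - 1) (c + s) = 0)

/-- the potential on the cubes round the vertex `(a, b, c)` -/
def pot (T : ℤ → ℤ → ℤ → ZMod 2) (a b c x y z : ℤ) : ZMod 2 :=
  (if x = a + 1 then T a (b - 1) (c - 1) else 0) + (if y = b + 1 then T x b (c - 1) else 0) +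
    (if z = c + 1 then T x y c else 0)

theorem pot_x {T : ℤ → ℤ → ℤ → ZMod 2} {a b c : ℤ} (h : ClosedAt T a b c) {y z : ℤ}
    (hy : y = b + 1 ∨ y = b - 1) (hz : z = c + 1 ∨ z = c - 1) :
    T a y z = pot T a b c (a + 1) y z + pot T a b c (a - 1) y z := by
  have n1 : ¬ (a - 1 = a + 1) := by omega
  have n2 : ¬ (b - 1 = b + 1) := by omega
  have n3 : ¬ (c - 1 = c + 1) := by omega
  have hp := h 1 (Or.inl rfl)
  have hm := h (-1) (Or.inr rfl)
  simp only [← sub_eq_add_neg] at hm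
  obtain ⟨_, hp2, hp3⟩ := hp
  obtain ⟨_, hm2, hm3⟩ := hm
  unfold pot
  rcases hy with rfl | rfl <;> rcases hz with rfl | rfl <;>
    simp only [n1, n2, n3, if_true, if_false, add_zero, zero_add]
  · linear_combination (-1) * hm3 - hp2 + (T a (b + 1) (c + 1) + T a (b + 1) (c - 1)) * two_zero
  · linear_combination (-1) * hm3 + T a (b + 1) (c - 1) * two_zero
  · linear_combination (-1) * hm2 + T a (b - 1) (c + 1) * two_zero

theorem pot_y {T : ℤ → ℤ → ℤ → ZMod 2} {a b c : ℤ} (h : ClosedAt T a b c) {x z : ℤ}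
    (hx : x = a + 1 ∨ x = a - 1) (hz : z = c + 1 ∨ z = c - 1) :
    T x b z = pot T a b c x (b + 1) z + pot T a b c x (b - 1) z := by
  have n1 : ¬ (a - 1 = a + 1) := by omega
  have n2 : ¬ (b - 1 = b + 1) := by omega
  have n3 : ¬ (c - 1 = c + 1) := by omega
  have hp := (h 1 (Or.inl rfl)).1
  have hm := (h (-1) (Or.inr rfl)).1
  simp only [← sub_eq_add_neg] at hm
  unfold pot
  rcases hx with rfl | rfl <;> rcases hz with rfl | rfl <;>
    simp only [n1, n2, n3, if_true, if_false, add_zero, zero_add]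
  · linear_combination (-1) * hp + (T (a + 1) b (c + 1) - T a (b - 1) (c - 1)) * two_zero
  · linear_combination (- T a (b - 1) (c - 1)) * two_zero
  · linear_combination (-1) * hm + T (a - 1) b (c + 1) * two_zero

theorem pot_z {T : ℤ → ℤ → ℤ → ZMod 2} {a b c : ℤ} (x y : ℤ) :
    T x y c = pot T a b c x y (c + 1) + pot T a b c x y (c - 1) := by
  have n3 : ¬ (c - 1 = c + 1) := by omega
  unfold pot
  simp only [n3, if_true, if_false, add_zero]
  linear_combination (-((if x = a + 1 then T a (b - 1) (c - 1) else 0) +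
    (if y = b + 1 then T x b (c - 1) else 0))) * two_zero

theorem vec_eta (s : Fin 3 → ℤ) : ![s 0, s 1, s 2] = s := by
  funext i
  fin_cases i <;> rfl

theorem upd0 (s : Fin 3 → ℤ) (v : ℤ) : update s 0 v = ![v, s 1, s 2] := by
  funext i
  fin_cases i <;> rfl

theorem upd1 (s : Fin 3 → ℤ) (v : ℤ) : update s 1 v = ![s 0, v, s 2] := by
  funext i
  fin_cases i <;> rfl

theorem upd2 (s : Fin 3 → ℤ) (v : ℤ) : update s 2 v = ![s 0, s 1, v] := by
  funext i
  fin_cases i <;> rfl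

theorem Cod1.side {d s : Fin 3 → ℤ} {i : Fin 3} (hs : Cod1 s i) (hd : ∀ j, d j % 2 = 0)
    (h : Cof d s) {j : Fin 3} (hj : j ≠ i) : s j = d j + 1 ∨ s j = d j - 1 := by
  have h1 := hs.2 j hj
  have h2 := hd j
  rcases h j with h3 | ⟨_, h3⟩
  · omega
  · exact h3

/-- the value of a closed cochain on a square is the jump of its potential -/
theorem pot_jump {T : ℤ → ℤ → ℤ → ZMod 2} {d : Fin 3 → ℤ} (hd : ∀ j, d j % 2 = 0)
    (h : ClosedAt T (d 0) (d 1) (d 2)) {s : Fin 3 → ℤ} {i : Fin 3} (hs : Cod1 s i)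
    (hds : Cof d s) :
    T (s 0) (s 1) (s 2) =
      pot T (d 0) (d 1) (d 2) (update s i (s i + 1) 0) (update s i (s i + 1) 1)
        (update s i (s i + 1) 2) +
      pot T (d 0) (d 1) (d 2) (update s i (s i - 1) 0) (update s i (s i - 1) 1)
        (update s i (s i - 1) 2) := by
  have e := hs.eq_of_cof hds
  fin_cases i
  · simp only [Fin.zero_eta, upd0]
    have := pot_x h (hs.side hd hds (j := 1) (by decide)) (hs.side hd hds (j := 2) (by decide))
    simp only [Fin.zero_eta] at e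
    rw [e]
    exact this
  · simp only [Fin.mk_one, upd1]
    have := pot_y h (hs.side hd hds (j := 0) (by decide)) (hs.side hd hds (j := 2) (by decide))
    simp only [Fin.mk_one] at e
    rw [e]
    exact this
  · simp only [Fin.reduceFinMk, upd2]
    have := pot_z (T := T) (a := d 0) (b := d 1) (c := d 2) (s 0) (s 1)
    simp only [Fin.reduceFinMk] at e
    rw [e]
    exact this

theorem zmod2_cases (x : ZMod 2) : x = 0 ∨ x = 1 := by
  revert x; decide

/-- a closed cochain supported on `Q` is zero or the boundary of the class `A` -/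
theorem closed_dichotomy {Q : Finset (Fin 3 → ℤ)} {d : Fin 3 → ℤ} (hd : ∀ j, d j % 2 = 0)
    {A : (Fin 3 → ℤ) → Prop}
    (hφ : ∀ φ, AbsConst Q d φ → ∀ g g', Cof d g → Top g → Cof d g' → Top g' → (A g ↔ A g') →
        φ g → φ g') {T : ℤ → ℤ → ℤ → ZMod 2} (hTQ : ∀ s : Fin 3 → ℤ, T (s 0) (s 1) (s 2) ≠ 0 → s ∈ Q)
    (hT : ClosedAt T (d 0) (d 1) (d 2)) :
    (∀ s i, Cod1 s i → Cof d s → T (s 0) (s 1) (s 2) = 0) ∨
    (∀ s i, Cod1 s i → Cof d s → (T (s 0) (s 1) (s 2) = 1 ↔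
      ¬ (A (update s i (s i + 1)) ↔ A (update s i (s i - 1))))) := by
  classical
  let φ : (Fin 3 → ℤ) → ZMod 2 := fun g => pot T (d 0) (d 1) (d 2) (g 0) (g 1) (g 2)
  have hj : ∀ s i, Cod1 s i → Cof d s → T (s 0) (s 1) (s 2) =
      φ (update s i (s i + 1)) + φ (update s i (s i - 1)) := fun s i hs hds => pot_jump hd hT hs hds
  have hside : ∀ s i, Cod1 s i → Cof d s → ∀ a : ℤ, (a = s i + 1 ∨ a = s i - 1) →
      Cof d (update s i a) ∧ Top (update s i a) := by
    intro s i hs hds a ha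
    have e := hs.eq_of_cof hds
    constructor
    · intro j
      by_cases hji : j = i
      · subst hji; rw [update_self]; right; exact ⟨hd j, by omega⟩
      · rw [update_of_ne hji]; exact hds j
    · intro j
      by_cases hji : j = i
      · subst hji; rw [update_self]
        have := hs.1
        omega
      · rw [update_of_ne hji]; exact hs.2 j hji
  have hcl : ∀ g g', Cof d g → Top g → Cof d g' → Top g' → (A g ↔ A g') → φ g' = φ g := by
    intro g g' hg hg2 hg' hg2' hA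
    refine hφ (fun h => φ h = φ g) ?_ g g' hg hg2 hg' hg2' hA rfl
    intro s i hs hds hsQ
    have h1 : T (s 0) (s 1) (s 2) = 0 := by
      by_contra h; exact hsQ (hTQ s h)
    rw [hj s i hs hds] at h1
    have h2 : φ (update s i (s i + 1)) = φ (update s i (s i - 1)) := CharTwo.add_eq_zero.1 h1
    show φ (update s i (s i + 1)) = φ g ↔ φ (update s i (s i - 1)) = φ g
    rw [h2]
  by_cases hc : ∀ g g', Cof d g → Top g → Cof d g' → Top g' → φ g' = φ g
  · left
    intro s i hs hds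
    have h1 := hside s i hs hds _ (Or.inl rfl)
    have h2 := hside s i hs hds _ (Or.inr rfl)
    rw [hj s i hs hds, hc _ _ h2.1 h2.2 h1.1 h1.2]
    exact CharTwo.add_self_eq_zero _
  · right
    push Not at hc
    obtain ⟨g, g', hg, hg2, hg', hg2', hne⟩ := hc
    intro s i hs hds
    have h1 := hside s i hs hds _ (Or.inl rfl)
    have h2 := hside s i hs hds _ (Or.inr rfl)
    rw [hj s i hs hds]
    constructor
    · intro h3 hA
      rw [hcl _ _ h2.1 h2.2 h1.1 h1.2 hA.symm, CharTwo.add_self_eq_zero] at h3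
      exact absurd h3 (by decide)
    · intro hA
      have hgg : ¬ (A g ↔ A g') := fun h => hne (hcl _ _ hg hg2 hg' hg2' h)
      have h3 : φ (update s i (s i + 1)) ≠ φ (update s i (s i - 1)) := by
        intro h3
        apply hne
        by_cases a1 : A g <;> by_cases a2 : A g' <;> by_cases a3 : A (update s i (s i + 1)) <;>
          by_cases a4 : A (update s i (s i - 1)) <;>
          simp only [a1, a2, a3, a4, not_true_eq_false, iff_self, iff_true, iff_false,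
            not_false_eq_true] at hgg hA
        · rw [hcl _ _ h1.1 h1.2 hg hg2 (by simp [a1, a3]) ,
            hcl _ _ h2.1 h2.2 hg' hg2' (by simp [a2, a4]), h3]
        · rw [hcl _ _ h2.1 h2.2 hg hg2 (by simp [a1, a4]),
            hcl _ _ h1.1 h1.2 hg' hg2' (by simp [a2, a3]), h3]
        · rw [hcl _ _ h2.1 h2.2 hg hg2 (by simp [a1, a4]),
            hcl _ _ h1.1 h1.2 hg' hg2' (by simp [a2, a3]), h3]
        · rw [hcl _ _ h1.1 h1.2 hg hg2 (by simp [a1, a3]) ,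
            hcl _ _ h2.1 h2.2 hg' hg2' (by simp [a2, a4]), h3]
      rcases zmod2_cases (φ (update s i (s i + 1))) with h4 | h4 <;>
        rcases zmod2_cases (φ (update s i (s i - 1))) with h5 | h5
      · exact absurd (h4.trans h5.symm) h3
      · rw [h4, h5]; rfl
      · rw [h4, h5]; rfl
      · exact absurd (h4.trans h5.symm) h3

/-- the indicator of `Q` -/
noncomputable def ind (Q : Finset (Fin 3 → ℤ)) (x y z : ℤ) : ZMod 2 :=
  open Classical in if ![x, y, z] ∈ Q then 1 else 0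

theorem ind_eq_one {Q : Finset (Fin 3 → ℤ)} {x y z : ℤ} : ind Q x y z = 1 ↔ ![x, y, z] ∈ Q := by
  unfold ind
  split_ifs with h <;> simp [h]

theorem ind_eq_zero {Q : Finset (Fin 3 → ℤ)} {x y z : ℤ} : ind Q x y z = 0 ↔ ![x, y, z] ∉ Q := by
  unfold ind
  split_ifs with h <;> simp [h]

theorem ind_vec {Q : Finset (Fin 3 → ℤ)} (s : Fin 3 → ℤ) :
    ind Q (s 0) (s 1) (s 2) = 1 ↔ s ∈ Q := by rw [ind_eq_one, vec_eta]

theorem ind_vec_zero {Q : Finset (Fin 3 → ℤ)} (s : Fin 3 → ℤ) :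
    ind Q (s 0) (s 1) (s 2) = 0 ↔ s ∉ Q := by rw [ind_eq_zero, vec_eta]

/-- **edges**: the sum of the indicator over the four cofaces is zero, and not all four are in -/
theorem ind_edge {Q : Finset (Fin 3 → ℤ)} (hQ : ∀ c ∈ Q, ∃ i, Cod1 c i)
    (hS : ∀ x ∈ car Q, TwoSidedAt (car Q) x) {d : Fin 3 → ℤ} {i j : Fin 3} (hd : Cod2 d i j) :
    (∀ v : (Fin 3 → ℤ) → ZMod 2, (∀ s, v s = 1 ↔ s ∈ Q) →
      v (update d i (d i + 1)) + v (update d i (d i + -1)) +
      v (update d j (d j + 1)) + v (update d j (d j + -1)) = 0) ∧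
    ¬ (update d i (d i + 1) ∈ Q ∧ update d i (d i + -1) ∈ Q ∧
      update d j (d j + 1) ∈ Q ∧ update d j (d j + -1) ∈ Q) := by
  constructor
  · intro v hv
    have hv0 : ∀ s, s ∉ Q → v s = 0 := by
      intro s hs
      rcases zmod2_cases (v s) with h | h
      · exact h
      · exact absurd ((hv s).1 h) hs
    have hv1 : ∀ s, s ∈ Q → v s = 1 := fun s hs => (hv s).2 hs
    rcases edge_two hQ hS hd with ⟨h1, h2, h3, h4⟩ | ⟨h1, h2, h3, h4⟩ | ⟨h1, h2, h3, h4⟩ |
      ⟨h1, h2, h3, h4⟩ | ⟨h1, h2, h3, h4⟩ | ⟨h1, h2, h3, h4⟩ | ⟨h1, h2, h3, h4⟩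
    · rw [hv0 _ h1, hv0 _ h2, hv0 _ h3, hv0 _ h4]; rfl
    · rw [hv1 _ h1, hv1 _ h2, hv0 _ h3, hv0 _ h4]; rfl
    · rw [hv0 _ h1, hv0 _ h2, hv1 _ h3, hv1 _ h4]; rfl
    · rw [hv1 _ h1, hv0 _ h2, hv1 _ h3, hv0 _ h4]; rfl
    · rw [hv1 _ h1, hv0 _ h2, hv0 _ h3, hv1 _ h4]; rfl
    · rw [hv0 _ h1, hv1 _ h2, hv1 _ h3, hv0 _ h4]; rfl
    · rw [hv0 _ h1, hv1 _ h2, hv0 _ h3, hv1 _ h4]; rfl
  · rintro ⟨h1, h2, h3, h4⟩
    rcases edge_two hQ hS hd with h | h | h | h | h | h | h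
    · exact h.1 h1
    · exact h.2.2.1 h3
    · exact h.1 h1
    · exact h.2.1 h2
    · exact h.2.1 h2
    · exact h.1 h1
    · exact h.1 h1

/-- edge in direction `x` -/
theorem ind_edge_x {Q : Finset (Fin 3 → ℤ)} (hQ : ∀ c ∈ Q, ∃ i, Cod1 c i)
    (hS : ∀ x ∈ car Q, TwoSidedAt (car Q) x) {a b c : ℤ} (ha : a % 2 = 1) (hb : b % 2 = 0)
    (hc : c % 2 = 0) :
    ind Q a (b + 1) c + ind Q a (b - 1) c + ind Q a b (c + 1) + ind Q a b (c - 1) = 0 ∧
    ¬ (![a, b + 1, c] ∈ Q ∧ ![a, b - 1, c] ∈ Q ∧ ![a, b, c + 1] ∈ Q ∧ ![a, b, c - 1] ∈ Q) := by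
  have hd : Cod2 ![a, b, c] 1 2 := by
    refine ⟨by decide, hb, hc, fun k h1 h2 => ?_⟩
    fin_cases k
    · exact ha
    · exact absurd rfl h1
    · exact absurd rfl h2
  obtain ⟨h1, h2⟩ := ind_edge hQ hS hd
  have h1 := h1 (fun s => ind Q (s 0) (s 1) (s 2)) ind_vec
  simp only [upd1, upd2, ← sub_eq_add_neg] at h1 h2
  exact ⟨h1, h2⟩

/-- edge in direction `y` -/
theorem ind_edge_y {Q : Finset (Fin 3 → ℤ)} (hQ : ∀ c ∈ Q, ∃ i, Cod1 c i)
    (hS : ∀ x ∈ car Q, TwoSidedAt (car Q) x) {a b c : ℤ} (ha : a % 2 = 0) (hb : b % 2 = 1)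
    (hc : c % 2 = 0) :
    ind Q (a + 1) b c + ind Q (a - 1) b c + ind Q a b (c + 1) + ind Q a b (c - 1) = 0 ∧
    ¬ (![a + 1, b, c] ∈ Q ∧ ![a - 1, b, c] ∈ Q ∧ ![a, b, c + 1] ∈ Q ∧ ![a, b, c - 1] ∈ Q) := by
  have hd : Cod2 ![a, b, c] 0 2 := by
    refine ⟨by decide, ha, hc, fun k h1 h2 => ?_⟩
    fin_cases k
    · exact absurd rfl h1
    · exact hb
    · exact absurd rfl h2
  obtain ⟨h1, h2⟩ := ind_edge hQ hS hd
  have h1 := h1 (fun s => ind Q (s 0) (s 1) (s 2)) ind_vec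
  simp only [upd0, upd2, ← sub_eq_add_neg] at h1 h2
  exact ⟨h1, h2⟩

/-- edge in direction `z` -/
theorem ind_edge_z {Q : Finset (Fin 3 → ℤ)} (hQ : ∀ c ∈ Q, ∃ i, Cod1 c i)
    (hS : ∀ x ∈ car Q, TwoSidedAt (car Q) x) {a b c : ℤ} (ha : a % 2 = 0) (hb : b % 2 = 0)
    (hc : c % 2 = 1) :
    ind Q (a + 1) b c + ind Q (a - 1) b c + ind Q a (b + 1) c + ind Q a (b - 1) c = 0 ∧
    ¬ (![a + 1, b, c] ∈ Q ∧ ![a - 1, b, c] ∈ Q ∧ ![a, b + 1, c] ∈ Q ∧ ![a, b - 1, c] ∈ Q) := by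
  have hd : Cod2 ![a, b, c] 0 1 := by
    refine ⟨by decide, ha, hb, fun k h1 h2 => ?_⟩
    fin_cases k
    · exact absurd rfl h1
    · exact absurd rfl h2
    · exact hc
  obtain ⟨h1, h2⟩ := ind_edge hQ hS hd
  have h1 := h1 (fun s => ind Q (s 0) (s 1) (s 2)) ind_vec
  simp only [upd0, upd1, ← sub_eq_add_neg] at h1 h2
  exact ⟨h1, h2⟩

theorem ind_closedAt {Q : Finset (Fin 3 → ℤ)} (hQ : ∀ c ∈ Q, ∃ i, Cod1 c i)
    (hS : ∀ x ∈ car Q, TwoSidedAt (car Q) x) {a b c : ℤ} (ha : a % 2 = 0) (hb : b % 2 = 0)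
    (hc : c % 2 = 0) : ClosedAt (ind Q) a b c := by
  intro s hs
  refine ⟨(ind_edge_x hQ hS ?_ hb hc).1, (ind_edge_y hQ hS ha ?_ hc).1,
    (ind_edge_z hQ hS ha hb ?_).1⟩ <;> omega

/-- **(link)**: a closed subset of the squares at a vertex is empty or everything -/
theorem vertex_link {Q : Finset (Fin 3 → ℤ)} (hQ : ∀ c ∈ Q, ∃ i, Cod1 c i)
    (hS : ∀ x ∈ car Q, TwoSidedAt (car Q) x) {d : Fin 3 → ℤ} (hd : ∀ j, d j % 2 = 0)
    {T : ℤ → ℤ → ℤ → ZMod 2} (hTQ : ∀ s : Fin 3 → ℤ, T (s 0) (s 1) (s 2) ≠ 0 → s ∈ Q)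
    (hT : ClosedAt T (d 0) (d 1) (d 2)) :
    (∀ s i, Cod1 s i → Cof d s → T (s 0) (s 1) (s 2) = 0) ∨
    (∀ s i, Cod1 s i → Cof d s → T (s 0) (s 1) (s 2) = ind Q (s 0) (s 1) (s 2)) := by
  by_cases hx : ctr d ∈ car Q
  swap
  · left
    intro s i hs hds
    by_contra h
    exact hx (ctr_mem_car hds (hTQ s h))
  obtain ⟨A, _, _, _, hφ⟩ := local_classes hQ (hS _ hx)
  rcases closed_dichotomy hd hφ hTQ hT with h | h
  · exact Or.inl h
  right
  intro s i hs hds
  rcases closed_dichotomy hd hφ (T := ind Q) (fun s hs => by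
    by_contra h'; exact hs ((ind_vec_zero s).2 h')) (ind_closedAt hQ hS (hd 0) (hd 1) (hd 2))
    with h' | h'
  · -- impossible: a square of `Q` at `d`
    have h1 : T (s 0) (s 1) (s 2) = 0 := by
      by_contra h2
      exact (ind_vec_zero s).1 (h' s i hs hds) (hTQ s h2)
    rw [h1, h' s i hs hds]
  · have h1 := h s i hs hds
    have h2 := h' s i hs hds
    rw [← h2] at h1
    rcases zmod2_cases (T (s 0) (s 1) (s 2)) with h3 | h3 <;>
      rcases zmod2_cases (ind Q (s 0) (s 1) (s 2)) with h4 | h4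
    · rw [h3, h4]
    · rw [h3, h4] at h1; exact absurd (h1.2 rfl) (by decide)
    · rw [h3, h4] at h1; exact absurd (h1.1 rfl) (by decide)
    · rw [h3, h4]

end Crest.Agent.R096.Ax_914
end

-- ▼ part R096/Ax5_914
section

/-!
# Connectedness and local potentials (helper914, row 96, P2-AXIS, part 5)
-/

set_option autoImplicit false
set_option linter.unusedSectionVars false

namespace Crest.Agent.R096.Ax_914

open Set Metric Function

/-! ### cells and their intersections -/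

theorem isClosed_cel {ι : Type*} (c : ι → ℤ) : IsClosed (cel c) := by
  rw [cel_eq_Icc]; exact isClosed_Icc

theorem convex_cel {ι : Type*} (c : ι → ℤ) : Convex ℝ (cel c) := by
  rw [cel_eq_Icc]; exact convex_Icc _ _

/-- the cell of the intersection -/
def meet {ι : Type*} (s t : ι → ℤ) : ι → ℤ :=
  fun i => if s i = t i then s i else 2 * max (s i / 2) (t i / 2)

theorem meet_comm {ι : Type*} (s t : ι → ℤ) : meet s t = meet t s := by
  funext i
  unfold meet
  by_cases h : s i = t i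
  · rw [if_pos h, if_pos h.symm, h]
  · rw [if_neg h, if_neg (Ne.symm h), max_comm]

theorem le_of_both {a b : ℤ} {x : ℝ} (h1 : (a : ℝ) ≤ x) (h2 : x ≤ (b : ℝ)) : a ≤ b := by
  exact_mod_cast h1.trans h2

theorem meet_cof {ι : Type*} {s t : ι → ℤ} {x : ι → ℝ} (hs : x ∈ cel s) (ht : x ∈ cel t) :
    Cof (meet s t) s := by
  intro i
  unfold meet
  by_cases h : s i = t i
  · rw [if_pos h]; exact Or.inl rfl
  · rw [if_neg h]
    have h1 := le_of_both (hs i).1 (hs i).2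
    have h2 := le_of_both (ht i).1 (hs i).2
    rcases max_cases (s i / 2) (t i / 2) with ⟨h3, h4⟩ | ⟨h3, h4⟩ <;> rw [h3] <;> omega

/-- the lower vertex of a point -/
noncomputable def vtx {ι : Type*} (x : ι → ℝ) : ι → ℤ := fun i => 2 * ⌊x i⌋

theorem vtx_even {ι : Type*} (x : ι → ℝ) (i : ι) : vtx x i % 2 = 0 := by
  unfold vtx; omega

theorem meet_eq_of_ne {ι : Type*} {s t : ι → ℤ} {x : ι → ℝ} (hs : x ∈ cel s) (ht : x ∈ cel t)
    {i : ι} (h : s i ≠ t i) : x i = ((max (s i / 2) (t i / 2) : ℤ) : ℝ) := by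
  have h1 := hs i
  have h2 := ht i
  have h3 := le_of_both h1.1 h1.2
  have h4 := le_of_both h2.1 h1.2
  have h5 := le_of_both h1.1 h2.2
  apply le_antisymm
  · rcases max_cases (s i / 2) (t i / 2) with ⟨h6, h7⟩ | ⟨h6, h7⟩ <;> rw [h6]
    · by_cases h8 : (s i + 1) / 2 ≤ s i / 2
      · exact h1.2.trans (by exact_mod_cast h8)
      · have : (t i + 1) / 2 ≤ s i / 2 := by omega
        exact h2.2.trans (by exact_mod_cast this)
    · by_cases h8 : (t i + 1) / 2 ≤ t i / 2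
      · exact h2.2.trans (by exact_mod_cast h8)
      · have : (s i + 1) / 2 ≤ t i / 2 := by omega
        exact h1.2.trans (by exact_mod_cast this)
  · rcases max_cases (s i / 2) (t i / 2) with ⟨h6, h7⟩ | ⟨h6, h7⟩ <;> rw [h6]
    · exact h1.1
    · exact h2.1

theorem vtx_cof_meet {ι : Type*} {s t : ι → ℤ} {x : ι → ℝ} (hs : x ∈ cel s) (ht : x ∈ cel t) :
    Cof (vtx x) (meet s t) := by
  intro i
  have hv : vtx x i = 2 * ⌊x i⌋ := rfl
  by_cases h : s i = t i
  · have hm : meet s t i = s i := by unfold meet; rw [if_pos h]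
    rw [hm]
    have h1 : s i / 2 ≤ ⌊x i⌋ := Int.le_floor.2 (hs i).1
    have h2 : ⌊x i⌋ ≤ (s i + 1) / 2 := by
      have : ((⌊x i⌋ : ℤ) : ℝ) ≤ (((s i + 1) / 2 : ℤ) : ℝ) := (Int.floor_le _).trans (hs i).2
      exact_mod_cast this
    omega
  · have hm : meet s t i = 2 * max (s i / 2) (t i / 2) := by unfold meet; rw [if_neg h]
    rw [hm, hv, meet_eq_of_ne hs ht h, Int.floor_intCast]
    exact Or.inl rfl

theorem Cof.trans' {ι : Type*} {a b c : ι → ℤ} (h1 : Cof a b) (h2 : Cof b c) : Cof a c := by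
  intro i
  rcases h1 i with h3 | ⟨h3, h4⟩ <;> rcases h2 i with h5 | ⟨h5, h6⟩
  · left; omega
  · right; exact ⟨by omega, by omega⟩
  · right; exact ⟨h3, by omega⟩
  · omega

theorem vtx_cof {ι : Type*} {s : ι → ℤ} {x : ι → ℝ} (hs : x ∈ cel s) : Cof (vtx x) s :=
  (vtx_cof_meet hs hs).trans' (meet_cof hs hs)

/-! ### connectedness -/

/-- **(conn)** -/
theorem conn_of {Q : Finset (Fin 3 → ℤ)} (hQ : ∀ c ∈ Q, ∃ i, Cod1 c i)
    (hS : ∀ x ∈ car Q, TwoSidedAt (car Q) x) (hcon : IsPreconnected (car Q))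
    {T : ℤ → ℤ → ℤ → ZMod 2} (hTQ : ∀ s : Fin 3 → ℤ, T (s 0) (s 1) (s 2) ≠ 0 → s ∈ Q)
    (hT : ∀ a b c, a % 2 = 0 → b % 2 = 0 → c % 2 = 0 → ClosedAt T a b c) :
    (∀ x y z, T x y z = 0) ∨ (∀ x y z, T x y z = ind Q x y z) := by
  classical
  by_contra hne
  push Not at hne
  obtain ⟨⟨x1, y1, z1, h1⟩, ⟨x2, y2, z2, h2⟩⟩ := hne
  have hT0 : ∀ s : Fin 3 → ℤ, s ∉ Q → T (s 0) (s 1) (s 2) = 0 := fun s hs => by
    by_contra h; exact hs (hTQ s h)
  have m1 : ![x1, y1, z1] ∈ Q := hTQ ![x1, y1, z1] h1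
  have m2 : ![x2, y2, z2] ∈ Q ∧ T x2 y2 z2 = 0 := by
    by_cases hm : ![x2, y2, z2] ∈ Q
    · refine ⟨hm, ?_⟩
      rw [ind_eq_one.2 hm] at h2
      exact (zmod2_cases _).resolve_right h2
    · rw [ind_eq_zero.2 hm] at h2
      exact absurd (hT0 _ hm) h2
  let K1 : Set (Fin 3 → ℝ) := ⋃ c ∈ {c | c ∈ Q ∧ T (c 0) (c 1) (c 2) ≠ 0}, cel c
  let K2 : Set (Fin 3 → ℝ) := ⋃ c ∈ {c | c ∈ Q ∧ T (c 0) (c 1) (c 2) = 0}, cel c
  have hK1 : IsClosed K1 := (Q.finite_toSet.subset fun c hc => hc.1).isClosed_biUnion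
    fun c _ => isClosed_cel c
  have hK2 : IsClosed K2 := (Q.finite_toSet.subset fun c hc => hc.1).isClosed_biUnion
    fun c _ => isClosed_cel c
  have hcov : car Q ⊆ K1 ∪ K2 := by
    intro x hx
    obtain ⟨c, hc, hxc⟩ := mem_car.1 hx
    by_cases h : T (c 0) (c 1) (c 2) = 0
    · exact Or.inr (mem_biUnion (show c ∈ {c | c ∈ Q ∧ T (c 0) (c 1) (c 2) = 0} from ⟨hc, h⟩) hxc)
    · exact Or.inl (mem_biUnion (show c ∈ {c | c ∈ Q ∧ T (c 0) (c 1) (c 2) ≠ 0} from ⟨hc, h⟩) hxc)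
  have hin : ∀ c : Fin 3 → ℤ, (cel c).Nonempty := fun c => ⟨ctr c, ctr_mem fun i => Or.inl rfl⟩
  have hn1 : (car Q ∩ K1).Nonempty := by
    obtain ⟨x, hx⟩ := hin ![x1, y1, z1]
    exact ⟨x, mem_car.2 ⟨_, m1, hx⟩, mem_biUnion
      (show ![x1, y1, z1] ∈ {c | c ∈ Q ∧ T (c 0) (c 1) (c 2) ≠ 0} from ⟨m1, h1⟩) hx⟩
  have hn2 : (car Q ∩ K2).Nonempty := by
    obtain ⟨x, hx⟩ := hin ![x2, y2, z2]
    exact ⟨x, mem_car.2 ⟨_, m2.1, hx⟩, mem_biUnion
      (show ![x2, y2, z2] ∈ {c | c ∈ Q ∧ T (c 0) (c 1) (c 2) = 0} from m2) hx⟩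
  obtain ⟨x, _, hx1, hx2⟩ := isPreconnected_closed_iff.1 hcon K1 K2 hK1 hK2 hcov hn1 hn2
  obtain ⟨s, ⟨hs, hs2⟩, hxs⟩ := mem_iUnion₂.1 hx1
  obtain ⟨t, ⟨ht, ht2⟩, hxt⟩ := mem_iUnion₂.1 hx2
  obtain ⟨i, hi⟩ := hQ s hs
  obtain ⟨j, hj⟩ := hQ t ht
  have hv : ∀ j, vtx x j % 2 = 0 := vtx_even x
  rcases vertex_link hQ hS hv hTQ (hT _ _ _ (hv 0) (hv 1) (hv 2)) with h | h
  · exact hs2 (h s i hi (vtx_cof hxs))
  · have := h t j hj (vtx_cof hxt)
    rw [ht2, (ind_vec t).2 ht] at this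
    exact absurd this (by decide)

/-! ### local potentials -/

/-- sum over the cofaces of an edge in direction `x` -/
def sx (T : ℤ → ℤ → ℤ → ZMod 2) (a b c : ℤ) : ZMod 2 :=
  T a (b + 1) c + T a (b - 1) c + T a b (c + 1) + T a b (c - 1)

/-- sum over the cofaces of an edge in direction `y` -/
def sy (T : ℤ → ℤ → ℤ → ZMod 2) (a b c : ℤ) : ZMod 2 :=
  T (a + 1) b c + T (a - 1) b c + T a b (c + 1) + T a b (c - 1)

/-- sum over the cofaces of an edge in direction `z` -/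
def sz (T : ℤ → ℤ → ℤ → ZMod 2) (a b c : ℤ) : ZMod 2 :=
  T (a + 1) b c + T (a - 1) b c + T a (b + 1) c + T a (b - 1) c

/-- restriction of a cochain to `Q` -/
noncomputable def rs (Q : Finset (Fin 3 → ℤ)) (p : ℤ → ℤ → ℤ → ZMod 2) : ℤ → ℤ → ℤ → ZMod 2 :=
  fun x y z => ind Q x y z * p x y z

/-- the boundary at the six half-axes -/
noncomputable def bdy (Q : Finset (Fin 3 → ℤ)) (a b c : ℤ) :
    (ℤ → ℤ → ℤ → ZMod 2) →ₗ[ZMod 2] (Fin 6 → ZMod 2) where
  toFun p := ![sx (rs Q p) (a + 1) b c, sx (rs Q p) (a - 1) b c, sy (rs Q p) a (b + 1) c,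
    sy (rs Q p) a (b - 1) c, sz (rs Q p) a b (c + 1), sz (rs Q p) a b (c - 1)]
  map_add' p q := by
    funext i
    fin_cases i
    · show sx (rs Q (p + q)) (a + 1) b c = sx (rs Q p) (a + 1) b c + sx (rs Q q) (a + 1) b c
      simp only [sx, rs, Pi.add_apply]; ring
    · show sx (rs Q (p + q)) (a - 1) b c = sx (rs Q p) (a - 1) b c + sx (rs Q q) (a - 1) b c
      simp only [sx, rs, Pi.add_apply]; ring
    · show sy (rs Q (p + q)) a (b + 1) c = sy (rs Q p) a (b + 1) c + sy (rs Q q) a (b + 1) c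
      simp only [sy, rs, Pi.add_apply]; ring
    · show sy (rs Q (p + q)) a (b - 1) c = sy (rs Q p) a (b - 1) c + sy (rs Q q) a (b - 1) c
      simp only [sy, rs, Pi.add_apply]; ring
    · show sz (rs Q (p + q)) a b (c + 1) = sz (rs Q p) a b (c + 1) + sz (rs Q q) a b (c + 1)
      simp only [sz, rs, Pi.add_apply]; ring
    · show sz (rs Q (p + q)) a b (c - 1) = sz (rs Q p) a b (c - 1) + sz (rs Q q) a b (c - 1)
      simp only [sz, rs, Pi.add_apply]; ring
  map_smul' r p := by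
    funext i
    fin_cases i
    · show sx (rs Q (r • p)) (a + 1) b c = r * sx (rs Q p) (a + 1) b c
      simp only [sx, rs, Pi.smul_apply, smul_eq_mul]; ring
    · show sx (rs Q (r • p)) (a - 1) b c = r * sx (rs Q p) (a - 1) b c
      simp only [sx, rs, Pi.smul_apply, smul_eq_mul]; ring
    · show sy (rs Q (r • p)) a (b + 1) c = r * sy (rs Q p) a (b + 1) c
      simp only [sy, rs, Pi.smul_apply, smul_eq_mul]; ring
    · show sy (rs Q (r • p)) a (b - 1) c = r * sy (rs Q p) a (b - 1) c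
      simp only [sy, rs, Pi.smul_apply, smul_eq_mul]; ring
    · show sz (rs Q (r • p)) a b (c + 1) = r * sz (rs Q p) a b (c + 1)
      simp only [sz, rs, Pi.smul_apply, smul_eq_mul]; ring
    · show sz (rs Q (r • p)) a b (c - 1) = r * sz (rs Q p) a b (c - 1)
      simp only [sz, rs, Pi.smul_apply, smul_eq_mul]; ring

theorem bdy_apply (Q : Finset (Fin 3 → ℤ)) (a b c : ℤ) (p : ℤ → ℤ → ℤ → ZMod 2) :
    bdy Q a b c p = ![sx (rs Q p) (a + 1) b c, sx (rs Q p) (a - 1) b c, sy (rs Q p) a (b + 1) c,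
    sy (rs Q p) a (b - 1) c, sz (rs Q p) a b (c + 1), sz (rs Q p) a b (c - 1)] := rfl

/-- one square -/
def one (a b c : ℤ) : ℤ → ℤ → ℤ → ZMod 2 := fun x y z => if x = a ∧ y = b ∧ z = c then 1 else 0

end Crest.Agent.R096.Ax_914
end

-- ▼ part R096/Ax6_914
section

/-!
# Local potentials (helper914, row 96, P2-AXIS, part 6)
-/

set_option autoImplicit false
set_option linter.unusedSectionVars false
set_option linter.unusedSimpArgs false

namespace Crest.Agent.R096.Ax_914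

open Set Metric Function

theorem ne_facts (a : ℤ) : ((a + 1 = a) = False) ∧ ((a - 1 = a) = False) ∧ ((a = a + 1) = False) ∧
    ((a = a - 1) = False) ∧ ((a + 1 = a - 1) = False) ∧ ((a - 1 = a + 1) = False) := by
  refine ⟨?_, ?_, ?_, ?_, ?_, ?_⟩ <;> · rw [eq_iff_iff, iff_false]; omega

/-- **local potential**: an even set of half-axes is a boundary at the vertex -/
theorem exists_pot {Q : Finset (Fin 3 → ℤ)} (hQ : ∀ c ∈ Q, ∃ i, Cod1 c i)
    (hS : ∀ x ∈ car Q, TwoSidedAt (car Q) x) {a b c : ℤ} (ha : a % 2 = 0) (hb : b % 2 = 0)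
    (hc : c % 2 = 0) {γ : ℤ → ℤ → ℤ → ZMod 2}
    (hx : ∀ s : ℤ, (s = 1 ∨ s = -1) → ind Q (a + s) (b + 1) c = 0 → ind Q (a + s) (b - 1) c = 0 →
      ind Q (a + s) b (c + 1) = 0 → ind Q (a + s) b (c - 1) = 0 → γ (a + s) b c = 0)
    (hy : ∀ s : ℤ, (s = 1 ∨ s = -1) → ind Q (a + 1) (b + s) c = 0 → ind Q (a - 1) (b + s) c = 0 →
      ind Q a (b + s) (c + 1) = 0 → ind Q a (b + s) (c - 1) = 0 → γ a (b + s) c = 0)
    (hz : ∀ s : ℤ, (s = 1 ∨ s = -1) → ind Q (a + 1) b (c + s) = 0 → ind Q (a - 1) b (c + s) = 0 →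
      ind Q a (b + 1) (c + s) = 0 → ind Q a (b - 1) (c + s) = 0 → γ a b (c + s) = 0)
    (hev : γ (a + 1) b c + γ (a - 1) b c + γ a (b + 1) c + γ a (b - 1) c +
      γ a b (c + 1) + γ a b (c - 1) = 0) :
    ∃ p : ℤ → ℤ → ℤ → ZMod 2, (∀ x y z, ind Q x y z = 0 → p x y z = 0) ∧
      sx p (a + 1) b c = γ (a + 1) b c ∧ sx p (a - 1) b c = γ (a - 1) b c ∧
      sy p a (b + 1) c = γ a (b + 1) c ∧ sy p a (b - 1) c = γ a (b - 1) c ∧
      sz p a b (c + 1) = γ a b (c + 1) ∧ sz p a b (c - 1) = γ a b (c - 1) := by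
  classical
  let gv : Fin 6 → ZMod 2 := ![γ (a + 1) b c, γ (a - 1) b c, γ a (b + 1) c, γ a (b - 1) c,
    γ a b (c + 1), γ a b (c - 1)]
  by_cases hr : gv ∈ LinearMap.range (bdy Q a b c)
  · obtain ⟨p, hp⟩ := hr
    refine ⟨rs Q p, fun x y z h => by simp [rs, h], ?_⟩
    rw [bdy_apply] at hp
    exact ⟨congrFun hp 0, congrFun hp 1, congrFun hp 2, congrFun hp 3, congrFun hp 4,
      congrFun hp 5⟩
  exfalso
  obtain ⟨f, hf1, hf2⟩ := Submodule.exists_le_ker_of_notMem hr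
  obtain ⟨F, hF⟩ : ∃ F : Fin 6 → ZMod 2, ∀ w : Fin 6 → ZMod 2,
      f w = w 0 * F 0 + w 1 * F 1 + w 2 * F 2 + w 3 * F 3 + w 4 * F 4 + w 5 * F 5 := by
    refine ⟨fun i => f fun j => if i = j then 1 else 0, fun w => ?_⟩
    rw [LinearMap.pi_apply_eq_sum_univ f w, Fin.sum_univ_six]
    simp only [smul_eq_mul]
  have hR : ∀ p, sx (rs Q p) (a + 1) b c * F 0 + sx (rs Q p) (a - 1) b c * F 1 +
      sy (rs Q p) a (b + 1) c * F 2 + sy (rs Q p) a (b - 1) c * F 3 +
      sz (rs Q p) a b (c + 1) * F 4 + sz (rs Q p) a b (c - 1) * F 5 = 0 := by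
    intro p
    have := hf2 ⟨p, rfl⟩
    rw [LinearMap.mem_ker, hF, bdy_apply] at this
    exact this
  clear hf2
  obtain ⟨a1, a2, a3, a4, a5, a6⟩ := ne_facts a
  obtain ⟨b1, b2, b3, b4, b5, b6⟩ := ne_facts b
  obtain ⟨c1, c2, c3, c4, c5, c6⟩ := ne_facts c
  have r1 := hR (one (a + 1) (b + 1) c)
  have r2 := hR (one (a + 1) (b - 1) c)
  have r3 := hR (one (a - 1) (b + 1) c)
  have r4 := hR (one (a - 1) (b - 1) c)
  have r5 := hR (one (a + 1) b (c + 1))
  have r6 := hR (one (a + 1) b (c - 1))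
  have r7 := hR (one (a - 1) b (c + 1))
  have r8 := hR (one (a - 1) b (c - 1))
  have r9 := hR (one a (b + 1) (c + 1))
  have r10 := hR (one a (b + 1) (c - 1))
  have r11 := hR (one a (b - 1) (c + 1))
  have r12 := hR (one a (b - 1) (c - 1))
  simp only [sx, sy, sz, rs, one, a1, a2, a3, a4, a5, a6, b1, b2, b3, b4, b5, b6, c1, c2, c3, c4,
    c5, c6, and_true, true_and, and_false, false_and, if_true, if_false, mul_one, mul_zero,
    add_zero, zero_add, zero_mul, and_self] at r1 r2 r3 r4 r5 r6 r7 r8 r9 r10 r11 r12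
  clear hR
  -- the closed cochain `T`
  let T : ℤ → ℤ → ℤ → ZMod 2 := fun x y z => ind Q x y z *
    (if x = a + 1 then F 0 else if x = a - 1 then F 1 else if y = b + 1 then F 2 else F 3)
  have hTQ : ∀ s : Fin 3 → ℤ, T (s 0) (s 1) (s 2) ≠ 0 → s ∈ Q := by
    intro s hs
    by_contra h
    exact hs (by simp only [T]; rw [(ind_vec_zero s).2 h, zero_mul])
  have hI := ind_closedAt hQ hS ha hb hc
  have hIp := hI 1 (Or.inl rfl)
  have hIm := hI (-1) (Or.inr rfl)
  simp only [← sub_eq_add_neg] at hIm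
  obtain ⟨p1, p2, p3⟩ := hIp
  obtain ⟨m1, m2, m3⟩ := hIm
  have hTc : ClosedAt T a b c := by
    intro s hs
    rcases hs with rfl | rfl
    · simp only [T, a1, a2, a3, a4, a5, a6, b1, b2, b3, b4, b5, b6, if_true, if_false]
      refine ⟨?_, ?_, ?_⟩
      · linear_combination F 0 * p1
      · linear_combination r1 + r3 + F 2 * p2 - ind Q (a + 1) (b + 1) c * F 2 * two_zero -
          ind Q (a - 1) (b + 1) c * F 2 * two_zero
      · linear_combination r5 + r7 + r9 + r11 + F 4 * p3 - (ind Q (a + 1) b (c + 1) +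
          ind Q (a - 1) b (c + 1) + ind Q a (b + 1) (c + 1) + ind Q a (b - 1) (c + 1)) *
          F 4 * two_zero
    · simp only [T, ← sub_eq_add_neg, a1, a2, a3, a4, a5, a6, b1, b2, b3, b4, b5, b6, if_true,
        if_false]
      refine ⟨?_, ?_, ?_⟩
      · linear_combination F 1 * m1
      · linear_combination r2 + r4 + F 3 * m2 - ind Q (a + 1) (b - 1) c * F 3 * two_zero -
          ind Q (a - 1) (b - 1) c * F 3 * two_zero
      · linear_combination r6 + r8 + r10 + r12 + F 5 * m3 - (ind Q (a + 1) b (c - 1) +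
          ind Q (a - 1) b (c - 1) + ind Q a (b + 1) (c - 1) + ind Q a (b - 1) (c - 1)) *
          F 5 * two_zero
  -- coefficient `k = 0` or `k = 1`
  obtain ⟨k, hk⟩ : ∃ k : ZMod 2, ∀ x y z : ℤ, (∃ i, Cod1 ![x, y, z] i) → Cof ![a, b, c] ![x, y, z] →
      T x y z = ind Q x y z * k := by
    have hd : ∀ j, (![a, b, c] : Fin 3 → ℤ) j % 2 = 0 := by
      intro j; fin_cases j
      · exact ha
      · exact hb
      · exact hc
    rcases vertex_link hQ hS hd hTQ hTc with h | h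
    · exact ⟨0, fun x y z ⟨i, hi⟩ h2 => by rw [mul_zero]; exact h ![x, y, z] i hi h2⟩
    · exact ⟨1, fun x y z ⟨i, hi⟩ h2 => by rw [mul_one]; exact h ![x, y, z] i hi h2⟩
  have cofm : ∀ x y z : ℤ, (x = a ∨ x = a + 1 ∨ x = a - 1) → (y = b ∨ y = b + 1 ∨ y = b - 1) →
      (z = c ∨ z = c + 1 ∨ z = c - 1) → Cof ![a, b, c] ![x, y, z] := by
    intro x y z h1 h2 h3 i
    fin_cases i
    · rcases h1 with h | h
      · exact Or.inl h
      · exact Or.inr ⟨ha, h⟩
    · rcases h2 with h | h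
      · exact Or.inl h
      · exact Or.inr ⟨hb, h⟩
    · rcases h3 with h | h
      · exact Or.inl h
      · exact Or.inr ⟨hc, h⟩
  have codx : ∀ x y z : ℤ, x % 2 = 0 → y % 2 = 1 → z % 2 = 1 → ∃ i, Cod1 ![x, y, z] i := by
    intro x y z h1 h2 h3
    refine ⟨0, h1, fun j hj => ?_⟩
    fin_cases j
    · exact absurd rfl hj
    · exact h2
    · exact h3
  have cody : ∀ x y z : ℤ, x % 2 = 1 → y % 2 = 0 → z % 2 = 1 → ∃ i, Cod1 ![x, y, z] i := by
    intro x y z h1 h2 h3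
    refine ⟨1, h2, fun j hj => ?_⟩
    fin_cases j
    · exact h1
    · exact absurd rfl hj
    · exact h3
  have codz : ∀ x y z : ℤ, x % 2 = 1 → y % 2 = 1 → z % 2 = 0 → ∃ i, Cod1 ![x, y, z] i := by
    intro x y z h1 h2 h3
    refine ⟨2, h3, fun j hj => ?_⟩
    fin_cases j
    · exact h1
    · exact h2
    · exact absurd rfl hj
  have k1 := hk (a + 1) (b + 1) c (codz _ _ _ (by omega) (by omega) (by omega)) (cofm _ _ _ (by omega) (by omega) (by omega))
  have k2 := hk (a + 1) (b - 1) c (codz _ _ _ (by omega) (by omega) (by omega)) (cofm _ _ _ (by omega) (by omega) (by omega))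
  have k3 := hk (a - 1) (b + 1) c (codz _ _ _ (by omega) (by omega) (by omega)) (cofm _ _ _ (by omega) (by omega) (by omega))
  have k4 := hk (a - 1) (b - 1) c (codz _ _ _ (by omega) (by omega) (by omega)) (cofm _ _ _ (by omega) (by omega) (by omega))
  have k5 := hk (a + 1) b (c + 1) (cody _ _ _ (by omega) (by omega) (by omega)) (cofm _ _ _ (by omega) (by omega) (by omega))
  have k6 := hk (a + 1) b (c - 1) (cody _ _ _ (by omega) (by omega) (by omega)) (cofm _ _ _ (by omega) (by omega) (by omega))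
  have k7 := hk (a - 1) b (c + 1) (cody _ _ _ (by omega) (by omega) (by omega)) (cofm _ _ _ (by omega) (by omega) (by omega))
  have k8 := hk (a - 1) b (c - 1) (cody _ _ _ (by omega) (by omega) (by omega)) (cofm _ _ _ (by omega) (by omega) (by omega))
  have k9 := hk a (b + 1) (c + 1) (codx _ _ _ (by omega) (by omega) (by omega)) (cofm _ _ _ (by omega) (by omega) (by omega))
  have k10 := hk a (b + 1) (c - 1) (codx _ _ _ (by omega) (by omega) (by omega)) (cofm _ _ _ (by omega) (by omega) (by omega))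
  have k11 := hk a (b - 1) (c + 1) (codx _ _ _ (by omega) (by omega) (by omega)) (cofm _ _ _ (by omega) (by omega) (by omega))
  have k12 := hk a (b - 1) (c - 1) (codx _ _ _ (by omega) (by omega) (by omega)) (cofm _ _ _ (by omega) (by omega) (by omega))
  simp only [T, a1, a2, a3, a4, a5, a6, b1, b2, b3, b4, b5, b6, if_true, if_false] at k1 k2 k3 k4 k5 k6 k7 k8 k9 k10 k11 k12
  have hxp := hx 1 (Or.inl rfl)
  have hxm := hx (-1) (Or.inr rfl)
  have hyp := hy 1 (Or.inl rfl)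
  have hym := hy (-1) (Or.inr rfl)
  have hzp := hz 1 (Or.inl rfl)
  have hzm := hz (-1) (Or.inr rfl)
  simp only [← sub_eq_add_neg] at hxm hym hzm
  -- at every half-axis `γ * F = γ * k`
  have ax : ∀ i1 i2 i3 i4 g G : ZMod 2, (i1 = 0 → i2 = 0 → i3 = 0 → i4 = 0 → g = 0) →
      i1 * G = i1 * k → i2 * G = i2 * k → i3 * G = i3 * k → i4 * G = i4 * k → g * G = g * k := by
    intro i1 i2 i3 i4 g G h h1 h2 h3 h4
    rcases zmod2_cases i1 with e1 | e1
    · rcases zmod2_cases i2 with e2 | e2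
      · rcases zmod2_cases i3 with e3 | e3
        · rcases zmod2_cases i4 with e4 | e4
          · rw [h e1 e2 e3 e4, zero_mul, zero_mul]
          · rw [e4, one_mul, one_mul] at h4; rw [h4]
        · rw [e3, one_mul, one_mul] at h3; rw [h3]
      · rw [e2, one_mul, one_mul] at h2; rw [h2]
    · rw [e1, one_mul, one_mul] at h1; rw [h1]
  have n1 : γ (a + 1) b c * F 0 = γ (a + 1) b c * k := ax _ _ _ _ _ _ hxp k1 k2 k5 k6
  have n2 : γ (a - 1) b c * F 1 = γ (a - 1) b c * k := ax _ _ _ _ _ _ hxm k3 k4 k7 k8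
  have n3 : γ a (b + 1) c * F 2 = γ a (b + 1) c * k := by
    refine ax _ _ _ _ _ _ hyp ?_ ?_ k9 k10
    · linear_combination k1 + r1 - ind Q (a + 1) (b + 1) c * F 0 * two_zero
    · linear_combination k3 + r3 - ind Q (a - 1) (b + 1) c * F 1 * two_zero
  have n4 : γ a (b - 1) c * F 3 = γ a (b - 1) c * k := by
    refine ax _ _ _ _ _ _ hym ?_ ?_ k11 k12
    · linear_combination k2 + r2 - ind Q (a + 1) (b - 1) c * F 0 * two_zero
    · linear_combination k4 + r4 - ind Q (a - 1) (b - 1) c * F 1 * two_zero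
  have n5 : γ a b (c + 1) * F 4 = γ a b (c + 1) * k := by
    refine ax _ _ _ _ _ _ hzp ?_ ?_ ?_ ?_
    · linear_combination k5 + r5 - ind Q (a + 1) b (c + 1) * F 0 * two_zero
    · linear_combination k7 + r7 - ind Q (a - 1) b (c + 1) * F 1 * two_zero
    · linear_combination k9 + r9 - ind Q a (b + 1) (c + 1) * F 2 * two_zero
    · linear_combination k11 + r11 - ind Q a (b - 1) (c + 1) * F 3 * two_zero
  have n6 : γ a b (c - 1) * F 5 = γ a b (c - 1) * k := by
    refine ax _ _ _ _ _ _ hzm ?_ ?_ ?_ ?_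
    · linear_combination k6 + r6 - ind Q (a + 1) b (c - 1) * F 0 * two_zero
    · linear_combination k8 + r8 - ind Q (a - 1) b (c - 1) * F 1 * two_zero
    · linear_combination k10 + r10 - ind Q a (b + 1) (c - 1) * F 2 * two_zero
    · linear_combination k12 + r12 - ind Q a (b - 1) (c - 1) * F 3 * two_zero
  apply hf1
  rw [hF]
  show γ (a + 1) b c * F 0 + γ (a - 1) b c * F 1 + γ a (b + 1) c * F 2 + γ a (b - 1) c * F 3 +
    γ a b (c + 1) * F 4 + γ a b (c - 1) * F 5 = 0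
  rw [n1, n2, n3, n4, n5, n6]
  linear_combination k * hev

end Crest.Agent.R096.Ax_914
end

-- ▼ part R096/Ax7_914
section

/-!
# Separation from trivial cocycles (helper914, row 96, P2-AXIS, part 7)
-/

set_option autoImplicit false
set_option linter.unusedSectionVars false
set_option linter.unusedSimpArgs false

namespace Crest.Agent.R096.Ax_914

open Set Metric Function Topology Filter Crest.Agent.R096.Coh_184

/-- sum over the four cofaces of a codimension two cell -/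
def cosum {ι : Type*} [DecidableEq ι] (P : (ι → ℤ) → ZMod 2) (e : ι → ℤ) (i j : ι) : ZMod 2 :=
  P (update e i (e i + 1)) + P (update e i (e i + -1)) + P (update e j (e j + 1)) +
    P (update e j (e j + -1))

theorem cosum_symm {ι : Type*} [DecidableEq ι] (P : (ι → ℤ) → ZMod 2) (e : ι → ℤ) (i j : ι) :
    cosum P e i j = cosum P e j i := by
  unfold cosum; ring

theorem four_logic {α : Type*} {P : α → ZMod 2} {Q : Finset α} (hP : ∀ s, s ∉ Q → P s = 0)
    {c1 c2 c3 c4 s t : α}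
    (h : (c1 ∉ Q ∧ c2 ∉ Q ∧ c3 ∉ Q ∧ c4 ∉ Q) ∨ (c1 ∈ Q ∧ c2 ∈ Q ∧ c3 ∉ Q ∧ c4 ∉ Q) ∨
      (c1 ∉ Q ∧ c2 ∉ Q ∧ c3 ∈ Q ∧ c4 ∈ Q) ∨ (c1 ∈ Q ∧ c2 ∉ Q ∧ c3 ∈ Q ∧ c4 ∉ Q) ∨
      (c1 ∈ Q ∧ c2 ∉ Q ∧ c3 ∉ Q ∧ c4 ∈ Q) ∨ (c1 ∉ Q ∧ c2 ∈ Q ∧ c3 ∈ Q ∧ c4 ∉ Q) ∨
      (c1 ∉ Q ∧ c2 ∈ Q ∧ c3 ∉ Q ∧ c4 ∈ Q))
    (hs : s = c1 ∨ s = c2 ∨ s = c3 ∨ s = c4) (ht : t = c1 ∨ t = c2 ∨ t = c3 ∨ t = c4)
    (hsQ : s ∈ Q) (htQ : t ∈ Q) (hst : s ≠ t) : P c1 + P c2 + P c3 + P c4 = P s + P t := by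
  rcases h with ⟨h1, h2, h3, h4⟩ | ⟨h1, h2, h3, h4⟩ | ⟨h1, h2, h3, h4⟩ | ⟨h1, h2, h3, h4⟩ |
    ⟨h1, h2, h3, h4⟩ | ⟨h1, h2, h3, h4⟩ | ⟨h1, h2, h3, h4⟩
  · rcases hs with rfl | rfl | rfl | rfl
    · exact absurd hsQ h1
    · exact absurd hsQ h2
    · exact absurd hsQ h3
    · exact absurd hsQ h4
  · rw [hP _ h3, hP _ h4]
    rcases hs with rfl | rfl | rfl | rfl
    · rcases ht with rfl | rfl | rfl | rfl
      · exact absurd rfl hst
      · ring
      · exact absurd htQ h3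
      · exact absurd htQ h4
    · rcases ht with rfl | rfl | rfl | rfl
      · ring
      · exact absurd rfl hst
      · exact absurd htQ h3
      · exact absurd htQ h4
    · exact absurd hsQ h3
    · exact absurd hsQ h4
  · rw [hP _ h1, hP _ h2]
    rcases hs with rfl | rfl | rfl | rfl
    · exact absurd hsQ h1
    · exact absurd hsQ h2
    · rcases ht with rfl | rfl | rfl | rfl
      · exact absurd htQ h1
      · exact absurd htQ h2
      · exact absurd rfl hst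
      · ring
    · rcases ht with rfl | rfl | rfl | rfl
      · exact absurd htQ h1
      · exact absurd htQ h2
      · ring
      · exact absurd rfl hst
  · rw [hP _ h2, hP _ h4]
    rcases hs with rfl | rfl | rfl | rfl
    · rcases ht with rfl | rfl | rfl | rfl
      · exact absurd rfl hst
      · exact absurd htQ h2
      · ring
      · exact absurd htQ h4
    · exact absurd hsQ h2
    · rcases ht with rfl | rfl | rfl | rfl
      · ring
      · exact absurd htQ h2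
      · exact absurd rfl hst
      · exact absurd htQ h4
    · exact absurd hsQ h4
  · rw [hP _ h2, hP _ h3]
    rcases hs with rfl | rfl | rfl | rfl
    · rcases ht with rfl | rfl | rfl | rfl
      · exact absurd rfl hst
      · exact absurd htQ h2
      · exact absurd htQ h3
      · ring
    · exact absurd hsQ h2
    · exact absurd hsQ h3
    · rcases ht with rfl | rfl | rfl | rfl
      · ring
      · exact absurd htQ h2
      · exact absurd htQ h3
      · exact absurd rfl hst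
  · rw [hP _ h1, hP _ h4]
    rcases hs with rfl | rfl | rfl | rfl
    · exact absurd hsQ h1
    · rcases ht with rfl | rfl | rfl | rfl
      · exact absurd htQ h1
      · exact absurd rfl hst
      · ring
      · exact absurd htQ h4
    · rcases ht with rfl | rfl | rfl | rfl
      · exact absurd htQ h1
      · ring
      · exact absurd rfl hst
      · exact absurd htQ h4
    · exact absurd hsQ h4
  · rw [hP _ h1, hP _ h3]
    rcases hs with rfl | rfl | rfl | rfl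
    · exact absurd hsQ h1
    · rcases ht with rfl | rfl | rfl | rfl
      · exact absurd htQ h1
      · exact absurd rfl hst
      · exact absurd htQ h3
      · ring
    · exact absurd hsQ h3
    · rcases ht with rfl | rfl | rfl | rfl
      · exact absurd htQ h1
      · ring
      · exact absurd htQ h3
      · exact absurd rfl hst

theorem Cod2.eq_four {ι : Type*} [DecidableEq ι] {e : ι → ℤ} {i j : ι} (h : Cod2 e i j)
    {s : ι → ℤ} {l : ι} (hs : Cod1 s l) (hes : Cof e s) :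
    s = update e i (e i + 1) ∨ s = update e i (e i + -1) ∨ s = update e j (e j + 1) ∨
      s = update e j (e j + -1) := by
  rcases h.eq_cof hs hes with ⟨_, x, rfl | rfl, h1⟩ | ⟨_, x, rfl | rfl, h1⟩
  · exact Or.inl h1
  · exact Or.inr (Or.inl h1)
  · exact Or.inr (Or.inr (Or.inl h1))
  · exact Or.inr (Or.inr (Or.inr h1))

section

variable {ι : Type*} [DecidableEq ι] [Fintype ι] {Q : Finset (ι → ℤ)}

theorem cosum_eq (hQ : ∀ c ∈ Q, ∃ i, Cod1 c i) (hS : ∀ x ∈ car Q, TwoSidedAt (car Q) x)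
    {P : (ι → ℤ) → ZMod 2} (hP : ∀ s, s ∉ Q → P s = 0) {e : ι → ℤ} {i j : ι} (h : Cod2 e i j)
    {s t : ι → ℤ} (hs : s ∈ Q) (ht : t ∈ Q) (hst : s ≠ t) (hes : Cof e s) (het : Cof e t) :
    cosum P e i j = P s + P t := by
  obtain ⟨l, hl⟩ := hQ s hs
  obtain ⟨m, hm⟩ := hQ t ht
  exact four_logic hP (edge_two hQ hS h) (h.eq_four hl hes) (h.eq_four hm het) hs ht hst

theorem edge_cases (hQ : ∀ c ∈ Q, ∃ i, Cod1 c i) (hS : ∀ x ∈ car Q, TwoSidedAt (car Q) x)
    {e : ι → ℤ} {i j : ι} (h : Cod2 e i j) :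
    (∀ s ∈ Q, ¬ Cof e s) ∨ ∃ s ∈ Q, ∃ t ∈ Q, s ≠ t ∧ Cof e s ∧ Cof e t := by
  have d1 : update e i (e i + 1) ≠ update e i (e i + -1) := by
    intro hh
    have := congrFun hh i
    simp only [update_self] at this
    omega
  have d2 : update e j (e j + 1) ≠ update e j (e j + -1) := by
    intro hh
    have := congrFun hh j
    simp only [update_self] at this
    omega
  have d3 : ∀ x y : ℤ, x ≠ 0 → update e i (e i + x) ≠ update e j (e j + y) := by
    intro x y hx hh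
    have := congrFun hh i
    rw [update_self, update_of_ne h.1] at this
    omega
  have f1 := (h.cof (x := 1) (Or.inl rfl)).2
  have f2 := (h.cof (x := -1) (Or.inr rfl)).2
  have f3 := (h.symm.cof (x := 1) (Or.inl rfl)).2
  have f4 := (h.symm.cof (x := -1) (Or.inr rfl)).2
  rcases edge_two hQ hS h with ⟨h1, h2, h3, h4⟩ | ⟨h1, h2, h3, h4⟩ | ⟨h1, h2, h3, h4⟩ |
    ⟨h1, h2, h3, h4⟩ | ⟨h1, h2, h3, h4⟩ | ⟨h1, h2, h3, h4⟩ | ⟨h1, h2, h3, h4⟩
  · left
    intro s hs hes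
    obtain ⟨l, hl⟩ := hQ s hs
    rcases h.eq_four hl hes with rfl | rfl | rfl | rfl
    · exact h1 hs
    · exact h2 hs
    · exact h3 hs
    · exact h4 hs
  · exact Or.inr ⟨_, h1, _, h2, d1, f1, f2⟩
  · exact Or.inr ⟨_, h3, _, h4, d2, f3, f4⟩
  · exact Or.inr ⟨_, h1, _, h3, d3 _ _ (by norm_num), f1, f3⟩
  · exact Or.inr ⟨_, h1, _, h4, d3 _ _ (by norm_num), f1, f4⟩
  · exact Or.inr ⟨_, h2, _, h3, d3 _ _ (by norm_num), f2, f3⟩
  · exact Or.inr ⟨_, h2, _, h4, d3 _ _ (by norm_num), f2, f4⟩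

end

/-! ### dimension three -/

variable {Q : Finset (Fin 3 → ℤ)}

/-- local potentials in update form -/
theorem exists_pot' (hQ : ∀ c ∈ Q, ∃ i, Cod1 c i)
    (hS : ∀ x ∈ car Q, TwoSidedAt (car Q) x) {γ : ℤ → ℤ → ℤ → ZMod 2}
    (hsup : ∀ (e : Fin 3 → ℤ) (i j : Fin 3), Cod2 e i j → (∀ s ∈ Q, ¬ Cof e s) →
      γ (e 0) (e 1) (e 2) = 0)
    (hev : ∀ a b c : ℤ, a % 2 = 0 → b % 2 = 0 → c % 2 = 0 →
      γ (a + 1) b c + γ (a - 1) b c + γ a (b + 1) c + γ a (b - 1) c +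
      γ a b (c + 1) + γ a b (c - 1) = 0) (v : Fin 3 → ℤ) (hv : ∀ j, v j % 2 = 0) :
    ∃ p : (Fin 3 → ℤ) → ZMod 2, (∀ s, s ∉ Q → p s = 0) ∧
      ∀ e i j, Cod2 e i j → Cof v e → cosum p e i j = γ (e 0) (e 1) (e 2) := by
  have nocof : ∀ (e : Fin 3 → ℤ) (i j : Fin 3), Cod2 e i j →
      update e i (e i + 1) ∉ Q → update e i (e i + -1) ∉ Q → update e j (e j + 1) ∉ Q →
      update e j (e j + -1) ∉ Q → ∀ s ∈ Q, ¬ Cof e s := by
    intro e i j h h1 h2 h3 h4 s hs hes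
    obtain ⟨l, hl⟩ := hQ s hs
    rcases h.eq_four hl hes with rfl | rfl | rfl | rfl
    · exact h1 hs
    · exact h2 hs
    · exact h3 hs
    · exact h4 hs
  obtain ⟨p, hp, q1, q2, q3, q4, q5, q6⟩ := exists_pot hQ hS (hv 0) (hv 1) (hv 2) (γ := γ)
    (fun s hs h1 h2 h3 h4 => by
      rw [ind_eq_zero] at h1 h2 h3 h4
      have hc : Cod2 ![v 0 + s, v 1, v 2] 1 2 := by
        refine ⟨by decide, hv 1, hv 2, fun k k1 k2 => ?_⟩
        fin_cases k
        · show (v 0 + s) % 2 = 1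
          have := hv 0
          omega
        · exact absurd rfl k1
        · exact absurd rfl k2
      refine hsup ![v 0 + s, v 1, v 2] 1 2 hc (nocof _ _ _ hc ?_ ?_ ?_ ?_)
      · rw [upd1]; exact h1
      · rw [upd1]; exact h2
      · rw [upd2]; exact h3
      · rw [upd2]; exact h4)
    (fun s hs h1 h2 h3 h4 => by
      rw [ind_eq_zero] at h1 h2 h3 h4
      have hc : Cod2 ![v 0, v 1 + s, v 2] 0 2 := by
        refine ⟨by decide, hv 0, hv 2, fun k k1 k2 => ?_⟩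
        fin_cases k
        · exact absurd rfl k1
        · show (v 1 + s) % 2 = 1
          have := hv 1
          omega
        · exact absurd rfl k2
      refine hsup ![v 0, v 1 + s, v 2] 0 2 hc (nocof _ _ _ hc ?_ ?_ ?_ ?_)
      · rw [upd0]; exact h1
      · rw [upd0]; exact h2
      · rw [upd2]; exact h3
      · rw [upd2]; exact h4)
    (fun s hs h1 h2 h3 h4 => by
      rw [ind_eq_zero] at h1 h2 h3 h4
      have hc : Cod2 ![v 0, v 1, v 2 + s] 0 1 := by
        refine ⟨by decide, hv 0, hv 1, fun k k1 k2 => ?_⟩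
        fin_cases k
        · exact absurd rfl k1
        · exact absurd rfl k2
        · show (v 2 + s) % 2 = 1
          have := hv 2
          omega
      refine hsup ![v 0, v 1, v 2 + s] 0 1 hc (nocof _ _ _ hc ?_ ?_ ?_ ?_)
      · rw [upd0]; exact h1
      · rw [upd0]; exact h2
      · rw [upd1]; exact h3
      · rw [upd1]; exact h4) (hev _ _ _ (hv 0) (hv 1) (hv 2))
  refine ⟨fun s => p (s 0) (s 1) (s 2), fun s hs => hp _ _ _ ((ind_vec_zero s).2 hs), ?_⟩
  have ex : ∀ e : Fin 3 → ℤ, Cod2 e 1 2 → Cof v e →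
      cosum (fun s => p (s 0) (s 1) (s 2)) e 1 2 = γ (e 0) (e 1) (e 2) := by
    intro e he hve
    have e1 : e 1 = v 1 := by
      have := he.2.1
      have := hv 1
      rcases hve 1 with h | ⟨_, h⟩ <;> omega
    have e2 : e 2 = v 2 := by
      have := he.2.2.1
      have := hv 2
      rcases hve 2 with h | ⟨_, h⟩ <;> omega
    have e0 : e 0 = v 0 + 1 ∨ e 0 = v 0 - 1 := by
      have h1 := he.2.2.2 0 (by decide) (by decide)
      have := hv 0
      rcases hve 0 with h | ⟨_, h⟩ <;> omega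
    have : cosum (fun s => p (s 0) (s 1) (s 2)) e 1 2 = sx p (e 0) (e 1) (e 2) := by
      simp only [cosum, upd1, upd2, sx, sub_eq_add_neg]; rfl
    rw [this, e1, e2]
    rcases e0 with h | h <;> rw [h]
    · exact q1
    · exact q2
  have ey : ∀ e : Fin 3 → ℤ, Cod2 e 0 2 → Cof v e →
      cosum (fun s => p (s 0) (s 1) (s 2)) e 0 2 = γ (e 0) (e 1) (e 2) := by
    intro e he hve
    have e1 : e 0 = v 0 := by
      have := he.2.1
      have := hv 0
      rcases hve 0 with h | ⟨_, h⟩ <;> omega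
    have e2 : e 2 = v 2 := by
      have := he.2.2.1
      have := hv 2
      rcases hve 2 with h | ⟨_, h⟩ <;> omega
    have e0 : e 1 = v 1 + 1 ∨ e 1 = v 1 - 1 := by
      have h1 := he.2.2.2 1 (by decide) (by decide)
      have := hv 1
      rcases hve 1 with h | ⟨_, h⟩ <;> omega
    have : cosum (fun s => p (s 0) (s 1) (s 2)) e 0 2 = sy p (e 0) (e 1) (e 2) := by
      simp only [cosum, upd0, upd2, sy, sub_eq_add_neg]; rfl
    rw [this, e1, e2]
    rcases e0 with h | h <;> rw [h]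
    · exact q3
    · exact q4
  have ez : ∀ e : Fin 3 → ℤ, Cod2 e 0 1 → Cof v e →
      cosum (fun s => p (s 0) (s 1) (s 2)) e 0 1 = γ (e 0) (e 1) (e 2) := by
    intro e he hve
    have e1 : e 0 = v 0 := by
      have := he.2.1
      have := hv 0
      rcases hve 0 with h | ⟨_, h⟩ <;> omega
    have e2 : e 1 = v 1 := by
      have := he.2.2.1
      have := hv 1
      rcases hve 1 with h | ⟨_, h⟩ <;> omega
    have e0 : e 2 = v 2 + 1 ∨ e 2 = v 2 - 1 := by
      have h1 := he.2.2.2 2 (by decide) (by decide)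
      have := hv 2
      rcases hve 2 with h | ⟨_, h⟩ <;> omega
    have : cosum (fun s => p (s 0) (s 1) (s 2)) e 0 1 = sz p (e 0) (e 1) (e 2) := by
      simp only [cosum, upd0, upd1, sz, sub_eq_add_neg]; rfl
    rw [this, e1, e2]
    rcases e0 with h | h <;> rw [h]
    · exact q5
    · exact q6
  intro e i j he hve
  fin_cases i <;> fin_cases j
  · exact absurd rfl he.1
  · exact ez e he hve
  · exact ey e he hve
  · rw [cosum_symm]; exact ez e he.symm hve
  · exact absurd rfl he.1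
  · exact ex e he hve
  · rw [cosum_symm]; exact ey e he.symm hve
  · rw [cosum_symm]; exact ex e he.symm hve
  · exact absurd rfl he.1

theorem fin3_third : ∀ k a : Fin 3, a ≠ k → ∃ b : Fin 3, b ≠ k ∧ b ≠ a ∧
    ∀ c : Fin 3, c = k ∨ c = a ∨ c = b := by decide

theorem even_val {s : ℤ} {x : ℝ} (h : s % 2 = 0) (h1 : ((s / 2 : ℤ) : ℝ) ≤ x)
    (h2 : x ≤ (((s + 1) / 2 : ℤ) : ℝ)) : x = ((s / 2 : ℤ) : ℝ) := by
  have : (s + 1) / 2 = s / 2 := by omega
  rw [this] at h2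
  exact le_antisymm h2 h1

/-- two different squares meet in an edge or in at most a point -/
theorem meet_cod2 {s t : Fin 3 → ℤ} {a b : Fin 3} (hs : Cod1 s a) (ht : Cod1 t b) (hst : s ≠ t)
    {x : Fin 3 → ℝ} (hxs : x ∈ cel s) (hxt : x ∈ cel t) {k : Fin 3} (hk : meet s t k % 2 = 1) :
    ∃ i j, Cod2 (meet s t) i j := by
  have hne : ∀ i, s i ≠ t i → meet s t i % 2 = 0 := by
    intro i hi
    unfold meet
    rw [if_neg hi]; omega
  have heq : ∀ i, s i = t i → meet s t i = s i := by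
    intro i hi
    unfold meet
    rw [if_pos hi]
  have hsk : s k = t k := by
    by_contra h
    have := hne k h
    omega
  rw [heq k hsk] at hk
  have hak : a ≠ k := by rintro rfl; have := hs.1; omega
  have hbk : b ≠ k := by rintro rfl; have := ht.1; omega
  have hmk : meet s t k % 2 = 1 := by rw [heq k hsk]; exact hk
  by_cases hab : a = b
  · subst hab
    obtain ⟨c, hck, hca, hall⟩ := fin3_third k a hak
    have hsa : s a = t a := by
      have h1 := even_val hs.1 (hxs a).1 (hxs a).2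
      have h2 := even_val ht.1 (hxt a).1 (hxt a).2
      rw [h1] at h2
      have h3 : s a / 2 = t a / 2 := by exact_mod_cast h2
      have := hs.1
      have := ht.1
      omega
    have hsc : s c ≠ t c := by
      intro h
      apply hst
      funext i
      rcases hall i with rfl | rfl | rfl
      · exact hsk
      · exact hsa
      · exact h
    refine ⟨a, c, hca.symm, ?_, hne c hsc, fun i hi1 hi2 => ?_⟩
    · rw [heq a hsa]; exact hs.1
    · rcases hall i with rfl | rfl | rfl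
      · exact hmk
      · exact absurd rfl hi1
      · exact absurd rfl hi2
  · have h1 : s a ≠ t a := by
      have := hs.1
      have := ht.2 a hab
      omega
    have h2 : s b ≠ t b := by
      have := ht.1
      have := hs.2 b (Ne.symm hab)
      omega
    obtain ⟨c, hck, hca, hall⟩ := fin3_third k a hak
    have hbc : b = c := by
      rcases hall b with h | h | h
      · exact absurd h hbk
      · exact absurd h.symm hab
      · exact h
    refine ⟨a, b, hab, hne a h1, hne b h2, fun i hi1 hi2 => ?_⟩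
    rcases hall i with rfl | rfl | rfl
    · exact hmk
    · exact absurd rfl hi1
    · exact absurd hbc.symm hi2

theorem meet_point {s t : Fin 3 → ℤ} (he : ∀ k, meet s t k % 2 = 0) {x y : Fin 3 → ℝ}
    (hxs : x ∈ cel s) (hxt : x ∈ cel t) (hys : y ∈ cel s) (hyt : y ∈ cel t) : x = y := by
  funext i
  by_cases h : s i = t i
  · have h1 : s i % 2 = 0 := by
      have := he i
      unfold meet at this
      rwa [if_pos h] at this
    rw [even_val h1 (hxs i).1 (hxs i).2, even_val h1 (hys i).1 (hys i).2]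
  · rw [meet_eq_of_ne hxs hxt h, meet_eq_of_ne hys hyt h]

/-- **(sep)**: every even set of edges is a boundary -/
theorem sep_of (hQ : ∀ c ∈ Q, ∃ i, Cod1 c i)
    (hS : ∀ x ∈ car Q, TwoSidedAt (car Q) x) (htriv : ∀ n, TrivAll (Fin n) (ZMod 2) (car Q))
    {γ : ℤ → ℤ → ℤ → ZMod 2}
    (hsup : ∀ (e : Fin 3 → ℤ) (i j : Fin 3), Cod2 e i j → (∀ s ∈ Q, ¬ Cof e s) →
      γ (e 0) (e 1) (e 2) = 0)
    (hev : ∀ a b c : ℤ, a % 2 = 0 → b % 2 = 0 → c % 2 = 0 →
      γ (a + 1) b c + γ (a - 1) b c + γ a (b + 1) c + γ a (b - 1) c +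
      γ a b (c + 1) + γ a b (c - 1) = 0) :
    ∃ F : (Fin 3 → ℤ) → ZMod 2, (∀ s, s ∉ Q → F s = 0) ∧
      ∀ e i j, Cod2 e i j → cosum F e i j = γ (e 0) (e 1) (e 2) := by
  classical
  have hpot := fun v hv => exists_pot' hQ hS hsup hev v hv
  choose! p hp0 hp using hpot
  let P : (Fin 3 → ℝ) → (Fin 3 → ℤ) → ZMod 2 := fun x => p (vtx x)
  have hP0 : ∀ x s, s ∉ Q → P x s = 0 := fun x => hp0 (vtx x) (vtx_even x)
  have hP : ∀ x e i j, Cod2 e i j → Cof (vtx x) e → cosum (P x) e i j = γ (e 0) (e 1) (e 2) :=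
    fun x => hp (vtx x) (vtx_even x)
  let σ : Fin Q.card → (Fin 3 → ℤ) := fun k => ((Q.equivFin.symm k : Q) : Fin 3 → ℤ)
  have hσ : ∀ k, σ k ∈ Q := fun k => (Q.equivFin.symm k).2
  -- value on an edge
  have hedge : ∀ s ∈ Q, ∀ t ∈ Q, s ≠ t → ∀ x, x ∈ cel s → x ∈ cel t → ∀ i j,
      Cod2 (meet s t) i j → P x s - P x t = γ (meet s t 0) (meet s t 1) (meet s t 2) := by
    intro s hs t ht hst x hxs hxt i j hij
    have h1 := cosum_eq hQ hS (hP0 x) hij hs ht hst (meet_cof hxs hxt)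
      (by rw [meet_comm]; exact meet_cof hxt hxs)
    rw [hP x _ i j hij (vtx_cof_meet hxs hxt)] at h1
    rw [h1, CharTwo.sub_eq_add]
  have hconst : ∀ s ∈ Q, ∀ t ∈ Q, ∀ x y, x ∈ cel s → x ∈ cel t → y ∈ cel s → y ∈ cel t →
      P x s - P x t = P y s - P y t := by
    intro s hs t ht x y hxs hxt hys hyt
    by_cases hst : s = t
    · subst hst; rw [sub_self, sub_self]
    · obtain ⟨a, ha⟩ := hQ s hs
      obtain ⟨b, hb⟩ := hQ t ht
      by_cases hk : ∃ k, meet s t k % 2 = 1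
      · obtain ⟨k, hk⟩ := hk
        obtain ⟨i, j, hij⟩ := meet_cod2 ha hb hst hxs hxt hk
        rw [hedge s hs t ht hst x hxs hxt i j hij, hedge s hs t ht hst y hys hyt i j hij]
      · push Not at hk
        rw [meet_point (fun k => by have := hk k; omega) hxs hxt hys hyt]
  have hcoc : Coc (fun k => cel (σ k)) (fun k l x => P x (σ k) - P x (σ l)) (car Q) := by
    refine ⟨fun k => isClosed_cel _, ?_, ?_, ?_⟩
    · intro x hx
      obtain ⟨c, hc, hxc⟩ := mem_car.1 hx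
      refine mem_iUnion.2 ⟨Q.equivFin ⟨c, hc⟩, ?_⟩
      simpa [σ] using hxc
    · rintro k l x ⟨⟨h1, h2⟩, _⟩
      filter_upwards [self_mem_nhdsWithin] with y hy
      exact hconst _ (hσ k) _ (hσ l) y x hy.1.1 hy.1.2 h1 h2
    · intro i j k x _ _ _ _
      ring
  obtain ⟨χ, hχ, hχd⟩ := htriv _ _ _ hcoc
  have hsubS : ∀ k, cel (σ k) ⊆ car Q := fun k x hx => mem_car.2 ⟨_, hσ k, hx⟩
  have hχc : ∀ k, ∀ x ∈ cel (σ k), ∀ y ∈ cel (σ k), χ k x = χ k y := by
    intro k x hx y hy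
    have h1 : LC (χ k) (cel (σ k)) := by
      have := hχ k
      rwa [inter_eq_self_of_subset_left (hsubS k)] at this
    exact h1.eq_of_preconnected (convex_cel _).isPreconnected hx hy
  let F : (Fin 3 → ℤ) → ZMod 2 := fun s => if h : s ∈ Q then χ (Q.equivFin ⟨s, h⟩) (ctr s) else 0
  have hF : ∀ k x, x ∈ cel (σ k) → F (σ k) = χ k x := by
    intro k x hx
    simp only [F]
    rw [dif_pos (hσ k)]
    have : Q.equivFin ⟨σ k, hσ k⟩ = k := by simp [σ]
    rw [this]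
    exact hχc k _ (ctr_mem fun i => Or.inl rfl) _ hx
  have hF0 : ∀ s, s ∉ Q → F s = 0 := fun s hs => dif_neg hs
  refine ⟨F, hF0, ?_⟩
  intro e i j he
  rcases edge_cases hQ hS he with h | ⟨s, hs, t, ht, hst, hes, het⟩
  · rw [hsup e i j he h]
    unfold cosum
    rw [hF0 _ fun hh => h _ hh (he.cof (Or.inl rfl)).2,
      hF0 _ fun hh => h _ hh (he.cof (Or.inr rfl)).2,
      hF0 _ fun hh => h _ hh (he.symm.cof (Or.inl rfl)).2,
      hF0 _ fun hh => h _ hh (he.symm.cof (Or.inr rfl)).2]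
    rfl
  · rw [cosum_eq hQ hS hF0 he hs ht hst hes het]
    obtain ⟨k, rfl⟩ : ∃ k, σ k = s := ⟨Q.equivFin ⟨s, hs⟩, by simp [σ]⟩
    obtain ⟨l, rfl⟩ : ∃ l, σ l = t := ⟨Q.equivFin ⟨t, ht⟩, by simp [σ]⟩
    have m1 : ctr e ∈ cel (σ k) := ctr_mem hes
    have m2 : ctr e ∈ cel (σ l) := ctr_mem het
    rw [hF k _ m1, hF l _ m2, ← CharTwo.sub_eq_add]
    rw [hχd k l (ctr e) m1 m2 (hsubS k m1)]
    show P (ctr e) (σ k) - P (ctr e) (σ l) = _
    have h1 := cosum_eq hQ hS (hP0 (ctr e)) he hs ht hst hes het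
    rw [hP (ctr e) e i j he (vtx_cof (ctr_mem fun i => Or.inl rfl))] at h1
    rw [h1, CharTwo.sub_eq_add]

end Crest.Agent.R096.Ax_914
end

-- ▼ part R096/Ax8_914
section

/-!
# A two-sided cubical surface is a `Surf` (helper914, row 96, P2-AXIS, part 8)
-/

set_option autoImplicit false
set_option linter.unusedSectionVars false
set_option linter.unusedSimpArgs false

namespace Crest.Agent.R096.Ax_914

open Set Metric Function Topology Filter Crest.Agent.R096.Coh_184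
open Crest.Agent.R096.Lc_451 (Pt bd bd2 bd_even bd_odd Vx Sq Ed D1 D2 Cf Nr Surf)

variable {Q : Finset (Fin 3 → ℤ)}

/-- the mod 2 chain of `Q` in 451's format -/
noncomputable def chn (Q : Finset (Fin 3 → ℤ)) (p : Pt) (z : ℤ) : ZMod 2 := ind Q p.1 p.2 z

theorem chn_ne {p : Pt} {z : ℤ} : chn Q p z ≠ 0 ↔ ![p.1, p.2, z] ∈ Q := by
  unfold chn
  rw [Ne, ind_eq_zero, not_not]

theorem bd_x {T : Pt → ℤ → ZMod 2} {x y z : ℤ} (hx : x % 2 = 1) (hy : y % 2 = 0)
    (hz : z % 2 = 0) : bd T (x, y) z = sx (fun a b c => T (a, b) c) x y z := by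
  rw [bd_even hz]
  simp only [bd2, hx, hy, if_true, sx]
  norm_num
  ring

theorem bd_y {T : Pt → ℤ → ZMod 2} {x y z : ℤ} (hx : x % 2 = 0) (hy : y % 2 = 1)
    (hz : z % 2 = 0) : bd T (x, y) z = sy (fun a b c => T (a, b) c) x y z := by
  rw [bd_even hz]
  simp only [bd2, hx, hy, if_true, sy]
  norm_num
  ring

theorem bd_z {T : Pt → ℤ → ZMod 2} {x y z : ℤ} (hx : x % 2 = 0) (hy : y % 2 = 0)
    (hz : z % 2 = 1) : bd T (x, y) z = sz (fun a b c => T (a, b) c) x y z := by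
  rw [bd_odd hz]
  simp only [bd2, hx, hy, if_true, sz]
  ring

/-- edges in the three directions -/
theorem D1.cases {p : Pt} {z : ℤ} (h : D1 p z) :
    (p.1 % 2 = 1 ∧ p.2 % 2 = 0 ∧ z % 2 = 0) ∨ (p.1 % 2 = 0 ∧ p.2 % 2 = 1 ∧ z % 2 = 0) ∨
      (p.1 % 2 = 0 ∧ p.2 % 2 = 0 ∧ z % 2 = 1) := by
  rcases h with ⟨h1 | h1, h2⟩ | ⟨h1, h2⟩
  · exact Or.inr (Or.inl ⟨h1.1, h1.2, h2⟩)
  · exact Or.inl ⟨h1.1, h1.2, h2⟩
  · exact Or.inr (Or.inr ⟨h1.1, h1.2, h2⟩)

theorem Cod2.D1 {e : Fin 3 → ℤ} {i j : Fin 3} (h : Cod2 e i j) : D1 (e 0, e 1) (e 2) := by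
  obtain ⟨h1, h2, h3, h4⟩ := h
  unfold Lc_451.D1 Ed Vx
  fin_cases i <;> fin_cases j
  · exact absurd rfl h1
  · exact Or.inr ⟨⟨h2, h3⟩, h4 2 (by decide) (by decide)⟩
  · exact Or.inl ⟨Or.inl ⟨h2, h4 1 (by decide) (by decide)⟩, h3⟩
  · exact Or.inr ⟨⟨h3, h2⟩, h4 2 (by decide) (by decide)⟩
  · exact absurd rfl h1
  · exact Or.inl ⟨Or.inr ⟨h4 0 (by decide) (by decide), h2⟩, h3⟩
  · exact Or.inl ⟨Or.inl ⟨h3, h4 1 (by decide) (by decide)⟩, h2⟩
  · exact Or.inl ⟨Or.inr ⟨h4 0 (by decide) (by decide), h3⟩, h2⟩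
  · exact absurd rfl h1

theorem D2_of_cod1 {p : Pt} {z : ℤ} (h : ∃ i, Cod1 ![p.1, p.2, z] i) : D2 p z := by
  obtain ⟨i, h1, h2⟩ := h
  unfold Lc_451.D2 Sq Ed
  fin_cases i
  · exact Or.inr ⟨Or.inl ⟨h1, h2 1 (by decide)⟩, h2 2 (by decide)⟩
  · exact Or.inr ⟨Or.inr ⟨h2 0 (by decide), h1⟩, h2 2 (by decide)⟩
  · exact Or.inl ⟨⟨h2 0 (by decide), h2 1 (by decide)⟩, h1⟩

theorem nr_cof {v : Pt} {z : ℤ} (hv : Vx v) (hz : z % 2 = 0) {p : Pt} {z' : ℤ}
    (h : Nr v z p z') : Cof ![v.1, v.2, z] ![p.1, p.2, z'] := by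
  obtain ⟨h1, h2, h3⟩ := h
  rw [abs_le] at h1 h2 h3
  intro i
  fin_cases i
  · show p.1 = v.1 ∨ (v.1 % 2 = 0 ∧ (p.1 = v.1 + 1 ∨ p.1 = v.1 - 1))
    have := hv.1
    omega
  · show p.2 = v.2 ∨ (v.2 % 2 = 0 ∧ (p.2 = v.2 + 1 ∨ p.2 = v.2 - 1))
    have := hv.2
    omega
  · show z' = z ∨ (z % 2 = 0 ∧ (z' = z + 1 ∨ z' = z - 1))
    omega

/-- an edge coface of an edge is given by `Cf` -/
theorem cf_of_cof {e s : Fin 3 → ℤ} {i j l : Fin 3} (he : Cod2 e i j) (hs : Cod1 s l)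
    (hes : Cof e s) : Cf (e 0, e 1) (e 2) (s 0, s 1) (s 2) := by
  obtain ⟨h1, h2, h3, h4⟩ := he
  have key : ∀ m : Fin 3, e m % 2 = 0 → ∀ x : ℤ, (x = 1 ∨ x = -1) → s = update e m (e m + x) →
      Cf (e 0, e 1) (e 2) (s 0, s 1) (s 2) := by
    intro m hm x hx hsm
    unfold Lc_451.Cf
    fin_cases m
    · left
      subst hsm
      refine ⟨hm, ?_, rfl⟩
      rcases hx with rfl | rfl
      · exact Or.inl rfl
      · right; simp only [Fin.zero_eta, upd0]; rfl
    · right; left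
      subst hsm
      refine ⟨hm, ?_, rfl⟩
      rcases hx with rfl | rfl
      · exact Or.inl rfl
      · right; simp only [Fin.mk_one, upd1]; rfl
    · right; right
      subst hsm
      refine ⟨hm, rfl, ?_⟩
      rcases hx with rfl | rfl
      · exact Or.inl rfl
      · right; simp only [Fin.reduceFinMk, upd2]; rfl
  rcases Cod2.eq_cof ⟨h1, h2, h3, h4⟩ hs hes with ⟨_, x, hx, h⟩ | ⟨_, x, hx, h⟩
  · exact key i h2 x hx h
  · exact key j h3 x hx h

theorem vertex_bd {γ : Pt → ℤ → ZMod 2} {a b c : ℤ} (ha : a % 2 = 0) (hb : b % 2 = 0)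
    (hc : c % 2 = 0) : bd γ (a, b) c =
      γ (a + 1, b) c + γ (a - 1, b) c + γ (a, b + 1) c + γ (a, b - 1) c +
      γ (a, b) (c + 1) + γ (a, b) (c - 1) := by
  rw [bd_even hc]
  simp only [bd2, ha, hb, if_true]
  ring

/-- **AX2**: the chain of a connected two-sided cubical surface with trivial torsors is a
`Surf` in the sense of 451 -/
theorem surf_of (hQ : ∀ c ∈ Q, ∃ i, Cod1 c i) (hS : ∀ x ∈ car Q, TwoSidedAt (car Q) x)
    (hne : Q.Nonempty) (hcon : IsPreconnected (car Q))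
    (htriv : ∀ n, TrivAll (Fin n) (ZMod 2) (car Q)) : Surf (chn Q) := by
  classical
  have supp : ∀ T : Pt → ℤ → ZMod 2, (∀ p z, T p z ≠ 0 → chn Q p z ≠ 0) →
      ∀ s : Fin 3 → ℤ, (fun a b c => T (a, b) c) (s 0) (s 1) (s 2) ≠ 0 → s ∈ Q := by
    intro T hT s hs
    have := chn_ne.1 (hT _ _ hs)
    rwa [vec_eta] at this
  refine ⟨?_, ?_, ?_, ?_, ?_, ?_, ?_, ?_⟩
  · refine (Q.finite_toSet.image fun c : Fin 3 → ℤ => ((c 0, c 1), c 2)).subset ?_
    rintro ⟨⟨x, y⟩, z⟩ h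
    exact ⟨![x, y, z], chn_ne.1 h, rfl⟩
  · intro p z h
    exact D2_of_cod1 (hQ _ (chn_ne.1 h))
  · rintro ⟨x, y⟩ z h
    rcases D1.cases h with ⟨h1, h2, h3⟩ | ⟨h1, h2, h3⟩ | ⟨h1, h2, h3⟩
    · rw [bd_x h1 h2 h3]; exact (ind_edge_x hQ hS h1 h2 h3).1
    · rw [bd_y h1 h2 h3]; exact (ind_edge_y hQ hS h1 h2 h3).1
    · rw [bd_z h1 h2 h3]; exact (ind_edge_z hQ hS h1 h2 h3).1
  · obtain ⟨c, hc⟩ := hne
    refine ⟨(c 0, c 1), c 2, chn_ne.2 ?_⟩
    show ![c 0, c 1, c 2] ∈ Q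
    rwa [vec_eta]
  · rintro ⟨x, y⟩ z h
    rcases D1.cases h with ⟨h1, h2, h3⟩ | ⟨h1, h2, h3⟩ | ⟨h1, h2, h3⟩
    · have := (ind_edge_x hQ hS h1 h2 h3).2
      by_contra hcon
      push Not at hcon
      refine this ⟨?_, ?_, ?_, ?_⟩
      · exact chn_ne.1 (hcon (x, y + 1) z (Or.inr (Or.inl ⟨h2, Or.inl rfl, rfl⟩)))
      · exact chn_ne.1 (hcon (x, y - 1) z (Or.inr (Or.inl ⟨h2, Or.inr rfl, rfl⟩)))
      · exact chn_ne.1 (hcon (x, y) (z + 1) (Or.inr (Or.inr ⟨h3, rfl, Or.inl rfl⟩)))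
      · exact chn_ne.1 (hcon (x, y) (z - 1) (Or.inr (Or.inr ⟨h3, rfl, Or.inr rfl⟩)))
    · have := (ind_edge_y hQ hS h1 h2 h3).2
      by_contra hcon
      push Not at hcon
      refine this ⟨?_, ?_, ?_, ?_⟩
      · exact chn_ne.1 (hcon (x + 1, y) z (Or.inl ⟨h1, Or.inl rfl, rfl⟩))
      · exact chn_ne.1 (hcon (x - 1, y) z (Or.inl ⟨h1, Or.inr rfl, rfl⟩))
      · exact chn_ne.1 (hcon (x, y) (z + 1) (Or.inr (Or.inr ⟨h3, rfl, Or.inl rfl⟩)))
      · exact chn_ne.1 (hcon (x, y) (z - 1) (Or.inr (Or.inr ⟨h3, rfl, Or.inr rfl⟩)))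
    · have := (ind_edge_z hQ hS h1 h2 h3).2
      by_contra hcon
      push Not at hcon
      refine this ⟨?_, ?_, ?_, ?_⟩
      · exact chn_ne.1 (hcon (x + 1, y) z (Or.inl ⟨h1, Or.inl rfl, rfl⟩))
      · exact chn_ne.1 (hcon (x - 1, y) z (Or.inl ⟨h1, Or.inr rfl, rfl⟩))
      · exact chn_ne.1 (hcon (x, y + 1) z (Or.inr (Or.inl ⟨h2, Or.inl rfl, rfl⟩)))
      · exact chn_ne.1 (hcon (x, y - 1) z (Or.inr (Or.inl ⟨h2, Or.inr rfl, rfl⟩)))
  · rintro ⟨a, b⟩ c hv hc T hT hcl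
    have ha : a % 2 = 0 := hv.1
    have hb : b % 2 = 0 := hv.2
    have hclosed : ClosedAt (fun a b c => T (a, b) c) a b c := by
      intro s hs
      refine ⟨?_, ?_, ?_⟩
      · have h1 : (a + s) % 2 = 1 := by omega
        have := hcl (a + s, b) c (Or.inl ⟨Or.inr ⟨h1, hb⟩, hc⟩)
          ⟨by rcases hs with rfl | rfl <;> simp, by simp, by simp⟩
        rwa [bd_x h1 hb hc] at this
      · have h1 : (b + s) % 2 = 1 := by omega
        have := hcl (a, b + s) c (Or.inl ⟨Or.inl ⟨ha, h1⟩, hc⟩)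
          ⟨by simp, by rcases hs with rfl | rfl <;> simp, by simp⟩
        rwa [bd_y ha h1 hc] at this
      · have h1 : (c + s) % 2 = 1 := by omega
        have := hcl (a, b) (c + s) (Or.inr ⟨⟨ha, hb⟩, h1⟩)
          ⟨by simp, by simp, by rcases hs with rfl | rfl <;> simp⟩
        rwa [bd_z ha hb h1] at this
    have hd : ∀ j, (![a, b, c] : Fin 3 → ℤ) j % 2 = 0 := by
      intro j; fin_cases j
      · exact ha
      · exact hb
      · exact hc
    rcases vertex_link hQ hS hd (supp T hT) hclosed with h | h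
    · left
      intro p z' hn
      by_contra hne
      obtain ⟨i, hi⟩ := hQ _ (chn_ne.1 (hT _ _ hne))
      exact hne (h _ i hi (nr_cof hv hc hn))
    · right
      intro p z' hn
      by_cases hm : ![p.1, p.2, z'] ∈ Q
      · obtain ⟨i, hi⟩ := hQ _ hm
        exact h _ i hi (nr_cof hv hc hn)
      · have h1 : chn Q p z' = 0 := by
          by_contra h2; exact hm (chn_ne.1 h2)
        rw [h1]
        by_contra h2
        exact hT _ _ h2 h1
  · intro T hT hcl
    have hclosed : ∀ a b c : ℤ, a % 2 = 0 → b % 2 = 0 → c % 2 = 0 →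
        ClosedAt (fun a b c => T (a, b) c) a b c := by
      intro a b c ha hb hc s hs
      refine ⟨?_, ?_, ?_⟩
      · have h1 : (a + s) % 2 = 1 := by omega
        have := hcl (a + s, b) c (Or.inl ⟨Or.inr ⟨h1, hb⟩, hc⟩)
        rwa [bd_x h1 hb hc] at this
      · have h1 : (b + s) % 2 = 1 := by omega
        have := hcl (a, b + s) c (Or.inl ⟨Or.inl ⟨ha, h1⟩, hc⟩)
        rwa [bd_y ha h1 hc] at this
      · have h1 : (c + s) % 2 = 1 := by omega
        have := hcl (a, b) (c + s) (Or.inr ⟨⟨ha, hb⟩, h1⟩)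
        rwa [bd_z ha hb h1] at this
    rcases conn_of hQ hS hcon (supp T hT) hclosed with h | h
    · exact Or.inl fun p z => h p.1 p.2 z
    · exact Or.inr fun p z => h p.1 p.2 z
  · intro γ hγ hev
    obtain ⟨F, hF0, hF⟩ := sep_of hQ hS htriv (γ := fun a b c => γ (a, b) c)
      (fun e i j he h => by
        by_contra hne
        obtain ⟨_, q, z', hcf, hq⟩ := hγ _ _ hne
        refine h ![q.1, q.2, z'] (chn_ne.1 hq) ?_
        intro k
        rcases hcf with ⟨h1, h2, h3⟩ | ⟨h1, h2, h3⟩ | ⟨h1, h2, h3⟩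
        · fin_cases k
          · right
            refine ⟨h1, ?_⟩
            rcases h2 with h2 | h2
            · exact Or.inl (congrArg Prod.fst h2)
            · exact Or.inr (congrArg Prod.fst h2)
          · left
            rcases h2 with h2 | h2
            · exact congrArg Prod.snd h2
            · exact congrArg Prod.snd h2
          · exact Or.inl h3
        · fin_cases k
          · left
            rcases h2 with h2 | h2
            · exact congrArg Prod.fst h2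
            · exact congrArg Prod.fst h2
          · right
            refine ⟨h1, ?_⟩
            rcases h2 with h2 | h2
            · exact Or.inl (congrArg Prod.snd h2)
            · exact Or.inr (congrArg Prod.snd h2)
          · exact Or.inl h3
        · fin_cases k
          · exact Or.inl (congrArg Prod.fst h2)
          · exact Or.inl (congrArg Prod.snd h2)
          · exact Or.inr ⟨h1, h3⟩)
      (fun a b c ha hb hc => by
        have := hev (a, b) c ⟨ha, hb⟩ hc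
        rwa [vertex_bd ha hb hc] at this)
    refine ⟨fun p z => F ![p.1, p.2, z], fun p z h => ?_, ?_⟩
    · rw [chn_ne]
      by_contra hm
      exact h (hF0 _ hm)
    · rintro ⟨x, y⟩ z h
      rcases D1.cases h with ⟨h1, h2, h3⟩ | ⟨h1, h2, h3⟩ | ⟨h1, h2, h3⟩
      · rw [bd_x h1 h2 h3]
        have hc : Cod2 ![x, y, z] 1 2 := by
          refine ⟨by decide, h2, h3, fun k k1 k2 => ?_⟩
          fin_cases k
          · exact h1
          · exact absurd rfl k1
          · exact absurd rfl k2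
        have := hF _ _ _ hc
        simp only [cosum, upd1, upd2, ← sub_eq_add_neg] at this
        exact this
      · rw [bd_y h1 h2 h3]
        have hc : Cod2 ![x, y, z] 0 2 := by
          refine ⟨by decide, h1, h3, fun k k1 k2 => ?_⟩
          fin_cases k
          · exact absurd rfl k1
          · exact h2
          · exact absurd rfl k2
        have := hF _ _ _ hc
        simp only [cosum, upd0, upd2, ← sub_eq_add_neg] at this
        exact this
      · rw [bd_z h1 h2 h3]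
        have hc : Cod2 ![x, y, z] 0 1 := by
          refine ⟨by decide, h1, h2, fun k k1 k2 => ?_⟩
          fin_cases k
          · exact absurd rfl k1
          · exact absurd rfl k2
          · exact h3
        have := hF _ _ _ hc
        simp only [cosum, upd0, upd1, ← sub_eq_add_neg] at this
        exact this

end Crest.Agent.R096.Ax_914
end

-- ▼ part R096/Ax9_914

/-!
# Finite unions of axis-parallel rectangles (helper914, row 96, P2-AXIS, part 9)

`TwoSidedAt` and `TrivAll` are invariant under homeomorphisms; `axis`: a connected two-sided finite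
union of axis-parallel rectangles with trivial torsors becomes the carrier of a `Surf` (451) after an
increasing PL change of every coordinate.
-/

set_option autoImplicit false
set_option linter.unusedSectionVars false

namespace Crest.Agent.R096.Ax_914

open Set Metric Function Topology Filter Crest.Agent.R096.Coh_184 Crest.Agent.R096.Pl
open Crest.Agent.R096.Lc_451 (Surf)

theorem TwoSidedAt.map {E F : Type*} [PseudoMetricSpace E] [PseudoMetricSpace F] (Φ : E ≃ₜ F)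
    {S : Set E} {x : E} (h : TwoSidedAt S x) : TwoSidedAt (Φ '' S) (Φ x) := by
  intro ε hε
  have hcont : Φ ⁻¹' ball (Φ x) ε ∈ 𝓝 x := Φ.continuous.continuousAt (ball_mem_nhds _ hε)
  obtain ⟨δ, hδ, hb⟩ := Metric.mem_nhds_iff.1 hcont
  obtain ⟨U, P, N, hU, hP, hN, hxU, hUb, hPc, hNc, hPN, hUS, hxP, hxN⟩ := h δ hδ
  refine ⟨Φ '' U, Φ '' P, Φ '' N, Φ.isOpenMap _ hU, Φ.isOpenMap _ hP, Φ.isOpenMap _ hN,
    mem_image_of_mem _ hxU, ?_, hPc.image _ Φ.continuous.continuousOn,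
    hNc.image _ Φ.continuous.continuousOn, (disjoint_image_iff Φ.injective).2 hPN, ?_, ?_, ?_⟩
  · rintro _ ⟨y, hy, rfl⟩
    exact hb (hUb hy)
  · rw [← image_sdiff Φ.injective, hUS, image_union]
  · rw [← Φ.image_closure]; exact mem_image_of_mem _ hxP
  · rw [← Φ.image_closure]; exact mem_image_of_mem _ hxN

theorem TwoSidedAt.map_iff {E F : Type*} [PseudoMetricSpace E] [PseudoMetricSpace F] (Φ : E ≃ₜ F)
    {S : Set E} {x : E} : TwoSidedAt (Φ '' S) (Φ x) ↔ TwoSidedAt S x := by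
  refine ⟨fun h => ?_, TwoSidedAt.map Φ⟩
  have h1 := h.map Φ.symm
  have h2 : Φ.symm '' (Φ '' S) = S := by
    rw [image_image]; simp
  rwa [Φ.symm_apply_apply, h2] at h1

/-- `TwoSidedAt` only depends on the germ of `S` at `x` -/
theorem TwoSidedAt.congr {E : Type*} [PseudoMetricSpace E] {S T : Set E} {x : E}
    (h : TwoSidedAt S x) {V : Set E} (hV : V ∈ 𝓝 x) (hST : S ∩ V = T ∩ V) : TwoSidedAt T x := by
  intro ε hε
  obtain ⟨δ, hδ, hb⟩ := Metric.mem_nhds_iff.1 hV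
  obtain ⟨U, P, N, hU, hP, hN, hxU, hUb, hPc, hNc, hPN, hUS, hxP, hxN⟩ := h (min ε δ)
    (lt_min hε hδ)
  refine ⟨U, P, N, hU, hP, hN, hxU, hUb.trans (ball_subset_ball (min_le_left _ _)), hPc, hNc, hPN,
    ?_, hxP, hxN⟩
  have hUV : U ⊆ V := (hUb.trans (ball_subset_ball (min_le_right _ _))).trans hb
  rw [← hUS]
  ext y
  constructor
  · rintro ⟨h1, h2⟩
    refine ⟨h1, fun h3 => h2 ?_⟩
    exact (hST.subset ⟨h3, hUV h1⟩ : y ∈ T ∩ V).1
  · rintro ⟨h1, h2⟩
    refine ⟨h1, fun h3 => h2 ?_⟩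
    exact (hST.superset ⟨h3, hUV h1⟩ : y ∈ S ∩ V).1

theorem TrivAll.map {X Z : Type*} [TopologicalSpace X] [TopologicalSpace Z] {ι A : Type*}
    [AddCommGroup A] (Φ : X ≃ₜ Z) {S : Set X} (hS : IsClosed S) (h : TrivAll ι A S) :
    TrivAll ι A (Φ '' S) := by
  refine h.of_retract hS (g := Φ) (π := Φ.symm) Φ.continuous.continuousOn
    (mapsTo_image _ _) Φ.symm.continuous.continuousOn ?_ ?_
  · rintro _ ⟨x, hx, rfl⟩
    rwa [Φ.symm_apply_apply]
  · intro x _
    exact Φ.apply_symm_apply x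

/-- **P2-AXIS**: a connected two-sided finite union of axis-parallel rectangles of `ℝ³` with trivial
`ZMod 2`-torsors is, after an increasing PL change of every coordinate, the carrier of a cubical
Sep-surface -/
theorem axis {B : Finset ((Fin 3 → ℝ) × (Fin 3 → ℝ))} (hB : ∀ p ∈ B, p.1 ≤ p.2)
    (hB1 : ∀ p ∈ B, ∃ i, p.1 i = p.2 i ∧ ∀ j, j ≠ i → p.1 j ≠ p.2 j)
    {S : Set (Fin 3 → ℝ)} (hSB : S = ⋃ p ∈ B, Icc p.1 p.2) (hS : ∀ x ∈ S, TwoSidedAt S x)
    (hcon : IsConnected S) (htriv : ∀ n, TrivAll (Fin n) (ZMod 2) S) :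
    ∃ Φ : (Fin 3 → ℝ) ≃ₜ (Fin 3 → ℝ), Coordwise Φ ∧ ∃ Q : Finset (Fin 3 → ℤ),
      Φ '' S = car Q ∧ (∀ c ∈ Q, ∃ i, Cod1 c i) ∧ Surf (chn Q) := by
  obtain ⟨Φ, hΦ, Q, hQ1, hQ2⟩ := exists_cubical B hB
  rw [← hSB] at hQ1
  have hQ : ∀ c ∈ Q, ∃ i, Cod1 c i := by
    intro c hc
    obtain ⟨p, hp, hcp⟩ := hQ2 c hc
    obtain ⟨i, hi, hi2⟩ := hB1 p hp
    refine ⟨i, (hcp i).2 hi, fun j hj => ?_⟩
    have := (not_congr (hcp j)).2 (hi2 j hj)
    omega
  have hclosed : IsClosed S := by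
    rw [hSB]
    exact B.finite_toSet.isClosed_biUnion fun p _ => isClosed_Icc
  refine ⟨Φ, hΦ, Q, hQ1, hQ, surf_of hQ ?_ ?_ ?_ ?_⟩
  · intro x hx
    rw [← hQ1] at hx
    obtain ⟨y, hy, rfl⟩ := hx
    rw [← hQ1]
    exact (hS y hy).map Φ
  · obtain ⟨x, hx⟩ := hcon.nonempty
    have : Φ x ∈ car Q := by rw [← hQ1]; exact mem_image_of_mem _ hx
    obtain ⟨c, hc, _⟩ := mem_car.1 this
    exact ⟨c, hc⟩
  · rw [← hQ1]
    exact hcon.isPreconnected.image _ Φ.continuous.continuousOn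
  · intro n
    rw [← hQ1]
    exact TrivAll.map Φ hclosed (htriv n)

end Crest.Agent.R096.Ax_914
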