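import Mathlib
import Crest.Agent.R096.Lc5_451

-- ▼ part R096/Lc6_451
section

/-!
# R096/Lc6_451 (helper451, row 96, P2-CUBE)

A flat connected hole-free region `W × {h}` of a cubical surface `S`: local facts (no pinching,
edges and vertices common to `W × {h}` and `S` lie on the boundary curve).
-/

set_option autoImplicit false

namespace Crest.Agent.R096.Lc_451

/-- a flat region of colour `a` at height `h` -/
structure Reg (X : Pt → ℤ → ZMod 2) (h : ℤ) (a : ZMod 2) (W : Finset Pt) : Prop where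
  ne : W.Nonempty
  con : Con W
  hf : HF W
  fl : ∀ s ∈ W, Fl X h a s
  out : ∀ s ∈ W, ∀ t, t ∉ W → nb s t → ¬ Fl X h a t

/-- the sides of an edge, with the cofaces in dimension 3 -/
theorem sides' {e : Pt} (he : Ed e) :
    ∃ s t, Sq s ∧ Sq t ∧ nb s t ∧ mid s t = e ∧ (∀ a, bd2 a e = a s + a t) ∧
      ∀ z q z', z % 2 = 0 → (Cf e z q z' ↔ ((q = s ∨ q = t) ∧ z' = z) ∨
        (q = e ∧ (z' = z + 1 ∨ z' = z - 1))) := by
  obtain ⟨x, y⟩ := e
  rcases he with ⟨hx, hy⟩ | ⟨hx, hy⟩
  · simp only at hx hy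
    have hs : Sq (x - 1, y) := ⟨by simp only; omega, hy⟩
    have hn : nb (x - 1, y) (x + 1, y) := Or.inl (by ext <;> simp only; ring)
    have hm : mid (x - 1, y) (x + 1, y) = (x, y) := by
      unfold mid; simp only; ext <;> simp only <;> omega
    obtain ⟨_, h2, h3⟩ := bd2_mid hs hn
    rw [hm] at h3
    refine ⟨_, _, hs, h2, hn, hm, h3, ?_⟩
    intro z q z' hz
    unfold Cf
    simp only
    constructor
    · rintro (⟨_, h | h, h'⟩ | ⟨h, _, _⟩ | ⟨_, h, h'⟩)
      · exact Or.inl ⟨Or.inr h, h'⟩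
      · exact Or.inl ⟨Or.inl h, h'⟩
      · omega
      · exact Or.inr ⟨h, h'⟩
    · rintro (⟨h | h, h'⟩ | ⟨h, h'⟩)
      · exact Or.inl ⟨hx, Or.inr h, h'⟩
      · exact Or.inl ⟨hx, Or.inl h, h'⟩
      · exact Or.inr (Or.inr ⟨hz, h, h'⟩)
  · simp only at hx hy
    have hs : Sq (x, y - 1) := ⟨hx, by simp only; omega⟩
    have hn : nb (x, y - 1) (x, y + 1) := Or.inr (Or.inr (Or.inl (by ext <;> simp only; ring)))
    have hm : mid (x, y - 1) (x, y + 1) = (x, y) := by
      unfold mid; simp only; ext <;> simp only <;> omega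
    obtain ⟨_, h2, h3⟩ := bd2_mid hs hn
    rw [hm] at h3
    refine ⟨_, _, hs, h2, hn, hm, h3, ?_⟩
    intro z q z' hz
    unfold Cf
    simp only
    constructor
    · rintro (⟨h, _, _⟩ | ⟨_, h | h, h'⟩ | ⟨_, h, h'⟩)
      · omega
      · exact Or.inl ⟨Or.inr h, h'⟩
      · exact Or.inl ⟨Or.inl h, h'⟩
      · exact Or.inr ⟨h, h'⟩
    · rintro (⟨h | h, h'⟩ | ⟨h, h'⟩)
      · exact Or.inr (Or.inl ⟨hy, Or.inr h, h'⟩)
      · exact Or.inr (Or.inl ⟨hy, Or.inl h, h'⟩)
      · exact Or.inr (Or.inr ⟨hz, h, h'⟩)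

/-- the boundary only depends on the cofaces -/
theorem bd_congr {A B : Pt → ℤ → ZMod 2} {p : Pt} {z : ℤ}
    (h : ∀ q z', Cf p z q z' → A q z' = B q z') : bd A p z = bd B p z := by
  rw [bd_def, bd_def]
  congr 1
  · unfold bd2
    congr 1
    · split_ifs with h1
      · simp only
        rw [h _ z (Or.inl ⟨h1, Or.inl rfl, rfl⟩), h _ z (Or.inl ⟨h1, Or.inr rfl, rfl⟩)]
      · rfl
    · split_ifs with h1
      · simp only
        rw [h _ z (Or.inr (Or.inl ⟨h1, Or.inl rfl, rfl⟩)), h _ z (Or.inr (Or.inl ⟨h1, Or.inr rfl, rfl⟩))]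
      · rfl
  · split_ifs with h1
    · rw [h p _ (Or.inr (Or.inr ⟨h1, rfl, Or.inl rfl⟩)), h p _ (Or.inr (Or.inr ⟨h1, rfl, Or.inr rfl⟩))]
    · rfl

theorem bd_zero (p : Pt) (z : ℤ) : bd (fun _ _ => 0) p z = 0 := by
  rw [bd_def, bd2_zero]
  simp

theorem exists_cf_of_bd {A : Pt → ℤ → ZMod 2} {p : Pt} {z : ℤ} (h : bd A p z ≠ 0) :
    ∃ q z', Cf p z q z' ∧ A q z' ≠ 0 := by
  by_contra hcon
  push Not at hcon
  apply h
  rw [bd_congr (B := fun _ _ => 0) (fun q z' hc => hcon q z' hc), bd_zero]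

theorem Nr_cf {v : Pt} {zv : ℤ} (hv : Vx v) (hz : zv % 2 = 0) {p : Pt} {z : ℤ} (hn : Nr v zv p z)
    {q : Pt} {z' : ℤ} (hc : Cf p z q z') : Nr v zv q z' := by
  obtain ⟨x, y⟩ := v
  obtain ⟨p1, p2⟩ := p
  obtain ⟨hx, hy⟩ := hv
  unfold Nr at *
  unfold Cf at hc
  simp only at *
  rw [abs_le, abs_le, abs_le] at hn
  rcases hc with ⟨h1, h2, h3⟩ | ⟨h1, h2, h3⟩ | ⟨h1, h2, h3⟩
  · rcases h2 with rfl | rfl <;>
    · simp only
      rw [abs_le, abs_le, abs_le]
      omega
  · rcases h2 with rfl | rfl <;>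
    · simp only
      rw [abs_le, abs_le, abs_le]
      omega
  · subst h2
    simp only
    rw [abs_le, abs_le, abs_le]
    omega

section region

variable {S X : Pt → ℤ → ZMod 2} (hS : Surf S)
  (hXd : ∀ p z, X p z ≠ 0 → Sq p ∧ z % 2 = 1) (hX : ∀ p z, bd X p z = S p z)
  {h : ℤ} {a : ZMod 2} {W : Finset Pt} (R : Reg X h a W)

include hXd R in
theorem reg_even : h % 2 = 0 := by
  by_contra hh
  obtain ⟨s, hs, t, ht, hst⟩ := exists_out R.ne
  have h1 := R.fl s hs
  apply R.out s hs t ht hst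
  unfold Fl at *
  rw [X_even hXd (by omega), X_even hXd (by omega)] at *
  exact h1

include hXd R in
theorem reg_sq : ∀ s ∈ W, Sq s := by
  classical
  obtain ⟨s, hs, t, ht, hst⟩ := exists_out R.ne
  have hsq : Sq s := by
    by_contra hsq
    have htq : ¬ Sq t := fun h' => hsq (bd2_mid h' hst.symm).2.1
    have h1 := R.fl s hs
    apply R.out s hs t ht hst
    unfold Fl at *
    rw [X_nsq hXd hsq, X_nsq hXd hsq] at h1
    rw [X_nsq hXd htq, X_nsq hXd htq]
    exact h1
  rcases R.con (W.filter (fun p => p.1 % 2 = 1 ∧ p.2 % 2 = 1)) (Finset.filter_subset _ _) (by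
    intro p hp q hq hpq
    rw [Finset.mem_filter] at hp ⊢
    exact ⟨hq, (bd2_mid (s := p) hp.2 hpq).2.1⟩) with h1 | h1
  · exfalso
    have : s ∈ W.filter (fun p => p.1 % 2 = 1 ∧ p.2 % 2 = 1) := Finset.mem_filter.2 ⟨hs, hsq⟩
    rw [h1] at this
    simp at this
  · intro p hp
    rw [← h1] at hp
    exact (Finset.mem_filter.1 hp).2

/-- the boundary of the flat disc -/
theorem bd_layer (W : Finset Pt) {h : ℤ} (hh : h % 2 = 0) (p : Pt) (z : ℤ) :
    bd (layer W h) p z = if z = h then bd2 (ind W) p else 0 := by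
  by_cases hz : z = h
  · subst hz
    rw [bd_even hh, layer_eq, if_pos rfl]
    unfold layer
    rw [if_neg (by omega), if_neg (by omega)]
    simp
  · rw [if_neg hz]
    by_cases hz2 : z % 2 = 0
    · rw [bd_even hz2, layer_other W hz, bd2_zero]
      unfold layer
      rw [if_neg (by omega), if_neg (by omega)]
      simp
    · rw [bd_odd (by omega), layer_other W hz, bd2_zero]

include hXd hX R in
/-- (F1) -/
theorem S_on_W {s : Pt} (hs : s ∈ W) : S s h = 0 := by
  rw [S_hor hX (reg_sq hXd R s hs) (reg_even hXd R), (R.fl s hs).1, (R.fl s hs).2, zmod2_self]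

include hXd hX R in
theorem S_int {s t : Pt} (hs : s ∈ W) (ht : t ∈ W) (hst : nb s t) {z : ℤ} (hz : z = h + 1 ∨ z = h - 1) :
    S (mid s t) z = 0 := by
  have he := reg_even hXd R
  rw [S_ver hX (reg_sq hXd R s hs) hst (by omega)]
  rcases hz with rfl | rfl
  · rw [(R.fl s hs).2, (R.fl t ht).2, zmod2_self]
  · rw [(R.fl s hs).1, (R.fl t ht).1, zmod2_self]

include hXd hX R in
/-- (F2) an edge of the boundary curve is an edge of `S` -/
theorem S_bdry {s t : Pt} (hs : s ∈ W) (ht : t ∉ W) (hst : nb s t) :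
    ∃ z, (z = h + 1 ∨ z = h - 1) ∧ S (mid s t) z ≠ 0 := by
  have he := reg_even hXd R
  by_contra hcon
  push Not at hcon
  have h1 := hcon (h + 1) (Or.inl rfl)
  have h2 := hcon (h - 1) (Or.inr rfl)
  rw [S_ver hX (reg_sq hXd R s hs) hst (by omega)] at h1 h2
  rw [(R.fl s hs).2] at h1
  rw [(R.fl s hs).1] at h2
  exact R.out s hs t ht hst ⟨(zmod2_eq_of_add h2).symm, (zmod2_eq_of_add h1).symm⟩

include hXd R in
/-- the boundary curve, at the middle of two neighbours -/
theorem c_mid {s t : Pt} (hs : s ∈ W) (ht : t ∉ W) (hst : nb s t) : bd2 (ind W) (mid s t) = 1 := by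
  rw [(bd2_mid (reg_sq hXd R s hs) hst).2.2, ind_mem hs, ind_not ht, add_zero]

/-- an edge with nonzero `bd2 (ind W)` has exactly one side in `W` -/
theorem c_sides {p : Pt} (hW : ∀ s ∈ W, Sq s) (hp : bd2 (ind W) p ≠ 0) :
    ∃ s t, s ∈ W ∧ t ∉ W ∧ nb s t ∧ mid s t = p := by
  have hed := bd2_ed (fun p hp => hW p (ind_ne hp)) hp
  obtain ⟨s, t, hs, ht, hst, hm, hb⟩ := sides hed
  rw [hb] at hp
  by_cases h1 : s ∈ W
  · refine ⟨s, t, h1, fun h2 => ?_, hst, hm⟩
    rw [ind_mem h1, ind_mem h2] at hp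
    exact hp (by decide)
  · refine ⟨t, s, ?_, h1, hst.symm, ?_⟩
    · by_contra h2
      rw [ind_not h1, ind_not h2] at hp
      exact hp (by decide)
    · rw [← hm]
      unfold mid
      ext
      · simp only; rw [add_comm]
      · simp only; rw [add_comm]

include hXd hX R in
/-- (F3) an edge with a coface in `S` and a coface in the disc lies on the boundary curve -/
theorem F3 {p : Pt} {z : ℤ} {q : Pt} (hc : Cf p z q h) (hq : q ∈ W) {q' : Pt} {z' : ℤ}
    (hc' : Cf p z q' z') (hS' : S q' z' ≠ 0) (hD1 : D1 p z) : z = h ∧ bd2 (ind W) p = 1 := by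
  have he := reg_even hXd R
  have hqs := reg_sq hXd R q hq
  have hz : z = h ∧ Ed p := by
    unfold Cf at hc
    unfold Sq at hqs
    rcases hc with ⟨h1, h2, h3⟩ | ⟨h1, h2, h3⟩ | ⟨h1, h2, h3⟩
    · refine ⟨h3.symm, Or.inl ⟨h1, ?_⟩⟩
      rcases h2 with rfl | rfl
      · exact hqs.2
      · exact hqs.2
    · refine ⟨h3.symm, Or.inr ⟨?_, h1⟩⟩
      rcases h2 with rfl | rfl
      · exact hqs.1
      · exact hqs.1
    · omega
  obtain ⟨rfl, hed⟩ := hz
  refine ⟨rfl, ?_⟩
  obtain ⟨s, t, hs, ht, hst, hm, hb, hcf⟩ := sides' hed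
  by_contra hne
  rw [hb] at hne
  have hboth : s ∈ W ∧ t ∈ W := by
    rw [hcf _ _ _ he] at hc
    rcases hc with ⟨h1 | h1, _⟩ | ⟨_, h1⟩
    · subst h1
      refine ⟨hq, ?_⟩
      by_contra h2
      rw [ind_mem hq, ind_not h2] at hne
      exact hne (by decide)
    · subst h1
      refine ⟨?_, hq⟩
      by_contra h2
      rw [ind_mem hq, ind_not h2] at hne
      exact hne (by decide)
    · omega
  rw [hcf _ _ _ he] at hc'
  rcases hc' with ⟨h1 | h1, h2⟩ | ⟨h1, h2⟩
  · subst h1; subst h2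
    exact hS' (S_on_W hXd hX R hboth.1)
  · subst h1; subst h2
    exact hS' (S_on_W hXd hX R hboth.2)
  · subst h1
    rw [← hm] at hS'
    exact hS' (S_int hXd hX R hboth.1 hboth.2 hst h2)

/-- two-dimensional cells near a vertex -/
theorem near_sq {x y zv : ℤ} (hx : x % 2 = 0) (hy : y % 2 = 0) {p : Pt} {z : ℤ}
    (hn : Nr (x, y) zv p z) (hp : Sq p) :
    p = (x + 1, y + 1) ∨ p = (x + 1, y - 1) ∨ p = (x - 1, y + 1) ∨ p = (x - 1, y - 1) := by
  obtain ⟨p1, p2⟩ := p
  unfold Nr at hn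
  unfold Sq at hp
  simp only at hn hp
  rw [abs_le, abs_le] at hn
  simp only [Prod.mk.injEq]
  omega

theorem near_ed {x y zv : ℤ} (hx : x % 2 = 0) (hy : y % 2 = 0) {p : Pt} {z : ℤ}
    (hn : Nr (x, y) zv p z) (hp : Ed p) :
    p = (x + 1, y) ∨ p = (x - 1, y) ∨ p = (x, y + 1) ∨ p = (x, y - 1) := by
  obtain ⟨p1, p2⟩ := p
  unfold Nr at hn
  unfold Ed at hp
  simp only at hn hp
  rw [abs_le, abs_le] at hn
  simp only [Prod.mk.injEq]
  omega

include hS hXd hX R in
/-- (F4) a vertex common to `S` and the disc lies on the boundary curve; otherwise all four squares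
belong to `W` and `S` has no square there -/
theorem F4 {x y : ℤ} (hx : x % 2 = 0) (hy : y % 2 = 0) (hnc : ¬ OnC (bd2 (ind W)) (x, y))
    {q : Pt} (hq : q ∈ W) (hqn : Nr (x, y) h q h) :
    ((x + 1, y + 1) ∈ W ∧ (x + 1, y - 1) ∈ W ∧ (x - 1, y + 1) ∈ W ∧ (x - 1, y - 1) ∈ W) ∧
      ∀ p z, Nr (x, y) h p z → S p z = 0 := by
  have hall : (x + 1, y + 1) ∈ W ∧ (x + 1, y - 1) ∈ W ∧ (x - 1, y + 1) ∈ W ∧ (x - 1, y - 1) ∈ W := by
    rcases not_OnC hx hy hnc with h1 | h1
    · exact h1
    · exfalso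
      rcases near_sq hx hy hqn (reg_sq hXd R q hq) with rfl | rfl | rfl | rfl
      · exact h1.1 hq
      · exact h1.2.1 hq
      · exact h1.2.2.1 hq
      · exact h1.2.2.2 hq
  refine ⟨hall, ?_⟩
  intro p z hn
  by_contra hne
  obtain ⟨h1, h2, h3, h4⟩ := hall
  have he := reg_even hXd R
  have hz : z = h ∨ z = h + 1 ∨ z = h - 1 := by
    have := hn.2.2
    rw [abs_le] at this
    omega
  rcases hS.dim p z hne with ⟨hp, hz2⟩ | ⟨hp, hz2⟩
  · have : z = h := by omega
    subst this
    rcases near_sq hx hy hn hp with rfl | rfl | rfl | rfl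
    · exact hne (S_on_W hXd hX R h1)
    · exact hne (S_on_W hXd hX R h2)
    · exact hne (S_on_W hXd hX R h3)
    · exact hne (S_on_W hXd hX R h4)
  · have hz' : z = h + 1 ∨ z = h - 1 := by omega
    have hW := reg_sq hXd R
    rcases near_ed hx hy hn hp with rfl | rfl | rfl | rfl
    · obtain ⟨s, hs, t, ht, hst, hm⟩ := (IntE_h hW (by omega : (x + 1) % 2 = 1) hy).2 ⟨h1, h2⟩
      rw [← hm] at hne
      exact hne (S_int hXd hX R hs ht hst hz')
    · obtain ⟨s, hs, t, ht, hst, hm⟩ := (IntE_h hW (by omega : (x - 1) % 2 = 1) hy).2 ⟨h3, h4⟩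
      rw [← hm] at hne
      exact hne (S_int hXd hX R hs ht hst hz')
    · obtain ⟨s, hs, t, ht, hst, hm⟩ := (IntE_v hW hx (by omega : (y + 1) % 2 = 1)).2 ⟨h1, h3⟩
      rw [← hm] at hne
      exact hne (S_int hXd hX R hs ht hst hz')
    · obtain ⟨s, hs, t, ht, hst, hm⟩ := (IntE_v hW hx (by omega : (y - 1) % 2 = 1)).2 ⟨h2, h4⟩
      rw [← hm] at hne
      exact hne (S_int hXd hX R hs ht hst hz')

include hS hXd hX R in
/-- (F5) no pinching -/
theorem no_pinch {x y σ : ℤ} (hx : x % 2 = 0) (hy : y % 2 = 0) (hσ : σ = 1 ∨ σ = -1)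
    (h1 : (x + σ, y + 1) ∈ W) (h3 : (x - σ, y - 1) ∈ W) (h2 : (x - σ, y + 1) ∉ W)
    (h4 : (x + σ, y - 1) ∉ W) : False := by
  have he := reg_even hXd R
  have n21 : nb (x - σ, y + 1) (x + σ, y + 1) := by
    rcases hσ with rfl | rfl
    · left; ext <;> simp only; ring
    · right; left; ext <;> simp only; ring
  have n23 : nb (x - σ, y + 1) (x - σ, y - 1) := by
    right; right; right; ext <;> simp only; ring
  have n34 : nb (x - σ, y - 1) (x + σ, y - 1) := by
    rcases hσ with rfl | rfl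
    · left; ext <;> simp only; ring
    · right; left; ext <;> simp only; ring
  have m21 : mid (x - σ, y + 1) (x + σ, y + 1) = (x, y + 1) := by
    unfold mid; ext <;> simp only <;> omega
  have m23 : mid (x - σ, y + 1) (x - σ, y - 1) = (x - σ, y) := by
    unfold mid; ext <;> simp only <;> omega
  have m34 : mid (x - σ, y - 1) (x + σ, y - 1) = (x, y - 1) := by
    unfold mid; ext <;> simp only <;> omega
  have sq2 : Sq (x - σ, y + 1) := by
    unfold Sq; rcases hσ with rfl | rfl <;> simp only <;> omega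
  have sq3 : Sq (x - σ, y - 1) := reg_sq hXd R _ h3
  let Y : Pt → ℤ → ZMod 2 := fun p z =>
    if p = (x - σ, y + 1) ∧ (z = h + 1 ∨ z = h - 1) then X p z + a else 0
  have hY2 : ∀ z, (z = h + 1 ∨ z = h - 1) → Y (x - σ, y + 1) z = X (x - σ, y + 1) z + a :=
    fun z hz => if_pos ⟨rfl, hz⟩
  have hY0 : ∀ p z, p ≠ (x - σ, y + 1) → Y p z = 0 := fun p z hp => if_neg (fun h' => hp h'.1)
  have hYn : ∀ p z, Y p z ≠ 0 → p = (x - σ, y + 1) ∧ (z = h + 1 ∨ z = h - 1) := by
    intro p z h'
    by_contra hcon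
    exact h' (if_neg hcon)
  classical
  let T : Pt → ℤ → ZMod 2 := fun p z => if Nr (x, y) h p z then bd Y p z else 0
  have hv : Vx (x, y) := ⟨hx, hy⟩
  have hTn : ∀ p z, Nr (x, y) h p z → T p z = bd Y p z := fun p z hn => if_pos hn
  have fl1 := R.fl _ h1
  have fl3 := R.fl _ h3
  have Xa : ∀ (t : Pt) (z : ℤ), t ∈ W → (z = h + 1 ∨ z = h - 1) → X t z = a := by
    intro t z ht hz
    rcases hz with rfl | rfl
    · exact (R.fl t ht).2
    · exact (R.fl t ht).1
  have hTle : ∀ p z, T p z ≠ 0 → S p z ≠ 0 := by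
    intro p z hT
    have hn : Nr (x, y) h p z := by
      by_contra hn
      exact hT (if_neg hn)
    rw [hTn p z hn] at hT
    have hz : z = h ∨ z = h + 1 ∨ z = h - 1 := by
      have := hn.2.2
      rw [abs_le] at this
      omega
    rcases hz with rfl | hz
    · rw [bd_even he] at hT
      have e0 : (fun q => Y q z) = fun _ => 0 := by
        funext q
        by_contra h'
        have := (hYn q z h').2
        omega
      rw [e0, bd2_zero, zero_add] at hT
      have hp : p = (x - σ, y + 1) := by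
        by_contra hp
        apply hT
        rw [hY0 p _ hp, hY0 p _ hp, add_zero]
      subst hp
      rw [hY2 _ (Or.inl rfl), hY2 _ (Or.inr rfl)] at hT
      rw [S_hor hX sq2 he]
      intro h0
      apply hT
      have := zmod2_self a
      linear_combination h0 + this
    · rw [bd_odd (by omega)] at hT
      have hed : Ed p := bd2_ed (a := fun q => Y q z) (fun q hq => by
        rw [(hYn q z hq).1]; exact sq2) hT
      -- the sides of `p`
      have key : ∀ s t, Sq s → Sq t → nb s t → mid s t = p → s = (x - σ, y + 1) → t ∈ W ∧ S p z ≠ 0 ∨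
          bd2 (fun q => Y q z) p = 0 ∨ False := by
        intro s t hs ht hst hm hse
        left
        subst hse
        have htW : t ∈ W := by
          obtain ⟨t1, t2⟩ := t
          have hn' := hn
          rw [← hm] at hn'
          unfold Nr mid at hn'
          simp only at hn'
          rw [abs_le, abs_le] at hn'
          unfold nb at hst
          simp only [Prod.mk.injEq] at hst
          have : (t1 = x + σ ∧ t2 = y + 1) ∨ (t1 = x - σ ∧ t2 = y - 1) := by
            rcases hσ with rfl | rfl <;> omega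
          rcases this with ⟨rfl, rfl⟩ | ⟨rfl, rfl⟩
          · exact h1
          · exact h3
        refine ⟨htW, ?_⟩
        intro h0
        apply hT
        have hb := (bd2_mid hs hst).2.2 (fun q => Y q z)
        rw [hm] at hb
        rw [hb]
        rw [hY2 z hz, hY0 t z (fun h' => h2 (h' ▸ htW)), add_zero]
        rw [← hm, S_ver hX hs hst (by omega), Xa t z htW hz] at h0
        exact h0
      obtain ⟨s, t, hs, ht, hst, hm, hb⟩ := sides hed
      by_cases hse : s = (x - σ, y + 1)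
      · rcases key s t hs ht hst hm hse with h' | h' | h'
        · exact h'.2
        · exact absurd h' hT
        · exact h'.elim
      · by_cases hte : t = (x - σ, y + 1)
        · rcases key t s ht hs hst.symm (by
            rw [← hm]; unfold mid; ext
            · simp only; rw [add_comm]
            · simp only; rw [add_comm]) hte with h' | h' | h'
          · exact h'.2
          · exact absurd h' hT
          · exact h'.elim
        · exfalso
          apply hT
          rw [hb]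
          rw [hY0 s z hse, hY0 t z hte, add_zero]
  have hcl : ∀ p z, D1 p z → Nr (x, y) h p z → bd T p z = 0 := by
    intro p z _ hn
    rw [bd_congr (B := bd Y) (fun q z' hc => hTn q z' (Nr_cf hv he hn hc)), bd_bd]
  have near : ∀ p1 p2 z, |p1 - x| ≤ 1 → |p2 - y| ≤ 1 → (z = h + 1 ∨ z = h - 1) →
      Nr (x, y) h (p1, p2) z := by
    intro p1 p2 z e1 e2 hz
    refine ⟨e1, e2, ?_⟩
    rw [abs_le]; omega
  rcases hS.m2 (x, y) h hv he T hTle hcl with hc | hc
  · -- `T = 0`: the square `s2` is flat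
    apply R.out _ h1 _ h2 n21.symm
    have : ∀ z, (z = h + 1 ∨ z = h - 1) → X (x - σ, y + 1) z = a := by
      intro z hz
      have e := hc (x, y + 1) z (near _ _ _ (by simp) (by simp) hz)
      rw [hTn _ _ (near _ _ _ (by simp) (by simp) hz), bd_odd (by omega), ← m21,
        (bd2_mid sq2 n21).2.2] at e
      rw [hY2 z hz, hY0 _ z (by
        intro h'; have := congrArg Prod.fst h'; simp only at this; omega), add_zero] at e
      exact zmod2_eq_of_add e
    exact ⟨this _ (Or.inr rfl), this _ (Or.inl rfl)⟩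
  · -- `T = S`: the square `s4` is flat
    apply R.out _ h3 _ h4 n34
    have : ∀ z, (z = h + 1 ∨ z = h - 1) → X (x + σ, y - 1) z = a := by
      intro z hz
      have e := hc (x, y - 1) z (near _ _ _ (by simp) (by simp) hz)
      rw [hTn _ _ (near _ _ _ (by simp) (by simp) hz), bd_odd (by omega), ← m34,
        (bd2_mid sq3 n34).2.2, S_ver hX sq3 n34 (by omega), Xa _ z h3 hz] at e
      rw [hY0 _ z (by
        intro h'; have := congrArg Prod.snd h'; simp only at this; omega), hY0 _ z (by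
        intro h'; have := congrArg Prod.snd h'; simp only at this; omega), add_zero] at e
      exact (zmod2_eq_of_add e.symm).symm
    exact ⟨this _ (Or.inr rfl), this _ (Or.inl rfl)⟩

end region

end Crest.Agent.R096.Lc_451
end

-- ▼ part R096/Lc7_451
section

/-!
# R096/Lc7_451 (helper451, row 96, P2-CUBE)

Cutting a cubical Sep-surface `S` along a flat region `W × {h}`: if `E ⊆ S` has boundary `∂W × {h}` then
`E ∪ W × {h}` is again a cubical Sep-surface.
-/

set_option autoImplicit false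

namespace Crest.Agent.R096.Lc_451

/-- the four cofaces of an edge -/
theorem four {p : Pt} {z : ℤ} (hD : D1 p z) : ∃ (q1 q2 q3 q4 : Pt) (z1 z2 z3 z4 : ℤ),
    (∀ A : Pt → ℤ → ZMod 2, bd A p z = A q1 z1 + A q2 z2 + (A q3 z3 + A q4 z4)) ∧
    ∀ q z', Cf p z q z' ↔ (q = q1 ∧ z' = z1) ∨ (q = q2 ∧ z' = z2) ∨ (q = q3 ∧ z' = z3) ∨
      (q = q4 ∧ z' = z4) := by
  rcases hD with ⟨hed, hz⟩ | ⟨hv, hz⟩
  · obtain ⟨s, t, hs, ht, hst, hm, hb, hcf⟩ := sides' hed
    refine ⟨s, t, p, p, z, z, z + 1, z - 1, ?_, ?_⟩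
    · intro A
      rw [bd_even hz, hb]
    · intro q z'
      rw [hcf z q z' hz]
      tauto
  · refine ⟨(p.1 + 1, p.2), (p.1 - 1, p.2), (p.1, p.2 + 1), (p.1, p.2 - 1), z, z, z, z, ?_, ?_⟩
    · intro A
      rw [bd_odd hz, bd2_vx hv]
    · intro q z'
      unfold Cf
      have h1 := hv.1
      have h2 := hv.2
      constructor
      · rintro (⟨_, h | h, h'⟩ | ⟨_, h | h, h'⟩ | ⟨h, _, _⟩)
        · exact Or.inl ⟨h, h'⟩
        · exact Or.inr (Or.inl ⟨h, h'⟩)
        · exact Or.inr (Or.inr (Or.inl ⟨h, h'⟩))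
        · exact Or.inr (Or.inr (Or.inr ⟨h, h'⟩))
        · omega
      · rintro (⟨h, h'⟩ | ⟨h, h'⟩ | ⟨h, h'⟩ | ⟨h, h'⟩)
        · exact Or.inl ⟨h1, Or.inl h, h'⟩
        · exact Or.inl ⟨h1, Or.inr h, h'⟩
        · exact Or.inr (Or.inl ⟨h2, Or.inl h, h'⟩)
        · exact Or.inr (Or.inl ⟨h2, Or.inr h, h'⟩)

set_option synthInstance.maxSize 2000 in
set_option synthInstance.maxHeartbeats 2000000 in
set_option maxRecDepth 20000 in
theorem zz : ∀ s1 s2 s3 s4 u1 u2 u3 u4 : ZMod 2, s1 + s2 + (s3 + s4) = 0 →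
    u1 + u2 + (u3 + u4) = 0 → (u1 ≠ 0 → s1 ≠ 0) → (u2 ≠ 0 → s2 ≠ 0) → (u3 ≠ 0 → s3 ≠ 0) →
    (u4 ≠ 0 → s4 ≠ 0) → (s1 = 0 ∨ s2 = 0 ∨ s3 = 0 ∨ s4 = 0) →
    (u1 = 0 ∧ u2 = 0 ∧ u3 = 0 ∧ u4 = 0) ∨ (u1 = s1 ∧ u2 = s2 ∧ u3 = s3 ∧ u4 = s4) := by
  decide

/-- at an edge where `U ⊆ S` has no boundary, `U` contains all or none of the squares of `S` -/
theorem edge_all_none {S U : Pt → ℤ → ZMod 2} (hS : Surf S) (hU : ∀ p z, U p z ≠ 0 → S p z ≠ 0)
    {p : Pt} {z : ℤ} (hD : D1 p z) (hb : bd U p z = 0) :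
    (∀ q z', Cf p z q z' → U q z' = 0) ∨ (∀ q z', Cf p z q z' → U q z' = S q z') := by
  obtain ⟨q1, q2, q3, q4, z1, z2, z3, z4, h4, hc⟩ := four hD
  have h1 := hS.cl p z hD
  rw [h4] at h1 hb
  obtain ⟨q0, z0, hc0, h0⟩ := hS.m1 p z hD
  have hz : S q1 z1 = 0 ∨ S q2 z2 = 0 ∨ S q3 z3 = 0 ∨ S q4 z4 = 0 := by
    rw [hc] at hc0
    rcases hc0 with ⟨e1, e2⟩ | ⟨e1, e2⟩ | ⟨e1, e2⟩ | ⟨e1, e2⟩
    · rw [e1, e2] at h0; exact Or.inl h0
    · rw [e1, e2] at h0; exact Or.inr (Or.inl h0)
    · rw [e1, e2] at h0; exact Or.inr (Or.inr (Or.inl h0))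
    · rw [e1, e2] at h0; exact Or.inr (Or.inr (Or.inr h0))
  rcases zz _ _ _ _ _ _ _ _ h1 hb (hU q1 z1) (hU q2 z2) (hU q3 z3) (hU q4 z4) hz with
    ⟨g1, g2, g3, g4⟩ | ⟨g1, g2, g3, g4⟩
  · left
    intro q z' hc'
    rw [hc] at hc'
    rcases hc' with ⟨e1, e2⟩ | ⟨e1, e2⟩ | ⟨e1, e2⟩ | ⟨e1, e2⟩ <;> rw [e1, e2] <;> assumption
  · right
    intro q z' hc'
    rw [hc] at hc'
    rcases hc' with ⟨e1, e2⟩ | ⟨e1, e2⟩ | ⟨e1, e2⟩ | ⟨e1, e2⟩ <;> rw [e1, e2] <;> assumption

theorem add_ne_left {a b : ZMod 2} (ha : a ≠ 0) (hb : b = 0) : a + b ≠ 0 := by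
  rw [hb, add_zero]; exact ha

theorem add_ne_right {a b : ZMod 2} (ha : a = 0) (hb : b ≠ 0) : a + b ≠ 0 := by
  rw [ha, zero_add]; exact hb

theorem or_of_add_ne {a b : ZMod 2} (h : a + b ≠ 0) : a ≠ 0 ∨ b ≠ 0 := by
  by_contra hcon
  push Not at hcon
  rw [hcon.1, hcon.2] at h
  exact h (by decide)

/-- `E ∪ W × {h}` -/
def glue (E : Pt → ℤ → ZMod 2) (W : Finset Pt) (h : ℤ) (p : Pt) (z : ℤ) : ZMod 2 :=
  E p z + layer W h p z

section half

variable {S X : Pt → ℤ → ZMod 2} (hS : Surf S)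
  (hXd : ∀ p z, X p z ≠ 0 → Sq p ∧ z % 2 = 1) (hX : ∀ p z, bd X p z = S p z)
  {h : ℤ} {a : ZMod 2} {W : Finset Pt} (R : Reg X h a W)
  {E : Pt → ℤ → ZMod 2} (hE : ∀ p z, E p z ≠ 0 → S p z ≠ 0)
  (hbE : ∀ p z, D1 p z → bd E p z = bd (layer W h) p z)

theorem glue_or {E : Pt → ℤ → ZMod 2} {W : Finset Pt} {h : ℤ} {p : Pt} {z : ℤ}
    (hne : glue E W h p z ≠ 0) : E p z ≠ 0 ∨ (z = h ∧ p ∈ W) := by
  rcases or_of_add_ne hne with h1 | h1
  · exact Or.inl h1
  · exact Or.inr (layer_ne h1)

include hXd hX R hE in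
theorem E_on_W {s : Pt} (hs : s ∈ W) : E s h = 0 := by
  by_contra h1
  exact hE s h h1 (S_on_W hXd hX R hs)

include hXd hX R hE in
theorem glue_of_W {s : Pt} (hs : s ∈ W) : glue E W h s h = 1 := by
  unfold glue layer
  rw [E_on_W hXd hX R hE hs, if_pos ⟨rfl, hs⟩, zero_add]

include hXd hX R hE in
theorem glue_of_E {p : Pt} {z : ℤ} (hp : E p z ≠ 0) : glue E W h p z ≠ 0 := by
  unfold glue
  apply add_ne_left hp
  by_contra h1
  obtain ⟨h2, h3⟩ := layer_ne h1
  rw [h2] at hp
  exact hp (E_on_W hXd hX R hE h3)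

include hS hXd R hE in
theorem glue_dim : ∀ p z, glue E W h p z ≠ 0 → D2 p z := by
  intro p z hne
  rcases glue_or hne with h1 | ⟨h1, h2⟩
  · exact hS.dim p z (hE p z h1)
  · rw [h1]
    exact Or.inl ⟨reg_sq hXd R p h2, reg_even hXd R⟩

include hbE in
theorem glue_cl : ∀ p z, D1 p z → bd (glue E W h) p z = 0 := by
  intro p z hD
  have : bd (glue E W h) p z = bd E p z + bd (layer W h) p z := bd_add _ _ p z
  rw [this, hbE p z hD, zmod2_self]

include hS hXd hX R hE in
theorem glue_m1 : ∀ p z, D1 p z → ∃ q z', Cf p z q z' ∧ glue E W h q z' = 0 := by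
  intro p z hD
  by_contra hcon
  push Not at hcon
  have he := reg_even hXd R
  obtain ⟨q0, z0, hc0, h0⟩ := hS.m1 p z hD
  have hE0 : E q0 z0 = 0 := by
    by_contra h1
    exact hE _ _ h1 h0
  rcases glue_or (hcon q0 z0 hc0) with h1 | ⟨h1, h2⟩
  · exact h1 hE0
  · subst h1
    have hqs := reg_sq hXd R q0 h2
    have hz : z = z0 ∧ Ed p := by
      unfold Cf at hc0
      unfold Sq at hqs
      rcases hc0 with ⟨h1, h2, h3⟩ | ⟨h1, h2, h3⟩ | ⟨h1, h2, h3⟩
      · refine ⟨h3.symm, Or.inl ⟨h1, ?_⟩⟩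
        rcases h2 with rfl | rfl
        · exact hqs.2
        · exact hqs.2
      · refine ⟨h3.symm, Or.inr ⟨?_, h1⟩⟩
        rcases h2 with rfl | rfl
        · exact hqs.1
        · exact hqs.1
      · omega
    obtain ⟨rfl, hed⟩ := hz
    obtain ⟨s, t, hs, ht, hst, hm, hb, hcf⟩ := sides' hed
    have hup : Cf p z p (z + 1) := (hcf _ _ _ he).2 (Or.inr ⟨rfl, Or.inl rfl⟩)
    have hdn : Cf p z p (z - 1) := (hcf _ _ _ he).2 (Or.inr ⟨rfl, Or.inr rfl⟩)
    have hcs : Cf p z s z := (hcf _ _ _ he).2 (Or.inl ⟨Or.inl rfl, rfl⟩)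
    have hct : Cf p z t z := (hcf _ _ _ he).2 (Or.inl ⟨Or.inr rfl, rfl⟩)
    have hS1 : ∀ w, (w = z + 1 ∨ w = z - 1) → S p w ≠ 0 := by
      intro w hw
      have hcw : Cf p z p w := by
        rcases hw with rfl | rfl
        · exact hup
        · exact hdn
      rcases glue_or (hcon p w hcw) with h3 | ⟨h3, _⟩
      · exact hE _ _ h3
      · omega
    have hu := hS1 _ (Or.inl rfl)
    have hd := hS1 _ (Or.inr rfl)
    obtain ⟨_, hc1⟩ := F3 hXd hX R hc0 h2 hup hu hD
    rw [hb] at hc1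
    have hcl := hS.cl p z hD
    rw [bd_even he, hb] at hcl
    rw [zmod2_ne_zero hu, zmod2_ne_zero hd] at hcl
    by_cases hsW : s ∈ W
    · have htW : t ∉ W := by
        intro htW
        rw [ind_mem hsW, ind_mem htW] at hc1
        exact absurd hc1 (by decide)
      rcases glue_or (hcon t z hct) with h3 | ⟨_, h3⟩
      · rw [S_on_W hXd hX R hsW, zmod2_ne_zero (hE _ _ h3)] at hcl
        exact absurd hcl (by decide)
      · exact htW h3
    · have htW : t ∈ W := by
        by_contra htW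
        rw [ind_not hsW, ind_not htW] at hc1
        exact absurd hc1 (by decide)
      rcases glue_or (hcon s z hcs) with h3 | ⟨_, h3⟩
      · rw [S_on_W hXd hX R htW, zmod2_ne_zero (hE _ _ h3)] at hcl
        exact absurd hcl (by decide)
      · exact hsW h3

include hXd hX R hE in
/-- `T ⊆ E ∪ W` closed at an interior edge of `W` is equal on both sides -/
theorem T_adj {T : Pt → ℤ → ZMod 2} (hT : ∀ p z, T p z ≠ 0 → glue E W h p z ≠ 0) {s t : Pt}
    (hs : s ∈ W) (ht : t ∈ W) (hst : nb s t) (hcl : bd T (mid s t) h = 0) : T s h + T t h = 0 := by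
  have he := reg_even hXd R
  have h0 : ∀ w, (w = h + 1 ∨ w = h - 1) → T (mid s t) w = 0 := by
    intro w hw
    by_contra h1
    rcases glue_or (hT _ _ h1) with h2 | ⟨h2, _⟩
    · exact hE _ _ h2 (S_int hXd hX R hs ht hst hw)
    · omega
  rw [bd_even he, (bd2_mid (reg_sq hXd R s hs) hst).2.2, h0 _ (Or.inl rfl), h0 _ (Or.inr rfl)] at hcl
  simp only [add_zero] at hcl
  exact hcl

include hS hXd hX R hE in
theorem T_const_near {T : Pt → ℤ → ZMod 2} (hT : ∀ p z, T p z ≠ 0 → glue E W h p z ≠ 0) {x y : ℤ}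
    (hx : x % 2 = 0) (hy : y % 2 = 0)
    (hcl : ∀ p z, D1 p z → Nr (x, y) h p z → bd T p z = 0) :
    (∀ s ∈ W, Nr (x, y) h s h → T s h = 0) ∨ (∀ s ∈ W, Nr (x, y) h s h → T s h = 1) := by
  have he := reg_even hXd R
  have hadj : ∀ s t, s ∈ W → t ∈ W → nb s t → Nr (x, y) h s h → Nr (x, y) h t h → T s h = T t h := by
    intro s t hs ht hst hns hnt
    apply zmod2_eq_of_add
    apply T_adj hXd hX R hE hT hs ht hst
    apply hcl
    · exact Or.inl ⟨(bd2_mid (reg_sq hXd R s hs) hst).1, he⟩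
    · unfold Nr mid at *
      simp only at *
      rw [abs_le, abs_le, abs_le] at *
      omega
  have n1 : Nr (x, y) h (x + 1, y + 1) h := by unfold Nr; simp
  have n2 : Nr (x, y) h (x - 1, y + 1) h := by unfold Nr; simp
  have n3 : Nr (x, y) h (x - 1, y - 1) h := by unfold Nr; simp
  have n4 : Nr (x, y) h (x + 1, y - 1) h := by unfold Nr; simp
  have a12 : nb (x + 1, y + 1) (x - 1, y + 1) := by right; left; ext <;> simp only; ring
  have a23 : nb (x - 1, y + 1) (x - 1, y - 1) := by right; right; right; ext <;> simp only; ring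
  have a34 : nb (x - 1, y - 1) (x + 1, y - 1) := by left; ext <;> simp only; ring
  have a41 : nb (x + 1, y - 1) (x + 1, y + 1) := by right; right; left; ext <;> simp only; ring
  have e12 : (x + 1, y + 1) ∈ W → (x - 1, y + 1) ∈ W → T (x + 1, y + 1) h = T (x - 1, y + 1) h :=
    fun u v => hadj _ _ u v a12 n1 n2
  have e23 : (x - 1, y + 1) ∈ W → (x - 1, y - 1) ∈ W → T (x - 1, y + 1) h = T (x - 1, y - 1) h :=
    fun u v => hadj _ _ u v a23 n2 n3
  have e34 : (x - 1, y - 1) ∈ W → (x + 1, y - 1) ∈ W → T (x - 1, y - 1) h = T (x + 1, y - 1) h :=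
    fun u v => hadj _ _ u v a34 n3 n4
  have e41 : (x + 1, y - 1) ∈ W → (x + 1, y + 1) ∈ W → T (x + 1, y - 1) h = T (x + 1, y + 1) h :=
    fun u v => hadj _ _ u v a41 n4 n1
  have d13 : (x + 1, y + 1) ∈ W → (x - 1, y - 1) ∈ W → T (x + 1, y + 1) h = T (x - 1, y - 1) h := by
    intro u v
    by_cases h2 : (x - 1, y + 1) ∈ W
    · exact (e12 u h2).trans (e23 h2 v)
    · by_cases h4 : (x + 1, y - 1) ∈ W
      · exact (e41 h4 u).symm.trans (e34 v h4).symm
      · exact (no_pinch hS hXd hX R hx hy (Or.inl rfl) u v h2 h4).elim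
  have d24 : (x - 1, y + 1) ∈ W → (x + 1, y - 1) ∈ W → T (x - 1, y + 1) h = T (x + 1, y - 1) h := by
    intro u v
    by_cases h3 : (x - 1, y - 1) ∈ W
    · exact (e23 u h3).trans (e34 h3 v)
    · by_cases h1 : (x + 1, y + 1) ∈ W
      · exact (e12 h1 u).symm.trans (e41 v h1).symm
      · exfalso
        refine no_pinch hS hXd hX R hx hy (σ := -1) (Or.inr rfl) ?_ ?_ ?_ ?_
        · exact u
        · rw [show x - -1 = x + 1 by ring]; exact v
        · rw [show x - -1 = x + 1 by ring]; exact h1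
        · exact h3
  have hall : ∀ s ∈ W, ∀ t ∈ W, Nr (x, y) h s h → Nr (x, y) h t h → T s h = T t h := by
    intro s hs t ht hns hnt
    rcases near_sq hx hy hns (reg_sq hXd R s hs) with rfl | rfl | rfl | rfl <;>
    rcases near_sq hx hy hnt (reg_sq hXd R t ht) with rfl | rfl | rfl | rfl <;>
    first
    | rfl
    | exact e12 hs ht
    | exact (e12 ht hs).symm
    | exact e23 hs ht
    | exact (e23 ht hs).symm
    | exact e34 hs ht
    | exact (e34 ht hs).symm
    | exact e41 hs ht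
    | exact (e41 ht hs).symm
    | exact d13 hs ht
    | exact (d13 ht hs).symm
    | exact d24 hs ht
    | exact (d24 ht hs).symm
  by_cases hex : ∃ s ∈ W, Nr (x, y) h s h ∧ T s h = 1
  · obtain ⟨s, hs, hns, h1⟩ := hex
    right
    intro t ht hnt
    rw [← hall s hs t ht hns hnt]
    exact h1
  · left
    intro s hs hns
    by_contra h1
    exact hex ⟨s, hs, hns, zmod2_ne_zero h1⟩

include hS hXd hX R hE hbE in
theorem T_zero_near {T : Pt → ℤ → ZMod 2} (hT : ∀ p z, T p z ≠ 0 → glue E W h p z ≠ 0) {x y : ℤ}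
    (hx : x % 2 = 0) (hy : y % 2 = 0)
    (hcl : ∀ p z, D1 p z → Nr (x, y) h p z → bd T p z = 0)
    (hT0 : ∀ s ∈ W, Nr (x, y) h s h → T s h = 0) {q0 : Pt} (hq0 : q0 ∈ W) (hn0 : Nr (x, y) h q0 h) :
    ∀ p z, Nr (x, y) h p z → T p z = 0 := by
  classical
  have he := reg_even hXd R
  have hv : Vx (x, y) := ⟨hx, hy⟩
  let T' : Pt → ℤ → ZMod 2 := fun p z => if Nr (x, y) h p z then T p z else 0
  have hT'n : ∀ p z, Nr (x, y) h p z → T' p z = T p z := fun p z hn => if_pos hn
  have hTE : ∀ p z, Nr (x, y) h p z → T p z ≠ 0 → E p z ≠ 0 := by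
    intro p z hn hne
    rcases glue_or (hT p z hne) with h1 | ⟨h1, h2⟩
    · exact h1
    · subst h1
      exact absurd (hT0 p h2 hn) hne
  have hle : ∀ p z, T' p z ≠ 0 → S p z ≠ 0 := by
    intro p z hne
    have hn : Nr (x, y) h p z := by
      by_contra hn
      exact hne (if_neg hn)
    rw [hT'n p z hn] at hne
    exact hE _ _ (hTE p z hn hne)
  have hcl' : ∀ p z, D1 p z → Nr (x, y) h p z → bd T' p z = 0 := by
    intro p z hD hn
    rw [bd_congr (B := T) (fun q z' hc => hT'n q z' (Nr_cf hv he hn hc))]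
    exact hcl p z hD hn
  rcases hS.m2 (x, y) h hv he T' hle hcl' with hc | hc
  · intro p z hn
    rw [← hT'n p z hn]
    exact hc p z hn
  · by_cases hon : OnC (bd2 (ind W)) (x, y)
    · exfalso
      obtain ⟨e, hne, hnr, hee⟩ : ∃ e : Pt, bd2 (ind W) e ≠ 0 ∧ Nr (x, y) h e h ∧ Ed e := by
        rcases hon.2 with h1 | h1 | h1 | h1
        · exact ⟨_, h1, by unfold Nr; simp, Or.inr ⟨by simp only; omega, hy⟩⟩
        · exact ⟨_, h1, by unfold Nr; simp, Or.inr ⟨by simp only; omega, hy⟩⟩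
        · exact ⟨_, h1, by unfold Nr; simp, Or.inl ⟨hx, by simp only; omega⟩⟩
        · exact ⟨_, h1, by unfold Nr; simp, Or.inl ⟨hx, by simp only; omega⟩⟩
      have hD : D1 e h := Or.inl ⟨hee, he⟩
      have hb : bd (fun p z => E p z + S p z) e h ≠ 0 := by
        rw [bd_add, hbE e h hD, hS.cl e h hD, bd_layer W he, if_pos rfl, add_zero]
        exact hne
      obtain ⟨q, z', hcf, hne'⟩ := exists_cf_of_bd hb
      have hnq := Nr_cf hv he hnr hcf
      have hSq : S q z' ≠ 0 := by
        intro h1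
        apply hne'
        have : E q z' = 0 := by
          by_contra h2
          exact hE _ _ h2 h1
        show E q z' + S q z' = 0
        rw [h1, this, add_zero]
      have hEq : E q z' = 0 := by
        by_contra h2
        apply hne'
        show E q z' + S q z' = 0
        rw [zmod2_ne_zero h2, zmod2_ne_zero hSq]
        decide
      have h3 := hc q z' hnq
      rw [hT'n q z' hnq] at h3
      exact hTE q z' hnq (by rw [h3]; exact hSq) hEq
    · obtain ⟨_, hS0⟩ := F4 hS hXd hX R hx hy hon hq0 hn0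
      intro p z hn
      rw [← hT'n p z hn, hc p z hn]
      exact hS0 p z hn

include hS hXd hX R hE hbE in
theorem glue_m2 : ∀ v z, Vx v → z % 2 = 0 → ∀ T : Pt → ℤ → ZMod 2,
    (∀ p z', T p z' ≠ 0 → glue E W h p z' ≠ 0) →
    (∀ p z', D1 p z' → Nr v z p z' → bd T p z' = 0) →
    (∀ p z', Nr v z p z' → T p z' = 0) ∨ (∀ p z', Nr v z p z' → T p z' = glue E W h p z') := by
  rintro ⟨x, y⟩ z hv hz T hT hcl
  classical
  have he := reg_even hXd R
  obtain ⟨hx, hy⟩ := hv
  simp only at hx hy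
  have hv : Vx (x, y) := ⟨hx, hy⟩
  by_cases hex : ∃ q ∈ W, Nr (x, y) z q h
  · obtain ⟨q0, hq0, hn0⟩ := hex
    have hzh : z = h := by
      have := hn0.2.2
      rw [abs_le] at this
      omega
    subst hzh
    rcases T_const_near hS hXd hX R hE hT hx hy hcl with hk | hk
    · left
      exact T_zero_near hS hXd hX R hE hbE hT hx hy hcl hk hq0 hn0
    · right
      have hgoal := T_zero_near hS hXd hX R hE hbE (T := fun p w => T p w + glue E W z p w) (by
        intro p w hne
        by_contra h1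
        apply hne
        have : T p w = 0 := by
          by_contra h2
          exact hT p w h2 h1
        show T p w + glue E W z p w = 0
        rw [this, h1, add_zero]) hx hy (by
        intro p w hD hn
        rw [bd_add, hcl p w hD hn, glue_cl hbE p w hD, add_zero]) (by
        intro s hs hn
        show T s z + glue E W z s z = 0
        rw [hk s hs hn, glue_of_W hXd hX R hE hs]
        decide) hq0 hn0
      intro p w hn
      exact zmod2_eq_of_add (hgoal p w hn)
  · have hlay : ∀ p w, Nr (x, y) z p w → glue E W h p w = E p w := by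
      intro p w hn
      unfold glue
      have : layer W h p w = 0 := by
        by_contra h1
        obtain ⟨h2, h3⟩ := layer_ne h1
        subst h2
        exact hex ⟨p, h3, hn⟩
      rw [this, add_zero]
    let T' : Pt → ℤ → ZMod 2 := fun p w => if Nr (x, y) z p w then T p w else 0
    have hT'n : ∀ p w, Nr (x, y) z p w → T' p w = T p w := fun p w hn => if_pos hn
    have hTE : ∀ p w, Nr (x, y) z p w → T p w ≠ 0 → E p w ≠ 0 := by
      intro p w hn hne
      rw [← hlay p w hn]
      exact hT p w hne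
    have hle : ∀ p w, T' p w ≠ 0 → S p w ≠ 0 := by
      intro p w hne
      have hn : Nr (x, y) z p w := by
        by_contra hn
        exact hne (if_neg hn)
      rw [hT'n p w hn] at hne
      exact hE _ _ (hTE p w hn hne)
    rcases hS.m2 (x, y) z hv hz T' hle (by
      intro p w hD hn
      rw [bd_congr (B := T) (fun q z' hc => hT'n q z' (Nr_cf hv hz hn hc))]
      exact hcl p w hD hn) with hc | hc
    · left
      intro p w hn
      rw [← hT'n p w hn]
      exact hc p w hn
    · right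
      intro p w hn
      rw [hlay p w hn]
      have h1 := hc p w hn
      rw [hT'n p w hn] at h1
      by_cases h2 : S p w = 0
      · rw [h1, h2]
        by_contra h3
        exact hE p w (fun h4 => h3 h4.symm) h2
      · have h3 : T p w ≠ 0 := by rw [h1]; exact h2
        rw [zmod2_ne_zero h3, zmod2_ne_zero (hTE p w hn h3)]

include hXd R in
theorem c_ne : ∃ p, Ed p ∧ bd2 (ind W) p = 1 := by
  obtain ⟨s, hs, t, ht, hst⟩ := exists_out R.ne
  exact ⟨mid s t, (bd2_mid (reg_sq hXd R s hs) hst).1, c_mid hXd R hs ht hst⟩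

include hS hXd hX R hE hbE in
theorem glue_conn : ∀ T : Pt → ℤ → ZMod 2, (∀ p z, T p z ≠ 0 → glue E W h p z ≠ 0) →
    (∀ p z, D1 p z → bd T p z = 0) → (∀ p z, T p z = 0) ∨ (∀ p z, T p z = glue E W h p z) := by
  have he := reg_even hXd R
  -- case `T = 0` on `W`
  have key : ∀ T : Pt → ℤ → ZMod 2, (∀ p z, T p z ≠ 0 → glue E W h p z ≠ 0) →
      (∀ p z, D1 p z → bd T p z = 0) → (∀ s ∈ W, T s h = 0) → ∀ p z, T p z = 0 := by
    intro T hT hcl hT0
    have hTE : ∀ p z, T p z ≠ 0 → E p z ≠ 0 := by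
      intro p z hne
      rcases glue_or (hT p z hne) with h1 | ⟨h1, h2⟩
      · exact h1
      · subst h1
        exact absurd (hT0 p h2) hne
    rcases hS.conn T (fun p z hne => hE _ _ (hTE p z hne)) hcl with hc | hc
    · exact hc
    · exfalso
      obtain ⟨p, hed, hp⟩ := c_ne hXd R
      have hD : D1 p h := Or.inl ⟨hed, he⟩
      have h1 := hbE p h hD
      rw [bd_layer W he, if_pos rfl, hp] at h1
      have h2 : bd E p h = bd S p h := by
        apply bd_congr
        intro q z' _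
        by_cases h3 : S q z' = 0
        · rw [h3]
          by_contra h4
          exact hE _ _ h4 h3
        · have h5 : T q z' ≠ 0 := by rw [hc]; exact h3
          rw [zmod2_ne_zero h3, zmod2_ne_zero (hTE _ _ h5)]
      rw [h2, hS.cl p h hD] at h1
      exact absurd h1 (by decide)
  intro T hT hcl
  rcases const_inside R.con (g := fun s => T s h) (by
    intro s t hs ht hst
    exact T_adj hXd hX R hE hT hs ht hst
      (hcl _ _ (Or.inl ⟨(bd2_mid (reg_sq hXd R s hs) hst).1, he⟩))) with hk | hk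
  · left
    exact key T hT hcl hk
  · right
    have := key (fun p z => T p z + glue E W h p z) (by
      intro p w hne
      by_contra h1
      apply hne
      have : T p w = 0 := by
        by_contra h2
        exact hT p w h2 h1
      show T p w + glue E W h p w = 0
      rw [this, h1, add_zero]) (by
      intro p w hD
      rw [bd_add, hcl p w hD, glue_cl hbE p w hD, add_zero]) (by
      intro s hs
      show T s h + glue E W h s h = 0
      rw [hk s hs, glue_of_W hXd hX R hE hs]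
      decide)
    intro p z
    exact zmod2_eq_of_add (this p z)

end half

end Crest.Agent.R096.Lc_451
end

-- ▼ part R096/Lc8_451
section

/-!
# R096/Lc8_451 (helper451, row 96, P2-CUBE)

Cutting a cubical Sep-surface along a flat region: the separation property of the two parts, and the
theorem `surf_glue`: both parts, closed by the disc, are cubical Sep-surfaces.
-/

set_option autoImplicit false

namespace Crest.Agent.R096.Lc_451

/-- a flat plane chain -/
def flat (F : Pt → ZMod 2) (h : ℤ) (p : Pt) (z : ℤ) : ZMod 2 := if z = h then F p else 0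

theorem bd_flat (F : Pt → ZMod 2) {h : ℤ} (hh : h % 2 = 0) (p : Pt) (z : ℤ) (hD : D1 p z) (hF : ∀ q, F q ≠ 0 → Sq q) :
    bd (flat F h) p z = if z = h then bd2 F p else 0 := by
  by_cases hz : z = h
  · subst hz
    rw [bd_even hh, if_pos rfl]
    have e : (fun q => flat F z q z) = F := by
      funext q
      exact if_pos rfl
    rw [e]
    unfold flat
    rw [if_neg (by omega), if_neg (by omega)]
    simp
  · rw [if_neg hz]
    by_contra hne
    obtain ⟨q, z', hc, h1⟩ := exists_cf_of_bd hne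
    have h2 : z' = h ∧ F q ≠ 0 := by
      unfold flat at h1
      by_cases h3 : z' = h
      · rw [if_pos h3] at h1; exact ⟨h3, h1⟩
      · rw [if_neg h3] at h1; exact absurd rfl h1
    have hq := hF q h2.2
    rcases hc with ⟨_, _, h4⟩ | ⟨_, _, h4⟩ | ⟨h4, h5, h6⟩
    · omega
    · omega
    · subst h5
      rcases hD with ⟨h7, h8⟩ | ⟨h7, h8⟩
      · unfold Ed at h7
        unfold Sq at hq
        omega
      · omega

section half

variable {S X : Pt → ℤ → ZMod 2} (hS : Surf S)
  (hXd : ∀ p z, X p z ≠ 0 → Sq p ∧ z % 2 = 1) (hX : ∀ p z, bd X p z = S p z)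
  {h : ℤ} {a : ZMod 2} {W : Finset Pt} (R : Reg X h a W)
  {E : Pt → ℤ → ZMod 2} (hE : ∀ p z, E p z ≠ 0 → S p z ≠ 0)
  (hbE : ∀ p z, D1 p z → bd E p z = bd (layer W h) p z)

include hS hXd hX R hE hbE in
theorem glue_sep : ∀ γ : Pt → ℤ → ZMod 2,
    (∀ p z, γ p z ≠ 0 → D1 p z ∧ ∃ q z', Cf p z q z' ∧ glue E W h q z' ≠ 0) →
    (∀ p z, Vx p → z % 2 = 0 → bd γ p z = 0) →
    ∃ F : Pt → ℤ → ZMod 2, (∀ p z, F p z ≠ 0 → glue E W h p z ≠ 0) ∧
      ∀ p z, D1 p z → bd F p z = γ p z := by
  intro γ hγ hγc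
  classical
  have he := reg_even hXd R
  have hW := reg_sq hXd R
  -- `γ` is finite
  have hSf := hS.fin
  have hgf : {q : Pt × ℤ | glue E W h q.1 q.2 ≠ 0}.Finite := by
    refine (hSf.union (layer_finite W h)).subset ?_
    intro q hq
    rcases glue_or hq with h1 | ⟨h1, h2⟩
    · exact Or.inl (hE _ _ h1)
    · right
      show layer W h q.1 q.2 ≠ 0
      unfold layer
      rw [if_pos ⟨h1, h2⟩]
      decide
  obtain ⟨N, hN0, hN⟩ := exists_Bd3 hgf
  have hγfin : {p | γ p h ≠ 0}.Finite := by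
    apply Bd.finite (N := N + 1)
    intro p hp
    obtain ⟨_, q, z', hc, hg⟩ := hγ p h hp
    have h1 := hN q z' hg
    rcases hc with ⟨_, h2, _⟩ | ⟨_, h2, _⟩ | ⟨_, h2, _⟩
    · rcases h2 with rfl | rfl
      · simp only at h1
        rw [abs_le] at h1 ⊢
        rw [abs_le] at h1 ⊢
        omega
      · simp only at h1
        rw [abs_le] at h1 ⊢
        rw [abs_le] at h1 ⊢
        omega
    · rcases h2 with rfl | rfl
      · simp only at h1
        rw [abs_le] at h1 ⊢
        rw [abs_le] at h1 ⊢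
        omega
      · simp only at h1
        rw [abs_le] at h1 ⊢
        rw [abs_le] at h1 ⊢
        omega
    · subst h2
      rw [abs_le] at h1 ⊢
      rw [abs_le] at h1 ⊢
      omega
  obtain ⟨F0, hF0W, hF0⟩ := stepA hW R.con R.hf (γ := fun p => γ p h) hγfin (by
    intro p hp
    rcases (hγ p h hp).1 with h1 | h1
    · exact h1.1
    · have := h1.2; omega) (by
    intro x y hx hy h1 h2 h3 h4
    have h5 := hγc (x, y) h ⟨hx, hy⟩ he
    rw [bd_even he] at h5
    have h6 : ∀ w, (w = h + 1 ∨ w = h - 1) → γ (x, y) w = 0 := by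
      intro w hw
      by_contra hne
      obtain ⟨_, q, z', hc, hg⟩ := hγ _ _ hne
      have hz' : z' = w ∧ (q = (x + 1, y) ∨ q = (x - 1, y) ∨ q = (x, y + 1) ∨ q = (x, y - 1)) := by
        rcases hc with ⟨_, h7 | h7, h8⟩ | ⟨_, h7 | h7, h8⟩ | ⟨h7, _, _⟩
        · exact ⟨h8, Or.inl h7⟩
        · exact ⟨h8, Or.inr (Or.inl h7)⟩
        · exact ⟨h8, Or.inr (Or.inr (Or.inl h7))⟩
        · exact ⟨h8, Or.inr (Or.inr (Or.inr h7))⟩
        · omega
      obtain ⟨rfl, hq⟩ := hz'
      rcases glue_or hg with h7 | ⟨h7, _⟩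
      · have hSq := hE _ _ h7
        rcases hq with rfl | rfl | rfl | rfl
        · obtain ⟨s, hs, t, ht, hst, hm⟩ := (IntE_h hW (by omega : (x + 1) % 2 = 1) hy).2 ⟨h1, h2⟩
          rw [← hm] at hSq
          exact hSq (S_int hXd hX R hs ht hst hw)
        · obtain ⟨s, hs, t, ht, hst, hm⟩ := (IntE_h hW (by omega : (x - 1) % 2 = 1) hy).2 ⟨h3, h4⟩
          rw [← hm] at hSq
          exact hSq (S_int hXd hX R hs ht hst hw)
        · obtain ⟨s, hs, t, ht, hst, hm⟩ := (IntE_v hW hx (by omega : (y + 1) % 2 = 1)).2 ⟨h1, h3⟩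
          rw [← hm] at hSq
          exact hSq (S_int hXd hX R hs ht hst hw)
        · obtain ⟨s, hs, t, ht, hst, hm⟩ := (IntE_v hW hx (by omega : (y - 1) % 2 = 1)).2 ⟨h2, h4⟩
          rw [← hm] at hSq
          exact hSq (S_int hXd hX R hs ht hst hw)
      · omega
    rw [h6 _ (Or.inl rfl), h6 _ (Or.inr rfl), add_zero, add_zero] at h5
    exact h5)
  have hF0sq : ∀ q, F0 q ≠ 0 → Sq q := fun q hq => hW q (hF0W q hq)
  let FD := flat F0 h
  have hFD : ∀ p z, FD p z ≠ 0 → z = h ∧ p ∈ W := by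
    intro p z hne
    by_cases h1 : z = h
    · refine ⟨h1, hF0W p ?_⟩
      have : FD p z = F0 p := if_pos h1
      rw [this] at hne
      exact hne
    · exact absurd (if_neg h1) hne
  let γ1 : Pt → ℤ → ZMod 2 := fun p z => γ p z + bd FD p z
  -- `γ1` vanishes at an edge without coface in `E`
  have hγ1 : ∀ p z, D1 p z → (∀ q z', Cf p z q z' → E q z' = 0) → ¬ (z = h ∧ bd2 (ind W) p ≠ 0) →
      γ1 p z = 0 := by
    intro p z hD hE0 hnc
    show γ p z + bd FD p z = 0
    by_cases hex : ∃ q z', Cf p z q z' ∧ glue E W h q z' ≠ 0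
    · obtain ⟨q, z', hc, hg⟩ := hex
      rcases glue_or hg with h1 | ⟨h1, h2⟩
      · exact absurd (hE0 q z' hc) h1
      · subst h1
        have hqs := hW q h2
        have hz : z = z' ∧ Ed p := by
          unfold Cf at hc
          unfold Sq at hqs
          rcases hc with ⟨h1, h2, h3⟩ | ⟨h1, h2, h3⟩ | ⟨h1, h2, h3⟩
          · refine ⟨h3.symm, Or.inl ⟨h1, ?_⟩⟩
            rcases h2 with rfl | rfl
            · exact hqs.2
            · exact hqs.2
          · refine ⟨h3.symm, Or.inr ⟨?_, h1⟩⟩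
            rcases h2 with rfl | rfl
            · exact hqs.1
            · exact hqs.1
          · omega
        obtain ⟨rfl, hed⟩ := hz
        obtain ⟨s, t, hs, ht, hst, hm, hb, hcf⟩ := sides' hed
        have hnc' : ¬ bd2 (ind W) p ≠ 0 := fun h3 => hnc ⟨rfl, h3⟩
        rw [not_not, hb] at hnc'
        have hboth : s ∈ W ∧ t ∈ W := by
          rw [hcf _ _ _ he] at hc
          rcases hc with ⟨h1 | h1, _⟩ | ⟨_, h1⟩
          · subst h1
            refine ⟨h2, ?_⟩
            by_contra h3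
            rw [ind_mem h2, ind_not h3] at hnc'
            exact absurd hnc' (by decide)
          · subst h1
            refine ⟨?_, h2⟩
            by_contra h3
            rw [ind_mem h2, ind_not h3] at hnc'
            exact absurd hnc' (by decide)
          · omega
        have h5 : bd FD p z = F0 s + F0 t := by
          rw [show bd FD p z = bd (flat F0 z) p z from rfl, bd_flat F0 he p z hD hF0sq, if_pos rfl, hb]
        rw [h5, hF0 s t hboth.1 hboth.2 hst, hm]
        exact zmod2_self _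
    · have h1 : γ p z = 0 := by
        by_contra h1
        exact hex (hγ p z h1).2
      have h2 : bd FD p z = 0 := by
        by_contra h2
        obtain ⟨q, z', hc, h3⟩ := exists_cf_of_bd h2
        obtain ⟨h4, h5⟩ := hFD q z' h3
        subst h4
        apply hex
        refine ⟨q, z', hc, ?_⟩
        rw [glue_of_W hXd hX R hE h5]
        decide
      rw [h1, h2, add_zero]
  obtain ⟨F', hF'S, hF'⟩ := hS.sep γ1 (by
    intro p z hne
    have hD : D1 p z := by
      rcases or_of_add_ne (show γ p z + bd FD p z ≠ 0 from hne) with h1 | h1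
      · exact (hγ p z h1).1
      · apply bd_dim (A := FD) _ h1
        intro q w hq
        obtain ⟨h2, h3⟩ := hFD q w hq
        rw [h2]
        exact Or.inl ⟨hW q h3, he⟩
    refine ⟨hD, ?_⟩
    by_cases hc : z = h ∧ bd2 (ind W) p ≠ 0
    · obtain ⟨hz, hc⟩ := hc
      subst hz
      obtain ⟨s, t, hs, ht, hst, hm⟩ := c_sides hW hc
      obtain ⟨w, hw, hSw⟩ := S_bdry hXd hX R hs ht hst
      rw [hm] at hSw
      exact ⟨p, w, Or.inr (Or.inr ⟨he, rfl, hw⟩), hSw⟩
    · by_contra hcon
      push Not at hcon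
      apply hne
      apply hγ1 p z hD _ hc
      intro q z' hcf
      by_contra h1
      exact hE _ _ h1 (hcon q z' hcf)) (by
    intro p z hp hz
    show bd (fun p z => γ p z + bd FD p z) p z = 0
    rw [bd_add γ (bd FD), hγc p z hp hz, bd_bd, add_zero])
  let F1 : Pt → ℤ → ZMod 2 := fun p z => if E p z ≠ 0 then F' p z else 0
  let F2 : Pt → ℤ → ZMod 2 := fun p z => if E p z ≠ 0 then 0 else F' p z
  have hF12 : ∀ p z, F' p z = F1 p z + F2 p z := by
    intro p z
    by_cases h1 : E p z ≠ 0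
    · simp only [F1, F2, if_pos h1, add_zero]
    · simp only [F1, F2, if_neg h1, zero_add]
  have hbF12 : ∀ p z, bd F' p z = bd F1 p z + bd F2 p z := by
    intro p z
    rw [← bd_add]
    exact bd_congr (fun q z' _ => hF12 q z')
  -- `∂F2` is contained in the curve
  have hF2c : ∀ p z, D1 p z → ¬ (z = h ∧ bd2 (ind W) p ≠ 0) → bd F2 p z = 0 := by
    intro p z hD hnc
    have hbE0 : bd E p z = 0 := by
      rw [hbE p z hD, bd_layer W he]
      split_ifs with h1
      · by_contra h2
        exact hnc ⟨h1, h2⟩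
      · rfl
    rcases edge_all_none hS hE hD hbE0 with hall | hall
    · have h1 : bd F2 p z = bd F' p z := by
        apply bd_congr
        intro q z' hc
        have h2 : ¬ E q z' ≠ 0 := by rw [not_not]; exact hall q z' hc
        exact if_neg h2
      rw [h1, hF' p z hD]
      exact hγ1 p z hD hall hnc
    · rw [bd_congr (B := fun _ _ => 0), bd_zero]
      intro q z' hc
      by_cases h2 : E q z' ≠ 0
      · exact if_pos h2
      · have h3 : F' q z' = 0 := by
          by_contra h3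
          have h4 := hF'S _ _ h3
          rw [← hall q z' hc] at h4
          exact h2 h4
        show (if E q z' ≠ 0 then 0 else F' q z') = 0
        rw [if_neg h2]
        exact h3
  -- irreducibility
  let c2 : Pt → ZMod 2 := fun p => if bd2 (ind W) p ≠ 0 then bd F2 p h else 0
  have hedc : ∀ p, bd2 (ind W) p ≠ 0 → Ed p := fun p hp => bd2_ed (fun p hp => hW p (ind_ne hp)) hp
  have hc2 : ∀ p, Ed p → c2 p = bd F2 p h := by
    intro p hp
    by_cases h1 : bd2 (ind W) p ≠ 0
    · exact if_pos h1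
    · rw [show c2 p = 0 from if_neg h1, hF2c p h (Or.inl ⟨hp, he⟩) (fun h2 => h1 h2.2)]
  have hirr := irred hW R.con R.hf (c2 := c2) (by
    intro p hp h1
    apply hp
    exact if_neg (fun h2 => h2 h1)) (by
    rintro ⟨x, y⟩ ⟨hx, hy⟩
    simp only at hx hy
    have h1 := bd_bd F2 (x, y) h
    rw [bd_even he, hF2c (x, y) (h + 1) (Or.inr ⟨⟨hx, hy⟩, by omega⟩) (by omega),
      hF2c (x, y) (h - 1) (Or.inr ⟨⟨hx, hy⟩, by omega⟩) (by omega), add_zero, add_zero,
      bd2_vx ⟨hx, hy⟩] at h1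
    rw [bd2_vx ⟨hx, hy⟩]
    simp only at h1 ⊢
    rw [hc2 _ (Or.inr ⟨by simp only; omega, hy⟩), hc2 _ (Or.inr ⟨by simp only; omega, hy⟩),
      hc2 _ (Or.inl ⟨hx, by simp only; omega⟩), hc2 _ (Or.inl ⟨hx, by simp only; omega⟩)]
    exact h1)
  have hF1g : ∀ p z, F1 p z ≠ 0 → glue E W h p z ≠ 0 := by
    intro p z hne
    have h1 : E p z ≠ 0 := by
      by_contra h1
      exact hne (if_neg (fun h2 => h2 h1))
    exact glue_of_E hXd hX R hE h1
  have hFDg : ∀ p z, FD p z ≠ 0 → glue E W h p z ≠ 0 := by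
    intro p z hne
    obtain ⟨h1, h2⟩ := hFD p z hne
    subst h1
    rw [glue_of_W hXd hX R hE h2]
    decide
  rcases hirr with h1 | h1
  · -- `∂F2 = 0`
    have h2 : ∀ p z, D1 p z → bd F2 p z = 0 := by
      intro p z hD
      by_cases hc : z = h ∧ bd2 (ind W) p ≠ 0
      · rw [hc.1, ← hc2 p (hedc p hc.2)]
        exact h1 p
      · exact hF2c p z hD hc
    refine ⟨fun p z => F1 p z + FD p z, ?_, ?_⟩
    · intro p z hne
      rcases or_of_add_ne hne with h3 | h3
      · exact hF1g p z h3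
      · exact hFDg p z h3
    · intro p z hD
      have h3 := hF' p z hD
      rw [hbF12, h2 p z hD, add_zero] at h3
      rw [bd_add, h3]
      show γ p z + bd FD p z + bd FD p z = γ p z
      rw [add_assoc, zmod2_self, add_zero]
  · have h2 : ∀ p z, D1 p z → bd F2 p z = bd (layer W h) p z := by
      intro p z hD
      rw [bd_layer W he]
      by_cases hc : z = h ∧ bd2 (ind W) p ≠ 0
      · rw [hc.1, if_pos rfl, ← hc2 p (hedc p hc.2)]
        exact h1 p
      · rw [hF2c p z hD hc]
        split_ifs with h3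
        · by_contra h4
          exact hc ⟨h3, fun h5 => h4 h5.symm⟩
        · rfl
    refine ⟨fun p z => (F1 p z + FD p z) + layer W h p z, ?_, ?_⟩
    · intro p z hne
      rcases or_of_add_ne hne with h3 | h3
      · rcases or_of_add_ne h3 with h3 | h3
        · exact hF1g p z h3
        · exact hFDg p z h3
      · obtain ⟨h4, h5⟩ := layer_ne h3
        subst h4
        rw [glue_of_W hXd hX R hE h5]
        decide
    · intro p z hD
      have h3 := hF' p z hD
      rw [hbF12, h2 p z hD] at h3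
      have e : bd (fun p z => (F1 p z + FD p z) + layer W h p z) p z
          = bd F1 p z + bd FD p z + bd (layer W h) p z := by
        rw [bd_add (fun p z => F1 p z + FD p z) (layer W h), bd_add F1 FD]
      rw [e]
      have h4 : bd F1 p z + bd (layer W h) p z = γ p z + bd FD p z := h3
      have h5 := zmod2_self (bd FD p z)
      linear_combination h4 + h5

include hS hXd hX R hE hbE in
/-- **the cut parts are cubical Sep-surfaces** -/
theorem surf_glue : Surf (glue E W h) where
  fin := by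
    refine (hS.fin.union (layer_finite W h)).subset ?_
    intro q hq
    rcases glue_or hq with h1 | ⟨h1, h2⟩
    · exact Or.inl (hE _ _ h1)
    · right
      show layer W h q.1 q.2 ≠ 0
      unfold layer
      rw [if_pos ⟨h1, h2⟩]
      decide
  dim := glue_dim hS hXd R hE
  cl := glue_cl hbE
  ne := by
    obtain ⟨s, hs⟩ := R.ne
    refine ⟨s, h, ?_⟩
    rw [glue_of_W hXd hX R hE hs]
    decide
  m1 := glue_m1 hS hXd hX R hE
  m2 := glue_m2 hS hXd hX R hE hbE
  conn := glue_conn hS hXd hX R hE hbE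
  sep := glue_sep hS hXd hX R hE hbE

end half

end Crest.Agent.R096.Lc_451
end

-- ▼ part R096/Lc9_451

/-!
# R096/Lc9_451 (helper451, row 96, P2-CUBE)

**The induction**: every property of cubical Sep-surfaces which holds for cans (boundaries of one layer
over a connected hole-free set of squares) and is inherited by `E₁ ∪ E₂` from `E₁ ∪ D`, `E₂ ∪ D` for
flat discs `D = W × {h}`, holds for every cubical Sep-surface.
-/

set_option autoImplicit false

namespace Crest.Agent.R096.Lc_451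

/-- all the data of a cut of the surface `E1 + E2` along the flat disc `W × {h}` -/
structure CutData (E1 E2 : Pt → ℤ → ZMod 2) (W : Finset Pt) (h : ℤ) : Prop where
  even : h % 2 = 0
  ne : W.Nonempty
  sq : ∀ s ∈ W, Sq s
  con : Con W
  hf : HF W
  surf : Surf (fun p z => E1 p z + E2 p z)
  surf1 : Surf (glue E1 W h)
  surf2 : Surf (glue E2 W h)
  dim1 : ∀ p z, E1 p z ≠ 0 → D2 p z
  dim2 : ∀ p z, E2 p z ≠ 0 → D2 p z
  disj : ∀ p z, E1 p z = 0 ∨ E2 p z = 0
  disjD : ∀ s ∈ W, E1 s h = 0 ∧ E2 s h = 0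
  bd1 : ∀ p z, D1 p z → bd E1 p z = bd (layer W h) p z
  bd2 : ∀ p z, D1 p z → bd E2 p z = bd (layer W h) p z
  /-- an edge common to `E1` and `E2` lies on the curve -/
  edge12 : ∀ p z, D1 p z → (∃ q z', Cf p z q z' ∧ E1 q z' ≠ 0) → (∃ q z', Cf p z q z' ∧ E2 q z' ≠ 0) →
    z = h ∧ Lc_451.bd2 (ind W) p ≠ 0
  /-- an edge common to the disc and `E1` or `E2` lies on the curve -/
  edgeD : ∀ p z, D1 p z → (∃ q, Cf p z q h ∧ q ∈ W) →
    (∃ q z', Cf p z q z' ∧ (E1 q z' ≠ 0 ∨ E2 q z' ≠ 0)) → z = h ∧ Lc_451.bd2 (ind W) p ≠ 0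
  /-- a vertex common to `E1` and `E2` lies on the curve -/
  vert12 : ∀ v z, Vx v → z % 2 = 0 → (∃ p z', Nr v z p z' ∧ E1 p z' ≠ 0) →
    (∃ p z', Nr v z p z' ∧ E2 p z' ≠ 0) → z = h ∧ OnC (Lc_451.bd2 (ind W)) v
  /-- a vertex common to the disc and `E1` or `E2` lies on the curve -/
  vertD : ∀ v z, Vx v → z % 2 = 0 → (∃ p ∈ W, Nr v z p h) →
    (∃ p z', Nr v z p z' ∧ (E1 p z' ≠ 0 ∨ E2 p z' ≠ 0)) → z = h ∧ OnC (Lc_451.bd2 (ind W)) v

/-- the vertical squares -/
def vert (A : Pt → ℤ → ZMod 2) : Set (Pt × ℤ) := {q | A q.1 q.2 ≠ 0 ∧ q.2 % 2 = 1}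

theorem vert_ne {A : Pt → ℤ → ZMod 2} (hA : Surf A) : ∃ p z, A p z ≠ 0 ∧ z % 2 = 1 := by
  by_contra hcon
  push Not at hcon
  obtain ⟨p, z, hne⟩ := hA.ne
  have h0 : ∀ q w, w % 2 = 1 → A q w = 0 := by
    intro q w hw
    by_contra h1
    exact hcon q w h1 hw
  have hz : z % 2 = 0 := by
    by_contra hz
    exact hne (h0 p z (by omega))
  apply hne
  refine top2 (a := fun q => A q z) (sec_finite hA.fin z) ?_ ?_ p
  · intro q hq
    rcases hA.dim q z hq with h1 | h1
    · exact h1.1
    · have := h1.2; omega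
  · intro q hq
    have h1 := hA.cl q z (Or.inl ⟨hq, hz⟩)
    rw [bd_even hz, h0 q _ (by omega), h0 q _ (by omega), add_zero, add_zero] at h1
    exact h1

/-- **the cut** -/
theorem exists_cut {S X : Pt → ℤ → ZMod 2} (hS : Surf S)
    (hXd : ∀ p z, X p z ≠ 0 → Sq p ∧ z % 2 = 1) (hX : ∀ p z, bd X p z = S p z)
    {h : ℤ} {a : ZMod 2} {W : Finset Pt} (R : Reg X h a W) :
    ∃ E1 E2 : Pt → ℤ → ZMod 2, (∀ p z, E1 p z + E2 p z = S p z) ∧ CutData E1 E2 W h := by
  have he := reg_even hXd R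
  have hW := reg_sq hXd R
  obtain ⟨E1, hE1, hb1⟩ := hS.sep (bd (layer W h)) (by
    intro p z hne
    rw [bd_layer W he] at hne
    have hz : z = h := by
      by_contra hz
      rw [if_neg hz] at hne
      exact hne rfl
    subst hz
    rw [if_pos rfl] at hne
    have hed := bd2_ed (fun p hp => hW p (ind_ne hp)) hne
    refine ⟨Or.inl ⟨hed, he⟩, ?_⟩
    obtain ⟨s, t, hs, ht, hst, hm⟩ := c_sides hW hne
    obtain ⟨w, hw, hSw⟩ := S_bdry hXd hX R hs ht hst
    rw [hm] at hSw
    exact ⟨p, w, Or.inr (Or.inr ⟨he, rfl, hw⟩), hSw⟩) (fun p z _ _ => bd_bd _ p z)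
  let E2 : Pt → ℤ → ZMod 2 := fun p z => S p z + E1 p z
  have hE2 : ∀ p z, E2 p z ≠ 0 → S p z ≠ 0 := by
    intro p z hne h0
    apply hne
    have : E1 p z = 0 := by
      by_contra h1
      exact hE1 _ _ h1 h0
    show S p z + E1 p z = 0
    rw [h0, this, add_zero]
  have hb2 : ∀ p z, D1 p z → bd E2 p z = bd (layer W h) p z := by
    intro p z hD
    show bd (fun p z => S p z + E1 p z) p z = _
    rw [bd_add S E1, hS.cl p z hD, hb1 p z hD, zero_add]
  have hsum : ∀ p z, E1 p z + E2 p z = S p z := by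
    intro p z
    show E1 p z + (S p z + E1 p z) = S p z
    have := zmod2_self (E1 p z)
    linear_combination this
  have hdisj : ∀ p z, E1 p z = 0 ∨ E2 p z = 0 := by
    intro p z
    by_contra hcon
    push Not at hcon
    have h1 := hE1 p z hcon.1
    apply hcon.2
    show S p z + E1 p z = 0
    rw [zmod2_ne_zero hcon.1, zmod2_ne_zero h1]
    decide
  refine ⟨E1, E2, hsum, ?_⟩
  have hfun : (fun p z => E1 p z + E2 p z) = S := by
    funext p z
    exact hsum p z
  refine ⟨he, R.ne, hW, R.con, R.hf, by rw [hfun]; exact hS, surf_glue hS hXd hX R hE1 hb1,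
    surf_glue hS hXd hX R hE2 hb2, fun p z hne => hS.dim p z (hE1 p z hne),
    fun p z hne => hS.dim p z (hE2 p z hne), hdisj,
    fun s hs => ⟨E_on_W hXd hX R hE1 hs, E_on_W hXd hX R hE2 hs⟩, hb1, hb2, ?_, ?_, ?_, ?_⟩
  · rintro p z hD ⟨q, w, hc, hq⟩ ⟨q', w', hc', hq'⟩
    by_contra hnc
    have hb0 : bd E1 p z = 0 := by
      rw [hb1 p z hD, bd_layer W he]
      split_ifs with h1
      · by_contra h2
        exact hnc ⟨h1, h2⟩
      · rfl
    rcases edge_all_none hS hE1 hD hb0 with hall | hall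
    · exact hq (hall q w hc)
    · have h1 := hall q' w' hc'
      rcases hdisj q' w' with h2 | h2
      · rw [h2] at h1
        exact hE2 _ _ hq' h1.symm
      · exact hq' h2
  · rintro p z hD ⟨q, hc, hq⟩ ⟨q', w', hc', hq'⟩
    have hSq : S q' w' ≠ 0 := by
      rcases hq' with h1 | h1
      · exact hE1 _ _ h1
      · exact hE2 _ _ h1
    obtain ⟨h1, h2⟩ := F3 hXd hX R hc hq hc' hSq hD
    refine ⟨h1, ?_⟩
    rw [h2]
    decide
  · rintro ⟨x, y⟩ z ⟨hx, hy⟩ hz ⟨p, w, hn, hp⟩ ⟨p', w', hn', hp'⟩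
    simp only at hx hy
    by_contra hnc
    have hcl : ∀ p z', D1 p z' → Nr (x, y) z p z' → bd E1 p z' = 0 := by
      intro q w'' hD hnq
      rw [hb1 q w'' hD, bd_layer W he]
      split_ifs with h1
      · by_contra h2
        subst h1
        have hzh : z = w'' := by
          have := hnq.2.2
          rw [abs_le] at this
          omega
        subst hzh
        apply hnc
        refine ⟨rfl, ⟨hx, hy⟩, ?_⟩
        have hed := bd2_ed (fun p hp => hW p (ind_ne hp)) h2
        rcases near_ed hx hy hnq hed with h3 | h3 | h3 | h3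
        · subst h3; exact Or.inl h2
        · subst h3; exact Or.inr (Or.inl h2)
        · subst h3; exact Or.inr (Or.inr (Or.inl h2))
        · subst h3; exact Or.inr (Or.inr (Or.inr h2))
      · rfl
    rcases hS.m2 (x, y) z ⟨hx, hy⟩ hz E1 hE1 hcl with hall | hall
    · exact hp (hall p w hn)
    · have h1 := hall p' w' hn'
      rcases hdisj p' w' with h2 | h2
      · rw [h2] at h1
        exact hE2 _ _ hp' h1.symm
      · exact hp' h2
  · rintro ⟨x, y⟩ z ⟨hx, hy⟩ hz ⟨q, hq, hn⟩ ⟨p', w', hn', hp'⟩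
    simp only at hx hy
    have hzh : z = h := by
      have := hn.2.2
      rw [abs_le] at this
      omega
    subst hzh
    refine ⟨rfl, ?_⟩
    by_contra hnc
    have hSq : S p' w' ≠ 0 := by
      rcases hp' with h1 | h1
      · exact hE1 _ _ h1
      · exact hE2 _ _ h1
    exact hSq ((F4 hS hXd hX R hx hy hnc hq hn).2 p' w' hn')

/-- **THE INDUCTION THEOREM.** -/
theorem surf_ind (P : (Pt → ℤ → ZMod 2) → Prop)
    (can : ∀ (A : Finset Pt) (z : ℤ), z % 2 = 1 → A.Nonempty → (∀ s ∈ A, Sq s) → Con A → HF A →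
      P (bd (layer A z)))
    (cut : ∀ (E1 E2 : Pt → ℤ → ZMod 2) (W : Finset Pt) (h : ℤ), CutData E1 E2 W h →
      P (glue E1 W h) → P (glue E2 W h) → P (fun p z => E1 p z + E2 p z))
    {S : Pt → ℤ → ZMod 2} (hS : Surf S) : P S := by
  have key : ∀ n : ℕ, ∀ S, Surf S → (vert S).ncard = n → P S := by
    intro n
    induction n using Nat.strong_induction_on with
    | _ n ih =>
      intro S hS hn
      obtain ⟨X, hXf, hXd, hX⟩ := exists_fill3 hS.fin hS.dim hS.cl
      by_cases hisl : ∃ (h0 : ℤ) (a0 : ZMod 2) (U0 : Finset Pt), Isl X h0 a0 U0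
      · obtain ⟨h0, a0, U0, hU0⟩ := hisl
        obtain ⟨h, a, W, hne, hcon, hHF, hfl, hout⟩ :=
          regA (hyp_m1 hS hXd hX) (hyp_c hS hXf hXd hX) hU0
        have R : Reg X h a W := ⟨hne, hcon, hHF, hfl, hout⟩
        obtain ⟨E1, E2, hsum, C⟩ := exists_cut hS hXd hX R
        have hfun : (fun p z => E1 p z + E2 p z) = S := by
          funext p z
          exact hsum p z
        have hvf : (vert S).Finite := hS.fin.subset (fun q hq => hq.1)
        have hlt : ∀ (A B : Pt → ℤ → ZMod 2), Surf (glue B W h) → (∀ p z, A p z ≠ 0 → S p z ≠ 0) →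
            (∀ p z, B p z ≠ 0 → S p z ≠ 0) → (∀ p z, A p z = 0 ∨ B p z = 0) →
            (vert (glue A W h)).ncard < n := by
          intro A B hB hA' hB' hAB
          rw [← hn]
          apply Set.ncard_lt_ncard _ hvf
          refine ⟨?_, ?_⟩
          · intro q hq
            refine ⟨?_, hq.2⟩
            rcases glue_or hq.1 with h1 | ⟨h1, _⟩
            · exact hA' _ _ h1
            · exfalso
              have := hq.2
              have := C.even
              omega
          · intro hsub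
            obtain ⟨p, z, h1, h2⟩ := vert_ne hB
            have hBp : B p z ≠ 0 := by
              rcases glue_or h1 with h3 | ⟨h3, _⟩
              · exact h3
              · exfalso
                have := C.even
                omega
            have h3 : (p, z) ∈ vert (glue A W h) := hsub ⟨hB' p z hBp, h2⟩
            have hAp : A p z ≠ 0 := by
              rcases glue_or h3.1 with h4 | ⟨h4, _⟩
              · exact h4
              · exfalso
                have := C.even
                simp only at h4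
                omega
            rcases hAB p z with h4 | h4
            · exact hAp h4
            · exact hBp h4
        have hS1 : ∀ p z, E1 p z ≠ 0 → S p z ≠ 0 := by
          intro p z h1
          rw [← hsum]
          apply add_ne_left h1
          rcases C.disj p z with h2 | h2
          · exact absurd h2 h1
          · exact h2
        have hS2 : ∀ p z, E2 p z ≠ 0 → S p z ≠ 0 := by
          intro p z h1
          rw [← hsum]
          apply add_ne_right _ h1
          rcases C.disj p z with h2 | h2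
          · exact h2
          · exact absurd h2 h1
        have h1 := ih _ (hlt E1 E2 C.surf2 hS1 hS2 C.disj) _ C.surf1 rfl
        have h2 := ih _ (hlt E2 E1 C.surf1 hS2 hS1 (fun p z => (C.disj p z).symm)) _ C.surf2 rfl
        have h3 := cut E1 E2 W h C h1 h2
        rw [hfun] at h3
        exact h3
      · have hno : ∀ (h : ℤ) (a : ZMod 2) (U : Finset Pt), ¬ Isl X h a U :=
          fun h a U hU => hisl ⟨h, a, U, hU⟩
        have hone : ∀ s z, X s z = 1 ↔ X s z ≠ 0 := by
          intro s z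
          constructor
          · intro h h'
            rw [h] at h'
            exact absurd h' (by decide)
          · exact zmod2_ne_zero
        obtain ⟨z, A, hAne, hAc, hAh, hXA⟩ := regB (X := X) (by
          intro z
          refine (sec_finite hXf z).subset ?_
          intro s hs
          exact (hone s z).1 hs) (by
          obtain ⟨p, z, hne⟩ := hS.ne
          rw [← hX] at hne
          obtain ⟨q, w, _, hq⟩ := exists_cf_of_bd hne
          exact ⟨q, w, (hone q w).2 hq⟩) (hyp_c hS hXf hXd hX) hno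
        have hXe : ∀ s w, X s w = layer A z s w := by
          intro s w
          by_cases h1 : X s w = 1
          · rw [h1]
            exact (if_pos ((hXA s w).1 h1)).symm
          · have h2 : X s w = 0 := zmod2_ne_one h1
            rw [h2]
            exact (if_neg (fun h3 => h1 ((hXA s w).2 h3))).symm
        have hSe : S = bd (layer A z) := by
          funext p w
          rw [← hX]
          exact bd_congr (fun q z' _ => hXe q z')
        have hAsq : ∀ s ∈ A, Sq s ∧ z % 2 = 1 := by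
          intro s hs
          apply hXd
          rw [← hone]
          exact (hXA s z).2 ⟨rfl, hs⟩
        rw [hSe]
        obtain ⟨s, hs⟩ := hAne
        exact can A z (hAsq s hs).2 ⟨s, hs⟩ (fun s hs => (hAsq s hs).1) hAc hAh
  exact key _ S hS rfl

end Crest.Agent.R096.Lc_451
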