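import Crest.Agent.R096.Lc1_451
import Crest.Agent.R096.Lc2_451
import Crest.Agent.R096.PlSet_296
import Crest.Agent.R096.Lc9_451
import Crest.Agent.R096.PlCan2_458
import Crest.Agent.R096.PlSph_296
import Crest.Agent.R096.Ax9_914
import Crest.Agent.R096.PlCan3_458
import Crest.Agent.R096.Lab4_184
import Crest.Agent.R096.Agl5_543

-- ▼ part R096/Al1_63
section

/-!
# R096/Al1_63 (helper63, row 96, P2-ALEX, dimension 2, part 1)

Plane `ZMod 2` homology on the integer grid (index form): Poincare lemma, and the lemma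
`no_diag`: a connected hole-free finite set of squares has no diagonal pattern at a vertex.
-/

set_option autoImplicit false

namespace Crest.Agent.R096.Al_63

open Crest.Agent.R096.Lc_451

/-- discrete primitive on `ℤ` with values in `ZMod 2` -/
theorem prim (h : ℤ → ZMod 2) : ∃ U : ℤ → ZMod 2, U 0 = 0 ∧ ∀ k, U k + U (k - 1) = h k := by
  let Up : ℕ → ZMod 2 := fun n => ∑ i ∈ Finset.range n, h (i + 1)
  let Un : ℕ → ZMod 2 := fun n => ∑ i ∈ Finset.range n, h (-(i : ℤ))
  have two : ∀ a : ZMod 2, a + a = 0 := by decide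
  refine ⟨fun k => if 0 ≤ k then Up k.toNat else Un (-k).toNat, by simp [Up], ?_⟩
  intro k
  rcases lt_trichotomy k 0 with hk | rfl | hk
  · obtain ⟨n, rfl⟩ : ∃ n : ℕ, k = -(n : ℤ) - 1 := ⟨(-k - 1).toNat, by omega⟩
    have h1 : ¬ (0 ≤ -(n : ℤ) - 1) := by omega
    have h2 : ¬ (0 ≤ -(n : ℤ) - 1 - 1) := by omega
    have h3 : (-(-(n : ℤ) - 1)).toNat = n + 1 := by omega
    have h4 : (-(-(n : ℤ) - 1 - 1)).toNat = n + 1 + 1 := by omega
    simp only [if_neg h1, if_neg h2, h3, h4, Un]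
    rw [Finset.sum_range_succ (n := n + 1), ← add_assoc, two, zero_add]
    congr 1
    push_cast
    ring
  · have h2 : ¬ (0 ≤ (0 : ℤ) - 1) := by omega
    simp only [if_neg h2, le_refl, if_true, Up, Un]
    simp
  · obtain ⟨n, rfl⟩ : ∃ n : ℕ, k = (n : ℤ) + 1 := ⟨(k - 1).toNat, by omega⟩
    have h1 : 0 ≤ (n : ℤ) + 1 := by omega
    have h2 : 0 ≤ (n : ℤ) + 1 - 1 := by omega
    have h3 : ((n : ℤ) + 1).toNat = n + 1 := by omega
    have h4 : ((n : ℤ) + 1 - 1).toNat = n := by omega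
    simp only [if_pos h1, if_pos h2, h3, h4, Up]
    rw [Finset.sum_range_succ (n := n), add_assoc, add_comm (h _), ← add_assoc, two, zero_add]

/-- boundary at the vertex `(i, j)` -/
def dv (fh fv : ℤ → ℤ → ZMod 2) (i j : ℤ) : ZMod 2 :=
  fh i j + fh (i - 1) j + fv i j + fv i (j - 1)

/-- Poincare lemma in the plane -/
theorem poin (fh fv : ℤ → ℤ → ZMod 2) (h : ∀ i j, dv fh fv i j = 0) :
    ∃ u : ℤ → ℤ → ZMod 2, (∀ i j, u i j + u (i - 1) j = fv i j) ∧
      (∀ i j, u i j + u i (j - 1) = fh i j) := by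
  have two : ∀ a : ZMod 2, a + a = 0 := by decide
  obtain ⟨a, _, ha⟩ := prim (fun i => fv i 0)
  choose b hb0 hb using fun i => prim (fun j => fh i j)
  refine ⟨fun i j => a i + b i j, ?_, ?_⟩
  · intro i
    have key : ∀ j, (a i + b i j) + (a (i - 1) + b (i - 1) j) = fv i j ↔
        (a i + b i (j - 1)) + (a (i - 1) + b (i - 1) (j - 1)) = fv i (j - 1) := by
      intro j
      have h1 := h i j
      unfold dv at h1
      have h2 := hb i j
      have h3 := hb (i - 1) j
      have h4 : ((a i + b i j) + (a (i - 1) + b (i - 1) j)) + fv i j =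
          ((a i + b i (j - 1)) + (a (i - 1) + b (i - 1) (j - 1))) + fv i (j - 1) := by
        rw [← h2, ← h3] at h1
        generalize b i j = x1 at *
        generalize b i (j - 1) = x2 at *
        generalize b (i - 1) j = x3 at *
        generalize b (i - 1) (j - 1) = x4 at *
        generalize fv i j = y1 at *
        generalize fv i (j - 1) = y2 at *
        generalize a i = z1
        generalize a (i - 1) = z2
        clear h2 h3
        revert h1
        revert x1 x2 x3 x4 y1 y2 z1 z2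
        decide
      generalize (a i + b i j) + (a (i - 1) + b (i - 1) j) = p at *
      generalize (a i + b i (j - 1)) + (a (i - 1) + b (i - 1) (j - 1)) = q at *
      generalize fv i j = r at *
      generalize fv i (j - 1) = s at *
      clear h1 h2 h3
      revert h4
      revert p q r s
      decide
    intro j
    induction j using Int.induction_on with
    | zero => simp only [hb0, add_zero]; exact ha i
    | succ n ih =>
      rw [key]
      have : (n : ℤ) + 1 - 1 = n := by ring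
      rw [this]; exact ih
    | pred n ih =>
      exact (key (-(n : ℤ))).1 ih
  · intro i j
    have := hb i j
    simp only
    rw [← this]
    generalize b i j = x
    generalize b i (j - 1) = y
    generalize a i = z
    revert x y z
    decide

section ND

variable (P : ℤ → ℤ → Prop)

/-- the vertex `w` can be joined to infinity along edges which are not interior to `P` and do not
touch the origin -/
def GG (w : ℤ × ℤ) : Prop := ∃ fh fv : ℤ → ℤ → ZMod 2,
  (∀ i j, dv fh fv i j = if (i, j) = w then 1 else 0) ∧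
  (∀ i j, P i j → P i (j - 1) → fh i j = 0) ∧ (∀ i j, P i j → P (i - 1) j → fv i j = 0) ∧
  fh 0 0 = 0 ∧ fh (-1) 0 = 0 ∧ fv 0 0 = 0 ∧ fv 0 (-1) = 0

variable {P}

theorem GG.step {w w' : ℤ × ℤ} (eh ev : ℤ → ℤ → ZMod 2)
    (he : ∀ i j, dv eh ev i j = (if (i, j) = w then 1 else 0) + (if (i, j) = w' then 1 else 0))
    (h1 : ∀ i j, P i j → P i (j - 1) → eh i j = 0) (h2 : ∀ i j, P i j → P (i - 1) j → ev i j = 0)
    (h3 : eh 0 0 = 0) (h4 : eh (-1) 0 = 0) (h5 : ev 0 0 = 0) (h6 : ev 0 (-1) = 0)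
    (h : GG P w) : GG P w' := by
  obtain ⟨fh, fv, g0, g1, g2, g3, g4, g5, g6⟩ := h
  refine ⟨fun i j => fh i j + eh i j, fun i j => fv i j + ev i j, ?_, ?_, ?_, ?_, ?_, ?_, ?_⟩
  · intro i j
    have a := g0 i j
    have b := he i j
    unfold dv at *
    have e : fh i j + eh i j + (fh (i - 1) j + eh (i - 1) j) + (fv i j + ev i j) +
        (fv i (j - 1) + ev i (j - 1)) =
        (fh i j + fh (i - 1) j + fv i j + fv i (j - 1)) +
        (eh i j + eh (i - 1) j + ev i j + ev i (j - 1)) := by ring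
    rw [e, a, b, ← add_assoc]
    have two : ∀ a : ZMod 2, a + a = 0 := by decide
    rw [two, zero_add]
  · intro i j p q; simp only [g1 i j p q, h1 i j p q, add_zero]
  · intro i j p q; simp only [g2 i j p q, h2 i j p q, add_zero]
  · simp only [g3, h3, add_zero]
  · simp only [g4, h4, add_zero]
  · simp only [g5, h5, add_zero]
  · simp only [g6, h6, add_zero]

theorem GG.moveh {i j : ℤ} (hal : ¬ (P i j ∧ P i (j - 1))) (h1 : (i, j) ≠ ((0, 0) : ℤ × ℤ))
    (h2 : (i + 1, j) ≠ ((0, 0) : ℤ × ℤ)) : GG P (i, j) ↔ GG P (i + 1, j) := by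
  have key : ∀ w w' : ℤ × ℤ, ((w = (i, j) ∧ w' = (i + 1, j)) ∨ (w' = (i, j) ∧ w = (i + 1, j))) →
      GG P w → GG P w' := by
    intro w w' hw
    refine GG.step (fun x y => if x = i ∧ y = j then 1 else 0) (fun _ _ => 0) ?_ ?_ ?_ ?_ ?_ ?_ ?_
    · intro x y
      unfold dv
      rcases hw with ⟨rfl, rfl⟩ | ⟨rfl, rfl⟩
      · simp only [Prod.mk.injEq, add_zero]
        by_cases hy : y = j
        · by_cases hx : x = i
          · have : ¬ (x = i + 1) := by omega
            have h' : ¬ (x - 1 = i) := by omega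
            simp [hx, hy]
          · by_cases hx' : x = i + 1
            · simp [hx', hy]
            · have h' : ¬ (x - 1 = i) := by omega
              simp [hx, hx', hy, h']
        · simp [hy]
      · simp only [Prod.mk.injEq, add_zero]
        by_cases hy : y = j
        · by_cases hx : x = i
          · have : ¬ (x = i + 1) := by omega
            have h' : ¬ (x - 1 = i) := by omega
            simp [hx, hy]
          · by_cases hx' : x = i + 1
            · simp [hx', hy]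
            · have h' : ¬ (x - 1 = i) := by omega
              simp [hx, hx', hy, h']
        · simp [hy]
    · intro x y p q
      by_cases hxy : x = i ∧ y = j
      · obtain ⟨rfl, rfl⟩ := hxy
        exact absurd ⟨p, q⟩ hal
      · simp [hxy]
    · intros; rfl
    · have : ¬ ((0 : ℤ) = i ∧ (0 : ℤ) = j) := by
        rintro ⟨rfl, rfl⟩; exact h1 rfl
      simp only [if_neg this]
    · have : ¬ ((-1 : ℤ) = i ∧ (0 : ℤ) = j) := by
        rintro ⟨rfl, rfl⟩; exact h2 (by simp)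
      simp only [if_neg this]
    · rfl
    · rfl
  exact ⟨key _ _ (Or.inl ⟨rfl, rfl⟩), key _ _ (Or.inr ⟨rfl, rfl⟩)⟩

theorem GG.movev {i j : ℤ} (hal : ¬ (P i j ∧ P (i - 1) j)) (h1 : (i, j) ≠ ((0, 0) : ℤ × ℤ))
    (h2 : (i, j + 1) ≠ ((0, 0) : ℤ × ℤ)) : GG P (i, j) ↔ GG P (i, j + 1) := by
  have key : ∀ w w' : ℤ × ℤ, ((w = (i, j) ∧ w' = (i, j + 1)) ∨ (w' = (i, j) ∧ w = (i, j + 1))) →
      GG P w → GG P w' := by
    intro w w' hw
    refine GG.step (fun _ _ => 0) (fun x y => if x = i ∧ y = j then 1 else 0) ?_ ?_ ?_ ?_ ?_ ?_ ?_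
    · intro x y
      unfold dv
      rcases hw with ⟨rfl, rfl⟩ | ⟨rfl, rfl⟩
      · simp only [Prod.mk.injEq, add_zero, zero_add]
        by_cases hx : x = i
        · by_cases hy : y = j
          · have : ¬ (y = j + 1) := by omega
            have h' : ¬ (y - 1 = j) := by omega
            simp [hx, hy]
          · by_cases hy' : y = j + 1
            · simp [hx, hy']
            · have h' : ¬ (y - 1 = j) := by omega
              simp [hx, hy, hy', h']
        · simp [hx]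
      · simp only [Prod.mk.injEq, add_zero, zero_add]
        by_cases hx : x = i
        · by_cases hy : y = j
          · have : ¬ (y = j + 1) := by omega
            have h' : ¬ (y - 1 = j) := by omega
            simp [hx, hy]
          · by_cases hy' : y = j + 1
            · simp [hx, hy']
            · have h' : ¬ (y - 1 = j) := by omega
              simp [hx, hy, hy', h']
        · simp [hx]
    · intros; rfl
    · intro x y p q
      by_cases hxy : x = i ∧ y = j
      · obtain ⟨rfl, rfl⟩ := hxy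
        exact absurd ⟨p, q⟩ hal
      · simp [hxy]
    · rfl
    · rfl
    · have : ¬ ((0 : ℤ) = i ∧ (0 : ℤ) = j) := by
        rintro ⟨rfl, rfl⟩; exact h1 rfl
      simp only [if_neg this]
    · have : ¬ ((0 : ℤ) = i ∧ (-1 : ℤ) = j) := by
        rintro ⟨rfl, rfl⟩; exact h2 (by simp)
      simp only [if_neg this]
  exact ⟨key _ _ (Or.inl ⟨rfl, rfl⟩), key _ _ (Or.inr ⟨rfl, rfl⟩)⟩

/-- all corners different from the origin of a square outside `P` are equivalent -/
theorem GG.square {i j : ℤ} (hP : ¬ P i j) {w w' : ℤ × ℤ}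
    (hw : w = (i, j) ∨ w = (i + 1, j) ∨ w = (i, j + 1) ∨ w = (i + 1, j + 1))
    (hw' : w' = (i, j) ∨ w' = (i + 1, j) ∨ w' = (i, j + 1) ∨ w' = (i + 1, j + 1))
    (h0 : w ≠ (0, 0)) (h0' : w' ≠ (0, 0)) : GG P w → GG P w' := by
  have bot : (i, j) ≠ ((0, 0) : ℤ × ℤ) → (i + 1, j) ≠ ((0, 0) : ℤ × ℤ) →
      (GG P (i, j) ↔ GG P (i + 1, j)) := GG.moveh (fun h => hP h.1)
  have top : (i, j + 1) ≠ ((0, 0) : ℤ × ℤ) → (i + 1, j + 1) ≠ ((0, 0) : ℤ × ℤ) →
      (GG P (i, j + 1) ↔ GG P (i + 1, j + 1)) := GG.moveh (fun h => hP (by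
        have := h.2; rwa [show j + 1 - 1 = j by ring] at this))
  have lef : (i, j) ≠ ((0, 0) : ℤ × ℤ) → (i, j + 1) ≠ ((0, 0) : ℤ × ℤ) →
      (GG P (i, j) ↔ GG P (i, j + 1)) := GG.movev (fun h => hP h.1)
  have rig : (i + 1, j) ≠ ((0, 0) : ℤ × ℤ) → (i + 1, j + 1) ≠ ((0, 0) : ℤ × ℤ) →
      (GG P (i + 1, j) ↔ GG P (i + 1, j + 1)) := GG.movev (fun h => hP (by
        have := h.2; rwa [show i + 1 - 1 = i by ring] at this))
  have e00 : (i, j) = ((0, 0) : ℤ × ℤ) ↔ i = 0 ∧ j = 0 := by simp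
  have e10 : (i + 1, j) = ((0, 0) : ℤ × ℤ) ↔ i = -1 ∧ j = 0 := by
    simp; omega
  have e01 : (i, j + 1) = ((0, 0) : ℤ × ℤ) ↔ i = 0 ∧ j = -1 := by
    simp; omega
  have e11 : (i + 1, j + 1) = ((0, 0) : ℤ × ℤ) ↔ i = -1 ∧ j = -1 := by
    simp; omega
  simp only [ne_eq, e00, e10, e01, e11] at bot top lef rig
  rcases hw with rfl | rfl | rfl | rfl <;> rcases hw' with rfl | rfl | rfl | rfl <;>
    simp only [ne_eq, e00, e10, e01, e11] at h0 h0' <;> intro h
  · exact h
  · exact (bot h0 h0').1 h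
  · exact (lef h0 h0').1 h
  · by_cases hc : i = -1 ∧ j = 0
    · exact (top (by omega) h0').1 ((lef h0 (by omega)).1 h)
    · exact (rig hc h0').1 ((bot h0 hc).1 h)
  · exact (bot h0' h0).2 h
  · exact h
  · by_cases hc : i = 0 ∧ j = 0
    · exact (top h0' (by omega)).2 ((rig h0 (by omega)).1 h)
    · exact (lef hc h0').1 ((bot hc h0).2 h)
  · exact (rig h0 h0').1 h
  · exact (lef h0' h0).2 h
  · by_cases hc : i = 0 ∧ j = 0
    · exact (rig h0' (by omega)).2 ((top h0 (by omega)).1 h)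
    · exact (bot hc h0').1 ((lef hc h0).2 h)
  · exact h
  · exact (top h0 h0').1 h
  · by_cases hc : i = -1 ∧ j = 0
    · exact (lef h0' (by omega)).2 ((top (by omega) h0).2 h)
    · exact (bot h0' hc).2 ((rig hc h0).2 h)
  · exact (rig h0' h0).2 h
  · exact (top h0' h0).2 h
  · exact h

theorem GG.right {N i0 j0 : ℤ} (hN : 0 ≤ N) (hP : ∀ i j, N < i → ¬ P i j) (hi : N < i0) :
    GG P (i0, j0) := by
  refine ⟨fun i j => if i0 ≤ i ∧ j = j0 then 1 else 0, fun _ _ => 0, ?_, ?_, ?_, ?_, ?_, rfl, rfl⟩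
  · intro i j
    unfold dv
    simp only [Prod.mk.injEq, add_zero]
    by_cases hj : j = j0
    · rcases lt_trichotomy i i0 with h | h | h
      · have h1 : ¬ i0 ≤ i := by omega
        have h2 : ¬ i0 ≤ i - 1 := by omega
        have h3 : ¬ i = i0 := by omega
        simp [hj, h1, h2, h3]
      · have h1 : i0 ≤ i := by omega
        have h2 : ¬ i0 ≤ i - 1 := by omega
        subst h
        simp [hj]
      · have h1 : i0 ≤ i := by omega
        have h2 : i0 ≤ i - 1 := by omega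
        have h3 : ¬ i = i0 := by omega
        simp only [hj, h1, h2, h3, and_self, if_true, false_and, if_false]
        decide
    · simp [hj]
  · intro i j p _
    have : ¬ (i0 ≤ i ∧ j = j0) := fun h => hP i j (by omega) p
    simp only [if_neg this]
  · intros; rfl
  · have : ¬ (i0 ≤ 0 ∧ 0 = j0) := by omega
    simp only [if_neg this]
  · have : ¬ (i0 ≤ -1 ∧ 0 = j0) := by omega
    simp only [if_neg this]

theorem GG.left {N i0 j0 : ℤ} (hN : 0 < N) (hP : ∀ i j, i < -N → ¬ P i j) (hi : i0 ≤ -N) :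
    GG P (i0, j0) := by
  refine ⟨fun i j => if i < i0 ∧ j = j0 then 1 else 0, fun _ _ => 0, ?_, ?_, ?_, ?_, ?_, rfl, rfl⟩
  · intro i j
    unfold dv
    simp only [Prod.mk.injEq, add_zero]
    by_cases hj : j = j0
    · rcases lt_trichotomy i i0 with h | h | h
      · have h2 : i - 1 < i0 := by omega
        have h3 : ¬ i = i0 := by omega
        simp only [hj, h, h2, h3, and_self, if_true, false_and, if_false]
        decide
      · have h2 : i - 1 < i0 := by omega
        subst h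
        simp [hj]
      · have h1 : ¬ i < i0 := by omega
        have h2 : ¬ i - 1 < i0 := by omega
        have h3 : ¬ i = i0 := by omega
        simp [hj, h1, h2, h3]
    · simp [hj]
  · intro i j p _
    have : ¬ (i < i0 ∧ j = j0) := fun h => hP i j (by omega) p
    simp only [if_neg this]
  · intros; rfl
  · have : ¬ (0 < i0 ∧ 0 = j0) := by omega
    simp only [if_neg this]
  · have : ¬ (-1 < i0 ∧ 0 = j0) := by omega
    simp only [if_neg this]

theorem GG.up {N i0 j0 : ℤ} (hN : 0 ≤ N) (hP : ∀ i j, N < j → ¬ P i j) (hj : N < j0) :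
    GG P (i0, j0) := by
  refine ⟨fun _ _ => 0, fun i j => if j0 ≤ j ∧ i = i0 then 1 else 0, ?_, ?_, ?_, rfl, rfl, ?_, ?_⟩
  · intro i j
    unfold dv
    simp only [Prod.mk.injEq, add_zero, zero_add]
    by_cases hi : i = i0
    · rcases lt_trichotomy j j0 with h | h | h
      · have h1 : ¬ j0 ≤ j := by omega
        have h2 : ¬ j0 ≤ j - 1 := by omega
        have h3 : ¬ j = j0 := by omega
        simp [hi, h1, h2, h3]
      · have h1 : j0 ≤ j := by omega
        have h2 : ¬ j0 ≤ j - 1 := by omega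
        subst h
        simp [hi]
      · have h1 : j0 ≤ j := by omega
        have h2 : j0 ≤ j - 1 := by omega
        have h3 : ¬ j = j0 := by omega
        simp only [hi, h1, h2, h3, and_self, if_true, and_false, if_false]
        decide
    · simp [hi]
  · intros; rfl
  · intro i j p _
    have : ¬ (j0 ≤ j ∧ i = i0) := fun h => hP i j (by omega) p
    simp only [if_neg this]
  · have : ¬ (j0 ≤ 0 ∧ 0 = i0) := by omega
    simp only [if_neg this]
  · have : ¬ (j0 ≤ -1 ∧ 0 = i0) := by omega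
    simp only [if_neg this]

theorem GG.down {N i0 j0 : ℤ} (hN : 0 < N) (hP : ∀ i j, j < -N → ¬ P i j) (hj : j0 ≤ -N) :
    GG P (i0, j0) := by
  refine ⟨fun _ _ => 0, fun i j => if j < j0 ∧ i = i0 then 1 else 0, ?_, ?_, ?_, rfl, rfl, ?_, ?_⟩
  · intro i j
    unfold dv
    simp only [Prod.mk.injEq, add_zero, zero_add]
    by_cases hi : i = i0
    · rcases lt_trichotomy j j0 with h | h | h
      · have h2 : j - 1 < j0 := by omega
        have h3 : ¬ j = j0 := by omega
        simp only [hi, h, h2, h3, and_self, if_true, and_false, if_false]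
        decide
      · have h2 : j - 1 < j0 := by omega
        subst h
        simp [hi]
      · have h1 : ¬ j < j0 := by omega
        have h2 : ¬ j - 1 < j0 := by omega
        have h3 : ¬ j = j0 := by omega
        simp [hi, h1, h2, h3]
    · simp [hi]
  · intros; rfl
  · intro i j p _
    have : ¬ (j < j0 ∧ i = i0) := fun h => hP i j (by omega) p
    simp only [if_neg this]
  · have : ¬ (0 < j0 ∧ 0 = i0) := by omega
    simp only [if_neg this]
  · have : ¬ (-1 < j0 ∧ 0 = i0) := by omega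
    simp only [if_neg this]

end ND

/-- index of a square relative to the vertex `(a, b)` -/
def ix (a b i j : ℤ) : Pt := (a + 1 + 2 * i, b + 1 + 2 * j)

theorem nb_ix {a b i j : ℤ} {t : Pt} : nb (ix a b i j) t ↔
    t = ix a b (i + 1) j ∨ t = ix a b (i - 1) j ∨ t = ix a b i (j + 1) ∨ t = ix a b i (j - 1) := by
  unfold nb ix
  simp only [Prod.ext_iff]
  constructor
  · rintro (h | h | h | h) <;> omega
  · rintro (h | h | h | h) <;> omega

theorem ix_inj {a b i j i' j' : ℤ} : ix a b i j = ix a b i' j' ↔ i = i' ∧ j = j' := by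
  unfold ix
  rw [Prod.ext_iff]
  simp only
  omega

/-- a hole-free set: every corner of an outside square (except the vertex `(a, b)`) escapes -/
theorem HF.gg {A : Finset Pt} (hA : HF A) (a b : ℤ) {i j : ℤ} (hij : ix a b i j ∉ A) {w : ℤ × ℤ}
    (hw : w = (i, j) ∨ w = (i + 1, j) ∨ w = (i, j + 1) ∨ w = (i + 1, j + 1)) (h0 : w ≠ (0, 0)) :
    GG (fun i j => ix a b i j ∈ A) w := by
  classical
  set P : ℤ → ℤ → Prop := fun i j => ix a b i j ∈ A with hPdef
  obtain ⟨N, hN, hPN⟩ : ∃ N : ℤ, 0 < N ∧ ∀ i j, P i j → (-N ≤ i ∧ i ≤ N) ∧ (-N ≤ j ∧ j ≤ N) := by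
    refine ⟨1 + ∑ s ∈ A, (|s.1 - a| + |s.2 - b| + 1), ?_, ?_⟩
    · have : 0 ≤ ∑ s ∈ A, (|s.1 - a| + |s.2 - b| + 1) :=
        Finset.sum_nonneg fun i _ => by positivity
      linarith
    · intro i j h
      have h1 := Finset.single_le_sum (f := fun s : Pt => |s.1 - a| + |s.2 - b| + 1)
        (fun i _ => by positivity) h
      simp only [ix] at h1
      have h2 := abs_nonneg (a + 1 + 2 * i - a)
      have h3 := abs_nonneg (b + 1 + 2 * j - b)
      have h4 := neg_abs_le (a + 1 + 2 * i - a)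
      have h5 := neg_abs_le (b + 1 + 2 * j - b)
      have h6 := le_abs_self (a + 1 + 2 * i - a)
      have h7 := le_abs_self (b + 1 + 2 * j - b)
      refine ⟨⟨?_, ?_⟩, ?_, ?_⟩ <;> linarith
  have hright : ∀ i j, N < i → ¬ P i j := fun i j h p => by have := (hPN i j p).1.2; omega
  have hleft : ∀ i j, i < -N → ¬ P i j := fun i j h p => by have := (hPN i j p).1.1; omega
  have hup : ∀ i j, N < j → ¬ P i j := fun i j h p => by have := (hPN i j p).2.2; omega
  have hdown : ∀ i j, j < -N → ¬ P i j := fun i j h p => by have := (hPN i j p).2.1; omega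
  let good : ℤ → ℤ → Prop := fun i j => ∀ w : ℤ × ℤ,
    (w = (i, j) ∨ w = (i + 1, j) ∨ w = (i, j + 1) ∨ w = (i + 1, j + 1)) → w ≠ (0, 0) → GG P w
  let T : Finset Pt := ((Finset.Icc (-N) N ×ˢ Finset.Icc (-N) N).filter
    (fun q : ℤ × ℤ => ¬ P q.1 q.2 ∧ ¬ good q.1 q.2)).image (fun q => ix a b q.1 q.2)
  have hT : ∀ i j, ix a b i j ∈ T ↔
      ((-N ≤ i ∧ i ≤ N) ∧ (-N ≤ j ∧ j ≤ N)) ∧ ¬ P i j ∧ ¬ good i j := by
    intro i j
    simp only [T, Finset.mem_image, Finset.mem_filter, Finset.mem_product, Finset.mem_Icc]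
    constructor
    · rintro ⟨q, hq, h⟩
      obtain ⟨h1, h2⟩ := ix_inj.1 h
      rw [← h1, ← h2]; exact hq
    · intro h
      exact ⟨(i, j), h, rfl⟩
  -- squares outside the box are good
  have hbox : ∀ i j, ¬ ((-N ≤ i ∧ i ≤ N) ∧ (-N ≤ j ∧ j ≤ N)) → good i j := by
    intro i j h w hw _
    by_cases h1 : N < i
    · rcases hw with rfl | rfl | rfl | rfl
      · exact GG.right hN.le hright h1
      · exact GG.right hN.le hright (by omega)
      · exact GG.right hN.le hright h1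
      · exact GG.right hN.le hright (by omega)
    by_cases h2 : i < -N
    · rcases hw with rfl | rfl | rfl | rfl
      · exact GG.left hN hleft (by omega)
      · exact GG.left hN hleft (by omega)
      · exact GG.left hN hleft (by omega)
      · exact GG.left hN hleft (by omega)
    by_cases h3 : N < j
    · rcases hw with rfl | rfl | rfl | rfl
      · exact GG.up hN.le hup h3
      · exact GG.up hN.le hup h3
      · exact GG.up hN.le hup (by omega)
      · exact GG.up hN.le hup (by omega)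
    · have h4 : j < -N := by omega
      rcases hw with rfl | rfl | rfl | rfl
      · exact GG.down hN hdown (by omega)
      · exact GG.down hN hdown (by omega)
      · exact GG.down hN hdown (by omega)
      · exact GG.down hN hdown (by omega)
  -- transfer between adjacent outside squares
  have htrans : ∀ i j i' j', ¬ P i j → ((i' = i + 1 ∧ j' = j) ∨ (i' = i - 1 ∧ j' = j) ∨
      (i' = i ∧ j' = j + 1) ∨ (i' = i ∧ j' = j - 1)) → good i' j' → good i j := by
    intro i j i' j' hP' hadj hg w hw hw0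
    have pick : ∀ c c' : ℤ × ℤ, c ≠ c' →
        (c = (i, j) ∨ c = (i + 1, j) ∨ c = (i, j + 1) ∨ c = (i + 1, j + 1)) →
        (c = (i', j') ∨ c = (i' + 1, j') ∨ c = (i', j' + 1) ∨ c = (i' + 1, j' + 1)) →
        (c' = (i, j) ∨ c' = (i + 1, j) ∨ c' = (i, j + 1) ∨ c' = (i + 1, j + 1)) →
        (c' = (i', j') ∨ c' = (i' + 1, j') ∨ c' = (i', j' + 1) ∨ c' = (i' + 1, j' + 1)) →
        GG P w := by
      intro c c' hne h1 h2 h3 h4
      by_cases hc : c = (0, 0)
      · have hc' : c' ≠ (0, 0) := fun h => hne (hc.trans h.symm)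
        exact GG.square hP' h3 hw hc' hw0 (hg c' h4 hc')
      · exact GG.square hP' h1 hw hc hw0 (hg c h2 hc)
    rcases hadj with ⟨rfl, rfl⟩ | ⟨rfl, rfl⟩ | ⟨rfl, rfl⟩ | ⟨rfl, rfl⟩
    · exact pick (i + 1, j') (i + 1, j' + 1) (by simp) (by simp) (by simp) (by simp) (by simp)
    · exact pick (i, j') (i, j' + 1) (by simp) (by simp) (by simp) (by simp) (by simp)
    · exact pick (i', j + 1) (i' + 1, j + 1) (by simp) (by simp) (by simp) (by simp) (by simp)
    · exact pick (i', j) (i' + 1, j) (by simp) (by simp) (by simp) (by simp) (by simp)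
  have hTe : T = ∅ := by
    apply hA T
    · rw [Finset.disjoint_left]
      intro s hs hsA
      simp only [T, Finset.mem_image, Finset.mem_filter] at hs
      obtain ⟨q, hq, rfl⟩ := hs
      exact hq.2.1 hsA
    · intro s hs t hst
      have hs' := hs
      simp only [T, Finset.mem_image, Finset.mem_filter] at hs
      obtain ⟨q, _, rfl⟩ := hs
      have hq := (hT q.1 q.2).1 hs'
      by_contra hcon
      push Not at hcon
      have main : ∀ i' j', t = ix a b i' j' → ((i' = q.1 + 1 ∧ j' = q.2) ∨ (i' = q.1 - 1 ∧ j' = q.2) ∨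
          (i' = q.1 ∧ j' = q.2 + 1) ∨ (i' = q.1 ∧ j' = q.2 - 1)) → False := by
        intro i' j' ht hadj
        apply hq.2.2
        refine htrans q.1 q.2 i' j' hq.2.1 hadj ?_
        by_contra hg
        apply hcon.1
        rw [ht, hT]
        refine ⟨?_, ?_, hg⟩
        · by_contra hb; exact hg (hbox i' j' hb)
        · intro hp; apply hcon.2; rw [ht]; exact hp
      rcases nb_ix.1 hst with h | h | h | h
      · exact main _ _ h (Or.inl ⟨rfl, rfl⟩)
      · exact main _ _ h (Or.inr (Or.inl ⟨rfl, rfl⟩))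
      · exact main _ _ h (Or.inr (Or.inr (Or.inl ⟨rfl, rfl⟩)))
      · exact main _ _ h (Or.inr (Or.inr (Or.inr ⟨rfl, rfl⟩)))
  by_contra hcon
  have hgood : ¬ good i j := fun h => hcon (h w hw h0)
  have : ix a b i j ∈ T := by
    rw [hT]
    refine ⟨?_, hij, hgood⟩
    by_contra hb; exact hgood (hbox i j hb)
  rw [hTe] at this
  exact absurd this (Finset.notMem_empty _)

/-- **no diagonal pattern** in a connected hole-free set -/
theorem no_diag {A : Finset Pt} (hA : HF A) (hC : Con A) {a b : ℤ} (h1 : (a + 1, b + 1) ∈ A)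
    (h2 : (a - 1, b - 1) ∈ A) (h3 : (a - 1, b + 1) ∉ A) (h4 : (a + 1, b - 1) ∉ A) : False := by
  classical
  have e1 : ((a + 1, b + 1) : Pt) = ix a b 0 0 := by unfold ix; ext <;> simp
  have e2 : ((a - 1, b - 1) : Pt) = ix a b (-1) (-1) := by unfold ix; ext <;> simp <;> ring
  have e3 : ((a - 1, b + 1) : Pt) = ix a b (-1) 0 := by unfold ix; ext <;> simp; ring
  have e4 : ((a + 1, b - 1) : Pt) = ix a b 0 (-1) := by unfold ix; ext <;> simp; ring
  rw [e1] at h1
  rw [e2] at h2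
  rw [e3] at h3
  rw [e4] at h4
  obtain ⟨gh, gv, g0, g1, g2, g3, g4, g5, g6⟩ :=
    HF.gg hA a b h3 (w := (0, 1)) (by simp) (by simp)
  obtain ⟨kh, kv, k0, k1, k2, k3, k4, k5, k6⟩ :=
    HF.gg hA a b h4 (w := (1, 0)) (by simp) (by simp)
  have two : ∀ a : ZMod 2, a + a = 0 := by decide
  let fh : ℤ → ℤ → ZMod 2 := fun i j => gh i j + kh i j + if i = 0 ∧ j = 0 then 1 else 0
  let fv : ℤ → ℤ → ZMod 2 := fun i j => gv i j + kv i j + if i = 0 ∧ j = 0 then 1 else 0
  have hcl : ∀ i j, dv fh fv i j = 0 := by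
    intro i j
    have a1 := g0 i j
    have a2 := k0 i j
    unfold dv at *
    have e : fh i j + fh (i - 1) j + fv i j + fv i (j - 1) =
        (gh i j + gh (i - 1) j + gv i j + gv i (j - 1)) +
        (kh i j + kh (i - 1) j + kv i j + kv i (j - 1)) +
        ((if i = 0 ∧ j = 0 then 1 else 0) + (if i - 1 = 0 ∧ j = 0 then 1 else 0) +
        (if i = 0 ∧ j = 0 then 1 else 0) + (if i = 0 ∧ j - 1 = 0 then 1 else 0)) := by
      simp only [fh, fv]; ring
    rw [e, a1, a2]
    have c1 : (i - 1 = 0 ∧ j = 0) ↔ (i, j) = ((1, 0) : ℤ × ℤ) := by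
      rw [Prod.ext_iff]; simp only; omega
    have c2 : (i = 0 ∧ j - 1 = 0) ↔ (i, j) = ((0, 1) : ℤ × ℤ) := by
      rw [Prod.ext_iff]; simp only; omega
    simp only [c1, c2]
    generalize (if (i, j) = ((0, 1) : ℤ × ℤ) then (1 : ZMod 2) else 0) = x
    generalize (if (i, j) = ((1, 0) : ℤ × ℤ) then (1 : ZMod 2) else 0) = y
    generalize (if (i = 0 ∧ j = 0) then (1 : ZMod 2) else 0) = z
    revert x y z
    decide
  obtain ⟨u, hu1, hu2⟩ := poin fh fv hcl
  -- `u` is constant along `A`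
  have hconst1 : ∀ i j, ix a b i j ∈ A → ix a b (i - 1) j ∈ A → u i j = u (i - 1) j := by
    intro i j p q
    have h := hu1 i j
    have hz : ¬ (i = 0 ∧ j = 0) := by
      rintro ⟨rfl, rfl⟩
      exact h3 (by simpa using q)
    simp only [fv, g2 i j p q, k2 i j p q, if_neg hz, add_zero] at h
    generalize u i j = x at *
    generalize u (i - 1) j = y at *
    revert h; clear hu1 hu2; revert x y; decide
  have hconst2 : ∀ i j, ix a b i j ∈ A → ix a b i (j - 1) ∈ A → u i j = u i (j - 1) := by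
    intro i j p q
    have h := hu2 i j
    have hz : ¬ (i = 0 ∧ j = 0) := by
      rintro ⟨rfl, rfl⟩
      exact h4 (by simpa using q)
    simp only [fh, g1 i j p q, k1 i j p q, if_neg hz, add_zero] at h
    generalize u i j = x at *
    generalize u i (j - 1) = y at *
    revert h; clear hu1 hu2; revert x y; decide
  -- the values at the two diagonal squares differ
  have v1 : u 0 0 + u (-1) 0 = 1 := by
    have h := hu1 0 0
    simp only [fv, g5, k5, and_self, if_true, zero_add] at h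
    simpa using h
  have v2 : u (-1) 0 + u (-1) (-1) = 0 := by
    have h := hu2 (-1) 0
    simp only [fh, g4, k4, zero_add] at h
    simpa using h
  have hne : u 0 0 ≠ u (-1) (-1) := by
    intro h
    rw [← h] at v2
    generalize u 0 0 = x at *
    generalize u (-1) 0 = y at *
    clear h hconst1 hconst2 hu1 hu2
    revert v1 v2; revert x y; decide
  let T : Finset Pt := A.filter (fun t => ∃ i j, t = ix a b i j ∧ u i j = u 0 0)
  have hT : ∀ i j, ix a b i j ∈ T ↔ ix a b i j ∈ A ∧ u i j = u 0 0 := by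
    intro i j
    simp only [T, Finset.mem_filter]
    constructor
    · rintro ⟨h, i', j', he, h'⟩
      obtain ⟨rfl, rfl⟩ := ix_inj.1 he
      exact ⟨h, h'⟩
    · rintro ⟨h, h'⟩
      exact ⟨h, i, j, rfl, h'⟩
  have hTc : ∀ s ∈ T, ∀ t ∈ A, nb s t → t ∈ T := by
    intro s hs t ht hst
    have hs' := hs
    simp only [T, Finset.mem_filter] at hs
    obtain ⟨hsA, i, j, rfl, hu⟩ := hs
    rcases nb_ix.1 hst with h | h | h | h
    · rw [h] at ht ⊢
      rw [hT]
      have hk := hconst1 (i + 1) j ht (by rwa [show i + 1 - 1 = i by ring])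
      rw [show i + 1 - 1 = i by ring] at hk
      exact ⟨ht, hk.trans hu⟩
    · rw [h] at ht ⊢
      rw [hT]
      exact ⟨ht, (hconst1 i j hsA ht).symm.trans hu⟩
    · rw [h] at ht ⊢
      rw [hT]
      have hk := hconst2 i (j + 1) ht (by rwa [show j + 1 - 1 = j by ring])
      rw [show j + 1 - 1 = j by ring] at hk
      exact ⟨ht, hk.trans hu⟩
    · rw [h] at ht ⊢
      rw [hT]
      exact ⟨ht, (hconst2 i j hsA ht).symm.trans hu⟩
  rcases hC T (Finset.filter_subset _ _) hTc with h | h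
  · have : ix a b 0 0 ∈ T := (hT 0 0).2 ⟨h1, rfl⟩
    rw [h] at this
    exact absurd this (Finset.notMem_empty _)
  · have : ix a b (-1) (-1) ∈ T := by rw [h]; exact h2
    exact hne ((hT _ _).1 this).2.symm

/-- the other diagonal -/
theorem no_diag' {A : Finset Pt} (hA : HF A) (hC : Con A) {a b : ℤ} (h1 : (a + 1, b + 1) ∉ A)
    (h2 : (a - 1, b - 1) ∉ A) (h3 : (a - 1, b + 1) ∈ A) (h4 : (a + 1, b - 1) ∈ A) : False := by
  classical
  -- reflect the first coordinate about `a`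
  let r : Pt ↪ Pt := ⟨fun p => (2 * a - p.1, p.2), fun p q h => by
    simp only [Prod.mk.injEq] at h; ext <;> omega⟩
  have hr : ∀ (B : Finset Pt) (p : Pt), p ∈ B.map r ↔ (2 * a - p.1, p.2) ∈ B := by
    intro B p
    rw [Finset.mem_map]
    have hrq : ∀ q : Pt, r q = (2 * a - q.1, q.2) := fun _ => rfl
    constructor
    · rintro ⟨q, hq, rfl⟩
      rw [hrq]
      simpa using hq
    · intro h
      refine ⟨_, h, ?_⟩
      rw [hrq]
      ext <;> simp
  have hnb : ∀ s t : Pt, nb (2 * a - s.1, s.2) (2 * a - t.1, t.2) ↔ nb s t := by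
    intro s t
    unfold nb
    simp only [Prod.ext_iff]
    omega
  have hHF : HF (A.map r) := by
    intro T hT1 hT2
    have h := hA (T.map r) ?_ ?_
    · exact Finset.map_eq_empty.1 h
    · rw [Finset.disjoint_left] at hT1 ⊢
      intro p hp hpA
      rw [hr] at hp
      refine hT1 hp ?_
      rw [hr]
      simpa using hpA
    · intro s hs t hst
      rw [hr] at hs
      have := hT2 _ hs (2 * a - t.1, t.2) ((hnb s t).2 hst)
      rw [hr] at this ⊢
      rcases this with h' | h'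
      · exact Or.inl h'
      · right; simpa using h'
  have hCon : Con (A.map r) := by
    intro T hT1 hT2
    have h := hC (T.map r) ?_ ?_
    · rcases h with h | h
      · exact Or.inl (Finset.map_eq_empty.1 h)
      · right
        ext p
        rw [hr, ← h, hr]
        simp
    · intro p hp
      rw [hr] at hp
      have := hT1 hp
      rw [hr] at this
      simpa using this
    · intro s hs t ht hst
      rw [hr] at hs
      rw [hr]
      refine hT2 _ hs _ ?_ ((hnb s t).2 hst)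
      rw [hr]
      simpa using ht
  refine no_diag hHF hCon (a := a) (b := b) ?_ ?_ ?_ ?_
  · rw [hr]; simpa [show 2 * a - (a + 1) = a - 1 by ring] using h3
  · rw [hr]; simpa [show 2 * a - (a - 1) = a + 1 by ring] using h4
  · rw [hr]; simpa [show 2 * a - (a - 1) = a + 1 by ring] using h1
  · rw [hr]; simpa [show 2 * a - (a + 1) = a - 1 by ring] using h2

end Crest.Agent.R096.Al_63
end

-- ▼ part R096/Al2_63
section

/-!
# R096/Al2_63 (helper63, row 96, P2-ALEX, dimension 2, part 2)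

Realisation of finite sets of lattice squares (doubled coordinates) in the plane, their boundary,
and the 2-dimensional cut lemma in combinatorial form.
-/

set_option autoImplicit false

namespace Crest.Agent.R096.Al_63

open Set Crest.Agent.R096.Lc_451 Crest.Agent.R096.Pl

/-- closed square with centre `s / 2` -/
def sq (s : Pt) : Set (ℝ × ℝ) := {x | |2 * x.1 - s.1| ≤ 1 ∧ |2 * x.2 - s.2| ≤ 1}

/-- union of the closed squares -/
def area (W : Finset Pt) : Set (ℝ × ℝ) := ⋃ s ∈ W, sq s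

/-- `x` lies in a lattice square outside `W` -/
def touch (W : Finset Pt) (x : ℝ × ℝ) : Prop := ∃ t, Sq t ∧ t ∉ W ∧ x ∈ sq t

/-- the boundary -/
def bdr (W : Finset Pt) : Set (ℝ × ℝ) := {x | x ∈ area W ∧ touch W x}

theorem mem_area {W : Finset Pt} {x : ℝ × ℝ} : x ∈ area W ↔ ∃ s ∈ W, x ∈ sq s := by
  simp [area]

theorem isClosed_sq (s : Pt) : IsClosed (sq s) := by
  have h1 : IsClosed {x : ℝ × ℝ | |2 * x.1 - s.1| ≤ 1} :=
    isClosed_le (by fun_prop) continuous_const
  have h2 : IsClosed {x : ℝ × ℝ | |2 * x.2 - s.2| ≤ 1} :=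
    isClosed_le (by fun_prop) continuous_const
  exact h1.inter h2

theorem isClosed_area (W : Finset Pt) : IsClosed (area W) :=
  W.finite_toSet.isClosed_biUnion fun s _ => isClosed_sq s

theorem sq_eq (s : Pt) : sq s = Icc (((s.1 : ℝ) - 1) / 2) ((s.1 + 1) / 2) ×ˢ
    Icc (((s.2 : ℝ) - 1) / 2) ((s.2 + 1) / 2) := by
  ext x
  simp only [sq, mem_ofPred_eq, mem_prod, mem_Icc, abs_le]
  constructor
  · rintro ⟨⟨h1, h2⟩, h3, h4⟩
    refine ⟨⟨?_, ?_⟩, ?_, ?_⟩ <;> linarith
  · rintro ⟨⟨h1, h2⟩, h3, h4⟩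
    refine ⟨⟨?_, ?_⟩, ?_, ?_⟩ <;> linarith

theorem isCompact_sq (s : Pt) : IsCompact (sq s) := by
  rw [sq_eq]; exact isCompact_Icc.prod isCompact_Icc

theorem isCompact_area (W : Finset Pt) : IsCompact (area W) :=
  W.isCompact_biUnion fun s _ => isCompact_sq s

theorem loc1 (x : ℝ) : ∃ ε > 0, ∀ y, |y - x| < ε → ∀ a : ℤ, a % 2 = 1 → |2 * y - a| ≤ 1 →
    |2 * x - a| ≤ 1 := by
  rcases eq_or_lt_of_le (Int.floor_le x) with h | h
  · refine ⟨1, one_pos, fun y hy a ha h2 => ?_⟩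
    set k := ⌊x⌋
    rw [abs_lt] at hy
    rw [abs_le] at h2
    have e1 : (2 * k - 3 : ℝ) < a := by linarith [hy.1, h2.2]
    have e2 : (a : ℝ) < 2 * k + 3 := by linarith [hy.2, h2.1]
    have e1' : 2 * k - 3 < a := by exact_mod_cast e1
    have e2' : a < 2 * k + 3 := by exact_mod_cast e2
    have : a = 2 * k - 1 ∨ a = 2 * k + 1 := by omega
    rw [← h]
    rcases this with rfl | rfl
    · push_cast; rw [abs_le]; constructor <;> linarith
    · push_cast; rw [abs_le]; constructor <;> linarith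
  · set k := ⌊x⌋
    have h' : x < k + 1 := Int.lt_floor_add_one x
    refine ⟨min (x - k) (k + 1 - x), lt_min (by linarith) (by linarith), fun y hy a ha h2 => ?_⟩
    rw [lt_min_iff, abs_lt, abs_lt] at hy
    rw [abs_le] at h2
    have e1 : (2 * k - 1 : ℝ) < a := by linarith [hy.1.1, h2.2]
    have e2 : (a : ℝ) < 2 * k + 3 := by linarith [hy.2.2, h2.1]
    have e1' : 2 * k - 1 < a := by exact_mod_cast e1
    have e2' : a < 2 * k + 3 := by exact_mod_cast e2
    have : a = 2 * k + 1 := by omega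
    rw [this]
    push_cast; rw [abs_le]; constructor <;> linarith

theorem loc2 (x : ℝ × ℝ) : ∃ ε > 0, ∀ y ∈ Metric.ball x ε, ∀ s, Sq s → y ∈ sq s → x ∈ sq s := by
  obtain ⟨e1, h1, h1'⟩ := loc1 x.1
  obtain ⟨e2, h2, h2'⟩ := loc1 x.2
  refine ⟨min e1 e2, lt_min h1 h2, fun y hy s hs hys => ?_⟩
  rw [Metric.mem_ball, Prod.dist_eq, Real.dist_eq, Real.dist_eq, max_lt_iff, lt_min_iff,
    lt_min_iff] at hy
  exact ⟨h1' y.1 hy.1.1 s.1 hs.1 hys.1, h2' y.2 hy.2.2 s.2 hs.2 hys.2⟩

theorem exists_sq (x : ℝ × ℝ) : ∃ s, Sq s ∧ x ∈ sq s := by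
  refine ⟨(2 * ⌊x.1⌋ + 1, 2 * ⌊x.2⌋ + 1), ⟨by simp only; omega, by simp only; omega⟩, ?_, ?_⟩
  · have h1 := Int.floor_le x.1
    have h2 := (Int.lt_floor_add_one x.1).le
    push_cast; rw [abs_le]; constructor <;> linarith
  · have h1 := Int.floor_le x.2
    have h2 := (Int.lt_floor_add_one x.2).le
    push_cast; rw [abs_le]; constructor <;> linarith

theorem isClosed_touch (W : Finset Pt) : IsClosed {x | touch W x} := by
  rw [← isOpen_compl_iff, Metric.isOpen_iff]
  intro x hx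
  obtain ⟨ε, hε, h⟩ := loc2 x
  refine ⟨ε, hε, fun y hy => ?_⟩
  rintro ⟨t, ht, htW, hyt⟩
  exact hx ⟨t, ht, htW, h y hy t ht hyt⟩

/-- two closed lattice intervals -/
theorem two1 {a b : ℤ} {x : ℝ} (ha : a % 2 = 1) (hb : b % 2 = 1) (h1 : |2 * x - a| ≤ 1)
    (h2 : |2 * x - b| ≤ 1) : a = b ∨ (b = a + 2 ∧ 2 * x = a + 1) ∨ (b = a - 2 ∧ 2 * x = a - 1) := by
  rw [abs_le] at h1 h2
  have e1 : (b : ℝ) ≤ a + 2 := by linarith
  have e2 : (a : ℝ) - 2 ≤ b := by linarith
  have e1' : b ≤ a + 2 := by exact_mod_cast e1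
  have e2' : a - 2 ≤ b := by exact_mod_cast e2
  have : b = a ∨ b = a + 2 ∨ b = a - 2 := by omega
  rcases this with rfl | rfl | rfl
  · exact Or.inl rfl
  · right; left
    refine ⟨rfl, ?_⟩
    push_cast at h2
    linarith
  · right; right
    refine ⟨rfl, ?_⟩
    push_cast at h2
    linarith

/-- interior points of a square lie in no other square -/
theorem sq_interior {s t : Pt} (hs : Sq s) (ht : Sq t) {x : ℝ × ℝ} (h1 : |2 * x.1 - s.1| < 1)
    (h2 : |2 * x.2 - s.2| < 1) (hx : x ∈ sq t) : s = t := by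
  have a1 := two1 hs.1 ht.1 h1.le hx.1
  have a2 := two1 hs.2 ht.2 h2.le hx.2
  rw [abs_lt] at h1 h2
  ext
  · rcases a1 with h | ⟨_, h⟩ | ⟨_, h⟩
    · exact h
    · linarith
    · linarith
  · rcases a2 with h | ⟨_, h⟩ | ⟨_, h⟩
    · exact h
    · linarith
    · linarith

theorem touch_subset_closure {W : Finset Pt} (hW : ∀ s ∈ W, Sq s) {x : ℝ × ℝ} (h : touch W x) :
    x ∈ closure (area W)ᶜ := by
  obtain ⟨t, ht, htW, hx⟩ := h
  -- the points `x + r (c - x)`, `c` the centre of `t`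
  have hmem : ∀ r : ℝ, 0 < r → r ≤ 1 →
      ((1 - r) * x.1 + r * (t.1 / 2), (1 - r) * x.2 + r * (t.2 / 2)) ∈ (area W)ᶜ := by
    intro r h0 h1 hc
    rw [mem_area] at hc
    obtain ⟨s, hs, hxs⟩ := hc
    have := sq_interior ht (hW s hs) (x := ((1 - r) * x.1 + r * (t.1 / 2),
      (1 - r) * x.2 + r * (t.2 / 2))) ?_ ?_ hxs
    · rw [this] at htW; exact htW hs
    · have e : 2 * ((1 - r) * x.1 + r * ((t.1 : ℝ) / 2)) - t.1 = (1 - r) * (2 * x.1 - t.1) := by ring
      simp only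
      rw [e, abs_mul, abs_of_nonneg (by linarith : (0 : ℝ) ≤ 1 - r)]
      have := hx.1
      nlinarith [abs_nonneg (2 * x.1 - (t.1 : ℝ))]
    · have e : 2 * ((1 - r) * x.2 + r * ((t.2 : ℝ) / 2)) - t.2 = (1 - r) * (2 * x.2 - t.2) := by ring
      simp only
      rw [e, abs_mul, abs_of_nonneg (by linarith : (0 : ℝ) ≤ 1 - r)]
      have := hx.2
      nlinarith [abs_nonneg (2 * x.2 - (t.2 : ℝ))]
  have hlim : Filter.Tendsto (fun r : ℝ => ((1 - r) * x.1 + r * ((t.1 : ℝ) / 2),
      (1 - r) * x.2 + r * ((t.2 : ℝ) / 2))) (nhdsWithin 0 (Set.Ioi 0)) (nhds x) := by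
    have hc : Continuous (fun r : ℝ => ((1 - r) * x.1 + r * ((t.1 : ℝ) / 2),
      (1 - r) * x.2 + r * ((t.2 : ℝ) / 2))) := by fun_prop
    have := (hc.tendsto 0).mono_left (nhdsWithin_le_nhds (s := Set.Ioi 0))
    simpa using this
  refine mem_closure_of_tendsto hlim ?_
  filter_upwards [Ioc_mem_nhdsGT (zero_lt_one' ℝ)] with r hr
  exact hmem r hr.1 hr.2

theorem interior_area {W : Finset Pt} (hW : ∀ s ∈ W, Sq s) :
    interior (area W) = {x | x ∈ area W ∧ ¬ touch W x} := by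
  ext x
  constructor
  · intro h
    refine ⟨interior_subset h, fun ht => ?_⟩
    have := touch_subset_closure hW ht
    rw [closure_compl] at this
    exact this h
  · rintro ⟨h1, h2⟩
    obtain ⟨ε, hε, h⟩ := loc2 x
    rw [mem_interior_iff_mem_nhds, Metric.mem_nhds_iff]
    refine ⟨ε, hε, fun y hy => ?_⟩
    obtain ⟨s, hs, hys⟩ := exists_sq y
    rw [mem_area]
    refine ⟨s, ?_, hys⟩
    by_contra hsW
    exact h2 ⟨s, hs, hsW, h y hy s hs hys⟩

theorem frontier_area {W : Finset Pt} (hW : ∀ s ∈ W, Sq s) : frontier (area W) = bdr W := by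
  rw [(isClosed_area W).frontier_eq, interior_area hW]
  ext x
  simp only [bdr, mem_sdiff, mem_ofPred_eq, not_and, not_not]
  constructor
  · rintro ⟨h1, h2⟩; exact ⟨h1, h2 h1⟩
  · rintro ⟨h1, h2⟩; exact ⟨h1, fun _ => h2⟩

theorem interior_area_nonempty {W : Finset Pt} (hW : ∀ s ∈ W, Sq s) (hne : W.Nonempty) :
    (interior (area W)).Nonempty := by
  obtain ⟨s, hs⟩ := hne
  refine ⟨(s.1 / 2, s.2 / 2), ?_⟩
  rw [interior_area hW]
  have e1 : |2 * ((s.1 : ℝ) / 2) - s.1| < 1 := by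
    rw [show 2 * ((s.1 : ℝ) / 2) - s.1 = 0 by ring]; simp
  have e2 : |2 * ((s.2 : ℝ) / 2) - s.2| < 1 := by
    rw [show 2 * ((s.2 : ℝ) / 2) - s.2 = 0 by ring]; simp
  refine ⟨mem_area.2 ⟨s, hs, e1.le, e2.le⟩, ?_⟩
  rintro ⟨t, ht, htW, hx⟩
  have := sq_interior (hW s hs) ht (x := (s.1 / 2, s.2 / 2)) e1 e2 hx
  rw [← this] at htW
  exact htW hs

/-- **the cut lemma in dimension 2, combinatorial form** -/
theorem cut2 {W1 W2 W : Finset Pt} (h1 : ∀ s ∈ W1, Sq s) (h2 : ∀ s ∈ W2, Sq s)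
    (hU : ∀ s, s ∈ W ↔ s ∈ W1 ∨ s ∈ W2) (hn1 : W1.Nonempty) (hn2 : W2.Nonempty)
    (LC : ∀ a ∈ W1, ((a.1 - 2, a.2) : Pt) ∉ W2) (hd : ∀ a ∈ W1, a ∉ W2)
    {p q : ℝ × ℝ} (hpq : p ≠ q)
    (hpz : ∃ m : ℤ, p.2 = m) (hqz : ∃ m : ℤ, q.2 = m)
    (hD : ∀ x, x ∈ area W1 → x ∈ area W2 → touch W x → x = p ∨ x = q)
    (hp : p ∈ area W1 ∧ p ∈ area W2 ∧ touch W p) (hq : q ∈ area W1 ∧ q ∈ area W2 ∧ touch W q)
    (hmid : ∃ x, x ∈ area W1 ∧ x ∈ area W2 ∧ x ≠ p ∧ x ≠ q)
    (H1 : StdC (bdr W1)) (H2 : StdC (bdr W2)) : StdC (bdr W) := by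
  set E1 : Set (ℝ × ℝ) := {x | x ∈ area W1 ∧ touch W x} with hE1
  set E2 : Set (ℝ × ℝ) := {x | x ∈ area W2 ∧ touch W x} with hE2
  set D : Set (ℝ × ℝ) := area W1 ∩ area W2 with hDdef
  have hb1 : bdr W1 = E1 ∪ D := by
    ext x
    simp only [bdr, hE1, hDdef, mem_ofPred_eq, mem_union, mem_inter_iff]
    constructor
    · rintro ⟨hx, t, ht, htW, hxt⟩
      by_cases h : t ∈ W2
      · exact Or.inr ⟨hx, mem_area.2 ⟨t, h, hxt⟩⟩
      · exact Or.inl ⟨hx, t, ht, fun hh => ((hU t).1 hh).elim htW h, hxt⟩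
    · rintro (⟨hx, t, ht, htW, hxt⟩ | ⟨hx, hx2⟩)
      · exact ⟨hx, t, ht, fun hh => htW ((hU t).2 (Or.inl hh)), hxt⟩
      · obtain ⟨t, ht, hxt⟩ := mem_area.1 hx2
        exact ⟨hx, t, h2 t ht, fun hh => hd t hh ht, hxt⟩
  have hb2 : bdr W2 = E2 ∪ D := by
    ext x
    simp only [bdr, hE2, hDdef, mem_ofPred_eq, mem_union, mem_inter_iff]
    constructor
    · rintro ⟨hx, t, ht, htW, hxt⟩
      by_cases h : t ∈ W1
      · exact Or.inr ⟨mem_area.2 ⟨t, h, hxt⟩, hx⟩
      · exact Or.inl ⟨hx, t, ht, fun hh => ((hU t).1 hh).elim h htW, hxt⟩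
    · rintro (⟨hx, t, ht, htW, hxt⟩ | ⟨hx2, hx⟩)
      · exact ⟨hx, t, ht, fun hh => htW ((hU t).2 (Or.inr hh)), hxt⟩
      · obtain ⟨t, ht, hxt⟩ := mem_area.1 hx2
        exact ⟨hx, t, h1 t ht, fun hh => hd t ht hh, hxt⟩
  have hb : bdr W = E1 ∪ E2 := by
    ext x
    simp only [bdr, hE1, hE2, mem_ofPred_eq, mem_union, mem_area]
    constructor
    · rintro ⟨⟨s, hs, hxs⟩, ht⟩
      rcases (hU s).1 hs with h | h
      · exact Or.inl ⟨⟨s, h, hxs⟩, ht⟩
      · exact Or.inr ⟨⟨s, h, hxs⟩, ht⟩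
    · rintro (⟨⟨s, hs, hxs⟩, ht⟩ | ⟨⟨s, hs, hxs⟩, ht⟩)
      · exact ⟨⟨s, (hU s).2 (Or.inl hs), hxs⟩, ht⟩
      · exact ⟨⟨s, (hU s).2 (Or.inr hs), hxs⟩, ht⟩
  have hc1 : IsClosed E1 := (isClosed_area W1).inter (isClosed_touch W)
  have hc2 : IsClosed E2 := (isClosed_area W2).inter (isClosed_touch W)
  have hcD : IsClosed D := (isClosed_area W1).inter (isClosed_area W2)
  have h12 : E1 ∩ E2 = {p, q} := by
    ext x
    simp only [hE1, hE2, mem_inter_iff, mem_ofPred_eq, mem_insert_iff, mem_singleton_iff]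
    constructor
    · rintro ⟨⟨a, b⟩, c, _⟩; exact hD x a c b
    · rintro (rfl | rfl)
      · exact ⟨⟨hp.1, hp.2.2⟩, hp.2.1, hp.2.2⟩
      · exact ⟨⟨hq.1, hq.2.2⟩, hq.2.1, hq.2.2⟩
  have h1D : E1 ∩ D = {p, q} := by
    ext x
    simp only [hE1, hDdef, mem_inter_iff, mem_ofPred_eq, mem_insert_iff, mem_singleton_iff]
    constructor
    · rintro ⟨⟨a, b⟩, c, d⟩; exact hD x a d b
    · rintro (rfl | rfl)
      · exact ⟨⟨hp.1, hp.2.2⟩, hp.1, hp.2.1⟩
      · exact ⟨⟨hq.1, hq.2.2⟩, hq.1, hq.2.1⟩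
  have h2D : E2 ∩ D = {p, q} := by
    ext x
    simp only [hE2, hDdef, mem_inter_iff, mem_ofPred_eq, mem_insert_iff, mem_singleton_iff]
    constructor
    · rintro ⟨⟨a, b⟩, c, d⟩; exact hD x c d b
    · rintro (rfl | rfl)
      · exact ⟨⟨hp.2.1, hp.2.2⟩, hp.1, hp.2.1⟩
      · exact ⟨⟨hq.2.1, hq.2.2⟩, hq.1, hq.2.1⟩
  -- a point with half-integer second coordinate is neither `p` nor `q`
  have hhalf : ∀ (m : Pt), Sq m → ∀ r : ℝ, ((r, (m.2 : ℝ) / 2) : ℝ × ℝ) ∉ ({p, q} : Set (ℝ × ℝ)) := by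
    intro m hm r hmem
    have key : ∀ z : ℝ × ℝ, (∃ k : ℤ, z.2 = k) → ((r, (m.2 : ℝ) / 2) : ℝ × ℝ) ≠ z := by
      rintro z ⟨k, hk⟩ rfl
      simp only at hk
      have e : (m.2 : ℝ) = 2 * k := by linarith
      have e' : m.2 = 2 * k := by exact_mod_cast e
      have := hm.2
      omega
    rcases hmem with h | h
    · exact key p hpz h
    · exact key q hqz h
  have hn1' : (E1 \ {p, q}).Nonempty := by
    obtain ⟨m, hm, hmin⟩ := Finset.exists_min_image W1 (fun s => s.1) hn1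
    refine ⟨(((m.1 : ℝ) - 1) / 2, (m.2 : ℝ) / 2), ⟨?_, ?_⟩, hhalf m (h1 m hm) _⟩
    · refine mem_area.2 ⟨m, hm, ?_, ?_⟩
      · simp only; rw [show 2 * (((m.1 : ℝ) - 1) / 2) - m.1 = -1 by ring]; simp
      · simp only; rw [show 2 * ((m.2 : ℝ) / 2) - m.2 = 0 by ring]; simp
    · refine ⟨(m.1 - 2, m.2), ?_, ?_, ?_, ?_⟩
      · have := h1 m hm
        refine ⟨?_, this.2⟩
        have h := this.1
        simp only; omega
      · intro hW
        rcases (hU _).1 hW with h | h
        · have := hmin _ h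
          simp only at this
          omega
        · exact LC m hm h
      · simp only; push_cast; rw [show 2 * (((m.1 : ℝ) - 1) / 2) - (m.1 - 2) = 1 by ring]; simp
      · simp only; rw [show 2 * ((m.2 : ℝ) / 2) - m.2 = 0 by ring]; simp
  have hn2' : (E2 \ {p, q}).Nonempty := by
    obtain ⟨m, hm, hmax⟩ := Finset.exists_max_image W2 (fun s => s.1) hn2
    refine ⟨(((m.1 : ℝ) + 1) / 2, (m.2 : ℝ) / 2), ⟨?_, ?_⟩, hhalf m (h2 m hm) _⟩
    · refine mem_area.2 ⟨m, hm, ?_, ?_⟩
      · simp only; rw [show 2 * (((m.1 : ℝ) + 1) / 2) - m.1 = 1 by ring]; simp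
      · simp only; rw [show 2 * ((m.2 : ℝ) / 2) - m.2 = 0 by ring]; simp
    · refine ⟨(m.1 + 2, m.2), ?_, ?_, ?_, ?_⟩
      · have := h2 m hm
        refine ⟨?_, this.2⟩
        have h := this.1
        simp only; omega
      · intro hW
        rcases (hU _).1 hW with h | h
        · apply LC _ h
          simpa using hm
        · have := hmax _ h
          simp only at this
          omega
      · simp only; push_cast; rw [show 2 * (((m.1 : ℝ) + 1) / 2) - (m.1 + 2) = -1 by ring]; simp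
      · simp only; rw [show 2 * ((m.2 : ℝ) / 2) - m.2 = 0 by ring]; simp
  have hnD' : (D \ {p, q}).Nonempty := by
    obtain ⟨x, hx1, hx2, hxp, hxq⟩ := hmid
    refine ⟨x, ⟨hx1, hx2⟩, ?_⟩
    rintro (h | h)
    · exact hxp h
    · exact hxq h
  rw [hb]
  rw [hb1] at H1
  rw [hb2] at H2
  exact StdC.cut_real hpq hc1 hc2 hcD h12 h1D h2D hn1' hn2' hnD' H1 H2

end Crest.Agent.R096.Al_63
end

-- ▼ part R096/Lr1_296
section

/-!
# R096/Lr1_296 (helper296, row 96, P2-REALISATION, part 1)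

Carriers in `(ℝ × ℝ) × ℝ` of mod 2 chains of cells in doubled coordinates. Key: the real number `x` lies
in the closed cell `a` iff its open cell `oc x = ⌊x⌋ + ⌈x⌉` is a face of `a`.
-/

set_option autoImplicit false

namespace Crest.Agent.R096.Lr_296

open Set Crest.Agent.R096.Lc_451 Crest.Agent.R096.Al_63

/-- the open cell which contains `x` (doubled coordinate) -/
noncomputable def oc (x : ℝ) : ℤ := ⌊x⌋ + ⌈x⌉

/-- the closed cell: `{c / 2}` for even `c`, `[(c - 1) / 2, (c + 1) / 2]` for odd `c` -/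
def iv (c : ℤ) : Set ℝ := {x | |2 * x - c| ≤ ((c % 2 : ℤ) : ℝ)}

theorem oc_cases (x : ℝ) : (∃ k : ℤ, x = k ∧ oc x = 2 * k) ∨
    (∃ k : ℤ, (k : ℝ) < x ∧ x < k + 1 ∧ oc x = 2 * k + 1) := by
  rcases eq_or_lt_of_le (Int.floor_le x) with h | h
  · left
    refine ⟨⌊x⌋, h.symm, ?_⟩
    unfold oc
    have : ⌈x⌉ = ⌊x⌋ := by
      rw [← h]
      simp
    rw [this]; ring
  · right
    refine ⟨⌊x⌋, h, Int.lt_floor_add_one x, ?_⟩
    unfold oc
    have : ⌈x⌉ = ⌊x⌋ + 1 := by
      rw [Int.ceil_eq_iff]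
      refine ⟨?_, ?_⟩
      · push_cast; linarith
      · push_cast; exact (Int.lt_floor_add_one x).le
    rw [this]; ring

theorem mem_iv {x : ℝ} {a : ℤ} : x ∈ iv a ↔ |oc x - a| ≤ a % 2 := by
  show |2 * x - a| ≤ ((a % 2 : ℤ) : ℝ) ↔ _
  rcases oc_cases x with ⟨k, rfl, h⟩ | ⟨k, h1, h2, h⟩
  · rw [h]
    have e : |2 * (k : ℝ) - a| = ((|2 * k - a| : ℤ) : ℝ) := by push_cast; rfl
    rw [e]
    exact Int.cast_le
  · rw [h]
    rcases Int.emod_two_eq_zero_or_one a with ha | ha
    · rw [ha, abs_le, abs_le]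
      constructor
      · rintro ⟨h3, h4⟩
        exfalso
        have e : (a : ℝ) = ((2 * (a / 2) : ℤ) : ℝ) := by
          rw [Int.mul_ediv_cancel' (Int.dvd_of_emod_eq_zero ha)]
        push_cast at e h3 h4
        have e1 : ((a / 2 : ℤ) : ℝ) < k + 1 := by linarith
        have e2 : (k : ℝ) < ((a / 2 : ℤ) : ℝ) := by linarith
        have e1' : a / 2 < k + 1 := by exact_mod_cast e1
        have e2' : k < a / 2 := by exact_mod_cast e2
        omega
      · intro h3
        exfalso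
        omega
    · rw [ha, abs_le, abs_le]
      constructor
      · rintro ⟨h3, h4⟩
        push_cast at h3 h4
        have e1 : (a : ℝ) < 2 * k + 3 := by linarith
        have e2 : (2 * k - 1 : ℝ) < a := by linarith
        have e1' : a < 2 * k + 3 := by exact_mod_cast e1
        have e2' : 2 * k - 1 < a := by exact_mod_cast e2
        omega
      · intro h3
        have : a = 2 * k + 1 := by omega
        rw [this]
        push_cast
        constructor <;> linarith

theorem mem_iv_odd {x : ℝ} {a : ℤ} (ha : a % 2 = 1) : x ∈ iv a ↔ |2 * x - a| ≤ 1 := by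
  show |2 * x - a| ≤ ((a % 2 : ℤ) : ℝ) ↔ _
  rw [ha]
  norm_num

theorem mem_iv_even {x : ℝ} {a : ℤ} (ha : a % 2 = 0) : x ∈ iv a ↔ x = a / 2 := by
  show |2 * x - a| ≤ ((a % 2 : ℤ) : ℝ) ↔ _
  rw [ha, Int.cast_zero, abs_nonpos_iff, sub_eq_zero, eq_div_iff (two_ne_zero' ℝ), mul_comm]

theorem iv_odd_eq {a : ℤ} (ha : a % 2 = 1) : iv a = Icc (((a : ℝ) - 1) / 2) ((a + 1) / 2) := by
  ext x
  rw [mem_iv_odd ha, abs_le, mem_Icc]
  constructor
  · rintro ⟨h1, h2⟩; constructor <;> linarith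
  · rintro ⟨h1, h2⟩; constructor <;> linarith

theorem oc_eq_iff {x : ℝ} {a : ℤ} (ha : a % 2 = 0) : oc x = a ↔ x = a / 2 := by
  rw [← mem_iv_even ha, mem_iv, ha, abs_nonpos_iff, sub_eq_zero]

theorem isClosed_iv (c : ℤ) : IsClosed (iv c) := isClosed_le (by fun_prop) continuous_const

theorem isCompact_iv (c : ℤ) : IsCompact (iv c) := by
  have h : iv c = Icc (((c : ℝ) - ((c % 2 : ℤ) : ℝ)) / 2) ((c + ((c % 2 : ℤ) : ℝ)) / 2) := by
    ext x
    show |2 * x - c| ≤ ((c % 2 : ℤ) : ℝ) ↔ _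
    rw [abs_le, mem_Icc]
    constructor
    · rintro ⟨h1, h2⟩; constructor <;> linarith
    · rintro ⟨h1, h2⟩; constructor <;> linarith
  rw [h]
  exact isCompact_Icc

/-- the open cell of a point of the plane -/
noncomputable def o2 (x : ℝ × ℝ) : Pt := (oc x.1, oc x.2)

/-- `q` is a face of `p` in the plane -/
def F2 (q p : Pt) : Prop := |q.1 - p.1| ≤ p.1 % 2 ∧ |q.2 - p.2| ≤ p.2 % 2

/-- `(q, w)` is a face of `(p, z)` -/
def Fa (q : Pt) (w : ℤ) (p : Pt) (z : ℤ) : Prop := F2 q p ∧ |w - z| ≤ z % 2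

theorem F2.refl (q : Pt) : F2 q q := by
  constructor
  · rw [sub_self, abs_zero]; omega
  · rw [sub_self, abs_zero]; omega

theorem F2.trans {q e p : Pt} (h1 : F2 q e) (h2 : F2 e p) : F2 q p := by
  unfold F2 at *
  simp only [abs_le] at *
  omega

theorem Fa.trans {q e p : Pt} {w u z : ℤ} (h1 : Fa q w e u) (h2 : Fa e u p z) : Fa q w p z := by
  refine ⟨h1.1.trans h2.1, ?_⟩
  have a := h1.2
  have b := h2.2
  simp only [abs_le] at *
  omega

/-- the closed cell `(p, z)` -/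
def cl (p : Pt) (z : ℤ) : Set ((ℝ × ℝ) × ℝ) := (iv p.1 ×ˢ iv p.2) ×ˢ iv z

theorem mem_cl {x : (ℝ × ℝ) × ℝ} {p : Pt} {z : ℤ} : x ∈ cl p z ↔ Fa (o2 x.1) (oc x.2) p z := by
  show (x.1.1 ∈ iv p.1 ∧ x.1.2 ∈ iv p.2) ∧ x.2 ∈ iv z ↔ _
  rw [mem_iv, mem_iv, mem_iv]
  rfl

theorem isCompact_cl (p : Pt) (z : ℤ) : IsCompact (cl p z) :=
  ((isCompact_iv _).prod (isCompact_iv _)).prod (isCompact_iv _)

/-- the carrier of a chain -/
def car (S : Pt → ℤ → ZMod 2) : Set ((ℝ × ℝ) × ℝ) :=
  ⋃ q ∈ {q : Pt × ℤ | S q.1 q.2 ≠ 0}, cl q.1 q.2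

theorem mem_car {S : Pt → ℤ → ZMod 2} {x : (ℝ × ℝ) × ℝ} :
    x ∈ car S ↔ ∃ p z, S p z ≠ 0 ∧ Fa (o2 x.1) (oc x.2) p z := by
  unfold car
  simp only [mem_iUnion]
  constructor
  · rintro ⟨⟨p, z⟩, h, hx⟩
    exact ⟨p, z, h, mem_cl.1 hx⟩
  · rintro ⟨p, z, h, hx⟩
    exact ⟨⟨p, z⟩, h, mem_cl.2 hx⟩

theorem isCompact_car {S : Pt → ℤ → ZMod 2} (h : {q : Pt × ℤ | S q.1 q.2 ≠ 0}.Finite) :
    IsCompact (car S) := h.isCompact_biUnion fun _ _ => isCompact_cl _ _

theorem sq_iff {s : Pt} (hs : Sq s) {x : ℝ × ℝ} : x ∈ sq s ↔ F2 (o2 x) s := by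
  show |2 * x.1 - s.1| ≤ 1 ∧ |2 * x.2 - s.2| ≤ 1 ↔ _
  rw [← mem_iv_odd hs.1, ← mem_iv_odd hs.2, mem_iv, mem_iv]
  rfl

theorem mem_area' {W : Finset Pt} (hW : ∀ s ∈ W, Sq s) {x : ℝ × ℝ} :
    x ∈ area W ↔ ∃ s ∈ W, F2 (o2 x) s := by
  rw [mem_area]
  constructor
  · rintro ⟨s, hs, hx⟩; exact ⟨s, hs, (sq_iff (hW s hs)).1 hx⟩
  · rintro ⟨s, hs, hx⟩; exact ⟨s, hs, (sq_iff (hW s hs)).2 hx⟩

/-- the carrier of the flat disc -/
theorem car_layer {W : Finset Pt} (hW : ∀ s ∈ W, Sq s) {h : ℤ} (hh : h % 2 = 0) :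
    car (layer W h) = area W ×ˢ {(h / 2 : ℝ)} := by
  ext x
  rw [mem_car, mem_prod, mem_area' hW, mem_singleton_iff, ← oc_eq_iff hh]
  constructor
  · rintro ⟨p, z, h1, h2, h3⟩
    obtain ⟨rfl, hp⟩ := layer_ne h1
    refine ⟨⟨p, hp, h2⟩, ?_⟩
    rw [hh, abs_nonpos_iff, sub_eq_zero] at h3
    exact h3
  · rintro ⟨⟨s, hs, h1⟩, h2⟩
    refine ⟨s, h, ?_, h1, ?_⟩
    · unfold layer
      rw [if_pos ⟨rfl, hs⟩]
      decide
    · rw [h2, sub_self, abs_zero, hh]

/-- the boundary curve -/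
theorem mem_bdr {W : Finset Pt} (hW : ∀ s ∈ W, Sq s) {x : ℝ × ℝ} :
    x ∈ bdr W ↔ ∃ e, bd2 (ind W) e ≠ 0 ∧ F2 (o2 x) e := by
  constructor
  · rintro ⟨h1, t, ht, htW, hxt⟩
    obtain ⟨s, hs, hxs⟩ := (mem_area' hW).1 h1
    have hsq := hW s hs
    rw [sq_iff ht] at hxt
    have hst : s ≠ t := fun h => htW (h ▸ hs)
    by_contra hcon
    push Not at hcon
    set q := o2 x with hq
    obtain ⟨x1, y1⟩ := q
    obtain ⟨s1, s2⟩ := s
    obtain ⟨t1, t2⟩ := t
    obtain ⟨hs1, hs2⟩ := hsq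
    obtain ⟨ht1, ht2⟩ := ht
    obtain ⟨a1, a2⟩ := hxs
    obtain ⟨b1, b2⟩ := hxt
    simp only [abs_le] at hs1 hs2 ht1 ht2 a1 a2 b1 b2
    rw [hs1] at a1
    rw [hs2] at a2
    rw [ht1] at b1
    rw [ht2] at b2
    have hne : ¬ (s1 = t1 ∧ s2 = t2) := fun h => hst (by rw [h.1, h.2])
    have hsW : ind W (s1, s2) = 1 := ind_mem hs
    have htW' : ind W (t1, t2) = 0 := ind_not htW
    rcases Int.emod_two_eq_zero_or_one x1 with hx | hx
    · rcases Int.emod_two_eq_zero_or_one y1 with hy | hy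
      · -- vertex
        have hno : ¬ OnC (bd2 (ind W)) (x1, y1) := by
          rintro ⟨_, h | h | h | h⟩
          · exact hcon _ h (by unfold F2; simp only [abs_le]; omega)
          · exact hcon _ h (by unfold F2; simp only [abs_le]; omega)
          · exact hcon _ h (by unfold F2; simp only [abs_le]; omega)
          · exact hcon _ h (by unfold F2; simp only [abs_le]; omega)
        have cs : (s1 = x1 + 1 ∨ s1 = x1 - 1) ∧ (s2 = y1 + 1 ∨ s2 = y1 - 1) := by omega
        have ct : (t1 = x1 + 1 ∨ t1 = x1 - 1) ∧ (t2 = y1 + 1 ∨ t2 = y1 - 1) := by omega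
        rcases not_OnC hx hy hno with ⟨c1, c2, c3, c4⟩ | ⟨c1, c2, c3, c4⟩
        · rcases ct with ⟨rfl | rfl, rfl | rfl⟩
          · exact htW c1
          · exact htW c2
          · exact htW c3
          · exact htW c4
        · rcases cs with ⟨rfl | rfl, rfl | rfl⟩
          · exact c1 hs
          · exact c2 hs
          · exact c3 hs
          · exact c4 hs
      · -- vertical edge
        have h0 := hcon (x1, y1)
        have hz : bd2 (ind W) (x1, y1) = 0 := by
          by_contra h; exact h0 h (F2.refl _)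
        rw [bd2_ev hx hy] at hz
        have cs : (s1 = x1 + 1 ∨ s1 = x1 - 1) ∧ s2 = y1 := by omega
        have ct : (t1 = x1 + 1 ∨ t1 = x1 - 1) ∧ t2 = y1 := by omega
        obtain ⟨c1, rfl⟩ := cs
        obtain ⟨c2, c3⟩ := ct
        subst c3
        rcases c1 with rfl | rfl
        · rcases c2 with rfl | rfl
          · exact hne ⟨rfl, rfl⟩
          · rw [hsW, htW'] at hz; exact absurd hz (by decide)
        · rcases c2 with rfl | rfl
          · rw [hsW, htW'] at hz; exact absurd hz (by decide)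
          · exact hne ⟨rfl, rfl⟩
    · rcases Int.emod_two_eq_zero_or_one y1 with hy | hy
      · have h0 := hcon (x1, y1)
        have hz : bd2 (ind W) (x1, y1) = 0 := by
          by_contra h; exact h0 h (F2.refl _)
        rw [bd2_eh hx hy] at hz
        have cs : (s2 = y1 + 1 ∨ s2 = y1 - 1) ∧ s1 = x1 := by omega
        have ct : (t2 = y1 + 1 ∨ t2 = y1 - 1) ∧ t1 = x1 := by omega
        obtain ⟨c1, rfl⟩ := cs
        obtain ⟨c2, c3⟩ := ct
        subst c3
        rcases c1 with rfl | rfl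
        · rcases c2 with rfl | rfl
          · exact hne ⟨rfl, rfl⟩
          · rw [hsW, htW'] at hz; exact absurd hz (by decide)
        · rcases c2 with rfl | rfl
          · rw [hsW, htW'] at hz; exact absurd hz (by decide)
          · exact hne ⟨rfl, rfl⟩
      · exact hne (by omega)
  · rintro ⟨e, he, h⟩
    obtain ⟨s, t, hs, ht, hst, hm⟩ := c_sides hW he
    obtain ⟨_, htq, _⟩ := bd2_mid (hW s hs) hst
    have hsq := hW s hs
    refine ⟨(mem_area' hW).2 ⟨s, hs, h.trans ?_⟩, t, htq, ht, (sq_iff htq).2 (h.trans ?_)⟩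
    · rw [← hm]
      obtain ⟨s1, s2⟩ := s
      obtain ⟨t1, t2⟩ := t
      obtain ⟨h1, h2⟩ := hsq
      obtain ⟨h3, h4⟩ := htq
      unfold nb at hst
      unfold mid F2
      simp only [Prod.mk.injEq, abs_le] at *
      omega
    · rw [← hm]
      obtain ⟨s1, s2⟩ := s
      obtain ⟨t1, t2⟩ := t
      obtain ⟨h1, h2⟩ := hsq
      obtain ⟨h3, h4⟩ := htq
      unfold nb at hst
      unfold mid F2
      simp only [Prod.mk.injEq, abs_le] at *
      omega

/-- the three cases for a face of a square -/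
theorem Fa.cases {q p : Pt} {w z : ℤ} (h : Fa q w p z) (hD : D2 p z) :
    (q = p ∧ w = z) ∨ (D1 q w ∧ Cf q w p z) ∨ (Vx q ∧ w % 2 = 0 ∧ Nr q w p z) := by
  obtain ⟨q1, q2⟩ := q
  obtain ⟨p1, p2⟩ := p
  obtain ⟨⟨h1, h2⟩, h3⟩ := h
  unfold D2 Sq Ed at hD
  unfold D1 Cf Vx Ed Nr
  simp only [Prod.mk.injEq, abs_le] at *
  have hp1 := Int.emod_two_eq_zero_or_one p1
  have hp2 := Int.emod_two_eq_zero_or_one p2
  have hz := Int.emod_two_eq_zero_or_one z
  rcases hp1 with hp1 | hp1 <;> rcases hp2 with hp2 | hp2 <;> rcases hz with hz | hz <;>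
    rw [hp1] at h1 <;> rw [hp2] at h2 <;> rw [hz] at h3 <;> omega

theorem Fa_of_Cf {q p : Pt} {w z : ℤ} (h : Cf q w p z) : Fa q w p z := by
  obtain ⟨q1, q2⟩ := q
  obtain ⟨p1, p2⟩ := p
  unfold Cf at h
  unfold Fa F2
  simp only [Prod.mk.injEq, abs_le] at *
  omega

end Crest.Agent.R096.Lr_296
end

-- ▼ part R096/Al3_63
section

/-!
# R096/Al3_63 (helper63, row 96, P2-ALEX, dimension 2, part 3)

`std2`: a finite nonempty connected hole-free set of lattice squares is a PL disc.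
Induction: remove the last square of the top row, or cut below it.
-/

set_option autoImplicit false

namespace Crest.Agent.R096.Al_63

open Set Crest.Agent.R096.Lc_451 Crest.Agent.R096.Pl

theorem std_single {s : Pt} (hs : Sq s) : StdC (bdr {s}) := by
  have h : area {s} = sq s := by simp [area]
  rw [← frontier_area (W := {s}) (by simpa using hs), h, sq_eq]
  exact StdC.box2 (by linarith) (by linarith)

/-- nothing of `W` above `s` -/
def Top (W : Finset Pt) (s : Pt) : Prop := ∀ t ∈ W, t.2 ≤ s.2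

/-- a finite set which is closed relative to `V` and contains `s` cannot exist if nothing above `s`
is in `V` -/
theorem no_top {V T : Finset Pt} {s : Pt} (hV : ∀ t ∈ V, t.2 ≤ s.2)
    (hT : ∀ t ∈ T, ∀ t', nb t t' → t' ∈ T ∨ t' ∈ V) : s ∉ T := by
  intro hs
  obtain ⟨m, hm, hmax⟩ := Finset.exists_max_image T (fun p => p.2) ⟨s, hs⟩
  have h1 := hmax s hs
  rcases hT m hm (m.1, m.2 + 2) (Or.inr (Or.inr (Or.inl rfl))) with h | h
  · have := hmax _ h
    simp only at this
    omega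
  · have := hV _ h
    simp only at this h1
    omega

theorem HF_erase {W : Finset Pt} {s : Pt} (hHF : HF W) (ht : Top W s) : HF (W.erase s) := by
  intro T hdis hT
  have hsT : s ∉ T := no_top (V := W.erase s) (fun t h => ht t (Finset.mem_of_mem_erase h)) hT
  apply hHF T
  · rw [Finset.disjoint_left] at hdis ⊢
    intro t htT htW
    have : t ≠ s := fun h => hsT (h ▸ htT)
    exact hdis htT (Finset.mem_erase.2 ⟨this, htW⟩)
  · intro t htT t' htt
    rcases hT t htT t' htt with h | h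
    · exact Or.inl h
    · exact Or.inr (Finset.mem_of_mem_erase h)

/-- if all neighbours of `s` in `W` lie in every closed set meeting one of them, `W - s` is
connected -/
theorem Con_erase {W : Finset Pt} {s : Pt} (hC : Con W) (hs : s ∈ W)
    (key : ∀ B ⊆ W.erase s, (∀ x ∈ B, ∀ t ∈ W.erase s, nb x t → t ∈ B) →
      (∀ x ∈ B, ¬ nb x s) ∨ (∀ x ∈ W.erase s, nb x s → x ∈ B)) : Con (W.erase s) := by
  intro B hB hcl
  have fin : ∀ B ⊆ W.erase s, (∀ x ∈ B, ∀ t ∈ W.erase s, nb x t → t ∈ B) →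
      (∀ x ∈ B, ¬ nb x s) → B = ∅ := by
    intro B hB hcl hn
    have hcl' : ∀ x ∈ B, ∀ t ∈ W, nb x t → t ∈ B := by
      intro x hx t ht hxt
      by_cases hts : t = s
      · rw [hts] at hxt
        exact absurd hxt (hn x hx)
      · exact hcl x hx t (Finset.mem_erase.2 ⟨hts, ht⟩) hxt
    rcases hC B (hB.trans (Finset.erase_subset _ _)) hcl' with h | h
    · exact h
    · have : s ∈ B := by rw [h]; exact hs
      exact absurd (hB this) (Finset.notMem_erase _ _)
  rcases key B hB hcl with h | h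
  · exact Or.inl (fin B hB hcl h)
  · right
    have hc : W.erase s \ B = ∅ := by
      apply fin _ Finset.sdiff_subset
      · intro x hx t ht hxt
        rw [Finset.mem_sdiff] at hx ⊢
        refine ⟨ht, fun htB => hx.2 (hcl t htB x hx.1 hxt.symm)⟩
      · intro x hx hxs
        rw [Finset.mem_sdiff] at hx
        exact hx.2 (h x hx.1 hxs)
    exact Finset.Subset.antisymm hB (Finset.sdiff_eq_empty_iff_subset.1 hc)

/-- the component of `d` in `V` -/
theorem exists_comp {V : Finset Pt} {d : Pt} (hd : d ∈ V) : ∃ B ⊆ V, d ∈ B ∧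
    (∀ x ∈ B, ∀ t ∈ V, nb x t → t ∈ B) ∧ Con B := by
  classical
  let Fam := V.powerset.filter (fun B => d ∈ B ∧ ∀ x ∈ B, ∀ t ∈ V, nb x t → t ∈ B)
  have hmem : ∀ B, B ∈ Fam ↔ B ⊆ V ∧ d ∈ B ∧ ∀ x ∈ B, ∀ t ∈ V, nb x t → t ∈ B := by
    intro B; simp only [Fam, Finset.mem_filter, Finset.mem_powerset]
  obtain ⟨B, hB, hmin⟩ := Finset.exists_min_image Fam Finset.card
    ⟨V, (hmem V).2 ⟨Finset.Subset.refl _, hd, fun _ _ t ht _ => ht⟩⟩
  obtain ⟨h1, h2, h3⟩ := (hmem B).1 hB
  refine ⟨B, h1, h2, h3, ?_⟩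
  intro T hT hcl
  have closed : ∀ x ∈ T, ∀ t ∈ V, nb x t → t ∈ T := fun x hx t ht hxt =>
    hcl x hx t (h3 x (hT hx) t ht hxt) hxt
  by_cases hdT : d ∈ T
  · right
    have hf : T ∈ Fam := (hmem T).2 ⟨hT.trans h1, hdT, closed⟩
    exact Finset.eq_of_subset_of_card_le hT (hmin T hf)
  · left
    have hf : B \ T ∈ Fam := by
      rw [hmem]
      refine ⟨Finset.sdiff_subset.trans h1, Finset.mem_sdiff.2 ⟨h2, hdT⟩, ?_⟩
      intro x hx t ht hxt
      rw [Finset.mem_sdiff] at hx ⊢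
      exact ⟨h3 x hx.1 t ht hxt, fun htT => hx.2 (closed t htT x (h1 hx.1) hxt.symm)⟩
    have := Finset.eq_of_subset_of_card_le Finset.sdiff_subset (hmin _ hf)
    rw [Finset.sdiff_eq_self_iff_disjoint] at this
    rw [← Finset.disjoint_self_iff_empty]
    exact Finset.disjoint_of_subset_left hT this

theorem hmemW_aux {W : Finset Pt} {t t' : Pt} (h : t = t') (ht : t ∈ W) : t' ∈ W := h ▸ ht

theorem std2_aux : ∀ (n : ℕ) (W : Finset Pt), W.card = n → (∀ s ∈ W, Sq s) → W.Nonempty →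
    Con W → HF W → StdC (bdr W) := by
  intro n
  induction n using Nat.strong_induction_on with
  | _ n IH =>
  intro W hcard hW hne hC hHF
  classical
  -- the last square of the top row
  obtain ⟨s, hsW, hTop, hlast⟩ : ∃ s ∈ W, Top W s ∧ ∀ t ∈ W, t.2 = s.2 → t.1 ≤ s.1 := by
    obtain ⟨s0, hs0, hmax0⟩ := Finset.exists_max_image W (fun p => p.2) hne
    obtain ⟨s, hs, hmax⟩ := Finset.exists_max_image (W.filter (fun t => t.2 = s0.2)) (fun p => p.1)
      ⟨s0, Finset.mem_filter.2 ⟨hs0, rfl⟩⟩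
    rw [Finset.mem_filter] at hs
    refine ⟨s, hs.1, fun t ht => by rw [hs.2]; exact hmax0 t ht, fun t ht h => ?_⟩
    exact hmax t (Finset.mem_filter.2 ⟨ht, h.trans hs.2⟩)
  have hsS := hW s hsW
  obtain ⟨x0, y0⟩ := s
  simp only [Top] at hTop
  simp only at hlast
  have hsS1 : x0 % 2 = 1 := hsS.1
  have hsS2 : y0 % 2 = 1 := hsS.2
  have hR : ((x0 + 2, y0) : Pt) ∉ W := fun h => by have := hlast _ h rfl; simp only at this; omega
  have hU : ((x0, y0 + 2) : Pt) ∉ W := fun h => by have := hTop _ h; simp only at this; omega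
  have sqR : Sq (x0 + 2, y0) := ⟨by simp only; omega, hsS2⟩
  have sqU : Sq (x0, y0 + 2) := ⟨hsS1, by simp only; omega⟩
  have sqL : Sq (x0 - 2, y0) := ⟨by simp only; omega, hsS2⟩
  have sqD : Sq (x0, y0 - 2) := ⟨hsS1, by simp only; omega⟩
  have sqDL : Sq (x0 - 2, y0 - 2) := ⟨by simp only; omega, by simp only; omega⟩
  have hmemW : ∀ (t : Pt) (a b : ℤ), t.1 = a → t.2 = b → ((a, b) : Pt) ∈ W → t ∈ W := by
    intro t a b h1 h2 h
    have : t = (a, b) := Prod.ext h1 h2
    rw [this]; exact h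
  -- points of the bottom edge of `s`
  have bottom : ∀ x : ℝ × ℝ, 2 * x.2 = y0 - 1 → x ∈ sq (x0, y0) → ((x0, y0 - 2) : Pt) ∈ W →
      touch W x → 2 * x.1 = x0 - 1 ∨ 2 * x.1 = x0 + 1 := by
    rintro x hx hxs hd ⟨t, ht, htW, hxt⟩
    rcases two1 hsS1 ht.1 hxs.1 hxt.1 with h | ⟨_, h⟩ | ⟨_, h⟩
    · exfalso
      rcases two1 hsS2 ht.2 hxs.2 hxt.2 with h' | ⟨h'', h'⟩ | ⟨h'', h'⟩
      · exact htW (hmemW t _ _ h.symm h'.symm hsW)
      · linarith
      · exact htW (hmemW t _ _ h.symm h'' hd)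
    · exact Or.inr h
    · exact Or.inl h
  -- points of the left edge of `s`
  have leftE : ∀ x : ℝ × ℝ, 2 * x.1 = x0 - 1 → x ∈ sq (x0, y0) → ((x0 - 2, y0) : Pt) ∈ W →
      touch W x → 2 * x.2 = y0 - 1 ∨ 2 * x.2 = y0 + 1 := by
    rintro x hx hxs hd ⟨t, ht, htW, hxt⟩
    rcases two1 hsS2 ht.2 hxs.2 hxt.2 with h | ⟨_, h⟩ | ⟨_, h⟩
    · exfalso
      rcases two1 hsS1 ht.1 hxs.1 hxt.1 with h' | ⟨h'', h'⟩ | ⟨h'', h'⟩
      · exact htW (hmemW t _ _ h'.symm h.symm hsW)
      · linarith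
      · exact htW (hmemW t _ _ h'' h.symm hd)
    · exact Or.inr h
    · exact Or.inl h
  -- integer second coordinates
  have hint1 : ∃ m : ℤ, ((y0 : ℝ) - 1) / 2 = m := by
    refine ⟨y0 / 2, ?_⟩
    have h : y0 = 2 * (y0 / 2) + 1 := by omega
    have : (y0 : ℝ) = 2 * ((y0 / 2 : ℤ) : ℝ) + 1 := by exact_mod_cast h
    rw [this]; ring
  have hint2 : ∃ m : ℤ, ((y0 : ℝ) + 1) / 2 = m := by
    obtain ⟨m, hm⟩ := hint1
    refine ⟨m + 1, ?_⟩
    push_cast
    rw [← hm]; ring
  -- squares of `W` touching `s`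
  have around : ∀ (x : ℝ × ℝ) (r : Pt), r ∈ W → r ≠ (x0, y0) → x ∈ sq (x0, y0) → x ∈ sq r →
      (r = (x0 - 2, y0) ∧ 2 * x.1 = x0 - 1) ∨
      (2 * x.2 = y0 - 1 ∧ (r = (x0, y0 - 2) ∨ (r = (x0 - 2, y0 - 2) ∧ 2 * x.1 = x0 - 1) ∨
        (r = (x0 + 2, y0 - 2) ∧ 2 * x.1 = x0 + 1))) := by
    intro x r hr hne' hxs hxr
    have h1 := hTop r hr
    rcases two1 hsS2 (hW r hr).2 hxs.2 hxr.2 with h | ⟨h', h⟩ | ⟨h', h⟩
    · left
      have h2 := hlast r hr h.symm
      rcases two1 hsS1 (hW r hr).1 hxs.1 hxr.1 with k | ⟨k', k⟩ | ⟨k', k⟩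
      · exact absurd (Prod.ext k.symm h.symm) hne'
      · omega
      · exact ⟨Prod.ext k' h.symm, k⟩
    · omega
    · right
      refine ⟨h, ?_⟩
      rcases two1 hsS1 (hW r hr).1 hxs.1 hxr.1 with k | ⟨k', k⟩ | ⟨k', k⟩
      · exact Or.inl (Prod.ext k.symm h')
      · exact Or.inr (Or.inr ⟨Prod.ext k' h', k⟩)
      · exact Or.inr (Or.inl ⟨Prod.ext k' h', k⟩)
  -- neighbours of `s` in `W`
  have nbs : ∀ x ∈ W, nb x (x0, y0) → x = (x0 - 2, y0) ∨ x = (x0, y0 - 2) := by
    intro x hx h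
    rcases h.symm with h | h | h | h
    · rw [h] at hx; exact absurd hx hR
    · exact Or.inl h
    · rw [h] at hx; exact absurd hx hU
    · exact Or.inr h
  -- the cut off of the single square `s`
  have single : ∀ p q : ℝ × ℝ, p ≠ q → (∃ m : ℤ, p.2 = m) → (∃ m : ℤ, q.2 = m) →
      Con (W.erase (x0, y0)) → (W.erase (x0, y0)).Nonempty →
      (∀ x, x ∈ area (W.erase (x0, y0)) → x ∈ sq (x0, y0) → touch W x → x = p ∨ x = q) →
      (p ∈ area (W.erase (x0, y0)) ∧ p ∈ sq (x0, y0) ∧ touch W p) →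
      (q ∈ area (W.erase (x0, y0)) ∧ q ∈ sq (x0, y0) ∧ touch W q) →
      (∃ x, x ∈ area (W.erase (x0, y0)) ∧ x ∈ sq (x0, y0) ∧ x ≠ p ∧ x ≠ q) → StdC (bdr W) := by
    intro p q hpq hpz hqz hCe hnee hD hp hq hmid
    have harea : area {((x0, y0) : Pt)} = sq (x0, y0) := by simp [area]
    refine cut2 (W1 := W.erase (x0, y0)) (W2 := {(x0, y0)}) (W := W)
      (fun t ht => hW t (Finset.mem_of_mem_erase ht)) (by simpa using hsS) ?_ hnee (by simp) ?_ ?_
      hpq hpz hqz (by rw [harea]; exact hD) (by rw [harea]; exact hp) (by rw [harea]; exact hq)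
      (by rw [harea]; exact hmid) ?_ (std_single hsS)
    · intro t
      rw [Finset.mem_erase, Finset.mem_singleton]
      constructor
      · intro h
        by_cases hh : t = (x0, y0)
        · exact Or.inr hh
        · exact Or.inl ⟨hh, h⟩
      · rintro (h | h)
        · exact h.2
        · rw [h]; exact hsW
    · intro t ht h
      rw [Finset.mem_singleton, Prod.ext_iff] at h
      simp only at h
      apply hR
      refine hmemW_aux ?_ (Finset.mem_of_mem_erase ht)
      exact Prod.ext (by simp only; omega) (by simp only; omega)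
    · intro t ht h
      rw [Finset.mem_singleton] at h
      rw [h] at ht
      exact absurd ht (Finset.notMem_erase _ _)
    · refine IH _ ?_ (W.erase (x0, y0)) rfl (fun t ht => hW t (Finset.mem_of_mem_erase ht)) hnee hCe
        (HF_erase hHF hTop)
      rw [← hcard]
      exact Finset.card_erase_lt_of_mem hsW
  -- membership of special points
  have pBL : (((x0 : ℝ) - 1) / 2, ((y0 : ℝ) - 1) / 2) ∈ sq (x0, y0) := by
    refine ⟨?_, ?_⟩ <;> simp only <;> rw [abs_le] <;> constructor <;> linarith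
  have pBR : (((x0 : ℝ) + 1) / 2, ((y0 : ℝ) - 1) / 2) ∈ sq (x0, y0) := by
    refine ⟨?_, ?_⟩ <;> simp only <;> rw [abs_le] <;> constructor <;> linarith
  have pTL : (((x0 : ℝ) - 1) / 2, ((y0 : ℝ) + 1) / 2) ∈ sq (x0, y0) := by
    refine ⟨?_, ?_⟩ <;> simp only <;> rw [abs_le] <;> constructor <;> linarith
  have inD : ∀ r : ℝ, (((x0 : ℝ) + r) / 2, ((y0 : ℝ) - 1) / 2) ∈ sq (x0, y0 - 2) ↔ |r| ≤ 1 := by
    intro r
    unfold sq
    simp only [mem_ofPred_eq]
    push_cast
    rw [show 2 * (((x0 : ℝ) + r) / 2) - x0 = r by ring,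
      show 2 * (((y0 : ℝ) - 1) / 2) - (y0 - 2) = 1 by ring]
    simp
  have inD' : ∀ r : ℝ, (((x0 : ℝ) + r) / 2, ((y0 : ℝ) - 1) / 2) ∈ sq (x0, y0) ↔ |r| ≤ 1 := by
    intro r
    unfold sq
    simp only [mem_ofPred_eq]
    rw [show 2 * (((x0 : ℝ) + r) / 2) - x0 = r by ring,
      show 2 * (((y0 : ℝ) - 1) / 2) - y0 = -1 by ring]
    simp
  have inL : ∀ r : ℝ, (((x0 : ℝ) - 1) / 2, ((y0 : ℝ) + r) / 2) ∈ sq (x0 - 2, y0) ↔ |r| ≤ 1 := by
    intro r
    unfold sq
    simp only [mem_ofPred_eq]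
    push_cast
    rw [show 2 * (((y0 : ℝ) + r) / 2) - y0 = r by ring,
      show 2 * (((x0 : ℝ) - 1) / 2) - (x0 - 2) = 1 by ring]
    simp
  have inL' : ∀ r : ℝ, (((x0 : ℝ) - 1) / 2, ((y0 : ℝ) + r) / 2) ∈ sq (x0, y0) ↔ |r| ≤ 1 := by
    intro r
    unfold sq
    simp only [mem_ofPred_eq]
    rw [show 2 * (((y0 : ℝ) + r) / 2) - y0 = r by ring,
      show 2 * (((x0 : ℝ) - 1) / 2) - x0 = -1 by ring]
    simp
  have one : |(1 : ℝ)| ≤ 1 := by simp
  have mone : |(-1 : ℝ)| ≤ 1 := by simp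
  have zer : |(0 : ℝ)| ≤ 1 := by simp
  have tTL : touch W (((x0 : ℝ) - 1) / 2, ((y0 : ℝ) + 1) / 2) := by
    refine ⟨(x0, y0 + 2), sqU, hU, ?_, ?_⟩ <;> simp only <;> push_cast <;> rw [abs_le] <;>
      constructor <;> linarith
  have tBR : touch W (((x0 : ℝ) + 1) / 2, ((y0 : ℝ) - 1) / 2) := by
    refine ⟨(x0 + 2, y0), sqR, hR, ?_, ?_⟩ <;> simp only <;> push_cast <;> rw [abs_le] <;>
      constructor <;> linarith
  by_cases hL : ((x0 - 2, y0) : Pt) ∈ W
  · have hLe : ((x0 - 2, y0) : Pt) ∈ W.erase (x0, y0) :=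
      Finset.mem_erase.2 ⟨fun h => by rw [Prod.ext_iff] at h; simp only at h; omega, hL⟩
    by_cases hDn : ((x0, y0 - 2) : Pt) ∈ W
    · have hDe : ((x0, y0 - 2) : Pt) ∈ W.erase (x0, y0) :=
        Finset.mem_erase.2 ⟨fun h => by rw [Prod.ext_iff] at h; simp only at h; omega, hDn⟩
      by_cases hDL : ((x0 - 2, y0 - 2) : Pt) ∈ W
      · -- case 2
        have hDLe : ((x0 - 2, y0 - 2) : Pt) ∈ W.erase (x0, y0) :=
          Finset.mem_erase.2 ⟨fun h => by rw [Prod.ext_iff] at h; simp only at h; omega, hDL⟩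
        have n1 : nb ((x0 - 2, y0) : Pt) (x0 - 2, y0 - 2) := by
          right; right; right; rfl
        have n2 : nb ((x0, y0 - 2) : Pt) (x0 - 2, y0 - 2) := by
          right; left; rfl
        refine single (((x0 : ℝ) - 1) / 2, ((y0 : ℝ) + 1) / 2) (((x0 : ℝ) + 1) / 2, ((y0 : ℝ) - 1) / 2)
          ?_ hint2 hint1 ?_ ⟨_, hLe⟩ ?_ ⟨?_, pTL, tTL⟩ ⟨?_, pBR, tBR⟩ ?_
        · intro h
          rw [Prod.ext_iff] at h
          simp only at h
          linarith [h.1]
        · apply Con_erase hC hsW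
          intro B hB hcl
          by_cases hb : ((x0 - 2, y0 - 2) : Pt) ∈ B
          · right
            intro x hx hxs
            rcases nbs x (Finset.mem_of_mem_erase hx) hxs with rfl | rfl
            · exact hcl _ hb _ hLe n1.symm
            · exact hcl _ hb _ hDe n2.symm
          · left
            intro x hx hxs
            apply hb
            rcases nbs x (Finset.mem_of_mem_erase (hB hx)) hxs with rfl | rfl
            · exact hcl _ hx _ hDLe n1
            · exact hcl _ hx _ hDLe n2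
        · intro x hx hxs htx
          obtain ⟨r, hr, hxr⟩ := mem_area.1 hx
          have hcorner : 2 * x.1 = x0 - 1 → 2 * x.2 = y0 - 1 → False := by
            intro k1 k2
            obtain ⟨t, ht, htW, hxt⟩ := htx
            rcases two1 hsS1 ht.1 hxs.1 hxt.1 with h | ⟨_, h⟩ | ⟨h, _⟩
            · rcases two1 hsS2 ht.2 hxs.2 hxt.2 with h' | ⟨_, h'⟩ | ⟨h', _⟩
              · exact htW (hmemW t _ _ h.symm h'.symm hsW)
              · linarith
              · exact htW (hmemW t _ _ h.symm h' hDn)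
            · linarith
            · rcases two1 hsS2 ht.2 hxs.2 hxt.2 with h' | ⟨_, h'⟩ | ⟨h', _⟩
              · exact htW (hmemW t _ _ h h'.symm hL)
              · linarith
              · exact htW (hmemW t _ _ h h' hDL)
          rcases around x r (Finset.mem_of_mem_erase hr) (Finset.ne_of_mem_erase hr) hxs hxr with
            ⟨_, h⟩ | ⟨h, h' | ⟨_, h'⟩ | ⟨_, h'⟩⟩
          · rcases leftE x h hxs hL htx with k | k
            · exact absurd k (fun k => hcorner h k)
            · left; exact Prod.ext (by simp only; linarith) (by simp only; linarith)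
          · rcases bottom x h hxs hDn htx with k | k
            · exact absurd h (fun h => hcorner k h)
            · right; exact Prod.ext (by simp only; linarith) (by simp only; linarith)
          · exact absurd h (fun h => hcorner h' h)
          · right; exact Prod.ext (by simp only; linarith) (by simp only; linarith)
        · exact mem_area.2 ⟨_, hLe, (inL 1).2 one⟩
        · exact mem_area.2 ⟨_, hDe, (inD 1).2 one⟩
        · refine ⟨(((x0 : ℝ) - 1) / 2, ((y0 : ℝ) + 0) / 2), mem_area.2 ⟨_, hLe, (inL 0).2 zer⟩,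
            (inL' 0).2 zer, ?_, ?_⟩
          · intro h
            rw [Prod.ext_iff] at h
            simp only at h
            linarith [h.2]
          · intro h
            rw [Prod.ext_iff] at h
            simp only at h
            linarith [h.2]
      · -- case 3
        obtain ⟨B, hB, hdB, hcl, hBC⟩ := exists_comp hDe
        have hBW : B ⊆ W := hB.trans (Finset.erase_subset _ _)
        have hsB : ((x0, y0) : Pt) ∉ B := fun h => absurd (hB h) (Finset.notMem_erase _ _)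
        have hlB : ((x0 - 2, y0) : Pt) ∉ B := by
          intro hlB
          have hall : B = W.erase (x0, y0) := by
            have hcl' : ∀ x ∈ insert ((x0, y0) : Pt) B, ∀ t ∈ W, nb x t →
                t ∈ insert ((x0, y0) : Pt) B := by
              intro x hx t ht hxt
              rw [Finset.mem_insert] at hx ⊢
              by_cases hts : t = (x0, y0)
              · exact Or.inl hts
              right
              rcases hx with rfl | hx
              · rcases nbs t ht hxt.symm with rfl | rfl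
                · exact hlB
                · exact hdB
              · exact hcl x hx t (Finset.mem_erase.2 ⟨hts, ht⟩) hxt
            rcases hC (insert ((x0, y0) : Pt) B)
              (Finset.insert_subset hsW hBW) hcl' with h | h
            · exact absurd h (Finset.insert_ne_empty _ _)
            · rw [← h, Finset.erase_insert hsB]
          rw [hall] at hBC
          refine no_diag' (HF_erase (s := (x0, y0)) hHF hTop) hBC (a := x0 - 1) (b := y0 - 1)
            ?_ ?_ ?_ ?_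
          · rw [show x0 - 1 + 1 = x0 by ring, show y0 - 1 + 1 = y0 by ring]
            exact Finset.notMem_erase _ _
          · rw [show x0 - 1 - 1 = x0 - 2 by ring, show y0 - 1 - 1 = y0 - 2 by ring]
            exact fun h => hDL (Finset.mem_of_mem_erase h)
          · rw [show x0 - 1 - 1 = x0 - 2 by ring, show y0 - 1 + 1 = y0 by ring]
            exact hLe
          · rw [show x0 - 1 + 1 = x0 by ring, show y0 - 1 - 1 = y0 - 2 by ring]
            exact hDe
        have pair : ∀ a ∈ W, a ∉ B → ∀ b ∈ B, nb a b → a = (x0, y0) ∧ b = (x0, y0 - 2) := by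
          intro a ha haB b hb hab
          have h1 : a = (x0, y0) := by
            by_contra hne'
            exact haB (hcl b hb a (Finset.mem_erase.2 ⟨hne', ha⟩) hab.symm)
          refine ⟨h1, ?_⟩
          rw [h1] at hab
          rcases nbs b (hBW hb) hab.symm with h | h
          · rw [h] at hb; exact absurd hb hlB
          · exact h
        have meet : ∀ (x : ℝ × ℝ) (r1 r2 : Pt), r1 ∈ W → r1 ∉ B → r2 ∈ B → x ∈ sq r1 → x ∈ sq r2 →
            x ∈ sq (x0, y0) ∧ x ∈ sq (x0, y0 - 2) := by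
          intro x r1 r2 h1 h1B h2 hx1 hx2
          have h2W := hBW h2
          -- a square `u` of `W` containing `x` and adjacent to both or equal to one
          have viaU : ∀ u ∈ W, x ∈ sq u → (u = r1 ∨ nb r1 u) → (u = r2 ∨ nb u r2) →
              x ∈ sq (x0, y0) ∧ x ∈ sq (x0, y0 - 2) := by
            intro u hu hxu ha hb
            by_cases huB : u ∈ B
            · rcases ha with ha | ha
              · rw [ha] at huB; exact absurd huB h1B
              · obtain ⟨e1, e2⟩ := pair r1 h1 h1B u huB ha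
                rw [← e2, ← e1]
                exact ⟨hx1, hxu⟩
            · rcases hb with hb | hb
              · rw [hb] at huB; exact absurd h2 huB
              · obtain ⟨e1, e2⟩ := pair u hu huB r2 h2 hb
                rw [← e2, ← e1]
                exact ⟨hxu, hx2⟩
          have m1 : x ∈ sq (r2.1, r1.2) := ⟨hx2.1, hx1.2⟩
          have m2 : x ∈ sq (r1.1, r2.2) := ⟨hx1.1, hx2.2⟩
          obtain ⟨a1, b1⟩ := r1
          obtain ⟨a2, b2⟩ := r2
          simp only at m1 m2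
          have e1 := two1 (hW _ h1).1 (hW _ h2W).1 hx1.1 hx2.1
          have e2 := two1 (hW _ h1).2 (hW _ h2W).2 hx1.2 hx2.2
          simp only at e1 e2
          have c1 : a1 = a2 ∨ a2 = a1 + 2 ∨ a2 = a1 - 2 := by
            rcases e1 with h | h | h
            · exact Or.inl h
            · exact Or.inr (Or.inl h.1)
            · exact Or.inr (Or.inr h.1)
          have c2 : b1 = b2 ∨ b2 = b1 + 2 ∨ b2 = b1 - 2 := by
            rcases e2 with h | h | h
            · exact Or.inl h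
            · exact Or.inr (Or.inl h.1)
            · exact Or.inr (Or.inr h.1)
          by_cases hu1 : ((a2, b1) : Pt) ∈ W
          · refine viaU _ hu1 m1 ?_ ?_
            · rcases c1 with h | h | h
              · left; rw [h]
              · right; left; rw [h]
              · right; right; left; rw [h]
            · rcases c2 with h | h | h
              · left; rw [h]
              · right; right; right; left; rw [h]
              · right; right; right; right; rw [h]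
          by_cases hu2 : ((a1, b2) : Pt) ∈ W
          · refine viaU _ hu2 m2 ?_ ?_
            · rcases c2 with h | h | h
              · left; rw [h]
              · right; right; right; left; rw [h]
              · right; right; right; right; rw [h]
            · rcases c1 with h | h | h
              · left; rw [h]
              · right; left; rw [h]
              · right; right; left; rw [h]
          exfalso
          rcases c1 with rfl | rfl | rfl
          · exact hu1 h1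
          · rcases c2 with rfl | rfl | rfl
            · exact hu2 h1
            · refine no_diag hHF hC (a := a1 + 1) (b := b1 + 1) ?_ ?_ ?_ ?_
              · rw [show a1 + 1 + 1 = a1 + 2 by ring, show b1 + 1 + 1 = b1 + 2 by ring]; exact h2W
              · rw [show a1 + 1 - 1 = a1 by ring, show b1 + 1 - 1 = b1 by ring]; exact h1
              · rw [show a1 + 1 - 1 = a1 by ring, show b1 + 1 + 1 = b1 + 2 by ring]; exact hu2
              · rw [show a1 + 1 + 1 = a1 + 2 by ring, show b1 + 1 - 1 = b1 by ring]; exact hu1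
            · refine no_diag' hHF hC (a := a1 + 1) (b := b1 - 1) ?_ ?_ ?_ ?_
              · rw [show a1 + 1 + 1 = a1 + 2 by ring, show b1 - 1 + 1 = b1 by ring]; exact hu1
              · rw [show a1 + 1 - 1 = a1 by ring, show b1 - 1 - 1 = b1 - 2 by ring]; exact hu2
              · rw [show a1 + 1 - 1 = a1 by ring, show b1 - 1 + 1 = b1 by ring]; exact h1
              · rw [show a1 + 1 + 1 = a1 + 2 by ring, show b1 - 1 - 1 = b1 - 2 by ring]; exact h2W
          · rcases c2 with rfl | rfl | rfl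
            · exact hu2 h1
            · refine no_diag' hHF hC (a := a1 - 1) (b := b1 + 1) ?_ ?_ ?_ ?_
              · rw [show a1 - 1 + 1 = a1 by ring, show b1 + 1 + 1 = b1 + 2 by ring]; exact hu2
              · rw [show a1 - 1 - 1 = a1 - 2 by ring, show b1 + 1 - 1 = b1 by ring]; exact hu1
              · rw [show a1 - 1 - 1 = a1 - 2 by ring, show b1 + 1 + 1 = b1 + 2 by ring]; exact h2W
              · rw [show a1 - 1 + 1 = a1 by ring, show b1 + 1 - 1 = b1 by ring]; exact h1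
            · refine no_diag hHF hC (a := a1 - 1) (b := b1 - 1) ?_ ?_ ?_ ?_
              · rw [show a1 - 1 + 1 = a1 by ring, show b1 - 1 + 1 = b1 by ring]; exact h1
              · rw [show a1 - 1 - 1 = a1 - 2 by ring, show b1 - 1 - 1 = b1 - 2 by ring]; exact h2W
              · rw [show a1 - 1 - 1 = a1 - 2 by ring, show b1 - 1 + 1 = b1 by ring]; exact hu1
              · rw [show a1 - 1 + 1 = a1 by ring, show b1 - 1 - 1 = b1 - 2 by ring]; exact hu2
        -- the complementary part is connected and hole-free, so is `B`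
        have hs1 : ((x0, y0) : Pt) ∈ W \ B := Finset.mem_sdiff.2 ⟨hsW, hsB⟩
        have hC1 : Con (W \ B) := by
          have small : ∀ T ⊆ W \ B, (∀ x ∈ T, ∀ t ∈ W \ B, nb x t → t ∈ T) →
              ((x0, y0) : Pt) ∉ T → T = ∅ := by
            intro T hT hTc hsT
            have hcl' : ∀ x ∈ T, ∀ t ∈ W, nb x t → t ∈ T := by
              intro x hx t ht hxt
              have hx' := Finset.mem_sdiff.1 (hT hx)
              by_cases htB : t ∈ B
              · obtain ⟨e1, _⟩ := pair x hx'.1 hx'.2 t htB hxt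
                rw [e1] at hx
                exact absurd hx hsT
              · exact hTc x hx t (Finset.mem_sdiff.2 ⟨ht, htB⟩) hxt
            rcases hC T (hT.trans Finset.sdiff_subset) hcl' with h | h
            · exact h
            · rw [h] at hsT; exact absurd hsW hsT
          intro T hT hTc
          by_cases hsT : ((x0, y0) : Pt) ∈ T
          · right
            have : (W \ B) \ T = ∅ := by
              apply small _ Finset.sdiff_subset
              · intro x hx t ht hxt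
                rw [Finset.mem_sdiff] at hx ⊢
                exact ⟨ht, fun htT => hx.2 (hTc t htT x hx.1 hxt.symm)⟩
              · intro h
                exact (Finset.mem_sdiff.1 h).2 hsT
            exact Finset.Subset.antisymm hT (Finset.sdiff_eq_empty_iff_subset.1 this)
          · exact Or.inl (small T hT hTc hsT)
        have hHF1 : HF (W \ B) := by
          intro T hdis hTc
          -- the part outside `W` is empty
          have h0 : T \ W = ∅ := by
            apply hHF _ Finset.sdiff_disjoint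
            intro t ht t' htt
            rw [Finset.mem_sdiff] at ht
            by_cases h' : t' ∈ W
            · exact Or.inr h'
            · rcases hTc t ht.1 t' htt with h | h
              · exact Or.inl (Finset.mem_sdiff.2 ⟨h, h'⟩)
              · exact absurd (Finset.mem_sdiff.1 h).1 h'
          have hTW : T ⊆ W := Finset.sdiff_eq_empty_iff_subset.1 h0
          by_contra hTne
          obtain ⟨m, hm, hmin⟩ := Finset.exists_min_image T (fun p => p.1)
            (Finset.nonempty_iff_ne_empty.2 hTne)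
          have hmB : m ∈ B := by
            by_contra h
            exact Finset.disjoint_left.1 hdis hm (Finset.mem_sdiff.2 ⟨hTW hm, h⟩)
          have hnbm : nb m (m.1 - 2, m.2) := Or.inr (Or.inl rfl)
          rcases hTc m hm _ hnbm with h | h
          · have := hmin _ h
            simp only at this
            omega
          · rw [Finset.mem_sdiff] at h
            obtain ⟨e1, e2⟩ := pair _ h.1 h.2 m hmB hnbm.symm
            rw [Prod.ext_iff] at e1 e2
            simp only at e1 e2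
            omega
        have hHF2 : HF B := by
          intro T hdis hTc
          have hsT : ((x0, y0) : Pt) ∉ T := no_top (V := B) (fun t h => hTop t (hBW h)) hTc
          have h0 : T ∩ W = ∅ := by
            have ha1 : T ∩ W ⊆ W \ B := by
              intro t ht
              rw [Finset.mem_inter] at ht
              exact Finset.mem_sdiff.2 ⟨ht.2, fun h => Finset.disjoint_left.1 hdis ht.1 h⟩
            have ha2 : ∀ t ∈ T ∩ W, ∀ t' ∈ W \ B, nb t t' → t' ∈ T ∩ W := by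
              intro t ht t' ht' htt
              rw [Finset.mem_inter] at ht ⊢
              rw [Finset.mem_sdiff] at ht'
              rcases hTc t ht.1 t' htt with h | h
              · exact ⟨h, ht'.1⟩
              · exact absurd h ht'.2
            rcases hC1 (T ∩ W) ha1 ha2 with h | h
            · exact h
            · rw [← h] at hs1
              exact absurd (Finset.mem_inter.1 hs1).1 hsT
          apply hHF T
          · rw [Finset.disjoint_iff_inter_eq_empty]; exact h0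
          · intro t ht t' htt
            rcases hTc t ht t' htt with h | h
            · exact Or.inl h
            · exact Or.inr (hBW h)
        refine cut2 (W1 := W \ B) (W2 := B) (W := W) (fun t ht => hW t (Finset.mem_sdiff.1 ht).1)
          (fun t ht => hW t (hBW ht)) ?_ ⟨_, hs1⟩ ⟨_, hdB⟩ ?_ (fun a ha => (Finset.mem_sdiff.1 ha).2)
          (p := (((x0 : ℝ) - 1) / 2, ((y0 : ℝ) - 1) / 2)) (q := (((x0 : ℝ) + 1) / 2, ((y0 : ℝ) - 1) / 2))
          ?_ hint1 hint1 ?_ ⟨mem_area.2 ⟨_, hs1, pBL⟩, mem_area.2 ⟨_, hdB, ?_⟩, ?_⟩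
          ⟨mem_area.2 ⟨_, hs1, pBR⟩, mem_area.2 ⟨_, hdB, (inD 1).2 one⟩, tBR⟩ ?_ ?_ ?_
        · intro t
          rw [Finset.mem_sdiff]
          constructor
          · intro h
            by_cases hh : t ∈ B
            · exact Or.inr hh
            · exact Or.inl ⟨h, hh⟩
          · rintro (h | h)
            · exact h.1
            · exact hBW h
        · intro a ha h
          rw [Finset.mem_sdiff] at ha
          have hn : nb a (a.1 - 2, a.2) := Or.inr (Or.inl rfl)
          obtain ⟨e1, e2⟩ := pair a ha.1 ha.2 _ h hn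
          rw [Prod.ext_iff] at e1 e2
          simp only at e1 e2
          omega
        · intro h
          rw [Prod.ext_iff] at h
          simp only at h
          linarith [h.1]
        · intro x hx1 hx2 htx
          obtain ⟨r1, hr1, hxr1⟩ := mem_area.1 hx1
          obtain ⟨r2, hr2, hxr2⟩ := mem_area.1 hx2
          rw [Finset.mem_sdiff] at hr1
          obtain ⟨hxs, hxd⟩ := meet x r1 r2 hr1.1 hr1.2 hr2 hxr1 hxr2
          have hx2' : 2 * x.2 = y0 - 1 := by
            rcases two1 hsS2 sqD.2 hxs.2 hxd.2 with h | ⟨h, _⟩ | ⟨_, h⟩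
            · simp only at h; omega
            · simp only at h; omega
            · exact h
          rcases bottom x hx2' hxs hDn htx with k | k
          · left; exact Prod.ext (by simp only; linarith) (by simp only; linarith)
          · right; exact Prod.ext (by simp only; linarith) (by simp only; linarith)
        · have := (inD (-1)).2 mone
          rwa [show (x0 : ℝ) + -1 = x0 - 1 by ring] at this
        · refine ⟨(x0 - 2, y0 - 2), sqDL, hDL, ?_, ?_⟩ <;> simp only <;> push_cast <;>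
            rw [abs_le] <;> constructor <;> linarith
        · refine ⟨(((x0 : ℝ) + 0) / 2, ((y0 : ℝ) - 1) / 2), mem_area.2 ⟨_, hs1, (inD' 0).2 zer⟩,
            mem_area.2 ⟨_, hdB, (inD 0).2 zer⟩, ?_, ?_⟩
          · intro h
            rw [Prod.ext_iff] at h
            simp only at h
            linarith [h.1]
          · intro h
            rw [Prod.ext_iff] at h
            simp only at h
            linarith [h.1]
        · refine IH _ ?_ (W \ B) rfl (fun t ht => hW t (Finset.mem_sdiff.1 ht).1) ⟨_, hs1⟩ hC1 hHF1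
          rw [← hcard]
          refine Finset.card_lt_card ⟨Finset.sdiff_subset, fun h => ?_⟩
          exact (Finset.mem_sdiff.1 (h (hBW hdB))).2 hdB
        · refine IH _ ?_ B rfl (fun t ht => hW t (hBW ht)) ⟨_, hdB⟩ hBC hHF2
          rw [← hcard]
          exact Finset.card_lt_card ⟨hBW, fun h => hsB (h hsW)⟩
    · -- only the left neighbour
      refine single (((x0 : ℝ) - 1) / 2, ((y0 : ℝ) - 1) / 2) (((x0 : ℝ) - 1) / 2, ((y0 : ℝ) + 1) / 2)
        ?_ hint1 hint2 ?_ ⟨_, hLe⟩ ?_ ⟨?_, pBL, ?_⟩ ⟨?_, pTL, tTL⟩ ?_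
      · intro h
        rw [Prod.ext_iff] at h
        simp only at h
        linarith [h.2]
      · apply Con_erase hC hsW
        intro B hB hcl
        by_cases hb : ((x0 - 2, y0) : Pt) ∈ B
        · right
          intro x hx hxs
          rcases nbs x (Finset.mem_of_mem_erase hx) hxs with rfl | rfl
          · exact hb
          · exact absurd (Finset.mem_of_mem_erase hx) hDn
        · left
          intro x hx hxs
          rcases nbs x (Finset.mem_of_mem_erase (hB hx)) hxs with rfl | rfl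
          · exact hb hx
          · exact hDn (Finset.mem_of_mem_erase (hB hx))
      · intro x hx hxs htx
        obtain ⟨r, hr, hxr⟩ := mem_area.1 hx
        rcases around x r (Finset.mem_of_mem_erase hr) (Finset.ne_of_mem_erase hr) hxs hxr with
          ⟨_, h⟩ | ⟨h, h' | ⟨_, h'⟩ | ⟨h'', h'⟩⟩
        · rcases leftE x h hxs hL htx with k | k
          · left; exact Prod.ext (by simp only; linarith) (by simp only; linarith)
          · right; exact Prod.ext (by simp only; linarith) (by simp only; linarith)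
        · rw [h'] at hr
          exact absurd (Finset.mem_of_mem_erase hr) hDn
        · left; exact Prod.ext (by simp only; linarith) (by simp only; linarith)
        · exfalso
          rw [h''] at hr
          refine no_diag' hHF hC (a := x0 + 1) (b := y0 - 1) ?_ ?_ ?_ ?_
          · rw [show x0 + 1 + 1 = x0 + 2 by ring, show y0 - 1 + 1 = y0 by ring]; exact hR
          · rw [show x0 + 1 - 1 = x0 by ring, show y0 - 1 - 1 = y0 - 2 by ring]; exact hDn
          · rw [show x0 + 1 - 1 = x0 by ring, show y0 - 1 + 1 = y0 by ring]; exact hsW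
          · rw [show x0 + 1 + 1 = x0 + 2 by ring, show y0 - 1 - 1 = y0 - 2 by ring]
            exact Finset.mem_of_mem_erase hr
      · have := (inL (-1)).2 mone
        rw [show (y0 : ℝ) + -1 = y0 - 1 by ring] at this
        exact mem_area.2 ⟨_, hLe, this⟩
      · refine ⟨(x0, y0 - 2), sqD, hDn, ?_, ?_⟩ <;> simp only <;> push_cast <;>
          rw [abs_le] <;> constructor <;> linarith
      · exact mem_area.2 ⟨_, hLe, (inL 1).2 one⟩
      · refine ⟨(((x0 : ℝ) - 1) / 2, ((y0 : ℝ) + 0) / 2), mem_area.2 ⟨_, hLe, (inL 0).2 zer⟩,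
          (inL' 0).2 zer, ?_, ?_⟩
        · intro h
          rw [Prod.ext_iff] at h
          simp only at h
          linarith [h.2]
        · intro h
          rw [Prod.ext_iff] at h
          simp only at h
          linarith [h.2]
  · by_cases hDn : ((x0, y0 - 2) : Pt) ∈ W
    · -- only the lower neighbour
      have hDe : ((x0, y0 - 2) : Pt) ∈ W.erase (x0, y0) :=
        Finset.mem_erase.2 ⟨fun h => by rw [Prod.ext_iff] at h; simp only at h; omega, hDn⟩
      refine single (((x0 : ℝ) - 1) / 2, ((y0 : ℝ) - 1) / 2) (((x0 : ℝ) + 1) / 2, ((y0 : ℝ) - 1) / 2)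
        ?_ hint1 hint1 ?_ ⟨_, hDe⟩ ?_ ⟨?_, pBL, ?_⟩ ⟨?_, pBR, tBR⟩ ?_
      · intro h
        rw [Prod.ext_iff] at h
        simp only at h
        linarith [h.1]
      · apply Con_erase hC hsW
        intro B hB hcl
        by_cases hb : ((x0, y0 - 2) : Pt) ∈ B
        · right
          intro x hx hxs
          rcases nbs x (Finset.mem_of_mem_erase hx) hxs with rfl | rfl
          · exact absurd (Finset.mem_of_mem_erase hx) hL
          · exact hb
        · left
          intro x hx hxs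
          rcases nbs x (Finset.mem_of_mem_erase (hB hx)) hxs with rfl | rfl
          · exact hL (Finset.mem_of_mem_erase (hB hx))
          · exact hb hx
      · intro x hx hxs htx
        obtain ⟨r, hr, hxr⟩ := mem_area.1 hx
        rcases around x r (Finset.mem_of_mem_erase hr) (Finset.ne_of_mem_erase hr) hxs hxr with
          ⟨h', _⟩ | ⟨h, h' | ⟨_, h'⟩ | ⟨_, h'⟩⟩
        · rw [h'] at hr
          exact absurd (Finset.mem_of_mem_erase hr) hL
        · rcases bottom x h hxs hDn htx with k | k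
          · left; exact Prod.ext (by simp only; linarith) (by simp only; linarith)
          · right; exact Prod.ext (by simp only; linarith) (by simp only; linarith)
        · left; exact Prod.ext (by simp only; linarith) (by simp only; linarith)
        · right; exact Prod.ext (by simp only; linarith) (by simp only; linarith)
      · have := (inD (-1)).2 mone
        rw [show (x0 : ℝ) + -1 = x0 - 1 by ring] at this
        exact mem_area.2 ⟨_, hDe, this⟩
      · refine ⟨(x0 - 2, y0), sqL, hL, ?_, ?_⟩ <;> simp only <;> push_cast <;>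
          rw [abs_le] <;> constructor <;> linarith
      · exact mem_area.2 ⟨_, hDe, (inD 1).2 one⟩
      · refine ⟨(((x0 : ℝ) + 0) / 2, ((y0 : ℝ) - 1) / 2), mem_area.2 ⟨_, hDe, (inD 0).2 zer⟩,
          (inD' 0).2 zer, ?_, ?_⟩
        · intro h
          rw [Prod.ext_iff] at h
          simp only at h
          linarith [h.1]
        · intro h
          rw [Prod.ext_iff] at h
          simp only at h
          linarith [h.1]
    · -- no neighbour
      have hWs : W = {(x0, y0)} := by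
        have hcl' : ∀ x ∈ ({(x0, y0)} : Finset Pt), ∀ t ∈ W, nb x t → t ∈ ({(x0, y0)} : Finset Pt) := by
          intro x hx t ht hxt
          rw [Finset.mem_singleton] at hx
          rw [hx] at hxt
          rcases nbs t ht hxt.symm with rfl | rfl
          · exact absurd ht hL
          · exact absurd ht hDn
        rcases hC {(x0, y0)} (Finset.singleton_subset_iff.2 hsW) hcl' with h | h
        · exact absurd h (Finset.singleton_ne_empty _)
        · exact h.symm
      rw [hWs]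
      exact std_single hsS

/-- **dimension 2**: a finite nonempty connected hole-free set of lattice squares is bounded by a
standard curve -/
theorem std2 {W : Finset Pt} (hW : ∀ s ∈ W, Sq s) (hne : W.Nonempty) (hC : Con W) (hHF : HF W) :
    StdC (frontier (area W)) := by
  rw [frontier_area hW]
  exact std2_aux _ W rfl hW hne hC hHF

end Crest.Agent.R096.Al_63
end

-- ▼ part R096/Lr2_296
section

/-!
# R096/Lr2_296 (helper296, row 96, P2-REALISATION, part 2)

Carriers of the data of a cut, of cans, and **the cubical Alexander theorem**: the carrier of every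
cubical Sep-surface is a standard PL sphere.
-/

set_option autoImplicit false

namespace Crest.Agent.R096.Lr_296

open Set Crest.Agent.R096.Lc_451 Crest.Agent.R096.Al_63 Crest.Agent.R096.Pl

theorem D2_D1 {q : Pt} {w : ℤ} (h1 : D2 q w) (h2 : D1 q w) : False := by
  unfold D2 D1 Sq Ed Vx at *
  omega

theorem D2_V {q : Pt} {w : ℤ} (h1 : D2 q w) (h2 : Vx q) (h3 : w % 2 = 0) : False := by
  unfold D2 Sq Ed Vx at *
  omega

theorem D1_V {q : Pt} {w : ℤ} (h1 : D1 q w) (h2 : Vx q) (h3 : w % 2 = 0) : False := by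
  unfold D1 Ed Vx at *
  omega

/-- two squares with a common point: equal, or a common edge, or a common vertex -/
theorem Fa.two {q p p' : Pt} {w z z' : ℤ} (h : Fa q w p z) (h' : Fa q w p' z') (hD : D2 p z)
    (hD' : D2 p' z') : (p = p' ∧ z = z' ∧ q = p ∧ w = z) ∨
      (D1 q w ∧ Cf q w p z ∧ Cf q w p' z') ∨
      (Vx q ∧ w % 2 = 0 ∧ Nr q w p z ∧ Nr q w p' z') := by
  rcases h.cases hD with ⟨h1, h2⟩ | ⟨h1, h2⟩ | ⟨h1, h2, h3⟩
  · rcases h'.cases hD' with ⟨h1', h2'⟩ | ⟨h1', h2'⟩ | ⟨h1', h2', h3'⟩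
    · exact Or.inl ⟨h1.symm.trans h1', h2.symm.trans h2', h1, h2⟩
    · exfalso; subst h1 h2; exact D2_D1 hD h1'
    · exfalso; subst h1 h2; exact D2_V hD h1' h2'
  · rcases h'.cases hD' with ⟨h1', h2'⟩ | ⟨h1', h2'⟩ | ⟨h1', h2', h3'⟩
    · exfalso; subst h1' h2'; exact D2_D1 hD' h1
    · exact Or.inr (Or.inl ⟨h1, h2, h2'⟩)
    · exact (D1_V h1 h1' h2').elim
  · rcases h'.cases hD' with ⟨h1', h2'⟩ | ⟨h1', h2'⟩ | ⟨h1', h2', h3'⟩
    · exfalso; subst h1' h2'; exact D2_V hD' h1 h2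
    · exact (D1_V h1' h1 h2).elim
    · exact Or.inr (Or.inr ⟨h1, h2, h3, h3'⟩)

theorem car_union {A B C : Pt → ℤ → ZMod 2} (h : ∀ p z, C p z ≠ 0 ↔ A p z ≠ 0 ∨ B p z ≠ 0) :
    car C = car A ∪ car B := by
  ext x
  rw [mem_union, mem_car, mem_car, mem_car]
  constructor
  · rintro ⟨p, z, h1, h2⟩
    rcases (h p z).1 h1 with h3 | h3
    · exact Or.inl ⟨p, z, h3, h2⟩
    · exact Or.inr ⟨p, z, h3, h2⟩
  · rintro (⟨p, z, h1, h2⟩ | ⟨p, z, h1, h2⟩)
    · exact ⟨p, z, (h p z).2 (Or.inl h1), h2⟩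
    · exact ⟨p, z, (h p z).2 (Or.inr h1), h2⟩

theorem add_ne_iff {a b : ZMod 2} (h : a = 0 ∨ b = 0) : a + b ≠ 0 ↔ a ≠ 0 ∨ b ≠ 0 := by
  rcases h with h | h
  · rw [h]; simp
  · rw [h]; simp

theorem mem_curve {W : Finset Pt} (hW : ∀ s ∈ W, Sq s) {h : ℤ} (hh : h % 2 = 0)
    {x : (ℝ × ℝ) × ℝ} : x ∈ bdr W ×ˢ {(h / 2 : ℝ)} ↔
      (∃ e, bd2 (ind W) e ≠ 0 ∧ F2 (o2 x.1) e) ∧ oc x.2 = h := by
  rw [mem_prod, mem_bdr hW, mem_singleton_iff, oc_eq_iff hh]

/-- the curve lies in every chain with the boundary of the disc -/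
theorem curve_subset {E : Pt → ℤ → ZMod 2} {W : Finset Pt} (hW : ∀ s ∈ W, Sq s) {h : ℤ}
    (hh : h % 2 = 0) (hb : ∀ p z, D1 p z → bd E p z = bd (layer W h) p z) :
    bdr W ×ˢ {(h / 2 : ℝ)} ⊆ car E := by
  intro x hx
  obtain ⟨⟨e, he, hf⟩, hw⟩ := (mem_curve hW hh).1 hx
  have hed := bd2_ed (fun p hp => hW p (ind_ne hp)) he
  have h1 : bd E e h ≠ 0 := by
    rw [hb e h (Or.inl ⟨hed, hh⟩), bd_layer W hh, if_pos rfl]
    exact he
  obtain ⟨q, z', hc, hq⟩ := exists_cf_of_bd h1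
  refine mem_car.2 ⟨q, z', hq, Fa.trans ⟨hf, ?_⟩ (Fa_of_Cf hc)⟩
  rw [hw, sub_self, abs_zero, hh]

theorem F2_OnC {c : Pt → ZMod 2} {v : Pt} (h : OnC c v) : ∃ e, c e ≠ 0 ∧ F2 v e := by
  obtain ⟨⟨hx, hy⟩, h⟩ := h
  obtain ⟨x, y⟩ := v
  simp only at hx hy h
  rcases h with h | h | h | h
  · exact ⟨_, h, by unfold F2; simp only [abs_le]; omega⟩
  · exact ⟨_, h, by unfold F2; simp only [abs_le]; omega⟩
  · exact ⟨_, h, by unfold F2; simp only [abs_le]; omega⟩
  · exact ⟨_, h, by unfold F2; simp only [abs_le]; omega⟩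

section cut

variable {E1 E2 : Pt → ℤ → ZMod 2} {W : Finset Pt} {h : ℤ} (C : CutData E1 E2 W h)

include C

theorem car_sum : car (fun p z => E1 p z + E2 p z) = car E1 ∪ car E2 :=
  car_union fun p z => add_ne_iff (C.disj p z)

theorem car_glue1 : car (glue E1 W h) = car E1 ∪ area W ×ˢ {(h / 2 : ℝ)} := by
  rw [← car_layer C.sq C.even]
  refine car_union fun p z => add_ne_iff ?_
  by_cases hp : z = h ∧ p ∈ W
  · left
    rw [hp.1]
    exact (C.disjD p hp.2).1
  · right
    exact if_neg hp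

theorem car_glue2 : car (glue E2 W h) = car E2 ∪ area W ×ˢ {(h / 2 : ℝ)} := by
  rw [← car_layer C.sq C.even]
  refine car_union fun p z => add_ne_iff ?_
  by_cases hp : z = h ∧ p ∈ W
  · left
    rw [hp.1]
    exact (C.disjD p hp.2).2
  · right
    exact if_neg hp

theorem inter12 : car E1 ∩ car E2 = bdr W ×ˢ {(h / 2 : ℝ)} := by
  apply Subset.antisymm
  · rintro x ⟨h1, h2⟩
    obtain ⟨p1, z1, e1, f1⟩ := mem_car.1 h1
    obtain ⟨p2, z2, e2, f2⟩ := mem_car.1 h2
    rw [mem_curve C.sq C.even]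
    rcases f1.two f2 (C.dim1 _ _ e1) (C.dim2 _ _ e2) with ⟨h3, h4, _⟩ | ⟨h3, h4, h5⟩ | ⟨h3, h4, h5, h6⟩
    · exfalso
      subst h3 h4
      rcases C.disj p1 z1 with h | h
      · exact e1 h
      · exact e2 h
    · obtain ⟨h6, h7⟩ := C.edge12 _ _ h3 ⟨_, _, h4, e1⟩ ⟨_, _, h5, e2⟩
      exact ⟨⟨_, h7, F2.refl _⟩, h6⟩
    · obtain ⟨h7, h8⟩ := C.vert12 _ _ h3 h4 ⟨_, _, h5, e1⟩ ⟨_, _, h6, e2⟩
      exact ⟨F2_OnC h8, h7⟩
  · exact subset_inter (curve_subset C.sq C.even C.bd1) (curve_subset C.sq C.even C.bd2)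

theorem interD (E : Pt → ℤ → ZMod 2) (hE : ∀ p z, E p z ≠ 0 → E1 p z ≠ 0 ∨ E2 p z ≠ 0)
    (hb : ∀ p z, D1 p z → bd E p z = bd (layer W h) p z) :
    car E ∩ area W ×ˢ {(h / 2 : ℝ)} = bdr W ×ˢ {(h / 2 : ℝ)} := by
  apply Subset.antisymm
  · rw [← car_layer C.sq C.even]
    rintro x ⟨h1, h2⟩
    obtain ⟨p1, z1, e1, f1⟩ := mem_car.1 h1
    obtain ⟨p2, z2, e2, f2⟩ := mem_car.1 h2
    obtain ⟨rfl, hp⟩ := layer_ne e2
    have hd1 : D2 p1 z1 := (hE _ _ e1).elim (C.dim1 _ _) (C.dim2 _ _)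
    rw [mem_curve C.sq C.even]
    rcases f1.two f2 hd1 (Or.inl ⟨C.sq _ hp, C.even⟩) with ⟨h3, h4, _⟩ | ⟨h3, h4, h5⟩ |
      ⟨h3, h4, h5, h6⟩
    · exfalso
      subst h3 h4
      obtain ⟨a, b⟩ := C.disjD _ hp
      rcases hE _ _ e1 with h | h
      · exact h a
      · exact h b
    · obtain ⟨h6, h7⟩ := C.edgeD _ _ h3 ⟨_, h5, hp⟩ ⟨_, _, h4, hE _ _ e1⟩
      exact ⟨⟨_, h7, F2.refl _⟩, h6⟩
    · obtain ⟨h7, h8⟩ := C.vertD _ _ h3 h4 ⟨_, hp, h6⟩ ⟨_, _, h5, hE _ _ e1⟩
      exact ⟨F2_OnC h8, h7⟩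
  · refine subset_inter (curve_subset C.sq C.even hb) ?_
    exact prod_mono (fun x hx => hx.1) Subset.rfl

theorem inter1D : car E1 ∩ area W ×ˢ {(h / 2 : ℝ)} = bdr W ×ˢ {(h / 2 : ℝ)} :=
  interD C E1 (fun _ _ => Or.inl) C.bd1

theorem inter2D : car E2 ∩ area W ×ˢ {(h / 2 : ℝ)} = bdr W ×ˢ {(h / 2 : ℝ)} :=
  interD C E2 (fun _ _ => Or.inr) C.bd2

end cut

theorem oc_half (c : ℤ) : oc (c / 2) = c := by
  rcases oc_cases ((c : ℝ) / 2) with ⟨k, h1, h2⟩ | ⟨k, h1, h2, h3⟩
  · rw [h2]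
    have : (c : ℝ) = ((2 * k : ℤ) : ℝ) := by push_cast; linarith
    exact (by exact_mod_cast this.symm)
  · rw [h3]
    have e1 : ((2 * k : ℤ) : ℝ) < c := by push_cast; linarith
    have e2 : (c : ℝ) < ((2 * k + 2 : ℤ) : ℝ) := by push_cast; linarith
    have e1' : 2 * k < c := by exact_mod_cast e1
    have e2' : c < 2 * k + 2 := by exact_mod_cast e2
    omega

/-- the centre of a cell -/
noncomputable def ctr (p : Pt) (z : ℤ) : (ℝ × ℝ) × ℝ := (((p.1 : ℝ) / 2, (p.2 : ℝ) / 2), (z : ℝ) / 2)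

theorem o2_ctr (p : Pt) (z : ℤ) : o2 (ctr p z).1 = p ∧ oc (ctr p z).2 = z := by
  refine ⟨?_, oc_half z⟩
  ext
  · exact oc_half p.1
  · exact oc_half p.2

theorem ctr_mem {E : Pt → ℤ → ZMod 2} {p : Pt} {z : ℤ} (h : E p z ≠ 0) : ctr p z ∈ car E := by
  refine mem_car.2 ⟨p, z, h, ?_⟩
  rw [(o2_ctr p z).1, (o2_ctr p z).2]
  exact ⟨F2.refl _, by rw [sub_self, abs_zero]; omega⟩

theorem ctr_not {W : Finset Pt} (hW : ∀ s ∈ W, Sq s) {h : ℤ} (hh : h % 2 = 0) {p : Pt} {z : ℤ}
    (hD : D2 p z) : ctr p z ∉ bdr W ×ˢ {(h / 2 : ℝ)} := by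
  rw [mem_curve hW hh, (o2_ctr p z).1, (o2_ctr p z).2]
  rintro ⟨⟨e, he, hf⟩, rfl⟩
  have hed := bd2_ed (fun p hp => hW p (ind_ne hp)) he
  unfold F2 at hf
  unfold D2 Sq Ed at hD
  unfold Ed at hed
  simp only [abs_le] at hf
  omega

theorem exists_edge {W : Finset Pt} (hW : ∀ s ∈ W, Sq s) (hne : W.Nonempty) :
    ∃ e, Ed e ∧ bd2 (ind W) e ≠ 0 := by
  obtain ⟨s, hs, t, ht, hst⟩ := exists_out hne
  obtain ⟨h1, _, h3⟩ := bd2_mid (hW s hs) hst
  refine ⟨mid s t, h1, ?_⟩
  rw [h3, ind_mem hs, ind_not ht]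
  decide

theorem diff_ne {E : Pt → ℤ → ZMod 2} {W : Finset Pt} (hW : ∀ s ∈ W, Sq s) (hne : W.Nonempty)
    {h : ℤ} (hh : h % 2 = 0) (hd : ∀ p z, E p z ≠ 0 → D2 p z)
    (hb : ∀ p z, D1 p z → bd E p z = bd (layer W h) p z) :
    (car E \ bdr W ×ˢ {(h / 2 : ℝ)}).Nonempty := by
  obtain ⟨e, h1, h2⟩ := exists_edge hW hne
  have h3 : bd E e h ≠ 0 := by
    rw [hb e h (Or.inl ⟨h1, hh⟩), bd_layer W hh, if_pos rfl]
    exact h2
  obtain ⟨q, z', _, hq⟩ := exists_cf_of_bd h3
  exact ⟨ctr q z', ctr_mem hq, ctr_not hW hh (hd _ _ hq)⟩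

/-- the curve `frontier (area W) × {c}` is the image of the square -/
theorem exists_param {W : Finset Pt} (hW : ∀ s ∈ W, Sq s) (hne : W.Nonempty) (hC : Con W)
    (hHF : HF W) (c : ℝ) : ∃ φ : ℝ × ℝ → (ℝ × ℝ) × ℝ, PLMap φ ∧ Function.Injective φ ∧
      φ '' S1 ℝ = bdr W ×ˢ {c} := by
  obtain ⟨H, hH, hHS⟩ := std2 hW hne hC hHF
  refine ⟨fun x => (H x, c), hH.1.prodMk (PLMap.const c), fun x y hxy => ?_, ?_⟩
  · exact H.injective (congrArg Prod.fst hxy)
  · rw [← frontier_area hW, ← hHS]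
    ext y
    constructor
    · rintro ⟨x, hx, rfl⟩
      exact ⟨⟨x, hx, rfl⟩, rfl⟩
    · rintro ⟨⟨x, hx, h1⟩, h2⟩
      exact ⟨x, hx, Prod.ext h1 h2.symm⟩

/-- **(cut)** -/
theorem std_cut {E1 E2 : Pt → ℤ → ZMod 2} {W : Finset Pt} {h : ℤ} (C : CutData E1 E2 W h)
    (h1 : StdC (F := ℝ × ℝ) (car (glue E1 W h))) (h2 : StdC (F := ℝ × ℝ) (car (glue E2 W h))) :
    StdC (F := ℝ × ℝ) (car (fun p z => E1 p z + E2 p z)) := by
  obtain ⟨φ, hφ, hinj, hS⟩ := exists_param C.sq C.ne C.con C.hf (h / 2 : ℝ)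
  have hf := C.surf.fin
  have hf1 : {q : Pt × ℤ | E1 q.1 q.2 ≠ 0}.Finite := hf.subset fun q hq =>
    (add_ne_iff (C.disj q.1 q.2)).2 (Or.inl hq)
  have hf2 : {q : Pt × ℤ | E2 q.1 q.2 ≠ 0}.Finite := hf.subset fun q hq =>
    (add_ne_iff (C.disj q.1 q.2)).2 (Or.inr hq)
  rw [car_glue1 C] at h1
  rw [car_glue2 C] at h2
  rw [car_sum C]
  refine StdC.cut_plane hφ hinj.injOn (isCompact_car hf1).isClosed (isCompact_car hf2).isClosed
    ((isClosed_area W).prod isClosed_singleton) (D := area W ×ˢ {(h / 2 : ℝ)}) ?_ ?_ ?_ ?_ ?_ ?_ h1 h2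
  · rw [hS, inter12 C]
  · rw [hS, inter1D C]
  · rw [hS, inter2D C]
  · rw [hS]; exact diff_ne C.sq C.ne C.even C.dim1 C.bd1
  · rw [hS]; exact diff_ne C.sq C.ne C.even C.dim2 C.bd2
  · rw [hS]
    obtain ⟨s, hs⟩ := C.ne
    refine ⟨ctr s h, ?_, ctr_not C.sq C.even (Or.inl ⟨C.sq s hs, C.even⟩)⟩
    rw [← car_layer C.sq C.even]
    apply ctr_mem
    unfold layer
    rw [if_pos ⟨rfl, hs⟩]
    decide

/-- the boundary of a layer -/
theorem bd_layer_odd (A : Finset Pt) {z : ℤ} (hz : z % 2 = 1) (p : Pt) (w : ℤ) :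
    bd (layer A z) p w =
      if w = z then bd2 (ind A) p else if w = z + 1 ∨ w = z - 1 then ind A p else 0 := by
  by_cases h1 : w = z
  · subst h1
    rw [bd_odd hz, layer_eq, if_pos rfl]
  · rw [if_neg h1]
    by_cases h2 : w % 2 = 0
    · rw [bd_even h2, layer_other A h1, bd2_zero, zero_add]
      unfold layer ind
      by_cases h3 : p ∈ A
      · by_cases h4 : w = z + 1
        · rw [if_neg (by omega), if_pos ⟨by omega, h3⟩, if_pos (Or.inl h4), if_pos h3, zero_add]
        · by_cases h5 : w = z - 1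
          · rw [if_pos ⟨by omega, h3⟩, if_neg (by omega), if_pos (Or.inr h5), if_pos h3, add_zero]
          · rw [if_neg (by omega), if_neg (by omega), if_neg (by omega), add_zero]
      · rw [if_neg (fun h => h3 h.2), if_neg (fun h => h3 h.2), if_neg h3, add_zero, ite_self]
    · rw [bd_odd (by omega), layer_other A h1, bd2_zero, if_neg (by omega)]

/-- **the carrier of a can** -/
theorem car_can {A : Finset Pt} (hA : ∀ s ∈ A, Sq s) {z : ℤ} (hz : z % 2 = 1) :
    car (bd (layer A z)) = area A ×ˢ {((z : ℝ) - 1) / 2, ((z : ℝ) + 1) / 2} ∪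
      frontier (area A) ×ˢ Icc (((z : ℝ) - 1) / 2) (((z : ℝ) + 1) / 2) := by
  have hup : ∀ x : ℝ, x = ((z : ℝ) + 1) / 2 ↔ oc x = z + 1 := by
    intro x
    rw [oc_eq_iff (by omega)]
    push_cast
    rfl
  have hlo : ∀ x : ℝ, x = ((z : ℝ) - 1) / 2 ↔ oc x = z - 1 := by
    intro x
    rw [oc_eq_iff (by omega)]
    push_cast
    rfl
  ext x
  rw [mem_car, mem_union, mem_prod, mem_prod, frontier_area hA, mem_bdr hA, mem_area' hA,
    ← iv_odd_eq hz, mem_iv, mem_insert_iff, mem_singleton_iff, hup, hlo]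
  constructor
  · rintro ⟨p, w, h1, h2, h3⟩
    rw [bd_layer_odd A hz] at h1
    by_cases h4 : w = z
    · subst h4
      rw [if_pos rfl] at h1
      exact Or.inr ⟨⟨p, h1, h2⟩, h3⟩
    · rw [if_neg h4] at h1
      by_cases h5 : w = z + 1 ∨ w = z - 1
      · rw [if_pos h5] at h1
        refine Or.inl ⟨⟨p, ind_ne h1, h2⟩, ?_⟩
        rw [abs_le] at h3
        omega
      · rw [if_neg h5] at h1
        exact absurd rfl h1
  · rintro (⟨⟨s, hs, h1⟩, h2⟩ | ⟨⟨e, he, h1⟩, h2⟩)
    · refine ⟨s, oc x.2, ?_, h1, by rw [sub_self, abs_zero]; omega⟩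
      rw [bd_layer_odd A hz, if_neg (by omega), if_pos (by tauto), ind_mem hs]
      decide
    · refine ⟨e, z, ?_, h1, h2⟩
      rw [bd_layer_odd A hz, if_pos rfl]
      exact he

/-- **(can)** -/
theorem std_can {A : Finset Pt} {z : ℤ} (hz : z % 2 = 1) (hne : A.Nonempty) (hA : ∀ s ∈ A, Sq s)
    (hC : Con A) (hHF : HF A) : StdC (F := ℝ × ℝ) (car (bd (layer A z))) := by
  rw [car_can hA hz]
  exact StdC.can3' (isCompact_area A) (interior_area_nonempty hA hne) (std2 hA hne hC hHF)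
    (by linarith)

/-- **CUBICAL ALEXANDER THEOREM**: the carrier of a cubical Sep-surface is the image of the boundary of
the cube under a PL homeomorphism of `(ℝ × ℝ) × ℝ`. -/
theorem surf_std {S : Pt → ℤ → ZMod 2} (hS : Surf S) : StdC (F := ℝ × ℝ) (car S) :=
  surf_ind (fun S => StdC (F := ℝ × ℝ) (car S)) (fun _ _ hz hne hA hC hHF => std_can hz hne hA hC hHF)
    (fun _ _ _ _ C h1 h2 => std_cut C h1 h2) hS

end Crest.Agent.R096.Lr_296
end

-- ▼ part R096/Lr3_296
section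

/-!
# R096/Lr3_296 (helper296, row 96, P2-ASSEMBLY)

**Alexander's theorem for axis-parallel surfaces**: a connected two-sided finite union of axis-parallel
rectangles of `ℝ³` with trivial `ZMod 2`-torsors is the image of the boundary of the cube under a PL
homeomorphism of `ℝ³`.
-/

set_option autoImplicit false

namespace Crest.Agent.R096.Lr_296

open Set Metric Crest.Agent.R096.Lc_451 Crest.Agent.R096.Pl Crest.Agent.R096.Coh_184

theorem mem_iv_iff {x : ℝ} {c : ℤ} :
    x ∈ iv c ↔ ((c / 2 : ℤ) : ℝ) ≤ x ∧ x ≤ (((c + 1) / 2 : ℤ) : ℝ) := by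
  rcases Int.emod_two_eq_zero_or_one c with h | h
  · obtain ⟨k, rfl⟩ : ∃ k, c = 2 * k := ⟨c / 2, by omega⟩
    rw [mem_iv_even h, show 2 * k / 2 = k by omega, show (2 * k + 1) / 2 = k by omega]
    push_cast
    constructor
    · rintro rfl; constructor <;> linarith
    · rintro ⟨h1, h2⟩; linarith
  · obtain ⟨k, rfl⟩ : ∃ k, c = 2 * k + 1 := ⟨c / 2, by omega⟩
    rw [mem_iv_odd h, show (2 * k + 1) / 2 = k by omega, show (2 * k + 1 + 1) / 2 = k + 1 by omega,
      abs_le]
    push_cast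
    constructor
    · rintro ⟨h1, h2⟩; constructor <;> linarith
    · rintro ⟨h1, h2⟩; constructor <;> linarith

/-- 914's carrier and the carrier of the chain -/
theorem car_chn (Q : Finset (Fin 3 → ℤ)) : e3 ⁻¹' (Ax_914.car Q) = car (Ax_914.chn Q) := by
  have hcl : ∀ (p : Pt) (z : ℤ) (x : (ℝ × ℝ) × ℝ),
      x ∈ cl p z ↔ e3 x ∈ Ax_914.cel (ι := Fin 3) ![p.1, p.2, z] := by
    intro p z x
    show (x.1.1 ∈ iv p.1 ∧ x.1.2 ∈ iv p.2) ∧ x.2 ∈ iv z ↔ _
    rw [mem_iv_iff, mem_iv_iff, mem_iv_iff]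
    constructor
    · rintro ⟨⟨h1, h2⟩, h3⟩ i
      fin_cases i
      · exact h1
      · exact h2
      · exact h3
    · intro h
      exact ⟨⟨h 0, h 1⟩, h 2⟩
  ext x
  rw [mem_preimage, Ax_914.mem_car, mem_car]
  constructor
  · rintro ⟨c, hc, hx⟩
    have e : c = ![c 0, c 1, c 2] := by ext i; fin_cases i <;> rfl
    refine ⟨(c 0, c 1), c 2, Ax_914.chn_ne.2 (by rw [← e]; exact hc), mem_cl.1 ((hcl _ _ _).2 ?_)⟩
    rw [← e]; exact hx
  · rintro ⟨p, z, h, hx⟩
    exact ⟨_, Ax_914.chn_ne.1 h, (hcl _ _ _).1 (mem_cl.2 hx)⟩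

/-- **ALEXANDER, axis-parallel case**, in `(ℝ × ℝ) × ℝ` -/
theorem alexander_axis {B : Finset ((Fin 3 → ℝ) × (Fin 3 → ℝ))} (hB : ∀ p ∈ B, p.1 ≤ p.2)
    (hB1 : ∀ p ∈ B, ∃ i, p.1 i = p.2 i ∧ ∀ j, j ≠ i → p.1 j ≠ p.2 j)
    {S : Set (Fin 3 → ℝ)} (hSB : S = ⋃ p ∈ B, Icc p.1 p.2) (hS : ∀ x ∈ S, Ax_914.TwoSidedAt S x)
    (hcon : IsConnected S) (htriv : ∀ n, TrivAll (Fin n) (ZMod 2) S) :
    StdC (F := ℝ × ℝ) (e3 ⁻¹' S) := by
  obtain ⟨Φ, hΦ, Q, hQ, _, hsurf⟩ := Ax_914.axis hB hB1 hSB hS hcon htriv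
  obtain ⟨H, hH, hHS⟩ := surf_std hsurf
  have hE : PLH e3.toHomeomorph := PLH_clm e3
  refine ⟨H.trans ((e3.toHomeomorph.trans Φ.symm).trans e3.toHomeomorph.symm),
    hH.trans ((hE.trans hΦ.1.symm).trans hE.symm), ?_⟩
  rw [trans_image, hHS, ← car_chn, ← hQ, trans_image, trans_image]
  have h1 : e3.toHomeomorph '' (e3 ⁻¹' (Φ '' S)) = Φ '' S := image_preimage_eq _ e3.surjective
  rw [h1, symm_image_image']
  exact (congrFun e3.toHomeomorph.image_symm S)

/-- **ALEXANDER, axis-parallel case**: `S` is the frontier of a compact set `A`, and a PL homeomorphism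
of `ℝ³` maps the cube to `A`. -/
theorem alexander_axis' {B : Finset ((Fin 3 → ℝ) × (Fin 3 → ℝ))} (hB : ∀ p ∈ B, p.1 ≤ p.2)
    (hB1 : ∀ p ∈ B, ∃ i, p.1 i = p.2 i ∧ ∀ j, j ≠ i → p.1 j ≠ p.2 j)
    {S : Set (Fin 3 → ℝ)} (hSB : S = ⋃ p ∈ B, Icc p.1 p.2) (hS : ∀ x ∈ S, Ax_914.TwoSidedAt S x)
    (hcon : IsConnected S) (htriv : ∀ n, TrivAll (Fin n) (ZMod 2) S) :
    ∃ (A : Set (Fin 3 → ℝ)) (H : (Fin 3 → ℝ) ≃ₜ (Fin 3 → ℝ)), IsCompact A ∧ frontier A = S ∧
      PLH H ∧ H '' closedBall 0 1 = A ∧ H '' sphere 0 1 = S ∧ H '' ball 0 1 = interior A :=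
  StdC.fin3' (alexander_axis hB hB1 hSB hS hcon htriv)

end Crest.Agent.R096.Lr_296
end

-- ▼ part R096/Gp0_702

/-!
# R096 (row 96), P2-GEN, part 0 (helper702): definitions and the Props of the split

`Bxs T`    : all cells of the tiling `T` of `Fin 3 → ℝ` are boxes with integer corners.
`Adapted T S` : every cell that meets `S` meets it in a cone over its boundary trace, etc.
-/

set_option autoImplicit false

open Set Metric Topology

namespace Crest.Agent.R096.Gp_702

open Ce_537 Msh_715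

/-- the space -/
abbrev E3 := Fin 3 → ℝ

/-- closed box with integer corners (degenerate directions allowed) -/
def zcl (l h : Fin 3 → ℤ) : Set E3 := {y | ∀ j, (l j : ℝ) ≤ y j ∧ y j ≤ (h j : ℝ)}

/-- its relative interior -/
def zop (l h : Fin 3 → ℤ) : Set E3 :=
  {y | ∀ j, (l j = h j ∧ y j = (l j : ℝ)) ∨ ((l j : ℝ) < y j ∧ y j < (h j : ℝ))}

/-- all cells of the tiling are boxes with integer corners -/
def Bxs {ι : Type} (T : Tiling (univ : Set E3) ι) : Prop :=
  ∀ x, ∃ l h : Fin 3 → ℤ, l ≤ h ∧ T.cc x = zcl l h ∧ T.oc x = zop l h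

/-- `S` is in conical position with respect to the tiling `T` -/
structure Adapted {ι : Type} (T : Tiling (univ : Set E3) ι) (S : Set E3) : Prop where
  cpt : IsCompact S
  vert : ∀ x ∈ S, T.dim x ≠ 0
  cen : ∀ x, (T.cc x ∩ S).Nonempty → ∃ z ∈ T.oc x, z ∈ S ∧
    ∀ y ∈ T.cc x \ T.oc x, ∀ t : ℝ, 0 < t → t ≤ 1 → (z + t • (y - z) ∈ S ↔ y ∈ S)
  two : ∀ x ∈ S, T.dim x = 2 → ((T.cc x \ T.oc x) ∩ S).ncard = 2
  con : ∀ x ∈ S, T.dim x = 3 → ∃ P N : Set E3, (T.cc x \ T.oc x) \ S = P ∪ N ∧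
    IsPreconnected P ∧ IsPreconnected N

/-- polyhedral: a finite union of convex polytopes -/
def Poly (S : Set E3) : Prop := ∃ 𝒞 : Set (Set E3), 𝒞.Finite ∧ (∀ C ∈ 𝒞, Pl.VP C) ∧ ⋃₀ 𝒞 = S

/-- **(EXIST)** -/
def ExistStmt : Prop := ∀ S : Set E3, Poly S → S.Nonempty → (∀ x ∈ S, Ax_914.TwoSidedAt S x) →
  ∃ L : E3 ≃ₜ E3, Pl.PLH L ∧ ∃ (ι : Type) (T : Tiling (univ : Set E3) ι),
    Bxs T ∧ Adapted T (L '' S)

/-- **(NORM)** -/
def NormStmt : Prop := ∀ (ι : Type) (T : Tiling (univ : Set E3) ι) (S : Set E3), Bxs T →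
  Adapted T S → S.Nonempty → (∀ x ∈ S, Ax_914.TwoSidedAt S x) →
  ∃ Φ : E3 ≃ₜ E3, Pl.PLH Φ ∧ ∃ B : Finset (E3 × E3), (∀ p ∈ B, p.1 ≤ p.2) ∧
    (∀ p ∈ B, ∃ i, p.1 i = p.2 i ∧ ∀ j, j ≠ i → p.1 j ≠ p.2 j) ∧ Φ '' S = ⋃ p ∈ B, Icc p.1 p.2

/-! ### one cell -/

section Cell

variable {k : ℕ}

/-- boundary of the box `[l, h]` of `Fin k → ℝ` -/
def bb (l h : Fin k → ℝ) : Set (Fin k → ℝ) := {y | y ∈ Icc l h ∧ ∃ j, y j = l j ∨ y j = h j}

/-- the collar of the box -/
noncomputable def kap (l h : Fin k → ℝ) (ω : Fin k → ℝ) (s : ℝ) : Fin k → ℝ :=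
  fun j => max ((ω j + l j) / 2 + s) (min (ω j) ((ω j + h j) / 2 - s))

/-- the collar over `R` of depth `t` -/
def colr (l h : Fin k → ℝ) (R : Set (Fin k → ℝ)) (t : ℝ) : Set (Fin k → ℝ) :=
  {x | ∃ ω ∈ R, ∃ s ∈ Icc (0 : ℝ) t, x = kap l h ω s}

/-- the cone over `R` with apex `c` -/
def cone1 {V : Type*} [AddCommGroup V] [Module ℝ V] (c : V) (R : Set V) : Set V :=
  {x | ∃ y ∈ R, ∃ r ∈ Icc (0 : ℝ) 1, x = c + r • (y - c)}

/-- upper and lower half of the boundary of the cube -/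
def Hu (hk : 0 < k) : Set (Fin k → ℝ) := {y | y ∈ sph k ∧ 0 ≤ y ⟨0, hk⟩}
def Hd (hk : 0 < k) : Set (Fin k → ℝ) := {y | y ∈ sph k ∧ y ⟨0, hk⟩ ≤ 0}

/-- **(N2)** one cell -/
def StepStmt : Prop := ∀ (k : ℕ) (hk : 0 < k) (l h c : Fin k → ℝ) (t : ℝ), (∀ j, l j < c j) →
  (∀ j, c j < h j) → 0 < t → (∀ j, 4 * t < h j - l j) →
  ∀ (R0 R1 : Set (Fin k → ℝ)) (th : PLEquiv (bb l h) (sph k)) (phi : PLEquiv (bb l h) (bb l h)),
  R0 ⊆ bb l h → R1 ⊆ bb l h → th.f '' R0 = Hu hk → th.f '' R1 = Hd hk →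
  ∃ Psi : PLEquiv (Icc l h) (Icc l h), EqOn Psi.f phi.f (bb l h) ∧
    Psi.f '' cone1 c R0 = colr l h (phi.f '' R0) t ∧
    Psi.f '' cone1 c R1 = colr l h (phi.f '' R1) t ∪ Icc (fun j => l j + t) (fun j => h j - t)

end Cell

/-- **(N3)** the circle lemma on the boundary of a box -/
def CircStmt : Prop := ∀ (l h : E3), (∀ j, l j < h j) → ∀ (n : ℕ) (α : Fin n → Set E3)
  (a b : Fin n → E3), 0 < n → (∀ i, IsBall 1 (α i) {a i, b i}) → (∀ i, α i ⊆ bb l h) →
  (∀ i j, i ≠ j → α i ∩ α j ⊆ {a i, b i} ∩ {a j, b j}) →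
  (∀ i, ∃! j, j ≠ i ∧ a i ∈ α j) → (∀ i, ∃! j, j ≠ i ∧ b i ∈ α j) →
  (∃ P N : Set E3, bb l h \ (⋃ i, α i) = P ∪ N ∧ IsPreconnected P ∧ IsPreconnected N) →
  ∀ R0 R1 : Set E3, IsClosed R0 → IsClosed R1 → R0 ∪ R1 = bb l h → R0 ∩ R1 = ⋃ i, α i →
  R0 ≠ ⋃ i, α i → R1 ≠ ⋃ i, α i →
  ∃ th : PLEquiv (bb l h) (sph 3), th.f '' R0 = Hu (k := 3) (by norm_num) ∧
    th.f '' R1 = Hd (k := 3) (by norm_num)

/-- **(N3')** two points on the boundary of a rectangle -/
def Circ2Stmt : Prop := ∀ (l h : Fin 2 → ℝ), (∀ j, l j < h j) → ∀ p q : Fin 2 → ℝ, p ≠ q →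
  ∀ R0 R1 : Set (Fin 2 → ℝ), IsClosed R0 → IsClosed R1 → R0 ∪ R1 = bb l h → R0 ∩ R1 = {p, q} →
  R0 ≠ {p, q} → R1 ≠ {p, q} →
  ∃ th : PLEquiv (bb l h) (sph 2), th.f '' R0 = Hu (k := 2) (by norm_num) ∧
    th.f '' R1 = Hd (k := 2) (by norm_num)

/-! ### the pieces of (NORM) -/

section Norm

variable {ι : Type} (T : Tiling (univ : Set E3) ι) (S : Set E3)

/-- the closed cell of `x` meets `S` -/
def Cr (x : E3) : Prop := (T.cc x ∩ S).Nonempty

/-- `z` is an apex of the cell of `x` -/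
def Apex (x z : E3) : Prop := z ∈ T.oc x ∧ z ∈ S ∧
  ∀ y ∈ T.cc x \ T.oc x, ∀ t : ℝ, 0 < t → t ≤ 1 → (z + t • (y - z) ∈ S ↔ y ∈ S)

/-- the two sides of `S` (`R0` inside) -/
structure Sides (R0 R1 : Set E3) : Prop where
  cpt : IsCompact R0
  closed1 : IsClosed R1
  union : R0 ∪ R1 = univ
  inter : R0 ∩ R1 = S
  front : frontier R0 = S
  reg : closure (interior R0) = R0
  noncr : ∀ x, ¬ Cr T S x → T.cc x ⊆ R0 ∨ T.cc x ⊆ R1
  cone0 : ∀ x z, Apex T S x z → ∀ y ∈ T.cc x \ T.oc x, ∀ t : ℝ, 0 < t → t ≤ 1 →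
    (z + t • (y - z) ∈ R0 ↔ y ∈ R0)
  cone1 : ∀ x z, Apex T S x z → ∀ y ∈ T.cc x \ T.oc x, ∀ t : ℝ, 0 < t → t ≤ 1 →
    (z + t • (y - z) ∈ R1 ↔ y ∈ R1)
  edge : ∀ x, T.dim x = 1 → Cr T S x → ∀ a b, T.cc x = segment ℝ a b →
    (a ∈ R0 ∧ b ∈ R1) ∨ (a ∈ R1 ∧ b ∈ R0)

end Norm

/-- **(N4)** sides (from `Lab_184.labels`) -/
def SidesStmt : Prop := ∀ (ι : Type) (T : Tiling (univ : Set E3) ι) (S : Set E3), Bxs T →
  Adapted T S → (∀ x ∈ S, Ax_914.TwoSidedAt S x) → ∃ R0 R1, Sides T S R0 R1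

/-- **(N7)** the boundary of a crossing cell and its two sides are standard -/
def ThStmt : Prop := ∀ (ι : Type) (T : Tiling (univ : Set E3) ι) (S : Set E3), Bxs T →
  Adapted T S → ∀ R0 R1, Sides T S R0 R1 → ∀ x, Cr T S x → ∀ hk : 0 < T.dim x,
  ∃ th : PLEquiv (T.cc x \ T.oc x) (sph (T.dim x)),
    th.f '' (R0 ∩ (T.cc x \ T.oc x)) = Hu hk ∧ th.f '' (R1 ∩ (T.cc x \ T.oc x)) = Hd hk

/-- depth of the collar in dimension `k` -/
noncomputable def dep (k : ℕ) : ℝ := (1 / 4) * (1 / 2) ^ k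

/-- the collar of an integer box, degenerate directions allowed -/
noncomputable def kapZ (l h : Fin 3 → ℤ) (ω : E3) (s : ℝ) : E3 :=
  fun j => if l j = h j then ω j else max ((ω j + l j) / 2 + s) (min (ω j) ((ω j + h j) / 2 - s))

/-- result of the skeleton recursion -/
structure Norm {ι : Type} (T : Tiling (univ : Set E3) ι) (S R0 : Set E3) (Φ : E3 ≃ₜ E3) :
    Prop where
  plh : Pl.PLH Φ
  cell : ∀ x, Φ '' T.cc x = T.cc x
  fix : ∀ x, ¬ Cr T S x → ∀ y ∈ T.cc x, Φ y = y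
  col : ∀ x, Cr T S x → ∀ l h : Fin 3 → ℤ, T.cc x = zcl l h → T.oc x = zop l h → l ≤ h →
    Φ '' (R0 ∩ T.cc x) = {y | ∃ ω ∈ Φ '' (R0 ∩ (T.cc x \ T.oc x)), ∃ s ∈ Icc (0 : ℝ) (dep (T.dim x)),
      y = kapZ l h ω s}

/-- **(N5)** skeleton recursion -/
def SkelStmt : Prop := StepStmt → ThStmt → ∀ (ι : Type) (T : Tiling (univ : Set E3) ι) (S : Set E3),
  Bxs T → Adapted T S → ∀ R0 R1, Sides T S R0 R1 → ∃ Φ : E3 ≃ₜ E3, Norm T S R0 Φ

/-- `x`, `x'` lie in the same open cell of the lattice `(1/32) ℤ³` -/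
def Same (x x' : E3) : Prop := ∀ (j : Fin 3) (m : ℤ), (32 * x j < m ↔ 32 * x' j < m) ∧
  ((m : ℝ) < 32 * x j ↔ (m : ℝ) < 32 * x' j)

/-- **(N1)** the normal form is cellular for the lattice `(1/32) ℤ³` -/
def CellStmt : Prop := ∀ (ι : Type) (T : Tiling (univ : Set E3) ι) (S : Set E3), Bxs T →
  Adapted T S → ∀ R0 R1, Sides T S R0 R1 → ∀ Φ : E3 ≃ₜ E3, Norm T S R0 Φ →
  ∀ x x', Same x x' → x ∈ Φ '' R0 → x' ∈ Φ '' R0

/-- **(N6)** frontier of a regular compact cellular set -/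
def FrontStmt : Prop := ∀ N : Set E3, IsCompact N → closure (interior N) = N →
  (∀ x x', Same x x' → x ∈ N → x' ∈ N) →
  ∃ B : Finset (E3 × E3), (∀ p ∈ B, p.1 ≤ p.2) ∧
    (∀ p ∈ B, ∃ i, p.1 i = p.2 i ∧ ∀ j, j ≠ i → p.1 j ≠ p.2 j) ∧ frontier N = ⋃ p ∈ B, Icc p.1 p.2

/-- (NORM) from the pieces -/
theorem norm_of (h4 : SidesStmt) (h2 : StepStmt) (h7 : ThStmt) (h5 : SkelStmt) (h1 : CellStmt)
    (h6 : FrontStmt) : NormStmt := by
  intro ι T S hT hA _ hS
  obtain ⟨R0, R1, hR⟩ := h4 ι T S hT hA hS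
  obtain ⟨Φ, hΦ⟩ := h5 h2 h7 ι T S hT hA R0 R1 hR
  refine ⟨Φ, hΦ.plh, ?_⟩
  obtain ⟨B, hB, hB1, hBf⟩ := h6 (Φ '' R0) (hR.cpt.image Φ.continuous)
    (by rw [← Φ.image_interior, ← Φ.image_closure, hR.reg]) (h1 ι T S hT hA R0 R1 hR Φ hΦ)
  refine ⟨B, hB, hB1, ?_⟩
  rw [← hBf, ← Φ.image_frontier, hR.front]

/-- **the final theorem from the two halves** -/
theorem alexander_gen (hE : ExistStmt) (hN : NormStmt) {S : Set E3} (hp : Poly S)
    (hS : ∀ x ∈ S, Ax_914.TwoSidedAt S x) (hcon : IsConnected S)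
    (htriv : ∀ n, Coh_184.TrivAll (Fin n) (ZMod 2) S) :
    Pl.StdC (F := ℝ × ℝ) (Pl.e3 ⁻¹' S) := by
  obtain ⟨L, hL, ι, T, hT, hA⟩ := hE S hp hcon.nonempty hS
  have hScl : IsClosed S := by
    have h1 : IsCompact (L '' S) := hA.cpt
    have h2 : L.symm '' (L '' S) = S := by rw [image_image]; simp
    rw [← h2]
    exact (h1.image L.symm.continuous).isClosed
  have hS1 : ∀ x ∈ L '' S, Ax_914.TwoSidedAt (L '' S) x := by
    rintro _ ⟨x, hx, rfl⟩
    exact (hS x hx).map L
  obtain ⟨Φ, hΦ, B, hB, hB1, hBS⟩ := hN ι T (L '' S) hT hA (hcon.nonempty.image L) hS1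
  have hst := Lr_296.alexander_axis hB hB1 hBS
    (by rintro _ ⟨x, hx, rfl⟩; exact (hS1 x hx).map Φ)
    ((hcon.image L L.continuous.continuousOn).image Φ Φ.continuous.continuousOn)
    (fun n => Ax_914.TrivAll.map Φ hA.cpt.isClosed (Ax_914.TrivAll.map L hScl (htriv n)))
  obtain ⟨H, hH, hHS⟩ := hst
  have hE' : Pl.PLH Pl.e3.toHomeomorph := Pl.PLH_clm Pl.e3
  have hM : Pl.PLH (L.trans Φ) := hL.trans hΦ
  refine ⟨H.trans ((Pl.e3.toHomeomorph.trans (L.trans Φ).symm).trans Pl.e3.toHomeomorph.symm),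
    hH.trans ((hE'.trans hM.symm).trans hE'.symm), ?_⟩
  have hLS : Φ '' (L '' S) = (L.trans Φ) '' S := by
    rw [image_image]; rfl
  rw [Pl.trans_image, hHS, hLS, Pl.trans_image, Pl.trans_image]
  have h1 : Pl.e3.toHomeomorph '' (Pl.e3 ⁻¹' ((L.trans Φ) '' S)) = (L.trans Φ) '' S :=
    image_preimage_eq _ Pl.e3.surjective
  rw [h1, Pl.symm_image_image']
  exact (congrFun Pl.e3.toHomeomorph.image_symm S)

end Crest.Agent.R096.Gp_702
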