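import Crest.Agent.R096.Lab5_184
import Crest.Agent.R096.Gp0_702
import Crest.Agent.R096.Gn2_296
import Crest.Agent.R096.Cb4_609

-- ▼ part R096/Gq1_451
section

/-!
# R096 (row 96), P2-GEN, N4 (helper451): labels and sides of a conical set

`Con T S ctr` : a compact set `S` which meets every cell of the tiling `T` of the whole space in a
cone with apex `ctr z` over its trace on the relative boundary, misses the vertices and meets the
relative boundary of a 2-cell in two points.  Then the vertices have labels in `ZMod 2` which change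
exactly along the 1-cells meeting `S`, and `S` has two closed sides `sd 0`, `sd 1`, which are conical
too.
-/

set_option autoImplicit false

open Set Topology Filter Metric Module

namespace Crest.Agent.R096.Gq_451

open Crest.Agent.R096.Msh_715 Crest.Agent.R096.Coh_184

variable {E : Type*} [NormedAddCommGroup E] [NormedSpace ℝ E]
variable {Om : Set E} {ι : Type*} {T : Tiling Om ι}

/-- rays from a point of the open cell stay in the open cell until they leave -/
theorem ray_oc {z c y : E} (hz : z ∈ Om) (hc : c ∈ T.oc z) (hy : y ∈ T.cc z) {t : ℝ} (h0 : 0 ≤ t)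
    (h1 : t < 1) : c + t • (y - c) ∈ T.oc z := by
  have h2 := T.move_mem_oc (x := c) (y := y) (by rw [T.cc_eq_of_mem_oc hz hc]; exact hy)
    (s := 1 - t) (by linarith) (by linarith)
  rw [T.oc_eq_of_mem hz hc] at h2
  have : y + (1 - t) • (c - y) = c + t • (y - c) := by
    rw [sub_smul, one_smul]; rw [smul_sub, smul_sub]; abel
  rwa [this] at h2

/-- every point of a closed cell lies on a ray from `c` to the relative boundary -/
theorem ray_exists {z c w : E} (hz : z ∈ Om) (hc : c ∈ T.oc z) (hw : w ∈ T.cc z) (hne : w ≠ c) :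
    ∃ y ∈ T.cc z \ T.oc z, ∃ t : ℝ, 0 < t ∧ t ≤ 1 ∧ w = c + t • (y - c) ∧ (w ∈ T.oc z → t < 1) := by
  have hcO : c ∈ Om := T.cc_sub_Om hz (T.oc_sub_cc z hc)
  have hv : w - c ∈ T.V c := T.sub_mem_V (by rw [T.cc_eq_of_mem_oc hz hc]; exact hw)
  obtain ⟨t, ht0, h1, h2, h3⟩ := T.exists_exit hcO hv (sub_ne_zero.2 hne)
  rw [T.cc_eq_of_mem_oc hz hc] at h1
  rw [T.oc_eq_of_mem hz hc] at h2 h3
  have ht1 : 1 ≤ t := by
    by_contra hlt
    push Not at hlt
    exact h2 (ray_oc hz hc hw ht0.le hlt)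
  have hw' : w = c + t⁻¹ • (c + t • (w - c) - c) := by
    rw [add_sub_cancel_left, smul_smul, inv_mul_cancel₀ ht0.ne', one_smul]; abel
  refine ⟨_, ⟨h1, h2⟩, t⁻¹, by positivity, inv_le_one_of_one_le₀ ht1, hw', fun hoc => ?_⟩
  rcases eq_or_lt_of_le ht1 with e | e
  · rw [← e, one_smul, add_sub_cancel] at h2
    exact (h2 hoc).elim
  · exact inv_lt_one_of_one_lt₀ e

/-- the ray and the position on it are unique -/
theorem ray_unique {z c y y' : E} (hz : z ∈ Om) (hc : c ∈ T.oc z) (hy : y ∈ T.cc z \ T.oc z)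
    (hy' : y' ∈ T.cc z \ T.oc z) {t t' : ℝ} (h0 : 0 < t) (h0' : 0 < t')
    (h : c + t • (y - c) = c + t' • (y' - c)) : t = t' ∧ y = y' := by
  have h1 : t • (y - c) = t' • (y' - c) := add_left_cancel h
  have key : ∀ {y y' : E} {t t' : ℝ}, y ∈ T.cc z \ T.oc z → y' ∈ T.cc z \ T.oc z → 0 < t → 0 < t' →
      t • (y - c) = t' • (y' - c) → ¬ t < t' := by
    intro y y' t t' hy hy' h0 h0' h1 hlt
    apply hy'.2
    have h2 : y' - c = (t / t') • (y - c) := by
      rw [div_eq_inv_mul, mul_smul, h1, smul_smul, inv_mul_cancel₀ h0'.ne', one_smul]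
    have h3 : y' = c + (t / t') • (y - c) := by rw [← h2]; abel
    rw [h3]
    exact ray_oc hz hc hy.1 (by positivity) ((div_lt_one h0').2 hlt)
  have ht : t = t' := le_antisymm (not_lt.1 (key hy' hy h0' h0 h1.symm)) (not_lt.1 (key hy hy' h0 h0' h1))
  subst ht
  refine ⟨rfl, ?_⟩
  have h2 : y - c = y' - c := by
    have := congrArg (fun v => t⁻¹ • v) h1
    simpa [smul_smul, inv_mul_cancel₀ h0.ne'] using this
  exact sub_left_injective h2

/-! ### conical sets and their labels -/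

/-- a compact set which is conical with respect to a tiling of the whole space -/
structure Con {ι : Type*} (T : Tiling (univ : Set E) ι) (S : Set E) (ctr : E → E) : Prop where
  cpt : IsCompact S
  mem : ∀ z, (T.cc z ∩ S).Nonempty → ctr z ∈ T.oc z
  on : ∀ z, (T.cc z ∩ S).Nonempty → ctr z ∈ S
  cell : ∀ z w, w ∈ T.oc z → ctr w = ctr z
  cone : ∀ z, (T.cc z ∩ S).Nonempty → ∀ y ∈ T.cc z \ T.oc z, ∀ t : ℝ, 0 < t → t ≤ 1 →
    (ctr z + t • (y - ctr z) ∈ S ↔ y ∈ S)
  vert : ∀ v, T.dim v = 0 → v ∉ S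
  two : ∀ z, T.dim z = 2 → (T.cc z ∩ S).Nonempty → ((T.cc z \ T.oc z) ∩ S).ncard = 2
  bdn : ∀ z, 2 ≤ T.dim z → (T.cc z ∩ S).Nonempty → ((T.cc z \ T.oc z) ∩ S).Nonempty

section labels

variable [FiniteDimensional ℝ E] {ι : Type*} {T : Tiling (univ : Set E) ι} {S : Set E} {ctr : E → E}

/-- a point of `S` in a closed 1-cell is the centre -/
theorem Con.eq_ctr (h : Con T S ctr) {z w : E} (hz : T.dim z = 1) (hw : w ∈ T.cc z) (hwS : w ∈ S) :
    w = ctr z := by
  by_contra hne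
  have hm : (T.cc z ∩ S).Nonempty := ⟨w, hw, hwS⟩
  obtain ⟨y, hy, t, h0, h1, e, -⟩ := ray_exists (mem_univ z) (h.mem z hm) hw hne
  have hyS : y ∈ S := (h.cone z hm y hy t h0 h1).1 (e ▸ hwS)
  have := T.dim_lt hy.1 hy.2
  exact h.vert y (by omega) hyS

theorem Con.finite1 (h : Con T S ctr) : {w | w ∈ S ∧ T.dim w = 1}.Finite := by
  have h1 := T.finite_cells h.cpt (subset_univ S)
  refine Set.Finite.of_finite_image (f := T.cc) (h1.subset ?_) ?_
  · rintro _ ⟨w, ⟨hw, -⟩, rfl⟩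
    exact ⟨⟨w, mem_univ w, rfl⟩, w, T.self_mem_cc w, hw⟩
  · rintro w ⟨hw, hw1⟩ w' ⟨hw', hw1'⟩ e
    have e1 := h.eq_ctr hw1 (T.self_mem_cc w) hw
    have e2 := h.eq_ctr hw1' (T.self_mem_cc w') hw'
    have h2 : w' ∈ T.oc w := (T.cc_eq_iff (mem_univ w)).1 (by exact e.symm)
    rw [e1, e2, h.cell w w' h2]

/-- the points of `S` on the 1-cells -/
noncomputable def Con.Q (h : Con T S ctr) : Finset E := h.finite1.toFinset

theorem Con.mem_Q (h : Con T S ctr) {w : E} : w ∈ h.Q ↔ w ∈ S ∧ T.dim w = 1 := by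
  simp [Con.Q]

theorem Con.evPat (h : Con T S ctr) : Lab_184.EvPat T h.Q := by
  refine ⟨fun w hw => ⟨mem_univ w, (h.mem_Q.1 hw).2⟩, fun x _ hd => ?_⟩
  by_cases hm : (T.cc x ∩ S).Nonempty
  · have : ((h.Q : Set E) ∩ T.cc x) = (T.cc x \ T.oc x) ∩ S := by
      ext w
      simp only [mem_inter_iff, Finset.mem_coe, h.mem_Q, Set.mem_sdiff]
      constructor
      · rintro ⟨⟨h1, h2⟩, h3⟩
        exact ⟨⟨h3, fun h4 => by have := T.dim_eq_of_mem_oc (mem_univ x) h4; omega⟩, h1⟩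
      · rintro ⟨⟨h1, h2⟩, h3⟩
        refine ⟨⟨h3, ?_⟩, h1⟩
        have h4 := T.dim_lt h1 h2
        have h5 : T.dim w ≠ 0 := fun h5 => h.vert w h5 h3
        omega
    rw [this, h.two x hd hm]
    exact even_two
  · have : ((h.Q : Set E) ∩ T.cc x) = ∅ := by
      rw [Set.eq_empty_iff_forall_notMem]
      rintro w ⟨h1, h2⟩
      exact hm ⟨w, h2, (h.mem_Q.1 h1).1⟩
    rw [this, ncard_empty]
    exact Even.zero

/-- **labels** of a conical set -/
theorem Con.exists_labels (h : Con T S ctr) (h3 : finrank ℝ E = 3) :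
    ∃ (lam : E → ZMod 2) (D : Set E), IsCompact D ∧ (∀ v ∉ D, lam v = 0) ∧
      (∀ q, (P (T.H q) ∩ S).Nonempty → P (T.H q) ⊆ D) ∧
      (∀ q, ¬ P (T.H q) ⊆ D → ∀ v ∈ P (T.H q), lam v = 0) ∧
      ∀ e, T.dim e = 1 → ∀ a b, T.cc e = segment ℝ a b → (lam a ≠ lam b ↔ (T.cc e ∩ S).Nonempty) := by
  have hfin := T.finite_tiles h.cpt (subset_univ S)
  have hK : IsCompact (⋃ i ∈ {i | (P (T.H i) ∩ S).Nonempty}, P (T.H i)) :=
    hfin.isCompact_biUnion fun i _ => T.cpt i
  obtain ⟨r, hr⟩ := hK.isBounded.subset_ball_lt 0 0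
  obtain ⟨hr0, hr⟩ := hr
  have hint : interior (closedBall (0 : E) r) = ball 0 r := interior_closedBall _ hr0.ne'
  have : ProperSpace E := FiniteDimensional.proper ℝ E
  have hne : (interior (closedBall (0 : E) r)).Nonempty := by
    rw [hint]; exact ⟨0, mem_ball_self hr0⟩
  have hfr := Lab_184.isPreconnected_frontier h3 (isCompact_closedBall (0 : E) r)
    (convex_closedBall _ _) hne
  have ht : TrivF (ZMod 2) (closedBall (0 : E) r) := by
    have := Lab_184.trivF_convex (A := ZMod 2) (isCompact_closedBall (0 : E) r)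
      (convex_closedBall _ _) (g := id) continuousOn_id (injOn_id _)
    rwa [image_id] at this
  have hsup : ∀ q, (P (T.H q) ∩ S).Nonempty → P (T.H q) ⊆ interior (closedBall (0 : E) r) := by
    intro q hq
    rw [hint]
    exact (subset_biUnion_of_mem (u := fun i => P (T.H i)) hq).trans hr
  obtain ⟨lam, h1, h2, h4⟩ := Lab_184.labels h3 h.evPat (isCompact_closedBall (0 : E) r)
    (subset_univ _) hfr ht (fun w hw q hq => hsup q ⟨w, hq, (h.mem_Q.1 hw).1⟩)
  refine ⟨lam, closedBall 0 r, isCompact_closedBall _ _, h1,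
    fun q hq => (hsup q hq).trans interior_subset,
    fun q hq => h2 q fun h' => hq (h'.trans interior_subset), fun e he a b hab => ?_⟩
  have h5 := h4 e (mem_univ e) he a b hab
  by_cases hm : (T.cc e ∩ S).Nonempty
  · have : ((h.Q : Set E) ∩ T.cc e) = {ctr e} := by
      ext w
      simp only [mem_inter_iff, Finset.mem_coe, h.mem_Q, mem_singleton_iff]
      constructor
      · rintro ⟨⟨h6, -⟩, h7⟩
        exact h.eq_ctr he h7 h6
      · rintro rfl
        have h8 := h.mem e hm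
        exact ⟨⟨h.on e hm, by rw [T.dim_eq_of_mem_oc (mem_univ e) h8]; exact he⟩,
          T.oc_sub_cc e h8⟩
    rw [this, ncard_singleton] at h5
    simp only [hm, iff_true]
    intro h6
    rw [h6] at h5
    have : ∀ a : ZMod 2, a + a ≠ ((1 : ℕ) : ZMod 2) := by decide
    exact this _ h5
  · have : ((h.Q : Set E) ∩ T.cc e) = ∅ := by
      rw [Set.eq_empty_iff_forall_notMem]
      rintro w ⟨h1, h2⟩
      exact hm ⟨w, h2, (h.mem_Q.1 h1).1⟩
    rw [this, ncard_empty] at h5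
    simp only [hm, iff_false, not_not]
    have : ∀ a b : ZMod 2, a + b = ((0 : ℕ) : ZMod 2) → a = b := by decide
    exact this _ _ h5

end labels

end Crest.Agent.R096.Gq_451
end

-- ▼ part R096/Gq2_451
section

/-!
# R096 (row 96), P2-GEN, N4 (helper451), part 2: the two closed sides of a conical set
-/

set_option autoImplicit false

open Set Topology Filter Metric Module

namespace Crest.Agent.R096.Gq_451

open Crest.Agent.R096.Msh_715 Crest.Agent.R096.Coh_184

variable {E : Type*} [NormedAddCommGroup E] [NormedSpace ℝ E]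
variable {ι : Type*} {T : Tiling (univ : Set E) ι} {S : Set E} {ctr : E → E}

/-- `v` is a vertex label function of the conical set `S` -/
def IsLb (T : Tiling (univ : Set E) ι) (S : Set E) (lam : E → ZMod 2) : Prop :=
  ∀ e, T.dim e = 1 → ∀ a b, T.cc e = segment ℝ a b → (lam a ≠ lam b ↔ (T.cc e ∩ S).Nonempty)

/-- the closed side `i` -/
inductive Sd (T : Tiling (univ : Set E) ι) (S : Set E) (ctr : E → E) (lam : E → ZMod 2)
    (i : ZMod 2) : E → Prop
  | base (x v : E) : T.cc x ∩ S = ∅ → v ∈ T.cc x → T.dim v = 0 → lam v = i → Sd T S ctr lam i x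
  | ctr (z : E) : (T.cc z ∩ S).Nonempty → Sd T S ctr lam i (ctr z)
  | cone (z y : E) (t : ℝ) : (T.cc z ∩ S).Nonempty → y ∈ T.cc z \ T.oc z →
      Sd T S ctr lam i y → 0 < t → t < 1 → Sd T S ctr lam i (ctr z + t • (y - ctr z))

/-- the closed side `i`, as a set -/
def sd (T : Tiling (univ : Set E) ι) (S : Set E) (ctr : E → E) (lam : E → ZMod 2)
    (i : ZMod 2) : Set E := {x | Sd T S ctr lam i x}

variable [FiniteDimensional ℝ E] {lam : E → ZMod 2}

/-- labels are constant on the cells which miss `S` -/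
theorem IsLb.const (hl : IsLb T S lam) {x v w : E} (hx : T.cc x ∩ S = ∅) (hv : v ∈ T.cc x)
    (hw : w ∈ T.cc x) (hv0 : T.dim v = 0) (hw0 : T.dim w = 0) : lam v = lam w := by
  refine T.const_cell (mem_univ x) (φ := lam) (fun e he h1 a b hab => ?_) v hv w hw hv0 hw0
  have h2 := hl e h1 a b hab
  by_contra hne
  obtain ⟨y, hy, hyS⟩ := h2.1 hne
  have : y ∈ T.cc x ∩ S := ⟨T.cc_sub_of_mem he hy, hyS⟩
  rw [hx] at this; exact this

/-- inversion: on a cell which misses `S` -/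
theorem Con.sd_base (h : Con T S ctr) (hl : IsLb T S lam) {i : ZMod 2} {x v : E}
    (hx : T.cc x ∩ S = ∅) (hv : v ∈ T.cc x) (hv0 : T.dim v = 0) :
    Sd T S ctr lam i x ↔ lam v = i := by
  refine ⟨fun hs => ?_, fun hs => Sd.base x v hx hv hv0 hs⟩
  cases hs with
  | base _ v' h1 h2 h3 h4 => rw [← h4]; exact hl.const hx hv h2 hv0 h3
  | ctr z hz =>
    have : ctr z ∈ T.cc (ctr z) ∩ S := ⟨T.self_mem_cc _, h.on z hz⟩
    rw [hx] at this; exact this.elim
  | cone z y t hz hy hs h0 h1 =>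
    exfalso
    have h2 : ctr z + t • (y - ctr z) ∈ T.oc z := ray_oc (mem_univ z) (h.mem z hz) hy.1 h0.le h1
    rw [T.cc_eq_of_mem_oc (mem_univ z) h2] at hx
    obtain ⟨w, hw⟩ := hz
    rw [hx] at hw; exact hw

/-- inversion: on a cell which meets `S` -/
theorem Con.sd_cone (h : Con T S ctr) {i : ZMod 2} {z y : E} {t : ℝ}
    (hz : (T.cc z ∩ S).Nonempty) (hy : y ∈ T.cc z \ T.oc z) (h0 : 0 < t) (h1 : t ≤ 1) :
    Sd T S ctr lam i (ctr z + t • (y - ctr z)) ↔ Sd T S ctr lam i y := by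
  rcases eq_or_lt_of_le h1 with rfl | h1
  · rw [one_smul, add_sub_cancel]
  refine ⟨fun hs => ?_, fun hs => Sd.cone z y t hz hy hs h0 h1⟩
  have h2 : ctr z + t • (y - ctr z) ∈ T.oc z := ray_oc (mem_univ z) (h.mem z hz) hy.1 h0.le h1
  have hne : ctr z + t • (y - ctr z) ≠ ctr z := by
    intro e
    have h3 : t • (y - ctr z) = 0 := by simpa using e
    rcases smul_eq_zero.1 h3 with h4 | h4
    · exact h0.ne' h4
    · apply hy.2
      rw [sub_eq_zero.1 h4]; exact h.mem z hz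
  generalize hx : ctr z + t • (y - ctr z) = x at hs h2 hne
  cases hs with
  | base _ v' a1 a2 a3 a4 =>
    rw [T.cc_eq_of_mem_oc (mem_univ z) h2] at a1
    obtain ⟨w, hw⟩ := hz
    rw [a1] at hw; exact hw.elim
  | ctr z' hz' =>
    exfalso
    have h3 := h.mem z' hz'
    have e1 := h.cell z (ctr z') h2
    have e2 := h.cell z' (ctr z') h3
    exact hne (e2.symm.trans e1 ▸ rfl)
  | cone z' y' t' hz' hy' hs' h0' h1' =>
    have h3 : ctr z' + t' • (y' - ctr z') ∈ T.oc z' :=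
      ray_oc (mem_univ z') (h.mem z' hz') hy'.1 h0'.le h1'
    have e0 : ctr z' = ctr z := (h.cell z' _ h3).symm.trans (h.cell z _ h2)
    have e3 : T.oc z' = T.oc z := by
      rw [← T.oc_eq_of_mem (mem_univ z') h3, T.oc_eq_of_mem (mem_univ z) h2]
    have e4 : T.cc z' = T.cc z := by
      rw [← T.cc_eq_of_mem_oc (mem_univ z') h3, T.cc_eq_of_mem_oc (mem_univ z) h2]
    rw [e0] at hx
    rw [e3, e4] at hy'
    obtain ⟨-, e5⟩ := ray_unique (mem_univ z) (h.mem z hz) hy hy' h0 h0' hx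
    rw [e5]; exact hs'

/-- the description of the points by rays -/
theorem Con.ray (h : Con T S ctr) {x : E} (hx : (T.cc x ∩ S).Nonempty) :
    x = ctr x ∨ ∃ y ∈ T.cc x \ T.oc x, ∃ t : ℝ, 0 < t ∧ t < 1 ∧ x = ctr x + t • (y - ctr x) := by
  by_cases hne : x = ctr x
  · exact Or.inl hne
  · obtain ⟨y, hy, t, h0, h1, e, h2⟩ := ray_exists (mem_univ x) (h.mem x hx) (T.self_mem_cc x) hne
    exact Or.inr ⟨y, hy, t, h0, h2 (T.self_mem_oc x), e⟩

theorem Con.sub_sd (h : Con T S ctr) (i : ZMod 2) : S ⊆ sd T S ctr lam i := by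
  intro x
  induction hd : T.dim x using Nat.strong_induction_on generalizing x with
  | _ d ih =>
    intro hx
    have hm : (T.cc x ∩ S).Nonempty := ⟨x, T.self_mem_cc x, hx⟩
    rcases h.ray hm with e | ⟨y, hy, t, h0, h1, e⟩
    · rw [e]; exact Sd.ctr x hm
    · have hyS : y ∈ S := (h.cone x hm y hy t h0 h1.le).1 (e ▸ hx)
      have hlt := T.dim_lt hy.1 hy.2
      have h2 : Sd T S ctr lam i y := ih _ (hd ▸ hlt) rfl hyS
      show Sd T S ctr lam i x
      rw [e]
      exact Sd.cone x y t hm hy h2 h0 h1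

theorem Con.cover (h : Con T S ctr) (lam : E → ZMod 2) (x : E) :
    x ∈ sd T S ctr lam 0 ∨ x ∈ sd T S ctr lam 1 := by
  induction hd : T.dim x using Nat.strong_induction_on generalizing x with
  | _ d ih =>
    by_cases hm : (T.cc x ∩ S).Nonempty
    · rcases h.ray hm with e | ⟨y, hy, t, h0, h1, e⟩
      · left; rw [e]; exact Sd.ctr x hm
      · have hlt := T.dim_lt hy.1 hy.2
        rcases ih _ (hd ▸ hlt) y rfl with h2 | h2
        · left; show Sd T S ctr lam 0 x; rw [e]; exact Sd.cone x y t hm hy h2 h0 h1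
        · right; show Sd T S ctr lam 1 x; rw [e]; exact Sd.cone x y t hm hy h2 h0 h1
    · rw [not_nonempty_iff_eq_empty] at hm
      obtain ⟨v, hv, hv0⟩ := T.exists_vertex (mem_univ x)
      have : ∀ a : ZMod 2, a = 0 ∨ a = 1 := by decide
      rcases this (lam v) with e | e
      · left; exact Sd.base x v hm hv hv0 e
      · right; exact Sd.base x v hm hv hv0 e

theorem Con.inter (h : Con T S ctr) (hl : IsLb T S lam) :
    sd T S ctr lam 0 ∩ sd T S ctr lam 1 = S := by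
  apply Subset.antisymm
  · intro x
    induction hd : T.dim x using Nat.strong_induction_on generalizing x with
    | _ d ih =>
      rintro ⟨hx0, hx1⟩
      by_cases hm : (T.cc x ∩ S).Nonempty
      · rcases h.ray hm with e | ⟨y, hy, t, h0, h1, e⟩
        · rw [e]; exact h.on x hm
        · have hlt := T.dim_lt hy.1 hy.2
          have h2 : y ∈ S := ih _ (hd ▸ hlt) rfl
            ⟨(h.sd_cone hm hy h0 h1.le).1 (e ▸ hx0), (h.sd_cone hm hy h0 h1.le).1 (e ▸ hx1)⟩
          rw [e]; exact (h.cone x hm y hy t h0 h1.le).2 h2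
      · rw [not_nonempty_iff_eq_empty] at hm
        obtain ⟨v, hv, hv0⟩ := T.exists_vertex (mem_univ x)
        have e0 := (h.sd_base hl hm hv hv0).1 hx0
        have e1 := (h.sd_base hl hm hv hv0).1 hx1
        rw [e0] at e1
        exact absurd e1 (by decide)
  · exact fun x hx => ⟨h.sub_sd 0 hx, h.sub_sd 1 hx⟩

/-- a cell which misses `S` lies in one side -/
theorem Con.cell_sd (h : Con T S ctr) (hl : IsLb T S lam) {z v : E} (hz : T.cc z ∩ S = ∅)
    (hv : v ∈ T.cc z) (hv0 : T.dim v = 0) : T.cc z ⊆ sd T S ctr lam (lam v) := by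
  intro x hx
  have hm : T.cc x ∩ S = ∅ := by
    apply subset_empty_iff.1
    rw [← hz]
    exact inter_subset_inter_left _ (T.cc_sub_of_mem hx)
  obtain ⟨w, hw, hw0⟩ := T.exists_vertex (mem_univ x)
  exact Sd.base x w hm hw hw0 (hl.const hz (T.cc_sub_of_mem hx hw) hv hw0 hv0)

/-- the trace of a side on a cell which meets `S` is a cone -/
theorem Con.sd_inter (h : Con T S ctr) {i : ZMod 2} {z : E} (hz : (T.cc z ∩ S).Nonempty) :
    sd T S ctr lam i ∩ T.cc z = insert (ctr z)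
      ((fun p : E × ℝ => ctr z + p.2 • (p.1 - ctr z)) ''
        ((sd T S ctr lam i ∩ (T.cc z \ T.oc z)) ×ˢ Icc 0 1)) := by
  ext x
  constructor
  · rintro ⟨hx, hxz⟩
    by_cases hne : x = ctr z
    · exact Or.inl hne
    · obtain ⟨y, hy, t, h0, h1, e, -⟩ := ray_exists (mem_univ z) (h.mem z hz) hxz hne
      refine Or.inr ⟨(y, t), ⟨⟨?_, hy⟩, h0.le, h1⟩, e.symm⟩
      exact (h.sd_cone hz hy h0 h1).1 (e ▸ hx)
  · rintro (rfl | ⟨⟨y, t⟩, ⟨⟨hy1, hy2⟩, h0, h1⟩, rfl⟩)
    · exact ⟨Sd.ctr z hz, T.oc_sub_cc z (h.mem z hz)⟩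
    · refine ⟨?_, ?_⟩
      · rcases eq_or_lt_of_le h0 with e | h0
        · simp only at e
          show Sd T S ctr lam i (ctr z + t • (y - ctr z))
          rw [← e, zero_smul, add_zero]; exact Sd.ctr z hz
        · exact (h.sd_cone hz hy2 h0 h1).2 hy1
      · have hc := T.oc_sub_cc z (h.mem z hz)
        have := (T.convex_cc z) hc hy2.1 (a := 1 - t) (b := t) (by simp only at h1; linarith) h0
          (by ring)
        simp only
        have e : ctr z + t • (y - ctr z) = (1 - t) • ctr z + t • y := by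
          rw [smul_sub, sub_smul, one_smul]; abel
        rw [e]; exact this

theorem finite_bdry (T : Tiling (univ : Set E) ι) (z : E) :
    ∃ s : Set (Set E), s.Finite ∧ (∀ c ∈ s, ∃ w ∈ T.cc z \ T.oc z, c = T.cc w) ∧
      T.cc z \ T.oc z = ⋃₀ s := by
  refine ⟨{c | ∃ w ∈ T.cc z \ T.oc z, c = T.cc w}, ?_, fun c hc => hc, ?_⟩
  · refine (T.finite_below (mem_univ z)).subset ?_
    rintro c ⟨w, hw, rfl⟩
    exact ⟨⟨w, mem_univ w, rfl⟩, T.cc_sub_of_mem hw.1⟩
  · ext x
    constructor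
    · intro hx
      exact ⟨T.cc x, ⟨x, hx, rfl⟩, T.self_mem_cc x⟩
    · rintro ⟨_, ⟨w, hw, rfl⟩, hx⟩
      refine ⟨T.cc_sub_of_mem hw.1 hx, fun hxo => ?_⟩
      exact Set.disjoint_left.1 (T.disjoint_oc_cc (mem_univ z) hw.1 hw.2) hxo hx

theorem Con.isClosed_inter (h : Con T S ctr) (hl : IsLb T S lam) (i : ZMod 2) (z : E) :
    IsClosed (sd T S ctr lam i ∩ T.cc z) := by
  induction hd : T.dim z using Nat.strong_induction_on generalizing z with
  | _ d ih =>
    by_cases hm : (T.cc z ∩ S).Nonempty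
    · rw [h.sd_inter hm]
      obtain ⟨s, hs, hs1, hs2⟩ := finite_bdry T z
      have hcl : IsCompact (sd T S ctr lam i ∩ (T.cc z \ T.oc z)) := by
        have hsub : sd T S ctr lam i ∩ (T.cc z \ T.oc z) ⊆ T.cc z :=
          inter_subset_right.trans Set.sdiff_subset
        refine (T.isCompact_cc (mem_univ z)).of_isClosed_subset ?_ hsub
        rw [hs2, sUnion_eq_biUnion, inter_iUnion₂]
        refine hs.isClosed_biUnion fun c hc => ?_
        obtain ⟨w, hw, rfl⟩ := hs1 c hc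
        exact ih _ (hd ▸ T.dim_lt hw.1 hw.2) w rfl
      have : IsCompact ((fun p : E × ℝ => ctr z + p.2 • (p.1 - ctr z)) ''
          ((sd T S ctr lam i ∩ (T.cc z \ T.oc z)) ×ˢ Icc 0 1)) :=
        (hcl.prod isCompact_Icc).image (by fun_prop)
      exact (this.insert _).isClosed
    · rw [not_nonempty_iff_eq_empty] at hm
      obtain ⟨v, hv, hv0⟩ := T.exists_vertex (mem_univ z)
      by_cases hi : lam v = i
      · subst hi
        rw [inter_eq_right.2 (h.cell_sd hl hm hv hv0)]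
        exact T.isClosed_cc z
      · have : sd T S ctr lam i ∩ T.cc z = ∅ := by
          rw [Set.eq_empty_iff_forall_notMem]
          rintro x ⟨hx1, hx2⟩
          have h1 := h.cell_sd hl hm hv hv0 hx2
          have hmx : T.cc x ∩ S = ∅ := by
            apply subset_empty_iff.1
            rw [← hm]
            exact inter_subset_inter_left _ (T.cc_sub_of_mem hx2)
          obtain ⟨w, hw, hw0⟩ := T.exists_vertex (mem_univ x)
          exact hi (((h.sd_base hl hmx hw hw0).1 h1).symm.trans ((h.sd_base hl hmx hw hw0).1 hx1))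
        rw [this]; exact isClosed_empty

theorem isClosed_of_cells (T : Tiling (univ : Set E) ι) {R : Set E}
    (hR : ∀ z, IsClosed (R ∩ T.cc z)) : IsClosed R := by
  have : R = ⋃ q, (R ∩ P (T.H q)) := by
    rw [← inter_iUnion]
    apply (inter_eq_self_of_subset_left _).symm
    intro x _
    obtain ⟨q, hq⟩ := T.cov x (mem_univ x)
    exact mem_iUnion.2 ⟨q, hq⟩
  rw [this]
  refine LocallyFinite.isClosed_iUnion (fun x => ?_) (fun q => ?_)
  · obtain ⟨r, hr, hf⟩ := T.lf x (mem_univ x)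
    refine ⟨ball x r, ball_mem_nhds x hr, hf.subset fun q hq => ?_⟩
    obtain ⟨y, hy1, hy2⟩ := hq
    exact ⟨y, hy1.2, hy2⟩
  · obtain ⟨z, hz⟩ := T.ne q
    rw [← T.cc_eq_tile hz]
    exact hR z

/-- the sides are closed -/
theorem Con.isClosed_sd (h : Con T S ctr) (hl : IsLb T S lam) (i : ZMod 2) :
    IsClosed (sd T S ctr lam i) := isClosed_of_cells T (h.isClosed_inter hl i)

/-- a cell which meets `S` has vertices of both labels -/
theorem Con.exists_vertex (h : Con T S ctr) (hl : IsLb T S lam) (i : ZMod 2) {z : E}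
    (hz : (T.cc z ∩ S).Nonempty) : ∃ v ∈ T.cc z, T.dim v = 0 ∧ lam v = i := by
  induction hd : T.dim z using Nat.strong_induction_on generalizing z with
  | _ d ih =>
    rcases Nat.lt_or_ge d 2 with h2 | h2
    · have h0 : T.dim z ≠ 0 := by
        intro h0
        obtain ⟨w, hw, hwS⟩ := hz
        rw [T.cc_eq_singleton (T.dim_eq_zero_iff.1 h0), mem_singleton_iff] at hw
        exact h.vert z h0 (hw ▸ hwS)
      have h1 : T.dim z = 1 := by omega
      obtain ⟨a, b, hne, e1, e2, ha, hb, hae, hbe⟩ := T.edge_eq (mem_univ z) h1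
      have h3 := (hl z h1 a b e1).2 hz
      by_cases hi : lam a = i
      · exact ⟨a, hae, ha, hi⟩
      · refine ⟨b, hbe, hb, ?_⟩
        have : ∀ x y i : ZMod 2, x ≠ y → x ≠ i → y = i := by decide
        exact this _ _ _ h3 hi
    · obtain ⟨w, hw, hwS⟩ := h.bdn z (hd ▸ h2) hz
      obtain ⟨v, hv, hv0, hvi⟩ := ih _ (hd ▸ T.dim_lt hw.1 hw.2) (z := w)
        ⟨w, T.self_mem_cc w, hwS⟩ rfl
      exact ⟨v, T.cc_sub_of_mem hw.1 hv, hv0, hvi⟩

/-- both sides appear on the relative boundary, off `S` -/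
theorem Con.bdry_sd (h : Con T S ctr) (hl : IsLb T S lam) (i : ZMod 2) {z : E}
    (hz : (T.cc z ∩ S).Nonempty) : ((sd T S ctr lam i ∩ (T.cc z \ T.oc z)) \ S).Nonempty := by
  obtain ⟨v, hv, hv0, hvi⟩ := h.exists_vertex hl i hz
  have hvS : T.cc v ∩ S = ∅ := by
    rw [T.cc_eq_singleton (T.dim_eq_zero_iff.1 hv0)]
    exact singleton_inter_eq_empty.2 (h.vert v hv0)
  have hoc : v ∉ T.oc z := by
    intro hvo
    rw [← T.cc_eq_of_mem_oc (mem_univ z) hvo] at hz
    rw [hvS] at hz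
    exact not_nonempty_empty hz
  exact ⟨v, ⟨Sd.base v v hvS (T.self_mem_cc v) hv0 hvi, hv, hoc⟩, h.vert v hv0⟩

/-- the side of a nonzero label is bounded -/
theorem Con.sd_sub (h : Con T S ctr) {D : Set E}
    (h1 : ∀ q, (P (T.H q) ∩ S).Nonempty → P (T.H q) ⊆ D)
    (h2 : ∀ q, ¬ P (T.H q) ⊆ D → ∀ v ∈ P (T.H q), lam v = 0) : sd T S ctr lam 1 ⊆ D := by
  intro x hx
  obtain ⟨q, hq⟩ := T.cov x (mem_univ x)
  by_cases hm : (T.cc x ∩ S).Nonempty
  · obtain ⟨w, hw, hwS⟩ := hm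
    exact h1 q ⟨w, T.cc_sub_tile hq hw, hwS⟩ hq
  · by_contra hxD
    rw [not_nonempty_iff_eq_empty] at hm
    cases hx with
    | base _ v a1 a2 a3 a4 =>
      have := h2 q (fun hs => hxD (hs hq)) v (T.cc_sub_tile hq a2)
      rw [this] at a4
      exact absurd a4 (by decide)
    | ctr z hz =>
      have : ctr z ∈ T.cc (ctr z) ∩ S := ⟨T.self_mem_cc _, h.on z hz⟩
      rw [hm] at this; exact this.elim
    | cone z y t hz hy hs h0 h1 =>
      have h3 : ctr z + t • (y - ctr z) ∈ T.oc z := ray_oc (mem_univ z) (h.mem z hz) hy.1 h0.le h1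
      rw [T.cc_eq_of_mem_oc (mem_univ z) h3] at hm
      obtain ⟨w, hw⟩ := hz
      rw [hm] at hw; exact hw.elim

end Crest.Agent.R096.Gq_451
end

-- ▼ part R096/Gq3_451
section

/-!
# R096 (row 96), P2-GEN, N4 (helper451), part 3: `SidesStmt`
-/

set_option autoImplicit false

open Set Topology Filter Metric Module

namespace Crest.Agent.R096.Gq_451

open Crest.Agent.R096.Msh_715 Crest.Agent.R096.Coh_184

section gen

variable {E : Type*} [NormedAddCommGroup E] [NormedSpace ℝ E] [FiniteDimensional ℝ E]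
variable {ι : Type*} {T : Tiling (univ : Set E) ι} {S : Set E} {ctr : E → E} {lam : E → ZMod 2}

/-- both sides accumulate at every point of `S` -/
theorem Con.acc (h : Con T S ctr) (hl : IsLb T S lam) (i : ZMod 2) {x : E} (hx : x ∈ S) :
    x ∈ closure ((sd T S ctr lam i \ S) ∩ T.cc x) := by
  induction hd : T.dim x using Nat.strong_induction_on generalizing x with
  | _ d ih =>
    have hm : (T.cc x ∩ S).Nonempty := ⟨x, T.self_mem_cc x, hx⟩
    have hc := h.mem x hm
    have hseg : ∀ y ∈ T.cc x, ∀ t : ℝ, 0 ≤ t → t ≤ 1 → ctr x + t • (y - ctr x) ∈ T.cc x := by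
      intro y hy t h0 h1
      have := (T.convex_cc x) (T.oc_sub_cc x hc) hy (a := 1 - t) (b := t) (by linarith) h0 (by ring)
      have e : ctr x + t • (y - ctr x) = (1 - t) • ctr x + t • y := by
        rw [smul_sub, sub_smul, one_smul]; abel
      rw [e]; exact this
    rcases h.ray hm with e | ⟨y, hy, t, h0, h1, e⟩
    · obtain ⟨y, ⟨hys, hyb⟩, hyS⟩ := h.bdry_sd hl i hm
      have hlim : Tendsto (fun t : ℝ => ctr x + t • (y - ctr x)) (𝓝[>] 0) (𝓝 (ctr x)) := by
        have : Tendsto (fun t : ℝ => ctr x + t • (y - ctr x)) (𝓝 0)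
            (𝓝 (ctr x + (0 : ℝ) • (y - ctr x))) := by
          apply Continuous.tendsto; fun_prop
        rw [zero_smul, add_zero] at this
        exact this.mono_left nhdsWithin_le_nhds
      rw [e.symm] at hlim
      refine mem_closure_of_tendsto hlim ?_
      have : ∀ᶠ t in 𝓝[>] (0 : ℝ), t < 1 :=
        (gt_mem_nhds (zero_lt_one' ℝ)).filter_mono nhdsWithin_le_nhds
      filter_upwards [this, self_mem_nhdsWithin] with t ht1 ht0
      have ht0 : (0 : ℝ) < t := ht0
      rw [e.symm] at hseg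
      rw [e.symm] at hc
      have k1 := (h.sd_cone (lam := lam) (i := i) hm hyb ht0 ht1.le).2 hys
      have k2 := (h.cone x hm y hyb t ht0 ht1.le).not.2 hyS
      rw [e.symm] at k1 k2
      exact ⟨⟨k1, k2⟩, hseg y hyb.1 t ht0.le ht1.le⟩
    · have hyS : y ∈ S := (h.cone x hm y hy t h0 h1.le).1 (e ▸ hx)
      have h2 := ih _ (hd ▸ T.dim_lt hy.1 hy.2) hyS rfl
      have hcont : Continuous fun w : E => ctr x + t • (w - ctr x) := by fun_prop
      have h3 : ctr x + t • (y - ctr x) ∈ closure ((fun w : E => ctr x + t • (w - ctr x)) ''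
          ((sd T S ctr lam i \ S) ∩ T.cc y)) :=
        image_closure_subset_closure_image hcont ⟨y, h2, rfl⟩
      rw [← e] at h3
      refine closure_mono ?_ h3
      rintro _ ⟨w, ⟨⟨hw1, hw2⟩, hw3⟩, rfl⟩
      have hwb : w ∈ T.cc x \ T.oc x := by
        refine ⟨T.cc_sub_of_mem hy.1 hw3, fun hxo => ?_⟩
        exact Set.disjoint_left.1 (T.disjoint_oc_cc (mem_univ x) hy.1 hy.2) hxo hw3
      exact ⟨⟨(h.sd_cone hm hwb h0 h1.le).2 hw1, (h.cone x hm w hwb t h0 h1.le).not.2 hw2⟩,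
        hseg w hwb.1 t h0.le h1.le⟩

theorem Con.compl_sd (h : Con T S ctr) (hl : IsLb T S lam) :
    (sd T S ctr lam 1)ᶜ = sd T S ctr lam 0 \ S ∧ (sd T S ctr lam 0)ᶜ = sd T S ctr lam 1 \ S := by
  have h1 := h.inter hl
  constructor
  · ext x
    constructor
    · intro hx
      rcases h.cover lam x with h2 | h2
      · exact ⟨h2, fun h3 => hx (h.sub_sd 1 h3)⟩
      · exact (hx h2).elim
    · rintro ⟨h2, h3⟩ h4
      exact h3 (h1 ▸ ⟨h2, h4⟩)
  · ext x
    constructor
    · intro hx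
      rcases h.cover lam x with h2 | h2
      · exact (hx h2).elim
      · exact ⟨h2, fun h3 => hx (h.sub_sd 0 h3)⟩
    · rintro ⟨h2, h3⟩ h4
      exact h3 (h1 ▸ ⟨h4, h2⟩)

/-- a segment which misses `S` stays in one side -/
theorem Con.pre_side (h : Con T S ctr) (hl : IsLb T S lam) {i : ZMod 2} {C : Set E}
    (hC : IsPreconnected C) (hCS : C ∩ S = ∅) {x y : E} (hx : x ∈ C) (hy : y ∈ C)
    (hxi : x ∈ sd T S ctr lam i) : y ∈ sd T S ctr lam i := by
  have key : ∀ j k : ZMod 2, (sd T S ctr lam k)ᶜ = sd T S ctr lam j \ S →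
      (sd T S ctr lam j)ᶜ = sd T S ctr lam k \ S → x ∈ sd T S ctr lam j → y ∈ sd T S ctr lam j := by
    intro j k e1 e2 hxj
    have hcov : C ⊆ (sd T S ctr lam k)ᶜ ∪ (sd T S ctr lam j)ᶜ := by
      intro w hw
      have hwS : w ∉ S := fun hwS => by
        have : w ∈ C ∩ S := ⟨hw, hwS⟩
        rw [hCS] at this; exact this
      by_cases hwk : w ∈ sd T S ctr lam k
      · right; rw [e2]; exact ⟨hwk, hwS⟩
      · left; exact hwk
    have hxS : x ∉ S := fun hwS => by
      have : x ∈ C ∩ S := ⟨hx, hwS⟩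
      rw [hCS] at this; exact this
    have hdis : Disjoint (sd T S ctr lam k)ᶜ (sd T S ctr lam j)ᶜ := by
      rw [Set.disjoint_left]
      intro w hw1 hw2
      rw [e1] at hw1
      exact hw2 hw1.1
    have h3 := hC.subset_left_of_subset_union (h.isClosed_sd hl k).isOpen_compl
      (h.isClosed_sd hl j).isOpen_compl hdis hcov ⟨x, hx, by rw [e1]; exact ⟨hxj, hxS⟩⟩
    have h4 := h3 hy
    rw [e1] at h4
    exact h4.1
  obtain ⟨e1, e2⟩ := h.compl_sd hl
  have : ∀ i : ZMod 2, i = 0 ∨ i = 1 := by decide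
  rcases this i with rfl | rfl
  · exact key 0 1 e1 e2 hxi
  · exact key 1 0 e2 e1 hxi

/-- the sides are conical with respect to any apex -/
theorem Con.sd_apex (h : Con T S ctr) (hl : IsLb T S lam) {i : ZMod 2} {z y : E} {t : ℝ}
    (hz : ∀ s : ℝ, 0 < s → s ≤ 1 → (z + s • (y - z) ∈ S ↔ y ∈ S)) (h0 : 0 < t) (h1 : t ≤ 1) :
    (z + t • (y - z) ∈ sd T S ctr lam i ↔ y ∈ sd T S ctr lam i) := by
  by_cases hyS : y ∈ S
  · exact ⟨fun _ => h.sub_sd i hyS, fun _ => h.sub_sd i ((hz t h0 h1).2 hyS)⟩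
  · have hC : IsPreconnected ((fun s : ℝ => z + s • (y - z)) '' Ioc 0 1) :=
      isPreconnected_Ioc.image _ (by fun_prop)
    have hCS : ((fun s : ℝ => z + s • (y - z)) '' Ioc 0 1) ∩ S = ∅ := by
      rw [Set.eq_empty_iff_forall_notMem]
      rintro _ ⟨⟨s, hs, rfl⟩, hsS⟩
      exact hyS ((hz s hs.1 hs.2).1 hsS)
    have ht : z + t • (y - z) ∈ ((fun s : ℝ => z + s • (y - z)) '' Ioc 0 1) := ⟨t, ⟨h0, h1⟩, rfl⟩
    have hy : y ∈ ((fun s : ℝ => z + s • (y - z)) '' Ioc 0 1) :=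
      ⟨1, ⟨zero_lt_one, le_refl _⟩, by simp⟩
    exact ⟨fun h2 => h.pre_side hl hC hCS ht hy h2, fun h2 => h.pre_side hl hC hCS hy ht h2⟩

end gen

/-! ### isolated points are not two-sided -/

theorem preconn_punctured {E : Type*} [NormedAddCommGroup E] [NormedSpace ℝ E]
    (h : 1 < Module.rank ℝ E) (z : E) (r : ℝ) : IsPreconnected (ball z r \ {z}) := by
  have h1 : ball z r \ {z} = (fun p : ℝ × E => z + p.1 • p.2) '' (Ioo 0 r ×ˢ sphere (0 : E) 1) := by
    ext x
    constructor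
    · rintro ⟨hx, hne⟩
      have hne : x - z ≠ 0 := sub_ne_zero.2 hne
      have hn : 0 < ‖x - z‖ := norm_pos_iff.2 hne
      refine ⟨(‖x - z‖, ‖x - z‖⁻¹ • (x - z)), ⟨⟨hn, ?_⟩, ?_⟩, ?_⟩
      · rw [mem_ball, dist_eq_norm] at hx; exact hx
      · rw [mem_sphere_zero_iff_norm, norm_smul, norm_inv, norm_norm, inv_mul_cancel₀ hn.ne']
      · simp only [smul_smul, mul_inv_cancel₀ hn.ne', one_smul]; abel
    · rintro ⟨⟨t, u⟩, ⟨⟨h0, h1⟩, hu⟩, rfl⟩
      simp only at h0 h1 hu ⊢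
      rw [mem_sphere_zero_iff_norm] at hu
      refine ⟨?_, ?_⟩
      · rw [mem_ball, dist_eq_norm, add_sub_cancel_left, norm_smul, hu, mul_one, Real.norm_eq_abs,
          abs_of_pos h0]; exact h1
      · rw [mem_singleton_iff, add_eq_left, smul_eq_zero]
        rintro (h2 | h2)
        · exact h0.ne' h2
        · rw [h2, norm_zero] at hu; exact zero_ne_one hu
  rw [h1]
  exact (isPreconnected_Ioo.prod (isPreconnected_sphere h _ _)).image _ (by fun_prop)

theorem not_isolated {E : Type*} [NormedAddCommGroup E] [NormedSpace ℝ E]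
    (h : 1 < Module.rank ℝ E) {S : Set E} {z : E} (hS : Ax_914.TwoSidedAt S z) {r : ℝ}
    (hr : 0 < r) : ∃ y ∈ ball z r, y ∈ S ∧ y ≠ z := by
  by_contra hcon
  push Not at hcon
  obtain ⟨U, P, N, hU, hP, hN, hzU, hUb, -, -, hPN, hUS, hzP, hzN⟩ := hS r hr
  obtain ⟨ρ, hρ, hb⟩ := Metric.isOpen_iff.1 hU z hzU
  have hsub : ball z ρ \ {z} ⊆ P ∪ N := by
    rintro y ⟨hy, hyz⟩
    rw [← hUS]
    exact ⟨hb hy, fun hyS => hyz (hcon y (hUb (hb hy)) hyS)⟩
  have hpre := preconn_punctured h z ρ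
  -- both `P` and `N` meet the punctured ball
  have hmeet : ∀ A : Set E, z ∈ closure A → IsOpen A → ((ball z ρ \ {z}) ∩ A).Nonempty := by
    intro A hzA hA
    obtain ⟨y, hyb, hyA⟩ := mem_closure_iff.1 hzA _ isOpen_ball (mem_ball_self hρ)
    by_cases hyz : y = z
    · subst hyz
      -- move a little inside `A`
      obtain ⟨δ, hδ, hbA⟩ := Metric.isOpen_iff.1 hA y hyA
      have : Nontrivial E := by
        rcases subsingleton_or_nontrivial E with hs | hs
        · have := rank_subsingleton' ℝ E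
          rw [this] at h; exact absurd h (by simp)
        · exact hs
      obtain ⟨w, hw⟩ := exists_ne (0 : E)
      have hwn : 0 < ‖w‖ := norm_pos_iff.2 hw
      have hm : 0 < min δ ρ := lt_min hδ hρ
      have hnorm : ‖(min δ ρ / (2 * ‖w‖)) • w‖ = min δ ρ / 2 := by
        rw [norm_smul, Real.norm_eq_abs, abs_of_pos (by positivity)]; field_simp
      have hmem : ∀ τ : ℝ, min δ ρ ≤ τ → y + (min δ ρ / (2 * ‖w‖)) • w ∈ ball y τ := by
        intro τ hτ
        rw [mem_ball, dist_eq_norm, add_sub_cancel_left, hnorm]; linarith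
      refine ⟨y + (min δ ρ / (2 * ‖w‖)) • w, ⟨hmem ρ (min_le_right _ _), ?_⟩,
        hbA (hmem δ (min_le_left _ _))⟩
      rw [mem_singleton_iff, add_eq_left]
      intro h0
      rw [h0, norm_zero] at hnorm
      linarith
    · exact ⟨y, ⟨hyb, hyz⟩, hyA⟩
  obtain ⟨y, hy, hyN⟩ := hmeet N hzN hN
  have h1 := hpre.subset_left_of_subset_union hP hN hPN hsub (hmeet P hzP hP)
  exact Set.disjoint_left.1 hPN (h1 hy) hyN

/-! ### the statement -/

open Gp_702

variable {ι : Type} {T : Tiling (univ : Set E3) ι} {S : Set E3}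

theorem con_of (hA : Adapted T S) (hS : ∀ x ∈ S, Ax_914.TwoSidedAt S x) :
    Con T S (fun x => Classical.epsilon (Apex T S x)) := by
  have hap : ∀ x, (T.cc x ∩ S).Nonempty → Apex T S x (Classical.epsilon (Apex T S x)) := by
    intro x hx
    obtain ⟨z, h1, h2, h3⟩ := hA.cen x hx
    exact Classical.epsilon_spec (p := Apex T S x) ⟨z, h1, h2, h3⟩
  have h3 : finrank ℝ E3 = 3 := by simp [E3]
  refine ⟨hA.cpt, fun z hz => (hap z hz).1, fun z hz => (hap z hz).2.1, ?_,
    fun z hz => (hap z hz).2.2, fun v hv hvS => hA.vert v hvS hv, ?_, ?_⟩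
  · intro z w hw
    have : Apex T S w = Apex T S z := by
      funext c
      unfold Apex
      rw [T.oc_eq_of_mem (mem_univ z) hw, T.cc_eq_of_mem_oc (mem_univ z) hw]
    simp only [this]
  · intro z hz hm
    have h1 := hap z hm
    have h2 := hA.two _ h1.2.1 (by rw [T.dim_eq_of_mem_oc (mem_univ z) h1.1]; exact hz)
    rw [T.oc_eq_of_mem (mem_univ z) h1.1, T.cc_eq_of_mem_oc (mem_univ z) h1.1] at h2
    exact h2
  · intro z hz hm
    have h1 := hap z hm
    rcases Nat.lt_or_ge 2 (T.dim z) with h4 | h4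
    · have h5 : T.dim z = 3 := by
        have := T.dim_le_finrank z
        rw [h3] at this; omega
      by_contra hne
      set c := Classical.epsilon (Apex T S z) with hc
      have hcS : c ∈ S := h1.2.1
      -- the open cell is open
      have hV : T.V z = ⊤ := by
        apply Submodule.eq_top_of_finrank_eq
        rw [h3]; exact h5
      obtain ⟨q, hq⟩ := (T.V_eq_top_iff (mem_univ z)).1 hV
      have hopen : IsOpen (T.oc z) := by
        rw [T.oc_eq_tile hq]; exact isOpen_I _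
      obtain ⟨r, hr, hb⟩ := Metric.isOpen_iff.1 hopen c h1.1
      obtain ⟨y, hy, hyS, hyc⟩ := not_isolated (by
        rw [← finrank_eq_rank, h3]; norm_cast) (hS c hcS) hr
      obtain ⟨w, hw, t, ht0, ht1, e, -⟩ := ray_exists (mem_univ z) h1.1 (T.oc_sub_cc z (hb hy)) hyc
      exact hne ⟨w, hw, (h1.2.2 w hw t ht0 ht1).1 (e ▸ hyS)⟩
    · have h5 : T.dim z = 2 := by omega
      have h2 := hA.two _ h1.2.1 (by rw [T.dim_eq_of_mem_oc (mem_univ z) h1.1]; exact h5)
      rw [T.oc_eq_of_mem (mem_univ z) h1.1, T.cc_eq_of_mem_oc (mem_univ z) h1.1] at h2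
      exact nonempty_of_ncard_ne_zero (by rw [h2]; norm_num)

/-- **(N4)** -/
theorem sidesStmt : SidesStmt := by
  intro ι T S _ hA hS
  have h := con_of hA hS
  have h3 : finrank ℝ E3 = 3 := by simp [E3]
  obtain ⟨lam, D, hD, -, hD1, hD2, hl⟩ := h.exists_labels h3
  have hl : IsLb T S lam := hl
  set ctr := fun x => Classical.epsilon (Apex T S x)
  obtain ⟨e1, e2⟩ := h.compl_sd hl
  have hacc : ∀ i, ∀ x ∈ S, x ∈ closure (sd T S ctr lam i \ S) := fun i x hx =>
    closure_mono inter_subset_left (h.acc hl i hx)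
  have hcl1 := h.isClosed_sd hl 1
  have hcl0 := h.isClosed_sd hl 0
  have hint : sd T S ctr lam 1 \ S ⊆ interior (sd T S ctr lam 1) := by
    refine interior_maximal Set.sdiff_subset ?_
    rw [← e2]; exact hcl0.isOpen_compl
  have hint' : interior (sd T S ctr lam 1) ∩ S = ∅ := by
    rw [Set.eq_empty_iff_forall_notMem]
    rintro x ⟨hx1, hx2⟩
    obtain ⟨y, hy1, hy2⟩ := mem_closure_iff.1 (hacc 0 x hx2) _ isOpen_interior hx1
    have h4 := interior_subset hy1
    rw [← e1] at hy2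
    exact hy2 h4
  refine ⟨sd T S ctr lam 1, sd T S ctr lam 0, ?_, hcl0, ?_, ?_, ?_, ?_, ?_, ?_, ?_, ?_⟩
  · exact hD.of_isClosed_subset hcl1 (h.sd_sub hD1 hD2)
  · ext x
    simp only [mem_union, mem_univ, iff_true]
    exact (h.cover lam x).symm
  · rw [inter_comm]; exact h.inter hl
  · rw [hcl1.frontier_eq]
    ext x
    constructor
    · rintro ⟨hx1, hx2⟩
      by_contra hxS
      exact hx2 (hint ⟨hx1, hxS⟩)
    · intro hx
      refine ⟨h.sub_sd 1 hx, fun hx2 => ?_⟩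
      have : x ∈ interior (sd T S ctr lam 1) ∩ S := ⟨hx2, hx⟩
      rw [hint'] at this; exact this
  · apply Subset.antisymm
    · exact hcl1.closure_subset_iff.2 interior_subset
    · intro x hx
      by_cases hxS : x ∈ S
      · exact closure_mono hint (hacc 1 x hxS)
      · exact subset_closure (hint ⟨hx, hxS⟩)
  · intro x hx
    have hx : T.cc x ∩ S = ∅ := by rwa [Cr, not_nonempty_iff_eq_empty] at hx
    obtain ⟨v, hv, hv0⟩ := T.exists_vertex (mem_univ x)
    have h4 := h.cell_sd hl hx hv hv0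
    have : ∀ i : ZMod 2, i = 0 ∨ i = 1 := by decide
    rcases this (lam v) with e | e
    · right; rw [e] at h4; exact h4
    · left; rw [e] at h4; exact h4
  · intro x z hz y hy t h0 h1
    exact h.sd_apex hl (fun s h0 h1 => hz.2.2 y hy s h0 h1) h0 h1
  · intro x z hz y hy t h0 h1
    exact h.sd_apex hl (fun s h0 h1 => hz.2.2 y hy s h0 h1) h0 h1
  · intro x hx hc a b hab
    obtain ⟨ha, hb, ha', hb', -⟩ := T.dim_ends (mem_univ x) hx hab
    have h4 : lam a ≠ lam b := (hl x hx a b hab).2 hc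
    have hv : ∀ v, T.dim v = 0 → v ∈ sd T S ctr lam (lam v) := by
      intro v hv0
      have hvS : T.cc v ∩ S = ∅ := by
        rw [T.cc_eq_singleton (T.dim_eq_zero_iff.1 hv0)]
        exact singleton_inter_eq_empty.2 (h.vert v hv0)
      exact Sd.base v v hvS (T.self_mem_cc v) hv0 rfl
    have h5 := hv a ha
    have h6 := hv b hb
    have key : ∀ i j : ZMod 2, i ≠ j → (i = 0 ∧ j = 1) ∨ (i = 1 ∧ j = 0) := by decide
    rcases key _ _ h4 with ⟨k1, k2⟩ | ⟨k1, k2⟩
    · right; rw [k1] at h5; rw [k2] at h6; exact ⟨h5, h6⟩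
    · left; rw [k1] at h5; rw [k2] at h6; exact ⟨h5, h6⟩

end Crest.Agent.R096.Gq_451
end

-- ▼ part R096/Gn3_296
section

/-!
# R096/Gn3_296 (helper296, row 96, P2-GEN, N2): one cell, `stepStmt : StepStmt`
-/

set_option autoImplicit false
set_option linter.unusedSectionVars false

namespace Crest.Agent.R096.Gn_296

open Set Metric Crest.Agent.R096.Ce_537 Crest.Agent.R096.Cb_609
open Crest.Agent.R096.Pl Crest.Agent.R096.Gp_702

variable {E : Type*} [NormedAddCommGroup E] [NormedSpace ℝ E]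
  {F : Type*} [NormedAddCommGroup F] [NormedSpace ℝ F] {k : ℕ}

/-! ### extension over two balls with a common face -/

theorem extend_pairs {C0 C1 D R0 R1 Q : Set E} {X0 X1 D' S0 S1 Q' : Set F}
    (h0 : BallPair k C0 R0 D Q) (h1 : BallPair k C1 R1 D Q) (hC : C0 ∩ C1 = D)
    (h0' : BallPair k X0 S0 D' Q') (h1' : BallPair k X1 S1 D' Q') (hX : X0 ∩ X1 = D')
    (hR : R0 ∩ R1 = Q) (hS : S0 ∩ S1 = Q') (φ : PLEquiv (R0 ∪ R1) (S0 ∪ S1))
    (e0 : φ.f '' R0 = S0) (e1 : φ.f '' R1 = S1) :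
    ∃ Ψ : PLEquiv (C0 ∪ C1) (X0 ∪ X1), EqOn Ψ.f φ.f (R0 ∪ R1) ∧ Ψ.f '' C0 = X0 ∧
      Ψ.f '' C1 = X1 := by
  have eg0 : φ.g '' S0 = R0 := image_g φ subset_union_left e0
  have eg1 : φ.g '' S1 = R1 := image_g φ subset_union_right e1
  let φ0 : PLEquiv R0 S0 := φ.restr subset_union_left subset_union_left
    (fun x hx => e0.subset ⟨x, hx, rfl⟩) (fun x hx => eg0.subset ⟨x, hx, rfl⟩)
  let φ1 : PLEquiv R1 S1 := φ.restr subset_union_right subset_union_right
    (fun x hx => e1.subset ⟨x, hx, rfl⟩) (fun x hx => eg1.subset ⟨x, hx, rfl⟩)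
  have eQ : φ0.f '' Q = Q' := by
    show φ.f '' Q = Q'
    rw [← hR, φ.injOn.image_inter subset_union_left subset_union_right, e0, e1, hS]
  obtain ⟨Ψ0, a1, a2, a3⟩ := h0.extend h0' φ0 eQ
  have a4 : Ψ0.g '' D' = D := image_g Ψ0 h0.subset₂ a3
  let δ : PLEquiv D D' := Ψ0.restr h0.subset₂ h0'.subset₂
    (fun x hx => a3.subset ⟨x, hx, rfl⟩) (fun x hx => a4.subset ⟨x, hx, rfl⟩)
  have hQR0 : Q ⊆ R0 := h0.ball₁.subset
  have hQS0 : Q' ⊆ S0 := h0'.ball₁.subset
  have uf : EqOn φ1.f δ.f (R1 ∩ D) := by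
    intro x hx
    rw [h1.inter] at hx
    exact (a1 (hQR0 hx)).symm
  have ug : EqOn φ1.g δ.g (S1 ∩ D') := by
    intro x hx
    rw [h1'.inter] at hx
    exact (a2 (hQS0 hx)).symm
  let u : PLEquiv (R1 ∪ D) (S1 ∪ D') := glue φ1 δ h1.ball₁.isClosed h1.ball₂.isClosed
    h1'.ball₁.isClosed h1'.ball₂.isClosed uf ug
  obtain ⟨Ψ1, b1, b2⟩ := h1.ball.extend h1'.ball u
  have hf : EqOn Ψ0.f Ψ1.f (C0 ∩ C1) := by
    intro x hx
    rw [hC] at hx
    rw [b1 (Or.inr hx)]
    exact (glue_f₂ φ1 δ _ _ _ _ uf ug hx).symm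
  have hg : EqOn Ψ0.g Ψ1.g (X0 ∩ X1) := by
    intro x hx
    rw [hX] at hx
    rw [b2 (Or.inr hx)]
    exact (glue_g₂ φ1 δ _ _ _ _ uf ug hx).symm
  refine ⟨glue Ψ0 Ψ1 h0.ball.isClosed h1.ball.isClosed h0'.ball.isClosed h1'.ball.isClosed hf hg,
    ?_, ?_, ?_⟩
  · rintro x (hx | hx)
    · rw [glue_f₁ Ψ0 Ψ1 _ _ _ _ hf hg (h0.subset₁ hx)]
      exact a1 hx
    · rw [glue_f₂ Ψ0 Ψ1 _ _ _ _ hf hg (h1.subset₁ hx), b1 (Or.inl hx)]
      exact glue_f₁ φ1 δ _ _ _ _ uf ug hx
  · exact (image_congr fun x hx => glue_f₁ Ψ0 Ψ1 _ _ _ _ hf hg hx).trans Ψ0.image_eq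
  · exact (image_congr fun x hx => glue_f₂ Ψ0 Ψ1 _ _ _ _ hf hg hx).trans Ψ1.image_eq

/-! ### product pairs -/

/-- sign of `z + cl c z` on the model: the upper half -/
theorem ballPair_prod_model (k : ℕ) : BallPair k
    {q : (Fin k → ℝ) × ℝ | ‖q‖ ≤ 1 ∧ 0 ≤ q.2} {q | ‖q‖ ≤ 1 ∧ q.2 = 0} {q | ‖q‖ = 1 ∧ 0 ≤ q.2}
    {q | ‖q‖ = 1 ∧ q.2 = 0} := by
  let G := cubeH (kopPi k) (plMap_norm k)
  have hG : PLH G := PLH_cubeH _ _
  have h := (ballPair_up k).plh hG
  have hnorm : ∀ p, ‖G p‖ = N1 p := fun p => norm_cubeH _ _ p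
  have hz : ∀ p : (Fin k → ℝ) × ℝ, (G p).2 = p.2 + cl ‖p.1‖ p.2 := fun p => rfl
  have himg : ∀ (P : ℝ → Prop) (Q : ℝ → Prop)
      (_ : ∀ p : (Fin k → ℝ) × ℝ, Q (p.2 + cl ‖p.1‖ p.2) ↔ Q p.2),
      G '' {p | P (N1 p) ∧ Q p.2} = {y | P ‖y‖ ∧ Q y.2} := by
    intro P Q hQ
    ext y
    constructor
    · rintro ⟨p, ⟨h1, h2⟩, rfl⟩
      refine ⟨by rw [hnorm]; exact h1, ?_⟩
      rw [hz]
      exact (hQ p).2 h2
    · rintro ⟨h1, h2⟩
      obtain ⟨p, rfl⟩ := G.surjective y
      refine ⟨p, ⟨by rw [← hnorm]; exact h1, ?_⟩, rfl⟩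
      rw [hz] at h2
      exact (hQ p).1 h2
  have hs0 : ∀ p : (Fin k → ℝ) × ℝ, (p.2 + cl ‖p.1‖ p.2 = 0 ↔ p.2 = 0) := by
    intro p
    have h1 := (sign_cl (z := p.2) (norm_nonneg p.1)).1
    have h2 := (sign_cl (z := p.2) (norm_nonneg p.1)).2
    constructor
    · intro h; exact le_antisymm (h2.1 h.le) (h1.1 h.ge)
    · intro h; exact le_antisymm (h2.2 h.le) (h1.2 h.ge)
  have e0 : G '' Up k = {q : (Fin k → ℝ) × ℝ | ‖q‖ ≤ 1 ∧ 0 ≤ q.2} := by
    rw [← himg (fun s => s ≤ 1) (fun s => 0 ≤ s) fun p => (sign_cl (norm_nonneg _)).1]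
    congr 1
    ext p
    show 0 ≤ p.2 ∧ p.2 + ‖p.1‖ ≤ 1 ↔ N1 p ≤ 1 ∧ 0 ≤ p.2
    constructor
    · rintro ⟨a, b⟩
      refine ⟨?_, a⟩
      show ‖p.1‖ + |p.2| ≤ 1
      rw [abs_of_nonneg a]; linarith
    · rintro ⟨a, b⟩
      have : ‖p.1‖ + |p.2| ≤ 1 := a
      rw [abs_of_nonneg b] at this
      exact ⟨b, by linarith⟩
  have e1 : G '' Mid k = {q : (Fin k → ℝ) × ℝ | ‖q‖ ≤ 1 ∧ q.2 = 0} := by
    rw [← himg (fun s => s ≤ 1) (fun s => s = 0) hs0]
    congr 1
    ext p
    show p.2 = 0 ∧ ‖p.1‖ ≤ 1 ↔ N1 p ≤ 1 ∧ p.2 = 0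
    constructor
    · rintro ⟨a, b⟩
      refine ⟨?_, a⟩
      show ‖p.1‖ + |p.2| ≤ 1
      rw [a, abs_zero]; linarith
    · rintro ⟨a, b⟩
      have : ‖p.1‖ + |p.2| ≤ 1 := a
      rw [b, abs_zero] at this
      exact ⟨b, by linarith⟩
  have e2 : G '' Kp (Fin k → ℝ) = {q : (Fin k → ℝ) × ℝ | ‖q‖ = 1 ∧ 0 ≤ q.2} := by
    rw [← himg (fun s => s = 1) (fun s => 0 ≤ s) fun p => (sign_cl (norm_nonneg _)).1]
    congr 1
    ext p
    exact and_comm
  have e3 : G '' Eqt (Fin k → ℝ) = {q : (Fin k → ℝ) × ℝ | ‖q‖ = 1 ∧ q.2 = 0} := by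
    rw [← Kp_inter_Km, image_inter G.injective, e2]
    have e4 : G '' Km (Fin k → ℝ) = {q : (Fin k → ℝ) × ℝ | ‖q‖ = 1 ∧ q.2 ≤ 0} := by
      rw [← himg (fun s => s = 1) (fun s => s ≤ 0) fun p => (sign_cl (norm_nonneg _)).2]
      congr 1
      ext p
      exact and_comm
    rw [e4]
    ext y
    constructor
    · rintro ⟨⟨h1, h2⟩, _, h3⟩; exact ⟨h1, le_antisymm h3 h2⟩
    · rintro ⟨h1, h2⟩; exact ⟨⟨h1, h2.ge⟩, h1, h2.le⟩
  rw [e0, e1, e2, e3] at h
  exact h

theorem norm_prod_lt_iff' {q : (Fin k → ℝ) × ℝ} (hq : 0 ≤ q.2) :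
    (‖q‖ ≤ 1 ↔ q.1 ∈ cube k ∧ q.2 ≤ 1) ∧
    (‖q‖ = 1 ↔ (q.1 ∈ sph k ∧ q.2 ≤ 1) ∨ (q.1 ∈ cube k ∧ q.2 = 1)) := by
  rw [mem_closedBall_zero_iff, mem_sphere_zero_iff_norm, Prod.norm_def, Real.norm_eq_abs,
    abs_of_nonneg hq]
  constructor
  · exact max_le_iff
  · constructor
    · intro h
      rcases max_choice ‖q.1‖ q.2 with h1 | h1
      · left
        rw [h1] at h
        exact ⟨h, by rw [← h1] at h; exact h ▸ le_max_right _ _⟩
      · right
        rw [h1] at h
        exact ⟨by rw [← h1] at h; exact h ▸ le_max_left _ _, h⟩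
    · rintro (⟨h1, h2⟩ | ⟨h1, h2⟩)
      · rw [h1]; exact max_eq_left h2
      · rw [h2]; exact max_eq_right h1

/-- **product pair**: bottom | rest -/
theorem ballPair_prod {R Q : Set E} (h : IsBall k R Q) {t : ℝ} (ht : 0 < t) :
    BallPair k (R ×ˢ Icc 0 t) (R ×ˢ {(0:ℝ)}) (Q ×ˢ Icc 0 t ∪ R ×ˢ {t}) (Q ×ˢ {(0:ℝ)}) := by
  obtain ⟨e, he⟩ := h
  have hm := ballPair_prod_model k
  let f : (Fin k → ℝ) × ℝ → E × ℝ := fun q => (e.f q.1, t * q.2)
  let g : E × ℝ → (Fin k → ℝ) × ℝ := fun q => (e.g q.1, q.2 / t)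
  have hset : {q : (Fin k → ℝ) × ℝ | ‖q‖ ≤ 1 ∧ 0 ≤ q.2} = cube k ×ˢ Icc 0 1 := by
    ext q
    constructor
    · rintro ⟨h1, h2⟩
      have := (norm_prod_lt_iff' h2).1.1 h1
      exact ⟨this.1, h2, this.2⟩
    · rintro ⟨h1, h2, h3⟩
      exact ⟨(norm_prod_lt_iff' h2).1.2 ⟨h1, h3⟩, h2⟩
  rw [hset] at hm
  have hpf : PLOn f (cube k ×ˢ Icc (0:ℝ) 1) := by
    have := PLOn_prodMap e.pf ((PLMap.const_mul t PLMap.id).plOn (Icc (0:ℝ) 1))
    exact this
  have hpg : PLOn g (R ×ˢ Icc (0:ℝ) t) := by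
    have := PLOn_prodMap e.pg ((PLMap.id.div_const t).plOn (Icc (0:ℝ) t))
    exact this
  let Ee : PLEquiv (cube k ×ˢ Icc (0:ℝ) 1) (R ×ˢ Icc (0:ℝ) t) :=
    { f := f
      g := g
      pf := hpf
      pg := hpg
      mf := by
        rintro ⟨x, s⟩ ⟨hx, hs1, hs2⟩
        simp only at hx hs1 hs2
        exact ⟨e.mf hx, mul_nonneg ht.le hs1, by
          show t * s ≤ t
          nlinarith⟩
      mg := by
        rintro ⟨x, s⟩ ⟨hx, hs1, hs2⟩
        simp only at hx hs1 hs2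
        exact ⟨e.mg hx, div_nonneg hs1 ht.le, (div_le_one ht).2 hs2⟩
      li := by
        rintro ⟨x, s⟩ ⟨hx, -⟩
        simp only at hx
        exact Prod.ext (e.li x hx) (mul_div_cancel_left₀ s ht.ne')
      ri := by
        rintro ⟨x, s⟩ ⟨hx, -⟩
        simp only at hx
        exact Prod.ext (e.ri x hx) (mul_div_cancel₀ s ht.ne') }
  have hP := hm.map Ee
  have himg : ∀ (A : Set (Fin k → ℝ)) (A' : Set E), e.f '' A = A' → ∀ (I J : Set ℝ),
      (fun s => t * s) '' I = J → f '' (A ×ˢ I) = A' ×ˢ J := by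
    rintro A _ rfl I _ rfl
    ext ⟨x, s⟩
    constructor
    · rintro ⟨⟨y, r⟩, ⟨hy, hr⟩, h2⟩
      have h3 := congrArg Prod.fst h2
      have h4 := congrArg Prod.snd h2
      exact ⟨⟨y, hy, h3⟩, ⟨r, hr, h4⟩⟩
    · rintro ⟨⟨y, hy, h3⟩, ⟨r, hr, h4⟩⟩
      exact ⟨(y, r), ⟨hy, hr⟩, Prod.ext h3 h4⟩
  have hI : (fun s => t * s) '' Icc (0:ℝ) 1 = Icc 0 t := by
    ext s
    constructor
    · rintro ⟨r, ⟨h1, h2⟩, rfl⟩
      exact ⟨mul_nonneg ht.le h1, by show t * r ≤ t; nlinarith⟩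
    · rintro ⟨h1, h2⟩
      exact ⟨s / t, ⟨div_nonneg h1 ht.le, (div_le_one ht).2 h2⟩, mul_div_cancel₀ s ht.ne'⟩
  have e1 : Ee.f '' {q : (Fin k → ℝ) × ℝ | ‖q‖ ≤ 1 ∧ q.2 = 0} = R ×ˢ {(0:ℝ)} := by
    have : {q : (Fin k → ℝ) × ℝ | ‖q‖ ≤ 1 ∧ q.2 = 0} = cube k ×ˢ {(0:ℝ)} := by
      ext q
      constructor
      · rintro ⟨h1, h2⟩
        exact ⟨((norm_prod_lt_iff' h2.ge).1.1 h1).1, h2⟩
      · rintro ⟨h1, h2⟩
        have h2' : q.2 = 0 := h2
        exact ⟨(norm_prod_lt_iff' h2'.ge).1.2 ⟨h1, by rw [h2']; exact zero_le_one⟩, h2'⟩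
    rw [this]
    exact himg _ _ e.image_eq _ _ (by simp)
  have e2 : Ee.f '' {q : (Fin k → ℝ) × ℝ | ‖q‖ = 1 ∧ 0 ≤ q.2} = Q ×ˢ Icc 0 t ∪ R ×ˢ {t} := by
    have : {q : (Fin k → ℝ) × ℝ | ‖q‖ = 1 ∧ 0 ≤ q.2} = sph k ×ˢ Icc 0 1 ∪ cube k ×ˢ {(1:ℝ)} := by
      ext q
      constructor
      · rintro ⟨h1, h2⟩
        rcases (norm_prod_lt_iff' h2).2.1 h1 with h3 | h3
        · exact Or.inl ⟨h3.1, h2, h3.2⟩
        · exact Or.inr h3
      · rintro (⟨h1, h2, h3⟩ | ⟨h1, h2⟩)
        · exact ⟨(norm_prod_lt_iff' h2).2.2 (Or.inl ⟨h1, h3⟩), h2⟩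
        · have h2' : q.2 = 1 := h2
          have h3 : 0 ≤ q.2 := by rw [h2']; exact zero_le_one
          exact ⟨(norm_prod_lt_iff' h3).2.2 (Or.inr ⟨h1, h2'⟩), h3⟩
    rw [this, image_union]
    congr 1
    · exact himg _ _ he _ _ hI
    · exact himg _ _ e.image_eq _ _ (by simp)
  have e3 : Ee.f '' {q : (Fin k → ℝ) × ℝ | ‖q‖ = 1 ∧ q.2 = 0} = Q ×ˢ {(0:ℝ)} := by
    have : {q : (Fin k → ℝ) × ℝ | ‖q‖ = 1 ∧ q.2 = 0} = sph k ×ˢ {(0:ℝ)} := by
      ext q
      constructor
      · rintro ⟨h1, h2⟩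
        rcases (norm_prod_lt_iff' h2.ge).2.1 h1 with h3 | h3
        · exact ⟨h3.1, h2⟩
        · exact absurd (h2.symm.trans h3.2) zero_ne_one
      · rintro ⟨h1, h2⟩
        have h2' : q.2 = 0 := h2
        exact ⟨(norm_prod_lt_iff' h2'.ge).2.2 (Or.inl ⟨h1, by rw [h2']; exact zero_le_one⟩), h2'⟩
    rw [this]
    exact himg _ _ he _ _ (by simp)
  rw [e1, e2, e3] at hP
  exact hP

/-- **product pair**: top | rest -/
theorem ballPair_prod_top {R Q : Set E} (h : IsBall k R Q) {t : ℝ} (ht : 0 < t) :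
    BallPair k (R ×ˢ Icc 0 t) (R ×ˢ {t}) (Q ×ˢ Icc 0 t ∪ R ×ˢ {(0:ℝ)}) (Q ×ˢ {t}) := by
  have hP := ballPair_prod h ht
  have hp : PLMap (fun q : E × ℝ => (q.1, t - q.2)) :=
    PLMap.id.fst.prodMk ((PLMap.const t).sub PLMap.id.snd)
  let Ee : PLEquiv (R ×ˢ Icc (0:ℝ) t) (R ×ˢ Icc (0:ℝ) t) :=
    { f := fun q => (q.1, t - q.2)
      g := fun q => (q.1, t - q.2)
      pf := hp.plOn _
      pg := hp.plOn _
      mf := by
        rintro ⟨x, s⟩ ⟨hx, hs1, hs2⟩
        simp only at hx hs1 hs2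
        exact ⟨hx, by show 0 ≤ t - s; linarith, by show t - s ≤ t; linarith⟩
      mg := by
        rintro ⟨x, s⟩ ⟨hx, hs1, hs2⟩
        simp only at hx hs1 hs2
        exact ⟨hx, by show 0 ≤ t - s; linarith, by show t - s ≤ t; linarith⟩
      li := fun q _ => Prod.ext rfl (sub_sub_cancel t q.2)
      ri := fun q _ => Prod.ext rfl (sub_sub_cancel t q.2) }
  have himg : ∀ (A : Set E) (I J : Set ℝ), (fun s => t - s) '' I = J →
      Ee.f '' (A ×ˢ I) = A ×ˢ J := by
    rintro A I _ rfl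
    ext ⟨x, s⟩
    constructor
    · rintro ⟨⟨y, r⟩, ⟨hy, hr⟩, h2⟩
      have h3 : y = x := congrArg Prod.fst h2
      have h4 : t - r = s := congrArg Prod.snd h2
      exact ⟨h3 ▸ hy, ⟨r, hr, h4⟩⟩
    · rintro ⟨hx, ⟨r, hr, h4⟩⟩
      exact ⟨(x, r), ⟨hx, hr⟩, Prod.ext rfl h4⟩
  have hI : (fun s => t - s) '' Icc (0:ℝ) t = Icc 0 t := by
    rw [image_const_sub_Icc, sub_self, sub_zero]
  have h := hP.map Ee
  rw [image_union, himg R {0} {t} (by simp), himg Q _ _ hI, himg R {t} {0} (by simp),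
    himg Q {0} {t} (by simp)] at h
  exact h

theorem extend_pairs' {C0 C1 D R0 R1 Q U W : Set E} {X0 X1 D' S0 S1 Q' U' W' : Set F}
    (h0 : BallPair k C0 R0 D Q) (h1 : BallPair k C1 R1 D Q) (hC : C0 ∩ C1 = D)
    (h0' : BallPair k X0 S0 D' Q') (h1' : BallPair k X1 S1 D' Q') (hX : X0 ∩ X1 = D')
    (hR : R0 ∩ R1 = Q) (hS : S0 ∩ S1 = Q') (hU : R0 ∪ R1 = U) (hU' : S0 ∪ S1 = U')
    (hW : C0 ∪ C1 = W) (hW' : X0 ∪ X1 = W') (φ : PLEquiv U U')
    (e0 : φ.f '' R0 = S0) (e1 : φ.f '' R1 = S1) :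
    ∃ Ψ : PLEquiv W W', EqOn Ψ.f φ.f U ∧ Ψ.f '' C0 = X0 ∧ Ψ.f '' C1 = X1 := by
  subst hU hU' hW hW'
  exact extend_pairs h0 h1 hC h0' h1' hX hR hS φ e0 e1

/-! ### cones in a box -/

section Step

variable {n : ℕ} {l h c : Fin n → ℝ}

theorem joinable_bb (hl : ∀ j, l j < c j) (hh : ∀ j, c j < h j) : Joinable c (bb l h) := by
  have key : ∀ {x x' : Fin n → ℝ}, x ∈ bb l h → x' ∈ bb l h → ∀ {r r' : ℝ}, 0 < r → 0 ≤ r' →
      (∀ j, r * (x j - c j) = r' * (x' j - c j)) → r ≤ r' := by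
    rintro x x' ⟨-, j, hj⟩ ⟨hx', -⟩ r r' hr hr' he
    by_contra hlt
    rw [not_le] at hlt
    have h1 := he j
    have h2 := hl j
    have h3 := hh j
    have h4 := hx'.1 j
    have h5 := hx'.2 j
    rcases hj with hj | hj
    · rw [hj] at h1
      nlinarith [mul_le_mul_of_nonneg_left h4 hr']
    · rw [hj] at h1
      nlinarith [mul_le_mul_of_nonneg_left h5 hr']
  intro x hx x' hx' t ht t' ht' heq
  have hr : 0 < 1 - t := by linarith [ht.2]
  have hr' : 0 ≤ 1 - t' := by linarith [ht'.2]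
  have hj : ∀ j, (1 - t) * (x j - c j) = (1 - t') * (x' j - c j) := fun j => by
    have := congrFun heq j
    simp only [Pi.add_apply, Pi.smul_apply, smul_eq_mul] at this
    linear_combination this
  have h1 := key hx hx' hr hr' hj
  have h2 := key hx' hx (lt_of_lt_of_le hr h1) hr.le fun j => (hj j).symm
  have h3 : 1 - t = 1 - t' := le_antisymm h1 h2
  refine ⟨?_, by linarith⟩
  ext j
  have h4 := hj j
  rw [← h3] at h4
  have h5 := mul_left_cancel₀ hr.ne' h4
  linarith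

theorem cone1_eq (R : Set (Fin n → ℝ)) : cone1 c R = coneSet c R := by
  ext y
  constructor
  · rintro ⟨x, hx, r, hr, rfl⟩
    refine ⟨x, hx, 1 - r, ⟨by linarith [hr.2], by linarith [hr.1]⟩, ?_⟩
    rw [sub_sub_cancel, smul_sub, sub_smul, one_smul]
    abel
  · rintro ⟨x, hx, t, ht, rfl⟩
    refine ⟨x, hx, 1 - t, ⟨by linarith [ht.2], by linarith [ht.1]⟩, ?_⟩
    rw [smul_sub, sub_smul 1 t c, one_smul]
    abel

theorem cone1_sub (hl : ∀ j, l j < c j) (hh : ∀ j, c j < h j) {R : Set (Fin n → ℝ)}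
    (hR : R ⊆ bb l h) : cone1 c R ⊆ Icc l h := by
  rintro _ ⟨x, hx, r, hr, rfl⟩
  have hc : c ∈ Icc l h := ⟨fun j => (hl j).le, fun j => (hh j).le⟩
  have := (convex_Icc l h).add_smul_sub_mem hc (hR hx).1 hr
  exact this

/-- **the two cones** -/
theorem cones {m : ℕ} {R0 R1 Q : Set (Fin n → ℝ)} (hn : n = m + 1) (hl : ∀ j, l j < c j)
    (hh : ∀ j, c j < h j) (h0 : IsBall m R0 Q) (h1 : IsBall m R1 Q) (hi : R0 ∩ R1 = Q)
    (hu : R0 ∪ R1 = bb l h) :
    BallPair m (cone1 c R0) R0 (insert c (cone1 c Q)) Q ∧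
    BallPair m (cone1 c R1) R1 (insert c (cone1 c Q)) Q ∧
    cone1 c R0 ∩ cone1 c R1 = insert c (cone1 c Q) ∧ cone1 c R0 ∪ cone1 c R1 = Icc l h := by
  have hj := joinable_bb hl hh
  have hR0 : R0 ⊆ bb l h := by rw [← hu]; exact subset_union_left
  have hR1 : R1 ⊆ bb l h := by rw [← hu]; exact subset_union_right
  have j0 : Joinable c R0 := fun x hx x' hx' => hj x (hR0 hx) x' (hR0 hx')
  have j1 : Joinable c R1 := fun x hx x' hx' => hj x (hR1 hx) x' (hR1 hx')
  have p0 : BallPair m (cone1 c R0) R0 (insert c (cone1 c Q)) Q := by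
    rw [cone1_eq, cone1_eq]; exact BallPair.coneFrom h0 j0
  have p1 : BallPair m (cone1 c R1) R1 (insert c (cone1 c Q)) Q := by
    rw [cone1_eq, cone1_eq]; exact BallPair.coneFrom h1 j1
  have hint : cone1 c R0 ∩ cone1 c R1 = insert c (cone1 c Q) := by
    apply Subset.antisymm
    · rw [cone1_eq, cone1_eq, cone1_eq]
      rintro y ⟨⟨x, hx, t, ht, h2⟩, x', hx', t', ht', h3⟩
      by_cases ht1 : t = 1
      · left
        rw [h2, ht1]; simp
      · right
        have := (hj x (hR0 hx) x' (hR1 hx') t ⟨ht.1, lt_of_le_of_ne ht.2 ht1⟩ t' ht'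
          (h2.symm.trans h3)).1
        subst this
        exact ⟨x, by rw [← hi]; exact ⟨hx, hx'⟩, t, ht, h2⟩
    · exact subset_inter p0.subset₂ p1.subset₂
  refine ⟨p0, p1, hint, ?_⟩
  have hg := (p0.symm.glue p1.symm hint).ball
  rw [hu] at hg
  have hlh : ∀ j, l j < h j := fun j => (hl j).trans (hh j)
  have hb : IsBall (m + 1) (Icc l h) (bb l h) := by subst hn; exact isBall_box hlh
  exact ball_eq_of_subset hg hb (union_subset (cone1_sub hl hh hR0) (cone1_sub hl hh hR1))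

/-! ### the collar -/

/-- one coordinate of the collar -/
noncomputable def kr (l h w s : ℝ) : ℝ := max ((w + l) / 2 + s) (min w ((w + h) / 2 - s))

theorem kr_lt {l h w w' s : ℝ} (hw : w < w') : kr l h w s < kr l h w' s :=
  max_lt_max (by linarith) (min_lt_min hw (by linarith))

theorem kr_ge {l h w s : ℝ} (hw : l ≤ w) : l + s ≤ kr l h w s :=
  le_max_of_le_left (by linarith)

theorem kr_le {l h w s : ℝ} (hw : w ≤ h) (hs : 4 * s ≤ h - l) : kr l h w s ≤ h - s :=
  max_le (by linarith) ((min_le_right _ _).trans (by linarith))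

theorem kr_left {l h s : ℝ} (hs : 0 ≤ s) : kr l h l s = l + s := by
  unfold kr
  rw [max_eq_left]
  · ring
  · exact (min_le_left _ _).trans (by linarith)

theorem kr_right {l h s : ℝ} (hs : 0 ≤ s) (h4 : 4 * s ≤ h - l) : kr l h h s = h - s := by
  unfold kr
  rw [min_eq_right (by linarith), max_eq_right (by linarith)]
  ring

theorem kr_zero {l h w : ℝ} (h1 : l ≤ w) (h2 : w ≤ h) : kr l h w 0 = w := by
  unfold kr
  rw [min_eq_left (by linarith), max_eq_right (by linarith)]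

theorem kr_surj {l h s y : ℝ} (hlh : l ≤ h) (hs : 0 ≤ s) (h4 : 4 * s ≤ h - l)
    (h1 : l + s ≤ y) (h2 : y ≤ h - s) : ∃ w, l ≤ w ∧ w ≤ h ∧ kr l h w s = y := by
  have hc : ContinuousOn (fun w => kr l h w s) (Icc l h) := by
    unfold kr
    fun_prop
  have h3 := intermediate_value_Icc hlh hc
  simp only [kr_left hs, kr_right hs h4] at h3
  obtain ⟨w, hw, h5⟩ := h3 ⟨h1, h2⟩
  exact ⟨w, hw.1, hw.2, h5⟩

theorem kap_eq (ω : Fin n → ℝ) (s : ℝ) (j : Fin n) : kap l h ω s j = kr (l j) (h j) (ω j) s := rfl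

theorem kap_pl (l h : Fin n → ℝ) : PLMap (fun p : (Fin n → ℝ) × ℝ => kap l h p.1 p.2) := by
  refine Ax_914.plMap_pi fun j => ?_
  have h1 : PLMap (fun p : (Fin n → ℝ) × ℝ => p.1 j) := (Ax_914.plMap_apply j).comp PLMap.id.fst
  exact (((h1.add_const _).div_const _).add PLMap.id.snd).max
    (h1.min (((h1.add_const _).div_const _).sub PLMap.id.snd))

theorem kap_inj {t : ℝ} (h4 : ∀ j, 4 * t < h j - l j) :
    InjOn (fun p : (Fin n → ℝ) × ℝ => kap l h p.1 p.2) (bb l h ×ˢ Icc 0 t) := by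
  have key : ∀ {ω ω' : Fin n → ℝ} {s s' : ℝ}, ω ∈ bb l h → ω' ∈ bb l h → s ∈ Icc 0 t →
      s' ∈ Icc 0 t → kap l h ω s = kap l h ω' s' → s' ≤ s := by
    rintro ω ω' s s' ⟨-, j, hj⟩ ⟨hω', -⟩ hs hs' he
    have h1 := congrFun he j
    rw [kap_eq, kap_eq] at h1
    have h2 := hω'.1 j
    have h3 := hω'.2 j
    have h5 := h4 j
    rcases hj with hj | hj
    · rw [hj, kr_left hs.1] at h1
      have := kr_ge (h := h j) (s := s') h2
      linarith
    · rw [hj, kr_right hs.1 (by linarith [hs.2])] at h1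
      have := kr_le (l := l j) (s := s') h3 (by linarith [hs'.2])
      linarith
  rintro ⟨ω, s⟩ ⟨hω, hs⟩ ⟨ω', s'⟩ ⟨hω', hs'⟩ he
  simp only at hω hs hω' hs' he
  have e : s = s' := le_antisymm (key hω' hω hs' hs he.symm) (key hω hω' hs hs' he)
  subst e
  refine Prod.ext ?_ rfl
  funext j
  have h1 := congrFun he j
  rw [kap_eq, kap_eq] at h1
  rcases lt_trichotomy (ω j) (ω' j) with h2 | h2 | h2
  · exact absurd h1 (kr_lt h2).ne
  · exact h2
  · exact absurd h1 (kr_lt h2).ne'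

theorem kap_inj' (t : ℝ) : InjOn (fun ω : Fin n → ℝ => kap l h ω t) univ := by
  intro ω _ ω' _ he
  funext j
  have h1 := congrFun he j
  simp only [kap_eq] at h1
  rcases lt_trichotomy (ω j) (ω' j) with h2 | h2 | h2
  · exact absurd h1 (kr_lt h2).ne
  · exact h2
  · exact absurd h1 (kr_lt h2).ne'

theorem kap_zero {ω : Fin n → ℝ} (hω : ω ∈ Icc l h) : kap l h ω 0 = ω := by
  funext j
  rw [kap_eq]
  exact kr_zero (hω.1 j) (hω.2 j)

theorem kap_image {t : ℝ} (hlh : ∀ j, l j < h j) (ht : 0 ≤ t) (h4 : ∀ j, 4 * t < h j - l j) :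
    (fun ω : Fin n → ℝ => kap l h ω t) '' Icc l h = Icc (fun j => l j + t) (fun j => h j - t) := by
  ext y
  constructor
  · rintro ⟨ω, hω, rfl⟩
    exact ⟨fun j => kr_ge (hω.1 j), fun j => kr_le (hω.2 j) (h4 j).le⟩
  · rintro ⟨h1, h2⟩
    choose w hw1 hw2 hw3 using fun j => kr_surj (hlh j).le ht (h4 j).le (h1 j) (h2 j)
    exact ⟨w, ⟨hw1, hw2⟩, funext hw3⟩

theorem colr_eq (R : Set (Fin n → ℝ)) (t : ℝ) :
    colr l h R t = (fun p : (Fin n → ℝ) × ℝ => kap l h p.1 p.2) '' (R ×ˢ Icc 0 t) := by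
  ext y
  constructor
  · rintro ⟨ω, hω, s, hs, rfl⟩
    exact ⟨(ω, s), ⟨hω, hs⟩, rfl⟩
  · rintro ⟨⟨ω, s⟩, ⟨hω, hs⟩, rfl⟩
    exact ⟨ω, hω, s, hs, rfl⟩

/-- **the collars** -/
theorem collars {m : ℕ} {R0 R1 Q : Set (Fin n → ℝ)} (hn : n = m + 1) (hlh : ∀ j, l j < h j)
    {t : ℝ} (ht : 0 < t) (h4 : ∀ j, 4 * t < h j - l j) (h0 : IsBall m R0 Q) (h1 : IsBall m R1 Q)
    (hi : R0 ∩ R1 = Q) (hu : R0 ∪ R1 = bb l h) :
    ∃ D, BallPair m (colr l h R0 t) R0 D Q ∧
      BallPair m (colr l h R1 t ∪ Icc (fun j => l j + t) (fun j => h j - t)) R1 D Q ∧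
      colr l h R0 t ∩ (colr l h R1 t ∪ Icc (fun j => l j + t) (fun j => h j - t)) = D ∧
      colr l h R0 t ∪ (colr l h R1 t ∪ Icc (fun j => l j + t) (fun j => h j - t)) = Icc l h := by
  have hR0 : R0 ⊆ bb l h := by rw [← hu]; exact subset_union_left
  have hR1 : R1 ⊆ bb l h := by rw [← hu]; exact subset_union_right
  have hQ0 : Q ⊆ R0 := h0.subset
  have hQ1 : Q ⊆ R1 := h1.subset
  have hbb : bb l h ⊆ Icc l h := fun y hy => hy.1
  set κ : (Fin n → ℝ) × ℝ → (Fin n → ℝ) := fun p => kap l h p.1 p.2 with hκ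
  have hpl := kap_pl l h
  have hinj := kap_inj (l := l) (h := h) h4
  have m0 : R0 ×ˢ Icc 0 t ⊆ bb l h ×ˢ Icc 0 t := prod_mono hR0 Subset.rfl
  have m1 : R1 ×ˢ Icc 0 t ⊆ bb l h ×ˢ Icc 0 t := prod_mono hR1 Subset.rfl
  -- bottom
  have hbot : ∀ {A : Set (Fin n → ℝ)}, A ⊆ bb l h → κ '' (A ×ˢ {(0:ℝ)}) = A := by
    intro A hA
    ext y
    constructor
    · rintro ⟨⟨ω, s⟩, ⟨hω, hs⟩, rfl⟩
      have hs' : s = 0 := hs
      subst hs'
      show kap l h ω 0 ∈ A
      rw [kap_zero (hbb (hA hω))]; exact hω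
    · intro hy
      exact ⟨(y, 0), ⟨hy, rfl⟩, kap_zero (hbb (hA hy))⟩
  have htop : ∀ A : Set (Fin n → ℝ), κ '' (A ×ˢ {t}) = (fun ω => kap l h ω t) '' A := by
    intro A
    ext y
    constructor
    · rintro ⟨⟨ω, s⟩, ⟨hω, hs⟩, rfl⟩
      have hs' : s = t := hs
      subst hs'
      exact ⟨ω, hω, rfl⟩
    · rintro ⟨ω, hω, rfl⟩
      exact ⟨(ω, t), ⟨hω, rfl⟩, rfl⟩
  -- membership in the shrunken box
  have hct : ∀ {ω : Fin n → ℝ} {s : ℝ}, ω ∈ bb l h → s ∈ Icc 0 t →
      κ (ω, s) ∈ Icc (fun j => l j + t) (fun j => h j - t) → s = t := by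
    rintro ω s ⟨-, j, hj⟩ hs ⟨a1, a2⟩
    have b1 := a1 j
    have b2 := a2 j
    have h5 := h4 j
    simp only [hκ, kap_eq] at b1 b2
    rcases hj with hj | hj
    · rw [hj, kr_left hs.1] at b1
      exact le_antisymm hs.2 (by linarith)
    · rw [hj, kr_right hs.1 (by linarith [hs.2])] at b2
      exact le_antisymm hs.2 (by linarith)
  have hbox := kap_image (l := l) (h := h) hlh ht.le h4
  -- the first ball
  have P0 : BallPair m (colr l h R0 t) R0 (κ '' (Q ×ˢ Icc 0 t ∪ R0 ×ˢ {t})) Q := by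
    have := (ballPair_prod h0 ht).image_injOn (hpl.plOn _) (hinj.mono m0)
    rw [hbot hR0, hbot (hQ0.trans hR0)] at this
    rw [colr_eq]
    exact this
  -- the collar over the second side
  have P1 : BallPair m (colr l h R1 t) ((fun ω => kap l h ω t) '' R1)
      (κ '' (Q ×ˢ Icc 0 t) ∪ R1) ((fun ω => kap l h ω t) '' Q) := by
    have := (ballPair_prod_top h1 ht).image_injOn (hpl.plOn _) (hinj.mono m1)
    rw [htop, htop, image_union, hbot hR1] at this
    rw [colr_eq]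
    exact this
  -- the small box
  have hboxB : IsBall (m + 1) (Icc l h) (R1 ∪ R0) := by
    rw [union_comm, hu]
    subst hn
    exact isBall_box hlh
  have P2 : BallPair m (Icc (fun j => l j + t) (fun j => h j - t)) ((fun ω => kap l h ω t) '' R1)
      ((fun ω => kap l h ω t) '' R0) ((fun ω => kap l h ω t) '' Q) := by
    have hb : BallPair m (Icc l h) R1 R0 Q := ⟨hboxB, h1, h0, by rw [inter_comm]; exact hi⟩
    have hpt : PLMap (fun ω : Fin n → ℝ => kap l h ω t) :=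
      hpl.comp (PLMap.id.prodMk (PLMap.const t))
    have := hb.image_injOn (hpt.plOn _) ((kap_inj' t).mono (subset_univ _))
    rw [hbox] at this
    exact this
  have hi12 : colr l h R1 t ∩ Icc (fun j => l j + t) (fun j => h j - t) =
      (fun ω => kap l h ω t) '' R1 := by
    apply Subset.antisymm
    · rintro y ⟨⟨ω, hω, s, hs, rfl⟩, hy⟩
      have := hct (hR1 hω) hs hy
      subst this
      exact ⟨ω, hω, rfl⟩
    · rintro _ ⟨ω, hω, rfl⟩
      refine ⟨⟨ω, hω, t, ⟨ht.le, le_rfl⟩, rfl⟩, ?_⟩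
      rw [← hbox]
      exact ⟨ω, hbb (hR1 hω), rfl⟩
  have P3 := P1.glue P2 hi12
  set D := κ '' (Q ×ˢ Icc 0 t ∪ R0 ×ˢ {t}) with hD
  have hDe : D = κ '' (Q ×ˢ Icc 0 t) ∪ (fun ω => kap l h ω t) '' R0 := by
    rw [hD, image_union, htop]
  have P4 : BallPair m (colr l h R1 t ∪ Icc (fun j => l j + t) (fun j => h j - t)) R1 D Q := by
    refine ⟨?_, h1, P0.ball₂, ?_⟩
    · have := P3.ball
      have e : R1 ∪ D = κ '' (Q ×ˢ Icc 0 t) ∪ R1 ∪ (fun ω => kap l h ω t) '' R0 := by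
        rw [hDe, ← union_assoc, union_comm R1]
      rw [e]
      exact this
    · apply Subset.antisymm
      · rintro y ⟨hy, ⟨ω, s⟩, hp, he⟩
        have hyb := hR1 hy
        have e1 : κ (y, 0) = y := kap_zero (hbb hyb)
        have hmem : (ω, s) ∈ bb l h ×ˢ Icc 0 t := by
          rcases hp with hp | hp
          · exact ⟨hR0 (hQ0 hp.1), hp.2⟩
          · have : s = t := hp.2
            exact ⟨hR0 hp.1, by show s ∈ Icc 0 t; rw [this]; exact ⟨ht.le, le_rfl⟩⟩
        have h5 := hinj hmem ⟨hyb, le_rfl, ht.le⟩ (he.trans e1.symm)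
        rw [h5] at hp
        rcases hp with hp | hp
        · exact hp.1
        · have : (0:ℝ) = t := hp.2
          exact absurd this ht.ne
      · intro y hy
        exact ⟨hQ1 hy, (y, 0), Or.inl ⟨hy, le_rfl, ht.le⟩, kap_zero (hbb (hR0 (hQ0 hy)))⟩
  have hiD : colr l h R0 t ∩ (colr l h R1 t ∪ Icc (fun j => l j + t) (fun j => h j - t)) = D := by
    apply Subset.antisymm
    · rintro y ⟨⟨ω, hω, s, hs, rfl⟩, hy⟩
      rcases hy with ⟨ω', hω', s', hs', he⟩ | hy
      · have h5 : ((ω, s) : (Fin n → ℝ) × ℝ) = (ω', s') :=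
          hinj (show (ω, s) ∈ bb l h ×ˢ Icc 0 t from ⟨hR0 hω, hs⟩)
            (show (ω', s') ∈ bb l h ×ˢ Icc 0 t from ⟨hR1 hω', hs'⟩) he
        have h6 : ω = ω' := congrArg Prod.fst h5
        refine ⟨(ω, s), Or.inl ⟨?_, hs⟩, rfl⟩
        show ω ∈ Q
        rw [← hi]
        exact ⟨hω, h6 ▸ hω'⟩
      · have := hct (hR0 hω) hs hy
        exact ⟨(ω, s), Or.inr ⟨hω, this⟩, rfl⟩
    · rintro _ ⟨⟨ω, s⟩, hp, rfl⟩
      rcases hp with ⟨hp1, hp2⟩ | ⟨hp1, hp2⟩
      · exact ⟨⟨ω, hQ0 hp1, s, hp2, rfl⟩, Or.inl ⟨ω, hQ1 hp1, s, hp2, rfl⟩⟩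
      · have hs : s = t := hp2
        subst hs
        refine ⟨⟨ω, hp1, s, ⟨ht.le, le_rfl⟩, rfl⟩, Or.inr ?_⟩
        rw [← hbox]
        exact ⟨ω, hbb (hR0 hp1), rfl⟩
  refine ⟨D, P0, P4, hiD, ?_⟩
  have hg := (P0.symm.glue P4.symm hiD).ball
  have hsub0 : ∀ {A : Set (Fin n → ℝ)}, A ⊆ bb l h → colr l h A t ⊆ Icc l h := by
    rintro A hA y ⟨ω, hω, s, hs, rfl⟩
    have hω' := hbb (hA hω)
    refine ⟨fun j => ?_, fun j => ?_⟩
    · have := kr_ge (h := h j) (s := s) (hω'.1 j)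
      rw [kap_eq]
      linarith [hs.1]
    · have := kr_le (l := l j) (s := s) (hω'.2 j) (by linarith [hs.2, h4 j])
      rw [kap_eq]
      linarith [hs.1]
  refine ball_eq_of_subset hg (by rw [union_comm]; exact hboxB) (union_subset (hsub0 hR0)
    (union_subset (hsub0 hR1) ?_))
  rintro y ⟨h5, h6⟩
  refine ⟨fun j => ?_, fun j => ?_⟩
  · have := h5 j
    simp only at this
    linarith
  · have := h6 j
    simp only at this
    linarith

end Step

/-- **(N2)** -/
theorem stepStmt : StepStmt := by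
  intro k hk l h c t hl hh ht h4 R0 R1 th phi hR0 hR1 e0 e1
  obtain ⟨m, rfl⟩ : ∃ m, k = m + 1 := ⟨k - 1, by omega⟩
  have hlh : ∀ j, l j < h j := fun j => (hl j).trans (hh j)
  have hm := ballPair_cube m
  have hps : Hp m ⊆ sph (m + 1) := fun y hy => hy.1
  have hms : Hm m ⊆ sph (m + 1) := fun y hy => hy.1
  have hes : He m ⊆ sph (m + 1) := fun y hy => hy.1
  have g0 : th.g '' Hp m = R0 := image_g th hR0 e0
  have g1 : th.g '' Hm m = R1 := image_g th hR1 e1
  set Q := th.g '' He m with hQ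
  have b0 : IsBall m R0 Q := by
    have := hm.ball₁.map (th.symm.restrImage hps)
    rw [← g0]
    exact this
  have b1 : IsBall m R1 Q := by
    have := hm.ball₂.map (th.symm.restrImage hms)
    rw [← g1]
    exact this
  have ginj : InjOn th.g (sph (m + 1)) := th.symm.injOn
  have hi : R0 ∩ R1 = Q := by
    rw [← g0, ← g1, ← ginj.image_inter hps hms, hm.inter]
  have hu : R0 ∪ R1 = bb l h := by
    rw [← g0, ← g1, ← image_union, Hp_union_Hm]
    exact th.symm.image_eq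
  -- the images under phi
  have hQR0 : Q ⊆ R0 := b0.subset
  have c0 : IsBall m (phi.f '' R0) (phi.f '' Q) := b0.map (phi.restrImage hR0)
  have c1 : IsBall m (phi.f '' R1) (phi.f '' Q) := b1.map (phi.restrImage hR1)
  have ci : phi.f '' R0 ∩ phi.f '' R1 = phi.f '' Q := by
    rw [← phi.injOn.image_inter hR0 hR1, hi]
  have cu : phi.f '' R0 ∪ phi.f '' R1 = bb l h := by
    rw [← image_union, hu, phi.image_eq]
  obtain ⟨p0, p1, p2, p3⟩ := cones rfl hl hh b0 b1 hi hu
  obtain ⟨D, q0, q1, q2, q3⟩ := collars rfl hlh ht h4 c0 c1 ci cu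
  obtain ⟨Ψ, a1, a2, a3⟩ := extend_pairs' p0 p1 p2 q0 q1 q2 hi ci hu cu p3 q3 phi rfl rfl
  exact ⟨Ψ, a1, a2, a3⟩

end Crest.Agent.R096.Gn_296
end

-- ▼ part R096/Gp1_120
section

/-!
# R096 (row 96), P2-GEN, leaf (N1) (helper120): the normal form is cellular for `(1/32) ℤ³`

`Gp1_120.cellStmt : Gp_702.CellStmt`.

`round` : rounding one coordinate at distance `≤ dep (dim)` from an integer does not change the
status of a point; by induction over the dimension of the cell.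
-/

set_option autoImplicit false

open Set Metric Topology

namespace Crest.Agent.R096.Gp1_120

open Ce_537 Msh_715 Gp_702

/-! ### the one-dimensional collar -/

/-- one coordinate of the collar -/
noncomputable def k1 (L H w s : ℝ) : ℝ := max ((w + L) / 2 + s) (min w ((w + H) / 2 - s))

/-- the inverse of the collar -/
noncomputable def i1 (L H v s : ℝ) : ℝ :=
  if v ≤ L + 2 * s then 2 * (v - s) - L else if H - 2 * s ≤ v then 2 * (v + s) - H else v

section One

variable {L H w v s : ℝ}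

theorem k1_low (_hs : s ≤ 1 / 8) (_hLH : L + 1 ≤ H) (h1 : w ≤ L + 2 * s) :
    k1 L H w s = (w + L) / 2 + s := by
  unfold k1
  rw [max_eq_left]
  exact (min_le_left _ _).trans (by linarith)

theorem k1_high (hs : s ≤ 1 / 8) (hLH : L + 1 ≤ H) (h1 : H - 2 * s ≤ w) :
    k1 L H w s = (w + H) / 2 - s := by
  unfold k1
  have e1 : min w ((w + H) / 2 - s) = (w + H) / 2 - s := min_eq_right (by linarith)
  rw [e1, max_eq_right]
  linarith

theorem k1_mid (h1 : L + 2 * s ≤ w) (h2 : w ≤ H - 2 * s) : k1 L H w s = w := by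
  unfold k1
  have e1 : min w ((w + H) / 2 - s) = w := min_eq_left (by linarith)
  rw [e1, max_eq_right]
  linarith

/-- trichotomy -/
theorem k1_cases (hs : s ≤ 1 / 8) (hLH : L + 1 ≤ H) :
    (w ≤ L + 2 * s ∧ k1 L H w s = (w + L) / 2 + s) ∨
    (H - 2 * s ≤ w ∧ k1 L H w s = (w + H) / 2 - s) ∨
    (L + 2 * s < w ∧ w < H - 2 * s ∧ k1 L H w s = w) := by
  rcases le_or_gt w (L + 2 * s) with h1 | h1
  · exact Or.inl ⟨h1, k1_low hs hLH h1⟩
  rcases le_or_gt (H - 2 * s) w with h2 | h2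
  · exact Or.inr (Or.inl ⟨h2, k1_high hs hLH h2⟩)
  · exact Or.inr (Or.inr ⟨h1, h2, k1_mid h1.le h2.le⟩)

theorem k1_ge (h0 : 0 ≤ s) (hs : s ≤ 1 / 8) (hLH : L + 1 ≤ H) (hL : L ≤ w) :
    L + s ≤ k1 L H w s := by
  rcases k1_cases (w := w) hs hLH with ⟨h, e⟩ | ⟨h, e⟩ | ⟨h, h', e⟩ <;> rw [e] <;> linarith

theorem k1_le (h0 : 0 ≤ s) (hs : s ≤ 1 / 8) (hLH : L + 1 ≤ H) (hH : w ≤ H) :
    k1 L H w s ≤ H - s := by
  rcases k1_cases (w := w) hs hLH with ⟨h, e⟩ | ⟨h, e⟩ | ⟨h, h', e⟩ <;> rw [e] <;> linarith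

theorem i1_low (h1 : v ≤ L + 2 * s) : i1 L H v s = 2 * (v - s) - L := if_pos h1

theorem i1_high (hs : s ≤ 1 / 8) (hLH : L + 1 ≤ H) (h1 : H - 2 * s ≤ v) :
    i1 L H v s = 2 * (v + s) - H := by
  unfold i1
  rw [if_neg (by linarith), if_pos h1]

theorem i1_mid (h1 : L + 2 * s < v) (h2 : v < H - 2 * s) : i1 L H v s = v := by
  unfold i1
  rw [if_neg (by linarith), if_neg (by linarith)]

theorem i1_k1 (hs : s ≤ 1 / 8) (hLH : L + 1 ≤ H) : i1 L H (k1 L H w s) s = w := by
  rcases k1_cases (w := w) hs hLH with ⟨h, e⟩ | ⟨h, e⟩ | ⟨h, h', e⟩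
  · rw [e, i1_low (by linarith)]; ring
  · rw [e, i1_high hs hLH (by linarith)]; ring
  · rw [e, i1_mid h h']

theorem k1_i1 (hs : s ≤ 1 / 8) (hLH : L + 1 ≤ H) : k1 L H (i1 L H v s) s = v := by
  rcases le_or_gt v (L + 2 * s) with h1 | h1
  · rw [i1_low h1, k1_low hs hLH (by linarith)]; ring
  rcases le_or_gt (H - 2 * s) v with h2 | h2
  · rw [i1_high hs hLH h2, k1_high hs hLH (by linarith)]; ring
  · rw [i1_mid h1 h2, k1_mid h1.le h2.le]

theorem i1_mem (h0 : 0 ≤ s) (hs : s ≤ 1 / 8) (hLH : L + 1 ≤ H) (hv1 : L + s ≤ v)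
    (hv2 : v ≤ H - s) : L ≤ i1 L H v s ∧ i1 L H v s ≤ H := by
  rcases le_or_gt v (L + 2 * s) with h1 | h1
  · rw [i1_low h1]; constructor <;> linarith
  rcases le_or_gt (H - 2 * s) v with h2 | h2
  · rw [i1_high hs hLH h2]; constructor <;> linarith
  · rw [i1_mid h1 h2]; constructor <;> linarith

end One

/-! ### the collar of an integer box -/

section Box

variable {l h : Fin 3 → ℤ}

theorem kapZ_ne {ω : E3} {s : ℝ} {j : Fin 3} (hj : l j ≠ h j) :
    kapZ l h ω s j = k1 (l j) (h j) (ω j) s := by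
  simp [kapZ, hj, k1]

theorem kapZ_eq {ω : E3} {s : ℝ} {j : Fin 3} (hj : l j = h j) : kapZ l h ω s j = ω j := by
  simp [kapZ, hj]

theorem gap (hl : l ≤ h) {j : Fin 3} (hj : l j ≠ h j) : (l j : ℝ) + 1 ≤ h j := by
  have h1 : l j < h j := lt_of_le_of_ne (hl j) hj
  exact_mod_cast h1

theorem not_zop {y : E3} (hy : y ∈ zcl l h) (hn : y ∉ zop l h) :
    ∃ j, l j ≠ h j ∧ (y j = l j ∨ y j = h j) := by
  by_contra hc
  push Not at hc
  apply hn
  intro j
  by_cases hj : l j = h j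
  · refine Or.inl ⟨hj, ?_⟩
    have h1 := hy j
    rw [← hj] at h1
    exact le_antisymm h1.2 h1.1
  · obtain ⟨h1, h2⟩ := hc j hj
    exact Or.inr ⟨lt_of_le_of_ne (hy j).1 (Ne.symm h1), lt_of_le_of_ne (hy j).2 h2⟩

theorem not_zop' {y : E3} {j : Fin 3} (hj : l j ≠ h j) (hy : y j = l j ∨ y j = h j) :
    y ∉ zop l h := by
  intro hz
  rcases hz j with h1 | h1
  · exact hj h1.1
  · rcases hy with e | e
    · exact (ne_of_gt h1.1) e
    · exact (ne_of_lt h1.2) e

theorem upd_mem {y : E3} (hy : y ∈ zcl l h) {i : Fin 3} {m : ℤ}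
    (hm : |y i - m| < 1) : Function.update y i (m : ℝ) ∈ zcl l h := by
  intro j
  by_cases hj : j = i
  · subst hj
    rw [Function.update_self]
    obtain ⟨h1, h2⟩ := abs_lt.1 hm
    have a1 : (l j : ℝ) < m + 1 := by linarith [(hy j).1]
    have a2 : (m : ℝ) < h j + 1 := by linarith [(hy j).2]
    have b1 : l j < m + 1 := by exact_mod_cast a1
    have b2 : m < h j + 1 := by exact_mod_cast a2
    exact ⟨by exact_mod_cast Int.lt_add_one_iff.1 b1, by exact_mod_cast Int.lt_add_one_iff.1 b2⟩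
  · rw [Function.update_of_ne hj]
    exact hy j

/-- the point lies in the collar zone -/
def Col (l h : Fin 3 → ℤ) (d : ℝ) (y : E3) : Prop :=
  ∃ j, l j ≠ h j ∧ (y j - l j ≤ d ∨ h j - y j ≤ d)

theorem exists_kap (hl : l ≤ h) {d : ℝ} (hd : d ≤ 1 / 8) {y : E3} (hy : y ∈ zcl l h)
    (hc : Col l h d y) : ∃ ω ∈ zcl l h \ zop l h, ∃ s ∈ Icc (0 : ℝ) d, y = kapZ l h ω s := by
  classical
  obtain ⟨j1, hj1, hc⟩ := hc
  obtain ⟨j0, hj0, hmin⟩ := Finset.exists_min_image (Finset.univ.filter fun j => l j ≠ h j)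
    (fun j => min (y j - l j) (h j - y j)) ⟨j1, by simp [hj1]⟩
  have hj0' : l j0 ≠ h j0 := by simpa using hj0
  set s := min (y j0 - l j0) (h j0 - y j0) with hs
  have h0 : 0 ≤ s := le_min (by linarith [(hy j0).1]) (by linarith [(hy j0).2])
  have hsd : s ≤ d := by
    refine (hmin j1 (by simp [hj1])).trans ?_
    rcases hc with h1 | h1
    · exact (min_le_left _ _).trans h1
    · exact (min_le_right _ _).trans h1
  have hs8 : s ≤ 1 / 8 := hsd.trans hd
  have hv : ∀ j, l j ≠ h j → (l j : ℝ) + s ≤ y j ∧ y j ≤ h j - s := by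
    intro j hj
    have h1 := hmin j (by simp [hj])
    have h2 := h1.trans (min_le_left _ _)
    have h3 := h1.trans (min_le_right _ _)
    exact ⟨by linarith, by linarith⟩
  refine ⟨fun j => if l j = h j then y j else i1 (l j) (h j) (y j) s, ⟨?_, ?_⟩, s, ⟨h0, hsd⟩, ?_⟩
  · intro j
    by_cases hj : l j = h j
    · simp only [hj, if_true]
      have := hy j
      rw [hj] at this
      exact this
    · simp only [hj, if_false]
      exact i1_mem h0 hs8 (gap hl hj) (hv j hj).1 (hv j hj).2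
  · apply not_zop' hj0'
    simp only [hj0', if_false]
    rcases min_choice (y j0 - l j0) (h j0 - y j0) with e | e
    · left
      rw [← hs] at e
      rw [i1_low (by linarith)]
      linarith
    · right
      rw [← hs] at e
      rw [i1_high hs8 (gap hl hj0') (by linarith)]
      linarith
  · funext j
    by_cases hj : l j = h j
    · rw [kapZ_eq hj]
      simp [hj]
    · rw [kapZ_ne hj]
      simp only [hj, if_false]
      rw [k1_i1 hs8 (gap hl hj)]

theorem col_of_kap (hl : l ≤ h) {d s : ℝ} (hd : d ≤ 1 / 8) {ω : E3} (hω : ω ∈ zcl l h \ zop l h)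
    (hs : s ∈ Icc (0 : ℝ) d) : Col l h d (kapZ l h ω s) := by
  obtain ⟨j, hj, hb⟩ := not_zop hω.1 hω.2
  have hs8 : s ≤ 1 / 8 := hs.2.trans hd
  refine ⟨j, hj, ?_⟩
  rw [kapZ_ne hj]
  rcases hb with e | e
  · left
    rw [e, k1_low hs8 (gap hl hj) (by linarith [hs.1])]
    linarith [hs.2]
  · right
    rw [e, k1_high hs8 (gap hl hj) (by linarith [hs.1])]
    linarith [hs.2]

theorem kap_s_le (hl : l ≤ h) {s s' : ℝ} (h0 : 0 ≤ s) (h8 : s ≤ 1 / 8) (h0' : 0 ≤ s')
    (h8' : s' ≤ 1 / 8) {ω ω' : E3} (hω : ω ∈ zcl l h) (hω' : ω' ∈ zcl l h \ zop l h)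
    (e : kapZ l h ω s = kapZ l h ω' s') : s ≤ s' := by
  obtain ⟨j, hj, hb⟩ := not_zop hω'.1 hω'.2
  have ej := congrFun e j
  rw [kapZ_ne hj, kapZ_ne hj] at ej
  have g := gap hl hj
  have a1 := k1_ge h0 h8 g (hω j).1
  have a2 := k1_le h0 h8 g (hω j).2
  rcases hb with e1 | e1
  · rw [e1, k1_low (w := (l j : ℝ)) h8' g (by linarith)] at ej
    linarith
  · rw [e1, k1_high (w := (h j : ℝ)) h8' g (by linarith)] at ej
    linarith

theorem kap_inj (hl : l ≤ h) {s s' : ℝ} (h0 : 0 ≤ s) (h8 : s ≤ 1 / 8) (h0' : 0 ≤ s')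
    (h8' : s' ≤ 1 / 8) {ω ω' : E3} (hω : ω ∈ zcl l h \ zop l h) (hω' : ω' ∈ zcl l h \ zop l h)
    (e : kapZ l h ω s = kapZ l h ω' s') : ω = ω' := by
  have es : s = s' := le_antisymm (kap_s_le hl h0 h8 h0' h8' hω.1 hω' e)
    (kap_s_le hl h0' h8' h0 h8 hω'.1 hω e.symm)
  subst es
  funext j
  have ej := congrFun e j
  by_cases hj : l j = h j
  · rwa [kapZ_eq hj, kapZ_eq hj] at ej
  · rw [kapZ_ne hj, kapZ_ne hj] at ej
    have g := gap hl hj
    rw [← i1_k1 (w := ω j) h8 g, ej, i1_k1 h8 g]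

end Box

/-! ### depths -/

theorem dep_pos (k : ℕ) : 0 < dep k := by unfold dep; positivity

theorem dep_anti {k k' : ℕ} (hk : k ≤ k') : dep k' ≤ dep k := by
  unfold dep
  exact mul_le_mul_of_nonneg_left (pow_le_pow_of_le_one (by norm_num) (by norm_num) hk)
    (by norm_num)

theorem dep_half {k k' : ℕ} (hk : k < k') : 2 * dep k' ≤ dep k := by
  have h1 : dep k' ≤ dep (k + 1) := dep_anti hk
  have h2 : 2 * dep (k + 1) = dep k := by unfold dep; rw [pow_succ]; ring
  linarith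

theorem dep_le {k : ℕ} (hk : k ≠ 0) : dep k ≤ 1 / 8 := by
  have h1 : dep k ≤ dep 1 := dep_anti (Nat.one_le_iff_ne_zero.2 hk)
  have h2 : dep 1 = 1 / 8 := by unfold dep; norm_num
  linarith

/-! ### cells -/

section Main

variable {ι : Type} {T : Tiling (univ : Set E3) ι} {S R0 R1 : Set E3} {Φ : E3 ≃ₜ E3}

theorem bd_of_mem {x y w : E3} (hy : y ∈ T.cc x \ T.oc x) (hw : w ∈ T.cc y) :
    w ∈ T.cc x \ T.oc x :=
  ⟨T.cc_sub_of_mem hy.1 hw, fun h =>
    Set.disjoint_left.1 (T.disjoint_oc_cc (mem_univ x) hy.1 hy.2) h hw⟩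

theorem image_bd (hN : Norm T S R0 Φ) (x : E3) :
    Φ '' (T.cc x \ T.oc x) = T.cc x \ T.oc x := by
  apply Subset.antisymm
  · rintro _ ⟨y, hy, rfl⟩
    have h1 : Φ y ∈ T.cc y := by
      rw [← hN.cell y]
      exact ⟨y, T.self_mem_cc y, rfl⟩
    exact bd_of_mem hy h1
  · intro y hy
    have h1 : y ∈ Φ '' T.cc y := by
      rw [hN.cell y]
      exact T.self_mem_cc y
    obtain ⟨w, hw, e⟩ := h1
    exact ⟨w, bd_of_mem hy hw, e⟩

theorem mem_cr (hN : Norm T S R0 Φ) {x : E3} (hx : Cr T S x) {l h : Fin 3 → ℤ}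
    (h1 : T.cc x = zcl l h) (h2 : T.oc x = zop l h) (hl : l ≤ h) {y : E3} (hy : y ∈ T.cc x) :
    y ∈ Φ '' R0 ↔ ∃ ω ∈ T.cc x \ T.oc x, ω ∈ Φ '' R0 ∧ ∃ s ∈ Icc (0 : ℝ) (dep (T.dim x)),
      y = kapZ l h ω s := by
  have e := hN.col x hx l h h1 h2 hl
  have a1 : y ∈ Φ '' R0 ↔ y ∈ Φ '' (R0 ∩ T.cc x) := by
    rw [image_inter Φ.injective, hN.cell]
    exact ⟨fun h => ⟨h, hy⟩, fun h => h.1⟩
  have a2 : Φ '' (R0 ∩ (T.cc x \ T.oc x)) = Φ '' R0 ∩ (T.cc x \ T.oc x) := by
    rw [image_inter Φ.injective, image_bd hN]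
  rw [a1, e, a2]
  constructor
  · rintro ⟨ω, hω, s, hs, e⟩
    exact ⟨ω, hω.2, hω.1, s, hs, e⟩
  · rintro ⟨ω, hω, hω', s, hs, e⟩
    exact ⟨ω, ⟨hω', hω⟩, s, hs, e⟩

theorem const_noncr (hR : Sides T S R0 R1) (hN : Norm T S R0 Φ) {x : E3} (hx : ¬ Cr T S x)
    {y z : E3} (hy : y ∈ T.cc x) (hz : z ∈ T.cc x) : y ∈ Φ '' R0 → z ∈ Φ '' R0 := by
  rintro ⟨w, hw, rfl⟩
  have hy' : Φ (Φ w) = Φ w := hN.fix x hx _ hy
  have hw' : Φ w = w := Φ.injective hy'
  have hwR : Φ w ∈ R0 := by rw [hw']; exact hw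
  rcases hR.noncr x hx with h | h
  · exact ⟨z, h hz, hN.fix x hx z hz⟩
  · exfalso
    apply hx
    refine ⟨Φ w, hy, ?_⟩
    rw [← hR.inter]
    exact ⟨hwR, h hy⟩

theorem dim_ne_zero (hA : Adapted T S) {x : E3} (hx : Cr T S x) : T.dim x ≠ 0 := by
  intro h0
  obtain ⟨y, hy, hyS⟩ := hx
  rw [T.cc_eq_singleton (T.dim_eq_zero_iff.1 h0)] at hy
  rw [mem_singleton_iff] at hy
  subst hy
  exact hA.vert y hyS h0

/-- on the collar -/
theorem iff_kap (hN : Norm T S R0 Φ) {x : E3} (hx : Cr T S x) {l h : Fin 3 → ℤ}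
    (h1 : T.cc x = zcl l h) (h2 : T.oc x = zop l h) (hl : l ≤ h) (hd : dep (T.dim x) ≤ 1 / 8)
    {y ω : E3} (hy : y ∈ T.cc x) (hω : ω ∈ T.cc x \ T.oc x) {s : ℝ}
    (hs : s ∈ Icc (0 : ℝ) (dep (T.dim x))) (e : y = kapZ l h ω s) :
    y ∈ Φ '' R0 ↔ ω ∈ Φ '' R0 := by
  rw [mem_cr hN hx h1 h2 hl hy]
  constructor
  · rintro ⟨ω', hω', hN', s', hs', e'⟩
    rw [h1, h2] at hω hω'
    have : ω' = ω := kap_inj hl hs'.1 (hs'.2.trans hd) hs.1 (hs.2.trans hd) hω' hω
      (e'.symm.trans e)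
    rwa [this] at hN'
  · intro hω'
    exact ⟨ω, hω, hω', s, hs, e⟩

/-- **rounding** -/
theorem round (hT : Bxs T) (hA : Adapted T S) (hR : Sides T S R0 R1) (hN : Norm T S R0 Φ) :
    ∀ n, ∀ x, T.dim x = n → ∀ y ∈ T.cc x, ∀ (i : Fin 3) (m : ℤ), |y i - m| ≤ dep n →
      (y ∈ Φ '' R0 ↔ Function.update y i (m : ℝ) ∈ Φ '' R0) := by
  intro n
  induction n using Nat.strong_induction_on with
  | _ n ih =>
  intro x hx y hy i m hm
  have IH : ∀ w, T.dim w < n → ∀ (i : Fin 3) (m : ℤ), |w i - m| ≤ dep (T.dim w) →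
      (w ∈ Φ '' R0 ↔ Function.update w i (m : ℝ) ∈ Φ '' R0) :=
    fun w hw i m h => ih _ hw w rfl w (T.self_mem_cc w) i m h
  obtain ⟨l, h, hl, h1, h2⟩ := hT x
  have hm1 : |y i - m| < 1 := by
    have a1 : dep n ≤ dep 0 := dep_anti (Nat.zero_le n)
    have a2 : dep 0 = 1 / 4 := by unfold dep; norm_num
    linarith
  have hy' : Function.update y i (m : ℝ) ∈ T.cc x := by
    rw [h1] at hy ⊢
    exact upd_mem hy hm1
  by_cases hyo : y ∈ T.oc x
  swap
  · have hlt : T.dim y < n := hx ▸ T.dim_lt hy hyo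
    exact IH y hlt i m (hm.trans (dep_anti hlt.le))
  by_cases hc : Cr T S x
  swap
  · exact ⟨const_noncr hR hN hc hy hy', const_noncr hR hN hc hy' hy⟩
  have hn0 : n ≠ 0 := hx ▸ dim_ne_zero hA hc
  have hd : dep n ≤ 1 / 8 := dep_le hn0
  have hd' : dep (T.dim x) ≤ 1 / 8 := by rw [hx]; exact hd
  have hd0 := dep_pos n
  -- one step on the boundary
  have step : ∀ v ∈ T.cc x \ T.oc x, ∀ (j : Fin 3) (a : ℝ),
      (a = v j ∨ ∃ m : ℤ, a = m ∧ |v j - m| ≤ 2 * dep n) →
      Function.update v j a ∈ T.cc x \ T.oc x ∧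
        (v ∈ Φ '' R0 ↔ Function.update v j a ∈ Φ '' R0) := by
    intro v hv j a ha
    rcases ha with rfl | ⟨m, rfl, hvm⟩
    · rw [Function.update_eq_self]
      exact ⟨hv, Iff.rfl⟩
    · have hlt : T.dim v < n := hx ▸ T.dim_lt hv.1 hv.2
      obtain ⟨l', h', hl', e1, e2⟩ := hT v
      refine ⟨bd_of_mem hv ?_, IH v hlt j m (hvm.trans (dep_half hlt))⟩
      have hself := T.self_mem_cc v
      rw [e1] at hself ⊢
      exact upd_mem hself (by linarith)
  -- three steps
  have RR : ∀ w ∈ T.cc x \ T.oc x, ∀ z : E3,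
      (∀ j, z j = w j ∨ ∃ m : ℤ, z j = m ∧ |w j - m| ≤ 2 * dep n) →
      (w ∈ Φ '' R0 ↔ z ∈ Φ '' R0) := by
    intro w hw z hz
    obtain ⟨a1, b1⟩ := step w hw 0 (z 0) (hz 0)
    obtain ⟨a2, b2⟩ := step _ a1 1 (z 1) (by
      rw [Function.update_of_ne (by decide)]
      exact hz 1)
    obtain ⟨a3, b3⟩ := step _ a2 2 (z 2) (by
      rw [Function.update_of_ne (by decide), Function.update_of_ne (by decide)]
      exact hz 2)
    have e : Function.update (Function.update (Function.update w 0 (z 0)) 1 (z 1)) 2 (z 2) = z := by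
      funext j
      fin_cases j <;> simp [Function.update]
    rw [e] at b3
    exact b1.trans (b2.trans b3)
  by_cases hi : l i = h i
  · -- degenerate coordinate
    have h3 : y i = l i := by
      rw [h1] at hy
      have := hy i
      rw [← hi] at this
      exact le_antisymm this.2 this.1
    have h4 : m = l i := by
      rw [h3] at hm1
      have : |l i - m| < 1 := by exact_mod_cast hm1
      have := Int.abs_lt_one_iff.1 this
      omega
    rw [h4, ← h3, Function.update_eq_self]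
  have hyz : y ∈ zcl l h := h1 ▸ hy
  have gi := gap hl hi
  obtain ⟨hm2, hm3⟩ := abs_le.1 hm
  by_cases hcol : Col l h (dep n) y
  swap
  · -- both outside the collar
    have not_col : ∀ w ∈ T.cc x, ¬ Col l h (dep n) w → w ∉ Φ '' R0 := by
      intro w hw hwc hwN
      rw [mem_cr hN hc h1 h2 hl hw] at hwN
      obtain ⟨ω, hω, -, s, hs, e⟩ := hwN
      rw [hx] at hs
      rw [h1, h2] at hω
      exact hwc (e ▸ col_of_kap hl hd hω hs)
    have n1 : ¬ Col l h (dep n) (Function.update y i (m : ℝ)) := by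
      rintro ⟨j, hj, hj'⟩
      by_cases e : j = i
      · subst e
        rw [Function.update_self] at hj'
        have c1 : ¬ (y j - l j ≤ dep n) := fun h => hcol ⟨j, hj, Or.inl h⟩
        have c2 : ¬ ((h j : ℝ) - y j ≤ dep n) := fun h => hcol ⟨j, hj, Or.inr h⟩
        have c3 : (l j : ℝ) < m := by linarith
        have c4 : (m : ℝ) < h j := by linarith
        have c5 : (l j : ℝ) + 1 ≤ m := by
          have : l j < m := by exact_mod_cast c3
          exact_mod_cast this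
        have c6 : (m : ℝ) + 1 ≤ h j := by
          have : m < h j := by exact_mod_cast c4
          exact_mod_cast this
        rcases hj' with h5 | h5 <;> linarith
      · rw [Function.update_of_ne e] at hj'
        exact hcol ⟨j, hj, hj'⟩
    exact ⟨fun h5 => absurd h5 (not_col y hy hcol), fun h5 => absurd h5 (not_col _ hy' n1)⟩
  obtain ⟨ω, hω, s, hs, e⟩ := exists_kap hl hd hyz hcol
  have hω' : ω ∈ T.cc x \ T.oc x := by rw [h1, h2]; exact hω
  have hs8 : s ≤ 1 / 8 := hs.2.trans hd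
  have key : y ∈ Φ '' R0 ↔ ω ∈ Φ '' R0 :=
    iff_kap hN hc h1 h2 hl hd' hy hω' (by rw [hx]; exact hs) e
  -- coordinates of `ω`
  have hωj : ∀ j, l j ≠ h j → ω j = i1 (l j) (h j) (y j) s := by
    intro j hj
    rw [e, kapZ_ne hj, i1_k1 hs8 (gap hl hj)]
  have hωd : ∀ j, l j = h j → ω j = y j := by
    intro j hj
    rw [e, kapZ_eq hj]
  have hys : ∀ j, l j ≠ h j → (l j : ℝ) + s ≤ y j ∧ y j ≤ h j - s := by
    intro j hj
    rw [e, kapZ_ne hj]
    exact ⟨k1_ge hs.1 hs8 (gap hl hj) (hω.1 j).1, k1_le hs.1 hs8 (gap hl hj) (hω.1 j).2⟩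
  rw [key]
  by_cases hml : m = l i ∨ m = h i
  · -- the rounded point is on the boundary
    have hyb : Function.update y i (m : ℝ) ∈ T.cc x \ T.oc x := by
      refine ⟨hy', ?_⟩
      rw [h2]
      apply not_zop' hi
      rw [Function.update_self]
      rcases hml with h5 | h5
      · exact Or.inl (by rw [h5])
      · exact Or.inr (by rw [h5])
    have hs2 := hs.2
    have hs1 := hs.1
    let z : E3 := fun j => if j = i then (m : ℝ) else if l j = h j then y j else
      if y j ≤ l j + 2 * s then (l j : ℝ) else if (h j : ℝ) - 2 * s ≤ y j then (h j : ℝ) else y j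
    have z1 : ω ∈ Φ '' R0 ↔ z ∈ Φ '' R0 := by
      apply RR ω hω'
      intro j
      by_cases hji : j = i
      · subst hji
        refine Or.inr ⟨m, by simp [z], ?_⟩
        rw [hωj j hi]
        obtain ⟨y1, y2⟩ := hys j hi
        rcases le_or_gt (y j) (l j + 2 * s) with q | q
        · rw [i1_low q]
          have hmm : m = l j := by
            rcases hml with h5 | h5
            · exact h5
            · exfalso
              rw [h5] at hm2 hm3
              linarith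
          rw [hmm]
          rw [abs_le]
          constructor <;> linarith
        rcases le_or_gt ((h j : ℝ) - 2 * s) (y j) with q' | q'
        · rw [i1_high hs8 gi q']
          have hmm : m = h j := by
            rcases hml with h5 | h5
            · exfalso
              rw [h5] at hm2 hm3
              linarith
            · exact h5
          rw [hmm]
          rw [abs_le]
          constructor <;> linarith
        · rw [i1_mid q q']
          rw [abs_le]
          constructor <;> linarith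
      · by_cases hj : l j = h j
        · left
          simp only [z, hji, if_false, hj, if_true]
          exact (hωd j hj).symm
        · rw [hωj j hj]
          obtain ⟨y1, y2⟩ := hys j hj
          rcases le_or_gt (y j) (l j + 2 * s) with q | q
          · right
            refine ⟨l j, by simp only [z, hji, if_false, hj, q, if_true], ?_⟩
            rw [i1_low q, abs_le]
            constructor <;> linarith
          rcases le_or_gt ((h j : ℝ) - 2 * s) (y j) with q' | q'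
          · right
            refine ⟨h j, by simp only [z, hji, if_false, hj, not_le.2 q, q', if_true], ?_⟩
            rw [i1_high hs8 (gap hl hj) q', abs_le]
            constructor <;> linarith
          · left
            rw [i1_mid q q']
            simp only [z, hji, if_false, hj, not_le.2 q, not_le.2 q']
    have z2 : Function.update y i (m : ℝ) ∈ Φ '' R0 ↔ z ∈ Φ '' R0 := by
      apply RR _ hyb
      intro j
      by_cases hji : j = i
      · subst hji
        left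
        simp [z]
      · rw [Function.update_of_ne hji]
        by_cases hj : l j = h j
        · left
          simp only [z, hji, if_false, hj, if_true]
        · obtain ⟨y1, y2⟩ := hys j hj
          rcases le_or_gt (y j) (l j + 2 * s) with q | q
          · right
            refine ⟨l j, by simp only [z, hji, if_false, hj, q, if_true], ?_⟩
            rw [abs_le]
            constructor <;> linarith
          rcases le_or_gt ((h j : ℝ) - 2 * s) (y j) with q' | q'
          · right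
            refine ⟨h j, by simp only [z, hji, if_false, hj, not_le.2 q, q', if_true], ?_⟩
            rw [abs_le]
            constructor <;> linarith
          · left
            simp only [z, hji, if_false, hj, not_le.2 q, not_le.2 q']
    exact z1.trans z2.symm
  · -- interior integer
    push Not at hml
    have c3 : (l i : ℝ) + 1 ≤ m := by
      have a1 : (l i : ℝ) < m + 1 := by
        have := (hyz i).1
        linarith
      have a2 : l i < m + 1 := by exact_mod_cast a1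
      have a3 : l i < m := lt_of_le_of_ne (Int.lt_add_one_iff.1 a2) (Ne.symm hml.1)
      exact_mod_cast a3
    have c4 : (m : ℝ) + 1 ≤ h i := by
      have a1 : (m : ℝ) < h i + 1 := by
        have := (hyz i).2
        linarith
      have a2 : m < h i + 1 := by exact_mod_cast a1
      have a3 : m < h i := lt_of_le_of_ne (Int.lt_add_one_iff.1 a2) hml.2
      exact_mod_cast a3
    have hωi : ω i = y i := by
      rw [hωj i hi, i1_mid]
      · linarith
      · linarith
    obtain ⟨b1, b2⟩ := step ω hω' i (m : ℝ) (Or.inr ⟨m, rfl, by rw [hωi, abs_le]; constructor <;> linarith⟩)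
    rw [b2]
    refine (iff_kap hN hc h1 h2 hl hd' hy' b1 (s := s) (by rw [hx]; exact hs) ?_).symm
    funext j
    by_cases hji : j = i
    · subst hji
      rw [Function.update_self, kapZ_ne hi, Function.update_self, k1_mid (by linarith [hs.1]) (by linarith [hs.1])]
    · rw [Function.update_of_ne hji]
      by_cases hj : l j = h j
      · rw [kapZ_eq hj, Function.update_of_ne hji, hωd j hj]
      · rw [kapZ_ne hj, Function.update_of_ne hji, hωj j hj, k1_i1 hs8 (gap hl hj)]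

/-! ### the final statement -/

theorem same_zop {x x' : E3} (hs : Same x x') {l h : Fin 3 → ℤ} (hx : x ∈ zop l h) :
    x' ∈ zop l h := by
  intro j
  obtain ⟨a1, a2⟩ := hs j (32 * l j)
  obtain ⟨b1, b2⟩ := hs j (32 * h j)
  push_cast at a1 a2 b1 b2
  rcases hx j with ⟨e, hj⟩ | ⟨hj1, hj2⟩
  · refine Or.inl ⟨e, ?_⟩
    apply le_antisymm
    · by_contra hc
      have := a2.2 (by linarith)
      linarith
    · by_contra hc
      have := a1.2 (by linarith)
      linarith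
  · refine Or.inr ⟨?_, ?_⟩
    · have := a2.1 (by linarith)
      linarith
    · have := b1.1 (by linarith)
      linarith

theorem same_upd {x x' : E3} (hs : Same x x') (i : Fin 3) (a : ℝ) :
    Same (Function.update x i a) (Function.update x' i a) := by
  intro j m
  by_cases hj : j = i
  · subst hj
    rw [Function.update_self, Function.update_self]
    exact ⟨Iff.rfl, Iff.rfl⟩
  · rw [Function.update_of_ne hj, Function.update_of_ne hj]
    exact hs j m

theorem dep_int {k : ℕ} (hk : k ≤ 3) : ∃ c : ℤ, 32 * dep k = c := by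
  unfold dep
  interval_cases k
  · exact ⟨8, by norm_num⟩
  · exact ⟨4, by norm_num⟩
  · exact ⟨2, by norm_num⟩
  · exact ⟨1, by norm_num⟩

theorem same_low {x x' : E3} (hs : Same x x') {j : Fin 3} {a : ℤ} {d : ℝ} {c : ℤ}
    (hd : 32 * d = c) (h : x j - a ≤ d) : x' j - a ≤ d := by
  obtain ⟨a1, a2⟩ := hs j (32 * a + c)
  push_cast at a1 a2
  by_contra hc
  have := a2.2 (by linarith)
  linarith

theorem same_high {x x' : E3} (hs : Same x x') {j : Fin 3} {a : ℤ} {d : ℝ} {c : ℤ}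
    (hd : 32 * d = c) (h : a - x j ≤ d) : a - x' j ≤ d := by
  obtain ⟨a1, a2⟩ := hs j (32 * a - c)
  push_cast at a1 a2
  by_contra hc
  have := a1.2 (by linarith)
  linarith

/-- **(N1)** the normal form is cellular for the lattice `(1/32) ℤ³` -/
theorem cellStmt : CellStmt := by
  intro ι T S hT hA R0 R1 hR Φ hN
  suffices H : ∀ n, ∀ x x', T.dim x = n → Same x x' → x ∈ Φ '' R0 → x' ∈ Φ '' R0 from
    fun x x' h => H _ x x' rfl h
  intro n
  induction n using Nat.strong_induction_on with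
  | _ n ih =>
  intro x x' hx hs hxN
  obtain ⟨l, h, hl, h1, h2⟩ := hT x
  have hxo : x ∈ zop l h := h2 ▸ T.self_mem_oc x
  have hx'o : x' ∈ zop l h := same_zop hs hxo
  have hx'c : x' ∈ T.cc x := T.oc_sub_cc x (by rw [h2]; exact hx'o)
  by_cases hc : Cr T S x
  swap
  · exact const_noncr hR hN hc (T.self_mem_cc x) hx'c hxN
  have hn0 : n ≠ 0 := hx ▸ dim_ne_zero hA hc
  have hd : dep n ≤ 1 / 8 := dep_le hn0
  have hd0 := dep_pos n
  have hn3 : n ≤ 3 := by
    rw [← hx]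
    refine (T.dim_le_finrank x).trans ?_
    simp
  obtain ⟨c, hcd⟩ := dep_int hn3
  obtain ⟨ω, hω, -, s, hs', e⟩ := (mem_cr hN hc h1 h2 hl (T.self_mem_cc x)).1 hxN
  rw [hx] at hs'
  rw [h1, h2] at hω
  have hcol : Col l h (dep n) (kapZ l h ω s) := col_of_kap hl hd hω hs'
  rw [← e] at hcol
  obtain ⟨j, hj, hjd⟩ := hcol
  have g := gap hl hj
  have hxz : x ∈ zcl l h := h1 ▸ T.self_mem_cc x
  have hx'z : x' ∈ zcl l h := h1 ▸ hx'c
  -- the integer to which we round
  obtain ⟨m, hm, q1, q2⟩ : ∃ m : ℤ, (m = l j ∨ m = h j) ∧ |x j - m| ≤ dep n ∧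
      |x' j - m| ≤ dep n := by
    rcases hjd with h3 | h3
    · refine ⟨l j, Or.inl rfl, ?_, ?_⟩
      · rw [abs_le]
        exact ⟨by linarith [(hxz j).1], h3⟩
      · rw [abs_le]
        exact ⟨by linarith [(hx'z j).1], same_low hs hcd h3⟩
    · refine ⟨h j, Or.inr rfl, ?_, ?_⟩
      · rw [abs_le]
        exact ⟨by linarith, by linarith [(hxz j).2]⟩
      · have := same_high hs hcd h3
        rw [abs_le]
        exact ⟨by linarith, by linarith [(hx'z j).2]⟩
  have hA1 : Function.update x j (m : ℝ) ∈ T.cc x \ T.oc x := by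
    refine ⟨?_, ?_⟩
    · rw [h1]
      exact upd_mem hxz (by linarith)
    · rw [h2]
      apply not_zop' hj
      rw [Function.update_self]
      rcases hm with h5 | h5
      · exact Or.inl (by rw [h5])
      · exact Or.inr (by rw [h5])
  have hlt : T.dim (Function.update x j (m : ℝ)) < n := hx ▸ T.dim_lt hA1.1 hA1.2
  have r1 := (round hT hA hR hN n x hx x (T.self_mem_cc x) j m q1).1 hxN
  have r2 := ih _ hlt _ (Function.update x' j (m : ℝ)) rfl (same_upd hs j m) r1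
  exact (round hT hA hR hN n x hx x' hx'c j m q2).2 r2

end Main

end Crest.Agent.R096.Gp1_120
end

-- ▼ part R096/Frt1_324

/-!
# R096 (row 96), P2-GEN (N6) (helper324): the frontier of a regular compact cellular set

`front : Gp_702.FrontStmt`.
-/

set_option autoImplicit false

open Set Metric Topology

namespace Crest.Agent.R096.Frt_324

open Gp_702

/-- closed lattice cube of side `1/32` -/
def cb (z : Fin 3 → ℤ) : Set E3 := {x | ∀ j, (z j : ℝ) ≤ 32 * x j ∧ 32 * x j ≤ z j + 1}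

/-- open lattice cube of side `1/32` -/
def ob (z : Fin 3 → ℤ) : Set E3 := {x | ∀ j, (z j : ℝ) < 32 * x j ∧ 32 * x j < z j + 1}

/-- centre -/
noncomputable def ct (z : Fin 3 → ℤ) : E3 := fun j => (z j + 1 / 2) / 32

lemma ct_mem (z : Fin 3 → ℤ) : ct z ∈ ob z := by
  intro j
  simp only [ct]
  constructor <;> linarith

lemma ob_sub (z : Fin 3 → ℤ) : ob z ⊆ cb z := fun _ hx j => ⟨(hx j).1.le, (hx j).2.le⟩

lemma same_symm {x x' : E3} (h : Same x x') : Same x' x :=
  fun j m => ⟨(h j m).1.symm, (h j m).2.symm⟩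

lemma same_ob {z : Fin 3 → ℤ} {x x' : E3} (hx : x ∈ ob z) (hx' : x' ∈ ob z) : Same x x' := by
  intro j m
  have h1 := hx j
  have h2 := hx' j
  constructor
  · constructor
    · intro h
      have h3 : (z j : ℝ) < m := h1.1.trans h
      have h4 : z j < m := by exact_mod_cast h3
      have h5 : z j + 1 ≤ m := h4
      have h6 : (z j : ℝ) + 1 ≤ m := by exact_mod_cast h5
      linarith
    · intro h
      have h3 : (z j : ℝ) < m := h2.1.trans h
      have h4 : z j < m := by exact_mod_cast h3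
      have h5 : z j + 1 ≤ m := h4
      have h6 : (z j : ℝ) + 1 ≤ m := by exact_mod_cast h5
      linarith
  · constructor
    · intro h
      have h3 : (m : ℝ) < z j + 1 := h.trans h1.2
      have h4 : m < z j + 1 := by exact_mod_cast h3
      have h5 : m ≤ z j := by omega
      have h6 : (m : ℝ) ≤ z j := by exact_mod_cast h5
      linarith
    · intro h
      have h3 : (m : ℝ) < z j + 1 := h.trans h2.2
      have h4 : m < z j + 1 := by exact_mod_cast h3
      have h5 : m ≤ z j := by omega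
      have h6 : (m : ℝ) ≤ z j := by exact_mod_cast h5
      linarith

lemma isClosed_cb (z : Fin 3 → ℤ) : IsClosed (cb z) := by
  have : cb z = ⋂ j, {x : E3 | (z j : ℝ) ≤ 32 * x j ∧ 32 * x j ≤ z j + 1} := by
    ext x; simp [cb]
  rw [this]
  refine isClosed_iInter fun j => ?_
  have hcj : Continuous fun x : E3 => 32 * x j := continuous_const.mul (continuous_apply j)
  exact (isClosed_le continuous_const hcj).inter (isClosed_le hcj continuous_const)

lemma cb_sub_closure (z : Fin 3 → ℤ) : cb z ⊆ closure (ob z) := by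
  have h1 : ob z = Set.pi univ (fun j => Ioo ((z j : ℝ) / 32) (((z j : ℝ) + 1) / 32)) := by
    ext x
    simp only [ob, mem_setOf_eq, mem_pi, mem_univ, true_implies, mem_Ioo]
    refine forall_congr' fun j => ?_
    constructor
    · rintro ⟨h1, h2⟩
      constructor <;> linarith
    · rintro ⟨h1, h2⟩
      constructor <;> linarith
  rw [h1, closure_pi_set]
  intro x hx j _
  show x j ∈ closure (Ioo ((z j : ℝ) / 32) (((z j : ℝ) + 1) / 32))
  rw [closure_Ioo (by intro h; linarith)]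
  have := hx j
  constructor <;> linarith

/-- generic points are dense -/
lemma exists_generic {W : Set E3} (hW : IsOpen W) (hne : W.Nonempty) :
    ∃ y ∈ W, ∃ z : Fin 3 → ℤ, y ∈ ob z := by
  have hd : Dense (Set.pi univ (fun _ : Fin 3 => {x : ℝ | Irrational x})) :=
    dense_pi univ fun _ _ => dense_irrational
  obtain ⟨y, hyW, hy⟩ := hd.inter_open_nonempty W hW hne
  refine ⟨y, hyW, fun j => ⌊32 * y j⌋, fun j => ⟨?_, Int.lt_floor_add_one _⟩⟩
  have hirr : Irrational (32 * y j) := by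
    have h1 : Irrational (y j) := hy j (mem_univ j)
    have h2 := h1.natCast_mul (m := 32) (by norm_num)
    simpa using h2
  refine lt_of_le_of_ne (Int.floor_le _) fun h => ?_
  exact hirr.ne_int _ h.symm

section

variable {N : Set E3} (hc : IsCompact N) (hr : closure (interior N) = N)
  (hs : ∀ x x', Same x x' → x ∈ N → x' ∈ N)

/-- the cubes of `N` -/
def ZN (N : Set E3) : Set (Fin 3 → ℤ) := {z | ct z ∈ N}

include hs in
lemma mem_iff {z : Fin 3 → ℤ} {x : E3} (hx : x ∈ ob z) : x ∈ N ↔ z ∈ ZN N :=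
  ⟨fun h => hs _ _ (same_ob hx (ct_mem z)) h, fun h => hs _ _ (same_ob (ct_mem z) hx) h⟩

include hc in
lemma finite_ZN : (ZN N).Finite := by
  obtain ⟨R, hR⟩ := hc.isBounded.subset_closedBall (0 : E3)
  obtain ⟨M, hM⟩ := exists_nat_gt (32 * R + 1)
  refine (Set.finite_Icc (fun _ : Fin 3 => -(M : ℤ)) (fun _ => (M : ℤ))).subset ?_
  intro z hz
  have h1 : ct z ∈ closedBall (0 : E3) R := hR hz
  rw [mem_closedBall_zero_iff] at h1
  have h2 : ∀ j, |ct z j| ≤ R := fun j => (norm_le_pi_norm (ct z) j).trans h1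
  have h3 : ∀ j, (-(M : ℝ)) ≤ z j ∧ (z j : ℝ) ≤ M := by
    intro j
    have h4 := abs_le.1 (h2 j)
    simp only [ct] at h4
    constructor <;> linarith [h4.1, h4.2]
  constructor
  · intro j
    have := (h3 j).1
    exact_mod_cast this
  · intro j
    have := (h3 j).2
    exact_mod_cast this

include hc hs in
lemma cb_sub {z : Fin 3 → ℤ} (hz : z ∈ ZN N) : cb z ⊆ N := by
  have h1 : ob z ⊆ N := fun x hx => (mem_iff hs hx).2 hz
  exact (cb_sub_closure z).trans (closure_minimal h1 hc.isClosed)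

include hc hr hs in
lemma exists_cb {x : E3} (hx : x ∈ N) : ∃ z ∈ ZN N, x ∈ cb z := by
  by_contra hcon
  push Not at hcon
  have hcl : IsClosed (⋃ z ∈ ZN N, cb z) :=
    (finite_ZN hc).isClosed_biUnion fun z _ => isClosed_cb z
  have hxU : x ∈ (⋃ z ∈ ZN N, cb z)ᶜ := by
    simp only [mem_compl_iff, mem_iUnion, not_exists]
    exact hcon
  rw [← hr] at hx
  have h1 := mem_closure_iff.1 hx _ hcl.isOpen_compl hxU
  obtain ⟨y, ⟨hy1, hy2⟩, z, hyz⟩ :=
    exists_generic (hcl.isOpen_compl.inter isOpen_interior) h1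
  have hz : z ∈ ZN N := (mem_iff hs hyz).1 (interior_subset hy2)
  exact hy1 (mem_biUnion hz (ob_sub z hyz))

include hc hs in
/-- a point all of whose cubes belong to `N` is interior -/
lemma mem_interior_of {x : E3} (h : ∀ z, x ∈ cb z → z ∈ ZN N) : x ∈ interior N := by
  rw [mem_interior]
  refine ⟨{y | ∀ j, ((⌈32 * x j⌉ - 1 : ℤ) : ℝ) < 32 * y j ∧ 32 * y j < ((⌊32 * x j⌋ + 1 : ℤ) : ℝ)},
    ?_, ?_, ?_⟩
  · intro y hy
    have hz : x ∈ cb (fun j => ⌊32 * y j⌋) := by
      intro j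
      have h1 : ⌊32 * y j⌋ ≤ ⌊32 * x j⌋ := by
        have := Int.floor_lt.2 (hy j).2
        omega
      have h2 : ⌈32 * x j⌉ - 1 ≤ ⌊32 * y j⌋ := Int.le_floor.2 (hy j).1.le
      constructor
      · have h3 : (⌊32 * y j⌋ : ℝ) ≤ ⌊32 * x j⌋ := by exact_mod_cast h1
        exact h3.trans (Int.floor_le _)
      · have h3 : ((⌈32 * x j⌉ - 1 : ℤ) : ℝ) ≤ ⌊32 * y j⌋ := by exact_mod_cast h2
        push_cast at h3
        have h4 := Int.le_ceil (32 * x j)
        linarith
    refine cb_sub hc hs (h _ hz) ?_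
    intro j
    exact ⟨Int.floor_le _, (Int.lt_floor_add_one _).le⟩
  · have : {y : E3 | ∀ j, ((⌈32 * x j⌉ - 1 : ℤ) : ℝ) < 32 * y j ∧
        32 * y j < ((⌊32 * x j⌋ + 1 : ℤ) : ℝ)} = ⋂ j, {y : E3 |
          ((⌈32 * x j⌉ - 1 : ℤ) : ℝ) < 32 * y j ∧ 32 * y j < ((⌊32 * x j⌋ + 1 : ℤ) : ℝ)} := by
      ext y; simp
    rw [this]
    refine isOpen_iInter_of_finite fun j => ?_
    have hcj : Continuous fun y : E3 => 32 * y j := continuous_const.mul (continuous_apply j)
    exact (isOpen_lt continuous_const hcj).inter (isOpen_lt hcj continuous_const)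
  · intro j
    constructor
    · have := Int.ceil_lt_add_one (32 * x j)
      push_cast
      linarith
    · have := Int.lt_floor_add_one (32 * x j)
      push_cast
      linarith

end

/-- the neighbour of `z` in direction `i` -/
def nb (z : Fin 3 → ℤ) (i : Fin 3) (s : Bool) : Fin 3 → ℤ :=
  Function.update z i (z i + if s then 1 else -1)

/-- the common face of `z` and its neighbour -/
noncomputable def fc (q : (Fin 3 → ℤ) × Fin 3 × Bool) : E3 × E3 :=
  (fun j => if j = q.2.1 then ((q.1 j : ℝ) + if q.2.2 then 1 else 0) / 32 else (q.1 j : ℝ) / 32,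
   fun j => if j = q.2.1 then ((q.1 j : ℝ) + if q.2.2 then 1 else 0) / 32
    else ((q.1 j : ℝ) + 1) / 32)

lemma mem_fc {z : Fin 3 → ℤ} {i : Fin 3} {s : Bool} {x : E3} :
    x ∈ Icc (fc (z, i, s)).1 (fc (z, i, s)).2 ↔ x ∈ cb z ∧ x ∈ cb (nb z i s) := by
  constructor
  · rintro ⟨h1, h2⟩
    have h3 : ∀ j, (fc (z, i, s)).1 j ≤ x j := h1
    have h4 : ∀ j, x j ≤ (fc (z, i, s)).2 j := h2
    constructor
    · intro j
      have h5 := h3 j
      have h6 := h4 j
      simp only [fc] at h5 h6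
      by_cases hj : j = i
      · cases s <;> simp only [hj, if_true, Bool.false_eq_true, if_false] at h5 h6 ⊢ <;>
          constructor <;> linarith
      · simp only [hj, if_false] at h5 h6
        constructor <;> linarith
    · intro j
      have h5 := h3 j
      have h6 := h4 j
      simp only [fc] at h5 h6
      by_cases hj : j = i
      · subst hj
        cases s <;>
          simp only [nb, if_true, Bool.false_eq_true, if_false, Function.update_self] at h5 h6 ⊢ <;>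
          push_cast <;> constructor <;> linarith
      · simp only [hj, if_false] at h5 h6
        simp only [nb, Function.update_of_ne hj]
        constructor <;> linarith
  · rintro ⟨h1, h2⟩
    constructor
    · intro j
      have h5 := h1 j
      have h6 := h2 j
      simp only [fc]
      by_cases hj : j = i
      · subst hj
        cases s <;>
          simp only [nb, if_true, Bool.false_eq_true, if_false, Function.update_self] at h5 h6 ⊢ <;>
          push_cast at h6 <;> linarith [h5.1, h5.2, h6.1, h6.2]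
      · simp only [hj, if_false]
        linarith [h5.1]
    · intro j
      have h5 := h1 j
      have h6 := h2 j
      simp only [fc]
      by_cases hj : j = i
      · subst hj
        cases s <;>
          simp only [nb, if_true, Bool.false_eq_true, if_false, Function.update_self] at h5 h6 ⊢ <;>
          push_cast at h6 <;> linarith [h5.1, h5.2, h6.1, h6.2]
      · simp only [hj, if_false]
        linarith [h5.2]

/-- two cubes of a point which differ only in the coordinate `i` -/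
lemma nb_of {z z' : Fin 3 → ℤ} {x : E3} (hx : x ∈ cb z) (hx' : x ∈ cb z') {i : Fin 3}
    (h : ∀ j, j ≠ i → z' j = z j) (hne : z ≠ z') : ∃ s, z' = nb z i s := by
  have h1 : z' i ≠ z i := by
    intro h2
    apply hne
    funext j
    by_cases hj : j = i
    · rw [hj, h2]
    · exact (h j hj).symm
  have h2 := hx i
  have h3 := hx' i
  have h4 : (z i : ℝ) ≤ z' i + 1 := h2.1.trans h3.2
  have h5 : (z' i : ℝ) ≤ z i + 1 := h3.1.trans h2.2
  have h4' : z i ≤ z' i + 1 := by exact_mod_cast h4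
  have h5' : z' i ≤ z i + 1 := by exact_mod_cast h5
  have h6 : z' i = z i + 1 ∨ z' i = z i + -1 := by omega
  rcases h6 with h6 | h6
  · refine ⟨true, ?_⟩
    funext j
    by_cases hj : j = i
    · subst hj; simp [nb, h6]
    · simp [nb, hj, h j hj]
  · refine ⟨false, ?_⟩
    funext j
    by_cases hj : j = i
    · subst hj; simp [nb, h6]
    · simp [nb, hj, h j hj]

/-- path from a cube of `Z` to a cube outside `Z`, one coordinate at a time -/
lemma exists_step {Z : Set (Fin 3 → ℤ)} {x : E3} {z z' : Fin 3 → ℤ} (hz : z ∈ Z) (hz' : z' ∉ Z)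
    (hx : x ∈ cb z) (hx' : x ∈ cb z') :
    ∃ w ∈ Z, ∃ i s, x ∈ cb w ∧ x ∈ cb (nb w i s) ∧ nb w i s ∉ Z := by
  -- mixed cubes contain `x`
  have hmix : ∀ w w' : Fin 3 → ℤ, x ∈ cb w → (∀ j, w' j = w j ∨ w' j = z' j) → x ∈ cb w' := by
    intro w w' hw h j
    rcases h j with h | h
    · rw [h]; exact hw j
    · rw [h]; exact hx' j
  -- single step
  have hstep : ∀ (w : Fin 3 → ℤ) (i : Fin 3), w ∈ Z → x ∈ cb w →
      Function.update w i (z' i) ∉ Z →
      ∃ w ∈ Z, ∃ i s, x ∈ cb w ∧ x ∈ cb (nb w i s) ∧ nb w i s ∉ Z := by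
    intro w i hw hxw hw'
    have hxw' : x ∈ cb (Function.update w i (z' i)) := by
      refine hmix w _ hxw fun j => ?_
      by_cases hj : j = i
      · subst hj; right; simp
      · left; simp [hj]
    obtain ⟨s, hs⟩ := nb_of hxw hxw' (i := i) (fun j hj => by simp [hj])
      (fun h => hw' (h ▸ hw))
    exact ⟨w, hw, i, s, hxw, hs ▸ hxw', hs ▸ hw'⟩
  by_cases h0 : Function.update z 0 (z' 0) ∈ Z
  · have hx0 : x ∈ cb (Function.update z 0 (z' 0)) := by
      refine hmix z _ hx fun j => ?_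
      by_cases hj : j = 0
      · subst hj; right; simp
      · left; simp [hj]
    by_cases h1 : Function.update (Function.update z 0 (z' 0)) 1 (z' 1) ∈ Z
    · have hx1 : x ∈ cb (Function.update (Function.update z 0 (z' 0)) 1 (z' 1)) := by
        refine hmix _ _ hx0 fun j => ?_
        by_cases hj : j = 1
        · subst hj; right; simp
        · left; simp [hj]
      refine hstep _ 2 h1 hx1 ?_
      have : Function.update (Function.update (Function.update z 0 (z' 0)) 1 (z' 1)) 2 (z' 2)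
          = z' := by
        funext j
        fin_cases j <;> simp [Function.update]
      rw [this]
      exact hz'
    · exact hstep _ 1 h0 hx0 h1
  · exact hstep _ 0 hz hx h0

/-- **(N6)** -/
theorem front : FrontStmt := by
  classical
  intro N hc hr hs
  set Z := ZN N with hZ
  have hZf : Z.Finite := finite_ZN hc
  have hPf : {q : (Fin 3 → ℤ) × Fin 3 × Bool | q.1 ∈ Z ∧ nb q.1 q.2.1 q.2.2 ∉ Z}.Finite := by
    refine (hZf.prod (Set.finite_univ (α := Fin 3 × Bool))).subset ?_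
    rintro ⟨z, i, s⟩ ⟨h1, _⟩
    exact ⟨h1, mem_univ _⟩
  refine ⟨hPf.toFinset.image fc, ?_, ?_, ?_⟩
  · intro p hp
    obtain ⟨q, -, rfl⟩ := Finset.mem_image.1 hp
    intro j
    simp only [fc]
    split_ifs <;> linarith
  · intro p hp
    obtain ⟨q, -, rfl⟩ := Finset.mem_image.1 hp
    refine ⟨q.2.1, by simp [fc], fun j hj => ?_⟩
    simp only [fc, hj, if_false]
    intro h
    linarith
  · ext x
    simp only [mem_iUnion, exists_prop]
    constructor
    · intro hx
      have hxN : x ∈ N := hc.isClosed.closure_eq ▸ hx.1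
      obtain ⟨z, hz, hxz⟩ := exists_cb hc hr hs hxN
      have h1 : ∃ z', x ∈ cb z' ∧ z' ∉ Z := by
        by_contra hcon
        push Not at hcon
        exact hx.2 (mem_interior_of hc hs hcon)
      obtain ⟨z', hxz', hz'⟩ := h1
      obtain ⟨w, hw, i, s, h2, h3, h4⟩ := exists_step hz hz' hxz hxz'
      exact ⟨fc (w, i, s), Finset.mem_image.2 ⟨(w, i, s), by simpa using ⟨hw, h4⟩, rfl⟩,
        mem_fc.2 ⟨h2, h3⟩⟩
    · rintro ⟨p, hp, hx⟩
      obtain ⟨⟨z, i, s⟩, hq, rfl⟩ := Finset.mem_image.1 hp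
      have hq' : z ∈ Z ∧ nb z i s ∉ Z := by simpa using hq
      obtain ⟨h1, h2⟩ := mem_fc.1 hx
      rw [frontier_eq_closure_inter_closure]
      refine ⟨subset_closure (cb_sub hc hs hq'.1 h1), ?_⟩
      have h3 : ob (nb z i s) ⊆ Nᶜ := fun y hy hyN => hq'.2 ((mem_iff hs hy).1 hyN)
      exact closure_mono h3 (cb_sub_closure _ h2)

end Crest.Agent.R096.Frt_324
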