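import Crest.Agent.R096.Til2_324
import Crest.Agent.R096.GpK3_702
import Crest.Agent.R096.Frt1_324_Mg
import Crest.Agent.R096.Gst1_835
import Crest.Agent.R096.Rs2_161
import Crest.Agent.R096.Gn2_296
import Crest.Agent.R096.Ex0_914

-- ▼ part R096/Til3_324
section

/-!
# R096 (row 96), P2-GEN (X45), part 3 (helper324): `til : RayStmt → TilStmt`
-/

set_option autoImplicit false

open Set Metric Topology

namespace Crest.Agent.R096.Til_324

open Msh_715 Gp_702 Ex_914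

section

variable {F : Finset Af} {S : Set E3} {ι : Type} {T : Tiling (univ : Set E3) ι}

/-- a zero-dimensional cell is an integer point -/
theorem int_of_dim0 (hB : Bxs T) {x : E3} (hd : T.dim x = 0) : ∃ q : Fin 3 → ℤ,
    x = fun j => (q j : ℝ) := by
  obtain ⟨l, h, hl, hcc, hoc⟩ := hB x
  have h1 := dim_eq_card hl hcc hoc
  rw [hd] at h1
  have h2 : IsEmpty {j : Fin 3 // l j ≠ h j} := Fintype.card_eq_zero_iff.1 h1.symm
  refine ⟨l, ?_⟩
  funext j
  have h3 : l j = h j := by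
    by_contra hne
    exact h2.false ⟨j, hne⟩
  have h4 : x ∈ zcl l h := hcc ▸ T.self_mem_cc x
  exact zcl_eq_of_eq h4 h3

/-- on a cell which is met by one plane only, `S` is the plane -/
theorem plane_of (hD : Det F S) (hT : ∀ x ∈ S, Ax_914.TwoSidedAt S x) {x : E3}
    (hne : (T.cc x ∩ S).Nonempty)
    (h : ∀ f ∈ F, ∀ g ∈ F, (∃ y ∈ T.cc x, ev f y = 0) → (∃ y ∈ T.cc x, ev g y = 0) →
      ∃ c : ℝ, c ≠ 0 ∧ g.1 = c • f.1 ∧ g.2 = c * f.2) :
    ∃ f : Af, ∀ y ∈ T.cc x, y ∈ S ↔ f.1 y = -f.2 := by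
  obtain ⟨y0, hy0, hy0S⟩ := hne
  have h1 : ∃ f ∈ F, ev f y0 = 0 := by
    by_contra hcon
    push Not at hcon
    exact rank0 hD hT hcon hy0S
  obtain ⟨f, hf, hf0⟩ := h1
  have key : ∀ g ∈ F, (∃ y ∈ T.cc x, ev g y = 0) → ∃ c : ℝ, c ≠ 0 ∧ ∀ y, ev g y = c * ev f y := by
    intro g hg hy
    obtain ⟨c, hc, h2, h3⟩ := h f hf g hg ⟨y0, hy0, hf0⟩ hy
    refine ⟨c, hc, fun y => ?_⟩
    simp only [ev, h2, h3, ContinuousLinearMap.smul_apply, smul_eq_mul]
    ring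
  refine ⟨f, fun y hy => ?_⟩
  have he : f.1 y = -f.2 ↔ ev f y = 0 := by
    unfold ev
    constructor <;> intro h <;> linarith
  rw [he]
  constructor
  · intro hyS
    by_contra hfy
    refine rank0 hD hT (fun g hg hg0 => ?_) hyS
    obtain ⟨c, hc, h2⟩ := key g hg ⟨y, hy, hg0⟩
    rw [h2] at hg0
    rcases mul_eq_zero.1 hg0 with e | e
    · exact hc e
    · exact hfy e
  · intro hfy
    refine hD y0 y (fun g hg => ?_) hy0S
    by_cases hz : ∃ y ∈ T.cc x, ev g y = 0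
    · obtain ⟨c, hc, h2⟩ := key g hg hz
      rw [h2, h2, hf0, hfy]
    · exact sign_const (T.convex_cc x) hz hy0 hy

end

/-- **(X45)** -/
theorem til (hR : RayStmt) : TilStmt := by
  classical
  intro F M K S hM hF1 hF hD hSc hK hT
  set hfam := fam_fam hM.nd hM.dis with hfamdef
  set T := boxTiling hfam with hTdef
  have hB : Bxs T := bxs hfam
  have hrat : ∀ q : Fin 3 → ℤ, (fun j => (q j : ℝ)) ∉ S := fun q =>
    rank0 hD hT fun f hf => hF f hf q
  have hvert : ∀ x ∈ S, T.dim x ≠ 0 := by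
    intro x hx hd
    obtain ⟨q, rfl⟩ := int_of_dim0 hB hd
    exact hrat q hx
  have hvert' : ∀ x : E3, ∀ v ∈ T.cc x, T.dim v = 0 → v ∉ S := fun x v _ hd hv => hvert v hv hd
  have hcen : ∀ x, (T.cc x ∩ S).Nonempty → ∃ z ∈ T.oc x, z ∈ S ∧
      ∀ y ∈ T.cc x \ T.oc x, ∀ t : ℝ, 0 < t → t ≤ 1 → (z + t • (y - z) ∈ S ↔ y ∈ S) := by
    intro x hx
    have hfin : ∀ z ∈ T.oc x, (∀ f ∈ F, (∃ y ∈ T.cc x, ev f y = 0) → ev f z = 0) →
        ∃ z ∈ T.oc x, z ∈ S ∧
      ∀ y ∈ T.cc x \ T.oc x, ∀ t : ℝ, 0 < t → t ≤ 1 → (z + t • (y - z) ∈ S ↔ y ∈ S) :=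
      fun z hz hzF => ⟨z, hz, zero_mem hD hSc.isClosed (T.convex_cc x) (T.oc_sub_cc x hz) hzF hx,
        fun y hy t ht ht1 => cone_of hD (T.convex_cc x) (T.oc_sub_cc x hz) hzF hy.1 ht ht1⟩
    rcases kinds hM hK hx with h | ⟨-, z, hz, hzF⟩ | ⟨j, z, d, hz, -, -, hzF⟩
    · obtain ⟨f, hf⟩ := plane_of hD hT hx h
      exact Exl2_161.cen_of_plane f.1 (-f.2) hf (hvert' x) hx
    · exact hfin z hz hzF
    · exact hfin z hz fun f hf hy => (hzF f hf hy).1
  have htwo : ∀ x ∈ S, T.dim x = 2 → ((T.cc x \ T.oc x) ∩ S).ncard = 2 := by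
    intro x hxS hd
    have hx : (T.cc x ∩ S).Nonempty := ⟨x, T.self_mem_cc x, hxS⟩
    rcases kinds hM hK hx with h | ⟨hi, -⟩ | ⟨j, z, d, hz, hdj, hj, hzF⟩
    · obtain ⟨f, hf⟩ := plane_of hD hT hx h
      exact Exl2_161.two_of_plane f.1 (-f.2) hf (hvert' x) hx hd
    · exfalso
      have hV : T.V x = ⊤ := (T.V_eq_top_iff (mem_univ x)).2 hi
      have h1 : T.dim x = 3 := by
        show Module.finrank ℝ (T.V x) = 3
        rw [hV]
        simp
      omega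
    · obtain ⟨l, h, hl, hcc, hoc⟩ := hB x
      have hzS : z ∈ S := zero_mem hD hSc.isClosed (T.convex_cc x) (T.oc_sub_cc x hz)
        (fun f hf hy => (hzF f hf hy).1) hx
      have hlj : l j = h j := by
        have h1 : (fun k => (l k : ℝ)) ∈ T.cc x := by
          rw [hcc]; intro k
          have h0 : (l k : ℝ) ≤ h k := by exact_mod_cast hl k
          exact ⟨le_rfl, h0⟩
        have h2 : (fun k => (h k : ℝ)) ∈ T.cc x := by
          rw [hcc]; intro k
          have h0 : (l k : ℝ) ≤ h k := by exact_mod_cast hl k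
          exact ⟨h0, le_rfl⟩
        have h3 : (l j : ℝ) = z j := hj _ h1
        have h4 : (h j : ℝ) = z j := hj _ h2
        exact_mod_cast h3.trans h4.symm
      have hli : ∀ i, i ≠ j → l i < h i := by
        intro i hij
        refine lt_of_le_of_ne (hl i) fun e => ?_
        have h1 := dim_eq_card hl hcc hoc
        rw [hd] at h1
        have h2 : Fintype.card {k : Fin 3 // l k ≠ h k} ≤
            (({i, j} : Finset (Fin 3))ᶜ).card := by
          rw [Fintype.card_subtype]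
          refine Finset.card_le_card fun k hk => ?_
          rw [Finset.mem_filter] at hk
          rw [Finset.mem_compl, Finset.mem_insert, Finset.mem_singleton]
          rintro (rfl | rfl)
          · exact hk.2 e
          · exact hk.2 hlj
        rw [Finset.card_compl, Finset.card_pair hij, Fintype.card_fin] at h2
        omega
      have := hR S F hD hSc.isClosed hT hF l h j hlj hli z d (hoc ▸ hz) hzS hdj
        (fun f hf hy => hzF f hf (by rw [hcc]; exact hy))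
      rw [hcc, hoc]
      exact this
  exact ⟨_, T, hB, Exl1_161.adapted_of hSc hvert hcen htwo hT⟩

end Crest.Agent.R096.Til_324
end

-- ▼ part R096/GpF_702
section

/-!
# R096 (row 96), P2-GEN, assembly (helper702)
-/

set_option autoImplicit false

open Set Metric Topology

namespace Crest.Agent.R096.Gp_702

/-- (NORM) from the last leaf -/
theorem norm_of_th (h7 : ThStmt) : NormStmt :=
  norm_of Gq_451.sidesStmt Gn_296.stepStmt h7 skel Gp1_120.cellStmt Frt_324.front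

/-- (EXIST) from the last leaf -/
theorem exist_of_mac (h3 : Ex_914.MacStmt) : ExistStmt :=
  Ex_914.exist_of Gst_835.genStmt h3 (Til_324.til Rs1_161.rayStmt)

end Crest.Agent.R096.Gp_702
end

-- ▼ part R096/GpU1_702
section

/-!
# R096 (row 96), P2-GEN (N7) (helper702): the boundary of a crossing cell of dimension 1 or 2
-/

set_option autoImplicit false

open Set Metric Topology Filter

namespace Crest.Agent.R096.Gp_702

open Ce_537 Msh_715

section PL

variable {E F : Type*} [NormedAddCommGroup E] [NormedSpace ℝ E]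
  [NormedAddCommGroup F] [NormedSpace ℝ F]

theorem plOn_singleton (f : E → F) (a : E) : PLOn f {a} := by
  refine (plOn_const (f a) {a}).congr ?_
  rintro y rfl
  rfl

theorem plOn_pair (f : E → F) (a b : E) : PLOn f {a, b} := by
  have := (plOn_singleton f a).union (plOn_singleton f b) isClosed_singleton isClosed_singleton
  rwa [singleton_union] at this

open Classical in
/-- two-point sets -/
noncomputable def pairE {a b : E} {c d : F} (hab : a ≠ b) (hcd : c ≠ d) :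
    PLEquiv ({a, b} : Set E) ({c, d} : Set F) where
  f := fun y => if y = a then c else d
  g := fun y => if y = c then a else b
  pf := plOn_pair _ a b
  pg := plOn_pair _ c d
  mf := by
    rintro y (rfl | rfl)
    · simp
    · simp [hab.symm]
  mg := by
    rintro y (rfl | rfl)
    · simp
    · simp [hcd.symm]
  li := by
    rintro y (rfl | rfl)
    · simp
    · simp [hab.symm, hcd.symm]
  ri := by
    rintro y (rfl | rfl)
    · simp
    · simp [hcd.symm, hab.symm]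

theorem pairE_left {a b : E} {c d : F} (hab : a ≠ b) (hcd : c ≠ d) :
    (pairE hab hcd).f a = c := by
  simp [pairE]

theorem pairE_right {a b : E} {c d : F} (hab : a ≠ b) (hcd : c ≠ d) :
    (pairE hab hcd).f b = d := by
  simp [pairE, hab.symm]

end PL

theorem sph_one : sph 1 = {(fun _ => 1 : Fin 1 → ℝ), (fun _ => -1 : Fin 1 → ℝ)} := by
  ext y
  rw [mem_sphere_zero_iff_norm, mem_insert_iff, mem_singleton_iff]
  have h1 : ‖y‖ = |y 0| := by
    refine le_antisymm ?_ (norm_le_pi_norm y 0)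
    rw [pi_norm_le_iff_of_nonneg (abs_nonneg _)]
    intro i
    rw [Subsingleton.elim i 0]
    exact le_rfl
  rw [h1]
  constructor
  · intro h
    rcases abs_eq (by norm_num : (0 : ℝ) ≤ 1) |>.1 h with h | h
    · left
      ext i
      rw [Subsingleton.elim i 0, h]
    · right
      ext i
      rw [Subsingleton.elim i 0, h]
  · rintro (rfl | rfl) <;> simp

theorem Hu_one (hk : 0 < 1) : Hu (k := 1) hk = {(fun _ => 1 : Fin 1 → ℝ)} := by
  ext y
  have : (y ∈ Hu (k := 1) hk) ↔ (y ∈ sph 1 ∧ 0 ≤ y 0) := Iff.rfl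
  rw [this, sph_one]
  constructor
  · rintro ⟨rfl | rfl, h⟩
    · rfl
    · norm_num at h
  · rintro rfl
    exact ⟨Or.inl rfl, by norm_num⟩

theorem Hd_one (hk : 0 < 1) : Hd (k := 1) hk = {(fun _ => -1 : Fin 1 → ℝ)} := by
  ext y
  have : (y ∈ Hd (k := 1) hk) ↔ (y ∈ sph 1 ∧ y 0 ≤ 0) := Iff.rfl
  rw [this, sph_one]
  constructor
  · rintro ⟨rfl | rfl, h⟩
    · norm_num at h
    · rfl
  · rintro rfl
    exact ⟨Or.inr rfl, by norm_num⟩

theorem isClosed_bb {k : ℕ} (l h : Fin k → ℝ) : IsClosed (bb l h) := by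
  have : bb l h = Icc l h ∩ ⋃ j, {y : Fin k → ℝ | y j = l j ∨ y j = h j} := by
    ext y
    simp [bb]
  rw [this]
  refine isClosed_Icc.inter (isClosed_iUnion_of_finite fun j => ?_)
  exact (isClosed_eq (continuous_apply j) continuous_const).union
    (isClosed_eq (continuous_apply j) continuous_const)

section Cells

variable {ι : Type} {T : Tiling (univ : Set E3) ι} {S R0 R1 : Set E3}

theorem S_sub (hR : Sides T S R0 R1) : S ⊆ R0 ∧ S ⊆ R1 := by
  rw [← hR.inter]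
  exact ⟨inter_subset_left, inter_subset_right⟩

/-- the two ends of a crossing 1-cell lie on different sides -/
theorem sides_edge (hA : Adapted T S) (hR : Sides T S R0 R1) {p : E3} (hp : Cr T S p)
    (hd : T.dim p = 1) : ∃ a b : E3, a ≠ b ∧ T.cc p \ T.oc p = {a, b} ∧
      a ∈ R0 ∧ a ∉ R1 ∧ b ∈ R1 ∧ b ∉ R0 := by
  obtain ⟨a, b, hab, hcc, hoc, ha, hb, -, -⟩ := T.edge_eq (mem_univ p) hd
  have hbd : T.cc p \ T.oc p = {a, b} := by
    rw [hcc, hoc]
    ext y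
    constructor
    · rintro ⟨h1, h2⟩
      rw [← insert_endpoints_openSegment] at h1
      rcases h1 with h1 | h1 | h1
      · exact Or.inl h1
      · exact Or.inr h1
      · exact absurd h1 h2
    · rintro (rfl | rfl)
      · refine ⟨left_mem_segment _ _ _, fun h => hab ?_⟩
        exact left_mem_openSegment_iff.1 h
      · refine ⟨right_mem_segment _ _ _, fun h => hab ?_⟩
        exact right_mem_openSegment_iff.1 h
  have haS : a ∉ S := fun h => hA.vert a h ha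
  have hbS : b ∉ S := fun h => hA.vert b h hb
  have hnot : ∀ y, y ∉ S → ¬ (y ∈ R0 ∧ y ∈ R1) := fun y hy h => hy (by rw [← hR.inter]; exact h)
  rcases hR.edge p hd hp a b hcc with ⟨h0, h1⟩ | ⟨h0, h1⟩
  · exact ⟨a, b, hab, hbd, h0, fun h => hnot a haS ⟨h0, h⟩, h1, fun h => hnot b hbS ⟨h, h1⟩⟩
  · refine ⟨b, a, hab.symm, by rw [hbd, pair_comm], h1, fun h => hnot b hbS ⟨h1, h⟩, h0,
      fun h => hnot a haS ⟨h, h0⟩⟩

/-- **dimension 1** -/
theorem th_dim1 (hA : Adapted T S) (hR : Sides T S R0 R1) {x : E3} (hx : Cr T S x)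
    (hd : T.dim x = 1) : ∃ th : PLEquiv (T.cc x \ T.oc x) (sph 1),
      th.f '' (R0 ∩ (T.cc x \ T.oc x)) = Hu (k := 1) one_pos ∧
      th.f '' (R1 ∩ (T.cc x \ T.oc x)) = Hd (k := 1) one_pos := by
  obtain ⟨a, b, hab, hbd, ha0, ha1, hb1, hb0⟩ := sides_edge hA hR hx hd
  have hcd : (fun _ => 1 : Fin 1 → ℝ) ≠ (fun _ => -1 : Fin 1 → ℝ) := by
    intro h
    have := congrFun h 0
    norm_num at this
  have h0 : R0 ∩ {a, b} = {a} := by
    ext y
    constructor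
    · rintro ⟨h1, rfl | rfl⟩
      · rfl
      · exact absurd h1 hb0
    · rintro rfl
      exact ⟨ha0, Or.inl rfl⟩
  have h1 : R1 ∩ {a, b} = {b} := by
    ext y
    constructor
    · rintro ⟨h1, rfl | rfl⟩
      · exact absurd h1 ha1
      · rfl
    · rintro rfl
      exact ⟨hb1, Or.inr rfl⟩
  rw [hbd, sph_one, h0, h1, Hu_one, Hd_one]
  refine ⟨pairE hab hcd, ?_, ?_⟩
  · rw [image_singleton, pairE_left]
  · rw [image_singleton, pairE_right]

/-- both sides occur on the boundary of a cell with a boundary point of `S` in a 1-cell -/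
theorem sides_bd (hA : Adapted T S) (hR : Sides T S R0 R1) {x p : E3} (hp : p ∈ T.cc x \ T.oc x)
    (hpS : p ∈ S) (hd : T.dim p = 1) :
    (∃ a ∈ T.cc x \ T.oc x, a ∈ R0 ∧ a ∉ R1) ∧ (∃ b ∈ T.cc x \ T.oc x, b ∈ R1 ∧ b ∉ R0) := by
  obtain ⟨a, b, -, hbd, ha0, ha1, hb1, hb0⟩ := sides_edge hA hR ⟨p, T.self_mem_cc p, hpS⟩ hd
  have ha : a ∈ T.cc p \ T.oc p := by rw [hbd]; exact Or.inl rfl
  have hb : b ∈ T.cc p \ T.oc p := by rw [hbd]; exact Or.inr rfl
  exact ⟨⟨a, mem_bd_cc hp ha.1, ha0, ha1⟩, ⟨b, mem_bd_cc hp hb.1, hb1, hb0⟩⟩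

/-- transport from the chart -/
theorem th_of_chart {k : ℕ} (hk : 0 < k) {l h : Fin 3 → ℤ} (hl : l ≤ h)
    (e : Fin k ≃ {j : Fin 3 // l j ≠ h j}) {A B : Set E3} (hA : A = zcl l h) (hB : B = zop l h)
    (th' : PLEquiv (bb (lo l h e) (hi l h e)) (sph k))
    (h0 : th'.f '' {y | y ∈ bb (lo l h e) (hi l h e) ∧ emb l h e y ∈ R0} = Hu hk)
    (h1 : th'.f '' {y | y ∈ bb (lo l h e) (hi l h e) ∧ emb l h e y ∈ R1} = Hd hk) :
    ∃ th : PLEquiv (A \ B) (sph k), th.f '' (R0 ∩ (A \ B)) = Hu hk ∧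
      th.f '' (R1 ∩ (A \ B)) = Hd hk := by
  subst hA hB
  have key : ∀ R : Set E3, ((chB e hl).symm.trans th').f '' (R ∩ (zcl l h \ zop l h)) =
      th'.f '' {y | y ∈ bb (lo l h e) (hi l h e) ∧ emb l h e y ∈ R} := by
    intro R
    ext w
    constructor
    · rintro ⟨v, ⟨hv1, hv2⟩, rfl⟩
      refine ⟨prj l h e v, ⟨prj_mem_bb e hl hv2, ?_⟩, rfl⟩
      rw [emb_prj l h e hv2.1]; exact hv1
    · rintro ⟨v, ⟨hv1, hv2⟩, rfl⟩
      refine ⟨emb l h e v, ⟨hv2, (emb_mem_bd e hl).2 hv1⟩, ?_⟩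
      show th'.f (prj l h e (emb l h e v)) = _
      rw [prj_emb]
  exact ⟨(chB e hl).symm.trans th', by rw [key, h0], by rw [key, h1]⟩

/-- **dimension 2** -/
theorem th_dim2 (h3 : Circ2Stmt) (hT : Bxs T) (hA : Adapted T S) (hR : Sides T S R0 R1) {x : E3}
    (hx : Cr T S x) (hd : T.dim x = 2) : ∃ th : PLEquiv (T.cc x \ T.oc x) (sph 2),
      th.f '' (R0 ∩ (T.cc x \ T.oc x)) = Hu (k := 2) two_pos ∧
      th.f '' (R1 ∩ (T.cc x \ T.oc x)) = Hd (k := 2) two_pos := by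
  obtain ⟨l, h, hl, hcc, hoc⟩ := hT x
  obtain ⟨z, hz1, hz2, hz3⟩ := hA.cen x hx
  have hdz : T.dim z = 2 := (T.dim_eq_of_mem_oc (mem_univ x) hz1).trans hd
  have htwo := hA.two z hz2 hdz
  rw [T.cc_eq_of_mem_oc (mem_univ x) hz1, T.oc_eq_of_mem (mem_univ x) hz1] at htwo
  obtain ⟨p, q, hpq, hS⟩ := ncard_eq_two.1 htwo
  have hp : p ∈ (T.cc x \ T.oc x) ∩ S := by rw [hS]; exact Or.inl rfl
  have hq : q ∈ (T.cc x \ T.oc x) ∩ S := by rw [hS]; exact Or.inr rfl
  have hdp : T.dim p = 1 := by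
    have h1 := T.dim_lt hp.1.1 hp.1.2
    have h2 := hA.vert p hp.2
    omega
  obtain ⟨⟨a, ha, ha0, ha1⟩, ⟨b, hb, hb1, hb0⟩⟩ := sides_bd hA hR hp.1 hp.2 hdp
  have hcard := dim_eq_card hl hcc hoc
  rw [hd] at hcard
  let e : Fin 2 ≃ {j : Fin 3 // l j ≠ h j} := (Fintype.equivFinOfCardEq hcard.symm).symm
  have hbd : ∀ {y}, y ∈ T.cc x \ T.oc x ↔ y ∈ zcl l h \ zop l h := by
    intro y; rw [hcc, hoc]
  have hcl : ∀ R : Set E3, IsClosed R → IsClosed {y | y ∈ bb (lo l h e) (hi l h e) ∧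
      emb l h e y ∈ R} := fun R hR =>
    (isClosed_bb _ _).inter (hR.preimage (emb l h e).continuous_of_finiteDimensional)
  have hSu := hR.union
  have hSi := hR.inter
  have hne : ∀ R : Set E3, ∀ a ∈ T.cc x \ T.oc x, a ∈ R → a ∉ S →
      {y | y ∈ bb (lo l h e) (hi l h e) ∧ emb l h e y ∈ R} ≠ {prj l h e p, prj l h e q} := by
    intro R a ha haR haS heq
    have h1 : prj l h e a ∈ {y | y ∈ bb (lo l h e) (hi l h e) ∧ emb l h e y ∈ R} := by
      refine ⟨prj_mem_bb e hl (hbd.1 ha), ?_⟩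
      rw [emb_prj l h e (hbd.1 ha).1]; exact haR
    rw [heq] at h1
    rcases h1 with h1 | h1
    · have h2 := congrArg (emb l h e) h1
      rw [emb_prj l h e (hbd.1 ha).1, emb_prj l h e (hbd.1 hp.1).1] at h2
      exact haS (h2 ▸ hp.2)
    · have h2 := congrArg (emb l h e) h1
      rw [emb_prj l h e (hbd.1 ha).1, emb_prj l h e (hbd.1 hq.1).1] at h2
      exact haS (h2 ▸ hq.2)
  obtain ⟨th', h0, h1⟩ := h3 (lo l h e) (hi l h e)
    (fun j => by have := one_le_hi_sub_lo e hl j; linarith)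
    (prj l h e p) (prj l h e q)
    (fun h4 => hpq (by
      have h5 := congrArg (emb l h e) h4
      rwa [emb_prj l h e (hbd.1 hp.1).1, emb_prj l h e (hbd.1 hq.1).1] at h5))
    {y | y ∈ bb (lo l h e) (hi l h e) ∧ emb l h e y ∈ R0}
    {y | y ∈ bb (lo l h e) (hi l h e) ∧ emb l h e y ∈ R1}
    (hcl R0 hR.cpt.isClosed) (hcl R1 hR.closed1)
    (by
      ext y
      constructor
      · rintro (h | h) <;> exact h.1
      · intro hy
        have h6 : emb l h e y ∈ R0 ∪ R1 := by rw [hSu]; exact mem_univ _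
        rcases h6 with h6 | h6
        · exact Or.inl ⟨hy, h6⟩
        · exact Or.inr ⟨hy, h6⟩)
    (by
      ext y
      constructor
      · rintro ⟨⟨h6, h7⟩, -, h8⟩
        have h9 : emb l h e y ∈ S := by rw [← hSi]; exact ⟨h7, h8⟩
        have h10 : emb l h e y ∈ (T.cc x \ T.oc x) ∩ S := ⟨hbd.2 ((emb_mem_bd e hl).2 h6), h9⟩
        rw [hS] at h10
        rcases h10 with h10 | h10
        · left
          rw [← h10, prj_emb]
        · right
          rw [mem_singleton_iff, ← h10, prj_emb]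
      · have h11 : ∀ r, r ∈ (T.cc x \ T.oc x) ∩ S → prj l h e r ∈
            {y | y ∈ bb (lo l h e) (hi l h e) ∧ emb l h e y ∈ R0} ∩
            {y | y ∈ bb (lo l h e) (hi l h e) ∧ emb l h e y ∈ R1} := by
          intro r hr
          have h12 := prj_mem_bb e hl (hbd.1 hr.1)
          refine ⟨⟨h12, ?_⟩, h12, ?_⟩
          · rw [emb_prj l h e (hbd.1 hr.1).1]; exact (S_sub hR).1 hr.2
          · rw [emb_prj l h e (hbd.1 hr.1).1]; exact (S_sub hR).2 hr.2
        rintro (rfl | rfl)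
        · exact h11 p hp
        · exact h11 q hq)
    (hne R0 a ha ha0 (fun h => ha1 ((S_sub hR).2 h)))
    (hne R1 b hb hb1 (fun h => hb0 ((S_sub hR).1 h)))
  exact th_of_chart two_pos hl e hcc hoc th' h0 h1

end Cells

end Crest.Agent.R096.Gp_702
end

-- ▼ part R096/GpU2_702
section

/-!
# R096 (row 96), P2-GEN (N7) (helper702): the boundary of a crossing cell of dimension 3
-/

set_option autoImplicit false

open Set Metric Topology Filter

namespace Crest.Agent.R096.Gp_702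

open Ce_537 Msh_715

section Cells

variable {ι : Type} {T : Tiling (univ : Set E3) ι} {S R0 R1 : Set E3}

/-- radial exit -/
theorem exists_radial {x z w : E3} (hz : z ∈ T.oc x) (hw : w ∈ T.cc x) (hwz : w ≠ z) :
    ∃ y ∈ T.cc x \ T.oc x, ∃ r : ℝ, 0 < r ∧ r ≤ 1 ∧ w = z + r • (y - z) := by
  have hv : w - z ∈ T.V z := by
    have h1 : w ∈ T.cc z := by rw [T.cc_eq_of_mem_oc (mem_univ x) hz]; exact hw
    exact T.sub_mem_V h1
  obtain ⟨t, ht0, ht1, ht2, ht3⟩ := T.exists_exit (mem_univ z) hv (sub_ne_zero.2 hwz)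
  rw [T.cc_eq_of_mem_oc (mem_univ x) hz] at ht1
  rw [T.oc_eq_of_mem (mem_univ x) hz] at ht2 ht3
  have ht : 1 ≤ t := by
    by_contra hlt
    push Not at hlt
    apply ht2
    have h1 := T.move_mem_oc (x := z) (y := w) (by
      rw [T.cc_eq_of_mem_oc (mem_univ x) hz]; exact hw) (s := 1 - t) (by linarith)
      (by linarith)
    rw [T.oc_eq_of_mem (mem_univ x) hz] at h1
    have h2 : z + t • (w - z) = w + (1 - t) • (z - w) := by module
    rw [h2]; exact h1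
  have hwe : w = z + t⁻¹ • ((z + t • (w - z)) - z) := by
    rw [add_sub_cancel_left, smul_smul, inv_mul_cancel₀ ht0.ne', one_smul]
    abel
  exact ⟨z + t • (w - z), ⟨ht1, ht2⟩, t⁻¹, by positivity, inv_le_one_of_one_le₀ ht, hwe⟩

/-- uniqueness of the radial exit -/
theorem radial_unique {z p q : E3} (hp : p ∈ T.cc z \ T.oc z) (hq : q ∈ T.cc z \ T.oc z) {a b : ℝ}
    (ha : 0 < a) (hb : 0 < b) (h : z + a • (p - z) = z + b • (q - z)) : p = q := by
  have aux : ∀ {p q : E3} {a b : ℝ}, p ∈ T.cc z \ T.oc z → q ∈ T.cc z \ T.oc z → 0 < a → 0 < b →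
      z + a • (p - z) = z + b • (q - z) → a ≤ b → p = q := by
    intro p q a b hp hq ha hb h hab
    rcases hab.eq_or_lt with rfl | hlt
    · have h1 : a • (p - z) = a • (q - z) := add_left_cancel h
      have h2 := smul_right_injective E3 ha.ne' h1
      exact sub_left_injective h2
    · exfalso
      apply hq.2
      have h1 : a • (p - z) = b • (q - z) := add_left_cancel h
      have h2 : q - z = (a / b) • (p - z) := by
        rw [div_eq_inv_mul, mul_smul, h1, smul_smul, inv_mul_cancel₀ hb.ne', one_smul]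
      have h3 : q = p + (1 - a / b) • (z - p) := by
        have : q = z + (a / b) • (p - z) := by rw [← h2]; abel
        rw [this]; module
      rw [h3]
      exact T.move_mem_oc hp.1 (by rw [sub_pos, div_lt_one hb]; exact hlt)
        (by have : 0 < a / b := by positivity
            linarith)
  rcases le_total a b with h1 | h1
  · exact aux hp hq ha hb h h1
  · exact (aux hq hp hb ha h.symm h1).symm

/-- the trace of `S` on a crossing 2-cell is an arc -/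
theorem arc_cell (hA : Adapted T S) {w : E3} (hw : Cr T S w) (hd : T.dim w = 2) :
    ∃ z p q : E3, z ∈ S ∧ T.cc z = T.cc w ∧ T.dim z = 2 ∧ z ∈ T.oc w ∧
      IsBall 1 (T.cc z ∩ S) {p, q} ∧ (T.cc z \ T.oc z) ∩ S = {p, q} := by
  obtain ⟨z, hz1, hz2, hz3⟩ := hA.cen w hw
  have hcc := T.cc_eq_of_mem_oc (mem_univ w) hz1
  have hoc := T.oc_eq_of_mem (mem_univ w) hz1
  have hdz : T.dim z = 2 := (T.dim_eq_of_mem_oc (mem_univ w) hz1).trans hd
  obtain ⟨p, q, hpq, hS⟩ := ncard_eq_two.1 (hA.two z hz2 hdz)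
  rw [← hcc, ← hoc] at hz3
  have hp : p ∈ (T.cc z \ T.oc z) ∩ S := by rw [hS]; exact Or.inl rfl
  have hq : q ∈ (T.cc z \ T.oc z) ∩ S := by rw [hS]; exact Or.inr rfl
  have hzo : z ∈ T.oc z := T.self_mem_oc z
  have hne : ∀ y ∈ T.cc z \ T.oc z, z ≠ y := by
    rintro y hy rfl
    exact hy.2 hzo
  have hseg : ∀ y, y ∈ (T.cc z \ T.oc z) ∩ S → segment ℝ z y ⊆ T.cc z ∩ S := by
    rintro y ⟨hy, hyS⟩ v hv
    rw [segment_eq_image'] at hv
    obtain ⟨t, ⟨ht0, ht1⟩, rfl⟩ := hv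
    refine ⟨(T.convex_cc z).add_smul_sub_mem (T.self_mem_cc z) hy.1 ⟨ht0, ht1⟩, ?_⟩
    rcases ht0.eq_or_lt with rfl | ht
    · simpa using hz2
    · exact (hz3 y hy t ht ht1).2 hyS
  have hunion : T.cc z ∩ S = segment ℝ p z ∪ segment ℝ z q := by
    refine Subset.antisymm ?_ (union_subset ?_ (hseg q hq))
    · rintro v ⟨hv1, hv2⟩
      by_cases hvz : v = z
      · rw [hvz]; exact Or.inr (left_mem_segment _ _ _)
      · obtain ⟨y, hy, r, hr0, hr1, hvr⟩ := exists_radial hzo hv1 hvz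
        have hyS : y ∈ S := (hz3 y hy r hr0 hr1).1 (hvr ▸ hv2)
        have hy' : y ∈ ({p, q} : Set E3) := by rw [← hS]; exact ⟨hy, hyS⟩
        have hvs : v ∈ segment ℝ z y := by
          rw [segment_eq_image']
          exact ⟨r, ⟨hr0.le, hr1⟩, hvr.symm⟩
        rcases hy' with rfl | rfl
        · left; rw [segment_symm]; exact hvs
        · right; exact hvs
    · rw [segment_symm]; exact hseg p hp
  have hinter : segment ℝ p z ∩ segment ℝ z q = {z} := by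
    ext v
    constructor
    · rintro ⟨h1, h2⟩
      rw [segment_symm, segment_eq_image'] at h1
      rw [segment_eq_image'] at h2
      obtain ⟨a, ⟨ha0, -⟩, rfl⟩ := h1
      obtain ⟨b, ⟨hb0, -⟩, hb⟩ := h2
      rcases ha0.eq_or_lt with rfl | ha
      · simp
      · rcases hb0.eq_or_lt with rfl | hb'
        · beta_reduce at hb ⊢
          rw [← hb]; simp
        · exact absurd (radial_unique hp.1 hq.1 ha hb' hb.symm) hpq
    · rintro rfl
      exact ⟨right_mem_segment _ _ _, left_mem_segment _ _ _⟩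
  refine ⟨z, p, q, hz2, hcc, hdz, hz1, ?_, hS⟩
  rw [hunion]
  exact Cb_609.arc_glue (Cb_609.isBall_segment (hne p hp.1).symm)
    (Cb_609.isBall_segment (hne q hq.1)) hinter

/-- 3-dimensional cells are tiles -/
theorem exists_tile {x : E3} (hd : T.dim x = 3) : ∃ i, x ∈ I (T.H i) ∧ T.cc x = P (T.H i) ∧
    T.oc x = I (T.H i) := by
  have h1 : T.V x = ⊤ := by
    apply Submodule.eq_top_of_finrank_eq
    have : Module.finrank ℝ E3 = 3 := by simp
    rw [this]; exact hd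
  obtain ⟨i, hi⟩ := (T.V_eq_top_iff (mem_univ x)).1 h1
  exact ⟨i, hi, T.cc_eq_tile hi, T.oc_eq_tile hi⟩

/-- two faces at a 1-cell of the boundary of a 3-cell -/
theorem two_faces {x p : E3} (hd : T.dim x = 3) (hp : p ∈ T.cc x) (hdp : T.dim p = 1) :
    ∃ x₁ ∈ T.cc x \ T.oc x, ∃ x₂ ∈ T.cc x \ T.oc x, T.dim x₁ = 2 ∧ T.dim x₂ = 2 ∧ p ∈ T.cc x₁ ∧
      p ∈ T.cc x₂ ∧ T.cc x₁ ≠ T.cc x₂ ∧ ∀ y ∈ T.cc x \ T.oc x, T.dim y = 2 → p ∈ T.cc y →
        T.cc y = T.cc x₁ ∨ T.cc y = T.cc x₂ := by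
  obtain ⟨i, hi, hcc, hoc⟩ := exists_tile hd
  have h3 : Module.finrank ℝ E3 = 3 := by simp
  obtain ⟨x₁, -, x₂, -, d1, d2, i1, i2, p1, p2, hne, hall⟩ :=
    Agl3_543.two_cells (T := T) h3 (mem_univ p) hdp (q := i) (by
      show p ∈ P (T.H i)
      rw [← hcc]; exact hp)
  have hmem : ∀ y, i ∈ T.at_ y → T.dim y = 2 → y ∈ T.cc x \ T.oc x := by
    intro y hy hdy
    refine ⟨by rw [hcc]; exact hy, fun h => ?_⟩
    have := T.dim_eq_of_mem_oc (mem_univ x) h
    omega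
  refine ⟨x₁, hmem x₁ i1 d1, x₂, hmem x₂ i2 d2, d1, d2, p1, p2, hne, fun y hy hdy hpy => ?_⟩
  refine hall y (mem_univ y) hdy ?_ hpy
  show y ∈ P (T.H i)
  rw [← hcc]; exact hy.1

/-- a crossing 3-cell has a boundary point on `S` -/
theorem bd_nonempty (hR : Sides T S R0 R1) {x z : E3} (hz : Apex T S x z) (hd : T.dim x = 3)
    (hcon : IsPreconnected (T.cc x \ T.oc x)) : ((T.cc x \ T.oc x) ∩ S).Nonempty := by
  by_contra hne
  rw [not_nonempty_iff_eq_empty] at hne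
  obtain ⟨i, hi, hcc, hoc⟩ := exists_tile hd
  have hopen : IsOpen (T.oc x) := by rw [hoc]; exact isOpen_I _
  have hcov : T.cc x \ T.oc x ⊆ R0 ∪ R1 := by rw [hR.union]; exact subset_univ _
  have hR0 : IsClosed R0 := hR.cpt.isClosed
  have hsplit : (T.cc x \ T.oc x) ⊆ R0 ∨ ∀ y ∈ T.cc x \ T.oc x, y ∉ R0 := by
    by_contra hc
    push Not at hc
    obtain ⟨h1, y, hy, hy0⟩ := hc
    obtain ⟨y', hy', hy1⟩ := not_subset.1 h1
    have hy1' : y' ∈ R1 := (hcov hy').resolve_left hy1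
    obtain ⟨v, hv, hv0, hv1⟩ := (isPreconnected_closed_iff.1 hcon) R0 R1 hR0 hR.closed1 hcov
      ⟨y, hy, hy0⟩ ⟨y', hy', hy1'⟩
    have : v ∈ (T.cc x \ T.oc x) ∩ S := ⟨hv, by rw [← hR.inter]; exact ⟨hv0, hv1⟩⟩
    rw [hne] at this
    exact this
  rcases hsplit with h | h
  · have h1 : T.oc x ⊆ R0 := by
      intro w hw
      by_cases hwz : w = z
      · rw [hwz]; exact (S_sub hR).1 hz.2.1
      · obtain ⟨y, hy, r, hr0, hr1, rfl⟩ := exists_radial hz.1 (T.oc_sub_cc x hw) hwz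
        exact (hR.cone0 x z hz y hy r hr0 hr1).2 (h hy)
    have h2 : z ∈ interior R0 := mem_interior.2 ⟨T.oc x, h1, hopen, hz.1⟩
    have h3 : z ∈ frontier R0 := by rw [hR.front]; exact hz.2.1
    exact h3.2 h2
  · have h1 : ∀ w ∈ T.oc x, w ∈ R0 → w = z := by
      intro w hw hw0
      by_contra hwz
      obtain ⟨y, hy, r, hr0, hr1, rfl⟩ := exists_radial hz.1 (T.oc_sub_cc x hw) hwz
      exact h y hy ((hR.cone0 x z hz y hy r hr0 hr1).1 hw0)
    have h2 : z ∈ closure (interior R0) := by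
      rw [hR.reg]; exact (S_sub hR).1 hz.2.1
    obtain ⟨w, hw1, hw2⟩ := mem_closure_iff.1 h2 (T.oc x) hopen hz.1
    have h3 : T.oc x ∩ interior R0 ⊆ {z} := fun v hv => h1 v hv.1 (interior_subset hv.2)
    have h4 : w ∈ interior ({z} : Set E3) :=
      mem_interior.2 ⟨_, h3, hopen.inter isOpen_interior, ⟨hw1, hw2⟩⟩
    rw [interior_singleton] at h4
    exact h4

/-- **dimension 3** -/
theorem th_dim3 (h3 : CircStmt) (hT : Bxs T) (hA : Adapted T S) (hR : Sides T S R0 R1) {x : E3}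
    (hx : Cr T S x) (hd : T.dim x = 3) : ∃ th : PLEquiv (T.cc x \ T.oc x) (sph 3),
      th.f '' (R0 ∩ (T.cc x \ T.oc x)) = Hu (k := 3) three_pos ∧
      th.f '' (R1 ∩ (T.cc x \ T.oc x)) = Hd (k := 3) three_pos := by
  classical
  obtain ⟨l, h, hl, hcc, hoc⟩ := hT x
  obtain ⟨z, hz1, hz2, hz3⟩ := hA.cen x hx
  have hcard := dim_eq_card hl hcc hoc
  rw [hd] at hcard
  have hlt : ∀ j, l j ≠ h j := by
    have h1 : Fintype.card {j : Fin 3 // l j ≠ h j} = Fintype.card (Fin 3) := by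
      rw [← hcard]; simp
    by_contra hc
    push Not at hc
    obtain ⟨j, hj⟩ := hc
    have := Fintype.card_subtype_lt (p := fun j => l j ≠ h j) (x := j) (by simpa using hj)
    omega
  have hltR : ∀ j, ((l j : ℝ)) < (h j : ℝ) := fun j => by
    exact_mod_cast lt_of_le_of_ne (hl j) (hlt j)
  have hbb : T.cc x \ T.oc x = bb (fun j => (l j : ℝ)) (fun j => (h j : ℝ)) := by
    rw [hcc, hoc]
    ext y
    constructor
    · rintro ⟨h1, h2⟩
      refine ⟨⟨fun j => (h1 j).1, fun j => (h1 j).2⟩, ?_⟩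
      by_contra hc
      push Not at hc
      apply h2
      intro j
      exact Or.inr ⟨lt_of_le_of_ne (h1 j).1 (Ne.symm (hc j).1), lt_of_le_of_ne (h1 j).2 (hc j).2⟩
    · rintro ⟨⟨h1, h2⟩, j, hj⟩
      refine ⟨fun j => ⟨h1 j, h2 j⟩, fun h4 => ?_⟩
      have h5 := zop_lt h4 (hlt j)
      rcases hj with hj | hj
      · rw [hj] at h5; exact absurd h5.1 (lt_irrefl _)
      · rw [hj] at h5; exact absurd h5.2 (lt_irrefl _)
  have hball := Gn_296.isBall_box hltR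
  have hconB : IsPreconnected (T.cc x \ T.oc x) := by
    rw [hbb]
    obtain ⟨e, he⟩ := hball
    rw [← he]
    refine IsPreconnected.image ?_ _ (e.pf.1.mono sph_subset_cube)
    have hr : 1 < Module.rank ℝ (Fin 3 → ℝ) := by
      rw [← Module.finrank_eq_rank]
      simp
    exact (isPreconnected_sphere hr (0 : Fin 3 → ℝ) 1)
  -- the crossing 2-cells
  let FF : Set (Set E3) := {c | ∃ w ∈ T.cc x \ T.oc x, T.dim w = 2 ∧ Cr T S w ∧ c = T.cc w}
  have hFF : FF.Finite := by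
    refine (T.finite_below (mem_univ x)).subset ?_
    rintro c ⟨w, hw, -, -, rfl⟩
    exact ⟨⟨w, mem_univ w, rfl⟩, T.cc_sub_of_mem hw.1⟩
  have : Finite FF := hFF
  have hch : ∀ c : FF, ∃ z p q : E3, z ∈ S ∧ T.cc z = c.1 ∧ T.dim z = 2 ∧
      z ∈ T.cc x \ T.oc x ∧ IsBall 1 (T.cc z ∩ S) {p, q} ∧ (T.cc z \ T.oc z) ∩ S = {p, q} := by
    rintro ⟨c, w, hw, hdw, hCw, rfl⟩
    obtain ⟨z, p, q, h1, h2, h4, h5, h6, h7⟩ := arc_cell hA hCw hdw
    exact ⟨z, p, q, h1, h2, h4, mem_bd_cc hw (T.oc_sub_cc w h5), h6, h7⟩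
  choose zc pc qc hzS hzc hzd hzb hball1 hpq using hch
  -- every point of `S` on the boundary lies in a crossing 2-cell
  have hcover : ∀ y ∈ (T.cc x \ T.oc x) ∩ S, ∃ c : FF, y ∈ c.1 := by
    rintro y ⟨hy, hyS⟩
    have h1 := T.dim_lt hy.1 hy.2
    have h2 := hA.vert y hyS
    have h4 : T.dim y = 1 ∨ T.dim y = 2 := by omega
    rcases h4 with h4 | h4
    · obtain ⟨x₁, hx₁, -, -, d1, -, p1, -⟩ := two_faces hd hy.1 h4
      exact ⟨⟨T.cc x₁, x₁, hx₁, d1, ⟨y, p1, hyS⟩, rfl⟩, p1⟩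
    · exact ⟨⟨T.cc y, y, hy, h4, ⟨y, T.self_mem_cc y, hyS⟩, rfl⟩, T.self_mem_cc y⟩
  have hsubB : ∀ c : FF, ∀ y ∈ c.1, y ∈ T.cc x \ T.oc x := by
    intro c y hy
    rw [← hzc c] at hy
    exact mem_bd_cc (hzb c) hy
  -- different cells
  have hdiff : ∀ c c' : FF, c ≠ c' → ∀ y, y ∈ c.1 → y ∈ c'.1 → y ∈ T.cc (zc c) \ T.oc (zc c) := by
    intro c c' hne y hy hy'
    rw [← hzc c] at hy
    refine ⟨hy, fun hyo => hne ?_⟩
    rw [← hzc c'] at hy'
    have h1 : T.cc y = T.cc (zc c) := T.cc_eq_of_mem_oc (mem_univ _) hyo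
    have h2 : T.dim y = 2 := (T.dim_eq_of_mem_oc (mem_univ _) hyo).trans (hzd c)
    have h4 : y ∈ T.oc (zc c') := by
      by_contra h5
      have := T.dim_lt hy' h5
      rw [hzd c', h2] at this
      exact absurd this (lt_irrefl _)
    have h6 : T.cc y = T.cc (zc c') := T.cc_eq_of_mem_oc (mem_univ _) h4
    apply Subtype.ext
    rw [← hzc c, ← hzc c', ← h1, h6]
  -- uniqueness of the other cell
  have hother : ∀ c : FF, ∀ y ∈ (T.cc (zc c) \ T.oc (zc c)) ∩ S,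
      ∃! c' : FF, c' ≠ c ∧ y ∈ c'.1 ∩ S := by
    rintro c y ⟨hy, hyS⟩
    have hyx := mem_bd_cc (hzb c) hy.1
    have hd1 : T.dim y = 1 := by
      have h1 := T.dim_lt hy.1 hy.2
      have h2 := hA.vert y hyS
      rw [hzd c] at h1
      omega
    obtain ⟨x₁, hx₁, x₂, hx₂, d1, d2, p1, p2, hne, hall⟩ := two_faces hd hyx.1 hd1
    have hfin : ∀ x₁ x₂ : E3, x₁ ∈ T.cc x \ T.oc x → x₂ ∈ T.cc x \ T.oc x → T.dim x₂ = 2 →
        y ∈ T.cc x₂ → T.cc x₁ ≠ T.cc x₂ → (∀ w ∈ T.cc x \ T.oc x, T.dim w = 2 → y ∈ T.cc w →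
        T.cc w = T.cc x₁ ∨ T.cc w = T.cc x₂) → T.cc (zc c) = T.cc x₁ →
        ∃! c' : FF, c' ≠ c ∧ y ∈ c'.1 ∩ S := by
      intro x₁ x₂ hx₁ hx₂ d2 p2 hne hall hc1
      refine ⟨⟨T.cc x₂, x₂, hx₂, d2, ⟨y, p2, hyS⟩, rfl⟩, ⟨fun he => hne ?_, p2, hyS⟩, ?_⟩
      · have h1 : T.cc x₂ = c.1 := congrArg Subtype.val he
        rw [← hc1, hzc c, h1]
      · rintro c' ⟨hc', hyc', -⟩
        apply Subtype.ext
        show c'.1 = T.cc x₂
        rw [← hzc c'] at hyc' ⊢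
        rcases hall (zc c') (hzb c') (hzd c') hyc' with h1 | h1
        · exfalso
          apply hc'
          apply Subtype.ext
          rw [← hzc c, ← hzc c', h1, hc1]
        · exact h1
    rcases hall (zc c) (hzb c) (hzd c) hy.1 with h1 | h1
    · exact hfin x₁ x₂ hx₁ hx₂ d2 p2 hne hall h1
    · exact hfin x₂ x₁ hx₂ hx₁ d1 p1 hne.symm (fun w a b c => (hall w a b c).symm) h1
  -- nonempty
  have hApex : Apex T S x z := ⟨hz1, hz2, hz3⟩
  obtain ⟨y0, hy0⟩ := bd_nonempty hR hApex hd hconB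
  obtain ⟨c0, -⟩ := hcover y0 hy0
  -- enumeration
  let e : FF ≃ Fin (Nat.card FF) := Finite.equivFin FF
  have hn : 0 < Nat.card FF := by
    have : Nonempty FF := ⟨c0⟩
    exact Nat.card_pos
  have hUn : (⋃ i, ((e.symm i).1 ∩ S)) = (T.cc x \ T.oc x) ∩ S := by
    ext y
    simp only [mem_iUnion]
    constructor
    · rintro ⟨i, h1, h2⟩
      exact ⟨hsubB _ y h1, h2⟩
    · intro hy
      obtain ⟨c, hc⟩ := hcover y hy
      exact ⟨e c, by rw [e.symm_apply_apply]; exact ⟨hc, hy.2⟩⟩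
  have hmemp : ∀ c : FF, pc c ∈ (T.cc (zc c) \ T.oc (zc c)) ∩ S := fun c => by
    rw [hpq c]; exact Or.inl rfl
  have hmemq : ∀ c : FF, qc c ∈ (T.cc (zc c) \ T.oc (zc c)) ∩ S := fun c => by
    rw [hpq c]; exact Or.inr rfl
  have htrans : ∀ (i : Fin (Nat.card FF)) (y : E3), (∃! c' : FF, c' ≠ e.symm i ∧ y ∈ c'.1 ∩ S) →
      ∃! j, j ≠ i ∧ y ∈ (e.symm j).1 ∩ S := by
    rintro i y ⟨c', ⟨h1, h2⟩, h4⟩
    refine ⟨e c', ⟨fun h5 => h1 ?_, by rw [e.symm_apply_apply]; exact h2⟩, ?_⟩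
    · rw [← h5, e.symm_apply_apply]
    · rintro j ⟨h5, h6⟩
      have := h4 (e.symm j) ⟨fun h7 => h5 (e.symm.injective h7), h6⟩
      rw [← this, e.apply_symm_apply]
  have hconz := hA.con z hz2 ((T.dim_eq_of_mem_oc (mem_univ x) hz1).trans hd)
  rw [T.cc_eq_of_mem_oc (mem_univ x) hz1, T.oc_eq_of_mem (mem_univ x) hz1] at hconz
  have hbdcl : IsClosed (T.cc x \ T.oc x) := by rw [hbb]; exact isClosed_bb _ _
  -- a point of `S` in a 1-cell
  have hd1 : T.dim (pc c0) = 1 := by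
    have h1 := T.dim_lt (hmemp c0).1.1 (hmemp c0).1.2
    have h2 := hA.vert _ (hmemp c0).2
    rw [hzd c0] at h1
    omega
  obtain ⟨⟨a, ha, ha0, ha1⟩, ⟨b, hb, hb1, hb0⟩⟩ := sides_bd hA hR
    (mem_bd_cc (hzb c0) (hmemp c0).1.1) (hmemp c0).2 hd1
  have main := h3 (fun j => (l j : ℝ)) (fun j => (h j : ℝ)) hltR (Nat.card FF)
    (fun i => (e.symm i).1 ∩ S) (fun i => pc (e.symm i)) (fun i => qc (e.symm i)) hn
    (fun i => by
      have := hball1 (e.symm i)
      rwa [hzc] at this)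
    (fun i y hy => by rw [← hbb]; exact hsubB _ y hy.1)
    (fun i j hij y hy => by
      have hne : e.symm i ≠ e.symm j := fun h1 => hij (e.symm.injective h1)
      constructor
      · have h1 := hdiff _ _ hne y hy.1.1 hy.2.1
        rw [← hpq]
        exact ⟨h1, hy.1.2⟩
      · have h1 := hdiff _ _ hne.symm y hy.2.1 hy.1.1
        rw [← hpq]
        exact ⟨h1, hy.1.2⟩)
    (fun i => htrans i _ (hother _ _ (hmemp _)))
    (fun i => htrans i _ (hother _ _ (hmemq _)))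
    (by
      obtain ⟨P', N', h1, h2, h4⟩ := hconz
      refine ⟨P', N', ?_, h2, h4⟩
      rw [hUn, ← hbb, ← h1]
      ext y
      constructor
      · rintro ⟨h5, h6⟩
        exact ⟨h5, fun h7 => h6 ⟨h5, h7⟩⟩
      · rintro ⟨h5, h6⟩
        exact ⟨h5, fun h7 => h6 h7.2⟩)
    (R0 ∩ (T.cc x \ T.oc x)) (R1 ∩ (T.cc x \ T.oc x)) (hR.cpt.isClosed.inter hbdcl)
    (hR.closed1.inter hbdcl)
    (by
      rw [← union_inter_distrib_right, hR.union, univ_inter, hbb])
    (by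
      rw [hUn, ← hR.inter]
      ext y
      constructor
      · rintro ⟨⟨h1, h2⟩, h4, -⟩
        exact ⟨h2, h1, h4⟩
      · rintro ⟨h1, h2, h4⟩
        exact ⟨⟨h2, h1⟩, h4, h1⟩)
    (fun he => by
      have h1 : a ∈ R0 ∩ (T.cc x \ T.oc x) := ⟨ha0, ha⟩
      rw [he, hUn] at h1
      exact ha1 ((S_sub hR).2 h1.2))
    (fun he => by
      have h1 : b ∈ R1 ∩ (T.cc x \ T.oc x) := ⟨hb1, hb⟩
      rw [he, hUn] at h1
      exact hb0 ((S_sub hR).1 h1.2))
  rw [hbb] at main ⊢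
  exact main

end Cells

/-- **(N7)** -/
theorem th_of (h3 : CircStmt) (h2 : Circ2Stmt) : ThStmt := by
  intro ι T S hT hA R0 R1 hR x hx hk
  have hd : T.dim x ≤ 3 := by
    have := T.dim_le_finrank x
    simpa using this
  have h4 : T.dim x = 1 ∨ T.dim x = 2 ∨ T.dim x = 3 := by omega
  rcases h4 with h4 | h4 | h4
  · have := th_dim1 hA hR hx h4
    revert hk
    rw [h4]
    intro hk
    exact this
  · have := th_dim2 h2 hT hA hR hx h4
    revert hk
    rw [h4]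
    intro hk
    exact this
  · have := th_dim3 h3 hT hA hR hx h4
    revert hk
    rw [h4]
    intro hk
    exact this

end Crest.Agent.R096.Gp_702
end

-- ▼ part R096/Ex1_914
section

/-!
# R096 (row 96), P2-GEN (EXIST), part 1 (helper914): lines, slabs, and the macros of slabs
-/

set_option autoImplicit false

open Set Metric Topology

namespace Crest.Agent.R096.Ex_914

open Msh_715 Gp_702

/-- a line `t ↦ A + t B` -/
abbrev Ln := E3 × E3

/-- point of a line at the height `t` -/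
def pt (u : Ln) (t : ℝ) : E3 := u.1 + t • u.2

/-- `f` vanishes along `u` -/
def Al (f : Af) (u : Ln) : Prop := ∀ s, ev f (pt u s) = 0

theorem Al.dir {f : Af} {u : Ln} (h : Al f u) : f.1 u.2 = 0 := by
  have h1 := h 1
  have h0 := h 0
  simp only [ev, pt, map_add, map_smul, smul_eq_mul] at h1 h0
  linarith

/-- horizontal-slab data -/
structure Slb (F : Finset Af) (L : Finset Ln) (K : ℝ) {σ : Type} (lo hi aw : σ → ℤ) (τ : σ → ℝ)
    (tw : σ → Prop) : Prop where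
  a2 : ∀ u ∈ L, u.1 2 = 0
  b2 : ∀ u ∈ L, u.2 2 = 1
  aw4 : ∀ s, 4 ≤ aw s
  lt1 : ∀ s, (lo s : ℝ) < τ s
  lt2 : ∀ s, τ s < hi s
  sep : ∀ s s', s ≠ s' → hi s ≤ lo s' ∨ hi s' ≤ lo s
  s2 : ∀ s, ∀ u ∈ L, ∀ v ∈ L, pt u (τ s) ≠ pt v (τ s) →
    4 * (aw s : ℝ) < ‖pt u (τ s) - pt v (τ s)‖
  s3 : ∀ s, ∀ u ∈ L, ∀ t : ℝ, lo s ≤ t → t ≤ hi s → ∀ j, j ≠ 2 →
    |pt u t j - pt u (τ s) j| ≤ aw s / 4
  s4 : ∀ s, ∀ f ∈ F, ∀ u ∈ L, ev f (pt u (τ s)) ≠ 0 → ∀ y : E3,
    (∀ j, j ≠ 2 → |y j - pt u (τ s) j| ≤ aw s + 1) → (lo s : ℝ) ≤ y 2 → y 2 ≤ hi s → ev f y ≠ 0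
  adj : ∀ s s', hi s = lo s' → tw s ∨ tw s'
  twm : ∀ s, tw s → ∀ s', aw s ≤ aw s'
  twf : ∀ s, tw s → ∀ f ∈ F, ∀ u ∈ L, ¬ Al f u → ∀ t : ℝ, lo s ≤ t → t ≤ hi s → ∀ y : E3, y 2 = t →
    (∀ j, j ≠ 2 → |y j - pt u t j| ≤ 2 * aw s) → ev f y ≠ 0
  cov : ∀ t : ℝ, |t| ≤ K → (∃ s, lo s < t ∧ t < hi s) ∨ (∃ s s', (hi s : ℝ) = t ∧ (lo s' : ℝ) = t)

/-- the macro of a slab around a line -/
noncomputable def box {σ : Type} (lo hi aw : σ → ℤ) (τ : σ → ℝ) (s : σ) (u : Ln) : Bx :=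
  (fun j => if j = 2 then lo s else ⌊pt u (τ s) j⌋ - aw s,
   fun j => if j = 2 then hi s else ⌊pt u (τ s) j⌋ + aw s)

/-- good macros, without the condition on the unit cubes -/
structure Mac0 (F : Finset Af) (M : Finset Bx) : Prop where
  nd : ∀ b ∈ M, ∀ j, b.1 j < b.2 j
  dis : ∀ b ∈ M, ∀ b' ∈ M, b ≠ b' → ∃ j, b.2 j ≤ b'.1 j ∨ b'.2 j ≤ b.1 j
  big : ∀ b ∈ M, ∃ z : E3, (∀ j, (b.1 j : ℝ) < z j ∧ z j < (b.2 j : ℝ)) ∧
    ∀ f ∈ F, (∃ y ∈ zcl b.1 b.2, ev f y = 0) → ev f z = 0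
  pair : ∀ b ∈ M, ∀ b' ∈ M, b ≠ b' → (zcl b.1 b.2 ∩ zcl b'.1 b'.2).Nonempty →
    ∃ j, ∃ z d : E3, (∀ i, i ≠ j → ((b.1 i : ℝ) < z i ∧ z i < (b.2 i : ℝ)) ∧
        ((b'.1 i : ℝ) < z i ∧ z i < (b'.2 i : ℝ))) ∧
      ((b.2 j = b'.1 j ∧ z j = (b.2 j : ℝ)) ∨ (b'.2 j = b.1 j ∧ z j = (b'.2 j : ℝ))) ∧ d j ≠ 0 ∧
      ∀ f ∈ F, (∃ y ∈ zcl b.1 b.2 ∩ zcl b'.1 b'.2, ev f y = 0) → ev f z = 0 ∧ f.1 d = 0
  triple : ∀ b ∈ M, ∀ b' ∈ M, ∀ b'' ∈ M, b ≠ b' → b' ≠ b'' → b ≠ b'' →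
    zcl b.1 b.2 ∩ zcl b'.1 b'.2 ∩ zcl b''.1 b''.2 = ∅

section

variable {F : Finset Af} {L : Finset Ln} {K : ℝ} {σ : Type} {lo hi aw : σ → ℤ} {τ : σ → ℝ}
  {tw : σ → Prop}

theorem pt_two (H : Slb F L K lo hi aw τ tw) {u : Ln} (hu : u ∈ L) (t : ℝ) : pt u t 2 = t := by
  simp [pt, H.a2 u hu, H.b2 u hu]

theorem Slb.lohi (H : Slb F L K lo hi aw τ tw) (s : σ) : lo s < hi s := by
  have := (H.lt1 s).trans (H.lt2 s)
  exact_mod_cast this

theorem box_fst {s : σ} {u : Ln} {j : Fin 3} (hj : j ≠ 2) :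
    (box lo hi aw τ s u).1 j = ⌊pt u (τ s) j⌋ - aw s := if_neg hj
theorem box_snd {s : σ} {u : Ln} {j : Fin 3} (hj : j ≠ 2) :
    (box lo hi aw τ s u).2 j = ⌊pt u (τ s) j⌋ + aw s := if_neg hj
theorem box_fst2 {s : σ} {u : Ln} : (box lo hi aw τ s u).1 2 = lo s := by simp [box]
theorem box_snd2 {s : σ} {u : Ln} : (box lo hi aw τ s u).2 2 = hi s := by simp [box]

theorem mem_box {s : σ} {u : Ln} {y : E3} :
    y ∈ zcl (box lo hi aw τ s u).1 (box lo hi aw τ s u).2 ↔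
      (∀ j, j ≠ 2 → |y j - ⌊pt u (τ s) j⌋| ≤ aw s) ∧ (lo s : ℝ) ≤ y 2 ∧ y 2 ≤ hi s := by
  constructor
  · intro h
    refine ⟨fun j hj => ?_, ?_, ?_⟩
    · have := h j
      rw [box_fst hj, box_snd hj] at this
      push_cast at this
      rw [abs_le]
      constructor <;> linarith [this.1, this.2]
    · have := (h 2).1
      rwa [box_fst2] at this
    · have := (h 2).2
      rwa [box_snd2] at this
  · rintro ⟨h1, h2, h3⟩ j
    by_cases hj : j = 2
    · subst hj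
      rw [box_fst2, box_snd2]
      exact ⟨h2, h3⟩
    · have := abs_le.1 (h1 j hj)
      rw [box_fst hj, box_snd hj]
      push_cast
      constructor <;> linarith [this.1, this.2]

theorem fl (a : ℝ) : 0 ≤ a - ⌊a⌋ ∧ a - ⌊a⌋ < 1 :=
  ⟨by linarith [Int.floor_le a], by linarith [Int.lt_floor_add_one a]⟩

/-- two lines which are different at the height `τ s` have far apart squares -/
theorem far (H : Slb F L K lo hi aw τ tw) {s : σ} {u v : Ln} (hu : u ∈ L) (hv : v ∈ L)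
    (h : pt u (τ s) ≠ pt v (τ s)) : ∃ j, j ≠ 2 ∧ 4 * (aw s : ℝ) < |pt u (τ s) j - pt v (τ s) j| := by
  by_contra hc
  push Not at hc
  have h1 := H.s2 s u hu v hv h
  have h2 : ‖pt u (τ s) - pt v (τ s)‖ ≤ 4 * (aw s : ℝ) := by
    rw [pi_norm_le_iff_of_nonneg (by have := H.aw4 s; positivity)]
    intro j
    by_cases hj : j = 2
    · subst hj
      have : (pt u (τ s) - pt v (τ s)) 2 = 0 := by
        rw [Pi.sub_apply, pt_two H hu, pt_two H hv, sub_self]
      rw [this, norm_zero]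
      have := H.aw4 s
      positivity
    · exact hc j hj
  linarith

/-- same slab: equal boxes or disjoint boxes -/
theorem same_slab (H : Slb F L K lo hi aw τ tw) {s : σ} {u v : Ln} (hu : u ∈ L) (hv : v ∈ L)
    (h : box lo hi aw τ s u ≠ box lo hi aw τ s v) :
    ∃ j, (box lo hi aw τ s u).2 j < (box lo hi aw τ s v).1 j ∨
      (box lo hi aw τ s v).2 j < (box lo hi aw τ s u).1 j := by
  have hne : pt u (τ s) ≠ pt v (τ s) := by
    intro he
    apply h
    unfold box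
    rw [he]
  obtain ⟨j, hj, h1⟩ := far H hu hv hne
  refine ⟨j, ?_⟩
  rw [box_fst hj, box_fst hj, box_snd hj, box_snd hj]
  have h2 := fl (pt u (τ s) j)
  have h3 := fl (pt v (τ s) j)
  have h4 : (4 : ℝ) ≤ aw s := by exact_mod_cast H.aw4 s
  rcases lt_abs.1 h1 with h5 | h5
  · right
    have : ((⌊pt v (τ s) j⌋ + aw s : ℤ) : ℝ) < ((⌊pt u (τ s) j⌋ - aw s : ℤ) : ℝ) := by
      push_cast; linarith [h2.1, h2.2, h3.1, h3.2]
    exact_mod_cast this
  · left
    have : ((⌊pt u (τ s) j⌋ + aw s : ℤ) : ℝ) < ((⌊pt v (τ s) j⌋ - aw s : ℤ) : ℝ) := by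
      push_cast; linarith [h2.1, h2.2, h3.1, h3.2]
    exact_mod_cast this

/-- the point of the line lies well inside the square of every slab through its height -/
theorem inside (H : Slb F L K lo hi aw τ tw) {s : σ} {u : Ln} (hu : u ∈ L) {t : ℝ}
    (h1 : (lo s : ℝ) ≤ t) (h2 : t ≤ hi s) {j : Fin 3} (hj : j ≠ 2) :
    |pt u t j - ⌊pt u (τ s) j⌋| ≤ aw s / 4 + 1 := by
  have h3 := H.s3 s u hu t h1 h2 j hj
  have h4 := fl (pt u (τ s) j)
  rw [abs_le] at h3 ⊢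
  constructor <;> linarith [h3.1, h3.2, h4.1, h4.2]

/-- the key lemma: a tower box and a box of another slab at a common height -/
theorem key (H : Slb F L K lo hi aw τ tw) {s s' : σ} (hs : tw s) {u v : Ln} (hu : u ∈ L)
    (hv : v ∈ L) {t : ℝ} (h1 : (lo s : ℝ) ≤ t) (h2 : t ≤ hi s) (h1' : (lo s' : ℝ) ≤ t)
    (h2' : t ≤ hi s') {y : E3}
    (hy : ∀ j, j ≠ 2 → |y j - ⌊pt u (τ s) j⌋| ≤ aw s)
    (hy' : ∀ j, j ≠ 2 → |y j - ⌊pt v (τ s') j⌋| ≤ aw s') :
    pt u (τ s') = pt v (τ s') := by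
  by_contra hne
  obtain ⟨j, hj, h5⟩ := far H hu hv hne
  have a1 := hy j hj
  have a2 := hy' j hj
  have a3 := inside H hu h1 h2 hj
  have a4 := H.s3 s' u hu t h1' h2' j hj
  have a5 := fl (pt v (τ s') j)
  have h4 : (4 : ℝ) ≤ aw s := by exact_mod_cast H.aw4 s
  have h6 : (aw s : ℝ) ≤ aw s' := by exact_mod_cast H.twm s hs s'
  rw [abs_le] at a1 a2 a3 a4
  have : |pt u (τ s') j - pt v (τ s') j| ≤ 4 * (aw s' : ℝ) := by
    rw [abs_le]
    constructor <;> linarith [a1.1, a1.2, a2.1, a2.2, a3.1, a3.2, a4.1, a4.2, a5.1, a5.2]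
  linarith

/-- planes through the common square contain the line -/
theorem key2 (H : Slb F L K lo hi aw τ tw) {s : σ} (hs : tw s) {u : Ln} (hu : u ∈ L) {t : ℝ}
    (h1 : (lo s : ℝ) ≤ t) (h2 : t ≤ hi s) {f : Af} (hf : f ∈ F) {y : E3} (hyt : y 2 = t)
    (hy : ∀ j, j ≠ 2 → |y j - ⌊pt u (τ s) j⌋| ≤ aw s) (h0 : ev f y = 0) : Al f u := by
  by_contra hc
  refine H.twf s hs f hf u hu hc t h1 h2 y hyt (fun j hj => ?_) h0
  have a1 := hy j hj
  have a3 := inside H hu h1 h2 hj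
  have h4 : (4 : ℝ) ≤ aw s := by exact_mod_cast H.aw4 s
  rw [abs_le] at a1 a3 ⊢
  constructor <;> linarith [a1.1, a1.2, a3.1, a3.2]

open Classical in
/-- the macros of a slab system -/
noncomputable def macs [Fintype σ] (L : Finset Ln) (lo hi aw : σ → ℤ) (τ : σ → ℝ) : Finset Bx :=
  (Finset.univ ×ˢ L).image fun p => box lo hi aw τ p.1 p.2

theorem mem_macs [Fintype σ] {b : Bx} :
    b ∈ macs L lo hi aw τ ↔ ∃ s, ∃ u ∈ L, box lo hi aw τ s u = b := by
  classical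
  simp only [macs, Finset.mem_image, Finset.mem_product, Finset.mem_univ, true_and, Prod.exists]

/-- two different macros which meet: consecutive slabs, one of them a tower slab -/
theorem meet_cases (H : Slb F L K lo hi aw τ tw) {s s' : σ} {u v : Ln} (hu : u ∈ L) (hv : v ∈ L)
    (hne : box lo hi aw τ s u ≠ box lo hi aw τ s' v) {y : E3}
    (hy : y ∈ zcl (box lo hi aw τ s u).1 (box lo hi aw τ s u).2)
    (hy' : y ∈ zcl (box lo hi aw τ s' v).1 (box lo hi aw τ s' v).2) :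
    s ≠ s' ∧ ((hi s = lo s' ∧ y 2 = hi s) ∨ (hi s' = lo s ∧ y 2 = hi s')) := by
  have hss : s ≠ s' := by
    rintro rfl
    obtain ⟨j, h | h⟩ := same_slab H hu hv hne
    · have h1 := (hy j).2.trans_lt (Int.cast_lt.2 h)
      linarith [(hy' j).1]
    · have h1 := (hy' j).2.trans_lt (Int.cast_lt.2 h)
      linarith [(hy j).1]
  refine ⟨hss, ?_⟩
  rw [mem_box] at hy hy'
  rcases H.sep s s' hss with h | h
  · left
    have h1 : (hi s : ℝ) ≤ lo s' := by exact_mod_cast h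
    have h2 : (hi s : ℝ) = lo s' := by linarith [hy.2.2, hy'.2.1]
    exact ⟨by exact_mod_cast h2, by linarith [hy.2.2, hy'.2.1]⟩
  · right
    have h1 : (hi s' : ℝ) ≤ lo s := by exact_mod_cast h
    have h2 : (hi s' : ℝ) = lo s := by linarith [hy'.2.2, hy.2.1]
    exact ⟨by exact_mod_cast h2, by linarith [hy'.2.2, hy.2.1]⟩

/-- the pair condition, with a tower slab first -/
theorem pair_tower (H : Slb F L K lo hi aw τ tw) {s s' : σ} (hs : tw s) {u v : Ln} (hu : u ∈ L)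
    (hv : v ∈ L) {t : ℝ} (h1 : (lo s : ℝ) ≤ t) (h2 : t ≤ hi s) (h1' : (lo s' : ℝ) ≤ t)
    (h2' : t ≤ hi s')
    (hint : ∀ y ∈ zcl (box lo hi aw τ s u).1 (box lo hi aw τ s u).2 ∩
      zcl (box lo hi aw τ s' v).1 (box lo hi aw τ s' v).2, y 2 = t)
    (hm : (zcl (box lo hi aw τ s u).1 (box lo hi aw τ s u).2 ∩
      zcl (box lo hi aw τ s' v).1 (box lo hi aw τ s' v).2).Nonempty) :
    ∃ z d : E3, z 2 = t ∧ d 2 ≠ 0 ∧ (∀ i, i ≠ 2 →
      (((box lo hi aw τ s u).1 i : ℝ) < z i ∧ z i < ((box lo hi aw τ s u).2 i : ℝ)) ∧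
      (((box lo hi aw τ s' v).1 i : ℝ) < z i ∧ z i < ((box lo hi aw τ s' v).2 i : ℝ))) ∧
      ∀ f ∈ F, (∃ y ∈ zcl (box lo hi aw τ s u).1 (box lo hi aw τ s u).2 ∩
        zcl (box lo hi aw τ s' v).1 (box lo hi aw τ s' v).2, ev f y = 0) →
        ev f z = 0 ∧ f.1 d = 0 := by
  obtain ⟨y, hy, hy'⟩ := hm
  have hk : pt u (τ s') = pt v (τ s') :=
    key H hs hu hv h1 h2 h1' h2' (mem_box.1 hy).1 (mem_box.1 hy').1
  refine ⟨pt u t, u.2, pt_two H hu t, ?_, fun i hi' => ⟨?_, ?_⟩, ?_⟩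
  · rw [H.b2 u hu]; exact one_ne_zero
  · rw [box_fst hi', box_snd hi']
    push_cast
    have a := abs_le.1 (inside H hu h1 h2 hi')
    have h4 : (4 : ℝ) ≤ aw s := by exact_mod_cast H.aw4 s
    constructor <;> linarith [a.1, a.2]
  · rw [box_fst hi', box_snd hi', ← hk]
    push_cast
    have a := abs_le.1 (inside H hu h1' h2' hi')
    have h4 : (4 : ℝ) ≤ aw s' := by exact_mod_cast H.aw4 s'
    constructor <;> linarith [a.1, a.2]
  · rintro f hf ⟨y, hy, h0⟩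
    have := key2 H hs hu h1 h2 hf (hint y hy) (mem_box.1 hy.1).1 h0
    exact ⟨this t, this.dir⟩

theorem mac0_of_slb [Fintype σ] (H : Slb F L K lo hi aw τ tw) : Mac0 F (macs L lo hi aw τ) where
  nd := by
    intro b hb j
    obtain ⟨s, u, hu, rfl⟩ := mem_macs.1 hb
    by_cases hj : j = 2
    · subst hj
      rw [box_fst2, box_snd2]
      exact H.lohi s
    · rw [box_fst hj, box_snd hj]
      have := H.aw4 s
      omega
  dis := by
    intro b hb b' hb' hne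
    obtain ⟨s, u, hu, rfl⟩ := mem_macs.1 hb
    obtain ⟨s', v, hv, rfl⟩ := mem_macs.1 hb'
    by_cases hss : s = s'
    · subst hss
      obtain ⟨j, h | h⟩ := same_slab H hu hv hne
      · exact ⟨j, Or.inl h.le⟩
      · exact ⟨j, Or.inr h.le⟩
    · refine ⟨2, ?_⟩
      rw [box_fst2, box_fst2, box_snd2, box_snd2]
      exact H.sep s s' hss
  big := by
    intro b hb
    obtain ⟨s, u, hu, rfl⟩ := mem_macs.1 hb
    refine ⟨pt u (τ s), fun j => ?_, ?_⟩
    · by_cases hj : j = 2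
      · subst hj
        rw [box_fst2, box_snd2, pt_two H hu]
        exact ⟨H.lt1 s, H.lt2 s⟩
      · rw [box_fst hj, box_snd hj]
        push_cast
        have a := fl (pt u (τ s) j)
        have h4 : (4 : ℝ) ≤ aw s := by exact_mod_cast H.aw4 s
        constructor <;> linarith [a.1, a.2]
    · rintro f hf ⟨y, hy, h0⟩
      by_contra hc
      rw [mem_box] at hy
      refine H.s4 s f hf u hu hc y (fun j hj => ?_) hy.2.1 hy.2.2 h0
      have a1 := abs_le.1 (hy.1 j hj)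
      have a := fl (pt u (τ s) j)
      rw [abs_le]
      constructor <;> linarith [a.1, a.2, a1.1, a1.2]
  pair := by
    intro b hb b' hb' hne hm
    obtain ⟨s, u, hu, rfl⟩ := mem_macs.1 hb
    obtain ⟨s', v, hv, rfl⟩ := mem_macs.1 hb'
    have hlo := (H.lt1 s).trans (H.lt2 s)
    have hlo' := (H.lt1 s').trans (H.lt2 s')
    obtain ⟨y0, hy0, hy0'⟩ := hm
    obtain ⟨hss, h⟩ := meet_cases H hu hv hne hy0 hy0'
    have hint : ∀ y ∈ zcl (box lo hi aw τ s u).1 (box lo hi aw τ s u).2 ∩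
        zcl (box lo hi aw τ s' v).1 (box lo hi aw τ s' v).2, y 2 = y0 2 := by
      rintro y ⟨hy, hy'⟩
      have e1 := (mem_box.1 hy).2
      have e2 := (mem_box.1 hy').2
      rcases h with ⟨h1, h2⟩ | ⟨h1, h2⟩
      · have h1' : (hi s : ℝ) = lo s' := by exact_mod_cast h1
        rw [h2]; linarith [e1.2, e2.1]
      · have h1' : (hi s' : ℝ) = lo s := by exact_mod_cast h1
        rw [h2]; linarith [e2.2, e1.1]
    have e1 := (mem_box.1 hy0).2
    have e2 := (mem_box.1 hy0').2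
    have hadj : tw s ∨ tw s' := by
      rcases h with ⟨h1, -⟩ | ⟨h1, -⟩
      · exact H.adj s s' h1
      · exact (H.adj s' s h1).symm
    refine ⟨2, ?_⟩
    rcases hadj with ht | ht
    · obtain ⟨z, d, hz, hd, hzi, hF⟩ := pair_tower H ht hu hv e1.1 e1.2 e2.1 e2.2 hint ⟨y0, hy0, hy0'⟩
      refine ⟨z, d, fun i hi' => hzi i hi', ?_, hd, hF⟩
      rw [box_fst2, box_fst2, box_snd2, box_snd2, hz]
      rcases h with ⟨h1, h2⟩ | ⟨h1, h2⟩
      · exact Or.inl ⟨h1, h2⟩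
      · exact Or.inr ⟨h1, h2⟩
    · have hc := inter_comm (zcl (box lo hi aw τ s u).1 (box lo hi aw τ s u).2)
        (zcl (box lo hi aw τ s' v).1 (box lo hi aw τ s' v).2)
      obtain ⟨z, d, hz, hd, hzi, hF⟩ := pair_tower H ht hv hu e2.1 e2.2 e1.1 e1.2
        (by rw [← hc]; exact hint) ⟨y0, hy0', hy0⟩
      refine ⟨z, d, fun i hi' => ⟨(hzi i hi').2, (hzi i hi').1⟩, ?_, hd, by rw [hc]; exact hF⟩
      rw [box_fst2, box_fst2, box_snd2, box_snd2, hz]
      rcases h with ⟨h1, h2⟩ | ⟨h1, h2⟩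
      · exact Or.inl ⟨h1, h2⟩
      · exact Or.inr ⟨h1, h2⟩
  triple := by
    intro b hb b' hb' b'' hb'' h12 h23 h13
    obtain ⟨s, u, hu, rfl⟩ := mem_macs.1 hb
    obtain ⟨s', v, hv, rfl⟩ := mem_macs.1 hb'
    obtain ⟨s'', w, hw, rfl⟩ := mem_macs.1 hb''
    rw [eq_empty_iff_forall_notMem]
    rintro y ⟨⟨h1, h2⟩, h3⟩
    have e12 := (meet_cases H hu hv h12 h1 h2).2
    have e23 := (meet_cases H hv hw h23 h2 h3).2
    have e13 := (meet_cases H hu hw h13 h1 h3).2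
    have l1 := H.lohi s
    have l2 := H.lohi s'
    have l3 := H.lohi s''
    rcases e12 with ⟨a1, a2⟩ | ⟨a1, a2⟩ <;> rcases e23 with ⟨b1, b2⟩ | ⟨b1, b2⟩ <;>
      rcases e13 with ⟨c1, c2⟩ | ⟨c1, c2⟩ <;> omega

/-- the lines are covered by the interior of the union of the macros -/
theorem cover [Fintype σ] (H : Slb F L K lo hi aw τ tw) {u : Ln} (hu : u ∈ L) {t : ℝ}
    (ht : |t| ≤ K) : pt u t ∈ interior (⋃ b ∈ macs L lo hi aw τ, zcl b.1 b.2) := by
  rw [mem_interior]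
  rcases H.cov t ht with ⟨s, h1, h2⟩ | ⟨s, s', h1, h2⟩
  · refine ⟨{y | (∀ j, j ≠ 2 → |y j - ⌊pt u (τ s) j⌋| < aw s) ∧ (lo s : ℝ) < y 2 ∧ y 2 < hi s},
      ?_, ?_, ?_, ?_⟩
    · rintro y ⟨hy1, hy2, hy3⟩
      refine mem_iUnion₂.2 ⟨_, mem_macs.2 ⟨s, u, hu, rfl⟩, ?_⟩
      exact mem_box.2 ⟨fun j hj => (hy1 j hj).le, hy2.le, hy3.le⟩
    · simp only [ofPred_and, ofPred_forall]
      refine IsOpen.inter (isOpen_iInter_of_finite fun j => isOpen_iInter_of_finite fun _ => ?_)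
        (IsOpen.inter ?_ ?_)
      · exact isOpen_lt (by fun_prop) continuous_const
      · exact isOpen_lt continuous_const (by fun_prop)
      · exact isOpen_lt (by fun_prop) continuous_const
    · intro j hj
      have a := inside H hu h1.le h2.le hj
      have h4 : (4 : ℝ) ≤ aw s := by exact_mod_cast H.aw4 s
      linarith
    · rw [pt_two H hu]
      exact ⟨h1, h2⟩
  · have l1 : (lo s : ℝ) < hi s := (H.lt1 s).trans (H.lt2 s)
    have l2 : (lo s' : ℝ) < hi s' := (H.lt1 s').trans (H.lt2 s')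
    refine ⟨{y | ((∀ j, j ≠ 2 → |y j - ⌊pt u (τ s) j⌋| < aw s) ∧
      (∀ j, j ≠ 2 → |y j - ⌊pt u (τ s') j⌋| < aw s')) ∧ (lo s : ℝ) < y 2 ∧ y 2 < hi s'},
      ?_, ?_, ?_, ?_⟩
    · rintro y ⟨⟨hy1, hy1'⟩, hy2, hy3⟩
      by_cases hyt : y 2 ≤ t
      · refine mem_iUnion₂.2 ⟨_, mem_macs.2 ⟨s, u, hu, rfl⟩, ?_⟩
        exact mem_box.2 ⟨fun j hj => (hy1 j hj).le, hy2.le, by linarith⟩
      · refine mem_iUnion₂.2 ⟨_, mem_macs.2 ⟨s', u, hu, rfl⟩, ?_⟩
        exact mem_box.2 ⟨fun j hj => (hy1' j hj).le, by linarith, hy3.le⟩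
    · simp only [ofPred_and, ofPred_forall]
      refine IsOpen.inter (IsOpen.inter
        (isOpen_iInter_of_finite fun j => isOpen_iInter_of_finite fun _ => ?_)
        (isOpen_iInter_of_finite fun j => isOpen_iInter_of_finite fun _ => ?_))
        (IsOpen.inter ?_ ?_)
      · exact isOpen_lt (by fun_prop) continuous_const
      · exact isOpen_lt (by fun_prop) continuous_const
      · exact isOpen_lt continuous_const (by fun_prop)
      · exact isOpen_lt (by fun_prop) continuous_const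
    · constructor
      · intro j hj
        have a := inside H hu (s := s) (t := t) (by linarith) (by linarith) hj
        have h4 : (4 : ℝ) ≤ aw s := by exact_mod_cast H.aw4 s
        linarith
      · intro j hj
        have a := inside H hu (s := s') (t := t) (by linarith) (by linarith) hj
        have h4 : (4 : ℝ) ≤ aw s' := by exact_mod_cast H.aw4 s'
        linarith
    · rw [pt_two H hu]
      constructor <;> linarith

end

end Crest.Agent.R096.Ex_914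
end

-- ▼ part R096/Ex2_914
section

/-!
# R096 (row 96), P2-GEN (EXIST), part 2 (helper914): the slab system
-/

set_option autoImplicit false

open Set Metric Topology

namespace Crest.Agent.R096.Ex_914

open Msh_715 Gp_702

open Classical in
/-- scaled lines -/
noncomputable def sclL (N : ℕ) (L : Finset Ln) : Finset Ln := L.image fun u => ((N : ℝ) • u.1, u.2)

theorem mem_sclL {N : ℕ} {L : Finset Ln} {v : Ln} :
    v ∈ sclL N L ↔ ∃ u ∈ L, ((N : ℝ) • u.1, u.2) = v := by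
  classical
  simp [sclL]

theorem mem_scl {N : ℕ} {F : Finset Af} {g : Af} :
    g ∈ scl N F ↔ ∃ f ∈ F, (f.1, (N : ℝ) * f.2) = g := by
  classical
  simp [scl]

theorem pt_scl {N : ℕ} (hN : 0 < N) (u : Ln) (t : ℝ) :
    pt ((N : ℝ) • u.1, u.2) t = (N : ℝ) • pt u (t / N) := by
  have : (N : ℝ) ≠ 0 := by exact_mod_cast hN.ne'
  simp only [pt, smul_add, smul_smul]
  rw [mul_div_cancel₀ _ this]

theorem ev_pt_scl {N : ℕ} (hN : 0 < N) (f : Af) (u : Ln) (t : ℝ) :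
    ev (f.1, (N : ℝ) * f.2) (pt ((N : ℝ) • u.1, u.2) t) = N * ev f (pt u (t / N)) := by
  rw [pt_scl hN, ev_scl]

/-- parameters -/
structure Prm (F : Finset Af) (L : Finset Ln) (Z : Finset ℝ) (K R C ρ : ℝ) (G a a' : ℕ) :
    Prop where
  C1 : 1 ≤ C
  hf : ∀ f ∈ F, ‖f.1‖ ≤ C
  hu : ∀ u ∈ L, ‖u.2‖ ≤ C
  w1 : ∀ z ∈ Z, ∀ u ∈ L, ∀ v ∈ L, pt u z ≠ pt v z → 8 * (a : ℝ) < G * ‖pt u z - pt v z‖
  w2 : ∀ z ∈ Z, ∀ f ∈ F, ∀ u ∈ L, ev f (pt u z) ≠ 0 → 8 * C * (a : ℝ) < G * |ev f (pt u z)|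
  w3 : ∀ z ∈ Z, ∀ z' ∈ Z, z < z' → 8 * (a : ℝ) < G * (z' - z)
  ρ0 : 0 < ρ
  ρa : 16 * C * (ρ * G) ≤ a
  t1 : ∀ t, |t| ≤ R → (∀ z ∈ Z, ρ ≤ |t - z|) → ∀ u ∈ L, ∀ v ∈ L, pt u t ≠ pt v t →
    8 * (a' : ℝ) < G * ‖pt u t - pt v t‖
  t2 : ∀ t, |t| ≤ R → (∀ z ∈ Z, ρ ≤ |t - z|) → ∀ f ∈ F, ∀ u ∈ L, ¬ Al f u →
    8 * C * (a' : ℝ) < G * |ev f (pt u t)|
  a8 : 8 * C ≤ a'
  aa : a' ≤ a
  hR : |K| + 1 ≤ R
  G4 : 4 ≤ G

section

variable {F : Finset Af} {L : Finset Ln} {Z : Finset ℝ} {K R C ρ : ℝ} {G a a' : ℕ}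

theorem norm_sub_le {x y : E3} {r r' : ℝ} (h : ∀ j, j ≠ 2 → |y j - x j| ≤ r) (h2 : |y 2 - x 2| ≤ r')
    (hr : 0 ≤ r) (_hr' : 0 ≤ r') : ‖y - x‖ ≤ max r r' := by
  rw [pi_norm_le_iff_of_nonneg (le_max_of_le_left hr)]
  intro j
  by_cases hj : j = 2
  · subst hj; exact h2.trans (le_max_right _ _)
  · exact (h j hj).trans (le_max_left _ _)

/-- a function does not vanish near a point where it is large -/
theorem ev_ne {f : Af} (hf : ‖f.1‖ ≤ C) {x y : E3} {r : ℝ} (hr : ‖y - x‖ ≤ r) (hC : 0 ≤ C)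
    (h : C * r < |ev f x|) : ev f y ≠ 0 := by
  intro h0
  have h1 : f.1 (y - x) = ev f y - ev f x := by simp only [ev, map_sub]; ring
  have h2 : |f.1 (y - x)| ≤ C * r :=
    (f.1.le_opNorm _).trans (mul_le_mul hf hr (norm_nonneg _) hC)
  rw [h1, h0, zero_sub, abs_neg] at h2
  linarith

/-- vertex slabs -/
noncomputable def vlo (ρ : ℝ) (G : ℕ) (z : ℝ) : ℤ := ⌊(z - ρ) * G⌋
noncomputable def vhi (ρ : ℝ) (G : ℕ) (z : ℝ) : ℤ := ⌈(z + ρ) * G⌉

theorem vlo_le (z : ℝ) : (vlo ρ G z : ℝ) ≤ (z - ρ) * G := Int.floor_le _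
theorem vlo_gt (z : ℝ) : (z - ρ) * G - 1 < vlo ρ G z := by
  have := Int.lt_floor_add_one ((z - ρ) * (G : ℝ)); unfold vlo; linarith
theorem vhi_ge (z : ℝ) : (z + ρ) * G ≤ vhi ρ G z := Int.le_ceil _
theorem vhi_lt (z : ℝ) : (vhi ρ G z : ℝ) < (z + ρ) * G + 1 := Int.ceil_lt_add_one _

/-- tower indices -/
def Tow (Z : Finset ℝ) (ρ : ℝ) (G : ℕ) (B k : ℤ) : Prop :=
  (-B ≤ k ∧ k ≤ B) ∧ ∀ z ∈ Z, vhi ρ G z ≤ k ∨ k + 1 ≤ vlo ρ G z

theorem tow_height (H : Prm F L Z K R C ρ G a a') {B k : ℤ} (hB : (B : ℝ) + 1 ≤ R * G)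
    (hk : Tow Z ρ G B k) {t : ℝ} (h1 : (k : ℝ) ≤ t) (h2 : t ≤ k + 1) :
    |t / G| ≤ R ∧ ∀ z ∈ Z, ρ ≤ |t / G - z| := by
  have hG : (0 : ℝ) < G := by
    have : (4 : ℝ) ≤ G := by exact_mod_cast H.G4
    linarith
  constructor
  · have a1 : (-B : ℝ) ≤ k := by exact_mod_cast hk.1.1
    have a2 : (k : ℝ) ≤ B := by exact_mod_cast hk.1.2
    rw [abs_div, abs_of_pos hG, div_le_iff₀ hG, abs_le]
    constructor <;> linarith
  · intro z hz
    rcases hk.2 z hz with h | h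
    · have h3 : (vhi ρ G z : ℝ) ≤ k := by exact_mod_cast h
      have h4 := vhi_ge (ρ := ρ) (G := G) z
      have h5 : z + ρ ≤ t / G := by rw [le_div_iff₀ hG]; linarith
      exact le_trans (by linarith) (le_abs_self _)
    · have h3 : (k : ℝ) + 1 ≤ vlo ρ G z := by exact_mod_cast h
      have h4 := vlo_le (ρ := ρ) (G := G) z
      have h5 : t / G ≤ z - ρ := by rw [div_le_iff₀ hG]; linarith
      rw [abs_sub_comm]
      exact le_trans (by linarith) (le_abs_self _)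

theorem Prm.pos (H : Prm F L Z K R C ρ G a a') : (0 : ℝ) < G := by
  have : (4 : ℝ) ≤ G := by exact_mod_cast H.G4
  linarith

theorem Prm.a'8 (H : Prm F L Z K R C ρ G a a') : (8 : ℝ) ≤ a' := by
  linarith [H.a8, H.C1]

theorem Prm.aa' (H : Prm F L Z K R C ρ G a a') : (a' : ℝ) ≤ a := by exact_mod_cast H.aa

theorem Prm.ρG (H : Prm F L Z K R C ρ G a a') : ρ * G ≤ a / 16 := by
  have h1 := H.ρa
  have h2 : 0 < ρ * G := mul_pos H.ρ0 H.pos
  nlinarith [H.C1]

theorem Prm.CρG (H : Prm F L Z K R C ρ G a a') : C * (ρ * G) ≤ a / 16 := by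
  linarith [H.ρa]

theorem vv (H : Prm F L Z K R C ρ G a a') {z z' : ℝ} (hz : z ∈ Z) (hz' : z' ∈ Z) (h : z < z') :
    vhi ρ G z < vlo ρ G z' := by
  have h1 := H.w3 z hz z' hz' h
  have h2 := vhi_lt (ρ := ρ) (G := G) z
  have h3 := vlo_gt (ρ := ρ) (G := G) z'
  have h4 := H.ρG
  have h5 := H.a'8
  have h6 := H.aa'
  have : (vhi ρ G z : ℝ) < vlo ρ G z' := by nlinarith
  exact_mod_cast this

/-- displacement along a scaled line -/
theorem disp (H : Prm F L Z K R C ρ G a a') {u : Ln} (hu : u ∈ sclL G L) (t t' : ℝ) (j : Fin 3) :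
    |pt u t j - pt u t' j| ≤ C * |t - t'| := by
  obtain ⟨v, hv, rfl⟩ := mem_sclL.1 hu
  have h1 : pt ((G : ℝ) • v.1, v.2) t j - pt ((G : ℝ) • v.1, v.2) t' j = (t - t') * v.2 j := by
    simp only [pt, Pi.add_apply, Pi.smul_apply, smul_eq_mul]; ring
  rw [h1, abs_mul, mul_comm]
  exact mul_le_mul_of_nonneg_right ((norm_le_pi_norm v.2 j).trans (H.hu v hv)) (abs_nonneg _)

/-- index type -/
def Sg (Z : Finset ℝ) (ρ : ℝ) (G : ℕ) (B : ℤ) : Type :=
  {z : ℝ // z ∈ Z} ⊕ {k : ℤ // Tow Z ρ G B k}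

noncomputable instance (B : ℤ) : Fintype (Sg Z ρ G B) := by
  classical
  haveI : Finite {k : ℤ // Tow Z ρ G B k} := by
    have h1 : {k : ℤ | Tow Z ρ G B k}.Finite := (Set.finite_Icc (-B) B).subset fun k hk => hk.1
    exact h1.to_subtype
  haveI : Finite (Sg Z ρ G B) := inferInstanceAs (Finite ({z : ℝ // z ∈ Z} ⊕ {k : ℤ // Tow Z ρ G B k}))
  exact Fintype.ofFinite _

noncomputable def slo (Z : Finset ℝ) (ρ : ℝ) (G : ℕ) (B : ℤ) : Sg Z ρ G B → ℤ :=
  Sum.elim (fun z => vlo ρ G z.1) (fun k => k.1)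
noncomputable def shi (Z : Finset ℝ) (ρ : ℝ) (G : ℕ) (B : ℤ) : Sg Z ρ G B → ℤ :=
  Sum.elim (fun z => vhi ρ G z.1) (fun k => k.1 + 1)
noncomputable def saw (Z : Finset ℝ) (ρ : ℝ) (G a a' : ℕ) (B : ℤ) : Sg Z ρ G B → ℤ :=
  Sum.elim (fun _ => (a : ℤ)) (fun _ => (a' : ℤ))
noncomputable def sta (Z : Finset ℝ) (ρ : ℝ) (G : ℕ) (B : ℤ) : Sg Z ρ G B → ℝ :=
  Sum.elim (fun z => G * z.1) (fun k => k.1 + 1 / 2)
def stw (Z : Finset ℝ) (ρ : ℝ) (G : ℕ) (B : ℤ) : Sg Z ρ G B → Prop :=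
  Sum.elim (fun _ => False) (fun _ => True)

theorem exists_slab {B k : ℤ} (hk : -B ≤ k ∧ k ≤ B) :
    ∃ s : Sg Z ρ G B, slo Z ρ G B s ≤ k ∧ k + 1 ≤ shi Z ρ G B s := by
  by_cases h : ∀ z ∈ Z, vhi ρ G z ≤ k ∨ k + 1 ≤ vlo ρ G z
  · exact ⟨Sum.inr ⟨k, hk, h⟩, le_refl _, le_refl _⟩
  · push Not at h
    obtain ⟨z, hz, h1, h2⟩ := h
    exact ⟨Sum.inl ⟨z, hz⟩, by show vlo ρ G z ≤ k; omega, by show k + 1 ≤ vhi ρ G z; omega⟩

theorem slb_of_prm (H : Prm F L Z K R C ρ G a a') (a2 : ∀ u ∈ L, u.1 2 = 0)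
    (b2 : ∀ u ∈ L, u.2 2 = 1) {B : ℤ} (hB : (B : ℝ) + 1 ≤ R * G) (hB' : G * K + 2 ≤ B) :
    Slb (scl G F) (sclL G L) (G * K + 1) (slo Z ρ G B) (shi Z ρ G B) (saw Z ρ G a a' B)
      (sta Z ρ G B) (stw Z ρ G B) := by
  have hG := H.pos
  have hGn : 0 < G := by exact_mod_cast hG
  have hC0 : 0 ≤ C := by linarith [H.C1]
  have h8 := H.a'8
  have haa := H.aa'
  have hρG := H.ρG
  have hCρG := H.CρG
  have hρG0 : 0 < ρ * G := mul_pos H.ρ0 hG
  have ha8 : (8 : ℝ) ≤ a := h8.trans haa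
  have hCa' : C ≤ a' / 8 := by linarith [H.a8]
  have hCa : C ≤ a / 8 := by linarith
  have hL2 : ∀ u ∈ sclL G L, ∀ t, pt u t 2 = t := by
    intro u hu t
    obtain ⟨v, hv, rfl⟩ := mem_sclL.1 hu
    simp [pt, a2 v hv, b2 v hv]
  have hlh : ∀ s, (slo Z ρ G B s : ℝ) < sta Z ρ G B s ∧ sta Z ρ G B s < shi Z ρ G B s := by
    rintro (z | k)
    · have h1 := vlo_le (ρ := ρ) (G := G) z.1
      have h2 := vhi_ge (ρ := ρ) (G := G) z.1
      refine ⟨?_, ?_⟩
      · show (vlo ρ G z.1 : ℝ) < G * z.1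
        nlinarith
      · show G * z.1 < (vhi ρ G z.1 : ℝ)
        nlinarith
    · refine ⟨?_, ?_⟩
      · show (k.1 : ℝ) < k.1 + 1 / 2
        linarith
      · show (k.1 : ℝ) + 1 / 2 < ((k.1 + 1 : ℤ) : ℝ)
        push_cast; linarith
  have hsep : ∀ s s', s ≠ s' → shi Z ρ G B s ≤ slo Z ρ G B s' ∨ shi Z ρ G B s' ≤ slo Z ρ G B s := by
    rintro (z | k) (z' | k') hne
    · have hzz : z.1 ≠ z'.1 := fun h => hne (congrArg Sum.inl (Subtype.ext h))
      rcases lt_or_gt_of_ne hzz with h | h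
      · exact Or.inl (vv H z.2 z'.2 h).le
      · exact Or.inr (vv H z'.2 z.2 h).le
    · rcases k'.2.2 z.1 z.2 with h | h
      · exact Or.inl h
      · exact Or.inr h
    · rcases k.2.2 z'.1 z'.2 with h | h
      · exact Or.inr h
      · exact Or.inl h
    · have hkk : k.1 ≠ k'.1 := fun h => hne (congrArg Sum.inr (Subtype.ext h))
      rcases lt_or_gt_of_ne hkk with h | h
      · exact Or.inl h
      · exact Or.inr h
  refine
    { a2 := ?_, b2 := ?_, aw4 := ?_, lt1 := fun s => (hlh s).1, lt2 := fun s => (hlh s).2,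
      sep := hsep, s2 := ?_, s3 := ?_, s4 := ?_, adj := ?_, twm := ?_, twf := ?_, cov := ?_ }
  · intro u hu
    obtain ⟨v, hv, rfl⟩ := mem_sclL.1 hu
    simp [a2 v hv]
  · intro u hu
    obtain ⟨v, hv, rfl⟩ := mem_sclL.1 hu
    exact b2 v hv
  · rintro (z | k)
    · show (4 : ℤ) ≤ a
      have : (4 : ℝ) ≤ a := by linarith
      exact_mod_cast this
    · show (4 : ℤ) ≤ a'
      have : (4 : ℝ) ≤ a' := by linarith
      exact_mod_cast this
  · rintro (z | k) u hu v hv hne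
    · obtain ⟨u', hu', rfl⟩ := mem_sclL.1 hu
      obtain ⟨v', hv', rfl⟩ := mem_sclL.1 hv
      have e : sta Z ρ G B (Sum.inl z) / G = z.1 := by
        show G * z.1 / G = z.1
        field_simp
      rw [pt_scl hGn, pt_scl hGn, e] at hne ⊢
      have h1 := H.w1 z.1 z.2 u' hu' v' hv' (fun h => hne (by rw [h]))
      rw [← smul_sub, norm_smul, Real.norm_of_nonneg hG.le]
      show 4 * ((a : ℤ) : ℝ) < _
      push_cast
      linarith
    · obtain ⟨u', hu', rfl⟩ := mem_sclL.1 hu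
      obtain ⟨v', hv', rfl⟩ := mem_sclL.1 hv
      obtain ⟨e1, e2⟩ := tow_height H hB k.2 (t := sta Z ρ G B (Sum.inr k))
        (hlh (Sum.inr k)).1.le (by have := (hlh (Sum.inr k)).2.le; simpa [shi] using this)
      rw [pt_scl hGn, pt_scl hGn] at hne ⊢
      have h1 := H.t1 _ e1 e2 u' hu' v' hv' (fun h => hne (by rw [h]))
      rw [← smul_sub, norm_smul, Real.norm_of_nonneg hG.le]
      show 4 * ((a' : ℤ) : ℝ) < _
      push_cast
      linarith
  · rintro (z | k) u hu t h1 h2 j hj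
    · have h3 := disp H hu t (sta Z ρ G B (Sum.inl z)) j
      have h4 : |t - sta Z ρ G B (Sum.inl z)| ≤ ρ * G + 1 := by
        have e1 : (vlo ρ G z.1 : ℝ) ≤ t := h1
        have e2 : t ≤ (vhi ρ G z.1 : ℝ) := h2
        have e3 := vlo_gt (ρ := ρ) (G := G) z.1
        have e4 := vhi_lt (ρ := ρ) (G := G) z.1
        show |t - G * z.1| ≤ _
        rw [abs_le]
        constructor <;> nlinarith
      have h5 : C * |t - sta Z ρ G B (Sum.inl z)| ≤ C * (ρ * G + 1) :=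
        mul_le_mul_of_nonneg_left h4 hC0
      show _ ≤ ((a : ℤ) : ℝ) / 4
      push_cast
      nlinarith
    · have h3 := disp H hu t (sta Z ρ G B (Sum.inr k)) j
      have h4 : |t - sta Z ρ G B (Sum.inr k)| ≤ 1 := by
        have e1 : (k.1 : ℝ) ≤ t := h1
        have e2 : t ≤ ((k.1 + 1 : ℤ) : ℝ) := h2
        push_cast at e2
        show |t - (k.1 + 1 / 2)| ≤ _
        rw [abs_le]
        constructor <;> linarith
      have h5 : C * |t - sta Z ρ G B (Sum.inr k)| ≤ C * 1 := mul_le_mul_of_nonneg_left h4 hC0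
      show _ ≤ ((a' : ℤ) : ℝ) / 4
      push_cast
      linarith
  · rintro (z | k) f' hf' u hu hne y hy hy1 hy2
    · obtain ⟨f, hf, rfl⟩ := mem_scl.1 hf'
      have e : sta Z ρ G B (Sum.inl z) / G = z.1 := by
        show G * z.1 / G = z.1
        field_simp
      obtain ⟨v, hv, hvu⟩ := mem_sclL.1 hu
      have h0 : ev (f.1, (G : ℝ) * f.2) (pt u (sta Z ρ G B (Sum.inl z))) = G * ev f (pt v z.1) := by
        rw [← hvu, ev_pt_scl hGn, e]
      rw [h0] at hne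
      have h1 := H.w2 z.1 z.2 f hf v hv (right_ne_zero_of_mul hne)
      have hn : ‖y - pt u (sta Z ρ G B (Sum.inl z))‖ ≤ max ((a : ℝ) + 1) (ρ * G + 1) := by
        refine norm_sub_le (fun j hj => ?_) ?_ (by positivity) (by positivity)
        · have := hy j hj
          simpa [saw] using this
        · rw [hL2 u hu]
          have e1 : (vlo ρ G z.1 : ℝ) ≤ y 2 := hy1
          have e2 : y 2 ≤ (vhi ρ G z.1 : ℝ) := hy2
          have e3 := vlo_gt (ρ := ρ) (G := G) z.1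
          have e4 := vhi_lt (ρ := ρ) (G := G) z.1
          show |y 2 - G * z.1| ≤ _
          rw [abs_le]
          constructor <;> nlinarith
      refine ev_ne (f := (f.1, (G : ℝ) * f.2)) (C := C) (H.hf f hf) (hn.trans (max_le (by linarith) (by linarith :
        ρ * G + 1 ≤ 2 * (a : ℝ)))) hC0 ?_
      rw [h0, abs_mul, abs_of_pos hG]
      nlinarith [mul_nonneg hC0 (by linarith : (0 : ℝ) ≤ a)]
    · obtain ⟨f, hf, rfl⟩ := mem_scl.1 hf'
      obtain ⟨v, hv, hvu⟩ := mem_sclL.1 hu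
      obtain ⟨e1, e2⟩ := tow_height H hB k.2 (t := sta Z ρ G B (Sum.inr k))
        (hlh (Sum.inr k)).1.le (by have := (hlh (Sum.inr k)).2.le; simpa [shi] using this)
      have h0 : ev (f.1, (G : ℝ) * f.2) (pt u (sta Z ρ G B (Sum.inr k))) =
          G * ev f (pt v (sta Z ρ G B (Sum.inr k) / G)) := by
        rw [← hvu, ev_pt_scl hGn]
      rw [h0] at hne
      have h1 := H.t2 _ e1 e2 f hf v hv (fun h => right_ne_zero_of_mul hne (h _))
      have hn : ‖y - pt u (sta Z ρ G B (Sum.inr k))‖ ≤ max ((a' : ℝ) + 1) 1 := by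
        refine norm_sub_le (fun j hj => ?_) ?_ (by positivity) (by positivity)
        · have := hy j hj
          simpa [saw] using this
        · rw [hL2 u hu]
          have e1 : (k.1 : ℝ) ≤ y 2 := hy1
          have e2 : y 2 ≤ ((k.1 + 1 : ℤ) : ℝ) := hy2
          push_cast at e2
          show |y 2 - (k.1 + 1 / 2)| ≤ _
          rw [abs_le]
          constructor <;> linarith
      refine ev_ne (f := (f.1, (G : ℝ) * f.2)) (C := C) (H.hf f hf) (hn.trans (max_le (by linarith) (by linarith :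
        (1 : ℝ) ≤ 2 * (a' : ℝ)))) hC0 ?_
      rw [h0, abs_mul, abs_of_pos hG]
      nlinarith [mul_nonneg hC0 (by linarith : (0 : ℝ) ≤ a')]
  · rintro (z | k) (z' | k') h
    · exfalso
      have h' : vhi ρ G z.1 = vlo ρ G z'.1 := h
      rcases lt_trichotomy z.1 z'.1 with h1 | h1 | h1
      · have := vv H z.2 z'.2 h1
        omega
      · have h2 := hlh (Sum.inl z)
        have h3 : (vlo ρ G z.1 : ℝ) < vhi ρ G z.1 := h2.1.trans h2.2
        have h4 : vlo ρ G z.1 < vhi ρ G z.1 := by exact_mod_cast h3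
        rw [← h1] at h'
        omega
      · have h2 := vv H z'.2 z.2 h1
        have h3 := hlh (Sum.inl z)
        have h4 : (vlo ρ G z.1 : ℝ) < vhi ρ G z.1 := h3.1.trans h3.2
        have h4' : vlo ρ G z.1 < vhi ρ G z.1 := by exact_mod_cast h4
        have h5 := hlh (Sum.inl z')
        have h6 : (vlo ρ G z'.1 : ℝ) < vhi ρ G z'.1 := h5.1.trans h5.2
        have h6' : vlo ρ G z'.1 < vhi ρ G z'.1 := by exact_mod_cast h6
        omega
    · exact Or.inr trivial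
    · exact Or.inl trivial
    · exact Or.inl trivial
  · rintro (z | k) hs (z' | k')
    · exact hs.elim
    · exact hs.elim
    · show (a' : ℤ) ≤ a
      exact_mod_cast H.aa
    · exact le_refl _
  · rintro (z | k) hs f' hf' u hu hne t h1 h2 y hyt hy
    · exact hs.elim
    · obtain ⟨f, hf, rfl⟩ := mem_scl.1 hf'
      obtain ⟨v, hv, hvu⟩ := mem_sclL.1 hu
      have h2' : t ≤ (k.1 : ℝ) + 1 := by
        have : t ≤ ((k.1 + 1 : ℤ) : ℝ) := h2
        simpa using this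
      obtain ⟨e1, e2⟩ := tow_height H hB k.2 (t := t) h1 h2'
      have h0 : ev (f.1, (G : ℝ) * f.2) (pt u t) = G * ev f (pt v (t / G)) := by
        rw [← hvu, ev_pt_scl hGn]
      have hne' : ¬ Al f v := by
        intro hA
        apply hne
        intro s
        rw [← hvu, ev_pt_scl hGn, hA, mul_zero]
      have h1' := H.t2 _ e1 e2 f hf v hv hne'
      have hn : ‖y - pt u t‖ ≤ max (2 * (a' : ℝ)) 0 := by
        refine norm_sub_le (fun j hj => ?_) ?_ (by positivity) le_rfl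
        · have := hy j hj
          simpa [saw] using this
        · rw [hL2 u hu, hyt, sub_self, abs_zero]
      refine ev_ne (f := (f.1, (G : ℝ) * f.2)) (C := C) (H.hf f hf) (hn.trans (max_le le_rfl (by linarith :
        (0 : ℝ) ≤ 2 * (a' : ℝ)))) hC0 ?_
      rw [h0, abs_mul, abs_of_pos hG]
      have : 0 < C * (a' : ℝ) := mul_pos (by linarith [H.C1]) (by linarith)
      nlinarith
  · intro t ht
    rw [abs_le] at ht
    -- the unit intervals below and above `t`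
    have f1 := Int.floor_le t
    have f2 := Int.lt_floor_add_one t
    have c1 := Int.le_ceil t
    have c2 := Int.ceil_lt_add_one t
    have hk2 : -B ≤ ⌊t⌋ ∧ ⌊t⌋ ≤ B := by
      constructor
      · have : (-B : ℝ) ≤ ⌊t⌋ := by linarith [ht.1]
        exact_mod_cast this
      · have : (⌊t⌋ : ℝ) ≤ B := by linarith [ht.2]
        exact_mod_cast this
    have hk1 : -B ≤ ⌈t⌉ - 1 ∧ ⌈t⌉ - 1 ≤ B := by
      constructor
      · have : (-B : ℝ) ≤ (⌈t⌉ - 1 : ℤ) := by push_cast; linarith [ht.1]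
        exact_mod_cast this
      · have : ((⌈t⌉ - 1 : ℤ) : ℝ) ≤ B := by push_cast; linarith [ht.2]
        exact_mod_cast this
    obtain ⟨s1, h11, h12⟩ := exists_slab (Z := Z) (ρ := ρ) (G := G) hk1
    obtain ⟨s2, h21, h22⟩ := exists_slab (Z := Z) (ρ := ρ) (G := G) hk2
    have g11 : (slo Z ρ G B s1 : ℝ) ≤ ⌈t⌉ - 1 := by exact_mod_cast h11
    have g12 : (⌈t⌉ : ℝ) ≤ shi Z ρ G B s1 := by
      have : ⌈t⌉ ≤ shi Z ρ G B s1 := by omega
      exact_mod_cast this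
    have g21 : (slo Z ρ G B s2 : ℝ) ≤ ⌊t⌋ := by exact_mod_cast h21
    have g22 : (⌊t⌋ : ℝ) + 1 ≤ shi Z ρ G B s2 := by exact_mod_cast h22
    by_cases e1 : t < shi Z ρ G B s1
    · exact Or.inl ⟨s1, by linarith, e1⟩
    · by_cases e2 : (slo Z ρ G B s2 : ℝ) < t
      · exact Or.inl ⟨s2, e2, by linarith⟩
      · exact Or.inr ⟨s1, s2, by linarith, by linarith⟩

end

end Crest.Agent.R096.Ex_914
end

-- ▼ part R096/Ex3_914
section

/-!
# R096 (row 96), P2-GEN (EXIST), part 3 (helper914): choice of the parameters, `slabs`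
-/

set_option autoImplicit false

open Set Metric Topology

namespace Crest.Agent.R096.Ex_914

open Msh_715 Gp_702

theorem exists_eps {ι : Type*} (s : Finset ι) (φ : ι → ℝ) :
    ∃ ε > 0, ∀ i ∈ s, 0 < φ i → ε < φ i := by
  classical
  induction s using Finset.induction_on with
  | empty => exact ⟨1, one_pos, by simp⟩
  | insert a s ha ih =>
    obtain ⟨ε, h0, h1⟩ := ih
    by_cases h : 0 < φ a
    · refine ⟨min ε (φ a / 2), by positivity, fun i hi hp => ?_⟩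
      rcases Finset.mem_insert.1 hi with rfl | hi
      · exact (min_le_right _ _).trans_lt (by linarith)
      · exact (min_le_left _ _).trans_lt (h1 i hi hp)
    · refine ⟨ε, h0, fun i hi hp => ?_⟩
      rcases Finset.mem_insert.1 hi with rfl | hi
      · exact absurd hp h
      · exact h1 i hi hp

/-- uniform positivity on a compact set, finitely many functions -/
theorem exists_eps_on {ι : Type*} (s : Finset ι) {J : Set ℝ} (hJ : IsCompact J) (φ : ι → ℝ → ℝ)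
    (hc : ∀ i ∈ s, Continuous (φ i)) (hp : ∀ i ∈ s, ∀ t ∈ J, 0 < φ i t) :
    ∃ ε > 0, ∀ i ∈ s, ∀ t ∈ J, ε < φ i t := by
  rcases J.eq_empty_or_nonempty with rfl | hne
  · exact ⟨1, one_pos, by simp⟩
  have h : ∀ i ∈ s, ∃ m > 0, ∀ t ∈ J, m ≤ φ i t := by
    intro i hi
    obtain ⟨t0, ht0, hmin⟩ := hJ.exists_isMinOn hne (hc i hi).continuousOn
    exact ⟨φ i t0, hp i hi t0 ht0, fun t ht => hmin ht⟩
  choose! m hm0 hm using h
  obtain ⟨ε, h0, h1⟩ := exists_eps s m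
  exact ⟨ε, h0, fun i hi t ht => (h1 i hi (hm0 i hi)).trans_le (hm i hi t ht)⟩

theorem pt_sub (u v : Ln) (t : ℝ) : pt u t - pt v t = (u.1 - v.1) + t • (u.2 - v.2) := by
  simp only [pt, smul_sub]; abel

/-- two different lines meet at most once -/
theorem meet_once {u v : Ln} (h : u ≠ v) : {t : ℝ | pt u t = pt v t}.Finite := by
  apply Set.Subsingleton.finite
  intro t ht s hs
  by_contra hne
  apply h
  have h1 : (u.1 - v.1) + t • (u.2 - v.2) = 0 := by
    rw [← pt_sub]; exact sub_eq_zero.2 ht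
  have h2 : (u.1 - v.1) + s • (u.2 - v.2) = 0 := by
    rw [← pt_sub]; exact sub_eq_zero.2 hs
  have h3 : (t - s) • (u.2 - v.2) = 0 := by
    have : (t - s) • (u.2 - v.2) =
      ((u.1 - v.1) + t • (u.2 - v.2)) - ((u.1 - v.1) + s • (u.2 - v.2)) := by
      rw [sub_smul]; abel
    rw [this, h1, h2, sub_self]
  have h4 : u.2 - v.2 = 0 := by
    rcases smul_eq_zero.1 h3 with h5 | h5
    · exact absurd (sub_eq_zero.1 h5) hne
    · exact h5
  rw [h4, smul_zero, add_zero] at h1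
  exact Prod.ext (sub_eq_zero.1 h1) (sub_eq_zero.1 h4)

theorem ev_pt (f : Af) (u : Ln) (t : ℝ) : ev f (pt u t) = ev f u.1 + t * f.1 u.2 := by
  simp only [ev, pt, map_add, map_smul, smul_eq_mul]; ring

theorem zero_once {f : Af} {u : Ln} (h : ¬ Al f u) : {t : ℝ | ev f (pt u t) = 0}.Finite := by
  apply Set.Subsingleton.finite
  intro t ht s hs
  by_contra hne
  apply h
  have h1 : ev f u.1 + t * f.1 u.2 = 0 := by rw [← ev_pt]; exact ht
  have h2 : ev f u.1 + s * f.1 u.2 = 0 := by rw [← ev_pt]; exact hs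
  have h3 : f.1 u.2 = 0 := by
    have : (t - s) * f.1 u.2 = 0 := by linarith
    rcases mul_eq_zero.1 this with h5 | h5
    · exact absurd (sub_eq_zero.1 h5) hne
    · exact h5
  intro r
  rw [ev_pt, h3, mul_zero, add_zero]
  rw [h3, mul_zero, add_zero] at h1
  exact h1

/-- the bad heights -/
theorem exists_bad (F : Finset Af) (L : Finset Ln) : ∃ Z : Finset ℝ,
    (∀ u ∈ L, ∀ v ∈ L, u ≠ v → ∀ t, pt u t = pt v t → t ∈ Z) ∧
    (∀ f ∈ F, ∀ u ∈ L, ¬ Al f u → ∀ t, ev f (pt u t) = 0 → t ∈ Z) := by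
  classical
  have h1 : (⋃ p ∈ (L ×ˢ L).filter (fun p => p.1 ≠ p.2), {t : ℝ | pt p.1 t = pt p.2 t}).Finite := by
    refine Set.Finite.biUnion (Finset.finite_toSet _) fun p hp => ?_
    exact meet_once (Finset.mem_filter.1 hp).2
  have h2 : (⋃ p ∈ (F ×ˢ L).filter (fun p => ¬ Al p.1 p.2), {t : ℝ | ev p.1 (pt p.2 t) = 0}).Finite := by
    refine Set.Finite.biUnion (Finset.finite_toSet _) fun p hp => ?_
    exact zero_once (Finset.mem_filter.1 hp).2
  refine ⟨(h1.union h2).toFinset, fun u hu v hv hne t ht => ?_, fun f hf u hu hne t ht => ?_⟩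
  · rw [Set.Finite.mem_toFinset]
    left
    exact mem_iUnion₂.2 ⟨(u, v), Finset.mem_filter.2 ⟨Finset.mem_product.2 ⟨hu, hv⟩, hne⟩, ht⟩
  · rw [Set.Finite.mem_toFinset]
    right
    exact mem_iUnion₂.2 ⟨(f, u), Finset.mem_filter.2 ⟨Finset.mem_product.2 ⟨hf, hu⟩, hne⟩, ht⟩

theorem exists_prm (F : Finset Af) (L : Finset Ln) (K : ℝ) :
    ∃ (Z : Finset ℝ) (R C ρ : ℝ) (G a a' : ℕ), Prm F L Z K R C ρ G a a' := by
  classical
  obtain ⟨Z, hZ1, hZ2⟩ := exists_bad F L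
  -- the constant C
  obtain ⟨C, hC1, hCf, hCu⟩ : ∃ C : ℝ, 1 ≤ C ∧ (∀ f ∈ F, ‖f.1‖ ≤ C) ∧ ∀ u ∈ L, ‖u.2‖ ≤ C := by
    refine ⟨1 + ∑ f ∈ F, ‖f.1‖ + ∑ u ∈ L, ‖u.2‖, ?_, ?_, ?_⟩
    · have h1 : 0 ≤ ∑ f ∈ F, ‖f.1‖ := Finset.sum_nonneg fun _ _ => norm_nonneg _
      have h2 : 0 ≤ ∑ u ∈ L, ‖u.2‖ := Finset.sum_nonneg fun _ _ => norm_nonneg _
      linarith
    · intro f hf
      have h1 := Finset.single_le_sum (f := fun f : Af => ‖f.1‖) (fun i _ => norm_nonneg _) hf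
      have h2 : 0 ≤ ∑ u ∈ L, ‖u.2‖ := Finset.sum_nonneg fun _ _ => norm_nonneg _
      linarith
    · intro u hu
      have h1 := Finset.single_le_sum (f := fun u : Ln => ‖u.2‖) (fun i _ => norm_nonneg _) hu
      have h2 : 0 ≤ ∑ f ∈ F, ‖f.1‖ := Finset.sum_nonneg fun _ _ => norm_nonneg _
      linarith
  have hC0 : 0 < C := by linarith
  -- the vertex heights
  obtain ⟨e1, he1, h1⟩ := exists_eps (Z ×ˢ L ×ˢ L) (fun p => ‖pt p.2.1 p.1 - pt p.2.2 p.1‖)
  obtain ⟨e2, he2, h2⟩ := exists_eps (Z ×ˢ F ×ˢ L) (fun p => |ev p.2.1 (pt p.2.2 p.1)|)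
  obtain ⟨e3, he3, h3⟩ := exists_eps (Z ×ˢ Z) (fun p => p.2 - p.1)
  obtain ⟨n1, hn1⟩ := exists_nat_gt (8 * C / min e1 (min e2 e3))
  have hmin : 0 < min e1 (min e2 e3) := lt_min he1 (lt_min he2 he3)
  have hn1p : (0 : ℝ) < n1 := lt_of_le_of_lt (by positivity) hn1
  have hn1' : 8 * C < n1 * min e1 (min e2 e3) := by rwa [div_lt_iff₀ hmin] at hn1
  have k1 : 8 * C < n1 * e1 := hn1'.trans_le (mul_le_mul_of_nonneg_left (min_le_left _ _) hn1p.le)
  have k2 : 8 * C < n1 * e2 := hn1'.trans_le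
    (mul_le_mul_of_nonneg_left ((min_le_right _ _).trans (min_le_left _ _)) hn1p.le)
  have k3 : 8 * C < n1 * e3 := hn1'.trans_le
    (mul_le_mul_of_nonneg_left ((min_le_right _ _).trans (min_le_right _ _)) hn1p.le)
  -- ρ, R and the compact set of heights
  set ρ : ℝ := 1 / (16 * C * n1) with hρ
  have hρ0 : 0 < ρ := by positivity
  set R : ℝ := |K| + 1 with hR
  have hJc : IsCompact {t : ℝ | |t| ≤ R ∧ ∀ z ∈ Z, ρ ≤ |t - z|} := by
    refine (isCompact_Icc (a := -R) (b := R)).of_isClosed_subset ?_ ?_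
    · rw [ofPred_and]
      refine IsClosed.inter (isClosed_le (by fun_prop) continuous_const) ?_
      simp only [ofPred_forall]
      exact isClosed_iInter fun z => isClosed_iInter fun _ =>
        isClosed_le continuous_const (by fun_prop)
    · rintro t ⟨ht, -⟩
      exact abs_le.1 ht
  have hnot : ∀ t, (∀ z ∈ Z, ρ ≤ |t - z|) → t ∉ Z := by
    intro t ht htZ
    have := ht t htZ
    rw [sub_self, abs_zero] at this
    linarith
  obtain ⟨e4, he4, h4⟩ := exists_eps_on ((L ×ˢ L).filter fun p => p.1 ≠ p.2) hJc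
    (fun p t => ‖pt p.1 t - pt p.2 t‖) (fun p _ => by unfold pt; fun_prop) (by
      rintro p hp t ⟨-, ht⟩
      obtain ⟨hp1, hp2⟩ := Finset.mem_filter.1 hp
      obtain ⟨hpa, hpb⟩ := Finset.mem_product.1 hp1
      rw [norm_pos_iff, sub_ne_zero]
      exact fun h => hnot t ht (hZ1 _ hpa _ hpb hp2 t h))
  obtain ⟨e5, he5, h5⟩ := exists_eps_on ((F ×ˢ L).filter fun p => ¬ Al p.1 p.2) hJc
    (fun p t => |ev p.1 (pt p.2 t)|) (fun p _ => by unfold ev pt; fun_prop) (by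
      rintro p hp t ⟨-, ht⟩
      obtain ⟨hp1, hp2⟩ := Finset.mem_filter.1 hp
      obtain ⟨hpa, hpb⟩ := Finset.mem_product.1 hp1
      rw [abs_pos]
      exact fun h => hnot t ht (hZ2 _ hpa _ hpb hp2 t h))
  obtain ⟨n3, hn3⟩ := exists_nat_gt (max (n1 : ℝ) (8 * C / min e4 e5))
  have hmin' : 0 < min e4 e5 := lt_min he4 he5
  have hn3a : (n1 : ℝ) < n3 := (le_max_left _ _).trans_lt hn3
  have hn3p : (0 : ℝ) < n3 := hn1p.trans hn3a
  have hn3' : 8 * C < n3 * min e4 e5 := by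
    have := (le_max_right _ _).trans_lt hn3
    rwa [div_lt_iff₀ hmin'] at this
  have k4 : 8 * C < n3 * e4 := hn3'.trans_le (mul_le_mul_of_nonneg_left (min_le_left _ _) hn3p.le)
  have k5 : 8 * C < n3 * e5 := hn3'.trans_le (mul_le_mul_of_nonneg_left (min_le_right _ _) hn3p.le)
  obtain ⟨n4, hn4⟩ := exists_nat_gt (8 * C)
  have hn4p : (0 : ℝ) < n4 := by linarith
  have n1' : (1 : ℝ) ≤ n1 := by
    have : 0 < n1 := by exact_mod_cast hn1p
    exact_mod_cast this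
  have n3' : (1 : ℝ) ≤ n3 := by linarith
  refine ⟨Z, R, C, ρ, n1 * n3 * n4, n3 * n4, n1 * n4, hC1, hCf, hCu, ?_, ?_, ?_, hρ0, ?_, ?_, ?_,
    ?_, ?_, le_refl _, ?_⟩
  · intro z hz u hu v hv hne
    have h := h1 (z, u, v) (Finset.mem_product.2 ⟨hz, Finset.mem_product.2 ⟨hu, hv⟩⟩)
      (norm_pos_iff.2 (sub_ne_zero.2 hne))
    simp only at h
    push_cast
    have e : (8 : ℝ) ≤ 8 * C := by linarith
    have e' : 8 < n1 * ‖pt u z - pt v z‖ :=
      e.trans_lt (k1.trans_le (mul_le_mul_of_nonneg_left h.le hn1p.le))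
    calc 8 * ((n3 : ℝ) * n4) < (n1 * ‖pt u z - pt v z‖) * (n3 * n4) :=
          mul_lt_mul_of_pos_right e' (mul_pos hn3p hn4p)
      _ = _ := by ring
  · intro z hz f hf u hu hne
    have h := h2 (z, f, u) (Finset.mem_product.2 ⟨hz, Finset.mem_product.2 ⟨hf, hu⟩⟩)
      (abs_pos.2 hne)
    simp only at h
    push_cast
    have e' : 8 * C < n1 * |ev f (pt u z)| := k2.trans_le (mul_le_mul_of_nonneg_left h.le hn1p.le)
    calc 8 * C * ((n3 : ℝ) * n4) < (n1 * |ev f (pt u z)|) * (n3 * n4) :=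
          mul_lt_mul_of_pos_right e' (mul_pos hn3p hn4p)
      _ = _ := by ring
  · intro z hz z' hz' hlt
    have h := h3 (z, z') (Finset.mem_product.2 ⟨hz, hz'⟩) (sub_pos.2 hlt)
    simp only at h
    push_cast
    have e : (8 : ℝ) ≤ 8 * C := by linarith
    have e' : 8 < n1 * (z' - z) := e.trans_lt (k3.trans_le (mul_le_mul_of_nonneg_left h.le hn1p.le))
    calc 8 * ((n3 : ℝ) * n4) < (n1 * (z' - z)) * (n3 * n4) :=
          mul_lt_mul_of_pos_right e' (mul_pos hn3p hn4p)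
      _ = _ := by ring
  · push_cast
    rw [hρ]
    apply le_of_eq
    field_simp
  · intro t ht hz u hu v hv hne
    have huv : u ≠ v := fun h => hne (by rw [h])
    have h := h4 (u, v) (Finset.mem_filter.2 ⟨Finset.mem_product.2 ⟨hu, hv⟩, huv⟩) t ⟨ht, hz⟩
    simp only at h
    push_cast
    have e : (8 : ℝ) ≤ 8 * C := by linarith
    have e' : 8 < n3 * ‖pt u t - pt v t‖ :=
      e.trans_lt (k4.trans_le (mul_le_mul_of_nonneg_left h.le hn3p.le))
    calc 8 * ((n1 : ℝ) * n4) < (n3 * ‖pt u t - pt v t‖) * (n1 * n4) :=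
          mul_lt_mul_of_pos_right e' (mul_pos hn1p hn4p)
      _ = _ := by ring
  · intro t ht hz f hf u hu hne
    have h := h5 (f, u) (Finset.mem_filter.2 ⟨Finset.mem_product.2 ⟨hf, hu⟩, hne⟩) t ⟨ht, hz⟩
    simp only at h
    push_cast
    have e' : 8 * C < n3 * |ev f (pt u t)| := k5.trans_le (mul_le_mul_of_nonneg_left h.le hn3p.le)
    calc 8 * C * ((n1 : ℝ) * n4) < (n3 * |ev f (pt u t)|) * (n1 * n4) :=
          mul_lt_mul_of_pos_right e' (mul_pos hn1p hn4p)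
      _ = _ := by ring
  · push_cast
    nlinarith
  · have : n1 < n3 := by exact_mod_cast hn3a
    exact Nat.mul_le_mul_right _ this.le
  · have h8 : (8 : ℝ) < n4 := by linarith
    have h9 : 8 < n4 := by exact_mod_cast h8
    have h10 : 1 ≤ n1 := by exact_mod_cast n1'
    have h11 : 1 ≤ n3 := by exact_mod_cast n3'
    calc 4 ≤ 1 * 1 * n4 := by omega
      _ ≤ n1 * n3 * n4 := Nat.mul_le_mul_right _ (Nat.mul_le_mul h10 h11)

/-- **(L2)** -/
theorem slabs (F : Finset Af) (L : Finset Ln) (a2 : ∀ u ∈ L, u.1 2 = 0) (b2 : ∀ u ∈ L, u.2 2 = 1)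
    (K : ℝ) : ∃ G : ℕ, 0 < G ∧ ∃ (σ : Type) (_ : Fintype σ) (lo hi aw : σ → ℤ) (τ : σ → ℝ)
      (tw : σ → Prop), Slb (scl G F) (sclL G L) (G * K + 1) lo hi aw τ tw := by
  obtain ⟨Z, R, C, ρ, G, a, a', H⟩ := exists_prm F L K
  have hG := H.pos
  have hGn : 0 < G := by exact_mod_cast hG
  have h4 : (4 : ℝ) ≤ G := by exact_mod_cast H.G4
  set B : ℤ := ⌈(G : ℝ) * K⌉ + 2 with hBdef
  have c1 := Int.le_ceil ((G : ℝ) * K)
  have c2 := Int.ceil_lt_add_one ((G : ℝ) * K)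
  have hB : (B : ℝ) + 1 ≤ R * G := by
    rw [hBdef]
    push_cast
    have h5 : K ≤ |K| := le_abs_self K
    have h6 := H.hR
    have h7 : (K + 1) * G ≤ R * G := mul_le_mul_of_nonneg_right (by linarith) hG.le
    nlinarith
  have hB' : G * K + 2 ≤ B := by
    rw [hBdef]
    push_cast
    linarith
  exact ⟨G, hGn, Sg Z ρ G B, inferInstance, _, _, _, _, _, slb_of_prm H a2 b2 hB hB'⟩

end Crest.Agent.R096.Ex_914
end

-- ▼ part R096/Ex3_702
section

/-!
# R096 (row 96), P2-GEN (EXIST), piece L3 of (X3) (helper702): small unit cubes meet one plane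
-/

set_option autoImplicit false

open Set Metric Topology

namespace Crest.Agent.R096.Ex3_702

open Msh_715 Gp_702 Ex_914

/-- scaled box -/
def sb (m : ℕ) (b : Bx) : Bx := (fun j => (m : ℤ) * b.1 j, fun j => (m : ℤ) * b.2 j)

theorem mem_sb {m : ℕ} (hm : 0 < m) {b : Bx} {y : E3} :
    y ∈ zcl (sb m b).1 (sb m b).2 ↔ (m : ℝ)⁻¹ • y ∈ zcl b.1 b.2 := by
  have hm' : (0 : ℝ) < m := by exact_mod_cast hm
  have key : ∀ j, (((((sb m b).1 j : ℤ) : ℝ) ≤ y j ∧ y j ≤ (((sb m b).2 j : ℤ) : ℝ)) ↔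
      ((b.1 j : ℝ) ≤ ((m : ℝ)⁻¹ • y) j ∧ ((m : ℝ)⁻¹ • y) j ≤ (b.2 j : ℝ))) := by
    intro j
    have e1 : (((sb m b).1 j : ℤ) : ℝ) = m * (b.1 j : ℝ) := by
      simp only [sb, Int.cast_mul, Int.cast_natCast]
    have e2 : (((sb m b).2 j : ℤ) : ℝ) = m * (b.2 j : ℝ) := by
      simp only [sb, Int.cast_mul, Int.cast_natCast]
    have e3 : ((m : ℝ)⁻¹ • y) j = y j / m := by
      show (m : ℝ)⁻¹ * y j = _
      rw [inv_mul_eq_div]
    rw [e1, e2, e3, le_div_iff₀' hm', div_le_iff₀' hm']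
  exact forall_congr' key

theorem ev_scl' {m : ℕ} (hm : 0 < m) (f : Af) (y : E3) :
    ev (f.1, (m : ℝ) * f.2) y = m * ev f ((m : ℝ)⁻¹ • y) := by
  have hm' : (m : ℝ) ≠ 0 := by exact_mod_cast hm.ne'
  rw [← ev_scl, smul_smul, mul_inv_cancel₀ hm', one_smul]

theorem ev_scl_zero {m : ℕ} (hm : 0 < m) (f : Af) (y : E3) :
    ev (f.1, (m : ℝ) * f.2) y = 0 ↔ ev f ((m : ℝ)⁻¹ • y) = 0 := by
  have hm' : (m : ℝ) ≠ 0 := by exact_mod_cast hm.ne'
  rw [ev_scl' hm, mul_eq_zero, or_iff_right hm']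

theorem continuous_ev (f : Af) : Continuous (ev f) := by
  unfold ev
  fun_prop

/-- Lebesgue number: near every point of the big cube outside the macros all functions which
vanish are proportional -/
theorem lebesgue {F : Finset Af} {U : Set E3} {K : ℝ} (hU : IsOpen U)
    (hc : ∀ f ∈ F, ∀ g ∈ F, ∀ x : E3, ev f x = 0 → ev g x = 0 →
      (∃ c : ℝ, c ≠ 0 ∧ g.1 = c • f.1 ∧ g.2 = c * f.2) ∨ (|x 2| ≤ K → x ∈ U)) :
    ∃ δ > 0, ∀ y : E3, (∀ j, |y j| ≤ K) → y ∉ U → ∀ f ∈ F, ∀ g ∈ F,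
      (∃ w ∈ ball y δ, ev f w = 0) → (∃ w ∈ ball y δ, ev g w = 0) →
      ∃ c : ℝ, c ≠ 0 ∧ g.1 = c • f.1 ∧ g.2 = c * f.2 := by
  set C : Set E3 := {y | ∀ j, |y j| ≤ K} \ U with hC
  have hCc : IsCompact C := by
    have h1 : IsCompact (Icc (fun _ => -K : E3) (fun _ => K)) := isCompact_Icc
    refine h1.of_isClosed_subset ?_ ?_
    · refine IsClosed.sdiff ?_ hU
      have : {y : E3 | ∀ j, |y j| ≤ K} = ⋂ j, {y : E3 | |y j| ≤ K} := by
        ext y; simp
      rw [this]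
      exact isClosed_iInter fun j => isClosed_le (by fun_prop) continuous_const
    · rintro y ⟨hy, -⟩
      exact ⟨fun j => (abs_le.1 (hy j)).1, fun j => (abs_le.1 (hy j)).2⟩
  have hloc : ∀ x : E3, ∃ V : Set E3, IsOpen V ∧ x ∈ V ∧
      ∀ f ∈ F, ev f x ≠ 0 → ∀ w ∈ V, ev f w ≠ 0 := by
    intro x
    have h1 : ∀ᶠ w in 𝓝 x, ∀ f ∈ F, ev f x ≠ 0 → ev f w ≠ 0 := by
      rw [Filter.eventually_all_finset]
      intro f _
      by_cases h : ev f x = 0
      · exact Filter.Eventually.of_forall fun w h' => absurd h h'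
      · exact ((continuous_ev f).continuousAt.eventually_ne h).mono fun w hw _ => hw
    obtain ⟨V, hV1, hV2, hV3⟩ := _root_.mem_nhds_iff.1 h1
    exact ⟨V, hV2, hV3, fun f hf hfx w hw => hV1 hw f hf hfx⟩
  choose V hVo hVx hV using hloc
  obtain ⟨δ', hδ', hL'⟩ := lebesgue_number_lemma_of_metric (s := C)
    (c := fun x : C => V x) hCc (fun x => hVo x) (fun x hx => mem_iUnion.2 ⟨⟨x, hx⟩, hVx x⟩)
  refine ⟨δ', hδ', ?_⟩
  rintro y hy hyU f hf g hg ⟨w, hw, hfw⟩ ⟨w', hw', hgw⟩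
  obtain ⟨⟨x, hxC⟩, hx⟩ := hL' y ⟨hy, hyU⟩
  have h1 : ev f x = 0 := by
    by_contra h
    exact hV x f hf h w (hx hw) hfw
  have h2 : ev g x = 0 := by
    by_contra h
    exact hV x g hg h w' (hx hw') hgw
  rcases hc f hf g hg x h1 h2 with h | h
  · exact h
  · exact absurd (h (hxC.1 2)) hxC.2

/-- **(L3)** -/
theorem small_of {F : Finset Af} {M : Finset Bx} {K : ℝ} (h0 : Mac0 F M)
    (_hne : ∀ f ∈ F, f.1 ≠ 0)
    (hc : ∀ f ∈ F, ∀ g ∈ F, ∀ x : E3, ev f x = 0 → ev g x = 0 →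
      (∃ c : ℝ, c ≠ 0 ∧ g.1 = c • f.1 ∧ g.2 = c * f.2) ∨
        (|x 2| ≤ K + 1 → x ∈ interior (⋃ b ∈ M, zcl b.1 b.2))) :
    ∃ m : ℕ, 0 < m ∧ Mac (scl m F)
      (by classical exact M.image fun b => (fun j => (m : ℤ) * b.1 j, fun j => (m : ℤ) * b.2 j))
      (m * K) := by
  classical
  obtain ⟨δ, hδ, hL⟩ := lebesgue (F := F) (K := K + 1) isOpen_interior hc
  obtain ⟨m, hm⟩ := exists_nat_gt (max 1 δ⁻¹)
  have hm1 : (1 : ℝ) < m := lt_of_le_of_lt (le_max_left _ _) hm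
  have hm' : (0 : ℝ) < m := by linarith
  have hm0 : 0 < m := by exact_mod_cast hm'
  have hmZ : (0 : ℤ) < m := by exact_mod_cast hm0
  have hmδ : 1 / (m : ℝ) < δ := by
    rw [one_div]
    exact inv_lt_of_inv_lt₀ hδ (lt_of_le_of_lt (le_max_right _ _) hm)
  refine ⟨m, hm0, ?_⟩
  have himg : ∀ b', b' ∈ M.image (fun b : Bx => ((fun j => (m : ℤ) * b.1 j,
      fun j => (m : ℤ) * b.2 j) : Bx)) → ∃ b ∈ M, b' = sb m b := by
    intro b' hb'
    obtain ⟨b, hb, rfl⟩ := Finset.mem_image.1 hb'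
    exact ⟨b, hb, rfl⟩
  have hsF : ∀ f', f' ∈ scl m F → ∃ f ∈ F, f' = (f.1, (m : ℝ) * f.2) := by
    intro f' hf'
    obtain ⟨f, hf, rfl⟩ := Finset.mem_image.1 hf'
    exact ⟨f, hf, rfl⟩
  refine ⟨?_, ?_, ?_, ?_, ?_, ?_⟩
  · intro b' hb' j
    obtain ⟨b, hb, rfl⟩ := himg b' hb'
    exact mul_lt_mul_of_pos_left (h0.nd b hb j) hmZ
  · intro b1 hb1 b2 hb2 hne
    obtain ⟨b, hb, rfl⟩ := himg b1 hb1
    obtain ⟨c, hc', rfl⟩ := himg b2 hb2
    obtain ⟨j, hj⟩ := h0.dis b hb c hc' (fun e => hne (by rw [e]))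
    refine ⟨j, ?_⟩
    rcases hj with hj | hj
    · exact Or.inl (mul_le_mul_of_nonneg_left hj hmZ.le)
    · exact Or.inr (mul_le_mul_of_nonneg_left hj hmZ.le)
  · intro b' hb'
    obtain ⟨b, hb, rfl⟩ := himg b' hb'
    obtain ⟨z, hz, hzf⟩ := h0.big b hb
    refine ⟨(m : ℝ) • z, fun j => ?_, ?_⟩
    · have := hz j
      simp only [sb, Int.cast_mul, Int.cast_natCast, Pi.smul_apply, smul_eq_mul]
      exact ⟨mul_lt_mul_of_pos_left this.1 hm', mul_lt_mul_of_pos_left this.2 hm'⟩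
    · intro f' hf' ⟨y, hy, hfy⟩
      obtain ⟨f, hf, rfl⟩ := hsF f' hf'
      rw [ev_scl, hzf f hf ⟨_, (mem_sb hm0).1 hy, (ev_scl_zero hm0 f y).1 hfy⟩, mul_zero]
  · intro b1 hb1 b2 hb2 hne hint
    obtain ⟨b, hb, rfl⟩ := himg b1 hb1
    obtain ⟨c, hc', rfl⟩ := himg b2 hb2
    obtain ⟨y, hy1, hy2⟩ := hint
    obtain ⟨j, z, d, hz, hj, hd, hf⟩ := h0.pair b hb c hc' (fun e => hne (by rw [e]))
      ⟨_, (mem_sb hm0).1 hy1, (mem_sb hm0).1 hy2⟩
    refine ⟨j, (m : ℝ) • z, d, fun i hi => ?_, ?_, hd, ?_⟩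
    · obtain ⟨⟨h1, h2⟩, h3, h4⟩ := hz i hi
      simp only [sb, Int.cast_mul, Int.cast_natCast, Pi.smul_apply, smul_eq_mul]
      exact ⟨⟨mul_lt_mul_of_pos_left h1 hm', mul_lt_mul_of_pos_left h2 hm'⟩,
        mul_lt_mul_of_pos_left h3 hm', mul_lt_mul_of_pos_left h4 hm'⟩
    · simp only [sb, Int.cast_mul, Int.cast_natCast, Pi.smul_apply, smul_eq_mul]
      rcases hj with ⟨h1, h2⟩ | ⟨h1, h2⟩
      · exact Or.inl ⟨by rw [h1], by rw [h2]⟩
      · exact Or.inr ⟨by rw [h1], by rw [h2]⟩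
    · intro f' hf' ⟨y, hy, hfy⟩
      obtain ⟨f, hfF, rfl⟩ := hsF f' hf'
      obtain ⟨h1, h2⟩ := hf f hfF ⟨_, ⟨(mem_sb hm0).1 hy.1, (mem_sb hm0).1 hy.2⟩,
        (ev_scl_zero hm0 f y).1 hfy⟩
      refine ⟨?_, h2⟩
      rw [ev_scl, h1, mul_zero]
  · intro b1 hb1 b2 hb2 b3 hb3 n12 n23 n13
    obtain ⟨b, hb, rfl⟩ := himg b1 hb1
    obtain ⟨c, hc', rfl⟩ := himg b2 hb2
    obtain ⟨d, hd, rfl⟩ := himg b3 hb3
    have := h0.triple b hb c hc' d hd (fun e => n12 (by rw [e])) (fun e => n23 (by rw [e]))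
      (fun e => n13 (by rw [e]))
    rw [eq_empty_iff_forall_notMem]
    rintro y ⟨⟨hy1, hy2⟩, hy3⟩
    rw [eq_empty_iff_forall_notMem] at this
    exact this _ ⟨⟨(mem_sb hm0).1 hy1, (mem_sb hm0).1 hy2⟩, (mem_sb hm0).1 hy3⟩
  · intro l hl hlK f' hf' g' hg' ⟨y, hy, hfy⟩ ⟨y', hy', hgy⟩
    obtain ⟨f, hf, rfl⟩ := hsF f' hf'
    obtain ⟨g, hg, rfl⟩ := hsF g' hg'
    -- the centre
    let ctr : E3 := fun j => ((l j : ℝ) + 1 / 2) / m
    have hctrU : ctr ∉ interior (⋃ b ∈ M, zcl b.1 b.2) := by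
      intro hin
      have h1 := interior_subset hin
      simp only [mem_iUnion, exists_prop] at h1
      obtain ⟨b, hb, hbc⟩ := h1
      apply hl (sb m b) (Finset.mem_image_of_mem _ hb)
      intro j
      obtain ⟨h2, h3⟩ := hbc j
      have h4 : (m : ℝ) * (b.1 j : ℝ) ≤ (l j : ℝ) + 1 / 2 := by
        have h2' : (b.1 j : ℝ) ≤ ((l j : ℝ) + 1 / 2) / m := h2
        rwa [le_div_iff₀' hm'] at h2'
      have h5 : (l j : ℝ) + 1 / 2 ≤ (m : ℝ) * (b.2 j : ℝ) := by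
        have h3' : ((l j : ℝ) + 1 / 2) / m ≤ (b.2 j : ℝ) := h3
        rwa [div_le_iff₀' hm'] at h3'
      have h6 : ((m : ℤ) * b.1 j : ℤ) < l j + 1 := by
        have : (((m : ℤ) * b.1 j : ℤ) : ℝ) < ((l j + 1 : ℤ) : ℝ) := by
          push_cast; linarith
        exact_mod_cast this
      have h7 : l j < ((m : ℤ) * b.2 j : ℤ) := by
        have : ((l j : ℤ) : ℝ) < (((m : ℤ) * b.2 j : ℤ) : ℝ) := by
          push_cast; linarith
        exact_mod_cast this
      show (m : ℤ) * b.1 j ≤ l j ∧ l j + 1 ≤ (m : ℤ) * b.2 j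
      omega
    have hctrK : ∀ j, |ctr j| ≤ K + 1 := by
      intro j
      have h1 := hlK j
      have h2 : |ctr j| = |(l j : ℝ) + 1 / 2| / m := by
        show |((l j : ℝ) + 1 / 2) / m| = _
        rw [abs_div, abs_of_pos hm']
      rw [h2, div_le_iff₀ hm']
      have h3 : |(l j : ℝ) + 1 / 2| ≤ |(l j : ℝ)| + 1 / 2 := by
        refine (abs_add_le _ _).trans ?_
        rw [abs_of_pos (by norm_num : (0 : ℝ) < 1 / 2)]
      nlinarith
    have hball : ∀ w : E3, w ∈ zcl l (fun j => l j + 1) → (m : ℝ)⁻¹ • w ∈ ball ctr δ := by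
      intro w hw
      rw [mem_ball, dist_pi_lt_iff hδ]
      intro j
      obtain ⟨h1, h2⟩ := hw j
      have h3 : dist (((m : ℝ)⁻¹ • w) j) (ctr j) = |w j - ((l j : ℝ) + 1 / 2)| / m := by
        rw [Real.dist_eq]
        show |(m : ℝ)⁻¹ * w j - ((l j : ℝ) + 1 / 2) / m| = _
        rw [inv_mul_eq_div, ← sub_div, abs_div, abs_of_pos hm']
      rw [h3]
      have h4 : |w j - ((l j : ℝ) + 1 / 2)| ≤ 1 := by
        push_cast at h2
        rw [abs_le]; constructor <;> linarith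
      calc |w j - ((l j : ℝ) + 1 / 2)| / m ≤ 1 / m := by gcongr
        _ < δ := hmδ
    obtain ⟨c, hc0, hc1, hc2⟩ := hL ctr hctrK hctrU f hf g hg
      ⟨_, hball y hy, (ev_scl_zero hm0 f y).1 hfy⟩ ⟨_, hball y' hy', (ev_scl_zero hm0 g y').1 hgy⟩
    refine ⟨c, hc0, hc1, ?_⟩
    show (m : ℝ) * g.2 = c * ((m : ℝ) * f.2)
    rw [hc2]; ring

end Crest.Agent.R096.Ex3_702
end

-- ▼ part R096/Ex4_451
section

/-!
# R096 (row 96), P2-GEN, EXIST, (L1) (helper451): the lines of an arrangement in general position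
-/

set_option autoImplicit false

open Set Topology Filter Metric Module

namespace Crest.Agent.R096.Ex_914

open Gp_702

theorem lin_eq (φ : E3 →L[ℝ] ℝ) (v : E3) :
    φ v = v 0 * φ (Pi.single 0 1) + v 1 * φ (Pi.single 1 1) + v 2 * φ (Pi.single 2 1) := by
  have h : v = v 0 • (Pi.single 0 1 : E3) + v 1 • (Pi.single 1 1 : E3) +
      v 2 • (Pi.single 2 1 : E3) := by
    funext k
    fin_cases k <;> simp
  conv_lhs => rw [h]
  simp only [map_add, map_smul, smul_eq_mul]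

/-- Cramer's rule for the intersection line of two planes -/
noncomputable def crm (f g : Af) : Ln :=
  (![(-f.2 * g.1 (Pi.single 1 1) + g.2 * f.1 (Pi.single 1 1)) /
      (f.1 (Pi.single 0 1) * g.1 (Pi.single 1 1) - f.1 (Pi.single 1 1) * g.1 (Pi.single 0 1)),
     (-g.2 * f.1 (Pi.single 0 1) + f.2 * g.1 (Pi.single 0 1)) /
      (f.1 (Pi.single 0 1) * g.1 (Pi.single 1 1) - f.1 (Pi.single 1 1) * g.1 (Pi.single 0 1)), 0],
   ![(-f.1 (Pi.single 2 1) * g.1 (Pi.single 1 1) + g.1 (Pi.single 2 1) * f.1 (Pi.single 1 1)) /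
      (f.1 (Pi.single 0 1) * g.1 (Pi.single 1 1) - f.1 (Pi.single 1 1) * g.1 (Pi.single 0 1)),
     (-g.1 (Pi.single 2 1) * f.1 (Pi.single 0 1) + f.1 (Pi.single 2 1) * g.1 (Pi.single 0 1)) /
      (f.1 (Pi.single 0 1) * g.1 (Pi.single 1 1) - f.1 (Pi.single 1 1) * g.1 (Pi.single 0 1)), 1])

theorem eq_crm {f g : Af} {x : E3} (hf : ev f x = 0) (hg : ev g x = 0)
    (hD : f.1 (Pi.single 0 1) * g.1 (Pi.single 1 1) - f.1 (Pi.single 1 1) * g.1 (Pi.single 0 1) ≠ 0) :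
    x = pt (crm f g) (x 2) := by
  unfold ev at hf hg
  rw [lin_eq] at hf hg
  set f0 := f.1 (Pi.single 0 1)
  set f1 := f.1 (Pi.single 1 1)
  set f2 := f.1 (Pi.single 2 1)
  set g0 := g.1 (Pi.single 0 1)
  set g1 := g.1 (Pi.single 1 1)
  set g2 := g.1 (Pi.single 2 1)
  funext k
  fin_cases k
  · show x 0 = (-f.2 * g1 + g.2 * f1) / (f0 * g1 - f1 * g0) +
      x 2 * ((-f2 * g1 + g2 * f1) / (f0 * g1 - f1 * g0))
    rw [← mul_div_assoc, ← add_div, eq_div_iff hD]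
    linear_combination g1 * hf - f1 * hg
  · show x 1 = (-g.2 * f0 + f.2 * g0) / (f0 * g1 - f1 * g0) +
      x 2 * ((-g2 * f0 + f2 * g0) / (f0 * g1 - f1 * g0))
    rw [← mul_div_assoc, ← add_div, eq_div_iff hD]
    linear_combination f0 * hg - g0 * hf
  · show x 2 = 0 + x 2 * 1
    ring

/-- **(L1)** the lines -/
theorem lines {F : Finset Af} (hF : Gen F) : ∃ L : Finset Ln, (∀ u ∈ L, u.1 2 = 0) ∧
    (∀ u ∈ L, u.2 2 = 1) ∧ ∀ f ∈ F, ∀ g ∈ F, ∀ x : E3, ev f x = 0 → ev g x = 0 →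
      (∃ c : ℝ, c ≠ 0 ∧ g.1 = c • f.1 ∧ g.2 = c * f.2) ∨ ∃ u ∈ L, x = pt u (x 2) := by
  classical
  refine ⟨(F ×ˢ F).image fun p => crm p.1 p.2, ?_, ?_, ?_⟩
  · intro u hu
    obtain ⟨p, -, rfl⟩ := Finset.mem_image.1 hu
    rfl
  · intro u hu
    obtain ⟨p, -, rfl⟩ := Finset.mem_image.1 hu
    rfl
  · intro f hf g hg x hx hy
    by_cases hD : f.1 (Pi.single 0 1) * g.1 (Pi.single 1 1) -
        f.1 (Pi.single 1 1) * g.1 (Pi.single 0 1) = 0
    · left
      obtain ⟨c, hc⟩ := hF.hor f hf g hg (sub_eq_zero.1 hD)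
      have hc0 : c ≠ 0 := by
        rintro rfl
        rw [zero_smul] at hc
        exact hF.ne g hg hc
      refine ⟨c, hc0, hc, ?_⟩
      unfold ev at hx hy
      rw [hc] at hy
      have e : (c • f.1) x = c * f.1 x := rfl
      rw [e] at hy
      have h1 : f.1 x = -f.2 := by linarith
      rw [h1] at hy
      linarith
    · right
      exact ⟨crm f g, Finset.mem_image.2 ⟨(f, g), Finset.mem_product.2 ⟨hf, hg⟩, rfl⟩,
        eq_crm hx hy hD⟩

end Crest.Agent.R096.Ex_914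
end

-- ▼ part R096/Gen1_458
section

/-!
# R096 (row 96), P2-GEN (EXIST), (X12) `GenStmt` (helper458)

Polyhedral sets are determined by the signs of finitely many affine functions; general position
by a shear and a translation.
-/

set_option autoImplicit false

open Set Metric Topology

namespace Crest.Agent.R096.Gen_458

open Gp_702 Ex_914

/-! ### sign representation of simplices, polytopes, polyhedra -/

/-- the affine function as an `Af` -/
noncomputable def toAf (a : E3 →ᵃ[ℝ] ℝ) : Af := (LinearMap.toContinuousLinearMap a.linear, a 0)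

theorem ev_toAf (a : E3 →ᵃ[ℝ] ℝ) (x : E3) : ev (toAf a) x = a x := by
  have h := congrFun (AffineMap.decomp a) x
  simp only [ev, toAf, LinearMap.coe_toContinuousLinearMap']
  rw [h]; rfl

theorem det_simplex (t : Finset E3) (ht : AffineIndependent ℝ ((↑) : t → E3)) :
    ∃ F : Finset Af, Det F (convexHull ℝ (t : Set E3)) := by
  classical
  obtain ⟨u, htu, hu, hspan⟩ := exists_subset_affineIndependent_affineSpan_eq_top
    (s := (t : Set E3)) ht
  have : Finite u := finite_set_of_fin_dim_affineIndependent ℝ hu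
  have := Fintype.ofFinite u
  let b : AffineBasis u ℝ E3 := ⟨(↑), hu, by rw [Subtype.range_coe]; exact hspan⟩
  have hb : ∀ i : u, b i = i.1 := fun i => rfl
  have key : ∀ x, x ∈ convexHull ℝ (t : Set E3) ↔
      ∀ i : u, 0 ≤ b.coord i x ∧ (i.1 ∉ t → b.coord i x = 0) := by
    intro x
    constructor
    · intro hx
      have hc : Convex ℝ {x | ∀ i : u, 0 ≤ b.coord i x ∧ (i.1 ∉ t → b.coord i x = 0)} := by
        intro x hx y hy p q hp hq hpq i
        have e : b.coord i (p • x + q • y) = p * b.coord i x + q * b.coord i y :=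
          Pl.affine_comb (b.coord i) hpq
        rw [e]
        refine ⟨by have := (hx i).1; have := (hy i).1; positivity, fun hn => ?_⟩
        rw [(hx i).2 hn, (hy i).2 hn, mul_zero, mul_zero, add_zero]
      refine convexHull_min ?_ hc hx
      intro p hp i
      have hp' : p = b ⟨p, htu hp⟩ := rfl
      rw [hp', AffineBasis.coord_apply]
      split_ifs with h
      · exact ⟨zero_le_one, fun hn => absurd (by rw [h]; exact hp) hn⟩
      · exact ⟨le_refl _, fun _ => rfl⟩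
    · intro hx
      have h1 : ∑ i, b.coord i x • b i = x := b.linear_combination_coord_eq_self x
      have h2 : ∑ i, b.coord i x = 1 := b.sum_coord_apply_eq_one x
      have h3 : ∑ i ∈ Finset.univ.filter (fun i : u => i.1 ∈ t), b.coord i x • b i = x := by
        refine (Finset.sum_filter_of_ne fun i _ hi => ?_).trans h1
        by_contra hn
        exact hi (by rw [(hx i).2 hn, zero_smul])
      have h4 : ∑ i ∈ Finset.univ.filter (fun i : u => i.1 ∈ t), b.coord i x = 1 := by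
        refine (Finset.sum_filter_of_ne fun i _ hi => ?_).trans h2
        by_contra hn
        exact hi ((hx i).2 hn)
      rw [← h3]
      exact (convex_convexHull ℝ (t : Set E3)).sum_mem (fun i _ => (hx i).1) h4
        fun i hi => subset_convexHull ℝ _ (Finset.mem_filter.1 hi).2
  refine ⟨Finset.univ.image fun i : u => toAf (b.coord i), fun x y hxy hx => ?_⟩
  rw [key] at hx ⊢
  intro i
  have h := hxy _ (Finset.mem_image_of_mem _ (Finset.mem_univ i))
  rw [ev_toAf, ev_toAf] at h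
  refine ⟨?_, fun hn => ?_⟩
  · have h1 := (hx i).1
    rw [← sign_nonneg_iff] at h1 ⊢
    rwa [← h]
  · have h1 := (hx i).2 hn
    rw [← sign_eq_zero_iff] at h1 ⊢
    rwa [← h]

theorem det_mono {F G : Finset Af} {S : Set E3} (h : Det F S) (hFG : F ⊆ G) : Det G S :=
  fun x y hxy hx => h x y (fun f hf => hxy f (hFG hf)) hx

theorem det_sUnion {𝒞 : Set (Set E3)} (hf : 𝒞.Finite) (h : ∀ C ∈ 𝒞, ∃ F : Finset Af, Det F C) :
    ∃ F : Finset Af, Det F (⋃₀ 𝒞) := by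
  classical
  choose! F hF using h
  refine ⟨hf.toFinset.biUnion F, ?_⟩
  rintro x y hxy ⟨C, hC, hx⟩
  exact ⟨C, hC, hF C hC x y (fun f hf' => hxy f (Finset.mem_biUnion.2
    ⟨C, hf.mem_toFinset.2 hC, hf'⟩)) hx⟩

theorem det_vp {C : Set E3} (h : Pl.VP C) : ∃ F : Finset Af, Det F C := by
  classical
  obtain ⟨s, hs, rfl⟩ := h
  have e : convexHull ℝ s = ⋃₀ ((fun t : Finset E3 => convexHull ℝ (t : Set E3)) ''
      {t : Finset E3 | (t : Set E3) ⊆ s ∧ AffineIndependent ℝ ((↑) : t → E3)}) := by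
    rw [convexHull_eq_union]
    ext x
    simp only [mem_iUnion, mem_sUnion, mem_image, mem_ofPred_eq, exists_prop]
    constructor
    · rintro ⟨t, h1, h2, h3⟩
      exact ⟨_, ⟨t, ⟨h1, h2⟩, rfl⟩, h3⟩
    · rintro ⟨_, ⟨t, ⟨h1, h2⟩, rfl⟩, h3⟩
      exact ⟨t, h1, h2, h3⟩
  rw [e]
  refine det_sUnion (Set.Finite.image _ ?_) ?_
  · refine (hs.toFinset.powerset.finite_toSet).subset ?_
    rintro t ⟨ht, -⟩
    rw [Finset.mem_coe, Finset.mem_powerset]
    intro x hx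
    exact hs.mem_toFinset.2 (ht hx)
  · rintro _ ⟨t, ⟨-, ht⟩, rfl⟩
    exact det_simplex t ht

theorem exists_det {S : Set E3} (h : Gp_702.Poly S) :
    ∃ F : Finset Af, (∀ f ∈ F, f.1 ≠ 0) ∧ Det F S := by
  classical
  obtain ⟨𝒞, hf, hC, rfl⟩ := h
  obtain ⟨F, hF⟩ := det_sUnion hf fun C h => det_vp (hC C h)
  refine ⟨F.filter fun f => f.1 ≠ 0, fun f hf => (Finset.mem_filter.1 hf).2, ?_⟩
  intro x y hxy hx
  refine hF x y (fun f hf' => ?_) hx
  by_cases h0 : f.1 = 0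
  · simp only [ev, h0, zero_apply]
  · exact hxy f (Finset.mem_filter.2 ⟨hf', h0⟩)

/-! ### generic numbers -/

theorem exists_avoid (P : Finset (Polynomial ℝ)) (h : ∀ p ∈ P, p ≠ 0) :
    ∃ t : ℝ, ∀ p ∈ P, p.eval t ≠ 0 := by
  have h1 : ∏ p ∈ P, p ≠ 0 := Finset.prod_ne_zero_iff.2 h
  by_contra hn
  push Not at hn
  refine h1 (Polynomial.funext fun t => ?_)
  obtain ⟨p, hp, hpt⟩ := hn t
  rw [Polynomial.eval_prod, Polynomial.eval_zero]
  exact Finset.prod_eq_zero hp hpt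

/-- the polynomial `a + b X + c X²` -/
noncomputable def qp (a b c : ℝ) : Polynomial ℝ :=
  Polynomial.C a + Polynomial.C b * Polynomial.X + Polynomial.C c * Polynomial.X ^ 2

theorem qp_eval (a b c t : ℝ) : (qp a b c).eval t = a + b * t + c * t ^ 2 := by
  simp [qp]

theorem qp_ne {a b c : ℝ} (h : ¬ (a = 0 ∧ b = 0 ∧ c = 0)) : qp a b c ≠ 0 := by
  intro h0
  have e : ∀ t, a + b * t + c * t ^ 2 = 0 := fun t => by rw [← qp_eval, h0, Polynomial.eval_zero]
  have h1 := e 0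
  have h2 := e 1
  have h3 := e (-1)
  refine h ⟨by linarith, ?_, ?_⟩ <;> nlinarith

/-! ### functionals on `E3` -/

theorem eq_sum (f : E3 →L[ℝ] ℝ) (x : E3) :
    f x = x 0 * f (Pi.single 0 1) + x 1 * f (Pi.single 1 1) + x 2 * f (Pi.single 2 1) := by
  have h : x = ∑ i, x i • (Pi.single i (1:ℝ) : E3) := by
    funext j
    simp [Finset.sum_apply, Pi.single_apply]
  conv_lhs => rw [h]
  rw [map_sum, Fin.sum_univ_three]
  simp [map_smul]

theorem ext_single {f g : E3 →L[ℝ] ℝ} (h0 : f (Pi.single 0 1) = g (Pi.single 0 1))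
    (h1 : f (Pi.single 1 1) = g (Pi.single 1 1)) (h2 : f (Pi.single 2 1) = g (Pi.single 2 1)) :
    f = g := by
  ext x
  rw [eq_sum f, eq_sum g, h0, h1, h2]

theorem parallel {f g : E3 →L[ℝ] ℝ} (hf : f ≠ 0)
    (h01 : f (Pi.single 0 1) * g (Pi.single 1 1) = f (Pi.single 1 1) * g (Pi.single 0 1))
    (h02 : f (Pi.single 0 1) * g (Pi.single 2 1) = f (Pi.single 2 1) * g (Pi.single 0 1))
    (h12 : f (Pi.single 1 1) * g (Pi.single 2 1) = f (Pi.single 2 1) * g (Pi.single 1 1)) :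
    ∃ c : ℝ, g = c • f := by
  by_cases a0 : f (Pi.single 0 1) = 0
  · by_cases a1 : f (Pi.single 1 1) = 0
    · by_cases a2 : f (Pi.single 2 1) = 0
      · exact absurd (ext_single (by simpa using a0) (by simpa using a1) (by simpa using a2)) hf
      · refine ⟨g (Pi.single 2 1) / f (Pi.single 2 1), ext_single ?_ ?_ ?_⟩ <;>
          (simp only [smul_apply, smul_eq_mul]; field_simp; try linarith)
    · refine ⟨g (Pi.single 1 1) / f (Pi.single 1 1), ext_single ?_ ?_ ?_⟩ <;>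
        (simp only [smul_apply, smul_eq_mul]; field_simp; try linarith)
  · refine ⟨g (Pi.single 0 1) / f (Pi.single 0 1), ext_single ?_ ?_ ?_⟩ <;>
      (simp only [smul_apply, smul_eq_mul]; field_simp; try linarith)

/-- the shear `x ↦ (x₀, x₁, x₂ + a x₀ + b x₁)` -/
noncomputable def shear (a b : ℝ) : E3 ≃L[ℝ] E3 :=
  LinearEquiv.toContinuousLinearEquiv
  { toFun := fun x => ![x 0, x 1, x 2 + a * x 0 + b * x 1]
    map_add' := fun x y => by
      funext j; fin_cases j <;> simp <;> ring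
    map_smul' := fun c x => by
      funext j; fin_cases j <;> simp <;> ring
    invFun := fun x => ![x 0, x 1, x 2 - a * x 0 - b * x 1]
    left_inv := fun x => by
      funext j; fin_cases j
      · simp
      · simp
      · simp; ring
    right_inv := fun x => by
      funext j; fin_cases j
      · simp
      · simp
      · simp; ring }

theorem shear_apply (a b : ℝ) (x : E3) :
    shear a b x = ![x 0, x 1, x 2 + a * x 0 + b * x 1] := rfl

theorem shear_0 (a b : ℝ) (f : E3 →L[ℝ] ℝ) : f (shear a b (Pi.single 0 1)) =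
    f (Pi.single 0 1) + a * f (Pi.single 2 1) := by
  rw [shear_apply, eq_sum f]; simp

theorem shear_1 (a b : ℝ) (f : E3 →L[ℝ] ℝ) : f (shear a b (Pi.single 1 1)) =
    f (Pi.single 1 1) + b * f (Pi.single 2 1) := by
  rw [shear_apply, eq_sum f]; simp

/-- the change of coordinates of an affine function -/
noncomputable def tra (B : E3 ≃L[ℝ] E3) (τ : E3) (f : Af) : Af :=
  (f.1.comp (B : E3 →L[ℝ] E3), f.2 - f.1 (B τ))

theorem ev_tra (B : E3 ≃L[ℝ] E3) (τ : E3) (f : Af) (x : E3) :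
    ev (tra B τ f) (B.symm x + τ) = ev f x := by
  simp only [ev, tra, ContinuousLinearMap.comp_apply, ContinuousLinearEquiv.coe_coe, map_add,
    ContinuousLinearEquiv.apply_symm_apply]
  ring

theorem ev_tra' (B : E3 ≃L[ℝ] E3) (τ : E3) (f : Af) (y : E3) :
    ev (tra B τ f) y = f.1 (B y) + f.2 - f.1 (B τ) := by
  simp only [ev, tra, ContinuousLinearMap.comp_apply, ContinuousLinearEquiv.coe_coe]
  ring

/-- a shear which makes all intersections transversal to the horizontal planes -/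
theorem exists_shear (F : Finset Af) (hF : ∀ f ∈ F, f.1 ≠ 0) : ∃ B : E3 ≃L[ℝ] E3,
    ∀ f ∈ F, ∀ g ∈ F, f.1 (B (Pi.single 0 1)) * g.1 (B (Pi.single 1 1)) =
      f.1 (B (Pi.single 1 1)) * g.1 (B (Pi.single 0 1)) → ∃ c : ℝ, g.1 = c • f.1 := by
  classical
  let e : Fin 3 → E3 := fun i => Pi.single i 1
  let D : Fin 3 → Fin 3 → Af × Af → ℝ := fun i j p =>
    p.1.1 (e i) * p.2.1 (e j) - p.1.1 (e j) * p.2.1 (e i)
  let P : Finset (Polynomial ℝ) := ((F ×ˢ F).filter fun p => ¬ ∃ c : ℝ, p.2.1 = c • p.1.1).image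
    fun p => qp (D 0 1 p) (D 2 1 p) (D 0 2 p)
  obtain ⟨t, ht⟩ := exists_avoid P (by
    intro p hp
    obtain ⟨⟨f, g⟩, hfg, rfl⟩ := Finset.mem_image.1 hp
    obtain ⟨h1, h2⟩ := Finset.mem_filter.1 hfg
    refine qp_ne fun h => h2 ?_
    refine parallel (hF f (Finset.mem_product.1 h1).1) ?_ ?_ ?_
    · have := h.1; simp only [D, e] at this; linarith
    · have := h.2.2; simp only [D, e] at this; linarith
    · have := h.2.1; simp only [D, e] at this; linarith)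
  refine ⟨shear t (t ^ 2), fun f hf g hg h => ?_⟩
  by_contra hn
  refine ht _ (Finset.mem_image_of_mem _ (Finset.mem_filter.2
    ⟨Finset.mem_product.2 ⟨hf, hg⟩, hn⟩ : (f, g) ∈ _)) ?_
  rw [shear_0, shear_0, shear_1, shear_1] at h
  rw [qp_eval]
  simp only [D, e]
  linarith

/-- a translation which moves all planes off the rational points -/
theorem exists_trans (F : Finset Af) (hF : ∀ f ∈ F, f.1 ≠ 0) (B : E3 ≃L[ℝ] E3) : ∃ τ : E3,
    ∀ f ∈ F, ∀ q : Fin 3 → ℚ, ev (tra B τ f) (fun j => (q j : ℝ)) ≠ 0 := by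
  classical
  let e : Fin 3 → E3 := fun i => Pi.single i 1
  let P : Finset (Polynomial ℝ) := F.image fun f => qp (f.1 (e 0)) (f.1 (e 1)) (f.1 (e 2))
  obtain ⟨t, ht⟩ := exists_avoid P (by
    intro p hp
    obtain ⟨f, hf, rfl⟩ := Finset.mem_image.1 hp
    refine qp_ne fun h => hF f hf ?_
    exact ext_single (by simpa [e] using h.1) (by simpa [e] using h.2.1) (by simpa [e] using h.2.2))
  let v : E3 := ![1, t, t ^ 2]
  have hv : ∀ f ∈ F, f.1 v ≠ 0 := by
    intro f hf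
    have h := ht _ (Finset.mem_image_of_mem _ hf)
    rw [qp_eval] at h
    rw [eq_sum]
    simp only [v, e] at h ⊢
    simp only [Matrix.cons_val_zero, Matrix.cons_val_one, Matrix.cons_val]
    intro h0
    apply h
    linarith
  let w : E3 := B.symm v
  have hw : ∀ f ∈ F, f.1 (B w) ≠ 0 := fun f hf => by
    simp only [w, ContinuousLinearEquiv.apply_symm_apply]; exact hv f hf
  have hc : (⋃ f ∈ F, range fun q : Fin 3 → ℚ =>
      (f.1 (B (fun j => (q j : ℝ))) + f.2) / f.1 (B w)).Countable :=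
    F.countable_toSet.biUnion fun f _ => countable_range _
  obtain ⟨s, hs⟩ := (hc.dense_compl ℝ).nonempty
  refine ⟨s • w, fun f hf q h => hs ?_⟩
  rw [ev_tra'] at h
  refine mem_biUnion hf ⟨q, ?_⟩
  show _ / _ = s
  rw [div_eq_iff (hw f hf)]
  rw [map_smul, map_smul, smul_eq_mul] at h
  linarith

/-- **(X12)** -/
theorem genStmt : GenStmt := by
  classical
  intro S hS
  obtain ⟨F, hne, hD⟩ := exists_det hS
  obtain ⟨B, hB⟩ := exists_shear F hne
  obtain ⟨τ, hτ⟩ := exists_trans F hne B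
  let L : E3 ≃ₜ E3 := B.symm.toHomeomorph.trans (Homeomorph.addRight τ)
  have hL : ∀ x, L x = B.symm x + τ := fun x => rfl
  refine ⟨L, (Pl.PLH_clm B.symm).trans (Pl.PLH_add τ), F.image (tra B τ), ⟨?_, ?_, ?_⟩, ?_⟩
  · intro f' hf'
    obtain ⟨f, hf, rfl⟩ := Finset.mem_image.1 hf'
    intro h0
    refine hne f hf ?_
    ext x
    have h1 := DFunLike.congr_fun h0 (B.symm x)
    simpa [tra] using h1
  · intro f' hf' q
    obtain ⟨f, hf, rfl⟩ := Finset.mem_image.1 hf'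
    exact hτ f hf q
  · intro f' hf' g' hg' h
    obtain ⟨f, hf, rfl⟩ := Finset.mem_image.1 hf'
    obtain ⟨g, hg, rfl⟩ := Finset.mem_image.1 hg'
    obtain ⟨c, hc⟩ := hB f hf g hg (by simpa [tra] using h)
    exact ⟨c, by simp only [tra]; rw [hc]; rfl⟩
  · rintro _ y hxy ⟨x, hx, rfl⟩
    refine ⟨L.symm y, hD x _ (fun f hf => ?_) hx, L.apply_symm_apply y⟩
    have h := hxy _ (Finset.mem_image_of_mem _ hf)
    have e1 : y = B.symm (L.symm y) + τ := by rw [← hL, L.apply_symm_apply]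
    rw [hL, ev_tra] at h
    conv at h => rhs; rw [e1, ev_tra]
    exact h

end Crest.Agent.R096.Gen_458
end

-- ▼ part R096/Ex5_914
section

/-!
# R096 (row 96), P2-GEN (EXIST), part 5 (helper914): assembly, `existStmt : Gp_702.ExistStmt`
-/

set_option autoImplicit false

open Set Metric Topology

namespace Crest.Agent.R096.Ex_914

open Msh_715 Gp_702

theorem scl_scl (m G : ℕ) (F : Finset Af) : scl m (scl G F) = scl (m * G) F := by
  classical
  ext g
  simp only [mem_scl]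
  constructor
  · rintro ⟨f, ⟨f', hf', rfl⟩, rfl⟩
    refine ⟨f', hf', ?_⟩
    push_cast
    simp only [mul_assoc]
  · rintro ⟨f', hf', rfl⟩
    refine ⟨_, ⟨f', hf', rfl⟩, ?_⟩
    push_cast
    simp only [mul_assoc]

/-- **(X3)** -/
theorem macStmt : MacStmt := by
  classical
  intro F hF K
  obtain ⟨L, a2, b2, hL⟩ := lines hF
  obtain ⟨G, hG, σ, iσ, lo, hi, aw, τ, tw, H⟩ := slabs F L a2 b2 K
  have hG' : (0 : ℝ) < G := by exact_mod_cast hG
  have hne : ∀ f ∈ scl G F, f.1 ≠ 0 := by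
    intro f hf
    obtain ⟨g, hg, rfl⟩ := mem_scl.1 hf
    exact hF.ne g hg
  have hc : ∀ f ∈ scl G F, ∀ g ∈ scl G F, ∀ x : E3, ev f x = 0 → ev g x = 0 →
      (∃ c : ℝ, c ≠ 0 ∧ g.1 = c • f.1 ∧ g.2 = c * f.2) ∨
        (|x 2| ≤ G * K + 1 → x ∈ interior (⋃ b ∈ macs (sclL G L) lo hi aw τ, zcl b.1 b.2)) := by
    intro f hf g hg x h1 h2
    obtain ⟨f, hf', rfl⟩ := mem_scl.1 hf
    obtain ⟨g, hg', rfl⟩ := mem_scl.1 hg
    have hx : x = (G : ℝ) • ((G : ℝ)⁻¹ • x) := by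
      rw [smul_smul, mul_inv_cancel₀ hG'.ne', one_smul]
    have e1 : ev f ((G : ℝ)⁻¹ • x) = 0 := by
      rw [hx, ev_scl] at h1
      exact (mul_eq_zero.1 h1).resolve_left hG'.ne'
    have e2 : ev g ((G : ℝ)⁻¹ • x) = 0 := by
      rw [hx, ev_scl] at h2
      exact (mul_eq_zero.1 h2).resolve_left hG'.ne'
    rcases hL f hf' g hg' _ e1 e2 with ⟨c, hc0, hc1, hc2⟩ | ⟨u, hu, hxu⟩
    · refine Or.inl ⟨c, hc0, hc1, ?_⟩
      show (G : ℝ) * g.2 = c * (G * f.2)
      rw [hc2]; ring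
    · refine Or.inr fun hx2 => ?_
      have e3 : x = pt ((G : ℝ) • u.1, u.2) (x 2) := by
        rw [pt_scl hG]
        conv_lhs => rw [hx, hxu]
        congr 2
        simp only [Pi.smul_apply, smul_eq_mul]
        field_simp
      rw [e3]
      exact cover H (mem_sclL.2 ⟨u, hu, rfl⟩) hx2
  obtain ⟨m, hm, hM⟩ := Ex3_702.small_of (mac0_of_slb H) hne hc
  have e : ((m * G : ℕ) : ℝ) * K = m * (G * K) := by push_cast; ring
  rw [scl_scl, ← e] at hM
  exact ⟨m * G, Nat.mul_pos hm hG, _, hM⟩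

/-- **(EXIST)** -/
theorem existStmt : ExistStmt := exist_of Gen_458.genStmt macStmt (Til_324.til Rs1_161.rayStmt)

end Crest.Agent.R096.Ex_914
end

-- ▼ part R096/GpZ_702

/-!
# R096 (row 96), P2-GEN, final file (helper702)

The Alexander theorem in dimension 3 for general polyhedral surfaces, without hypotheses.
-/

set_option autoImplicit false

open Set Metric Topology

namespace Crest.Agent.R096.Gp_702

/-- (N7) -/
theorem thStmt : ThStmt := th_of Gn_296.circStmt Gn_296.circ2Stmt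

/-- **(NORM)** -/
theorem normStmt : NormStmt := norm_of_th thStmt

/-- **(EXIST)** -/
theorem existStmt : ExistStmt := Ex_914.existStmt

/-- **Alexander's theorem in the PL category**: a connected two-sided polyhedral set in
`Fin 3 → ℝ` with trivial first cohomology is standard. -/
theorem alexander_poly {S : Set E3} (hp : Poly S) (hS : ∀ x ∈ S, Ax_914.TwoSidedAt S x)
    (hcon : IsConnected S) (htriv : ∀ n, Coh_184.TrivAll (Fin n) (ZMod 2) S) :
    Pl.StdC (F := ℝ × ℝ) (Pl.e3 ⁻¹' S) :=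
  alexander_gen existStmt normStmt hp hS hcon htriv

end Crest.Agent.R096.Gp_702
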