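import Crest.Agent.R096.Lm2_812_Mg
import Crest.Agent.R096.Pb1_812
import Crest.Agent.R096.Srg4_465

-- ▼ part R096/Lm3_812
section

/-!
# The local move in a tiling (helper812, row 96, 2SK)

`vp_cc`: closed cells of a tiling are V-polytopes.  `disc_move_E`: the local move in any
3-dimensional space.  `mesh_of_tiling`: the instance of `Srg_465.Mesh`.
-/

set_option autoImplicit false

namespace Crest.Agent.R096.Lm_812

open Set Metric Crest.Agent.R096.Pl Crest.Agent.R096.Ce_537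

section VP

variable {V W : Type*} [NormedAddCommGroup V] [NormedSpace ℝ V]
  [NormedAddCommGroup W] [NormedSpace ℝ W]

theorem vp_image {C : Set V} (h : VP C) (a : V →ᵃ[ℝ] W) : VP (a '' C) := by
  obtain ⟨s, hs, rfl⟩ := h
  exact ⟨a '' s, hs.image _, a.image_convexHull s⟩






end VP

section Move

variable {E : Type*} [NormedAddCommGroup E] [NormedSpace ℝ E] [FiniteDimensional ℝ E]

/-- **the local move in a 3-dimensional space** -/
theorem disc_move_E (h3 : Module.finrank ℝ E = 3)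
    (hP2 : ∀ A B Γ : Set ((ℝ × ℝ) × ℝ), IsBall 2 A Γ → IsBall 2 B Γ → A ∩ B = Γ → StdS A B)
    {P Q Γ Fc D U : Set E} (hPc : Convex ℝ P) (hPk : IsClosed P) (hQ : VP Q)
    (hQP : Q ⊆ frontier P) (hFcQ : Fc ⊆ Q) (hrel : ∃ O, IsOpen O ∧ O ∩ Q = Fc \ Γ)
    (hFc : IsBall 2 Fc Γ) (hD : IsBall 2 D Γ) (hDi : D \ Γ ⊆ interior P)
    (hU : IsOpen U) (hPU : interior P ⊆ U) (hFU : Fc ⊆ U) :
    ∃ ψ : E ≃ₜ E, PLH ψ ∧
      (∃ C ⊆ U, IsCompact C ∧ ∀ x ∉ C, ψ x = x) ∧
      (∀ x ∈ Q \ Fc, ∀ᶠ y in nhds x, ψ y = y) ∧ ψ '' Fc = D := by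
  have hfr : Module.finrank ℝ E = Module.finrank ℝ ((ℝ × ℝ) × ℝ) := by
    rw [h3]; simp
  let e : E ≃L[ℝ] ((ℝ × ℝ) × ℝ) := ContinuousLinearEquiv.ofFinrankEq hfr
  let G : E ≃ₜ ((ℝ × ℝ) × ℝ) := e.toHomeomorph
  have hG : PLH G := PLH_clm e
  have hGe : ∀ A : Set E, G '' A = (e : E →ₗ[ℝ] ((ℝ × ℝ) × ℝ)).toAffineMap '' A := fun A => rfl
  obtain ⟨O, hO, hOQ⟩ := hrel
  obtain ⟨ψ, h1, ⟨C, hCU, hC, hCψ⟩, h2, h3', -, -⟩ := disc_move_near hP2 (P := G '' P) (Q := G '' Q)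
    (Γ := G '' Γ) (Fc := G '' Fc) (D := G '' D) (U := G '' U)
    (by rw [hGe]; exact hPc.affine_image _) (G.isClosedMap _ hPk)
    (by rw [hGe]; exact vp_image hQ _)
    (by rw [← G.image_frontier]; exact image_mono hQP) (image_mono hFcQ)
    ⟨G '' O, G.isOpenMap _ hO, by
      rw [← image_inter G.injective, hOQ, image_sdiff G.injective]⟩
    (hFc.plh hG) (hD.plh hG)
    (by rw [← image_sdiff G.injective, ← G.image_interior]; exact image_mono hDi)
    (G.isOpenMap _ hU) (by rw [← G.image_interior]; exact image_mono hPU) (image_mono hFU)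
  refine ⟨G.trans (ψ.trans G.symm), hG.trans (h1.trans hG.symm), ⟨G.symm '' C, ?_,
    hC.image G.symm.continuous, ?_⟩, ?_, ?_⟩
  · rintro _ ⟨y, hy, rfl⟩
    obtain ⟨x, hx, rfl⟩ := hCU hy
    rwa [G.symm_apply_apply]
  · intro x hx
    show G.symm (ψ (G x)) = x
    rw [hCψ (G x) (fun h => hx ⟨G x, h, G.symm_apply_apply x⟩), G.symm_apply_apply]
  · rintro x ⟨hxQ, hxF⟩
    have h4 := h2 (G x) ⟨⟨x, hxQ, rfl⟩, fun ⟨y, hy, hxy⟩ => hxF (G.injective hxy ▸ hy)⟩
    have h5 := G.continuous.continuousAt.eventually h4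
    filter_upwards [h5] with y hy
    show G.symm (ψ (G y)) = y
    rw [hy, G.symm_apply_apply]
  · have : (G.trans (ψ.trans G.symm)) '' Fc = G.symm '' (ψ '' (G '' Fc)) := by
      rw [← image_comp, ← image_comp]; rfl
    rw [this, h3', ← image_comp]
    have e2 : (G.symm ∘ G : E → E) = id := by funext x; simp
    rw [e2, image_id]

end Move

end Crest.Agent.R096.Lm_812
end

-- ▼ part R096/Lm5_812

/-!
# The disc move in every 3-dimensional space (helper812, row 96, 2SK)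
-/

set_option autoImplicit false

namespace Crest.Agent.R096.Lm_812

open Set Metric Crest.Agent.R096.Pl Crest.Agent.R096.Ce_537 Crest.Agent.R096.Msh_715

variable {E : Type*} [NormedAddCommGroup E] [NormedSpace ℝ E] [FiniteDimensional ℝ E]

/-- **`DMove E` from the PL Schoenflies theorem for two discs** -/
theorem dMove (h3 : Module.finrank ℝ E = 3)
    (hP2 : ∀ A B Γ : Set ((ℝ × ℝ) × ℝ), IsBall 2 A Γ → IsBall 2 B Γ → A ∩ B = Γ → StdS A B) :
    Srg_465.DMove E := by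
  intro P Q Γ Fc D U g1 g2 g3 g4 g5 g6 g7 g8 g9 g10 g11 g12
  exact disc_move_E h3 hP2 g1 g2 g3 g4 g5 g6 g7 g8 g9 g10 g11 g12

/-- **`DMove E` from the two statements of P2-GEN** -/
theorem dMove_gen (h3 : Module.finrank ℝ E = 3) (hE : Gp_702.ExistStmt) (hN : Gp_702.NormStmt) :
    Srg_465.DMove E := dMove h3 (Pb_812.stdS_of_discs hE hN)


end Crest.Agent.R096.Lm_812
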