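import Crest.Agent.R096.Pst3_465
import Crest.Agent.R096.Lm5_812
import Crest.Agent.R096.GpZ_702
import Crest.Agent.R096.Cwr2_527
import Crest.Prelude.Def_VecCalc3

-- ▼ part R096/Pst4_465
section

/-!
# Row 96: the unconditional forms of `DMove`, `Surg`, `Step2` and of the iteration (helper465)
-/

set_option autoImplicit false
set_option linter.unusedSectionVars false

open Set Metric Topology Filter Module

namespace Crest.Agent.R096.Pst_465

open Ce_537 Pl Cb_609 Msh_715
open Srg_465 Sk2_855 Ub_113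

section

variable {E : Type} [NormedAddCommGroup E] [NormedSpace ℝ E] [FiniteDimensional ℝ E]

theorem dMove_final (h3 : finrank ℝ E = 3) : DMove E :=
  Lm_812.dMove_gen h3 Gp_702.existStmt Gp_702.normStmt

variable {Om La : Set E} {ι : Type}


/-- **L2**, unconditional -/
theorem step2_final (h3 : finrank ℝ E = 3) (T : Tiling Om ι) : Step2 T La :=
  step2 h3 (dMove_final h3) T



end

end Crest.Agent.R096.Pst_465
end

-- ▼ part R096/Tsq3_753
section

/-!
# Row 96 (S0127), p = 2: the target squeeze for a finite family of groups with disjoint cut-offs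
(helper753)
-/

set_option autoImplicit false
set_option linter.unusedSectionVars false

open Set Metric Filter Topology
open scoped NNReal ENNReal

namespace Crest.Agent.R096.Tsq_753

section glue

variable {E : Type*} [NormedAddCommGroup E] [NormedSpace ℝ E] {κ : Type*}

open Classical in
/-- gluing of maps which are the identity off `{χ q ≠ 0}` -/
noncomputable def glu (χ : κ → E → ℝ) (g : κ → E → E) (y : E) : E :=
  if h : ∃ q, χ q y ≠ 0 then g h.choose y else y

variable {χ : κ → E → ℝ} {g : κ → E → E}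

theorem glu_zero {y : E} (h : ∀ q, χ q y = 0) : glu χ g y = y := by
  unfold glu
  rw [dif_neg]
  rintro ⟨q, hq⟩
  exact hq (h q)

theorem glu_eq (hdisj : ∀ q q', q ≠ q' → ∀ y, χ q y ≠ 0 → χ q' y = 0) {q : κ} {y : E}
    (h : χ q y ≠ 0) : glu χ g y = g q y := by
  have h' : ∃ q, χ q y ≠ 0 := ⟨q, h⟩
  unfold glu
  rw [dif_pos h']
  have e : h'.choose = q := by
    by_contra hne
    exact h (hdisj _ _ hne y h'.choose_spec)
  rw [e]

/-- a common zero on a segment -/
theorem exists_zero (hc : ∀ q, Continuous (χ q))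
    (hdisj : ∀ q q', q ≠ q' → ∀ y, χ q y ≠ 0 → χ q' y = 0) {q : κ} {y z : E} (hy : χ q y ≠ 0)
    (hz : χ q z = 0) :
    ∃ w : E, (∀ q', χ q' w = 0) ∧ ‖y - w‖ + ‖w - z‖ = ‖y - z‖ := by
  set γ : ℝ → E := fun t => y + t • (z - y) with hγ
  have hγc : Continuous γ := by fun_prop
  have h0 : γ 0 = y := by simp [hγ]
  have h1 : γ 1 = z := by simp [hγ]
  set S : Set ℝ := Icc 0 1 ∩ {t | χ q (γ t) = 0} with hS
  have hSc : IsCompact S :=
    isCompact_Icc.inter_right (isClosed_eq ((hc q).comp hγc) continuous_const)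
  have hSne : S.Nonempty := ⟨1, ⟨zero_le_one, le_rfl⟩, by
    show χ q (γ 1) = 0
    rw [h1]; exact hz⟩
  obtain ⟨t, ht, hmin⟩ := hSc.exists_isLeast hSne
  have ht0 : 0 < t := by
    rcases ht.1.1.lt_or_eq with h | h
    · exact h
    · exfalso
      have := ht.2
      rw [← h] at this
      have e : χ q (γ 0) = 0 := this
      rw [h0] at e
      exact hy e
  refine ⟨γ t, fun q' => ?_, ?_⟩
  · by_cases hq : q' = q
    · rw [hq]; exact ht.2
    · have hlt : ∀ s ∈ Ico 0 t, χ q' (γ s) = 0 := by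
        intro s hs
        refine hdisj q q' (Ne.symm hq) _ fun h => ?_
        exact absurd (hmin ⟨⟨hs.1, hs.2.le.trans ht.1.2⟩, h⟩) (not_le.2 hs.2)
      have hcl : IsClosed {s | χ q' (γ s) = 0} :=
        isClosed_eq ((hc q').comp hγc) continuous_const
      have h2 : closure (Ico 0 t) ⊆ {s | χ q' (γ s) = 0} := hcl.closure_subset_iff.2 hlt
      rw [closure_Ico ht0.ne] at h2
      exact h2 ⟨ht0.le, le_rfl⟩
  · have e1 : y - γ t = t • (y - z) := by
      simp only [hγ]
      rw [← neg_sub y z, smul_neg]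
      abel
    have e2 : γ t - z = (1 - t) • (y - z) := by
      simp only [hγ]
      rw [sub_smul, one_smul, ← neg_sub y z, smul_neg]
      abel
    rw [e1, e2, norm_smul, norm_smul, Real.norm_of_nonneg ht.1.1,
      Real.norm_of_nonneg (sub_nonneg.2 ht.1.2)]
    ring

theorem glu_lip (hc : ∀ q, Continuous (χ q))
    (hdisj : ∀ q q', q ≠ q' → ∀ y, χ q y ≠ 0 → χ q' y = 0)
    (hid : ∀ q y, χ q y = 0 → g q y = y) {K : ℝ} (hK : 1 ≤ K)
    (hg : ∀ q y z, ‖g q y - g q z‖ ≤ K * ‖y - z‖) (y z : E) :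
    ‖glu χ g y - glu χ g z‖ ≤ K * ‖y - z‖ := by
  -- one point is a common zero
  have key : ∀ y w : E, (∀ q, χ q w = 0) → ‖glu χ g y - glu χ g w‖ ≤ K * ‖y - w‖ := by
    intro y w hw
    rw [glu_zero hw]
    by_cases h : ∃ q, χ q y ≠ 0
    · obtain ⟨q, hq⟩ := h
      rw [glu_eq hdisj hq]
      have := hg q y w
      rwa [hid q w (hw q)] at this
    · push Not at h
      rw [glu_zero h]
      nlinarith [norm_nonneg (y - w)]
  by_cases h : ∃ q, χ q y ≠ 0
  · obtain ⟨q, hq⟩ := h
    by_cases hz : χ q z = 0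
    · obtain ⟨w, hw, e⟩ := exists_zero hc hdisj hq hz
      have h1 := key y w hw
      have h2 := key z w hw
      have h3 : glu χ g y - glu χ g z = (glu χ g y - glu χ g w) - (glu χ g z - glu χ g w) := by
        abel
      rw [h3]
      refine (norm_sub_le _ _).trans ?_
      rw [← e, mul_add]
      rw [norm_sub_rev z w] at h2
      linarith
    · rw [glu_eq hdisj hq, glu_eq hdisj hz]
      exact hg q y z
  · push Not at h
    have := key z y h
    rw [norm_sub_rev, norm_sub_rev y z]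
    exact this

end glue

variable {ι : Type*} [Fintype ι]

/-- **The target squeeze for many groups.** -/
theorem squeeze_family {κ : Type*} {A : κ → Type*} [∀ q, Fintype (A q)]
    (χ : κ → EuclideanSpace ℝ ι → ℝ) (L σ : κ → ℝ) (hL0 : ∀ q, 0 ≤ L q) (hσ : ∀ q, 0 ≤ σ q)
    (h01 : ∀ q y, 0 ≤ χ q y ∧ χ q y ≤ 1)
    (hL : ∀ q y z, |χ q y - χ q z| ≤ L q * ‖y - z‖)
    (hdisj : ∀ q q', q ≠ q' → ∀ y, χ q y ≠ 0 → χ q' y = 0)
    (lo hi : ∀ q, A q → ι → ℝ) (hlh : ∀ q m a, lo q m a ≤ hi q m a)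
    (hsum : ∀ q a, ∑ m, (hi q m a - lo q m a) ≤ σ q)
    (hLσ : ∀ q, L q * (Fintype.card ι * σ q) ≤ 1 / 4)
    (hone : ∀ q m, ∀ x ∈ bx (lo q m) (hi q m), ∀ y, ‖y - x‖ ≤ Fintype.card ι * σ q → χ q y = 1)
    (n : ℕ) :
    ∃ R : EuclideanSpace ℝ ι ≃ₜ EuclideanSpace ℝ ι,
      (∀ y, (∀ q, χ q y = 0) → R y = y) ∧
      (∀ q y, χ q y ≠ 0 → χ q (R y) ≠ 0 ∧ ‖R y - y‖ ≤ Fintype.card ι * σ q) ∧
      (∀ y z, ‖R y - R z‖ ≤ 3 / 2 * ‖y - z‖) ∧
      (∀ q m, ∀ y ∈ bx (lo q m) (hi q m), ∀ z ∈ bx (lo q m) (hi q m),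
        ‖R y - R z‖ ≤ (1 / 2) ^ n * ‖y - z‖) ∧
      ∃ ψ : κ → ι → ℝ → ℝ, (∀ q a, Monotone (ψ q a)) ∧
        (∀ q a x y, |ψ q a x - ψ q a y| ≤ |x - y|) ∧
        (∀ q a x, 0 ≤ ψ q a x) ∧ (∀ q a x, ψ q a x ≤ σ q) ∧
        ∀ q y, (∀ z, ‖z - y‖ ≤ Fintype.card ι * σ q → χ q z = 1) →
          ∀ a, R y a = y a - ψ q a (y a) := by
  have hex := fun q => Cwr_527.exists_squeeze_coord (hL0 q) (h01 q) (hL q) n (hσ q) (lo q) (hi q)
    (hlh q) (hsum q) (hLσ q) (hone q)
  choose R hid hnear hlip hlow hsq ψ hψ1 hψ2 hψ3 hψ4 hψ5 using hex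
  have hc : ∀ q, Continuous (χ q) := fun q =>
    (LipschitzWith.of_dist_le_mul (K := (L q).toNNReal) fun y z => by
      rw [Real.dist_eq, dist_eq_norm, Real.coe_toNNReal _ (hL0 q)]
      exact hL q y z).continuous
  have hidS : ∀ q y, χ q y = 0 → (R q).symm y = y := fun q y h => by
    rw [Homeomorph.symm_apply_eq]; exact (hid q y h).symm
  have hpres : ∀ q y, χ q y ≠ 0 → χ q (R q y) ≠ 0 := by
    intro q y h h'
    have h1 := hid q _ h'
    have h2 := (R q).injective h1
    rw [h2] at h'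
    exact h h'
  have hpresS : ∀ q y, χ q y ≠ 0 → χ q ((R q).symm y) ≠ 0 := by
    intro q y h h'
    have h1 := hid q _ h'
    rw [(R q).apply_symm_apply] at h1
    rw [← h1] at h'
    exact h h'
  have hK1 : ∀ q y z, ‖R q y - R q z‖ ≤ 3 / 2 * ‖y - z‖ := by
    intro q y z
    refine (hlip q y z).trans ?_
    have := hLσ q
    have h2 : 1 + 2 * (L q * (Fintype.card ι * σ q)) ≤ 3 / 2 := by linarith
    exact mul_le_mul_of_nonneg_right h2 (norm_nonneg _)
  have hK2 : ∀ q y z, ‖(R q).symm y - (R q).symm z‖ ≤ 4 ^ n * ‖y - z‖ := by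
    intro q y z
    have h1 := hlow q ((R q).symm y) ((R q).symm z)
    rw [(R q).apply_symm_apply, (R q).apply_symm_apply] at h1
    have h2 : (4 : ℝ) ^ n * ((1 / 4) ^ n * ‖(R q).symm y - (R q).symm z‖) ≤ 4 ^ n * ‖y - z‖ :=
      mul_le_mul_of_nonneg_left h1 (by positivity)
    rw [← mul_assoc, ← mul_pow] at h2
    norm_num at h2
    exact h2
  have hl1 := glu_lip (g := fun q y => R q y) hc hdisj hid (by norm_num : (1:ℝ) ≤ 3 / 2) hK1
  have hl2 := glu_lip (g := fun q y => (R q).symm y) hc hdisj hidS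
    (one_le_pow₀ (by norm_num : (1:ℝ) ≤ 4) : (1:ℝ) ≤ 4 ^ n) hK2
  have hc1 : Continuous (glu χ fun q y => R q y) :=
    (LipschitzWith.of_dist_le_mul (K := (3 / 2 : ℝ).toNNReal) fun y z => by
      rw [dist_eq_norm, dist_eq_norm, Real.coe_toNNReal _ (by norm_num)]
      exact hl1 y z).continuous
  have hc2 : Continuous (glu χ fun q y => (R q).symm y) :=
    (LipschitzWith.of_dist_le_mul (K := (4 ^ n : ℝ).toNNReal) fun y z => by
      rw [dist_eq_norm, dist_eq_norm, Real.coe_toNNReal _ (by positivity)]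
      exact hl2 y z).continuous
  have hone' : ∀ q m, ∀ y ∈ bx (lo q m) (hi q m), χ q y ≠ 0 := by
    intro q m y hy
    rw [hone q m y hy y (by
      rw [sub_self, norm_zero]
      exact mul_nonneg (Nat.cast_nonneg _) (hσ q))]
    exact one_ne_zero
  refine ⟨{ toFun := glu χ fun q y => R q y
            invFun := glu χ fun q y => (R q).symm y
            left_inv := ?_
            right_inv := ?_
            continuous_toFun := hc1
            continuous_invFun := hc2 }, ?_, ?_, ?_, ?_, ψ, hψ1, hψ2, hψ3, hψ4, ?_⟩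
  · intro y
    by_cases h : ∃ q, χ q y ≠ 0
    · obtain ⟨q, hq⟩ := h
      rw [glu_eq hdisj hq, glu_eq hdisj (hpres q y hq)]
      exact (R q).symm_apply_apply y
    · push Not at h
      rw [glu_zero h, glu_zero h]
  · intro y
    by_cases h : ∃ q, χ q y ≠ 0
    · obtain ⟨q, hq⟩ := h
      rw [glu_eq hdisj hq, glu_eq hdisj (hpresS q y hq)]
      exact (R q).apply_symm_apply y
    · push Not at h
      rw [glu_zero h, glu_zero h]
  · intro y h
    show glu χ (fun q y => R q y) y = y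
    exact glu_zero h
  · intro q y h
    show χ q (glu χ (fun q y => R q y) y) ≠ 0 ∧ ‖glu χ (fun q y => R q y) y - y‖ ≤ _
    rw [glu_eq hdisj h]
    exact ⟨hpres q y h, hnear q y⟩
  · exact hl1
  · intro q m y hy z hz
    show ‖glu χ (fun q y => R q y) y - glu χ (fun q y => R q y) z‖ ≤ _
    rw [glu_eq hdisj (hone' q m y hy), glu_eq hdisj (hone' q m z hz)]
    exact hsq q m y hy z hz
  · intro q y h a
    show (glu χ (fun q y => R q y) y) a = _
    have h1 : χ q y ≠ 0 := by
      rw [h y (by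
        rw [sub_self, norm_zero]
        exact mul_nonneg (Nat.cast_nonneg _) (hσ q))]
      exact one_ne_zero
    rw [glu_eq hdisj h1]
    exact hψ5 q y h a

end Crest.Agent.R096.Tsq_753
end

-- ▼ part R096/Tsq4_753

/-!
# Row 96 (S0127), p = 2: the map `R` for all patches of all good cubes (helper753)
-/

set_option autoImplicit false
set_option linter.unusedSectionVars false

open Set Metric Filter Topology
open scoped NNReal ENNReal

namespace Crest.Agent.R096.Tsq_753

open Crest.AnalysisR.VecCalc3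

/-- the cut-off -/
noncomputable def cut {E : Type*} [PseudoMetricSpace E] (K : Set E) (r : ℝ) (y : E) : ℝ :=
  max 0 (min 1 (2 - 2 / r * infDist y K))

section cut

variable {E : Type*} [PseudoMetricSpace E] {K : Set E} {r : ℝ}

theorem cut_mem (y : E) : 0 ≤ cut K r y ∧ cut K r y ≤ 1 :=
  ⟨le_max_left _ _, max_le zero_le_one (min_le_left _ _)⟩

theorem cut_lip (hr : 0 < r) (y z : E) : |cut K r y - cut K r z| ≤ 2 / r * dist y z := by
  have h1 : |infDist y K - infDist z K| ≤ dist y z := by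
    have := (lipschitz_infDist_pt K).dist_le_mul y z
    rw [NNReal.coe_one, one_mul, Real.dist_eq] at this
    exact this
  unfold cut
  calc |max 0 (min 1 (2 - 2 / r * infDist y K)) - max 0 (min 1 (2 - 2 / r * infDist z K))|
      ≤ |min 1 (2 - 2 / r * infDist y K) - min 1 (2 - 2 / r * infDist z K)| := by
        have := abs_max_sub_max_le_max 0 (min 1 (2 - 2 / r * infDist y K)) 0
          (min 1 (2 - 2 / r * infDist z K))
        refine this.trans (le_of_eq ?_)
        rw [sub_self, abs_zero]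
        exact max_eq_right (abs_nonneg _)
    _ ≤ |(2 - 2 / r * infDist y K) - (2 - 2 / r * infDist z K)| := by
        have := abs_min_sub_min_le_max 1 (2 - 2 / r * infDist y K) 1 (2 - 2 / r * infDist z K)
        rwa [sub_self, abs_zero, max_eq_right (abs_nonneg _)] at this
    _ = 2 / r * |infDist y K - infDist z K| := by
        have e : (2 - 2 / r * infDist y K) - (2 - 2 / r * infDist z K) =
            (2 / r) * -(infDist y K - infDist z K) := by ring
        rw [e, abs_mul, abs_neg, abs_of_pos (by positivity : (0:ℝ) < 2 / r)]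
    _ ≤ 2 / r * dist y z := by gcongr

theorem cut_one (hr : 0 < r) {y : E} (h : infDist y K ≤ r / 2) : cut K r y = 1 := by
  unfold cut
  have h1 : 2 / r * infDist y K ≤ 1 := by
    calc 2 / r * infDist y K ≤ 2 / r * (r / 2) := by gcongr
      _ = 1 := by field_simp
  rw [min_eq_left (by linarith), max_eq_right zero_le_one]

theorem cut_ne (hr : 0 < r) {y : E} (h : cut K r y ≠ 0) : infDist y K < r := by
  by_contra hcon
  apply h
  have h1 : 2 ≤ 2 / r * infDist y K := by
    calc 2 = 2 / r * r := by field_simp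
      _ ≤ 2 / r * infDist y K := by
          have := not_lt.1 hcon
          gcongr
  unfold cut
  rw [max_eq_left]
  exact (min_le_right _ _).trans (by linarith)

end cut

theorem norm_le_sqrt3 {v : R3} {ρ : ℝ} (hρ : 0 ≤ ρ) (h : ∀ a, |v a| ≤ ρ) : ‖v‖ ≤ 2 * ρ := by
  rw [EuclideanSpace.norm_eq]
  have h1 : ∑ i : Fin 3, ‖v i‖ ^ 2 ≤ (2 * ρ) ^ 2 := by
    have h2 : ∀ i : Fin 3, ‖v i‖ ^ 2 ≤ ρ ^ 2 := fun i => by
      have := h i
      rw [Real.norm_eq_abs]
      exact pow_le_pow_left₀ (abs_nonneg _) this 2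
    rw [Fin.sum_univ_three]
    have := h2 0
    have := h2 1
    have := h2 2
    nlinarith [sq_nonneg ρ]
  calc Real.sqrt (∑ i : Fin 3, ‖v i‖ ^ 2) ≤ Real.sqrt ((2 * ρ) ^ 2) := Real.sqrt_le_sqrt h1
    _ = 2 * ρ := Real.sqrt_sq (by positivity)

/-- **The map `R`.** -/
theorem exists_R {κ : Type*} {A : κ → Type*} [∀ q, Fintype (A q)] {La : Set R3}
    (K : κ → Set R3) (r σ : κ → ℝ) (hK : ∀ q, (K q).Nonempty) (hr : ∀ q, 0 < r q)
    (hσ0 : ∀ q, 0 ≤ σ q) (hσ : ∀ q, 24 * σ q ≤ r q)
    (hdisj : ∀ q q', q ≠ q' → Disjoint (thickening (r q) (K q)) (thickening (r q') (K q')))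
    (hLa : ∀ q, thickening (r q) (K q) ⊆ La)
    (y : ∀ q, A q → R3) (ρ : ∀ q, A q → ℝ) (hρ : ∀ q m, 0 ≤ ρ q m)
    (hsum : ∀ q, ∑ m, 2 * ρ q m ≤ σ q) (hy : ∀ q m, y q m ∈ K q) (n : ℕ) :
    ∃ R : R3 ≃ₜ R3, LipschitzWith (3 / 2) R ∧ (∀ y, R y ∈ La ↔ y ∈ La) ∧
      (∀ y, (∀ q, y ∉ thickening (r q) (K q)) → R y = y) ∧
      (∀ q, ∀ y ∈ thickening (r q) (K q), R y ∈ thickening (r q) (K q) ∧ ‖R y - y‖ ≤ 3 * σ q) ∧
      (∀ q m, ∀ z ∈ ball (y q m) (ρ q m), ∀ᶠ z' in 𝓝 z, ‖R z' - R z‖ ≤ (1 / 2) ^ n * ‖z' - z‖) ∧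
      ∃ ψ : κ → Fin 3 → ℝ → ℝ, (∀ q a, Monotone (ψ q a)) ∧
        (∀ q a x y, |ψ q a x - ψ q a y| ≤ |x - y|) ∧
        (∀ q a x, 0 ≤ ψ q a x) ∧ (∀ q a x, ψ q a x ≤ σ q) ∧
        ∀ q, ∀ y ∈ thickening (r q / 4) (K q), ∀ a, R y a = y a - ψ q a (y a) := by
  have hmem : ∀ q (δ : ℝ) (y : R3), y ∈ thickening δ (K q) ↔ infDist y (K q) < δ :=
    fun q δ y => by rw [mem_thickening_iff_infDist_lt (hK q)]
  have hcard : (Fintype.card (Fin 3) : ℝ) = 3 := by norm_num
  obtain ⟨R, h1, h2, h3, h4, ψ, g1, g2, g3, g4, g5⟩ := squeeze_family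
    (fun q => cut (K q) (r q)) (fun q => 2 / r q) σ
    (fun q => (div_pos two_pos (hr q)).le) hσ0 (fun q y => cut_mem y)
    (fun q y z => by rw [← dist_eq_norm]; exact cut_lip (hr q) y z)
    (by
      intro q q' hne y hy
      by_contra hcon
      have a1 := (hmem q _ y).2 (cut_ne (hr q) hy)
      have a2 := (hmem q' _ y).2 (cut_ne (hr q') hcon)
      exact Set.disjoint_left.1 (hdisj q q' hne) a1 a2)
    (fun q m a => y q m a - ρ q m) (fun q m a => y q m a + ρ q m)
    (fun q m a => by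
      have := hρ q m
      show y q m a - ρ q m ≤ y q m a + ρ q m
      linarith)
    (fun q a => by
      refine le_trans (le_of_eq ?_) (hsum q)
      refine Finset.sum_congr rfl fun m _ => ?_
      ring)
    (fun q => by
      rw [hcard]
      have a1 := hσ q
      have a2 := hr q
      rw [div_mul_eq_mul_div, div_le_iff₀ a2]
      linarith)
    (by
      intro q m x hx z hz
      rw [hcard] at hz
      refine cut_one (hr q) ?_
      have a1 : ‖x - y q m‖ ≤ 2 * ρ q m := by
        refine norm_le_sqrt3 (hρ q m) fun a => ?_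
        have a2 := hx a
        rw [PiLp.sub_apply, abs_le]
        exact ⟨by linarith [a2.1], by linarith [a2.2]⟩
      have a2 : 2 * ρ q m ≤ σ q := by
        refine le_trans ?_ (hsum q)
        exact Finset.single_le_sum (f := fun m => 2 * ρ q m)
          (fun m _ => mul_nonneg two_pos.le (hρ q m)) (Finset.mem_univ m)
      have a3 : infDist z (K q) ≤ dist z (y q m) := infDist_le_dist_of_mem (hy q m)
      have a4 : dist z (y q m) ≤ ‖z - x‖ + ‖x - y q m‖ := by
        rw [dist_eq_norm]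
        have e : z - y q m = (z - x) + (x - y q m) := by abel
        rw [e]; exact norm_add_le _ _
      have a5 := hσ q
      have a6 := hσ0 q
      have a7 := hr q
      linarith) n
  rw [hcard] at h2 g5
  have hid : ∀ y, (∀ q, y ∉ thickening (r q) (K q)) → R y = y := by
    intro y hy
    refine h1 y fun q => ?_
    by_contra hcon
    exact hy q ((hmem q _ y).2 (cut_ne (hr q) hcon))
  -- points of the thickening where the cut-off vanishes: none
  have hpos : ∀ q, ∀ y ∈ thickening (r q) (K q), cut (K q) (r q) y ≠ 0 := by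
    intro q y hy
    have a1 := (hmem q _ y).1 hy
    have a2 : 2 / r q * infDist y (K q) < 2 := by
      calc 2 / r q * infDist y (K q) < 2 / r q * r q := by
            have := hr q
            gcongr
        _ = 2 := by have := (hr q).ne'; field_simp
    unfold cut
    have a3 : 0 < min 1 (2 - 2 / r q * infDist y (K q)) := lt_min one_pos (by linarith)
    rw [max_eq_right a3.le]
    exact a3.ne'
  have hmaps : ∀ q, ∀ y ∈ thickening (r q) (K q),
      R y ∈ thickening (r q) (K q) ∧ ‖R y - y‖ ≤ 3 * σ q := by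
    intro q y hy
    obtain ⟨a1, a2⟩ := h2 q y (hpos q y hy)
    exact ⟨(hmem q _ _).2 (cut_ne (hr q) a1), a2⟩
  refine ⟨R, ?_, ?_, hid, hmaps, ?_, ψ, g1, g2, g3, g4, ?_⟩
  · refine LipschitzWith.of_dist_le_mul fun y z => ?_
    rw [dist_eq_norm, dist_eq_norm]
    have := h3 y z
    norm_num at this ⊢
    exact this
  · intro y
    by_cases hq : ∃ q, y ∈ thickening (r q) (K q)
    · obtain ⟨q, hq⟩ := hq
      exact ⟨fun _ => hLa q hq, fun _ => hLa q (hmaps q y hq).1⟩
    · push Not at hq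
      rw [hid y hq]
  · intro q m z hz
    have hzb : ∀ z' ∈ ball (y q m) (ρ q m), z' ∈ bx (fun a => y q m a - ρ q m)
        (fun a => y q m a + ρ q m) := by
      intro z' hz' a
      have a1 : ‖z' - y q m‖ < ρ q m := by rw [← dist_eq_norm]; exact hz'
      have a2 : |(z' - y q m) a| ≤ ‖z' - y q m‖ := by
        rw [← Real.norm_eq_abs]
        exact PiLp.norm_apply_le _ a
      rw [PiLp.sub_apply] at a2
      have a3 := abs_le.1 (a2.trans a1.le)
      exact ⟨by linarith [a3.1], by linarith [a3.2]⟩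
    filter_upwards [isOpen_ball.mem_nhds hz] with z' hz'
    exact h4 q m z' (hzb z' hz') z (hzb z hz)
  · intro q y hy a
    refine g5 q y (fun z hz => cut_one (hr q) ?_) a
    have a1 := (hmem q _ y).1 hy
    have a2 : infDist z (K q) ≤ infDist y (K q) + dist z y := by
      exact infDist_le_infDist_add_dist
    rw [dist_eq_norm] at a2
    have a3 := hσ q
    have a4 := hr q
    linarith

end Crest.Agent.R096.Tsq_753
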