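import Crest.Agent.R096.Ca1_855
import Crest.Agent.R096.P2l6_565_Mg
import Crest.Agent.R096.Tsq4_753_Mg
import Crest.Agent.R096.Gau2_812
import Mathlib
import Crest.Agent.R096.Srg1_465
import Crest.Agent.R096.Fce5_793
import Crest.Agent.R096.Fsl4_793
import Crest.Agent.R096.P2l4_565
import Crest.Agent.R096.Spr2_113
import Crest.Agent.R096.Ca5_855
import Crest.Agent.R96.Intr12_538
import Crest.Agent.R096.Srg4_465
import Crest.Agent.R96.Gdt4_538
import Crest.Agent.R096.Fsl9_793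
import Crest.Agent.R096.Ca8_855
import Crest.Agent.R096.Sk0_962
import Crest.Agent.R96.Crs1_538
import Crest.Agent.R096.Pin1_753
import Crest.Agent.R096.Gz1_812

-- ▼ part R096/Cp1_465
section

/-!
# Row 96 (S0127), p = 2: composite A (helper465; 753 #10547 (A2)), part 1

`Regs2`: the data of p = 2 on top of 855's `Regs` (one `One2` per body, groups = regions).
`Regs.exists_phi`: (A2) (1)-(3).  `Regs.exists_phiR`: (A2) (1)-(4), with the squeezes `R`.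
-/

set_option autoImplicit false
set_option linter.unusedSectionVars false

open Set Metric Topology Filter
open scoped NNReal

namespace Crest.Agent.R096.Cp_465

open Crest.Agent.R096.Msh_715 (Tiling P I)
open Crest.Agent.R096.Sk2_855 (sk1 HP Mv)
open Crest.Agent.R096.Sk3_812 (GoodT HF)
open Crest.Agent.R096.Sk3_270 (exists_col exists_min)
open Crest.Agent.R096.P2l_565 (One2 family2)
open Crest.Agent.R096.Tsk_879 (Fam2)
open Crest.Agent.R096.Pst_465 (PBox Step2 step2_final Thr)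
open Crest.Agent.R096.Ca_855

section

variable {E : Type} [NormedAddCommGroup E] [NormedSpace ℝ E] [FiniteDimensional ℝ E]
  {Om La : Set E} {ι : Type} {T : Tiling Om ι}

/-- the data of p = 2: for every body the structure `One2`; `Sg k` bounds the total radius of the
patches of the region `k` -/
structure Regs2 (T : Tiling Om ι) (La : Set E) (f : E → E) {K : Type*} (U : K → Set E)
    (u : K → ι → E → ℝ) (b : ℝ) (Sg : K → ℝ) where
  O : ∀ j : Regs.J T U, One2 T La f (P (T.H j.1.2)) (Regs.Y u b j)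
  sum : ∀ k (s : Finset (Regs.J T U)), (∀ j ∈ s, j.1.1 = k) →
    ∑ j ∈ s, (O j).C * ((O j).Fs.card * (O j).σf) ≤ Sg k
  win : ∀ j, (O j).θ0 + (O j).Fs.card * (O j).θf + 2 * ((O j).L * Sg j.1.1) <
    (O j).tm - (O j).t0
  osc : ∀ j, (O j).th + 2 * ((O j).L * Sg j.1.1) ≤ (O j).t1

variable {f fi : E → E} {K : Type*} {A : K → E ≃ᵃ[ℝ] E}
    {U V : K → Set E} {u : K → ι → E → ℝ} {C : K → ι → E} {a b : ℝ} {nc : ℕ} {t Λ : ℝ}

theorem Regs2.Sg0 {Sg : K → ℝ} (R2 : Regs2 T La f U u b Sg) (k : K) : 0 ≤ Sg k := by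
  have := R2.sum k ∅ (by simp)
  simpa using this

/-- the ball condition on the faces -/
def NearB (T : Tiling Om ι) (f : E → E) (Φ : E ≃ₜ E) {m : K → ℕ} (y : ∀ k, Fin (m k) → E)
    (ρ : ∀ k, Fin (m k) → ℝ) : Prop :=
  ∀ x ∈ Om, T.dim x = 2 → ∀ z ∈ T.cc x, (∀ᶠ w in 𝓝 z, Φ w = w) ∨
    ∃ k l, f (Φ z) ∈ ball (y k l) (ρ k l)


end

section R3

open Crest.AnalysisR.VecCalc3

variable {Om La : Set R3} {ι : Type} {T : Tiling Om ι} {f fi : R3 → R3} {K : Type*}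
  {A : K → R3 ≃ᵃ[ℝ] R3} {U V : K → Set R3} {u : K → ι → R3 → ℝ} {C : K → ι → R3} {a b : ℝ}
  {nc : ℕ} {t Λ : ℝ}


end R3

end Crest.Agent.R096.Cp_465
end

-- ▼ part R096/Gau4_812
section

/-!
# Row 96, 2SK for tiles (helper812), part 4: the box of a good level, with `a < s < b` (for p = 2)
-/

set_option autoImplicit false
set_option linter.unusedSectionVars false

open Set Metric

namespace Crest.Agent.R096.Sk3_812

open Crest.Agent.R096.Msh_715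
open Crest.Agent.R096.Ce_537
open Crest.Agent.R096.Sk2_855
open Crest.Agent.R096.Ub_113
open Crest.Agent.R096.Sk3_270 (One exists_min)

variable {E : Type} [NormedAddCommGroup E] [NormedSpace ℝ E] [FiniteDimensional ℝ E]
  {Om La : Set E} {ι : Type*} {T : Tiling Om ι} {i : ι}
  {f fi : E → E} {u : E → ℝ} {C : E} {a b : ℝ}

/-- **the box of a good level**, with the level strictly inside the interval -/
theorem GoodT.box2 (h3 : Module.finrank ℝ E = 3) (Q : GoodT T La f i u C a b) (F : HF Om La f fi)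
    {s : ℝ} (hs : s ∈ GLv T f i u a b) {ζ : ℝ} (hζ : 0 < ζ) :
    ∃ (B : UBox T La) (η : ℝ), 0 < η ∧ B.u = u ∧ s - ζ ≤ B.a ∧ B.a < s ∧ s < B.b ∧ B.b ≤ s + ζ ∧
    B.Y ⊆ {y | u y ≤ b} ∧ (∀ k, ∃ x ∈ sk1 T, u (f x) = s ∧ B.M k ⊆ closedBall (f x) ζ) ∧
    ∀ h : E → E, (∀ x ∈ Om, ‖h x - f x‖ ≤ η) → B.Ok h ∧
      ∀ x ∈ Om, T.dim x = 2 → T.cc x ⊆ P (T.H i) →
        B.NC x ∧ ∀ z ∈ T.cc x, z ∈ sk1 T → u (h z) < B.a := by
  have hsI : s ∈ Ioo a b := hs.1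
  have hs0 : 0 < s := Q.a0.trans hsI.1
  choose x hx hxs using fun k : KT T i => Q.exists_x F hsI k
  obtain ⟨ω3, ω3p, hω3⟩ := c3 F hx
  obtain ⟨ω2, ω2p, hω2⟩ := Q.c2 F hsI hx hxs
  obtain ⟨L, hL, hlip⟩ := Q.ug.lip
  -- the size of the marks
  set ε := min ζ (min (ω2 / 2) (ω3 / 2)) with hε
  have εp : 0 < ε := by positivity
  have ε1 : ε ≤ ζ := min_le_left _ _
  have ε2 : ε ≤ ω2 / 2 := (min_le_right _ _).trans (min_le_left _ _)
  have ε3 : ε ≤ ω3 / 2 := (min_le_right _ _).trans (min_le_right _ _)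
  choose ω hω w1 hw1 hpos hsmall using fun k : KT T i =>
    Q.ug.exists_Mk (y0 := f (x k)) (by rw [hxs]; exact hs0) εp
  obtain ⟨w2, w2p, hw2⟩ := exists_min w1 hw1
  obtain ⟨ω0, ω0p, hω0⟩ := exists_min ω hω
  obtain ⟨w3, w3p, hw3⟩ := Q.c1 F hs hx hxs (ω := fun k => ω k / 2) fun k => by
    have := hω k
    positivity
  set w := min (min w2 (w3 / 2)) (min ζ (min ((s - a) / 4) ((b - s) / 4))) with hw
  have hsa : 0 < s - a := sub_pos.2 hsI.1
  have hsb : 0 < b - s := sub_pos.2 hsI.2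
  have wp : 0 < w := by positivity
  have wa : w ≤ w2 := (min_le_left _ _).trans (min_le_left _ _)
  have wb : w ≤ w3 / 2 := (min_le_left _ _).trans (min_le_right _ _)
  have wc : w ≤ ζ := (min_le_right _ _).trans (min_le_left _ _)
  have wd : w ≤ (s - a) / 4 := (min_le_right _ _).trans ((min_le_right _ _).trans (min_le_left _ _))
  have we : w ≤ (b - s) / 4 := (min_le_right _ _).trans ((min_le_right _ _).trans (min_le_right _ _))
  set η := min (w / L) (min (ω0 / 2) ε) with hη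
  have ηp : 0 < η := by positivity
  have ηa : L * η ≤ w := by
    have : η ≤ w / L := min_le_left _ _
    calc L * η ≤ L * (w / L) := mul_le_mul_of_nonneg_left this hL.le
      _ = w := mul_div_cancel₀ _ hL.ne'
  have ηb : η ≤ ω0 / 2 := (min_le_right _ _).trans (min_le_left _ _)
  have ηc : η ≤ ε := (min_le_right _ _).trans (min_le_right _ _)
  have hMs : ∀ k, Mk u C (f (x k)) (ω k) (s - w) (s + w) ⊆ closedBall (f (x k)) ε := by
    intro k
    refine hsmall k _ _ ?_ ?_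
    · rw [hxs]; linarith [hw2 k]
    · rw [hxs]; linarith [hw2 k]
  have hsw : 0 ≤ s - w := by
    have := Q.a0
    linarith
  let B : UBox T La :=
    { u := u
      cont := Q.ug.cont
      pl := Q.ug.pl
      a := s - w
      b := s + w
      ab := by linarith
      cpt := Q.ug.cpt _
      ball := fun t ht => by
        have h1 := Q.ug.ball t (lt_of_le_of_lt hsw ht.1)
        rwa [h3] at h1
      sub := fun y hy => Q.sub y (hy.trans (by linarith))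
      K := KT T i
      fin := inferInstance
      e := fun k => k.1.pt
      eOm := fun k => k.eOm
      edim := fun k => k.edim
      einj := fun k k' h => KT.inj h
      M := fun k => Mk u C (f (x k)) (ω k) (s - w) (s + w)
      Mc := fun k => Q.ug.isCompact_Mk (hpos k)
      Mdisj := fun k k' hne => by
        rw [Set.disjoint_left]
        intro z hz hz'
        have h1 := hω3 k k' hne
        have h4 := hMs k hz
        have h5 := hMs k' hz'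
        rw [mem_closedBall, dist_eq_norm] at h4 h5
        have h2 : ‖f (x k) - f (x k')‖ ≤ ε + ε := by
          have e : f (x k) - f (x k') = (z - f (x k')) - (z - f (x k)) := by abel
          rw [e]
          exact (norm_sub_le _ _).trans (add_le_add h5 h4)
        linarith
      Mlev := fun k t ht => Q.ug.Mk_level hsw (hpos k) ht (hω k).le
      two := Q.tg.two
      conn := Q.tg.conn }
  refine ⟨B, η, ηp, rfl, ?_, by show s - w < s; linarith, by show s < s + w; linarith, ?_, ?_, ?_, ?_⟩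
  · show s - ζ ≤ s - w
    linarith
  · show s + w ≤ s + ζ
    linarith
  · intro y (hy : u y ≤ s + w)
    show u y ≤ b
    linarith
  · intro k
    exact ⟨x k, cc_sub_sk1 k.eOm k.edim (T.oc_sub_cc _ (hx k)), hxs k,
      (hMs k).trans (closedBall_subset_closedBall ε1)⟩
  · intro h hh
    have hcmp : ∀ z ∈ Om, |u (h z) - u (f z)| ≤ w := fun z hz =>
      (hlip _ _).trans ((mul_le_mul_of_nonneg_left (hh z hz) hL.le).trans ηa)
    refine ⟨⟨fun z hz hsh => ?_, fun k => ?_, fun z hz _ hn k => ?_⟩, fun z hz hd hF => ⟨?_, ?_⟩⟩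
    · -- edges
      have h1 : s - w ≤ u (h z) := hsh.1
      have h2 : u (h z) ≤ s + w := hsh.2
      have h4 := abs_le.1 (hcmp z hz.1)
      have h5 : |u (f z) - s| ≤ w3 := by
        rw [abs_le]
        constructor <;> linarith [h4.1, h4.2]
      have h6 := Q.loc z hz (by linarith [h4.2]) (by linarith [h4.1])
      obtain ⟨k, hk⟩ := exists_KT h6
      refine ⟨k, hk, ?_⟩
      have h7 := hw3 k z (T.oc_sub_cc _ hk) h5
      refine mem_Mk ?_ (hpos k) h1 h2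
      rw [mem_closedBall, dist_eq_norm]
      have e1 : h z - f (x k) = (h z - f z) + (f z - f (x k)) := by abel
      rw [e1]
      refine (norm_add_le _ _).trans ?_
      linarith [hh z hz.1, hω0 k]
    · -- ends
      obtain ⟨v, hv, v', hv', dv, dv', hvi, hvi'⟩ := crs_ends k.crs
      refine ⟨v, hv, v', hv', dv, dv', ?_, ?_⟩
      · have h1 := Q.inn v (cc_sub_sk1 k.eOm k.edim hv) hvi
        have h4 := abs_le.1 (hcmp v (T.cc_sub_Om k.eOm hv))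
        show u (h v) < s - w
        linarith [h4.2]
      · have h1 := Q.outv _ k.crs v' hv' dv' hvi'
        have h4 := abs_le.1 (hcmp v' (T.cc_sub_Om k.eOm hv'))
        show s + w < u (h v')
        linarith [h4.1]
    · -- faces
      rw [Set.disjoint_left]
      rintro _ ⟨y, hy, rfl⟩ hyM
      have h1 := hω2 k z hz hn y hy
      have h2 := hMs k hyM
      rw [mem_closedBall, dist_eq_norm] at h2
      have h4 := hh y (T.cc_sub_Om hz hy)
      have h5 : ‖f y - f (x k)‖ ≤ ‖h y - f (x k)‖ + ‖h y - f y‖ := by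
        have e1 : f y - f (x k) = (h y - f (x k)) - (h y - f y) := by abel
        rw [e1]
        exact norm_sub_le _ _
      linarith
    · intro k hk
      exact k.crs.2.2.1 (hF hk)
    · intro y hy hy1
      have h1 := Q.inn y hy1 (hF hy)
      have h4 := abs_le.1 (hcmp y (T.cc_sub_Om hz hy))
      show u (h y) < s - w
      linarith [h4.2]

end Crest.Agent.R096.Sk3_812
end

-- ▼ part R096/Ptc1_160
section

/-!
# P2-PATCH: the boundary of a convex body minus a small ball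

The points of the boundary of a convex body which are far from a ball lie in one preconnected
subset of the boundary which misses the ball (antipode + radial projection of segments).
-/

set_option autoImplicit false

open Set Metric Topology
open scoped NNReal

namespace Crest.Agent.R096.Ptc_160

variable {E : Type*} [NormedAddCommGroup E] [NormedSpace ℝ E]

/-- Radial projection to `{gauge K = 1}`. -/
noncomputable def rad (K : Set E) (x : E) : E := (gauge K x)⁻¹ • x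

section body

variable {K : Set E} {r R : ℝ}

theorem absorbent_of_ball (hr : 0 < r) (h1 : ball (0 : E) r ⊆ K) : Absorbent ℝ K :=
  (absorbent_ball_zero hr).mono h1

omit [NormedSpace ℝ E] in
theorem nhds_of_ball (hr : 0 < r) (h1 : ball (0 : E) r ⊆ K) : K ∈ 𝓝 (0 : E) :=
  Filter.mem_of_superset (ball_mem_nhds _ hr) h1

theorem gpos (hr : 0 < r) (h1 : ball (0 : E) r ⊆ K) (h2 : K ⊆ closedBall 0 R) {x : E}
    (hx : x ≠ 0) : 0 < gauge K x :=
  (gauge_pos (absorbent_of_ball hr h1)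
    (NormedSpace.isVonNBounded_of_isBounded ℝ ((isBounded_closedBall).subset h2))).2 hx

theorem glip (hc : Convex ℝ K) (hr : 0 < r) (h1 : ball (0 : E) r ⊆ K) (x y : E) :
    |gauge K x - gauge K y| ≤ ‖x - y‖ / r := by
  lift r to ℝ≥0 using hr.le
  have h := (hc.lipschitzWith_gauge (r := r) (by exact_mod_cast hr) h1).dist_le_mul x y
  rw [Real.dist_eq, dist_eq_norm] at h
  refine h.trans (le_of_eq ?_)
  rw [NNReal.coe_inv]
  ring

theorem gsmul (a : ℝ) (ha : 0 ≤ a) (x : E) : gauge K (a • x) = a * gauge K x := by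
  rw [gauge_smul_of_nonneg ha, smul_eq_mul]

theorem gauge_rad (hr : 0 < r) (h1 : ball (0 : E) r ⊆ K) (h2 : K ⊆ closedBall 0 R) {x : E}
    (hx : x ≠ 0) : gauge K (rad K x) = 1 := by
  have h := gpos hr h1 h2 hx
  rw [rad, gsmul _ (inv_nonneg.2 h.le), inv_mul_cancel₀ h.ne']

theorem rad_of_eq {x : E} (hx : gauge K x = 1) : rad K x = x := by
  rw [rad, hx, inv_one, one_smul]

theorem ne_zero_of_gauge {x : E} (hx : gauge K x = 1) : x ≠ 0 := by
  rintro rfl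
  rw [gauge_zero] at hx
  exact zero_ne_one hx

theorem continuousOn_rad (hc : Convex ℝ K) (hr : 0 < r) (h1 : ball (0 : E) r ⊆ K)
    (h2 : K ⊆ closedBall 0 R) : ContinuousOn (rad K) {0}ᶜ := by
  refine ContinuousOn.smul (ContinuousOn.inv₀ ?_ ?_) continuousOn_id
  · exact (continuous_gauge hc (nhds_of_ball hr h1)).continuousOn
  · intro x hx
    exact (gpos hr h1 h2 hx).ne'

theorem norm_le_of_gauge (hc : Convex ℝ K) (hr : 0 < r) (h1 : ball (0 : E) r ⊆ K)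
    (h2 : K ⊆ closedBall 0 R) {x : E} (hx : gauge K x = 1) : ‖x‖ ≤ R := by
  have h : x ∈ closure K :=
    (gauge_le_one_iff_mem_closure hc (nhds_of_ball hr h1)).1 hx.le
  have := closure_minimal h2 isClosed_closedBall h
  rwa [mem_closedBall_zero_iff] at this

theorem le_norm_of_gauge (h1 : ball (0 : E) r ⊆ K) {x : E}
    (hx : gauge K x = 1) : r ≤ ‖x‖ := by
  by_contra hlt
  push Not at hlt
  have : x ∈ interior K :=
    mem_interior.2 ⟨ball 0 r, h1, isOpen_ball, by rwa [mem_ball_zero_iff]⟩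
  exact (interior_subset_gauge_lt_one K this).out.ne hx

/-- Key estimate: if the radial projection of a point of the segment from `w` to the antipode of
`p` is close to `p`, then `w` is close to `p`. -/
theorem key (hc : Convex ℝ K) (hr : 0 < r) (h1 : ball (0 : E) r ⊆ K) (h2 : K ⊆ closedBall 0 R)
    {p w m : E} (hp : gauge K p = 1) (hw : gauge K w = 1) {τ g l d : ℝ} (hτ0 : 0 ≤ τ)
    (hτ1 : τ < 1) (hg : 0 < g) (hl : 0 ≤ l) (hd : d ≤ r / 2)
    (he : (1 - τ) • w - (τ * l) • p = g • m) (hm : ‖m - p‖ ≤ d) :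
    ‖w - p‖ ≤ 2 * d * (1 + R / r) := by
  have h1τ : 0 < 1 - τ := by linarith
  set α : ℝ := (g + τ * l) / (1 - τ) with hα
  set β : ℝ := g / (1 - τ) with hβ
  have hd0 : 0 ≤ d := (norm_nonneg _).trans hm
  have hβ0 : 0 < β := by positivity
  have hβα : β ≤ α := by
    rw [hα, hβ]
    apply div_le_div_of_nonneg_right _ h1τ.le
    have : 0 ≤ τ * l := mul_nonneg hτ0 hl
    linarith
  have hw' : w = α • p + β • (m - p) := by
    have h3 : (1 - τ) • w = (g + τ * l) • p + g • (m - p) := by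
      have : (1 - τ) • w = g • m + (τ * l) • p := by rw [← he]; abel
      rw [this, add_smul, smul_sub]; abel
    have h4 : w = (1 - τ)⁻¹ • ((1 - τ) • w) := by
      rw [smul_smul, inv_mul_cancel₀ h1τ.ne', one_smul]
    rw [h4, h3, smul_add, smul_smul, smul_smul, hα, hβ, div_eq_inv_mul, div_eq_inv_mul]
  have h5 : ‖w - α • p‖ ≤ β * d := by
    have : w - α • p = β • (m - p) := by
      nth_rewrite 1 [hw']; abel
    rw [this, norm_smul, Real.norm_of_nonneg hβ0.le]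
    exact mul_le_mul_of_nonneg_left hm hβ0.le
  have hα0 : 0 ≤ α := hβ0.le.trans hβα
  have h6 : |1 - α| ≤ β * d / r := by
    have := glip hc hr h1 w (α • p)
    rw [hw, gsmul _ hα0, hp, mul_one] at this
    exact this.trans (div_le_div_of_nonneg_right h5 hr.le)
  have h7 : α ≤ 2 := by
    have h8 : α - 1 ≤ β * d / r := by
      have := neg_le_abs (1 - α)
      linarith
    have h9 : β * d / r ≤ α / 2 := by
      rw [div_le_iff₀ hr]
      calc β * d ≤ α * (r / 2) := mul_le_mul hβα hd hd0 hα0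
        _ = α / 2 * r := by ring
    linarith
  have hβ2 : β ≤ 2 := hβα.trans h7
  have hpR : ‖p‖ ≤ R := norm_le_of_gauge hc hr h1 h2 hp
  have hR0 : 0 ≤ R := (norm_nonneg p).trans hpR
  have h10 : ‖w - p‖ ≤ ‖w - α • p‖ + ‖(α - 1) • p‖ := by
    have : w - p = (w - α • p) + (α - 1) • p := by
      rw [sub_smul, one_smul]; abel
    rw [this]; exact norm_add_le _ _
  have h11 : ‖(α - 1) • p‖ ≤ β * d / r * R := by
    rw [norm_smul, Real.norm_eq_abs, abs_sub_comm]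
    exact mul_le_mul h6 hpR (norm_nonneg _) (by positivity)
  calc ‖w - p‖ ≤ β * d + β * d / r * R := h10.trans (add_le_add h5 h11)
    _ = β * (d * (1 + R / r)) := by field_simp
    _ ≤ 2 * (d * (1 + R / r)) := mul_le_mul_of_nonneg_right hβ2 (by positivity)
    _ = 2 * d * (1 + R / r) := by ring

/-- One path: from a far point `w` to the antipode of `p`. -/
theorem path (hc : Convex ℝ K) (hr : 0 < r) (h1 : ball (0 : E) r ⊆ K) (h2 : K ⊆ closedBall 0 R)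
    {p w : E} (hp : gauge K p = 1) (hw : gauge K w = 1) {d : ℝ} (hd0 : 0 ≤ d) (hd : d ≤ r / 2)
    (hfar : 2 * d * (1 + R / r) < ‖w - p‖) :
    ∃ S : Set E, IsPreconnected S ∧ rad K (-p) ∈ S ∧ w ∈ S ∧
      ∀ m ∈ S, gauge K m = 1 ∧ d < ‖m - p‖ := by
  have hp0 : p ≠ 0 := ne_zero_of_gauge hp
  have hnp0 : -p ≠ 0 := neg_ne_zero.2 hp0
  have hw0 : w ≠ 0 := ne_zero_of_gauge hw
  set l : ℝ := (gauge K (-p))⁻¹ with hl
  have hl0 : 0 < l := inv_pos.2 (gpos hr h1 h2 hnp0)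
  have hq : rad K (-p) = -(l • p) := by rw [rad, smul_neg]
  have hpR : ‖p‖ ≤ R := norm_le_of_gauge hc hr h1 h2 hp
  have hR0 : 0 ≤ R := (norm_nonneg p).trans hpR
  -- points of the segment
  have hseg : ∀ x ∈ segment ℝ w (rad K (-p)), ∃ τ, 0 ≤ τ ∧ τ ≤ 1 ∧
      x = (1 - τ) • w - (τ * l) • p := by
    rintro x ⟨a, b, ha, hb, hab, rfl⟩
    refine ⟨b, hb, by linarith, ?_⟩
    rw [hq, show (1 - b) = a by linarith, smul_neg, smul_smul, sub_eq_add_neg]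
  have hx0 : ∀ x ∈ segment ℝ w (rad K (-p)), x ≠ 0 := by
    intro x hx h0
    obtain ⟨τ, hτ0, hτ1, hxe⟩ := hseg x hx
    rw [h0] at hxe
    have h3 : (1 - τ) • w = (τ * l) • p := (sub_eq_zero.1 hxe.symm)
    have h4 : (1 - τ) = τ * l := by
      have := congrArg (gauge K) h3
      rwa [gsmul _ (by linarith), gsmul _ (by positivity), hw, hp, mul_one, mul_one] at this
    have h5 : (1 - τ) ≠ 0 := by
      intro h6
      have h7 : τ = 1 := by linarith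
      rw [h6, h7, one_mul] at h4
      exact hl0.ne h4
    have h8 : w = p := by
      rw [← h4] at h3
      exact smul_right_injective E h5 h3
    rw [h8, sub_self, norm_zero] at hfar
    have : 0 ≤ 2 * d * (1 + R / r) := by positivity
    linarith
  refine ⟨rad K '' segment ℝ w (rad K (-p)), ?_, ?_, ?_, ?_⟩
  · refine (convex_segment _ _).isPreconnected.image _ ((continuousOn_rad hc hr h1 h2).mono ?_)
    intro x hx
    exact hx0 x hx
  · exact ⟨_, right_mem_segment ℝ _ _, rad_of_eq (gauge_rad hr h1 h2 hnp0)⟩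
  · exact ⟨_, left_mem_segment ℝ _ _, rad_of_eq hw⟩
  · rintro m ⟨x, hx, rfl⟩
    have hxn := hx0 x hx
    refine ⟨gauge_rad hr h1 h2 hxn, ?_⟩
    by_contra hlt
    push Not at hlt
    obtain ⟨τ, hτ0, hτ1, hxe⟩ := hseg x hx
    have hgx := gpos hr h1 h2 hxn
    rcases hτ1.lt_or_eq with hτ | hτ
    · have he : (1 - τ) • w - (τ * l) • p = gauge K x • rad K x := by
        rw [← hxe, rad, smul_smul, mul_inv_cancel₀ hgx.ne', one_smul]
      exact absurd (key hc hr h1 h2 hp hw hτ0 hτ hgx hl0.le hd he hlt) (not_le.2 hfar)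
    · have hx' : x = rad K (-p) := by
        rw [hxe, hτ, hq, sub_self, zero_smul, one_mul, zero_sub]
      rw [hx', rad_of_eq (gauge_rad hr h1 h2 hnp0), hq] at hlt
      have h3 : -(l • p) - p = -((l + 1) • p) := by rw [add_smul, one_smul]; abel
      rw [h3, norm_neg, norm_smul, Real.norm_of_nonneg (by positivity)] at hlt
      have h4 := le_norm_of_gauge h1 hp
      nlinarith

/-- The level set of the gauge is preconnected. -/
theorem preconn (hrank : 1 < Module.rank ℝ E) (hc : Convex ℝ K) (hr : 0 < r)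
    (h1 : ball (0 : E) r ⊆ K) (h2 : K ⊆ closedBall 0 R) :
    IsPreconnected {x | gauge K x = 1} := by
  have : {x | gauge K x = 1} = rad K '' sphere (0 : E) 1 := by
    ext x
    constructor
    · intro hx
      have hx0 : x ≠ 0 := ne_zero_of_gauge hx
      have hn : 0 < ‖x‖ := norm_pos_iff.2 hx0
      refine ⟨‖x‖⁻¹ • x, ?_, ?_⟩
      · rw [mem_sphere_zero_iff_norm, norm_smul, norm_inv, norm_norm, inv_mul_cancel₀ hn.ne']
      · have hx1 : gauge K x = 1 := hx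
        rw [rad, gsmul _ (inv_nonneg.2 hn.le), hx1, mul_one, inv_inv, smul_smul,
          mul_inv_cancel₀ hn.ne', one_smul]
    · rintro ⟨y, hy, rfl⟩
      refine gauge_rad hr h1 h2 ?_
      rintro rfl
      rw [mem_sphere_zero_iff_norm, norm_zero] at hy
      exact zero_ne_one hy
  rw [this]
  refine (isPreconnected_sphere hrank 0 1).image _ ((continuousOn_rad hc hr h1 h2).mono ?_)
  intro y hy h0
  rw [mem_singleton_iff] at h0
  rw [h0, mem_sphere_zero_iff_norm, norm_zero] at hy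
  exact zero_ne_one hy

/-- **P2-PATCH for a gauge.** -/
theorem patch_gauge (hrank : 1 < Module.rank ℝ E) (hc : Convex ℝ K) (hr : 0 < r)
    (h1 : ball (0 : E) r ⊆ K) (h2 : K ⊆ closedBall 0 R) (y : E) {ρ : ℝ} (hρ : 0 < ρ) :
    ∃ S : Set E, IsPreconnected S ∧ S ⊆ {z | gauge K z = 1} \ closedBall y ρ ∧
      {z | gauge K z = 1} \ closedBall y (8 * (1 + R / r) * ρ) ⊆ S := by
  by_cases hne : ({z | gauge K z = 1} ∩ closedBall y ρ).Nonempty
  · obtain ⟨p, hp, hpy⟩ := hne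
    replace hp : gauge K p = 1 := hp
    rw [mem_closedBall, dist_eq_norm] at hpy
    have hpR : ‖p‖ ≤ R := norm_le_of_gauge hc hr h1 h2 hp
    have hR0 : 0 ≤ R := (norm_nonneg p).trans hpR
    have hRr : 0 ≤ R / r := by positivity
    have hfar' : ∀ z ∉ closedBall y (8 * (1 + R / r) * ρ), 7 * ρ + 8 * (R / r) * ρ < ‖z - p‖ := by
      intro z hz
      rw [mem_closedBall, dist_eq_norm, not_le] at hz
      have h3 : ‖z - y‖ ≤ ‖z - p‖ + ‖p - y‖ := by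
        have : z - y = (z - p) + (p - y) := by abel
        rw [this]; exact norm_add_le _ _
      nlinarith
    by_cases hρr : 2 * ρ ≤ r / 2
    · have hpath : ∀ z ∈ {z | gauge K z = 1} \ closedBall y (8 * (1 + R / r) * ρ),
          ∃ S : Set E, IsPreconnected S ∧ rad K (-p) ∈ S ∧ z ∈ S ∧
            ∀ m ∈ S, gauge K m = 1 ∧ 2 * ρ < ‖m - p‖ := by
        rintro z ⟨hz1, hz2⟩
        refine path hc hr h1 h2 hp hz1 (by positivity) hρr ?_
        have h4 := hfar' z hz2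
        have h5 : 2 * (2 * ρ) * (1 + R / r) ≤ 7 * ρ + 8 * (R / r) * ρ := by
          have : 0 ≤ R / r * ρ := by positivity
          nlinarith
        linarith
      choose! S hS using hpath
      set Z := {z | gauge K z = 1} \ closedBall y (8 * (1 + R / r) * ρ) with hZ
      refine ⟨⋃ z ∈ Z, S z, ?_, ?_, ?_⟩
      · refine isPreconnected_of_forall_pair ?_
        intro a ha b hb
        rw [mem_iUnion₂] at ha hb
        obtain ⟨z, hz, haz⟩ := ha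
        obtain ⟨z', hz', hbz⟩ := hb
        refine ⟨S z ∪ S z', union_subset (subset_biUnion_of_mem hz) (subset_biUnion_of_mem hz'),
          Or.inl haz, Or.inr hbz, ?_⟩
        exact (hS z hz).1.union _ (hS z hz).2.1 (hS z' hz').2.1 (hS z' hz').1
      · intro m hm
        rw [mem_iUnion₂] at hm
        obtain ⟨z, hz, hmz⟩ := hm
        obtain ⟨h3, h4⟩ := (hS z hz).2.2.2 m hmz
        refine ⟨h3, fun h5 => ?_⟩
        rw [mem_closedBall, dist_eq_norm] at h5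
        have h6 : ‖m - p‖ ≤ ‖m - y‖ + ‖p - y‖ := by
          have : m - p = (m - y) - (p - y) := by abel
          rw [this]; exact norm_sub_le _ _
        linarith
      · intro z hz
        exact mem_biUnion hz (hS z hz).2.2.1
    · refine ⟨∅, isPreconnected_empty, empty_subset _, ?_⟩
      rintro z ⟨hz1, hz2⟩
      exfalso
      have h4 := hfar' z hz2
      have hzR : ‖z‖ ≤ R := norm_le_of_gauge hc hr h1 h2 hz1
      have h5 : ‖z - p‖ ≤ 2 * R := (norm_sub_le _ _).trans (by linarith)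
      have h6 : R ≤ 4 * (R / r) * ρ := by
        rw [mul_assoc, div_mul_eq_mul_div, ← mul_div_assoc, le_div_iff₀ hr]
        have h7 : r ≤ 4 * ρ := by linarith
        nlinarith
      linarith
  · refine ⟨{z | gauge K z = 1}, preconn hrank hc hr h1 h2, ?_, fun _ hz => hz.1⟩
    intro z hz
    exact ⟨hz, fun h => hne ⟨z, hz, h⟩⟩

end body

/-- Level sets of a convex function as level sets of a gauge. -/
theorem level_eq {u : E → ℝ} (hu : Continuous u) (hc : ConvexOn ℝ univ u) {t r : ℝ}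
    (ho : u 0 < t) (hr : 0 < r) (h1 : ball (0 : E) r ⊆ {y | u y ≤ t}) :
    {z | u z = t} = {z | gauge {y | u y ≤ t} z = 1} := by
  set K : Set E := {y | u y ≤ t} with hK
  have hKc : Convex ℝ K := by
    have := hc.convex_le t
    simpa [hK] using this
  have hK0 : K ∈ 𝓝 (0 : E) := nhds_of_ball hr h1
  have hcl : IsClosed K := isClosed_le hu continuous_const
  ext z
  show u z = t ↔ gauge K z = 1
  rw [gauge_eq_one_iff_mem_frontier hKc hK0]
  constructor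
  · intro hz
    refine ⟨subset_closure hz.le, fun hi => ?_⟩
    -- push beyond `z`
    have hg : gauge K z < 1 := (interior_subset_gauge_lt_one K hi).out
    obtain ⟨s, hs1, hs⟩ : ∃ s : ℝ, 1 < s ∧ s • z ∈ K := by
      have hcont : Continuous fun s : ℝ => s • z := by fun_prop
      have h2 : ∀ᶠ s in 𝓝 (1 : ℝ), s • z ∈ interior K :=
        hcont.continuousAt.eventually_mem (isOpen_interior.mem_nhds (by simpa using hi))
      obtain ⟨ε, hε, h3⟩ := Metric.eventually_nhds_iff.1 h2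
      refine ⟨1 + ε / 2, by linarith, interior_subset (h3 ?_)⟩
      rw [Real.dist_eq, add_sub_cancel_left, abs_of_pos (by positivity)]
      linarith
    have hs0 : 0 < s := by linarith
    have h4 := hc.2 (mem_univ (s • z)) (mem_univ (0 : E)) (inv_nonneg.2 hs0.le)
      (sub_nonneg.2 (inv_le_one_of_one_le₀ hs1.le)) (by ring : s⁻¹ + (1 - s⁻¹) = 1)
    rw [smul_smul, inv_mul_cancel₀ hs0.ne', one_smul, smul_zero, add_zero, smul_eq_mul,
      smul_eq_mul] at h4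
    have h5 : u (s • z) ≤ t := hs
    have h6 : 0 < 1 - s⁻¹ := sub_pos.2 (inv_lt_one_of_one_lt₀ hs1)
    have h7 : u z < t := by
      have h8 : s⁻¹ * u (s • z) ≤ s⁻¹ * t := mul_le_mul_of_nonneg_left h5 (inv_nonneg.2 hs0.le)
      have h9 : (1 - s⁻¹) * u 0 < (1 - s⁻¹) * t := mul_lt_mul_of_pos_left ho h6
      nlinarith
    exact h7.ne hz
  · rintro ⟨hz1, hz2⟩
    rw [hcl.closure_eq] at hz1
    have hz1' : u z ≤ t := hz1
    refine le_antisymm hz1' (not_lt.1 fun hlt => hz2 ?_)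
    exact mem_interior.2 ⟨{y | u y < t}, fun y hy => (le_of_lt hy : u y ≤ t),
      isOpen_lt hu continuous_const, hlt⟩

/-- **P2-PATCH.** The points of the level set `{u = t}` of a convex function outside the ball
`closedBall y (8 (1 + R/r) ρ)` lie in one preconnected subset of `{u = t} \ closedBall y ρ`. -/
theorem patch (hrank : 1 < Module.rank ℝ E) {u : E → ℝ} (hu : Continuous u)
    (hc : ConvexOn ℝ univ u) {o : E} {t r R : ℝ} (ho : u o < t) (hr : 0 < r)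
    (h1 : ball o r ⊆ {y | u y ≤ t}) (h2 : {y | u y ≤ t} ⊆ closedBall o R) (y : E) {ρ : ℝ}
    (hρ : 0 < ρ) :
    ∃ S : Set E, IsPreconnected S ∧ S ⊆ {z | u z = t} \ closedBall y ρ ∧
      {z | u z = t} \ closedBall y (8 * (1 + R / r) * ρ) ⊆ S := by
  set v : E → ℝ := fun z => u (z + o) with hv
  have hvc : Continuous v := hu.comp (continuous_id.add continuous_const)
  have hvx : ConvexOn ℝ univ v := by
    have := hc.translate_left o
    simpa [hv, Function.comp_def, preimage_univ] using this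
  have h1' : ball (0 : E) r ⊆ {y | v y ≤ t} := by
    intro z hz
    refine h1 ?_
    rw [mem_ball, dist_eq_norm, add_sub_cancel_right]
    rwa [mem_ball_zero_iff] at hz
  have h2' : {y | v y ≤ t} ⊆ closedBall (0 : E) R := by
    intro z hz
    have := h2 (show z + o ∈ {y | u y ≤ t} from hz)
    rw [mem_closedBall, dist_eq_norm, add_sub_cancel_right] at this
    rwa [mem_closedBall_zero_iff]
  have hKc : Convex ℝ {y | v y ≤ t} := by
    have := hvx.convex_le t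
    simpa using this
  have hlev := level_eq hvc hvx (by simpa [hv] using ho) hr h1'
  obtain ⟨S, hS1, hS2, hS3⟩ := patch_gauge hrank hKc hr h1' h2' (y - o) hρ
  rw [← hlev] at hS2 hS3
  refine ⟨(fun z => z + o) '' S, hS1.image _ (by fun_prop), ?_, ?_⟩
  · rintro _ ⟨z, hz, rfl⟩
    obtain ⟨h3, h4⟩ := hS2 hz
    refine ⟨h3, fun h5 => h4 ?_⟩
    rw [mem_closedBall, dist_eq_norm] at h5 ⊢
    rwa [show z - (y - o) = z + o - y by abel]
  · rintro z ⟨h3, h4⟩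
    refine ⟨z - o, hS3 ⟨?_, fun h5 => h4 ?_⟩, sub_add_cancel z o⟩
    · show u (z - o + o) = t
      rw [sub_add_cancel]; exact h3
    · rw [mem_closedBall, dist_eq_norm] at h5 ⊢
      rwa [show z - y = z - o - (y - o) by abel]

end Crest.Agent.R096.Ptc_160
end

-- ▼ part R096/Ptc2_160
section

/-!
# P2-PATCH for `Side`: a side of a small circle which misses the marks is small
-/

set_option autoImplicit false

open Set Metric

namespace Crest.Agent.R096.Ptc_160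

variable {E : Type*} [NormedAddCommGroup E] [NormedSpace ℝ E]

/-- The constant of P2-PATCH. -/
noncomputable def Cp (r R : ℝ) : ℝ := 8 * (1 + R / r)




end Crest.Agent.R096.Ptc_160
end

-- ▼ part R096/P2l8_565
section

/-!
# Row 96 (S0127), p = 2 (helper565), part 8: `One2` from 812's `GoodT` and the face data
-/

set_option autoImplicit false
set_option linter.unusedSectionVars false

open Set Metric MeasureTheory Module

namespace Crest.Agent.R096.P2l_565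

open Msh_715
open Sk2_855 (sk1 HP Mv)
open Ub_113 (UBox)
open Pst_465
open Sk3_812 (GoodT HF GLv)
open Ptc_160 (Cp)

/-- the 2-cells contained in a tile -/
def cells2 {E : Type*} [NormedAddCommGroup E] [NormedSpace ℝ E] {Om : Set E} {ι : Type*}
    (T : Tiling Om ι) (i : ι) : Set (Set E) :=
  {K | ∃ x ∈ Om, T.dim x = 2 ∧ T.cc x ⊆ P (T.H i) ∧ K = T.cc x}

theorem finite_cells2 {E : Type*} [NormedAddCommGroup E] [NormedSpace ℝ E] {Om : Set E}
    {ι : Type*} (T : Tiling Om ι) (i : ι) : (cells2 T i).Finite := by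
  refine (T.finite_cells (T.cpt i) (T.sub i)).subset ?_
  rintro _ ⟨x, hx, -, hsub, rfl⟩
  exact ⟨⟨x, hx, rfl⟩, x, T.self_mem_cc x, hsub (T.self_mem_cc x)⟩

/-- representatives of the 2-cells of a tile -/
theorem exists_reps {E : Type*} [NormedAddCommGroup E] [NormedSpace ℝ E] {Om : Set E}
    {ι : Type*} (T : Tiling Om ι) (i : ι) :
    ∃ Fs : Finset E, Fs.card ≤ (cells2 T i).ncard ∧
      (∀ x ∈ Fs, x ∈ Om ∧ T.dim x = 2 ∧ T.cc x ⊆ P (T.H i)) ∧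
      ∀ x ∈ Om, T.dim x = 2 → T.cc x ⊆ P (T.H i) → ∃ y ∈ Fs, T.cc y = T.cc x := by
  classical
  have hfin := finite_cells2 T i
  choose! rep h1 h2 h3 h4 using fun K (hK : K ∈ cells2 T i) => hK
  refine ⟨hfin.toFinset.image rep, ?_, ?_, ?_⟩
  · rw [Set.ncard_eq_toFinset_card _ hfin]
    exact Finset.card_image_le
  · intro x hx
    obtain ⟨K, hK, rfl⟩ := Finset.mem_image.1 hx
    rw [Set.Finite.mem_toFinset] at hK
    exact ⟨h1 K hK, h2 K hK, h3 K hK⟩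
  · intro x hx hd hsub
    have hK : T.cc x ∈ cells2 T i := ⟨x, hx, hd, hsub, rfl⟩
    exact ⟨rep (T.cc x), Finset.mem_image.2 ⟨_, hfin.mem_toFinset.2 hK, rfl⟩, (h4 _ hK).symm⟩

section Main

variable {E : Type} [NormedAddCommGroup E] [NormedSpace ℝ E] [FiniteDimensional ℝ E]
  {Om La : Set E} {ι : Type*} {T : Tiling Om ι} {i : ι}
  {f fi : E → E} {u : E → ℝ} {C : E} {a b : ℝ}

/-- **`One2` from a good tile and its faces** -/
theorem exists_one2 (h3 : finrank ℝ E = 3) (Q : GoodT T La f i u C a b) (F : HF Om La f fi)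
    {L : ℝ} (hL : 0 ≤ L) (lip : ∀ y z, |u y - u z| ≤ L * dist y z)
    {t0 tm th t1 : ℝ} (h0 : a ≤ t0) (hmh : tm ≤ th) (hht : th ≤ t1) (h1 : t1 ≤ b)
    {θ0 : ℝ} (hθ0 : 0 ≤ θ0)
    (bad0 : volume (Ioo t0 tm \ GLv T f i u a b) ≤ ENNReal.ofReal θ0)
    {r R : ℝ} (hr : 0 < r) (hR : 0 ≤ R) (hin : ball C r ⊆ {y | u y ≤ t0})
    (hout : {y | u y ≤ tm} ⊆ closedBall C R) {θf σf : ℝ} (hθf : 0 ≤ θf) (hσf : 0 ≤ σf)
    (hsc : ∀ x ∈ Om, T.dim x = 2 → T.cc x ⊆ P (T.H i) →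
      ∃ Bad : Set ℝ, MeasurableSet Bad ∧ volume Bad ≤ ENNReal.ofReal θf ∧
        ∀ ts ∈ Ioo t0 tm, ts ∉ Bad → ∃ (n : ℕ) (y : Fin n → E) (ρ : Fin n → ℝ),
          (∀ m, 0 < ρ m) ∧ ∑ m, ρ m ≤ σf ∧ ∃ η > 0, Cov (T.cc x) f u th ts n y ρ η)
    {D0 : ℝ} (spread : ∀ s ∈ Ioo t0 tm, ∃ x1 ∈ sk1 T, ∃ x2 ∈ sk1 T, u (f x1) = s ∧
      u (f x2) = s ∧ D0 ≤ dist (f x1) (f x2))
    {nF : ℕ} (hnF : (cells2 T i).ncard ≤ nF) (hD0 : 2 * (Cp r R * (nF * σf)) < D0) :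
    ∃ O : One2 T La f (P (T.H i)) {y | u y ≤ b}, O.u = u ∧ O.L = L ∧ O.t0 = t0 ∧ O.tm = tm ∧
      O.th = th ∧ O.t1 = t1 ∧ O.θ0 = θ0 ∧ O.C = Cp r R ∧ O.θf = θf ∧ O.σf = σf ∧
      O.Fs.card ≤ nF := by
  obtain ⟨Fs, hcard, hFs, hrep⟩ := exists_reps T i
  have hrank : 1 < Module.rank ℝ E := by
    rw [← Module.finrank_eq_rank, h3]
    norm_num
  have hu0 : u C = 0 := by
    have := Q.ug.hom 0 le_rfl C
    simpa using this
  have hCp : 0 < Cp r R := by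
    unfold Cp
    positivity
  have hc : (Fs.card : ℝ) ≤ nF := by exact_mod_cast hcard.trans hnF
  refine ⟨{ u := u
            cont := Q.ug.cont
            L := L
            L0 := hL
            lip := lip
            t0 := t0
            tm := tm
            th := th
            t1 := t1
            mh := hmh
            ht := hht
            sub1 := fun y hy => le_trans hy h1
            G := GLv T f i u a b
            θ0 := θ0
            θ00 := hθ0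
            bad0 := bad0
            fin := fun s hs => Q.fin hs
            box := fun s hs _ ζ hζ => by
              obtain ⟨B, η, g1, g2, g3, g4, g5, g6, -, g7, g8⟩ := Q.box2 h3 F hs hζ
              exact ⟨B, η, g1, g2, g3, g4, g5, g6, g7, g8⟩
            C := Cp r R
            C0 := hCp
            patch := fun t ht y ρ hρ => by
              refine Ptc_160.patch hrank Q.ug.cont Q.ug.cvx (o := C) ?_ hr
                (fun z hz => le_trans (hin hz) ht.1.le) (fun z hz => hout (le_trans hz ht.2.le))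
                y hρ
              rw [hu0]
              linarith [Q.a0, ht.1]
            Fs := Fs
            rep := hrep
            θf := θf
            σf := σf
            θf0 := hθf
            σf0 := hσf
            sc := fun x hx => hsc x (hFs x hx).1 (hFs x hx).2.1 (hFs x hx).2.2
            D0 := D0
            spread := fun s _ hs => spread s hs
            hD0 := lt_of_le_of_lt (by
              have := mul_le_mul_of_nonneg_left (mul_le_mul_of_nonneg_right hc hσf) hCp.le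
              linarith) hD0 },
    rfl, rfl, rfl, rfl, rfl, rfl, rfl, rfl, rfl, rfl, hcard.trans hnF⟩

end Main


end Crest.Agent.R096.P2l_565
end

-- ▼ part R096/Fsl5_793
section

set_option autoImplicit false
set_option linter.unusedSectionVars false
set_option maxHeartbeats 400000

open MeasureTheory Set Filter
open scoped ENNReal Topology

namespace Crest.Agent.R096.Fsl_793

open Crest.Agent.R96.Acl_392 Crest.Agent.R96.Sob4_199 Crest.Agent.R096.Sc_968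
open Crest.Agent.R096.Fce_793
open Crest.Agent.R096.Msh_715 (Tiling)
open Crest.Agent.R096.Sk2_855 (sk1)
open Crest.Agent.R096.P2l_565 (Cov)

noncomputable section

section General

variable {E : Type*} [NormedAddCommGroup E] [NormedSpace ℝ E] [FiniteDimensional ℝ E]
  [MeasurableSpace E] [BorelSpace E] {Om : Set E} {ι : Type*}

theorem pt_sub_mem (e : Fin 2 → E) (x : E) (w w' : ℝ × ℝ) :
    pt e x w - pt e x w' ∈ Submodule.span ℝ (range e) := by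
  have h1 : pt e x w - pt e x w' = (w.1 - w'.1) • e 0 + (w.2 - w'.2) • e 1 := by
    simp only [pt, sub_smul]; abel
  rw [h1]
  exact Submodule.add_mem _ (Submodule.smul_mem _ _ (Submodule.subset_span ⟨0, rfl⟩))
    (Submodule.smul_mem _ _ (Submodule.subset_span ⟨1, rfl⟩))

/-- the plane of a 2-cell -/
theorem V_eq_span {T : Tiling Om ι} {y : E} (hy : y ∈ Om) (hd : T.dim y = 2) {e : Fin 2 → E}
    {x : E} {P : Set (ℝ × ℝ)} (hli : LinearIndependent ℝ e) (h : T.cc y = pt e x '' P) :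
    T.V y = Submodule.span ℝ (range e) := by
  have h1 : T.V y ≤ Submodule.span ℝ (range e) := by
    obtain ⟨r, hr, hball⟩ := T.exists_ball_oc hy
    intro v hv
    by_cases hv0 : v = 0
    · rw [hv0]; exact Submodule.zero_mem _
    have hvn : 0 < ‖v‖ := norm_pos_iff.2 hv0
    set c : ℝ := r / (2 * ‖v‖) with hc
    have hc0 : 0 < c := by positivity
    have h2 : y + c • v ∈ T.cc y := by
      apply T.oc_sub_cc
      apply hball _ (Submodule.smul_mem _ _ hv)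
      rw [norm_smul, Real.norm_of_nonneg hc0.le, hc]
      have : r / (2 * ‖v‖) * ‖v‖ = r / 2 := by field_simp
      rw [this]
      linarith
    have h3 : y ∈ T.cc y := T.self_mem_cc y
    rw [h] at h2 h3
    obtain ⟨w, -, hw⟩ := h2
    obtain ⟨w', -, hw'⟩ := h3
    have h4 := pt_sub_mem e x w w'
    rw [hw, hw', add_sub_cancel_left] at h4
    exact (Submodule.smul_mem_iff _ hc0.ne').1 h4
  apply Submodule.eq_of_le_of_finrank_le h1
  rw [finrank_span_eq_card hli, Fintype.card_fin]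
  exact hd.ge

/-- the relative boundary of a 2-cell lies in the 1-skeleton -/
theorem face_rim {T : Tiling Om ι} {y : E} (hy : y ∈ Om) (hd : T.dim y = 2) {e : Fin 2 → E}
    {x : E} {P : Set (ℝ × ℝ)} (hli : LinearIndependent ℝ e) (h : T.cc y = pt e x '' P)
    {w : ℝ × ℝ} (hw : w ∈ P) (hwi : w ∉ interior P) : pt e x w ∈ sk1 T := by
  have hz : pt e x w ∈ T.cc y := by rw [h]; exact ⟨w, hw, rfl⟩
  have hzO : pt e x w ∈ Om := T.cc_sub_Om hy hz
  refine ⟨hzO, ?_⟩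
  by_contra hdim
  have hzo : pt e x w ∈ T.oc y := by
    by_contra hn
    have := T.dim_lt hz hn
    omega
  apply hwi
  have hV : T.V (pt e x w) = Submodule.span ℝ (range e) := by
    rw [T.V_eq_of_mem_oc hy hzo, V_eq_span hy hd hli h]
  obtain ⟨r, hr, hball⟩ := T.exists_ball_oc hzO
  have hcont := continuous_pt e x
  have h1 : ∀ᶠ w' in 𝓝 w, ‖pt e x w' - pt e x w‖ < r := by
    have h2 : ContinuousAt (fun w' => ‖pt e x w' - pt e x w‖) w :=
      ((hcont.sub continuous_const).norm).continuousAt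
    have h3 : ‖pt e x w - pt e x w‖ < r := by simpa using hr
    exact h2.eventually_lt_const h3
  rw [mem_interior_iff_mem_nhds]
  filter_upwards [h1] with w' hw'
  have h4 : pt e x w + (pt e x w' - pt e x w) ∈ T.oc (pt e x w) := by
    apply hball _ _ hw'
    rw [hV]
    exact pt_sub_mem e x w' w
  rw [add_sub_cancel, T.oc_eq_of_mem hy hzo] at h4
  have h5 := T.oc_sub_cc _ h4
  rw [h] at h5
  obtain ⟨w'', hw'', he⟩ := h5
  have := (isClosedEmbedding_pt hli x).injective he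
  rwa [← this]

end General

section R3

open Crest.AnalysisR.VecCalc3

variable {Om : Set R3} {ι : Type*}


/-- **the field `sc` of `One2`** for one 2-cell of a perfect cube -/
theorem sc_of_faceG {κf : Type*} {Ω : Set R3} {f : R3 → R3} {x : κf → R3} {e : κf → Fin 2 → R3}
    {P : κf → Set (ℝ × ℝ)} {J : Set R3} {E0 : ℝ} {a : R3} (hG : FaceG Ω f x e P J E0 a)
    (h0 : 0 ≤ E0) {E1 : ℝ} (hE1 : E0 < E1) {T : Tiling Om ι} {y : R3} (hy : y ∈ Om)
    (hd : T.dim y = 2) (φ : κf) (hli : LinearIndependent ℝ (e φ))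
    (hcc : T.cc y = pt (e φ) (a + x φ) '' P φ) (hsub : T.cc y ⊆ Ω) {u : R3 → ℝ} {L : ℝ}
    (hL : 0 ≤ L) (hu : ∀ y z, |u y - u z| ≤ L * dist y z) {t0 tm th : ℝ} (hth : tm < th)
    (hrim : ∀ z ∈ T.cc y, z ∈ sk1 T → u (f z) < t0)
    (hJ : ∀ z ∈ T.cc y, t0 ≤ u (f z) → z ∈ J) {σf θf : ℝ} (hσ : 0 < σf) (hθ : 0 < θf)
    (hE : 8 * L * E1 ≤ θf * σf) :
    ∃ Bad : Set ℝ, MeasurableSet Bad ∧ volume Bad ≤ ENNReal.ofReal θf ∧
      ∀ ts ∈ Ioo t0 tm, ts ∉ Bad → ∃ (n : ℕ) (c : Fin n → R3) (ρ : Fin n → ℝ),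
        (∀ m, 0 < ρ m) ∧ ∑ m, ρ m ≤ σf ∧ ∃ η > 0, Cov (T.cc y) f u th ts n c ρ η := by
  have h1 := hG.small hE1 h0 φ (by rw [← hcc]; exact hsub) hL hu hth
    (fun w hw hwi => hrim _ (by rw [hcc]; exact ⟨w, hw, rfl⟩) (face_rim hy hd hli hcc hw hwi))
    (fun w hw hw' => hJ _ (by rw [hcc]; exact ⟨w, hw, rfl⟩) hw') hσ hθ hE
  rw [← hcc] at h1
  exact h1

end R3

end

end Crest.Agent.R096.Fsl_793
end

-- ▼ part R096/Cp2_465
section

/-!
# Row 96 (S0127), p = 2: composite A (helper465; 753 #10547 (A2)), part 2: one tile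
-/

set_option autoImplicit false
set_option linter.unusedSectionVars false

open Set Metric MeasureTheory
open scoped ENNReal

namespace Crest.Agent.R096.Cp_465

open Crest.AnalysisR.VecCalc3
open Crest.Agent.R096.Msh_715 (Tiling P I)
open Crest.Agent.R096.Sk2_855 (sk1 HP Mv)
open Crest.Agent.R096.Sk3_812 (GoodT HF GLv Crs UG ug ug_level ug_le_one_iff ug_comp GH GH_ne)
open Crest.Agent.R096.P2l_565 (One2 cells2 exists_one2)
open Crest.Agent.R096.Ptc_160 (Cp)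
open Crest.Agent.R096.Spr_113 (NearV spread gauge_le)
open Crest.Agent.R096.Ca_855
open Crest.Agent.R96.Gdt_538 (GH_norm gau_lip)
open Crest.Agent.R096.Fsl_793
open Crest.Agent.R96.Intr_538 (cel)
open Crest.Agent.R096.Fce_793 (pt)

section gauge

variable {H : Finset ((R3 →L[ℝ] ℝ) × ℝ)} (hne : H.Nonempty) {c : R3} (hc : c ∈ I H)
  (A : R3 ≃ᵃ[ℝ] R3) {κ ρ d : ℝ}

include hc in
theorem ug_lip (hρ : 0 < ρ) (hκ : 0 < κ) (hB : closedBall c ρ ⊆ P H)
    (low : ∀ v, κ * ‖v‖ ≤ ‖A.linear v‖) (y z : R3) :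
    |ug H hne c A y - ug H hne c A z| ≤ (κ * ρ)⁻¹ * dist y z := by
  have key : ∀ y z : R3, ug H hne c A y ≤ ug H hne c A z + (κ * ρ)⁻¹ * ‖y - z‖ := fun y z =>
    gau_lip (hG := GH_ne hne c A) (GH_norm hc A hρ hκ hB low) y z
  have h1 := key y z
  have h2 := key z y
  rw [norm_sub_rev] at h2
  rw [dist_eq_norm, abs_le]
  constructor <;> linarith

include hc in
theorem ug_in (hκ : 0 < κ) (hB : closedBall c ρ ⊆ P H)
    (low : ∀ v, κ * ‖v‖ ≤ ‖A.linear v‖) {t0 : ℝ} (h0 : 1 ≤ t0) :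
    ball (A c) (κ * ρ) ⊆ {y | ug H hne c A y ≤ t0} := by
  intro y hy
  rw [mem_ball, dist_eq_norm] at hy
  refine le_trans ?_ h0
  rw [ug_le_one_iff hne hc]
  apply hB
  rw [mem_closedBall, dist_eq_norm]
  have h1 := low (A.symm y - c)
  rw [← aff_sub, A.apply_symm_apply] at h1
  by_contra hn
  rw [not_le] at hn
  have := mul_lt_mul_of_pos_left hn hκ
  linarith

include hc in
theorem ug_out (hκ : 0 < κ) (up : ∀ v, ‖A.linear v‖ ≤ κ⁻¹ * ‖v‖)
    (hD : ∀ y ∈ P H, ‖y - c‖ ≤ d) {tm : ℝ} (hm : 0 < tm) :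
    {y | ug H hne c A y ≤ tm} ⊆ closedBall (A c) (tm * (κ⁻¹ * d)) := by
  intro y hy
  rw [ug_level hne hc A hm] at hy
  obtain ⟨z, hz, rfl⟩ := hy
  rw [mem_closedBall, dist_eq_norm, add_sub_cancel_left, norm_smul, Real.norm_eq_abs,
    abs_of_pos hm, aff_sub]
  have h1 := (up (z - c)).trans (mul_le_mul_of_nonneg_left (hD z hz) (inv_pos.2 hκ).le)
  exact mul_le_mul_of_nonneg_left h1 hm.le

end gauge

/-- the constant of the patches -/
noncomputable def CC (β κ r : ℝ) : ℝ := 8 * (1 + (1 + 2 * β) * κ⁻¹ / (κ * r))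

theorem CC_pos {β κ r : ℝ} (hβ : 0 < β) (hκ : 0 < κ) (hr : 0 < r) : 0 < CC β κ r := by
  unfold CC
  positivity

section tile

variable {Om La : Set R3} {ι : Type} {T : Tiling Om ι} {f fi : R3 → R3} {i : ι}
  {κf : Type*} {J : Set R3} {xf : κf → R3} {ef : κf → Fin 2 → R3} {Pf : κf → Set (ℝ × ℝ)}
  {a0 : R3} {ε₀ : ℝ}

/-- the diameter of a tile -/
theorem diam_ge {c : R3} {ρ : ℝ} (hρ : 0 ≤ ρ) (hB : closedBall c ρ ⊆ P (T.H i)) :
    2 * ρ ≤ diam (P (T.H i)) := by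
  obtain ⟨e, he⟩ := exists_norm_eq R3 (zero_le_one (α := ℝ))
  have h1 : c + ρ • e ∈ P (T.H i) := hB (by
    rw [mem_closedBall, dist_eq_norm, add_sub_cancel_left, norm_smul, he, mul_one,
      Real.norm_of_nonneg hρ])
  have h2 : c - ρ • e ∈ P (T.H i) := hB (by
    rw [mem_closedBall, dist_eq_norm, sub_sub_cancel_left, norm_neg, norm_smul, he, mul_one,
      Real.norm_of_nonneg hρ])
  have h3 := dist_le_diam_of_mem (T.cpt i).isBounded h1 h2
  rw [dist_eq_norm, add_sub_sub_cancel] at h3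
  have h4 : ρ • e + ρ • e = (2 * ρ) • e := by module
  rw [h4, norm_smul, he, mul_one, Real.norm_of_nonneg (by linarith)] at h3
  exact h3

/-- **the data of p = 2 of one tile** -/
theorem one2_tile (F : HF Om La f fi) (hne : (T.H i).Nonempty) {c : R3} (hc : c ∈ I (T.H i))
    (A : R3 ≃ᵃ[ℝ] R3) {κ r t β η σ₂ : ℝ} {nc : ℕ} (hκ : 0 < κ) (hr : 0 < r) (ht : 0 < t)
    (hβ : 0 < β) (hσ : 0 < σ₂) (hε₀ : 0 < ε₀)
    (low : ∀ v, κ * ‖v‖ ≤ ‖A.linear v‖) (up : ∀ v, ‖A.linear v‖ ≤ κ⁻¹ * ‖v‖)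
    (hB : closedBall c (r * t) ⊆ P (T.H i))
    (hD : ∀ y ∈ P (T.H i), ∀ y' ∈ P (T.H i), ‖y - y'‖ ≤ t)
    (Q : GoodT T La f i (ug (T.H i) hne c A) (A c) (1 + β) (1 + 3 * β))
    (bad0 : volume (Ioo (1 + β) (1 + 3 * β) \
      GLv T f i (ug (T.H i) hne c A) (1 + β) (1 + 3 * β)) ≤ ENNReal.ofReal (β / 4))
    (near : ∀ e, Crs T i e → ∀ w ∈ T.cc e, ‖f w - A w‖ ≤ η * t)
    (hNV : NearV T i (ug (T.H i) hne c (AffineEquiv.refl ℝ R3)) (4 * β) (r * t / 8))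
    (hface : ∀ x ∈ Om, T.dim x = 2 → T.cc x ⊆ P (T.H i) → ∃ φ, LinearIndependent ℝ (ef φ) ∧
      T.cc x = pt (ef φ) (a0 + xf φ) '' Pf φ)
    (hG : FaceG Om f xf ef Pf J (ε₀ * t ^ 2) a0)
    (hJ : ∀ z ∈ P (T.H i), β * (κ * (r * t)) ≤ ‖f z - A z‖ → z ∈ J)
    (hnF : (cells2 T i).ncard ≤ nc)
    (n1 : 8 * η ≤ κ * r) (n2 : η ≤ 2 * β * (κ * r))
    (n3 : 8 * (CC β κ r * (nc * σ₂)) < κ * r)
    (n4 : 64 * (nc + 1) * ε₀ ≤ β * σ₂ * (κ * r)) :
    ∃ O : One2 T La f (P (T.H i)) {y | ug (T.H i) hne c A y ≤ 1 + 3 * β},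
      O.L = (κ * (r * t))⁻¹ ∧ O.t0 = 1 + β ∧ O.tm = 1 + 2 * β ∧ O.th = 1 + 5 / 2 * β ∧
      O.t1 = 1 + 3 * β ∧ O.θ0 = β / 4 ∧ O.C = CC β κ r ∧ O.θf = β / (4 * (nc + 1)) ∧
      O.σf = σ₂ * t ∧ O.Fs.card ≤ nc := by
  have hrt : 0 < r * t := mul_pos hr ht
  have hκr : 0 < κ * r := mul_pos hκ hr
  have hκrt : 0 < κ * (r * t) := mul_pos hκ hrt
  have hnc : (0 : ℝ) ≤ nc := Nat.cast_nonneg _
  have hlip := ug_lip hne hc A hrt hκ hB low
  have hcP : c ∈ P (T.H i) := hB (mem_closedBall_self hrt.le)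
  have hin := ug_in hne hc A hκ hB low (t0 := 1 + β) (by linarith)
  have hout := ug_out hne hc A hκ up (fun y hy => hD y hy c hcP) (tm := 1 + 2 * β) (by linarith)
  have hCp : Cp (κ * (r * t)) ((1 + 2 * β) * (κ⁻¹ * t)) = CC β κ r := by
    unfold Cp CC
    congr 2
    field_simp
  have hle1 : ∀ z ∈ P (T.H i), ug (T.H i) hne c A (A z) ≤ 1 := fun z hz => by
    rw [ug_le_one_iff hne hc, A.symm_apply_apply]
    exact hz
  -- faces
  have hsc : ∀ x ∈ Om, T.dim x = 2 → T.cc x ⊆ P (T.H i) →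
      ∃ Bad : Set ℝ, MeasurableSet Bad ∧ volume Bad ≤ ENNReal.ofReal (β / (4 * (nc + 1))) ∧
        ∀ ts ∈ Ioo (1 + β) (1 + 2 * β), ts ∉ Bad →
          ∃ (n : ℕ) (y : Fin n → R3) (ρ : Fin n → ℝ),
          (∀ m, 0 < ρ m) ∧ ∑ m, ρ m ≤ σ₂ * t ∧ ∃ η > 0,
          P2l_565.Cov (T.cc x) f (ug (T.H i) hne c A) (1 + 5 / 2 * β) ts n y ρ η := by
    intro x hx hd hsub
    obtain ⟨φ, hli, hcc⟩ := hface x hx hd hsub
    refine sc_of_faceG hG (by positivity) (E1 := 2 * (ε₀ * t ^ 2)) ?_ hx hd φ hli hcc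
      (T.cc_sub_Om hx) (L := (κ * (r * t))⁻¹) (inv_pos.2 hκrt).le hlip
      (by linarith) (fun z hz hzs => Q.inn z hzs (hsub hz)) (fun z hz hu => ?_)
      (by positivity) (by positivity) ?_
    · have : 0 < ε₀ * t ^ 2 := by positivity
      linarith
    · apply hJ z (hsub hz)
      have h1 := (abs_le.1 (hlip (f z) (A z))).2
      have h2 := hle1 z (hsub hz)
      rw [dist_eq_norm] at h1
      have h3 : β ≤ (κ * (r * t))⁻¹ * ‖f z - A z‖ := by linarith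
      rw [le_inv_mul_iff₀ hκrt] at h3
      linarith
    · have e1 : 8 * (κ * (r * t))⁻¹ * (2 * (ε₀ * t ^ 2)) = 16 * ε₀ / (κ * r) * t := by
        field_simp
        ring
      have e2 : β / (4 * (nc + 1)) * (σ₂ * t) = β * σ₂ / (4 * (nc + 1)) * t := by
        field_simp
      rw [e1, e2]
      refine mul_le_mul_of_nonneg_right ?_ ht.le
      rw [div_le_div_iff₀ hκr (by positivity)]
      linarith
  -- spread
  have hδ : (κ * (r * t))⁻¹ * (η * t) ≤ 2 * β := by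
    rw [inv_mul_le_iff₀ hκrt]
    have := mul_le_mul_of_nonneg_right n2 ht.le
    calc η * t ≤ 2 * β * (κ * r) * t := this
      _ = κ * (r * t) * (2 * β) := by ring
  have hspr : ∀ s ∈ Ioo (1 + β) (1 + 2 * β), ∃ x1 ∈ sk1 T, ∃ x2 ∈ sk1 T,
      ug (T.H i) hne c A (f x1) = s ∧ ug (T.H i) hne c A (f x2) = s ∧
      κ * (r * t) / 2 ≤ dist (f x1) (f x2) := by
    intro s hs
    obtain ⟨x1, h1, x2, h2, h3, h4, h5⟩ := spread Q F hNV (δ := (κ * (r * t))⁻¹ * (η * t))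
      (fun e he z hz => gauge_le (u := ug (T.H i) hne c A) (inv_pos.2 hκrt).le
        (fun y y' => by rw [← dist_eq_norm]; exact hlip y y')
        (fun x => ug_comp hne A x) (near e he z hz))
      (A := A) hκ.le (fun x y => by rw [aff_sub]; exact low _) near s
      ⟨hs.1, by linarith [hs.2]⟩ (by linarith [hs.2])
    refine ⟨x1, h1, x2, h2, h3, h4, le_trans ?_ h5⟩
    have h6 := diam_ge hrt.le hB
    have h7 : κ * (r * t) * (3 / 4) ≤ κ * (diam (P (T.H i)) / 2 - 2 * (r * t / 8)) := by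
      rw [mul_assoc]
      exact mul_le_mul_of_nonneg_left (by linarith) hκ.le
    have h8 : 8 * η * t ≤ κ * r * t := mul_le_mul_of_nonneg_right n1 ht.le
    have h9 : κ * r * t = κ * (r * t) := by ring
    linarith
  have hbad : volume (Ioo (1 + β) (1 + 2 * β) \
      GLv T f i (ug (T.H i) hne c A) (1 + β) (1 + 3 * β)) ≤ ENNReal.ofReal (β / 4) :=
    (measure_mono (sdiff_subset_sdiff_left (Ioo_subset_Ioo_right (by linarith)))).trans bad0
  obtain ⟨O, h1, h2, h3, h4, h5, h6, h7, h8, h9, h10, h11⟩ := exists_one2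
    (finrank_euclideanSpace_fin) Q F (inv_pos.2 hκrt).le hlip le_rfl
    (tm := 1 + 2 * β) (th := 1 + 5 / 2 * β) (t1 := 1 + 3 * β) (by linarith) (by linarith) le_rfl
    (θ0 := β / 4) (by positivity) hbad hκrt (by positivity) hin hout
    (θf := β / (4 * (nc + 1))) (σf := σ₂ * t) (by positivity) (by positivity) hsc hspr hnF (by
      rw [hCp]
      have h1 := mul_lt_mul_of_pos_right n3 ht
      have h2 : 8 * (CC β κ r * (nc * σ₂)) * t = 4 * (2 * (CC β κ r * (nc * (σ₂ * t)))) := by ring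
      have h3 : κ * r * t = κ * (r * t) := by ring
      rw [h2, h3] at h1
      linarith)
  rw [hCp] at h8
  exact ⟨O, h2, h3, h4, h5, h6, h7, h8, h9, h10, h11⟩

end tile

end Crest.Agent.R096.Cp_465
end

-- ▼ part R096/P2l9_565
section

/-!
# Row 96 (S0127), p = 2 (helper565), part 9: two counts

* `cells2_le`: a tile has at most as many 2-cells as it has neighbours;
* `bodies_le`: the number of tiles with inradius `r` in a cube.
-/

set_option autoImplicit false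
set_option linter.unusedSectionVars false

open Set Metric MeasureTheory Module

namespace Crest.Agent.R096.P2l_565

open Msh_715

/-- a 2-cell of the tile `i` is the intersection of the tile with one neighbour -/
theorem cells2_eq {E : Type*} [NormedAddCommGroup E] [NormedSpace ℝ E] [FiniteDimensional ℝ E]
    {Om : Set E} {ι : Type*} (T : Tiling Om ι) (h3 : finrank ℝ E = 3) {i : ι} {x : E}
    (hx : x ∈ Om) (hd : T.dim x = 2) (hi : x ∈ P (T.H i)) :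
    ∃ j, j ≠ i ∧ T.at_ x = {i, j} ∧ T.cc x = P (T.H j) ∩ P (T.H i) := by
  obtain ⟨k, l, hkl, hat, hcc⟩ := T.two_tiles hx (by omega)
  have him : i ∈ T.at_ x := hi
  rw [hat] at him
  rcases him with rfl | him
  · exact ⟨l, hkl.symm, hat, by rw [hcc, inter_comm]⟩
  · rw [mem_singleton_iff] at him
    subst him
    exact ⟨k, hkl, by rw [hat, pair_comm], hcc⟩

/-- **a tile has at most as many 2-cells as neighbours** -/
theorem cells2_le {E : Type*} [NormedAddCommGroup E] [NormedSpace ℝ E] [FiniteDimensional ℝ E]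
    {Om : Set E} {ι : Type*} (T : Tiling Om ι) (h3 : finrank ℝ E = 3) (i : ι) :
    (cells2 T i).ncard ≤ {j | (P (T.H j) ∩ P (T.H i)).Nonempty}.ncard := by
  have hfin : {j | (P (T.H j) ∩ P (T.H i)).Nonempty}.Finite := T.finite_tiles (T.cpt i) (T.sub i)
  have hsub : cells2 T i ⊆ (fun j => P (T.H j) ∩ P (T.H i)) ''
      {j | (P (T.H j) ∩ P (T.H i)).Nonempty} := by
    rintro _ ⟨x, hx, hd, hs, rfl⟩
    have hxi : x ∈ P (T.H i) := hs (T.self_mem_cc x)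
    obtain ⟨j, -, hat, hcc⟩ := cells2_eq T h3 hx hd hxi
    refine ⟨j, ⟨x, ?_, hxi⟩, hcc.symm⟩
    have : j ∈ T.at_ x := by rw [hat]; exact Or.inr rfl
    exact this
  exact (Set.ncard_le_ncard hsub (hfin.image _)).trans (Set.ncard_image_le hfin)

/-- balls in different tiles are disjoint -/
theorem disjoint_balls {E : Type*} [NormedAddCommGroup E] [NormedSpace ℝ E]
    {Om : Set E} {ι : Type*} (T : Tiling Om ι) {i j : ι} (hij : i ≠ j) {x y : E} {r r' : ℝ}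
    (hx : closedBall x r ⊆ P (T.H i)) (hy : closedBall y r' ⊆ P (T.H j)) :
    Disjoint (ball x r) (ball y r') := by
  have h1 : ball x r ⊆ I (T.H i) := by
    rw [← Srg_465.interior_P (T.ne i)]
    exact interior_maximal (ball_subset_closedBall.trans hx) isOpen_ball
  have h2 : ball y r' ⊆ I (T.H j) := by
    rw [← Srg_465.interior_P (T.ne j)]
    exact interior_maximal (ball_subset_closedBall.trans hy) isOpen_ball
  exact (T.dis i j hij).mono h1 h2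

section R3

open Crest.AnalysisR.VecCalc3 Crest.Agent.R96.Intr_538 Crest.Agent.R96.Coarse_538

/-- **the number of tiles of inradius `r` in a cube of side `2 R`** -/
theorem bodies_le {Om : Set R3} {ι : Type*} (T : Tiling Om ι) {c : ι → R3} {r R : ℝ} (hr : 0 < r)
    (hR : 0 < R) (z : R3) (s : Finset ι) (hs : ∀ i ∈ s, P (T.H i) ⊆ cel Cb z R)
    (hb : ∀ i ∈ s, closedBall (c i) r ⊆ P (T.H i)) : (s.card : ℝ) * r ^ 3 ≤ 2 * R ^ 3 := by
  have h1 : volume (⋃ i ∈ s, ball (c i) r) = ∑ i ∈ s, volume (ball (c i) r) :=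
    measure_biUnion_finset (fun i hi j hj hij => disjoint_balls T hij (hb i hi) (hb j hj))
      fun i _ => isOpen_ball.measurableSet
  have h2 : volume (⋃ i ∈ s, ball (c i) r) ≤ volume (cel Cb z R) :=
    measure_mono (iUnion₂_subset fun i hi => ball_subset_closedBall.trans ((hb i hi).trans (hs i hi)))
  have h3 : ∀ i ∈ s, ENNReal.ofReal (4 * r ^ 3) ≤ volume (ball (c i) r) := by
    intro i _
    rw [EuclideanSpace.volume_ball_fin_three, ← ENNReal.ofReal_pow hr.le,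
      ← ENNReal.ofReal_mul (by positivity)]
    apply ENNReal.ofReal_le_ofReal
    have := Real.pi_gt_three
    have h4 : (0 : ℝ) < r ^ 3 := by positivity
    nlinarith
  have h5 : ENNReal.ofReal ((s.card : ℝ) * (4 * r ^ 3)) ≤ ENNReal.ofReal ((2 * R) ^ 3) := by
    rw [← vol_cel (z := z) hR]
    refine le_trans ?_ h2
    rw [h1]
    refine le_trans ?_ (Finset.sum_le_sum h3)
    rw [Finset.sum_const, nsmul_eq_mul, ENNReal.ofReal_mul (Nat.cast_nonneg _),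
      ENNReal.ofReal_natCast]
  have h6 := (ENNReal.ofReal_le_ofReal_iff (by positivity)).1 h5
  nlinarith

end R3

end Crest.Agent.R096.P2l_565
end

-- ▼ part R96/Gdt5_538
section

set_option autoImplicit false
set_option linter.unusedSectionVars false
set_option maxHeartbeats 400000

open MeasureTheory Set Filter Metric
open scoped ENNReal NNReal Topology

namespace Crest.Agent.R96.Gdt_538

open Crest.Agent.R096.Msh_715
open Crest.Agent.R096.Sk2_855 (sk1)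
open Crest.Agent.R096.Ub_113 (gau le_gau exists_gau convex_gau continuous_gau)
open Crest.Agent.R096.Sk3_812
open Crest.AnalysisR.VecCalc3 (R3)
open Crest.Agent.R96.Coarse_538 Crest.Agent.R96.Intr_538 Crest.Agent.R96.Lu_538

section general

variable {E : Type} [NormedAddCommGroup E] [NormedSpace ℝ E] [FiniteDimensional ℝ E]
variable {Om La : Set E} {ι : Type*}

/-- **BAD0**: same hypotheses as `goodT_of` (only those which are used) -/
theorem bad_vol {T : Tiling Om ι} {f : E → E} {i : ι} (hne : (T.H i).Nonempty) {c : E}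
    (hc : c ∈ I (T.H i)) (A : E ≃ᵃ[ℝ] E) (hf : ContinuousOn f Om) {N : Set E}
    {Λ ε β η' : ℝ} (hΛ0 : 0 ≤ Λ) (hΛ : ∀ h ∈ GH (T.H i) c A, ‖h.1‖ ≤ Λ) (hε : 0 < ε)
    (hβ : 0 < β) (hΛε : 4 * (Λ * ε) ≤ β)
    (hNc : ∀ x, Crs T i x → T.cc x ⊆ N)
    (near : ∀ x ∈ sk1 T, x ∈ N → ‖f x - A x‖ ≤ ε)
    (gap : ∀ x ∈ sk1 T, x ∈ N → x ∉ P (T.H i) → ¬ Crs T i x →
      1 + 4 * β ≤ ug (T.H i) hne c A (A x))
    (bv : ∀ x, Crs T i x → ∀ p q, T.cc x = segment ℝ p q →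
      ∃ F : ℝ → ℝ, MonotoneOn F (Icc 0 1) ∧ F 1 - F 0 ≤ η' ∧
        ∀ s ∈ Icc (0:ℝ) 1, ∀ t ∈ Icc (0:ℝ) 1, s ≤ t →
          ‖(f (p + t • (q - p)) - A (p + t • (q - p))) -
            (f (p + s • (q - p)) - A (p + s • (q - p)))‖ ≤ F t - F s) :
    volume (Ioo (1 + β) (1 + 3 * β) \
      GLv T f i (ug (T.H i) hne c A) (1 + β) (1 + 3 * β)) ≤
      ENNReal.ofReal ((Nat.card (KT T i) : ℝ) * (2 * (Λ * η'))) := by
  set u := ug (T.H i) hne c A with hu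
  have hΛε0 : 0 ≤ Λ * ε := by positivity
  have hlip : ∀ y z, u y ≤ u z + Λ * ‖y - z‖ := fun y z => gau_lip hΛ y z
  have hn2 : ∀ x ∈ sk1 T, x ∈ N → u (A x) ≤ u (f x) + Λ * ε := fun x hx hxN =>
    (hlip (A x) (f x)).trans (by
      have := mul_le_mul_of_nonneg_left (near x hx hxN) hΛ0
      rw [norm_sub_rev]
      linarith)
  have htile : ∀ x, x ∈ P (T.H i) → u (A x) ≤ 1 := fun x hx => by
    rw [hu, ug_le_one_iff hne hc A, A.symm_apply_apply]; exact hx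
  have houtv : ∀ x, Crs T i x → ∀ w ∈ T.cc x, T.dim w = 0 → w ∉ P (T.H i) →
      1 + 4 * β - Λ * ε ≤ u (f w) := by
    intro x hx w hw hw0 hwi
    have hwO : w ∈ Om := T.cc_sub_Om hx.1 hw
    have hws : w ∈ sk1 T := ⟨hwO, by rw [hw0]; exact zero_le_one⟩
    have h1 := gap w hws (hNc x hx hw) hwi (fun h => by
      have h2 := h.2.1
      rw [hw0] at h2
      exact absurd h2 (by norm_num))
    have h2 := hn2 w hws (hNc x hx hw)
    linarith
  set a := 1 + β with ha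
  set b := 1 + 3 * β with hb
  set Bad : KT T i → Set ℝ := fun k => {t | t ∈ Ioo a b ∧ ∃ z ∈ T.cc k.e, ∃ z' ∈ T.cc k.e,
    z ≠ z' ∧ u (f z) = t ∧ u (f z') = t} with hBad
  have hbad : ∀ k, volume (Bad k) ≤ ENNReal.ofReal (2 * (Λ * η')) := by
    intro k
    have hk := k.crs
    obtain ⟨p, q, hpq, hp0, hq0, hp, hq⟩ :=
      (Crest.Agent.R096.Tgr_335.Crs.ends (T := T) (i := i) (e := k.e)
        ⟨hk.1, hk.2.1, hk.2.2.1, hk.2.2.2⟩)
    obtain ⟨F, hF, hF1, hFb⟩ := bv _ hk p q hpq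
    have hmem : ∀ s ∈ Icc (0:ℝ) 1, p + s • (q - p) ∈ T.cc k.e := by
      intro s hs
      rw [hpq, segment_eq_image']
      exact ⟨s, hs, rfl⟩
    have hsk : T.cc k.e ⊆ sk1 T := cc_sub_sk1 hk.1 hk.2.1
    have hlin : ∀ s : ℝ, A (p + s • (q - p)) = A p + s • A.linear (q - p) := by
      intro s
      have h1 := A.map_vadd p (s • (q - p))
      simp only [vadd_eq_add, map_smul] at h1
      rw [add_comm p, h1, add_comm]
    have h1 := edge_once (hG := GH_ne hne c A) hΛ0 hΛ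
      (γ := fun s => f (p + s • (q - p))) (δ := fun s => A (p + s • (q - p)))
      (hf.comp (by fun_prop) fun s hs => T.cc_sub_Om hk.1 (hmem s hs))
      (p := A p) (v := A.linear (q - p)) hlin hε
      (fun s hs => near _ (hsk (hmem s hs)) (hNc _ hk (hmem s hs)))
      hF hFb (htile p hp) (a0 := a) (b0 := b) (by rw [ha]; linarith)
      (by
        have h2 := houtv _ hk q (by rw [hpq]; exact right_mem_segment _ _ _) hq0 hq
        have h3 : (p + (1:ℝ) • (q - p)) = q := by rw [one_smul]; abel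
        rw [h3, hb]
        have h4 : u (f q) = gau (GH (T.H i) c A) (GH_ne hne c A) (f q) := rfl
        rw [← h4]
        linarith)
    refine (measure_mono ?_).trans (h1.trans (ENNReal.ofReal_le_ofReal ?_))
    · rintro t ⟨ht, z, hz, z', hz', hzz, e1, e2⟩
      rw [hpq, segment_eq_image'] at hz hz'
      obtain ⟨s, hs, rfl⟩ := hz
      obtain ⟨s', hs', rfl⟩ := hz'
      refine ⟨ht, s, hs, s', hs', ?_, e1, e2⟩
      rintro rfl
      exact hzz rfl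
    · have := mul_le_mul_of_nonneg_left hF1 hΛ0
      linarith
  have hcov : Ioo a b \ GLv T f i u a b ⊆ ⋃ k, Bad k := by
    rintro t ⟨ht, hn⟩
    have h : ¬ ∀ x, Crs T i x → ∀ z ∈ T.cc x, ∀ z' ∈ T.cc x,
        u (f z) = t → u (f z') = t → z = z' := fun h => hn ⟨ht, h⟩
    push Not at h
    obtain ⟨x, hx, z, hz, z', hz', e1, e2, hzz⟩ := h
    obtain ⟨k, hk⟩ := exists_KT hx
    have hcc : T.cc x = T.cc k.e := T.cc_eq_of_mem_oc k.eOm hk
    rw [hcc] at hz hz'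
    exact mem_iUnion.2 ⟨k, ht, z, hz, z', hz', hzz, e1, e2⟩
  refine (measure_mono hcov).trans ?_
  cases nonempty_fintype (KT T i)
  refine (measure_iUnion_fintype_le _ _).trans ?_
  refine (Finset.sum_le_sum fun k _ => hbad k).trans ?_
  rw [Finset.sum_const, Finset.card_univ, nsmul_eq_mul, Nat.card_eq_fintype_card,
    ENNReal.ofReal_mul (Nat.cast_nonneg _), ENNReal.ofReal_natCast]

end general

variable {ι κi : Type*} {Ω La : Set R3} {T : Tiling Ω ι} {x v : κi → R3} {p : ℝ} {f fi : R3 → R3}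
  {D : R3 → R3 →L[ℝ] R3} {κ τ σ₀ η t s : ℝ} {a z b : R3} {L : R3 →L[ℝ] R3} {W : Set R3}

/-- the variation of `f - A` on the crossing edges, from a perfect cube -/
theorem perf_bv_crs (hp : 1 ≤ p) (hη : 0 < η) (ht : 0 < t)
    (hP : PerfG x v p Ω f D κ τ σ₀ η t s a z b L)
    (hA : ∀ e, ACV Ω f D (v e) (a + x e)) (hv : ∀ e, ‖v e‖ ≤ t)
    (hM : MeshG T x v a W) (hWc : cel Cb z ((1 - σ₀) * s) ⊆ W) {i : ι}
    (hNc : ∀ y, Crs T i y → T.cc y ⊆ cel Cb z ((1 - σ₀) * s)) {A : R3 → R3}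
    (hAL : ∀ y, A y = b + L (y - z)) {y : R3} (hy : Crs T i y) {p₁ q₁ : R3}
    (hpq : T.cc y = segment ℝ p₁ q₁) :
    ∃ F : ℝ → ℝ, MonotoneOn F (Icc 0 1) ∧ F 1 - F 0 ≤ 2 * η * t ∧
      ∀ s₁ ∈ Icc (0:ℝ) 1, ∀ s₂ ∈ Icc (0:ℝ) 1, s₁ ≤ s₂ →
        ‖(f (p₁ + s₂ • (q₁ - p₁)) - A (p₁ + s₂ • (q₁ - p₁))) -
          (f (p₁ + s₁ • (q₁ - p₁)) - A (p₁ + s₁ • (q₁ - p₁)))‖ ≤ F s₂ - F s₁ := by
  obtain ⟨e, he⟩ := hM.cell y hy.1 hy.2.1 ((hNc y hy).trans hWc)
  have hve : v e ≠ 0 := by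
    intro h0
    obtain ⟨p', q', hne', e1, -⟩ := T.edge_eq hy.1 hy.2.1
    have h1 : seg x v a e = {a + x e} := by
      rw [seg_eq_segment, h0, add_zero, segment_same]
    rw [he, h1] at e1
    have h2 : p' ∈ ({a + x e} : Set R3) := by rw [e1]; exact left_mem_segment _ _ _
    have h3 : q' ∈ ({a + x e} : Set R3) := by rw [e1]; exact right_mem_segment _ _ _
    exact hne' (h2.trans h3.symm)
  have hsubs : seg x v a e ⊆ cel Cb z s := by
    intro u hu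
    have h1 : u ∈ cel Cb z ((1 - σ₀) * s) := hNc y hy (by rw [he]; exact hu)
    exact (hP.near e u hu h1 u hu).1
  exact perf_bv hp hη ht hP hA hv hve hsubs hAL (hpq.symm.trans he)

/-- **BAD0 in a perfect cube** (hypotheses of `goodT_perf`) -/
theorem bad_vol_perf (hp : 1 ≤ p) (F : HF Ω La f fi) (hκ : 0 < κ) (hη : 0 < η) (ht : 0 < t)
    (hP : PerfG x v p Ω f D κ τ σ₀ η t s a z b L)
    (hA : ∀ e, ACV Ω f D (v e) (a + x e)) (hv : ∀ e, ‖v e‖ ≤ t)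
    (hM : MeshG T x v a W) (hWc : cel Cb z ((1 - σ₀) * s) ⊆ W)
    {i : ι} (hne : (T.H i).Nonempty) {c : R3} (hc : c ∈ I (T.H i)) {β ρ : ℝ} (hβ : 0 < β)
    (hρ : 0 < ρ) (hB : closedBall c ρ ⊆ P (T.H i))
    (hNc : ∀ y, Crs T i y → T.cc y ⊆ cel Cb z ((1 - σ₀) * s))
    (gap : ∀ y ∈ sk1 T, y ∈ cel Cb z ((1 - σ₀) * s) → y ∉ P (T.H i) → ¬ Crs T i y →
      1 + 4 * β ≤ ug (T.H i) hne c (AffineEquiv.refl ℝ R3) y)
    (hη1 : 4 * ((κ * ρ)⁻¹ * (η * t)) ≤ β) :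
    volume (Ioo (1 + β) (1 + 3 * β) \ GLv T f i
      (ug (T.H i) hne c (affE L (inj_of_low hκ hP.low) b z)) (1 + β) (1 + 3 * β)) ≤
      ENNReal.ofReal ((Nat.card (KT T i) : ℝ) * (2 * ((κ * ρ)⁻¹ * (2 * η * t)))) := by
  set A := affE L (inj_of_low hκ hP.low) b z with hAdef
  refine bad_vol hne hc A F.cont (N := cel Cb z ((1 - σ₀) * s)) (Λ := (κ * ρ)⁻¹)
    (ε := η * t) (β := β) (η' := 2 * η * t) (by positivity)
    (GH_norm hc A hρ hκ hB fun u => hP.low u) (by positivity) hβ hη1 hNc ?_ ?_ ?_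
  · intro y hy hyN
    exact perf_near hP hM hWc hy hyN
  · intro y hy hyN hyi hyc
    rw [ug_comp]
    exact gap y hy hyN hyi hyc
  · intro y hy p₁ q₁ hpq
    exact perf_bv_crs hp hη ht hP hA hv hM hWc hNc (fun _ => rfl) hy hpq

end Crest.Agent.R96.Gdt_538
end

-- ▼ part R096/Cp3_465
section

/-!
# Row 96 (S0127), p = 2: composite A (helper465; 753 #10547 (A2)), part 3: one mesh

`regs2_of_mesh`: the data `Regs2` for the perfect cubes of one mesh, under the hypotheses of 855's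
`regs_of_mesh` and the face data.
-/

set_option autoImplicit false
set_option linter.unusedSectionVars false

open Set Metric MeasureTheory
open scoped ENNReal

namespace Crest.Agent.R096.Cp_465

open Crest.AnalysisR.VecCalc3
open Crest.Agent.R096.Msh_715 (Tiling P I)
open Crest.Agent.R096.Sk2_855 (sk1 HP Mv)
open Crest.Agent.R096.Sk3_812 (GoodT HF GLv Crs UG ug KT)
open Crest.Agent.R096.P2l_565 (One2 cells2 cells2_le bodies_le)
open Crest.Agent.R096.Spr_113 (NearV)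
open Crest.Agent.R096.Ca_855
open Crest.Agent.R96.Gdt_538 (MeshG affE bad_vol_perf perf_near)
open Crest.Agent.R096.Fsl_793
open Crest.Agent.R96.Intr_538 (cel par cel_mono isCompact_cel)
open Crest.Agent.R96.Coarse_538
open Crest.Agent.R096.Fce_793 (pt)

/-- **`Regs2` from uniform numbers of the tiles** -/
theorem regs2_of_tiles {Om La : Set R3} {ι : Type} {T : Tiling Om ι} {f : R3 → R3} {K : Type*}
    {U : K → Set R3} {u : K → ι → R3 → ℝ} {β κ r t σ₂ : ℝ} {nc Nt : ℕ} (hκ : 0 < κ) (hr : 0 < r)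
    (ht : 0 < t) (hβ : 0 < β) (hσ : 0 < σ₂)
    (hO : ∀ j : Regs.J T U, ∃ O : One2 T La f (P (T.H j.1.2)) (Regs.Y u (1 + 3 * β) j),
      O.L = (κ * (r * t))⁻¹ ∧ O.t0 = 1 + β ∧ O.tm = 1 + 2 * β ∧ O.th = 1 + 5 / 2 * β ∧
      O.t1 = 1 + 3 * β ∧ O.θ0 = β / 4 ∧ O.C = CC β κ r ∧ O.θf = β / (4 * (nc + 1)) ∧
      O.σf = σ₂ * t ∧ O.Fs.card ≤ nc)
    (hNt : ∀ k (s : Finset (Regs.J T U)), (∀ j ∈ s, j.1.1 = k) → s.card ≤ Nt)
    (n5 : 8 * (Nt * (CC β κ r * (nc * σ₂))) ≤ β * (κ * r)) :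
    Nonempty (Regs2 T La f U u (1 + 3 * β) (fun _ => Nt * (CC β κ r * (nc * (σ₂ * t))))) := by
  have hrt : 0 < r * t := mul_pos hr ht
  have hκrt : 0 < κ * (r * t) := mul_pos hκ hrt
  have hnc : (0 : ℝ) ≤ nc := Nat.cast_nonneg _
  have hCC := CC_pos hβ hκ hr
  choose O h1 h2 h3 h4 h5 h6 h7 h8 h9 h10 using hO
  have hc : ∀ j, ((O j).Fs.card : ℝ) ≤ nc := fun j => by exact_mod_cast h10 j
  have hL : 2 * ((κ * (r * t))⁻¹ * (Nt * (CC β κ r * (nc * (σ₂ * t))))) ≤ β / 4 := by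
    have e1 : 2 * ((κ * (r * t))⁻¹ * (Nt * (CC β κ r * (nc * (σ₂ * t))))) =
        2 * (Nt * (CC β κ r * (nc * σ₂))) / (κ * r) := by
      field_simp
    rw [e1, div_le_iff₀ (mul_pos hκ hr)]
    linarith
  refine ⟨⟨O, fun k s hs => ?_, fun j => ?_, fun j => ?_⟩⟩
  · have h11 : ∀ j ∈ s, (O j).C * ((O j).Fs.card * (O j).σf) ≤ CC β κ r * (nc * (σ₂ * t)) :=
      fun j _ => by
        rw [h7, h9]
        have := hc j
        gcongr
    refine (Finset.sum_le_sum h11).trans ?_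
    rw [Finset.sum_const, nsmul_eq_mul]
    have h12 : ((s.card : ℕ) : ℝ) ≤ Nt := by exact_mod_cast hNt k s hs
    exact mul_le_mul_of_nonneg_right h12 (by positivity)
  · rw [h1, h2, h3, h6, h8]
    have h11 : ((O j).Fs.card : ℝ) * (β / (4 * (nc + 1))) ≤ β / 4 := by
      calc ((O j).Fs.card : ℝ) * (β / (4 * (nc + 1))) ≤ (nc + 1) * (β / (4 * (nc + 1))) := by
            have := hc j
            gcongr
            linarith
        _ = β / 4 := by field_simp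
    linarith
  · rw [h1, h4, h5]
    linarith

section mesh

variable {Om La : Set R3} {ι : Type} {T : Tiling Om ι} {f fi : R3 → R3} {κi : Type*}
  {x v : κi → R3} {p κ τ σ₀ η t s β r : ℝ} {a : R3} {D : R3 → R3 →L[ℝ] R3} {W : Set R3}
  {Q : Finset (Fin 3 → ℤ)} {zc bb : (Fin 3 → ℤ) → R3} {LL : (Fin 3 → ℤ) → R3 →L[ℝ] R3} {nc : ℕ}
  {κf : Type*} {xf : κf → R3} {ef : κf → Fin 2 → R3} {Pf : κf → Set (ℝ × ℝ)}
  {ε₀ β' σ₂ : ℝ} {Nt : ℕ}

/-- **`Regs2` for one mesh** -/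
theorem regs2_of_mesh (hp : 1 ≤ p) (F : HF Om La f fi) (hκ : 0 < κ) (hη : 0 < η) (ht : 0 < t)
    (hs : 0 < s) (hσ₀ : 0 < σ₀) (hσ₀τ : σ₀ < τ) (hτ6 : 6 * τ < 1) (htτ : 2 * t ≤ τ * s)
    (hP : ∀ k ∈ Q, PerfG x v p Om f D κ τ σ₀ η t s a (zc k) (bb k) (LL k))
    (hA : ∀ e, ACV Om f D (v e) (a + x e)) (hv : ∀ e, ‖v e‖ ≤ t) (hM : MeshG T x v a W)
    (hWc : ∀ k ∈ Q, cel Cb (zc k) ((1 - σ₀) * s) ⊆ W)
    (hinj : ∀ k ∈ Q, Function.Injective (LL k))
    (hne : ∀ i, (T.H i).Nonempty) (c : ι → R3) (hβ : 0 < β) (hr : 0 < r)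
    (hG : ∀ k ∈ Q, ∀ i, (P (T.H i) ∩ cel Cb (zc k) ((1 - 4 * τ) * s)).Nonempty →
      TileG T i (hne i) (c i) β (r * t) t nc)
    (hR : ∀ k : {k // k ∈ Q}, ∀ i, P (T.H i) ⊆ cel Cb (zc k) ((1 - 5 * τ) * s) →
      GoodT T La f i (ug (T.H i) (hne i) (c i) (Aq zc bb LL hinj k)) (Aq zc bb LL hinj k (c i))
        (1 + β) (1 + 3 * β))
    (hNV : ∀ k ∈ Q, ∀ i, (P (T.H i) ∩ cel Cb (zc k) ((1 - 4 * τ) * s)).Nonempty →
      NearV T i (ug (T.H i) (hne i) (c i) (AffineEquiv.refl ℝ R3)) (4 * β) (r * t / 8))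
    (hface : ∀ y ∈ Om, T.dim y = 2 → (T.cc y ∩ W).Nonempty → ∃ φ, LinearIndependent ℝ (ef φ) ∧
      T.cc y = pt (ef φ) (a + xf φ) '' Pf φ)
    (hFG : ∀ k ∈ Q, FaceG Om f xf ef Pf (Junk f s (zc k) (bb k) (LL k) (β' * t)) (ε₀ * t ^ 2) a)
    (hβ' : β' ≤ β * (κ * r)) (hσ : 0 < σ₂) (hε₀ : 0 < ε₀)
    (hNt : 2 * s ^ 3 ≤ Nt * (r * t) ^ 3)
    (n0 : 16 * η * (nc + 1) ≤ β * (κ * r)) (n1 : 8 * η ≤ κ * r)
    (n3 : 8 * (CC β κ r * (nc * σ₂)) < κ * r)
    (n4 : 64 * (nc + 1) * ε₀ ≤ β * σ₂ * (κ * r))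
    (n5 : 8 * (Nt * (CC β κ r * (nc * σ₂))) ≤ β * (κ * r)) :
    Nonempty (Regs2 T La f (fun k : {k // k ∈ Q} => cel Cb (zc k) ((1 - 5 * τ) * s))
      (fun k i => ug (T.H i) (hne i) (c i) (Aq zc bb LL hinj k)) (1 + 3 * β)
      (fun _ => Nt * (CC β κ r * (nc * (σ₂ * t))))) := by
  have hτ : 0 < τ := hσ₀.trans hσ₀τ
  have hτs : 0 < τ * s := mul_pos hτ hs
  have hr5 : 0 < (1 - 5 * τ) * s := mul_pos (by linarith) hs
  have hr4 : 0 < (1 - 4 * τ) * s := mul_pos (by linarith) hs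
  have h54 : (1 - 5 * τ) * s ≤ (1 - 4 * τ) * s := by nlinarith
  have h5s : (1 - 5 * τ) * s ≤ s := by nlinarith
  have h5σ : (1 - 5 * τ) * s ≤ (1 - σ₀) * s := by nlinarith
  have hκr : 0 < κ * r := mul_pos hκ hr
  have hrt : 0 < r * t := mul_pos hr ht
  have hnc : (0 : ℝ) ≤ nc := Nat.cast_nonneg _
  refine regs2_of_tiles hκ hr ht hβ hσ ?_ ?_ n5
  · rintro ⟨⟨k, i⟩, hi⟩
    simp only at hi
    obtain ⟨q, hq⟩ := Regs.P_ne T i
    have hi4 : ∀ m, (P (T.H m) ∩ P (T.H i)).Nonempty →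
        (P (T.H m) ∩ cel Cb (zc k) ((1 - 4 * τ) * s)).Nonempty := by
      rintro m ⟨w, hw, hw'⟩
      exact ⟨w, hw, cel_mono ref_Cb _ hr5.le h54 (hi hw')⟩
    have hii := hi4 i ⟨q, hq, hq⟩
    have hTi := hG k k.2 i hii
    have hnear : ∀ m, (P (T.H m) ∩ P (T.H i)).Nonempty → ∀ y ∈ P (T.H m), ∀ R' : ℝ,
        (1 - 5 * τ) * s + t ≤ R' → y ∈ cel Cb (zc k) R' := by
      rintro m ⟨w, hw, hw'⟩ y hy R' hR'
      have h1 := (hG k k.2 m (hi4 m ⟨w, hw, hw'⟩)).diam y hy w hw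
      exact cel_near ht.le hr5 hR' (hi hw') h1
    have hσs : (1 - 5 * τ) * s + t ≤ (1 - σ₀) * s := by nlinarith
    have hNc : ∀ y, Crs T i y → T.cc y ⊆ cel Cb (zc k) ((1 - σ₀) * s) := by
      rintro y ⟨hyO, hy1, hyP, w, hw, hwP⟩
      obtain ⟨m, hm⟩ := T.at_nonempty hyO
      intro w' hw'
      have h1 : T.cc y ⊆ P (T.H m) := T.cc_sub_tile (i := m) hm
      exact hnear m ⟨w, h1 hw, hwP⟩ w' (h1 hw') _ hσs
    have hAq : ∀ y, Aq zc bb LL hinj k y = bb k + LL k (y - zc k) := fun y => aff_apply y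
    have hAl : ∀ y, (Aq zc bb LL hinj k).linear y = LL k y := fun y => aff_linear y
    refine one2_tile (κf := κf) (xf := xf) (ef := ef) (Pf := Pf) (a0 := a) (ε₀ := ε₀) (η := η)
      (J := Junk f s (zc k) (bb k) (LL k) (β' * t)) F (hne i) hTi.cI (Aq zc bb LL hinj k) hκ hr ht
      hβ hσ hε₀ (fun y => by rw [hAl]; exact (hP k k.2).low y) (fun y => by
        rw [hAl]
        exact ((LL k).le_opNorm y).trans (mul_le_mul_of_nonneg_right (hP k k.2).up (norm_nonneg _)))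
      hTi.ball hTi.diam (hR k i hi) ?_ ?_ (hNV k k.2 i hii) ?_ (hFG k k.2) ?_ ?_ n1 ?_ n3 n4
    · have key := bad_vol_perf (La := La) (fi := fi) hp F hκ hη ht (hP k k.2) hA hv hM
        (hWc k k.2) (hne i) hTi.cI hβ hrt hTi.ball hNc
        (fun y hy _ hyP hyC => hTi.gap y hy hyP hyC) (by
          have e1 : 4 * ((κ * (r * t))⁻¹ * (η * t)) = 4 * η / (κ * r) := by
            field_simp
          rw [e1, div_le_iff₀ hκr]
          nlinarith)
      rw [aff_eq] at key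
      refine key.trans (ENNReal.ofReal_le_ofReal ?_)
      have e1 : (Nat.card (KT T i) : ℝ) * (2 * ((κ * (r * t))⁻¹ * (2 * η * t))) =
          (Nat.card (KT T i) : ℝ) * (4 * η) / (κ * r) := by
        field_simp
        ring
      rw [e1, div_le_iff₀ hκr]
      have h1 : (Nat.card (KT T i) : ℝ) ≤ nc := Nat.cast_le.2 hTi.cardK
      have h2 : (Nat.card (KT T i) : ℝ) * (4 * η) ≤ nc * (4 * η) :=
        mul_le_mul_of_nonneg_right h1 (by linarith)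
      nlinarith
    · intro e he w hw
      rw [hAq]
      exact perf_near (hP k k.2) hM (hWc k k.2)
        (Sk3_812.cc_sub_sk1 he.1 he.2.1 hw) (hNc e he hw)
    · intro y hy hd hsub
      exact hface y hy hd ⟨y, T.self_mem_cc y, hWc k k.2
        (cel_mono ref_Cb _ hr5.le h5σ (hi (hsub (T.self_mem_cc y))))⟩
    · intro z hz hzz
      refine ⟨cel_mono ref_Cb _ hr5.le h5s (hi hz), ?_⟩
      rw [hAq] at hzz
      refine le_trans ?_ hzz
      calc β' * t ≤ β * (κ * r) * t := mul_le_mul_of_nonneg_right hβ' ht.le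
        _ = β * (κ * (r * t)) := by ring
    · exact (cells2_le T finrank_euclideanSpace_fin i).trans hTi.cardN
    · nlinarith
  · intro k sJ hsJ
    classical
    have hinjJ : Set.InjOn (fun j : Regs.J T
        (fun k : {k // k ∈ Q} => cel Cb (zc k) ((1 - 5 * τ) * s)) => j.1.2) sJ := by
      intro j hj j' hj' hjj
      apply Subtype.ext
      apply Prod.ext
      · rw [hsJ j hj, hsJ j' hj']
      · exact hjj
    rw [← Finset.card_image_of_injOn hinjJ]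
    have h1 := bodies_le T (c := c) hrt hr5 (zc k) (sJ.image fun j => j.1.2) (fun i hi => by
        obtain ⟨j, hj, rfl⟩ := Finset.mem_image.1 hi
        have h2 := j.2
        rw [hsJ j hj] at h2
        exact h2) (fun i hi => by
        obtain ⟨j, hj, rfl⟩ := Finset.mem_image.1 hi
        have h2 := j.2
        rw [hsJ j hj] at h2
        obtain ⟨q, hq⟩ := Regs.P_ne T j.1.2
        exact (hG k k.2 _ ⟨q, hq, cel_mono ref_Cb _ hr5.le h54 (h2 hq)⟩).ball)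
    have h3 : ((1 - 5 * τ) * s) ^ 3 ≤ s ^ 3 := pow_le_pow_left₀ hr5.le h5s 3
    have h4 : (0 : ℝ) < (r * t) ^ 3 := by positivity
    have h5 : (((sJ.image fun j => j.1.2).card : ℕ) : ℝ) * (r * t) ^ 3 ≤ Nt * (r * t) ^ 3 := by
      linarith
    exact_mod_cast le_of_mul_le_mul_right h5 h4

end mesh

end Crest.Agent.R096.Cp_465
end

-- ▼ part R096/Cp4_465
section

/-!
# Row 96 (S0127), p = 2: composite A (helper465; 753 #10547 (A2)), part 4: `Φ`, balls, squeezes for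
the perfect cubes of one mesh; the numbers
-/

set_option autoImplicit false
set_option linter.unusedSectionVars false

open Set Metric MeasureTheory Topology Filter
open scoped ENNReal

namespace Crest.Agent.R096.Cp_465

open Crest.AnalysisR.VecCalc3
open Crest.Agent.R096.Msh_715 (Tiling P I)
open Crest.Agent.R096.Sk2_855 (sk1 HP Mv)
open Crest.Agent.R096.Sk3_812 (GoodT HF ug)
open Crest.Agent.R096.Spr_113 (NearV)
open Crest.Agent.R096.Ca_855
open Crest.Agent.R96.Gdt_538 (MeshG)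
open Crest.Agent.R096.Fsl_793
open Crest.Agent.R96.Intr_538 (cel par cel_mono isCompact_cel par_thick')
open Crest.Agent.R96.Coarse_538
open Crest.Agent.R096.Fce_793 (pt)

/-- what composite A delivers on the side of the target for `p = 2`: small balls `y k l`, `ρ k l`
in the images of the cubes, and squeezes `R` of any strength near the balls -/
def Sqz (La : Set R3) {K : Type*} (D : K → Set R3) (r σ : K → ℝ) {m : K → ℕ}
    (y : ∀ k, Fin (m k) → R3) (ρ : ∀ k, Fin (m k) → ℝ) : Prop :=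
  ∀ n : ℕ, ∃ R : R3 ≃ₜ R3, LipschitzWith (3 / 2) R ∧ (∀ y, R y ∈ La ↔ y ∈ La) ∧
    (∀ y, (∀ k, y ∉ thickening (r k) (D k)) → R y = y) ∧
    (∀ k, ∀ y ∈ thickening (r k) (D k), R y ∈ thickening (r k) (D k) ∧ ‖R y - y‖ ≤ 3 * σ k) ∧
    (∀ k l, ∀ z ∈ ball (y k l) (ρ k l), ∀ᶠ z' in 𝓝 z, ‖R z' - R z‖ ≤ (1 / 2) ^ n * ‖z' - z‖) ∧
    ∃ ψ : K → Fin 3 → ℝ → ℝ, (∀ q a, Monotone (ψ q a)) ∧
      (∀ q a x y, |ψ q a x - ψ q a y| ≤ |x - y|) ∧
      (∀ q a x, 0 ≤ ψ q a x) ∧ (∀ q a x, ψ q a x ≤ σ q) ∧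
      ∀ q, ∀ y ∈ thickening (r q / 4) (D q), ∀ a, R y a = y a - ψ q a (y a)

section mesh

variable {Om La : Set R3} {ι : Type} {T : Tiling Om ι} {f fi : R3 → R3}
  {κ τ t s : ℝ} {Q : Finset (Fin 3 → ℤ)} {zc bb : (Fin 3 → ℤ) → R3}
  {LL : (Fin 3 → ℤ) → R3 →L[ℝ] R3} {nc : ℕ}


end mesh

/-- **the numbers of composite A for p = 2** -/
theorem exists_numbers {κ β r N τ σ' : ℝ} (nc : ℕ) (hκ : 0 < κ) (hβ : 0 < β) (hr : 0 < r)
    (hN : 0 < N) (hτ : 0 < τ) (hσ' : 0 < σ') :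
    ∃ (Nt : ℕ) (σ₂ ε₀ η₀ β' : ℝ), 0 < σ₂ ∧ 0 < ε₀ ∧ 0 < η₀ ∧ 0 < β' ∧
      (∀ s : ℝ, 0 < s → 2 * s ^ 3 ≤ Nt * (r * (s / N)) ^ 3) ∧ β' ≤ β * (κ * r) ∧
      (∀ η, η ≤ η₀ → 16 * η * (nc + 1) ≤ β * (κ * r) ∧ 8 * η ≤ κ * r ∧
        4 * η * (nc + 1) ≤ β * (κ * r) ∧ ∀ s : ℝ, 0 < s → η * (s / N) ≤ κ * (τ * s)) ∧
      8 * (CC β κ r * (nc * σ₂)) < κ * r ∧
      64 * (nc + 1) * ε₀ ≤ β * σ₂ * (κ * r) ∧
      8 * (Nt * (CC β κ r * (nc * σ₂))) ≤ β * (κ * r) ∧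
      5 * (Nt * (CC β κ r * (nc * σ₂))) ≤ σ' := by
  have hκr : 0 < κ * r := mul_pos hκ hr
  have hCC := CC_pos hβ hκ hr
  have hnc : (0 : ℝ) ≤ nc := Nat.cast_nonneg _
  obtain ⟨Nt, hNt⟩ := exists_nat_ge (2 * (N / r) ^ 3)
  have hNt0 : (0 : ℝ) ≤ Nt := Nat.cast_nonneg _
  -- σ₂
  have hA : 0 ≤ CC β κ r * nc := by positivity
  have hB : 0 ≤ Nt * (CC β κ r * nc) := by positivity
  obtain ⟨σ₂, hσ₂, s1, s2, s3⟩ : ∃ σ₂ : ℝ, 0 < σ₂ ∧ 8 * (CC β κ r * nc) * σ₂ < κ * r ∧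
      8 * (Nt * (CC β κ r * nc)) * σ₂ ≤ β * (κ * r) ∧ 5 * (Nt * (CC β κ r * nc)) * σ₂ ≤ σ' := by
    refine ⟨min (κ * r / (8 * (CC β κ r * nc) + 1) / 2)
      (min (β * (κ * r) / (8 * (Nt * (CC β κ r * nc)) + 1))
        (σ' / (5 * (Nt * (CC β κ r * nc)) + 1))), by positivity, ?_, ?_, ?_⟩
    · have h1 : min (κ * r / (8 * (CC β κ r * nc) + 1) / 2)
        (min (β * (κ * r) / (8 * (Nt * (CC β κ r * nc)) + 1))
        (σ' / (5 * (Nt * (CC β κ r * nc)) + 1))) ≤ κ * r / (8 * (CC β κ r * nc) + 1) / 2 :=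
        min_le_left _ _
      calc _ ≤ 8 * (CC β κ r * nc) * (κ * r / (8 * (CC β κ r * nc) + 1) / 2) :=
            mul_le_mul_of_nonneg_left h1 (by positivity)
        _ < κ * r := by
            rw [show 8 * (CC β κ r * nc) * (κ * r / (8 * (CC β κ r * nc) + 1) / 2) =
              (8 * (CC β κ r * nc) * (κ * r)) / (2 * (8 * (CC β κ r * nc) + 1)) by
                field_simp, div_lt_iff₀ (by positivity)]
            nlinarith
    · have h1 : min (κ * r / (8 * (CC β κ r * nc) + 1) / 2)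
        (min (β * (κ * r) / (8 * (Nt * (CC β κ r * nc)) + 1))
        (σ' / (5 * (Nt * (CC β κ r * nc)) + 1))) ≤ β * (κ * r) / (8 * (Nt * (CC β κ r * nc)) + 1) :=
        (min_le_right _ _).trans (min_le_left _ _)
      calc _ ≤ 8 * (Nt * (CC β κ r * nc)) * (β * (κ * r) / (8 * (Nt * (CC β κ r * nc)) + 1)) :=
            mul_le_mul_of_nonneg_left h1 (by positivity)
        _ ≤ β * (κ * r) := by
            rw [mul_div_assoc', div_le_iff₀ (by positivity)]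
            have : 0 < β * (κ * r) := by positivity
            nlinarith
    · have h1 : min (κ * r / (8 * (CC β κ r * nc) + 1) / 2)
        (min (β * (κ * r) / (8 * (Nt * (CC β κ r * nc)) + 1))
        (σ' / (5 * (Nt * (CC β κ r * nc)) + 1))) ≤ σ' / (5 * (Nt * (CC β κ r * nc)) + 1) :=
        (min_le_right _ _).trans (min_le_right _ _)
      calc _ ≤ 5 * (Nt * (CC β κ r * nc)) * (σ' / (5 * (Nt * (CC β κ r * nc)) + 1)) :=
            mul_le_mul_of_nonneg_left h1 (by positivity)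
        _ ≤ σ' := by
            rw [mul_div_assoc', div_le_iff₀ (by positivity)]
            nlinarith
  -- η₀
  obtain ⟨η₀, hη₀, e1, e2, e3⟩ : ∃ η₀ : ℝ, 0 < η₀ ∧ 16 * (nc + 1) * η₀ ≤ β * (κ * r) ∧
      8 * η₀ ≤ κ * r ∧ η₀ ≤ κ * τ * N := by
    refine ⟨min (β * (κ * r) / (16 * (nc + 1))) (min (κ * r / 8) (κ * τ * N)), by positivity,
      ?_, ?_, (min_le_right _ _).trans (min_le_right _ _)⟩
    · have h1 : min (β * (κ * r) / (16 * (nc + 1))) (min (κ * r / 8) (κ * τ * N)) ≤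
          β * (κ * r) / (16 * (nc + 1)) := min_le_left _ _
      rw [le_div_iff₀ (by positivity)] at h1
      linarith
    · have h1 : min (β * (κ * r) / (16 * (nc + 1))) (min (κ * r / 8) (κ * τ * N)) ≤
          κ * r / 8 := (min_le_right _ _).trans (min_le_left _ _)
      linarith
  refine ⟨Nt, σ₂, β * σ₂ * (κ * r) / (64 * (nc + 1)), η₀, β * (κ * r), hσ₂, by positivity, hη₀,
    by positivity, fun s hs => ?_, le_rfl, fun η hη => ⟨?_, ?_, ?_, fun s hs => ?_⟩, ?_, ?_, ?_, ?_⟩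
  · have h1 : (r * (s / N)) ^ 3 = (r / N) ^ 3 * s ^ 3 := by
      field_simp
    rw [h1]
    have h2 : 2 ≤ Nt * (r / N) ^ 3 := by
      have h3 : 2 * (N / r) ^ 3 * (r / N) ^ 3 ≤ Nt * (r / N) ^ 3 :=
        mul_le_mul_of_nonneg_right hNt (by positivity)
      have h4 : 2 * (N / r) ^ 3 * (r / N) ^ 3 = 2 := by
        field_simp
      linarith
    calc 2 * s ^ 3 ≤ Nt * (r / N) ^ 3 * s ^ 3 := mul_le_mul_of_nonneg_right h2 (by positivity)
      _ = _ := by ring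
  · have h1 : 16 * η * (nc + 1) ≤ 16 * η₀ * (nc + 1) := by gcongr
    linarith
  · linarith
  · rcases le_or_gt 0 η with h0 | h0
    · have h1 : 16 * η * (nc + 1) ≤ 16 * η₀ * (nc + 1) := by gcongr
      have h2 : 0 ≤ η * (nc + 1) := by positivity
      linarith
    · have h2 : η * (nc + 1) ≤ 0 := mul_nonpos_of_nonpos_of_nonneg h0.le (by positivity)
      have h3 : 0 ≤ β * (κ * r) := by positivity
      linarith
  · have h1 : η * (s / N) ≤ κ * τ * N * (s / N) :=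
      mul_le_mul_of_nonneg_right (hη.trans e3) (by positivity)
    have h2 : κ * τ * N * (s / N) = κ * (τ * s) := by field_simp
    linarith
  · calc 8 * (CC β κ r * (nc * σ₂)) = 8 * (CC β κ r * nc) * σ₂ := by ring
      _ < _ := s1
  · rw [mul_div_cancel₀ _ (by positivity)]
  · calc 8 * (Nt * (CC β κ r * (nc * σ₂))) = 8 * (Nt * (CC β κ r * nc)) * σ₂ := by ring
      _ ≤ _ := s2
  · calc 5 * (Nt * (CC β κ r * (nc * σ₂))) = 5 * (Nt * (CC β κ r * nc)) * σ₂ := by ring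
      _ ≤ _ := s3

end Crest.Agent.R096.Cp_465
end

-- ▼ part R096/Cp6_465
section

/-!
# Row 96 (S0127), p = 2: composite A (helper465), part 6: the fine form (753 #11098 (G1), (G2))

`Happ`: approximation with a function `ζ ∘ f`.  `two_sk2_fine`, `exists_phi_fine`,
`exists_phiR_fine`: the additional clause (G2): away from the bodies the move is small compared with
`ζ`.
-/

set_option autoImplicit false
set_option linter.unusedSectionVars false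

open Set Metric Topology Filter
open scoped NNReal

namespace Crest.Agent.R096.Cp_465

open Crest.Agent.R096.Msh_715 (Tiling P I)
open Crest.Agent.R096.Sk2_855 (sk1 HP Mv)
open Crest.Agent.R096.Sk3_812 (GoodT HF)
open Crest.Agent.R096.Sk3_270 (exists_col exists_min)
open Crest.Agent.R096.P2l_565 (One2 family2)
open Crest.Agent.R096.Tsk_879 (Fam2)
open Crest.Agent.R096.Pst_465 (PBox Step2 step2_final Thr)
open Crest.Agent.R096.Ca_855

/-- the fine form of the approximation (753 (G1), 812's `happ_fine`) -/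
def Happ {E : Type*} [NormedAddCommGroup E] [NormedSpace ℝ E] (Om La : Set E) (f : E → E) : Prop :=
  ∀ ζ : E → ℝ, ContinuousOn ζ La → (∀ y ∈ La, 0 < ζ y) →
    ∃ h hi, HP Om La h hi ∧ ∀ x ∈ Om, ‖h x - f x‖ ≤ ζ (f x)


theorem cont_of_half {E : Type*} [NormedAddCommGroup E] {ζ : E → ℝ}
    (hζL : ∀ y y', |ζ y - ζ y'| ≤ ‖y - y'‖ / 2) : Continuous ζ := by
  refine LipschitzWith.continuous (K := 1) (LipschitzWith.of_dist_le_mul fun y y' => ?_)
  rw [Real.dist_eq, dist_eq_norm, NNReal.coe_one, one_mul]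
  have := hζL y y'
  have := norm_nonneg (y - y')
  linarith

section

variable {E : Type*} [NormedAddCommGroup E] [NormedSpace ℝ E] [FiniteDimensional ℝ E]
  {Om La : Set E} {ι : Type*} {T : Tiling Om ι} {f : E → E} {J : Type*}
  {i : J → ι} {Y : J → Set E} {n : ℕ} {col : J → Fin n}

/-- 879's `two_sk2` with the fine clause (G2) -/
theorem two_sk2_fine (F : Fam2 T La f i Y col) (h3 : Module.finrank ℝ E = 3) (hLa : IsOpen La)
    (hS : Step2 T La) [Finite J] (happ : Happ Om La f) {e : ℝ} (he : 0 < e) {ζ : E → ℝ}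
    (hζ0 : ∀ y ∈ La, 0 < ζ y) (hζL : ∀ y y', |ζ y - ζ y'| ≤ ‖y - y'‖ / 2) :
    ∃ Ψ : E ≃ₜ E, Mv T Ψ ∧
      (∀ x ∈ Om, T.dim x = 2 → ∀ z ∈ T.cc x, (∀ᶠ y in 𝓝 z, Ψ y = y) ∨
        ∃ j m, ∃ w ∈ (F.B j).shell, w ∈ (F.B j).c' m ∧ ‖f (Ψ z) - w‖ ≤ e) ∧
      (∀ j (y0 : E) (R D : ℝ), 0 ≤ D → Y j ⊆ closedBall y0 R →
        (∀ j', (Y j' ∩ closedBall y0 (R + n * D + e)).Nonempty →
          ∀ y ∈ Y j', ∀ y' ∈ Y j', ‖y - y'‖ ≤ D) →
        ∀ x ∈ P (T.H (i j)), ‖f (Ψ x) - y0‖ ≤ R + n * D + e) ∧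
      (∀ k (y0 : E) (R D : ℝ), 0 ≤ D → (∀ x ∈ P (T.H k), T.dim x ≤ 2 → f x ∈ closedBall y0 R) →
        (∀ j', (Y j' ∩ closedBall y0 (R + n * D + e)).Nonempty →
          ∀ y ∈ Y j', ∀ y' ∈ Y j', ‖y - y'‖ ≤ D) →
        ∀ x ∈ P (T.H k), ‖f (Ψ x) - y0‖ ≤ R + n * D + e) ∧
      (∀ k, ∀ x ∈ P (T.H k), ∀ r, (∀ x' ∈ P (T.H k), ‖f x' - f x‖ ≤ r) →
        (∀ j, Disjoint (closedBall (f x) (2 * r + ζ (f x))) (Y j)) →
        ‖f (Ψ x) - f x‖ ≤ 4 * r + 4 * ζ (f x)) := by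
  obtain ⟨h, hi, H, hh⟩ := happ (fun y => min (ζ y) (min F.η (e / 2)))
    ((cont_of_half hζL).min continuous_const).continuousOn
    (fun y hy => lt_min (hζ0 y hy) (lt_min F.hη (by positivity)))
  have hh0 : ∀ x ∈ Om, ‖h x - f x‖ ≤ ζ (f x) := fun x hx => (hh x hx).trans (min_le_left _ _)
  have hh1 : ∀ x ∈ Om, ‖h x - f x‖ ≤ F.η := fun x hx =>
    (hh x hx).trans ((min_le_right _ _).trans (min_le_left _ _))
  have hh2 : ∀ x ∈ Om, ‖h x - f x‖ ≤ e / 2 := fun x hx =>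
    (hh x hx).trans ((min_le_right _ _).trans (min_le_right _ _))
  obtain ⟨Ψ, O⟩ := F.out hS H hh1
  obtain ⟨g1, g2, -⟩ := O.near (f := f) h3 hLa H i F.Y_sub F.Y1_sub
    (fun j => (F.ok h hh1 j).2.2) he.le hh2
  refine ⟨Ψ, O.mv, fun x hx hd z hz => O.patch (fun y hy => (hh2 y hy).trans (by linarith)) hx hd hz,
    g1, g2, fun k x hx r hr hdj => ?_⟩
  have hxO := T.sub k hx
  have hr0 : 0 ≤ r := (norm_nonneg _).trans (hr x hx)
  obtain ⟨-, g4, -⟩ := O.tiles h3 hLa H i F.Y_sub F.Y1_sub (fun j => (F.ok h hh1 j).2.2)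
    (fun _ => closedBall (f x) (2 * r + ζ (f x))) (fun _ => subset_rfl)
    (fun m _ j hne => absurd hne (by
      rw [Set.not_nonempty_iff_eq_empty, ← Set.disjoint_iff_inter_eq_empty]
      exact hdj j)) (convex_closedBall _ _) isClosed_closedBall
  have h1 := g4 k (fun x' hx' _ => by
    have h2 := hh0 x' (T.sub k hx')
    have h4 := hr x' hx'
    have h5 := (abs_le.1 (hζL (f x') (f x))).2
    rw [mem_closedBall, dist_eq_norm]
    have e1 : h x' - f x = (h x' - f x') + (f x' - f x) := by abel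
    rw [e1]
    exact (norm_add_le _ _).trans (by linarith)) x hx
  rw [mem_closedBall, dist_eq_norm] at h1
  have h2 := hh0 (Ψ x) (O.mv.mapsTo hxO)
  have h5 := (abs_le.1 (hζL (f (Ψ x)) (f x))).2
  have h6 : ‖f (Ψ x) - f x‖ ≤ ‖h (Ψ x) - f x‖ + ‖h (Ψ x) - f (Ψ x)‖ := by
    have e1 : f (Ψ x) - f x = (h (Ψ x) - f x) - (h (Ψ x) - f (Ψ x)) := by abel
    rw [e1]
    exact norm_sub_le _ _
  linarith

end

section

variable {E : Type} [NormedAddCommGroup E] [NormedSpace ℝ E] [FiniteDimensional ℝ E]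
  {Om La : Set E} {ι : Type} {T : Tiling Om ι}
  {f fi : E → E} {K : Type*} {A : K → E ≃ᵃ[ℝ] E}
    {U V : K → Set E} {u : K → ι → E → ℝ} {C : K → ι → E} {a b : ℝ} {nc : ℕ} {t Λ : ℝ}

/-- **(A2) (1)-(3) with the fine clause (G2)** -/
theorem exists_phi_fine [Finite K] (R : Regs T La f A U V u C a b nc t Λ) {Sg : K → ℝ}
    (R2 : Regs2 T La f U u b Sg) (h3 : Module.finrank ℝ E = 3) (hLa : IsOpen La)
    (happ : Happ Om La f)
    {σ : K → ℝ} (hσ : ∀ k, 4 * Sg k < σ k) {e : ℝ} (he : 0 < e) {ζ : E → ℝ}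
    (hζ0 : ∀ y ∈ La, 0 < ζ y) (hζL : ∀ y y', |ζ y - ζ y'| ≤ ‖y - y'‖ / 2) :
    ∃ Φ : E ≃ₜ E, Mv T Φ ∧
      (∀ k i, P (T.H i) ⊆ U k → ∀ x ∈ P (T.H i),
        ‖f (Φ x) - A k x‖ ≤ 3 * (nc * (nc * nc) + 2) * (Λ * t) + e) ∧
      (∀ i, ∀ x ∈ P (T.H i), ∀ r, (∀ x' ∈ P (T.H i), ‖f x' - f x‖ ≤ r) →
        ‖f (Φ x) - f x‖ ≤ r + 3 * (nc * (nc * nc) + 1) * (Λ * t) + e) ∧
      (∀ i, ∀ x ∈ P (T.H i), ∀ r, (∀ x' ∈ P (T.H i), ‖f x' - f x‖ ≤ r) →
        (∀ k, Disjoint (closedBall (f x) (2 * r + ζ (f x))) (A k '' V k)) →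
        ‖f (Φ x) - f x‖ ≤ 4 * r + 4 * ζ (f x)) ∧
      ∃ (m : K → ℕ) (y : ∀ k, Fin (m k) → E) (ρ : ∀ k, Fin (m k) → ℝ),
        (∀ k l, y k l ∈ A k '' V k) ∧ (∀ k l, 0 < ρ k l) ∧ (∀ k, ∑ l, 2 * ρ k l ≤ σ k) ∧
        NearB T f Φ y ρ := by
  classical
  have hfin := R.finite_J
  cases nonempty_fintype (Regs.J T U)
  set Jt := Regs.J T U with hJt
  obtain ⟨col, hcol⟩ := exists_col (J := Jt)
    (fun j j' => (Regs.Y u b j ∩ Regs.Y u b j').Nonempty)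
    (fun j j' h => by rwa [inter_comm]) (n := nc * (nc * nc) + 1)
    (fun j => Nat.lt_succ_of_le (R.meet_card j))
  have hcol' : ∀ j j', j ≠ j' → col j = col j' → Disjoint (Regs.Y u b j) (Regs.Y u b j') :=
    fun j j' hne hc => by
      rw [Set.disjoint_iff_inter_eq_empty]
      by_contra hn
      exact hcol j j' hne hc (nonempty_iff_ne_empty.2 hn)
  have hYV : ∀ j : Jt, Regs.Y u b j ⊆ A j.1.1 '' V j.1.1 := fun j y hy => by
    obtain ⟨x, hxV, hxy, -⟩ := R.Y_sub j hy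
    exact ⟨x, hxV, hxy⟩
  obtain ⟨B, η, hη, hu, ht1, hN, -, hM, hpat, hthr, hball, hok⟩ := family2 R2.O col
    (fun j : Jt => j.1.1)
    (fun j j' hne => (R.disj _ _ hne).mono (hYV j) (hYV j')) Sg
    (fun k => R2.sum k _ fun j hj => (Finset.mem_filter.1 hj).2) R2.win R2.osc
  let F : Fam2 T La f (fun j : Jt => j.1.2) (fun j => Regs.Y u b j) col :=
    { B := B
      θ := fun j => (R2.O j).th
      η := η
      hη := hη
      hM := hM
      hpat := hpat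
      hθ := fun j => by rw [ht1 j]; exact (R2.O j).ht
      hthr := hthr
      ok := fun h hh j => by
        obtain ⟨h1, h2, h4⟩ := hok h hh j
        exact ⟨h1, h2, fun x hx hd hs => h4 x hx hd hs⟩
      hY := fun j y hy => (R2.O j).sub1 (by
        have hy' : (B j).u y ≤ (B j).t1 := hy
        rw [hu j, ht1 j] at hy'
        exact hy')
      hcol := hcol' }
  choose yc rc hr0 hcc hrs using hball
  -- the used patches
  let S := Σ j : Jt, Fin (B j).n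
  let Ik : K → Type _ := fun k => {p : S // p.1.1.1 = k ∧ ((B p.1).shell ∩ (B p.1).c' p.2).Nonempty}
  have hIf : ∀ k, Finite (Ik k) := fun k => Subtype.finite
  let _ : ∀ k, Fintype (Ik k) := fun k => Fintype.ofFinite _
  have hcen : ∀ k (p : Ik k), ∃ w, w ∈ (B p.1.1).shell ∧ w ∈ (B p.1.1).c' p.1.2 := fun k p => by
    obtain ⟨w, h1, h2⟩ := p.2.2
    exact ⟨w, h1, h2⟩
  choose w0 hw0 hw0' using hcen
  have hsumI : ∀ k, ∑ p : Ik k, rc p.1.1 p.1.2 ≤ Sg k := by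
    intro k
    have hinj : Function.Injective fun p : Ik k => (p.1 : S) := Subtype.val_injective
    let s : Finset Jt := Finset.univ.filter fun j => j.1.1 = k
    have h1 : ∑ p : Ik k, rc p.1.1 p.1.2 = ∑ q ∈ Finset.univ.map ⟨_, hinj⟩, rc q.1 q.2 := by
      rw [Finset.sum_map]
      rfl
    rw [h1]
    have h2 : (Finset.univ.map ⟨fun p : Ik k => (p.1 : S), hinj⟩) ⊆
        s.sigma fun j => (Finset.univ : Finset (Fin (B j).n)) := by
      intro q hq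
      rw [Finset.mem_map] at hq
      obtain ⟨p, -, rfl⟩ := hq
      rw [Finset.mem_sigma]
      exact ⟨Finset.mem_filter.2 ⟨Finset.mem_univ _, p.2.1⟩, Finset.mem_univ _⟩
    refine (Finset.sum_le_sum_of_subset_of_nonneg h2 fun q _ _ => (hr0 q.1 q.2).le).trans ?_
    rw [Finset.sum_sigma]
    refine (Finset.sum_le_sum fun j _ => hrs j).trans ?_
    exact R2.sum k s fun j hj => (Finset.mem_filter.1 hj).2
  -- the tolerance
  obtain ⟨e1, he1, he1'⟩ := exists_min (J := K)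
    (fun k => (σ k - 4 * Sg k) / (4 * ((Fintype.card (Ik k) : ℝ) + 1))) (fun k => by
      have := hσ k
      have h1 : (0 : ℝ) < 4 * ((Fintype.card (Ik k) : ℝ) + 1) := by positivity
      exact div_pos (by linarith) h1)
  obtain ⟨Φ, hΦ, k1, k2, k3, k4⟩ := two_sk2_fine F h3 hLa (step2_final h3 T) happ
    (e := min e e1) (lt_min he he1) hζ0 hζL
  have hmin : min e e1 ≤ e := min_le_left _ _
  have hmin1 : min e e1 ≤ e1 := min_le_right _ _
  have hmin0 : 0 < min e e1 := lt_min he he1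
  have hΛt : 0 ≤ Λ * t := mul_nonneg R.Λ0 R.t0
  have hD : 0 ≤ Λ * (3 * t) := mul_nonneg R.Λ0 (by linarith [R.t0])
  refine ⟨Φ, hΦ, fun k i hi x hx => ?_, fun i x hx r hr => ?_, fun i x hx r hr hd =>
    k4 i x hx r hr fun j => (hd j.1.1).mono_right (hYV j), fun k => Fintype.card (Ik k),
    fun k l => w0 k ((Fintype.equivFin (Ik k)).symm l),
    fun k l => 2 * rc ((Fintype.equivFin (Ik k)).symm l).1.1 ((Fintype.equivFin (Ik k)).symm l).1.2 +
      2 * min e e1, fun k l => ?_, fun k l => ?_, fun k => ?_, fun x hx hd z hz => ?_⟩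
  · have h1 := k2 ⟨(k, i), hi⟩ (A k x) (Λ * (2 * t)) (Λ * (3 * t)) hD
      (by
        intro y hy
        rw [mem_closedBall, dist_eq_norm]
        have h2 : u k i (A k ((A k).symm y)) ≤ b := by
          rw [AffineEquiv.apply_symm_apply]; exact hy
        have h4 := aff_sub (A k) ((A k).symm y) x
        rw [AffineEquiv.apply_symm_apply] at h4
        rw [h4]
        exact (R.lin _ _).trans (mul_le_mul_of_nonneg_left (R.dist_star hi h2 hx) R.Λ0))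
      (fun j' _ y hy y' hy' => R.diam_Y j' hy hy') x hx
    refine h1.trans ?_
    push_cast
    nlinarith
  · have h1 := k3 i (f x) r (Λ * (3 * t)) hD
      (fun x' hx' _ => by rw [mem_closedBall, dist_eq_norm]; exact hr x' hx')
      (fun j' _ y hy y' hy' => R.diam_Y j' hy hy') x hx
    refine h1.trans ?_
    push_cast
    nlinarith
  · set p := (Fintype.equivFin (Ik k)).symm l with hp
    have h1 : w0 k p ∈ Regs.Y u b p.1.1 := F.hY _ ((hw0 k p).2.trans (B p.1.1).bt)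
    have h2 := hYV _ h1
    rwa [p.2.1] at h2
  · have := hr0 ((Fintype.equivFin (Ik k)).symm l).1.1 ((Fintype.equivFin (Ik k)).symm l).1.2
    linarith
  · have h1 : ∑ l : Fin (Fintype.card (Ik k)), 2 * (2 * rc ((Fintype.equivFin (Ik k)).symm l).1.1
        ((Fintype.equivFin (Ik k)).symm l).1.2 + 2 * min e e1) =
        ∑ p : Ik k, 2 * (2 * rc p.1.1 p.1.2 + 2 * min e e1) :=
      Fintype.sum_equiv (Fintype.equivFin (Ik k)).symm _ _ fun _ => rfl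
    rw [h1]
    have h2 : ∑ p : Ik k, 2 * (2 * rc p.1.1 p.1.2 + 2 * min e e1) =
        4 * ∑ p : Ik k, rc p.1.1 p.1.2 + 4 * (Fintype.card (Ik k) * min e e1) := by
      rw [Finset.mul_sum]
      have : ∀ p : Ik k, 2 * (2 * rc p.1.1 p.1.2 + 2 * min e e1) =
          4 * rc p.1.1 p.1.2 + 4 * min e e1 := fun p => by ring
      simp only [this]
      rw [Finset.sum_add_distrib, Finset.sum_const, Finset.card_univ, nsmul_eq_mul]
      ring
    rw [h2]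
    have h4 := he1' k
    have h5 : (0 : ℝ) < 4 * ((Fintype.card (Ik k) : ℝ) + 1) := by positivity
    rw [le_div_iff₀ h5] at h4
    have h6 : (Fintype.card (Ik k) : ℝ) * min e e1 ≤ Fintype.card (Ik k) * e1 :=
      mul_le_mul_of_nonneg_left hmin1 (Nat.cast_nonneg _)
    have h7 := hsumI k
    nlinarith
  · refine (k1 x hx hd z hz).imp_right ?_
    rintro ⟨j, m, w, hw, hwc, hwn⟩
    let p : Ik j.1.1 := ⟨⟨j, m⟩, rfl, w, hw, hwc⟩
    have key : ∀ q : Ik j.1.1, q = p →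
        f (Φ z) ∈ ball (w0 _ q) (2 * rc q.1.1 q.1.2 + 2 * min e e1) := by
      rintro _ rfl
      have h2 := hw0' _ p
      have h1' : w ∈ closedBall (yc j m) (rc j m) := by rw [← hcc]; exact hwc
      have h2' : w0 _ p ∈ closedBall (yc j m) (rc j m) := by rw [← hcc]; exact h2
      rw [mem_closedBall, dist_eq_norm] at h1' h2'
      rw [mem_ball, dist_eq_norm]
      have e2 : f (Φ z) - w0 _ p = (f (Φ z) - w) + ((w - yc j m) - (w0 _ p - yc j m)) := by abel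
      rw [e2]
      have h4 := norm_add_le (f (Φ z) - w) ((w - yc j m) - (w0 _ p - yc j m))
      have h5 := norm_sub_le (w - yc j m) (w0 _ p - yc j m)
      show _ < 2 * rc j m + 2 * min e e1
      linarith
    exact ⟨j.1.1, Fintype.equivFin _ p, key _ (Equiv.symm_apply_apply _ _)⟩

end

section R3

open Crest.AnalysisR.VecCalc3

variable {Om La : Set R3} {ι : Type} {T : Tiling Om ι} {f fi : R3 → R3} {K : Type*}
  {A : K → R3 ≃ᵃ[ℝ] R3} {U V : K → Set R3} {u : K → ι → R3 → ℝ} {C : K → ι → R3} {a b : ℝ}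
  {nc : ℕ} {t Λ : ℝ}

/-- **(A2) (1)-(4) with the fine clause (G2)** -/
theorem exists_phiR_fine [Finite K] (R : Regs T La f A U V u C a b nc t Λ) {Sg : K → ℝ}
    (R2 : Regs2 T La f U u b Sg) (hLa : IsOpen La)
    (happ : Happ Om La f)
    {σ r : K → ℝ} (hσ : ∀ k, 4 * Sg k < σ k) (hVne : ∀ k, (V k).Nonempty) (hr : ∀ k, 24 * σ k ≤ r k)
    (hdisj : ∀ k l, k ≠ l → Disjoint (thickening (r k) (A k '' V k)) (thickening (r l) (A l '' V l)))
    (hsub : ∀ k, thickening (r k) (A k '' V k) ⊆ La) {e : ℝ} (he : 0 < e) {ζ : R3 → ℝ}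
    (hζ0 : ∀ y ∈ La, 0 < ζ y) (hζL : ∀ y y', |ζ y - ζ y'| ≤ ‖y - y'‖ / 2) :
    ∃ Φ : R3 ≃ₜ R3, Mv T Φ ∧
      (∀ k i, P (T.H i) ⊆ U k → ∀ x ∈ P (T.H i),
        ‖f (Φ x) - A k x‖ ≤ 3 * (nc * (nc * nc) + 2) * (Λ * t) + e) ∧
      (∀ i, ∀ x ∈ P (T.H i), ∀ r, (∀ x' ∈ P (T.H i), ‖f x' - f x‖ ≤ r) →
        ‖f (Φ x) - f x‖ ≤ r + 3 * (nc * (nc * nc) + 1) * (Λ * t) + e) ∧
      (∀ i, ∀ x ∈ P (T.H i), ∀ r, (∀ x' ∈ P (T.H i), ‖f x' - f x‖ ≤ r) →
        (∀ k, Disjoint (closedBall (f x) (2 * r + ζ (f x))) (A k '' V k)) →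
        ‖f (Φ x) - f x‖ ≤ 4 * r + 4 * ζ (f x)) ∧
      ∃ (m : K → ℕ) (y : ∀ k, Fin (m k) → R3) (ρ : ∀ k, Fin (m k) → ℝ),
        (∀ k l, y k l ∈ A k '' V k) ∧ (∀ k l, 0 < ρ k l) ∧ (∀ k, ∑ l, 2 * ρ k l ≤ σ k) ∧
        NearB T f Φ y ρ ∧
        ∀ n : ℕ, ∃ R : R3 ≃ₜ R3, LipschitzWith (3 / 2) R ∧ (∀ y, R y ∈ La ↔ y ∈ La) ∧
          (∀ y, (∀ k, y ∉ thickening (r k) (A k '' V k)) → R y = y) ∧
          (∀ k, ∀ y ∈ thickening (r k) (A k '' V k),
            R y ∈ thickening (r k) (A k '' V k) ∧ ‖R y - y‖ ≤ 3 * σ k) ∧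
          (∀ k l, ∀ z ∈ ball (y k l) (ρ k l), ∀ᶠ z' in 𝓝 z,
            ‖R z' - R z‖ ≤ (1 / 2) ^ n * ‖z' - z‖) ∧
          ∃ ψ : K → Fin 3 → ℝ → ℝ, (∀ q a, Monotone (ψ q a)) ∧
            (∀ q a x y, |ψ q a x - ψ q a y| ≤ |x - y|) ∧
            (∀ q a x, 0 ≤ ψ q a x) ∧ (∀ q a x, ψ q a x ≤ σ q) ∧
            ∀ q, ∀ y ∈ thickening (r q / 4) (A q '' V q), ∀ a, R y a = y a - ψ q a (y a) := by
  obtain ⟨Φ, h1, h2, h3, h5, m, y, ρ, g1, g2, g3, g4⟩ := exists_phi_fine R R2 (by simp) hLa happ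
    hσ he hζ0 hζL
  have hσ0 : ∀ k, 0 < σ k := fun k => by
    have := hσ k
    have := R2.Sg0 k
    linarith
  refine ⟨Φ, h1, h2, h3, h5, m, y, ρ, g1, g2, g3, g4, fun n => ?_⟩
  exact Tsq_753.exists_R (fun k => A k '' V k) r σ (fun k => (hVne k).image _)
    (fun k => by have := hr k; have := hσ0 k; linarith) (fun k => (hσ0 k).le) hr hdisj hsub y ρ
    (fun k l => (g2 k l).le) g3 g1 n

end R3

end Crest.Agent.R096.Cp_465
end

-- ▼ part R096/Ca10_855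
section

/-!
# Row 96 (S0127), p ≤ 2: composite A (helper855), part 10: the composite

`CompA`: the output for one mesh `T` and the perfect cubes `Q`.  `comp_A`: coarse selection with
energies (538's `coarse_E`) + mesh family + good tiles + 2SK.
-/

set_option autoImplicit false
set_option linter.unusedSectionVars false

open Set Metric MeasureTheory Filter
open scoped ENNReal Topology

namespace Crest.Agent.R096.Ca_855

open Crest.AnalysisR.VecCalc3 Crest.AnalysisR.Sobolev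
open Crest.Agent.R096.Msh_715 (Tiling P I)
open Crest.Agent.R096.Sk2_855 (sk1 HP Mv)
open Crest.Agent.R096.Sk3_812 (GoodT HF ug)
open Crest.Agent.R096.Sk_962 (SH)
open Crest.Agent.R96.Intr_538 (cel par cel_mono GC)
open Crest.Agent.R96.Lu_538 (Gmat)
open Crest.Agent.R96.Coarse_538
open Crest.Agent.R96.Gdt_538 (MeshG)

theorem hf_of_homeo {Om La : Set R3} {f : R3 → R3} (h : IsHomeomorphOn f Om La) :
    MapsTo f Om La ∧ InjOn f Om ∧ ∃ fi, HF Om La f fi := by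
  obtain ⟨fi, h1, h2, h3, h4, h5, h6⟩ := h
  refine ⟨h1, fun x hx y hy e => ?_, fi, h5, h6, h2, h3⟩
  rw [← h3 x hx, ← h3 y hy, e]

/-- the good regions of a family of perfect cubes -/
abbrev RegsQ {Om : Set R3} {ι : Type} (T : Tiling Om ι) (La : Set R3) (f : R3 → R3)
    {Q : Finset (Fin 3 → ℤ)} (zc bb : (Fin 3 → ℤ) → R3) (LL : (Fin 3 → ℤ) → R3 →L[ℝ] R3)
    (hinj : ∀ k ∈ Q, Function.Injective (LL k)) (c : ι → R3) (τ s β : ℝ) (nc : ℕ) (t κ : ℝ) :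
    Prop :=
  Regs T La f (Aq zc bb LL hinj) (fun k => cel Cb (zc k) ((1 - 5 * τ) * s))
    (fun k => cel Cb (zc k) ((1 - 4 * τ) * s))
    (fun k i => ug (T.H i) (Gsm_432.H_ne T i) (c i) (Aq zc bb LL hinj k))
    (fun k i => Aq zc bb LL hinj k (c i)) (1 + β) (1 + 3 * β) nc t κ⁻¹

/-- **regions and `Ψ` from perfect cubes and a mesh family**, one position -/
theorem psi_of_mesh {p : ℝ} (hp : 1 ≤ p) {Om La : Set R3} (hLa : IsOpen La) {f fi : R3 → R3}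
    (F : HF Om La f fi)
    (happ : ∀ η > 0, ∃ h hi, HP Om La h hi ∧ ∀ x ∈ Om, ‖h x - f x‖ ≤ η)
    {ι : Type} {T : Tiling Om ι} {κi : Type*} {x v : κi → R3} {κ τ σ₀ η t s β r : ℝ} {a : R3}
    {D : R3 → R3 →L[ℝ] R3} {W K K' : Set R3} {Q : Finset (Fin 3 → ℤ)}
    {zc bb : (Fin 3 → ℤ) → R3} {LL : (Fin 3 → ℤ) → R3 →L[ℝ] R3} {nc : ℕ}
    (hκ : 0 < κ) (hη : 0 < η) (ht : 0 < t) (hs : 0 < s) (hσ₀ : 0 < σ₀) (hσ₀τ : σ₀ < τ)
    (hτ6 : 6 * τ < 1) (htτ : 2 * t ≤ τ * s)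
    (hP : ∀ k ∈ Q, PerfG x v p Om f D κ τ σ₀ η t s a (zc k) (bb k) (LL k))
    (hA : ∀ e, ACV Om f D (v e) (a + x e)) (hv : ∀ e, ‖v e‖ ≤ t) (hM : MeshG T x v a W)
    (hKW : K ⊆ W) (hKW' : ∀ y ∈ Om, f y ∈ K' → y ∈ W) (hK' : K' ⊆ La)
    (hcel : ∀ k ∈ Q, cel Cb (zc k) s ⊆ K) (hpar : ∀ k ∈ Q, par Cb (LL k) (bb k) s ⊆ K')
    (hdis : ∀ k ∈ Q, ∀ l ∈ Q, k ≠ l →
      Disjoint (par Cb (LL k) (bb k) ((1 - τ) * s)) (par Cb (LL l) (bb l) s))
    (hητ : η * t ≤ κ * (τ * s)) (c : ι → R3) (hβ : 0 < β) (hr : 0 < r)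
    (hG : ∀ i, (P (T.H i) ∩ W).Nonempty →
      TileG T i (Gsm_432.H_ne T i) (c i) β (r * t) t nc)
    (hη1 : 4 * η * (nc + 1) ≤ β * (κ * r)) :
    ∃ hinj : ∀ k ∈ Q, Function.Injective (LL k),
      RegsQ T La f zc bb LL hinj c τ s β nc t κ ∧
      ∀ e : ℝ, 0 < e → ∃ Ψ : R3 ≃ₜ R3, Mv T Ψ ∧
        (∀ k ∈ Q, ∀ y ∈ cel Cb (zc k) ((1 - 6 * τ) * s),
          ‖f (Ψ y) - (bb k + LL k (y - zc k))‖ ≤ 3 * (nc * (nc * nc) + 2) * (κ⁻¹ * t) + e) ∧
        (∀ i, ∀ y ∈ P (T.H i), ∀ r', (∀ y' ∈ P (T.H i), ‖f y' - f y‖ ≤ r') →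
          ‖f (Ψ y) - f y‖ ≤ r' + 3 * (nc * (nc * nc) + 1) * (κ⁻¹ * t) + e) := by
  have hinj : ∀ k ∈ Q, Function.Injective (LL k) := fun k hk => inj_of_low hκ (hP k hk).low
  have hτ : 0 < τ := hσ₀.trans hσ₀τ
  have hpm : ∀ k ∈ Q, par Cb (LL k) (bb k) ((1 - τ) * s) ⊆ par Cb (LL k) (bb k) s :=
    fun k hk => par_mono (hinj k hk) (mul_nonneg (by linarith) hs.le) (by nlinarith)
  have R := regs_of_mesh (T := T) (La := La) hp F hκ hη ht hs hσ₀ hσ₀τ hτ6 htτ hP hA hv hM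
    (fun k hk y hy hfy => hKW' y hy (hpar k hk (hpm k hk hfy)))
    (fun k hk => ((cel_mono ref_Cb _ (mul_nonneg (by linarith) hs.le) (by nlinarith)).trans
      (hcel k hk)).trans hKW)
    (fun k hk => ((hpm k hk).trans (hpar k hk)).trans hK') hdis hητ hinj
    (Gsm_432.H_ne T) c hβ hr
    (fun k hk i ⟨y, hy, hy'⟩ => hG i ⟨y, hy, hKW (hcel k hk (cel_mono ref_Cb _
      (mul_nonneg (by linarith) hs.le) (by nlinarith) hy'))⟩) hη1
  refine ⟨hinj, R, fun e he => ?_⟩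
  exact psi_of_regs hτ6 hs ht.le htτ hLa F (fun k hk => (hP k hk).sub) R happ he

/-- **COMPOSITE A** -/
theorem comp_A {p : ℝ} (hp : 1 ≤ p) {Om La : Set R3} (hOm : IsOpen Om)
    (hOmb : Bornology.IsBounded Om) (hLa : IsOpen La) (hLaf : volume La ≠ ∞) {f : R3 → R3}
    {G : Fin 3 → R3 → R3} (H : SH p Om La f G)
    (happ : ∀ η > 0, ∃ h hi, HP Om La h hi ∧ ∀ x ∈ Om, ‖h x - f x‖ ≤ η) {ε : ℝ} (hε : 0 < ε) :
    ∃ κ : ℝ, 0 < κ ∧ κ ≤ 1 ∧ ∃ K ⊆ Om, IsCompact K ∧ ∃ K' ⊆ La, IsCompact K' ∧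
      ∀ (nc : ℕ) (N n τ σ₀ η θ δ e₁ β r : ℝ), 0 < N → 0 < n → 0 < σ₀ → σ₀ < τ → 6 * τ < 1 →
        1 ≤ σ₀ * N → 2 ≤ τ * N → 0 < η → 0 < θ → 0 < δ → 0 < e₁ → 0 < β → 0 < r →
        ∀ (m : ℕ) (g : Fin m → R3 → ℝ≥0∞), (∀ l, AEMeasurable (g l) volume) →
        (∀ l, ∫⁻ y, g l y ≠ ∞) → ∀ (nE ncE : Fin m → ℝ) (εE : ℝ), (∀ l, 0 < nE l) →
        (∀ l, 0 < ncE l) → 0 < εE →
        ∃ s₀ : ℝ, 0 < s₀ ∧ ∀ s : ℝ, 0 < s → s < s₀ → ∀ a₀ : R3,
        ∃ (Q₀ : Finset (Fin 3 → ℤ)) (b : (Fin 3 → ℤ) → R3) (L : (Fin 3 → ℤ) → R3 →L[ℝ] R3)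
          (S : (Fin 3 → ℤ) → Set R3),
          (∀ k ∈ Q₀, GC Om volume f (Gmat G) Cb κ e₁ s (vt (2 * s) a₀ k) (b k) (L k) (S k)) ∧
          (∀ k ∈ Q₀, cel Cb (vt (2 * s) a₀ k) s ⊆ K) ∧ (∀ k ∈ Q₀, par Cb (L k) (b k) s ⊆ K') ∧
          (∀ k ∈ Q₀, ∀ l ∈ Q₀, k ≠ l →
            Disjoint (par Cb (L k) (b k) ((1 - τ) * s)) (par Cb (L l) (b l) s)) ∧
          ∑ k ∈ Q₀, ∫⁻ x in cel Cb (vt (2 * s) a₀ k) s, ‖Gmat G x - L k‖ₑ ^ p ≤
            ENNReal.ofReal e₁ ∧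
          volume ((Om ∩ {x | (Gmat G x).det ≠ 0}) \ ⋃ k ∈ Q₀, cel Cb (vt (2 * s) a₀ k) s) ≤
            ENNReal.ofReal ε ∧
          ∀ (W : Set R3), K ⊆ W → (∀ y ∈ Om, f y ∈ K' → y ∈ W) →
            ∀ (M : MFam Om W (s / N) n β r nc)
            (μ : Fin m → R3 → Measure R3), (∀ l, RM M.Tr (ENNReal.ofReal (nE l)) (μ l)) →
            (∀ l, ∀ a ∈ M.Tr, ∀ k : Fin 3 → ℤ, μ l a (cel Cb (vt (2 * s) a₀ k) s) ≤
              ENNReal.ofReal (ncE l * (2 * s) ^ 3)) →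
            ∀ (E : Fin m → Set R3), (∀ l, MeasurableSet (E l)) →
            ∀ (J : Type) [Countable J] (F : J → R3 → ℝ≥0∞), (∀ j, AEMeasurable (F j) volume) →
            (∀ j, ∫⁻ y, F j y ≠ ∞) →
            ∃ B : Set R3, volume B ≤ ENNReal.ofReal θ * volume M.Tr ∧
              ∀ a ∈ M.Tr, a ∉ B → (∀ e, ACV Om f (Gmat G) (M.v e) (a + M.x e)) ∧
                (∀ e j, ∀ ε' : ℝ≥0∞, 0 < ε' → ∀ᶠ r in 𝓝[>] (0:ℝ),
                  ∫⁻ y in thickening r (seg M.x M.v a e), F j y ≤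
                    ENNReal.ofReal (64 * ‖M.v e‖ * r ^ 2) *
                      ((∫⁻ σ in Ioc (0:ℝ) 1, F j (a + M.x e + σ • M.v e)) + ε')) ∧
                ∃ Q ⊆ Q₀, ((Q₀ \ Q).card : ℝ) * (2 * s) ^ 3 ≤ δ ∧
                (∀ k ∈ Q, PerfG M.x M.v p Om f (Gmat G) κ τ σ₀ η (s / N) s a
                  (vt (2 * s) a₀ k) (b k) (L k)) ∧
                (∀ l, ∫⁻ y in E l ∪ ⋃ k ∈ Q₀ \ Q, cel Cb (vt (2 * s) a₀ k) s, g l y ∂μ l a ≤
                  ENNReal.ofReal (nE l / (θ / (4 * (m + 1)))) * (∫⁻ y in E l, g l y) +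
                    ENNReal.ofReal εE) ∧
                ∃ hinj : ∀ k ∈ Q, Function.Injective (L k),
                  RegsQ (M.T a) La f (vt (2 * s) a₀) b L hinj (M.c a) τ s β nc (s / N) κ ∧
                  ∀ e : ℝ, 0 < e → ∃ Ψ : R3 ≃ₜ R3, Mv (M.T a) Ψ ∧
                    (∀ k ∈ Q, ∀ y ∈ cel Cb (vt (2 * s) a₀ k) ((1 - 6 * τ) * s),
                      ‖f (Ψ y) - (b k + L k (y - vt (2 * s) a₀ k))‖ ≤
                        3 * (nc * (nc * nc) + 2) * (κ⁻¹ * (s / N)) + e) ∧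
                    (∀ i, ∀ y ∈ P ((M.T a).H i), ∀ r',
                      (∀ y' ∈ P ((M.T a).H i), ‖f y' - f y‖ ≤ r') →
                      ‖f (Ψ y) - f y‖ ≤ r' + 3 * (nc * (nc * nc) + 1) * (κ⁻¹ * (s / N)) + e) := by
  obtain ⟨hmt, hinjf, fi, F⟩ := hf_of_homeo H.homeo
  obtain ⟨κ, hκ, hκ1, K, hK, hKc, K', hK', hK'c, H0⟩ :=
    coarse_E hp hOm hOmb hLa hLaf hinjf F.cont hmt H.wg H.memG hε
  refine ⟨κ, hκ, hκ1, K, hK, hKc, K', hK', hK'c, ?_⟩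
  intro nc N n τ σ₀ η θ δ e₁ β r hN hn hσ₀ hσ₀τ hτ6 hσN hτN hη hθ hδ he₁ hβ hr m g hg hgi nE ncE
    εE hnE hncE hεE
  have hτ : 0 < τ := hσ₀.trans hσ₀τ
  have hnc : (0:ℝ) < 4 * (nc + 1) := by positivity
  -- the internal tolerance
  set η' := min η (min (β * (κ * r) / (4 * (nc + 1))) (κ * τ * N)) with hη'
  have hη'0 : 0 < η' := lt_min hη (lt_min (by positivity) (by positivity))
  have h1 : η' ≤ η := min_le_left _ _
  have h2 : 4 * η' * (nc + 1) ≤ β * (κ * r) := by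
    have h3 : η' ≤ β * (κ * r) / (4 * (nc + 1)) := (min_le_right _ _).trans (min_le_left _ _)
    rw [le_div_iff₀ hnc] at h3
    linarith
  have h3 : η' ≤ κ * τ * N := (min_le_right _ _).trans (min_le_right _ _)
  obtain ⟨s₀, hs₀, Hs⟩ := H0 N n τ σ₀ η' θ δ e₁ hN hn hσ₀ hσ₀τ (by linarith) hσN hη'0 hθ hδ he₁
    m g hg hgi nE ncE εE hnE hncE hεE
  refine ⟨s₀, hs₀, fun s hs hss a₀ => ?_⟩
  obtain ⟨Q₀, b, L, S, q1, q2, q3, q4, q5, q6, q7⟩ := Hs s hs hss a₀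
  refine ⟨Q₀, b, L, S, q1, q2, q3, q4, q5, q6, ?_⟩
  intro W hKW hKW' M μ hμ hcount E hE J _ Fj hF hFi
  have := M.cnt
  obtain ⟨B, hB, HB⟩ := q7 M.κi M.x M.v M.Tr M.meas M.vol M.fin M.vle M.vne M.dens μ hμ hcount E hE
    J Fj hF hFi
  refine ⟨B, hB, fun a ha haB => ?_⟩
  obtain ⟨a1, a2, Q, hQ, a3, a4, a5⟩ := HB a ha haB
  have ht : 0 < s / N := div_pos hs hN
  refine ⟨a1, a2, Q, hQ, a3, fun k hk => (a4 k hk).mono (by linarith) ht.le hη'0.le h1, a5, ?_⟩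
  have htτ : 2 * (s / N) ≤ τ * s := by
    have e1 : 2 * (s / N) = 2 / N * s := by ring
    rw [e1]
    refine mul_le_mul_of_nonneg_right ?_ hs.le
    rw [div_le_iff₀ hN]
    exact hτN
  have hητ : η' * (s / N) ≤ κ * (τ * s) := by
    calc η' * (s / N) ≤ (κ * τ * N) * (s / N) := mul_le_mul_of_nonneg_right h3 ht.le
      _ = κ * (τ * s) := by field_simp
  exact psi_of_mesh hp hLa F happ hκ hη'0 ht hs hσ₀ hσ₀τ hτ6 htτ a4 a1 M.vle (M.mesh a ha) hKW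
    hKW' hK' (fun k hk => q2 k (hQ hk)) (fun k hk => q3 k (hQ hk))
    (fun k hk l hl hkl => q4 k (hQ hk) l (hQ hl) hkl) hητ (M.c a) hβ hr (M.tile a ha) h2

end Crest.Agent.R096.Ca_855
end

-- ▼ part R096/Cp7_465
section

/-!
# Row 96 (S0127), p = 2: COMPOSITE A (helper465), part 7: the fine form `comp_A2F`
(753 #11098 (G1), (G2)), hypotheses as in 855's `comp_A`
-/

set_option autoImplicit false
set_option linter.unusedSectionVars false
set_option maxHeartbeats 400000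

open Set Metric MeasureTheory Topology Filter
open scoped ENNReal

namespace Crest.Agent.R096.Cp_465

open Crest.AnalysisR.VecCalc3 Crest.AnalysisR.Sobolev
open Crest.Agent.R096.Msh_715 (Tiling P I)
open Crest.Agent.R096.Sk2_855 (sk1 HP Mv)
open Crest.Agent.R096.Sk3_812 (GoodT HF ug)
open Crest.Agent.R096.Sk_962 (SH)
open Crest.Agent.R096.Spr_113 (NearV)
open Crest.Agent.R096.Ca_855
open Crest.Agent.R96.Gdt_538 (MeshG)
open Crest.Agent.R096.Fsl_793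
open Crest.Agent.R96.Acl_392 Crest.Agent.R96.Lu_538 Crest.Agent.R96.Intr_538
open Crest.Agent.R96.Coarse_538
open Crest.Agent.R096.Fce_793 (pt)

section mesh

variable {Om La : Set R3} {ι : Type} {T : Tiling Om ι} {f fi : R3 → R3}
  {κ τ t s : ℝ} {Q : Finset (Fin 3 → ℤ)} {zc bb : (Fin 3 → ℤ) → R3}
  {LL : (Fin 3 → ℤ) → R3 →L[ℝ] R3} {nc : ℕ}

/-- **`Φ`, balls and squeezes from `Regs` and `Regs2`** on the perfect cubes, fine form -/
theorem phi_of_regs_fine (hκ : 0 < κ) (hτ : 0 < τ) (hτ6 : 6 * τ < 1) (hs : 0 < s) (ht : 0 ≤ t)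
    (htτ : 2 * t ≤ τ * s) (hLa : IsOpen La)
    {hinj : ∀ k ∈ Q, Function.Injective (LL k)}
    {u : {k // k ∈ Q} → ι → R3 → ℝ} {C : {k // k ∈ Q} → ι → R3} {α α' Λ : ℝ}
    (hsub : ∀ k ∈ Q, cel Cb (zc k) s ⊆ Om)
    (hlow : ∀ k ∈ Q, ∀ v, κ * ‖v‖ ≤ ‖LL k v‖)
    (hpar : ∀ k ∈ Q, par Cb (LL k) (bb k) ((1 - τ) * s) ⊆ La)
    (hdis : ∀ k ∈ Q, ∀ l ∈ Q, k ≠ l →
      Disjoint (par Cb (LL k) (bb k) ((1 - τ) * s)) (par Cb (LL l) (bb l) s))
    (R : Regs T La f (Aq zc bb LL hinj) (fun k => cel Cb (zc k) ((1 - 5 * τ) * s))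
      (fun k => cel Cb (zc k) ((1 - 4 * τ) * s)) u C α α' nc t Λ)
    {Sg : ℝ} (R2 : Regs2 T La f (fun k : {k // k ∈ Q} => cel Cb (zc k) ((1 - 5 * τ) * s)) u α'
      (fun _ => Sg))
    (happ : Happ Om La f)
    {σ : ℝ} (hσ : 4 * Sg < σ) (hσr : 24 * σ ≤ κ * (τ * s)) {e : ℝ} (he : 0 < e)
    {ζ : R3 → ℝ} (hζ0 : ∀ y ∈ La, 0 < ζ y) (hζL : ∀ y y', |ζ y - ζ y'| ≤ ‖y - y'‖ / 2) :
    ∃ Φ : R3 ≃ₜ R3, Mv T Φ ∧
      (∀ k ∈ Q, ∀ y ∈ cel Cb (zc k) ((1 - 6 * τ) * s),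
        ‖f (Φ y) - (bb k + LL k (y - zc k))‖ ≤ 3 * (nc * (nc * nc) + 2) * (Λ * t) + e) ∧
      (∀ i, ∀ y ∈ P (T.H i), ∀ r, (∀ y' ∈ P (T.H i), ‖f y' - f y‖ ≤ r) →
        ‖f (Φ y) - f y‖ ≤ r + 3 * (nc * (nc * nc) + 1) * (Λ * t) + e) ∧
      (∀ i, ∀ y ∈ P (T.H i), ∀ r, (∀ y' ∈ P (T.H i), ‖f y' - f y‖ ≤ r) →
        (∀ k ∈ Q, Disjoint (closedBall (f y) (2 * r + ζ (f y)))
          (par Cb (LL k) (bb k) ((1 - 4 * τ) * s))) → ‖f (Φ y) - f y‖ ≤ 4 * r + 4 * ζ (f y)) ∧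
      ∃ (m : {k // k ∈ Q} → ℕ) (y : ∀ k, Fin (m k) → R3) (ρ : ∀ k, Fin (m k) → ℝ),
        (∀ (k : {k // k ∈ Q}) l, y k l ∈ par Cb (LL k) (bb k) ((1 - 4 * τ) * s)) ∧
        (∀ k l, 0 < ρ k l) ∧
        (∀ k, ∑ l, 2 * ρ k l ≤ σ) ∧ NearB T f Φ y ρ ∧
        Sqz La (fun k : {k // k ∈ Q} => par Cb (LL k) (bb k) ((1 - 4 * τ) * s))
          (fun _ => κ * (τ * s)) (fun _ => σ) y ρ := by
  have hτs : 0 < τ * s := mul_pos hτ hs
  have hr5 : 0 < (1 - 5 * τ) * s := mul_pos (by linarith) hs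
  have hr4 : 0 < (1 - 4 * τ) * s := mul_pos (by linarith) hs
  have him : ∀ k : {k // k ∈ Q}, (Aq zc bb LL hinj k) '' cel Cb (zc k) ((1 - 4 * τ) * s) =
      par Cb (LL k) (bb k) ((1 - 4 * τ) * s) := fun k => aff_image _
  have hth : ∀ k : {k // k ∈ Q}, thickening (κ * (τ * s)) (par Cb (LL k) (bb k)
      ((1 - 4 * τ) * s)) ⊆ par Cb (LL k) (bb k) ((1 - τ) * s) := by
    intro k y hy
    obtain ⟨y', hy', hd⟩ := mem_thickening_iff.1 hy
    have h1 := par_thick' ref_Cb hκ (hlow k k.2) hr4.le hτs hy' (y' := y)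
      (by rw [mul_one, ← dist_eq_norm]; exact hd.le)
    have h2 : (1 - 4 * τ) * s + τ * s ≤ (1 - τ) * s := by nlinarith
    exact par_mono (hinj k k.2) (by positivity) h2 h1
  have hLs : ∀ k : {k // k ∈ Q}, par Cb (LL k) (bb k) ((1 - τ) * s) ⊆
      par Cb (LL k) (bb k) s := fun k =>
    par_mono (hinj k k.2) (mul_nonneg (by linarith) hs.le) (by nlinarith)
  obtain ⟨Φ, hΦ, g1, g2, g8, m, y, ρ, g3, g4, g5, g6, g7⟩ := exists_phiR_fine R R2 hLa happ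
    (σ := fun _ => σ) (r := fun _ => κ * (τ * s)) (fun _ => hσ) (fun k => ⟨zc k, by
      rw [mem_cel hr4]
      intro i
      rw [sub_self, abs_zero]
      exact hr4.le⟩) (fun _ => hσr) (fun k l hkl => by
      simp only [him]
      have hkl' : (k : Fin 3 → ℤ) ≠ l := fun h => hkl (Subtype.ext h)
      exact (hdis k k.2 l l.2 hkl').mono (hth k) ((hth l).trans (hLs l))) (fun k => by
      simp only [him]
      exact (hth k).trans (hpar k k.2)) he hζ0 hζL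
  refine ⟨Φ, hΦ, fun k hk y hy => ?_, g2, fun i y hy r hr hd => g8 i y hy r hr fun k => ?_,
    m, y, ρ, fun k l => ?_, g4, g5, g6, fun n => ?_⟩
  · have h6 : 0 < (1 - 6 * τ) * s := mul_pos (by linarith) hs
    have hyO : y ∈ Om := hsub k hk (cel_mono ref_Cb _ h6.le (by nlinarith) hy)
    obtain ⟨i, hi⟩ := T.at_nonempty hyO
    have hi' : P (T.H i) ⊆ cel Cb (zc k) ((1 - 5 * τ) * s) := by
      intro w hw
      have h1 := R.diam ⟨k, hk⟩ i ⟨y, hi, cel_mono ref_Cb _ h6.le (by nlinarith) hy⟩ w hw y hi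
      exact cel_near ht h6 (by nlinarith) hy h1
    have h2 := g1 ⟨k, hk⟩ i hi' y hi
    rw [show Aq zc bb LL hinj ⟨k, hk⟩ y = bb k + LL k (y - zc k) from aff_apply y] at h2
    exact h2
  · rw [him]
    exact hd k k.2
  · have := g3 k l
    rwa [him] at this
  · have := g7 n
    simp only [him] at this
    exact this

end mesh

/-- **the result of composite A for `p = 2` at one position**: closeness to the affine maps in the
cubes, `C⁰` clauses (also the fine one), small balls and squeezes -/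
def ResA2F {ι : Type} (Ω Λ : Set R3) (T : Tiling Ω ι) (f : R3 → R3) (Q : Finset (Fin 3 → ℤ))
    (zc bb : (Fin 3 → ℤ) → R3) (LL : (Fin 3 → ℤ) → R3 →L[ℝ] R3) (κ τ s d σ : ℝ) : Prop :=
  ∀ e > 0, ∀ ζ : R3 → ℝ, (∀ y ∈ Λ, 0 < ζ y) → (∀ y y', |ζ y - ζ y'| ≤ ‖y - y'‖ / 2) →
    ∃ Φ : R3 ≃ₜ R3, Mv T Φ ∧
    (∀ k ∈ Q, ∀ y ∈ cel Cb (zc k) ((1 - 6 * τ) * s), ‖f (Φ y) - (bb k + LL k (y - zc k))‖ ≤ d + e) ∧
    (∀ i, ∀ y ∈ P (T.H i), ∀ r, (∀ y' ∈ P (T.H i), ‖f y' - f y‖ ≤ r) →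
      ‖f (Φ y) - f y‖ ≤ r + d + e) ∧
    (∀ i, ∀ y ∈ P (T.H i), ∀ r, (∀ y' ∈ P (T.H i), ‖f y' - f y‖ ≤ r) →
      (∀ k ∈ Q, Disjoint (closedBall (f y) (2 * r + ζ (f y)))
        (par Cb (LL k) (bb k) ((1 - 4 * τ) * s))) → ‖f (Φ y) - f y‖ ≤ 4 * r + 4 * ζ (f y)) ∧
    ∃ (m : {k // k ∈ Q} → ℕ) (y : ∀ k, Fin (m k) → R3) (ρ : ∀ k, Fin (m k) → ℝ),
      (∀ (k : {k // k ∈ Q}) l, y k l ∈ par Cb (LL k) (bb k) ((1 - 4 * τ) * s)) ∧
      (∀ k l, 0 < ρ k l) ∧ (∀ k, ∑ l, 2 * ρ k l ≤ σ) ∧ NearB T f Φ y ρ ∧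
      Sqz Λ (fun k : {k // k ∈ Q} => par Cb (LL k) (bb k) ((1 - 4 * τ) * s))
        (fun _ => κ * (τ * s)) (fun _ => σ) y ρ

/-- **COMPOSITE A, `p = 2`**, fine form, in the format of 855's `comp_A` -/
theorem comp_A2F {Ω Λ : Set R3} (hΩ : IsOpen Ω)
    (hΩb : Bornology.IsBounded Ω) (hΛ : IsOpen Λ) (hΛf : volume Λ ≠ ∞) {f : R3 → R3}
    {G : Fin 3 → R3 → R3} (HS : SH 2 Ω Λ f G) (happ : Happ Ω Λ f) {ε : ℝ} (hε : 0 < ε) :
    ∃ κ : ℝ, 0 < κ ∧ κ ≤ 1 ∧ ∃ K ⊆ Ω, IsCompact K ∧ ∃ K' ⊆ Λ, IsCompact K' ∧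
      ∀ N n τ σ₀ β r σ' η₁ : ℝ, ∀ nc mf : ℕ, 0 < N → 0 < n → 0 < σ₀ → σ₀ < τ → 6 * τ < 1 →
        1 ≤ σ₀ * N → 2 ≤ τ * N → 0 < β → 0 < r → 0 < σ' → 24 * σ' ≤ κ * τ * N → 0 < η₁ →
        ∀ θ δ e₁ : ℝ, 0 < θ → 0 < δ → 0 < e₁ →
        ∀ (m : ℕ) (g : Fin m → R3 → ℝ≥0∞), (∀ l, AEMeasurable (g l) volume) →
        (∀ l, ∫⁻ y, g l y ≠ ∞) → ∀ (nE ncE : Fin m → ℝ) (εE : ℝ), (∀ l, 0 < nE l) →
        (∀ l, 0 < ncE l) → 0 < εE →
        ∃ s₀ : ℝ, 0 < s₀ ∧ ∀ s : ℝ, 0 < s → s < s₀ → ∀ a₀ : R3,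
        ∃ (Q₀ : Finset (Fin 3 → ℤ)) (b : (Fin 3 → ℤ) → R3) (L : (Fin 3 → ℤ) → R3 →L[ℝ] R3)
          (S : (Fin 3 → ℤ) → Set R3),
          (∀ k ∈ Q₀, GC Ω volume f (Gmat G) Cb κ e₁ s (vt (2 * s) a₀ k) (b k) (L k) (S k)) ∧
          (∀ k ∈ Q₀, cel Cb (vt (2 * s) a₀ k) s ⊆ K) ∧ (∀ k ∈ Q₀, par Cb (L k) (b k) s ⊆ K') ∧
          (∀ k ∈ Q₀, ∀ l ∈ Q₀, k ≠ l →
            Disjoint (par Cb (L k) (b k) ((1 - τ) * s)) (par Cb (L l) (b l) s)) ∧
          ∑ k ∈ Q₀, ∫⁻ x in cel Cb (vt (2 * s) a₀ k) s, ‖Gmat G x - L k‖ₑ ^ (2:ℝ) ≤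
            ENNReal.ofReal e₁ ∧
          volume ((Ω ∩ {x | (Gmat G x).det ≠ 0}) \ ⋃ k ∈ Q₀, cel Cb (vt (2 * s) a₀ k) s) ≤
            ENNReal.ofReal ε ∧
          ∀ (W : Set R3), K ⊆ W → (∀ y ∈ Ω, f y ∈ K' → y ∈ W) →
            ∀ (M : MFam2 Ω W (s / N) n β r nc mf),
            ∀ ν : R3 → Measure R3, RM M.Tr (ENNReal.ofReal n) ν →
            ∀ (μ : Fin m → R3 → Measure R3), (∀ l, RM M.Tr (ENNReal.ofReal (nE l)) (μ l)) →
            (∀ l, ∀ a ∈ M.Tr, ∀ k : Fin 3 → ℤ, μ l a (cel Cb (vt (2 * s) a₀ k) s) ≤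
              ENNReal.ofReal (ncE l * (2 * s) ^ 3)) →
            ∀ (E : Fin m → Set R3), (∀ l, MeasurableSet (E l)) →
            ∀ (J : Type) [Countable J] (Fj : J → R3 → ℝ≥0∞), (∀ j, AEMeasurable (Fj j) volume) →
            (∀ j, ∫⁻ y, Fj j y ≠ ∞) →
            ∃ B : Set R3, volume B ≤ ENNReal.ofReal θ * volume M.Tr ∧
              ∀ a ∈ M.Tr, a ∉ B → (∀ e, ACV Ω f (Gmat G) (M.v e) (a + M.x e)) ∧
                (∀ e j, ∀ ε' : ℝ≥0∞, 0 < ε' → ∀ᶠ r in 𝓝[>] (0:ℝ),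
                  ∫⁻ y in thickening r (seg M.x M.v a e), Fj j y ≤
                    ENNReal.ofReal (64 * ‖M.v e‖ * r ^ 2) *
                      ((∫⁻ σ in Ioc (0:ℝ) 1, Fj j (a + M.x e + σ • M.v e)) + ε')) ∧
                ∃ Q ⊆ Q₀, ((Q₀ \ Q).card : ℝ) * (2 * s) ^ 3 ≤ δ ∧
                (∀ k ∈ Q, PerfG M.x M.v 2 Ω f (Gmat G) κ τ σ₀ η₁ (s / N) s a
                  (vt (2 * s) a₀ k) (b k) (L k) ∧
                ∫⁻ y in cel Cb (vt (2 * s) a₀ k) s, ‖Gmat G y - L k‖ₑ ^ (2:ℝ) ∂ν a ≤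
                  ENNReal.ofReal (η₁ * s ^ 3)) ∧
                (∀ l, ∫⁻ y in E l ∪ ⋃ k ∈ Q₀ \ Q, cel Cb (vt (2 * s) a₀ k) s, g l y ∂μ l a ≤
                  ENNReal.ofReal (nE l / (θ / (4 * (m + 1)))) * (∫⁻ y in E l, g l y) +
                    ENNReal.ofReal εE) ∧
                ResA2F Ω Λ (M.T a) f Q (vt (2 * s) a₀) b L κ τ s
                  (3 * (nc * (nc * nc) + 2) * (κ⁻¹ * (s / N))) (σ' * (s / N)) := by
  obtain ⟨hfΛ, hinj, fi, F⟩ := hf_of_homeo HS.homeo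
  obtain ⟨κ, hκ, hκ1, K, hK, hKc, K', hK', hK'c, H⟩ :=
    coarse_mesh2 hΩ hΩb hΛ hΛf hinj F.cont hfΛ HS.wg HS.memG hε
  refine ⟨κ, hκ, hκ1, K, hK, hKc, K', hK', hK'c, ?_⟩
  intro N n τ σ₀ β r σ' η₁ nc mf hN hn hσ₀ hσ₀τ hτ6 hσN hτN hβ hr hσ' hσ'r hη₁ θ δ e₁ hθ hδ he₁ m g
    hg hgi nE ncE εE hnE hncE hεE
  have hτ : 0 < τ := hσ₀.trans hσ₀τ
  obtain ⟨Nt, σ₂, ε₀, η₀, β', hσ₂, hε₀, hη₀, hβ', n1, n2, n3, n4, n5, n6, n7⟩ :=
    exists_numbers nc hκ hβ hr hN hτ hσ'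
  have hη : 0 < min η₀ η₁ := lt_min hη₀ hη₁
  have hε' : 0 < min ε₀ η₁ := lt_min hε₀ hη₁
  obtain ⟨q1, q2, q3, q4⟩ := n3 _ (min_le_left η₀ η₁)
  obtain ⟨s₀, hs₀, Hs⟩ := H N n τ σ₀ (min η₀ η₁) θ δ e₁ (min ε₀ η₁) β' mf hN hn hσ₀ hσ₀τ
    (by linarith) hσN hη hθ hδ he₁ hε' hβ' m g hg hgi nE ncE εE hnE hncE hεE
  refine ⟨s₀, hs₀, fun s hs hss a₀ => ?_⟩
  obtain ⟨Q₀, b, L, S, h1, h2, h3, h4, h5, h6, h7⟩ := Hs s hs hss a₀
  refine ⟨Q₀, b, L, S, h1, h2, h3, h4, h5, h6, ?_⟩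
  intro W hKW hKW' M ν hν μ hμ hcount E hE J _ Fj hF hFi
  obtain ⟨B, hB, hB'⟩ := h7 W β r nc M ν hν μ hμ hcount E hE J Fj hF hFi
  refine ⟨B, hB, fun a ha haB => ?_⟩
  obtain ⟨g1, g2, Q, hQ, g3, g4, g5⟩ := hB' a ha haB
  have ht : 0 < s / N := div_pos hs hN
  have htτ : 2 * (s / N) ≤ τ * s := by
    rw [mul_div_assoc', div_le_iff₀ hN]
    nlinarith
  have hPe : ∀ k ∈ Q, PerfG M.x M.v 2 Ω f (Gmat G) κ τ σ₀ (min η₀ η₁) (s / N) s a
      (vt (2 * s) a₀ k) (b k) (L k) := fun k hk => (g4 k hk).1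
  have hLi : ∀ k ∈ Q, Function.Injective (L k) := fun k hk => Ca_855.inj_of_low hκ (hPe k hk).low
  have hcelK : ∀ k ∈ Q, ∀ ρ, 0 ≤ ρ → ρ ≤ s → cel Cb (vt (2 * s) a₀ k) ρ ⊆ W :=
    fun k hk ρ h0 hρ => (cel_mono ref_Cb _ h0 hρ).trans ((h2 k (hQ hk)).trans hKW)
  have hpm : ∀ k ∈ Q, par Cb (L k) (b k) ((1 - τ) * s) ⊆ K' := fun k hk =>
    (par_mono (hLi k hk) (mul_nonneg (by linarith) hs.le) (by nlinarith)).trans (h3 k (hQ hk))
  have hpar : ∀ k ∈ Q, par Cb (L k) (b k) ((1 - τ) * s) ⊆ Λ := fun k hk =>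
    (hpm k hk).trans hK'
  have hWc : ∀ k ∈ Q, cel Cb (vt (2 * s) a₀ k) ((1 - σ₀) * s) ⊆ W := fun k hk =>
    hcelK k hk _ (mul_nonneg (by linarith) hs.le) (by nlinarith)
  have hdis : ∀ k ∈ Q, ∀ l ∈ Q, k ≠ l →
      Disjoint (par Cb (L k) (b k) ((1 - τ) * s)) (par Cb (L l) (b l) s) := fun k hk l hl hkl =>
    h4 k (hQ hk) l (hQ hl) hkl
  have hG' : ∀ k ∈ Q, ∀ i, (P ((M.T a).H i) ∩
      cel Cb (vt (2 * s) a₀ k) ((1 - 4 * τ) * s)).Nonempty →
      TileG (M.T a) i (Gsm_432.H_ne (M.T a) i) (M.c a i) β (r * (s / N)) (s / N) nc := by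
    rintro k hk i ⟨w, hw, hw'⟩
    exact M.tile a ha i ⟨w, hw, hcelK k hk _ (mul_nonneg (by linarith) hs.le) (by nlinarith) hw'⟩
  have hNV : ∀ k ∈ Q, ∀ i, (P ((M.T a).H i) ∩
      cel Cb (vt (2 * s) a₀ k) ((1 - 4 * τ) * s)).Nonempty →
      NearV (M.T a) i (ug ((M.T a).H i) (Gsm_432.H_ne (M.T a) i) (M.c a i)
        (AffineEquiv.refl ℝ R3)) (4 * β) (r * (s / N) / 8) := by
    rintro k hk i ⟨w, hw, hw'⟩
    exact M.near a ha i ⟨w, hw, hcelK k hk _ (mul_nonneg (by linarith) hs.le) (by nlinarith) hw'⟩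
  have R1 := regs_of_mesh (La := Λ) (p := 2) (by norm_num) F hκ hη ht hs hσ₀ hσ₀τ hτ6 htτ
    hPe g1 M.vle (M.mesh a ha) (fun k hk y hy hyp => hKW' y hy (hpm k hk hyp)) hWc hpar hdis
    (q4 s hs) hLi (fun i => Gsm_432.H_ne (M.T a) i) (M.c a) hβ hr hG' q3
  obtain ⟨R2⟩ := regs2_of_mesh (La := Λ) (p := 2) (β' := β') (σ₂ := σ₂) (Nt := Nt)
    (ε₀ := min ε₀ η₁) (by norm_num) F hκ hη ht
    hs hσ₀ hσ₀τ hτ6 htτ hPe g1 M.vle (M.mesh a ha) hWc hLi
    (fun i => Gsm_432.H_ne (M.T a) i) (M.c a) hβ hr hG' R1.good hNV (M.hface ha)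
    (fun k hk => (g4 k hk).2.1) n2 hσ₂ hε' (n1 s hs) q1 q2 n4
    (le_trans (mul_le_mul_of_nonneg_left (min_le_left _ _) (by positivity)) n5) n6
  refine ⟨g1, g2, Q, hQ, g3, fun k hk => ⟨?_, ?_⟩, g5, ?_⟩
  · exact (hPe k hk).mono (by norm_num) ht.le hη.le (min_le_right _ _)
  · refine (g4 k hk).2.2.trans (ENNReal.ofReal_le_ofReal ?_)
    exact mul_le_mul_of_nonneg_right (min_le_right _ _) (by positivity)
  · intro e he ζ hζ0 hζL
    have hσσ : Nt * (CC β κ r * (nc * (σ₂ * (s / N)))) =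
        (Nt * (CC β κ r * (nc * σ₂))) * (s / N) := by ring
    have hSg0 : 0 ≤ Nt * (CC β κ r * (nc * σ₂)) := by
      have := CC_pos hβ hκ hr
      positivity
    obtain ⟨Φ, k1, k2, k3, k4⟩ := phi_of_regs_fine hκ hτ hτ6 hs ht.le htτ hΛ
      (fun k hk => (hPe k hk).sub) (fun k hk => (hPe k hk).low) hpar hdis R1 R2 happ
      (σ := σ' * (s / N)) (by
        rw [hσσ, ← mul_assoc]
        refine mul_lt_mul_of_pos_right ?_ ht
        linarith) (by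
        have e1 : 24 * (σ' * (s / N)) = 24 * σ' * (s / N) := by ring
        rw [e1]
        refine (mul_le_mul_of_nonneg_right hσ'r ht.le).trans (le_of_eq ?_)
        field_simp) he hζ0 hζL
    refine ⟨Φ, k1, k2, fun i y hy ρ hρ => ?_, k4⟩
    refine (k3 i y hy ρ hρ).trans ?_
    have : 0 ≤ κ⁻¹ * (s / N) := by positivity
    nlinarith

end Crest.Agent.R096.Cp_465
end

-- ▼ part R096/Pas1_753
section

/-!
Row 96 (S0127), helper753.  Assembly of `PreIN p`, part 1: one format for the results of composite A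
(`pr = True` for `p = 2`, `pr = False` for `p < 2`).
-/

set_option autoImplicit false
set_option linter.style.longLine false
set_option linter.unusedSectionVars false

open MeasureTheory Set Filter Topology Metric
open scoped ENNReal NNReal

namespace Crest.Agent.R096.Pas_753

open Crest.AnalysisR.VecCalc3 Crest.AnalysisR.Sobolev
open Crest.Agent.R096.Msh_715 (Tiling P I)
open Crest.Agent.R096.Mal_874 (CB)
open Crest.Agent.R096.Sk_962 (SH)
open Crest.Agent.R096.Br_695 (En)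
open Crest.Agent.R096.Sk2_855 (Mv sk1)
open Crest.Agent.R096.Cp_465
open Crest.Agent.R096.Pin_753
open Crest.Agent.R96.Lu_538 (Gmat)
open Crest.Agent.R96.Intr_538 (cel par)
open Crest.Agent.R96.Coarse_538 (vt Cb)

noncomputable section

/-- **the result of composite A**, uniform in `p` (`pr` = "`p = 2`") -/
def ResU (pr : Prop) {ι : Type} (Om La : Set R3) (T : Tiling Om ι) (f : R3 → R3)
    (Q : Finset (Fin 3 → ℤ)) (zc bb : (Fin 3 → ℤ) → R3) (LL : (Fin 3 → ℤ) → R3 →L[ℝ] R3)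
    (κ τ s d σ : ℝ) : Prop :=
  ∀ e > 0, ∀ ζ : R3 → ℝ, (∀ y ∈ La, 0 < ζ y) → (∀ y y', |ζ y - ζ y'| ≤ ‖y - y'‖ / 2) →
    ∃ Φ : R3 ≃ₜ R3, Mv T Φ ∧
    (∀ k ∈ Q, ∀ y ∈ cel Cb (zc k) ((1 - 6 * τ) * s), ‖f (Φ y) - (bb k + LL k (y - zc k))‖ ≤ d + e) ∧
    (∀ i, ∀ y ∈ P (T.H i), ∀ r, (∀ y' ∈ P (T.H i), ‖f y' - f y‖ ≤ r) →
      ‖f (Φ y) - f y‖ ≤ r + d + e) ∧
    (∀ i, ∀ y ∈ P (T.H i), ∀ r, (∀ y' ∈ P (T.H i), ‖f y' - f y‖ ≤ r) →
      (∀ k ∈ Q, Disjoint (closedBall (f y) (2 * r + ζ (f y)))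
        (par Cb (LL k) (bb k) ((1 - 4 * τ) * s))) → ‖f (Φ y) - f y‖ ≤ 4 * r + 4 * ζ (f y)) ∧
    ∃ (m : {k // k ∈ Q} → ℕ) (y : ∀ k, Fin (m k) → R3) (ρ : ∀ k, Fin (m k) → ℝ),
      (∀ (k : {k // k ∈ Q}) l, y k l ∈ par Cb (LL k) (bb k) ((1 - 4 * τ) * s)) ∧
      (∀ k l, 0 < ρ k l) ∧ (∀ k, ∑ l, 2 * ρ k l ≤ σ) ∧ (pr → NearB T f Φ y ρ) ∧
      Sqz La (fun k : {k // k ∈ Q} => par Cb (LL k) (bb k) ((1 - 4 * τ) * s))
        (fun _ => κ * (τ * s)) (fun _ => σ) y ρ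

theorem ResU.of_two {ι : Type} {Om La : Set R3} {T : Tiling Om ι} {f : R3 → R3}
    {Q : Finset (Fin 3 → ℤ)} {zc bb : (Fin 3 → ℤ) → R3} {LL : (Fin 3 → ℤ) → R3 →L[ℝ] R3}
    {κ τ s d σ : ℝ} (H : ResA2F Om La T f Q zc bb LL κ τ s d σ) (pr : Prop) :
    ResU pr Om La T f Q zc bb LL κ τ s d σ := by
  intro e he ζ h1 h2
  obtain ⟨Φ, g1, g2, g3, g4, m, y, ρ, g5, g6, g7, g8, g9⟩ := H e he ζ h1 h2
  exact ⟨Φ, g1, g2, g3, g4, m, y, ρ, g5, g6, g7, fun _ => g8, g9⟩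

/-- the trivial squeeze -/
theorem sqz_zero {La : Set R3} {K : Type*} (D : K → Set R3) (r σ : K → ℝ) (hσ : ∀ k, 0 ≤ σ k)
    (y : ∀ _ : K, Fin 0 → R3) (ρ : ∀ _ : K, Fin 0 → ℝ) : Sqz La D r σ y ρ := by
  intro n
  refine ⟨Homeomorph.refl R3, ?_, fun y => Iff.rfl, fun y _ => rfl, fun k y hy => ⟨hy, ?_⟩,
    fun k l => l.elim0, fun _ _ _ => 0, fun _ _ => monotone_const, fun _ _ x y => ?_,
    fun _ _ _ => le_rfl, fun k _ _ => hσ k, fun q y _ a => ?_⟩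
  · refine LipschitzWith.weaken (K := 1) ?_ ?_
    · exact LipschitzWith.id
    · rw [le_div_iff₀ (by norm_num)]
      norm_num
  · have := hσ k
    simp only [Homeomorph.refl_apply, id, sub_self, norm_zero]
    linarith
  · simp
  · simp

/-- **`p < 2`** -/
theorem ResU.of_lt {ι : Type} {Om La : Set R3} {T : Tiling Om ι} {f : R3 → R3}
    {Q : Finset (Fin 3 → ℤ)} {zc bb : (Fin 3 → ℤ) → R3} {LL : (Fin 3 → ℤ) → R3 →L[ℝ] R3}
    {κ τ s d σ : ℝ} (hσ : 0 ≤ σ)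
    (H : ∀ e > 0, ∀ ζ : R3 → ℝ, (∀ y ∈ La, 0 < ζ y) → (∀ y y', |ζ y - ζ y'| ≤ ‖y - y'‖ / 2) →
      ∃ Φ : R3 ≃ₜ R3, Mv T Φ ∧
      (∀ k ∈ Q, ∀ y ∈ cel Cb (zc k) ((1 - 6 * τ) * s),
        ‖f (Φ y) - (bb k + LL k (y - zc k))‖ ≤ d + e) ∧
      (∀ i, ∀ y ∈ P (T.H i), ∀ r, (∀ y' ∈ P (T.H i), ‖f y' - f y‖ ≤ r) →
        ‖f (Φ y) - f y‖ ≤ r + d + e) ∧
      (∀ i, ∀ y ∈ P (T.H i), ∀ r, (∀ y' ∈ P (T.H i), ‖f y' - f y‖ ≤ r) →
        (∀ k ∈ Q, Disjoint (closedBall (f y) (2 * r + ζ (f y)))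
          (par Cb (LL k) (bb k) ((1 - 4 * τ) * s))) → ‖f (Φ y) - f y‖ ≤ 4 * r + 4 * ζ (f y))) :
    ResU False Om La T f Q zc bb LL κ τ s d σ := by
  intro e he ζ h1 h2
  obtain ⟨Φ, g1, g2, g3, g4⟩ := H e he ζ h1 h2
  exact ⟨Φ, g1, g2, g3, g4, fun _ => 0, fun _ l => l.elim0, fun _ l => l.elim0, fun _ l => l.elim0,
    fun _ l => l.elim0, fun _ => by simpa using hσ, fun h => h.elim, sqz_zero _ _ _ (fun _ => hσ) _ _⟩

/-- **what composite B uses**: `Φ`, the open set `U` and the squeezes `R` -/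
theorem ResU.use {pr : Prop} {ι : Type} {Om La : Set R3} {T : Tiling Om ι} {f : R3 → R3}
    {Q : Finset (Fin 3 → ℤ)} {zc bb : (Fin 3 → ℤ) → R3} {LL : (Fin 3 → ℤ) → R3 →L[ℝ] R3}
    {κ τ s d σ : ℝ} (hσ : 0 ≤ σ) (H : ResU pr Om La T f Q zc bb LL κ τ s d σ) {e : ℝ} (he : 0 < e)
    {ζ : R3 → ℝ} (hζ : ∀ y ∈ La, 0 < ζ y) (hζ' : ∀ y y', |ζ y - ζ y'| ≤ ‖y - y'‖ / 2) :
    ∃ (Φ : R3 ≃ₜ R3) (U : Set R3), Mv T Φ ∧ IsOpen U ∧
      (∀ k ∈ Q, ∀ y ∈ cel Cb (zc k) ((1 - 6 * τ) * s),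
        ‖f (Φ y) - (bb k + LL k (y - zc k))‖ ≤ d + e) ∧
      (∀ i, ∀ y ∈ P (T.H i), ∀ r, (∀ y' ∈ P (T.H i), ‖f y' - f y‖ ≤ r) →
        ‖f (Φ y) - f y‖ ≤ r + d + e) ∧
      (∀ i, ∀ y ∈ P (T.H i), ∀ r, (∀ y' ∈ P (T.H i), ‖f y' - f y‖ ≤ r) →
        (∀ k ∈ Q, Disjoint (closedBall (f y) (2 * r + ζ (f y)))
          (par Cb (LL k) (bb k) ((1 - 4 * τ) * s))) → ‖f (Φ y) - f y‖ ≤ 4 * r + 4 * ζ (f y)) ∧
      (pr → ∀ x ∈ Om, T.dim x = 2 → ∀ z ∈ T.cc x, (∀ᶠ w in 𝓝 z, Φ w = w) ∨ f (Φ z) ∈ U) ∧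
      ∀ θ : ℝ, 0 < θ → ∃ R : R3 ≃ₜ R3, LipschitzWith (3 / 2) R ∧ (∀ y, R y ∈ La ↔ y ∈ La) ∧
        (∀ y, ‖R y - y‖ ≤ 3 * σ) ∧
        (∀ y, (∀ k ∈ Q, y ∉ thickening (κ * (τ * s)) (par Cb (LL k) (bb k) ((1 - 4 * τ) * s))) →
          R y = y) ∧
        (∀ y ∈ U, ∀ ε > 0, ∀ᶠ z in 𝓝 y, ‖R z - R y‖ ≤ (θ + ε) * ‖z - y‖) ∧
        ∃ ψ : {k // k ∈ Q} → Fin 3 → ℝ → ℝ, (∀ q a, Monotone (ψ q a)) ∧
          (∀ q a x y, |ψ q a x - ψ q a y| ≤ |x - y|) ∧
          (∀ q a x, 0 ≤ ψ q a x) ∧ (∀ q a x, ψ q a x ≤ σ) ∧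
          ∀ q : {k // k ∈ Q}, ∀ y ∈ thickening (κ * (τ * s) / 4)
            (par Cb (LL q) (bb q) ((1 - 4 * τ) * s)), ∀ a, R y a = y a - ψ q a (y a) := by
  obtain ⟨Φ, g1, g2, g3, g4, m, y, ρ, g5, g6, g7, g8, g9⟩ := H e he ζ hζ hζ'
  refine ⟨Φ, ⋃ k, ⋃ l, ball (y k l) (ρ k l), g1, isOpen_iUnion fun k => isOpen_iUnion fun l =>
    isOpen_ball, g2, g3, g4, fun h x hx hd z hz => ?_, fun θ hθ => ?_⟩
  · rcases g8 h x hx hd z hz with h1 | ⟨k, l, h1⟩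
    · exact Or.inl h1
    · exact Or.inr (mem_iUnion₂.2 ⟨k, l, h1⟩)
  · obtain ⟨n, hn⟩ := exists_pow_lt_of_lt_one hθ (by norm_num : (1 / 2 : ℝ) < 1)
    obtain ⟨R, r1, r2, r3, r4, r5, r6⟩ := g9 n
    refine ⟨R, r1, r2, fun y => ?_, fun y hy => r3 y fun k => hy k k.2, fun y hy ε hε => ?_, r6⟩
    · by_cases h : ∃ k : {k // k ∈ Q}, y ∈ thickening (κ * (τ * s))
          (par Cb (LL k) (bb k) ((1 - 4 * τ) * s))
      · obtain ⟨k, hk⟩ := h
        exact (r4 k y hk).2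
      · rw [r3 y fun k hk => h ⟨k, hk⟩]
        simp only [sub_self, norm_zero]
        linarith
    · obtain ⟨k, l, h1⟩ := mem_iUnion₂.1 hy
      filter_upwards [r5 k l y h1] with z hz
      refine hz.trans ?_
      gcongr
      linarith

end

end Crest.Agent.R096.Pas_753
end

-- ▼ part R096/Ca12_855
section

/-!
# Row 96 (S0127), p ≤ 2: composite A (helper855), part 12: the clause near `bd Om`

`comp_A_fine` = `comp_A` (Ca10) with 812's `HFine` in the place of `happ` and the third clause of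
`psi_of_regs_fine` (Gz1_812).
-/

set_option autoImplicit false
set_option linter.unusedSectionVars false

open Set Metric MeasureTheory Filter
open scoped ENNReal Topology

namespace Crest.Agent.R096.Ca_855

open Crest.AnalysisR.VecCalc3 Crest.AnalysisR.Sobolev
open Crest.Agent.R096.Msh_715 (Tiling P I)
open Crest.Agent.R096.Sk2_855 (sk1 HP Mv)
open Crest.Agent.R096.Sk3_812 (GoodT HF ug)
open Crest.Agent.R096.Sk_962 (SH)
open Crest.Agent.R96.Intr_538 (cel par cel_mono GC)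
open Crest.Agent.R96.Lu_538 (Gmat)
open Crest.Agent.R96.Coarse_538
open Crest.Agent.R96.Gdt_538 (MeshG)
open Crest.Agent.R096.Gz_812 (HFine psi_of_regs_fine)

/-- **COMPOSITE A** with the clause near `bd Om` (fine `happ`) -/
theorem comp_A_fine {p : ℝ} (hp : 1 ≤ p) {Om La : Set R3} (hOm : IsOpen Om)
    (hOmb : Bornology.IsBounded Om) (hLa : IsOpen La) (hLaf : volume La ≠ ∞) {f : R3 → R3}
    {G : Fin 3 → R3 → R3} (H : SH p Om La f G)
    (happ : HFine Om La f) {ε : ℝ} (hε : 0 < ε) :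
    ∃ κ : ℝ, 0 < κ ∧ κ ≤ 1 ∧ ∃ K ⊆ Om, IsCompact K ∧ ∃ K' ⊆ La, IsCompact K' ∧
      ∀ (nc : ℕ) (N n τ σ₀ η θ δ e₁ β r : ℝ), 0 < N → 0 < n → 0 < σ₀ → σ₀ < τ → 6 * τ < 1 →
        1 ≤ σ₀ * N → 2 ≤ τ * N → 0 < η → 0 < θ → 0 < δ → 0 < e₁ → 0 < β → 0 < r →
        ∀ (m : ℕ) (g : Fin m → R3 → ℝ≥0∞), (∀ l, AEMeasurable (g l) volume) →
        (∀ l, ∫⁻ y, g l y ≠ ∞) → ∀ (nE ncE : Fin m → ℝ) (εE : ℝ), (∀ l, 0 < nE l) →
        (∀ l, 0 < ncE l) → 0 < εE →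
        ∃ s₀ : ℝ, 0 < s₀ ∧ ∀ s : ℝ, 0 < s → s < s₀ → ∀ a₀ : R3,
        ∃ (Q₀ : Finset (Fin 3 → ℤ)) (b : (Fin 3 → ℤ) → R3) (L : (Fin 3 → ℤ) → R3 →L[ℝ] R3)
          (S : (Fin 3 → ℤ) → Set R3),
          (∀ k ∈ Q₀, GC Om volume f (Gmat G) Cb κ e₁ s (vt (2 * s) a₀ k) (b k) (L k) (S k)) ∧
          (∀ k ∈ Q₀, cel Cb (vt (2 * s) a₀ k) s ⊆ K) ∧ (∀ k ∈ Q₀, par Cb (L k) (b k) s ⊆ K') ∧
          (∀ k ∈ Q₀, ∀ l ∈ Q₀, k ≠ l →
            Disjoint (par Cb (L k) (b k) ((1 - τ) * s)) (par Cb (L l) (b l) s)) ∧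
          ∑ k ∈ Q₀, ∫⁻ x in cel Cb (vt (2 * s) a₀ k) s, ‖Gmat G x - L k‖ₑ ^ p ≤
            ENNReal.ofReal e₁ ∧
          volume ((Om ∩ {x | (Gmat G x).det ≠ 0}) \ ⋃ k ∈ Q₀, cel Cb (vt (2 * s) a₀ k) s) ≤
            ENNReal.ofReal ε ∧
          ∀ (W : Set R3), K ⊆ W → (∀ y ∈ Om, f y ∈ K' → y ∈ W) →
            ∀ (M : MFam Om W (s / N) n β r nc)
            (μ : Fin m → R3 → Measure R3), (∀ l, RM M.Tr (ENNReal.ofReal (nE l)) (μ l)) →
            (∀ l, ∀ a ∈ M.Tr, ∀ k : Fin 3 → ℤ, μ l a (cel Cb (vt (2 * s) a₀ k) s) ≤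
              ENNReal.ofReal (ncE l * (2 * s) ^ 3)) →
            ∀ (E : Fin m → Set R3), (∀ l, MeasurableSet (E l)) →
            ∀ (J : Type) [Countable J] (F : J → R3 → ℝ≥0∞), (∀ j, AEMeasurable (F j) volume) →
            (∀ j, ∫⁻ y, F j y ≠ ∞) →
            ∃ B : Set R3, volume B ≤ ENNReal.ofReal θ * volume M.Tr ∧
              ∀ a ∈ M.Tr, a ∉ B → (∀ e, ACV Om f (Gmat G) (M.v e) (a + M.x e)) ∧
                (∀ e j, ∀ ε' : ℝ≥0∞, 0 < ε' → ∀ᶠ r in 𝓝[>] (0:ℝ),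
                  ∫⁻ y in thickening r (seg M.x M.v a e), F j y ≤
                    ENNReal.ofReal (64 * ‖M.v e‖ * r ^ 2) *
                      ((∫⁻ σ in Ioc (0:ℝ) 1, F j (a + M.x e + σ • M.v e)) + ε')) ∧
                ∃ Q ⊆ Q₀, ((Q₀ \ Q).card : ℝ) * (2 * s) ^ 3 ≤ δ ∧
                (∀ k ∈ Q, PerfG M.x M.v p Om f (Gmat G) κ τ σ₀ η (s / N) s a
                  (vt (2 * s) a₀ k) (b k) (L k)) ∧
                (∀ l, ∫⁻ y in E l ∪ ⋃ k ∈ Q₀ \ Q, cel Cb (vt (2 * s) a₀ k) s, g l y ∂μ l a ≤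
                  ENNReal.ofReal (nE l / (θ / (4 * (m + 1)))) * (∫⁻ y in E l, g l y) +
                    ENNReal.ofReal εE) ∧
                ∃ hinj : ∀ k ∈ Q, Function.Injective (L k),
                  RegsQ (M.T a) La f (vt (2 * s) a₀) b L hinj (M.c a) τ s β nc (s / N) κ ∧
                  ∀ e : ℝ, 0 < e → ∀ ζ : R3 → ℝ, (∀ y ∈ La, 0 < ζ y) →
                    (∀ y y', |ζ y - ζ y'| ≤ ‖y - y'‖ / 2) → ∃ Ψ : R3 ≃ₜ R3, Mv (M.T a) Ψ ∧
                    (∀ k ∈ Q, ∀ y ∈ cel Cb (vt (2 * s) a₀ k) ((1 - 6 * τ) * s),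
                      ‖f (Ψ y) - (b k + L k (y - vt (2 * s) a₀ k))‖ ≤
                        3 * (nc * (nc * nc) + 2) * (κ⁻¹ * (s / N)) + e) ∧
                    (∀ i, ∀ y ∈ P ((M.T a).H i), ∀ r',
                      (∀ y' ∈ P ((M.T a).H i), ‖f y' - f y‖ ≤ r') →
                      ‖f (Ψ y) - f y‖ ≤ r' + 3 * (nc * (nc * nc) + 1) * (κ⁻¹ * (s / N)) + e) ∧
                    (∀ i, ∀ y ∈ P ((M.T a).H i), ∀ r',
                      (∀ y' ∈ P ((M.T a).H i), ‖f y' - f y‖ ≤ r') →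
                      (∀ k ∈ Q, Disjoint (closedBall (f y) (2 * r' + ζ (f y)))
                        (par Cb (L k) (b k) ((1 - 4 * τ) * s))) →
                      ‖f (Ψ y) - f y‖ ≤ 4 * r' + 4 * ζ (f y)) := by
  obtain ⟨hmt, -, fi, F⟩ := hf_of_homeo H.homeo
  obtain ⟨κ, hκ, hκ1, K, hK, hKc, K', hK', hK'c, H0⟩ :=
    comp_A hp hOm hOmb hLa hLaf H happ.unif hε
  refine ⟨κ, hκ, hκ1, K, hK, hKc, K', hK', hK'c, ?_⟩
  intro nc N n τ σ₀ η θ δ e₁ β r hN hn hσ₀ hσ₀τ hτ6 hσN hτN hη hθ hδ he₁ hβ hr m g hg hgi nE ncE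
    εE hnE hncE hεE
  obtain ⟨s₀, hs₀, Hs⟩ := H0 nc N n τ σ₀ η θ δ e₁ β r hN hn hσ₀ hσ₀τ hτ6 hσN hτN hη hθ hδ he₁ hβ
    hr m g hg hgi nE ncE εE hnE hncE hεE
  refine ⟨s₀, hs₀, fun s hs hss a₀ => ?_⟩
  obtain ⟨Q₀, b, L, S, q1, q2, q3, q4, q5, q6, q7⟩ := Hs s hs hss a₀
  refine ⟨Q₀, b, L, S, q1, q2, q3, q4, q5, q6, ?_⟩
  intro W hKW hKW' M μ hμ hcount E hE J _ Fj hF hFi
  obtain ⟨B, hB, HB⟩ := q7 W hKW hKW' M μ hμ hcount E hE J Fj hF hFi
  refine ⟨B, hB, fun a ha haB => ?_⟩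
  obtain ⟨a1, a2, Q, hQ, a3, a4, a5, hinj, R, -⟩ := HB a ha haB
  refine ⟨a1, a2, Q, hQ, a3, a4, a5, hinj, R, fun e he ζ hζ0 hζ => ?_⟩
  have ht : 0 < s / N := div_pos hs hN
  have htτ : 2 * (s / N) ≤ τ * s := by
    have e1 : 2 * (s / N) = 2 / N * s := by ring
    rw [e1]
    refine mul_le_mul_of_nonneg_right ?_ hs.le
    rw [div_le_iff₀ hN]
    exact hτN
  exact psi_of_regs_fine hτ6 hs ht.le htτ hLa F hmt (fun k hk => (a4 k hk).sub) R happ he hζ0 hζ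

end Crest.Agent.R096.Ca_855
end

-- ▼ part R096/Pas2_753

/-!
Row 96 (S0127), helper753.  Assembly of `PreIN p`, part 2: `comp_U` = the selection of the position and of
the good cubes together with composite A, uniform in `1 ≤ p ≤ 2` (855's `comp_A_fine` for `p < 2`, 465's
`comp_A2F` for `p = 2`), on a `MFam2`.
-/

set_option autoImplicit false
set_option linter.style.longLine false
set_option linter.unusedSectionVars false

open MeasureTheory Set Filter Topology Metric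
open scoped ENNReal NNReal

namespace Crest.Agent.R096.Pas_753

open Crest.AnalysisR.VecCalc3 Crest.AnalysisR.Sobolev
open Crest.Agent.R096.Msh_715 (Tiling P I)
open Crest.Agent.R096.Mal_874 (CB)
open Crest.Agent.R096.Sk_962 (SH)
open Crest.Agent.R096.Br_695 (En)
open Crest.Agent.R096.Sk2_855 (Mv sk1)
open Crest.Agent.R096.Cp_465
open Crest.Agent.R096.Fsl_793
open Crest.Agent.R096.Ca_855
open Crest.Agent.R096.Gz_812 (HFine)
open Crest.Agent.R096.Pin_753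
open Crest.Agent.R96.Lu_538
open Crest.Agent.R96.Intr_538
open Crest.Agent.R96.Coarse_538
open Crest.Agent.R96.Acl_392

noncomputable section

/-- **composite A, uniform in `p`** -/
theorem comp_U {p : ℝ} (hp : 1 ≤ p) (hp2 : p ≤ 2) {Om La : Set R3} (hOm : IsOpen Om)
    (hOmb : Bornology.IsBounded Om) (hLa : IsOpen La) (hLaf : volume La ≠ ∞) {f : R3 → R3}
    {G : Fin 3 → R3 → R3} (H : SH p Om La f G) (happ : HFine Om La f) {ε : ℝ} (hε : 0 < ε) :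
    ∃ κ : ℝ, 0 < κ ∧ κ ≤ 1 ∧ ∃ K ⊆ Om, IsCompact K ∧ ∃ K' ⊆ La, IsCompact K' ∧
      ∀ (nc mf : ℕ) (N n τ σ₀ β r σ' η₁ θ δ e₁ : ℝ), 0 < N → 0 < n → 0 < σ₀ → σ₀ < τ → 6 * τ < 1 →
        1 ≤ σ₀ * N → 2 ≤ τ * N → 0 < β → 0 < r → 0 < σ' → 24 * σ' ≤ κ * τ * N → 0 < η₁ →
        0 < θ → 0 < δ → 0 < e₁ →
        ∃ s₀ : ℝ, 0 < s₀ ∧ ∀ s : ℝ, 0 < s → s < s₀ → ∀ a₀ : R3,
        ∃ (Q₀ : Finset (Fin 3 → ℤ)) (b : (Fin 3 → ℤ) → R3) (L : (Fin 3 → ℤ) → R3 →L[ℝ] R3)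
          (S : (Fin 3 → ℤ) → Set R3),
          (∀ k ∈ Q₀, GC Om volume f (Gmat G) Cb κ e₁ s (vt (2 * s) a₀ k) (b k) (L k) (S k)) ∧
          (∀ k ∈ Q₀, cel Cb (vt (2 * s) a₀ k) s ⊆ K) ∧ (∀ k ∈ Q₀, par Cb (L k) (b k) s ⊆ K') ∧
          (∀ k ∈ Q₀, ∀ l ∈ Q₀, k ≠ l →
            Disjoint (par Cb (L k) (b k) ((1 - τ) * s)) (par Cb (L l) (b l) s)) ∧
          ∑ k ∈ Q₀, ∫⁻ x in cel Cb (vt (2 * s) a₀ k) s, ‖Gmat G x - L k‖ₑ ^ p ≤
            ENNReal.ofReal e₁ ∧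
          volume ((Om ∩ {x | (Gmat G x).det ≠ 0}) \ ⋃ k ∈ Q₀, cel Cb (vt (2 * s) a₀ k) s) ≤
            ENNReal.ofReal ε ∧
          ∀ (W : Set R3), K ⊆ W → (∀ y ∈ Om, f y ∈ K' → y ∈ W) →
            ∀ (M : MFam2 Om W (s / N) n β r nc mf) (ν : R3 → Measure R3),
            RM M.Tr (ENNReal.ofReal n) ν →
            ∀ (J : Type) [Countable J] (F : J → R3 → ℝ≥0∞), (∀ j, AEMeasurable (F j) volume) →
            (∀ j, ∫⁻ y, F j y ≠ ∞) →
            ∃ B : Set R3, volume B ≤ ENNReal.ofReal θ * volume M.Tr ∧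
              ∀ a ∈ M.Tr, a ∉ B → (∀ e, ACV Om f (Gmat G) (M.v e) (a + M.x e)) ∧
                (∀ e j, ∀ ε' : ℝ≥0∞, 0 < ε' → ∀ᶠ r in 𝓝[>] (0:ℝ),
                  ∫⁻ y in thickening r (seg M.x M.v a e), F j y ≤
                    ENNReal.ofReal (64 * ‖M.v e‖ * r ^ 2) *
                      ((∫⁻ σ in Ioc (0:ℝ) 1, F j (a + M.x e + σ • M.v e)) + ε')) ∧
                ∃ Q ⊆ Q₀, ((Q₀ \ Q).card : ℝ) * (2 * s) ^ 3 ≤ δ ∧
                (∀ k ∈ Q, PerfG M.x M.v p Om f (Gmat G) κ τ σ₀ η₁ (s / N) s a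
                  (vt (2 * s) a₀ k) (b k) (L k)) ∧
                (p = 2 → ∀ k ∈ Q, ∫⁻ y in cel Cb (vt (2 * s) a₀ k) s,
                  ‖Gmat G y - L k‖ₑ ^ (2:ℝ) ∂ν a ≤ ENNReal.ofReal (η₁ * s ^ 3)) ∧
                ResU (p = 2) Om La (M.T a) f Q (vt (2 * s) a₀) b L κ τ s
                  (3 * (nc * (nc * nc) + 2) * (κ⁻¹ * (s / N))) (σ' * (s / N)) := by
  rcases hp2.lt_or_eq with hlt | rfl
  · -- p < 2
    obtain ⟨κ, hκ, hκ1, K, hK, hKc, K', hK', hK'c, H0⟩ :=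
      comp_A_fine hp hOm hOmb hLa hLaf H happ hε
    refine ⟨κ, hκ, hκ1, K, hK, hKc, K', hK', hK'c, ?_⟩
    intro nc mf N n τ σ₀ β r σ' η₁ θ δ e₁ hN hn hσ₀ hσ₀τ hτ6 hσN hτN hβ hr hσ' hσ'r hη₁ hθ hδ he₁
    obtain ⟨s₀, hs₀, Hs⟩ := H0 nc N n τ σ₀ η₁ θ δ e₁ β r hN hn hσ₀ hσ₀τ hτ6 hσN hτN hη₁ hθ hδ he₁
      hβ hr 0 (fun _ _ => 0) (fun l => l.elim0) (fun l => l.elim0) (fun _ => 1) (fun _ => 1) 1
      (fun l => l.elim0) (fun l => l.elim0) one_pos
    refine ⟨s₀, hs₀, fun s hs hss a₀ => ?_⟩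
    obtain ⟨Q₀, b, L, S, q1, q2, q3, q4, q5, q6, q7⟩ := Hs s hs hss a₀
    refine ⟨Q₀, b, L, S, q1, q2, q3, q4, q5, q6, ?_⟩
    intro W hKW hKW' M ν hν J _ F hF hFi
    obtain ⟨B, hB, HB⟩ := q7 W hKW hKW' M.toMFam (fun _ _ => 0) (fun l => l.elim0)
      (fun l => l.elim0) (fun _ => ∅) (fun l => l.elim0) J F hF hFi
    refine ⟨B, hB, fun a ha haB => ?_⟩
    obtain ⟨a1, a2, Q, hQ, a3, a4, -, hinj, -, a6⟩ := HB a ha haB
    refine ⟨a1, a2, Q, hQ, a3, a4, fun h => absurd h hlt.ne, ?_⟩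
    have hst : 0 ≤ σ' * (s / N) := by positivity
    have hpr : (p = 2) = False := by
      simp only [hlt.ne]
    rw [hpr]
    refine ResU.of_lt hst fun e he ζ hζ0 hζ => ?_
    obtain ⟨Ψ, g1, g2, g3, g4⟩ := a6 e he ζ hζ0 hζ
    refine ⟨Ψ, g1, g2, fun i y hy r' hr' => (g3 i y hy r' hr').trans ?_, g4⟩
    have : 0 ≤ κ⁻¹ * (s / N) := by positivity
    nlinarith
  · -- p = 2
    obtain ⟨κ, hκ, hκ1, K, hK, hKc, K', hK', hK'c, H0⟩ :=
      comp_A2F hOm hOmb hLa hLaf H happ hε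
    refine ⟨κ, hκ, hκ1, K, hK, hKc, K', hK', hK'c, ?_⟩
    intro nc mf N n τ σ₀ β r σ' η₁ θ δ e₁ hN hn hσ₀ hσ₀τ hτ6 hσN hτN hβ hr hσ' hσ'r hη₁ hθ hδ he₁
    obtain ⟨s₀, hs₀, Hs⟩ := H0 N n τ σ₀ β r σ' η₁ nc mf hN hn hσ₀ hσ₀τ hτ6 hσN hτN hβ hr hσ' hσ'r
      hη₁ θ δ e₁ hθ hδ he₁ 0 (fun _ _ => 0) (fun l => l.elim0) (fun l => l.elim0) (fun _ => 1)
      (fun _ => 1) 1 (fun l => l.elim0) (fun l => l.elim0) one_pos
    refine ⟨s₀, hs₀, fun s hs hss a₀ => ?_⟩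
    obtain ⟨Q₀, b, L, S, q1, q2, q3, q4, q5, q6, q7⟩ := Hs s hs hss a₀
    refine ⟨Q₀, b, L, S, q1, q2, q3, q4, q5, q6, ?_⟩
    intro W hKW hKW' M ν hν J _ F hF hFi
    obtain ⟨B, hB, HB⟩ := q7 W hKW hKW' M ν hν (fun _ _ => 0) (fun l => l.elim0)
      (fun l => l.elim0) (fun _ => ∅) (fun l => l.elim0) J F hF hFi
    refine ⟨B, hB, fun a ha haB => ?_⟩
    obtain ⟨a1, a2, Q, hQ, a3, a4, -, a6⟩ := HB a ha haB
    exact ⟨a1, a2, Q, hQ, a3, fun k hk => (a4 k hk).1, fun _ k hk => (a4 k hk).2,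
      ResU.of_two a6 _⟩

end

end Crest.Agent.R096.Pas_753
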