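import Crest.Agent.R096.Onp2_622
import Crest.Agent.R096.Cob11_622
import Crest.Agent.R096.Pas2_753
import Crest.Agent.R096.Ca20_855
import Crest.Agent.R096.Ca21_855
import Crest.Agent.R096.Eta1_812
import Crest.Agent.R096.Eta2_812
import Crest.Agent.R096.Osc1_400
import Crest.Agent.R096.Msb2_432
import Crest.Agent.R096.Cp9_465
import Crest.Agent.R096.Cbs4_296

-- ▼ part R096/Onp3_622
section

set_option autoImplicit false
set_option linter.unusedSectionVars false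
set_option linter.style.longLine false

open Set Metric Filter Topology MeasureTheory
open scoped ENNReal NNReal

namespace Crest.Agent.R096.Onp_622

open Crest.Agent.R096.Ce_537 Crest.Agent.R096.Bd_416 Crest.Agent.R96.Hole_348
open Crest.AnalysisR.VecCalc3 Crest.AnalysisR.Sobolev Crest.Agent.R096.Sk_962
open Crest.Agent.R096.Msh_715 (P I Tiling)
open Crest.Agent.R096.Mal_874 (CB)
open Crest.Agent.R096.Sq_55
open Crest.Agent.R096.Efi_296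
open Crest.Agent.R096.Cbs_296
open Crest.Agent.R096.Ca_855 (MIn deepT)
open Crest.Agent.R096.Cob_622
open Crest.Agent.R096.Br_695 (En)
open Crest.Agent.R96.Lu_538 (Gmat)
open Crest.Agent.R96.Intr_538 (cel par)
open Crest.Agent.R96.Coarse_538 (vt Cb)
open Crest.Agent.R96.En10_199 (P3)

noncomputable section

/-! ### the squeeze of the source -/

/-- **`hχ` of 692's `out_c0`** -/
theorem hchi {Om : Set R3} {ι : Type*} {T : Tiling Om ι} {s : Finset ι} {pr : (Te T).Cell → Prop}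
    {c : ι → E3} {R : ι → ℝ≥0} {ρ : E3 → ℝ≥0} {m : ι → ℝ≥0} {X : Sys s (reps (Te T) s pr)}
    (h : SysOf (Te T) s pr c R ρ m X) (hpr : ∀ c : (Te T).Cell, pr c → ∀ k ∈ (Te T).at_ c.pt, k ∈ s)
    {p δ : ℝ} (hA : X.Adm p δ) (N₁ N₂ : ℕ) (x : R3) (hx : x ∈ Om) :
    ∃ i, x ∈ P (T.H i) ∧ toR (Sys.chi hA N₁ N₂) x ∈ P (T.H i) := by
  by_cases hk : ∃ k : s, x ∈ P (T.H k)
  · obtain ⟨k, hk⟩ := hk
    refine ⟨k, hk, ?_⟩
    have h1 : w2.symm x ∈ (X.C k).P := by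
      rw [h.eP k, Ou_372.mem_P_Te, w2.apply_symm_apply]
      exact hk
    have h2 := (Sys.chi_P hA N₁ N₂ k (w2.symm x)).2 h1
    rw [h.eP k, Ou_372.mem_P_Te] at h2
    exact h2
  · obtain ⟨i, hi⟩ := T.cov x hx
    refine ⟨i, hi, ?_⟩
    have h1 : w2.symm x ∉ ⋃ k, (X.C k).P := by
      intro h2
      obtain ⟨k, hk2⟩ := mem_iUnion.1 h2
      rw [h.eP k, Ou_372.mem_P_Te, w2.apply_symm_apply] at hk2
      exact hk ⟨k, hk2⟩
    have h2 : toR (Sys.chi hA N₁ N₂) x = x := by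
      rw [toR_apply, Cob_622.chi_out (h.K_sub_P hpr) hA N₁ N₂ h1, w2.apply_symm_apply]
    rw [h2]
    exact hi

/-! ### the squeezes of the target -/

/-- what is known about the squeezes `R` of the target (last clauses of 753's `ResU.use`) -/
def PrR (κ τ s σr : ℝ) (b : (Fin 3 → ℤ) → R3) (L : (Fin 3 → ℤ) → R3 →L[ℝ] R3)
    (Q : Finset (Fin 3 → ℤ)) (R : R3 ≃ₜ R3) : Prop :=
  (∀ y, ‖R y - y‖ ≤ 3 * σr) ∧
  (∀ y, (∀ k ∈ Q, y ∉ thickening (κ * (τ * s)) (par Cb (L k) (b k) ((1 - 4 * τ) * s))) →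
    R y = y) ∧
  ∃ ψ : {k // k ∈ Q} → Fin 3 → ℝ → ℝ, (∀ q a, Monotone (ψ q a)) ∧
    (∀ q a x y, |ψ q a x - ψ q a y| ≤ |x - y|) ∧
    (∀ q a x, 0 ≤ ψ q a x) ∧ (∀ q a x, ψ q a x ≤ σr) ∧
    ∀ q : {k // k ∈ Q}, ∀ y ∈ thickening (κ * (τ * s) / 4)
      (par Cb (L q) (b q) ((1 - 4 * τ) * s)), ∀ a, R y a = y a - ψ q a (y a)

/-! ### the errors of the blocks -/

section er

variable {Om W : Set R3} {ρ₀ : R3 → ℝ} {J : Type} [Finite J] {Qb : J → CB R3 3} {k0 : ℕ} {σ : ℝ}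

/-- the tiles in the zone `Rl / 2 ^ k0` of the wall of block `j` -/
def zoneT (h : MIn Om W ρ₀ Qb k0 σ) (a : R3) (Rl : ℝ) (j : J) : Set (h.ιT a) :=
  {t | ∃ x ∈ P ((h.T a).H t), ∃ z ∈ frontier ((Qb j).tr a).N,
    ‖(Qb j).ψ x - (Qb j).ψ z‖ ≤ Rl / 2 ^ k0}

open Classical in
/-- the tiles of `s` in the zone of the wall of block `j` -/
def zoneS (h : MIn Om W ρ₀ Qb k0 σ) (a : R3) (s : Finset (h.ιT a)) (Rl : ℝ) (j : J) : Finset s :=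
  Finset.univ.filter fun k : s => (k : h.ιT a) ∈ zoneT h a Rl j

theorem mem_zoneS {h : MIn Om W ρ₀ Qb k0 σ} {a : R3} {s : Finset (h.ιT a)} {Rl : ℝ} {j : J}
    {k : s} : k ∈ zoneS h a s Rl j ↔ (k : h.ιT a) ∈ zoneT h a Rl j := by
  classical
  unfold zoneS
  rw [Finset.mem_filter]
  exact ⟨fun h => h.2, fun h => ⟨Finset.mem_univ _, h⟩⟩

/-- **the error of block `j`** -/
def erT (h : MIn Om W ρ₀ Qb k0 σ) (a : R3) {s : Finset (h.ιT a)} (Jf : s → ℝ≥0∞) (Rl Cer : ℝ)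
    (ε : ℝ≥0∞) (j : J) : ℝ≥0∞ :=
  ENNReal.ofReal Cer * ∑ k ∈ zoneS h a s Rl j, (Jf k + ε)

/-- the zones of different blocks have no common tile -/
theorem zone_disj (h : MIn Om W ρ₀ Qb k0 σ) {a : R3} {κ Rl dm c2 s' : ℝ} (hκ : 0 < κ)
    (hb : ∀ j v, κ / 4 * ‖v‖ ≤ ‖(Qb j).ψ v‖)
    (hdm : ∀ j, ∀ t ∈ zoneT h a Rl j, ∀ x ∈ P ((h.T a).H t), ∀ y ∈ P ((h.T a).H t),
      ‖x - y‖ ≤ dm / 2 ^ k0)
    (sep : ∀ i j, i ≠ j → ∀ x ∈ (Qb i).N, ∀ y ∈ (Qb j).N, c2 * s' ≤ dist x y)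
    (hnum : (dm + 8 * κ⁻¹ * Rl) * (1 / 2 ^ k0) < c2 * s') {i j : J} (hij : i ≠ j) {t : h.ιT a}
    (hi : t ∈ zoneT h a Rl i) : t ∉ zoneT h a Rl j := by
  intro hj
  have hd := hdm i t hi
  obtain ⟨x, hx, z, hz, h1⟩ := hi
  obtain ⟨y, hy, w, hw, h2⟩ := hj
  have n1 : z - a ∈ (Qb i).N := ((Qb i).mem_N_tr a z).1 (((Qb i).tr a).frontier_sub hz)
  have n2 : w - a ∈ (Qb j).N := ((Qb j).mem_N_tr a w).1 (((Qb j).tr a).frontier_sub hw)
  have h5 := sep i j hij _ n1 _ n2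
  rw [dist_sub_right] at h5
  have near : ∀ (l : J) (u v : R3), ‖(Qb l).ψ u - (Qb l).ψ v‖ ≤ Rl / 2 ^ k0 →
      dist u v ≤ 4 * κ⁻¹ * Rl * (1 / 2 ^ k0) := by
    intro l u v huv
    have h6 := hb l (u - v)
    rw [map_sub] at h6
    rw [dist_eq_norm]
    have h7 : κ * ‖u - v‖ ≤ 4 * (Rl / 2 ^ k0) := by linarith
    have h8 : ‖u - v‖ ≤ (4 * (Rl / 2 ^ k0)) / κ := by rw [le_div_iff₀' hκ]; exact h7
    refine h8.trans (le_of_eq ?_)
    field_simp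
  have h6 := near i x z h1
  have h7 := near j y w h2
  have h8 := hd x hx y hy
  rw [← dist_eq_norm] at h8
  have h9 : dist z w ≤ dist x z + dist x y + dist y w := by
    have h10 := dist_triangle z x w
    have h11 := dist_triangle x y w
    rw [dist_comm z x] at h10
    linarith
  have e1 : dm / 2 ^ k0 = dm * (1 / 2 ^ k0) := by ring
  rw [e1] at h8
  nlinarith

/-- **the sum of the errors** -/
theorem sum_erT (h : MIn Om W ρ₀ Qb k0 σ) {a : R3} {s : Finset (h.ιT a)} {Jf cb : s → ℝ≥0∞}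
    {Rl Cer e₀ : ℝ} {ε : ℝ≥0∞} {pJ : J → Prop}
    (hdis : ∀ i j, i ≠ j → ∀ t ∈ zoneT h a Rl i, t ∉ zoneT h a Rl j)
    (hcb : ∀ k, 1 ≤ cb k)
    (hE : ∀ s₂ : Finset s, (∀ k ∈ s₂, ∃ j, pJ j ∧ (k : h.ιT a) ∈ zoneT h a Rl j) →
      ∑ k ∈ s₂, cb k * Jf k ≤ ENNReal.ofReal e₀) :
    (∑' j : {j // pJ j}, erT h a Jf Rl Cer ε (j : J)) ≤
      ENNReal.ofReal Cer * (ENNReal.ofReal e₀ + s.card * ε) := by
  classical
  have hfin := Fintype.ofFinite {j // pJ j}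
  unfold erT
  rw [ENNReal.tsum_mul_left, tsum_fintype]
  refine mul_le_mul' le_rfl ?_
  rw [← Finset.sum_biUnion (s := (Finset.univ : Finset {j // pJ j}))
    (t := fun j : {j // pJ j} => zoneS h a s Rl (j : J)) (f := fun k => Jf k + ε)]
  · set B := (Finset.univ : Finset {j // pJ j}).biUnion fun j => zoneS h a s Rl (j : J) with hB
    rw [Finset.sum_add_distrib, Finset.sum_const, nsmul_eq_mul]
    refine add_le_add ?_ ?_
    · refine le_trans (Finset.sum_le_sum fun k _ => ?_) (hE B fun k hk => ?_)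
      · exact le_mul_of_one_le_left' (hcb k)
      · rw [hB, Finset.mem_biUnion] at hk
        obtain ⟨j, -, hj⟩ := hk
        exact ⟨j, j.2, mem_zoneS.1 hj⟩
    · have h3 : B.card ≤ s.card := by
        have h4 : B.card ≤ (Finset.univ : Finset s).card := Finset.card_le_univ B
        rwa [Finset.card_univ, Fintype.card_coe] at h4
      have h5 : (B.card : ℝ≥0∞) ≤ s.card := by exact_mod_cast h3
      exact mul_le_mul' h5 le_rfl
  · intro i _ j _ hij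
    rw [Function.onFun, Finset.disjoint_left]
    intro k hk hk'
    exact hdis i j (fun e => hij (Subtype.ext e)) _ (mem_zoneS.1 hk) (mem_zoneS.1 hk')

end er

end

end Crest.Agent.R096.Onp_622
end

-- ▼ part R096/Ou3_372
section

/-!
Row 96 (S0127), helper372.  (OU), part 3: the two last clauses of `OutB` from `SetD` (622), `AdE` and `Els`
(538) and the clauses (out), (cells) of `cob_O1` (622), in the letters of `OneP`.
-/

set_option autoImplicit false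
set_option linter.style.longLine false
set_option linter.unusedSectionVars false

open MeasureTheory Set Filter Topology Metric
open scoped ENNReal NNReal

namespace Crest.Agent.R096.Ou_372

open Crest.AnalysisR.VecCalc3 Crest.AnalysisR.Sobolev
open Crest.Agent.R096.Msh_715 (Tiling P I)
open Crest.Agent.R096.Mal_874 (CB)
open Crest.Agent.R096.Br_695 (En)
open Crest.Agent.R096.Pin_753
open Crest.Agent.R96.Intr_538 (cel)
open Crest.Agent.R96.Coarse_538 (vt Cb mem_cel)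
open Crest.Agent.R096.Sq_55 (E3 Sys Face FaceOf w2 lint_w2)
open Crest.Agent.R096.Cob_622 (EF)
open Crest.Agent.R096.Efi_296
open Crest.Agent.R096.Cbs_296
open Crest.Agent.R096.Ca_855 (MIn deepT s1T s2T mem_s1T mem_s2T hs1T hsq1T hs2T hsq2T)
open Crest.Agent.R096.Onp_622 (SetD)
open Crest.Agent.R96.Eld_538 (AdE Els)
open Crest.Agent.R96.En10_199 (P3)

noncomputable section

variable {Om W : Set R3} {ρ₀ : R3 → ℝ} {J : Type} [Finite J] {Qb : J → CB R3 3} {k0 : ℕ}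

/-- **the two last clauses of `OutB`** -/
theorem ouly_setD {p : ℝ} {s' c2 : ℝ} (h : MIn Om W ρ₀ Qb k0 (c2 * s')) {a : R3}
    {kk : J → Fin 3 → ℤ} {Q Q₀ : Finset (Fin 3 → ℤ)} {K1 K3 : ℕ} {vU vI vN : ℝ≥0} {f : R3 → R3}
    {Φ : R3 ≃ₜ R3} {U K₀ : Set R3} {s : Finset (h.ιT a)} {pr : (Te (h.T a)).Cell → Prop}
    {c : h.ιT a → E3} {κt : h.ιT a → ℕ} {R u : h.ιT a → ℝ≥0}
    {X : Sys s (reps (Te (h.T a)) s pr)} {G G₂ : Fin 3 → R3 → R3} {mU mN Cu K : ℝ≥0}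
    {Rl e₀ : ℝ} {ε : ℝ≥0∞} (hS : SetD p h a kk Q K1 K3 vU vI vN f Φ U K₀ s pr c κt R u X)
    {D : EF X Om (En p G) (EgS (Te (h.T a)) s) (FcS (Te (h.T a)) s pr)}
    (hA : AdE p h G mU mN a s pr c R (ρS (Te (h.T a)) R) (mS (Te (h.T a)) s pr u) X D)
    (hE : Els p Om W ρ₀ J Qb k0 (c2 * s') h G {j | kk j ∈ Q} mU Cu mN Rl e₀ a)
    (hK : K ≤ 2) (hK1 : 4 ≤ K1) (hRl : 40 ≤ Rl) (hOm : MeasurableSet Om)
    (out : ∀ S : Set R3, MeasurableSet S → S ⊆ Om → (∀ x ∈ S, x ∉ w2 '' (⋃ k, (X.C k).P)) →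
      ∫⁻ x in S, En p G₂ x ≤
        ENNReal.ofReal ((6:ℝ)^p * (3 * (9 * K)^p)) * (∫⁻ x in S, En p G x) + ε)
    (cells : ∀ k, (p < 2 ∨ ∀ j, ¬ ((X.F j).V ∩ (X.C k).P).Nonempty) →
      ∫⁻ x in (X.C k).P, En p G₂ (w2 x) ≤ ENNReal.ofReal (Cob_622.CB p K (X.m k)) * D.J k + ε)
    {κ τ hh c1 θ0 θ1 e : ℝ} {Bs Nn : ℕ} {a₀ : R3} (hs : 0 < s') (hκ : 0 < κ) (hκ1 : κ ≤ 1)
    (hτ : τ ≤ 1 / 4) (hc1 : 0 < c1) (hc2 : 0 < c2) (he : 0 < e)
    (hkk : ∀ j, kk j ∈ Q₀) (hcel : ∀ k ∈ Q₀, cel Cb (vt (2 * s') a₀ k) s' ⊆ W)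
    (hWO : W ⊆ Om) (hWK : W ⊆ K₀)
    (hb : ∀ j, BlkP κ s' τ hh c1 θ0 θ1 Bs Nn (vt (2 * s') a₀ (kk j)) (Qb j) k0)
    (sep : ∀ i j, i ≠ j → ∀ x ∈ (Qb i).N, ∀ y ∈ (Qb j).N, c2 * s' ≤ dist x y)
    (h2 : 1 / 2 ^ k0 ≤ θ0 * s') (ha : ‖a‖ ≤ 2 / 2 ^ k0)
    (n1 : 320 * θ0 < κ * c2) (n2 : 40 * θ0 ≤ c1) (n3 : 162 * θ0 ≤ κ * τ)
    (n4 : ENNReal.ofReal (7680 * θ0 / c1) * volume Om ≤ ENNReal.ofReal (e / 3))
    (n5 : e₀ ≤ e / 3) (hε : ((s.card : ℝ≥0∞) + 1) * ε ≤ ENNReal.ofReal (e / 3)) :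
    (∑' j : {j // kk j ∈ Q}, ∫⁻ x in Ly ((Qb j).tr a) k0, (1 + En p G₂ x)) ≤ ENNReal.ofReal e ∧
    (∫⁻ x in Om \ ⋃ j ∈ {j | kk j ∈ Q}, ((Qb j).tr a).N, (1 + En p G₂ x)) ≤
      (Cout p K Cu : ℝ≥0∞) * (∫⁻ x in Om \ ⋃ j ∈ {j | kk j ∈ Q}, ((Qb j).tr a).Kc, (1 + En p G x)) +
        ENNReal.ofReal e := by
  classical
  have hθ0 : 0 < θ0 := by
    by_contra hcon
    have h3 : (0:ℝ) < 1 / 2 ^ k0 := by positivity
    have : θ0 * s' ≤ 0 := mul_nonpos_of_nonpos_of_nonneg (not_lt.1 hcon) hs.le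
    linarith
  have ha2 : ‖a‖ ≤ (2 * θ0) * s' := by
    have e1 : (2:ℝ) / 2 ^ k0 = 2 * (1 / 2 ^ k0) := by ring
    rw [e1] at ha
    nlinarith
  have ha8 : ‖a‖ ≤ c2 * s' / 8 := by
    refine ha2.trans ?_
    have h3 : κ * c2 ≤ c2 := by nlinarith
    have h4 : 16 * θ0 ≤ c2 := by nlinarith
    have h5 : 16 * θ0 * s' ≤ c2 * s' := mul_le_mul_of_nonneg_right h4 hs.le
    linarith
  have hnum : 2 * θ0 + 160 * κ⁻¹ * θ0 ≤ τ := by
    have h3 : 162 * θ0 * κ⁻¹ ≤ τ := by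
      rw [← div_eq_mul_inv, div_le_iff₀ hκ]
      linarith
    have h4 : 1 ≤ κ⁻¹ := (one_le_inv₀ hκ).2 hκ1
    nlinarith
  have hLy : ∀ j, Ly ((Qb j).tr a) k0 ⊆ W := fun j =>
    (ly_sub_cel hs hκ (by linarith) (fun v => ((hb j).cnd v).1) h2 ha2 hnum (hb j).sub).trans
      (hcel _ (hkk j))
  have hNO : ∀ j, (Qb j).N ⊆ Om := by
    intro j
    refine (hb j).sub.trans (Subset.trans ?_ ((hcel _ (hkk j)).trans hWO))
    intro x hx
    have hτ1 : (0:ℝ) < 1 - τ := by linarith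
    rw [mem_cel (mul_pos hτ1 hs)] at hx
    rw [mem_cel hs]
    have hτ0 : 0 < τ := by
      have : 0 < κ⁻¹ * θ0 := by positivity
      nlinarith
    intro i
    exact (hx i).trans (by nlinarith)
  have hpr : ∀ c : (Te (h.T a)).Cell, pr c →
      p < 2 ∨ ∀ k ∈ (Te (h.T a)).at_ c.pt, k ∈ deepT h a kk Q K1 := hS.pr_d
  have hcell : ∀ j, c1 * s' ≤ 1 / 2 ^ (Qb j).kc := fun j => (hb j).cellL
  have hcnd : ∀ j, ∀ v, κ / 4 * ‖v‖ ≤ ‖(Qb j).ψ v‖ := fun j v => ((hb j).cnd v).1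
  obtain ⟨i1, i2⟩ := hE s pr c R _ _ X D hA K hK
  have he₀ : ENNReal.ofReal e₀ ≤ ENNReal.ofReal (e / 3) := ENNReal.ofReal_le_ofReal n5
  have he32 : ENNReal.ofReal (e / 3) ≤ ENNReal.ofReal (e / 2) :=
    ENNReal.ofReal_le_ofReal (by linarith)
  refine ⟨?_, ?_⟩
  · refine ly_clause hS.sys D cells hs hκ hc1 hc2 n1 n2 h2 hcnd hcell sep hNO
      (fun j _ => (hLy j).trans hWO) (s2T h a kk Q s)
      (fun k j hj hne => hs2T h hS.mem_s (fun j _ => (hLy j).trans hWK) k j hj hne)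
      (hsq2T h ha8 hS.sys hK1 hs hκ n1 h2 hcnd sep hpr) he.le ?_ hε n4
    refine (i2 (s2T h a kk Q s) fun k hk => ?_).trans he₀
    obtain ⟨j, hj, x, hx1, z, hz, hxz⟩ := (mem_s2T h).1 hk
    refine ⟨j, hj, x, hx1, z, hz, le_trans (show ‖(Qb j).ψ x - (Qb j).ψ z‖ ≤ 40 / 2 ^ k0 from hxz) ?_⟩
    exact div_le_div_of_nonneg_right hRl (by positivity)
  · refine ou_clause hS.sys D hOm out cells (s1T h a kk Q s) (hs1T h) (hsq1T h hS.sys hpr) he.le ?_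
      (hε.trans he32)
    refine (i1 (s1T h a kk Q s) fun k hk j hj hsub => ?_).trans
      (add_le_add le_rfl (he₀.trans he32))
    exact (mem_s1T h).1 hk ⟨j, hj, hsub⟩

end

end Crest.Agent.R096.Ou_372
end

-- ▼ part R096/Ca22_855
section

/-!
# Row 96 (S0127), helper855: `AdE` (538) from `SetD` (622) and the shape numbers.
-/

set_option autoImplicit false
set_option linter.unusedSectionVars false
set_option linter.style.longLine false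

open Set Metric Topology Filter MeasureTheory
open scoped ENNReal NNReal

namespace Crest.Agent.R096.Ca_855

open Crest.AnalysisR.VecCalc3
open Crest.Agent.R096.Msh_715 (Tiling P I I_sub_P)
open Crest.Agent.R096.Mal_874 (CB)
open Crest.Agent.R096.Br_695 (En)
open Crest.Agent.R096.Sq_55 (E3 Sys Face FaceOf w2 GG Shp Shp2)
open Crest.Agent.R096.Cob_622 (EF)
open Crest.Agent.R096.Efi_296 (Te reps mem_reps EgS FcS GoodA)
open Crest.Agent.R096.Cbs_296 (SysOf efS ρS mS)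
open Crest.Agent.R96.En10_199 (P3)
open Crest.Agent.R96.Coarse_538 (seg)
open Crest.Agent.R096.Fce_793 (pt cc)
open Crest.Agent.R96.Eld_538 (Cl1 AdE)
open Crest.Agent.R096.Pas_753 (AllC)
open Crest.Agent.R096.Onp_622 (SetD)

noncomputable section

variable {Om W : Set R3} {ρ₀ : R3 → ℝ} {J : Type} [Finite J] {Qb : J → CB R3 3} {k0 : ℕ} {σ : ℝ}

/-- larger bounds -/
theorem AdE.mono' {p : ℝ} {h : MIn Om W ρ₀ Qb k0 σ} {G : Fin 3 → R3 → R3} {mU mN mU' mN' : ℝ≥0}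
    {a : R3} {s : Finset (h.ιT a)} {pr : (Te (h.T a)).Cell → Prop} {c : h.ιT a → E3}
    {R : h.ιT a → ℝ≥0} {ρ : E3 → ℝ≥0} {m : h.ιT a → ℝ≥0} {X : Sys s (reps (Te (h.T a)) s pr)}
    {D : EF X Om (En p G) (EgS (Te (h.T a)) s) (FcS (Te (h.T a)) s pr)}
    (H : AdE p h G mU mN a s pr c R ρ m X D) (h1 : mU ≤ mU') (h2 : mN ≤ mN') :
    AdE p h G mU' mN' a s pr c R ρ m X D where
  sys := H.sys
  fc := H.fc
  rim := H.rim
  Ee := H.Ee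
  Ef := H.Ef
  ρle := H.ρle
  mle k hk := (H.mle k hk).trans h2
  mleU k hk hc := (H.mleU k hk hc).trans h1
  Rd k hk := by
    obtain ⟨y, hy, y', hy', h3⟩ := H.Rd k hk
    refine ⟨y, hy, y', hy', h3.trans ?_⟩
    gcongr
  RdU k hk hc := by
    obtain ⟨y, hy, y', hy', h3⟩ := H.RdU k hk hc
    refine ⟨y, hy, y', hy', h3.trans ?_⟩
    gcongr
  Re k hk x hx hd y w hs := by
    refine (H.Re k hk x hx hd y w hs).trans ?_
    gcongr

/-- the ratio of the sizes at a squeezed 2-cell -/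
theorem hR_of {h : MIn Om W ρ₀ Qb k0 σ} {a : R3} {R u : h.ιT a → ℝ≥0}
    (hR : ∀ k l, (P ((h.T a).H k) ∩ P ((h.T a).H l)).Nonempty → R k ≤ u k * R l ∧ R l ≤ u k * R k)
    (x : E3) (k : h.ιT a) (hk : k ∈ (Te (h.T a)).at_ x) (l : h.ιT a)
    (hl : l ∈ (Te (h.T a)).at_ x) : R k ≤ u k * R l ∧ R l ≤ u k * R k :=
  hR k l ⟨w2 x, Cbs_296.mem_P_Te.1 hk, Cbs_296.mem_P_Te.1 hl⟩

/-- **`AdE` from `SetD`** -/
theorem adE_set {p : ℝ} {h : MIn Om W ρ₀ Qb k0 σ} {a : R3} {kk : J → Fin 3 → ℤ}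
    {Q : Finset (Fin 3 → ℤ)} {K1 K3 : ℕ} {vU vI vN : ℝ≥0} {f : R3 → R3} {Φ : R3 ≃ₜ R3}
    {U K₀ : Set R3} {s : Finset (h.ιT a)} {pr : (Te (h.T a)).Cell → Prop} {c : h.ιT a → E3}
    {κt : h.ιT a → ℕ} {R u : h.ιT a → ℝ≥0} {X : Sys s (reps (Te (h.T a)) s pr)}
    (H : SetD p h a kk Q K1 K3 vU vI vN f Φ U K₀ s pr c κt R u X)
    {B : h.ιT a → E3 ≃ᵃ[ℝ] E3} (hS : ∀ t, Shp2 (Te (h.T a)) t (B t) (R t) (u t))
    {mU mN : ℝ≥0} (hmU : GG vU ≤ mU) (hmN : GG vN ≤ mN) {G : Fin 3 → R3 → R3}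
    {κe κf : Type} {x' v' : κe → R3} {e' : κf → Fin 2 → R3} {xx' : κf → R3}
    {Qf' : κf → Set (ℝ × ℝ)} (hA : AllC h x' v' e' xx' Qf')
    (hG : GoodA Om (En p G) x' v' e' xx' a)
    {me : EgS (Te (h.T a)) s → κe} {mf : FcS (Te (h.T a)) s pr → κf}
    (hme : ∀ c, w2 '' c.1.set = seg x' v' a (me c))
    (hmf : ∀ c, w2 '' c.1.set = pt (e' (mf c)) (a + xx' (mf c)) '' Qf' (mf c)) :
    AdE p h G mU mN a s pr c R (ρS (Te (h.T a)) R) (mS (Te (h.T a)) s pr u) X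
      (efS hG hA.cpt hme hmf X H.sys.rim H.sys.Z) :=
  AdE.mono' (adE_of h H.sys (fun i _ => hS i) (fun x _ => hR_of H.R2 x) (fun i _ => H.uN i)
    (fun i _ hc => H.uU i hc) hA hG hme hmf) hmU hmN


end

end Crest.Agent.R096.Ca_855
end

-- ▼ part R096/Cl0_692
section

/-!
Row 96 (S0127), helper692.  **(CL) of 753 #11736: the `C⁰` clauses of `Pas_753.OutP`** for
`f₂ = R ∘ f ∘ Φ ∘ χ`, `Φ, R` from `ResU.use` with `τ / 12`, `ζ = w`, `e ≤ hh * s` (numbers of `SelP`), over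
812's `EtaOK` and `near_cel_T`.
-/

set_option autoImplicit false
set_option linter.style.longLine false
set_option linter.unusedSectionVars false

open Set Filter Topology Metric

namespace Crest.Agent.R096.Cl_692

open Crest.AnalysisR.VecCalc3 Crest.AnalysisR.Sobolev
open Crest.Agent.R096.Msh_715 (Tiling P I)
open Crest.Agent.R096.Pin_753 (Bk)
open Crest.Agent.R096.Eta_812
open Crest.Agent.R96.Intr_538
open Crest.Agent.R96.Coarse_538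

/-- the constant of the `C⁰` clauses -/
noncomputable def C1c (κ D : ℝ) (nc : ℕ) : ℝ :=
  3 * (nc * (nc * nc) + 2) * (κ⁻¹ * D) + κ⁻¹ * D + 3 * D + 1

theorem C1c_one {κ D : ℝ} (hκ : 0 < κ) (hD : 0 ≤ D) (nc : ℕ) : 1 ≤ C1c κ D nc := by
  have : 0 ≤ κ⁻¹ * D := by positivity
  have h2 : 0 ≤ 3 * ((nc:ℝ) * (nc * nc) + 2) * (κ⁻¹ * D) := by positivity
  unfold C1c
  linarith

/-- the common numerical inequality -/
theorem c1c_le {κ D hh s σ' e : ℝ} {nc : ℕ} (hs : 0 < s) (hhh : 0 < hh) (hD : 0 ≤ D)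
    (hσ1 : σ' ≤ 1) (he : e ≤ hh * s) :
    3 * (nc * (nc * nc) + 2) * (κ⁻¹ * (D * hh * s)) + e + 3 * (σ' * (D * hh * s)) +
      κ⁻¹ * (D * hh * s) ≤ C1c κ D nc * hh * s := by
  have h1 : 0 ≤ D * hh * s := by positivity
  have h2 : σ' * (D * hh * s) ≤ 1 * (D * hh * s) := mul_le_mul_of_nonneg_right hσ1 h1
  unfold C1c
  have e1 : (3 * ((nc:ℝ) * (nc * nc) + 2) * (κ⁻¹ * D) + κ⁻¹ * D + 3 * D + 1) * hh * s =
      3 * (nc * (nc * nc) + 2) * (κ⁻¹ * (D * hh * s)) + κ⁻¹ * (D * hh * s) + 3 * (D * hh * s) +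
        hh * s := by ring
  rw [e1]
  linarith

/-- the neighbourhood on which `R` moves is in `par .. s` -/
theorem thick_sub {κ τ s : ℝ} {L : R3 →L[ℝ] R3} {b : R3} (hκ : 0 < κ) (hτ : 0 < τ) (hτ6 : 6 * τ < 1)
    (hs : 0 < s) (hL : ∀ v, κ * ‖v‖ ≤ ‖L v‖) :
    thickening (κ * (τ * s)) (par Cb L b ((1 - 4 * τ) * s)) ⊆ par Cb L b s := by
  have hτs : 0 < τ * s := mul_pos hτ hs
  have hr4 : 0 < (1 - 4 * τ) * s := mul_pos (by linarith) hs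
  have hinj : Function.Injective L := by
    refine (injective_iff_map_eq_zero L).2 fun v hv => ?_
    have h := hL v
    rw [hv, norm_zero] at h
    have h2 : ‖v‖ ≤ 0 := by
      by_contra hc
      push Not at hc
      have := mul_pos hκ hc
      linarith
    exact norm_le_zero_iff.1 h2
  intro y hy
  obtain ⟨y', hy', hd⟩ := mem_thickening_iff.1 hy
  have h1 := par_thick' ref_Cb hκ hL hr4.le hτs hy' (y' := y)
    (by rw [mul_one, ← dist_eq_norm]; exact hd.le)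
  have h2 : (1 - 4 * τ) * s + τ * s ≤ s := by nlinarith
  exact Ca_855.par_mono hinj (by positivity) h2 h1

theorem par_sub {κ τ s : ℝ} {L : R3 →L[ℝ] R3} {b : R3} (hκ : 0 < κ) (hτ : 0 < τ) (hτ6 : 6 * τ < 1)
    (hs : 0 < s) (hL : ∀ v, κ * ‖v‖ ≤ ‖L v‖) :
    par Cb L b ((1 - 4 * τ) * s) ⊆ par Cb L b s :=
  (self_subset_thickening (by positivity) _).trans (thick_sub hκ hτ hτ6 hs hL)

/-- **(CL): the two `C⁰` clauses of `OutP`** -/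
theorem out_c0 {Om W K' : Set R3} {f : R3 → R3} {ι : Type} (T : Tiling Om ι)
    {Q : Finset (Fin 3 → ℤ)} {z b : (Fin 3 → ℤ) → R3} {L : (Fin 3 → ℤ) → R3 →L[ℝ] R3}
    {κ τ s hh D σ' e d0 C1 : ℝ} {nc : ℕ} {η w : R3 → ℝ} {Φ R : R3 ≃ₜ R3} {χ : R3 → R3}
    (hκ : 0 < κ) (hτ : 0 < τ) (hτ4 : τ ≤ 1 / 4) (hs : 0 < s) (hhh : 0 < hh) (hD : 0 ≤ D)
    (hσ1 : σ' ≤ 1) (h24 : 24 * D * hh ≤ τ)
    (hL : ∀ k ∈ Q, (∀ v, κ * ‖v‖ ≤ ‖L k v‖) ∧ ‖L k‖ ≤ κ⁻¹)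
    (hQW : ∀ k ∈ Q, cel Cb (z k) s ⊆ W) (hWO : W ⊆ Om)
    (hQK' : ∀ k ∈ Q, par Cb (L k) (b k) s ⊆ K')
    (hdiam : ∀ i, (P (T.H i) ∩ W).Nonempty → ∀ x ∈ P (T.H i), ∀ y ∈ P (T.H i),
      ‖y - x‖ ≤ D * hh * s)
    (hosc : ∀ i, ∀ x ∈ P (T.H i), ∀ x' ∈ P (T.H i), ‖f x' - f x‖ ≤ w (f x))
    (hE : EtaOK Om f η w K' d0)
    (he : e ≤ hh * s) (hC1 : C1c κ D nc ≤ C1) (hs0 : C1c κ D nc * hh * s ≤ d0)
    (g2 : ∀ k ∈ Q, ∀ y ∈ cel Cb (z k) ((1 - 6 * (τ / 12)) * s),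
      ‖f (Φ y) - (b k + L k (y - z k))‖ ≤
        3 * (nc * (nc * nc) + 2) * (κ⁻¹ * (D * hh * s)) + e)
    (g3 : ∀ i, ∀ y ∈ P (T.H i), ∀ r, (∀ y' ∈ P (T.H i), ‖f y' - f y‖ ≤ r) →
      ‖f (Φ y) - f y‖ ≤ r + 3 * (nc * (nc * nc) + 2) * (κ⁻¹ * (D * hh * s)) + e)
    (g4 : ∀ i, ∀ y ∈ P (T.H i), ∀ r, (∀ y' ∈ P (T.H i), ‖f y' - f y‖ ≤ r) →
      (∀ k ∈ Q, Disjoint (closedBall (f y) (2 * r + w (f y)))
        (par Cb (L k) (b k) ((1 - 4 * (τ / 12)) * s))) → ‖f (Φ y) - f y‖ ≤ 4 * r + 4 * w (f y))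
    (hR : ∀ y, ‖R y - y‖ ≤ 3 * (σ' * (D * hh * s)))
    (hR' : ∀ y, (∀ k ∈ Q, y ∉ thickening (κ * (τ / 12 * s))
      (par Cb (L k) (b k) ((1 - 4 * (τ / 12)) * s))) → R y = y)
    (hχ : ∀ x ∈ Om, ∃ i, x ∈ P (T.H i) ∧ χ x ∈ P (T.H i)) :
    (∀ x ∈ Om, ‖R (f (Φ (χ x))) - f x‖ ≤ η x) ∧
      ∀ k ∈ Q, ∀ x ∈ cel Cb (z k) ((1 - τ) * s),
        ‖R (f (Φ (χ x))) - Bk (b k) (L k) (z k) x‖ ≤ C1 * hh * s := by
  have hτ12 : 0 < τ / 12 := by positivity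
  have hτ6 : 6 * (τ / 12) < 1 := by linarith
  have ht0 : 0 ≤ D * hh * s := by positivity
  have hκt : 0 ≤ κ⁻¹ * (D * hh * s) := by positivity
  have hnum := c1c_le (κ := κ) (nc := nc) hs hhh hD hσ1 he
  constructor
  · refine hE T (Q := (Q : Set (Fin 3 → ℤ)))
      (fun k => par Cb (L k) (b k) ((1 - 4 * (τ / 12)) * s)) hosc
      (fun k hk => (par_sub hκ hτ12 hτ6 hs (hL k hk).1).trans (hQK' k hk))
      (fun x => f (Φ x)) χ R (3 * (nc * (nc * nc) + 2) * (κ⁻¹ * (D * hh * s)) + e)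
      (3 * (σ' * (D * hh * s))) ?_ hχ ?_ g4 hR ?_
    · linarith
    · intro i y hy r hr
      have := g3 i y hy r hr
      linarith
    · intro y hy
      refine hR' y fun k hk hmem => hy ?_
      exact hQK' k hk (thick_sub hκ hτ12 hτ6 hs (hL k hk).1 hmem)
  · intro k hk x hx
    refine (near_cel_T T (Q := (Q : Set (Fin 3 → ℤ))) (κ := κ) (τ := τ) (τ' := τ / 12)
      (t := D * hh * s) (Φ := Φ) (χ := χ) (R := R) hs (by linarith) g2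
      (fun k hk => (hL k hk).2) hR (fun k hk => (hQW k hk).trans hWO) hχ
      (fun k hk i hi => hdiam i (hi.mono (inter_subset_inter_right _ (hQW k hk)))) hτ.le ht0 ?_
      hnum k hk x hx).trans ?_
    · nlinarith
    · have : 0 ≤ hh * s := by positivity
      nlinarith

end Crest.Agent.R096.Cl_692
end

-- ▼ part R096/Osc2_400
section

/-!
Row 96 (S0127), helper400.  **[OSC], part 2: diameters of the tiles of the aligned mesh (874 `MD.mesh`, 432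
`meshS`) in `R3`** when the outer size function is at most `ρ₀ ∘ P3 * c`: every tile has diameter at most `ρ₀` at
each of its points, as soon as this holds for the blocks.
-/

set_option autoImplicit false
set_option linter.style.longLine false
set_option linter.unusedSectionVars false

open Set Filter Topology Metric

namespace Crest.Agent.R096.Osc_400

open Crest.Agent.R096.Msh_810 Crest.AnalysisR.VecCalc3 Crest.Agent.R096.Msh_715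
  Crest.Agent.R096.Mal_874 Crest.Agent.R096.Msb_432
open Crest.Agent.R96.En10_199 (P3)

noncomputable section

variable {J : Type} (M : MD R3 3 J) {k : J → ℕ} (hk : M.Sc k) (a : Fin 3 → ℝ) {v : J → R3}
  (hv : M.Adm v)

/-- sup norm and euclidean norm -/
theorem norm_sub_le_two (x y : R3) : ‖x - y‖ ≤ 2 * dist (P3.symm x) (P3.symm y) := by
  have h := norm_P3_le (P3.symm x - P3.symm y)
  rw [map_sub, P3.apply_symm_apply, P3.apply_symm_apply] at h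
  rwa [dist_eq_norm]


variable {M}

/-- **outer tiles** -/
theorem outer_diam (hφ : M.φ = P3.symm) {ρ₀ : R3 → ℝ} {c : ℝ} (hD : ∀ y, M.D0.ρ y ≤ ρ₀ (P3 y) * c)
    (p : M.OIx hk a hv) {x y : R3} (hx : x ∈ P ((M.mesh hk a hv).H (Sum.inl p)))
    (hy : y ∈ P ((M.mesh hk a hv).H (Sum.inl p))) : ‖y - x‖ ≤ ρ₀ x * (2 * c / M.D0.C) := by
  have h1 := M.outer_size hk a hv p hx hy
  have hC := M.D0.C_pos
  rw [hφ] at h1
  have h2 := hD (P3.symm x)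
  rw [P3.apply_symm_apply] at h2
  have h3 := norm_sub_le_two x y
  rw [norm_sub_rev] at h3
  have h4 : M.D0.ρ (P3.symm x) / M.D0.C ≤ ρ₀ x * c / M.D0.C := by gcongr
  calc ‖y - x‖ ≤ 2 * (ρ₀ x * c / M.D0.C) := by linarith
    _ = ρ₀ x * (2 * c / M.D0.C) := by ring

/-- the tiles of the block `j` lie in the block -/
theorem inner_sub {j : J} (i : M.IIx hk a hv j) :
    P ((M.mesh hk a hv).H (Sum.inr ⟨j, i⟩)) ⊆ (M.Bk v j).N := i.2



/-- **[DIAM] of 855 #11406** (block tiles measured by `d j`) -/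
theorem diam_meshS {ρ₀ : R3 → ℝ} {J : Type} (M : MD R3 3 J) (hφ : M.φ = P3.symm) {k : J → ℕ}
    (hk : M.Sc k) (a : Fin 3 → ℝ) {v : J → R3} (hv : M.Adm v) {c : ℝ} (hc : c ≤ 1 / 2)
    (hρ0 : ∀ x, 0 ≤ ρ₀ x) (hρ : ∀ y, M.D0.ρ y ≤ ρ₀ (P3 y) * c) {d : J → ℝ}
    (hN : ∀ j t, (P ((meshS M hk a hv).H t) ∩ (M.Bk v j).N).Nonempty →
      ∀ x ∈ P ((meshS M hk a hv).H t), ∀ y ∈ P ((meshS M hk a hv).H t), ‖x - y‖ ≤ d j)
    (hd : ∀ j, ∀ x ∈ (M.Bk v j).N, d j ≤ ρ₀ x) :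
    ∀ t, ∀ x ∈ P ((meshS M hk a hv).H t), ∀ y ∈ P ((meshS M hk a hv).H t), ‖x - y‖ ≤ ρ₀ x := by
  rintro (⟨t, ht⟩ | q) x hx y hy
  · rcases t with p | ⟨j, i⟩
    · have h1 := outer_diam hk a hv hφ hρ p (x := x) (y := y) hx hy
      have hC := M.D0.C_pos
      have hC1 := M.D0.hC
      rw [norm_sub_rev]
      refine h1.trans ?_
      have : 2 * c / M.D0.C ≤ 1 := by
        rw [div_le_one hC]
        linarith
      exact mul_le_of_le_one_right (hρ0 x) this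
    · have hxN : x ∈ (M.Bk v j).N := inner_sub hk a hv i hx
      exact (hN j _ ⟨x, hx, hxN⟩ x hx y hy).trans (hd j x hxN)
  · have hxN : x ∈ (M.Bk v q.1).N := ((cubH_sub q).trans (Kc_sub_N _)) hx
    exact (hN q.1 _ ⟨x, hx, hxN⟩ x hx y hy).trans (hd q.1 x hxN)


end

end Crest.Agent.R096.Osc_400
end

-- ▼ part R096/Cl1_692
section

/-!
Row 96 (S0127), helper692.  **The hypotheses `hdiam` and `hosc` of `Cl_692.out_c0` for 855's mesh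
`h.T a`** (`h : MIn ..`): every tile has diameter `≤ ρ₀ x`, the tiles which meet `W` have diameter `≤ t`.
-/

set_option autoImplicit false
set_option linter.style.longLine false
set_option linter.unusedSectionVars false

open Set Filter Topology Metric

namespace Crest.Agent.R096.Ca_855.MIn

open Crest.AnalysisR.VecCalc3 Crest.AnalysisR.Sobolev
open Crest.Agent.R096.Msh_715
open Crest.Agent.R096.Mal_874 (MD CB RD RP reOm Rt Cn outD Rg)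
open Crest.Agent.R096.Msb_432 (Scl)
open Crest.Agent.R096.Gsm_432 (TG)
open Crest.Agent.R96.En10_199 (P3)

variable {Om W : Set R3} {ρ₀ : R3 → ℝ} {J : Type} {Qb : J → CB R3 3} {k0 : ℕ} {σ : ℝ}
  [Finite J]

/-- `ρ₀` is large on the translated blocks -/
theorem rho_blk (h : MIn Om W ρ₀ Qb k0 σ) (a : R3) (j : J) {x : R3}
    (hx : x ∈ (h.M.Bk (fun _ => h.cl a) j).N) : σ * (7 / 8) ≤ ρ₀ x := by
  have h1 : x - h.cl a ∈ (Qb j).N := (CB.mem_N_tr (Qb j) (h.cl a) x).1 hx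
  have h2 := h.hW _ (h.hN j h1)
  have h3 := h.lip (x - h.cl a) x
  have h4 : ‖x - h.cl a - x‖ ≤ σ / 8 := by
    rw [show x - h.cl a - x = -h.cl a by abel, norm_neg]
    exact h.norm_cl a
  linarith

/-- **every tile has diameter `≤ ρ₀ x`**; `hblk` = second clause of 465's `exists_tile2`,
`D / 2 ^ kc ≤ t` -/
theorem diam_rho (h : MIn Om W ρ₀ Qb k0 σ) {D t : ℝ} (htσ : t ≤ σ / 8)
    (hDk : ∀ j, D / 2 ^ (Qb j).kc ≤ t) (a : R3)
    (hblk : ∀ j i, (P ((h.T a).H i) ∩ (h.M.Bk (fun _ => h.cl a) j).N).Nonempty →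
      ∀ x ∈ P ((h.T a).H i), ∀ y ∈ P ((h.T a).H i), ‖x - y‖ ≤ D / 2 ^ (Qb j).kc) :
    ∀ i, ∀ x ∈ P ((h.T a).H i), ∀ y ∈ P ((h.T a).H i), ‖y - x‖ ≤ ρ₀ x := by
  have h0 := h.σ0
  intro i x hx y hy
  rw [norm_sub_rev]
  refine Osc_400.diam_meshS (ρ₀ := ρ₀) h.M h.M_φ h.sc (0 + h.M.φ (h.cl a)) (h.adm a) (c := 1 / 2)
    le_rfl h.nn (fun y => ?_) (d := fun _ => t) (fun j i' hi' x' hx' y' hy' =>
      (hblk j i' hi' x' hx' y' hy').trans (hDk j)) (fun j x' hx' => ?_) i x hx y hy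
  · rw [h.M_D0, h.D0_ρ]
    exact min_le_left _ _
  · have := h.rho_blk a j hx'
    linarith

/-- **`hosc`** -/
theorem hosc (h : MIn Om W ρ₀ Qb k0 σ) {f : R3 → R3} {w : R3 → ℝ} {D t : ℝ} (htσ : t ≤ σ / 8)
    (hDk : ∀ j, D / 2 ^ (Qb j).kc ≤ t) (a : R3)
    (hblk : ∀ j i, (P ((h.T a).H i) ∩ (h.M.Bk (fun _ => h.cl a) j).N).Nonempty →
      ∀ x ∈ P ((h.T a).H i), ∀ y ∈ P ((h.T a).H i), ‖x - y‖ ≤ D / 2 ^ (Qb j).kc)
    (hf : ∀ x ∈ Om, ∀ y, ‖y - x‖ ≤ ρ₀ x → ‖f y - f x‖ ≤ w (f x)) :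
    ∀ i, ∀ x ∈ P ((h.T a).H i), ∀ x' ∈ P ((h.T a).H i), ‖f x' - f x‖ ≤ w (f x) :=
  fun i x hx x' hx' => hf x ((h.T a).sub i hx) x' (h.diam_rho htσ hDk a hblk i x hx x' hx')



end Crest.Agent.R096.Ca_855.MIn
end

-- ▼ part R096/Cbs5_296
section

set_option autoImplicit false
set_option linter.unusedSectionVars false
set_option linter.style.longLine false

open Set Metric Filter Topology MeasureTheory
open scoped ENNReal NNReal

namespace Crest.Agent.R096.Cbs_296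

open Crest.AnalysisR.VecCalc3
open Crest.Agent.R096.Msh_715 (P I Tiling I_sub_P isOpen_I isClosed_P)
open Crest.Agent.R096.Sq_55 (E3 Sys Face Cell FaceOf w2 IsDp GG Shp2 GG_mono)
open Crest.Agent.R096.Sqt_143 (sg Edge OnC OnF cu CT)
open Crest.Agent.R096.Cob_622
open Crest.Agent.R096.Efi_296
open Crest.Agent.R96.En10_199 (P3)
open Crest.Agent.R096.Sk2_855 (Mv sk1)

noncomputable section

section set

variable {Om : Set R3} {ι : Type*}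

/-- the squeezed 2-cells: all tiles of the 2-cell belong to `s` and, if `q` (= `p < 2`) does not hold,
all of them are deep -/
def prS (T : Tiling Om ι) (s : Finset ι) (q : Prop) (deep : Set ι) : (Te T).Cell → Prop := fun c =>
  (∀ k ∈ (Te T).at_ c.pt, k ∈ s) ∧ (q ∨ ∀ k ∈ (Te T).at_ c.pt, k ∈ deep)

variable {T : Tiling Om ι} {s : Finset ι} {q : Prop} {deep : Set ι} {u R : ι → ℝ≥0}

theorem prS_s {c : (Te T).Cell} (h : prS T s q deep c) : ∀ k ∈ (Te T).at_ c.pt, k ∈ s := h.1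

theorem prS_deep {c : (Te T).Cell} (h : prS T s q deep c) :
    q ∨ ∀ k ∈ (Te T).at_ c.pt, k ∈ deep := h.2

/-- hypothesis of `exists_sys_s` and `cob_T` on the sizes, from the neighbour ratios -/
theorem hR_of (hR2 : ∀ k l, (P (T.H k) ∩ P (T.H l)).Nonempty → R k ≤ u k * R l ∧ R l ≤ u k * R k)
    {y : E3} {k l : ι} (hk : k ∈ (Te T).at_ y) (hl : l ∈ (Te T).at_ y) :
    R k ≤ u k * R l ∧ R l ≤ u k * R k := by
  rw [at_Te] at hk hl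
  exact hR2 k l ⟨w2 y, hk, hl⟩

theorem hρ_set (hR2 : ∀ k l, (P (T.H k) ∩ P (T.H l)).Nonempty → R k ≤ u k * R l ∧ R l ≤ u k * R k)
    (pr : (Te T).Cell → Prop) :
    ∀ x ∈ reps (Te T) s pr, ∀ k ∈ (Te T).at_ x, k ∈ s →
      R k ≤ mS (Te T) s pr u k * ρS (Te T) R x := fun _ hx _ hk _ =>
  (hρ_of (fun _ _ _ hk _ hl => hR_of hR2 hk hl) hx hk).1

/-- **[SET]**: the tiles `s` (all tiles which meet `K₀` or the support of `Φ`), the squeezed 2-cells and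
the system.  The unsqueezed 2-cells of the tiles of `s` are good. -/
theorem exists_set {Φ : R3 ≃ₜ R3} (hMv : Mv T Φ) {K₀ : Set R3}
    (hK : IsCompact K₀) (hKO : K₀ ⊆ Om) (q : Prop) (deep : Set ι) {f : R3 → R3} {U : Set R3}
    (hface : ¬ q → ∀ x ∈ Om, T.dim x = 2 → ∀ z ∈ T.cc x,
      (∀ᶠ w in 𝓝 z, Φ w = w) ∨ f (Φ z) ∈ U)
    (B : ι → E3 ≃ᵃ[ℝ] E3) (R u : ι → ℝ≥0) (hS : ∀ i, Shp2 (Te T) i (B i) (R i) (u i))
    (hR2 : ∀ k l, (P (T.H k) ∩ P (T.H l)).Nonempty → R k ≤ u k * R l ∧ R l ≤ u k * R k) :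
    ∃ s : Finset ι, (∀ i, (P (T.H i) ∩ K₀).Nonempty → i ∈ s) ∧
      (∀ x, (∀ k ∈ s, x ∉ P (T.H k)) → Φ x = x) ∧
      (∀ y ∈ Om, T.dim y ≤ 1 → ∀ᶠ w in 𝓝 y, Φ w = w) ∧
      ∃ (c : ι → E3) (X : Sys s (reps (Te T) s (prS T s q deep))),
        SysOf (Te T) s (prS T s q deep) c R (ρS (Te T) R) (mS (Te T) s (prS T s q deep) u) X ∧
        (∀ (i : ι) (x a v : E3) (w : ℝ≥0), i ∈ s → x ∈ P ((Te T).H i) → (Te T).dim x = 1 →
          (Te T).cc x = segment ℝ a (a + v) → 1 ≤ w →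
          (∀ k ∈ s, (P ((Te T).H k) ∩ P ((Te T).H i)).Nonempty →
            u k ≤ w ∧ R k ≤ w * R i ∧ R i ≤ w * R k) →
          Edge X a v (R i / (8 * w^9)) (8 * w^9 / R i) ⌊w⌋₊) ∧
        ∀ b ∈ FcS (Te T) s (prS T s q deep), ∀ z ∈ b.set, Good Φ f U (w2 z) := by
  obtain ⟨K', hK', hK'O, -, hid⟩ := hMv.supp
  have hfin : {i | (P (T.H i) ∩ (K₀ ∪ K')).Nonempty}.Finite :=
    T.finite_tiles (hK.union hK') (union_subset hKO hK'O)
  set s : Finset ι := hfin.toFinset with hs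
  have mem_s : ∀ {i}, i ∈ s ↔ (P (T.H i) ∩ (K₀ ∪ K')).Nonempty := fun {i} => hfin.mem_toFinset
  obtain ⟨c, X, h1, h2⟩ := exists_sys_s (Te T) s (prS T s q deep) B R u (fun i _ => hS i)
    (fun c _ h => h.1) (fun x _ k hk l hl => hR_of hR2 hk hl)
  refine ⟨s, fun i hi => mem_s.2 (hi.mono (inter_subset_inter_right _ subset_union_left)), ?_,
    fun y hy hd => mv_id hMv hy hd, c, X, h1, h2, ?_⟩
  · intro x hx
    by_contra hne
    have hxK : x ∈ K' := by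
      by_contra h
      exact hne (hid x h)
    obtain ⟨k, hk⟩ := T.at_nonempty (hK'O hxK)
    exact hx k (mem_s.2 ⟨x, hk, .inr hxK⟩) hk
  · rintro b ⟨⟨hb2, -⟩, hbp⟩ z hz
    have hzcc : z ∈ (Te T).cc b.pt := by rw [← b.set_eq]; exact hz
    by_cases h3 : ∀ k ∈ (Te T).at_ b.pt, k ∈ s
    · -- a face which is not deep
      have hq : ¬ q := fun hq => hbp ⟨h3, .inl hq⟩
      have hb2' : T.dim (w2 b.pt) = 2 := by
        rw [← dim_Te]; exact hb2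
      have hO : w2 b.pt ∈ Om := b.pt_mem
      refine hface hq (w2 b.pt) hO hb2' (w2 z) ?_
      have h4 : (Te T).cc (w2.symm (w2 b.pt)) = w2.symm '' T.cc (w2 b.pt) := cc_Te _
      rw [w2.symm_apply_apply] at h4
      rw [h4] at hzcc
      obtain ⟨y, hy, rfl⟩ := hzcc
      rwa [w2.apply_symm_apply]
    · -- a one-sided face: a tile of the face is not in `s`
      push Not at h3
      obtain ⟨k, hk, hks⟩ := h3
      have h4 : w2 z ∈ P (T.H k) := mem_P_Te.1 ((Te T).cc_sub_tile hk hzcc)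
      have h5 : w2 z ∉ K' := fun h => hks (mem_s.2 ⟨w2 z, h4, .inr h⟩)
      left
      filter_upwards [hK'.isClosed.isOpen_compl.mem_nhds h5] with y hy
      exact hid y hy

end set

end

end Crest.Agent.R096.Cbs_296
end

-- ▼ part R096/Onp4_622

set_option autoImplicit false
set_option linter.unusedSectionVars false
set_option linter.style.longLine false
set_option maxHeartbeats 1000000

open Set Metric Filter Topology MeasureTheory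
open scoped ENNReal NNReal

namespace Crest.Agent.R096.Onp_622

open Crest.Agent.R096.Ce_537 Crest.Agent.R096.Bd_416 Crest.Agent.R96.Hole_348
open Crest.AnalysisR.VecCalc3 Crest.AnalysisR.Sobolev Crest.Agent.R096.Sk_962
open Crest.Agent.R096.Msh_715 (P I Tiling)
open Crest.Agent.R096.Mal_874 (CB)
open Crest.Agent.R096.Sq_55
open Crest.Agent.R096.Sqt_143 (cu sg Edge OnC OnF CT)
open Crest.Agent.R096.Efi_296
open Crest.Agent.R096.Cbs_296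
open Crest.Agent.R096.Ca_855 (MIn deepT adE_set)
open Crest.Agent.R096.Dps_476 (deepJ)
open Crest.Agent.R096.Gsc_476 (sclT)
open Crest.Agent.R096.Cob_622
open Crest.Agent.R096.Br_695 (En)
open Crest.Agent.R96.Lu_538 (Gmat)
open Crest.Agent.R96.Intr_538 (cel par)
open Crest.Agent.R96.Coarse_538 (vt Cb seg)
open Crest.Agent.R096.Fce_793 (pt cc)
open Crest.Agent.R96.En10_199 (P3)
open Crest.Agent.R96.Eld_538 (Cl1 AdE Els)
open Crest.Agent.R096.Sk2_855 (Mv)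
open Crest.Agent.R096.Pas_753
open Crest.Agent.R096.Pin_753
open Crest.Agent.R096.Cl_692 (C1c)
open Crest.Agent.R096.Eta_812 (EtaOK)
open Crest.Agent.R096.Ou_372 (Cout exists_eps ouly_setD)

noncomputable section

variable {Om W : Set R3} {ρ₀ : R3 → ℝ} {J : Type} [Finite J] {Qb : J → CB R3 3} {k0 : ℕ} {σ : ℝ}

/-- a move is PL -/
theorem Ca_855_plOn {ι : Type*} {T : Tiling Om ι} {Φ : R3 ≃ₜ R3} (h : Mv T Φ) :
    PLOn Φ univ ∧ PLOn Φ.symm univ :=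
  ⟨Sk2_855.PLMap.plOn h.plh.1 _, Sk2_855.PLMap.plOn h.plh.2 _⟩

/-- a move maps `Om` onto `Om` -/
theorem mv_iff {ι : Type*} {T : Tiling Om ι} {Φ : R3 ≃ₜ R3} (h : Mv T Φ) (x : R3) :
    Φ x ∈ Om ↔ x ∈ Om := by
  refine ⟨fun hx => ?_, fun hx => h.mapsTo hx⟩
  have h1 := h.symm.mapsTo hx
  rwa [Φ.symm_apply_apply] at h1

/-- **the shape data at one position** (output of [SH]) -/
structure ShD (h : MIn Om W ρ₀ Qb k0 σ) (a : R3) (K3 : ℕ) (vU vI vN : ℝ≥0)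
    (B : h.ιT a → E3 ≃ᵃ[ℝ] E3) (κt : h.ιT a → ℕ) (R u : h.ιT a → ℝ≥0) : Prop where
  shp : ∀ t, Shp2 (Te (h.T a)) t (B t) (R t) (u t)
  κ1 : ∀ t, sclT h a t ≤ κt t
  κ2 : ∀ t, κt t ≤ sclT h a t + 1
  R_eq : ∀ t, R t = ((2:ℝ≥0) ^ κt t)⁻¹
  R2 : ∀ k l, (P ((h.T a).H k) ∩ P ((h.T a).H l)).Nonempty → R k ≤ u k * R l ∧ R l ≤ u k * R k
  u1 : ∀ t, 1 ≤ u t
  uU : ∀ t, Cl1 h 3 a t → u t ≤ vU
  uI : ∀ j, ∀ t ∈ deepJ h a j K3, u t ≤ vI
  uN : ∀ t, u t ≤ vN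

/-- **`SetD` from the shape data** -/
theorem exists_setD {p : ℝ} {h : MIn Om W ρ₀ Qb k0 σ} {a : R3} {kk : J → Fin 3 → ℤ}
    {Q : Finset (Fin 3 → ℤ)} (K1 : ℕ) {K3 : ℕ} {vU vI vN : ℝ≥0} {B : h.ιT a → E3 ≃ᵃ[ℝ] E3}
    {κt : h.ιT a → ℕ} {R u : h.ιT a → ℝ≥0} (H : ShD h a K3 vU vI vN B κt R u) {f : R3 → R3}
    {Φ : R3 ≃ₜ R3} {U : Set R3} (hMv : Mv (h.T a) Φ)
    (hface : ¬ p < 2 → ∀ x ∈ Om, (h.T a).dim x = 2 → ∀ z ∈ (h.T a).cc x,
      (∀ᶠ w in 𝓝 z, Φ w = w) ∨ f (Φ z) ∈ U) {K₀ : Set R3} (hK : IsCompact K₀) (hKO : K₀ ⊆ Om) :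
    ∃ (s : Finset (h.ιT a)) (pr : (Te (h.T a)).Cell → Prop) (c : h.ιT a → E3)
      (X : Sys s (reps (Te (h.T a)) s pr)),
      SetD p h a kk Q K1 K3 vU vI vN f Φ U K₀ s pr c κt R u X := by
  obtain ⟨s, h1, h2, -, c, X, h4, h5, h6⟩ := exists_set hMv hK hKO (p < 2) (deepT h a kk Q K1)
    hface B R u H.shp H.R2
  exact ⟨s, _, c, X, {
    sys := h4
    edge := h5
    κ1 := H.κ1
    κ2 := H.κ2
    R_eq := H.R_eq
    R2 := H.R2
    u1 := H.u1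
    uU := H.uU
    uI := H.uI
    uN := H.uN
    supp := h2
    mem_s := h1
    pr_s := fun c hc => prS_s hc
    pr_d := fun c hc => prS_deep hc
    pr_of := fun c _ h7 h8 => ⟨h7, h8⟩
    good := h6 }⟩

/-- the conclusion of (O1) for the blocks of `Q` -/
def ConclI (p C1 κw s : ℝ) (z b : (Fin 3 → ℤ) → R3) (L : (Fin 3 → ℤ) → R3 →L[ℝ] R3)
    (kk : J → Fin 3 → ℤ) (Q : Finset (Fin 3 → ℤ)) (hk : ∀ j, (Qb j).kc ≤ k0)
    (h : MIn Om W ρ₀ Qb k0 σ) (a : R3) {s' : Finset (h.ιT a)} (Jf : s' → ℝ≥0∞) (Rl Cer : ℝ)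
    (ε : ℝ≥0∞) (f₂ : R3 → R3) (G₂ : Fin 3 → R3 → R3) : Prop :=
  ∀ j, kk j ∈ Q → InP p f₂ (Gmat G₂) C1 κw s (b (kk j)) (L (kk j)) (z (kk j))
    (erT h a Jf Rl Cer ε j) ((Qb j).tr a) k0 (hk j)

/-- **(O1) at one position, literal**: for every `Φ` of composite A and every system `SetD` -/
def O1A (p : ℝ) (La : Set R3) (f : R3 → R3) (G : Fin 3 → R3 → R3) (κ τ s σr dd C1 κw Rl Cer : ℝ)
    (z b : (Fin 3 → ℤ) → R3) (L : (Fin 3 → ℤ) → R3 →L[ℝ] R3) (kk : J → Fin 3 → ℤ)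
    (Q : Finset (Fin 3 → ℤ)) (hk : ∀ j, (Qb j).kc ≤ k0) (h : MIn Om W ρ₀ Qb k0 σ) (a : R3)
    (K1 K3 : ℕ) (vU vI vN : ℝ≥0) {κe κf : Type} {x' v' : κe → R3} {e' : κf → Fin 2 → R3}
    {xx' : κf → R3} {Qf' : κf → Set (ℝ × ℝ)} (hQf : ∀ φ, IsCompact (Qf' φ))
    (hG : ∀ i, GoodA Om (gF p G L i) x' v' e' xx' a) : Prop :=
  ∀ (Φ : R3 ≃ₜ R3) (U : Set R3), Mv (h.T a) Φ → IsOpen U →
    (∀ k ∈ Q, ∀ y ∈ cel Cb (z k) ((1 - 6 * τ) * s), ‖f (Φ y) - (b k + L k (y - z k))‖ ≤ dd) →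
  ∀ (s' : Finset (h.ιT a)) (pr : (Te (h.T a)).Cell → Prop) (c : h.ιT a → E3) (κt : h.ιT a → ℕ)
    (R u : h.ιT a → ℝ≥0) (X : Sys s' (reps (Te (h.T a)) s' pr))
    (H : SetD p h a kk Q K1 K3 vU vI vN f Φ U W s' pr c κt R u X)
    (me : EgS (Te (h.T a)) s' → κe) (mf : FcS (Te (h.T a)) s' pr → κf)
    (hme : ∀ c, w2 '' c.1.set = seg x' v' a (me c))
    (hmf : ∀ c, w2 '' c.1.set = pt (e' (mf c)) (a + xx' (mf c)) '' Qf' (mf c)),
    O1 (Lx := {k // k ∈ Q}) (LL := fun k => L k) La hQf hme hmf (hG none) (fun k => hG (some k))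
      H.sys f Φ (3 / 2) (PrR κ τ s σr b L Q) (efS (hG none) hQf hme hmf X H.sys.rim H.sys.Z)
      (4 * κ⁻¹ / (5 * 2 ^ k0))
      (ConclI p C1 κw s z b L kk Q hk h a
        (efS (hG none) hQf hme hmf X H.sys.rim H.sys.Z).J Rl Cer)

/-- **`OutB` at one position, all numbers fixed** -/
theorem one_fix {p : ℝ} (hp : 1 ≤ p) (hp2 : p ≤ 2) {La K' : Set R3} {f : R3 → R3}
    {G : Fin 3 → R3 → R3} (hOm : IsOpen Om) (hOmb : Bornology.IsBounded Om) (hf : SH p Om La f G)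
    (hWO : W ⊆ Om) (hWc : IsCompact W)
    {κ D τ hh c1 c2 κw e C1 θ0 θ1 σ' η₁ Rl e₀ s d0 Cer dm : ℝ} {nc Bs Nn : ℕ}
    {mU Cu mN vU vI vN : ℝ≥0} {K1 K3 : ℕ} {η w : R3 → ℝ}
    -- signs
    (hκ : 0 < κ) (hκ1 : κ ≤ 1) (hD : 1 ≤ D) (hτ : 0 < τ) (hτ4 : τ ≤ 1 / 4) (hhh : 0 < hh)
    (hc1 : 0 < c1) (hc2 : 0 < c2) (he : 0 < e) (hσ' : 0 < σ') (hs : 0 < s) (hCer : 0 ≤ Cer)
    (hdm : 0 ≤ dm)
    -- numbers
    (nσ : σ' ≤ 1) (nC1 : C1c κ D nc ≤ C1) (nτ : 24 * D * hh ≤ τ) (nc2 : 24 * D * hh ≤ c2)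
    (nd0 : C1c κ D nc * hh * s ≤ d0) (nU : GG vU ≤ mU) (nN : GG vN ≤ mN) (nK : 4 ≤ K1)
    (nRl : 40 ≤ Rl) (n1 : 320 * θ0 < κ * c2) (n2 : 40 * θ0 ≤ c1) (n3 : 162 * θ0 ≤ κ * τ)
    (n4 : ENNReal.ofReal (7680 * θ0 / c1) * volume Om ≤ ENNReal.ofReal (e / 3))
    (n5 : e₀ ≤ e / 3) (n6 : Cer * e₀ ≤ e / 2) (n7 : (dm + 8 * κ⁻¹ * Rl) * θ0 < c2)
    -- `η`, `w`
    (hw : ∀ y ∈ La, 0 < w y) (hw' : ∀ y y', |w y - w y'| ≤ ‖y - y'‖ / 2)
    (hη : EtaOK Om f η w K' d0) (hosc : ∀ x ∈ Om, ∀ y, ‖y - x‖ ≤ ρ₀ x → ‖f y - f x‖ ≤ w (f x))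
    -- cubes
    {a₀ : R3} {Q₀ Q : Finset (Fin 3 → ℤ)} {b : (Fin 3 → ℤ) → R3} {L : (Fin 3 → ℤ) → R3 →L[ℝ] R3}
    (hL : ∀ k ∈ Q₀, (∀ v, κ * ‖v‖ ≤ ‖L k v‖) ∧ ‖L k‖ ≤ κ⁻¹)
    (hcW : ∀ k ∈ Q₀, cel Cb (vt (2 * s) a₀ k) s ⊆ W)
    (hcK : ∀ k ∈ Q₀, par Cb (L k) (b k) s ⊆ K') (hQ : Q ⊆ Q₀)
    -- blocks
    {kk : J → Fin 3 → ℤ} (hk : ∀ j, (Qb j).kc ≤ k0) (hkk : ∀ j, kk j ∈ Q₀)
    (hb : ∀ j, BlkP κ s τ hh c1 θ0 θ1 Bs Nn (vt (2 * s) a₀ (kk j)) (Qb j) k0)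
    (sep : ∀ i j, i ≠ j → ∀ x ∈ (Qb i).N, ∀ y ∈ (Qb j).N, c2 * s ≤ dist x y)
    (hθ0 : 1 / 2 ^ k0 ≤ θ0 * s)
    -- mesh
    (h : MIn Om W ρ₀ Qb k0 (c2 * s)) (hTC : TileC κ Bs D nc) {κi : Type} {x v : κi → R3}
    {κf : Type} {xf : κf → R3} {ef : κf → Fin 2 → R3} {Pf : κf → Set (ℝ × ℝ)}
    {κe' κf' : Type} {x' v' : κe' → R3} {e' : κf' → Fin 2 → R3} {xx' : κf' → R3}
    {Qf' : κf' → Set (ℝ × ℝ)} (hA : AllC h x' v' e' xx' Qf') {a : R3} (ha : ‖a‖ ≤ 2 / 2 ^ k0)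
    (hG : ∀ i, GoodA Om (gF p G L i) x' v' e' xx' a)
    (hP : Pos p Om La W f G (h.T a) x v xf ef Pf κ (τ / 12) (τ / 24) η₁ (D * hh * s) s
      (3 * (nc * (nc * nc) + 2) * (κ⁻¹ * (D * hh * s))) (σ' * (D * hh * s)) (vt (2 * s) a₀) b L Q a)
    (hE : Els p Om W ρ₀ J Qb k0 (c2 * s) h G {j | kk j ∈ Q} mU Cu mN Rl e₀ a)
    {B : h.ιT a → E3 ≃ᵃ[ℝ] E3} {κt : h.ιT a → ℕ} {R u : h.ιT a → ℝ≥0}
    (hS : ShD h a K3 vU vI vN B κt R u)
    (hz : ∀ j, ∀ t ∈ zoneT h a Rl j, ∀ x ∈ P ((h.T a).H t), ∀ y ∈ P ((h.T a).H t),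
      ‖x - y‖ ≤ dm / 2 ^ k0)
    (hO : O1A p La f G κ (τ / 12) s (σ' * (D * hh * s))
      (3 * (nc * (nc * nc) + 2) * (κ⁻¹ * (D * hh * s)) + hh * s) C1 κw Rl Cer (vt (2 * s) a₀) b L kk
      Q hk h a K1 K3 vU vI vN hA.cpt hG) :
    OutB p (Cout p (3 / 2) Cu) Om La f G τ hh κw e C1 s η a₀ b L kk Qb k0 hk Q a := by
  classical
  have hvol : volume Om ≠ ∞ := (hOmb.measure_lt_top).ne
  have hp3 : p < 3 := by linarith
  have hD0 : 0 ≤ D := by linarith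
  have ht0 : 0 < D * hh * s := by positivity
  have hσr : 0 ≤ σ' * (D * hh * s) := by positivity
  have hhs : 0 < hh * s := by positivity
  -- `‖a‖ ≤ c2 s / 8`
  have hp0 : (0:ℝ) < 1 / 2 ^ k0 := by positivity
  have hθ0p : 0 < θ0 := by
    by_contra hcon
    have : θ0 * s ≤ 0 := mul_nonpos_of_nonpos_of_nonneg (not_lt.1 hcon) hs.le
    linarith
  have ha2 : ‖a‖ ≤ (2 * θ0) * s := by
    have e1 : (2:ℝ) / 2 ^ k0 = 2 * (1 / 2 ^ k0) := by ring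
    rw [e1] at ha
    nlinarith
  have ha8 : ‖a‖ ≤ c2 * s / 8 := by
    refine ha2.trans ?_
    have h3 : κ * c2 ≤ c2 := by nlinarith
    have h4 : 16 * θ0 ≤ c2 := by nlinarith
    have h5 : 16 * θ0 * s ≤ c2 * s := mul_le_mul_of_nonneg_right h4 hs.le
    linarith
  -- composite A
  obtain ⟨Φ, U, hMv, hU, g2, g3, g4, gU, hRθ⟩ := hP.res.use hσr hhs hw hw'
  -- the system
  have hface : ¬ p < 2 → ∀ x ∈ Om, (h.T a).dim x = 2 → ∀ z ∈ (h.T a).cc x,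
      (∀ᶠ w in 𝓝 z, Φ w = w) ∨ f (Φ z) ∈ U := fun hp' => gU (le_antisymm hp2 (not_lt.1 hp'))
  obtain ⟨s', pr, c, X, H⟩ := exists_setD (p := p) (kk := kk) (Q := Q) K1 hS hMv hface hWc hWO
  -- the maps
  obtain ⟨me, mf, hme, hmf⟩ := exists_maps (T := h.T a) (W := Om) (s := s') (pr := pr) (x := x')
    (v := v') (e := e') (xx := xx') (a := a) (Q := Qf')
    (fun y hy hd _ => hA.edge a ha8 y hy hd) (fun k _ => (h.T a).sub k)
    (fun c hc => by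
      obtain ⟨-, g1, g5⟩ := image_set (h.T a) c
      exact hA.face a ha8 _ g1 (g5.trans hc.1.1))
  have hG0 : GoodA Om (Crest.Agent.R096.Br_695.En p G) x' v' e' xx' a := hG none
  set DD := efS hG0 hA.cpt hme hmf X H.sys.rim H.sys.Z with hDD
  have hAd : AdE p h G mU mN a s' pr c R (ρS (Te (h.T a)) R) (mS (Te (h.T a)) s' pr u) X DD :=
    adE_set H hS.shp nU nN hA hG0 hme hmf
  have hO1 := hO Φ U hMv hU (fun k hk' y hy => by
    have := g2 k hk' y hy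
    linarith) s' pr c κt R u X H me mf hme hmf
  -- the error
  set e3 : ℝ := min (e / 3) (e / (2 * (Cer + 1))) with he3
  have hCer1 : 0 < Cer + 1 := by linarith
  have he30 : 0 < e3 := lt_min (by positivity) (by positivity)
  obtain ⟨ε₁, hε1, hε2, hε3⟩ := exists_eps s'.card he30
  obtain ⟨ε, hε, δ, hA', N₁, N₂, Rr, G₂, k1, k2, k3, k4, k5⟩ :=
    cob_O1 hp hp3 hOm hvol hf hA.cpt hme hmf (hG none) (Lx := {k // k ∈ Q}) (LL := fun k => L k)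
      (fun k => hG (some k)) H.sys H.pr_s (hρ_set H.R2 pr) Φ
      (Ca_855_plOn hMv).1 (Ca_855_plOn hMv).2 (mv_iff hMv) H.supp (fun y hy hd => mv_id hMv hy hd)
      (3 / 2) hU H.good
      (fun θ hθ => by
        obtain ⟨Rr, r1, r2, r3, r4, r5, r6⟩ := hRθ θ hθ
        exact ⟨Rr, 3 * (σ' * (D * hh * s)), r1, r2, r3, r5, r3, r4, r6⟩)
      DD (u := 4 * κ⁻¹ / (5 * 2 ^ k0)) (by positivity) hO1 hε1
  have hεc : ((s'.card : ℝ≥0∞) + 1) * ε ≤ ENNReal.ofReal e3 := (mul_le_mul' le_rfl hε).trans hε3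
  -- the `C⁰` clauses
  have hbq : ∀ j, MIn.BQ κ Bs Nn (Qb j) k0 := fun j => MIn.bq_of_blkP (hb j)
  obtain ⟨-, hT2⟩ := hTC h hbq a
  have hDk : ∀ j, D / 2 ^ (Qb j).kc ≤ D * hh * s := by
    intro j
    have h1 := (hb j).cellU
    calc D / 2 ^ (Qb j).kc = D * (1 / 2 ^ (Qb j).kc) := by ring
      _ ≤ D * (hh * s) := mul_le_mul_of_nonneg_left h1 hD0
      _ = D * hh * s := by ring
  have htσ : D * hh * s ≤ c2 * s / 8 := by
    have h1 : 24 * D * hh * s ≤ c2 * s := mul_le_mul_of_nonneg_right nc2 hs.le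
    have h2 : 0 ≤ D * hh * s := ht0.le
    linarith
  have hosc' := h.hosc (f := f) (w := w) htσ hDk a hT2 hosc
  obtain ⟨q1, q2⟩ := Cl_692.out_c0 (Om := Om) (W := W) (K' := K') (f := f) (h.T a) (Q := Q)
    (z := vt (2 * s) a₀) (b := b) (L := L) (κ := κ) (τ := τ) (s := s) (hh := hh) (D := D)
    (σ' := σ') (e := hh * s) (d0 := d0) (C1 := C1) (nc := nc) (η := η) (w := w) (Φ := Φ) (R := Rr)
    (χ := toR (Sys.chi hA' (N₁+1) (N₂+1))) hκ hτ hτ4 hs hhh hD0 nσ nτ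
    (fun k hk' => hL k (hQ hk')) (fun k hk' => hcW k (hQ hk')) hWO (fun k hk' => hcK k (hQ hk'))
    (fun i hi x hx y hy => hP.diam i hi y hy x hx) hosc' hη le_rfl nC1 nd0 g2 g3 g4 k1.1 k1.2.1
    (hchi H.sys H.pr_s hA' _ _)
  -- the last clauses
  have h32 : (3 / 2 : ℝ≥0) ≤ 2 := by
    rw [div_le_iff₀ (by norm_num)]; norm_num
  obtain ⟨q3, q4⟩ := ouly_setD h H hAd hE h32 nK nRl hOm.measurableSet k3 k4 hs hκ hκ1 hτ4 hc1 hc2
    he hkk hcW hWO subset_rfl hb sep hθ0 ha n1 n2 n3 n4 n5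
    (hεc.trans (ENNReal.ofReal_le_ofReal (min_le_left _ _)))
  -- the sum of the errors
  have hnum7 : (dm + 8 * κ⁻¹ * Rl) * (1 / 2 ^ k0) < c2 * s := by
    have h0 : 0 ≤ dm + 8 * κ⁻¹ * Rl := by positivity
    calc (dm + 8 * κ⁻¹ * Rl) * (1 / 2 ^ k0) ≤ (dm + 8 * κ⁻¹ * Rl) * (θ0 * s) :=
          mul_le_mul_of_nonneg_left hθ0 h0
      _ = (dm + 8 * κ⁻¹ * Rl) * θ0 * s := by ring
      _ < c2 * s := mul_lt_mul_of_pos_right n7 hs
  have q5 := sum_erT h (a := a) (s := s') (Jf := DD.J)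
    (cb := fun k => ENNReal.ofReal (CB p (3 / 2) (X.m k))) (Rl := Rl) (Cer := Cer) (e₀ := e₀)
    (ε := ε) (pJ := fun j => kk j ∈ Q)
    (fun i j hij t ht => zone_disj h hκ (fun j v => ((hb j).cnd v).1) hz sep hnum7 hij ht)
    (fun k => by
      rw [← ENNReal.ofReal_one]
      refine ENNReal.ofReal_le_ofReal (one_le_CB hp hp3 ?_ ?_)
      · rw [le_div_iff₀ (by norm_num)]; norm_num
      · rw [H.sys.em]; exact one_le_mS _)
    (fun s₂ hs₂ => (hE s' pr c R _ _ X DD hAd (3 / 2) h32).2 s₂ fun k hk' => by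
      obtain ⟨j, hj, x, hx, z, hz', hxz⟩ := hs₂ k hk'
      exact ⟨j, hj, x, hx, z, hz', hxz⟩)
  refine ⟨_, G₂, fun j => erT h a DD.J Rl Cer ε j, k2, q1, q2, k5, q5.trans ?_, q3, q4⟩
  calc ENNReal.ofReal Cer * (ENNReal.ofReal e₀ + s'.card * ε)
      = ENNReal.ofReal Cer * ENNReal.ofReal e₀ + ENNReal.ofReal Cer * (s'.card * ε) := mul_add _ _ _
    _ ≤ ENNReal.ofReal (e / 2) + ENNReal.ofReal (e / 2) := by
        refine add_le_add ?_ ?_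
        · rw [← ENNReal.ofReal_mul hCer]
          exact ENNReal.ofReal_le_ofReal n6
        · have h1 : (s'.card : ℝ≥0∞) * ε ≤ ENNReal.ofReal (e / (2 * (Cer + 1))) :=
            ((mul_le_mul' le_self_add le_rfl).trans hεc).trans
              (ENNReal.ofReal_le_ofReal (min_le_right _ _))
          refine (mul_le_mul' le_rfl h1).trans ?_
          rw [← ENNReal.ofReal_mul hCer]
          refine ENNReal.ofReal_le_ofReal ?_
          rw [← mul_div_assoc, div_le_div_iff₀ (by positivity) (by norm_num)]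
          nlinarith
    _ = ENNReal.ofReal e := by
        rw [← ENNReal.ofReal_add (by linarith) (by linarith), add_halves]

end

end Crest.Agent.R096.Onp_622
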