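import Crest.Agent.R096.Cob9_622
import Crest.Agent.R096.Cbs2_296
import Crest.Agent.R096.Fub1_216

/-!
Row 96 (S0127), helper227, COMPOSITE B, [C5] of 622 (#11695, #11737; division 726 #11753): **energies of the
tubes of the SHORT edges**.  The tube of an edge is covered by the cells; large cells (`40 m⁴ u ≤ R`) are
treated by `(E)` of `cob_main` with 622's `TubE.ofJ`, the others by `(cells)`.
-/

set_option autoImplicit false
set_option linter.style.longLine false
set_option linter.unusedSectionVars false

open MeasureTheory Set Filter Topology Metric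
open scoped ENNReal NNReal

namespace Crest.Agent.R096.She_227

open Crest.AnalysisR.VecCalc3
open Crest.Agent.R096.Msh_715 (P I Tiling)
open Crest.Agent.R096.Sq_55 (E3 Sys Face Cell FaceOf w2 IsDp GG lint_w2)
open Crest.Agent.R096.Sqt_143 (sg)
open Crest.Agent.R096.Cob_622
open Crest.Agent.R096.Efi_296
open Crest.Agent.R096.Cbs_296
open Crest.Agent.R096.Br_695 (En)
open Crest.Agent.R96.En10_199 (P3)

noncomputable section

/-! ### sums over the cells -/

section abs

variable {κ ι : Type*} [Fintype κ] [Fintype ι] {X : Sys κ ι}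




end abs

/-! ### the family of tubes -/

section fam

variable {OmR : Set R3} {ι : Type*} {T : Tiling OmR ι} {s : Finset ι} {pr : (Te T).Cell → Prop}
  {c : ι → E3} {R : ι → ℝ≥0} {ρ : E3 → ℝ≥0} {m : ι → ℝ≥0} {X : Sys s (reps (Te T) s pr)}

/-- indices of the tubes: (edge `i`, cell `k` which is large with respect to `u`) -/
def IxS (α : Type*) (s : Finset ι) (R m : ι → ℝ≥0) (u : ℝ) : Type _ :=
  {x : α × s // 40 * (m x.2 : ℝ)^4 * u ≤ R x.2}

instance {α : Type*} [Finite α] {u : ℝ} : Finite (IxS α s R m u) := by
  unfold IxS; infer_instance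

/-- the edge in the coordinates of `E3` -/
def sE (e : R3 × R3) : Set E3 := sg (w2.symm e.1) (w2.symm (e.2 - e.1))

theorem isCompact_sE (e : R3 × R3) : IsCompact (sE e) := Sqt_143.isCompact_sg _ _

theorem image_sE (e : R3 × R3) : w2 '' sE e = segment ℝ e.1 e.2 := by
  unfold sE
  rw [sg, image_image, segment_eq_image']
  apply image_congr
  intro t _
  show P3 (P3.symm e.1 + t • P3.symm (e.2 - e.1)) = _
  rw [map_add, map_smul, P3.apply_symm_apply, P3.apply_symm_apply]

theorem mem_sE {e : R3 × R3} {y : E3} : y ∈ sE e ↔ w2 y ∈ segment ℝ e.1 e.2 := by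
  rw [← image_sE]
  constructor
  · exact fun h => mem_image_of_mem _ h
  · rintro ⟨z, hz, h⟩
    rwa [← w2.injective h]







end fam

/-! ### the average over the translations -/

section av

variable {Q : Mal_874.CB R3 3} {k0 : ℕ}


end av

end

end Crest.Agent.R096.She_227
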