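import Crest.Agent.R096.Elc3_812_Mg
import Crest.Agent.R096.Dtf1_117
import Crest.Agent.R096.Oi1_961
import Crest.Agent.R096.Onp1_622
import Crest.Agent.R096.Eta2_812
import Crest.Agent.R096.Shp6_432
import Crest.Agent.R096.She1_227
import Crest.Agent.R096.Cob10_622
import Crest.Agent.R096.Shp4_432
import Crest.Agent.R096.Gsc3_476
import Crest.Agent.R096.Sqt17_143
import Crest.Agent.R096.Lnk2_726
import Crest.Agent.R096.Hb3_82
import Crest.Agent.R096.Rmt4_816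
import Crest.Agent.R096.Ca20_855
import Crest.Agent.R096.Pas4_753
import Crest.Agent.R96.Els1_538
import Mathlib
import Crest.Agent.R096.Sqt7_143
import Crest.Agent.R096.Cbs2_296
import Crest.Agent.R096.Pin1_753
import Crest.Agent.R96.Intr24_538
import Crest.Agent.R096.Ttr1_565
import Crest.Agent.R096.H2n6_821
import Crest.Agent.R096.Onp2_622
import Crest.Agent.R096.Oi3_961
import Crest.Agent.R096.Onp4_622
import Crest.Agent.R096.Onp5_622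
import Crest.Agent.R096.Hop1_895

-- ▼ part R096/Asq3_895
section

/-!
# Row 96, S0127: two open leaves, `DOORS` and `ONE` (helper895, assembly)
-/

set_option autoImplicit false
set_option linter.style.longLine false

namespace Crest.Agent.R096.Asq_895

open MeasureTheory Metric Set Filter Topology
open scoped ENNReal Gradient NNReal
open Crest.AnalysisR.VecCalc3 Crest.AnalysisR.Sobolev

/-- (O) of 753's frame for 538's `Els` -/
def ONE : Prop := ∀ p : ℝ, 1 ≤ p → p ≤ 2 → Pas_753.OneP p Crest.Agent.R96.Eld_538.Els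

theorem elone (h : ONE) : ELONE := fun p hp h2 =>
  ⟨Crest.Agent.R96.Eld_538.Els, Elc_812.elP hp h2, h p hp h2⟩

/-- **S0127 from `DOORS` and `ONE`** -/
theorem s0127_doors_one (hD : DOORS) (hO : ONE)
    (Ω Λ : Set R3) (hΩo : IsOpen Ω) (hΩb : Bornology.IsBounded Ω) (hΩc : IsConnected Ω)
    (hΛo : IsOpen Λ) (hΛb : Bornology.IsBounded Λ) (hΛc : IsConnected Λ)
    (p : ℝ) (hp : 1 ≤ p) (f : R3 → R3) (hf : IsHomeomorphOn f Ω Λ)
    (hfp : MemLp f (ENNReal.ofReal p) (volume.restrict Ω))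
    (G : Fin 3 → R3 → R3) (hG : ∀ j : Fin 3, HasWeakGradOn Ω (fun x => f x j) (G j))
    (hGp : ∀ j : Fin 3, MemLp (G j) (ENNReal.ofReal p) (volume.restrict Ω))
    (ε : ℝ≥0∞) (hε : 0 < ε) :
    ∃ g : R3 → R3, IsSmoothDiffeoOn g Ω Λ ∧ MemLp g (ENNReal.ofReal p) (volume.restrict Ω) ∧
      (∀ j : Fin 3, MemLp (fun x => ∇ (fun y => g y j) x) (ENNReal.ofReal p) (volume.restrict Ω)) ∧
      ∫⁻ x in Ω, (‖g x - f x‖ₑ ^ p + ∑ j : Fin 3, ‖∇ (fun y => g y j) x - G j x‖ₑ ^ p) < ε :=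
  s0127_two hD (elone hO) Ω Λ hΩo hΩb hΩc hΛo hΛb hΛc p hp f hf hfp G hG hGp ε hε

end Crest.Agent.R096.Asq_895
end

-- ▼ part R096/Asq4_895
section

/-!
# Row 96, S0127: two CLOSED literals, `HOpen` (117) and `ONE` (helper895, assembly)
-/

set_option autoImplicit false
set_option linter.style.longLine false

namespace Crest.Agent.R096.Asq_895

open MeasureTheory Metric Set Filter Topology
open scoped ENNReal Gradient NNReal
open Crest.AnalysisR.VecCalc3 Crest.AnalysisR.Sobolev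

/-- DOORS from 117's `HOpen` -/
theorem doors_of_H (h : Dtf_117.HOpen) : DOORS :=
  doors_of_Q (b := 1 / 64) (by norm_num) (Dtf_117.doorsQb_of_H h)

/-- **S0127 from `HOpen` and `ONE`** -/
theorem s0127_H_one (hH : Dtf_117.HOpen) (hO : ONE)
    (Ω Λ : Set R3) (hΩo : IsOpen Ω) (hΩb : Bornology.IsBounded Ω) (hΩc : IsConnected Ω)
    (hΛo : IsOpen Λ) (hΛb : Bornology.IsBounded Λ) (hΛc : IsConnected Λ)
    (p : ℝ) (hp : 1 ≤ p) (f : R3 → R3) (hf : IsHomeomorphOn f Ω Λ)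
    (hfp : MemLp f (ENNReal.ofReal p) (volume.restrict Ω))
    (G : Fin 3 → R3 → R3) (hG : ∀ j : Fin 3, HasWeakGradOn Ω (fun x => f x j) (G j))
    (hGp : ∀ j : Fin 3, MemLp (G j) (ENNReal.ofReal p) (volume.restrict Ω))
    (ε : ℝ≥0∞) (hε : 0 < ε) :
    ∃ g : R3 → R3, IsSmoothDiffeoOn g Ω Λ ∧ MemLp g (ENNReal.ofReal p) (volume.restrict Ω) ∧
      (∀ j : Fin 3, MemLp (fun x => ∇ (fun y => g y j) x) (ENNReal.ofReal p) (volume.restrict Ω)) ∧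
      ∫⁻ x in Ω, (‖g x - f x‖ₑ ^ p + ∑ j : Fin 3, ‖∇ (fun y => g y j) x - G j x‖ₑ ^ p) < ε :=
  s0127_doors_one (doors_of_H hH) hO Ω Λ hΩo hΩb hΩc hΛo hΛb hΛc p hp f hf hfp G hG hGp ε hε

end Crest.Agent.R096.Asq_895
end

-- ▼ part R096/Tub1_821
section

/-!
Row 96 (S0127), `p ≤ 2`, COMPOSITE B, (O1) (helper821): **the tubes of the edges of a translated block**:
they lie in the good cube (`tube_cel`), and `f ∘ Φ ∘ chi` maps them into the region of the coordinate form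
of `Rr` (`tube_O`); `chi` keeps the tiles (`chi_tile`).
-/

set_option autoImplicit false
set_option linter.style.longLine false
set_option linter.unusedSectionVars false

namespace Crest.Agent.R096.Tub_821

open MeasureTheory Set Filter Topology Metric
open Crest.AnalysisR.VecCalc3
open Crest.Agent.R096.Msh_715 (P I Tiling)
open Crest.Agent.R096.Mal_874 (CB)
open Crest.Agent.R096.Sq_55 (E3 Sys w2 toR)
open Crest.Agent.R096.Cob_622
open Crest.Agent.R096.Efi_296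
open Crest.Agent.R096.Cbs_296
open Crest.Agent.R096.Pin_753
open Crest.Agent.R096.She_227 (sE isCompact_sE image_sE)
open Crest.Agent.R96.Intr_538 (cel par cel_mono)
open Crest.Agent.R96.Coarse_538 (vt Cb mem_cel norm_coord_le)
open Crest.Agent.R096.Eta_812 (cel_of_near)
open scoped ENNReal NNReal

noncomputable section

/-- **`chi` keeps the tiles** (hypothesis `hχ` of 812 / 692) -/
theorem chi_tile {OmR : Set R3} {ι : Type*} {T : Tiling OmR ι} {s : Finset ι}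
    {pr : (Te T).Cell → Prop} {c : ι → E3} {R : ι → ℝ≥0} {ρ : E3 → ℝ≥0} {m : ι → ℝ≥0}
    {X : Sys s (reps (Te T) s pr)} (h : SysOf (Te T) s pr c R ρ m X)
    (hpr : ∀ c : (Te T).Cell, pr c → ∀ k ∈ (Te T).at_ c.pt, k ∈ s) {p δ : ℝ} (hA : X.Adm p δ)
    (N₁ N₂ : ℕ) {x : R3} (hx : x ∈ OmR) :
    ∃ i, x ∈ P (T.H i) ∧ toR (Sys.chi hA N₁ N₂) x ∈ P (T.H i) := by
  by_cases hk : ∃ k ∈ s, x ∈ P (T.H k)
  · obtain ⟨k, hks, hxk⟩ := hk
    refine ⟨k, hxk, ?_⟩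
    have h1 : w2.symm x ∈ (X.C ⟨k, hks⟩).P := by
      rw [h.eP, Te_P, mem_preimage, w2.apply_symm_apply]
      exact hxk
    have h2 := (Sys.chi_P hA N₁ N₂ ⟨k, hks⟩ (w2.symm x)).2 h1
    rw [h.eP, Te_P] at h2
    exact h2
  · obtain ⟨i, hi⟩ := T.cov x hx
    refine ⟨i, hi, ?_⟩
    have h1 : w2.symm x ∉ ⋃ k, (X.C k).P := by
      intro hcon
      obtain ⟨k, hkc⟩ := mem_iUnion.1 hcon
      rw [h.eP, Te_P, mem_preimage, w2.apply_symm_apply] at hkc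
      exact hk ⟨k, k.2, hkc⟩
    have h2 := Cob_622.chi_out (h.K_sub_P hpr) hA N₁ N₂ h1
    have h3 : toR (Sys.chi hA N₁ N₂) x = x := by
      show w2 (Sys.chi hA N₁ N₂ (w2.symm x)) = x
      rw [h2, w2.apply_symm_apply]
    rw [h3]
    exact hi

/-- the value of the affine map of a good cube at a point of the cube -/
theorem Bk_mem_par {z b x : R3} {L : R3 →L[ℝ] R3} {r : ℝ} (hx : x ∈ cel Cb z r) :
    b + L (x - z) ∈ par Cb L b r := by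
  obtain ⟨v, hv, rfl⟩ := hx
  refine ⟨v, hv, ?_⟩
  show b + r • L v = b + L (z + r • v - z)
  rw [add_sub_cancel_left, map_smul]

/-- **the tubes of the edges of a translated block lie in the good cube** -/
theorem tube_cel {Q : CB R3 3} {k0 : ℕ} {a z : R3} (hk : (Q.tr a).kc ≤ k0) {r A u : ℝ}
    (hr : 0 < r) (hN : Q.N ⊆ cel Cb z r) (hA0 : 0 ≤ A) (hA : ‖a‖ ≤ A) (hu : 0 ≤ u) {e : R3 × R3}
    (he : e ∈ Ed (Q.tr a) k0 hk) {y : E3} (hy : y ∈ cthickening u (sE e)) :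
    w2 y ∈ cel Cb z (r + A + u) := by
  obtain ⟨y0, hy0, hyy⟩ := Sqt_143.inf_pt (isCompact_sE e) hy hu
  obtain ⟨x, -, -, hsub⟩ := he
  have h1 : w2 y0 ∈ (Q.tr a).N := hsub (by rw [← image_sE]; exact mem_image_of_mem _ hy0)
  rw [CB.mem_N_tr] at h1
  have h2 := (mem_cel hr).1 (hN h1)
  rw [mem_cel (by linarith)]
  intro i
  have h3 := h2 i
  have h4 : |y i - y0 i| ≤ u := (norm_le_pi_norm (y - y0) i).trans hyy
  have h5 : |a i| ≤ A := (norm_coord_le a i).trans hA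
  have e1 : (w2 y0 - a) i - z i = y0 i - a i - z i := rfl
  rw [e1] at h3
  have e2 : (w2 y) i - z i = (y i - y0 i) + (y0 i - a i - z i) + a i := by
    show y i - z i = _
    ring
  rw [e2]
  refine (abs_add_le _ _).trans ?_
  have h6 := abs_add_le (y i - y0 i) (y0 i - a i - z i)
  linarith

/-- **the image of the tubes under `f ∘ Φ ∘ χ`** -/
theorem tube_O {Om W : Set R3} {ι : Type*} {T : Tiling Om ι} {f Φ χ : R3 → R3} {Q : CB R3 3}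
    {k0 : ℕ} {a z b : R3} {L : R3 →L[ℝ] R3} (hk : (Q.tr a).kc ≤ k0)
    {s τ τ' κ A u t d : ℝ} (hs : 0 < s) (hτ : τ < 1) (hτ0 : 0 ≤ τ')
    (hN : Q.N ⊆ cel Cb z ((1 - τ) * s)) (hA0 : 0 ≤ A) (hA : ‖a‖ ≤ A) (hu : 0 ≤ u) (ht : 0 ≤ t)
    (hcW : cel Cb z s ⊆ W) (hWO : W ⊆ Om)
    (hdiam : ∀ i, (P (T.H i) ∩ W).Nonempty → ∀ x ∈ P (T.H i), ∀ y ∈ P (T.H i), ‖y - x‖ ≤ t)
    (hχ : ∀ x ∈ Om, ∃ i, x ∈ P (T.H i) ∧ χ x ∈ P (T.H i))
    (hnum : A + u + t ≤ (τ - 6 * τ') * s)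
    (g2 : ∀ y ∈ cel Cb z ((1 - 6 * τ') * s), ‖f (Φ y) - (b + L (y - z))‖ ≤ d)
    (hd : d < κ * (τ' * s) / 4)
    {e : R3 × R3} (he : e ∈ Ed (Q.tr a) k0 hk) {y : E3} (hy : y ∈ cthickening u (sE e)) :
    f (Φ (χ (w2 y))) ∈ thickening (κ * (τ' * s) / 4) (par Cb L b ((1 - 4 * τ') * s)) := by
  have hr : 0 < (1 - τ) * s := mul_pos (by linarith) hs
  have h6 : (1 - τ) * s + A + u + t ≤ (1 - 6 * τ') * s := by nlinarith
  have hr6 : 0 < (1 - 6 * τ') * s := by linarith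
  have h1 := tube_cel hk hr hN hA0 hA hu he hy
  have h2 : w2 y ∈ cel Cb z s := by
    rw [mem_cel hs]
    intro i
    have h3 := (mem_cel (by linarith)).1 h1 i
    nlinarith
  obtain ⟨i, hi, hi'⟩ := hχ (w2 y) (hWO (hcW h2))
  have h3 := hdiam i ⟨_, hi, hcW h2⟩ _ hi _ hi'
  have h4 : χ (w2 y) ∈ cel Cb z ((1 - 6 * τ') * s) :=
    cel_of_near (by linarith) hr6 h1 h3 (by linarith)
  rw [mem_thickening_iff]
  refine ⟨b + L (χ (w2 y) - z), ?_, ?_⟩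
  · have h5 : χ (w2 y) ∈ cel Cb z ((1 - 4 * τ') * s) := by
      rw [mem_cel (by nlinarith)]
      intro i
      have h7 := (mem_cel hr6).1 h4 i
      nlinarith
    exact Bk_mem_par h5
  · rw [dist_eq_norm]
    exact (g2 _ h4).trans_lt hd

end

end Crest.Agent.R096.Tub_821
end

-- ▼ part R096/Shp7_432
section

/-!
# Row 96 (helper432): the tiles of `h.T a` near a closed cell of a tile of small scale of a block:
they meet the cell, they cover its neighbourhood, their number and their diameters are bounded by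
constants of `κ`, `Bs`
-/

set_option autoImplicit false
set_option linter.unusedSectionVars false

open Set Metric MeasureTheory Filter
open scoped ENNReal Topology

namespace Crest.Agent.R096.Shp_432

open Crest.AnalysisR.VecCalc3 Crest.AnalysisR.Sobolev
open Crest.Agent.R096.Msh_715 Crest.Agent.R096.Mal_874

section near

variable {E : Type*} [NormedAddCommGroup E] [NormedSpace ℝ E] {Om : Set E} {ι : Type*}

/-- the tiles with a point at distance at most `r` from a point of `C` -/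
def Nt (T : Tiling Om ι) (C : Set E) (r : ℝ) : Set ι :=
  {l | ∃ y ∈ C, ∃ z ∈ P (T.H l), ‖z - y‖ ≤ r}

variable {T : Tiling Om ι}

/-- if the tiles near a compact set `C` meet `C`, they cover the neighbourhood of `C` -/
theorem near_cover {C : Set E} (hC : IsCompact C) (hCO : C ⊆ Om) {r : ℝ}
    (hm : ∀ l ∈ Nt T C r, (P (T.H l) ∩ C).Nonempty) {y z : E} (hy : y ∈ C) (hz : ‖z - y‖ ≤ r) :
    ∃ l ∈ Nt T C r, z ∈ P (T.H l) := by
  have hAf : {l | (P (T.H l) ∩ C).Nonempty}.Finite := T.finite_tiles hC hCO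
  set U : Set E := ⋃ l ∈ {l | (P (T.H l) ∩ C).Nonempty}, P (T.H l) with hU
  have hUc : IsClosed U := hAf.isClosed_biUnion fun l _ => isClosed_P _
  have hseg : ∀ w ∈ segment ℝ y z, ‖w - y‖ ≤ r := by
    intro w hw
    rw [segment_eq_image'] at hw
    obtain ⟨τ, hτ, rfl⟩ := hw
    rw [add_sub_cancel_left, norm_smul, Real.norm_eq_abs, abs_of_nonneg hτ.1]
    exact (mul_le_of_le_one_left (norm_nonneg _) hτ.2).trans hz
  have key : ∀ w ∈ segment ℝ y z, w ∈ Om → w ∈ interior U := by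
    intro w hw hwO
    obtain ⟨r', hr', h1, h2⟩ := T.exists_ball hwO
    refine mem_interior.2 ⟨ball w r', fun y' hy' => ?_, isOpen_ball, mem_ball_self hr'⟩
    obtain ⟨l, hl⟩ := T.cov y' (h1 hy')
    have h3 : w ∈ P (T.H l) := h2 y' hy' hl
    exact mem_iUnion₂.2 ⟨l, hm l ⟨y, hy, w, h3, hseg w hw⟩, hl⟩
  have hUO : U ⊆ Om := iUnion₂_subset fun l _ => T.sub l
  have h1 : segment ℝ y z ⊆ interior U := by
    refine (convex_segment y z).isPreconnected.subset_left_of_subset_union isOpen_interior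
      hUc.isOpen_compl ?_ (fun w hw => ?_) ⟨y, left_mem_segment ℝ y z,
        key y (left_mem_segment ℝ y z) (hCO hy)⟩
    · exact Set.disjoint_left.2 fun w hw hw' => hw' (interior_subset hw)
    · by_cases hwU : w ∈ U
      · exact Or.inl (key w hw (hUO hwU))
      · exact Or.inr hwU
  obtain ⟨l, hl, hzl⟩ := mem_iUnion₂.1 (interior_subset (h1 (right_mem_segment ℝ y z)))
  exact ⟨l, ⟨y, hy, z, hzl, hz⟩, hzl⟩

/-- the tiles near a closed cell of a tile with the geometry `GeoT` meet it -/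
theorem GeoT.near {n : ℕ} {t : ι} {ψ : E ≃L[ℝ] (Fin n → ℝ)} {s : ℕ} {D μ γ : ℝ} {nE : ℕ}
    (hT : GeoT T t ψ s D μ γ nE) {Lo r : ℝ} (hLo : ∀ v, ‖ψ v‖ ≤ Lo * ‖v‖) (hLo0 : 0 ≤ Lo)
    (hr : Lo * r < γ / 2 ^ s) {x : E} (hx : x ∈ P (T.H t)) {l : ι} (hl : l ∈ Nt T (T.cc x) r) :
    (P (T.H l) ∩ T.cc x).Nonempty := by
  obtain ⟨y, hy, z, hz, hyz⟩ := hl
  by_contra hcon
  rw [Set.not_nonempty_iff_eq_empty, ← Set.disjoint_iff_inter_eq_empty] at hcon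
  have h1 := hT.sep x hx l hcon.symm y hy z hz
  have h2 := (hLo (z - y)).trans (mul_le_mul_of_nonneg_left hyz hLo0)
  linarith

end near

/-! ### numbers -/

theorem exists_K (C : ℝ) {γ : ℝ} (hγ : 0 < γ) : ∃ K1 : ℕ, 2 ≤ K1 ∧
    ∀ {s k0 : ℕ}, s + K1 ≤ k0 → C / 2 ^ k0 < γ / 2 ^ s := by
  obtain ⟨K1, hK1⟩ := pow_unbounded_of_one_lt (C / γ) (one_lt_two (α := ℝ))
  refine ⟨K1 + 2, by omega, fun {s k0} hs => ?_⟩
  rw [div_lt_iff₀ hγ] at hK1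
  rw [div_lt_div_iff₀ (by positivity) (by positivity)]
  have h1 : (2:ℝ) ^ s * 2 ^ K1 ≤ 2 ^ k0 := by
    rw [← pow_add]
    exact pow_le_pow_right₀ (by norm_num) (by omega)
  have h2 : (0:ℝ) < 2 ^ s := by positivity
  nlinarith [mul_lt_mul_of_pos_right hK1 h2, mul_le_mul_of_nonneg_left h1 hγ.le]

section

open Crest.Agent.R096.Ca_855
open Crest.Agent.R096.Ca_855.MIn (BQ)
open Crest.Agent.R096.Pin_753 (BlkP Ed)

/-- **the tiles of `h.T a` near a closed cell of a tile of scale `≤ k0 - K1` of a block**: they meet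
the cell, lie in the block, have the geometry `GeoT` at their scale; they cover the neighbourhood of
the cell; all constants depend on `κ`, `Bs`, `Λ` only -/
theorem long_tile (Bs : ℕ) {κ : ℝ} (hκ : 0 < κ) (hκ1 : κ ≤ 1) :
    ∃ (nc nE : ℕ) (D μ γ V : ℝ), 0 < D ∧ 0 < μ ∧ 0 < γ ∧ 0 < V ∧ ∀ Λ : ℝ, ∃ K1 : ℕ, 2 ≤ K1 ∧
    ∀ {Om W : Set R3} {ρ₀ : R3 → ℝ} {J : Type} [Finite J]
      {Qb : J → CB R3 3} {k0 Nn : ℕ} {σ : ℝ} (h : MIn Om W ρ₀ Qb k0 σ),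
      (∀ j, BQ κ Bs Nn (Qb j) k0) → ∀ {a : R3}, ‖a‖ ≤ σ / 8 → ∀ (j : J) (t : h.ιT a),
      P ((h.T a).H t) ⊆ ((Qb j).tr a).N → scT h a t + K1 ≤ k0 →
      ∀ x ∈ P ((h.T a).H t),
        (∀ l ∈ Nt (h.T a) ((h.T a).cc x) (Λ / 2 ^ k0), (P ((h.T a).H l) ∩ (h.T a).cc x).Nonempty ∧
          P ((h.T a).H l) ⊆ ((Qb j).tr a).N ∧
          Disjoint (P ((h.T a).H l)) (frontier ((Qb j).tr a).N) ∧
          scT h a l ≤ scT h a t + 1 ∧ scT h a t ≤ scT h a l + 1 ∧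
          GeoT (h.T a) l (Qb j).ψ (scT h a l) D μ γ nE) ∧
        (Nt (h.T a) ((h.T a).cc x) (Λ / 2 ^ k0)).Finite ∧
        (Nt (h.T a) ((h.T a).cc x) (Λ / 2 ^ k0)).ncard ≤ nc ∧
        (∀ y ∈ (h.T a).cc x, ∀ z, ‖z - y‖ ≤ Λ / 2 ^ k0 →
          ∃ l ∈ Nt (h.T a) ((h.T a).cc x) (Λ / 2 ^ k0), z ∈ P ((h.T a).H l)) ∧
        ∀ e1 e2, (h.T a).cc x = segment ℝ e1 e2 → e1 ≠ e2 →
          κ * μ / 4 / 2 ^ scT h a t ≤ ‖e2 - e1‖ ∧
          ∀ l ∈ Nt (h.T a) ((h.T a).cc x) (Λ / 2 ^ k0), ∀ y ∈ P ((h.T a).H l),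
            ∀ z ∈ P ((h.T a).H l), ‖z - y‖ ≤ V * ‖e2 - e1‖ := by
  obtain ⟨D, μ, γ, nE, hD, hμ, hγ, H⟩ := geo_T Bs
  obtain ⟨D₁, -, nc, hnc, -⟩ := exists_tile hκ hκ1 Bs
  refine ⟨nc, nE, D, μ, γ, 32 * D / (κ ^ 2 * μ), hD, hμ, hγ, by positivity, fun Λ => ?_⟩
  obtain ⟨K1, hK1, hnum⟩ := exists_K (4 * κ⁻¹ * Λ) hγ
  refine ⟨K1, hK1, ?_⟩
  intro Om W ρ₀ J _ Qb k0 Nn σ h hb a ha j t hN hs x hx
  have hw := T_off_wall h ha j (t := t) (by omega)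
  have hG := H hκ hκ1 h hb ha j t hN hw
  have hcnd := (hb j).cnd
  have hcc : (h.T a).cc x ⊆ P ((h.T a).H t) := (h.T a).cc_sub_tile hx
  have hnear : ∀ l ∈ Nt (h.T a) ((h.T a).cc x) (Λ / 2 ^ k0),
      (P ((h.T a).H l) ∩ (h.T a).cc x).Nonempty := by
    intro l hl
    refine hG.near (fun v => (hcnd v).2) (by positivity) ?_ hx hl
    rw [← mul_div_assoc]
    exact hnum hs
  have hnbr : ∀ l ∈ Nt (h.T a) ((h.T a).cc x) (Λ / 2 ^ k0),
      (P ((h.T a).H t) ∩ P ((h.T a).H l)).Nonempty := by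
    intro l hl
    obtain ⟨y, hy1, hy2⟩ := hnear l hl
    exact ⟨y, hcc hy2, hy1⟩
  have hall : ∀ l ∈ Nt (h.T a) ((h.T a).cc x) (Λ / 2 ^ k0),
      P ((h.T a).H l) ⊆ ((Qb j).tr a).N ∧
          Disjoint (P ((h.T a).H l)) (frontier ((Qb j).tr a).N) ∧
          scT h a l ≤ scT h a t + 1 ∧ scT h a t ≤ scT h a l + 1 ∧
          GeoT (h.T a) l (Qb j).ψ (scT h a l) D μ γ nE := by
    intro l hl
    have h1 := hnbr l hl
    have h2 := scT_nbr h h1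
    have h3 := T_nbr_in h ha hN (by omega) h1
    have h4 := T_off_wall h ha j (t := l) (by omega)
    exact ⟨h3, h4, h2, scT_nbr' h h1, H hκ hκ1 h hb ha j l h3 h4⟩
  have hfin : {l | (P ((h.T a).H l) ∩ P ((h.T a).H t)).Nonempty}.Finite :=
    (h.T a).finite_tiles ((h.T a).cpt t) ((h.T a).sub t)
  have hsub : Nt (h.T a) ((h.T a).cc x) (Λ / 2 ^ k0) ⊆
      {l | (P ((h.T a).H l) ∩ P ((h.T a).H t)).Nonempty} := fun l hl => by
    have := hnbr l hl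
    rwa [inter_comm] at this
  refine ⟨fun l hl => ⟨hnear l hl, hall l hl⟩, hfin.subset hsub,
    (Set.ncard_le_ncard hsub hfin).trans ((hnc h hb a).1 t).1, fun y hy z hz => ?_,
    fun e1 e2 he hne => ?_⟩
  · exact near_cover ((h.T a).isCompact_cc ((h.T a).sub t hx)) (hcc.trans ((h.T a).sub t))
      hnear hy hz
  · have h1 := hG.len x hx e1 e2 he hne
    have h2 := (hcnd (e2 - e1)).2
    have hp : (0:ℝ) < 2 ^ scT h a t := by positivity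
    have h3 : κ * μ / 4 / 2 ^ scT h a t ≤ ‖e2 - e1‖ := by
      have h4 := h1.trans h2
      have h5 : κ * μ / 4 / 2 ^ scT h a t = κ / 4 * (μ / 2 ^ scT h a t) := by ring
      rw [h5]
      calc κ / 4 * (μ / 2 ^ scT h a t) ≤ κ / 4 * (4 * κ⁻¹ * ‖e2 - e1‖) :=
            mul_le_mul_of_nonneg_left h4 (by positivity)
        _ = ‖e2 - e1‖ := by field_simp
    refine ⟨h3, fun l hl y hy z hz => ?_⟩
    obtain ⟨-, -, -, h6, h7⟩ := hall l hl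
    have h8 := h7.sz y hy z hz
    have h9 := (hcnd (z - y)).1
    have hpl : (0:ℝ) < 2 ^ scT h a l := by positivity
    have h10 : (2:ℝ) ^ scT h a t ≤ 2 * 2 ^ scT h a l := by
      rw [← pow_succ']
      exact pow_le_pow_right₀ (by norm_num) h6
    have h11 : D / 2 ^ scT h a l ≤ 2 * D / 2 ^ scT h a t := by
      rw [div_le_div_iff₀ hpl hp]
      nlinarith
    have h12 : κ / 4 * ‖z - y‖ ≤ 2 * D / 2 ^ scT h a t := h9.trans (h8.trans h11)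
    calc ‖z - y‖ = 4 / κ * (κ / 4 * ‖z - y‖) := by field_simp
      _ ≤ 4 / κ * (2 * D / 2 ^ scT h a t) := mul_le_mul_of_nonneg_left h12 (by positivity)
      _ = 32 * D / (κ ^ 2 * μ) * (κ * μ / 4 / 2 ^ scT h a t) := by
          field_simp; ring
      _ ≤ 32 * D / (κ ^ 2 * μ) * ‖e2 - e1‖ := mul_le_mul_of_nonneg_left h3 (by positivity)

end

end Crest.Agent.R096.Shp_432
end

-- ▼ part R096/She2_227
section

/-!
Row 96 (S0127), helper227, COMPOSITE B, [C5] of 622: **energies of the tubes of the SHORT edges, from the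
outputs (cells), (E2) of 622's `cob_T`** (the input (SHORT) of 82's `h2b_inc`).
-/

set_option autoImplicit false
set_option linter.style.longLine false
set_option linter.unusedSectionVars false

open MeasureTheory Set Filter Topology Metric
open scoped ENNReal NNReal

namespace Crest.Agent.R096.She_227

open Crest.AnalysisR.VecCalc3
open Crest.Agent.R096.Msh_715 (P I Tiling)
open Crest.Agent.R096.Sq_55 (E3 Sys Face Cell FaceOf w2 IsDp GG lint_w2)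
open Crest.Agent.R096.Sqt_143 (sg)
open Crest.Agent.R096.Cob_622
open Crest.Agent.R096.Efi_296
open Crest.Agent.R096.Cbs_296
open Crest.Agent.R096.Br_695 (En)
open Crest.Agent.R96.En10_199 (P3)

noncomputable section

/-- the closed thickening of a finite union -/
theorem cthickening_iUnion_fin {α ι : Type*} [PseudoEMetricSpace α] [Finite ι] (u : ℝ)
    (f : ι → Set α) : cthickening u (⋃ i, f i) = ⋃ i, cthickening u (f i) := by
  ext x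
  simp only [mem_cthickening_iff, mem_iUnion, Metric.infEDist_iUnion]
  constructor
  · intro h
    rcases isEmpty_or_nonempty ι with h0 | h0
    · rw [iInf_of_empty] at h
      exact absurd h (by simp)
    · obtain ⟨i, hi⟩ := exists_eq_ciInf_of_finite (f := fun i => infEDist x (f i))
      exact ⟨i, hi.le.trans h⟩
  · rintro ⟨i, hi⟩
    exact (iInf_le _ i).trans hi

variable {Om : Set R3} {ι : Type*} {T : Tiling Om ι}
  {s : Finset ι} {pr : (Te T).Cell → Prop} {R : ι → ℝ≥0} {m : ι → ℝ≥0}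

open Classical in
/-- the tiles of `s` which meet `S` -/
def Zc (T : Tiling Om ι) (s : Finset ι) (S : Set R3) : Finset s :=
  Finset.univ.filter fun k => (P (T.H k) ∩ S).Nonempty

theorem mem_Zc {S : Set R3} {k : s} : k ∈ Zc T s S ↔ (P (T.H k) ∩ S).Nonempty := by
  classical
  unfold Zc
  rw [Finset.mem_filter]
  exact ⟨fun h => h.2, fun h => ⟨Finset.mem_univ _, h⟩⟩

/-- the integral over a set which is covered by the tiles of `s` -/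
theorem int_Zc {S : Set R3} (hO : S ⊆ Om) (hs : ∀ t, (P (T.H t) ∩ S).Nonempty → t ∈ s)
    (F : R3 → ℝ≥0∞) (b : s → ℝ≥0∞) (h : ∀ k ∈ Zc T s S, ∫⁻ x in P (T.H k) ∩ S, F x ≤ b k) :
    ∫⁻ x in S, F x ≤ ∑ k ∈ Zc T s S, b k := by
  classical
  have h1 : S ⊆ ⋃ k : {k // k ∈ Zc T s S}, P (T.H k.1) ∩ S := by
    intro x hx
    obtain ⟨t, ht⟩ := T.cov _ (hO hx)
    have hts := hs t ⟨x, ht, hx⟩
    exact mem_iUnion.2 ⟨⟨⟨t, hts⟩, mem_Zc.2 ⟨x, ht, hx⟩⟩, ht, hx⟩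
  calc ∫⁻ x in S, F x ≤ ∫⁻ x in ⋃ k : {k // k ∈ Zc T s S}, P (T.H k.1) ∩ S, F x :=
        lintegral_mono_set h1
    _ ≤ ∑' k : {k // k ∈ Zc T s S}, ∫⁻ x in P (T.H k.1) ∩ S, F x := lintegral_iUnion_le _ _
    _ = ∑ k : {k // k ∈ Zc T s S}, ∫⁻ x in P (T.H k.1) ∩ S, F x := tsum_fintype _
    _ ≤ ∑ k : {k // k ∈ Zc T s S}, b k.1 := Finset.sum_le_sum fun k _ => h k.1 k.2
    _ = ∑ k ∈ Zc T s S, b k := Finset.sum_coe_sort (Zc T s S) b


/-! ### the edges of a block as chains of closed 1-cells -/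

/-- a 1-cell of the tiling as an element of `EgS (Te T) s` -/
theorem exists_EgS {y : R3} (hy : y ∈ Om) (hd : T.dim y = 1) {t : ι} (ht : t ∈ s)
    (hyt : y ∈ P (T.H t)) : ∃ c : EgS (Te T) s, c.1.set = w2 ⁻¹' (T.cc y) := by
  have h0 : w2.symm y ∈ (P3.symm : R3 ≃L[ℝ] E3).symm ⁻¹' Om := by
    show w2 (w2.symm y) ∈ Om
    rwa [w2.apply_symm_apply]
  have e1 : (Te T).cc (w2.symm y) = w2 ⁻¹' (T.cc y) := by
    ext z
    have h1 := Ttr_622.mem_cc_tr (T := T) (P3.symm : R3 ≃L[ℝ] E3) (x := w2.symm y) (y := z)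
    have h2 : (P3.symm : R3 ≃L[ℝ] E3).symm (w2.symm y) = y := w2.apply_symm_apply y
    rw [h2] at h1
    exact h1
  have h3 : (t : ι) ∈ (Te T).at_ (w2.symm y) := by
    show w2.symm y ∈ P ((Te T).H t)
    rw [Te_P, mem_preimage, w2.apply_symm_apply]
    exact hyt
  refine ⟨⟨(Te T).cl h0, ?_, t, ht, (Te T).cc_sub_tile h3⟩, e1⟩
  rw [(Te T).dim_cl h0, Te_dim, w2.apply_symm_apply, hd]

/-- a point of `[0,1]` lies in one of the pieces -/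
theorem exists_piece {t : ℕ → ℝ} {n : ℕ} (h0 : t 0 = 0) (h1 : t n = 1) {τ : ℝ}
    (hτ : τ ∈ Icc (0:ℝ) 1) (hn : 0 < n) : ∃ i < n, t i ≤ τ ∧ τ ≤ t (i + 1) := by
  classical
  by_contra hcon
  push Not at hcon
  have key : ∀ i, i < n → t i ≤ τ := by
    intro i
    induction i with
    | zero => exact fun _ => by rw [h0]; exact hτ.1
    | succ i ih => exact fun hi => (hcon i (by omega) (ih (by omega))).le
  obtain ⟨m, rfl⟩ : ∃ m, n = m + 1 := ⟨n - 1, by omega⟩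
  have h2 := hcon m (by omega) (key m (by omega))
  rw [h1] at h2
  exact absurd hτ.2 (not_le.2 h2)

/-- the chain of closed 1-cells of an edge -/
theorem cover_chain {e : R3 × R3} {n : ℕ} {t : ℕ → ℝ} (hn : 0 < n) (h0 : t 0 = 0) (h1 : t n = 1)
    (hc : ∀ i < n, ∃ y ∈ Om, T.dim y = 1 ∧
      T.cc y = segment ℝ (e.1 + t i • (e.2 - e.1)) (e.1 + t (i + 1) • (e.2 - e.1)))
    (hs : ∀ k, (P (T.H k) ∩ segment ℝ e.1 e.2).Nonempty → k ∈ s)
    (ht : ∀ i ≤ n, 0 ≤ t i ∧ t i ≤ 1) {N : ℕ} (hN : n ≤ N) :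
    ∃ c : Fin N → EgS (Te T) s, sE e ⊆ ⋃ i, (c i).1.set := by
  classical
  have h2 : ∀ i < n, ∃ c : EgS (Te T) s, c.1.set =
      w2 ⁻¹' (segment ℝ (e.1 + t i • (e.2 - e.1)) (e.1 + t (i + 1) • (e.2 - e.1))) := by
    intro i hi
    obtain ⟨y, hy, hd, hcc⟩ := hc i hi
    obtain ⟨k, hk⟩ := T.cov _ hy
    have hys : y ∈ segment ℝ e.1 e.2 := by
      have h3 := T.self_mem_cc y
      rw [hcc] at h3
      have h4 : ∀ j ≤ n, e.1 + t j • (e.2 - e.1) ∈ segment ℝ e.1 e.2 := by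
        intro j hj
        rw [segment_eq_image']
        exact ⟨t j, ht j hj, rfl⟩
      exact (convex_segment _ _).segment_subset (h4 i hi.le) (h4 (i+1) hi) h3
    obtain ⟨c, hc'⟩ := exists_EgS (s := s) hy hd (hs k ⟨y, hk, hys⟩) hk
    exact ⟨c, by rw [hc', hcc]⟩
  have : Nonempty (EgS (Te T) s) := ⟨(h2 0 hn).choose⟩
  choose! c hc' using h2
  refine ⟨fun i => if i.1 < n then c i.1 else c 0, fun y hy => ?_⟩
  rw [mem_sE, segment_eq_image'] at hy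
  obtain ⟨τ, hτ, hy⟩ := hy
  obtain ⟨i, hi, h3, h4⟩ := exists_piece h0 h1 hτ hn
  refine mem_iUnion.2 ⟨⟨i, by omega⟩, ?_⟩
  simp only [hi, if_true]
  rw [hc' i hi, mem_preimage, ← hy]
  rcases eq_or_lt_of_le (h3.trans h4) with h5 | h5
  · have : τ = t i := le_antisymm (h5 ▸ h4) h3
    rw [this]
    exact left_mem_segment ℝ _ _
  · rw [segment_eq_image']
    refine ⟨(τ - t i) / (t (i+1) - t i), ⟨div_nonneg (by linarith) (by linarith), ?_⟩, ?_⟩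
    · rw [div_le_one (by linarith)]
      linarith
    · simp only
      rw [add_sub_add_left_eq_sub, ← sub_smul, smul_smul, div_mul_cancel₀ _ (by linarith), add_assoc,
        ← add_smul]
      congr 2
      ring


end

end Crest.Agent.R096.She_227
end

-- ▼ part R096/Shp8_432
section

/-!
# Row 96 (helper432), COMPOSITE B, (D1): `LongE` for the edges of a block of `h.T a` all of whose
near tiles are deep
-/

set_option autoImplicit false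
set_option linter.unusedSectionVars false

open Set Metric MeasureTheory Filter
open scoped ENNReal NNReal Topology

namespace Crest.Agent.R096.Shp_432

open Crest.AnalysisR.VecCalc3 Crest.AnalysisR.Sobolev
open Crest.Agent.R096.Msh_715 (P I Tiling)
open Crest.Agent.R096.Mal_874 (CB)
open Crest.Agent.R096.Sq_55 (E3 Sys w2)
open Crest.Agent.R096.Sqt_143 (sg Zn DeepS)
open Crest.Agent.R096.Cob_622 (SmallR Te_P)
open Crest.Agent.R096.Efi_296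
open Crest.Agent.R96.Coarse_538 (seg)
open Crest.Agent.R096.She_227 (sE isCompact_sE image_sE mem_sE exists_EgS)
open Crest.Agent.R096.Oi_961
open Crest.Agent.R96.En10_199 (P3)
open Crest.Agent.R096.Ca_855
open Crest.Agent.R096.Ca_855.MIn (BQ)
open Crest.Agent.R096.Pin_753 (BlkP Ed)
open Crest.Agent.R096.Gsc_476 (sclT)

/-- the pieces of an edge -/
theorem pce_eq (e : R3 × R3) (t : ℕ → ℝ) (i : ℕ) :
    pce e t i = sE (e.1 + t i • (e.2 - e.1), e.1 + t (i + 1) • (e.2 - e.1)) := by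
  have h1 : w2.symm (e.1 + t i • (e.2 - e.1)) = w2.symm e.1 + t i • w2.symm (e.2 - e.1) := by
    show P3.symm _ = P3.symm _ + t i • P3.symm _
    rw [map_add, map_smul]
  have h2 : w2.symm (e.1 + t (i + 1) • (e.2 - e.1) - (e.1 + t i • (e.2 - e.1))) =
      (t (i + 1) - t i) • w2.symm (e.2 - e.1) := by
    show P3.symm _ = (t (i + 1) - t i) • P3.symm _
    rw [← map_smul]
    congr 1
    rw [sub_smul]
    abel
  show sg _ _ = sg _ _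
  rw [h1, h2]

theorem image_pce (e : R3 × R3) (t : ℕ → ℝ) (i : ℕ) :
    w2 '' pce e t i = segment ℝ (e.1 + t i • (e.2 - e.1)) (e.1 + t (i + 1) • (e.2 - e.1)) := by
  rw [pce_eq, image_sE]

theorem seg_piece {p q : R3} {τ τ' : ℝ} (h0 : 0 ≤ τ) (h1 : τ ≤ 1) (h2 : 0 ≤ τ') (h3 : τ' ≤ 1) :
    segment ℝ (p + τ • (q - p)) (p + τ' • (q - p)) ⊆ segment ℝ p q := by
  have h : ∀ {r : ℝ}, 0 ≤ r → r ≤ 1 → p + r • (q - p) ∈ segment ℝ p q := by
    intro r hr hr1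
    rw [segment_eq_image']
    exact ⟨r, ⟨hr, hr1⟩, rfl⟩
  exact (convex_segment p q).segment_subset (h h0 h1) (h h2 h3)

theorem pce_sub {e : R3 × R3} {t : ℕ → ℝ} {i : ℕ} (h0 : 0 ≤ t i) (h1 : t i ≤ 1)
    (h2 : 0 ≤ t (i + 1)) (h3 : t (i + 1) ≤ 1) : pce e t i ⊆ sE e := by
  intro y hy
  rw [mem_sE]
  refine seg_piece h0 h1 h2 h3 ?_
  rw [← image_pce]
  exact mem_image_of_mem _ hy

/-- a point of the tube of a piece -/
theorem cth_pce {e : R3 × R3} {t : ℕ → ℝ} {i : ℕ} {u : ℝ} (hu : 0 ≤ u) {z : E3}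
    (hz : z ∈ cthickening u (pce e t i)) :
    ∃ y ∈ segment ℝ (e.1 + t i • (e.2 - e.1)) (e.1 + t (i + 1) • (e.2 - e.1)),
      ‖w2 z - y‖ ≤ 2 * u := by
  have hc : IsCompact (pce e t i) := by rw [pce_eq]; exact isCompact_sE _
  rw [hc.cthickening_eq_biUnion_closedBall hu] at hz
  obtain ⟨y, hy, hzy⟩ := mem_iUnion₂.1 hz
  refine ⟨w2 y, by rw [← image_pce]; exact mem_image_of_mem _ hy, ?_⟩
  have h1 : dist (w2 z) (w2 y) ≤ 2 * dist z y := dist_P3_le z y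
  rw [dist_eq_norm] at h1
  have h2 : dist z y ≤ u := mem_closedBall.1 hzy
  linarith

section

variable {Om W : Set R3} {ρ₀ : R3 → ℝ} {J : Type} [Finite J] {Qb : J → CB R3 3} {k0 : ℕ} {σ : ℝ}

/-- a block of the mesh lies in `Om` -/
theorem N_tr_sub_Om (h : MIn Om W ρ₀ Qb k0 σ) {a : R3} (ha : ‖a‖ ≤ σ / 8) (j : J) :
    ((Qb j).tr a).N ⊆ Om := by
  intro y hy
  have h1 : y - a ∈ (Qb j).N := by
    rw [CB.N_tr] at hy
    exact hy
  have h2 := h.hW _ (h.hN j h1)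
  have h3 := h.lip (y - a) y
  rw [sub_sub_cancel_left, norm_neg] at h3
  have h0 := h.σ0
  exact (h.pos y).1 (by linarith)

end

/-- **(D1)** `LongE` for an edge of a block all of whose near tiles are deep -/
theorem longE_of_deep (Bs : ℕ) {κ : ℝ} (hκ : 0 < κ) (hκ1 : κ ≤ 1) :
    ∃ (np nc K0 : ℕ) (lam cV : ℝ), 0 < lam ∧ 0 < cV ∧ 2 ≤ K0 ∧
    ∀ {Om W : Set R3} {ρ₀ : R3 → ℝ} {J : Type} [Finite J]
      {Qb : J → CB R3 3} {k0 Nn : ℕ} {σ : ℝ} (h : MIn Om W ρ₀ Qb k0 σ),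
      (∀ j, BQ κ Bs Nn (Qb j) k0) → ∀ {a : R3}, ‖a‖ ≤ σ / 8 → ∀ (j : J) {K1 : ℕ}, K0 ≤ K1 →
      ∀ {κe : Type*} {s : Finset (h.ιT a)} {pr : (Te (h.T a)).Cell → Prop}
        {R m : h.ιT a → ℝ≥0} {ρ : E3 → ℝ≥0} {x v : κe → R3} {b : R3}
        {me : EgS (Te (h.T a)) s → κe}, (∀ c, w2 '' c.1.set = seg x v b (me c)) →
      ∀ {C : Set R3} {M : ℝ≥0} {nb : ℕ} {u : ℝ}, 1 ≤ M → u = 4 * κ⁻¹ / (5 * 2 ^ k0) →
      DeepS (h.T a) s pr R m ρ u C M nb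
        {l | P ((h.T a).H l) ⊆ ((Qb j).tr a).N ∧ sclT h a l + K1 ≤ k0} →
      ∀ e ∈ Ed ((Qb j).tr a) k0 (h.hk j),
      (∀ l, (P ((Te (h.T a)).H l) ∩ cthickening (25 * (M : ℝ)^4 * u) (sE e)).Nonempty →
        P ((h.T a).H l) ⊆ ((Qb j).tr a).N ∧ sclT h a l + K1 ≤ k0) →
      ∃ (m' : ℕ) (t : ℕ → ℝ) (S : ℕ → Finset s),
        LongE (h.T a) s pr R ρ m x v b me C nb (2 ^ nb) np nc lam cV M u e m' t S := by
  obtain ⟨lam, hlam, hlam1, HC⟩ := exists_chain_T Bs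
  obtain ⟨nc, nE, D, μ, γ, V, hD, hμ, hγ, hV, HL⟩ := long_tile Bs hκ hκ1
  obtain ⟨K0, hK0, HL⟩ := HL (8 * κ⁻¹ / 5)
  obtain ⟨np, hnp⟩ := exists_nat_ge (1 / lam)
  refine ⟨np, nc, K0, lam, V, hlam, hV, hK0, ?_⟩
  intro Om W ρ₀ J _ Qb k0 Nn σ h hb a ha j K1 hK κe s pr R m ρ x v b me hme C M nb u hM hu hDp e
    he hL
  classical
  have hu0 : 0 < u := by rw [hu]; positivity
  have hΛ : 2 * u = 8 * κ⁻¹ / 5 / 2 ^ k0 := by rw [hu]; field_simp; ring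
  have hM' : (1:ℝ) ≤ M := by exact_mod_cast hM
  have h25 : u ≤ 25 * (M:ℝ)^4 * u := by
    have h1 : (1:ℝ) ≤ (M:ℝ)^4 := one_le_pow₀ hM'
    nlinarith
  have hNO := N_tr_sub_Om h ha j
  have hseg : segment ℝ e.1 e.2 ⊆ ((Qb j).tr a).N := by
    obtain ⟨_, _, _, h3⟩ := he
    exact h3
  have hat : ∀ y ∈ segment ℝ e.1 e.2, ∀ l, y ∈ P ((h.T a).H l) →
      P ((h.T a).H l) ⊆ ((Qb j).tr a).N ∧ scT h a l + K1 ≤ k0 := by
    intro y hy l hl
    refine hL l ⟨w2.symm y, ?_, self_subset_cthickening _ ?_⟩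
    · rw [Te_P, mem_preimage, w2.apply_symm_apply]
      exact hl
    · rw [mem_sE, w2.apply_symm_apply]
      exact hy
  have hdis : Disjoint (segment ℝ e.1 e.2) (frontier ((Qb j).tr a).N) := by
    rw [Set.disjoint_left]
    intro y hy hyf
    obtain ⟨l, hl⟩ := (h.T a).cov y (hNO (hseg hy))
    have h1 := (hat y hy l hl).2
    exact Set.disjoint_left.1 (T_off_wall h ha j (t := l) (by omega)) hl hyf
  obtain ⟨m', t, h1, h2, h3, h4, h5, h6, h7, -⟩ := HC hκ hκ1 h hb ha j he hdis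
  have hne : e.2 - e.1 ≠ 0 := by
    intro h0
    obtain ⟨y, -, hy1, hy2⟩ := h7 0 h1
    have h8 := (h.T a).self_mem_cc y
    rw [hy2, h0, smul_zero, smul_zero, add_zero, segment_same, mem_singleton_iff] at h8
    have h9 := (h6 0 (Nat.zero_le _)).2.2
    rw [h0, smul_zero, add_zero, ← h8, hy1] at h9
    exact one_ne_zero h9
  have hlt : ∀ i < m', t i < t (i + 1) := fun i hi => by linarith [h5 i hi]
  have hpc : ∀ i < m', pce e t i ⊆ sE e := fun i hi =>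
    pce_sub (h6 i hi.le).1 (h6 i hi.le).2.1 (h6 (i + 1) hi).1 (h6 (i + 1) hi).2.1
  -- the deep tile of a piece
  have hpiece : ∀ i < m', ∃ y ∈ Om, (h.T a).dim y = 1 ∧
      (h.T a).cc y = segment ℝ (e.1 + t i • (e.2 - e.1)) (e.1 + t (i + 1) • (e.2 - e.1)) ∧
      ∃ l₀, y ∈ P ((h.T a).H l₀) ∧ P ((h.T a).H l₀) ⊆ ((Qb j).tr a).N ∧
        scT h a l₀ + K1 ≤ k0 := by
    intro i hi
    obtain ⟨y, hyO, hy1, hy2⟩ := h7 i hi
    obtain ⟨l₀, hl₀⟩ := (h.T a).cov y hyO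
    have h8 : y ∈ segment ℝ e.1 e.2 := by
      refine seg_piece (h6 i hi.le).1 (h6 i hi.le).2.1 (h6 (i + 1) hi).1 (h6 (i + 1) hi).2.1 ?_
      rw [← hy2]
      exact (h.T a).self_mem_cc y
    exact ⟨y, hyO, hy1, hy2, l₀, hl₀, hat y h8 l₀ hl₀⟩
  -- tiles at the tube of a piece
  have hdeep : ∀ i < m', ∀ l, (P ((Te (h.T a)).H l) ∩ cthickening u (pce e t i)).Nonempty →
      P ((h.T a).H l) ⊆ ((Qb j).tr a).N ∧ sclT h a l + K1 ≤ k0 := by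
    rintro i hi l ⟨z, hz1, hz2⟩
    exact hL l ⟨z, hz1, cthickening_mono h25 _ (cthickening_subset_of_subset _ (hpc i hi) hz2)⟩
  have hNt : ∀ i < m', ∀ l, (P ((Te (h.T a)).H l) ∩ cthickening u (pce e t i)).Nonempty →
      l ∈ Nt (h.T a) (segment ℝ (e.1 + t i • (e.2 - e.1)) (e.1 + t (i + 1) • (e.2 - e.1)))
        (8 * κ⁻¹ / 5 / 2 ^ k0) := by
    rintro i hi l ⟨z, hz1, hz2⟩
    obtain ⟨y, hy, hzy⟩ := cth_pce hu0.le hz2
    rw [hΛ] at hzy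
    rw [Te_P] at hz1
    exact ⟨y, hy, w2 z, hz1, hzy⟩
  refine ⟨m', t, fun i => Finset.univ.filter fun k : s =>
    (P ((Te (h.T a)).H (k : h.ιT a)) ∩ cthickening u (pce e t i)).Nonempty, ?_⟩
  have hmem : ∀ i (k : s), k ∈ (Finset.univ.filter fun k : s =>
      (P ((Te (h.T a)).H (k : h.ιT a)) ∩ cthickening u (pce e t i)).Nonempty) ↔
      (P ((Te (h.T a)).H (k : h.ιT a)) ∩ cthickening u (pce e t i)).Nonempty := fun i k => by
    rw [Finset.mem_filter]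
    exact ⟨fun h => h.2, fun h => ⟨Finset.mem_univ _, h⟩⟩
  refine
    { ne := hne
      t0 := h3
      tm := h4
      gap := h5
      num := ?_
      cell := ?_
      card := ?_
      cov := ?_
      sml := ?_
      zn := ?_
      em := ?_ }
  · have h8 : (m' : ℝ) ≤ 1 / lam := by
      rw [le_div_iff₀ hlam]
      exact h2
    exact_mod_cast h8.trans hnp
  · intro i hi
    obtain ⟨y, hyO, hy1, hy2, l₀, hl₀, h8, h9⟩ := hpiece i hi
    obtain ⟨c, hc⟩ := exists_EgS hyO hy1 (hDp.sub l₀ ⟨h8, h9⟩) hl₀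
    refine ⟨c, ?_⟩
    rw [hc, hy2, ← image_pce, preimage_image_eq _ w2.injective]
  · intro i hi
    obtain ⟨y, hyO, hy1, hy2, l₀, hl₀, h8, h9⟩ := hpiece i hi
    obtain ⟨-, hf, hc, -, -⟩ := HL h hb ha j l₀ h8 (by omega) y hl₀
    rw [hy2] at hf hc
    refine le_trans ?_ hc
    rw [← Set.ncard_coe_finset, ← Set.ncard_image_of_injective _ Subtype.val_injective]
    refine Set.ncard_le_ncard ?_ hf
    rintro _ ⟨k, hk, rfl⟩
    exact hNt i hi _ ((hmem i k).1 (Finset.mem_coe.1 hk))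
  · intro i hi z hz
    obtain ⟨y, hyO, hy1, hy2, l₀, hl₀, h8, h9⟩ := hpiece i hi
    obtain ⟨-, -, -, hcov, -⟩ := HL h hb ha j l₀ h8 (by omega) y hl₀
    obtain ⟨y', hy', hzy⟩ := cth_pce hu0.le hz
    rw [hΛ] at hzy
    obtain ⟨l, -, hzl⟩ := hcov y' (by rw [hy2]; exact hy') (w2 z) hzy
    have hzl' : z ∈ P ((Te (h.T a)).H l) := by
      rw [Te_P]
      exact hzl
    have h10 : (P ((Te (h.T a)).H l) ∩ cthickening u (pce e t i)).Nonempty := ⟨z, hzl', hz⟩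
    have hls : l ∈ s := hDp.sub l (hdeep i hi l h10)
    exact mem_iUnion₂.2 ⟨⟨l, hls⟩, (hmem i ⟨l, hls⟩).2 h10, hzl'⟩
  · intro i hi k hk
    exact hDp.sm k (hdeep i hi k ((hmem i k).1 hk))
  · intro i hi k hk
    have hk' := (hmem i k).1 hk
    obtain ⟨y, hyO, hy1, hy2, l₀, hl₀, h8, h9⟩ := hpiece i hi
    obtain ⟨-, -, -, -, hlen⟩ := HL h hb ha j l₀ h8 (by omega) y hl₀
    have h10 : e.1 + t i • (e.2 - e.1) ≠ e.1 + t (i + 1) • (e.2 - e.1) := by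
      intro h0
      have h11 := smul_left_injective ℝ hne (add_left_cancel h0)
      exact (hlt i hi).ne h11
    obtain ⟨-, hdiam⟩ := hlen _ _ hy2 h10
    refine DeepS.zn hu0.le hDp hme (hdeep i hi k hk') (fun y₁ hy₁ z₁ hz₁ => ?_) fun l hl => ?_
    · refine (hdiam k (by rw [hy2]; exact hNt i hi k hk') y₁ hy₁ z₁ hz₁).trans ?_
      refine mul_le_mul_of_nonneg_left ?_ hV.le
      have h12 : e.1 + t (i + 1) • (e.2 - e.1) - (e.1 + t i • (e.2 - e.1)) =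
          (t (i + 1) - t i) • (e.2 - e.1) := by
        rw [sub_smul]
        abel
      rw [h12, norm_smul, Real.norm_eq_abs, abs_of_nonneg (by linarith [hlt i hi])]
      refine mul_le_of_le_one_left (norm_nonneg _) ?_
      linarith [(h6 (i + 1) hi).2.1, (h6 i hi.le).1]
    · obtain ⟨z, hz1, hz2⟩ := hl
      exact hL l ⟨z, hz1, cthickening_subset_of_subset _ (hpc i hi) hz2⟩
  · intro i hi k hk
    exact hDp.hM k (hdeep i hi k ((hmem i k).1 hk))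

end Crest.Agent.R096.Shp_432
end

-- ▼ part R096/Lnk3_726
section

/-!
Row 96 (S0127), helper726.  (D3) of 961's list: **the M-edges (segment in the core) are LONG**; an edge without
a point in the wall zone is LONG; the numbers.
-/

set_option autoImplicit false
set_option linter.unusedSectionVars false

open Set Metric Topology Filter

namespace Crest.Agent.R096.Lnk_726

open Crest.AnalysisR.VecCalc3 Crest.AnalysisR.Sobolev
open Crest.Agent.R096.Msh_715 Crest.Agent.R096.Mal_874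
open Crest.Agent.R096.Gsc_476 Crest.Agent.R096.Sht_726
open Crest.Agent.R096.Ca_855
open Crest.Agent.R096.Ca_855.MIn (BQ)
open Crest.Agent.R096.Pin_753 (Ed BlkP)
open Crest.Agent.R96.En10_199 (P3)
open Crest.Agent.R096.Sq_55 (w2)
open Crest.Agent.R096.She_227 (sE)

/-- the core is far from the wall -/
theorem not_NW_Kc {n : ℕ} [NeZero n] {E : Type*} [NormedAddCommGroup E] [NormedSpace ℝ E] (Q : CB E n)
    {k N : ℕ} (hk : Q.kc + N ≤ k) {y : E} (hy : y ∈ Q.Kc) : ¬ NW Q k N y := by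
  intro h
  have h1 := Q.near_infDist (y := y) (near_mono (by norm_num)
    (Q.near_of_bp (Crest.Agent.R096.Msb_432.Kc_sub_bp Q hy)))
  have h2 : (6 + 1) / 2 ^ Q.kc ≤ (6 : ℝ) * 2 ^ N / 2 ^ k := h1.trans h
  rw [div_le_div_iff₀ (by positivity) (by positivity)] at h2
  have h3 : (2 : ℝ) ^ Q.kc * 2 ^ N ≤ 2 ^ k := by
    rw [← pow_add]
    exact pow_le_pow_right₀ (by norm_num) hk
  have h4 : (0 : ℝ) < 2 ^ k := by positivity
  nlinarith

/-- the sets of 961's list: the deep tiles of the block `j` -/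
def DT {Om W : Set R3} {ρ₀ : R3 → ℝ} {J : Type} [Finite J] {Qb : J → CB R3 3} {k0 : ℕ} {σ : ℝ}
    (h : MIn Om W ρ₀ Qb k0 σ) (a : R3) (j : J) (K1 : ℕ) : Set (h.ιT a) :=
  {t | P ((h.T a).H t) ⊆ ((Qb j).tr a).N ∧ sclT h a t + K1 ≤ k0}

/-- **LONG edges**: all tiles at the zone of radius `cz / 2 ^ k0` are deep -/
def Lg {Om W : Set R3} {ρ₀ : R3 → ℝ} {J : Type} [Finite J] {Qb : J → CB R3 3} {k0 : ℕ} {σ : ℝ}
    (h : MIn Om W ρ₀ Qb k0 σ) (a : R3) (j : J) (K1 : ℕ) (r : ℝ) (e : R3 × R3) : Prop :=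
  ∀ t : h.ιT a, (P ((h.T a).H t) ∩ w2 '' cthickening r (sE e)).Nonempty → t ∈ DT h a j K1

/-- **an edge without a point in the wall zone is LONG** (`lnk1`), and the **M-edges are LONG** (D3) -/
theorem long_M {κ : ℝ} (hκ : 0 < κ) (K1 : ℕ) {cz : ℝ} (hcz : 0 ≤ cz) : ∃ N : ℕ,
    ∀ {Om W : Set R3} {ρ₀ : R3 → ℝ} {J : Type} [Finite J]
      {Qb : J → CB R3 3} {k0 Bs Nn : ℕ} {σ : ℝ} (h : MIn Om W ρ₀ Qb k0 σ) {a : R3}, ‖a‖ ≤ σ / 8 →
      ∀ (j : J), BQ κ Bs Nn (Qb j) k0 → (Qb j).kc + K1 < k0 →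
      ∀ {e : R3 × R3}, e ∈ Ed ((Qb j).tr a) k0 (h.hk j) →
      (¬ Lg h a j K1 (cz / 2 ^ k0) e → ∃ y ∈ segment ℝ e.1 e.2, NW ((Qb j).tr a) k0 N y) ∧
      ((Qb j).kc + N ≤ k0 → segment ℝ e.1 e.2 ⊆ ((Qb j).tr a).Kc →
        Lg h a j K1 (cz / 2 ^ k0) e) := by
  obtain ⟨N, hN⟩ := lnk1 hκ K1 hcz
  refine ⟨N, ?_⟩
  intro Om W ρ₀ J _ Qb k0 Bs Nn σ h a ha j hb hK e he
  have key : ¬ Lg h a j K1 (cz / 2 ^ k0) e → ∃ y ∈ segment ℝ e.1 e.2, NW ((Qb j).tr a) k0 N y := by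
    intro h1
    unfold Lg at h1
    push Not at h1
    obtain ⟨t, ht, htD⟩ := h1
    exact hN h ha j hb hK he t ht htD
  refine ⟨key, fun hkN hKc => ?_⟩
  by_contra hcon
  obtain ⟨y, hy, hNW⟩ := key hcon
  exact not_NW_Kc ((Qb j).tr a) hkN (hKc hy) hNW

/-- the numbers: the scale of the block against the outer scale -/
theorem kc_lt {κ s τ hh c1 θ0 θ1 : ℝ} {Bs Nn : ℕ} {z : R3} {Q : CB R3 3} {k0 : ℕ}
    (hb : BlkP κ s τ hh c1 θ0 θ1 Bs Nn z Q k0) (hs : 0 < s) {K : ℕ} (hθ : 2 ^ K * θ0 < c1) :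
    Q.kc + K < k0 := by
  have h1 := hb.cellL
  have h2 := hb.hi
  have h3 : (2 : ℝ) ^ K / 2 ^ k0 < 1 / 2 ^ Q.kc := by
    calc (2 : ℝ) ^ K / 2 ^ k0 = 2 ^ K * (1 / 2 ^ k0) := by ring
      _ ≤ 2 ^ K * (θ0 * s) := mul_le_mul_of_nonneg_left h2 (by positivity)
      _ = (2 ^ K * θ0) * s := by ring
      _ < c1 * s := mul_lt_mul_of_pos_right hθ hs
      _ ≤ _ := h1
  rw [div_lt_div_iff₀ (by positivity) (by positivity), one_mul, ← pow_add] at h3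
  have h4 := (pow_lt_pow_iff_right₀ (by norm_num : (1 : ℝ) < 2)).1 h3
  omega

/-- the radius of the zone -/
theorem zone_eq (κ M : ℝ) (k0 : ℕ) :
    25 * M ^ 4 * (4 * κ⁻¹ / (5 * 2 ^ k0)) = 20 * M ^ 4 * κ⁻¹ / 2 ^ k0 := by
  have : (0 : ℝ) < 2 ^ k0 := by positivity
  field_simp
  ring

end Crest.Agent.R096.Lnk_726
end

-- ▼ part R096/She3_227
section

/-!
Row 96 (S0127), helper227, COMPOSITE B, (C) of 961: **the SHORT edges of a block of 855's mesh `h.T a`**: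
the geometric inputs and the energies in the form of 82's `h2b_T`, from the outputs (cells), (E2) of 622's
`cob_T`.
-/

set_option autoImplicit false
set_option linter.style.longLine false
set_option linter.unusedSectionVars false

open MeasureTheory Set Filter Topology Metric
open scoped ENNReal NNReal

namespace Crest.Agent.R096.She_227

open Crest.AnalysisR.VecCalc3
open Crest.Agent.R096.Msh_715 (P I Tiling)
open Crest.Agent.R096.Mal_874 (CB)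
open Crest.Agent.R096.Sq_55 (E3 Sys Face Cell FaceOf w2 IsDp GG lint_w2)
open Crest.Agent.R096.Sqt_143 (sg)
open Crest.Agent.R096.Cob_622
open Crest.Agent.R096.Efi_296
open Crest.Agent.R096.Cbs_296
open Crest.Agent.R096.Br_695 (En)
open Crest.Agent.R096.Pin_753 (Ed)
open Crest.Agent.R096.Sht_726 (NW geo_short K_ge_near)
open Crest.Agent.R096.Ca_855
open Crest.Agent.R096.Ca_855.MIn (BQ)
open Crest.Agent.R096.Gsc_476
open Crest.Agent.R96.En10_199 (P3)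

noncomputable section

/-- the zone of radius `r` at the wall of the block `Q` (unit `1 / 2 ^ k0`, frame of the block) -/
def Zw (Q : CB R3 3) (k0 : ℕ) (r : ℝ) (S : Set R3) : Prop :=
  ∃ y ∈ S, ∃ z ∈ frontier Q.N, ‖Q.ψ y - Q.ψ z‖ ≤ r / 2 ^ k0

theorem exists_wall (Q : CB R3 3) (x : R3) :
    ∃ z ∈ frontier Q.N, infDist (Q.ψ x) Q.W = ‖Q.ψ x - Q.ψ z‖ := by
  have hWc : IsCompact Q.W := by
    have h2 : IsCompact (frontier Q.N) :=
      Q.isCompact_N.of_isClosed_subset isClosed_frontier Q.frontier_sub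
    have h3 : Q.W = Q.ψ '' frontier Q.N := by
      rw [Q.frontier_N, image_preimage_eq _ Q.ψ.surjective]
    rw [h3]
    exact h2.image Q.ψ.continuous
  obtain ⟨w, hw, e⟩ := hWc.exists_infDist_eq_dist Q.W_ne (Q.ψ x)
  refine ⟨Q.ψ.symm w, ?_, ?_⟩
  · rw [Q.frontier_N, mem_preimage, ContinuousLinearEquiv.apply_symm_apply]
    exact hw
  · rw [ContinuousLinearEquiv.apply_symm_apply, e, dist_eq_norm]

theorem infDist_le_wall (Q : CB R3 3) (x : R3) {z : R3} (hz : z ∈ frontier Q.N) :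
    infDist (Q.ψ x) Q.W ≤ ‖Q.ψ x - Q.ψ z‖ := by
  rw [← dist_eq_norm]
  refine infDist_le_dist_of_mem ?_
  rw [Q.frontier_N] at hz
  exact hz

theorem Zw_iff {Q : CB R3 3} {k0 : ℕ} {r : ℝ} {S : Set R3} :
    Zw Q k0 r S ↔ ∃ y ∈ S, infDist (Q.ψ y) Q.W ≤ r / 2 ^ k0 := by
  constructor
  · rintro ⟨y, hy, z, hz, h⟩
    exact ⟨y, hy, (infDist_le_wall Q y hz).trans h⟩
  · rintro ⟨y, hy, h⟩
    obtain ⟨z, hz, e⟩ := exists_wall Q y
    exact ⟨y, hy, z, hz, e ▸ h⟩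

/-- the points of the tube of an edge are near every point of the edge -/
theorem tube_near {e : R3 × R3} {u : ℝ} (hu : 0 ≤ u) {y z : R3} (hy : y ∈ segment ℝ e.1 e.2)
    (hz : z ∈ w2 '' cthickening u (sE e)) : ‖z - y‖ ≤ 2 * u + ‖e.2 - e.1‖ := by
  obtain ⟨y', hy', h1⟩ := Hb_82.exists_near_seg hu hz
  have h2 : ‖y' - y‖ ≤ ‖e.2 - e.1‖ := by
    rw [segment_eq_image'] at hy hy'
    obtain ⟨t, ht, rfl⟩ := hy
    obtain ⟨t', ht', rfl⟩ := hy'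
    simp only
    rw [add_sub_add_left_eq_sub, ← sub_smul, norm_smul]
    have h3 : ‖t' - t‖ ≤ 1 := by
      rw [Real.norm_eq_abs, abs_le]
      constructor <;> linarith [ht.1, ht.2, ht'.1, ht'.2]
    exact mul_le_of_le_one_left (norm_nonneg _) h3
  have e1 : z - y = (y' - y) - (y' - z) := by abel
  rw [e1]
  refine (norm_sub_le _ _).trans ?_
  linarith

/-- the tube of an edge which has a point `y` -/
theorem tube_zone {Q : CB R3 3} {κ : ℝ} (hκ : 0 < κ)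
    (cnd : ∀ v, κ / 4 * ‖v‖ ≤ ‖Q.ψ v‖ ∧ ‖Q.ψ v‖ ≤ 4 * κ⁻¹ * ‖v‖) {e : R3 × R3} {u : ℝ} (hu : 0 ≤ u)
    {y z : R3} (hy : y ∈ segment ℝ e.1 e.2) (hz : z ∈ w2 '' cthickening u (sE e)) :
    infDist (Q.ψ z) Q.W ≤ infDist (Q.ψ y) Q.W + 4 * κ⁻¹ * (2 * u + ‖e.2 - e.1‖) := by
  have h1 : infDist (Q.ψ z) Q.W ≤ infDist (Q.ψ y) Q.W + dist (Q.ψ z) (Q.ψ y) :=
    infDist_le_infDist_add_dist
  have h2 : dist (Q.ψ z) (Q.ψ y) ≤ 4 * κ⁻¹ * (2 * u + ‖e.2 - e.1‖) := by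
    rw [dist_eq_norm, ← map_sub]
    refine (cnd _).2.trans (mul_le_mul_of_nonneg_left (tube_near hu hy hz) ?_)
    have := inv_pos.2 hκ
    positivity
  linarith

/-- **SHORT energies, general form**: for every tile at the tube either (cells) can be used, or (E2) and
`N` closed 1-cells which cover `S` -/
theorem short_T' {Om : Set R3} {ι : Type*} {T : Tiling Om ι}
    {s : Finset ι} {pr : (Te T).Cell → Prop} {R : ι → ℝ≥0} {m : ι → ℝ≥0}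
    {J : s → ℝ≥0∞} {u p : ℝ} {K : ℝ≥0} {ε : ℝ≥0∞} {g : R3 → ℝ≥0∞}
    (hcell : ∀ k : s, (p < 2 ∨ ∀ y ∈ reps (Te T) s pr, (k : ι) ∉ (Te T).at_ y) →
        ∫⁻ x in P (T.H k), g x ≤ ENNReal.ofReal (CB p K (m k)) * J k + ε)
    (hE : ∀ (c : EgS (Te T) s) (k : s), SmallR R m u k →
        ∫⁻ x in P ((Te T).H k) ∩ cthickening u c.1.set, g (w2 x) ≤
        ENNReal.ofReal (CE p K (m k)) * J k + ε)
    {S : Set E3} (hO : w2 '' cthickening u S ⊆ Om)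
    (hs : ∀ t, (P (T.H t) ∩ w2 '' cthickening u S).Nonempty → t ∈ s)
    {N : ℕ} (hN : ∀ k : s, (P (T.H k) ∩ w2 '' cthickening u S).Nonempty →
      (p < 2 ∨ ∀ y ∈ reps (Te T) s pr, (k : ι) ∉ (Te T).at_ y) ∨
        (SmallR R m u k ∧ ∃ c : Fin N → EgS (Te T) s, S ⊆ ⋃ i, (c i).1.set))
    {C : ℝ≥0∞} (hC : ∀ k : s, (P (T.H k) ∩ w2 '' cthickening u S).Nonempty →
      ENNReal.ofReal (CB p K (m k)) + N * ENNReal.ofReal (CE p K (m k)) ≤ C) :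
    ∫⁻ y in w2 '' cthickening u S, g y ≤
      ∑ k ∈ Zc T s (w2 '' cthickening u S), (C * J k + (N + 1) * ε) := by
  refine int_Zc hO hs g _ fun k hk => ?_
  have hk' := mem_Zc.1 hk
  rcases hN k hk' with hA | ⟨hR, c, hc⟩
  · refine (lintegral_mono_set inter_subset_left).trans ((hcell k hA).trans ?_)
    refine add_le_add (mul_le_mul' (le_self_add.trans (hC k hk')) le_rfl) ?_
    calc ε = 1 * ε := (one_mul _).symm
      _ ≤ (N + 1) * ε := mul_le_mul' le_add_self le_rfl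
  · have h1 : P (T.H k) ∩ w2 '' cthickening u S ⊆
        ⋃ i, w2 '' (P ((Te T).H k) ∩ cthickening u (c i).1.set) := by
      rintro _ ⟨hy, x, hx, rfl⟩
      have h2 : x ∈ ⋃ i, cthickening u (c i).1.set := by
        rw [← cthickening_iUnion_fin]
        exact cthickening_subset_of_subset u hc hx
      obtain ⟨i, hi⟩ := mem_iUnion.1 h2
      refine mem_iUnion.2 ⟨i, mem_image_of_mem _ ⟨?_, hi⟩⟩
      rw [Te_P]
      exact hy
    calc ∫⁻ y in P (T.H k) ∩ w2 '' cthickening u S, g y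
        ≤ ∫⁻ y in ⋃ i, w2 '' (P ((Te T).H k) ∩ cthickening u (c i).1.set), g y :=
          lintegral_mono_set h1
      _ ≤ ∑' i, ∫⁻ y in w2 '' (P ((Te T).H k) ∩ cthickening u (c i).1.set), g y :=
          lintegral_iUnion_le _ _
      _ = ∑ i, ∫⁻ y in w2 '' (P ((Te T).H k) ∩ cthickening u (c i).1.set), g y := tsum_fintype _
      _ ≤ ∑ _i : Fin N, (ENNReal.ofReal (CE p K (m k)) * J k + ε) := by
          refine Finset.sum_le_sum fun i _ => ?_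
          rw [← int_w2]
          exact hE (c i) k hR
      _ = N * ENNReal.ofReal (CE p K (m k)) * J k + N * ε := by
          rw [Finset.sum_const, Finset.card_univ, Fintype.card_fin, nsmul_eq_mul, mul_add,
            mul_assoc]
      _ ≤ C * J k + (N + 1) * ε := by
          refine add_le_add (mul_le_mul' (le_add_self.trans (hC k hk')) le_rfl) ?_
          exact mul_le_mul' le_self_add le_rfl

/-! ### the blocks of 855's mesh -/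

/-- the SHORT edges: the edges with a point in the zone of width `N` -/
def ShE (Q : CB R3 3) (k0 N : ℕ) : Set (R3 × R3) :=
  {e | ∃ y ∈ segment ℝ e.1 e.2, NW Q k0 N y}

variable {Om W : Set R3} {ρ₀ : R3 → ℝ} {J : Type} [Finite J] {Qb : J → CB R3 3} {k0 : ℕ} {σ : ℝ}

open Classical in
/-- the tiles of `s` in the zone of radius `r` at the wall of the block number `j` -/
def Kz (h : MIn Om W ρ₀ Qb k0 σ) (a : R3) (j : J) (r : ℝ) (s : Finset (h.ιT a)) : Finset s :=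
  Finset.univ.filter fun k => Zw ((Qb j).tr a) k0 r (P ((h.T a).H k))

theorem mem_Kz {h : MIn Om W ρ₀ Qb k0 σ} {a : R3} {j : J} {r : ℝ} {s : Finset (h.ιT a)} {k : s} :
    k ∈ Kz h a j r s ↔ Zw ((Qb j).tr a) k0 r (P ((h.T a).H k)) := by
  classical
  unfold Kz
  rw [Finset.mem_filter]
  exact ⟨fun h => h.2, fun h => ⟨Finset.mem_univ _, h⟩⟩

/-- size of the tiles in the zone (816's `diam2`) -/
theorem diam_zone (h : MIn Om W ρ₀ Qb k0 σ) {κ : ℝ} (hκ : 0 < κ) (hκ1 : κ ≤ 1) {Bs Nn : ℕ}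
    (hb : ∀ j, BQ κ Bs Nn (Qb j) k0) {r : ℝ} (hr : 7 ≤ r)
    (hsm : 4 * κ⁻¹ * (r / 2 ^ k0) < σ / 8) {a : R3} (ha : ‖a‖ ≤ σ / 8) {j : J} {i : h.ιT a}
    (hi : Zw ((Qb j).tr a) k0 r (P ((h.T a).H i))) :
    ∀ y ∈ P ((h.T a).H i), ∀ y' ∈ P ((h.T a).H i),
      ‖y - y'‖ ≤ 4 * κ⁻¹ * max 1 (Bs:ℝ) * r / 2 ^ k0 := by
  obtain ⟨y, hy, hy'⟩ := Zw_iff.1 hi
  have h1 : Rmt_816.Cl2 h r a i := by
    refine ⟨j, y, hy, ?_⟩
    show infDist ((Qb j).ψ y) (h.M.Bk (fun _ => h.cl a) j).W ≤ r / 2 ^ k0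
    rw [Bk_eq h ha j]
    exact hy'
  have h2 := Rmt_816.diam2 h hκ hκ1 hb hr hsm h1
  intro z hz z' hz'
  have h3 := h2 z hz z' hz'
  rwa [← mul_div_assoc] at h3

/-- a tile of the block with a point in the zone of width `N` has scale at least `k0 - N - 1` -/
theorem scl_zone (h : MIn Om W ρ₀ Qb k0 σ) {a : R3} (ha : ‖a‖ ≤ σ / 8) {j : J} {t : h.ιT a}
    (hN : P ((h.T a).H t) ⊆ ((Qb j).tr a).N) {N : ℕ} {z : R3} (hz : z ∈ P ((h.T a).H t))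
    (hw : NW ((Qb j).tr a) k0 N z) : k0 ≤ sclT h a t + 1 + N := by
  have h1 := K_ge_near ((Qb j).tr a) (h.hk j) hw
  have h2 := (scl_K h.M h.sc (0 + h.M.φ (h.cl a)) (h.adm a) (j := j) (t := t)
    (by rw [Bk_eq h ha j]; exact hN) hz).2
  have h3 : ∀ (Q' : CB R3 3) (hk' : Q'.kc ≤ k0), h.M.Bk (fun _ => h.cl a) j = Q' →
      Msh_810.K ((h.M.Bk (fun _ => h.cl a) j).D k0 (h.sc.kc j)) ((Qb j).ψ z) =
        Msh_810.K (Q'.D k0 hk') ((Qb j).ψ z) := by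
    rintro _ _ rfl
    rfl
  have h4 := h3 ((Qb j).tr a) (h.hk j) (Bk_eq h ha j)
  have h5 : Msh_810.K ((h.M.Bk (fun _ => h.cl a) j).D k0 (h.sc.kc j)) ((Qb j).ψ z) ≤
      sclT h a t + 1 := h2
  have h6 : k0 ≤ Msh_810.K (((Qb j).tr a).D k0 (h.hk j)) ((Qb j).ψ z) + N := h1
  omega

/-- the segment of an element of `Ed` lies in the block -/
theorem seg_sub_N {Q : CB R3 3} {k : ℕ} {hk : Q.kc ≤ k} {e : R3 × R3} (he : e ∈ Ed Q k hk) :
    segment ℝ e.1 e.2 ⊆ Q.N := by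
  obtain ⟨x, h1, h2, h3⟩ := he
  exact h3

/-- **the SHORT edges of a block of `h.T a`**: `N' = N'(Bs)` pieces, `K₁ = K₁(κ, Bs)` (depth), `r = r(κ, Bs, N)`
(zone).  (1) the tubes lie in `Om`; (2) the tiles at the tube of a SHORT edge lie in the zone; (3) size of the
tiles in the zone; (4) **energies**, from (cells) and (E2) of `cob_T`. -/
theorem exists_short (Bs : ℕ) : ∃ N' : ℕ, ∀ {κ : ℝ}, 0 < κ → κ ≤ 1 → ∃ K₁ : ℕ, ∀ N : ℕ,
    ∃ r : ℝ, 7 ≤ r ∧ ∀ {Om W : Set R3} {ρ₀ : R3 → ℝ} {J : Type} [Finite J] {Qb : J → CB R3 3}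
      {k0 Nn : ℕ} {σ : ℝ} (h : MIn Om W ρ₀ Qb k0 σ), (∀ j, BQ κ Bs Nn (Qb j) k0) →
      4 * κ⁻¹ * (r / 2 ^ k0) < σ / 8 → ∀ {a : R3}, ‖a‖ ≤ σ / 8 → ∀ (j : J) {u : ℝ},
      u = 4 * κ⁻¹ / (5 * 2 ^ k0) →
      (∀ e ∈ Ed ((Qb j).tr a) k0 (h.hk j), w2 '' cthickening u (sE e) ⊆ Om) ∧
      (∀ e ∈ Ed ((Qb j).tr a) k0 (h.hk j), e ∈ ShE ((Qb j).tr a) k0 N →
        ∀ t, (P ((h.T a).H t) ∩ w2 '' cthickening u (sE e)).Nonempty →
          Zw ((Qb j).tr a) k0 r (P ((h.T a).H t))) ∧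
      (∀ t, Zw ((Qb j).tr a) k0 r (P ((h.T a).H t)) →
        ∀ y ∈ P ((h.T a).H t), ∀ y' ∈ P ((h.T a).H t),
          ‖y - y'‖ ≤ 4 * κ⁻¹ * max 1 (Bs:ℝ) * r / 2 ^ k0) ∧
      ∀ {s : Finset (h.ιT a)} {pr : (Te (h.T a)).Cell → Prop} {R m : h.ιT a → ℝ≥0}
        {D : s → ℝ≥0∞} {p : ℝ} {K : ℝ≥0} {ε : ℝ≥0∞} {g : R3 → ℝ≥0∞},
        (∀ k : s, (p < 2 ∨ ∀ y ∈ reps (Te (h.T a)) s pr, (k : h.ιT a) ∉ (Te (h.T a)).at_ y) →
          ∫⁻ x in P ((h.T a).H k), g x ≤ ENNReal.ofReal (CB p K (m k)) * D k + ε) →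
        (∀ (c : EgS (Te (h.T a)) s) (k : s), SmallR R m u k →
          ∫⁻ x in P ((Te (h.T a)).H k) ∩ cthickening u c.1.set, g (w2 x) ≤
          ENNReal.ofReal (CE p K (m k)) * D k + ε) →
        (∀ t, (∃ y ∈ P ((h.T a).H t), ∃ z ∈ ((Qb j).tr a).N, ‖y - z‖ ≤ 2 * u) → t ∈ s) →
        (∀ k : s, (∃ y ∈ reps (Te (h.T a)) s pr, (k : h.ιT a) ∈ (Te (h.T a)).at_ y) → p < 2 ∨
          (SmallR R m u k ∧ (∃ l, P ((h.T a).H k) ⊆ ((Qb l).tr a).N) ∧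
            sclT h a k + K₁ ≤ k0)) →
        ∀ {C : ℝ≥0∞}, (∀ k ∈ Kz h a j r s,
          ENNReal.ofReal (CB p K (m k)) + N' * ENNReal.ofReal (CE p K (m k)) ≤ C) →
        ∀ e ∈ Ed ((Qb j).tr a) k0 (h.hk j), e ∈ ShE ((Qb j).tr a) k0 N →
          ∫⁻ x in cthickening u (sE e), g (w2 x) ≤
            ∑ k ∈ Zc (h.T a) s (w2 '' cthickening u (sE e)), (C * D k + (N' + 1) * ε) := by
  obtain ⟨lam, hlam, hlam1, Hc⟩ := Shp_432.exists_chain_T Bs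
  refine ⟨⌊1 / lam⌋₊, ?_⟩
  intro κ hκ hκ1
  have hki : 0 < κ⁻¹ := inv_pos.2 hκ
  have hki1 : 1 ≤ κ⁻¹ := (one_le_inv₀ hκ).2 hκ1
  obtain ⟨Λ0, m0, hΛ0, g0⟩ := geo_short Bs hκ 0 (ρ := 0) le_rfl
  set r0 : ℝ := 4 * κ⁻¹ * (2 * (4 * κ⁻¹ / 5) + Λ0) with hr0
  obtain ⟨N1, hN1⟩ := pow_unbounded_of_one_lt r0 (by norm_num : (1:ℝ) < 2)
  refine ⟨N1 + 2, ?_⟩
  intro N
  obtain ⟨Λ, m1, hΛ, g1⟩ := geo_short Bs hκ N (ρ := 0) le_rfl
  set r : ℝ := max 7 (6 * 2 ^ N + 4 * κ⁻¹ * (2 * (4 * κ⁻¹ / 5) + Λ)) with hr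
  have hr7 : 7 ≤ r := le_max_left _ _
  refine ⟨r, hr7, ?_⟩
  intro Om W ρ₀ J _ Qb k0 Nn σ h hb hsm a ha j u hu
  have hp : (0:ℝ) < 2 ^ k0 := by positivity
  have hu0 : 0 ≤ u := by rw [hu]; positivity
  have hu2 : 2 * u = 2 * (4 * κ⁻¹ / 5) / 2 ^ k0 := by rw [hu]; field_simp
  have hσ := h.σ0
  have hu8 : 2 * u < σ / 8 := by
    refine lt_of_le_of_lt ?_ hsm
    have e1 : 4 * κ⁻¹ * (r / 2 ^ k0) = (4 * κ⁻¹ * r) / 2 ^ k0 := by ring
    rw [hu2, e1]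
    refine div_le_div_of_nonneg_right ?_ hp.le
    nlinarith
  have cnd : ∀ v, κ / 4 * ‖v‖ ≤ ‖((Qb j).tr a).ψ v‖ ∧ ‖((Qb j).tr a).ψ v‖ ≤ 4 * κ⁻¹ * ‖v‖ :=
    (hb j).cnd
  have hNW : ∀ y ∈ ((Qb j).tr a).N, y - a ∈ W := fun y hy =>
    h.hN j ((CB.mem_N_tr (Qb j) a y).1 hy)
  -- length
  have hlen : ∀ {Λ' : ℝ} {N₀ : ℕ}, (∀ e ∈ Ed ((Qb j).tr a) k0 (h.hk j), ∀ y ∈ segment ℝ e.1 e.2,
      NW ((Qb j).tr a) k0 N₀ y → 2 ^ k0 * ‖e.2 - e.1‖ ≤ Λ') → ∀ e ∈ Ed ((Qb j).tr a) k0 (h.hk j),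
      ∀ y ∈ segment ℝ e.1 e.2, NW ((Qb j).tr a) k0 N₀ y → ∀ z ∈ w2 '' cthickening u (sE e),
      infDist (((Qb j).tr a).ψ z) ((Qb j).tr a).W ≤ infDist (((Qb j).tr a).ψ y) ((Qb j).tr a).W +
        4 * κ⁻¹ * (2 * (4 * κ⁻¹ / 5) + Λ') / 2 ^ k0 := by
    intro Λ' N₀ hg e he y hy hw z hz
    have h1 := tube_zone hκ cnd hu0 hy hz
    have h2 := hg e he y hy hw
    have h3 : ‖e.2 - e.1‖ ≤ Λ' / 2 ^ k0 := by
      rw [le_div_iff₀ hp]; linarith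
    have h4 : 4 * κ⁻¹ * (2 * u + ‖e.2 - e.1‖) ≤ 4 * κ⁻¹ * (2 * (4 * κ⁻¹ / 5) + Λ') / 2 ^ k0 := by
      rw [mul_div_assoc, add_div, ← hu2]
      exact mul_le_mul_of_nonneg_left (by linarith) (by positivity)
    linarith
  have G1 := (g1 ((Qb j).tr a) k0 (h.hk j) cnd (hb j).hB (hb j).hR).1
  have G0 := (g0 ((Qb j).tr a) k0 (h.hk j) cnd (hb j).hB (hb j).hR).1
  -- (2)
  have hzone : ∀ e ∈ Ed ((Qb j).tr a) k0 (h.hk j), e ∈ ShE ((Qb j).tr a) k0 N →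
      ∀ t, (P ((h.T a).H t) ∩ w2 '' cthickening u (sE e)).Nonempty →
        Zw ((Qb j).tr a) k0 r (P ((h.T a).H t)) := by
    rintro e he ⟨y, hy, hw⟩ t ⟨z, hz, hz'⟩
    refine Zw_iff.2 ⟨z, hz, ?_⟩
    have h1 := hlen G1 e he y hy hw z hz'
    have h2 : infDist (((Qb j).tr a).ψ y) ((Qb j).tr a).W ≤ 6 * 2 ^ N / 2 ^ k0 := hw
    have h3 : 6 * 2 ^ N / 2 ^ k0 + 4 * κ⁻¹ * (2 * (4 * κ⁻¹ / 5) + Λ) / 2 ^ k0 ≤ r / 2 ^ k0 := by
      rw [← add_div]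
      exact div_le_div_of_nonneg_right (le_max_right _ _) hp.le
    linarith
  refine ⟨?_, hzone, fun t ht => diam_zone h hκ hκ1 hb hr7 hsm ha ht, ?_⟩
  · -- (1)
    intro e he z hz
    obtain ⟨y, hy, hyz⟩ := Hb_82.exists_near_seg hu0 hz
    refine h.mem_Om_of (hNW y (seg_sub_N he hy)) ?_
    have h1 : dist (y - a) z ≤ dist (y - a) y + dist y z := dist_triangle _ _ _
    have h2 : dist (y - a) y = ‖a‖ := by rw [dist_comm, dist_eq_norm, sub_sub_cancel]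
    have h3 : dist y z = ‖y - z‖ := dist_eq_norm _ _
    linarith
  -- (4)
  intro s pr R m D p K ε g hcell hE hs hd C hC e he heS
  have hO : w2 '' cthickening u (sE e) ⊆ Om := by
    intro z hz
    obtain ⟨y, hy, hyz⟩ := Hb_82.exists_near_seg hu0 hz
    refine h.mem_Om_of (hNW y (seg_sub_N he hy)) ?_
    have h1 : dist (y - a) z ≤ dist (y - a) y + dist y z := dist_triangle _ _ _
    have h2 : dist (y - a) y = ‖a‖ := by rw [dist_comm, dist_eq_norm, sub_sub_cancel]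
    have h3 : dist y z = ‖y - z‖ := dist_eq_norm _ _
    linarith
  rw [int_w2]
  refine short_T' (T := h.T a) hcell hE hO ?_ ?_ ?_
  · rintro t ⟨z, hz, hz'⟩
    obtain ⟨y, hy, hyz⟩ := Hb_82.exists_near_seg hu0 hz'
    exact hs t ⟨z, hz, y, seg_sub_N he hy, by rwa [norm_sub_rev]⟩
  · intro k hk
    by_cases hA : p < 2 ∨ ∀ y ∈ reps (Te (h.T a)) s pr, (k : h.ιT a) ∉ (Te (h.T a)).at_ y
    · exact Or.inl hA
    right
    push Not at hA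
    obtain ⟨hp2, y1, hy1, hky1⟩ := hA
    rcases hd k ⟨y1, hy1, hky1⟩ with hbad | ⟨hR, ⟨l, hl⟩, hdeep⟩
    · exact absurd hbad (not_lt.2 hp2)
    refine ⟨hR, ?_⟩
    obtain ⟨z, hz, hz'⟩ := hk
    obtain ⟨y, hy, hyz⟩ := Hb_82.exists_near_seg hu0 hz'
    obtain rfl : l = j := by
      by_contra hne
      have h1 := h.sep l j hne (z - a) ((CB.mem_N_tr (Qb l) a z).1 (hl hz)) (y - a)
        ((CB.mem_N_tr (Qb j) a y).1 (seg_sub_N he hy))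
      rw [dist_sub_right, dist_comm, dist_eq_norm] at h1
      linarith
    have hdis : Disjoint (segment ℝ e.1 e.2) (frontier ((Qb l).tr a).N) := by
      rw [Set.disjoint_left]
      intro y0 hy0 hf
      have h0 : infDist (((Qb l).tr a).ψ y0) ((Qb l).tr a).W = 0 := by
        refine le_antisymm ?_ infDist_nonneg
        refine (infDist_le_wall ((Qb l).tr a) y0 hf).trans (le_of_eq ?_)
        rw [sub_self, norm_zero]
      have hw0 : NW ((Qb l).tr a) k0 0 y0 := by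
        show infDist (((Qb l).tr a).ψ y0) ((Qb l).tr a).W ≤ 6 * 2 ^ 0 / 2 ^ k0
        rw [h0]; positivity
      have h1 := hlen G0 e he y0 hy0 hw0 z hz'
      have hw1 : NW ((Qb l).tr a) k0 N1 z := by
        show infDist (((Qb l).tr a).ψ z) ((Qb l).tr a).W ≤ 6 * 2 ^ N1 / 2 ^ k0
        rw [h0, zero_add] at h1
        refine h1.trans (div_le_div_of_nonneg_right ?_ hp.le)
        have : (0:ℝ) < 2 ^ N1 := by positivity
        linarith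
      have h2 := scl_zone h ha hl hz hw1
      omega
    obtain ⟨n, t, c1, c2, c3, c4, c5, c6, c7, c8⟩ := Hc hκ hκ1 h hb ha l he hdis
    refine cover_chain c1 c3 c4 c7 ?_ (fun i hi => ⟨(c6 i hi).1, (c6 i hi).2.1⟩) ?_
    · rintro k' ⟨x, hx, hx'⟩
      refine hs k' ⟨x, hx, x, seg_sub_N he hx', ?_⟩
      rw [sub_self, norm_zero]
      positivity
    · refine Nat.le_floor ?_
      rw [le_div_iff₀ hlam]
      exact c2
  · intro k hk
    exact hC k (mem_Kz.2 (hzone e he heS k hk))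

end

end Crest.Agent.R096.She_227
end

-- ▼ part R096/She4_227
section

/-!
Row 96 (S0127), helper227, COMPOSITE B, (O1)(C): **`h2b_block`**: clause (2b) of `InP` for one block of 855's
mesh `h.T a`, from the LONG edges (line form) and the outputs (cells), (E2) of 622's `cob_T`
(82's `h2b_T` with the SHORT edges inserted).
-/

set_option autoImplicit false
set_option linter.style.longLine false
set_option linter.unusedSectionVars false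

open MeasureTheory Set Filter Topology Metric
open scoped ENNReal NNReal

namespace Crest.Agent.R096.She_227

open Crest.AnalysisR.VecCalc3 Crest.AnalysisR.Sobolev
open Crest.Agent.R096.Msh_715 (P I Tiling)
open Crest.Agent.R096.Mal_874 (CB)
open Crest.Agent.R096.Sk_962 (SH)
open Crest.Agent.R096.Sq_55 (E3 Sys w2)
open Crest.Agent.R096.Cob_622
open Crest.Agent.R096.Efi_296
open Crest.Agent.R096.Cbs_296
open Crest.Agent.R096.Br_695 (En)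
open Crest.Agent.R096.Pin_753 (Ed Tw)
open Crest.Agent.R096.Ca_855
open Crest.Agent.R096.Ca_855.MIn (BQ)
open Crest.Agent.R096.Gsc_476
open Crest.Agent.R96.Lu_538 (Gmat)

noncomputable section

/-- the hypothesis on the squeezed 2-cells, from 622's choice of `pr` -/
theorem hd_of {Om W : Set R3} {ρ₀ : R3 → ℝ} {J : Type} [Finite J] {Qb : J → CB R3 3} {k0 : ℕ}
    {σ : ℝ} (h : MIn Om W ρ₀ Qb k0 σ) {a : R3} {s : Finset (h.ιT a)}
    {pr : (Te (h.T a)).Cell → Prop} {R m : h.ιT a → ℝ≥0} {u p : ℝ} {K₁ K1 : ℕ} (hK : K₁ ≤ K1)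
    {kk : J → Fin 3 → ℤ} {Q : Finset (Fin 3 → ℤ)}
    (hpr : ∀ c : (Te (h.T a)).Cell, pr c →
      p < 2 ∨ ∀ k ∈ (Te (h.T a)).at_ c.pt, k ∈ deepT h a kk Q K1)
    (hsm : ∀ k ∈ deepT h a kk Q K1, SmallR R m u k) :
    ∀ k : s, (∃ y ∈ reps (Te (h.T a)) s pr, (k : h.ιT a) ∈ (Te (h.T a)).at_ y) → p < 2 ∨
      (SmallR R m u k ∧ (∃ l, P ((h.T a).H k) ⊆ ((Qb l).tr a).N) ∧ sclT h a k + K₁ ≤ k0) := by
  rintro k ⟨y, hy, hk⟩
  obtain ⟨c, -, hc, rfl⟩ := mem_reps.1 hy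
  rcases hpr c hc with h1 | h1
  · exact Or.inl h1
  · right
    have h2 := h1 _ hk
    obtain ⟨l, -, hl, hs⟩ := id h2
    exact ⟨hsm _ h2, ⟨l, hl⟩, by omega⟩


end

end Crest.Agent.R096.She_227
end

-- ▼ part R096/Sqt19_143
section

/-!
Row 96 (S0127), helper143.  COMPOSITE B: **the transfer** of the bounds along the edges from the family of `Pos`
(753's `Pas3`, 538's `MeshG`, `PerfG.edgeD`) to the cells of the mesh in the good cube (any family `x' v'` in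
which the 1-cells of the tiling are segments, e.g. 753's `AllC`).
-/

set_option autoImplicit false
set_option linter.unusedSectionVars false
set_option linter.style.longLine false

open Set Metric Filter Topology MeasureTheory
open scoped ENNReal NNReal

namespace Crest.Agent.R096.Sqt_143

open Crest.AnalysisR.VecCalc3
open Crest.Agent.R096.Msh_715 (P I Tiling)
open Crest.Agent.R096.Sq_55 (E3 Sys w2)
open Crest.Agent.R096.Efi_296
open Crest.Agent.R096.Cbs_296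
open Crest.Agent.R096.Pin_753
open Crest.Agent.R096.Pas_753
open Crest.Agent.R96.Coarse_538
open Crest.Agent.R96.Intr_538
open Crest.Agent.R96.Gdt_538 (MeshG)
open Crest.Agent.R96.Lu_538 (Gmat)

noncomputable section

/-- the integral along a 1-cell of the tiling does not depend on the family in which it is a segment -/
theorem edge_transfer {OmR W : Set R3} {ι κi κe : Type*} {T : Tiling OmR ι} {x v : κi → R3}
    {x' v' : κe → R3} {a : R3} (hM : MeshG T x v a W) {F : R3 → ℝ≥0∞} {A : ℝ≥0∞}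
    (hD : ∀ e, ∫⁻ σ in Ioc (0:ℝ) 1, F (a + x e + σ • v e) ≤ A) {c : (Te T).Cell}
    (hc : c.dim = 1) {i : κe} (hi : w2 '' c.set = seg x' v' a i) (hW : seg x' v' a i ⊆ W) :
    ∫⁻ σ in Ioc (0:ℝ) 1, F (a + x' i + σ • v' i) ≤ A := by
  obtain ⟨h1, h2, h3⟩ := image_set T c
  obtain ⟨e, he⟩ := hM.cell _ h2 (h3.trans hc) (by rw [← h1, hi]; exact hW)
  have h4 : segment ℝ (a + x' i) (a + x' i + v' i) = segment ℝ (a + x e) (a + x e + v e) := by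
    rw [← Crest.Agent.R96.Gdt_538.seg_eq_segment x' v' a i,
      ← Crest.Agent.R96.Gdt_538.seg_eq_segment x v a e, ← he, ← h1, hi]
  rw [(Crest.Agent.R96.Els_538.seg_int h4 F).2]
  exact hD e

/-- **the transfer**: the weak hypothesis `hg` of `Jt_near_loc`, `Jt_en_loc`, `line_longE` -/
theorem hg_of_perf {OmR W : Set R3} {ι κi κe : Type*} {T : Tiling OmR ι} {x v : κi → R3}
    {x' v' : κe → R3} {a : R3} (hM : MeshG T x v a W) {p κ τ σ₀ η t s : ℝ} {f : R3 → R3}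
    {D : R3 → R3 →L[ℝ] R3} {z b : R3} {L : R3 →L[ℝ] R3}
    (hP : PerfG x v p OmR f D κ τ σ₀ η t s a z b L) (hW : cel Cb z s ⊆ W) {s' : Finset ι}
    {me : EgS (Te T) s' → κe} (hme : ∀ c, w2 '' c.1.set = seg x' v' a (me c)) :
    ∀ c : EgS (Te T) s', seg x' v' a (me c) ⊆ cel Cb z s →
      ∫⁻ σ in Ioc (0:ℝ) 1, (cel Cb z s).indicator (fun y => ‖D y - L‖ₑ ^ p)
        (a + x' (me c) + σ • v' (me c)) ≤ ENNReal.ofReal (η ^ p) := fun c hc =>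
  edge_transfer hM hP.edgeD c.2.1 (hme c) (hc.trans hW)

/-- the transfer from 753's `Pos` -/
theorem hg_of_pos {p : ℝ} {Om La W : Set R3} {f : R3 → R3} {G : Fin 3 → R3 → R3} {ι : Type}
    {T : Tiling Om ι} {κi : Type} {x v : κi → R3} {κf : Type} {xf : κf → R3} {ef : κf → Fin 2 → R3}
    {Pf : κf → Set (ℝ × ℝ)} {κ τ σ₀ η₁ t s d σr : ℝ} {z b : (Fin 3 → ℤ) → R3}
    {L : (Fin 3 → ℤ) → R3 →L[ℝ] R3} {Q : Finset (Fin 3 → ℤ)} {a : R3}
    (hp : Pos p Om La W f G T x v xf ef Pf κ τ σ₀ η₁ t s d σr z b L Q a) {k : Fin 3 → ℤ} (hk : k ∈ Q)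
    (hW : cel Cb (z k) s ⊆ W) {κe : Type*} {x' v' : κe → R3} {s' : Finset ι}
    {me : EgS (Te T) s' → κe} (hme : ∀ c, w2 '' c.1.set = seg x' v' a (me c)) :
    ∀ c : EgS (Te T) s', seg x' v' a (me c) ⊆ cel Cb (z k) s →
      ∫⁻ σ in Ioc (0:ℝ) 1, (cel Cb (z k) s).indicator (fun y => ‖Gmat G y - L k‖ₑ ^ p)
        (a + x' (me c) + σ • v' (me c)) ≤ ENNReal.ofReal (η₁ ^ p) :=
  hg_of_perf hp.mesh (hp.perf k hk) hW hme

end

end Crest.Agent.R096.Sqt_143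
end

-- ▼ part R96/Gam1_538
section

set_option autoImplicit false
set_option linter.unusedSectionVars false
set_option maxHeartbeats 400000

open Set Metric Filter Topology
open scoped NNReal

namespace Crest.Agent.R96.Gam_538

open Crest.Agent.R096.Sq_55 Crest.Agent.R096.Sqt_143
open Crest.AnalysisR.VecCalc3 (R3)

/-- a closed cell is the closure of its open part -/
theorem Cell.sub_closure (C : Cell) : C.P ⊆ closure C.U := by
  intro x hx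
  have h1 : ContinuousOn C.e' (closure (ball (0 : E3) 1)) := by
    rw [closure_ball (0 : E3) one_ne_zero]
    exact C.cht.lip'.continuousOn
  have h2 : C.e x ∈ closure (ball (0 : E3) 1) := by
    rw [closure_ball (0 : E3) one_ne_zero]
    exact C.cht.maps hx
  have h3 := h1.image_closure ⟨C.e x, h2, rfl⟩
  rw [C.cht.inv x hx] at h3
  refine closure_mono ?_ h3
  rintro _ ⟨z, hz, rfl⟩
  exact (C.cht.mem' (ball_subset_closedBall hz)).2 hz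

variable {κ ι : Type*} [Fintype κ] [Fintype ι] {X : Sys κ ι} {p δ : ℝ}

/-- where `chi` maps the points near a point `y0` of the closed cells, with uniform constants -/
theorem chi_near (h : X.Adm p δ) (N₁ N₂ : ℕ) {k : κ} {x y0 : E3} {u m : ℝ} (hm1 : 1 ≤ m)
    (hx : x ∈ (X.C k).U) (hy : y0 ∉ (X.C k).U) (hyV : ∀ j, y0 ∉ (X.F j).V) (hxy : ‖x - y0‖ ≤ u)
    (hmk : (X.m k : ℝ) ≤ m) (hu : 4 * m * u ≤ (X.C k).R)
    (huF : ∀ j, ((X.F j).V ∩ (X.C k).P).Nonempty → 40 * m ^ 3 * u ≤ (X.F j).ρ) :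
    ‖Sys.chi h (N₁+1) (N₂+1) x - x‖ ≤ 24 * m ^ 4 * u ∧
    ∃ y, (y ∈ X.Z ∨ ∃ j, y ∈ (X.F j).rim) ∧ ‖Sys.chi h (N₁+1) (N₂+1) x - y‖ ≤ m * δ := by
  have hmk1 := Sys.m_one (X := X) k
  have hu0 : 0 ≤ u := (norm_nonneg _).trans hxy
  have hR := (X.C k).R_pos
  have hδ := h.d0
  have hmk0 : (0:ℝ) ≤ X.m k := by linarith
  have hu' : 4 * (X.m k : ℝ) * u ≤ (X.C k).R :=
    (mul_le_mul_of_nonneg_right (by linarith) hu0).trans hu
  have h3 : (X.m k : ℝ) ^ 3 ≤ m ^ 3 := pow_le_pow_left₀ hmk0 hmk 3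
  have h4 : (X.m k : ℝ) ^ 4 ≤ m ^ 4 := pow_le_pow_left₀ hmk0 hmk 4
  have huF' : ∀ j, ((X.F j).V ∩ (X.C k).P).Nonempty → 40 * (X.m k : ℝ) ^ 3 * u ≤ (X.F j).ρ :=
    fun j hj => (mul_le_mul_of_nonneg_right (by linarith) hu0).trans (huF j hj)
  obtain ⟨-, a1, a2, a3⟩ := chi_pt h N₁ N₂ hx hy hyV hxy hu' huF'
  refine ⟨a1.trans (mul_le_mul_of_nonneg_right (by linarith) hu0), ?_⟩
  -- the numbers
  have hm0 : 0 < (X.m k : ℝ) := by linarith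
  have c1 : δ / (X.C k).R * u * (4 * X.m k) ≤ δ := by
    have e1 : δ / (X.C k).R * u * (4 * X.m k) = δ * ((4 * X.m k * u) / (X.C k).R) := by
      field_simp
    rw [e1]
    have : (4 * (X.m k : ℝ) * u) / (X.C k).R ≤ 1 := (div_le_one hR).2 hu'
    exact (mul_le_mul_of_nonneg_left this hδ.le).trans (le_of_eq (mul_one _))
  have c0 : 0 ≤ δ / (X.C k).R * u := by positivity
  by_cases hV : ∀ j, Sys.Y h (N₂+1) x ∉ (X.F j).V
  · rcases a2 hV with ⟨y, hyZ, hy2⟩ | ⟨j, y, hyr, hy2⟩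
    · refine ⟨y, Or.inl hyZ, hy2.trans ?_⟩
      nlinarith
    · refine ⟨y, Or.inr ⟨j, hyr⟩, hy2.trans ?_⟩
      have e1 : 3 * (X.m k : ℝ) ^ 2 * (δ / (X.C k).R) * u =
          (3 / 4) * X.m k * (δ / (X.C k).R * u * (4 * X.m k)) := by ring
      rw [e1]
      nlinarith
  · push Not at hV
    obtain ⟨j, hj⟩ := hV
    obtain ⟨-, y, hyr, hy2⟩ := a3 j hj
    refine ⟨y, Or.inr ⟨j, hyr⟩, hy2.trans ?_⟩
    have hρ := (X.F j).ρ_pos
    have hYP : Sys.Y h (N₂+1) x ∈ (X.C k).P := (Sys.Y_P h (N₂+1) k x).2 ((X.C k).cht.sub hx)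
    have c2 : δ / (X.F j).ρ * u * (40 * (X.m k : ℝ) ^ 3) ≤ δ := by
      have e1 : δ / (X.F j).ρ * u * (40 * (X.m k : ℝ) ^ 3) =
          δ * ((40 * (X.m k : ℝ) ^ 3 * u) / (X.F j).ρ) := by field_simp
      rw [e1]
      have : (40 * (X.m k : ℝ) ^ 3 * u) / (X.F j).ρ ≤ 1 := (div_le_one hρ).2 (huF' j ⟨_, hj, hYP⟩)
      exact (mul_le_mul_of_nonneg_left this hδ.le).trans (le_of_eq (mul_one _))
    have e1 : (X.m k : ℝ) ^ 2 * (δ / (X.C k).R) * u + 10 * (X.m k : ℝ) ^ 3 * (δ / (X.F j).ρ) * u =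
        (1 / 4) * X.m k * (δ / (X.C k).R * u * (4 * X.m k)) +
          (1 / 4) * (δ / (X.F j).ρ * u * (40 * (X.m k : ℝ) ^ 3)) := by ring
    rw [e1]
    nlinarith

/-- **(1')**: near a compact part `E` of the 1-skeleton the map `F ∘ chi` is close to the affine map
`A`, if `F` is close to `A` on the 1-skeleton `T1` (`F = f ∘ Φ`; `E` = edges of the core). -/
theorem gam_tube {E : Set E3} {u u1 m : ℝ} (hm1 : 1 ≤ m) (hu0 : 0 ≤ u)
    (hu1 : u < u1) (hEU : ∀ y ∈ E, ∀ k, y ∉ (X.C k).U) (hEV : ∀ y ∈ E, ∀ j, y ∉ (X.F j).V)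
    (hcov : ∀ y ∈ E, ∀ x, ‖x - y‖ ≤ u → ∃ k, x ∈ (X.C k).P)
    (hmk : ∀ y ∈ E, ∀ k, ∀ x ∈ (X.C k).P, ‖x - y‖ ≤ u1 → (X.m k : ℝ) ≤ m ∧
      4 * m * u1 ≤ (X.C k).R ∧
      ∀ j, ((X.F j).V ∩ (X.C k).P).Nonempty → 40 * m ^ 3 * u1 ≤ (X.F j).ρ)
    {T1 : Set E3} (hT1 : ∀ y, (y ∈ X.Z ∨ ∃ j, y ∈ (X.F j).rim) →
      (∃ y0 ∈ E, ‖y - y0‖ ≤ 26 * m ^ 4 * u1) → y ∈ T1)
    {F : R3 → R3} {K' : Set E3} (hK' : IsCompact K') (hF : ContinuousOn F (w2 '' K'))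
    (hEK : ∀ y0 ∈ E, closedBall y0 (26 * m ^ 4 * u1) ⊆ K') {A : E3 → R3} {Λ ε0 : ℝ}
    (hA : ∀ x y, ‖A x - A y‖ ≤ Λ * ‖x - y‖) (hΛ : 0 ≤ Λ)
    (hT : ∀ y ∈ T1, (∃ y0 ∈ E, ‖y - y0‖ ≤ 26 * m ^ 4 * u1) → ‖F (w2 y) - A y‖ ≤ ε0)
    {e : ℝ} (he : 0 < e) :
    ∃ δ₀ : ℝ, 0 < δ₀ ∧ ∀ (p δ : ℝ) (h : X.Adm p δ), δ < δ₀ → ∀ N₁ N₂ : ℕ, ∀ y0 ∈ E, ∀ x,
      ‖x - y0‖ ≤ u → ‖F (w2 (Sys.chi h (N₁+1) (N₂+1) x)) - A x‖ ≤
        ε0 + Λ * (25 * m ^ 4 * u1) + e := by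
  have hu1' : 0 < u1 := lt_of_le_of_lt hu0 hu1
  have hm4 : (1:ℝ) ≤ m ^ 4 := one_le_pow₀ hm1
  have hF' : ContinuousOn (fun y => F (w2 y)) K' :=
    hF.comp w2.continuous.continuousOn fun y hy => mem_image_of_mem _ hy
  obtain ⟨μ, hμ, Hμ⟩ := Metric.uniformContinuousOn_iff.1
    (hK'.uniformContinuousOn_of_continuous hF') e he
  have hm0 : 0 < m := by linarith
  refine ⟨min (μ / (2 * m)) u1, lt_min (by positivity) hu1', fun p δ h hδ N₁ N₂ y0 hy0 x hx => ?_⟩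
  have hδ1 : m * δ < μ := by
    have h1 := hδ.trans_le (min_le_left _ _)
    rw [lt_div_iff₀ (by positivity)] at h1
    have := h.d0
    nlinarith
  have hδ2 : m * δ ≤ m ^ 4 * u1 := by
    have h1 := (hδ.trans_le (min_le_right _ _)).le
    have h2 : m ≤ m ^ 4 := by
      calc m = m ^ 1 := (pow_one m).symm
        _ ≤ m ^ 4 := pow_le_pow_right₀ hm1 (by norm_num)
    exact mul_le_mul h2 h1 h.d0.le (by positivity)
  obtain ⟨k, hk⟩ := hcov y0 hy0 x hx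
  obtain ⟨b1, b2, b3⟩ := hmk y0 hy0 k x hk (hx.trans hu1.le)
  set ch := Sys.chi h (N₁+1) (N₂+1) with hch
  set W : Set E3 := {x' | ‖x' - y0‖ < u1} ∩ (X.C k).U with hW
  have hWo : IsOpen {x' : E3 | ‖x' - y0‖ < u1} :=
    isOpen_lt ((continuous_id.sub continuous_const).norm) continuous_const
  have hxW : x ∈ closure W :=
    hWo.inter_closure ⟨lt_of_le_of_lt hx hu1, Cell.sub_closure _ hk⟩
  -- displacement
  have hd : ∀ x' ∈ closure W, ‖ch x' - x'‖ ≤ 24 * m ^ 4 * u1 ∧ ‖x' - y0‖ ≤ u1 := by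
    intro x' hx'
    constructor
    · refine le_on_closure (f := fun z => ‖ch z - z‖) (g := fun _ => 24 * m ^ 4 * u1)
        (fun z hz => ?_) ((ch.continuous.sub continuous_id).norm.continuousOn)
        continuousOn_const hx'
      exact (chi_near h N₁ N₂ hm1 hz.2 (hEU y0 hy0 k) (hEV y0 hy0) (le_of_lt hz.1) b1 b2 b3).1
    · exact le_on_closure (f := fun z => ‖z - y0‖) (g := fun _ => u1)
        (fun z hz => le_of_lt hz.1) ((continuous_id.sub continuous_const).norm.continuousOn)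
        continuousOn_const hx'
  have hin : ∀ x' ∈ closure W, ch x' ∈ K' := by
    intro x' hx'
    obtain ⟨h1, h2⟩ := hd x' hx'
    refine hEK y0 hy0 ?_
    rw [mem_closedBall, dist_eq_norm]
    have e1 : ch x' - y0 = (ch x' - x') + (x' - y0) := by abel
    rw [e1]
    refine (norm_add_le _ _).trans ?_
    nlinarith
  have hAc : Continuous A := by
    refine (LipschitzWith.of_dist_le_mul (K := Λ.toNNReal) fun x y => ?_).continuous
    rw [dist_eq_norm, dist_eq_norm, Real.coe_toNNReal _ hΛ]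
    exact hA x y
  refine le_on_closure (f := fun z => ‖F (w2 (ch z)) - A z‖)
    (g := fun _ => ε0 + Λ * (25 * m ^ 4 * u1) + e) (fun z hz => ?_)
    ((hF'.comp ch.continuous.continuousOn hin).sub hAc.continuousOn).norm
    continuousOn_const hxW
  obtain ⟨h1, y, hy, hy2⟩ :=
    chi_near h N₁ N₂ hm1 hz.2 (hEU y0 hy0 k) (hEV y0 hy0) (le_of_lt hz.1) b1 b2 b3
  have hzy0 : ‖z - y0‖ ≤ u1 := le_of_lt hz.1
  have hyz : ‖y - z‖ ≤ 25 * m ^ 4 * u1 := by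
    have e1 : y - z = (ch z - z) - (ch z - y) := by abel
    rw [e1]
    refine (norm_sub_le _ _).trans ?_
    nlinarith
  have hyy0 : ‖y - y0‖ ≤ 26 * m ^ 4 * u1 := by
    have e1 : y - y0 = (y - z) + (z - y0) := by abel
    rw [e1]
    refine (norm_add_le _ _).trans ?_
    nlinarith
  have hyT := hT1 y hy ⟨y0, hy0, hyy0⟩
  have h5 := hT y hyT ⟨y0, hy0, hyy0⟩
  have h6 : ‖F (w2 (ch z)) - F (w2 y)‖ ≤ e := by
    have hyK : y ∈ K' := hEK y0 hy0 (by rw [mem_closedBall, dist_eq_norm]; exact hyy0)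
    have h7 := Hμ (ch z) (hin z (subset_closure hz)) y hyK (by
      rw [dist_eq_norm]; exact lt_of_le_of_lt hy2 hδ1)
    rw [dist_eq_norm] at h7
    exact h7.le
  have h8 : ‖A y - A z‖ ≤ Λ * (25 * m ^ 4 * u1) :=
    (hA y z).trans (mul_le_mul_of_nonneg_left hyz hΛ)
  calc ‖F (w2 (ch z)) - A z‖ = ‖(F (w2 (ch z)) - F (w2 y)) + (F (w2 y) - A y) + (A y - A z)‖ := by
        congr 1; abel
    _ ≤ ‖F (w2 (ch z)) - F (w2 y)‖ + ‖F (w2 y) - A y‖ + ‖A y - A z‖ := norm_add₃_le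
    _ ≤ e + ε0 + Λ * (25 * m ^ 4 * u1) := add_le_add (add_le_add h6 h5) h8
    _ = _ := by ring

end Crest.Agent.R96.Gam_538
end

-- ▼ part R096/Gam2_968
section

/-!
Row 96 (S0127), helper968, leaf [C6] (622 #11695): the clause `gam` of `Pin_753.InP` for
`f₂ = R ∘ f ∘ Φ ∘ chi`: closeness to the affine map on the tubes of the edges of the core.
-/

set_option autoImplicit false
set_option linter.unusedSectionVars false

open Set Metric Filter Topology MeasureTheory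

namespace Crest.Agent.R096.Gam_968

open Crest.AnalysisR.VecCalc3
open Crest.Agent.R096.Msh_715 (P I Tiling)
open Crest.Agent.R096.Mal_874 (CB)
open Crest.Agent.R096.Sq_55 (E3 Sys Face Cell FaceOf w2 toR toR_apply GG)
open Crest.Agent.R096.Sk2_855 (sk1 Mv)
open Crest.Agent.R096.Cob_622 (w2_lip)
open Crest.Agent.R096.Efi_296
open Crest.Agent.R096.Cbs_296
open Crest.Agent.R096.Pin_753
open Crest.Agent.R96.Coarse_538 (seg Cb)
open Crest.Agent.R96.Intr_538 (cel)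
open Crest.Agent.R96.En10_199 (P3)
open scoped ENNReal NNReal

section sys

variable {OmR : Set R3} {ι : Type*} {T : Tiling OmR ι} {s : Finset ι}
  {pr : (Te T).Cell → Prop} {c : ι → E3} {R : ι → ℝ≥0} {ρ : E3 → ℝ≥0} {m : ι → ℝ≥0}
  {X : Sys s (reps (Te T) s pr)}

/-- the closed 1-cells of the used tiles -/
def T1s (T : Tiling OmR ι) (s : Finset ι) : Set E3 := ⋃ c ∈ EgS (Te T) s, c.set

/-- the rims and `Z`, off the unsqueezed faces, consist of closed 1-cells -/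
lemma mem_T1s (h : SysOf (Te T) s pr c R ρ m X) {y : E3}
    (hy : y ∈ X.Z ∨ ∃ j, y ∈ (X.F j).rim) (hf : ∀ b ∈ FcS (Te T) s pr, y ∉ b.set) :
    y ∈ T1s T s := by
  rcases hy with hy | ⟨j, hy⟩
  · rw [h.Z] at hy
    rcases hy with hy | hy
    · exact hy
    · obtain ⟨b, hb, hyb⟩ := mem_iUnion₂.1 hy
      exact absurd hyb (hf b hb)
  · rw [h.rim] at hy
    have h1 := reps_dim j.2
    have h2 := bdry_sub h1.1 h1.2 (reps_tile j.2) hy
    obtain ⟨b, -, hyb⟩ := mem_iUnion₂.1 h2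
    exact mem_iUnion₂.2 ⟨b.1, b.2, hyb⟩

/-- the points of the closed 1-cells -/
lemma T1s_sk1 {y : E3} (hy : y ∈ T1s T s) : w2 y ∈ sk1 T := by
  obtain ⟨b, hb, hyb⟩ := mem_iUnion₂.1 hy
  have h1 : y ∈ sk1 (Te T) := ⟨mem_Om_of_set hyb, (dim_le_of_set hyb).trans hb.1.le⟩
  rw [Ttr_622.mem_sk1_tr] at h1
  exact h1

/-- **GAM for one system of cells**: `f ∘ Φ ∘ chi` is close to the affine map near a part `E` of
the 1-skeleton -/
theorem gam_sys (h : SysOf (Te T) s pr c R ρ m X) {f Φ : R3 → R3}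
    {Om : Set R3} (hF : ContinuousOn (fun y => f (Φ y)) Om)
    (hΦ : ∀ y ∈ sk1 T, Φ y = y) {b z : R3} {L : R3 →L[ℝ] R3} {r ε0 : ℝ}
    (hcelO : cel Cb z r ⊆ Om)
    (hnear : ∀ y ∈ T1s T s, w2 y ∈ cel Cb z r → ‖f (w2 y) - (b + L (w2 y - z))‖ ≤ ε0)
    {E : Set E3} (hE1 : ∀ y ∈ E, w2 y ∈ sk1 T) {u u1 m₀ : ℝ}
    (hm₀ : 1 ≤ m₀) (hu0 : 0 ≤ u) (hu : u < u1)
    (hcov : ∀ y ∈ E, ∀ x, ‖x - y‖ ≤ u → ∃ k ∈ s, x ∈ P ((Te T).H k))
    (hR : ∀ y0 ∈ E, ∀ k ∈ s, ∀ x ∈ P ((Te T).H k), ‖x - y0‖ ≤ u1 →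
      (m k : ℝ) ≤ m₀ ∧ 40 * m₀^4 * u1 ≤ R k)
    (hρ : ∀ x ∈ reps (Te T) s pr, ∀ k ∈ (Te T).at_ x, k ∈ s → R k ≤ m k * ρ x)
    (hfc : ∀ b ∈ FcS (Te T) s pr, ∀ y ∈ b.set, ∀ y0 ∈ E, 26 * m₀^4 * u1 < ‖y - y0‖)
    (hcel : ∀ y0 ∈ E, ∀ y, ‖y - y0‖ ≤ 26 * m₀^4 * u1 → w2 y ∈ cel Cb z r) {e : ℝ} (he : 0 < e) :
    ∃ δ₀ : ℝ, 0 < δ₀ ∧ ∀ (p δ : ℝ) (h : X.Adm p δ), δ < δ₀ → ∀ N₁ N₂ : ℕ, ∀ y0 ∈ E, ∀ x,
      ‖x - y0‖ ≤ u → ‖f (Φ (w2 (Sys.chi h (N₁+1) (N₂+1) x))) - (b + L (w2 x - z))‖ ≤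
        ε0 + 2 * ‖L‖ * (25 * m₀^4 * u1) + e := by
  have hu1 : 0 < u1 := hu0.trans_lt hu
  have hm4 : (1:ℝ) ≤ m₀^4 := one_le_pow₀ hm₀
  have hm34 : m₀^3 ≤ m₀^4 := pow_le_pow_right₀ hm₀ (by norm_num)
  have hm14 : m₀ ≤ m₀^4 := by
    calc m₀ = m₀^1 := (pow_one _).symm
      _ ≤ _ := pow_le_pow_right₀ hm₀ (by norm_num)
  have hdim : ∀ y ∈ E, y ∈ (P3.symm : R3 ≃L[ℝ] E3).symm ⁻¹' OmR ∧ (Te T).dim y ≤ 1 := by
    intro y hy
    have h1 := hE1 y hy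
    have h2 : y ∈ sk1 (Te T) := by
      rw [Ttr_622.mem_sk1_tr]
      exact h1
    exact h2
  refine Crest.Agent.R96.Gam_538.gam_tube (X := X) (E := E) (u := u) (u1 := u1) (m := m₀) hm₀ hu0
    hu (fun y hy k => h.off_U (hdim y hy).1 ((hdim y hy).2.trans (by norm_num)) k)
    (fun y hy j => h.off_V (hdim y hy).1 (hdim y hy).2 j) ?_ ?_ (T1 := T1s T s) ?_
    (F := fun y => f (Φ y)) (K' := w2 ⁻¹' cel Cb z r) ?_ ?_ ?_
    (A := fun y => b + L (w2 y - z)) (Λ := 2 * ‖L‖) (ε0 := ε0) ?_ (by positivity) ?_ he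
  · intro y hy x hx
    obtain ⟨k, hk, hxk⟩ := hcov y hy x hx
    exact ⟨⟨k, hk⟩, by rw [h.eP]; exact hxk⟩
  · intro y hy k x hx hxy
    rw [h.eP] at hx
    obtain ⟨h1, h2⟩ := hR y hy k k.2 x hx hxy
    rw [h.em, h.eR]
    refine ⟨h1, ?_, fun j hj => ?_⟩
    · calc 4 * m₀ * u1 ≤ 40 * m₀^4 * u1 := by gcongr; linarith
        _ ≤ _ := h2
    · have h3 := hρ j j.2 k (h.at_of_V hj) k.2
      rw [h.eρ]
      have h4 : ((R k : ℝ≥0) : ℝ) ≤ m k * ρ j := by exact_mod_cast h3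
      have h5 : ((R k : ℝ≥0) : ℝ) ≤ m₀ * ρ j :=
        h4.trans (mul_le_mul_of_nonneg_right h1 (ρ j).coe_nonneg)
      have h6 : m₀ * (40 * m₀^3 * u1) ≤ m₀ * ρ j := by
        calc m₀ * (40 * m₀^3 * u1) = 40 * m₀^4 * u1 := by ring
          _ ≤ _ := h2.trans h5
      exact le_of_mul_le_mul_left h6 (by linarith)
  · rintro y hy ⟨y0, hy0, hyy⟩
    refine mem_T1s h hy fun b hb hyb => ?_
    have := hfc b hb y hyb y0 hy0
    linarith
  · have h1 : IsCompact (cel Cb z r) :=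
      Crest.Agent.R96.Intr_538.isCompact_cel Crest.Agent.R96.Coarse_538.ref_Cb.cpt z r
    exact w2.isCompact_preimage.2 h1
  · refine hF.mono ?_
    rintro _ ⟨y, hy, rfl⟩
    exact hcelO hy
  · intro y0 hy0 y hy
    rw [mem_closedBall, dist_eq_norm] at hy
    exact hcel y0 hy0 y hy
  · intro y y'
    have e1 : b + L (w2 y - z) - (b + L (w2 y' - z)) = L (w2 y - w2 y') := by
      rw [map_sub, map_sub, map_sub]
      abel
    rw [e1]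
    calc _ ≤ ‖L‖ * ‖w2 y - w2 y'‖ := L.le_opNorm _
      _ ≤ ‖L‖ * (2 * ‖y - y'‖) := mul_le_mul_of_nonneg_left (w2_lip y y') (norm_nonneg _)
      _ = _ := by ring
  · rintro y hy ⟨y0, hy0, hyy⟩
    show ‖f (Φ (w2 y)) - (b + L (w2 y - z))‖ ≤ ε0
    rw [hΦ _ (T1s_sk1 hy)]
    exact hnear y hy (hcel y0 hy0 y hyy)

end sys

/-- the closed 1-cells at the core of the block -/
def Gc (Q : CB R3 3) (k0 : ℕ) (hk : Q.kc ≤ k0) : Set R3 :=
  {y | ∃ x ∈ Q.Kc, (Q.T k0 hk).dim x = 1 ∧ y ∈ (Q.T k0 hk).cc x}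


lemma w2s_add (x y : R3) : w2.symm (x + y) = w2.symm x + w2.symm y := rfl

lemma w2s_norm (x : R3) : ‖w2.symm x‖ ≤ ‖x‖ := by
  refine (pi_norm_le_iff_of_nonneg (norm_nonneg x)).2 fun i => ?_
  exact PiLp.norm_apply_le x i

/-- the translations of the block are small -/
lemma norm_Tw {Q : CB R3 3} {k0 : ℕ} {κ : ℝ} (hκ : 0 < κ) (hc : ∀ v, κ / 4 * ‖v‖ ≤ ‖Q.ψ v‖)
    {w : R3} (hw : w ∈ Tw Q k0) : ‖w‖ ≤ 4 * κ⁻¹ / (5 * 2 ^ k0) := by
  have h1 : ‖Q.ψ w‖ ≤ 1 / (5 * 2 ^ k0) := hw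
  have h2 := (hc w).trans h1
  have h3 : ‖w‖ = 4 * κ⁻¹ * (κ / 4 * ‖w‖) := by field_simp
  rw [h3]
  calc 4 * κ⁻¹ * (κ / 4 * ‖w‖) ≤ 4 * κ⁻¹ * (1 / (5 * 2 ^ k0)) := by gcongr
    _ = _ := by ring

variable {OmR : Set R3} {ι : Type*} {T : Tiling OmR ι} {s : Finset ι}
  {pr : (Te T).Cell → Prop} {c : ι → E3} {R : ι → ℝ≥0} {ρ : E3 → ℝ≥0} {m : ι → ℝ≥0}
  {X : Sys s (reps (Te T) s pr)}



/-- the same from `MeshG` -/
lemma near_of_mesh {κe : Type*} {x v : κe → R3} {a : R3} {W : Set R3}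
    (hM : Crest.Agent.R96.Gdt_538.MeshG T x v a W) {f : R3 → R3}
    {p κ τ σ₀ η t sz : ℝ} {D : R3 → R3 →L[ℝ] R3} {b z : R3} {L : R3 →L[ℝ] R3}
    (hW : cel Cb z ((1 - σ₀) * sz) ⊆ W)
    (hP : Crest.Agent.R96.Coarse_538.PerfG x v p OmR f D κ τ σ₀ η t sz a z b L) :
    ∀ y ∈ T1s T s, w2 y ∈ cel Cb z ((1 - σ₀) * sz) →
      ‖f (w2 y) - (b + L (w2 y - z))‖ ≤ η * t := by
  intro y hy hyc
  obtain ⟨e, -, h1⟩ := hM.edge _ (T1s_sk1 hy) (hW hyc)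
  exact (hP.near _ _ h1 hyc _ h1).2

/-- the inner cube lies in the domain -/
lemma cel_sub_of_perf {κe : Type*} {x v : κe → R3} {a : R3} {f : R3 → R3}
    {p κ τ σ₀ η t sz : ℝ} {D : R3 → R3 →L[ℝ] R3} {b z : R3} {L : R3 →L[ℝ] R3} (hσ0 : 0 < σ₀)
    (hσ1 : σ₀ < 1) (hsz : 0 < sz)
    (hP : Crest.Agent.R96.Coarse_538.PerfG x v p OmR f D κ τ σ₀ η t sz a z b L) :
    cel Cb z ((1 - σ₀) * sz) ⊆ OmR := by
  have hr : 0 < (1 - σ₀) * sz := mul_pos (by linarith) hsz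
  refine Subset.trans ?_ hP.sub
  intro y hy
  rw [Crest.Agent.R96.Coarse_538.mem_cel hr] at hy
  rw [Crest.Agent.R96.Coarse_538.mem_cel hsz]
  intro i
  refine (hy i).trans ?_
  nlinarith



end Crest.Agent.R096.Gam_968
end

-- ▼ part R096/Gam3_968
section

/-!
Row 96 (S0127), helper968, leaf [C6], part 2: the geometric inputs of `gam_perf'` for helper855's
mesh `h.T a` and the block `(Qb j).tr a`: the tiles near the core.
-/

set_option autoImplicit false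
set_option linter.unusedSectionVars false

open Set Metric Filter Topology MeasureTheory

namespace Crest.Agent.R096.Gam_968

open Crest.AnalysisR.VecCalc3
open Crest.Agent.R096.Msh_715 (P I Tiling I_sub_P)
open Crest.Agent.R096.Mal_874
open Crest.Agent.R096.Msh_810 (K)
open Crest.Agent.R096.Msb_432 (meshS Kc_sub_bp Kc_sub_N)
open Crest.Agent.R096.Gsc_476
open Crest.Agent.R096.Shp_432 (T_at_sub)
open Crest.Agent.R096.Ca_855
open Crest.Agent.R096.Ca_855.MIn (BQ)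
open Crest.Agent.R096.Sq_55 (E3 Sys Face Cell FaceOf w2 toR toR_apply GG)
open Crest.Agent.R096.Sk2_855 (sk1 Mv)
open Crest.Agent.R096.Efi_296
open Crest.Agent.R096.Cbs_296
open Crest.Agent.R096.Pin_753
open Crest.Agent.R96.Coarse_538 (seg Cb PerfG mem_cel)
open Crest.Agent.R96.Intr_538 (cel)
open Crest.Agent.R96.Gdt_538 (MeshG)
open scoped ENNReal NNReal

section cb

variable {n : ℕ} [NeZero n] {E : Type*} [NormedAddCommGroup E] [NormedSpace ℝ E] (Q : CB E n)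

lemma near_one {y y' : E} (hy : y ∈ Q.Kc) (h : ‖Q.ψ y' - Q.ψ y‖ ≤ 1 / 2 ^ Q.kc) :
    Q.near 1 y' := by
  have h0 := Q.near_of_bp (Kc_sub_bp _ hy)
  have hp : (0:ℝ) < 2 ^ Q.kc := by positivity
  intro l
  have h1 := ps_dist (a := Q.a') (k := Q.kc) (x := Q.ψ y') (y := Q.ψ y) l
  rw [dist_eq_norm] at h1
  have h2 : (2:ℝ) ^ Q.kc * ‖Q.ψ y' - Q.ψ y‖ ≤ 1 := by
    rw [le_div_iff₀ hp] at h
    linarith
  have h3 := abs_le.1 (h1.trans h2)
  have h4 := h0 l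
  constructor <;> linarith [h3.1, h3.2, h4.1, h4.2]

lemma near_int {y : E} (hy : Q.near 1 y) : y ∈ interior Q.N := by
  have hN : y ∈ Q.N := by
    rw [Q.mem_N]
    intro l
    have h := hy l
    have hw := Q.w_real
    constructor <;> linarith [h.1, h.2]
  by_contra hcon
  exact not_near_wall Q hy ⟨subset_closure hN, hcon⟩

lemma Gc_sub_Kc {Q : CB R3 3} {k0 : ℕ} {hk : Q.kc ≤ k0} {y : R3} (hy : y ∈ Gc Q k0 hk) :
    y ∈ Q.Kc := by
  obtain ⟨x, hx, -, hy⟩ := hy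
  rw [← Q.P_core k0 hk] at hx ⊢
  exact (Q.T k0 hk).cc_sub_tile hx hy

end cb

/-- `g` is close to the affine map in the `u`-neighbourhood of the closed 1-cells at the core -/
def NearG (Q : CB R3 3) (k0 : ℕ) (hk : Q.kc ≤ k0) (u A : ℝ) (b : R3) (L : R3 →L[ℝ] R3) (z : R3)
    (g : R3 → R3) : Prop :=
  ∀ y0 ∈ Gc Q k0 hk, ∀ y : R3, ‖w2.symm y - w2.symm y0‖ ≤ u → ‖g y - Bk b L z y‖ ≤ A

/-- **the clause `gam` of `Pin_753.InP`** -/
theorem NearG.gam {Q : CB R3 3} {k0 : ℕ} {hk : Q.kc ≤ k0} {u A : ℝ} {b : R3} {L : R3 →L[ℝ] R3}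
    {z : R3} {g : R3 → R3} (hg : NearG Q k0 hk u A b L z g) {κ : ℝ} (hκ : 0 < κ)
    (hc : ∀ v, κ / 4 * ‖v‖ ≤ ‖Q.ψ v‖) (hu : 4 * κ⁻¹ / (5 * 2 ^ k0) ≤ u) {Rr : R3 → R3} {σr : ℝ}
    (hR : ∀ y, ‖Rr y - y‖ ≤ 3 * σr) {B : ℝ} (hB : 3 * σr + A ≤ B) :
    ∀ x ∈ Q.Kc, (Q.T k0 hk).dim x = 1 → ∀ y ∈ (Q.T k0 hk).cc x, ∀ w ∈ Tw Q k0,
      ‖Rr (g (y + w)) - Bk b L z (y + w)‖ ≤ B := by
  intro x hx hd y hy w hw
  have h1 := hg y ⟨x, hx, hd, hy⟩ (y + w) (by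
    rw [w2s_add, add_sub_cancel_left]
    exact (w2s_norm w).trans ((norm_Tw hκ hc hw).trans hu))
  calc ‖Rr (g (y + w)) - Bk b L z (y + w)‖
      = ‖(Rr (g (y + w)) - g (y + w)) + (g (y + w) - Bk b L z (y + w))‖ := by congr 1; abel
    _ ≤ 3 * σr + A := (norm_add_le _ _).trans (add_le_add (hR _) h1)
    _ ≤ B := hB

/-- the points of the segment of an M-edge in the core are in `Gc` -/
lemma seg_Gc {Q : CB R3 3} {k0 : ℕ} {hk : Q.kc ≤ k0} {e : R3 × R3} (he : e ∈ Ed Q k0 hk)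
    (hK : segment ℝ e.1 e.2 ⊆ Q.Kc) {y : R3} (hy : y ∈ segment ℝ e.1 e.2) : y ∈ Gc Q k0 hk := by
  obtain ⟨x, hd, hx, -⟩ := he
  refine ⟨x, hK ?_, hd, ?_⟩
  · rw [← hx]
    exact (Q.T k0 hk).self_mem_cc x
  · rw [hx]
    exact hy

/-- **the image of the tube of an edge of the core** is in the parallelepiped -/
theorem NearG.par {Q : CB R3 3} {k0 : ℕ} {hk : Q.kc ≤ k0} {u A : ℝ} {b : R3} {L : R3 →L[ℝ] R3}
    {z : R3} {g : R3 → R3} (hg : NearG Q k0 hk u A b L z g) (hu : 0 ≤ u) {r : ℝ} (hr : 0 < r)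
    {q : ℝ} (hq : A < q) {e : R3 × R3} (he : e ∈ Ed Q k0 hk) (hK : segment ℝ e.1 e.2 ⊆ Q.Kc)
    (hN : ∀ y ∈ Q.Kc, ∀ i, |y i - z i| + u ≤ r) {z' : E3}
    (hz : z' ∈ cthickening u (w2.symm '' segment ℝ e.1 e.2)) :
    g (w2 z') ∈ thickening q (Crest.Agent.R96.Intr_538.par Cb L b r) := by
  have hcp : IsCompact (w2.symm '' segment ℝ e.1 e.2) := by
    refine IsCompact.image ?_ w2.symm.continuous
    rw [segment_eq_image']
    exact isCompact_Icc.image (by fun_prop)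
  rw [hcp.cthickening_eq_biUnion_closedBall hu] at hz
  simp only [mem_iUnion, exists_prop] at hz
  obtain ⟨_, ⟨y0, hy0, rfl⟩, hz⟩ := hz
  rw [mem_closedBall, dist_eq_norm] at hz
  have h1 := hg y0 (seg_Gc he hK hy0) (w2 z') (by rwa [w2.symm_apply_apply])
  rw [mem_thickening_iff]
  refine ⟨Bk b L z (w2 z'), ?_, ?_⟩
  · have h2 : w2 z' ∈ cel Cb z r := by
      rw [mem_cel hr]
      intro i
      have h3 : |w2 z' i - y0 i| ≤ u := (norm_le_pi_norm (z' - w2.symm y0) i).trans hz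
      have h4 := hN y0 (hK hy0) i
      calc |w2 z' i - z i| = |(w2 z' i - y0 i) + (y0 i - z i)| := by congr 1; ring
        _ ≤ |w2 z' i - y0 i| + |y0 i - z i| := abs_add_le _ _
        _ ≤ r := by linarith
    obtain ⟨v, hv, hvz⟩ := h2
    refine ⟨v, hv, ?_⟩
    show b + r • L v = b + L (w2 z' - z)
    rw [← hvz]
    simp
  · rw [dist_eq_norm]
    exact h1.trans_lt hq

section T

variable {Om W : Set R3} {ρ₀ : R3 → ℝ} {J : Type} {Qb : J → CB R3 3} {k0 : ℕ} {σ : ℝ}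
  [Finite J] (h : MIn Om W ρ₀ Qb k0 σ) {a : R3}

/-- **the tiles near the core** lie in the block and have the scale of the core -/
theorem core_tile (ha : ‖a‖ ≤ σ / 8) {j : J} {y y' : R3} (hy : y ∈ ((Qb j).tr a).Kc)
    (hyy : ‖(Qb j).ψ y' - (Qb j).ψ y‖ ≤ 1 / 2 ^ (Qb j).kc) {t : h.ιT a}
    (ht : y' ∈ P ((h.T a).H t)) :
    P ((h.T a).H t) ⊆ ((Qb j).tr a).N ∧ sclT h a t = (Qb j).kc := by
  have h1 : ((Qb j).tr a).near 1 y' := near_one _ hy hyy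
  have hN : P ((h.T a).H t) ⊆ ((Qb j).tr a).N := T_at_sub h ha (near_int _ h1) ht
  refine ⟨hN, le_antisymm ?_ (sclT_mem h ha hN).1⟩
  have hN' := hN
  rw [← Bk_eq h ha j] at hN'
  have h2 := (scl_K h.M h.sc (0 + h.M.φ (h.cl a)) (h.adm a) hN' ht).1
  have h3 : (h.M.Bk (fun _ => h.cl a) j).near 1 y' := by
    rw [Bk_eq h ha j]; exact h1
  have h4 := ((h.M.Bk (fun _ => h.cl a) j).near_K k0 (h.hk j) h3).self_of_nhds
  exact h2.trans (le_of_eq h4)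

/-- the closed M-edges are in the 1-skeleton -/
theorem Gc_sk1 (ha : ‖a‖ ≤ σ / 8) {j : J} {y : R3} (hy : y ∈ Gc ((Qb j).tr a) k0 (h.hk j)) :
    y ∈ sk1 (h.T a) := by
  have hK := Gc_sub_Kc hy
  obtain ⟨x, hx, hd, hyx⟩ := hy
  have e0 := h.cl_eq ha
  rw [Crest.Agent.R096.Ttr_565.dim_tr'] at hd
  rw [Crest.Agent.R096.Ttr_565.mem_cc_tr'] at hyx
  have hN : y - a ∈ (Qb j).N := by
    rw [← CB.mem_N_tr]
    exact Kc_sub_N _ hK
  obtain ⟨h1, h2⟩ := Crest.Agent.R096.Msb_432.ed_dim h.M h.sc (0 + h.M.φ (h.cl a)) (h.adm a)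
    (j := j) (x := x - a) (y := y - a) hd.le hyx hN
  have e1 : y - a + h.cl a = y := by rw [e0, sub_add_cancel]
  rw [e1] at h1 h2
  exact ⟨h.mem_dom.1 h1, (h.T_dim a y).le.trans h2⟩

include h in
/-- the block lies in the domain -/
lemma N_sub_Om (ha : ‖a‖ ≤ σ / 8) (j : J) : ((Qb j).tr a).N ⊆ Om := by
  intro y hy
  have h1 : y - a ∈ (Qb j).N := by
    rw [CB.N_tr] at hy
    exact hy
  have h2 := h.hW _ (h.hN j h1)
  have h3 := h.lip (y - a) y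
  rw [sub_sub_cancel_left, norm_neg] at h3
  have h0 := h.σ0
  exact (h.pos y).1 (by linarith)

/-- the sup norm and the Euclidean norm -/
lemma norm_two {x y : R3} {c : ℝ} (hc : 0 ≤ c) (h : ∀ i, |x i - y i| ≤ c) : ‖x - y‖ ≤ 2 * c := by
  have h1 := Crest.Agent.R096.Cob_622.w2_lip (w2.symm x) (w2.symm y)
  rw [w2.apply_symm_apply, w2.apply_symm_apply] at h1
  refine h1.trans ?_
  have h2 : ‖w2.symm x - w2.symm y‖ ≤ c := (pi_norm_le_iff_of_nonneg hc).2 fun i => h i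
  linarith

lemma psi_near {κ : ℝ} {Q : CB R3 3} (hψ : ∀ v, ‖Q.ψ v‖ ≤ 4 * κ⁻¹ * ‖v‖) (hκ : 0 < κ) {m₀ u : ℝ}
    (hu : 0 ≤ u) (hku : 416 * κ⁻¹ * m₀^4 * u ≤ 1 / 2 ^ Q.kc) {y y' : R3}
    (h : ∀ i, |y' i - y i| ≤ 52 * m₀^4 * u) : ‖Q.ψ y' - Q.ψ y‖ ≤ 1 / 2 ^ Q.kc := by
  rw [← map_sub]
  refine (hψ _).trans (le_trans ?_ hku)
  have h1 := norm_two (by positivity) h
  calc 4 * κ⁻¹ * ‖y' - y‖ ≤ 4 * κ⁻¹ * (2 * (52 * m₀^4 * u)) := by gcongr
    _ = _ := by ring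

/-- **closeness to the affine map near the edges of the core**, in the mesh `h.T a` -/
theorem gam_T0 (ha : ‖a‖ ≤ σ / 8) {κ : ℝ} {Bs Nn : ℕ} (hκ : 0 < κ) (hκ1 : κ ≤ 1) {j : J}
    (hb : BQ κ Bs Nn (Qb j) k0) {s : Finset (h.ιT a)} {pr : (Te (h.T a)).Cell → Prop}
    {c : h.ιT a → E3} {R : h.ιT a → ℝ≥0} {ρ : E3 → ℝ≥0} {m : h.ιT a → ℝ≥0}
    {X : Sys s (reps (Te (h.T a)) s pr)} (hX : SysOf (Te (h.T a)) s pr c R ρ m X)
    (hρ : ∀ x ∈ reps (Te (h.T a)) s pr, ∀ k ∈ (Te (h.T a)).at_ x, k ∈ s → R k ≤ m k * ρ x)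
    {f : R3 → R3} (hf : ContinuousOn f Om) {Φ : R3 ≃ₜ R3} (hΦ : Mv (h.T a) Φ)
    {κe : Type*} {x v : κe → R3} {a1 : R3} {p τ₁ σ₀ η t sz : ℝ} {D : R3 → R3 →L[ℝ] R3}
    {b z : R3} {L : R3 →L[ℝ] R3} (hσ0 : 0 < σ₀) (hσ1 : σ₀ < 1) (hsz : 0 < sz)
    (hP : PerfG x v p Om f D κ τ₁ σ₀ η t sz a1 z b L)
    (hnear : ∀ y ∈ T1s (h.T a) s, w2 y ∈ cel Cb z ((1 - σ₀) * sz) →
      ‖f (w2 y) - (b + L (w2 y - z))‖ ≤ η * t)
    (hs : ∀ k, P ((h.T a).H k) ⊆ ((Qb j).tr a).N → k ∈ s)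
    (hpr : ∀ c : (Te (h.T a)).Cell, c.dim = 2 → (∀ k ∈ (Te (h.T a)).at_ c.pt,
      P ((h.T a).H k) ⊆ ((Qb j).tr a).N ∧ sclT h a k = (Qb j).kc) → pr c)
    {m₀ : ℝ} (hm₀ : 1 ≤ m₀)
    (hm : ∀ k, P ((h.T a).H k) ⊆ ((Qb j).tr a).N → sclT h a k = (Qb j).kc →
      (m k : ℝ) ≤ m₀ ∧ 1 / 2 ^ ((Qb j).kc + 1) ≤ (R k : ℝ))
    {τ : ℝ} (hsub : (Qb j).N ⊆ cel Cb z ((1 - τ) * sz)) (hτ1 : τ < 1) {u : ℝ} (hu : 0 < u)
    (hku : 416 * κ⁻¹ * m₀^4 * u ≤ 1 / 2 ^ (Qb j).kc)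
    (hau : ‖a‖ + 52 * m₀^4 * u ≤ (τ - σ₀) * sz) {e : ℝ} (he : 0 < e) :
    ∃ δ₀ : ℝ, 0 < δ₀ ∧ ∀ (p δ : ℝ) (hA : X.Adm p δ), δ < δ₀ → ∀ N₁ N₂ : ℕ,
      ∀ y0 ∈ Gc ((Qb j).tr a) k0 (h.hk j), ∀ x, ‖x - w2.symm y0‖ ≤ u →
      ‖f (Φ (w2 (Sys.chi hA (N₁+1) (N₂+1) x))) - (b + L (w2 x - z))‖ ≤
        η * t + 100 * κ⁻¹ * m₀^4 * u + e := by
  have hr : 0 < (1 - σ₀) * sz := mul_pos (by linarith) hsz
  have hm4 : (1:ℝ) ≤ m₀^4 := one_le_pow₀ hm₀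
  have hψ : ∀ v, ‖(Qb j).ψ v‖ ≤ 4 * κ⁻¹ * ‖v‖ := fun v => (hb.cnd v).2
  have hκi : 1 ≤ κ⁻¹ := (one_le_inv₀ hκ).2 hκ1
  have hp : (0:ℝ) < 2 ^ (Qb j).kc := by positivity
  have sup : ∀ x y : E3, ∀ r : ℝ, ‖x - y‖ ≤ r → ∀ i, |x i - y i| ≤ r := by
    intro x y r hr i
    exact (norm_le_pi_norm (x - y) i).trans hr
  have memP : ∀ (k : h.ιT a) (x : E3), x ∈ P ((Te (h.T a)).H k) ↔ w2 x ∈ P ((h.T a).H k) := by
    intro k x
    rw [Ttr_622.mem_P_tr]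
    exact Iff.rfl
  -- the tiles near the core
  have key : ∀ y0 ∈ Gc ((Qb j).tr a) k0 (h.hk j), ∀ y' : R3,
      (∀ i, |y' i - y0 i| ≤ 52 * m₀^4 * u) → ∀ k, y' ∈ P ((h.T a).H k) →
        P ((h.T a).H k) ⊆ ((Qb j).tr a).N ∧ sclT h a k = (Qb j).kc := by
    intro y0 hy0 y' hy' k hk
    exact core_tile h ha (Gc_sub_Kc hy0) (psi_near hψ hκ hu.le hku hy') hk
  have h52 : u ≤ 52 * m₀^4 * u := by nlinarith
  have hsum : 26 * m₀^4 * (2 * u) = 52 * m₀^4 * u := by ring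
  obtain ⟨δ₀, hδ₀, H⟩ := gam_sys hX (f := f) (Φ := Φ) (Om := Om)
    (hf.comp Φ.continuous.continuousOn hΦ.mapsTo) (fun y hy => hΦ.eq_on_sk1 hy) (b := b)
    (z := z) (L := L) (r := (1 - σ₀) * sz) (ε0 := η * t) (cel_sub_of_perf hσ0 hσ1 hsz hP)
    hnear (E := w2.symm '' Gc ((Qb j).tr a) k0 (h.hk j))
    (by rintro _ ⟨y, hy, rfl⟩; rw [w2.apply_symm_apply]; exact Gc_sk1 h ha hy) hm₀ hu.le
    (u1 := 2 * u) (by linarith)
    (by
      rintro _ ⟨y, hy, rfl⟩ x hx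
      have h1 : ∀ i, |(w2 x) i - y i| ≤ 52 * m₀^4 * u := fun i =>
        (sup _ _ _ hx i).trans h52
      have h2 : w2 x ∈ interior ((Qb j).tr a).N :=
        near_int _ (near_one ((Qb j).tr a) (Gc_sub_Kc hy) (psi_near hψ hκ hu.le hku h1))
      obtain ⟨k, hk⟩ := (h.T a).cov (w2 x)
        (N_sub_Om h ha j (interior_subset h2))
      exact ⟨k, hs k (key y hy _ h1 k hk).1, (memP k x).2 hk⟩)
    (by
      rintro _ ⟨y, hy, rfl⟩ k hk x hx hxy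
      have h1 : ∀ i, |(w2 x) i - y i| ≤ 52 * m₀^4 * u := fun i =>
        (sup _ _ _ hxy i).trans (by nlinarith)
      obtain ⟨h2, h3⟩ := key y hy _ h1 k ((memP k x).1 hx)
      obtain ⟨h4, h5⟩ := hm k h2 h3
      refine ⟨h4, le_trans ?_ h5⟩
      rw [pow_succ (2:ℝ), ← div_div]
      have h6 : 416 * m₀^4 * u ≤ 416 * κ⁻¹ * m₀^4 * u := by
        have : 0 ≤ 416 * m₀^4 * u := by positivity
        nlinarith
      linarith)
    hρ
    (by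
      rintro b' hb' y hy _ ⟨y0, hy0, rfl⟩
      by_contra hcon
      push Not at hcon
      rw [hsum] at hcon
      refine hb'.2 (hpr b' hb'.1.1 fun k hk => ?_)
      have h1 : y ∈ P ((Te (h.T a)).H k) := by
        rw [b'.set_eq] at hy
        exact (Te (h.T a)).cc_sub_tile hk hy
      exact key y0 hy0 (w2 y) (fun i => sup _ _ _ hcon i) k ((memP k y).1 h1))
    (by
      rintro _ ⟨y0, hy0, rfl⟩ y hy
      rw [hsum] at hy
      rw [mem_cel hr]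
      intro i
      have h1 : y0 - a ∈ cel Cb z ((1 - τ) * sz) := by
        refine hsub ?_
        rw [← CB.mem_N_tr]
        exact Kc_sub_N _ (Gc_sub_Kc hy0)
      rw [mem_cel (mul_pos (by linarith) hsz)] at h1
      have h2 : |(y0 - a) i - z i| ≤ (1 - τ) * sz := h1 i
      have h3 : |a i| ≤ ‖a‖ := PiLp.norm_apply_le a i
      have h4 : |w2 y i - y0 i| ≤ 52 * m₀^4 * u := sup _ _ _ hy i
      calc |w2 y i - z i| = |(w2 y i - y0 i) + ((y0 - a) i - z i) + a i| := by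
            congr 1
            rw [PiLp.sub_apply]
            ring
        _ ≤ |w2 y i - y0 i| + |(y0 - a) i - z i| + |a i| :=
            (abs_add_le _ _).trans (add_le_add_left (abs_add_le _ _) _)
        _ ≤ (1 - σ₀) * sz := by linarith) he
  refine ⟨δ₀, hδ₀, fun p δ hA hδ N₁ N₂ y0 hy0 x hx => ?_⟩
  refine (H p δ hA hδ N₁ N₂ _ ⟨y0, hy0, rfl⟩ x hx).trans ?_
  have h1 : 2 * ‖L‖ * (25 * m₀^4 * (2 * u)) ≤ 100 * κ⁻¹ * m₀^4 * u := by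
    have := hP.up
    calc 2 * ‖L‖ * (25 * m₀^4 * (2 * u)) ≤ 2 * κ⁻¹ * (25 * m₀^4 * (2 * u)) := by gcongr
      _ = _ := by ring
  linarith

/-- **`NearG` in the mesh `h.T a`** -/
theorem gam_T (ha : ‖a‖ ≤ σ / 8) {κ : ℝ} {Bs Nn : ℕ} (hκ : 0 < κ) (hκ1 : κ ≤ 1) {j : J}
    (hb : BQ κ Bs Nn (Qb j) k0) {s : Finset (h.ιT a)} {pr : (Te (h.T a)).Cell → Prop}
    {c : h.ιT a → E3} {R : h.ιT a → ℝ≥0} {ρ : E3 → ℝ≥0} {m : h.ιT a → ℝ≥0}
    {X : Sys s (reps (Te (h.T a)) s pr)} (hX : SysOf (Te (h.T a)) s pr c R ρ m X)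
    (hρ : ∀ x ∈ reps (Te (h.T a)) s pr, ∀ k ∈ (Te (h.T a)).at_ x, k ∈ s → R k ≤ m k * ρ x)
    {f : R3 → R3} (hf : ContinuousOn f Om) {Φ : R3 ≃ₜ R3} (hΦ : Mv (h.T a) Φ)
    {κe : Type*} {x v : κe → R3} {a1 : R3} {p τ₁ σ₀ η t sz : ℝ} {D : R3 → R3 →L[ℝ] R3}
    {b z : R3} {L : R3 →L[ℝ] R3} (hσ0 : 0 < σ₀) (hσ1 : σ₀ < 1) (hsz : 0 < sz)
    (hP : PerfG x v p Om f D κ τ₁ σ₀ η t sz a1 z b L) {V : Set R3}
    (hM : MeshG (h.T a) x v a1 V) (hV : cel Cb z ((1 - σ₀) * sz) ⊆ V)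
    (hs : ∀ k, P ((h.T a).H k) ⊆ ((Qb j).tr a).N → k ∈ s)
    (hpr : ∀ c : (Te (h.T a)).Cell, c.dim = 2 → (∀ k ∈ (Te (h.T a)).at_ c.pt,
      P ((h.T a).H k) ⊆ ((Qb j).tr a).N ∧ sclT h a k = (Qb j).kc) → pr c)
    {m₀ : ℝ} (hm₀ : 1 ≤ m₀)
    (hm : ∀ k, P ((h.T a).H k) ⊆ ((Qb j).tr a).N → sclT h a k = (Qb j).kc →
      (m k : ℝ) ≤ m₀ ∧ 1 / 2 ^ ((Qb j).kc + 1) ≤ (R k : ℝ))
    {τ : ℝ} (hsub : (Qb j).N ⊆ cel Cb z ((1 - τ) * sz)) (hτ1 : τ < 1) {u : ℝ} (hu : 0 < u)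
    (hku : 416 * κ⁻¹ * m₀^4 * u ≤ 1 / 2 ^ (Qb j).kc)
    (hau : ‖a‖ + 52 * m₀^4 * u ≤ (τ - σ₀) * sz) {e : ℝ} (he : 0 < e) :
    ∃ δ₀ : ℝ, 0 < δ₀ ∧ ∀ (p δ : ℝ) (hA : X.Adm p δ), δ < δ₀ → ∀ N₁ N₂ : ℕ,
      NearG ((Qb j).tr a) k0 (h.hk j) u (η * t + 100 * κ⁻¹ * m₀^4 * u + e) b L z
        (fun y => f (Φ (toR (Sys.chi hA (N₁+1) (N₂+1)) y))) := by
  obtain ⟨δ₀, hδ₀, H⟩ := gam_T0 h ha hκ hκ1 hb hX hρ hf hΦ hσ0 hσ1 hsz hP
    (near_of_mesh hM hV hP) hs hpr hm₀ hm hsub hτ1 hu hku hau he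
  refine ⟨δ₀, hδ₀, fun p δ hA hδ N₁ N₂ y0 hy0 y hy => ?_⟩
  have h1 := H p δ hA hδ N₁ N₂ y0 hy0 (w2.symm y) hy
  rw [w2.apply_symm_apply] at h1
  show ‖f (Φ (toR (Sys.chi hA (N₁+1) (N₂+1)) y)) - (b + L (y - z))‖ ≤ _
  rw [toR_apply]
  exact h1


end T

end Crest.Agent.R096.Gam_968
end

-- ▼ part R096/Lgb1_821
section

/-!
Row 96 (S0127), `p ≤ 2`, COMPOSITE B, (O1) (helper821): **the long edges of a block over 622's `SetD`**: the
join of 476's `deepS_T`, 432's `longE_of_deep`, 726's `long_M` and `nearE_T`.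
-/

set_option autoImplicit false
set_option linter.style.longLine false
set_option linter.unusedSectionVars false

namespace Crest.Agent.R096.Lgb_821

open MeasureTheory Set Filter Topology Metric
open Crest.AnalysisR.VecCalc3
open Crest.Agent.R096.Msh_715 (P I Tiling)
open Crest.Agent.R096.Mal_874 (CB)
open Crest.Agent.R096.Sq_55 (E3 Sys w2 GG GG_mono)
open Crest.Agent.R096.Cob_622
open Crest.Agent.R096.Efi_296
open Crest.Agent.R096.Cbs_296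
open Crest.Agent.R096.Sqt_143 (sg Edge DeepS)
open Crest.Agent.R096.Oi_961
open Crest.Agent.R096.Ca_855
open Crest.Agent.R096.Ca_855.MIn (BQ)
open Crest.Agent.R096.Gsc_476
open Crest.Agent.R096.Dps_476
open Crest.Agent.R096.Lnk_726
open Crest.Agent.R096.Onp_622 (SetD)
open Crest.Agent.R096.H2a_821 (SnS npS nearE_T)
open Crest.Agent.R096.She_227 (sE)
open Crest.Agent.R096.Sht_726 (NW)
open Crest.Agent.R096.Pin_753 (Ed)
open Crest.Agent.R96.Coarse_538 (seg)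
open scoped ENNReal NNReal

noncomputable section

/-- the radius of the zone of the long edges -/
def rz (κ : ℝ) (vI : ℝ≥0) (k0 : ℕ) : ℝ := 20 * (GG vI : ℝ) ^ 4 * κ⁻¹ / 2 ^ k0

/-- the short edges of the block -/
def ShB {Om W : Set R3} {ρ₀ : R3 → ℝ} {J : Type} [Finite J] {Qb : J → CB R3 3} {k0 : ℕ} {σ : ℝ}
    (h : MIn Om W ρ₀ Qb k0 σ) (a : R3) (j : J) (κ : ℝ) (vI : ℝ≥0) (K1 : ℕ) : Set (R3 × R3) :=
  {e | ¬ Lg h a j K1 (rz κ vI k0) e}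

theorem not_mem_ShB {Om W : Set R3} {ρ₀ : R3 → ℝ} {J : Type} [Finite J] {Qb : J → CB R3 3} {k0 : ℕ}
    {σ : ℝ} {h : MIn Om W ρ₀ Qb k0 σ} {a : R3} {j : J} {κ : ℝ} {vI : ℝ≥0} {K1 : ℕ} {e : R3 × R3}
    (he : e ∉ ShB h a j κ vI K1) : Lg h a j K1 (rz κ vI k0) e := by
  by_contra hcon
  exact he hcon

/-- **the long edges of a block**: all the constants see `κ, Bs, nb, vI, K3` only, `K1` is any number `≥ K₀`,
`N` sees also `K1` -/
theorem long_blk (Bs : ℕ) {κ : ℝ} (hκ : 0 < κ) (hκ1 : κ ≤ 1) (nb : ℕ) (vI : ℝ≥0) (hvI : 1 ≤ vI)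
    (K3 : ℕ) (hK3 : 1 ≤ K3) :
    ∃ (np nc nw K₀ : ℕ) (lam cV Cb : ℝ), 0 < lam ∧ 0 < cV ∧ 0 ≤ Cb ∧ K3 + 1 ≤ K₀ ∧ 4 ≤ K₀ ∧
    ∀ K1, K₀ ≤ K1 → ∃ N : ℕ,
    ∀ {p : ℝ} {Om W : Set R3} {ρ₀ : R3 → ℝ} {J : Type} [Finite J]
      {Qb : J → CB R3 3} {k0 Nn : ℕ} {σ : ℝ} (h : MIn Om W ρ₀ Qb k0 σ),
      (∀ j, BQ κ Bs Nn (Qb j) k0) → ∀ {a : R3}, ‖a‖ ≤ σ / 8 →
    ∀ {kk : J → Fin 3 → ℤ} {Q : Finset (Fin 3 → ℤ)} {vU vN : ℝ≥0} {f : R3 → R3} {Φ : R3 ≃ₜ R3}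
      {U K₀ : Set R3} {s : Finset (h.ιT a)} {pr : (Te (h.T a)).Cell → Prop} {c : h.ιT a → E3}
      {κt : h.ιT a → ℕ} {R u : h.ιT a → ℝ≥0} {X : Sys s (reps (Te (h.T a)) s pr)},
      SetD p h a kk Q K1 K3 vU vI vN f Φ U K₀ s pr c κt R u X →
      (∀ t, {l | (P ((h.T a).H l) ∩ P ((h.T a).H t)).Nonempty}.ncard ≤ nb) →
    ∀ {κe : Type*} {x v : κe → R3} {b : R3} {me : EgS (Te (h.T a)) s → κe},
      (∀ c, w2 '' c.1.set = seg x v b (me c)) →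
    ∀ (j : J), kk j ∈ Q → ((Qb j).tr a).N ⊆ K₀ → (Qb j).kc + K1 < k0 →
    ∀ {C : Set R3}, ((Qb j).tr a).N ⊆ C → ∀ {uu : ℝ}, uu = 4 * κ⁻¹ / (5 * 2 ^ k0) →
      DeepS (h.T a) s pr R (mS (Te (h.T a)) s pr u) (ρS (Te (h.T a)) R) uu C (GG vI) nb
        (deepJ h a j K1) ∧
      (∀ e ∈ Ed ((Qb j).tr a) k0 (h.hk j), e ∉ ShB h a j κ vI K1 → ∃ m' t S,
        LongE (h.T a) s pr R (ρS (Te (h.T a)) R) (mS (Te (h.T a)) s pr u) x v b me C nb (2 ^ nb)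
          np nc lam cV (GG vI) uu e m' t S ∧
        NearE X (npS X (mS (Te (h.T a)) s pr u) uu nw Cb) nw Cb e m' t) ∧
      (∀ e ∈ Ed ((Qb j).tr a) k0 (h.hk j), e ∈ ShB h a j κ vI K1 →
        ∃ y ∈ segment ℝ e.1 e.2, NW ((Qb j).tr a) k0 N y) ∧
      ((Qb j).kc + N ≤ k0 → ∀ e ∈ Ed ((Qb j).tr a) k0 (h.hk j),
        segment ℝ e.1 e.2 ⊆ ((Qb j).tr a).Kc → e ∉ ShB h a j κ vI K1) := by
  obtain ⟨np, nc, KL, lam, cV, hlam, hcV, hKL, HL⟩ := Shp_432.longE_of_deep Bs hκ hκ1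
  obtain ⟨Dd, hDd, HN⟩ := nearE_T Bs
  set M : ℝ≥0 := GG vI with hM
  have hM1 : 1 ≤ M := Sq_55.one_le_GG vI
  set cu : ℝ := 4 * κ⁻¹ / 5 with hcu
  have hcu0 : 0 ≤ cu := by positivity
  obtain ⟨K₁, hK₁, hK₁4, hK₁A⟩ := exists_K1
    (max (80 * (M : ℝ) ^ 4 * cu) (16 * (vI:ℝ)^9 * (1 + 4 * ((M : ℝ) * M)) * cu)) K3
  refine ⟨np, nc, (nb + nb * nb) * ⌊vI⌋₊ + 2, max K₁ KL, lam, cV,
    8 * (vI:ℝ)^9 * (1 + 4 * ((M : ℝ) * M)) * (8 * Dd / κ), hlam, hcV, by positivity,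
    hK₁.trans (le_max_left _ _), hK₁4.trans (le_max_left _ _), ?_⟩
  intro K1 hK1
  have hK1a : K₁ ≤ K1 := (le_max_left _ _).trans hK1
  have hK1L : KL ≤ K1 := (le_max_right _ _).trans hK1
  have hpow : (2:ℝ) ^ K₁ ≤ 2 ^ K1 := pow_le_pow_right₀ one_le_two hK1a
  obtain ⟨N, HM⟩ := long_M hκ K1 (cz := 20 * (M : ℝ) ^ 4 * κ⁻¹) (by positivity)
  refine ⟨N, ?_⟩
  intro p Om W ρ₀ J _ Qb k0 Nn σ h hb a ha kk Q vU vN f Φ U K₀ s pr c κt R u X hS hnb κe x v b me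
    hme j hj hNK hkc C hC uu huu
  have huc : uu ≤ cu / 2 ^ k0 := by
    rw [huu, hcu, div_div]
  have hD : DeepS (h.T a) s pr R (mS (Te (h.T a)) s pr u) (ρS (Te (h.T a)) R) uu C (GG vI) nb
      (deepJ h a j K1) :=
    deepS_T h ha hK3 (hK₁.trans hK1a) hS.mem_s hNK
      (fun c hc h1 h2 => hS.pr_of c hc h1 (.inr fun k hk => deepJ_sub h hj (h2 hk)))
      hS.κ2 hS.R_eq hS.R2 (hS.uI j) hnb hC hcu0 huc
      ((le_max_left _ _).trans (hK₁A.trans hpow))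
  have hzone : 25 * (M : ℝ) ^ 4 * uu = rz κ vI k0 := by
    rw [huu, zone_eq]; rfl
  have hcell : ∀ {e : R3 × R3}, Lg h a j K1 (rz κ vI k0) e → ∀ l,
      (P ((Te (h.T a)).H l) ∩ cthickening (25 * (M : ℝ)^4 * uu) (sE e)).Nonempty →
      l ∈ deepJ h a j K1 := by
    intro e he l hl
    obtain ⟨y, hy1, hy2⟩ := hl
    refine he l ⟨w2 y, mem_P_Te.1 hy1, ?_⟩
    rw [← hzone]
    exact mem_image_of_mem _ hy2
  refine ⟨hD, fun e he hes => ?_, fun e he hes => ?_, fun hkN e he hKc hes => ?_⟩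
  · have hLg := not_mem_ShB hes
    obtain ⟨m', t, S, hLE⟩ := HL h hb ha j hK1L hme hM1 huu hD e he (hcell hLg)
    refine ⟨m', t, S, hLE, ?_⟩
    refine HN hκ hκ1 h hb ha hK3 (hK₁.trans hK1a) hS.sys hS.edge hS.κ2 hS.R_eq hS.R2 hvI (hS.uI j)
      hD hcu0 huc ((le_max_right _ _).trans (hK₁A.trans hpow)) le_rfl le_rfl hLE.cell ?_
    intro i hi l hl
    refine hcell hLg l (hl.mono (inter_subset_inter_right _ ?_))
    -- a piece lies in the edge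
    have huu0 : 0 ≤ uu := by rw [huu]; positivity
    refine Subset.trans ?_ (self_subset_cthickening _)
    have hmono : ∀ i ≤ m', 0 ≤ t i := by
      intro i
      induction i with
      | zero => intro _; rw [hLE.t0]
      | succ i ih =>
        intro hi'
        have h1 := hLE.gap i (by omega)
        have h2 := ih (by omega)
        linarith
    have hmono' : ∀ i ≤ m', ∀ i' ≤ i, t i' ≤ t i := by
      intro i
      induction i with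
      | zero => intro _ i' hi'; rw [Nat.le_zero.1 hi']
      | succ i ih =>
        intro hi' i' hi2
        rcases Nat.lt_or_ge i' (i + 1) with h1 | h1
        · have h2 := hLE.gap i (by omega)
          have h3 := ih (by omega) i' (by omega)
          linarith
        · rw [le_antisymm hi2 h1]
    have ht1 : t (i + 1) ≤ 1 := by
      have := hmono' m' le_rfl (i + 1) (by omega)
      rwa [hLE.tm] at this
    have hti := hmono i hi.le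
    have hgap := hLE.gap i hi
    rintro y ⟨r, ⟨hr0, hr1⟩, rfl⟩
    refine ⟨t i + r * (t (i + 1) - t i), ⟨by nlinarith, by nlinarith⟩, ?_⟩
    show w2.symm e.1 + (t i + r * (t (i + 1) - t i)) • w2.symm (e.2 - e.1) =
      w2.symm e.1 + t i • w2.symm (e.2 - e.1) + r • ((t (i + 1) - t i) • w2.symm (e.2 - e.1))
    rw [add_smul, smul_smul, add_assoc]
  · exact (HM h ha j (hb j) hkc he).1 hes
  · exact hes ((HM h ha j (hb j) hkc he).2 hkN hKc)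

end

end Crest.Agent.R096.Lgb_821
end

-- ▼ part R096/Oi4_961
section

/-!
Row 96 (S0127), helper961, COMPOSITE B, (O1): `o1_of`, the block estimates `InP` of all blocks of `h.T a` from the
clauses of `cob_T`, in the format `Onp_622.O1`.
-/

set_option autoImplicit false
set_option linter.unusedSectionVars false
set_option linter.style.longLine false

open Set Metric Filter Topology MeasureTheory
open scoped ENNReal NNReal

namespace Crest.Agent.R096.Oi_961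

open Crest.AnalysisR.VecCalc3 Crest.AnalysisR.Sobolev
open Crest.Agent.R096.Msh_715 (P I Tiling)
open Crest.Agent.R096.Mal_874 (CB ZP)
open Crest.Agent.R096.Sk_962 (SH)
open Crest.Agent.R096.Sk2_855 (Mv)
open Crest.Agent.R096.Sq_55 (E3 Sys w2 toR GG GG_mono)
open Crest.Agent.R096.Sqt_143 (sg cu Zn CT AE DeepS)
open Crest.Agent.R096.Cob_622
open Crest.Agent.R096.Efi_296
open Crest.Agent.R096.Cbs_296
open Crest.Agent.R096.Fce_793 (pt)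
open Crest.Agent.R096.H2a_821 (A1 A2 SnS npS npS_spec)
open Crest.Agent.R096.She_227 (sE ShE Kz Zw exists_short mem_Kz)
open Crest.Agent.R096.Hb_82 (Ct)
open Crest.Agent.R096.Sht_726 (NW)
open Crest.Agent.R096.Ca_855 (MIn deepT)
open Crest.Agent.R096.Ca_855.MIn (BQ)
open Crest.Agent.R096.Dps_476 (deepJ)
open Crest.Agent.R096.Gsc_476 (sclT)
open Crest.Agent.R096.Onp_622 (SetD O1 CellsC E1C E2C NC O1A)
open Crest.Agent.R96.Coarse_538 (seg vt Cb PerfG)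
open Crest.Agent.R96.Intr_538 (cel par)
open Crest.Agent.R96.Gdt_538 (MeshG)
open Crest.Agent.R96.Lu_538 (Gmat)
open Crest.Agent.R096.Br_695 (En)
open Crest.Agent.R096.Pin_753
open Crest.Agent.R096.Pas_753 (Pos gF)

noncomputable section

section aux

theorem min_real {J : Type*} [Finite J] (d : J → ℝ) (hd : ∀ j, 0 < d j) :
    ∃ δ₀ : ℝ, 0 < δ₀ ∧ ∀ j, δ₀ ≤ d j := by
  rcases isEmpty_or_nonempty J with hJ | hJ
  · exact ⟨1, one_pos, fun j => (hJ.false j).elim⟩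
  · obtain ⟨j, hj⟩ := Finite.exists_min d
    exact ⟨d j, hd j, hj⟩

theorem min_enn {J : Type*} [Finite J] (d : J → ℝ≥0∞) (hd : ∀ j, d j ≠ 0) :
    ∃ δ₀ : ℝ≥0∞, δ₀ ≠ 0 ∧ ∀ j, δ₀ ≤ d j := by
  rcases isEmpty_or_nonempty J with hJ | hJ
  · exact ⟨1, one_ne_zero, fun j => (hJ.false j).elim⟩
  · obtain ⟨j, hj⟩ := Finite.exists_min d
    exact ⟨d j, hd j, hj⟩

/-- the first condition on `ε` -/
theorem exists_epsL {Q : CB R3 3} {k0 : ℕ} {hk : Q.kc ≤ k0} (Sh : Set (R3 × R3)) {p u : ℝ}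
    (hp : 0 ≤ p) (hu : 0 < u) {L : R3 →L[ℝ] R3} (hL : 0 < ‖L‖)
    (hne : ∀ e ∈ Ed Q k0 hk, e ∉ Sh → e.2 - e.1 ≠ 0) :
    ∃ ε : ℝ≥0∞, ε ≠ 0 ∧ ∀ ε' ≤ ε, ∀ e ∈ Ed Q k0 hk, e ∉ Sh →
      ε' ≤ ENNReal.ofReal (u^2 * ‖e.2 - e.1‖) * ‖L‖ₑ ^ p := by
  have hfin := Tra_227.ed_finite Q k0 hk
  have : Finite (Ed Q k0 hk) := hfin
  classical
  obtain ⟨ε, hε, h⟩ := min_enn (fun e : Ed Q k0 hk =>
    if (e : R3 × R3) ∈ Sh then 1 else ENNReal.ofReal (u^2 * ‖e.1.2 - e.1.1‖) * ‖L‖ₑ ^ p) (by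
      rintro ⟨e, he⟩
      dsimp only
      split_ifs with h
      · exact one_ne_zero
      · refine mul_ne_zero ?_ ?_
        · have := norm_pos_iff.2 (hne e he h)
          exact (ENNReal.ofReal_pos.2 (by positivity)).ne'
        · rw [← ofReal_norm_eq_enorm]
          exact (ENNReal.rpow_pos (ENNReal.ofReal_pos.2 hL) ENNReal.ofReal_ne_top).ne')
  refine ⟨ε, hε, fun ε' hε' e he heS => hε'.trans ((h ⟨e, he⟩).trans ?_)⟩
  rw [if_neg heS]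

/-- numbers -/
theorem num_T0 {c1 c2 τ κw κ M cu r θ0 : ℝ} {K1 N : ℕ} (hκ : 0 < κ) (hM : 0 < M) (hcu : 0 < cu)
    (hr : 0 < r) (hθ0 : 0 < θ0) (R2 : θ0 * (2 ^ (K1 + N + 1) + 416 * κ⁻¹ * M^4 * cu) ≤ c1)
    (R3 : θ0 * (64 * κ⁻¹ * r + 16) ≤ c2) (R4 : θ0 * (8 * (2 + 60 * M^4 * cu)) ≤ τ)
    (R5 : θ0 * (400 * κ⁻¹ * M^4 * cu) ≤ κw) :
    2 ^ K1 * θ0 < c1 ∧ 2 ^ N * θ0 < c1 ∧ 416 * κ⁻¹ * M^4 * cu * θ0 ≤ c1 ∧
      32 * κ⁻¹ * r * θ0 < c2 ∧ 16 * θ0 ≤ c2 ∧ (2 + 60 * M^4 * cu) * θ0 ≤ τ / 8 ∧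
      100 * κ⁻¹ * M^4 * cu * θ0 ≤ κw / 4 := by
  have hκ' : 0 < κ⁻¹ := inv_pos.2 hκ
  have h1 : (2:ℝ) ^ K1 ≤ 2 ^ (K1 + N) := pow_le_pow_right₀ one_le_two (by omega)
  have h1' : (2:ℝ) ^ N ≤ 2 ^ (K1 + N) := pow_le_pow_right₀ one_le_two (by omega)
  have h2 : (0:ℝ) < 2 ^ (K1 + N) * θ0 := by positivity
  have h3 : 0 < κ⁻¹ * M^4 * cu * θ0 := by positivity
  have h4 : 0 < κ⁻¹ * r * θ0 := by positivity
  have e2 : θ0 * (2 ^ (K1 + N + 1) + 416 * κ⁻¹ * M^4 * cu) =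
      2 * (2 ^ (K1 + N) * θ0) + 416 * (κ⁻¹ * M^4 * cu * θ0) := by rw [pow_succ]; ring
  rw [e2] at R2
  have e3 : θ0 * (64 * κ⁻¹ * r + 16) = 64 * (κ⁻¹ * r * θ0) + 16 * θ0 := by ring
  rw [e3] at R3
  have h5 : 2 ^ K1 * θ0 ≤ 2 ^ (K1 + N) * θ0 := by gcongr
  have h5' : 2 ^ N * θ0 ≤ 2 ^ (K1 + N) * θ0 := by gcongr
  refine ⟨by linarith, by linarith, by linarith, by linarith, by linarith, by linarith,
    by linarith⟩

end aux

/-- the error of the block in the form of 622's `erT` -/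
theorem er_le {Om W : Set R3} {ρ₀ : R3 → ℝ} {J : Type} [Finite J] {Qb : J → CB R3 3} {k0 : ℕ} {σ : ℝ}
    (h : MIn Om W ρ₀ Qb k0 σ) (a : R3) (j : J) {s : Finset (h.ιT a)} (Jf : s → ℝ≥0∞)
    {r Rl Cer : ℝ} (hr : r ≤ Rl) {A C C' ε : ℝ≥0∞} (h1 : A * C ≤ ENNReal.ofReal Cer)
    (h2 : A * C' ≤ ENNReal.ofReal Cer) :
    A * ∑ k ∈ Kz h a j r s, (C * Jf k + C' * ε) ≤ Onp_622.erT h a Jf Rl Cer ε j := by
  unfold Onp_622.erT
  rw [Finset.mul_sum, Finset.mul_sum]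
  refine (Finset.sum_le_sum fun k _ => ?_).trans (Finset.sum_le_sum_of_subset fun k hk => ?_)
  · rw [mul_add, mul_add, ← mul_assoc, ← mul_assoc]
    gcongr
  · rw [mem_Kz] at hk
    obtain ⟨y, hy, z, hz, h3⟩ := hk
    rw [Onp_622.mem_zoneS]
    refine ⟨y, hy, z, hz, h3.trans ?_⟩
    gcongr

set_option maxHeartbeats 4000000 in
/-- **(O1)**: the block estimates of all blocks of `h.T a` -/
theorem o1_of (Bs : ℕ) {κ : ℝ} (hκ : 0 < κ) (hκ1 : κ ≤ 1) {vI : ℝ≥0} (hvI : 1 ≤ vI) {K3 : ℕ}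
    (hK3 : 1 ≤ K3) (nb : ℕ) {p : ℝ} (hp1 : 1 ≤ p) (hp2 : p ≤ 2) :
    ∃ K₀ : ℕ, K3 + 1 ≤ K₀ ∧ 4 ≤ K₀ ∧ ∀ K1, K₀ ≤ K1 → ∃ r C₁ : ℝ, 7 ≤ r ∧
    ∀ vN : ℝ≥0, ∃ Cer₀ : ℝ, 0 ≤ Cer₀ ∧
    ∀ {D τ hh c1 c2 κw : ℝ}, 0 < D → 0 < τ → τ ≤ 1 / 4 → 0 < hh → 0 < c1 → 0 < c2 → 0 < κw →
      24 * D * hh ≤ τ →
    ∃ θ₀ σ₀ η₀ : ℝ, 0 < θ₀ ∧ 0 < σ₀ ∧ 0 < η₀ ∧
    ∀ {θ0 θ1 σ' η₁ s C1 Rl Cer dd : ℝ} {Nn : ℕ}, 0 < θ0 → θ0 ≤ θ₀ → 0 < σ' → σ' ≤ σ₀ → 0 < η₁ →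
      η₁ ≤ η₀ → 0 < s → C₁ ≤ C1 → r ≤ Rl → Cer₀ ≤ Cer → dd < κ * (τ / 12 * s) / 4 →
    ∀ {Om La W : Set R3} {f : R3 → R3} {G : Fin 3 → R3 → R3}, IsOpen Om → SH p Om La f G →
      W ⊆ Om →
    ∀ {ρ₀ : R3 → ℝ} {J : Type} [Finite J] {kk : J → Fin 3 → ℤ} {Qb : J → CB R3 3} {k0 : ℕ}
      (hk : ∀ j, (Qb j).kc ≤ k0)
      {a₀ : R3} {Q : Finset (Fin 3 → ℤ)} {b : (Fin 3 → ℤ) → R3} {L : (Fin 3 → ℤ) → R3 →L[ℝ] R3},
      (∀ j, BlkP κ s τ hh c1 θ0 θ1 Bs Nn (vt (2 * s) a₀ (kk j)) (Qb j) k0) →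
      1 / 2 ^ k0 ≤ θ0 * s →
      (∀ k ∈ Q, (∀ v, κ * ‖v‖ ≤ ‖L k v‖) ∧ ‖L k‖ ≤ κ⁻¹) →
      (∀ k ∈ Q, cel Cb (vt (2 * s) a₀ k) s ⊆ W) →
    ∀ (h : MIn Om W ρ₀ Qb k0 (c2 * s)) {a : R3}, ‖a‖ ≤ 2 / 2 ^ k0 →
      (∀ t, {l | (P ((h.T a).H l) ∩ P ((h.T a).H t)).Nonempty}.ncard ≤ nb) →
    -- the good position
    ∀ {κi : Type} {x v : κi → R3} {κf : Type} {xf : κf → R3} {ef : κf → Fin 2 → R3}
      {Pf : κf → Set (ℝ × ℝ)} {d σr : ℝ},
      Pos p Om La W f G (h.T a) x v xf ef Pf κ (τ / 12) (τ / 24) η₁ (D * hh * s) s d σr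
        (vt (2 * s) a₀) b L Q a →
    -- the families of all cells
    ∀ {κe' κf' : Type} {x' v' : κe' → R3} {e' : κf' → Fin 2 → R3} {xx' : κf' → R3}
      {Qf' : κf' → Set (ℝ × ℝ)} (hQf : ∀ φ, IsCompact (Qf' φ))
      (hG : ∀ i, GoodA Om (gF p G L i) x' v' e' xx' a) (vU : ℝ≥0),
      O1A p La f G κ (τ / 12) s (σ' * (D * hh * s)) dd C1 κw Rl Cer (vt (2 * s) a₀) b L kk Q hk h a
        K1 K3 vU vI vN hQf hG := by
  obtain ⟨np, nc, nw, K₀, lam, cV, Cb', hlam, hcV, hCb', hK₀, hK₀4, hlong⟩ :=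
    Lgb_821.long_blk Bs hκ hκ1 nb vI hvI K3 hK3
  obtain ⟨N', hsh⟩ := exists_short Bs
  obtain ⟨K₁, hsh⟩ := hsh hκ hκ1
  refine ⟨max K₀ K₁, by omega, by omega, fun K1 hK1 => ?_⟩
  obtain ⟨N, hlong⟩ := hlong K1 ((le_max_left _ _).trans hK1)
  obtain ⟨r, hr, hsh⟩ := hsh N
  obtain ⟨c2', Λ, mI, hc2', hΛ, hblk⟩ := inP_block Bs hκ N (dm := 4 * κ⁻¹ * max 1 (Bs:ℝ) * r)
    (by positivity)
  refine ⟨r, 512 * κ⁻¹ ^ 6 * AL p (3 / 2) (GG vI) nb (2 ^ nb) np nc cV κ * c2', hr, fun vN => ?_⟩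
  obtain ⟨Czn, hCzn⟩ : ∃ Czn : ℝ≥0∞, Czn = ENNReal.ofReal (CB p (3 / 2) (GG vN)) +
    N' * ENNReal.ofReal (CE p (3 / 2) (GG vN)) := ⟨_, rfl⟩
  have hCzt : Czn ≠ ∞ := by rw [hCzn]; finiteness
  obtain ⟨A₀, hA₀⟩ : ∃ A₀ : ℝ≥0∞, A₀ = ENNReal.ofReal (512 * Ct κ * Λ ^ 2) * mI := ⟨_, rfl⟩
  have hA₀t : A₀ ≠ ∞ := by rw [hA₀]; finiteness
  refine ⟨max (A₀ * Czn).toReal (A₀ * (N' + 1)).toReal, by positivity, ?_⟩
  intro D τ hh c1 c2 κw hD hτ hτ4 hhh hc1 hc2 hκw hDh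
  obtain ⟨nM, hnM, hnMc⟩ := Nme_227.ncard_M κ c1 hκ hc1 Bs
  obtain ⟨cl, hcl, hlen⟩ := Nme_227.len_M_tr Bs
  obtain ⟨η, hη, θ₁, hθ₁, η₂, hη₂, σ₂, hσ₂, hnum⟩ := H2a_821.exists_num2a (p := p) (κ := κ)
    (cV := cV) (Cb := Cb') (κw := κw) (c₀ := κ / 4 * (cl * c1)) (GG vI) nb (2 ^ nb) np nc nw
    (nM := nM) hp1 (by linarith) hκ hcV.le hCb' hκw (by positivity) hnM
  have hM1 : (1:ℝ) ≤ GG vI := by exact_mod_cast Sq_55.one_le_GG vI
  have hM1' : (1 : ℝ≥0) ≤ GG vI := Sq_55.one_le_GG vI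
  have hM0 : (0:ℝ) < GG vI := by linarith
  obtain ⟨cu, hcu⟩ : ∃ cu : ℝ, cu = 4 * κ⁻¹ / 5 := ⟨_, rfl⟩
  have hcu0 : 0 < cu := by rw [hcu]; positivity
  have hr0 : 0 < r := by linarith
  have hDh0 : 0 < D * hh := mul_pos hD hhh
  refine ⟨min θ₁ (min (c1 / (2 ^ (K1 + N + 1) + 416 * κ⁻¹ * (GG vI : ℝ)^4 * cu))
    (min (c2 / (64 * κ⁻¹ * r + 16)) (min (τ / (8 * (2 + 60 * (GG vI : ℝ)^4 * cu)))
      (κw / (400 * κ⁻¹ * (GG vI : ℝ)^4 * cu))))),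
    min (σ₂ / (D * hh)) (κw / (12 * (D * hh))), min η₂ (min κ (κw / (4 * (D * hh)))),
    by positivity, by positivity, by positivity, ?_⟩
  intro θ0 θ1 σ' η₁ s C1 Rl Cer dd Nn hθ0 hθ hσ' hσ hη₁ hη₁' hs hC1 hRl hCer hdd
  obtain ⟨T1, hθ⟩ := le_min_iff.1 hθ
  obtain ⟨T2, hθ⟩ := le_min_iff.1 hθ
  obtain ⟨T3, hθ⟩ := le_min_iff.1 hθ
  obtain ⟨T4, T5⟩ := le_min_iff.1 hθ
  obtain ⟨S1, S2⟩ := le_min_iff.1 hσ
  obtain ⟨E1, hη₁'⟩ := le_min_iff.1 hη₁'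
  obtain ⟨E2, E3⟩ := le_min_iff.1 hη₁'
  rw [le_div_iff₀ (by positivity)] at T2 T3 T4 T5 S1 S2 E3
  obtain ⟨T2a, T2b, T2c, T3a, T3b, T4a, T5a⟩ := num_T0 hκ hM0 hcu0 hr0 hθ0 T2 T3 T4 T5
  intro Om La W f G hOm hf hWO ρ₀ J _ kk Qb k0 hk a₀ Q b L hblkP hk0 hL hcW h a ha hnb κi x v κf xf ef
    Pf d σr hPos κe' κf' x' v' e' xx' Qf' hQf hG vU Φ U hMv hU hg2 s' pr c κt R u X H me mf hme hmf
  obtain ⟨uu, huu⟩ : ∃ uu : ℝ, uu = 4 * κ⁻¹ / (5 * 2 ^ k0) := ⟨_, rfl⟩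
  rw [← huu]
  have huc : uu = cu / 2 ^ k0 := by rw [huu, hcu]; field_simp
  have huu0 : 0 < uu := by rw [huc]; positivity
  have hus : uu ≤ cu * (θ0 * s) := by
    rw [huc, div_eq_mul_one_div]; gcongr
  have hBQ : ∀ j, BQ κ Bs Nn (Qb j) k0 := fun j => MIn.bq_of_blkP (hblkP j)
  have haθ : ‖a‖ ≤ 2 * (θ0 * s) := by
    have h1 : (2:ℝ) / 2 ^ k0 ≤ 2 * (θ0 * s) := by rw [div_eq_mul_one_div]; gcongr
    exact ha.trans h1
  have ha8 : ‖a‖ ≤ c2 * s / 8 := by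
    have h1 := mul_le_mul_of_nonneg_right T3b hs.le
    linarith only [haθ, h1]
  have hfc : ContinuousOn f Om := by
    obtain ⟨_, _, _, _, _, h5, _⟩ := hf.homeo
    exact h5
  have hM4 : (1:ℝ) ≤ (GG vI : ℝ)^4 := one_le_pow₀ hM1
  have hM4u : uu ≤ (GG vI : ℝ)^4 * uu := le_mul_of_one_le_left huu0.le hM4
  have hpos : 2 * (θ0 * s) + 60 * ((GG vI : ℝ)^4 * uu) ≤ τ * s / 8 := by
    have h1 := mul_le_mul_of_nonneg_right T4a hs.le
    have h2 : (GG vI : ℝ)^4 * uu ≤ (GG vI : ℝ)^4 * (cu * (θ0 * s)) := by gcongr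
    have h3 : (2 + 60 * (GG vI : ℝ)^4 * cu) * θ0 * s =
      2 * (θ0 * s) + 60 * ((GG vI : ℝ)^4 * (cu * (θ0 * s))) := by ring
    rw [h3] at h1
    linarith only [h1, h2]
  have hτs : 0 < τ * s := mul_pos hτ hs
  have hts : D * hh * s ≤ τ * s / 24 := by
    have h1 := mul_le_mul_of_nonneg_right hDh hs.le
    linarith only [h1]
  have hτs4 : τ * s ≤ s / 4 := by
    have h1 := mul_le_mul_of_nonneg_right hτ4 hs.le
    linarith only [h1]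
  have hmS : ∀ k, mS (Te (h.T a)) s' pr u k ≤ GG vN := fun k =>
    mS_le (H.uN k) fun l _ _ => H.uN l
  have hr1 : 0 < (1 - τ) * s := mul_pos (by linarith only [hτ4]) hs
  -- the position of the blocks
  have hNcA : ∀ j, kk j ∈ Q → ∀ y ∈ ((Qb j).tr a).N, ∀ y', ‖y' - y‖ ≤ 2 * uu →
      y' ∈ cel Cb (vt (2 * s) a₀ (kk j)) s := by
    intro j hj y hy y' hyy
    rw [CB.mem_N_tr] at hy
    refine Eta_812.cel_of_near hr1 hs ((hblkP j).sub hy) (t := 2 * uu + ‖a‖) ?_ ?_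
    · have e1 : y' - (y - a) = (y' - y) + a := by abel
      rw [e1]
      exact (norm_add_le _ _).trans (add_le_add hyy le_rfl)
    · have e1 : (1 - τ) * s = s - τ * s := by ring
      rw [e1]
      linarith only [hpos, haθ, hM4u, hτs, huu0]
  have hNCA : ∀ j, kk j ∈ Q → ((Qb j).tr a).N ⊆ cel Cb (vt (2 * s) a₀ (kk j)) s :=
    fun j hj y hy => hNcA j hj y hy y (by rw [sub_self, norm_zero]; positivity)
  have hNWA : ∀ j, kk j ∈ Q → ((Qb j).tr a).N ⊆ W := fun j hj => (hNCA j hj).trans (hcW _ hj)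
  have hsmall : ∀ k ∈ deepT h a kk Q K1, SmallR R (mS (Te (h.T a)) s' pr u) uu k := by
    rintro k ⟨j, hj, hk1, hk2⟩
    exact (hlong h hBQ ha8 H hnb hme j hj (hNWA j hj) (Lnk_726.kc_lt (hblkP j) hs T2a)
      (subset_univ _) huu).1.sm k ⟨hk1, hk2⟩
  have hkey : ∀ j, ∃ (δ₀ : ℝ) (ε₀ : ℝ≥0∞), 0 < δ₀ ∧ ε₀ ≠ 0 ∧ (kk j ∈ Q → ∀ ε ≤ ε₀, ∀ δ < δ₀,
      ∀ (hA : X.Adm p δ) (N₁ N₂ : ℕ) (Rr : R3 ≃ₜ R3) (Gg G₂ : Fin 3 → R3 → R3),
      Onp_622.PrR κ (τ / 12) s (σ' * (D * hh * s)) b L Q Rr →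
      SH p Om La (fun x => f (Φ (toR (Sys.chi hA (N₁+1) (N₂+1)) x))) Gg →
      SH p Om La (fun x => Rr (f (Φ (toR (Sys.chi hA (N₁+1) (N₂+1)) x)))) G₂ →
      CellsC (h.T a) s' pr (mS (Te (h.T a)) s' pr u)
        (efS (hG none) hQf hme hmf X H.sys.rim H.sys.Z) (3 / 2) ε G₂ →
      E1C hQf hme hmf (hG none) H.sys (3 / 2) uu ε G₂ →
      E2C (h.T a) s' pr R (mS (Te (h.T a)) s' pr u)
        (efS (hG none) hQf hme hmf X H.sys.rim H.sys.Z) (3 / 2) uu ε G₂ →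
      NC (Lx := {k // k ∈ Q}) (LL := fun k => L k) hQf hme hmf (fun k => hG (some k)) H.sys uu
        (npS X (mS (Te (h.T a)) s' pr u) uu nw Cb') ε Gg →
      InP p (fun x => Rr (f (Φ (toR (Sys.chi hA (N₁+1) (N₂+1)) x)))) (Gmat G₂) C1 κw s (b (kk j))
        (L (kk j)) (vt (2 * s) a₀ (kk j)) (Onp_622.erT h a
          (efS (hG none) hQf hme hmf X H.sys.rim H.sys.Z).J Rl Cer ε j) ((Qb j).tr a) k0
          (h.hk j)) := by
    intro j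
    by_cases hj : kk j ∈ Q
    swap
    · exact ⟨1, 1, one_pos, one_ne_zero, fun h => (hj h).elim⟩
    have hbj := hblkP j
    obtain ⟨hL1, hL2⟩ := hL _ hj
    have hcWj := hcW _ hj
    have hNc := hNcA j hj
    have hNC := hNCA j hj
    have hNW := hNWA j hj
    have hkc1 : (Qb j).kc + K1 < k0 := Lnk_726.kc_lt hbj hs T2a
    have hkcN : (Qb j).kc + N < k0 := Lnk_726.kc_lt hbj hs T2b
    -- long edges
    obtain ⟨hdeep, hlongE, hSh, hMSh⟩ := hlong h hBQ ha8 H hnb hme j hj hNW hkc1 hNC huu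
    have hMSh' := hMSh hkcN.le
    -- short edges
    obtain ⟨s1, s2, s3, s4⟩ := hsh h hBQ (by
      have h1 := mul_lt_mul_of_pos_right T3a hs
      have h2 : r / 2 ^ k0 ≤ r * (θ0 * s) := by rw [div_eq_mul_one_div]; gcongr
      have h3 : 4 * κ⁻¹ * (r / 2 ^ k0) ≤ 4 * κ⁻¹ * (r * (θ0 * s)) := by gcongr
      have e1 : 32 * κ⁻¹ * r * θ0 * s = 8 * (4 * κ⁻¹ * (r * (θ0 * s))) := by ring
      rw [e1] at h1
      linarith only [h1, h3]) ha8 j huu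
    -- the clause `gam`
    have hkc : 416 * κ⁻¹ * (GG vI : ℝ)^4 * uu ≤ 1 / 2 ^ (Qb j).kc := by
      have h1 := mul_le_mul_of_nonneg_right T2c hs.le
      have h2 : 416 * κ⁻¹ * (GG vI : ℝ)^4 * uu ≤ 416 * κ⁻¹ * (GG vI : ℝ)^4 * (cu * (θ0 * s)) := by
        gcongr
      have h3 := hbj.cellL
      have e1 : 416 * κ⁻¹ * (GG vI : ℝ)^4 * cu * θ0 * s =
        416 * κ⁻¹ * (GG vI : ℝ)^4 * (cu * (θ0 * s)) := by ring
      rw [e1] at h1
      linarith only [h1, h2, h3]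
    have hR0 : ∀ k, P ((h.T a).H k) ⊆ ((Qb j).tr a).N → sclT h a k = (Qb j).kc →
        k ∈ deepJ h a j K1 := fun k h1 h2 => ⟨h1, by omega⟩
    obtain ⟨δ₁, hδ₁, hgam⟩ := Gam_968.gam_T h ha8 hκ hκ1 (hBQ j) H.sys (hρ_set H.R2 pr) hfc hMv
      (σ₀ := τ / 24) (by positivity) (by linarith only [hτ4]) hs (hPos.perf _ hj) hPos.mesh
      (by
        refine Subset.trans (fun y hy => ?_) hcWj
        refine Eta_812.cel_of_near (y := y) (t := 0) (mul_pos (by linarith only [hτ4]) hs) hs hy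
          (by rw [sub_self, norm_zero]) ?_
        have e1 : (1 - τ / 24) * s = s - τ * s / 24 := by ring
        rw [e1]
        linarith only [hτs])
      (fun k hk => by
        obtain ⟨x, hx⟩ := (h.T a).ne k
        have hx := Msh_715.I_sub_P _ hx
        exact H.mem_s k ⟨x, hx, hNW (hk hx)⟩)
      (fun c hc hcD => H.pr_of c hc (fun k hk => by
          obtain ⟨x, hx⟩ := (h.T a).ne k
          have hx := Msh_715.I_sub_P _ hx
          exact H.mem_s k ⟨x, hx, hNW ((hcD k hk).1 hx)⟩)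
        (Or.inr fun k hk => ⟨j, hj, hR0 k (hcD k hk).1 (hcD k hk).2⟩))
      (m₀ := GG vI) hM1
      (fun k h1 h2 => ⟨by exact_mod_cast hdeep.hM k (hR0 k h1 h2), by
        rw [H.R_eq]
        push_cast
        rw [one_div]
        refine inv_anti₀ (by positivity) (pow_le_pow_right₀ one_le_two ?_)
        have := H.κ2 k
        omega⟩)
      hbj.sub (by linarith only [hτ4]) huu0 hkc (by
        have e1 : (τ - τ / 24) * s = τ * s - τ * s / 24 := by ring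
        rw [e1]
        linarith only [hpos, haθ, hM4u, hτs, huu0]) (e := κw * s / 4) (by positivity)
    -- the errors
    have hLn : κ ≤ ‖L (kk j)‖ := by
      obtain ⟨v, hv⟩ := exists_norm_eq R3 zero_le_one
      have h1 := hL1 v
      have h2 := (L (kk j)).le_opNorm v
      rw [hv, mul_one] at h1 h2
      exact h1.trans h2
    obtain ⟨ε₁, hε₁, hE₁⟩ := exists_epsL (Q := (Qb j).tr a) (k0 := k0) (hk := h.hk j)
      (Lgb_821.ShB h a j κ vI K1) (p := p) (u := uu) (by linarith only [hp1]) huu0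
      (L := L (kk j)) (hκ.trans_le hLn) (fun e he heS => by
        obtain ⟨m', t, S, hE, -⟩ := hlongE e he heS
        exact hE.ne)
    obtain ⟨ε₂, hε₂, -, hE₂⟩ := H2a_821.exists_eps2u (p := p) (κ := κ) (η := η)
      (V₀ := κ / 4 * (cl * c1 * s)) (lam := lam) (by linarith only [hp1]) hκ hη (by positivity) hlam
      np nc k0
    refine ⟨δ₁, min ε₁ ε₂, hδ₁, ?_, fun _ ε hε δ hδ hA N₁ N₂ Rr Gg G₂ hPr hg1 hg3 hCe hE1 hE2 hN =>
      ?_⟩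
    · rcases min_choice ε₁ ε₂ with h1 | h1 <;> rw [h1] <;> assumption
    obtain ⟨hRr, -, ψ, hψ1, hψ2, hψ3, hψ4, hψ5⟩ := hPr
    have hσr0 : 0 ≤ σ' * (D * hh * s) := by positivity
    have hσr1 : σ' * (D * hh * s) ≤ σ₂ * s := by
      have h1 := mul_le_mul_of_nonneg_right S1 hs.le
      linarith only [h1]
    have hlongE' : ∀ e ∈ Ed ((Qb j).tr a) k0 (h.hk j), e ∉ Lgb_821.ShB h a j κ vI K1 → ∃ m' t S,
        LongE (h.T a) s' pr R (ρS (Te (h.T a)) R) (mS (Te (h.T a)) s' pr u) x' v' a me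
          (cel Cb (vt (2 * s) a₀ (kk j)) s) nb (2 ^ nb) np nc lam cV (GG vI) uu e m' t S ∧
        (segment ℝ e.1 e.2 ⊆ ((Qb j).tr a).Kc →
          NearE X (npS X (mS (Te (h.T a)) s' pr u) uu nw Cb') nw Cb' e m' t) := fun e he heS => by
      obtain ⟨m', t, S, h1, h2⟩ := hlongE e he heS
      exact ⟨m', t, S, h1, fun _ => h2⟩
    refine hblk hp1 hp2 ((Qb j).tr a) k0 (h.hk j) hbj.cnd hbj.hB hbj.hR hOm hg1 hg3 hL1 hL2 huu
      (ψ := ψ ⟨kk j, hj⟩) hσr0 (hψ1 _) (hψ2 _) (hψ3 _) (hψ4 _) (hψ5 ⟨kk j, hj⟩) ?_ ?_ ?_ H.sys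
      (hG none) (hG (some (kk j))) hQf hme hmf (K := 3 / 2) (ε := ε) hE1
      (fun c k => hN c k ⟨kk j, hj⟩) hη₁.le (Sqt_143.hg_of_pos hPos hj hcWj hme) ?_
      (Lgb_821.ShB h a j κ vI K1) hlam hcV.le hCb' hlongE' hMSh' ?_ hnM ?_ (θ := θ0 / (κ / 4 * (cl * c1)))
      (η := η) (V₀ := κ / 4 * (cl * c1 * s)) hη.le ?_ ?_ hSh hC1
      (fun k : s' => P ((h.T a).H (k : h.ιT a))) (fun k => Czn *
        (efS (hG none) hQf hme hmf X H.sys.rim H.sys.Z).J k + (N' + 1) * ε) (Kz h a j r s')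
      (fun e => She_227.Zc (h.T a) s' (w2 '' cthickening uu (sE e))) ?_ ?_ ?_ ?_
    · -- `gam`
      refine (hgam p δ hA hδ N₁ N₂).gam hκ (fun v => (hbj.cnd v).1) huu.ge hRr ?_
      have h1 : η₁ * (D * hh * s) ≤ κw * s / 4 := by
        have h1 := mul_le_mul_of_nonneg_right E3 hs.le
        linarith only [h1]
      have h2 : 3 * (σ' * (D * hh * s)) ≤ κw * s / 4 := by
        have h1 := mul_le_mul_of_nonneg_right S2 hs.le
        linarith only [h1]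
      have h3 : 100 * κ⁻¹ * (GG vI : ℝ)^4 * uu ≤ κw * s / 4 := by
        have h1 := mul_le_mul_of_nonneg_right T5a hs.le
        have h2 : 100 * κ⁻¹ * (GG vI : ℝ)^4 * uu ≤
          100 * κ⁻¹ * (GG vI : ℝ)^4 * (cu * (θ0 * s)) := by gcongr
        linarith only [h1, h2]
      linarith only [h1, h2, h3]
    · intro e he
      exact image_subset_iff.1 (s1 e he)
    · intro e he _ z hz
      obtain hg2' := hg2 _ hj
      refine Tub_821.tube_O (Om := Om) (W := W) (T := h.T a) (f := f) (Φ := Φ)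
        (χ := toR (Sys.chi hA (N₁+1) (N₂+1))) (Q := Qb j) (a := a) (h.hk j) (A := 2 * (θ0 * s))
        (t := D * hh * s) hs (by linarith only [hτ4]) (by positivity) hbj.sub (by positivity) haθ
        huu0.le (by positivity) hcWj hWO (fun i hi x hx y hy => hPos.diam i hi y hy x hx)
        (fun x hx => Tub_821.chi_tile H.sys H.pr_s hA _ _ hx) ?_ hg2' hdd he hz
      have e1 : (τ - 6 * (τ / 12)) * s = τ * s / 2 := by ring
      rw [e1]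
      linarith only [hpos, hM4u, hτs, huu0, hts]
    · rw [← ofReal_norm, ENNReal.ofReal_rpow_of_nonneg (norm_nonneg _) (by linarith only [hp1])]
      refine ENNReal.ofReal_le_ofReal (Real.rpow_le_rpow hη₁.le (E2.trans hLn) ?_)
      linarith only [hp1]
    · exact hE₁ ε (hε.trans (min_le_left _ _))
    · exact hnMc s τ hh θ0 θ1 Nn _ (Qb j) k0 (h.hk j) hs hτ.le (by linarith only [hτ4]) hbj a
    · intro e he heK
      obtain ⟨-, h1⟩ := hlen κ c1 s τ hh θ0 θ1 Nn _ (Qb j) k0 (h.hk j) hκ hs hc1 hbj a e he heK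
      refine ⟨h1, ?_⟩
      obtain ⟨q1, q2, q3, q4⟩ := hnum s θ0 η₁ (σ' * (D * hh * s)) ‖e.2 - e.1‖ k0 hθ0.le T1 hη₁.le E1
        hσr1 (by rw [mul_assoc]; exact h1) hk0
      exact ⟨q1, q2, q3, q4⟩
    · intro V hV m' t κX S h1 h2 h3
      exact hE₂ ε (hε.trans (min_le_right _ _)) V hV m' t S h1 h2 h3
    · intro e he heS k hk
      rw [She_227.mem_Zc] at hk
      exact ⟨mem_Kz.2 (s2 e he (hSh e he heS) k hk), hk⟩
    · intro k hk x hx y hy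
      exact s3 k (mem_Kz.1 hk) x hx y hy
    · intro e he heS
      refine s4 (p := p) (K := 3 / 2) (g := En p G₂) hCe hE2 ?_ ?_ ?_ e he (hSh e he heS)
      · rintro t ⟨y, hy, z, hz, hyz⟩
        exact H.mem_s t ⟨y, hy, hcWj (hNc z hz y hyz)⟩
      · exact She_227.hd_of h ((le_max_right _ _).trans hK1) H.pr_d hsmall
      · intro k _
        rw [hCzn]
        have h1 := CB_mono (p := p) (K := 3 / 2) (by linarith only [hp1]) (hmS k)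
        have h2 := CE_mono (p := p) (K := 3 / 2) (by linarith only [hp1]) (by linarith only [hp2])
          (hmS k)
        gcongr
    · rw [← mul_assoc, ← hA₀]
      refine er_le h a j _ hRl ?_ ?_
      · refine (ENNReal.ofReal_toReal (ENNReal.mul_ne_top hA₀t hCzt)).ge.trans
          (ENNReal.ofReal_le_ofReal ((le_max_left _ _).trans hCer))
      · refine (ENNReal.ofReal_toReal (ENNReal.mul_ne_top hA₀t (by finiteness))).ge.trans
          (ENNReal.ofReal_le_ofReal ((le_max_right _ _).trans hCer))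
  choose δf εf hδf hεf hfin using hkey
  obtain ⟨δ₀, hδ₀, hδ₀'⟩ := min_real δf hδf
  obtain ⟨ε₀, hε₀, hε₀'⟩ := min_enn εf hεf
  exact ⟨SnS X (mS (Te (h.T a)) s' pr u) uu nw Cb', npS X (mS (Te (h.T a)) s' pr u) uu nw Cb', δ₀,
    ε₀, hδ₀, hε₀, fun ε hε δ hδ hA N₁ N₂ Rr Gg G₂ hPr _ _ hg1 hg3 hCe hE1 hE2 hN j hj =>
    hfin j hj ε (hε.trans (hε₀' j)) δ (hδ.trans_le (hδ₀' j)) hA N₁ N₂ Rr Gg G₂ hPr hg1 hg3 hCe hE1
      hE2 hN⟩

end

end Crest.Agent.R096.Oi_961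
end

-- ▼ part R096/Onp6_622
section

set_option autoImplicit false
set_option linter.unusedSectionVars false
set_option linter.style.longLine false
set_option maxHeartbeats 1000000

open Set Metric Filter Topology MeasureTheory
open scoped ENNReal NNReal

namespace Crest.Agent.R096.Onp_622

open Crest.AnalysisR.VecCalc3 Crest.AnalysisR.Sobolev Crest.Agent.R096.Sk_962
open Crest.Agent.R096.Msh_715 (P I Tiling)
open Crest.Agent.R096.Mal_874 (CB)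
open Crest.Agent.R096.Efi_296
open Crest.Agent.R096.Ca_855 (MIn deepT)
open Crest.Agent.R96.Intr_538 (cel par)
open Crest.Agent.R96.Coarse_538 (vt Cb seg Dt)
open Crest.Agent.R96.Eld_538 (Cl1 AdE Els)
open Crest.Agent.R096.Pas_753
open Crest.Agent.R096.Pin_753

noncomputable section

/-- **`O1N p`** -/
theorem o1N {p : ℝ} (hp : 1 ≤ p) (hp2 : p ≤ 2) : O1N p := by
  intro κ D nc Bs vI K3 hκ hκ1 hD hvI hK3 hTC
  obtain ⟨K₀, -, hK4, H⟩ := Oi_961.o1_of Bs hκ hκ1 hvI hK3 nc hp hp2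
  obtain ⟨r, C₁, -, H⟩ := H K₀ le_rfl
  have hD0 : 0 < D := by linarith
  have hκi : 0 < κ⁻¹ := inv_pos.2 hκ
  set E : ℝ := 3 * (nc * (nc * nc) + 2) * (κ⁻¹ * D) + 1 with hE
  have hE0 : 0 < E := by positivity
  refine ⟨max C₁ (max (24 * D) (49 * κ⁻¹ * E)), ?_⟩
  intro C1 τ hh c1 c2 κw Nn vU vN hC1 hτ hτ4 hhh hc1 hc2 hκw hCh
  have g1 : C₁ ≤ C1 := (le_max_left _ _).trans hC1
  have g2 : 24 * D ≤ C1 := ((le_max_left _ _).trans (le_max_right _ _)).trans hC1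
  have g3 : 49 * κ⁻¹ * E ≤ C1 := ((le_max_right _ _).trans (le_max_right _ _)).trans hC1
  have hCτ : C1 * hh ≤ τ := hCh.trans (min_le_left _ _)
  obtain ⟨Cer, hCer, H⟩ := H vN
  refine ⟨K₀, r, Cer, hK4, hCer, fun Rl hRl => ?_⟩
  obtain ⟨θ₀, σ₀, η₀, hθ₀, hσ₀, hη₀, H⟩ := H hD0 hτ hτ4 hhh hc1 hc2 hκw
    ((mul_le_mul_of_nonneg_right g2 hhh.le).trans hCτ)
  refine ⟨θ₀, hθ₀, fun θ0 θ1 ht0 ht1 _ => ⟨σ₀, η₀, hσ₀, hη₀, ?_⟩⟩
  intro σ' η₁ hσ' hσ'1 hη₁ hη₁1 Om La W f G hOm hLa hf hWO _ ρ₀ s a₀ Q₀ b L hs hL hcW J _ kk Qb k0 hk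
    hkk hb sep hθ1' hθ0' h κi _ x v κf _ xf ef Pf κe' κf' x' v' e' xx' Qf' hA a _ ha hG Q hQ hP
  have hbq : ∀ j, MIn.BQ κ Bs Nn (Qb j) k0 := fun j => MIn.bq_of_blkP (hb j)
  have hdd : 3 * (nc * (nc * nc) + 2) * (κ⁻¹ * (D * hh * s)) + hh * s < κ * (τ / 12 * s) / 4 := by
    have e1 : 3 * ((nc:ℝ) * (nc * nc) + 2) * (κ⁻¹ * (D * hh * s)) + hh * s = E * hh * s := by
      rw [hE]; ring
    have h1 : 49 * κ⁻¹ * E * hh ≤ τ := (mul_le_mul_of_nonneg_right g3 hhh.le).trans hCτ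
    have h2 : 49 * (E * hh) ≤ κ * τ := by
      have h3 := mul_le_mul_of_nonneg_left h1 hκ.le
      have e2 : κ * (49 * κ⁻¹ * E * hh) = 49 * (E * hh) := by field_simp
      rwa [e2] at h3
    have h4 : 0 < E * hh := by positivity
    have h5 : 48 * (E * hh) < κ * τ := by linarith
    rw [e1]
    have h6 := mul_lt_mul_of_pos_right h5 hs
    have e3 : κ * (τ / 12 * s) / 4 = κ * τ * s / 48 := by ring
    rw [e3, lt_div_iff₀ (by norm_num)]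
    linarith
  exact H ht0 ht1 hσ' hσ'1 hη₁ hη₁1 hs g1 hRl le_rfl hdd hOm hf hWO hk hb hθ0'
    (fun k hk' => hL k (hQ hk')) (fun k hk' => hcW k (hQ hk')) h ha
    (fun t => ((hTC h hbq a).1 t).1) hP hA.cpt hG vU

/-- **`OneP p`** -/
theorem oneP {p : ℝ} (hp : 1 ≤ p) (hp2 : p ≤ 2) : OneP p Els := oneP_of hp hp2 (o1N hp hp2)

end

end Crest.Agent.R096.Onp_622
end

-- ▼ part R096/Asq6_895
section

/-!
# Row 96, S0127 from `HOpen` (117) ALONE (helper895, assembly)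
-/

set_option autoImplicit false
set_option linter.style.longLine false

namespace Crest.Agent.R096.Asq_895

open MeasureTheory Metric Set Filter Topology
open scoped ENNReal Gradient NNReal
open Crest.AnalysisR.VecCalc3 Crest.AnalysisR.Sobolev

/-- `ONE` (622, 961, 753, ...) -/
theorem one : ONE := fun p hp h2 => Onp_622.oneP hp h2

/-- **S0127 from `HOpen`** -/
theorem s0127_H (hH : Dtf_117.HOpen)
    (Ω Λ : Set R3) (hΩo : IsOpen Ω) (hΩb : Bornology.IsBounded Ω) (hΩc : IsConnected Ω)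
    (hΛo : IsOpen Λ) (hΛb : Bornology.IsBounded Λ) (hΛc : IsConnected Λ)
    (p : ℝ) (hp : 1 ≤ p) (f : R3 → R3) (hf : IsHomeomorphOn f Ω Λ)
    (hfp : MemLp f (ENNReal.ofReal p) (volume.restrict Ω))
    (G : Fin 3 → R3 → R3) (hG : ∀ j : Fin 3, HasWeakGradOn Ω (fun x => f x j) (G j))
    (hGp : ∀ j : Fin 3, MemLp (G j) (ENNReal.ofReal p) (volume.restrict Ω))
    (ε : ℝ≥0∞) (hε : 0 < ε) :
    ∃ g : R3 → R3, IsSmoothDiffeoOn g Ω Λ ∧ MemLp g (ENNReal.ofReal p) (volume.restrict Ω) ∧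
      (∀ j : Fin 3, MemLp (fun x => ∇ (fun y => g y j) x) (ENNReal.ofReal p) (volume.restrict Ω)) ∧
      ∫⁻ x in Ω, (‖g x - f x‖ₑ ^ p + ∑ j : Fin 3, ‖∇ (fun y => g y j) x - G j x‖ₑ ^ p) < ε :=
  s0127_H_one hH one Ω Λ hΩo hΩb hΩc hΛo hΛb hΛc p hp f hf hfp G hG hGp ε hε

end Crest.Agent.R096.Asq_895
end

-- ▼ part R096/Asq7_895

/-!
# Row 96, S0127 from 778's `NE1M`, 688's `NEWINM` and 847's `DICHM` (helper895, assembly)
-/

set_option autoImplicit false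
set_option linter.style.longLine false

namespace Crest.Agent.R096.Asq_895

open MeasureTheory Metric Set Filter Topology
open scoped ENNReal Gradient NNReal
open Crest.AnalysisR.VecCalc3 Crest.AnalysisR.Sobolev

/-- **S0127 from the three last leaves of DOORS** -/
theorem s0127_NE_DICH (h1 : Hop_895.NE1M) (h2 : Hop_895.NEWINM) (h3 : Hop_895.DICHM)
    (Ω Λ : Set R3) (hΩo : IsOpen Ω) (hΩb : Bornology.IsBounded Ω) (hΩc : IsConnected Ω)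
    (hΛo : IsOpen Λ) (hΛb : Bornology.IsBounded Λ) (hΛc : IsConnected Λ)
    (p : ℝ) (hp : 1 ≤ p) (f : R3 → R3) (hf : IsHomeomorphOn f Ω Λ)
    (hfp : MemLp f (ENNReal.ofReal p) (volume.restrict Ω))
    (G : Fin 3 → R3 → R3) (hG : ∀ j : Fin 3, HasWeakGradOn Ω (fun x => f x j) (G j))
    (hGp : ∀ j : Fin 3, MemLp (G j) (ENNReal.ofReal p) (volume.restrict Ω))
    (ε : ℝ≥0∞) (hε : 0 < ε) :
    ∃ g : R3 → R3, IsSmoothDiffeoOn g Ω Λ ∧ MemLp g (ENNReal.ofReal p) (volume.restrict Ω) ∧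
      (∀ j : Fin 3, MemLp (fun x => ∇ (fun y => g y j) x) (ENNReal.ofReal p) (volume.restrict Ω)) ∧
      ∫⁻ x in Ω, (‖g x - f x‖ₑ ^ p + ∑ j : Fin 3, ‖∇ (fun y => g y j) x - G j x‖ₑ ^ p) < ε :=
  s0127_H (Hop_895.hOpen_of h1 h2 h3) Ω Λ hΩo hΩb hΩc hΛo hΛb hΛc p hp f hf hfp G hG hGp ε hε

end Crest.Agent.R096.Asq_895
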