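import Crest.Agent.R096.At8_241
import Crest.Agent.R096.Init4_543

/-!
# R096 (row 96), ARR-INST part 10 (helper241): the instance of `QPos` for helper543's quads

`TQ` : the tiles of a mesh over the tiles of a tiling `T` (tiles of `T`, layered cells, giants);
`qpos_of` : `QPos` from 543's `key`;
`pts_of` : the clause `pts` of `QSt` from the positions of the points.
-/

set_option autoImplicit false
set_option linter.unusedSectionVars false
set_option linter.unusedVariables false
set_option linter.style.longLine false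

open Set Metric Topology Module

namespace Crest.Agent.R096.At_241

open Crest.Agent.R096.St_147 Crest.Agent.R096.Seq_213 Crest.Agent.R096.Lm_117
  Crest.Agent.R096.Init_543 Crest.Agent.R096.Coh_184 Crest.Agent.R096.Msh_715
open Crest.Agent.R096.Brk1_582 (Foam fc mem_fc)

/-- **the tiles of the mesh over the tiles of `T`**: `ord τ` = tile outside all cores, `tc τ` = its
3-cell, `tt τ` = the tile of `T` which contains it, `core c` = the tile of the core `c` -/
structure TQ {ιM ι Φ W Q I : Type} {M : MeshC ιM Φ W} [PartialOrder Q] {dim : Q → ℕ}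
    (L : LM M Q dim) (Kor : Set ι) (tc : ιM → Q) (ord : ιM → Prop) (tt : ιM → ι) (core : I → ιM) :
    Prop where
  dim3 : ∀ τ, ord τ → dim (tc τ) = 3
  side : ∀ τ, ord τ → ∀ F, (τ ∈ M.side F ↔ L.cf F ≤ tc τ)
  tc_inj : ∀ τ τ', ord τ → ord τ' → tc τ = tc τ' → τ = τ'
  top : ∀ q : Q, ∃ τ, ord τ ∧ q ≤ tc τ
  nord : ∀ c, ¬ ord (core c)
  inj : Function.Injective core
  kor : ∀ τ, ord τ → tt τ ∉ Kor

variable {E V : Type} [NormedAddCommGroup E] [NormedSpace ℝ E] [FiniteDimensional ℝ E]
  [NormedAddCommGroup V] [NormedSpace ℝ V] [FiniteDimensional ℝ V]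
variable {I ι : Type} {Om : Set E} {La : Set V} {P : I → Set V} {b : Set I → V}
  {R : V → V} {f : E → V} {g : V → E} {T : Tiling Om ι} {Kor : Set ι} {ε s : ℝ}
variable {ιM Φ W Q : Type} {M : MeshC ιM Φ W} [PartialOrder Q] {dim : Q → ℕ}
  {L : LM M Q dim} {tc : ιM → Q} {ord : ιM → Prop} {tt : ιM → ι} {core : I → ιM}
  {xq : Q → E} {Qd : Quads ιM I (QK P)}





end Crest.Agent.R096.At_241
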