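import Crest.Agent.R096.Ac6_117
import Crest.Agent.R096.Lm1_117

-- ▼ part R096/Lms1_662
section

/-!
# Row 96: the abstract layered mesh (337 #9683 (3)), part 1 (helper662)

`LMesh M` : a combinatorial mesh `M : MeshC ι Φ W` with its vertices and edges and
* `face` : a set which is even on a 2-cell has labels on its vertices, which describe the positions;
* `cell` : a set which is even on all 2-cells of a 3-cell has labels on the vertices of the 3-cell;
* `conn` : the vertices of a 2-cell are connected through its edges.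
`LMesh.sphM` : `Ac_117.SphM M q` for every cell `q`.
-/

set_option autoImplicit false
set_option linter.unusedSectionVars false

open Set

namespace Crest.Agent.R096.Lms_662

open St_147 Ac_117

open Classical in
/-- number mod 2 of the points of `y` in `A` -/
noncomputable def cn {W : Type} (y : Finset W) (A : Set W) : ZMod 2 :=
  ((y.filter (fun v => v ∈ A)).card : ZMod 2)

open Classical in
/-- **mesh with vertices and edges** -/
structure LMesh {ι Φ W : Type} (M : MeshC ι Φ W) where
  /-- vertices -/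
  Vx : Type
  /-- edges -/
  Ed : Type
  /-- the two ends of an edge -/
  en : Ed → Bool → Vx
  /-- the candidate points on an edge -/
  OnE : Ed → Set W
  /-- the edges of a face -/
  EF : Φ → Set Ed
  /-- position along the edge, from `en e false` to `en e true` -/
  t : W → ℝ
  /-- orientation of `pos F` against `t` at a point -/
  eps : Φ → W → ZMod 2
  on : ∀ F w, w ∈ M.On F ↔ ∃ e ∈ EF F, w ∈ OnE e
  uniq : ∀ e e' w, w ∈ OnE e → w ∈ OnE e' → e = e'
  tinj : ∀ e, InjOn t (OnE e)
  face : ∀ F (y : Finset W), Even (y.filter (fun v => v ∈ M.On F)).card → ∃ μ : Vx → ZMod 2,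
    (∀ e ∈ EF F, μ (en e true) = μ (en e false) + cn y (OnE e)) ∧
    ∀ e ∈ EF F, ∀ w ∈ OnE e, cntP M y F (M.pos F w) =
      μ (en e false) + cn y {v | v ∈ OnE e ∧ t v < t w} + (if w ∈ y then eps F w else 0)
  cell : ∀ q (y : Finset W), (∀ F, q ∈ M.side F → Even (y.filter (fun v => v ∈ M.On F)).card) →
    ∃ lam : Vx → ZMod 2, ∀ F, q ∈ M.side F → ∀ e ∈ EF F,
      lam (en e true) = lam (en e false) + cn y (OnE e)
  conn : ∀ F (X : Set Vx), (∀ e ∈ EF F, en e false ∈ X ↔ en e true ∈ X) →
    ∀ e ∈ EF F, ∀ e' ∈ EF F, en e false ∈ X ↔ en e' false ∈ X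

namespace LMesh

variable {ι Φ W : Type} {M : MeshC ι Φ W} (L : LMesh M)

theorem const_face {F : Φ} {φ : L.Vx → ZMod 2}
    (h : ∀ e ∈ L.EF F, φ (L.en e false) = φ (L.en e true)) :
    ∀ e ∈ L.EF F, ∀ e' ∈ L.EF F, φ (L.en e false) = φ (L.en e' false) := by
  intro e he e' he'
  have h1 := (L.conn F {v | φ v = φ (L.en e false)} (fun e₁ h₁ => by
    show φ (L.en e₁ false) = _ ↔ φ (L.en e₁ true) = _
    rw [h e₁ h₁]) e he e' he').1 rfl
  exact h1.symm

theorem faces_unique {q : ι} {w : W} {F F' G G' : Φ}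
    (hF : q ∈ M.side F) (hF' : q ∈ M.side F') (hG : q ∈ M.side G) (hG' : q ∈ M.side G')
    (wF : w ∈ M.On F) (wF' : w ∈ M.On F') (wG : w ∈ M.On G) (wG' : w ∈ M.On G') (hFF : F ≠ F')
    (hGG : G ≠ G') : (G = F ∧ G' = F') ∨ (G = F' ∧ G' = F) := by
  have hfin : {F | q ∈ M.side F ∧ w ∈ M.On F}.Finite := (M.fin w).subset fun F hF => hF.2
  rcases M.deg q w with h | h
  · exfalso
    rw [Set.ncard_eq_zero hfin] at h
    have : F ∈ (∅ : Set Φ) := h ▸ (⟨hF, wF⟩ : F ∈ {F | q ∈ M.side F ∧ w ∈ M.On F})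
    exact this
  · rw [Set.ncard_eq_two] at h
    obtain ⟨K, K', hne, h⟩ := h
    have key : ∀ L : Φ, q ∈ M.side L → w ∈ M.On L → L = K ∨ L = K' := by
      intro L h1 h2
      have : L ∈ {F | q ∈ M.side F ∧ w ∈ M.On F} := ⟨h1, h2⟩
      rw [h] at this
      simpa using this
    rcases key F hF wF with rfl | rfl <;> rcases key F' hF' wF' with rfl | rfl <;>
      rcases key G hG wG with rfl | rfl <;> rcases key G' hG' wG' with rfl | rfl <;> tauto

open Classical in
/-- **the boundary of every cell is a sphere** -/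
noncomputable def sphM (q : ι) : SphM M q where
  opp := fun w => decide (∃ F F' : Φ, q ∈ M.side F ∧ q ∈ M.side F' ∧ w ∈ M.On F ∧
    w ∈ M.On F' ∧ L.eps F w ≠ L.eps F' w)
  sph := by
    intro y hy
    obtain ⟨lam, hlam⟩ := L.cell q y hy
    have hμ : ∀ F : Φ, ∃ μ : L.Vx → ZMod 2, q ∈ M.side F →
        (∀ e ∈ L.EF F, μ (L.en e true) = μ (L.en e false) + cn y (L.OnE e)) ∧
        ∀ e ∈ L.EF F, ∀ w ∈ L.OnE e, cntP M y F (M.pos F w) =
          μ (L.en e false) + cn y {v | v ∈ L.OnE e ∧ L.t v < L.t w} +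
            (if w ∈ y then L.eps F w else 0) := by
      intro F
      by_cases h : q ∈ M.side F
      · obtain ⟨μ, h1⟩ := L.face F y (hy F h)
        exact ⟨μ, fun _ => h1⟩
      · exact ⟨fun _ => 0, fun h' => absurd h' h⟩
    choose μ hμ using hμ
    refine ⟨fun F => if h : ∃ e, e ∈ L.EF F then
      lam (L.en h.choose false) + μ F (L.en h.choose false) else 0, ?_⟩
    have main : ∀ F : Φ, q ∈ M.side F → ∀ e ∈ L.EF F, ∀ w ∈ L.OnE e,
        (if h : ∃ e, e ∈ L.EF F then
          lam (L.en h.choose false) + μ F (L.en h.choose false) else 0) +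
            cntP M y F (M.pos F w) = lam (L.en e false) +
              cn y {v | v ∈ L.OnE e ∧ L.t v < L.t w} + (if w ∈ y then L.eps F w else 0) := by
      intro F hF e he w hw
      obtain ⟨h1, h2⟩ := hμ F hF
      have h5 : ∃ e, e ∈ L.EF F := ⟨e, he⟩
      have hc := L.const_face (F := F) (φ := fun v => lam v + μ F v) (by
        intro e' he'
        show lam _ + μ F _ = lam _ + μ F _
        rw [hlam F hF e' he', h1 e' he']
        have : ∀ a b c : ZMod 2, a + b = a + c + (b + c) := by decide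
        exact this _ _ _) _ h5.choose_spec e he
      have hc' : lam (L.en h5.choose false) + μ F (L.en h5.choose false) =
        lam (L.en e false) + μ F (L.en e false) := hc
      rw [dif_pos h5, hc', h2 e he w hw]
      have : ∀ a b c d : ZMod 2, a + b + (b + c + d) = a + c + d := by decide
      exact this _ _ _ _
    intro F F' w hF hF' hne hw hw'
    obtain ⟨e, he, hwe⟩ := (L.on F w).1 hw
    obtain ⟨e', he', hwe'⟩ := (L.on F' w).1 hw'
    have := L.uniq e e' w hwe hwe'
    subst this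
    have e1 := main F hF e he w hwe
    have e2 := main F' hF' e he' w hwe'
    have e3 : (if w ∈ y then L.eps F w else 0) = (if w ∈ y then L.eps F' w else 0) +
        (if w ∈ y ∧ decide (∃ F F' : Φ, q ∈ M.side F ∧ q ∈ M.side F' ∧ w ∈ M.On F ∧
          w ∈ M.On F' ∧ L.eps F w ≠ L.eps F' w) = true then (1 : ZMod 2) else 0) := by
      by_cases hwy : w ∈ y
      · rw [if_pos hwy, if_pos hwy]
        have two : ∀ s t : ZMod 2, s ≠ t → s = t + 1 := by decide
        by_cases hc : L.eps F w = L.eps F' w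
        · rw [if_neg, hc, add_zero]
          rintro ⟨-, h6⟩
          obtain ⟨G, G', hG, hG', wG, wG', h7⟩ := of_decide_eq_true h6
          have hGG : G ≠ G' := fun h8 => h7 (by rw [h8])
          rcases faces_unique hF hF' hG hG' hw hw' wG wG' hne hGG with ⟨rfl, rfl⟩ | ⟨rfl, rfl⟩
          · exact h7 hc
          · exact h7 hc.symm
        · rw [if_pos ⟨hwy, decide_eq_true ⟨F, F', hF, hF', hw, hw', hc⟩⟩]
          exact two _ _ hc
      · rw [if_neg hwy, if_neg hwy, if_neg (fun h => hwy h.1), add_zero]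
    refine Eq.trans e1 ?_
    rw [e3, ← add_assoc, ← e2]

end LMesh

end Crest.Agent.R096.Lms_662
end

-- ▼ part R096/Lms3_662

/-!
# Row 96: `SphM` from helper117's `LM` (helper662)

`LM.sphM` : for every mesh with labels (`Lm_117.LM`), every tile `q` whose faces are the 2-cells
below a cell `c` : `SphM M q`.  No hypothesis on the cut points of the positions.
-/

set_option autoImplicit false
set_option linter.unusedSectionVars false

open Set

namespace Crest.Agent.R096.Lms_662

open Crest.Agent.R096.St_147 Crest.Agent.R096.Ac_117 Crest.Agent.R096.Lm_117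

variable {ι Φ W Q : Type} {M : MeshC ι Φ W} [PartialOrder Q] {dim : Q → ℕ}

open Classical in
/-- indicator in `ZMod 2` -/
noncomputable def bi (p : Prop) : ZMod 2 := if p then 1 else 0

open Classical in
/-- exchange of a point `w` of `y` by a point `u` outside `y` -/
noncomputable def exc (y : Finset W) (w u : W) : Finset W := insert u (y.erase w)

theorem nW_exc {y : Finset W} {w u : W} (hw : w ∈ y) (hu : u ∉ y) (X : Set W) :
    nW (exc y w u) X = nW y X + bi (w ∈ X) + bi (u ∈ X) := by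
  classical
  have hwu : u ∉ y.erase w := fun h => hu (Finset.mem_of_mem_erase h)
  unfold nW exc bi
  rw [Finset.sum_insert hwu, ← Finset.add_sum_erase y _ hw]
  have key : ∀ a b c : ZMod 2, a + b = c + b + c + a := by decide
  exact key _ _ _

theorem cntP_eq_nW (y : Finset W) (F : Φ) (s : ℝ) :
    cntP M y F s = nW y {v | v ∈ M.On F ∧ M.pos F v < s} := by
  classical
  rw [nW_card]
  unfold cntP
  congr 2
  ext v
  simp only [Finset.mem_filter, mem_ofPred_eq]

theorem nW_On (y : Finset W) (F : Φ) [DecidablePred fun v => v ∈ M.On F] :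
    Even (y.filter (fun v => v ∈ M.On F)).card ↔ nW y (M.On F) = 0 := by
  have e : nW y (M.On F) = ((y.filter (fun v => v ∈ M.On F)).card : ZMod 2) := by
    rw [nW_card]
    congr 2
    ext v
    simp only [Finset.mem_filter]
  rw [e, ZMod.natCast_eq_zero_iff, even_iff_two_dvd]

variable (L : LM M Q dim)

/-- the sign of the order of `u`, `w` on `F`, seen from the vertex `v` -/
noncomputable def dl (F : Φ) (v : Q) (u w : W) : ZMod 2 :=
  bi (M.pos F w < L.vpos F v) + bi (M.pos F u < L.vpos F v) + bi (M.pos F u < M.pos F w)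

variable {L}

theorem on_of_ed {F : Φ} {u w : W} (hw : w ∈ M.On F) (hu : u ∈ L.W1) (he : L.ed u = L.ed w) :
    u ∈ M.On F := (L.on_iff F u).2 ⟨hu, by rw [he]; exact ((L.on_iff F w).1 hw).2⟩

/-- main formula for `w ∉ y` -/
theorem formula_out {F : Φ} {c : Q} {y : Finset W} {lam : Q → ZMod 2} (hF : L.cf F ≤ c)
    (hy : nW y (M.On F) = 0) (hlam : L.toSk.XL y lam c) {w : W} (hw : w ∈ M.On F) (hwy : w ∉ y)
    {v : Q} (hv : v ≤ L.cf F) (h0 : dim v = 0) :
    lam v + cntP M y F (L.vpos F v) + cntP M y F (M.pos F w) = L.toSk.ext y lam w := by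
  obtain ⟨h1, h2⟩ := L.face F y hy
  rw [← h2 w hw hwy]
  have hin : w ∈ L.toSk.In (L.cf F) := ((L.on_iff F w).1 hw)
  have h3 := (hlam.mono hF).unique_ext h1 (fun _ _ => Iff.rfl) hv h0 hin
  have key : ∀ a b c : ZMod 2, a + b = c → c + b = a := by decide
  exact key _ _ _ h3

/-- main formula for `w ∈ y` -/
theorem formula_in {F : Φ} {c : Q} {y : Finset W} {lam : Q → ZMod 2} (hF : L.cf F ≤ c)
    (hy : nW y (M.On F) = 0) (hlam : L.toSk.XL y lam c) {w u : W} (hw : w ∈ M.On F) (hwy : w ∈ y)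
    (hu : u ∈ L.W1) (huw : L.ed u = L.ed w) (huy : u ∉ y)
    {v : Q} (hv : v ≤ L.cf F) (h0 : dim v = 0) :
    lam v + cntP M y F (L.vpos F v) + cntP M y F (M.pos F w) + dl L F v u w =
      L.toSk.ext (exc y w u) lam w := by
  classical
  have huF : u ∈ M.On F := on_of_ed hw hu huw
  have hwW : w ∈ L.W1 := ((L.on_iff F w).1 hw).1
  have hy' : nW (exc y w u) (M.On F) = 0 := by
    rw [nW_exc hwy huy, hy]
    unfold bi
    rw [if_pos hw, if_pos huF]
    decide
  have hne : u ≠ w := fun h => huy (h ▸ hwy)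
  have hlam' : L.toSk.XL (exc y w u) lam c := by
    intro e he h1
    rw [hlam e he h1, nW_exc hwy huy]
    have : (w ∈ L.toSk.On1 e) ↔ (u ∈ L.toSk.On1 e) := by
      constructor
      · rintro ⟨_, h⟩; exact ⟨hu, huw.trans h⟩
      · rintro ⟨_, h⟩; exact ⟨hwW, huw.symm.trans h⟩
    unfold bi
    by_cases h : w ∈ L.toSk.On1 e
    · rw [if_pos h, if_pos (this.1 h)]
      have key : ∀ a : ZMod 2, a = a + 1 + 1 := by decide
      exact key _
    · rw [if_neg h, if_neg (fun h' => h (this.2 h'))]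
      simp
  have hwy' : w ∉ exc y w u := by
    unfold exc
    rw [Finset.mem_insert, Finset.mem_erase]
    rintro (h | h)
    · exact hne h.symm
    · exact h.1 rfl
  have h1 := formula_out hF hy' hlam' hw hwy' hv h0
  rw [← h1, cntP_eq_nW, cntP_eq_nW, cntP_eq_nW, cntP_eq_nW, nW_exc hwy huy, nW_exc hwy huy]
  unfold dl
  have e1 : bi (w ∈ {v' | v' ∈ M.On F ∧ M.pos F v' < L.vpos F v}) =
      bi (M.pos F w < L.vpos F v) := by
    unfold bi; congr 1; simp [hw]
  have e2 : bi (u ∈ {v' | v' ∈ M.On F ∧ M.pos F v' < L.vpos F v}) =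
      bi (M.pos F u < L.vpos F v) := by
    unfold bi; congr 1; simp [huF]
  have e3 : bi (w ∈ {v' | v' ∈ M.On F ∧ M.pos F v' < M.pos F w}) = 0 := by
    unfold bi; simp
  have e4 : bi (u ∈ {v' | v' ∈ M.On F ∧ M.pos F v' < M.pos F w}) =
      bi (M.pos F u < M.pos F w) := by
    unfold bi; congr 1; simp [huF]
  rw [e1, e2, e3, e4]
  ring

/-- two points of a 1-cell: the change of `dl` does not depend on the face -/
theorem dl_add {F : Φ} {u u' w : W} (hw : w ∈ M.On F) (hu : u ∈ L.W1) (hu' : u' ∈ L.W1)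
    (he : L.ed u = L.ed w) (he' : L.ed u' = L.ed w) (huw : u ≠ w) (huw' : u' ≠ w) (huu : u ≠ u')
    {v : Q} (hv : v ≤ L.cf F) (h0 : dim v = 0) :
    dl L F v u w + dl L F v u' w = (open Classical in L.toSk.pre {u, u'} w) := by
  classical
  have huF : u ∈ M.On F := on_of_ed hw hu he
  have huF' : u' ∈ M.On F := on_of_ed hw hu' he'
  have hnW : ∀ X : Set W, nW {u, u'} X = bi (u ∈ X) + bi (u' ∈ X) := by
    intro X
    unfold nW bi
    rw [Finset.sum_pair huu]
  have hy : nW {u, u'} (M.On F) = 0 := by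
    rw [hnW]
    unfold bi
    rw [if_pos huF, if_pos huF']
    decide
  have hwy : w ∉ ({u, u'} : Finset W) := by
    rw [Finset.mem_insert, Finset.mem_singleton]
    rintro (h | h)
    · exact huw h.symm
    · exact huw' h.symm
  have hlam : L.toSk.XL {u, u'} (fun _ => 0) (L.cf F) := by
    intro e _ _
    rw [hnW]
    have : (u ∈ L.toSk.On1 e) ↔ (u' ∈ L.toSk.On1 e) := by
      constructor
      · rintro ⟨_, h⟩; exact ⟨hu', (he'.trans he.symm).trans h⟩
      · rintro ⟨_, h⟩; exact ⟨hu, (he.trans he'.symm).trans h⟩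
    unfold bi
    by_cases h : u ∈ L.toSk.On1 e
    · rw [if_pos h, if_pos (this.1 h)]
      show (0 : ZMod 2) + 0 = 1 + 1
      decide
    · rw [if_neg h, if_neg (fun h' => h (this.2 h'))]
  have h1 := formula_out (c := L.cf F) le_rfl hy hlam hw hwy hv h0
  have h2 : L.toSk.ext {u, u'} (fun _ => 0) w = L.toSk.pre {u, u'} w := by
    unfold Sk.ext
    rw [zero_add]
  rw [h2, cntP_eq_nW, cntP_eq_nW, hnW, hnW, zero_add] at h1
  have e1 : bi (u ∈ {v' | v' ∈ M.On F ∧ M.pos F v' < L.vpos F v}) =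
      bi (M.pos F u < L.vpos F v) := by
    unfold bi; congr 1; simp [huF]
  have e2 : bi (u' ∈ {v' | v' ∈ M.On F ∧ M.pos F v' < L.vpos F v}) =
      bi (M.pos F u' < L.vpos F v) := by
    unfold bi; congr 1; simp [huF']
  have e3 : bi (u ∈ {v' | v' ∈ M.On F ∧ M.pos F v' < M.pos F w}) =
      bi (M.pos F u < M.pos F w) := by
    unfold bi; congr 1; simp [huF]
  have e4 : bi (u' ∈ {v' | v' ∈ M.On F ∧ M.pos F v' < M.pos F w}) =
      bi (M.pos F u' < M.pos F w) := by
    unfold bi; congr 1; simp [huF']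
  rw [e1, e2, e3, e4] at h1
  rw [← h1]
  unfold dl
  have key : ∀ a b c d e : ZMod 2, a + b + c + (a + d + e) = b + d + (c + e) := by decide
  exact key _ _ _ _ _

/-- a vertex of the face -/
theorem exists_vtx (L : LM M Q dim) (F : Φ) : ∃ v, v ≤ L.cf F ∧ dim v = 0 := L.base (L.cf F)

/-- the chosen vertex of `F` -/
noncomputable def vt (L : LM M Q dim) (F : Φ) : Q := (exists_vtx L F).choose

theorem vt_le (L : LM M Q dim) (F : Φ) : vt L F ≤ L.cf F := (exists_vtx L F).choose_spec.1

theorem vt_dim (L : LM M Q dim) (F : Φ) : dim (vt L F) = 0 := (exists_vtx L F).choose_spec.2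

/-- `dl` at two faces, two auxiliary points -/
theorem dl_swap {F F' : Φ} {u u' w : W} (hw : w ∈ M.On F) (hw' : w ∈ M.On F') (hu : u ∈ L.W1)
    (hu' : u' ∈ L.W1) (he : L.ed u = L.ed w) (he' : L.ed u' = L.ed w) (huw : u ≠ w)
    (huw' : u' ≠ w) :
    dl L F (vt L F) u w + dl L F' (vt L F') u w =
      dl L F (vt L F) u' w + dl L F' (vt L F') u' w := by
  by_cases huu : u = u'
  · rw [huu]
  · have h1 := dl_add hw hu hu' he he' huw huw' huu (vt_le L F) (vt_dim L F)
    have h2 := dl_add hw' hu hu' he he' huw huw' huu (vt_le L F') (vt_dim L F')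
    have key : ∀ a b c d : ZMod 2, a + b = c + d → a + c = b + d := by decide
    exact key _ _ _ _ (h1.trans h2.symm)

open Classical in
/-- **`SphM` for every tile of a mesh with labels** -/
noncomputable def LM.sphM (L : LM M Q dim) (q : ι) (c : Q)
    (hc : ∀ F, q ∈ M.side F → L.cf F ≤ c) (hc' : ∀ F, L.cf F ≤ c → q ∈ M.side F) :
    SphM M q where
  opp := fun w => decide (∃ F F' : Φ, q ∈ M.side F ∧ q ∈ M.side F' ∧ w ∈ M.On F ∧ w ∈ M.On F' ∧
    ∃ u, u ∈ L.W1 ∧ L.ed u = L.ed w ∧ u ≠ w ∧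
      dl L F (vt L F) u w ≠ dl L F' (vt L F') u w)
  sph := by
    intro y hy
    have hyF : ∀ F, q ∈ M.side F → nW y (M.On F) = 0 := fun F hF => (nW_On y F).1 (hy F hF)
    obtain ⟨lam, hlam⟩ := L.cell c y fun F hF => hyF F (hc' F hF)
    refine ⟨fun F => lam (vt L F) + cntP M y F (L.vpos F (vt L F)), ?_⟩
    intro F F' w hF hF' hne hw hw'
    by_cases hwy : w ∈ y
    · -- an auxiliary point
      have hwW := (L.on_iff F w).1 hw
      obtain ⟨u, hu, huy⟩ : ∃ u, (u ∈ L.W1 ∧ L.ed u = L.ed w) ∧ u ∉ y := by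
        have h1 := (L.inf w hwW.1).sdiff y.finite_toSet
        obtain ⟨u, hu, hu'⟩ := h1.nonempty
        exact ⟨u, hu, fun h => hu' (Finset.mem_coe.2 h)⟩
      have huw : u ≠ w := fun h => huy (h ▸ hwy)
      have e1 := formula_in (hc F hF) (hyF F hF) hlam hw hwy hu.1 hu.2 huy (vt_le L F) (vt_dim L F)
      have e2 := formula_in (hc F' hF') (hyF F' hF') hlam hw' hwy hu.1 hu.2 huy (vt_le L F')
        (vt_dim L F')
      have e3 := e1.trans e2.symm
      have e4 : (if w ∈ y ∧ decide (∃ F F' : Φ, q ∈ M.side F ∧ q ∈ M.side F' ∧ w ∈ M.On F ∧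
          w ∈ M.On F' ∧ ∃ u, u ∈ L.W1 ∧ L.ed u = L.ed w ∧ u ≠ w ∧
            dl L F (vt L F) u w ≠ dl L F' (vt L F') u w) = true then (1 : ZMod 2) else 0) =
          dl L F (vt L F) u w + dl L F' (vt L F') u w := by
        have two : ∀ s t : ZMod 2, s ≠ t → s + t = 1 := by decide
        have two' : ∀ s t : ZMod 2, s = t → s + t = 0 := by decide
        by_cases hd : dl L F (vt L F) u w = dl L F' (vt L F') u w
        · rw [two' _ _ hd, if_neg]
          rintro ⟨-, h6⟩
          obtain ⟨G, G', hG, hG', wG, wG', u', h7, h8, h9, h10⟩ := of_decide_eq_true h6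
          have hGG : G ≠ G' := fun h11 => h10 (by rw [h11])
          have h12 := dl_swap (L := L) wG wG' hu.1 h7 hu.2 h8 huw h9
          rcases LMesh.faces_unique hF hF' hG hG' hw hw' wG wG' hne hGG with ⟨rfl, rfl⟩ | ⟨rfl, rfl⟩
          · rw [two' _ _ hd] at h12
            rw [two _ _ h10] at h12
            exact absurd h12 (by decide)
          · rw [two' _ _ hd.symm] at h12
            rw [two _ _ h10] at h12
            exact absurd h12 (by decide)
        · rw [two _ _ hd, if_pos]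
          exact ⟨hwy, decide_eq_true ⟨F, F', hF, hF', hw, hw', u, hu.1, hu.2, huw, hd⟩⟩
      refine Eq.trans ?_ (congrArg (fun z => lam (vt L F') + cntP M y F' (L.vpos F' (vt L F')) +
        cntP M y F' (M.pos F' w) + z) e4.symm)
      have key : ∀ a b c d : ZMod 2, a + c = b + d → a = b + (c + d) := by decide
      exact key _ _ _ _ e3
    · have e1 := formula_out (hc F hF) (hyF F hF) hlam hw hwy (vt_le L F) (vt_dim L F)
      have e2 := formula_out (hc F' hF') (hyF F' hF') hlam hw' hwy (vt_le L F') (vt_dim L F')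
      rw [if_neg (fun h => hwy h.1), add_zero]
      exact e1.trans e2.symm

end Crest.Agent.R096.Lms_662
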