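import Crest.Agent.R096.Vb8_965

/-! Row 96, P1-TRIV (helper965), part 9: the arcs of the quads, the strips, transport to `Om` -/

set_option autoImplicit false
set_option linter.unusedSectionVars false
set_option linter.style.haveILetI false

open Set Topology Filter

namespace Crest.Agent.R096.Vb_965

open Crest.Agent.R096.Coh_184 Crest.Agent.R096.Brk1_582 Crest.Agent.R096.Brk2_582
open Crest.Agent.R096.Bsp_628 Crest.Agent.R096.Brk3_582
open Crest.Agent.R96.Push_899 Crest.Agent.R096.SkC1_961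

section arc

variable {E : Type*} [NormedAddCommGroup E] [NormedSpace ℝ E] [CompleteSpace E] {I : Type*}
variable {La : Set E} {P : I → Set E} {b : Set I → E} {N : ℕ}

/-- the arc of the quad with zero cells `Z` and active cells `a, a'` on the level sphere `(a, t)` -/
def arcQ (La : Set E) (P : I → Set E) (b : Set I → E) (Z : Set I) (a a' : I) (t β₁ β₂ : ℝ) : Set E :=
  {q ∈ La | (∀ z ∈ Z, q ∈ P z) ∧ sc P b q a = t ∧ sc P b q a' ∈ Icc β₁ β₂}

variable (F : Foam La P b N) {Z : Set I} {a a' : I} {t β₁ β₂ : ℝ}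

include F


/-- on the arc all other coordinates are `1` -/
theorem sc_arcQ (hfin : (insert a (insert a' Z)).ncard = N) (ht1 : t < 1) (hβ1 : β₂ < 1)
    {q : E} (hq : q ∈ arcQ La P b Z a a' t β₁ β₂) {c : I} (hca : c ≠ a) (hca' : c ≠ a')
    (hcZ : c ∉ Z) : sc P b q c = 1 := by
  obtain ⟨hqL, h2, h3, h4⟩ := hq
  by_contra hne
  have hlt : sc P b q c < 1 := lt_of_le_of_ne (F.sc_le_one hqL c) hne
  have hsub : insert c (insert a (insert a' Z)) ⊆ {c | sc P b q c < 1} := by
    intro d hd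
    show sc P b q d < 1
    rcases hd with rfl | rfl | rfl | hd
    · exact hlt
    · rw [h3]; exact ht1
    · exact lt_of_le_of_lt h4.2 hβ1
    · rw [(F.sc_eq_zero hqL).2 (h2 d hd)]; exact one_pos
  have h5 := ncard_le_ncard hsub (F.sc_lt_one_finite hqL)
  have h6 := F.sc_lt_one_ncard hqL
  have hfin' : (insert a (insert a' Z)).Finite :=
    (F.sc_lt_one_finite hqL).subset ((subset_insert _ _).trans hsub)
  rw [ncard_insert_of_notMem (by
    rintro (h | h | h)
    · exact hca h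
    · exact hca' h
    · exact hcZ h) hfin', hfin] at h5
  omega



variable {Ψ : E → E} {μ : E → ℝ} {ε : ℝ} (hp : Push La P Ψ μ) (hε : 0 < ε) (hε1 : ε ≤ 1)
include hp hε hε1



end arc

/-! ### transport by a homeomorphism -/

section hom

variable {f : E3 → E3} {Om La : Set E3}

theorem Hom3.preimage_eq (hf : Hom3 f Om La) {D : Set E3} (hDL : D ⊆ La) :
    ∃ g : E3 → E3, ContinuousOn g D ∧ InjOn g D ∧ {x ∈ Om | f x ∈ D} = g '' D := by
  obtain ⟨g, a1, a2, a3, a4, a5, a6⟩ := hf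
  refine ⟨g, a6.mono hDL, fun y hy z hz h => ?_, ?_⟩
  · rw [← a4 y (hDL hy), ← a4 z (hDL hz), h]
  · ext x
    constructor
    · rintro ⟨hx, hxD⟩; exact ⟨f x, hxD, a3 x hx⟩
    · rintro ⟨y, hy, rfl⟩
      refine ⟨a2 (hDL hy), ?_⟩
      rw [a4 y (hDL hy)]; exact hy


theorem isCompact_hom (hf : Hom3 f Om La) {D : Set E3} (hD : IsCompact D) (hDL : D ⊆ La) :
    IsCompact {x ∈ Om | f x ∈ D} := by
  obtain ⟨g, h1, h2, h3⟩ := Hom3.preimage_eq hf hDL
  rw [h3]; exact hD.image_of_continuousOn h1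

theorem isPreconnected_hom (hf : Hom3 f Om La) {D : Set E3} (hD : IsPreconnected D)
    (hDL : D ⊆ La) : IsPreconnected {x ∈ Om | f x ∈ D} := by
  obtain ⟨g, h1, h2, h3⟩ := Hom3.preimage_eq hf hDL
  rw [h3]; exact hD.image g h1

end hom

/-! ### everything for `FoamD` -/

variable {δ κ0 R c0 : ℝ} {La : Set E3} (Φ : FoamD δ κ0 R c0 La)

/-- the map `RR` of 961's foam -/
noncomputable def RD (ε : ℝ) : E3 → E3 := RR (Pc Φ.F) (bc (F := Φ.F)) Φ.Psi (muD Φ) ε


theorem cell_nonempty (d : Φ.F) : (Pc Φ.F d).Nonempty :=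
  ⟨d.1.lo, Bx.mem_set.2 fun i => ⟨le_rfl, (Φ.bf.pos d.1 d.2 i).le⟩⟩

variable {ε : ℝ} (hLa : IsOpen La) (hε : 0 < ε) (hε1 : ε ≤ 1)
include hLa hε hε1







end Crest.Agent.R096.Vb_965
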