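import Crest.Agent.R096.Nr1_527
import Crest.Agent.R096.Vb9_965

/-!
# Row 96 (S0127), NEAR + PROPER, part 2 (helper527): adjacency from the data of `MachBF`

* `not_hole` : a tile which is not a core misses all holes (`Exact`: margins + `miss`; `Tiny`: `f`
  injective);
* `fine_touch` : on a fine tile every cell of `Psi (f x0)` touches every cell of `f x`;
* `exact_touch` : on an exact core of `c` every cell of `f x` touches `c`;
* `tiny_only` : on a tiny core of `c` the only cell of `f x` is `c`;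
* **`adj_of`** : the structure map `G` of the machine is adjacent to `f`.
-/

set_option autoImplicit false
set_option linter.unusedSectionVars false
set_option linter.style.haveILetI false

open Set Filter Topology Metric

namespace Crest.Agent.R096.Nr_527

open Crest.Agent.R096.Brk1_582 Crest.Agent.R096.Brk2_582 Crest.Agent.R096.Brk3_582
open Crest.Agent.R096.Brk4_582 Crest.Agent.R096.Brk5_582 Crest.Agent.R096.Bsp_628
open Crest.Agent.R096.SkC1_961 Crest.Agent.R096.Vb_965 Crest.Agent.R096.Msh_715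
open Crest.Agent.R96.Push_899

variable {δ κ0 R c0 : ℝ} {La Om : Set E3} {ι : Type} (Φ : FoamD δ κ0 R c0 La)

/-- the interior of a polyhedron with an interior point -/
theorem interior_P' {E : Type*} [NormedAddCommGroup E] [NormedSpace ℝ E]
    {H : Finset ((E →L[ℝ] ℝ) × ℝ)} (hne : (I H).Nonempty) : interior (P H) = I H := by
  apply Subset.antisymm
  · intro x hx h hh
    obtain ⟨z, hz⟩ := hne
    have hxP : x ∈ P H := interior_subset hx
    by_contra hcon
    have e : h.1 x = h.2 := le_antisymm (hxP h hh) (not_lt.1 hcon)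
    have hc : ContinuousAt (fun s : ℝ => x + s • (x - z)) 0 := by fun_prop
    have hev : ∀ᶠ s in 𝓝 (0 : ℝ), x + s • (x - z) ∈ interior (P H) := by
      refine hc.eventually_mem (isOpen_interior.mem_nhds ?_)
      simpa using hx
    obtain ⟨r, hr, hr'⟩ := Metric.eventually_nhds_iff.1 hev
    have h1 : x + (r / 2) • (x - z) ∈ P H := interior_subset (hr' (by
      rw [Real.dist_eq, sub_zero, abs_of_pos (by positivity)]; linarith))
    have h2 := h1 h hh
    rw [map_add, map_smul, map_sub, e, smul_eq_mul] at h2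
    have h3 := hz h hh
    have h4 : 0 < r / 2 * (h.2 - h.1 z) := by
      apply mul_pos (by positivity); linarith
    linarith
  · exact interior_maximal (I_sub_P H) (isOpen_I H)

/-- the push maps a point off the holes into its cells -/
theorem Psi_mem (hLa : IsOpen La) {c : Φ.F} {y : E3} (hy : y ∈ Pc Φ.F c)
    (hh : y ∉ (Φ.B c).S) : Φ.Psi y ∈ Pc Φ.F c :=
  ((pushD Φ hLa).mem c y hy ((muD_pos Φ hLa hy).2 hh)).1

/-- the push is continuous off the holes -/
theorem continuousOn_Psi (hLa : IsOpen La) :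
    ContinuousOn Φ.Psi {y | y ∈ La ∧ ∀ c, y ∉ (Φ.B c).S} := by
  refine (pushD Φ hLa).cont.mono ?_
  rintro y ⟨hy, hh⟩
  obtain ⟨c, hc⟩ := (foam Φ.bf hLa).cov y hy
  exact ⟨hy, (muD_pos Φ hLa hc).2 (hh c)⟩

variable {Φ} {T : Tiling Om ι} {f : E3 → E3} {κ1 κ2 : ℝ}






/-- smallness of `κ1` used here -/
structure Small (δ κ0 R κ1 κ2 : ℝ) : Prop where
  δ0 : 0 < δ
  R0 : 0 < R
  k1 : 0 ≤ κ1
  k2 : 0 ≤ κ2
  a : Cs (Fintype.card (Fin 3)) δ R * R * κ1 < 1
  b : 2 * κ0 * κ1 ≤ 1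
  c : κ0 * κ1 < κ2

/-- there is such a number -/
theorem exists_small {δ κ0 R κ2 : ℝ} (hδ : 0 < δ) (hR : 0 < R) (hκ0 : 0 ≤ κ0) (hκ2 : 0 < κ2) :
    ∃ κ : ℝ, 0 < κ ∧ ∀ κ1, 0 ≤ κ1 → κ1 ≤ κ → Small δ κ0 R κ1 κ2 := by
  set M : ℝ := Cs (Fintype.card (Fin 3)) δ R * R with hM
  have hM0 : 0 ≤ M := mul_nonneg (Cs_nonneg hδ hR) hR.le
  refine ⟨min (1 / (2 * (M + 1))) (min (1 / (2 * (κ0 + 1))) (κ2 / (2 * (κ0 + 1)))), by positivity,
    fun κ1 h0 h1 => ⟨hδ, hR, h0, hκ2.le, ?_, ?_, ?_⟩⟩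
  · have h2 : κ1 ≤ 1 / (2 * (M + 1)) := h1.trans (min_le_left _ _)
    rw [le_div_iff₀ (by positivity)] at h2
    nlinarith
  · have h2 : κ1 ≤ 1 / (2 * (κ0 + 1)) := h1.trans ((min_le_right _ _).trans (min_le_left _ _))
    rw [le_div_iff₀ (by positivity)] at h2
    nlinarith
  · have h2 : κ1 ≤ κ2 / (2 * (κ0 + 1)) := h1.trans ((min_le_right _ _).trans (min_le_right _ _))
    rw [le_div_iff₀ (by positivity)] at h2
    nlinarith


/-- **`Out.near`** from adjacency and `‖g - G‖ ≤ η ∘ f` -/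
theorem near_of_adj {G g : E3 → E3} (hA : Adj Φ.F Om f G) {η : E3 → ℝ}
    (hη : ∀ c : Φ.F, ∀ y ∈ Pc Φ.F c, η y ≤ c.1.sz) (hg : ∀ x ∈ Om, ‖g x - G x‖ ≤ η (f x)) :
    ∀ x ∈ Om, ∀ c : Φ.F, f x ∈ c.1.set → ‖g x - f x‖ ≤ (2 + R) * c.1.sz := by
  intro x hx c hc
  have h1 := hA.near Φ.bf Φ.cmp hx hc
  have h2 := (hg x hx).trans (hη c _ hc)
  calc ‖g x - f x‖ = ‖(g x - G x) + (G x - f x)‖ := by congr 1; abel
    _ ≤ ‖g x - G x‖ + ‖G x - f x‖ := norm_add_le _ _
    _ ≤ (2 + R) * c.1.sz := by linarith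



end Crest.Agent.R096.Nr_527
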