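import Crest.Agent.R096.At9_241
import Crest.Agent.R096.At10_241
import Crest.Agent.R096.Shg6_334
import Crest.Agent.R096.Cpo2_642
import Crest.Agent.R096.Gl12_422
import Crest.Agent.R096.Lms3_662
import Crest.Agent.R096.Mi2_117
import Crest.Agent.R096.Init12_543

-- ▼ part R096/At11_241
section

/-!
# R096 (row 96), ARR-INST part 11 (helper241): the geometric half of `QPos` over the cells outside all
cores, `GeoIn` from helper117's `MGeo`

* `TG` : the geometry of the tiles of a labelled mesh; `QPos.of_tg`;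
* `tg_of_emb` : `TG` over any index type which names the cells outside all cores (334's `Emb`,
  `Cor2`);
* `embP` : 642's `celK` is such a type (337's `Lp`);
* `GeoIn.of_mgeo` : `GeoIn` from 117's `MGeo` and the `Inv`.
-/

set_option autoImplicit false
set_option linter.unusedSectionVars false
set_option linter.unusedVariables false
set_option linter.style.longLine false

open Set Metric Topology Module

namespace Crest.Agent.R096.At_241

open Crest.Agent.R096.Ce_537 Crest.Agent.R096.Bd_416 Crest.Agent.R096.Mg_441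
open Crest.Agent.R096.St_147 Crest.Agent.R096.Seq_213 Crest.Agent.R096.Lm_117
  Crest.Agent.R096.Cp_298 Crest.Agent.R096.SkB_662 Crest.Agent.R096.Ac_117
open Crest.Agent.R096.Brk1_582 (Foam fc)
open Crest.Agent.R096.Init_543 (QK)
open Crest.Agent.R096.On_441 (Lf xlf)

/-- **the geometry of the tiles** -/
structure TG {ιM Φ W Q I : Type} {M : MeshC ιM Φ W} [PartialOrder Q] {dim : Q → ℕ}
    (L : LM M Q dim) (tc : ιM → Q) (ord : ιM → Prop) (core : I → ιM) : Prop where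
  dim3 : ∀ τ, ord τ → dim (tc τ) = 3
  side : ∀ τ, ord τ → ∀ F, (τ ∈ M.side F ↔ L.cf F ≤ tc τ)
  tc_inj : ∀ τ τ', ord τ → ord τ' → tc τ = tc τ' → τ = τ'
  top : ∀ q : Q, ∃ τ, ord τ ∧ q ≤ tc τ
  nord : ∀ c, ¬ ord (core c)
  inj : Function.Injective core

section qpos

variable {ιM Φ W Q I : Type} {M : MeshC ιM Φ W} [PartialOrder Q] {dim : Q → ℕ}
  {L : LM M Q dim} {tc : ιM → Q} {ord : ιM → Prop} {core : I → ιM}
  {V : Type} [NormedAddCommGroup V] [NormedSpace ℝ V] {P : I → Set V}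
  {Qd : Quads ιM I (QK P)} {y : Q → I → ℝ}

/-- **`QPos` for 543's quads** from the geometry and the values at the active tiles -/
theorem QPos.of_tg (G : TG L tc ord core) (hin : ∀ k c, Qd.In k c ↔ c ∈ k.B)
    (act_ord : ∀ k, ∀ τ ∈ Qd.Act k, ord τ)
    (act_pos : ∀ k, ∀ τ ∈ Qd.Act k, ∀ a ∈ k.B, 0 < y (tc τ) a ∧ y (tc τ) a < 1)
    (act_zero : ∀ k, ∀ τ ∈ Qd.Act k, ∀ a ∈ k.Z, y (tc τ) a = 0) :
    QPos L Qd P y tc ord (fun k => k.Z) core where
  dim3 := G.dim3
  side := G.side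
  tc_inj := G.tc_inj
  top := G.top
  nord := G.nord
  inj := G.inj
  cZ := fun k => k.cZ
  act_ord := act_ord
  act_pos := fun k τ hτ a ha => act_pos k τ hτ a ((hin k a).1 ha)
  act_zero := act_zero
  sq := fun B Z₀ hB hZ hd hne => by
    refine ⟨⟨B, Z₀, hB, hZ, hd, hne⟩, ?_, rfl⟩
    ext a
    exact hin _ a
  uniq := fun k k' hB hZ => by
    have e : ∀ k : QK P, {a | Qd.In k a} = k.B := fun k => by ext a; exact hin k a
    rw [e, e] at hB
    exact QK.ext hB hZ

end qpos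

section geo

variable {ι Φ W Q J Fam Kq : Type} {M : MeshC ι Φ W} [PartialOrder Q] {dim : Q → ℕ}
variable {E : Type*} [NormedAddCommGroup E] [NormedSpace ℝ E] [FiniteDimensional ℝ E]
variable {E' : Type*} [NormedAddCommGroup E'] [NormedSpace ℝ E'] [FiniteDimensional ℝ E']
variable {L : LM M Q dim} {O : Ori M} {σ : Q → ZMod 2} {Rel : W → W → Prop} {V : Set W}
  {Qd : Quads ι Fam Kq} {κ : Fam → ℕ} {fam : J → Fam} {s₀ : GSt M fam} {far₀ : J → Set W}
  {G : Fam → Set W} {Z : Fam → Set Q} {lam₀ : J → Q → ZMod 2} {v₀ v₁ : Fam → Q}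
  {hfin : ∀ a, {j | fam j = a}.Finite} {kap : Fam → ℕ} {s : GSt M (fam' fam (Rk κ kap))}
  {far : Nm' fam (Rk κ kap) → Set W} {β : W → W} {lam : Nm' fam (Rk κ kap) → Q → ZMod 2}
variable {Pf : Fam → Set E} {y : Q → Fam → ℝ} {tc : ι → Q} {ord : ι → Prop} {Zk : Kq → Set Fam}
  {core : Fam → ι}

/-- **`GeoIn` from 117's facts** -/
theorem GeoIn.of_mgeo
    {h : StO L O σ Rel V Qd κ s₀ far₀ Z lam₀ v₀ v₁ hfin kap s far β lam}
    (Gq : QPos L Qd Pf y tc ord Zk core) {Ω0 : Set E'} {K : Q → Set E'}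
    {g : Gd E' (Nm' fam (Rk κ kap))} {P : ∀ q, h.cmb.I q → Set E'}
    {cb : ∀ q, h.cmb.I q → E' → ℝ} (H : Inv h.cmb K univ g P cb) (Xc : Cplx Ω0 Q dim K)
    {R : Set Q} (hR : ∀ q ∈ R, dim q ≤ 2) (MG : Mi_117.MGeo h.lfs (Lf lam) (xlf h.lab.lab) K R cb) :
    GeoIn h Ω0 K g P cb R (ek h.lfs) where
  inv := H
  cplx := Xc
  geo := MG.geo
  geoR := MG.geoR
  cmbG := MG.cmbG
  hk := fun _ _ _ => rfl
  GO := fun e _ hd => (MG.edge e hd).2
  B2 := hR
  sph := fun τ ⟨k, hk⟩ =>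
    ⟨Lms_662.LM.sphM L τ (tc τ) (fun F hF => (Gq.side τ (Gq.act_ord k τ hk) F).1 hF)
      fun F hF => (Gq.side τ (Gq.act_ord k τ hk) F).2 hF⟩

end geo

section emb

open Crest.Agent.R096.Msh_715 Crest.Agent.R096.Lab_184 Crest.Agent.R096.Agl5_543
  Crest.Agent.R096.Pat5_543 Crest.Agent.R096.Coh_184 Crest.Agent.R096.Shg_334
  Crest.Agent.R096.Cpo_642 Crest.Agent.R096.Gl_422

variable {E : Type} [NormedAddCommGroup E] [NormedSpace ℝ E] [FiniteDimensional ℝ E]
variable {Om : Set E} {ι : Type} {T : Tiling Om ι} {κ 𝒢 : Type} {KK : κ → Set E} {Kc : 𝒢 → Set E}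
variable [Nonempty T.Cell] {tl : 𝒢 → ι ⊕ κ}
variable {Q' : Type} [PartialOrder Q'] {dim' : Q' → ℕ} {vl : Q' → T.Cell}
variable (h3 : finrank ℝ E = 3) (hH : ∀ c, CoreH T (KK c))
  (hdis : ∀ c c', c ≠ c' → Disjoint (KK c) (KK c'))

/-- the 3-cell of a tile outside all cores -/
noncomputable def tcE (V : Emb T Kc dim' vl) (hne : Nonempty Q') (q : ι ⊕ κ) : Q' :=
  (V.exists_ci hne q).choose

theorem vl_tcE (V : Emb T Kc dim' vl) (hne : Nonempty Q') {i : ι}
    (hi : ∀ a, ¬ P (T.H i) ⊆ Kc a) : vl (tcE V hne (Sum.inl i : ι ⊕ κ)) = tcell T i :=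
  (V.exists_ci hne (Sum.inl i : ι ⊕ κ)).choose_spec i rfl hi

/-- **the tiles over an index type which names the cells outside all cores** -/
theorem tg_of_emb (V : Emb T Kc dim' vl) (R : Cor2 T KK Kc tl)
    (L : LM (mK h3 hH hdis) Q' dim') (hcf : ∀ F, vl (L.cf F) = F.1.1) (hne : Nonempty Q') :
    TG L (tcE V hne) (ordX T κ Kc) tl where
  dim3 := by
    rintro _ ⟨i, rfl, hi⟩
    rw [V.dim, vl_tcE V hne hi]
    exact tcell_dim h3 i
  side := by
    rintro _ ⟨i, rfl, hi⟩ F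
    have hik : ∀ k, ¬ P (T.H i) ⊆ KK k := by
      intro k hk
      obtain ⟨a, ha⟩ := R.sur k
      exact hi a (by rw [R.kk a k ha]; exact hk)
    rw [inl_side h3 hH hdis hik F, V.le, hcf, vl_tcE V hne hi]
    constructor
    · intro h
      show F.1.set ⊆ (tcell T i).set
      rw [tcell_set]
      exact h.trans (isClosed_P _).frontier_subset
    · intro h
      have h1 : F.1.set ⊆ (tcell T i).set := h
      rw [tcell_set] at h1
      exact cell_frontier h3 (c := F.1.1) (le_of_eq F.1.2) h1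
  tc_inj := by
    rintro _ _ ⟨i, rfl, hi⟩ ⟨i', rfl, hi'⟩ h
    have h1 : tcell T i = tcell T i' := by
      rw [← vl_tcE V hne hi, ← vl_tcE V hne hi']
      exact congrArg vl h
    have h2 : P (T.H i) = P (T.H i') := by
      rw [← tcell_set, ← tcell_set, h1]
    rw [tile_sub h2.subset]
  top := by
    intro q
    obtain ⟨i, h1, h2⟩ := V.out q
    refine ⟨Sum.inl i, ⟨i, rfl, h1⟩, ?_⟩
    rw [V.le, vl_tcE V hne h1]
    show (vl q).set ⊆ (tcell T i).set
    rw [tcell_set]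
    exact h2
  nord := by
    rintro a ⟨i, hi, h⟩
    exact h a (by rw [R.ct a i hi])
  inj := R.inj

/-! ### 642's index type -/

section pK

variable {α : Type} {ti : α → ι}

/-- **642's index type names the cells outside all cores** -/
theorem embP (R : Cor2 T KK Kc tl) (h1 : ∀ a, ∃ c, tl c = Sum.inl (ti a))
    (h2 : ∀ c i, tl c = Sum.inl i → ∃ a, ti a = i)
    (h3 : finrank ℝ E = 3) (hH : ∀ c, CoreH T (KK c)) :
    Emb T Kc (fun c : {c : QK (belK T KK) // pK T KK ti c} =>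
      dimK (belK T KK) (fun c => c.1.dim) c.1) (celK T KK ti) where
  inj := celK_inj ti
  le := by
    intro q q'
    constructor
    · intro h
      rcases h.lt_or_eq with h' | h'
      · exact ((celK_lt ti q q').1 h').le
      · rw [h']
    · intro h
      rcases h.lt_or_eq with h' | h'
      · exact ((celK_lt ti q q').2 h').le
      · rw [celK_inj ti h']
  dim := celK_dim ti
  out := by
    intro q
    obtain ⟨hO, hn⟩ := (celK_range ti (celK T KK ti q)).1 ⟨q, rfl⟩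
    generalize celK T KK ti q = c at hO hn
    rcases Nat.lt_or_ge c.dim 3 with h | h
    · exact R.out_of h3 hH (by omega) hO
    · have hle : c.dim ≤ finrank ℝ E := T.dim_le_finrank c.pt
      obtain ⟨i, hi, hI⟩ := tile_of_dim h3 (c := c) (by omega)
      have hout : ∀ k, ¬ P (T.H i) ⊆ KK k := by
        obtain ⟨i0, a1, a2⟩ := hO
        rw [hi] at a2
        rw [tile_sub a2]
        exact a1
      rcases R.cases hout with h4 | ⟨a, ha⟩
      · exact ⟨i, h4, hi.le⟩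
      · obtain ⟨b, hb⟩ := h2 a i ha
        refine absurd ?_ (hn b)
        rw [hb]
        exact hi
  sur := by
    intro c hc
    refine (celK_range ti c).2 ⟨R.outK hc, fun a ha => ?_⟩
    obtain ⟨b, hb⟩ := h1 a
    obtain ⟨q, a1, a2⟩ := hc
    rw [ha] at a2
    have h5 := tile_sub a2
    refine a1 b ?_
    rw [← h5, R.ct b _ hb]

variable (hne : ∃ c, OutK T KK c) (hp : ∀ c d, c ≤ d → pK T KK ti d → pK T KK ti c)
  (hpn : ∃ c, pK T KK ti c)
  (hp2 : ∀ c, dimK (belK T KK) (fun c => c.1.dim) c ≤ 2 → pK T KK ti c)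


end pK

end emb

end Crest.Agent.R096.At_241
end

-- ▼ part R096/At12_241

/-!
# R096 (row 96), ARR-INST part 12 (helper241): positions at the active cells, for every base point

`ActV`, `PtsV` : the two clauses of the front (337 #11080) in the pointwise form;
`actV_of`, `ptsV_of` : from 543's `InitR`, `Mesh0`.
-/

set_option autoImplicit false
set_option linter.unusedSectionVars false
set_option linter.unusedVariables false
set_option linter.style.longLine false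

open Set Metric Topology Module

namespace Crest.Agent.R096.At_241

open Crest.Agent.R096.Ce_537 Crest.Agent.R096.Bd_416 Crest.Agent.R096.Mg_441
open Crest.Agent.R096.St_147 Crest.Agent.R096.Seq_213 Crest.Agent.R096.Lm_117
open Crest.Agent.R096.Brk1_582 Crest.Agent.R096.Brk2_582 Crest.Agent.R096.Brk3_582
open Crest.Agent.R096.Brk5_582 Crest.Agent.R096.Bsp_628
open Crest.Agent.R096.Init_543 Crest.Agent.R096.Coh_184 Crest.Agent.R096.Msh_715
open Crest.Agent.R096.SkC1_961 (E3 Hom3 FoamD Cfg th NN)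

section gen

variable {E V : Type} [NormedAddCommGroup E] [NormedSpace ℝ E] [FiniteDimensional ℝ E]
  [NormedAddCommGroup V] [NormedSpace ℝ V] [FiniteDimensional ℝ V]
variable {I ι : Type} {Om : Set E} {La : Set V} {P : I → Set V} {b : Set I → V}
  {R : V → V} {f : E → V} {g : V → E} {T : Tiling Om ι} {Kor : Set ι} {ε s : ℝ}

/-- at every point of an active tile the two families are strictly inside, the two cores at 0 -/
theorem act_vals (H : Hm f g Om La) (F : Foam La P b 4) (hR : Ret La P R)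
    (hM : Mesh0 T P b R f Kor ε) (hε : ε < s) (hε1 : ε < 1) {k : QK P} {i : ι}
    (hi : i ∈ Act0 T P b R f Kor s k) {x : E} (hx : x ∈ Msh_715.P (T.H i)) :
    (∀ a ∈ k.B, 0 < va P b R f a x ∧ va P b R f a x < 1) ∧ ∀ a ∈ k.Z, va P b R f a x = 0 := by
  obtain ⟨h2, x₀, h3, h4, h5⟩ := hi
  have h := key H F hR hM hε hε1 h2 h3 hx h4 h5
  refine ⟨fun a ha => ?_, h.2.1⟩
  have h6 := h.1 a ha
  constructor
  · linarith [h6.1]
  · linarith [h6.2]

/-- a tile over the quad with points of both families is active -/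
theorem act_of_vals (hM : Mesh0 T P b R f Kor ε) {s' : ℝ} (hs' : s + ε ≤ s') {k : QK P} {i : ι}
    (hi : i ∉ Kor) {x : E} (hx : x ∈ Msh_715.P (T.H i))
    (hw : ∀ a ∈ k.B, ∃ x' ∈ Msh_715.P (T.H i), va P b R f a x' ∈ Icc s' (1 - s'))
    (hz : ∀ a ∈ k.Z, va P b R f a x = 0) : i ∈ Act0 T P b R f Kor s k := by
  refine ⟨hi, x, hx, fun a ha => ?_, hz⟩
  obtain ⟨x', hx', h1⟩ := hw a ha
  have h2 := abs_le.1 (hM.osc _ hi _ hx _ hx' a)
  constructor
  · linarith [h1.1, h2.1, h2.2]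
  · linarith [h1.2, h2.1, h2.2]

/-- a set with interior lies in one tile -/
theorem tile_unique {Om' : Set E} {ι3 : Type} {T3 : Tiling Om' ι3} {i3 : ι3} {i i' : ι}
    (h : Msh_715.P (T3.H i3) ⊆ Msh_715.P (T.H i)) (h' : Msh_715.P (T3.H i3) ⊆ Msh_715.P (T.H i')) :
    i = i' := by
  by_contra hne
  obtain ⟨z, hz⟩ := T3.ne i3
  have h1 : z ∈ interior (Msh_715.P (T.H i)) :=
    mem_interior.2 ⟨Msh_715.I (T3.H i3), (I_sub_P _).trans h, isOpen_I _, hz⟩
  exact Set.disjoint_left.1 (disjoint_P_I (T.ne i') (T.dis i' i (Ne.symm hne)))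
    (h' (I_sub_P _ hz)) (interior_sub_I (T.ne i) h1)

end gen

section mach

variable {δ κ0 R c0 : ℝ} {La Om Om3 : Set E3} {ι ι3 κ : Type} {Φ : FoamD δ κ0 R c0 La}
  {T : Tiling Om ι} {T3 : Tiling Om3 ι3} {f g : E3 → E3} {J0 : Φ.F → Set ι} {ct' : Φ.F → ι}
  {r₀ : Φ.F → ℝ} {KK : κ → Set E3} {core : Φ.F → ι3 ⊕ κ}

/-- **active cells**: the two families strictly inside, the two cores at 0, for every base point -/
def ActV (Φ : FoamD δ κ0 R c0 La) (T : Tiling Om ι) (T3 : Tiling Om3 ι3) (f : E3 → E3)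
    (Qd : Quads (ι3 ⊕ κ) Φ.F (QK (Pc Φ.F))) : Prop :=
  ∀ k i3, Sum.inl i3 ∈ Qd.Act k → ∀ i, Msh_715.P (T3.H i3) ⊆ Msh_715.P (T.H i) →
    ∀ x ∈ Msh_715.P (T.H i),
    (∀ a ∈ k.B, Φ.lev a (f x) ∈ Ioo (0:ℝ) 1) ∧ ∀ a ∈ k.Z, Φ.lev a (f x) = 0


/-- the truthful levels on a tile which is not near a hole -/
theorem va_lev (hLa : IsOpen La) (hR : InitR Φ T f g J0 ct' r₀) {i : ι} (hi : i ∉ KorJ Φ J0)
    {x : E3} (hx : x ∈ Msh_715.P (T.H i)) (a : Φ.F) :
    va (Pc Φ.F) (bc (F := Φ.F)) (RF Φ r₀) f a x = Φ.lev a (f x) := by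
  refine hR.v_eq Φ hLa (T.sub i hx) (fun c => ?_) a
  refine not_mem_I (fun e => hi ⟨c, ?_⟩) hx
  rw [e]; exact hR.ct c

variable {ε s₁ : ℝ} {Qd : Quads (ι3 ⊕ κ) Φ.F (QK (Pc Φ.F))}

/-- **`ActV`** : layered cells are active only if their tile of `T` is -/
theorem actV_of (hLa : IsOpen La) (hR : InitR Φ T f g J0 ct' r₀)
    (hM : Mesh0 T (Pc Φ.F) (bc (F := Φ.F)) (RF Φ r₀) f (KorJ Φ J0) ε) (hε : ε < s₁) (hε1 : ε < 1)
    (hA : ∀ k i3, Sum.inl i3 ∈ Qd.Act k → ∃ i, Msh_715.P (T3.H i3) ⊆ Msh_715.P (T.H i) ∧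
      i ∈ Act0 T (Pc Φ.F) (bc (F := Φ.F)) (RF Φ r₀) f (KorJ Φ J0) s₁ k) :
    ActV Φ T T3 f Qd := by
  intro k i3 hi3 i hi x hx
  obtain ⟨i', h1, h2⟩ := hA k i3 hi3
  obtain rfl := tile_unique hi h1
  have h := act_vals hR.hm (foam4 Φ hLa) (retF Φ hLa hR.pos hR.le_one) hM hε hε1 h2 hx
  have hv := fun a => va_lev hLa hR h2.1 hx a
  refine ⟨fun a ha => ?_, fun a ha => ?_⟩
  · rw [← hv]; exact h.1 a ha
  · rw [← hv]; exact h.2 a ha


end mach

end Crest.Agent.R096.At_241
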