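import Crest.Agent.R096.Bar2_106
import Crest.Agent.R096.Mbf_337
import Crest.Agent.R096.Init3_543
import Crest.Agent.R096.Frn1_337

/-!
# Row 96, DOORS, barriers (helper106), part 4: all moats; the moat at a boundary point of a quad

* `BM Φ X` : the moats at the tiny cores, `co`, `am`, `Zm`; countable;
* `out_one` : over a quad all other coordinates are `1`;
* `Fm_hi`, `Fm_lo`, `Fs_hi`, `Fs_lo` : the two moats of a quad;
* `mo_hi`, `mo_lo` : they are moats;
* `sep_same`, `sep_ne` : two moats are separated by one coordinate.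
-/

set_option autoImplicit false
set_option linter.unusedSectionVars false

open Set Topology Filter

namespace Crest.Agent.R096.Bar_106

open Crest.Agent.R096.Brk1_582 Crest.Agent.R096.Brk2_582 Crest.Agent.R096.Etg_163
open Crest.Agent.R096.Bsp_628 Crest.Agent.R096.Brk3_582 Crest.Agent.R096.Exc_965
open Crest.Agent.R096.Init_543

section sep

variable {I : Type*} {a a' : I} {Z Z' : Set I} {u : I → ℝ}

/-- two moats of one family: the deviations are not both small -/
theorem sep_same (haZ : a ∉ Z) (haZ' : a ∉ Z') (hne : Z ≠ Z') {l : ℝ} (hl : 2 * l < 1)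
    (h : ∀ e, dv a Z u e ≤ l) (h' : ∀ e, dv a Z' u e ≤ l) : False := by
  obtain ⟨e, he⟩ : ∃ e, ¬ (e ∈ Z ↔ e ∈ Z') := by
    by_contra hcon
    push Not at hcon
    exact hne (Set.ext hcon)
  have hea : e ≠ a := by
    rintro rfl
    exact he ⟨fun h => absurd h haZ, fun h => absurd h haZ'⟩
  have h1 := h e
  have h2 := h' e
  by_cases hZ : e ∈ Z
  · have hZ' : e ∉ Z' := fun h3 => he ⟨fun _ => h3, fun _ => hZ⟩
    rw [dv_in hea hZ] at h1
    rw [dv_out hea hZ'] at h2
    linarith
  · have hZ' : e ∈ Z' := by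
      by_contra h3
      exact he ⟨fun h => absurd h hZ, fun h => absurd h h3⟩
    rw [dv_out hea hZ] at h1
    rw [dv_in hea hZ'] at h2
    linarith


end sep

section quad

variable {E : Type} [NormedAddCommGroup E] [NormedSpace ℝ E] [FiniteDimensional ℝ E]
  [CompleteSpace E] {I : Type}
variable {La : Set E} {P : I → Set E} {b : Set I → E} {u : I → ℝ} {k : QK P} {c a a' : I}








end quad

section boxfoam

variable {κ : Type} [Fintype κ] [Nonempty κ] {La : Set (κ → ℝ)} {F : Set (Bx κ)} {δ κ0 : ℝ} {c a a' : F}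



end boxfoam

section all

open Crest.Agent.R096.SkC1_961 (E3 FoamD)
open Crest.Agent.R096.Frn_337 (Ti)

variable {δ κ0 R c0 : ℝ} {La : Set E3}

/-- **the moats at the tiny cores** -/
def BM (Φ : FoamD δ κ0 R c0 La) (X : Set Φ.F) : Type :=
  {x : Ti X × Φ.F × Set Φ.F // ∃ p m, Mo (Pc Φ.F) x.1.1 x.2.1 x.2.2 p m}

variable {Φ : FoamD δ κ0 R c0 La} {X : Set Φ.F}

namespace BM

/-- the core of the moat -/
def co (m : BM Φ X) : Φ.F := m.1.1.1

/-- the family of the moat -/
def am (m : BM Φ X) : Φ.F := m.1.2.1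

/-- the cells at coordinate 0 -/
def Zm (m : BM Φ X) : Set Φ.F := m.1.2.2

theorem co_notMem (m : BM Φ X) : m.co ∉ X := m.1.1.2

theorem mo (m : BM Φ X) : ∃ p q, Mo (Pc Φ.F) m.co m.am m.Zm p q := m.2

theorem ext {m m' : BM Φ X} (h1 : m.co = m'.co) (h2 : m.am = m'.am) (h3 : m.Zm = m'.Zm) : m = m' :=
  Subtype.ext (Prod.ext (Subtype.ext h1) (Prod.ext h2 h3))



theorem Zm_finite (hLa : IsOpen La) (m : BM Φ X) : m.Zm.Finite := by
  obtain ⟨p, q, h⟩ := m.mo
  have FF : Foam La (Pc Φ.F) (bc (F := Φ.F)) (Fintype.card (Fin 3) + 1) := foam Φ.bf hLa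
  have h1 := FF.finite_of_fc (⟨m.co, Or.inl h.cZ⟩) h.fcp
  exact h1.subset fun e he => Or.inl he

theorem countable (hLa : IsOpen La) : Countable (BM Φ X) := by
  classical
  have h1 : Countable Φ.F := Φ.bf.countable.to_subtype
  have h2 : Function.Injective fun m : BM Φ X =>
      ((m.co, m.am, (Zm_finite hLa m).toFinset) : Φ.F × Φ.F × Finset Φ.F) := by
    intro m m' h
    have h3 := Prod.mk.inj h
    have h4 := Prod.mk.inj h3.2
    refine BM.ext h3.1 h4.1 ?_
    have h5 := congrArg (fun s : Finset Φ.F => (s : Set Φ.F)) h4.2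
    simpa using h5
  exact h2.countable

end BM

end all

end Crest.Agent.R096.Bar_106
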