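import Crest.Agent.R096.Bd6_416

/-!
# R096 (row 96), P4-BAND, part 7: product charts of bands and of intersections of two bands
(helper416)
-/

set_option autoImplicit false

open Set Metric

namespace Crest.Agent.R096.Bd_416

open Crest.Agent.R096.Ce_537

variable {E : Type*} [NormedAddCommGroup E] [NormedSpace ℝ E] {κ : Type*}
variable {g : Gd E κ} {Z : Set E}

/-- the core of a piece of a band -/
def Gd.core (g : Gd E κ) (a : κ) (P : Set E) : Set E := {z | z ∈ P ∧ g.G a z = g.lev a z + 1/2}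

lemma zero_mem_I2 : (0:ℝ) ∈ I2 := by constructor <;> norm_num

lemma Gd.Is.tr_core (h : g.Is Z) {a : κ} {P : Set E} (hP : P ⊆ Z) (hB : P ⊆ g.B a) {z : E}
    (hz : z ∈ g.core a P) : g.tr a (z, 0) = z := by
  have h1 := h.ts a z (hP hz.1) (hB hz.1)
  rw [hz.2] at h1
  have : g.lev a z + 1/2 - g.lev a z - 1/2 = 0 := by ring
  rwa [this] at h1

/-- **chart of a band**: `(m, s) ↦ tr a (m, s)` -/
noncomputable def Gd.Is.chart (h : g.Is Z) {a : κ} {P : Set E} (hP : P ⊆ Z) (hB : P ⊆ g.B a)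
    (hi : ∀ z ∈ P, ∀ s ∈ I2, g.tr a (z, s) ∈ P) : PLEquiv (g.core a P ×ˢ I2) P where
  f := g.tr a
  g z := (g.tr a (z, 0), g.G a z - g.lev a z - 1/2)
  pf := (h.pt a).mono (prod_mono (fun _ hz => ⟨hP hz.1, hB hz.1⟩) le_rfl)
  pg := by
    refine pl_pair ((h.pt a).comp (pl_pair (plOn_id _) (plOn_const (0:ℝ) _))
      (fun z hz => ⟨⟨hP hz, hB hz⟩, zero_mem_I2⟩)) ?_
    exact pl_sub_const (pl_sub ((h.pG a).mono hP) ((h.plev a).mono
      (fun z hz => ⟨hP hz, hB hz⟩))) _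
  mf p hp := hi _ hp.1.1 _ hp.2
  mg z hz := by
    refine ⟨⟨hi z hz 0 zero_mem_I2, ?_⟩, h.ab a z (hP hz) (hB hz)⟩
    show g.G a (g.tr a (z, 0)) = g.lev a (g.tr a (z, 0)) + 1/2
    rw [h.tG a z (hP hz) (hB hz) 0 zero_mem_I2, h.tl a z (hP hz) (hB hz) 0 zero_mem_I2]
    ring
  li p hp := by
    obtain ⟨z, s⟩ := p
    obtain ⟨hz, hs⟩ := hp
    have hz' := hz.1
    apply Prod.ext
    · show g.tr a (g.tr a (z, s), 0) = z
      rw [h.tt a z (hP hz') (hB hz') s hs 0 zero_mem_I2]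
      exact h.tr_core hP hB hz
    · show g.G a (g.tr a (z, s)) - g.lev a (g.tr a (z, s)) - 1/2 = s
      rw [h.tG a z (hP hz') (hB hz') s hs, h.tl a z (hP hz') (hB hz') s hs]
      ring
  ri z hz := by
    show g.tr a (g.tr a (z, 0), g.G a z - g.lev a z - 1/2) = z
    rw [h.tt a z (hP hz) (hB hz) 0 zero_mem_I2 _ (h.ab a z (hP hz) (hB hz))]
    exact h.ts a z (hP hz) (hB hz)





end Crest.Agent.R096.Bd_416
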