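import Crest.Agent.R96.Nu4_199
import Crest.Agent.R096.Msh3_715
import Crest.Agent.R096.Bd10_416

/-!
# R096 (row 96), charts of the cells of a tiling with constants = function of the shape (helper879)

(C2) of 147 #9871, adapter of 199's `exists_frame_charts`: every cell of every tiling has ONE chart
whose Lipschitz constants in every affine frame `B` are `Cs (dim) (B '' cell)`; local bounds
(`LM` / `MB`, the form consumed by `mesh_cone`) and global ones.
-/

set_option autoImplicit false
set_option linter.style.longLine false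
set_option linter.unusedVariables false

open Set Metric Filter Topology

namespace Crest.Agent.R096.Chs_879

open Crest.Agent.R096.Ce_537 Crest.Agent.R096.Bd_416 Crest.Agent.R096.Msh_715
open Crest.Agent.R96.Nu3_199 Crest.Agent.R96.Nu4_199

noncomputable section

/-- a locally Lipschitz map on a convex set is globally Lipschitz with the same constant -/
theorem lip_of_local {E F : Type*} [NormedAddCommGroup E] [NormedSpace ℝ E] [PseudoMetricSpace F]
    {L : ℝ} (hL : 0 ≤ L) {f : E → F} {K : Set E} (hK : Convex ℝ K)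
    (h : ∀ x ∈ K, ∀ᶠ y in 𝓝[K] x, dist (f y) (f x) ≤ L * dist y x) :
    ∀ x ∈ K, ∀ y ∈ K, dist (f y) (f x) ≤ L * dist y x := by
  intro x hx y hy
  have hf : ContinuousOn f K := fun z hz => LM.continuousWithinAt (L := L) (h z hz)
  set γ : ℝ → E := fun t => x + t • (y - x) with hγ
  have hγc : Continuous γ := by rw [hγ]; fun_prop
  have hγK : ∀ t ∈ Icc (0:ℝ) 1, γ t ∈ K := fun t ht => by
    have := hK.add_smul_sub_mem hx hy ht
    exact this
  have hγd : ∀ s t : ℝ, dist (γ s) (γ t) = |s - t| * dist y x := by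
    intro s t
    rw [dist_eq_norm, dist_eq_norm, ← Real.norm_eq_abs, ← norm_smul]
    congr 1
    simp only [hγ]
    rw [sub_smul]; abel
  set S : Set ℝ := {t | dist (f (γ t)) (f x) ≤ L * (t * dist y x)} with hS
  have hcl : IsClosed (S ∩ Icc (0:ℝ) 1) := by
    have h1 : ContinuousOn (fun t => dist (f (γ t)) (f x) - L * (t * dist y x)) (Icc (0:ℝ) 1) := by
      refine ContinuousOn.sub ?_ (by fun_prop)
      have h0 : ContinuousOn (fun t => f (γ t)) (Icc (0:ℝ) 1) := hf.comp hγc.continuousOn hγK
      exact continuous_dist.comp_continuousOn (h0.prodMk continuousOn_const)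
    have h2 := h1.preimage_isClosed_of_isClosed isClosed_Icc (isClosed_Iic (a := (0:ℝ)))
    have h3 : S ∩ Icc (0:ℝ) 1 = Icc (0:ℝ) 1 ∩
        (fun t => dist (f (γ t)) (f x) - L * (t * dist y x)) ⁻¹' Iic 0 := by
      ext t
      simp only [hS, mem_inter_iff, mem_ofPred_eq, mem_preimage, mem_Iic, sub_nonpos]
      tauto
    rw [h3]; exact h2
  have hsub : Icc (0:ℝ) 1 ⊆ S := by
    refine hcl.Icc_subset_of_forall_mem_nhdsWithin ?_ ?_
    · simp [hS, hγ]
    · rintro t ⟨ht, ht1⟩
      have ht2 : t ∈ Icc (0:ℝ) 1 := ⟨ht1.1, ht1.2.le⟩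
      have h4 : Tendsto γ (𝓝[>] t) (𝓝[K] (γ t)) := by
        refine tendsto_nhdsWithin_iff.2 ⟨(hγc.tendsto t).mono_left nhdsWithin_le_nhds, ?_⟩
        filter_upwards [Ioo_mem_nhdsGT ht1.2] with s hs
        exact hγK s ⟨ht1.1.trans hs.1.le, hs.2.le⟩
      filter_upwards [h4.eventually (h _ (hγK t ht2)), self_mem_nhdsWithin] with s hs hst
      have hst' : t < s := hst
      have h5 : dist (f (γ t)) (f x) ≤ L * (t * dist y x) := ht
      have h6 : dist (γ s) (γ t) = (s - t) * dist y x := by
        rw [hγd, abs_of_pos (by linarith)]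
      rw [h6] at hs
      show dist (f (γ s)) (f x) ≤ L * (s * dist y x)
      calc dist (f (γ s)) (f x) ≤ dist (f (γ s)) (f (γ t)) + dist (f (γ t)) (f x) :=
            dist_triangle _ _ _
        _ ≤ L * ((s - t) * dist y x) + L * (t * dist y x) := add_le_add hs h5
        _ = L * (s * dist y x) := by ring
  have h7 : (1:ℝ) ∈ S := hsub (right_mem_Icc.2 zero_le_one)
  have h8 : γ 1 = y := by simp [hγ]
  rw [hS, mem_ofPred_eq, h8, one_mul] at h7
  exact h7


end

end Crest.Agent.R096.Chs_879
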