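import Crest.Agent.R096.Be2_416
import Crest.Agent.R096.Chs1_879
import Crest.Agent.R96.Nu6_199
import Crest.Agent.R096.Bin10_181
import Crest.Agent.R096.Fl1_835
import Crest.Agent.R096.Cmh1_63
import Crest.Agent.R096.Bin9_181
import Crest.Agent.R096.Arc15_778

-- ▼ part R096/Be3_416
section

/-!
# R096 (row 96), BASE-ALL (helper416): the union of the bases of all exact cores
-/

set_option autoImplicit false
set_option linter.unusedSectionVars false

open Set Metric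

namespace Crest.Agent.R096.Be_416

open Crest.Agent.R096.Ce_537 Crest.Agent.R096.Bd_416 Crest.Agent.R096.Arc_778

open scoped Classical

variable {V : Type*} [NormedAddCommGroup V] [NormedSpace ℝ V] {Q : Type} [PartialOrder Q]
  {dim : Q → ℕ} {J Fam : Type} {Cm : Cmb Q dim J Fam} {K : Q → Set V}

section congr

variable {D : Set Q} {g g' : Gd V J} {P P' : ∀ q, Cm.I q → Set V} {c c' : ∀ q, Cm.I q → V → ℝ}

/-- `Inv` depends only on the values on the cells -/
theorem inv_congr (H : Inv Cm K D g P c) (hg : ∀ q ∈ D, ∀ z ∈ K q, EqAt g g' z)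
    (hP : ∀ q ∈ D, P' q = P q) (hc : ∀ q ∈ D, c' q = c q) (hD : ∀ q ∈ D, ∀ p < q, p ∈ D) :
    Inv Cm K D g' P' c' where
  is q hq := (H.is q hq).congr (eqs_of_eqAt (hg q hq))
  PF q hq j z hz := by rw [(hg q hq z hz).G, H.PF q hq j z hz, hc q hq]
  cl q hq x := by rw [hP q hq]; exact H.cl q hq x
  PK q hq x := by rw [hP q hq]; exact H.PK q hq x
  PB q hq x := by
    rw [hP q hq]
    intro z hz
    exact ((hg q hq z (H.PK q hq x hz)).B _).2 (H.PB q hq x hz)
  cov q hq j z hz hB := by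
    rw [hP q hq]
    exact H.cov q hq j z hz (((hg q hq z hz).B j).1 hB)
  pc q hq x := by rw [hc q hq]; exact H.pc q hq x
  cm q hq x := by rw [hc q hq]; exact H.cm q hq x
  cn q hq x := by rw [hc q hq, hP q hq]; exact H.cn q hq x
  fd q hq := by rw [hP q hq]; exact H.fd q hq
  sd q hq := by rw [hc q hq, hP q hq]; exact H.sd q hq
  r1 {p q} h hq x z hz := by
    rw [hP q hq, hP p (hD q hq p h)]; exact H.r1 h hq x z hz
  r2 {p q} h hq x z hz := by
    rw [hc q hq, hc p (hD q hq p h)]; exact H.r2 h hq x z hz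

end congr

/-- the empty data -/
def dflt (V J : Type*) [NormedAddCommGroup V] [NormedSpace ℝ V] : Gd V J where
  G _ _ := 0
  B _ := ∅
  lev _ _ := 0
  tr _ p := p.1

section union

variable {Ic : Type*} (S : Ic → Set V) (D : Ic → Set Q) (g : Ic → Gd V J)
  (P : Ic → ∀ q, Cm.I q → Set V) (c : Ic → ∀ q, Cm.I q → V → ℝ)

/-- the data used at a point -/
noncomputable def usel (z : V) : Gd V J :=
  if h : ∃ i, z ∈ S i then g h.choose else dflt V J

/-- the union of the data -/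
noncomputable def ug : Gd V J where
  G a z := (usel S g z).G a z
  B a := {z | z ∈ (usel S g z).B a}
  lev a z := (usel S g z).lev a z
  tr a p := (usel S g p.1).tr a p

/-- the union of the bands -/
noncomputable def uP (q : Q) (x : Cm.I q) : Set V :=
  if h : ∃ i, q ∈ D i then P h.choose q x else ∅

/-- the union of the functions -/
noncomputable def uc (q : Q) (x : Cm.I q) : V → ℝ :=
  if h : ∃ i, q ∈ D i then c h.choose q x else 0

variable {S D} (hS : ∀ i i', i ≠ i' → Disjoint (S i) (S i'))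
include hS

lemma usel_eq {i : Ic} {z : V} (hz : z ∈ S i) : usel S g z = g i := by
  have h : ∃ i, z ∈ S i := ⟨i, hz⟩
  unfold usel
  rw [dif_pos h]
  congr 1
  by_contra hne
  exact Set.disjoint_left.1 (hS _ _ hne) h.choose_spec hz

lemma ug_eqAt {i : Ic} {z : V} (hz : z ∈ S i) : EqAt (g i) (ug S g) z := by
  have h := usel_eq g hS hz
  refine ⟨fun a => ?_, fun a => ?_, fun a _ => ?_, fun a _ s _ => ?_⟩
  · show (usel S g z).G a z = _; rw [h]
  · show z ∈ (usel S g z).B a ↔ _; rw [h]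
  · show (usel S g z).lev a z = _; rw [h]
  · show (usel S g z).tr a (z, s) = _; rw [h]

variable (hK : ∀ i, ∀ q ∈ D i, K q ⊆ S i) (hne : ∀ q, (K q).Nonempty)
include hK hne

lemma D_uniq {i i' : Ic} {q : Q} (h : q ∈ D i) (h' : q ∈ D i') : i = i' := by
  by_contra hn
  obtain ⟨z, hz⟩ := hne q
  exact Set.disjoint_left.1 (hS _ _ hn) (hK _ _ h hz) (hK _ _ h' hz)

lemma uP_eq {i : Ic} {q : Q} (hq : q ∈ D i) : uP D P q = P i q := by
  funext x
  have h : ∃ i, q ∈ D i := ⟨i, hq⟩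
  unfold uP
  rw [dif_pos h, D_uniq hS hK hne h.choose_spec hq]

lemma uc_eq {i : Ic} {q : Q} (hq : q ∈ D i) : uc D c q = c i q := by
  funext x
  have h : ∃ i, q ∈ D i := ⟨i, hq⟩
  unfold uc
  rw [dif_pos h, D_uniq hS hK hne h.choose_spec hq]

/-- **BASE-ALL**: `Inv` on the union -/
theorem inv_union (hD : ∀ i, ∀ q ∈ D i, ∀ p < q, p ∈ D i)
    (H : ∀ i, Inv Cm K (D i) (g i) (P i) (c i)) :
    Inv Cm K (⋃ i, D i) (ug S g) (uP D P) (uc D c) := by
  have H' : ∀ i, Inv Cm K (D i) (ug S g) (uP D P) (uc D c) := fun i =>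
    inv_congr (H i) (fun q hq z hz => ug_eqAt g hS (hK i q hq hz))
      (fun q hq => uP_eq P hS hK hne hq) (fun q hq => uc_eq c hS hK hne hq) (hD i)
  have m : ∀ {q : Q}, q ∈ ⋃ i, D i → ∃ i, q ∈ D i := fun h => mem_iUnion.1 h
  refine ⟨fun q hq => ?_, fun q hq => ?_, fun q hq => ?_, fun q hq => ?_, fun q hq => ?_,
    fun q hq => ?_, fun q hq => ?_, fun q hq => ?_, fun q hq => ?_, fun q hq => ?_,
    fun q hq => ?_, fun {p q} h hq => ?_, fun {p q} h hq => ?_⟩ <;> obtain ⟨i, hi⟩ := m hq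
  · exact (H' i).is q hi
  · exact (H' i).PF q hi
  · exact (H' i).cl q hi
  · exact (H' i).PK q hi
  · exact (H' i).PB q hi
  · exact (H' i).cov q hi
  · exact (H' i).pc q hi
  · exact (H' i).cm q hi
  · exact (H' i).cn q hi
  · exact (H' i).fd q hi
  · exact (H' i).sd q hi
  · exact (H' i).r1 h hi
  · exact (H' i).r2 h hi

/-- `GeoR` on the union -/
theorem geoR_union (H : ∀ i, GeoR Cm K (c i) (D i)) : GeoR Cm K (uc D c) (⋃ i, D i) where
  edge q hq hd := by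
    obtain ⟨i, hi⟩ := mem_iUnion.1 hq
    rw [uc_eq c hS hK hne hi]; exact (H i).edge q hi hd
  face q hq hd := by
    obtain ⟨i, hi⟩ := mem_iUnion.1 hq
    rw [uc_eq c hS hK hne hi]; exact (H i).face q hi hd
  cell q hq hd := by
    obtain ⟨i, hi⟩ := mem_iUnion.1 hq
    rw [uc_eq c hS hK hne hi]; exact (H i).cell q hi hd

omit hS hK hne in
lemma down_union (hD : ∀ i, ∀ q ∈ D i, ∀ p < q, p ∈ D i) :
    ∀ q ∈ ⋃ i, D i, ∀ p < q, p ∈ ⋃ i, D i := by
  intro q hq p hp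
  obtain ⟨i, hi⟩ := mem_iUnion.1 hq
  exact mem_iUnion.2 ⟨i, hD i q hi p hp⟩

end union

end Crest.Agent.R096.Be_416
end

-- ▼ part R096/Be4_416
section

/-!
# R096 (row 96), P4-MESH (helper416): LB-BASE, part 1 (change of the frame by the diameter)

* `frame_diam` : for a convex compact `n`-cell `S` and affine maps `A`, `B` (`B` invertible),
  `dist (A y) (A z) ≤ diam (A '' S) * AAc n (B '' S) * dist (B y) (B z)` on `S`: chord through the
  centre of the chart.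
* `LB_diam` : the same for `LB`.
* `base_num` : the numbers of the base in all frames from one frame in which the cells are small.
-/

set_option autoImplicit false

open Set Metric Filter Topology

namespace Crest.Agent.R096.Be_416

open Crest.Agent.R096.Ce_537 Crest.Agent.R096.Bd_416 Crest.Agent.R096.Chs_879
open Crest.Agent.R96.Nu1_199 Crest.Agent.R96.Nu3_199 Crest.Agent.R96.Nu5_199
open Crest.Agent.R96.Nu6_199

set_option linter.unusedSectionVars false

variable {E : Type*} [NormedAddCommGroup E] [NormedSpace ℝ E] [FiniteDimensional ℝ E]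
variable {F : Type*} [NormedAddCommGroup F] [NormedSpace ℝ F]

/-- the inverse chart is globally Lipschitz in every frame -/
theorem chart_lip {n : ℕ} {S : Set E} (hconv : Convex ℝ S) {a : ℝ} (ha : 0 ≤ a)
    {g : E → (Fin n → ℝ)} (B : E ≃ᵃ[ℝ] E) (h : ∀ z ∈ S, MB B (fun x => x) a g S z) :
    ∀ y ∈ S, ∀ z ∈ S, dist (g y) (g z) ≤ a * dist (B y) (B z) := by
  have hBK : Convex ℝ (B '' S) := hconv.affine_image (B : E →ᵃ[ℝ] E)
  have h3 : ∀ u ∈ B '' S, ∀ᶠ v in 𝓝[B '' S] u,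
      dist (g (B.symm v)) (g (B.symm u)) ≤ a * dist v u := by
    rintro _ ⟨x, hx', rfl⟩
    rw [B.symm_apply_apply]
    have h4 : Tendsto B.symm (𝓝[B '' S] (B x)) (𝓝[S] x) := by
      refine tendsto_nhdsWithin_iff.2 ⟨?_, ?_⟩
      · have h5 := ((B.symm : E →ᵃ[ℝ] E).continuous_of_finiteDimensional.tendsto (B x)).mono_left
          (nhdsWithin_le_nhds (s := B '' S))
        have h6 : (B.symm : E →ᵃ[ℝ] E) (B x) = x := B.symm_apply_apply x
        rw [h6] at h5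
        exact h5
      · filter_upwards [self_mem_nhdsWithin] with v hv
        obtain ⟨y, hy, rfl⟩ := hv
        rw [B.symm_apply_apply]; exact hy
    filter_upwards [h4.eventually (h x hx')] with v hv
    have h7 : B (B.symm v) = v := B.apply_symm_apply v
    rw [h7] at hv
    exact hv
  intro y hy z hz
  have h8 := lip_of_local ha (f := fun v => g (B.symm v)) hBK h3 (B z)
    (mem_image_of_mem _ hz) (B y) (mem_image_of_mem _ hy)
  simp only [B.symm_apply_apply] at h8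
  exact h8

lemma dist_map (A : E →ᵃ[ℝ] F) (p y z : E) {t : ℝ} (ht : 0 ≤ t) :
    dist (A (p + t • (y - z))) (A p) = t * dist (A y) (A z) := by
  have h1 : A (p + t • (y - z)) - A p = t • (A y - A z) := by
    have e1 : A.linear (p + t • (y - z) - p) = A (p + t • (y - z)) - A p := A.linearMap_vsub _ _
    have e2 : A.linear (y - z) = A y - A z := A.linearMap_vsub _ _
    rw [← e1, ← e2, add_sub_cancel_left, map_smul]
  rw [dist_eq_norm, dist_eq_norm, h1, norm_smul, Real.norm_eq_abs, abs_of_nonneg ht]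

/-- **CHANGE OF THE FRAME BY THE DIAMETER** -/
theorem frame_diam {n : ℕ} {S : Set E} (h1 : Convex ℝ S) (h2 : IsCompact S) (h3 : S.Nonempty)
    (h4 : IsBall n S (S \ ri S)) (A : E →ᵃ[ℝ] F) (B : E ≃ᵃ[ℝ] E) {D : ℝ}
    (hD : ∀ y ∈ S, ∀ z ∈ S, dist (A y) (A z) ≤ D) :
    ∀ y ∈ S, ∀ z ∈ S, dist (A y) (A z) ≤ D * AAc n (B '' S) * dist (B y) (B z) := by
  intro y hy z hz
  rcases eq_or_ne y z with rfl | hne
  · simp
  obtain ⟨e, he, hB⟩ := AAc_spec h1 h2 h3 h4
  have ha := AAc_pos n (B '' S)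
  set a := AAc n (B '' S)
  have hlip := chart_lip h1 ha.le B (hB B).2
  have h0c : (0 : Fin n → ℝ) ∈ cube n := mem_closedBall_self zero_le_one
  set p := e.f 0 with hp
  have hpS : p ∈ S := e.mf h0c
  have hgp : e.g p = 0 := e.li 0 h0c
  have hpri : p ∈ ri S := by
    by_contra hcon
    have : p ∈ e.f '' sph n := by rw [he]; exact ⟨hpS, hcon⟩
    obtain ⟨v, hv, hvp⟩ := this
    have h5 : e.g (e.f v) = v := e.li v (sph_subset_cube hv)
    rw [hvp, hgp] at h5
    rw [← h5] at hv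
    simp [sph] at hv
  obtain ⟨-, hri⟩ := hpri
  obtain ⟨t1, ht1, ht1S⟩ := hri z hz
  have ht0 : 0 < t1 / (1 + t1) := by positivity
  have h0S : p + (t1 / (1 + t1)) • (y - z) ∈ S := by
    have h6 : (1 + t1) ≠ 0 := by positivity
    have h7 := h1 ht1S hy (a := 1 / (1 + t1)) (b := t1 / (1 + t1)) (by positivity) (by positivity)
      (by field_simp)
    convert h7 using 1
    have e1 : (1 / (1 + t1)) • (p + t1 • (p - z)) + (t1 / (1 + t1)) • y =
        (1 / (1 + t1) * (1 + t1)) • p + (t1 / (1 + t1)) • y - (1 / (1 + t1) * t1) • z := by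
      simp only [smul_add, smul_sub, smul_smul, mul_add, add_smul, mul_one]
      abel
    rw [e1, show (1 / (1 + t1) * (1 + t1)) = 1 by field_simp, one_smul,
      show (1 / (1 + t1) * t1) = t1 / (1 + t1) by ring, smul_sub]
    abel
  -- the last point of the ray
  obtain ⟨M, hM⟩ := h2.isBounded.subset_closedBall p
  have hd : 0 < ‖y - z‖ := norm_pos_iff.2 (sub_ne_zero.2 hne)
  have hcont : Continuous fun t : ℝ => p + t • (y - z) := by fun_prop
  have hTc : IsCompact (Icc (0:ℝ) (M / ‖y - z‖) ∩ (fun t : ℝ => p + t • (y - z)) ⁻¹' S) :=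
    isCompact_Icc.inter_right (h2.isClosed.preimage hcont)
  have hT : ∀ t : ℝ, 0 ≤ t → p + t • (y - z) ∈ S →
      t ∈ Icc (0:ℝ) (M / ‖y - z‖) ∩ (fun t : ℝ => p + t • (y - z)) ⁻¹' S := by
    intro t ht htS
    refine ⟨⟨ht, ?_⟩, htS⟩
    have h6 := hM htS
    rw [mem_closedBall, dist_eq_norm, add_sub_cancel_left, norm_smul, Real.norm_eq_abs,
      abs_of_nonneg ht] at h6
    rwa [le_div_iff₀ hd]
  obtain ⟨ts, hts, hmax⟩ := hTc.exists_isGreatest ⟨_, hT _ ht0.le h0S⟩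
  have htsp : 0 < ts := lt_of_lt_of_le ht0 (hmax (hT _ ht0.le h0S))
  have hqS : p + ts • (y - z) ∈ S := hts.2
  have hq : p + ts • (y - z) ∈ S \ ri S := by
    refine ⟨hqS, fun hcon => ?_⟩
    obtain ⟨s, hs, hsS⟩ := hcon.2 p hpS
    have e1 : p + ts • (y - z) + s • (p + ts • (y - z) - p) = p + (ts * (1 + s)) • (y - z) := by
      rw [add_sub_cancel_left, smul_smul, add_assoc, ← add_smul]
      congr 2; ring
    rw [e1] at hsS
    have h6 := hmax (hT _ (by positivity) hsS)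
    nlinarith
  rw [← he] at hq
  obtain ⟨v, hv, hvq⟩ := hq
  have h5 : e.g (p + ts • (y - z)) = v := by rw [← hvq]; exact e.li v (sph_subset_cube hv)
  have h6 := hlip _ hqS _ hpS
  rw [h5, hgp, dist_zero_right, show ‖v‖ = 1 by simpa [sph] using hv] at h6
  have h7 : dist (B (p + ts • (y - z))) (B p) = ts * dist (B y) (B z) :=
    dist_map (B : E →ᵃ[ℝ] E) p y z htsp.le
  have h8 : dist (A (p + ts • (y - z))) (A p) = ts * dist (A y) (A z) := dist_map A p y z htsp.le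
  have h9 := hD _ hqS _ hpS
  rw [h8] at h9
  rw [h7] at h6
  have hD0 : 0 ≤ D := dist_nonneg.trans (hD _ hqS _ hpS)
  have hda : 0 ≤ dist (A y) (A z) := dist_nonneg
  calc dist (A y) (A z) = dist (A y) (A z) * 1 := (mul_one _).symm
    _ ≤ dist (A y) (A z) * (a * (ts * dist (B y) (B z))) := mul_le_mul_of_nonneg_left h6 hda
    _ = (ts * dist (A y) (A z)) * (a * dist (B y) (B z)) := by ring
    _ ≤ D * (a * dist (B y) (B z)) :=
        mul_le_mul_of_nonneg_right h9 (mul_nonneg ha.le dist_nonneg)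
    _ = _ := by ring

/-- the same for `LB` -/
theorem LB_diam {n : ℕ} {S : Set E} (h1 : Convex ℝ S) (h2 : IsCompact S) (h3 : S.Nonempty)
    (h4 : IsBall n S (S \ ri S)) (A : E →ᵃ[ℝ] F) (B : E ≃ᵃ[ℝ] E) {D : ℝ}
    (hD : ∀ y ∈ S, ∀ z ∈ S, dist (A y) (A z) ≤ D) {z : E} (hz : z ∈ S) {L : ℝ} (hL : 0 ≤ L)
    {f : E → ℝ} (hf : LB A L f S z) : LB B (L * (D * AAc n (B '' S))) f S z := by
  filter_upwards [hf, self_mem_nhdsWithin] with y h6 hy
  refine h6.trans ?_
  rw [mul_assoc]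
  exact mul_le_mul_of_nonneg_left (frame_diam h1 h2 h3 h4 A B hD y hy z hz) hL

variable {Q : Type} [PartialOrder Q] {dim : Q → ℕ} {J Fam : Type}
variable {C : Cmb Q dim J Fam} {K : Q → Set E} {Ω : Set E}

/-- **THE NUMBERS OF THE BASE IN ALL FRAMES** from one frame in which the cell has diameter `≤ D` -/
theorem base_num {q : Q} (h1 : Convex ℝ (K q)) (h2 : IsCompact (K q)) (h3 : (K q).Nonempty)
    (h4 : IsBall (dim q) (K q) (K q \ ri (K q))) {wt : J → ℝ} (hw : ∀ j, 0 < wt j) {δq K₀ : ℝ}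
    (hδ : 0 ≤ δq) {c0 : C.I q → E → ℝ} (A : E →ᵃ[ℝ] F) {L D : ℝ} (hL : 0 ≤ L)
    (hD : ∀ y ∈ K q, ∀ z ∈ K q, dist (A y) (A z) ≤ D) (hLD : L * D ≤ K₀)
    (hA : ∀ x, ∀ z ∈ K q, LB A (L * (Wd C wt q + δq) / wt (C.col q x)) (c0 x) (K q) z)
    (B : E ≃ᵃ[ℝ] E) (x : C.I q) {z : E} (hz : z ∈ K q) :
    LB B (K₀ * (AAc (dim q) (B '' K q) * (Wd C wt q + δq)) / wt (C.col q x)) (c0 x) (K q) z := by
  have hwx := hw (C.col q x)
  have hW : 0 ≤ Wd C wt q + δq := by
    have := Wd_nonneg (C := C) hw q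
    linarith
  have h5 := LB_diam h1 h2 h3 h4 A B hD hz (by positivity) (hA x z hz)
  refine h5.mono ?_
  rw [div_mul_eq_mul_div]
  refine div_le_div_of_nonneg_right ?_ hwx.le
  have h6 : 0 ≤ AAc (dim q) (B '' K q) * (Wd C wt q + δq) := mul_nonneg (AAc_pos _ _).le hW
  calc L * (Wd C wt q + δq) * (D * AAc (dim q) (B '' K q))
      = (L * D) * (AAc (dim q) (B '' K q) * (Wd C wt q + δq)) := by ring
    _ ≤ K₀ * (AAc (dim q) (B '' K q) * (Wd C wt q + δq)) := mul_le_mul_of_nonneg_right hLD h6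

end Crest.Agent.R096.Be_416
end

-- ▼ part R096/Bin11_181
section

/-!
# R096 (row 96), GEO-BASE / LB-BASE, part 1 (helper181): the sheets of the base are functions of one
level coordinate
-/

set_option autoImplicit false
set_option linter.unusedSectionVars false

open Set Metric

namespace Crest.Agent.R096.Bin_181

open Crest.Agent.R096.Ce_537 Crest.Agent.R096.Bd_416 Crest.Agent.R096.Xp_537
open Crest.Agent.R096.Brk1_582 Crest.Agent.R096.Brk2_582 Crest.Agent.R096.Brk6_582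
open Crest.Agent.R096.Grd_714

variable {E : Type*} [NormedAddCommGroup E] [NormedSpace ℝ E] {I : Type*}
variable {b : Set I → E} {P : I → Set E} {m m' : I → ℕ}

/-! ### the function -/

/-- the band function of the level `k` -/
noncomputable def phi (κ : ℝ) (n : ℕ → ℝ) (M : ℕ) (k : ℕ) (x : ℝ) : ℝ :=
  cl ((nuR n M x - k - 1/2) / (1 - κ))


section phi

variable {κ : ℝ} (hκ : 0 < κ ∧ κ < 1) {n : ℕ → ℝ} (hN : StrictMono n) (h0 : n 0 = 0) {M : ℕ}
  (hM : 0 < M) {k : ℕ}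
include hκ






include hN h0 hM




omit hM in
/-- Lipschitz bound on the window -/
lemma phi_lip {i : ℕ} (hi : i < M) {x y : ℝ} (hx : x ∈ Icc (i:ℝ) (i+1))
    (hy : y ∈ Icc (i:ℝ) (i+1)) :
    |phi κ n M k x - phi κ n M k y| ≤ (n (i+1) - n i) / (1 - κ) * |x - y| := by
  have hk : 0 < 1 - κ := by linarith [hκ.2]
  have h1 : |phi κ n M k x - phi κ n M k y| ≤
      |(nuR n M x - k - 1/2) / (1 - κ) - (nuR n M y - k - 1/2) / (1 - κ)| := by
    unfold phi cl
    refine (abs_max_sub_max_le_max _ _ _ _).trans ?_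
    rw [sub_self, abs_zero, max_eq_right (abs_nonneg _)]
    refine (abs_min_sub_min_le_max _ _ _ _).trans ?_
    rw [sub_self, abs_zero, max_eq_left (abs_nonneg _)]
  refine h1.trans (le_of_eq ?_)
  rw [nuR_eq hN h0 hi hx.1 hx.2, nuR_eq hN h0 hi hy.1 hy.2, ← sub_div]
  have e : n i + (n (i+1) - n i) * (x - i) - k - 1/2 - (n i + (n (i+1) - n i) * (y - i) - k - 1/2)
      = (n (i+1) - n i) * (x - y) := by ring
  rw [e, abs_div, abs_mul, abs_of_pos (nR_pos hN i), abs_of_pos hk]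
  ring

end phi

section sheets

variable {V : Type*} [NormedAddCommGroup V] [NormedSpace ℝ V] {J : Type*}
variable {La : Set E} [CompleteSpace E] (F : Foam La P b 4)
  (hQ : Quads P b) (hne : ∀ c, (P c).Nonempty) (hm : ∀ c, 0 < m c)
variable {κ : ℝ} (hκ : 0 < κ ∧ κ < 1) (c : Cel P m) {fa : J → I} {lv : J → ℕ} {S : Set V}
  {T : Set E} (e : PLEquiv S T)

include hκ in
/-- **the sheets are functions of one level coordinate** -/
theorem ekS_form {q : Gx P m} {z : V} (hz : e.f z ∈ (grid F hQ hne hm).cell (.gr q)) (j : J) :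
    (ekS (grid F hQ hne hm) b κ c fa lv e).G j z =
      1/2 + cl ((co P b m (e.f z) (fa j) - lv j - 1/2) / (1 - κ)) := by
  have hk : 0 < 1 - κ := by linarith [hκ.2]
  rw [ekS_G]
  show 1/2 + cl (co P b m (st (grid F hQ hne hm) κ (e.f z)) (fa j) - lv j - 1/2) = _
  have hbx := co_mem F hQ hm hz (fa j)
  by_cases ha : fa j ∈ q.free
  · have h1 : (q.hi (fa j) : ℝ) = q.lo (fa j) + 1 := by exact_mod_cast Gx.hi_eq ha
    rw [h1] at hbx
    rw [co_st F hQ hne hm hκ hz ha]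
    set v := co P b m (e.f z) (fa j) with hv
    rcases lt_trichotomy (q.lo (fa j)) (lv j) with h | h | h
    · have h2 : (q.lo (fa j) : ℝ) + 1 ≤ lv j := by exact_mod_cast h
      have h3 := (cl_mem ((v - (q.lo (fa j) + 1/2)) / (1 - κ))).2
      rw [cl_of_le (by linarith), cl_of_le]
      rw [div_le_iff₀ hk]; nlinarith [hκ.1]
    · have h2 : (q.lo (fa j) : ℝ) = lv j := by exact_mod_cast h
      rw [h2]
      have e1 : (lv j : ℝ) + 1/2 + cl ((v - (lv j + 1/2)) / (1 - κ)) - lv j - 1/2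
          = cl ((v - (lv j + 1/2)) / (1 - κ)) := by ring
      rw [e1, clcl, sub_add_eq_sub_sub]
    · have h2 : (lv j : ℝ) + 1 ≤ q.lo (fa j) := by exact_mod_cast h
      have h3 := (cl_mem ((v - (q.lo (fa j) + 1/2)) / (1 - κ))).1
      rw [cl_of_ge (by linarith), cl_of_ge]
      rw [le_div_iff₀ hk]; nlinarith [hκ.1]
  · obtain ⟨h1, h2⟩ := co_st_notfree F hQ hne hm hκ hz ha
    rw [h1, h2]
    rcases lt_or_ge (lv j) (q.hi (fa j)) with h | h
    · have h2 : (lv j : ℝ) + 1 ≤ q.hi (fa j) := by exact_mod_cast h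
      rw [cl_of_ge (by linarith), cl_of_ge]
      rw [le_div_iff₀ hk]; nlinarith [hκ.1]
    · have h2 : (q.hi (fa j) : ℝ) ≤ lv j := by exact_mod_cast h
      rw [cl_of_le (by linarith), cl_of_le]
      rw [div_le_iff₀ hk]; nlinarith [hκ.1]

end sheets

section mesh

variable {V : Type*} [NormedAddCommGroup V] [NormedSpace ℝ V] {J : Type*}
variable {n : I → ℕ → ℝ} (hN : ∀ a, StrictMono (n a)) (hN0 : ∀ a, n a 0 = 0)
  (hNm : ∀ a, n a (m' a) = m a)
variable {La : Set E} [CompleteSpace E] (F : Foam La P b 4)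
  (hQ : Quads P b) (hne : ∀ c, (P c).Nonempty) (hm' : ∀ c, 0 < m' c) (hm : ∀ c, 0 < m c)
variable {κ : ℝ} (hκ : 0 < κ ∧ κ < 1) (c : Cel P m) {fa : J → I} {lv : J → ℕ} {S : Set V} {c0 : I}
  (th : PLEquiv S (bdP P b m' c0))

include hκ in
/-- **the base in the level coordinates of the M-mesh** -/
theorem ekS_mesh {z : V} (hz : z ∈ S) (j : J) :
    (ekS (grid F hQ hne hm) b κ c fa lv (th.trans (rcR hN hN0 hNm F hQ hm' hm c0))).G j z =
      1/2 + phi κ (n (fa j)) (m' (fa j)) (lv j) (co P b m' (th.f z) (fa j)) := by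
  have h1 : th.f z ∈ bdP P b m' c0 := th.mf hz
  have h2 : (th.trans (rcR hN hN0 hNm F hQ hm' hm c0)).f z ∈ bdP P b m c0 :=
    (th.trans (rcR hN hN0 hNm F hQ hm' hm c0)).mf hz
  obtain ⟨q, -, hq⟩ := mem_bxS F hQ hne hm (L := fun _ => 0) (H := Hc m c0) h2
  rw [ekS_form F hQ hne hm hκ c _ hq j]
  obtain ⟨k1, k2, k3⟩ := co_bxS F hQ hm' h1
  have e1 : co P b m ((th.trans (rcR hN hN0 hNm F hQ hm' hm c0)).f z) =
      fun a => nuR (n a) (m' a) (co P b m' (th.f z) a) := by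
    show co P b m (Tq b m fun a => nuR (n a) (m' a) (co P b m' (th.f z) a)) = _
    exact co_Tq F hQ hm (G2_nu (nuR_Nu hN hN0 hNm) hm' hm k1)
  rw [e1]
  rfl

end mesh

end Crest.Agent.R096.Bin_181
end

-- ▼ part R096/Lbb2_835
section

/-!
# R096 (row 96), LB-BASE (helper835): diameter of the grid cells

`cell_diam` : grid cells of mesh `m` (all `m a ≥ M`) over the brick `c` have diameter `≤ 2 R² sz / M`.
-/

set_option autoImplicit false
set_option linter.unusedSectionVars false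

open Set

namespace Crest.Agent.R096.Lbb_835

open Crest.Agent.R096.Brk1_582 Crest.Agent.R096.Brk2_582 Crest.Agent.R096.Brk6_582
open Crest.Agent.R096.Grd_714 Crest.Agent.R096.Bsp_628 Crest.Agent.R096.Brk3_582
open Crest.Agent.R096.Brk5_582 Crest.Agent.R096.Fl_835

variable {κ : Type*} [Fintype κ] [Nonempty κ] {La : Set (κ → ℝ)} {F : Set (Bx κ)} {δ κ0 : ℝ}

/-- the free colours of a grid cell touch all its zero colours -/
theorem meet_of_free {E : Type*} [NormedAddCommGroup E] [NormedSpace ℝ E] {I : Type*}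
    {P : I → Set E} {m : I → ℕ} (hm : ∀ a, 0 < m a) {q : Gx P m} {c a : I} (hc : q.hi c = 0)
    (ha : a ∈ q.free) : (P a ∩ P c).Nonempty := by
  obtain ⟨y, hy⟩ := q.face
  have h1 : a ∈ {c | q.lo c < m c} := (q.free_sub ha).1
  have h2 : c ∈ {c | q.lo c < m c} := q.Z_sub hm hc
  exact ⟨y, mem_fc.1 hy a h1, mem_fc.1 hy c h2⟩

/-- **diameter of a grid cell over the brick `c`** -/
theorem cell_diam (BF : BoxFoam La F δ κ0) (hLa : IsOpen La) (h3 : Fintype.card κ = 3) {R : ℝ}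
    (hR : 0 ≤ R) (hcmp : Cmp F R) {m : F → ℕ} {M : ℕ} (hM : 0 < M) (hm : ∀ a, M ≤ m a)
    {q : Gx (Pc F) m} {c : F} (hc : q.hi c = 0) {y y' : κ → ℝ}
    (hy : y ∈ Tq (bc (F := F)) m '' q.bx) (hy' : y' ∈ Tq (bc (F := F)) m '' q.bx) :
    ‖y - y'‖ ≤ 2 * (R * (R * c.1.sz) / M) := by
  obtain ⟨g, hg, rfl⟩ := hy
  obtain ⟨g', hg', rfl⟩ := hy'
  have hm0 : ∀ a, 0 < m a := fun a => hM.trans_le (hm a)
  have p : (0 : ℝ) < M := by exact_mod_cast hM
  have hsz : ∀ a : F, 0 < a.1.sz := fun a => Bx.sz_pos (BF.pos _ a.2)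
  refine Tq_lip_box BF hLa h3 hcmp hm0 hg hg' (by
    have := hsz c
    positivity) fun a ha => ?_
  have h1 : |g a - g' a| ≤ 1 := by
    have k1 := hg a
    have k2 := hg' a
    have k3 : q.hi a = q.lo a + 1 := Gx.hi_eq ha
    rw [k3] at k1 k2
    push_cast at k1 k2
    rw [abs_le]
    constructor <;> linarith [k1.1, k1.2, k2.1, k2.2]
  have h2 : a.1.sz ≤ R * c.1.sz := hcmp a c (meet_of_free hm0 hc ha)
  have h4 : (M : ℝ) ≤ m a := by exact_mod_cast hm a
  have h5 : 0 ≤ R * a.1.sz := mul_nonneg hR (hsz a).le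
  calc R * a.1.sz * |g a - g' a| ≤ R * a.1.sz * 1 := mul_le_mul_of_nonneg_left h1 h5
    _ = R * a.1.sz := mul_one _
    _ ≤ R * (R * c.1.sz) := mul_le_mul_of_nonneg_left h2 hR
    _ = R * (R * c.1.sz) / M * M := by field_simp
    _ ≤ R * (R * c.1.sz) / M * m a :=
        mul_le_mul_of_nonneg_left h4 (by
          have := hsz c
          positivity)

end Crest.Agent.R096.Lbb_835
end

-- ▼ part R096/Be5_416
section

/-!
# R096 (row 96), P4-MESH (helper416): LB-BASE, part 2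

* `wd_window` : number of the levels of a window times the weight ≤ weighted number of the pieces.
* `lb_base` : the Lipschitz numbers of the base in the frame of the exact map.
* `lb_base_box` : the same for a box foam and the constant mesh, in ALL frames, with a constant which
  depends only on the constants of the foam.
-/

set_option autoImplicit false

open Set Metric Filter Topology

namespace Crest.Agent.R096.Be_416

open Crest.Agent.R096.Ce_537 Crest.Agent.R096.Bd_416 Crest.Agent.R096.Xp_537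
open Crest.Agent.R096.Brk1_582 Crest.Agent.R096.Brk2_582 Crest.Agent.R096.Brk6_582
open Crest.Agent.R096.Grd_714 Crest.Agent.R096.Bin_181
open Crest.Agent.R96.Nu1_199 Crest.Agent.R96.Nu3_199 Crest.Agent.R96.Nu5_199

set_option linter.unusedSectionVars false

section abs

variable {E : Type*} [NormedAddCommGroup E] [NormedSpace ℝ E] {I : Type*}
variable {b : Set I → E} {P : I → Set E} {m m' : I → ℕ}
variable {V : Type*} [NormedAddCommGroup V] [NormedSpace ℝ V] {Q : Type} [PartialOrder Q]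
  {dim : Q → ℕ} {J Fam : Type} {Cm : Cmb Q dim J Fam}

/-- the levels of a window are pieces of the cell -/
theorem wd_window {q : Q} {fa : J → I} {lv : J → ℕ} {wt : J → ℝ} (hw : ∀ j, 0 < wt j)
    (hwf : ∀ j j', fa j = fa j' → wt j = wt j') {a : I} {lo hi : ℕ}
    (ex : ∀ k, lo ≤ k → k < hi → ∃ x : Cm.I q, fa (Cm.col q x) = a ∧ lv (Cm.col q x) = k)
    (x0 : Cm.I q) (hx0 : fa (Cm.col q x0) = a) :
    ((hi - lo : ℕ) : ℝ) * wt (Cm.col q x0) ≤ Wd Cm wt q := by
  classical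
  choose X hX1 hX2 using ex
  let f : {k // k ∈ Finset.Ico lo hi} → Cm.I q := fun k =>
    X k.1 (Finset.mem_Ico.1 k.2).1 (Finset.mem_Ico.1 k.2).2
  have hf : Function.Injective f := by
    intro k k' h
    have h1 : lv (Cm.col q (f k)) = k.1 := hX2 _ _ _
    have h2 : lv (Cm.col q (f k')) = k'.1 := hX2 _ _ _
    rw [h] at h1
    exact Subtype.ext (h1.symm.trans h2)
  set T : Finset (Cm.I q) := (Finset.Ico lo hi).attach.image f with hT
  have hcard : T.card = hi - lo := by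
    rw [hT, Finset.card_image_of_injective _ hf, Finset.card_attach, Nat.card_Ico]
  have h1 : ∑ x ∈ T, wt (Cm.col q x) = ((hi - lo : ℕ) : ℝ) * wt (Cm.col q x0) := by
    rw [← hcard, ← nsmul_eq_mul, ← Finset.sum_const]
    refine Finset.sum_congr rfl fun x hx => ?_
    obtain ⟨k, -, rfl⟩ := Finset.mem_image.1 hx
    exact hwf _ _ (by rw [hX1, hx0])
  rw [← h1]
  exact Finset.sum_le_sum_of_subset_of_nonneg (Finset.subset_univ _) fun x _ _ => (hw _).le

variable {n : I → ℕ → ℝ} (hN : ∀ a, StrictMono (n a)) (hN0 : ∀ a, n a 0 = 0)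
  (hNm : ∀ a, n a (m' a) = m a)
variable {La : Set E} [CompleteSpace E] [FiniteDimensional ℝ E] (F : Foam La P b 4)
  (hQ : Quads P b) (hne : ∀ c, (P c).Nonempty) (hm' : ∀ c, 0 < m' c) (hm : ∀ c, 0 < m c)
variable {κ : ℝ} (hκ : 0 < κ ∧ κ < 1) (c : Cel P m) (fa : J → I) (lv : J → ℕ) {S : Set V} {c0 : I}
  (th : PLEquiv S (bdP P b m' c0)) (N : I → ℕ → ℕ) (hnN : ∀ a i, i ≤ m' a → |n a i - N a i| < κ / 2)

include hκ hnN in
/-- **THE NUMBERS OF THE BASE IN THE FRAME `A` OF THE EXACT MAP** -/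
theorem lb_base {K : Q → Set V} (A : V →ᵃ[ℝ] E) (hA : ∀ z ∈ S, th.f z = A z) {q : Q}
    (gxq : Gx P m') (hK : K q = {z | z ∈ S ∧ th.f z ∈ Tq b m' '' gxq.bx})
    {wt : J → ℝ} (hw : ∀ j, 0 < wt j) (hwf : ∀ j j', fa j = fa j' → wt j = wt j')
    (rng : ∀ x : Cm.I q, N (fa (Cm.col q x)) (gxq.lo (fa (Cm.col q x))) ≤ lv (Cm.col q x) ∧
      lv (Cm.col q x) < N (fa (Cm.col q x)) (gxq.hi (fa (Cm.col q x))))
    (ex : ∀ a k, N a (gxq.lo a) ≤ k → k < N a (gxq.hi a) →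
      ∃ x : Cm.I q, fa (Cm.col q x) = a ∧ lv (Cm.col q x) = k)
    {L1 : ℝ}
    (hlip : ∀ y ∈ bdP P b m' c0, ∀ y' ∈ bdP P b m' c0, ∀ a,
      |co P b m' y a - co P b m' y' a| ≤ L1 * dist y y')
    {δq : ℝ} (hδ : 0 ≤ δq) (x : Cm.I q) {z : V} (hz : z ∈ K q) :
    LB A (2 * L1 / (1 - κ) * (Wd Cm wt q + δq) / wt (Cm.col q x))
      (fun z => sg (Cm.Lab (Cm.col q x) q) *
        ((ekS (grid F hQ hne hm) b κ c fa lv (th.trans (rcR hN hN0 hNm F hQ hm' hm c0))).G
          (Cm.col q x) z - 1/2)) (K q) z := by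
  set j := Cm.col q x with hj
  set a := fa j with ha
  have hk : 0 < 1 - κ := by linarith [hκ.2]
  obtain ⟨r1, r2⟩ := rng x
  have hfree : a ∈ gxq.free := by
    by_contra hcon
    have h1 := Gx.lo_eq hcon
    rw [← hj, ← ha, h1] at r1
    rw [← hj, ← ha] at r2
    omega
  have hhi : gxq.hi a = gxq.lo a + 1 := Gx.hi_eq hfree
  have him : gxq.lo a < m' a := by
    have := gxq.him a
    omega
  have hSz : ∀ y ∈ K q, y ∈ S := fun y hy => by rw [hK] at hy; exact hy.1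
  have hco : ∀ y ∈ K q, co P b m' (th.f y) a ∈ Icc (gxq.lo a : ℝ) (gxq.lo a + 1) := by
    intro y hy
    rw [hK] at hy
    have h1 := Grd_714.co_mem F hQ hm' hy.2 a
    rw [hhi] at h1
    push_cast at h1
    exact h1
  -- the slope
  have hwin := wd_window (Cm := Cm) (q := q) hw hwf (ex a) x rfl
  have hslope : n a (gxq.lo a + 1) - n a (gxq.lo a) ≤
      2 * ((N a (gxq.hi a) - N a (gxq.lo a) : ℕ) : ℝ) := by
    have h1 := (abs_lt.1 (hnN a (gxq.lo a) him.le)).1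
    have h2 := (abs_lt.1 (hnN a (gxq.lo a + 1) him)).2
    have h3 : N a (gxq.lo a) + 1 ≤ N a (gxq.hi a) := by
      rw [← hj, ← ha] at r1 r2; omega
    rw [Nat.cast_sub (by omega)]
    have h4 : (N a (gxq.lo a) : ℝ) + 1 ≤ N a (gxq.hi a) := by exact_mod_cast h3
    rw [hhi] at h4 ⊢
    linarith [hκ.2]
  have hs0 : 0 < n a (gxq.lo a + 1) - n a (gxq.lo a) := sub_pos.2 (hN a (Nat.lt_succ_self _))
  have hwx := hw j
  have hW : 0 ≤ Wd Cm wt q := Wd_nonneg hw q
  have key : ∀ y ∈ K q, |sg (Cm.Lab j q) * ((ekS (grid F hQ hne hm) b κ c fa lv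
      (th.trans (rcR hN hN0 hNm F hQ hm' hm c0))).G j y - 1/2) -
      sg (Cm.Lab j q) * ((ekS (grid F hQ hne hm) b κ c fa lv
      (th.trans (rcR hN hN0 hNm F hQ hm' hm c0))).G j z - 1/2)| ≤
      2 * L1 / (1 - κ) * (Wd Cm wt q + δq) / wt j * dist (A y) (A z) := by
    intro y hy
    rw [ekS_mesh hN hN0 hNm F hQ hne hm' hm hκ c th (hSz y hy) j,
      ekS_mesh hN hN0 hNm F hQ hne hm' hm hκ c th (hSz z hz) j, ← mul_sub, abs_mul, abs_sg, one_mul]
    have e1 : (1/2 + phi κ (n a) (m' a) (lv j) (co P b m' (th.f y) a) - 1/2) -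
        (1/2 + phi κ (n a) (m' a) (lv j) (co P b m' (th.f z) a) - 1/2) =
        phi κ (n a) (m' a) (lv j) (co P b m' (th.f y) a) -
        phi κ (n a) (m' a) (lv j) (co P b m' (th.f z) a) := by ring
    rw [e1]
    have h1 := phi_lip (k := lv j) hκ (hN a) (hN0 a) him (hco y hy) (hco z hz)
    have h2 := hlip _ (th.mf (hSz y hy)) _ (th.mf (hSz z hz)) a
    rw [hA y (hSz y hy), hA z (hSz z hz)] at h2
    have h3 : (0 : ℝ) ≤ dist (A y) (A z) := dist_nonneg
    rw [hA y (hSz y hy), hA z (hSz z hz)] at h1 ⊢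
    refine h1.trans ?_
    have h4 : (n a (gxq.lo a + 1) - n a (gxq.lo a)) * wt j ≤ 2 * (Wd Cm wt q + δq) := by
      calc (n a (gxq.lo a + 1) - n a (gxq.lo a)) * wt j
          ≤ 2 * ((N a (gxq.hi a) - N a (gxq.lo a) : ℕ) : ℝ) * wt j :=
            mul_le_mul_of_nonneg_right hslope hwx.le
        _ = 2 * (((N a (gxq.hi a) - N a (gxq.lo a) : ℕ) : ℝ) * wt j) := by ring
        _ ≤ 2 * Wd Cm wt q := mul_le_mul_of_nonneg_left hwin (by norm_num)
        _ ≤ _ := by linarith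
    have h5 : n a (gxq.lo a + 1) - n a (gxq.lo a) ≤ 2 * (Wd Cm wt q + δq) / wt j := by
      rwa [le_div_iff₀ hwx]
    calc (n a (gxq.lo a + 1) - n a (gxq.lo a)) / (1 - κ) *
          |co P b m' (A y) a - co P b m' (A z) a|
        ≤ (2 * (Wd Cm wt q + δq) / wt j) / (1 - κ) * (L1 * dist (A y) (A z)) := by
          refine mul_le_mul (div_le_div_of_nonneg_right h5 hk.le) h2 (abs_nonneg _) ?_
          have : 0 ≤ Wd Cm wt q + δq := by linarith
          positivity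
      _ = _ := by field_simp
  filter_upwards [self_mem_nhdsWithin] with y hy
  exact key y hy

end abs

/-! ### box foams -/

section box

open Crest.Agent.R096.Bsp_628 Crest.Agent.R096.Brk3_582 Crest.Agent.R096.Brk5_582
  Crest.Agent.R096.Lbb_835

variable {κ' : Type*} [Fintype κ'] [Nonempty κ'] {La : Set (κ' → ℝ)} {Fm : Set (Bx κ')} {δ κ0 : ℝ}
variable {V : Type*} [NormedAddCommGroup V] [NormedSpace ℝ V] [FiniteDimensional ℝ V]
  {Q : Type} [PartialOrder Q] {dim : Q → ℕ} {J Fam : Type} {Cm : Cmb Q dim J Fam}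
variable {m : Fm → ℕ} {n : Fm → ℕ → ℝ} (hN : ∀ a, StrictMono (n a)) (hN0 : ∀ a, n a 0 = 0)
  {M : ℕ} (hM : 0 < M) (hNm : ∀ a, n a M = m a)
variable (F : Foam La (Pc Fm) (bc (F := Fm)) 4)
  (hQ : Quads (Pc Fm) (bc (F := Fm))) (hne : ∀ c, (Pc Fm c).Nonempty) (hm : ∀ c, 0 < m c)
variable {κ : ℝ} (hκ : 0 < κ ∧ κ < 1) (c : Cel (Pc Fm) m) (fa : J → Fm) (lv : J → ℕ) {S : Set V}
  {c0 : Fm} (th : PLEquiv S (bdP (Pc Fm) (bc (F := Fm)) (fun _ => M) c0)) (N : Fm → ℕ → ℕ)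
  (hnN : ∀ a i, i ≤ M → |n a i - N a i| < κ / 2)

/-- **the constant of the base** (a function of the constants of the foam) -/
noncomputable def Kbase (d : ℕ) (δ R κ : ℝ) : ℝ := 4 * (R * R) * Cs d δ R / (1 - κ)


include hκ hnN in
/-- **LB-BASE for box foams, in all frames.** -/
theorem lb_base_box (BF : BoxFoam La Fm δ κ0) (hLa : IsOpen La) (h3 : Fintype.card κ' = 3)
    (hδ : 0 < δ) {R : ℝ} (hR : 0 < R) (hcmp : Cmp Fm R)
    {K : Q → Set V} (A : V →ᵃ[ℝ] (κ' → ℝ)) (hA : ∀ z ∈ S, th.f z = A z) {q : Q}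
    (gxq : Gx (Pc Fm) (fun _ => M))
    (hK : K q = {z | z ∈ S ∧ th.f z ∈ Tq (bc (F := Fm)) (fun _ => M) '' gxq.bx})
    (h0 : gxq.hi c0 = 0)
    (h1 : Convex ℝ (K q)) (h2 : IsCompact (K q)) (hn : (K q).Nonempty)
    (h4 : IsBall (dim q) (K q) (K q \ ri (K q)))
    {wt : J → ℝ} (hw : ∀ j, 0 < wt j) (hwf : ∀ j j', fa j = fa j' → wt j = wt j')
    (rng : ∀ x : Cm.I q, N (fa (Cm.col q x)) (gxq.lo (fa (Cm.col q x))) ≤ lv (Cm.col q x) ∧
      lv (Cm.col q x) < N (fa (Cm.col q x)) (gxq.hi (fa (Cm.col q x))))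
    (ex : ∀ a k, N a (gxq.lo a) ≤ k → k < N a (gxq.hi a) →
      ∃ x : Cm.I q, fa (Cm.col q x) = a ∧ lv (Cm.col q x) = k)
    {δq : ℝ} (hδq : 0 ≤ δq) (B : V ≃ᵃ[ℝ] V) (x : Cm.I q) {z : V} (hz : z ∈ K q) :
    LB B (Kbase (Fintype.card κ') δ R κ * (AAc (dim q) (B '' K q) * (Wd Cm wt q + δq)) /
        wt (Cm.col q x))
      (fun z => sg (Cm.Lab (Cm.col q x) q) *
        ((ekS (grid F hQ hne hm) (bc (F := Fm)) κ c fa lv
          (th.trans (rcR hN hN0 hNm F hQ (fun _ => hM) hm c0))).G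
          (Cm.col q x) z - 1/2)) (K q) z := by
  have hM0 : (0 : ℝ) < M := by exact_mod_cast hM
  have hsz : 0 < c0.1.sz := Bx.sz_pos (BF.pos _ c0.2)
  have hCs : 0 ≤ Cs (Fintype.card κ') δ R := Cs_nonneg hδ hR
  have hk : 0 < 1 - κ := by linarith [hκ.2]
  set L1 : ℝ := M * (Cs (Fintype.card κ') δ R / c0.1.sz) with hL1
  have hL10 : 0 ≤ L1 := by positivity
  have hlip : ∀ y ∈ bdP (Pc Fm) (bc (F := Fm)) (fun _ => M) c0,
      ∀ y' ∈ bdP (Pc Fm) (bc (F := Fm)) (fun _ => M) c0, ∀ a,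
      |co (Pc Fm) (bc (F := Fm)) (fun _ => M) y a - co (Pc Fm) (bc (F := Fm)) (fun _ => M) y' a| ≤
        L1 * dist y y' := by
    intro y hy y' hy' a
    rw [bdP_eq F hQ (fun _ => hM)] at hy hy'
    obtain ⟨g1, c1, g2, g3⟩ := hy
    obtain ⟨g1', c1', g2', g3'⟩ := hy'
    rw [Cmh_63.co_const F hQ hM (F.sub _ g1) g2.symm g1 g3,
      Cmh_63.co_const F hQ hM (F.sub _ g1') g2'.symm g1' g3', ← mul_sub, abs_mul, abs_of_pos hM0,
      dist_eq_norm, hL1, mul_assoc]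
    exact mul_le_mul_of_nonneg_left (lip_cell BF hLa hδ hR hcmp c0 y g1 y' g1' a) hM0.le
  have hdiam : ∀ y ∈ K q, ∀ z ∈ K q, dist (A y) (A z) ≤ 2 * (R * (R * c0.1.sz) / M) := by
    intro y hy z hz
    rw [hK] at hy hz
    rw [← hA y hy.1, ← hA z hz.1, dist_eq_norm]
    exact cell_diam BF hLa h3 hR.le hcmp hM (fun _ => le_rfl) h0 hy.2 hz.2
  refine base_num h1 h2 hn h4 hw hδq A (L := 2 * L1 / (1 - κ)) (by positivity) hdiam
    (le_of_eq ?_) (c0 := fun x z => sg (Cm.Lab (Cm.col q x) q) *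
        ((ekS (grid F hQ hne hm) (bc (F := Fm)) κ c fa lv
          (th.trans (rcR hN hN0 hNm F hQ (fun _ => hM) hm c0))).G
          (Cm.col q x) z - 1/2)) (fun x z hz => ?_) B x hz
  · unfold Kbase
    rw [hL1]
    field_simp
    ring
  · exact lb_base hN hN0 hNm F hQ hne (fun _ => hM) hm hκ c fa lv th N hnN A hA gxq hK hw hwf rng
      ex hlip hδq x hz

end box

end Crest.Agent.R096.Be_416
end

-- ▼ part R096/Bxg1_63
section

/-!
# R096 (row 96), BASE-DISC-1 (helper63, for helper446): 416's `BoxG` for the M-mesh of an exact core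

`boxG_mesh_R` : the hypotheses of 181's `inv_base_mesh_R` (+ `dim2`, `dfree`, `hbd`, `rng`) give
416's `BoxG` with `e = th.trans (rcR ..)`, `L = n (lo)`, `H = n (hi)`, `rL = N (lo)`, `rH = N (hi)`.
-/

set_option autoImplicit false
set_option linter.unusedSectionVars false

open Set Metric

namespace Crest.Agent.R096.Bxg_63

open Crest.Agent.R096.Ce_537 Crest.Agent.R096.Bd_416 Crest.Agent.R096.Xp_537
open Crest.Agent.R096.Brk1_582 Crest.Agent.R096.Brk2_582 Crest.Agent.R096.Brk6_582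
open Crest.Agent.R096.Grd_714 Crest.Agent.R096.Bin_181 Crest.Agent.R096.Be_416

variable {E : Type*} [NormedAddCommGroup E] [NormedSpace ℝ E] {I : Type*}
variable {b : Set I → E} {P : I → Set E} {m m' : I → ℕ}
variable {V : Type*} [NormedAddCommGroup V] [NormedSpace ℝ V] [FiniteDimensional ℝ V] {Q : Type} [PartialOrder Q]
  {dim : Q → ℕ} {J Fam : Type} {Cm : Cmb Q dim J Fam} {K : Q → Set V} {D : Set Q}
variable {n : I → ℕ → ℝ} (hN : ∀ a, StrictMono (n a)) (hN0 : ∀ a, n a 0 = 0)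
  (hNm : ∀ a, n a (m' a) = m a)
variable {La : Set E} [CompleteSpace E] [FiniteDimensional ℝ E] (F : Foam La P b 4)
  (hQ : Quads P b) (hm' : ∀ c, 0 < m' c) (hm : ∀ c, 0 < m c)
variable {κ : ℝ} (fa : J → I) (lv : J → ℕ) {S : Set V} {c0 : I}
  (th : PLEquiv S (bdP P b m' c0)) (N : I → ℕ → ℕ) (hnN : ∀ a i, i ≤ m' a → |n a i - N a i| < κ / 2)

section
include hN hN0

/-- values of `nuR` at equal arguments -/
lemma nuR_iff {a : I} (ha : 0 < m' a) {x : ℝ} (hx : x ∈ Icc (0 : ℝ) (m' a)) {i : ℕ} (hi : i ≤ m' a) :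
    nuR (n a) (m' a) x = n a i ↔ x = i := by
  constructor
  · intro h
    have h1 := niR_nuR (hN a) (hN0 a) ha hx
    rw [h, niR_nat (hN a) (hN0 a) hi] at h1
    exact h1.symm
  · rintro rfl
    exact nuR_nat (hN a) (hN0 a) hi

include hNm in
/-- a real box between mesh values lies in the 2-skeleton -/
lemma full_box (q : Gx P m') {g : I → ℝ} (hg : ∀ c, n c (q.lo c) ≤ g c ∧ g c ≤ n c (q.hi c)) :
    (fun c => niR (n c) (m' c) (g c)) ∈ q.bx ∧
      (fun c => nuR (n c) (m' c) (niR (n c) (m' c) (g c))) = g := by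
  have hlo : ∀ c, q.lo c ≤ m' c := fun c => (q.le c).trans (q.him c)
  refine ⟨fun c => ⟨?_, ?_⟩, ?_⟩
  · show (q.lo c : ℝ) ≤ niR (n c) (m' c) (g c)
    rw [← niR_nat (hN c) (hN0 c) (hlo c)]
    exact niR_mono (hN c) (hg c).1
  · show niR (n c) (m' c) (g c) ≤ (q.hi c : ℝ)
    rw [← niR_nat (hN c) (hN0 c) (q.him c)]
    exact niR_mono (hN c) (hg c).2
  · funext c
    rcases Nat.eq_zero_or_pos (m' c) with h0 | hc
    · have e1 : q.lo c = 0 := by have := hlo c; omega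
      have e2 : q.hi c = 0 := by have := q.him c; omega
      have h := hg c
      rw [e1, e2, hN0] at h
      have h3 : g c = 0 := le_antisymm h.2 h.1
      rw [h3, h0]
      simp [nuR]
    · refine nuR_niR (hN c) (hN0 c) hc ⟨?_, ?_⟩
      · refine le_trans ?_ (hg c).1
        rw [← hN0 c]
        exact (hN c).monotone (Nat.zero_le _)
      · exact (hg c).2.trans ((hN c).monotone (q.him c))

end

include hnN in
/-- **BASE-DISC-1: the M-mesh of an exact core gives 416's `BoxG`** -/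
theorem boxG_mesh_R (hinj : ∀ j j', fa j = fa j' → lv j = lv j' → j = j')
    (hD : ∀ q ∈ D, ∀ p < q, p ∈ D) (gx : Q → Gx P m')
    (gx_mono : ∀ {p q : Q}, p < q → q ∈ D → gx p ≤ gx q)
    (hK : ∀ q ∈ D, K q = {z | z ∈ S ∧ th.f z ∈ Tq b m' '' (gx q).bx})
    (h0 : ∀ q ∈ D, (gx q).hi c0 = 0)
    (dim2 : ∀ q ∈ D, dim q ≤ 2) (dfree : ∀ q ∈ D, dim q = (gx q).free.ncard)
    (hbd : ∀ q ∈ D, dim q = 2 → ∀ z ∈ K q, (z ∈ bdS K q ↔ ∃ a ∈ (gx q).free,
      co P b m' (th.f z) a = (gx q).lo a ∨ co P b m' (th.f z) a = (gx q).hi a))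
    (rng : ∀ q ∈ D, ∀ x : Cm.I q, N (fa (Cm.col q x)) ((gx q).lo (fa (Cm.col q x))) ≤ lv (Cm.col q x) ∧
      lv (Cm.col q x) < N (fa (Cm.col q x)) ((gx q).hi (fa (Cm.col q x))))
    (one : ∀ q ∈ D, ∀ x x' : Cm.I q, Cm.col q x = Cm.col q x' → x = x') :
    BoxG Cm K D P b m κ fa lv (th.trans (rcR hN hN0 hNm F hQ hm' hm c0))
      (fun q a => n a ((gx q).lo a)) (fun q a => n a ((gx q).hi a))
      (fun q a => N a ((gx q).lo a)) (fun q a => N a ((gx q).hi a)) := by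
  have hlo : ∀ q : Gx P m', ∀ c, q.lo c ≤ m' c := fun q c => (q.le c).trans (q.him c)
  have hlt : ∀ (q : Gx P m') (a : I), n a (q.lo a) < n a (q.hi a) ↔ a ∈ q.free := by
    intro q a
    rw [(hN a).lt_iff_lt]
    exact Iff.rfl
  have heq : ∀ (q : Gx P m') (a : I), a ∉ q.free → n a (q.lo a) = n a (q.hi a) := by
    intro q a ha
    rw [Gx.lo_eq ha]
  have hcobx : ∀ q ∈ D, ∀ z ∈ K q, co P b m' (th.f z) ∈ (gx q).bx := by
    intro q hq z hz
    rw [hK q hq] at hz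
    exact co_mem F hQ hm' hz.2
  have hcof : ∀ q ∈ D, ∀ z ∈ K q, ∀ a,
      co P b m ((th.trans (rcR hN hN0 hNm F hQ hm' hm c0)).f z) a =
        nuR (n a) (m' a) (co P b m' (th.f z) a) := by
    intro q hq z hz a
    have hG : co P b m' (th.f z) ∈ G2 P m' := (gx q).bx_sub hm' (hcobx q hq z hz)
    have e : (th.trans (rcR hN hN0 hNm F hQ hm' hm c0)).f z =
        Tq b m (fun a => nuR (n a) (m' a) (co P b m' (th.f z) a)) := rfl
    rw [e, co_Tq F hQ hm (G2_nu (nuR_Nu hN hN0 hNm) hm' hm hG)]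
  refine
    { KS := fun q hq => by rw [hK q hq]; exact fun z hz => hz.1
      sub := fun {p q} h hq => ?_
      Ke := fun q hq => ?_
      full := fun q hq g hg => ?_
      le := fun q _ c => (hN c).monotone ((gx q).le c)
      zero := fun q hq => ⟨c0, by show n c0 ((gx q).hi c0) = 0; rw [h0 q hq, hN0]⟩
      aL := fun q _ a => hnN a _ (hlo (gx q) a)
      aH := fun q _ a => hnN a _ ((gx q).him a)
      dim2 := dim2
      fr1 := fun q hq hd => ?_
      fr2 := fun q hq hd => ?_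
      bd := fun q hq hd z hz => ?_
      rng := rng
      one := one
      inj := hinj }
  · -- sub
    rw [hK q hq, hK p (hD q hq p h)]
    exact fun z hz => ⟨hz.1, image_mono (bx_mono (gx_mono h hq)) hz.2⟩
  · -- Ke
    have h1 : th.f '' K q = Tq b m' '' (gx q).bx := by
      rw [hK q hq]
      apply Subset.antisymm
      · rintro _ ⟨z, hz, rfl⟩; exact hz.2
      · intro y hy
        have hy' : y ∈ bdP P b m' c0 := by
          rw [← bxS_gx hm'] at hy
          exact bxS_sub_bdP hm' (h0 q hq) hy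
        refine ⟨th.g y, ⟨th.mg hy', ?_⟩, th.ri y hy'⟩
        rw [th.ri y hy']; exact hy
    have h2 : (th.trans (rcR hN hN0 hNm F hQ hm' hm c0)).f '' K q =
        (rcR hN hN0 hNm F hQ hm' hm c0).f '' (th.f '' K q) := by
      rw [← image_comp]; rfl
    rw [h2, h1, ← bxS_gx hm']
    exact rcR_image hN hN0 hNm F hQ hm' hm (fun a => (gx q).him a)
      (fun a => ((gx q).le a).trans ((gx q).him a))
  · -- full
    obtain ⟨h1, h2⟩ := full_box hN hN0 hNm (gx q) hg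
    have h3 := G2_nu (nuR_Nu hN hN0 hNm) hm' hm ((gx q).bx_sub hm' h1)
    rw [h2] at h3
    exact h3
  · -- fr1
    rw [dfree q hq] at hd
    obtain ⟨a, ha⟩ := Set.ncard_eq_one.1 hd
    refine ⟨a, fun c hc => heq (gx q) c ?_⟩
    rw [ha]
    exact hc
  · -- fr2
    rw [dfree q hq] at hd
    obtain ⟨a, a', hne, ha⟩ := Set.ncard_eq_two.1 hd
    refine ⟨a, a', hne, (hlt (gx q) a).2 (by rw [ha]; simp), (hlt (gx q) a').2 (by rw [ha]; simp),
      fun c hc hc' => heq (gx q) c ?_⟩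
    rw [ha]
    simp [hc, hc']
  · -- bd
    rw [hbd q hq hd z hz]
    have hmem : ∀ a, co P b m' (th.f z) a ∈ Icc (0 : ℝ) (m' a) := fun a =>
      G2_mem hm' ((gx q).bx_sub hm' (hcobx q hq z hz)) a
    refine exists_congr fun a => ?_
    rw [hcof q hq z hz a, hlt (gx q) a, nuR_iff hN hN0 (hm' a) (hmem a) (hlo (gx q) a),
      nuR_iff hN hN0 (hm' a) (hmem a) ((gx q).him a)]

end Crest.Agent.R096.Bxg_63
end

-- ▼ part R096/Be6_416

/-!
# R096 (row 96), P4-MESH (helper416): BASE-INST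

* `BaseC` : everything the mesh needs from the base on the cells `D`.
* `baseC_box` : the base of ONE type R core of a box foam (181 `inv_base_mesh_R`, 63 `boxG_mesh_R`,
  `BoxG.geoR`, `lb_base_box`).
* `base_all` : all cores together.
-/

set_option autoImplicit false

open Set Metric Filter Topology

namespace Crest.Agent.R096.Be_416

open Crest.Agent.R096.Ce_537 Crest.Agent.R096.Bd_416 Crest.Agent.R096.Xp_537
open Crest.Agent.R096.Brk1_582 Crest.Agent.R096.Brk2_582 Crest.Agent.R096.Brk6_582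
open Crest.Agent.R096.Grd_714 Crest.Agent.R096.Bin_181 Crest.Agent.R096.Arc_778
open Crest.Agent.R96.Nu1_199 Crest.Agent.R96.Nu3_199 Crest.Agent.R96.Nu5_199

set_option linter.unusedSectionVars false

variable {V : Type*} [NormedAddCommGroup V] [NormedSpace ℝ V] [FiniteDimensional ℝ V]
  {Q : Type} [PartialOrder Q] {dim : Q → ℕ} {J Fam : Type} {Cm : Cmb Q dim J Fam}
  {K : Q → Set V}

/-- **the base** on the cells `D`, with the Lipschitz constant `K₀` (all frames) -/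
structure BaseC (Cm : Cmb Q dim J Fam) (K : Q → Set V) (wt : J → ℝ) (K₀ : ℝ) (D : Set Q)
    (g : Gd V J) (P : ∀ q, Cm.I q → Set V) (c : ∀ q, Cm.I q → V → ℝ) : Prop where
  down : ∀ q ∈ D, ∀ p < q, p ∈ D
  inv : Inv Cm K D g P c
  geo : GeoR Cm K c D
  /-- all points of an edge belong to one family -/
  fam1 : ∀ q ∈ D, dim q = 1 → ∀ x x' : Cm.I q, Cm.fam (Cm.col q x) = Cm.fam (Cm.col q x')
  num : ∀ q ∈ D, ∀ B : V ≃ᵃ[ℝ] V, ∀ δq : ℝ, 0 ≤ δq → ∀ x, ∀ z ∈ K q,
    LB B (K₀ * (AAc (dim q) (B '' K q) * (Wd Cm wt q + δq)) / wt (Cm.col q x)) (c q x) (K q) z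

/-! ### one core of a box foam -/

section box

open Crest.Agent.R096.Bsp_628 Crest.Agent.R096.Brk3_582 Crest.Agent.R096.Brk5_582
  Crest.Agent.R096.Lbb_835 Crest.Agent.R096.Bxg_63

variable {κ' : Type*} [Fintype κ'] [Nonempty κ'] {La : Set (κ' → ℝ)} {Fm : Set (Bx κ')} {δ κ0 : ℝ}
variable {D : Set Q}
variable {m : Fm → ℕ} {n : Fm → ℕ → ℝ} (hN : ∀ a, StrictMono (n a)) (hN0 : ∀ a, n a 0 = 0)
  {M : ℕ} (hM : 0 < M) (hNm : ∀ a, n a M = m a)
variable (F : Foam La (Pc Fm) (bc (F := Fm)) 4)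
  (hQ : Quads (Pc Fm) (bc (F := Fm))) (hne : ∀ c, (Pc Fm c).Nonempty) (hm : ∀ c, 0 < m c)
variable {κ : ℝ} (hκ : 0 < κ ∧ κ < 1) (c : Cel (Pc Fm) m) (fa : J → Fm) (lv : J → ℕ) {S : Set V}
  {c0 : Fm} (th : PLEquiv S (bdP (Pc Fm) (bc (F := Fm)) (fun _ => M) c0)) (N : Fm → ℕ → ℕ)
  (hnN : ∀ a i, i ≤ M → |n a i - N a i| < κ / 2)

include hκ hnN in
/-- **THE BASE OF ONE TYPE R CORE** -/
theorem baseC_box (BF : BoxFoam La Fm δ κ0) (hLa : IsOpen La) (h3 : Fintype.card κ' = 3)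
    (hδ : 0 < δ) {R : ℝ} (hR : 0 < R) (hcmp : Cmp Fm R)
    (A : V →ᵃ[ℝ] (κ' → ℝ)) (hA : ∀ z ∈ S, th.f z = A z)
    (hinj : ∀ j j', fa j = fa j' → lv j = lv j' → j = j')
    (hD : ∀ q ∈ D, ∀ p < q, p ∈ D) (gx : Q → Gx (Pc Fm) (fun _ => M))
    (gx_mono : ∀ {p q : Q}, p < q → q ∈ D → gx p ≤ gx q)
    (hK : ∀ q ∈ D, K q = {z | z ∈ S ∧ th.f z ∈ Tq (bc (F := Fm)) (fun _ => M) '' (gx q).bx})
    (hKc : ∀ q ∈ D, IsCompact (K q)) (hKv : ∀ q ∈ D, Convex ℝ (K q))
    (hKb : ∀ q ∈ D, IsBall (dim q) (K q) (K q \ ri (K q)))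
    (h0 : ∀ q ∈ D, (gx q).hi c0 = 0)
    (dim2 : ∀ q ∈ D, dim q ≤ 2) (dfree : ∀ q ∈ D, dim q = (gx q).free.ncard)
    (hbd : ∀ q ∈ D, dim q = 2 → ∀ z ∈ K q, (z ∈ bdS K q ↔ ∃ a ∈ (gx q).free,
      co (Pc Fm) (bc (F := Fm)) (fun _ => M) (th.f z) a = (gx q).lo a ∨
        co (Pc Fm) (bc (F := Fm)) (fun _ => M) (th.f z) a = (gx q).hi a))
    (rng : ∀ q ∈ D, ∀ x : Cm.I q, N (fa (Cm.col q x)) ((gx q).lo (fa (Cm.col q x))) ≤
      lv (Cm.col q x) ∧ lv (Cm.col q x) < N (fa (Cm.col q x)) ((gx q).hi (fa (Cm.col q x))))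
    (one : ∀ q ∈ D, ∀ x x' : Cm.I q, Cm.col q x = Cm.col q x' → x = x')
    (ex : ∀ q ∈ D, ∀ j, N (fa j) ((gx q).lo (fa j)) ≤ lv j →
      lv j < N (fa j) ((gx q).hi (fa j)) → ∃ x, Cm.col q x = j)
    (sur : ∀ a k, k < m a → ∃ j, fa j = a ∧ lv j = k) (hNM : ∀ a, N a M = m a)
    (hNmono : ∀ a, Monotone (N a))
    (hfam : ∀ j j', Cm.fam j = Cm.fam j' ↔ fa j = fa j')
    (lab1 : ∀ q ∈ D, ∀ j, (∀ x, Cm.col q x ≠ j) → lv j < N (fa j) ((gx q).lo (fa j)) →
      Cm.Lab j q = 1)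
    (lab0' : ∀ q ∈ D, ∀ j, (∀ x, Cm.col q x ≠ j) → N (fa j) ((gx q).hi (fa j)) ≤ lv j →
      Cm.Lab j q = 0)
    (sd : ∀ q ∈ D, ∀ x x', x ≠ x' → Cm.fam (Cm.col q x) = Cm.fam (Cm.col q x') →
      Cm.side q x x' = Cm.Lab (Cm.col q x') q +
        if lv (Cm.col q x') < lv (Cm.col q x) then 1 else 0)
    {wt : J → ℝ} (hw : ∀ j, 0 < wt j) (hwf : ∀ j j', fa j = fa j' → wt j = wt j') :
    BaseC Cm K wt (Kbase (Fintype.card κ') δ R κ) D
      (ekS (grid F hQ hne hm) (bc (F := Fm)) κ c fa lv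
        (th.trans (rcR hN hN0 hNm F hQ (fun _ => hM) hm c0)))
      (fun q x => K q ∩ (ekS (grid F hQ hne hm) (bc (F := Fm)) κ c fa lv
        (th.trans (rcR hN hN0 hNm F hQ (fun _ => hM) hm c0))).B (Cm.col q x))
      (fun q x z => sg (Cm.Lab (Cm.col q x) q) *
        ((ekS (grid F hQ hne hm) (bc (F := Fm)) κ c fa lv
          (th.trans (rcR hN hN0 hNm F hQ (fun _ => hM) hm c0))).G (Cm.col q x) z - 1/2)) where
  down := hD
  inv := inv_base_mesh_R hN hN0 hNm F hQ hne (fun _ => hM) hm hκ c fa lv th N hnN hinj hD gx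
    gx_mono hK (fun q hq => (hKc q hq).isClosed) h0 one ex (fun j j' h => (hfam j j').1 h) lab1
    lab0' sd
  geo := (boxG_mesh_R hN hN0 hNm F hQ (fun _ => hM) hm fa lv th N hnN hinj hD gx gx_mono hK h0
    dim2 dfree hbd rng one).geoR F hQ hne hm hκ c
  fam1 := fun q hq hd x x' => (hfam _ _).2
    ((boxG_mesh_R hN hN0 hNm F hQ (fun _ => hM) hm fa lv th N hnN hinj hD gx gx_mono hK h0
      dim2 dfree hbd rng one).fam1 hκ.2.le hq hd x x')
  num := fun q hq B δq hδq x z hz => by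
    refine lb_base_box hN hN0 hM hNm F hQ hne hm hκ c fa lv th N hnN BF hLa h3 hδ hR hcmp A hA
      (gx q) (hK q hq) (h0 q hq) (hKv q hq) (hKc q hq) ⟨z, hz⟩ (hKb q hq) hw hwf (rng q hq)
      (fun a k hk1 hk2 => ?_) hδq B x hz
    have hk3 : k < m a := by
      have h1 : N a ((gx q).hi a) ≤ N a M := hNmono a ((gx q).him a)
      rw [hNM] at h1
      omega
    obtain ⟨j, rfl, rfl⟩ := sur a k hk3
    obtain ⟨x', hx'⟩ := ex q hq j hk1 hk2
    exact ⟨x', by rw [hx'], by rw [hx']⟩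

end box

/-! ### all cores -/

section all

variable {Ic : Type*} {S : Ic → Set V} {D : Ic → Set Q} {g : Ic → Gd V J}
  {P : Ic → ∀ q, Cm.I q → Set V} {c : Ic → ∀ q, Cm.I q → V → ℝ} {wt : J → ℝ} {K₀ : ℝ}

/-- **BASE-ALL** -/
theorem base_all (hS : ∀ i i', i ≠ i' → Disjoint (S i) (S i')) (hK : ∀ i, ∀ q ∈ D i, K q ⊆ S i)
    (hne : ∀ q, (K q).Nonempty) (H : ∀ i, BaseC Cm K wt K₀ (D i) (g i) (P i) (c i)) :
    BaseC Cm K wt K₀ (⋃ i, D i) (ug S g) (uP D P) (uc D c) ∧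
      ∀ i, ∀ q ∈ D i, ∀ z ∈ K q, EqAt (g i) (ug S g) z := by
  refine ⟨⟨down_union fun i => (H i).down,
    inv_union g P c hS hK hne (fun i => (H i).down) fun i => (H i).inv,
    geoR_union c hS hK hne fun i => (H i).geo, fun q hq hd x x' => ?_,
    fun q hq B δq hδ x z hz => ?_⟩, fun i q hq z hz => ug_eqAt g hS (hK i q hq hz)⟩
  · obtain ⟨i, hi⟩ := mem_iUnion.1 hq
    exact (H i).fam1 q hi hd x x'
  · obtain ⟨i, hi⟩ := mem_iUnion.1 hq
    rw [uc_eq c hS hK hne hi]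
    exact (H i).num q hi B δq hδ x z hz

end all

end Crest.Agent.R096.Be_416
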