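import Crest.Agent.R096.BelB_205
import Crest.Agent.R096.BelDefs_205

-- ▼ part R096/BelC_205
section

/-!
Row 96, P5 / C3-BEL: the Neumann series `κ ↦ μ ∂P κ` inside `C_c^∞`, with sup norm control.
-/

open Set Metric MeasureTheory Filter Topology
open scoped ContDiff NNReal Real ComplexConjugate
open Crest.Agent.R096.BelA_205 Crest.Agent.R096.BelB_205

namespace Crest.Agent.R096.BelC_205

noncomputable section

theorem dd_mul {a b : ℂ → ℂ} (ha : Differentiable ℝ a) (hb : Differentiable ℝ b) (v z : ℂ) :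
    dd v (fun z => a z * b z) z = dd v a z * b z + a z * dd v b z := by
  unfold dd
  rw [fderiv_fun_mul (ha z) (hb z)]
  simp only [ContinuousLinearMap.add_apply, ContinuousLinearMap.smul_apply, smul_eq_mul]
  ring

theorem dd_add {a b : ℂ → ℂ} (ha : Differentiable ℝ a) (hb : Differentiable ℝ b) (v z : ℂ) :
    dd v (fun z => a z + b z) z = dd v a z + dd v b z := by
  unfold dd
  rw [fderiv_fun_add (ha z) (hb z)]; simp

theorem dd_dz {u : ℂ → ℂ} (h : ContDiff ℝ ∞ u) (v z : ℂ) : dd v (dz u) z = dz (dd v u) z := by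
  have h1 : Differentiable ℝ (dd 1 u) := (contDiff_dd h 1).differentiable (by simp)
  have h2 : Differentiable ℝ (dd Complex.I u) := (contDiff_dd h _).differentiable (by simp)
  have e : dd v (dz u) z = (dd v (dd 1 u) z - Complex.I * dd v (dd Complex.I u) z) / 2 := by
    have h3 : HasFDerivAt (dz u) ((2:ℂ)⁻¹ • (fderiv ℝ (dd 1 u) z
        - Complex.I • fderiv ℝ (dd Complex.I u) z)) z := by
      have h4 := ((h1 z).hasFDerivAt.sub ((h2 z).hasFDerivAt.const_mul Complex.I)).const_mul (2:ℂ)⁻¹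
      refine h4.congr_of_eventuallyEq (Eventually.of_forall fun y => ?_)
      simp only [dz]
      rw [div_eq_inv_mul]
      rfl
    unfold dd at *
    rw [h3.fderiv]
    simp only [ContinuousLinearMap.smul_apply, ContinuousLinearMap.sub_apply, smul_eq_mul]
    ring
  rw [e, dd_comm h v 1, dd_comm h v Complex.I]
  rfl

theorem dd_S {R : ℝ} {u : ℂ → ℂ} (h : Tst R u) (v : ℂ) : dd v (dz (P u)) = dz (P (dd v u)) := by
  ext z
  rw [dz_P h, dd_P h.dz, dz_P (h.dd v)]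
  congr 1
  ext y
  exact dd_dz h.smooth v y

/-- `T κ = μ ∂Pκ` -/
def T (μ u : ℂ → ℂ) (z : ℂ) : ℂ := μ z * dz (P u) z

theorem smooth_S {R : ℝ} {u : ℂ → ℂ} (h : Tst R u) : ContDiff ℝ ∞ (dz (P u)) := by
  rw [dz_P h]; exact P_smooth h.dz

theorem tst_T {R R' : ℝ} {μ u : ℂ → ℂ} (hμ : Tst R μ) (h : Tst R' u) : Tst R (T μ u) :=
  hμ.mul (smooth_S h)

theorem dd_T {R R' : ℝ} {μ u : ℂ → ℂ} (hμ : Tst R μ) (h : Tst R' u) (v : ℂ) :
    dd v (T μ u) = fun z => dd v μ z * dz (P u) z + μ z * dz (P (dd v u)) z := by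
  ext z
  unfold T
  rw [dd_mul hμ.diff ((smooth_S h).differentiable (by simp)), dd_S h]

theorem dd_dd_T {R R' : ℝ} {μ u : ℂ → ℂ} (hμ : Tst R μ) (h : Tst R' u) (v w z : ℂ) :
    dd w (dd v (T μ u)) z = (dd w (dd v μ) z * dz (P u) z + dd v μ z * dz (P (dd w u)) z)
      + (dd w μ z * dz (P (dd v u)) z + μ z * dz (P (dd w (dd v u))) z) := by
  have hS : Differentiable ℝ (dz (P u)) := (smooth_S h).differentiable (by simp)
  have hSv : Differentiable ℝ (dz (P (dd v u))) := (smooth_S (h.dd v)).differentiable (by simp)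
  have h1 : Differentiable ℝ (fun z => dd v μ z * dz (P u) z) := (hμ.dd v).diff.mul hS
  have h2 : Differentiable ℝ (fun z => μ z * dz (P (dd v u)) z) := hμ.diff.mul hSv
  rw [dd_T hμ h, dd_add h1 h2,
    dd_mul (hμ.dd v).diff hS, dd_mul hμ.diff hSv, dd_S h, dd_S (h.dd v)]

/-- square integral -/
def A (u : ℂ → ℂ) : ℝ := ∫ z, ‖u z‖ ^ 2

theorem A_nonneg (u : ℂ → ℂ) : 0 ≤ A u := integral_nonneg fun _ => by positivity

theorem A_S {R : ℝ} {u : ℂ → ℂ} (h : Tst R u) : A (dz (P u)) = A u := BelB_205.isometry h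

theorem norm_add_sq_le (ε : ℝ) (hε : 0 < ε) (a b : ℂ) :
    ‖a + b‖ ^ 2 ≤ (1 + ε) * ‖b‖ ^ 2 + (1 + ε⁻¹) * ‖a‖ ^ 2 := by
  have h1 : ‖a + b‖ ^ 2 ≤ (‖a‖ + ‖b‖) ^ 2 := by
    gcongr; exact norm_add_le _ _
  have h2 : 2 * ‖a‖ * ‖b‖ ≤ ε * ‖b‖ ^ 2 + ε⁻¹ * ‖a‖ ^ 2 := by
    have h3 : 0 ≤ ε⁻¹ * (‖a‖ - ε * ‖b‖) ^ 2 := by positivity
    have h4 : ε⁻¹ * (‖a‖ - ε * ‖b‖) ^ 2 = ε⁻¹ * ‖a‖ ^ 2 - 2 * ‖a‖ * ‖b‖ + ε * ‖b‖ ^ 2 := by
      field_simp; ring
    linarith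
  nlinarith [h1, h2]

section estimates

variable {R : ℝ} {μ u : ℂ → ℂ} {k M ε : ℝ}

theorem A_T (hμ : Tst R μ) (h : Tst R u) (hk : ∀ z, ‖μ z‖ ≤ k) : A (T μ u) ≤ k ^ 2 * A u := by
  rw [← A_S h]
  unfold A
  rw [← integral_const_mul]
  apply integral_mono (sq_integrable (tst_T hμ h)) ((integrable_sq_P h).const_mul _)
  intro z
  simp only [T, norm_mul, mul_pow]
  gcongr
  exact hk z

theorem A_le_of {v : ℂ → ℂ} (hv : Tst R v) {f : ℂ → ℝ} (hf : Integrable f)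
    (h : ∀ z, ‖v z‖ ^ 2 ≤ f z) : A v ≤ ∫ z, f z :=
  integral_mono (sq_integrable hv) hf h

theorem A_dd_T (hμ : Tst R μ) (h : Tst R u) (hk : ∀ z, ‖μ z‖ ≤ k) (hε : 0 < ε) (v : ℂ)
    (hM : ∀ z, ‖dd v μ z‖ ≤ M) :
    A (dd v (T μ u)) ≤ (1 + ε) * k ^ 2 * A (dd v u) + (1 + ε⁻¹) * M ^ 2 * A u := by
  have i0 := integrable_sq_P h
  have iv := integrable_sq_P (h.dd v)
  have hi : Integrable fun z => (1 + ε) * k ^ 2 * ‖dz (P (dd v u)) z‖ ^ 2
      + (1 + ε⁻¹) * M ^ 2 * ‖dz (P u) z‖ ^ 2 := (iv.const_mul _).add (i0.const_mul _)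
  refine (A_le_of ((tst_T hμ h).dd v) hi ?_).trans (le_of_eq ?_)
  · intro z
    simp only [dd_T hμ h v]
    refine (norm_add_sq_le ε hε _ _).trans ?_
    simp only [norm_mul, mul_pow]
    have h1 : ‖μ z‖ ^ 2 ≤ k ^ 2 := by gcongr; exact hk z
    have h2 : ‖dd v μ z‖ ^ 2 ≤ M ^ 2 := by gcongr; exact hM z
    calc (1 + ε) * (‖μ z‖ ^ 2 * ‖dz (P (dd v u)) z‖ ^ 2)
          + (1 + ε⁻¹) * (‖dd v μ z‖ ^ 2 * ‖dz (P u) z‖ ^ 2)
        ≤ (1 + ε) * (k ^ 2 * ‖dz (P (dd v u)) z‖ ^ 2)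
          + (1 + ε⁻¹) * (M ^ 2 * ‖dz (P u) z‖ ^ 2) := by gcongr
      _ = _ := by ring
  · rw [integral_add (iv.const_mul _) (i0.const_mul _), integral_const_mul, integral_const_mul]
    rw [← A_S h, ← A_S (h.dd v)]
    rfl

theorem A_dd_dd_T (hμ : Tst R μ) (h : Tst R u) (hk : ∀ z, ‖μ z‖ ≤ k) (hε : 0 < ε) (v w : ℂ)
    (hM : ∀ z, ‖dd v μ z‖ ≤ M) (hM' : ∀ z, ‖dd w μ z‖ ≤ M) (hM2 : ∀ z, ‖dd w (dd v μ) z‖ ≤ M) :
    A (dd w (dd v (T μ u))) ≤ (1 + ε) * k ^ 2 * A (dd w (dd v u))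
      + 3 * (1 + ε⁻¹) * M ^ 2 * (A u + A (dd v u) + A (dd w u)) := by
  have i0 := integrable_sq_P h
  have iv := integrable_sq_P (h.dd v)
  have iw := integrable_sq_P (h.dd w)
  have ivw := integrable_sq_P ((h.dd v).dd w)
  have i2 : Integrable fun z => ‖dz (P u) z‖ ^ 2 + ‖dz (P (dd v u)) z‖ ^ 2 := i0.add iv
  have i3 : Integrable fun z => ‖dz (P u) z‖ ^ 2 + ‖dz (P (dd v u)) z‖ ^ 2
      + ‖dz (P (dd w u)) z‖ ^ 2 := i2.add iw
  have hi : Integrable fun z => (1 + ε) * k ^ 2 * ‖dz (P (dd w (dd v u))) z‖ ^ 2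
      + 3 * (1 + ε⁻¹) * M ^ 2 * (‖dz (P u) z‖ ^ 2 + ‖dz (P (dd v u)) z‖ ^ 2
        + ‖dz (P (dd w u)) z‖ ^ 2) := (ivw.const_mul _).add (i3.const_mul _)
  refine (A_le_of (((tst_T hμ h).dd v).dd w) hi ?_).trans (le_of_eq ?_)
  · intro z
    rw [dd_dd_T hμ h v w z]
    generalize dz (P u) z = a0
    generalize dz (P (dd v u)) z = av
    generalize dz (P (dd w u)) z = aw
    generalize dz (P (dd w (dd v u))) z = avw
    have e : (dd w (dd v μ) z * a0 + dd v μ z * aw) + (dd w μ z * av + μ z * avw)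
        = (dd w (dd v μ) z * a0 + dd v μ z * aw + dd w μ z * av) + μ z * avw := by ring
    rw [e]
    refine (norm_add_sq_le ε hε _ _).trans ?_
    have h1 : ‖μ z * avw‖ ^ 2 ≤ k ^ 2 * ‖avw‖ ^ 2 := by
      rw [norm_mul, mul_pow]; gcongr; exact hk z
    have h2 : ‖dd w (dd v μ) z * a0 + dd v μ z * aw + dd w μ z * av‖ ^ 2
        ≤ 3 * M ^ 2 * (‖a0‖ ^ 2 + ‖av‖ ^ 2 + ‖aw‖ ^ 2) := by
      have hM0 : 0 ≤ M := (norm_nonneg _).trans (hM 0)
      have t : ‖dd w (dd v μ) z * a0 + dd v μ z * aw + dd w μ z * av‖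
          ≤ M * (‖a0‖ + ‖aw‖ + ‖av‖) := by
        have t0 := norm_add_le (dd w (dd v μ) z * a0 + dd v μ z * aw) (dd w μ z * av)
        have t00 := norm_add_le (dd w (dd v μ) z * a0) (dd v μ z * aw)
        rw [norm_mul] at t0
        rw [norm_mul, norm_mul] at t00
        have t1 := mul_le_mul_of_nonneg_right (hM2 z) (norm_nonneg a0)
        have t2 := mul_le_mul_of_nonneg_right (hM z) (norm_nonneg aw)
        have t3 := mul_le_mul_of_nonneg_right (hM' z) (norm_nonneg av)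
        linarith
      calc _ ≤ (M * (‖a0‖ + ‖aw‖ + ‖av‖)) ^ 2 := by gcongr
        _ = M ^ 2 * (‖a0‖ + ‖aw‖ + ‖av‖) ^ 2 := by ring
        _ ≤ M ^ 2 * (3 * (‖a0‖ ^ 2 + ‖av‖ ^ 2 + ‖aw‖ ^ 2)) := by
            gcongr
            nlinarith [sq_nonneg (‖a0‖ - ‖aw‖), sq_nonneg (‖a0‖ - ‖av‖), sq_nonneg (‖aw‖ - ‖av‖)]
        _ = _ := by ring
    calc (1 + ε) * ‖μ z * avw‖ ^ 2
          + (1 + ε⁻¹) * ‖dd w (dd v μ) z * a0 + dd v μ z * aw + dd w μ z * av‖ ^ 2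
        ≤ (1 + ε) * (k ^ 2 * ‖avw‖ ^ 2)
          + (1 + ε⁻¹) * (3 * M ^ 2 * (‖a0‖ ^ 2 + ‖av‖ ^ 2 + ‖aw‖ ^ 2)) := by gcongr
      _ = _ := by ring
  · rw [integral_add (ivw.const_mul _) (i3.const_mul _), integral_const_mul, integral_const_mul,
      integral_add i2 iw, integral_add i0 iv]
    rw [← A_S h, ← A_S (h.dd v), ← A_S (h.dd w), ← A_S ((h.dd v).dd w)]
    rfl

end estimates

theorem real_W {a0 a1 a2 a3 b0 b1 b2 b3 L C q0 q : ℝ} (n0 : 0 ≤ a0) (n1 : 0 ≤ a1) (n2 : 0 ≤ a2)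
    (n3 : 0 ≤ a3) (hC0 : 0 ≤ C) (hd : 0 < q - q0) (hL1 : 1 ≤ L) (hL3 : 3 * C ≤ L * (q - q0))
    (h0 : b0 ≤ q0 * a0) (h1 : b1 ≤ q0 * a1 + C * a0) (h2 : b2 ≤ q0 * a2 + C * a0)
    (h3 : b3 ≤ q0 * a3 + C * (a0 + a1 + a2)) :
    b3 + L * (b1 + b2) + L ^ 2 * b0 ≤ q * (a3 + L * (a1 + a2) + L ^ 2 * a0) := by
  have hLpos : 0 < L := by linarith
  have c1 : C ≤ L * (q - q0) := by linarith
  have c2 : C + 2 * L * C ≤ L ^ 2 * (q - q0) := by
    have : L ^ 2 * (q - q0) = L * (L * (q - q0)) := by ring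
    rw [this]
    have h5 : L * (3 * C) ≤ L * (L * (q - q0)) := mul_le_mul_of_nonneg_left hL3 hLpos.le
    have h6 : 1 * C ≤ L * C := mul_le_mul_of_nonneg_right hL1 hC0
    linarith
  have d1 := mul_le_mul_of_nonneg_left (add_le_add h1 h2) hLpos.le
  have d0 := mul_le_mul_of_nonneg_left h0 (sq_nonneg L)
  have f1 := mul_le_mul_of_nonneg_right c1 (add_nonneg n1 n2)
  have f2 := mul_le_mul_of_nonneg_right c2 n0
  have f3 : q0 * a3 ≤ q * a3 := mul_le_mul_of_nonneg_right (by linarith) n3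
  linarith

/-- weighted quantity -/
def W (L : ℝ) (u : ℂ → ℂ) : ℝ :=
  A (dd Complex.I (dd 1 u)) + L * (A (dd 1 u) + A (dd Complex.I u)) + L ^ 2 * A u

theorem exists_W {R : ℝ} {μ : ℂ → ℂ} {k : ℝ} (hμ : Tst R μ) (hk : ∀ z, ‖μ z‖ ≤ k) (hk1 : k < 1) :
    ∃ L q : ℝ, 1 ≤ L ∧ 0 < q ∧ q < 1 ∧ ∀ u, Tst R u → W L (T μ u) ≤ q * W L u := by
  have hk0 : 0 ≤ k := (norm_nonneg _).trans (hk 0)
  -- bounds for derivatives
  have hb : ∀ w : ℂ → ℂ, Tst R w → ∃ M, ∀ z, ‖w z‖ ≤ M := by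
    intro w hw
    obtain ⟨M, hM⟩ := hw.cont.bounded_above_of_compact_support hw.compact
    exact ⟨M, hM⟩
  obtain ⟨M1, hM1⟩ := hb _ (hμ.dd 1)
  obtain ⟨M2, hM2⟩ := hb _ (hμ.dd Complex.I)
  obtain ⟨M3, hM3⟩ := hb _ ((hμ.dd 1).dd Complex.I)
  set M := max M1 (max M2 M3) with hM
  have hM1' : ∀ z, ‖dd 1 μ z‖ ≤ M := fun z => (hM1 z).trans (le_max_left _ _)
  have hM2' : ∀ z, ‖dd Complex.I μ z‖ ≤ M :=
    fun z => (hM2 z).trans ((le_max_left _ _).trans (le_max_right _ _))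
  have hM3' : ∀ z, ‖dd Complex.I (dd 1 μ) z‖ ≤ M :=
    fun z => (hM3 z).trans ((le_max_right _ _).trans (le_max_right _ _))
  -- choose ε
  obtain ⟨ε, hε, hεq⟩ : ∃ ε : ℝ, 0 < ε ∧ (1 + ε) * k ^ 2 < 1 := by
    refine ⟨(1 - k ^ 2) / 2, ?_, ?_⟩
    · nlinarith
    · nlinarith [sq_nonneg (k ^ 2 - 1), sq_nonneg k]
  set q0 := (1 + ε) * k ^ 2 with hq0
  set C := 3 * (1 + ε⁻¹) * M ^ 2 with hC
  have hC0 : 0 ≤ C := by positivity
  set q := (1 + q0) / 2 with hq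
  have hq00 : 0 ≤ q0 := by positivity
  have hd : 0 < q - q0 := by rw [hq]; linarith
  set L := 1 + 3 * C / (q - q0) with hL
  have hL1 : 1 ≤ L := by
    have : 0 ≤ 3 * C / (q - q0) := by positivity
    linarith
  have hL3 : 3 * C ≤ L * (q - q0) := by
    have : L * (q - q0) = (q - q0) + 3 * C := by rw [hL]; field_simp
    linarith
  refine ⟨L, q, hL1, by rw [hq]; linarith, by rw [hq]; linarith, fun u hu => ?_⟩
  have a0 := A_T hμ hu hk
  have a1 := A_dd_T hμ hu hk hε 1 hM1'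
  have a2 := A_dd_T hμ hu hk hε Complex.I hM2'
  have a3 := A_dd_dd_T hμ hu hk hε 1 Complex.I hM1' hM2' hM3'
  have n0 := A_nonneg u
  have n1 := A_nonneg (dd 1 u)
  have n2 := A_nonneg (dd Complex.I u)
  have n3 := A_nonneg (dd Complex.I (dd 1 u))
  have hc1 : (1 + ε⁻¹) * M ^ 2 ≤ C := by
    have : 0 ≤ (1 + ε⁻¹) * M ^ 2 := by positivity
    rw [hC]; linarith
  have b0 : A (T μ u) ≤ q0 * A u := by
    refine a0.trans ?_
    apply mul_le_mul_of_nonneg_right _ n0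
    rw [hq0]; nlinarith [sq_nonneg k]
  have b1 : A (dd 1 (T μ u)) ≤ q0 * A (dd 1 u) + C * A u :=
    a1.trans (by have := mul_le_mul_of_nonneg_right hc1 n0; linarith)
  have b2 : A (dd Complex.I (T μ u)) ≤ q0 * A (dd Complex.I u) + C * A u :=
    a2.trans (by have := mul_le_mul_of_nonneg_right hc1 n0; linarith)
  have b3 : A (dd Complex.I (dd 1 (T μ u))) ≤ q0 * A (dd Complex.I (dd 1 u))
      + C * (A u + A (dd 1 u) + A (dd Complex.I u)) := a3
  exact real_W n0 n1 n2 n3 hC0 hd hL1 hL3 b0 b1 b2 b3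

/-- one dimensional: `|g x| ≤ ∫ |g'|` -/
theorem one_dim {g g' : ℝ → ℂ} (hg : ∀ x, HasDerivAt g (g' x) x) (hc : Continuous g') {R : ℝ}
    (h0 : ∀ x, R < |x| → g x = 0) (h0' : ∀ x, R < |x| → g' x = 0) (x : ℝ) :
    ‖g x‖ ≤ ∫ t, ‖g' t‖ := by
  have hi : Integrable g' := by
    apply hc.integrable_of_hasCompactSupport
    apply HasCompactSupport.intro (isCompact_Icc (a := -R) (b := R))
    intro y hy
    apply h0'
    by_contra h
    push Not at h
    exact hy (abs_le.1 h)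
  have hl : Tendsto g atBot (𝓝 0) := by
    apply tendsto_const_nhds.congr'
    filter_upwards [eventually_lt_atBot (-|R|)] with y hy
    refine (h0 y ?_).symm
    have h1 : |R| < |y| := by
      rw [abs_of_neg (a := y) (by linarith [abs_nonneg R])]
      linarith
    exact lt_of_le_of_lt (le_abs_self R) h1
  have h1 := integral_Iic_of_hasDerivAt_of_tendsto' (a := x) (fun y _ => hg y) hi.integrableOn hl
  rw [sub_zero] at h1
  rw [← h1]
  refine (norm_integral_le_integral_norm _).trans ?_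
  exact setIntegral_le_integral hi.norm (Eventually.of_forall fun _ => norm_nonneg _)

/-- `|u| ≤ ∫ |u_xy|` -/
theorem sup_le {R : ℝ} {u : ℂ → ℂ} (h : Tst R u) (z : ℂ) :
    ‖u z‖ ≤ ∫ ζ, ‖dd Complex.I (dd 1 u) ζ‖ := by
  have hx : ∀ (y x : ℝ), HasDerivAt (fun x : ℝ => u (x + y * Complex.I))
      (dd 1 u (x + y * Complex.I)) x := by
    intro y x
    have h2 : HasDerivAt (fun x : ℝ => (x:ℂ) + y * Complex.I) 1 x := by
      simpa using (Complex.ofRealCLM.hasDerivAt (x := x)).add_const ((y:ℂ) * Complex.I)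
    exact (h.diff _).hasFDerivAt.comp_hasDerivAt x h2
  have hy : ∀ (x y : ℝ), HasDerivAt (fun y : ℝ => dd 1 u (x + y * Complex.I))
      (dd Complex.I (dd 1 u) (x + y * Complex.I)) y := by
    intro x y
    have h2 : HasDerivAt (fun y : ℝ => (x:ℂ) + y * Complex.I) Complex.I y := by
      have h3 := ((Complex.ofRealCLM.hasDerivAt (x := y)).mul_const Complex.I).const_add (x:ℂ)
      simpa using h3
    exact ((h.dd 1).diff _).hasFDerivAt.comp_hasDerivAt y h2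
  have hn1 : ∀ x y : ℝ, |x| ≤ ‖(x:ℂ) + y * Complex.I‖ := by
    intro x y
    simpa using Complex.abs_re_le_norm ((x:ℂ) + y * Complex.I)
  have hn2 : ∀ x y : ℝ, |y| ≤ ‖(x:ℂ) + y * Complex.I‖ := by
    intro x y
    simpa using Complex.abs_im_le_norm ((x:ℂ) + y * Complex.I)
  have hD := (h.dd 1)
  have hDD := (hD.dd Complex.I)
  have s1 : ∀ x y : ℝ, ‖u (x + y * Complex.I)‖ ≤ ∫ t : ℝ, ‖dd 1 u (t + y * Complex.I)‖ := by
    intro x y
    exact one_dim (hx y) (hD.cont.comp (by fun_prop))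
      (fun t ht => h.zero _ (lt_of_lt_of_le ht (hn1 t y)))
      (fun t ht => hD.zero _ (lt_of_lt_of_le ht (hn1 t y))) x
  have s2 : ∀ x y : ℝ, ‖dd 1 u (x + y * Complex.I)‖
      ≤ ∫ s : ℝ, ‖dd Complex.I (dd 1 u) (x + s * Complex.I)‖ := by
    intro x y
    exact one_dim (hy x) (hDD.cont.comp (by fun_prop))
      (fun t ht => hD.zero _ (lt_of_lt_of_le ht (hn2 x t)))
      (fun t ht => hDD.zero _ (lt_of_lt_of_le ht (hn2 x t))) y
  have hI : Integrable (fun p : ℝ × ℝ => ‖dd Complex.I (dd 1 u) (p.1 + p.2 * Complex.I)‖) := by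
    apply Continuous.integrable_of_hasCompactSupport
    · exact (hDD.cont.comp (by fun_prop)).norm
    · apply HasCompactSupport.intro ((isCompact_Icc (a := -R) (b := R)).prod
        (isCompact_Icc (a := -R) (b := R)))
      rintro ⟨x, y⟩ hxy
      rw [norm_eq_zero]
      apply hDD.zero
      by_contra hcon
      push Not at hcon
      apply hxy
      exact ⟨abs_le.1 ((hn1 x y).trans hcon), abs_le.1 ((hn2 x y).trans hcon)⟩
  have hz : z = (z.re : ℂ) + z.im * Complex.I := (Complex.re_add_im z).symm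
  have s3 : ‖u z‖ ≤ ∫ t : ℝ, ‖dd 1 u (t + z.im * Complex.I)‖ := by
    conv_lhs => rw [hz]
    exact s1 _ _
  refine s3.trans ?_
  have s4 : ∫ t : ℝ, ‖dd 1 u (t + z.im * Complex.I)‖
      ≤ ∫ t : ℝ, ∫ s : ℝ, ‖dd Complex.I (dd 1 u) (t + s * Complex.I)‖ := by
    apply integral_mono_of_nonneg (Eventually.of_forall fun _ => norm_nonneg _)
    · rw [Measure.volume_eq_prod] at hI
      exact hI.integral_prod_left
    · exact Eventually.of_forall fun t => s2 t _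
  refine s4.trans (le_of_eq ?_)
  rw [Measure.volume_eq_prod] at hI
  rw [← integral_prod _ hI, ← Measure.volume_eq_prod]
  have := Complex.volume_preserving_equiv_real_prod.symm.integral_comp
    Complex.measurableEquivRealProd.symm.measurableEmbedding
    (fun ζ => ‖dd Complex.I (dd 1 u) ζ‖)
  rw [← this]
  congr 1
  ext p
  congr 2
  apply Complex.ext <;> simp

theorem int_le_sq {R : ℝ} {v : ℂ → ℂ} (h : Tst R v) {t : ℝ} (ht : 0 < t) :
    ∫ z, ‖v z‖ ≤ (t * volume.real (closedBall (0:ℂ) R) + t⁻¹ * A v) / 2 := by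
  have h1 : ∫ ζ, ‖v ζ‖ = ∫ ζ in closedBall (0:ℂ) R, ‖v ζ‖ := by
    rw [setIntegral_eq_integral_of_forall_compl_eq_zero]
    intro ζ hζ
    rw [h.zero ζ (by simpa using hζ)]; simp
  rw [h1]
  have hc : IntegrableOn (fun _ : ℂ => t / 2) (closedBall (0:ℂ) R) :=
    integrableOn_const (measure_closedBall_lt_top.ne) (by simp)
  have h2 : ∫ ζ in closedBall (0:ℂ) R, ‖v ζ‖
      ≤ ∫ ζ in closedBall (0:ℂ) R, (t / 2 + t⁻¹ / 2 * ‖v ζ‖ ^ 2) := by
    apply setIntegral_mono h.integrable.norm.integrableOn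
    · exact hc.add ((sq_integrable h).const_mul _).integrableOn
    · intro z
      have h3 : 0 ≤ t⁻¹ * (‖v z‖ - t) ^ 2 := by positivity
      have h4 : t⁻¹ * (‖v z‖ - t) ^ 2 = t⁻¹ * ‖v z‖ ^ 2 - 2 * ‖v z‖ + t := by
        field_simp; ring
      simp only
      linarith
  refine h2.trans ?_
  rw [integral_add hc ((sq_integrable h).const_mul _).integrableOn, setIntegral_const,
    integral_const_mul]
  have h5 : ∫ ζ in closedBall (0:ℂ) R, ‖v ζ‖ ^ 2 ≤ A v :=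
    setIntegral_le_integral (sq_integrable h) (Eventually.of_forall fun _ => by positivity)
  have h6 : t⁻¹ / 2 * ∫ ζ in closedBall (0:ℂ) R, ‖v ζ‖ ^ 2 ≤ t⁻¹ / 2 * A v :=
    mul_le_mul_of_nonneg_left h5 (by positivity)
  rw [smul_eq_mul]
  linarith

/-- **exponential decay of the Neumann iterates in the sup norm** -/
theorem decay_T {R : ℝ} {μ u₀ : ℂ → ℂ} {k : ℝ} (hμ : Tst R μ) (hk : ∀ z, ‖μ z‖ ≤ k) (hk1 : k < 1)
    (hu : Tst R u₀) :
    ∃ C ρ : ℝ, 0 ≤ C ∧ 0 < ρ ∧ ρ < 1 ∧ (∀ n, Tst R ((T μ)^[n] u₀)) ∧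
      ∀ n z, ‖(T μ)^[n] u₀ z‖ ≤ C * ρ ^ n := by
  obtain ⟨L, q, hL1, hq0, hq1, hW⟩ := exists_W hμ hk hk1
  have hT : ∀ n, Tst R ((T μ)^[n] u₀) := by
    intro n
    induction n with
    | zero => exact hu
    | succ n ih => rw [Function.iterate_succ_apply']; exact tst_T hμ ih
  have hWn : ∀ n, W L ((T μ)^[n] u₀) ≤ q ^ n * W L u₀ := by
    intro n
    induction n with
    | zero => simp
    | succ n ih =>
      rw [Function.iterate_succ_apply', pow_succ]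
      calc W L (T μ ((T μ)^[n] u₀)) ≤ q * W L ((T μ)^[n] u₀) := hW _ (hT n)
        _ ≤ q * (q ^ n * W L u₀) := mul_le_mul_of_nonneg_left ih hq0.le
        _ = q ^ n * q * W L u₀ := by ring
  have hW0 : 0 ≤ W L u₀ := by
    unfold W
    have := A_nonneg u₀
    have := A_nonneg (dd 1 u₀)
    have := A_nonneg (dd Complex.I u₀)
    have := A_nonneg (dd Complex.I (dd 1 u₀))
    positivity
  set V := volume.real (closedBall (0:ℂ) R) with hV
  have hV0 : 0 ≤ V := by positivity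
  refine ⟨(V + W L u₀) / 2, √q, by positivity, Real.sqrt_pos.2 hq0, ?_, hT, fun n z => ?_⟩
  · rw [Real.sqrt_lt' one_pos]; simpa using hq1
  · have h1 := sup_le (hT n) z
    have ht : 0 < √q ^ n := pow_pos (Real.sqrt_pos.2 hq0) n
    have h2 := int_le_sq (((hT n).dd 1).dd Complex.I) ht
    have h3 : A (dd Complex.I (dd 1 ((T μ)^[n] u₀))) ≤ W L ((T μ)^[n] u₀) := by
      unfold W
      have := A_nonneg ((T μ)^[n] u₀)
      have := A_nonneg (dd 1 ((T μ)^[n] u₀))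
      have := A_nonneg (dd Complex.I ((T μ)^[n] u₀))
      have : 0 ≤ L * (A (dd 1 ((T μ)^[n] u₀)) + A (dd Complex.I ((T μ)^[n] u₀)))
        + L ^ 2 * A ((T μ)^[n] u₀) := by positivity
      linarith
    have h4 := h3.trans (hWn n)
    have h5 : (√q ^ n)⁻¹ * A (dd Complex.I (dd 1 ((T μ)^[n] u₀)))
        ≤ √q ^ n * W L u₀ := by
      calc _ ≤ (√q ^ n)⁻¹ * (q ^ n * W L u₀) := mul_le_mul_of_nonneg_left h4 (by positivity)
        _ = √q ^ n * W L u₀ := by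
          have : q ^ n = √q ^ n * √q ^ n := by rw [← mul_pow, Real.mul_self_sqrt hq0.le]
          rw [this]; field_simp
    calc ‖(T μ)^[n] u₀ z‖ ≤ _ := h1
      _ ≤ _ := h2
      _ ≤ (√q ^ n * V + √q ^ n * W L u₀) / 2 := by linarith
      _ = _ := by ring

end

end Crest.Agent.R096.BelC_205
end

-- ▼ part R096/BelD_205

/-!
Row 96, P5 / C3-BEL: the approximate solutions `F n s` of the Beltrami equation with coefficient
`s μ`, smooth, polynomial in `s` up to an exponential.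
-/

open Set Metric MeasureTheory Filter Topology
open scoped ContDiff NNReal Real ComplexConjugate
open Crest.Agent.R096.BelA_205 Crest.Agent.R096.BelB_205 Crest.Agent.R096.BelC_205
open Crest.Agent.R096.BelDefs_205

namespace Crest.Agent.R096.BelD_205

noncomputable section

/-! ### Linear algebra -/

theorem det_eq (L : ℂ →L[ℝ] ℂ) :
    L.det = ‖(L 1 - Complex.I * L Complex.I) / 2‖ ^ 2
      - ‖(L 1 + Complex.I * L Complex.I) / 2‖ ^ 2 := by
  have h1 : L.det = (L 1).re * (L Complex.I).im - (L Complex.I).re * (L 1).im := by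
    unfold ContinuousLinearMap.det
    rw [← LinearMap.det_toMatrix Complex.basisOneI, Matrix.det_fin_two]
    simp [LinearMap.toMatrix_apply]
  rw [h1]
  simp only [norm_div, div_pow, ← Complex.normSq_eq_norm_sq]
  simp only [Complex.normSq_apply, Complex.sub_re, Complex.sub_im, Complex.add_re, Complex.add_im,
    Complex.mul_re, Complex.mul_im, Complex.I_re, Complex.I_im]
  norm_num
  ring

theorem det_fderiv (f : ℂ → ℂ) (z : ℂ) :
    (fderiv ℝ f z).det = ‖dz f z‖ ^ 2 - ‖dzb f z‖ ^ 2 := det_eq _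

/-- the real linear map `v ↦ a v + b conj v` -/
def LL (a b : ℂ) : ℂ →L[ℝ] ℂ :=
  a • (ContinuousLinearMap.id ℝ ℂ) + b • (Complex.conjCLE : ℂ →L[ℝ] ℂ)

theorem LL_apply (a b v : ℂ) : LL a b v = a * v + b * conj v := rfl

theorem norm_LL_le (a b : ℂ) : ‖LL a b‖ ≤ ‖a‖ + ‖b‖ := by
  apply ContinuousLinearMap.opNorm_le_bound _ (by positivity)
  intro v
  rw [LL_apply]
  refine (norm_add_le _ _).trans ?_
  rw [norm_mul, norm_mul, Complex.norm_conj]
  linarith [add_mul ‖a‖ ‖b‖ ‖v‖]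

theorem LL_sub (a b a' b' : ℂ) : LL a b - LL a' b' = LL (a - a') (b - b') := by
  ext v
  simp only [ContinuousLinearMap.sub_apply, LL_apply]
  ring

theorem eq_LL (L : ℂ →L[ℝ] ℂ) (v : ℂ) :
    L v = (L 1 - Complex.I * L Complex.I) / 2 * v + (L 1 + Complex.I * L Complex.I) / 2 * conj v := by
  have hv : v = v.re • (1:ℂ) + v.im • Complex.I := by
    simp [Complex.real_smul]
  have h1 : L v = v.re * L 1 + v.im * L Complex.I := by
    conv_lhs => rw [hv, map_add, map_smul, map_smul]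
    rw [Complex.real_smul, Complex.real_smul]
  have hc : conj v = v.re - v.im * Complex.I := by
    apply Complex.ext <;> simp
  have hv' : v = v.re + v.im * Complex.I := (Complex.re_add_im v).symm
  rw [h1, hc]
  generalize (v.re : ℂ) = x at *
  generalize (v.im : ℂ) = y at *
  rw [hv']
  linear_combination (y * L Complex.I) * Complex.I_sq

theorem fderiv_eq_LL (f : ℂ → ℂ) (z : ℂ) : fderiv ℝ f z = LL (dz f z) (dzb f z) := by
  ext v
  rw [LL_apply]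
  exact eq_LL _ _

/-! ### Calculus of `dz` -/

theorem contDiff_dz {u : ℂ → ℂ} (h : ContDiff ℝ ∞ u) : ContDiff ℝ ∞ (dz u) := by
  unfold dz
  exact ((contDiff_dd h 1).sub (contDiff_const.mul (contDiff_dd h Complex.I))).div_const _

theorem contDiff_dzb {u : ℂ → ℂ} (h : ContDiff ℝ ∞ u) : ContDiff ℝ ∞ (dzb u) := by
  unfold dzb
  exact ((contDiff_dd h 1).add (contDiff_const.mul (contDiff_dd h Complex.I))).div_const _

theorem dz_mul {a b : ℂ → ℂ} (ha : Differentiable ℝ a) (hb : Differentiable ℝ b) (z : ℂ) :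
    dz (fun z => a z * b z) z = dz a z * b z + a z * dz b z := by
  unfold dz
  rw [dd_mul ha hb, dd_mul ha hb]; ring

theorem dd_exp {a : ℂ → ℂ} (ha : Differentiable ℝ a) (v z : ℂ) :
    dd v (fun z => Complex.exp (a z)) z = Complex.exp (a z) * dd v a z := by
  unfold dd
  rw [((ha z).hasFDerivAt.cexp).fderiv]
  rfl

theorem dz_exp {a : ℂ → ℂ} (ha : Differentiable ℝ a) (z : ℂ) :
    dz (fun z => Complex.exp (a z)) z = Complex.exp (a z) * dz a z := by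
  unfold dz
  rw [dd_exp ha, dd_exp ha]; ring

theorem dzb_exp {a : ℂ → ℂ} (ha : Differentiable ℝ a) (z : ℂ) :
    dzb (fun z => Complex.exp (a z)) z = Complex.exp (a z) * dzb a z := by
  unfold dzb
  rw [dd_exp ha, dd_exp ha]; ring

theorem dd_id_add {a : ℂ → ℂ} (ha : Differentiable ℝ a) (v z : ℂ) :
    dd v (fun z => z + a z) z = v + dd v a z := by
  unfold dd
  rw [fderiv_fun_add differentiableAt_fun_id (ha z)]
  simp

theorem dz_id_add {a : ℂ → ℂ} (ha : Differentiable ℝ a) (z : ℂ) :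
    dz (fun z => z + a z) z = 1 + dz a z := by
  unfold dz
  rw [dd_id_add ha, dd_id_add ha]
  linear_combination (-(1/2:ℂ)) * Complex.I_sq

theorem dzb_id_add {a : ℂ → ℂ} (ha : Differentiable ℝ a) (z : ℂ) :
    dzb (fun z => z + a z) z = dzb a z := by
  unfold dzb
  rw [dd_id_add ha, dd_id_add ha]
  linear_combination ((1/2:ℂ)) * Complex.I_sq

theorem dd_sub {a b : ℂ → ℂ} (ha : Differentiable ℝ a) (hb : Differentiable ℝ b) (v z : ℂ) :
    dd v (fun z => a z - b z) z = dd v a z - dd v b z := by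
  unfold dd
  rw [fderiv_fun_sub (ha z) (hb z)]; simp

theorem dz_sub {a b : ℂ → ℂ} (ha : Differentiable ℝ a) (hb : Differentiable ℝ b) (z : ℂ) :
    dz (fun z => a z - b z) z = dz a z - dz b z := by
  unfold dz
  rw [dd_sub ha hb, dd_sub ha hb]; ring

theorem dzb_sub {a b : ℂ → ℂ} (ha : Differentiable ℝ a) (hb : Differentiable ℝ b) (z : ℂ) :
    dzb (fun z => a z - b z) z = dzb a z - dzb b z := by
  unfold dzb
  rw [dd_sub ha hb, dd_sub ha hb]; ring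

theorem dd_const_mul {a : ℂ → ℂ} (ha : Differentiable ℝ a) (c v z : ℂ) :
    dd v (fun z => c * a z) z = c * dd v a z := by
  unfold dd
  rw [fderiv_const_mul (ha z)]; rfl

theorem dz_const_mul {a : ℂ → ℂ} (ha : Differentiable ℝ a) (c z : ℂ) :
    dz (fun z => c * a z) z = c * dz a z := by
  unfold dz
  rw [dd_const_mul ha, dd_const_mul ha]; ring

theorem dz_add {a b : ℂ → ℂ} (ha : Differentiable ℝ a) (hb : Differentiable ℝ b) (z : ℂ) :
    dz (fun z => a z + b z) z = dz a z + dz b z := by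
  unfold dz
  rw [dd_add ha hb, dd_add ha hb]; ring

theorem dz_zero (z : ℂ) : dz (fun _ => 0) z = 0 := by
  simp [dz, dd]

theorem P_zero (z : ℂ) : P (fun _ => 0) z = 0 := by simp [P]

/-! ### The series -/

section series

variable (μ : ℂ → ℂ)

/-- Neumann iterates -/
def δ (n : ℕ) : ℂ → ℂ := (T μ)^[n] (dz μ)

/-- partial sums -/
def κ (n : ℕ) (s : ℝ) (z : ℂ) : ℂ := ∑ j ∈ Finset.range n, (s:ℂ) ^ (j + 1) * δ μ j z

/-- `σ = P κ` -/
def σ (n : ℕ) (s : ℝ) : ℂ → ℂ := P (κ μ n s)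

/-- `ν = s μ e^σ` -/
def ν (n : ℕ) (s : ℝ) (z : ℂ) : ℂ := s * (μ z * Complex.exp (σ μ n s z))

/-- the map -/
def F (n : ℕ) (s : ℝ) (z : ℂ) : ℂ := z + P (ν μ n s) z

end series

section

variable {μ : ℂ → ℂ} {R : ℝ} (hμ : Tst R μ)

include hμ

theorem tst_δ (n : ℕ) : Tst R (δ μ n) := by
  induction n with
  | zero => exact hμ.dz
  | succ n ih =>
    unfold δ at *
    rw [Function.iterate_succ_apply']
    exact tst_T hμ ih

omit hμ in
theorem κ_succ (n : ℕ) (s : ℝ) : κ μ (n + 1) s = fun z => κ μ n s z + (s:ℂ) ^ (n + 1) * δ μ n z := by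
  ext z
  simp [κ, Finset.sum_range_succ]

theorem tst_κ (n : ℕ) (s : ℝ) : Tst R (κ μ n s) := by
  induction n with
  | zero =>
    have : κ μ 0 s = fun _ => 0 := by ext z; simp [κ]
    rw [this]
    exact ⟨contDiff_const, fun _ _ => rfl⟩
  | succ n ih =>
    rw [κ_succ]
    exact ih.add ((tst_δ hμ n).const_mul _)

theorem σ_eq (n : ℕ) (s : ℝ) (z : ℂ) :
    σ μ n s z = ∑ j ∈ Finset.range n, (s:ℂ) ^ (j + 1) * P (δ μ j) z := by
  induction n with
  | zero =>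
    have : κ μ 0 s = fun _ => 0 := by ext z; simp [κ]
    simp [σ, this, P_zero]
  | succ n ih =>
    unfold σ at *
    rw [κ_succ, P_add (tst_κ hμ n s) ((tst_δ hμ n).const_mul _), ih, P_const_mul,
      Finset.sum_range_succ]

theorem S_κ (n : ℕ) (s : ℝ) (z : ℂ) :
    dz (σ μ n s) z = ∑ j ∈ Finset.range n, (s:ℂ) ^ (j + 1) * dz (P (δ μ j)) z := by
  induction n with
  | zero =>
    have : σ μ 0 s = fun _ => 0 := by ext z; simp [σ_eq hμ]
    rw [this, dz_zero]; simp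
  | succ n ih =>
    have h1 : σ μ (n + 1) s = fun z => σ μ n s z + (s:ℂ) ^ (n + 1) * P (δ μ n) z := by
      ext z
      rw [σ_eq hμ, σ_eq hμ, Finset.sum_range_succ]
    have hd1 : Differentiable ℝ (σ μ n s) := (P_smooth (tst_κ hμ n s)).differentiable (by simp)
    have hd2 : Differentiable ℝ (P (δ μ n)) := (P_smooth (tst_δ hμ n)).differentiable (by simp)
    rw [h1, dz_add hd1 (hd2.const_mul _), dz_const_mul hd2, ih, Finset.sum_range_succ]

theorem smooth_σ (n : ℕ) (s : ℝ) : ContDiff ℝ ∞ (σ μ n s) := P_smooth (tst_κ hμ n s)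

theorem tst_ν (n : ℕ) (s : ℝ) : Tst R (ν μ n s) := by
  unfold ν
  exact (hμ.mul (smooth_σ hμ n s).cexp).const_mul _

theorem smooth_F (n : ℕ) (s : ℝ) : ContDiff ℝ ∞ (F μ n s) :=
  contDiff_id.add (P_smooth (tst_ν hμ n s))

theorem dzb_F (n : ℕ) (s : ℝ) (z : ℂ) : dzb (F μ n s) z = ν μ n s z := by
  have hd : Differentiable ℝ (P (ν μ n s)) := (P_smooth (tst_ν hμ n s)).differentiable (by simp)
  unfold F
  rw [dzb_id_add hd, dzb_P (tst_ν hμ n s)]

theorem dz_F (n : ℕ) (s : ℝ) (z : ℂ) : dz (F μ n s) z = 1 + P (dz (ν μ n s)) z := by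
  have hd : Differentiable ℝ (P (ν μ n s)) := (P_smooth (tst_ν hμ n s)).differentiable (by simp)
  unfold F
  rw [dz_id_add hd, dz_P (tst_ν hμ n s)]

/-- the key identity -/
theorem dz_ν (n : ℕ) (s : ℝ) (z : ℂ) :
    dz (ν μ n s) z = Complex.exp (σ μ n s z) * (κ μ n s z + (s:ℂ) ^ (n + 1) * δ μ n z) := by
  have hσ : Differentiable ℝ (σ μ n s) := (smooth_σ hμ n s).differentiable (by simp)
  have h1 : dz (ν μ n s) z = s * (dz μ z * Complex.exp (σ μ n s z)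
      + μ z * (Complex.exp (σ μ n s z) * dz (σ μ n s) z)) := by
    have hd : Differentiable ℝ (fun z => μ z * Complex.exp (σ μ n s z)) := hμ.diff.mul hσ.cexp
    unfold ν
    rw [dz_const_mul hd, dz_mul hμ.diff hσ.cexp, dz_exp hσ]
  have h2 : (s:ℂ) * (dz μ z + μ z * dz (σ μ n s) z)
      = κ μ n s z + (s:ℂ) ^ (n + 1) * δ μ n z := by
    have h3 : κ μ n s z + (s:ℂ) ^ (n + 1) * δ μ n z = κ μ (n + 1) s z := by rw [κ_succ]
    rw [h3, S_κ hμ]
    unfold κ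
    rw [Finset.sum_range_succ', Finset.mul_sum, mul_add, Finset.mul_sum, add_comm]
    congr 1
    · apply Finset.sum_congr rfl
      intro j _
      have : δ μ (j + 1) z = μ z * dz (P (δ μ j)) z := by
        unfold δ
        rw [Function.iterate_succ_apply']
        rfl
      rw [this]; ring
    · simp [δ]
  rw [h1, ← h2]; ring

/-- `∂F = e^σ + P τ` -/
theorem dz_F_eq (n : ℕ) (s : ℝ) (z : ℂ) :
    dz (F μ n s) z = Complex.exp (σ μ n s z)
      + P (fun z => (s:ℂ) ^ (n + 1) * δ μ n z * Complex.exp (σ μ n s z)) z := by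
  have hσs := smooth_σ hμ n s
  have hσ : Differentiable ℝ (σ μ n s) := hσs.differentiable (by simp)
  have hτ : Tst R (fun z => (s:ℂ) ^ (n + 1) * δ μ n z * Complex.exp (σ μ n s z)) :=
    ((tst_δ hμ n).const_mul _).mul hσs.cexp
  have hν := tst_ν hμ n s
  have hPd : Differentiable ℝ (P (dz (ν μ n s))) := (P_smooth hν.dz).differentiable (by simp)
  have key := eq_P (w := fun z => P (dz (ν μ n s)) z - (Complex.exp (σ μ n s z) - 1))
    (hPd.sub (hσ.cexp.sub_const 1)) hτ (by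
      intro z
      rw [dzb_sub hPd (hσ.cexp.sub_const 1), dzb_P hν.dz]
      have e1 : dzb (fun z => Complex.exp (σ μ n s z) - 1) z
          = dzb (fun z => Complex.exp (σ μ n s z)) z := by
        unfold dzb dd
        rw [fderiv_sub_const]
      rw [e1, dzb_exp hσ, dz_ν hμ]
      have e2 : dzb (σ μ n s) z = κ μ n s z := congrFun (dzb_P (tst_κ hμ n s)) z
      rw [e2]; ring) (by
      have t1 := P_tendsto hν.dz
      have t2 : Tendsto (fun z => Complex.exp (σ μ n s z)) (cocompact ℂ) (𝓝 1) := by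
        have := (Complex.continuous_exp.tendsto 0).comp (P_tendsto (tst_κ hμ n s))
        rw [Complex.exp_zero] at this
        exact this
      have := t1.sub (t2.sub_const 1)
      simpa using this) z
  rw [dz_F hμ, ← key]; ring

end

/-! ### Bounds -/

/-- uniform bounds -/
structure Bd (R : ℝ) (μ : ℂ → ℂ) (k C ρ : ℝ) : Prop where
  tst : Tst R μ
  hk : ∀ z, ‖μ z‖ ≤ k
  hk1 : k < 1
  hC : 0 ≤ C
  hρ0 : 0 < ρ
  hρ1 : ρ < 1
  hδ : ∀ n z, ‖δ μ n z‖ ≤ C * ρ ^ n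

theorem exists_Bd {R : ℝ} {μ : ℂ → ℂ} {k : ℝ} (hμ : Tst R μ) (hk : ∀ z, ‖μ z‖ ≤ k) (hk1 : k < 1) :
    ∃ C ρ, Bd R μ k C ρ := by
  obtain ⟨C, ρ, hC, hρ0, hρ1, -, h⟩ := decay_T hμ hk hk1 hμ.dz
  exact ⟨C, ρ, hμ, hk, hk1, hC, hρ0, hρ1, h⟩

namespace Bd

variable {R : ℝ} {μ : ℂ → ℂ} {k C ρ : ℝ} (h : Bd R μ k C ρ)

/-- bound for `σ` -/
def Sg (R C ρ : ℝ) : ℝ := CP R * (C * (1 - ρ)⁻¹)

include h

theorem k_nonneg : 0 ≤ k := (norm_nonneg _).trans (h.hk 0)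

theorem sum_le (n : ℕ) : ∑ j ∈ Finset.range n, C * ρ ^ j ≤ C * (1 - ρ)⁻¹ := by
  rw [← Finset.mul_sum]
  apply mul_le_mul_of_nonneg_left _ h.hC
  rw [← tsum_geometric_of_lt_one h.hρ0.le h.hρ1]
  exact (summable_geometric_of_lt_one h.hρ0.le h.hρ1).sum_le_tsum _
    (fun i _ => pow_nonneg h.hρ0.le i)

theorem κ_le (n : ℕ) {s : ℝ} (hs : s ∈ Icc (0:ℝ) 1) (z : ℂ) : ‖κ μ n s z‖ ≤ C * (1 - ρ)⁻¹ := by
  unfold κ
  refine (norm_sum_le _ _).trans (le_trans (Finset.sum_le_sum fun j _ => ?_) (h.sum_le n))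
  rw [norm_mul, norm_pow, Complex.norm_real, Real.norm_of_nonneg hs.1]
  have h1 : s ^ (j + 1) ≤ 1 := pow_le_one₀ hs.1 hs.2
  have h2 := h.hδ j z
  calc s ^ (j + 1) * ‖δ μ j z‖ ≤ 1 * ‖δ μ j z‖ :=
        mul_le_mul_of_nonneg_right h1 (norm_nonneg _)
    _ ≤ C * ρ ^ j := by rw [one_mul]; exact h2

theorem σ_le (n : ℕ) {s : ℝ} (hs : s ∈ Icc (0:ℝ) 1) (z : ℂ) : ‖σ μ n s z‖ ≤ Sg R C ρ :=
  P_sup (tst_κ h.tst n s) (fun z => h.κ_le n hs z) z

theorem exp_le (n : ℕ) {s : ℝ} (hs : s ∈ Icc (0:ℝ) 1) (z : ℂ) :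
    ‖Complex.exp (σ μ n s z)‖ ≤ Real.exp (Sg R C ρ) := by
  rw [Complex.norm_exp]
  apply Real.exp_le_exp.2
  exact (Complex.re_le_norm _).trans (h.σ_le n hs z)

theorem le_exp (n : ℕ) {s : ℝ} (hs : s ∈ Icc (0:ℝ) 1) (z : ℂ) :
    Real.exp (-Sg R C ρ) ≤ ‖Complex.exp (σ μ n s z)‖ := by
  rw [Complex.norm_exp]
  apply Real.exp_le_exp.2
  have := (Complex.abs_re_le_norm (σ μ n s z)).trans (h.σ_le n hs z)
  exact (abs_le.1 this).1

/-- the remainder `g = ∂F - e^σ` -/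
theorem g_le (n : ℕ) {s : ℝ} (hs : s ∈ Icc (0:ℝ) 1) (z : ℂ) :
    ‖dz (F μ n s) z - Complex.exp (σ μ n s z)‖
      ≤ CP R * (C * ρ ^ n * Real.exp (Sg R C ρ)) := by
  rw [dz_F_eq h.tst, add_sub_cancel_left]
  apply P_sup (((tst_δ h.tst n).const_mul _).mul (smooth_σ h.tst n s).cexp)
  intro z
  rw [norm_mul, norm_mul, norm_pow, Complex.norm_real, Real.norm_of_nonneg hs.1]
  have h1 : s ^ (n + 1) ≤ 1 := pow_le_one₀ hs.1 hs.2
  have h2 := h.hδ n z
  have h3 := h.exp_le n hs z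
  have h4 : s ^ (n + 1) * ‖δ μ n z‖ ≤ C * ρ ^ n := by
    calc s ^ (n + 1) * ‖δ μ n z‖ ≤ 1 * ‖δ μ n z‖ :=
        mul_le_mul_of_nonneg_right h1 (norm_nonneg _)
      _ ≤ C * ρ ^ n := by rw [one_mul]; exact h2
  exact mul_le_mul h4 h3 (norm_nonneg _) (mul_nonneg h.hC (pow_nonneg h.hρ0.le n))

theorem g_tendsto : Tendsto (fun n : ℕ => CP R * (C * ρ ^ n * Real.exp (Sg R C ρ))) atTop
    (𝓝 0) := by
  have h1 := tendsto_pow_atTop_nhds_zero_of_lt_one h.hρ0.le h.hρ1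
  have h2 := ((h1.const_mul C).mul_const (Real.exp (Sg R C ρ))).const_mul (CP R)
  simpa using h2

theorem det_pos {n : ℕ} (hn : CP R * (C * ρ ^ n * Real.exp (Sg R C ρ))
    < (1 - k) * Real.exp (-Sg R C ρ)) {s : ℝ} (hs : s ∈ Icc (0:ℝ) 1) (z : ℂ) :
    0 < (fderiv ℝ (F μ n s) z).det := by
  rw [det_fderiv, dzb_F h.tst]
  have h1 := h.g_le n hs z
  have h2 := h.le_exp n hs z
  have h3 : ‖ν μ n s z‖ ≤ k * ‖Complex.exp (σ μ n s z)‖ := by
    unfold ν
    rw [norm_mul, norm_mul, Complex.norm_real, Real.norm_of_nonneg hs.1]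
    have := mul_le_mul_of_nonneg_right (h.hk z) (norm_nonneg (Complex.exp (σ μ n s z)))
    calc s * (‖μ z‖ * ‖Complex.exp (σ μ n s z)‖)
        ≤ 1 * (‖μ z‖ * ‖Complex.exp (σ μ n s z)‖) := by
          apply mul_le_mul_of_nonneg_right hs.2 (by positivity)
      _ ≤ _ := by rw [one_mul]; exact this
  have h4 : ‖Complex.exp (σ μ n s z)‖ - ‖dz (F μ n s) z - Complex.exp (σ μ n s z)‖
      ≤ ‖dz (F μ n s) z‖ := by
    have h5 := norm_sub_norm_le (Complex.exp (σ μ n s z)) (dz (F μ n s) z)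
    rw [norm_sub_rev (dz (F μ n s) z)]
    linarith
  have h6 : (1 - k) * Real.exp (-Sg R C ρ) ≤ (1 - k) * ‖Complex.exp (σ μ n s z)‖ :=
    mul_le_mul_of_nonneg_left h2 (by linarith [h.hk1])
  have h7 : ‖ν μ n s z‖ < ‖dz (F μ n s) z‖ := by nlinarith
  have h8 := norm_nonneg (ν μ n s z)
  nlinarith

end Bd

end

end Crest.Agent.R096.BelD_205
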