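import Mathlib
import Crest.Agent.R096.Mo4_119

-- ▼ part R096/Vx1_270
section

/-!
# Slow radial interpolation of a conic family of bi-Lipschitz homeomorphisms (row 96, P5-VERTEX)

`Gauge E` : a positively homogeneous, `1`-Lipschitz function `N` with `‖x‖ ≤ 2 * N x`.
`Fam E` : a family `K t` of positively homogeneous bi-Lipschitz homeomorphisms of a normed space,
Lipschitz in `t`, with inverses `J t`.  For `τ : ℝ → ℝ` slowly varying the map
`x ↦ K (τ (log (N x))) x` is a bi-Lipschitz homeomorphism with constants that do not depend on `τ`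
(only on a bound of its slope).
-/

namespace Crest.Agent.R096.Vx_270

open Set Metric Filter Topology

variable {E : Type*} [NormedAddCommGroup E] [NormedSpace ℝ E]

/-- A gauge: positively homogeneous, `1`-Lipschitz and comparable to the norm. -/
structure Gauge (E : Type*) [NormedAddCommGroup E] [NormedSpace ℝ E] where
  N : E → ℝ
  hom : ∀ (c : ℝ) x, 0 < c → N (c • x) = c * N x
  lip : ∀ x y, |N x - N y| ≤ ‖x - y‖
  low : ∀ x, ‖x‖ ≤ 2 * N x

namespace Gauge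

variable (G : Gauge E)

lemma zero : G.N 0 = 0 := by
  have h := G.hom 2 0 two_pos
  rw [smul_zero] at h
  linarith

lemma le_norm (x : E) : G.N x ≤ ‖x‖ := by
  have h := G.lip x 0
  rw [G.zero, sub_zero, sub_zero] at h
  exact (le_abs_self _).trans h

lemma nonneg (x : E) : 0 ≤ G.N x := by
  have := G.low x
  linarith [norm_nonneg x]

lemma pos {x : E} (hx : x ≠ 0) : 0 < G.N x := by
  have := G.low x
  linarith [norm_pos_iff.2 hx]

lemma continuous : Continuous G.N :=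
  (LipschitzWith.of_dist_le_mul (K := 1) fun x y => by
    rw [Real.dist_eq, dist_eq_norm, NNReal.coe_one, one_mul]; exact G.lip x y).continuous

/-- the norm as a gauge -/
@[simps] def ofNorm (E : Type*) [NormedAddCommGroup E] [NormedSpace ℝ E] : Gauge E where
  N x := ‖x‖
  hom c x hc := by rw [norm_smul, Real.norm_eq_abs, abs_of_pos hc]
  lip x y := abs_norm_sub_norm_le x y
  low x := by linarith [norm_nonneg x]

end Gauge

/-- A Lipschitz family of positively homogeneous bi-Lipschitz homeomorphisms. -/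
structure Fam (E : Type*) [NormedAddCommGroup E] [NormedSpace ℝ E] where
  K : ℝ → E → E
  J : ℝ → E → E
  M : ℝ
  hM : 1 ≤ M
  hom : ∀ t (c : ℝ) x, 0 < c → K t (c • x) = c • K t x
  JK : ∀ t x, J t (K t x) = x
  KJ : ∀ t x, K t (J t x) = x
  lipK : ∀ t x y, ‖K t x - K t y‖ ≤ M * ‖x - y‖
  lipJ : ∀ t x y, ‖J t x - J t y‖ ≤ M * ‖x - y‖
  lipt : ∀ s t x, ‖K s x - K t x‖ ≤ M * |s - t| * ‖x‖
  G : Gauge E

namespace Fam

variable (F : Fam E)

lemma M_pos : 0 < F.M := lt_of_lt_of_le one_pos F.hM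

lemma K_zero (t : ℝ) : F.K t 0 = 0 := by
  have h := F.hom t 2 0 two_pos
  rw [smul_zero, two_smul] at h
  have h2 : F.K t 0 + 0 = F.K t 0 + F.K t 0 := by rw [add_zero]; exact h
  exact (add_left_cancel h2).symm

lemma J_zero (t : ℝ) : F.J t 0 = 0 := by
  have := F.JK t 0
  rwa [F.K_zero] at this

lemma homJ (t : ℝ) (c : ℝ) (x : E) (hc : 0 < c) : F.J t (c • x) = c • F.J t x := by
  have h : F.K t (c • F.J t x) = c • x := by rw [F.hom t c _ hc, F.KJ]
  rw [← h, F.JK]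

lemma norm_K_le (t : ℝ) (x : E) : ‖F.K t x‖ ≤ F.M * ‖x‖ := by
  have := F.lipK t x 0
  simpa [F.K_zero] using this

lemma norm_J_le (t : ℝ) (x : E) : ‖F.J t x‖ ≤ F.M * ‖x‖ := by
  have := F.lipJ t x 0
  simpa [F.J_zero] using this

lemma le_norm_J (t : ℝ) (x : E) : ‖x‖ / F.M ≤ ‖F.J t x‖ := by
  have h := F.norm_K_le t (F.J t x)
  rw [F.KJ] at h
  rw [div_le_iff₀ F.M_pos]
  linarith [mul_comm F.M ‖F.J t x‖]

lemma le_norm_K (t : ℝ) (x : E) : ‖x‖ / F.M ≤ ‖F.K t x‖ := by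
  have h := F.norm_J_le t (F.K t x)
  rw [F.JK] at h
  rw [div_le_iff₀ F.M_pos]
  linarith [mul_comm F.M ‖F.K t x‖]

lemma J_ne {t : ℝ} {y : E} (hy : y ≠ 0) : F.J t y ≠ 0 := by
  intro h
  apply hy
  have := F.KJ t y
  rw [h, F.K_zero] at this
  exact this.symm

lemma lipJt (s t : ℝ) (y : E) : ‖F.J s y - F.J t y‖ ≤ F.M ^ 3 * |s - t| * ‖y‖ := by
  have h1 : F.J t y = F.J s (F.K s (F.J t y)) := (F.JK s _).symm
  have h2 : ‖F.J s y - F.J t y‖ ≤ F.M * ‖y - F.K s (F.J t y)‖ := by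
    conv_lhs => rw [h1]
    exact F.lipJ s _ _
  have h3 : ‖y - F.K s (F.J t y)‖ ≤ F.M * |s - t| * ‖F.J t y‖ := by
    have := F.lipt t s (F.J t y)
    rw [F.KJ] at this
    rwa [abs_sub_comm] at this
  have h4 := F.norm_J_le t y
  have hM := F.M_pos
  have h5 : F.M * |s - t| * ‖F.J t y‖ ≤ F.M * |s - t| * (F.M * ‖y‖) :=
    mul_le_mul_of_nonneg_left h4 (by positivity)
  calc ‖F.J s y - F.J t y‖ ≤ F.M * ‖y - F.K s (F.J t y)‖ := h2
    _ ≤ F.M * (F.M * |s - t| * (F.M * ‖y‖)) :=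
        mul_le_mul_of_nonneg_left (h3.trans h5) hM.le
    _ = F.M ^ 3 * |s - t| * ‖y‖ := by ring

end Fam

/-- elementary: `|log a - log b| ≤ |a - b| / min a b`. -/
lemma abs_log_sub_le {a b m : ℝ} (hm : 0 < m) (ha : m ≤ a) (hb : m ≤ b) :
    |Real.log a - Real.log b| ≤ |a - b| / m := by
  wlog hab : b ≤ a generalizing a b with H
  · have := H hb ha (le_of_not_ge hab)
    rwa [abs_sub_comm, abs_sub_comm b a] at this
  have hb0 : 0 < b := lt_of_lt_of_le hm hb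
  have ha0 : 0 < a := lt_of_lt_of_le hm ha
  have h1 : 0 ≤ Real.log a - Real.log b := sub_nonneg.2 (Real.log_le_log hb0 hab)
  rw [abs_of_nonneg h1, abs_of_nonneg (sub_nonneg.2 hab)]
  rw [← Real.log_div ha0.ne' hb0.ne']
  have h2 : Real.log (a / b) ≤ a / b - 1 := Real.log_le_sub_one_of_pos (div_pos ha0 hb0)
  have h3 : a / b - 1 = (a - b) / b := by field_simp
  have h4 : (a - b) / b ≤ (a - b) / m :=
    div_le_div_of_nonneg_left (sub_nonneg.2 hab) hm hb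
  linarith

/-- A slowly varying parameter. -/
structure Slow (τ : ℝ → ℝ) (ε : ℝ) : Prop where
  nonneg : 0 ≤ ε
  lip : ∀ a b, |τ a - τ b| ≤ ε * |a - b|

namespace Fam

variable (F : Fam E)

/-- the parameter at a point -/
noncomputable def par (τ : ℝ → ℝ) (x : E) : ℝ := τ (Real.log (F.G.N x))

/-- the interpolated map -/
noncomputable def phi (τ : ℝ → ℝ) (x : E) : E := F.K (F.par τ x) x

lemma par_sub_le {τ : ℝ → ℝ} {ε : ℝ} (hτ : Slow τ ε) {x y : E} {m : ℝ} (hm : 0 < m)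
    (hx : m ≤ ‖x‖) (hy : m ≤ ‖y‖) : |F.par τ x - F.par τ y| ≤ 2 * ε * (‖x - y‖ / m) := by
  have h1 : m / 2 ≤ F.G.N x := by linarith [F.G.low x]
  have h2 : m / 2 ≤ F.G.N y := by linarith [F.G.low y]
  have h3 : |Real.log (F.G.N x) - Real.log (F.G.N y)| ≤ ‖x - y‖ / (m / 2) :=
    (abs_log_sub_le (half_pos hm) h1 h2).trans
      (div_le_div_of_nonneg_right (F.G.lip x y) (half_pos hm).le)
  calc |F.par τ x - F.par τ y| ≤ ε * |Real.log (F.G.N x) - Real.log (F.G.N y)| := hτ.lip _ _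
    _ ≤ ε * (‖x - y‖ / (m / 2)) := mul_le_mul_of_nonneg_left h3 hτ.nonneg
    _ = 2 * ε * (‖x - y‖ / m) := by field_simp

lemma phi_zero (τ : ℝ → ℝ) : F.phi τ 0 = 0 := F.K_zero _

lemma phi_lip {τ : ℝ → ℝ} {ε : ℝ} (hτ : Slow τ ε) (x y : E) :
    ‖F.phi τ x - F.phi τ y‖ ≤ F.M * (1 + 2 * ε) * ‖x - y‖ := by
  wlog hxy : ‖y‖ ≤ ‖x‖ generalizing x y with H
  · have := H y x (le_of_not_ge hxy)
    rwa [norm_sub_rev, norm_sub_rev y x] at this
  have hM := F.M_pos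
  have hε := hτ.nonneg
  have h1 : ‖F.K (F.par τ x) x - F.K (F.par τ x) y‖ ≤ F.M * ‖x - y‖ := F.lipK _ _ _
  have h2 : ‖F.K (F.par τ x) y - F.K (F.par τ y) y‖ ≤ F.M * (2 * ε * ‖x - y‖) := by
    rcases eq_or_ne y 0 with hy | hy
    · subst hy
      rw [F.K_zero, F.K_zero]; simp only [sub_self, norm_zero]; positivity
    · have hy0 : 0 < ‖y‖ := norm_pos_iff.2 hy
      have h3 := F.par_sub_le hτ hy0 hxy le_rfl
      have h4 := F.lipt (F.par τ x) (F.par τ y) y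
      calc _ ≤ F.M * |F.par τ x - F.par τ y| * ‖y‖ := h4
        _ ≤ F.M * (2 * ε * (‖x - y‖ / ‖y‖)) * ‖y‖ := by gcongr
        _ = F.M * (2 * ε * ‖x - y‖) := by field_simp
  calc ‖F.phi τ x - F.phi τ y‖
      = ‖(F.K (F.par τ x) x - F.K (F.par τ x) y) + (F.K (F.par τ x) y - F.K (F.par τ y) y)‖ := by
        simp only [phi]; congr 1; abel
    _ ≤ F.M * ‖x - y‖ + F.M * (2 * ε * ‖x - y‖) := (norm_add_le _ _).trans (add_le_add h1 h2)
    _ = _ := by ring

/-- the equation for the parameter of the preimage of `y` -/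
noncomputable def gy (τ : ℝ → ℝ) (y : E) (t : ℝ) : ℝ := F.par τ (F.J t y)

lemma gy_lip {τ : ℝ → ℝ} {ε : ℝ} (hτ : Slow τ ε) {y : E} (hy : y ≠ 0) (s t : ℝ) :
    |F.gy τ y s - F.gy τ y t| ≤ 2 * ε * F.M ^ 4 * |s - t| := by
  have hy0 : 0 < ‖y‖ := norm_pos_iff.2 hy
  have hM := F.M_pos
  have h := F.par_sub_le hτ (div_pos hy0 hM) (F.le_norm_J s y) (F.le_norm_J t y)
  have h1 := F.lipJt s t y
  refine h.trans ?_
  rw [mul_assoc (2 * ε)]
  refine mul_le_mul_of_nonneg_left ?_ (mul_nonneg zero_le_two hτ.nonneg)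
  rw [div_le_iff₀ (div_pos hy0 hM)]
  calc _ ≤ F.M ^ 3 * |s - t| * ‖y‖ := h1
    _ = F.M ^ 4 * |s - t| * (‖y‖ / F.M) := by field_simp

lemma exists_fix {τ : ℝ → ℝ} {ε : ℝ} (hτ : Slow τ ε) (hε : ε * F.M ^ 4 ≤ 1 / 4) {y : E}
    (hy : y ≠ 0) : ∃ t, F.gy τ y t = t := by
  have hc : ContractingWith (1 / 2 : NNReal) (F.gy τ y) := by
    refine ⟨by
      rw [← NNReal.coe_lt_coe]; norm_num, ?_⟩
    refine LipschitzWith.of_dist_le_mul fun s t => ?_
    rw [Real.dist_eq, Real.dist_eq]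
    refine (F.gy_lip hτ hy s t).trans ?_
    have : ((1 / 2 : NNReal) : ℝ) = 1 / 2 := by norm_num
    rw [this]
    exact mul_le_mul_of_nonneg_right (by linarith) (abs_nonneg _)
  exact ⟨_, hc.fixedPoint_isFixedPt⟩

lemma fix_unique {τ : ℝ → ℝ} {ε : ℝ} (hτ : Slow τ ε) (hε : ε * F.M ^ 4 ≤ 1 / 4) {y : E}
    (hy : y ≠ 0) {s t : ℝ} (hs : F.gy τ y s = s) (ht : F.gy τ y t = t) : s = t := by
  have h := F.gy_lip hτ hy s t
  rw [hs, ht] at h
  have h2 : |s - t| ≤ 1 / 2 * |s - t| :=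
    h.trans (mul_le_mul_of_nonneg_right (by linarith) (abs_nonneg _))
  have h3 : |s - t| = 0 := le_antisymm (by linarith [abs_nonneg (s - t)]) (abs_nonneg _)
  exact sub_eq_zero.1 (abs_eq_zero.1 h3)

open Classical in
/-- the parameter of the preimage -/
noncomputable def T (τ : ℝ → ℝ) (y : E) : ℝ :=
  if h : ∃ t, F.gy τ y t = t then h.choose else 0

lemma T_spec {τ : ℝ → ℝ} {ε : ℝ} (hτ : Slow τ ε) (hε : ε * F.M ^ 4 ≤ 1 / 4) {y : E}
    (hy : y ≠ 0) : F.gy τ y (F.T τ y) = F.T τ y := by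
  have h := F.exists_fix hτ hε hy
  rw [T, dif_pos h]
  exact h.choose_spec

/-- the inverse map -/
noncomputable def psi (τ : ℝ → ℝ) (y : E) : E := F.J (F.T τ y) y

lemma phi_psi {τ : ℝ → ℝ} {ε : ℝ} (hτ : Slow τ ε) (hε : ε * F.M ^ 4 ≤ 1 / 4) (y : E) :
    F.phi τ (F.psi τ y) = y := by
  rcases eq_or_ne y 0 with hy | hy
  · subst hy; rw [psi, F.J_zero, F.phi_zero]
  · have h := F.T_spec hτ hε hy
    have h2 : F.par τ (F.psi τ y) = F.T τ y := h
    rw [phi, h2, psi, F.KJ]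

lemma psi_phi {τ : ℝ → ℝ} {ε : ℝ} (hτ : Slow τ ε) (hε : ε * F.M ^ 4 ≤ 1 / 4) (x : E) :
    F.psi τ (F.phi τ x) = x := by
  rcases eq_or_ne x 0 with hx | hx
  · subst hx; rw [F.phi_zero, psi, F.J_zero]
  · have hne : F.phi τ x ≠ 0 := by
      intro h
      apply hx
      have := F.JK (F.par τ x) x
      rw [show F.K (F.par τ x) x = 0 from h, F.J_zero] at this
      exact this.symm
    have h1 : F.gy τ (F.phi τ x) (F.par τ x) = F.par τ x := by
      show F.par τ (F.J (F.par τ x) (F.K (F.par τ x) x)) = _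
      rw [F.JK]
    have h2 := F.fix_unique hτ hε hne (F.T_spec hτ hε hne) h1
    rw [psi, h2]
    exact F.JK _ _

lemma psi_lip {τ : ℝ → ℝ} {ε : ℝ} (hτ : Slow τ ε) (hε : ε * F.M ^ 4 ≤ 1 / 4) (y z : E) :
    ‖F.psi τ y - F.psi τ z‖ ≤ (F.M + F.M) * F.M * ‖y - z‖ := by
  wlog hyz : ‖z‖ ≤ ‖y‖ generalizing y z with H
  · have := H z y (le_of_not_ge hyz)
    rwa [norm_sub_rev, norm_sub_rev z y] at this
  have hM := F.M_pos
  have hM1 := F.hM
  have hε0 := hτ.nonneg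
  rcases eq_or_ne z 0 with hz | hz
  · subst hz
    rw [show F.psi τ 0 = 0 from F.J_zero _, sub_zero, sub_zero]
    refine (F.norm_J_le _ y).trans ?_
    refine mul_le_mul_of_nonneg_right ?_ (norm_nonneg _)
    nlinarith
  · have hz0 : 0 < ‖z‖ := norm_pos_iff.2 hz
    have hy : y ≠ 0 := by
      intro h; subst h; rw [norm_zero] at hyz; linarith
    set a := F.T τ y with ha
    set b := F.T τ z with hb
    have e1 : F.gy τ y a = a := F.T_spec hτ hε hy
    have e2 : F.gy τ z b = b := F.T_spec hτ hε hz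
    have h1 : |F.gy τ y a - F.gy τ y b| ≤ 1 / 2 * |a - b| :=
      (F.gy_lip hτ hy a b).trans (mul_le_mul_of_nonneg_right (by linarith) (abs_nonneg _))
    have h2 : |F.gy τ y b - F.gy τ z b| ≤ 2 * ε * (F.M * ‖y - z‖ / (‖z‖ / F.M)) := by
      have hm : 0 < ‖z‖ / F.M := div_pos hz0 hM
      have hyb : ‖z‖ / F.M ≤ ‖F.J b y‖ :=
        (div_le_div_of_nonneg_right hyz hM.le).trans (F.le_norm_J b y)
      refine (F.par_sub_le hτ hm hyb (F.le_norm_J b z)).trans ?_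
      exact mul_le_mul_of_nonneg_left
        (div_le_div_of_nonneg_right (F.lipJ b y z) hm.le) (mul_nonneg zero_le_two hε0)
    have h3 : |a - b| ≤ 1 / 2 * |a - b| + 2 * ε * (F.M * ‖y - z‖ / (‖z‖ / F.M)) := by
      have : a - b = (F.gy τ y a - F.gy τ y b) + (F.gy τ y b - F.gy τ z b) := by
        rw [e1, e2]; ring
      calc |a - b| = |(F.gy τ y a - F.gy τ y b) + (F.gy τ y b - F.gy τ z b)| := by rw [← this]
        _ ≤ _ := (abs_add_le _ _).trans (add_le_add h1 h2)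
    have h4 : |a - b| ≤ 4 * (ε * (F.M ^ 2 * ‖y - z‖ / ‖z‖)) := by
      have : F.M * ‖y - z‖ / (‖z‖ / F.M) = F.M ^ 2 * ‖y - z‖ / ‖z‖ := by field_simp
      rw [this] at h3
      linarith
    have h5 : ‖F.J a z - F.J b z‖ ≤ F.M * ‖y - z‖ := by
      refine (F.lipJt a b z).trans ?_
      calc F.M ^ 3 * |a - b| * ‖z‖ ≤ F.M ^ 3 * (4 * (ε * (F.M ^ 2 * ‖y - z‖ / ‖z‖))) * ‖z‖ := by
            gcongr
        _ = F.M * (4 * (ε * F.M ^ 4)) * ‖y - z‖ := by field_simp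
        _ ≤ F.M * 1 * ‖y - z‖ := by
            gcongr
            linarith
        _ = F.M * ‖y - z‖ := by ring
    calc ‖F.psi τ y - F.psi τ z‖ = ‖(F.J a y - F.J a z) + (F.J a z - F.J b z)‖ := by
          simp only [psi, ← ha, ← hb]; congr 1; abel
      _ ≤ F.M * ‖y - z‖ + F.M * ‖y - z‖ :=
          (norm_add_le _ _).trans (add_le_add (F.lipJ _ _ _) h5)
      _ = (F.M + F.M) * ‖y - z‖ := by ring
      _ ≤ (F.M + F.M) * F.M * ‖y - z‖ := by
          refine mul_le_mul_of_nonneg_right ?_ (norm_nonneg _)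
          nlinarith

/-- The interpolated map as a homeomorphism. -/
noncomputable def homeo {τ : ℝ → ℝ} {ε : ℝ} (hτ : Slow τ ε) (hε : ε * F.M ^ 4 ≤ 1 / 4) :
    E ≃ₜ E where
  toFun := F.phi τ
  invFun := F.psi τ
  left_inv := F.psi_phi hτ hε
  right_inv := F.phi_psi hτ hε
  continuous_toFun := by
    have : LipschitzWith ⟨F.M * (1 + 2 * ε), by
        have := F.M_pos; have := hτ.nonneg; positivity⟩ (F.phi τ) :=
      LipschitzWith.of_dist_le_mul fun x y => by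
        rw [dist_eq_norm, dist_eq_norm]; exact F.phi_lip hτ x y
    exact this.continuous
  continuous_invFun := by
    have : LipschitzWith ⟨(F.M + F.M) * F.M, by have := F.M_pos; positivity⟩ (F.psi τ) :=
      LipschitzWith.of_dist_le_mul fun x y => by
        rw [dist_eq_norm, dist_eq_norm]; exact F.psi_lip hτ hε x y
    exact this.continuous

@[simp] lemma homeo_apply {τ : ℝ → ℝ} {ε : ℝ} (hτ : Slow τ ε) (hε : ε * F.M ^ 4 ≤ 1 / 4)
    (x : E) : F.homeo hτ hε x = F.K (τ (Real.log (F.G.N x))) x := rfl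

lemma homeo_symm_apply {τ : ℝ → ℝ} {ε : ℝ} (hτ : Slow τ ε) (hε : ε * F.M ^ 4 ≤ 1 / 4)
    (y : E) : (F.homeo hτ hε).symm y = F.psi τ y := rfl

end Fam

end Crest.Agent.R096.Vx_270
end

-- ▼ part R096/Vx2_270
section

/-!
# Slow radial interpolation: the derivative, the class `MollAt`, and one step of `CORE3`

* `Fam.fderiv_close` : where both maps are differentiable, the derivative of the interpolated map
  is `3 M ε`-close to the derivative of the frozen map;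
* `Fam.mollAt_phi` : `MollAt` at every good point;
* `Fam.Mo` : a family which is `MollAt` off `0`, uniformly; `Fam.Mo.exists_unif`;
* `CoreAt μ K` : `K` extends from the complement of the unit ball to a homeomorphism which is
  `MollAt` everywhere; `coreAt_linear`, `Fam.Mo.coreAt` (one step along a family).
-/

set_option autoImplicit false

open MeasureTheory Metric Set Filter Topology
open scoped ENNReal NNReal

namespace Crest.Agent.R096.Vx_270

open Crest.Agent.R096.Mo_119 (MollAt)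

section basic

variable {E : Type*} [NormedAddCommGroup E] [NormedSpace ℝ E]

/-- the derivative of a positively homogeneous map is homogeneous of degree `0` -/
lemma fderiv_smul_of_hom {H : E → E} (hom : ∀ (c : ℝ) x, 0 < c → H (c • x) = c • H x) {c : ℝ}
    (hc : 0 < c) (x : E) : fderiv ℝ H (c • x) = fderiv ℝ H x := by
  have h1 : fderiv ℝ (fun y => H (c • y)) x = c • fderiv ℝ H (c • x) := fderiv_comp_smul c
  have h2 : (fun y => H (c • y)) = c • H := by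
    funext y; exact hom c y hc
  rw [h2, fderiv_const_smul_field] at h1
  have h3 := congrArg (fun D => c⁻¹ • D) h1
  simp only [Pi.smul_apply, smul_smul, inv_mul_cancel₀ hc.ne', one_smul] at h3
  exact h3.symm

namespace Fam

variable (F : Fam E)

/-- local comparison of the interpolated map with the frozen map -/
lemma phi_sub_frozen {τ : ℝ → ℝ} {ε : ℝ} (hτ : Slow τ ε) {x : E} (hx : x ≠ 0) :
    ∀ᶠ y in 𝓝 x, ‖(F.phi τ y - F.K (F.par τ x) y) - (F.phi τ x - F.K (F.par τ x) x)‖ ≤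
      3 * F.M * ε * ‖y - x‖ := by
  have hx0 : 0 < ‖x‖ := norm_pos_iff.2 hx
  have hM := F.M_pos
  have hε := hτ.nonneg
  filter_upwards [ball_mem_nhds x (ε := ‖x‖ / 5) (by positivity)] with y hy
  rw [mem_ball_iff_norm] at hy
  have h1 : ‖y‖ ≤ 6 / 5 * ‖x‖ := by
    have : ‖y‖ ≤ ‖x‖ + ‖y - x‖ := by
      calc ‖y‖ = ‖x + (y - x)‖ := by congr 1; abel
        _ ≤ _ := norm_add_le _ _
    linarith
  have h2 : 4 / 5 * ‖x‖ ≤ ‖y‖ := by
    have : ‖x‖ ≤ ‖y‖ + ‖y - x‖ := by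
      calc ‖x‖ = ‖y - (y - x)‖ := by congr 1; abel
        _ ≤ _ := norm_sub_le _ _
    linarith
  have h3 : |F.par τ y - F.par τ x| ≤ 2 * ε * (‖y - x‖ / (4 / 5 * ‖x‖)) :=
    F.par_sub_le hτ (by positivity) h2 (by linarith)
  have h4 : F.phi τ x - F.K (F.par τ x) x = 0 := sub_self _
  rw [h4, sub_zero]
  calc ‖F.phi τ y - F.K (F.par τ x) y‖ ≤ F.M * |F.par τ y - F.par τ x| * ‖y‖ := F.lipt _ _ _
    _ ≤ F.M * (2 * ε * (‖y - x‖ / (4 / 5 * ‖x‖))) * (6 / 5 * ‖x‖) := by gcongr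
    _ = 3 * F.M * ε * ‖y - x‖ := by field_simp; ring

lemma fderiv_close {τ : ℝ → ℝ} {ε : ℝ} (hτ : Slow τ ε) {x : E} (hx : x ≠ 0)
    (h1 : DifferentiableAt ℝ (F.phi τ) x) (h2 : DifferentiableAt ℝ (F.K (F.par τ x)) x) :
    ‖fderiv ℝ (F.phi τ) x - fderiv ℝ (F.K (F.par τ x)) x‖ ≤ 3 * F.M * ε := by
  have hM := F.M_pos
  have hε := hτ.nonneg
  exact (h1.hasFDerivAt.sub h2.hasFDerivAt).le_of_lip' (by positivity) (F.phi_sub_frozen hτ hx)

lemma lipschitz_phi {τ : ℝ → ℝ} {ε : ℝ} (hτ : Slow τ ε) :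
    LipschitzWith ⟨F.M * (1 + 2 * ε), by
      have := F.M_pos; have := hτ.nonneg; positivity⟩ (F.phi τ) :=
  LipschitzWith.of_dist_le_mul fun x y => by
    rw [dist_eq_norm, dist_eq_norm]; exact F.phi_lip hτ x y

lemma continuousAt_par {τ : ℝ → ℝ} {ε : ℝ} (hτ : Slow τ ε) {x : E} (hx : x ≠ 0) :
    ContinuousAt (F.par τ) x := by
  have hx0 : 0 < ‖x‖ := norm_pos_iff.2 hx
  have hε := hτ.nonneg
  have h : ∀ᶠ y in 𝓝 x, ‖F.par τ y - F.par τ x‖ ≤ 2 * ε * (‖y - x‖ / (4 / 5 * ‖x‖)) := by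
    filter_upwards [ball_mem_nhds x (ε := ‖x‖ / 5) (by positivity)] with y hy
    rw [mem_ball_iff_norm] at hy
    have h2 : 4 / 5 * ‖x‖ ≤ ‖y‖ := by
      have : ‖x‖ ≤ ‖y‖ + ‖y - x‖ := by
        calc ‖x‖ = ‖y - (y - x)‖ := by congr 1; abel
          _ ≤ _ := norm_sub_le _ _
      linarith
    rw [Real.norm_eq_abs]
    exact F.par_sub_le hτ (by positivity) h2 (by linarith)
  have h0 : Tendsto (fun y => F.par τ y - F.par τ x) (𝓝 x) (𝓝 0) := by
    refine squeeze_zero_norm' h ?_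
    have : Tendsto (fun y : E => 2 * ε * (‖y - x‖ / (4 / 5 * ‖x‖))) (𝓝 x)
        (𝓝 (2 * ε * (‖x - x‖ / (4 / 5 * ‖x‖)))) := by
      apply ContinuousAt.tendsto
      fun_prop
    simpa using this
  have h3 := h0.add_const (F.par τ x)
  simp only [sub_add_cancel, zero_add] at h3
  exact h3

end Fam

end basic

section moll

variable {E : Type*} [NormedAddCommGroup E] [NormedSpace ℝ E] [FiniteDimensional ℝ E]
  [MeasurableSpace E] [BorelSpace E]

omit [FiniteDimensional ℝ E] [BorelSpace E] in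
lemma MollAt.congr {μ : Measure E} {f g : E → E} {x : E} (hf : MollAt μ f x)
    (h : f =ᶠ[𝓝 x] g) : MollAt μ g x := by
  obtain ⟨r, hr, K, h1, h2, h3, ⟨L, hL⟩, h4⟩ := hf
  obtain ⟨r', hr', hb⟩ := Metric.eventually_nhds_iff_ball.1 h
  have hsub : ball x (min r r') ⊆ ball x r := ball_subset_ball (min_le_left _ _)
  have hsub' : ball x (min r r') ⊆ ball x r' := ball_subset_ball (min_le_right _ _)
  refine ⟨min r r', lt_min hr hr', K, h1, h2, h3, ⟨L, ?_⟩, ?_⟩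
  · intro y hy z hz
    rw [← hb y (hsub' hy), ← hb z (hsub' hz)]
    exact hL (hsub hy) (hsub hz)
  · filter_upwards [h4] with y hy hy'
    have : f =ᶠ[𝓝 y] g := by
      filter_upwards [isOpen_ball.mem_nhds (hsub' hy')] with z hz using hb z hz
    rw [← this.fderiv_eq]
    exact hy (hsub hy')

omit [FiniteDimensional ℝ E] [BorelSpace E] in
lemma mollAt_linear {μ : Measure E} {L : E →L[ℝ] E} (hL : 0 < L.det) (x : E) :
    MollAt μ (fun y => L y) x := by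
  refine ⟨1, one_pos, {L}, convex_singleton L, isCompact_singleton, ?_, ⟨‖L‖₊, ?_⟩, ?_⟩
  · intro A hA; rw [mem_singleton_iff] at hA; subst hA; exact hL
  · exact L.lipschitz.lipschitzOnWith
  · refine Eventually.of_forall fun y _ => ?_
    rw [mem_singleton_iff]
    exact L.fderiv

/-- `MollAt` is invariant under rescaling -/
lemma MollAt.rescale {μ : Measure E} [μ.IsAddHaarMeasure] {f : E → E} {ρ : ℝ} (hρ : 0 < ρ)
    {x : E} (hf : MollAt μ f (ρ⁻¹ • x)) : MollAt μ (fun y => ρ • f (ρ⁻¹ • y)) x := by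
  obtain ⟨r, hr, K, h1, h2, h3, ⟨L, hL⟩, h4⟩ := hf
  have hm : ∀ y, y ∈ ball x (ρ * r) → ρ⁻¹ • y ∈ ball (ρ⁻¹ • x) r := by
    intro y hy
    rw [mem_ball_iff_norm] at hy ⊢
    rw [← smul_sub, norm_smul, Real.norm_eq_abs, abs_of_pos (inv_pos.2 hρ)]
    rw [inv_mul_lt_iff₀ hρ]
    exact hy
  refine ⟨ρ * r, mul_pos hρ hr, K, h1, h2, h3, ⟨L, ?_⟩, ?_⟩
  · refine LipschitzOnWith.of_dist_le_mul fun y hy z hz => ?_
    have h := hL.dist_le_mul _ (hm y hy) _ (hm z hz)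
    rw [dist_eq_norm, dist_eq_norm] at h ⊢
    rw [← smul_sub, norm_smul, Real.norm_eq_abs, abs_of_pos hρ]
    rw [← smul_sub, norm_smul, Real.norm_eq_abs, abs_of_pos (inv_pos.2 hρ)] at h
    calc ρ * ‖f (ρ⁻¹ • y) - f (ρ⁻¹ • z)‖ ≤ ρ * (L * (ρ⁻¹ * ‖y - z‖)) :=
          mul_le_mul_of_nonneg_left h hρ.le
      _ = L * ‖y - z‖ := by field_simp
  · have h5 := Mo_119.ae_comp h4 0 (c := -ρ⁻¹) (neg_ne_zero.2 (inv_pos.2 hρ).ne')
    filter_upwards [h5] with y hy hy'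
    have e : (0 : E) - (-ρ⁻¹) • y = ρ⁻¹ • y := by rw [neg_smul, zero_sub, neg_neg]
    rw [e] at hy
    have h6 := hy (hm y hy')
    have : fderiv ℝ (fun y => ρ • f (ρ⁻¹ • y)) y = fderiv ℝ f (ρ⁻¹ • y) := by
      have h7 : fderiv ℝ (fun y => f (ρ⁻¹ • y)) y = ρ⁻¹ • fderiv ℝ f (ρ⁻¹ • y) :=
        fderiv_comp_smul ρ⁻¹
      have h8 : (fun y => ρ • f (ρ⁻¹ • y)) = ρ • (fun y => f (ρ⁻¹ • y)) := rfl
      rw [h8, fderiv_const_smul_field]
      simp only [Pi.smul_apply]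
      rw [h7, smul_smul, mul_inv_cancel₀ hρ.ne', one_smul]
    rw [this]
    exact h6

end moll

end Crest.Agent.R096.Vx_270
end

-- ▼ part R096/Vx3_270

/-!
# Slow radial interpolation, part 3: one step of `CORE3` along a Moll family

* `Fam.MollU F μ S η` : off a null set, near every point of `S`, the derivatives of `K t`, `t` near
  `t₀`, lie in a compact convex set whose closed `η`-neighbourhood has positive determinant;
* `Fam.mollAt_phi` : then the interpolated map is `MollAt` on `S`, if `3 M ε ≤ η`;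
* `Fam.Mo` : `MollAt` off `0`, locally uniformly in `(t, x)`; `Fam.Mo.exists_unif`;
* `CoreAt μ K`, `coreAt_linear`, `Fam.Mo.coreAt`.
-/

set_option autoImplicit false
set_option linter.unusedSectionVars false

open MeasureTheory Metric Set Filter Topology
open scoped ENNReal NNReal

namespace Crest.Agent.R096.Vx_270

open Crest.Agent.R096.Mo_119 (MollAt)

variable {E : Type*} [NormedAddCommGroup E] [NormedSpace ℝ E] [FiniteDimensional ℝ E]
  [MeasurableSpace E] [BorelSpace E]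

namespace Fam

/-- uniform Moll condition on the set `S`, with slack `η` -/
def MollU (F : Fam E) (μ : Measure E) (S : Set E) (η : ℝ) : Prop :=
  ∀ t₀ : ℝ, ∀ x₀ ∈ S, ∃ r > 0, ∃ C : Set (E →L[ℝ] E), Convex ℝ C ∧ IsCompact C ∧
    (∀ A ∈ cthickening η C, 0 < A.det) ∧
    ∀ᵐ x ∂μ, ∀ t, |t - t₀| < r → x ∈ ball x₀ r → DifferentiableAt ℝ (F.K t) x ∧
      fderiv ℝ (F.K t) x ∈ C

theorem mollAt_phi (F : Fam E) {μ : Measure E} [μ.IsAddHaarMeasure] {S : Set E} {η : ℝ}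
    (hU : F.MollU μ S η) {τ : ℝ → ℝ} {ε : ℝ} (hτ : Slow τ ε) (hη : 3 * F.M * ε ≤ η) {x₀ : E}
    (hx₀ : x₀ ∈ S) (h0 : x₀ ≠ 0) : MollAt μ (F.phi τ) x₀ := by
  have : ProperSpace (E →L[ℝ] E) := FiniteDimensional.proper_real _
  have hM := F.M_pos
  have hε := hτ.nonneg
  have hη0 : 0 ≤ η := le_trans (by positivity) hη
  obtain ⟨r, hr, C, hC1, hC2, hC3, hC4⟩ := hU (F.par τ x₀) x₀ hx₀
  have hpar : ∀ᶠ y in 𝓝 x₀, |F.par τ y - F.par τ x₀| < r := by
    have := (F.continuousAt_par hτ h0).tendsto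
    have h := this.eventually (Metric.ball_mem_nhds _ hr)
    filter_upwards [h] with y hy
    rwa [Real.dist_eq] at hy
  have hne : ∀ᶠ y in 𝓝 x₀, y ≠ 0 := isOpen_ne.mem_nhds h0
  obtain ⟨r', hr', hb⟩ := Metric.eventually_nhds_iff_ball.1 (hpar.and hne)
  refine ⟨min r r', lt_min hr hr', cthickening η C, hC1.cthickening η, hC2.cthickening, hC3,
    ⟨_, (F.lipschitz_phi hτ).lipschitzOnWith⟩, ?_⟩
  have hrad : ∀ᵐ x ∂μ, DifferentiableAt ℝ (F.phi τ) x := (F.lipschitz_phi hτ).ae_differentiableAt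
  filter_upwards [hC4, hrad] with x h1 h2 hx
  have hxr : x ∈ ball x₀ r := ball_subset_ball (min_le_left _ _) hx
  have hxr' : x ∈ ball x₀ r' := ball_subset_ball (min_le_right _ _) hx
  obtain ⟨h3, h4⟩ := hb x hxr'
  obtain ⟨h5, h6⟩ := h1 (F.par τ x) h3 hxr
  have h7 := F.fderiv_close hτ h4 h2 h5
  rw [← dist_eq_norm] at h7
  exact mem_cthickening_of_dist_le _ _ _ _ h6 (h7.trans hη)

/-- `MollAt` off `0`, locally uniformly in `(t, x)`, off a null set that does not depend on `t`;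
`K` is constant for `t ≤ 0` and for `t ≥ 1`. -/
structure Mo (F : Fam E) (μ : Measure E) : Prop where
  cst0 : ∀ t ≤ 0, F.K t = F.K 0
  cst1 : ∀ t, 1 ≤ t → F.K t = F.K 1
  loc : ∀ t₀ ∈ Icc (0 : ℝ) 1, ∀ x₀ : E, ‖x₀‖ = 1 → ∃ r > 0, ∃ C : Set (E →L[ℝ] E), Convex ℝ C ∧
    IsCompact C ∧ (∀ A ∈ C, 0 < A.det) ∧
    ∀ᵐ x ∂μ, ∀ t ∈ Icc (0 : ℝ) 1, |t - t₀| < r → x ∈ ball x₀ r → DifferentiableAt ℝ (F.K t) x ∧
      fderiv ℝ (F.K t) x ∈ C

lemma Mo.K_proj {F : Fam E} {μ : Measure E} (h : F.Mo μ) (t : ℝ) :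
    F.K t = F.K (max 0 (min 1 t)) := by
  rcases le_total t 0 with h0 | h0
  · rw [h.cst0 t h0, max_eq_left]
    exact (min_le_right _ _).trans h0
  · rcases le_total t 1 with h1 | h1
    · rw [min_eq_right h1, max_eq_right h0]
    · rw [h.cst1 t h1, min_eq_left h1, max_eq_right zero_le_one]

theorem Mo.exists_unif {F : Fam E} {μ : Measure E} [μ.IsAddHaarMeasure] (h : F.Mo μ) :
    ∃ η > 0, F.MollU μ {0}ᶜ η := by
  classical
  have : ProperSpace (E →L[ℝ] E) := FiniteDimensional.proper_real _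
  have : ProperSpace E := FiniteDimensional.proper_real _
  choose! r hr C hC1 hC2 hC3 hC4 using h.loc
  -- tolerances
  have htol : ∀ t₀ ∈ Icc (0 : ℝ) 1, ∀ x₀ : E, ‖x₀‖ = 1 → ∃ η > 0, ∀ B ∈ cthickening η (C t₀ x₀),
      0 < B.det := by
    intro t₀ ht₀ x₀ hx₀
    have hU : IsOpen {B : E →L[ℝ] E | 0 < B.det} :=
      isOpen_lt continuous_const ContinuousLinearMap.continuous_det
    obtain ⟨d, hd, hdU⟩ := (hC2 t₀ ht₀ x₀ hx₀).exists_cthickening_subset_open hU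
      (hC3 t₀ ht₀ x₀ hx₀)
    exact ⟨d, hd, fun B hB => hdU hB⟩
  choose! η hη hη' using htol
  -- compactness
  set Q : Set (ℝ × E) := Icc (0 : ℝ) 1 ×ˢ sphere (0 : E) 1 with hQ
  have hQc : IsCompact Q := isCompact_Icc.prod (isCompact_sphere 0 1)
  have hmem : ∀ q ∈ Q, q.1 ∈ Icc (0 : ℝ) 1 ∧ ‖q.2‖ = 1 := by
    rintro ⟨t, x⟩ ⟨h1, h2⟩
    exact ⟨h1, by simpa using h2⟩
  obtain ⟨s, hs⟩ := hQc.elim_nhds_subcover' (fun q _ => ball q (r q.1 q.2 / 2))
    (fun q hq => ball_mem_nhds q (half_pos (hr _ (hmem q hq).1 _ (hmem q hq).2)))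
  -- the minimum of the tolerances
  have hηpos : ∃ η₀ > 0, ∀ q ∈ s, η₀ ≤ η q.1.1 q.1.2 := by
    rcases s.eq_empty_or_nonempty with hs0 | hs0
    · exact ⟨1, one_pos, by simp [hs0]⟩
    · refine ⟨s.inf' hs0 fun q => η q.1.1 q.1.2, ?_, fun q hq => Finset.inf'_le _ hq⟩
      rw [gt_iff_lt, Finset.lt_inf'_iff]
      intro q _
      exact hη _ (hmem q.1 q.2).1 _ (hmem q.1 q.2).2
  obtain ⟨η₀, hη₀, hle⟩ := hηpos
  refine ⟨η₀, hη₀, ?_⟩
  intro t₀ x₀ hx₀
  have hx0 : x₀ ≠ 0 := hx₀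
  have hn : 0 < ‖x₀‖ := norm_pos_iff.2 hx0
  set t₁ := max 0 (min 1 t₀) with ht₁
  have ht₁m : t₁ ∈ Icc (0 : ℝ) 1 := ⟨le_max_left _ _, max_le zero_le_one (min_le_left _ _)⟩
  set x₁ := ‖x₀‖⁻¹ • x₀ with hx₁
  have hx₁n : ‖x₁‖ = 1 := by
    rw [hx₁, norm_smul, norm_inv, norm_norm, inv_mul_cancel₀ hn.ne']
  have hq₁ : (t₁, x₁) ∈ Q := ⟨ht₁m, by simpa using hx₁n⟩
  have hcov := hs hq₁
  simp only [mem_iUnion] at hcov
  obtain ⟨q, hq, hball⟩ := hcov
  rw [mem_ball, Prod.dist_eq] at hball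
  have hb1 : dist t₁ q.1.1 < r q.1.1 q.1.2 / 2 := (le_max_left _ _).trans_lt hball
  have hb2 : dist x₁ q.1.2 < r q.1.1 q.1.2 / 2 := (le_max_right _ _).trans_lt hball
  have hqm := hmem q.1 q.2
  set ρ := r q.1.1 q.1.2 with hρ
  have hρ0 : 0 < ρ := hr _ hqm.1 _ hqm.2
  refine ⟨min (ρ / 2) (ρ / 2 * ‖x₀‖), lt_min (half_pos hρ0) (mul_pos (half_pos hρ0) hn),
    C q.1.1 q.1.2, hC1 _ hqm.1 _ hqm.2, hC2 _ hqm.1 _ hqm.2, ?_, ?_⟩
  · intro A hA
    exact hη' _ hqm.1 _ hqm.2 A (cthickening_mono (hle q hq) _ hA)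
  · have hae := hC4 _ hqm.1 _ hqm.2
    have hae2 := Mo_119.ae_comp hae 0 (c := -‖x₀‖⁻¹) (neg_ne_zero.2 (inv_pos.2 hn).ne')
    filter_upwards [hae2] with x hx t ht hxb
    have e : (0 : E) - (-‖x₀‖⁻¹) • x = ‖x₀‖⁻¹ • x := by rw [neg_smul, zero_sub, neg_neg]
    rw [e] at hx
    have hpt : |max 0 (min 1 t) - t₁| ≤ |t - t₀| := by
      rw [ht₁]
      refine (abs_max_sub_max_le_max _ _ _ _).trans ?_
      rw [sub_self, abs_zero]
      refine max_le (abs_nonneg _) ?_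
      refine (abs_min_sub_min_le_max _ _ _ _).trans ?_
      rw [sub_self, abs_zero]
      exact max_le (abs_nonneg _) le_rfl
    have h1 : |max 0 (min 1 t) - q.1.1| < ρ := by
      have h2 : |t₁ - q.1.1| < ρ / 2 := by rwa [← Real.dist_eq]
      calc |max 0 (min 1 t) - q.1.1| = |(max 0 (min 1 t) - t₁) + (t₁ - q.1.1)| := by
            congr 1; ring
        _ ≤ |max 0 (min 1 t) - t₁| + |t₁ - q.1.1| := abs_add_le _ _
        _ < ρ / 2 + ρ / 2 :=
            add_lt_add (hpt.trans_lt (ht.trans_le (min_le_left _ _))) h2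
        _ = ρ := by ring
    have h3 : ‖x₀‖⁻¹ • x ∈ ball q.1.2 ρ := by
      rw [mem_ball]
      calc dist (‖x₀‖⁻¹ • x) q.1.2 ≤ dist (‖x₀‖⁻¹ • x) x₁ + dist x₁ q.1.2 := dist_triangle _ _ _
        _ < ρ / 2 + ρ / 2 := by
            refine add_lt_add ?_ hb2
            rw [hx₁, dist_eq_norm, ← smul_sub, norm_smul, norm_inv, norm_norm,
              inv_mul_lt_iff₀ hn]
            rw [mem_ball_iff_norm] at hxb
            have := hxb.trans_le (min_le_right _ _)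
            linarith [mul_comm (ρ / 2) ‖x₀‖]
        _ = ρ := by ring
    have hm : max 0 (min 1 t) ∈ Icc (0 : ℝ) 1 :=
      ⟨le_max_left _ _, max_le zero_le_one (min_le_left _ _)⟩
    obtain ⟨h4, h5⟩ := hx _ hm h1 h3
    rw [← h.K_proj t] at h4 h5
    have h6 := fderiv_smul_of_hom (F.hom t) (inv_pos.2 hn) x
    rw [h6] at h5
    refine ⟨?_, h5⟩
    -- differentiability by homogeneity
    by_contra hnd
    have h7 : DifferentiableAt ℝ (F.K t) x := by
      have e2 : F.K t = fun y => ‖x₀‖ • F.K t (‖x₀‖⁻¹ • y) := by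
        funext y
        rw [← F.hom t _ _ hn, smul_smul, mul_inv_cancel₀ hn.ne', one_smul]
      rw [e2]
      have h8 : DifferentiableAt ℝ (fun y : E => ‖x₀‖⁻¹ • y) x :=
        differentiableAt_id.const_smul _
      exact (DifferentiableAt.comp x (g := F.K t) h4 h8).const_smul _
    exact hnd h7

end Fam

/-- the slow cut-off of slope `ε` -/
noncomputable def cut (ε : ℝ) (s : ℝ) : ℝ := max 0 (min 1 (-(ε * s)))

lemma cut_slow {ε : ℝ} (hε : 0 ≤ ε) : Slow (cut ε) ε := by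
  refine ⟨hε, fun a b => ?_⟩
  unfold cut
  refine (abs_max_sub_max_le_max _ _ _ _).trans ?_
  rw [sub_self, abs_zero]
  have h0 : 0 ≤ ε * |a - b| := by positivity
  refine max_le h0 ?_
  refine (abs_min_sub_min_le_max _ _ _ _).trans ?_
  rw [sub_self, abs_zero]
  refine max_le h0 ?_
  have : -(ε * a) - -(ε * b) = -(ε * (a - b)) := by ring
  rw [this, abs_neg, abs_mul, abs_of_nonneg hε]

lemma cut_of_nonneg {ε s : ℝ} (hε : 0 ≤ ε) (hs : 0 ≤ s) : cut ε s = 0 := by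
  unfold cut
  rw [max_eq_left]
  refine (min_le_right _ _).trans ?_
  have : 0 ≤ ε * s := by positivity
  linarith

lemma cut_of_le {ε s : ℝ} (hε : 0 < ε) (hs : s ≤ -ε⁻¹) : cut ε s = 1 := by
  unfold cut
  have h : 1 ≤ -(ε * s) := by
    have := mul_le_mul_of_nonneg_left hs hε.le
    rw [mul_neg, mul_inv_cancel₀ hε.ne'] at this
    linarith
  rw [min_eq_left h, max_eq_right zero_le_one]

/-- `K` extends from the complement of the unit ball to a homeomorphism which is `MollAt`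
everywhere. -/
def CoreAt (μ : Measure E) (K : E → E) : Prop :=
  ∃ Φ : E → E, IsHomeomorph Φ ∧ (∀ x, 1 ≤ ‖x‖ → Φ x = K x) ∧ (∀ x, MollAt μ Φ x) ∧
    ∃ C : ℝ≥0, LipschitzWith C Φ

theorem coreAt_linear {μ : Measure E} {L : E →L[ℝ] E} (hL : 0 < L.det) :
    CoreAt μ (fun x => L x) := by
  refine ⟨fun x => L x, ?_, fun _ _ => rfl, mollAt_linear hL, ‖L‖₊, L.lipschitz⟩
  have h : (fun x => L x) = (L.toContinuousLinearEquivOfDetNeZero hL.ne') := by
    funext x; simp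
  rw [h]
  exact (L.toContinuousLinearEquivOfDetNeZero hL.ne').toHomeomorph.isHomeomorph

/-- **One step of CORE3 along a Moll family.** -/
theorem Fam.Mo.coreAt {F : Fam E} {μ : Measure E} [μ.IsAddHaarMeasure] (h : F.Mo μ)
    (h1 : CoreAt μ (F.K 1)) (hN : ∀ x, F.G.N x = ‖x‖) : CoreAt μ (F.K 0) := by
  obtain ⟨Φ', hΦh, hΦK, hΦM, C', hC'⟩ := h1
  obtain ⟨η, hη, hU⟩ := h.exists_unif
  have hM := F.M_pos
  -- choice of the slope
  obtain ⟨ε, hε, hε1, hε2⟩ : ∃ ε > 0, ε * F.M ^ 4 ≤ 1 / 4 ∧ 3 * F.M * ε ≤ η := by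
    refine ⟨min (1 / 4 / F.M ^ 4) (η / (3 * F.M)), by positivity, ?_, ?_⟩
    · have := min_le_left (1 / 4 / F.M ^ 4) (η / (3 * F.M))
      rwa [le_div_iff₀ (by positivity)] at this
    · have := min_le_right (1 / 4 / F.M ^ 4) (η / (3 * F.M))
      rw [le_div_iff₀ (by positivity)] at this
      linarith
  have hτ : Slow (cut ε) ε := cut_slow hε.le
  set ρ₁ := Real.exp (-ε⁻¹) with hρ₁
  have hρ₁0 : 0 < ρ₁ := Real.exp_pos _
  have hρ₁1 : ρ₁ < 1 := by
    rw [hρ₁, Real.exp_lt_one_iff]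
    have := inv_pos.2 hε
    linarith
  set ρ := ρ₁ / 2 with hρ
  have hρ0 : 0 < ρ := half_pos hρ₁0
  -- the interpolated homeomorphism
  set Φ₀ : E ≃ₜ E := F.homeo hτ hε1 with hΦ₀
  have hΦ₀a : ∀ x, Φ₀ x = F.phi (cut ε) x := fun x => rfl
  have hout : ∀ x, 1 ≤ ‖x‖ → Φ₀ x = F.K 0 x := by
    intro x hx
    rw [hΦ₀a, Fam.phi, Fam.par, cut_of_nonneg hε.le]
    rw [hN]
    exact Real.log_nonneg hx
  have hin : ∀ x, ‖x‖ ≤ ρ₁ → Φ₀ x = F.K 1 x := by
    intro x hx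
    rcases eq_or_ne x 0 with h0 | h0
    · subst h0
      rw [hΦ₀a, F.phi_zero, F.K_zero]
    · have hn : 0 < ‖x‖ := norm_pos_iff.2 h0
      rw [hΦ₀a, Fam.phi, Fam.par, cut_of_le hε]
      rw [hN, Real.log_le_iff_le_exp hn]
      exact hx
  -- the homeomorphism Θ
  set Θ : E → E := fun x => F.J 1 (ρ • Φ' (ρ⁻¹ • x)) with hΘ
  have hsc : ∀ x : E, ‖ρ⁻¹ • x‖ = ρ⁻¹ * ‖x‖ := fun x => by
    rw [norm_smul, Real.norm_eq_abs, abs_of_pos (inv_pos.2 hρ0)]
  have hΘout : ∀ x, ρ ≤ ‖x‖ → Θ x = x := by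
    intro x hx
    have h2 : 1 ≤ ‖ρ⁻¹ • x‖ := by
      rw [hsc]
      have := mul_le_mul_of_nonneg_left hx (inv_pos.2 hρ0).le
      rwa [inv_mul_cancel₀ hρ0.ne'] at this
    simp only [hΘ]
    rw [hΦK _ h2, ← F.hom 1 _ _ hρ0, smul_smul, mul_inv_cancel₀ hρ0.ne', one_smul, F.JK]
  have hΘh : IsHomeomorph Θ := by
    have hJ : IsHomeomorph (F.J 1) := by
      have hcJ : LipschitzWith ⟨F.M, hM.le⟩ (F.J 1) := LipschitzWith.of_dist_le_mul fun x y => by
        rw [dist_eq_norm, dist_eq_norm]; exact F.lipJ 1 x y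
      have hcK : LipschitzWith ⟨F.M, hM.le⟩ (F.K 1) := LipschitzWith.of_dist_le_mul fun x y => by
        rw [dist_eq_norm, dist_eq_norm]; exact F.lipK 1 x y
      exact (Homeomorph.mk ⟨F.J 1, F.K 1, F.KJ 1, F.JK 1⟩ hcJ.continuous
        hcK.continuous).isHomeomorph
    have hs1 : IsHomeomorph (fun x : E => ρ • x) :=
      (Homeomorph.smulOfNeZero ρ hρ0.ne').isHomeomorph
    have hs2 : IsHomeomorph (fun x : E => ρ⁻¹ • x) :=
      (Homeomorph.smulOfNeZero ρ⁻¹ (inv_pos.2 hρ0).ne').isHomeomorph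
    exact hJ.comp (hs1.comp (hΦh.comp hs2))
  have hΘL : LipschitzWith (⟨F.M, hM.le⟩ * C') Θ := by
    refine LipschitzWith.of_dist_le_mul fun x y => ?_
    rw [dist_eq_norm, dist_eq_norm]
    have h2 := F.lipJ 1 (ρ • Φ' (ρ⁻¹ • x)) (ρ • Φ' (ρ⁻¹ • y))
    have h3 := hC'.dist_le_mul (ρ⁻¹ • x) (ρ⁻¹ • y)
    rw [dist_eq_norm, dist_eq_norm, ← smul_sub, hsc] at h3
    rw [← smul_sub, norm_smul, Real.norm_eq_abs, abs_of_pos hρ0] at h2
    calc ‖Θ x - Θ y‖ ≤ F.M * (ρ * ‖Φ' (ρ⁻¹ • x) - Φ' (ρ⁻¹ • y)‖) := h2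
      _ ≤ F.M * (ρ * (C' * (ρ⁻¹ * ‖x - y‖))) := by gcongr
      _ = F.M * C' * ‖x - y‖ := by field_simp
  have hΘball : ∀ x, ‖x‖ < ρ → ‖Θ x‖ < ρ := by
    intro x hx
    by_contra hcon
    push Not at hcon
    have h2 : Θ (Θ x) = Θ x := hΘout _ hcon
    have h3 := hΘh.injective h2
    rw [h3] at hcon
    linarith
  refine ⟨fun x => Φ₀ (Θ x), Φ₀.isHomeomorph.comp hΘh, ?_, ?_, ?_⟩
  · intro x hx
    show Φ₀ (Θ x) = F.K 0 x
    rw [hΘout x (by linarith), hout x hx]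
  · intro x
    rcases lt_or_ge ‖x‖ ρ₁ with hx | hx
    · -- inner ball
      have hev : (fun y => ρ • Φ' (ρ⁻¹ • y)) =ᶠ[𝓝 x] fun y => Φ₀ (Θ y) := by
        have : ∀ᶠ y in 𝓝 x, ‖y‖ < ρ₁ := (isOpen_lt continuous_norm continuous_const).mem_nhds hx
        filter_upwards [this] with y hy
        have h2 : ‖Θ y‖ ≤ ρ₁ := by
          rcases lt_or_ge ‖y‖ ρ with hy' | hy'
          · exact (hΘball y hy').le.trans (by linarith)
          · rw [hΘout y hy']; exact hy.le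
        rw [hin _ h2]
        simp only [hΘ]
        rw [F.KJ]
      exact MollAt.congr (MollAt.rescale hρ0 (hΦM _)) hev
    · -- outside
      have hρx : ρ < ‖x‖ := by linarith
      have hx0 : x ≠ 0 := by
        rw [← norm_pos_iff]; linarith
      have hev : F.phi (cut ε) =ᶠ[𝓝 x] fun y => Φ₀ (Θ y) := by
        have : ∀ᶠ y in 𝓝 x, ρ < ‖y‖ := (isOpen_lt continuous_const continuous_norm).mem_nhds hρx
        filter_upwards [this] with y hy
        rw [hΘout y hy.le, hΦ₀a]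
      exact MollAt.congr (F.mollAt_phi hU hτ hε2 (x₀ := x) hx0 hx0) hev
  · exact ⟨_, (F.lipschitz_phi hτ).comp hΘL⟩

end Crest.Agent.R096.Vx_270
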