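import Crest.Agent.R096.Vx5_270
import Crest.Agent.R096.Hm3_695
import Crest.Agent.R096.BelDefs_205
import Crest.Agent.R096.P5Spec_205
import Crest.Agent.R096.BelD_205

-- ▼ part R096/Vx6_270
section

/-!
# One step of CORE3 along a path, and the relation `Sim`

* `Fam.coreAt_of_moll` : the gluing step;
* `MPath.coreAt` : `CoreAt (K 1) → CoreAt (K 0)` for a path of conic maps in the segment class which
  is injective at one time;
* `Sim K K'` and `Sim.coreAt`.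
-/

set_option autoImplicit false
set_option linter.unusedSectionVars false

open MeasureTheory Metric Set Filter Topology
open scoped ENNReal NNReal ContDiff

namespace Crest.Agent.R096.Vx_270

open Crest.Agent.R096.Mo_119 (MollAt)

variable {E : Type*} [NormedAddCommGroup E] [NormedSpace ℝ E] [FiniteDimensional ℝ E]
  [MeasurableSpace E] [BorelSpace E]

/-- `K` is `CoreAt` if it has an extension that agrees with `K` far away -/
theorem coreAt_of_radius {μ : Measure E} [μ.IsAddHaarMeasure] {K : E → E} (hK : Hom K) {R : ℝ}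
    (hR : 0 < R) {Φ : E → E} (h1 : IsHomeomorph Φ) (h2 : ∀ x, R ≤ ‖x‖ → Φ x = K x)
    (h3 : ∀ x, MollAt μ Φ x) {C : ℝ≥0} (h4 : LipschitzWith C Φ) : CoreAt μ K := by
  have hR' : 0 < R⁻¹ := inv_pos.2 hR
  have e : ∀ x : E, R⁻¹ • Φ ((R⁻¹)⁻¹ • x) = R⁻¹ • Φ (R • x) := fun x => by rw [inv_inv]
  refine ⟨fun x => R⁻¹ • Φ ((R⁻¹)⁻¹ • x), ?_, ?_, ?_, C, ?_⟩
  · have hs1 : IsHomeomorph (fun x : E => R⁻¹ • x) :=
      (Homeomorph.smulOfNeZero R⁻¹ hR'.ne').isHomeomorph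
    have hs2 : IsHomeomorph (fun x : E => (R⁻¹)⁻¹ • x) :=
      (Homeomorph.smulOfNeZero (R⁻¹)⁻¹ (inv_pos.2 hR').ne').isHomeomorph
    exact hs1.comp (h1.comp hs2)
  · intro x hx
    show R⁻¹ • Φ ((R⁻¹)⁻¹ • x) = K x
    rw [e, h2, hK _ _ hR, smul_smul, inv_mul_cancel₀ hR.ne', one_smul]
    rw [norm_smul, Real.norm_eq_abs, abs_of_pos hR]
    nlinarith
  · intro x
    exact MollAt.rescale hR' (h3 _)
  · refine LipschitzWith.of_dist_le_mul fun x y => ?_
    rw [e, e, dist_eq_norm, dist_eq_norm, ← smul_sub, norm_smul, Real.norm_eq_abs,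
      abs_of_pos hR']
    have h := h4.dist_le_mul (R • x) (R • y)
    rw [dist_eq_norm, dist_eq_norm, ← smul_sub, norm_smul, Real.norm_eq_abs, abs_of_pos hR] at h
    calc R⁻¹ * ‖Φ (R • x) - Φ (R • y)‖ ≤ R⁻¹ * (C * (R * ‖x - y‖)) := by gcongr
      _ = C * ‖x - y‖ := by field_simp

/-- **The gluing step.** -/
theorem Fam.coreAt_of_moll (F : Fam E) {μ : Measure E} [μ.IsAddHaarMeasure] {η : ℝ} (hη : 0 < η)
    (hU : ∀ (τ : ℝ → ℝ) (ε : ℝ), Slow τ ε → 3 * F.M * ε ≤ η → ∀ x, x ≠ 0 → MollAt μ (F.phi τ) x)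
    (h1 : CoreAt μ (F.K 1)) (hN : ∀ x, F.G.N x = ‖x‖) : CoreAt μ (F.K 0) := by
  obtain ⟨Φ', hΦh, hΦK, hΦM, C', hC'⟩ := h1
  have hM := F.M_pos
  -- choice of the slope
  obtain ⟨ε, hε, hε1, hε2⟩ : ∃ ε > 0, ε * F.M ^ 4 ≤ 1 / 4 ∧ 3 * F.M * ε ≤ η := by
    refine ⟨min (1 / 4 / F.M ^ 4) (η / (3 * F.M)), by positivity, ?_, ?_⟩
    · have := min_le_left (1 / 4 / F.M ^ 4) (η / (3 * F.M))
      rwa [le_div_iff₀ (by positivity)] at this
    · have := min_le_right (1 / 4 / F.M ^ 4) (η / (3 * F.M))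
      rw [le_div_iff₀ (by positivity)] at this
      linarith
  have hτ : Slow (cut ε) ε := cut_slow hε.le
  set ρ₁ := Real.exp (-ε⁻¹) with hρ₁
  have hρ₁0 : 0 < ρ₁ := Real.exp_pos _
  have hρ₁1 : ρ₁ < 1 := by
    rw [hρ₁, Real.exp_lt_one_iff]
    have := inv_pos.2 hε
    linarith
  set ρ := ρ₁ / 2 with hρ
  have hρ0 : 0 < ρ := half_pos hρ₁0
  -- the interpolated homeomorphism
  set Φ₀ : E ≃ₜ E := F.homeo hτ hε1 with hΦ₀
  have hΦ₀a : ∀ x, Φ₀ x = F.phi (cut ε) x := fun x => rfl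
  have hout : ∀ x, 1 ≤ ‖x‖ → Φ₀ x = F.K 0 x := by
    intro x hx
    rw [hΦ₀a, Fam.phi, Fam.par, cut_of_nonneg hε.le]
    rw [hN]
    exact Real.log_nonneg hx
  have hin : ∀ x, ‖x‖ ≤ ρ₁ → Φ₀ x = F.K 1 x := by
    intro x hx
    rcases eq_or_ne x 0 with h0 | h0
    · subst h0
      rw [hΦ₀a, F.phi_zero, F.K_zero]
    · have hn : 0 < ‖x‖ := norm_pos_iff.2 h0
      rw [hΦ₀a, Fam.phi, Fam.par, cut_of_le hε]
      rw [hN, Real.log_le_iff_le_exp hn]
      exact hx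
  -- the homeomorphism Θ
  set Θ : E → E := fun x => F.J 1 (ρ • Φ' (ρ⁻¹ • x)) with hΘ
  have hsc : ∀ x : E, ‖ρ⁻¹ • x‖ = ρ⁻¹ * ‖x‖ := fun x => by
    rw [norm_smul, Real.norm_eq_abs, abs_of_pos (inv_pos.2 hρ0)]
  have hΘout : ∀ x, ρ ≤ ‖x‖ → Θ x = x := by
    intro x hx
    have h2 : 1 ≤ ‖ρ⁻¹ • x‖ := by
      rw [hsc]
      have := mul_le_mul_of_nonneg_left hx (inv_pos.2 hρ0).le
      rwa [inv_mul_cancel₀ hρ0.ne'] at this
    simp only [hΘ]
    rw [hΦK _ h2, ← F.hom 1 _ _ hρ0, smul_smul, mul_inv_cancel₀ hρ0.ne', one_smul, F.JK]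
  have hΘh : IsHomeomorph Θ := by
    have hJ : IsHomeomorph (F.J 1) := by
      have hcJ : LipschitzWith ⟨F.M, hM.le⟩ (F.J 1) := LipschitzWith.of_dist_le_mul fun x y => by
        rw [dist_eq_norm, dist_eq_norm]; exact F.lipJ 1 x y
      have hcK : LipschitzWith ⟨F.M, hM.le⟩ (F.K 1) := LipschitzWith.of_dist_le_mul fun x y => by
        rw [dist_eq_norm, dist_eq_norm]; exact F.lipK 1 x y
      exact (Homeomorph.mk ⟨F.J 1, F.K 1, F.KJ 1, F.JK 1⟩ hcJ.continuous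
        hcK.continuous).isHomeomorph
    have hs1 : IsHomeomorph (fun x : E => ρ • x) :=
      (Homeomorph.smulOfNeZero ρ hρ0.ne').isHomeomorph
    have hs2 : IsHomeomorph (fun x : E => ρ⁻¹ • x) :=
      (Homeomorph.smulOfNeZero ρ⁻¹ (inv_pos.2 hρ0).ne').isHomeomorph
    exact hJ.comp (hs1.comp (hΦh.comp hs2))
  have hΘL : LipschitzWith (⟨F.M, hM.le⟩ * C') Θ := by
    refine LipschitzWith.of_dist_le_mul fun x y => ?_
    rw [dist_eq_norm, dist_eq_norm]
    have h2 := F.lipJ 1 (ρ • Φ' (ρ⁻¹ • x)) (ρ • Φ' (ρ⁻¹ • y))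
    have h3 := hC'.dist_le_mul (ρ⁻¹ • x) (ρ⁻¹ • y)
    rw [dist_eq_norm, dist_eq_norm, ← smul_sub, hsc] at h3
    rw [← smul_sub, norm_smul, Real.norm_eq_abs, abs_of_pos hρ0] at h2
    calc ‖Θ x - Θ y‖ ≤ F.M * (ρ * ‖Φ' (ρ⁻¹ • x) - Φ' (ρ⁻¹ • y)‖) := h2
      _ ≤ F.M * (ρ * (C' * (ρ⁻¹ * ‖x - y‖))) := by gcongr
      _ = F.M * C' * ‖x - y‖ := by field_simp
  have hΘball : ∀ x, ‖x‖ < ρ → ‖Θ x‖ < ρ := by
    intro x hx
    by_contra hcon
    push Not at hcon
    have h2 : Θ (Θ x) = Θ x := hΘout _ hcon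
    have h3 := hΘh.injective h2
    rw [h3] at hcon
    linarith
  refine ⟨fun x => Φ₀ (Θ x), Φ₀.isHomeomorph.comp hΘh, ?_, ?_, ?_⟩
  · intro x hx
    show Φ₀ (Θ x) = F.K 0 x
    rw [hΘout x (by linarith), hout x hx]
  · intro x
    rcases lt_or_ge ‖x‖ ρ₁ with hx | hx
    · -- inner ball
      have hev : (fun y => ρ • Φ' (ρ⁻¹ • y)) =ᶠ[𝓝 x] fun y => Φ₀ (Θ y) := by
        have : ∀ᶠ y in 𝓝 x, ‖y‖ < ρ₁ := (isOpen_lt continuous_norm continuous_const).mem_nhds hx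
        filter_upwards [this] with y hy
        have h2 : ‖Θ y‖ ≤ ρ₁ := by
          rcases lt_or_ge ‖y‖ ρ with hy' | hy'
          · exact (hΘball y hy').le.trans (by linarith)
          · rw [hΘout y hy']; exact hy.le
        rw [hin _ h2]
        simp only [hΘ]
        rw [F.KJ]
      exact MollAt.congr (MollAt.rescale hρ0 (hΦM _)) hev
    · -- outside
      have hρx : ρ < ‖x‖ := by linarith
      have hx0 : x ≠ 0 := by
        rw [← norm_pos_iff]; linarith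
      have hev : F.phi (cut ε) =ᶠ[𝓝 x] fun y => Φ₀ (Θ y) := by
        have : ∀ᶠ y in 𝓝 x, ρ < ‖y‖ := (isOpen_lt continuous_const continuous_norm).mem_nhds hρx
        filter_upwards [this] with y hy
        rw [hΘout y hy.le, hΦ₀a]
      exact MollAt.congr (hU (cut ε) ε hτ hε2 x hx0) hev
  · exact ⟨_, (F.lipschitz_phi hτ).comp hΘL⟩

/-- clamping to `[0,1]` -/
noncomputable def clamp (t : ℝ) : ℝ := max 0 (min 1 t)

lemma clamp_mem (t : ℝ) : clamp t ∈ Icc (0 : ℝ) 1 :=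
  ⟨le_max_left _ _, max_le zero_le_one (min_le_left _ _)⟩

lemma clamp_of_mem {t : ℝ} (ht : t ∈ Icc (0 : ℝ) 1) : clamp t = t := by
  rw [clamp, min_eq_right ht.2, max_eq_right ht.1]

lemma abs_clamp_sub (s t : ℝ) : |clamp s - clamp t| ≤ |s - t| := by
  unfold clamp
  refine (abs_max_sub_max_le_max _ _ _ _).trans ?_
  rw [sub_self, abs_zero]
  refine max_le (abs_nonneg _) ?_
  refine (abs_min_sub_min_le_max _ _ _ _).trans ?_
  rw [sub_self, abs_zero]
  exact max_le (abs_nonneg _) le_rfl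

/-- the family of a path -/
theorem MPath.exists_fam {K : ℝ → E → E} {M : ℝ} (h : MPath K M)
    (hE : 1 < Module.finrank ℝ E) {t₁ : ℝ} (ht₁ : t₁ ∈ Icc (0 : ℝ) 1)
    (hinj : Function.Injective (K t₁)) :
    ∃ F : Fam E, (∀ t, F.K t = K (clamp t)) ∧ (∀ x, F.G.N x = ‖x‖) ∧
      ∃ q > 0, ∀ t₀ : ℝ, ∀ x₀ : E, x₀ ≠ 0 → ∃ r > 0, ∃ C : Set (E →L[ℝ] E), GoodQ q C ∧
        ∀ t, |t - t₀| < r → Seg C (F.K t) (ball x₀ r) := by
  have hall := h.injective_all ht₁ hinj
  obtain ⟨q, hq, hq1, hu⟩ := h.unif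
  have hU : ∀ t ∈ Icc (0 : ℝ) 1, Unif q (K t) := fun t ht x₀ hx₀ => by
    obtain ⟨C, hC, hs⟩ := hu t ht x₀ hx₀
    exact ⟨C, hC, hs t ht (by rw [sub_self, abs_zero]; exact hq)⟩
  have hbij : ∀ t, Function.Bijective (K (clamp t)) := fun t =>
    ⟨hall _ (clamp_mem t), (hU _ (clamp_mem t)).surjective hE hq hq1 (h.hom _ (clamp_mem t))⟩
  set e : ℝ → E ≃ E := fun t => Equiv.ofBijective _ (hbij t) with he
  have hJK : ∀ t x, (e t).symm (K (clamp t) x) = x := fun t x => (e t).symm_apply_apply x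
  have hKJ : ∀ t x, K (clamp t) ((e t).symm x) = x := fun t x => (e t).apply_symm_apply x
  set M' : ℝ := max (max (2 / q ^ 2) (32 / q ^ 2)) (max |M| 1) with hM'
  have hM1 : 2 / q ^ 2 ≤ M' := (le_max_left _ _).trans (le_max_left _ _)
  have hM2 : 32 / q ^ 2 ≤ M' := (le_max_right _ _).trans (le_max_left _ _)
  have hM3 : M ≤ M' := (le_abs_self M).trans ((le_max_left _ _).trans (le_max_right _ _))
  have hM4 : 1 ≤ M' := (le_max_right _ _).trans (le_max_right _ _)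
  refine ⟨⟨fun t => K (clamp t), fun t => (e t).symm, M', hM4,
    fun t => h.hom _ (clamp_mem t), hJK, hKJ, ?_, ?_, ?_, Gauge.ofNorm E⟩, fun _ => rfl,
    fun _ => rfl, q, hq, ?_⟩
  · intro t x y
    exact ((hU _ (clamp_mem t)).lip hq hq1 (h.hom _ (clamp_mem t)) x y).trans
      (mul_le_mul_of_nonneg_right hM1 (norm_nonneg _))
  · intro t x y
    have h1 := (hU _ (clamp_mem t)).antilip hq hq1 (h.hom _ (clamp_mem t)) (hall _ (clamp_mem t))
      ((e t).symm x) ((e t).symm y)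
    rw [hKJ, hKJ] at h1
    have h2 : ‖(e t).symm x - (e t).symm y‖ ≤ 32 / q ^ 2 * ‖x - y‖ := by
      rw [div_mul_eq_mul_div, le_div_iff₀ (by positivity)]
      have h3 := mul_le_mul_of_nonneg_left h1 (by norm_num : (0:ℝ) ≤ 32)
      calc ‖(e t).symm x - (e t).symm y‖ * q ^ 2 =
            32 * (q ^ 2 / 32 * ‖(e t).symm x - (e t).symm y‖) := by ring
        _ ≤ 32 * ‖x - y‖ := h3
    exact h2.trans (mul_le_mul_of_nonneg_right hM2 (norm_nonneg _))
  · intro s t x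
    refine (h.lipt _ (clamp_mem s) _ (clamp_mem t) x).trans ?_
    refine mul_le_mul_of_nonneg_right ?_ (norm_nonneg _)
    exact mul_le_mul hM3 (abs_clamp_sub s t) (abs_nonneg _) (by linarith)
  · intro t₀ x₀ hx₀
    have hn : 0 < ‖x₀‖ := norm_pos_iff.2 hx₀
    obtain ⟨C, hC, hs⟩ := hu (clamp t₀) (clamp_mem t₀) (‖x₀‖⁻¹ • x₀) (by
      rw [norm_smul, norm_inv, norm_norm, inv_mul_cancel₀ hn.ne'])
    refine ⟨min q (‖x₀‖ * q), lt_min hq (by positivity), C, hC, fun t ht => ?_⟩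
    have h1 := (hs (clamp t) (clamp_mem t)
      ((abs_clamp_sub t t₀).trans_lt (ht.trans_le (min_le_left _ _)))).scale
      (h.hom _ (clamp_mem t)) hn
    rw [smul_smul, mul_inv_cancel₀ hn.ne', one_smul] at h1
    exact h1.mono subset_rfl (ball_subset_ball (min_le_right _ _))

/-- **One step of CORE3 along a path.** -/
theorem MPath.coreAt {μ : Measure E} [μ.IsAddHaarMeasure] {K : ℝ → E → E} {M : ℝ}
    (h : MPath K M) (hE : 1 < Module.finrank ℝ E) {t₁ : ℝ} (ht₁ : t₁ ∈ Icc (0 : ℝ) 1)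
    (hinj : Function.Injective (K t₁)) (h1 : CoreAt μ (K 1)) : CoreAt μ (K 0) := by
  have : ProperSpace (E →L[ℝ] E) := FiniteDimensional.proper_real _
  obtain ⟨F, hF, hN, q, hq, hs⟩ := h.exists_fam hE ht₁ hinj
  have e1 : F.K 1 = K 1 := by rw [hF, clamp_of_mem (right_mem_Icc.2 zero_le_one)]
  have e0 : F.K 0 = K 0 := by rw [hF, clamp_of_mem (left_mem_Icc.2 zero_le_one)]
  rw [← e0]
  rw [← e1] at h1
  refine F.coreAt_of_moll hq ?_ h1 hN
  intro τ ε hτ hε x hx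
  obtain ⟨r, hr, C, hC, hseg⟩ := hs (F.par τ x) x hx
  obtain ⟨r', hr', h2⟩ := F.seg_phi hτ hx hr hseg
  refine mollAt_of_seg (C := cthickening q C) ⟨hC.conv.cthickening q, hC.cpt.cthickening,
    hC.thick⟩ hr' (h2.mono (cthickening_mono hε C) subset_rfl)

/-- the conic maps of a path are homeomorphisms -/
theorem MPath.isHomeomorph {K : ℝ → E → E} {M : ℝ}
    (h : MPath K M) (hE : 1 < Module.finrank ℝ E) {t₁ : ℝ} (ht₁ : t₁ ∈ Icc (0 : ℝ) 1)
    (hinj : Function.Injective (K t₁)) {t : ℝ} (ht : t ∈ Icc (0 : ℝ) 1) :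
    IsHomeomorph (K t) := by
  obtain ⟨F, hF, -⟩ := h.exists_fam hE ht₁ hinj
  have e1 : F.K t = K t := by rw [hF, clamp_of_mem ht]
  rw [← e1]
  have hM := F.M_pos
  have hcJ : LipschitzWith ⟨F.M, hM.le⟩ (F.J t) := LipschitzWith.of_dist_le_mul fun x y => by
    rw [dist_eq_norm, dist_eq_norm]; exact F.lipJ t x y
  have hcK : LipschitzWith ⟨F.M, hM.le⟩ (F.K t) := LipschitzWith.of_dist_le_mul fun x y => by
    rw [dist_eq_norm, dist_eq_norm]; exact F.lipK t x y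
  exact (Homeomorph.mk ⟨F.K t, F.J t, F.JK t, F.KJ t⟩ hcK.continuous
    hcJ.continuous).isHomeomorph

/-! ### the relation `Sim` -/

/-- near every point of the unit sphere both maps satisfy the segment condition with one good
set -/
def Sim (K K' : E → E) : Prop :=
  ∀ x₀ : E, ‖x₀‖ = 1 → ∃ r > 0, ∃ C : Set (E →L[ℝ] E), Good C ∧ Seg C K (ball x₀ r) ∧
    Seg C K' (ball x₀ r)

lemma Sim.symm {K K' : E → E} (h : Sim K K') : Sim K' K := fun x₀ hx₀ =>
  let ⟨r, hr, C, hC, h1, h2⟩ := h x₀ hx₀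
  ⟨r, hr, C, hC, h2, h1⟩

/-- a conic map which is continuous on the unit sphere is bounded by a multiple of the norm -/
lemma Hom.bound {K : E → E} (hK : Hom K) (hc : ContinuousOn K (sphere (0 : E) 1)) :
    ∃ B : ℝ, 0 ≤ B ∧ ∀ x, ‖K x‖ ≤ B * ‖x‖ := by
  have : ProperSpace E := FiniteDimensional.proper_real _
  obtain ⟨B, hB⟩ := (isCompact_sphere (0 : E) 1).exists_bound_of_continuousOn hc
  refine ⟨max B 0, le_max_right _ _, fun x => ?_⟩
  rcases eq_or_ne x 0 with hx | hx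
  · subst hx; simp [hK.zero]
  · have hn : 0 < ‖x‖ := norm_pos_iff.2 hx
    have h1 := hB (‖x‖⁻¹ • x) (by
      rw [mem_sphere_zero_iff_norm, norm_smul, norm_inv, norm_norm, inv_mul_cancel₀ hn.ne'])
    rw [hK _ _ (inv_pos.2 hn), norm_smul, norm_inv, norm_norm, inv_mul_le_iff₀ hn] at h1
    calc ‖K x‖ ≤ ‖x‖ * B := h1
      _ ≤ max B 0 * ‖x‖ := by
          rw [mul_comm]; exact mul_le_mul_of_nonneg_right (le_max_left _ _) (norm_nonneg _)

/-- the straight path between two maps -/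
theorem Sim.mpath {K K' : E → E} (h : Sim K K') (hK : Hom K) (hK' : Hom K') :
    ∃ M, MPath (fun t x => (1 - t) • K x + t • K' x) M := by
  have hcont : ∀ K K' : E → E, Sim K K' → ContinuousOn K (sphere (0 : E) 1) := by
    intro K K' h x hx
    rw [mem_sphere_zero_iff_norm] at hx
    obtain ⟨r, hr, C, hC, h1, -⟩ := h x hx
    obtain ⟨L, hL⟩ := exists_norm_le hC.cpt
    exact (((h1.lipschitz hL).continuousOn).continuousAt (ball_mem_nhds x hr)).continuousWithinAt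
  obtain ⟨B, hB0, hB⟩ := hK.bound (hcont K K' h)
  obtain ⟨B', hB'0, hB'⟩ := hK'.bound (hcont K' K h.symm)
  refine ⟨B + B', ?_, ?_, ?_⟩
  · intro t _ c x hc
    show (1 - t) • K (c • x) + t • K' (c • x) = c • ((1 - t) • K x + t • K' x)
    rw [hK _ _ hc, hK' _ _ hc, smul_add, smul_comm c (1 - t), smul_comm c t]
  · intro s _ t _ x
    have e : (1 - s) • K x + s • K' x - ((1 - t) • K x + t • K' x) = (s - t) • (K' x - K x) := by
      simp only [sub_smul, one_smul, smul_sub]; abel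
    show ‖(1 - s) • K x + s • K' x - ((1 - t) • K x + t • K' x)‖ ≤ _
    rw [e, norm_smul, Real.norm_eq_abs]
    have h1 : ‖K' x - K x‖ ≤ (B + B') * ‖x‖ := by
      refine (norm_sub_le _ _).trans ?_
      have := hB x
      have := hB' x
      linarith [add_mul B B' ‖x‖]
    calc |s - t| * ‖K' x - K x‖ ≤ |s - t| * ((B + B') * ‖x‖) :=
          mul_le_mul_of_nonneg_left h1 (abs_nonneg _)
      _ = (B + B') * |s - t| * ‖x‖ := by ring
  · intro t₀ _ x₀ hx₀
    obtain ⟨r, hr, C, hC, h1, h2⟩ := h x₀ hx₀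
    refine ⟨r, hr, C, hC, fun t ht _ a ha b hb => ?_⟩
    obtain ⟨A, hA, e⟩ := h1 a ha b hb
    obtain ⟨A', hA', e'⟩ := h2 a ha b hb
    refine ⟨(1 - t) • A + t • A', hC.conv hA hA' (sub_nonneg.2 ht.2) ht.1 (by ring), ?_⟩
    show (1 - t) • K a + t • K' a - ((1 - t) • K b + t • K' b) = (1 - t) • A (a - b) + t • A' (a - b)
    rw [← e, ← e', smul_sub, smul_sub]
    abel

/-- **`CoreAt` is invariant under `Sim`.** -/
theorem Sim.coreAt {μ : Measure E} [μ.IsAddHaarMeasure] (hE : 1 < Module.finrank ℝ E)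
    {K K' : E → E} (hK : Hom K) (hK' : Hom K') (hinj : Function.Injective K) (h : Sim K K') :
    IsHomeomorph K' ∧ (CoreAt μ K' ↔ CoreAt μ K) := by
  obtain ⟨M, hM⟩ := h.mpath hK hK'
  have h0 : (fun x => (1 - (0:ℝ)) • K x + (0:ℝ) • K' x) = K := by funext x; simp
  have h1 : (fun x => (1 - (1:ℝ)) • K x + (1:ℝ) • K' x) = K' := by funext x; simp
  have hinj0 : Function.Injective ((fun t x => (1 - t) • K x + t • K' x) (0:ℝ)) := by
    show Function.Injective (fun x => (1 - (0:ℝ)) • K x + (0:ℝ) • K' x)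
    rw [h0]; exact hinj
  have hK'h : IsHomeomorph K' := by
    have := hM.isHomeomorph hE (left_mem_Icc.2 zero_le_one) hinj0 (right_mem_Icc.2 zero_le_one)
    rwa [h1] at this
  refine ⟨hK'h, fun hc => ?_, fun hc => ?_⟩
  · have := hM.coreAt (μ := μ) hE (left_mem_Icc.2 zero_le_one) hinj0 (by
      rw [h1]; exact hc)
    rwa [h0] at this
  · obtain ⟨M', hM'⟩ := h.symm.mpath hK' hK
    have h0' : (fun x => (1 - (0:ℝ)) • K' x + (0:ℝ) • K x) = K' := by funext x; simp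
    have h1' : (fun x => (1 - (1:ℝ)) • K' x + (1:ℝ) • K x) = K := by funext x; simp
    have hinj1 : Function.Injective ((fun t x => (1 - t) • K' x + t • K x) (1:ℝ)) := by
      show Function.Injective (fun x => (1 - (1:ℝ)) • K' x + (1:ℝ) • K x)
      rw [h1']; exact hinj
    have := hM'.coreAt (μ := μ) hE (right_mem_Icc.2 zero_le_one) hinj1 (by
      rw [h1']; exact hc)
    rwa [h0'] at this

end Crest.Agent.R096.Vx_270
end

-- ▼ part R096/Rd1_695
section

/-!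
# C3-RED, part 1 (helper695, row 96 P5): smooth conic diffeomorphisms, linear homotopies, paths

`SC H` : `H` is a conic homeomorphism, smooth off `0`, with positive Jacobian.
-/

set_option autoImplicit false

open MeasureTheory Metric Set Filter Topology
open scoped NNReal ContDiff

namespace Crest.Agent.R096.Rd_695

open Crest.Agent.R096.Vx_270 (Seg Good Sim CoreAt)
open Crest.Agent.R096.Hm_695 (Conic Conic.fderiv_smul Conic.zero)

variable {E : Type*} [NormedAddCommGroup E] [InnerProductSpace ℝ E] [FiniteDimensional ℝ E]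

/-- smooth conic diffeomorphism -/
structure SC (H : E → E) : Prop where
  conic : Conic H
  smooth : ContDiffOn ℝ ∞ H {0}ᶜ
  det : ∀ x, x ≠ 0 → 0 < (fderiv ℝ H x).det
  homeo : IsHomeomorph H

omit [FiniteDimensional ℝ E] in
lemma SC.contDiffAt {H : E → E} (h : SC H) {x : E} (hx : x ≠ 0) : ContDiffAt ℝ ∞ H x :=
  h.smooth.contDiffAt (isOpen_compl_singleton.mem_nhds hx)

omit [FiniteDimensional ℝ E] in
lemma SC.differentiableAt {H : E → E} (h : SC H) {x : E} (hx : x ≠ 0) : DifferentiableAt ℝ H x :=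
  (h.contDiffAt hx).differentiableAt (by simp)

omit [FiniteDimensional ℝ E] in
lemma SC.ne_zero {H : E → E} (h : SC H) {x : E} (hx : x ≠ 0) : H x ≠ 0 := fun he =>
  hx (h.homeo.injective (by rw [he, h.conic.zero]))

omit [FiniteDimensional ℝ E] in
/-- Euler's identity -/
lemma euler {H : E → E} (hc : Conic H) {x : E} (hd : DifferentiableAt ℝ H x) :
    fderiv ℝ H x x = H x := by
  have h1 : HasDerivAt (fun t : ℝ => H (t • x)) (fderiv ℝ H x x) 1 := by
    have h2 : HasDerivAt (fun t : ℝ => t • x) x 1 := by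
      simpa using (hasDerivAt_id (1:ℝ)).smul_const x
    have h3 : HasFDerivAt H (fderiv ℝ H x) ((1:ℝ) • x) := by
      rw [one_smul]; exact hd.hasFDerivAt
    exact h3.comp_hasDerivAt (1:ℝ) h2
  have h2 : HasDerivAt (fun t : ℝ => H (t • x)) (H x) 1 := by
    have h3 : HasDerivAt (fun t : ℝ => t • H x) (H x) 1 := by
      simpa using (hasDerivAt_id (1:ℝ)).smul_const (H x)
    refine h3.congr_of_eventuallyEq ?_
    filter_upwards [Ioi_mem_nhds (show (0:ℝ) < 1 from one_pos)] with t ht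
    exact hc t (le_of_lt ht) x
  exact h1.unique h2

omit [FiniteDimensional ℝ E] in
lemma inj_of_det {A : E →L[ℝ] E} [FiniteDimensional ℝ E] (hA : A.det ≠ 0) {v : E} (hv : A v = 0) :
    v = 0 := by
  apply (A.toContinuousLinearEquivOfDetNeZero hA).injective
  rw [ContinuousLinearMap.toContinuousLinearEquivOfDetNeZero_apply,
    ContinuousLinearMap.toContinuousLinearEquivOfDetNeZero_apply, hv, map_zero]

omit [FiniteDimensional ℝ E] in
lemma det_ne_of_inj {A : E →L[ℝ] E} [FiniteDimensional ℝ E] (hA : ∀ v, A v = 0 → v = 0) :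
    A.det ≠ 0 := by
  have h1 : Function.Injective (A : E →ₗ[ℝ] E) := by
    rw [← LinearMap.ker_eq_bot, LinearMap.ker_eq_bot']
    exact fun m hm => hA m hm
  have h2 : IsUnit (A : E →ₗ[ℝ] E) := (LinearMap.isUnit_iff_ker_eq_bot _).2
    (LinearMap.ker_eq_bot.2 h1)
  exact (LinearMap.isUnit_iff_isUnit_det _).1 h2 |>.ne_zero

/-- `Seg` from a derivative bound -/
lemma seg_of_fderiv {C : Set (E →L[ℝ] E)} (hC : Convex ℝ C) (hCc : IsClosed C) {f : E → E}
    {B : Set E} (hB : Convex ℝ B) (hf : ∀ z ∈ B, ContDiffAt ℝ 1 f z)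
    (hm : ∀ z ∈ B, fderiv ℝ f z ∈ C) : Seg C f B := fun _ ha _ hb =>
  Mo_119.exists_seg hB hC hCc hf hm ha hb

/-- **Linear homotopy**: two `C^1` conic maps whose derivatives span a segment of positive
determinant at every point are `Sim`. -/
theorem sim_of_segment {K K' : E → E} (hK : ContDiffOn ℝ 1 K {0}ᶜ) (hK' : ContDiffOn ℝ 1 K' {0}ᶜ)
    (hdet : ∀ x, x ≠ 0 → ∀ s ∈ Icc (0:ℝ) 1,
      0 < ((1 - s) • fderiv ℝ K x + s • fderiv ℝ K' x).det) : Sim K K' := by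
  intro x₀ hx₀
  have hne : x₀ ≠ 0 := by
    rintro rfl; simp at hx₀
  have hps : ProperSpace (E →L[ℝ] E) := FiniteDimensional.proper_real _
  have hK1 : ∀ x, x ≠ 0 → ContDiffAt ℝ 1 K x := fun x hx =>
    hK.contDiffAt (isOpen_compl_singleton.mem_nhds hx)
  have hK1' : ∀ x, x ≠ 0 → ContDiffAt ℝ 1 K' x := fun x hx =>
    hK'.contDiffAt (isOpen_compl_singleton.mem_nhds hx)
  set S : Set (E →L[ℝ] E) := segment ℝ (fderiv ℝ K x₀) (fderiv ℝ K' x₀) with hS
  have hSc : IsCompact S := by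
    rw [hS, segment_eq_image]
    exact isCompact_Icc.image (by fun_prop)
  have hSd : ∀ A ∈ S, 0 < A.det := by
    rw [hS, segment_eq_image]
    rintro _ ⟨s, hs, rfl⟩
    exact hdet x₀ hne s hs
  obtain ⟨t, ht, htS⟩ := Mo_119.exists_tol hSc hSd
  have hc1 : ∀ᶠ x in 𝓝 x₀, fderiv ℝ K x ∈ ball (fderiv ℝ K x₀) t :=
    ((hK1 x₀ hne).continuousAt_fderiv one_ne_zero).eventually (ball_mem_nhds _ ht)
  have hc2 : ∀ᶠ x in 𝓝 x₀, fderiv ℝ K' x ∈ ball (fderiv ℝ K' x₀) t :=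
    ((hK1' x₀ hne).continuousAt_fderiv one_ne_zero).eventually (ball_mem_nhds _ ht)
  have hc3 : ∀ᶠ x in 𝓝 x₀, x ≠ 0 := isOpen_ne.mem_nhds hne
  obtain ⟨r, hr, hb⟩ := Metric.eventually_nhds_iff_ball.1 (hc1.and (hc2.and hc3))
  have hSconv : Convex ℝ S := convex_segment _ _
  have hTconv : Convex ℝ (cthickening t S) := hSconv.cthickening t
  have hl : fderiv ℝ K x₀ ∈ S := left_mem_segment ℝ _ _
  have hr' : fderiv ℝ K' x₀ ∈ S := right_mem_segment ℝ _ _
  have hm1 : ∀ z ∈ ball x₀ r, fderiv ℝ K z ∈ cthickening t S := fun z hz =>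
    mem_cthickening_of_dist_le (fderiv ℝ K z) (fderiv ℝ K x₀) t S hl
      (mem_ball.1 (hb z hz).1).le
  have hm2 : ∀ z ∈ ball x₀ r, fderiv ℝ K' z ∈ cthickening t S := fun z hz =>
    mem_cthickening_of_dist_le (fderiv ℝ K' z) (fderiv ℝ K' x₀) t S hr'
      (mem_ball.1 (hb z hz).2.1).le
  refine ⟨r, hr, cthickening t S, ⟨hTconv, hSc.cthickening, fun A hA => (htS A hA).1⟩, ?_, ?_⟩
  · exact seg_of_fderiv hTconv isClosed_cthickening (convex_ball x₀ r)
      (fun z hz => hK1 z (hb z hz).2.2) hm1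
  · exact seg_of_fderiv hTconv isClosed_cthickening (convex_ball x₀ r)
      (fun z hz => hK1' z (hb z hz).2.2) hm2

/-- nearby members of a path with continuous derivative are `Sim` -/
theorem sim_of_path {K : ℝ → E → E} (hK : ∀ t ∈ Icc (0:ℝ) 1, ContDiffOn ℝ 1 (K t) {0}ᶜ)
    (hcont : ContinuousOn (fun p : ℝ × E => fderiv ℝ (K p.1) p.2) (Icc 0 1 ×ˢ {0}ᶜ))
    (hdet : ∀ t ∈ Icc (0:ℝ) 1, ∀ x, x ≠ 0 → 0 < (fderiv ℝ (K t) x).det)
    {t₀ : ℝ} (ht₀ : t₀ ∈ Icc (0:ℝ) 1) :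
    ∃ ε > 0, ∀ t ∈ Icc (0:ℝ) 1, |t - t₀| < ε → Sim (K t₀) (K t) := by
  have hps : ProperSpace (E →L[ℝ] E) := FiniteDimensional.proper_real _
  have hps' : ProperSpace E := FiniteDimensional.proper_real _
  -- local statement
  have hloc : ∀ x₀ ∈ sphere (0:E) 1, ∃ ε > 0, ∃ r > 0, ∃ C, Good C ∧
      ∀ t ∈ Icc (0:ℝ) 1, |t - t₀| < ε → Seg C (K t) (ball x₀ r) := by
    intro x₀ hx₀
    have hx₀' : ‖x₀‖ = 1 := by simpa using hx₀
    have hne : x₀ ≠ 0 := by
      rintro rfl; simp at hx₀'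
    obtain ⟨η, hη, hηd⟩ := Mo_119.exists_tol (isCompact_singleton (x := fderiv ℝ (K t₀) x₀))
      (by simpa using hdet t₀ ht₀ x₀ hne)
    rw [cthickening_singleton _ hη.le] at hηd
    have h1 := hcont (t₀, x₀) ⟨ht₀, hne⟩
    rw [ContinuousWithinAt, Metric.tendsto_nhdsWithin_nhds] at h1
    obtain ⟨d, hd, hdb⟩ := h1 η hη
    have hBconv : Convex ℝ (closedBall (fderiv ℝ (K t₀) x₀) η) :=
      convex_closedBall (fderiv ℝ (K t₀) x₀) η
    have hBc : IsCompact (closedBall (fderiv ℝ (K t₀) x₀) η) :=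
      isCompact_closedBall (fderiv ℝ (K t₀) x₀) η
    have hgood : Good (closedBall (fderiv ℝ (K t₀) x₀) η) :=
      ⟨hBconv, hBc, fun A hA => (hηd A hA).1⟩
    refine ⟨d, hd, min d 1, lt_min hd one_pos, closedBall (fderiv ℝ (K t₀) x₀) η, hgood, ?_⟩
    intro t ht htd
    have hz0 : ∀ z ∈ ball x₀ (min d 1), z ≠ 0 := by
      rintro z hz rfl
      rw [mem_ball, dist_comm, dist_zero_right, hx₀'] at hz
      linarith [min_le_right d 1]
    have hm1 : ∀ z ∈ ball x₀ (min d 1), fderiv ℝ (K t) z ∈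
        closedBall (fderiv ℝ (K t₀) x₀) η := by
      intro z hz
      have h2 := @hdb (t, z) ⟨ht, hz0 z hz⟩ (by
        rw [Prod.dist_eq]
        refine max_lt ?_ ?_
        · rw [Real.dist_eq]; exact htd
        · exact (mem_ball.1 hz).trans_le (min_le_left _ _))
      exact (mem_closedBall.2 h2.le)
    have hsm : ∀ z ∈ ball x₀ (min d 1), ContDiffAt ℝ 1 (K t) z := fun z hz =>
      (hK t ht).contDiffAt (isOpen_compl_singleton.mem_nhds (hz0 z hz))
    exact seg_of_fderiv hBconv hBc.isClosed (convex_ball x₀ (min d 1)) hsm hm1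
  -- uniformity
  have huni : ∃ ε > 0, ∀ x₀ ∈ sphere (0:E) 1, ∃ r > 0, ∃ C, Good C ∧
      ∀ t ∈ Icc (0:ℝ) 1, |t - t₀| < ε → Seg C (K t) (ball x₀ r) := by
    refine (isCompact_sphere (0 : E) 1).induction_on
      (p := fun s => ∃ ε > 0, ∀ x₀ ∈ s, ∃ r > 0, ∃ C, Good C ∧
      ∀ t ∈ Icc (0:ℝ) 1, |t - t₀| < ε → Seg C (K t) (ball x₀ r)) ?_ ?_ ?_ ?_
    · exact ⟨1, one_pos, fun x hx => absurd hx (notMem_empty x)⟩
    · rintro s t hst ⟨ε, hε, h⟩
      exact ⟨ε, hε, fun x hx => h x (hst hx)⟩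
    · rintro s t ⟨ε, hε, h⟩ ⟨ε', hε', h'⟩
      refine ⟨min ε ε', lt_min hε hε', ?_⟩
      rintro x (hx | hx)
      · obtain ⟨r, hr, C, hC, h2⟩ := h x hx
        exact ⟨r, hr, C, hC, fun t ht htd => h2 t ht (htd.trans_le (min_le_left _ _))⟩
      · obtain ⟨r, hr, C, hC, h2⟩ := h' x hx
        exact ⟨r, hr, C, hC, fun t ht htd => h2 t ht (htd.trans_le (min_le_right _ _))⟩
    · intro x₀ hx₀
      obtain ⟨ε, hε, r, hr, C, hC, h⟩ := hloc x₀ hx₀
      refine ⟨ball x₀ (r / 2), mem_nhdsWithin_of_mem_nhds (ball_mem_nhds _ (half_pos hr)),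
        ε, hε, fun x hx => ⟨r / 2, half_pos hr, C, hC, fun t ht htd a ha b hb => ?_⟩⟩
      have hsub : ball x (r / 2) ⊆ ball x₀ r := by
        refine ball_subset_ball' ?_
        rw [mem_ball] at hx
        linarith
      exact h t ht htd a (hsub ha) b (hsub hb)
  obtain ⟨ε, hε, h⟩ := huni
  refine ⟨ε, hε, fun t ht htd x₀ hx₀ => ?_⟩
  obtain ⟨r, hr, C, hC, h2⟩ := h x₀ (by simpa using hx₀)
  exact ⟨r, hr, C, hC, h2 t₀ ht₀ (by simpa using hε), h2 t ht htd⟩

section core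
variable [MeasurableSpace E] [BorelSpace E] (μ : Measure E) [μ.IsAddHaarMeasure]

/-- **Path step**: along a path of conic maps with continuous derivative of positive determinant,
being a homeomorphism and `CoreAt` are invariant. -/
theorem path_step (hE : 1 < Module.finrank ℝ E) {K : ℝ → E → E}
    (hconic : ∀ t ∈ Icc (0:ℝ) 1, Conic (K t))
    (hK : ∀ t ∈ Icc (0:ℝ) 1, ContDiffOn ℝ 1 (K t) {0}ᶜ)
    (hcont : ContinuousOn (fun p : ℝ × E => fderiv ℝ (K p.1) p.2) (Icc 0 1 ×ˢ {0}ᶜ))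
    (hdet : ∀ t ∈ Icc (0:ℝ) 1, ∀ x, x ≠ 0 → 0 < (fderiv ℝ (K t) x).det)
    (h0 : IsHomeomorph (K 0)) {t : ℝ} (ht : t ∈ Icc (0:ℝ) 1) :
    IsHomeomorph (K t) ∧ (CoreAt μ (K t) ↔ CoreAt μ (K 0)) := by
  have hstep : ∀ t₀ ∈ Icc (0:ℝ) 1, ∃ ε > 0, ∀ s ∈ Icc (0:ℝ) 1, |s - t₀| < ε →
      (IsHomeomorph (K t₀) → IsHomeomorph (K s) ∧ (CoreAt μ (K s) ↔ CoreAt μ (K t₀))) ∧
      (IsHomeomorph (K s) → IsHomeomorph (K t₀) ∧ (CoreAt μ (K t₀) ↔ CoreAt μ (K s))) := by
    intro t₀ ht₀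
    obtain ⟨ε, hε, h⟩ := sim_of_path hK hcont hdet ht₀
    refine ⟨ε, hε, fun s hs hst => ⟨fun hh => ?_, fun hh => ?_⟩⟩
    · exact Sim.coreAt (μ := μ) hE (fun c x hc => hconic t₀ ht₀ c hc.le x)
        (fun c x hc => hconic s hs c hc.le x) hh.injective (h s hs hst)
    · have hsym : Sim (K s) (K t₀) := by
        intro x₀ hx₀
        obtain ⟨r, hr, C, hC, h1, h2⟩ := h s hs hst x₀ hx₀
        exact ⟨r, hr, C, hC, h2, h1⟩
      exact Sim.coreAt (μ := μ) hE (fun c x hc => hconic s hs c hc.le x)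
        (fun c x hc => hconic t₀ ht₀ c hc.le x) hh.injective hsym
  -- clopen argument on the subtype
  set P : Set (Icc (0:ℝ) 1) := {s | IsHomeomorph (K s) ∧ (CoreAt μ (K s) ↔ CoreAt μ (K 0))}
    with hP
  have hopen : IsOpen P := by
    rw [Metric.isOpen_iff]
    intro s hs
    obtain ⟨ε, hε, h⟩ := hstep s s.2
    refine ⟨ε, hε, fun u hu => ?_⟩
    have hu' : |(u:ℝ) - s| < ε := by
      rw [mem_ball, Subtype.dist_eq, Real.dist_eq] at hu
      exact hu
    obtain ⟨h1, h2⟩ := (h u u.2 hu').1 hs.1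
    exact ⟨h1, h2.trans hs.2⟩
  have hclosed : IsClosed P := by
    rw [← isOpen_compl_iff, Metric.isOpen_iff]
    intro s hs
    obtain ⟨ε, hε, h⟩ := hstep s s.2
    refine ⟨ε, hε, fun u hu huP => hs ?_⟩
    have hu' : |(u:ℝ) - s| < ε := by
      rw [mem_ball, Subtype.dist_eq, Real.dist_eq] at hu
      exact hu
    obtain ⟨h1, h2⟩ := (h u u.2 hu').2 huP.1
    exact ⟨h1, h2.trans huP.2⟩
  have hmem0 : (⟨0, by simp⟩ : Icc (0:ℝ) 1) ∈ P := ⟨h0, Iff.rfl⟩
  have huniv : P = univ := IsClopen.eq_univ ⟨hclosed, hopen⟩ ⟨_, hmem0⟩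
  have : (⟨t, ht⟩ : Icc (0:ℝ) 1) ∈ P := by rw [huniv]; exact mem_univ _
  exact this

/-- **Segment step** -/
theorem segment_step (hE : 1 < Module.finrank ℝ E) {K K' : E → E} (hK : SC K) (hc : Conic K')
    (hs : ContDiffOn ℝ ∞ K' {0}ᶜ)
    (hdet : ∀ x, x ≠ 0 → ∀ s ∈ Icc (0:ℝ) 1,
      0 < ((1 - s) • fderiv ℝ K x + s • fderiv ℝ K' x).det) :
    SC K' ∧ (CoreAt μ K' ↔ CoreAt μ K) := by
  have hsim : Sim K K' := sim_of_segment (hK.smooth.of_le (by norm_cast))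
    (hs.of_le (by norm_cast)) hdet
  obtain ⟨h1, h2⟩ := Sim.coreAt (μ := μ) hE (fun c x hc => hK.conic c hc.le x)
    (fun c x hc' => hc c hc'.le x) hK.homeo.injective hsim
  refine ⟨⟨hc, hs, fun x hx => ?_, h1⟩, h2⟩
  have := hdet x hx 1 (by simp)
  simpa using this

end core

end Crest.Agent.R096.Rd_695
end

-- ▼ part R096/Rd2_695
section

/-!
# C3-RED, part 2 (helper695, row 96 P5): making a smooth conic diffeomorphism the identity near a ray
-/

set_option autoImplicit false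

open MeasureTheory Metric Set Filter Topology
open scoped NNReal ContDiff

namespace Crest.Agent.R096.Rd_695

open Crest.Agent.R096.Vx_270 (Seg Good Sim CoreAt)
open Crest.Agent.R096.Hm_695 (Conic Conic.fderiv_smul Conic.zero)

/-- the profile: `1` on `(-∞, 1]`, `0` on `[4, ∞)` -/
noncomputable def beta (q : ℝ) : ℝ := Real.smoothTransition ((4 - q) / 3)

lemma beta_contDiff : ContDiff ℝ ∞ beta := by
  unfold beta
  exact Real.smoothTransition.contDiff.comp (by fun_prop)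

lemma beta_nonneg (q : ℝ) : 0 ≤ beta q := Real.smoothTransition.nonneg _

lemma beta_le_one (q : ℝ) : beta q ≤ 1 := Real.smoothTransition.le_one _

lemma beta_of_le {q : ℝ} (h : q ≤ 1) : beta q = 1 :=
  Real.smoothTransition.one_of_one_le (by linarith)

lemma beta_of_ge {q : ℝ} (h : 4 ≤ q) : beta q = 0 :=
  Real.smoothTransition.zero_of_nonpos (by linarith)

lemma deriv_beta_of_ge {q : ℝ} (h : 4 ≤ q) : deriv beta q = 0 := by
  apply IsLocalMin.deriv_eq_zero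
  refine Eventually.of_forall fun p => ?_
  rw [beta_of_ge h]; exact beta_nonneg p

lemma deriv_beta_of_le {q : ℝ} (h : q ≤ 1) : deriv beta q = 0 := by
  apply IsLocalMax.deriv_eq_zero
  refine Eventually.of_forall fun p => ?_
  rw [beta_of_le h]; exact beta_le_one p

lemma exists_beta_bound : ∃ B : ℝ, 0 ≤ B ∧ ∀ q, |deriv beta q| ≤ B := by
  have hc : Continuous (deriv beta) := beta_contDiff.continuous_deriv (by simp)
  obtain ⟨B, hB⟩ := (isCompact_Icc (a := (1:ℝ)) (b := 4)).exists_bound_of_continuousOn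
    hc.continuousOn
  have hB0 : 0 ≤ B := (norm_nonneg _).trans (hB 1 (by norm_num))
  refine ⟨B, hB0, fun q => ?_⟩
  rcases le_total q 1 with h | h
  · rw [deriv_beta_of_le h, abs_zero]; exact hB0
  · rcases le_total q 4 with h' | h'
    · exact hB q ⟨h, h'⟩
    · rw [deriv_beta_of_ge h', abs_zero]; exact hB0

variable {E : Type*} [NormedAddCommGroup E] [InnerProductSpace ℝ E]

/-- the angular cut-off -/
noncomputable def chi (e : E) (δ : ℝ) (x : E) : ℝ := beta (‖‖x‖⁻¹ • x - e‖ ^ 2 / δ ^ 2)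

lemma chi_smul (e : E) (δ : ℝ) {c : ℝ} (hc : 0 < c) (x : E) : chi e δ (c • x) = chi e δ x := by
  unfold chi
  have : ‖c • x‖⁻¹ • c • x = ‖x‖⁻¹ • x := by
    rw [norm_smul, Real.norm_eq_abs, abs_of_pos hc, smul_smul, mul_inv, mul_assoc,
      mul_comm ‖x‖⁻¹ c, ← mul_assoc, inv_mul_cancel₀ hc.ne', one_mul]
  rw [this]

lemma chi_nonneg (e : E) (δ : ℝ) (x : E) : 0 ≤ chi e δ x := beta_nonneg _

lemma chi_le_one (e : E) (δ : ℝ) (x : E) : chi e δ x ≤ 1 := beta_le_one _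

lemma chi_eq_one {e : E} {δ : ℝ} (hδ : 0 < δ) {x : E} (hx : x ≠ 0)
    (h : ‖x - ‖x‖ • e‖ ≤ δ * ‖x‖) : chi e δ x = 1 := by
  unfold chi
  refine beta_of_le ?_
  have hx0 : 0 < ‖x‖ := norm_pos_iff.2 hx
  have h1 : ‖‖x‖⁻¹ • x - e‖ ≤ δ := by
    have : ‖x‖⁻¹ • x - e = ‖x‖⁻¹ • (x - ‖x‖ • e) := by
      rw [smul_sub, smul_smul, inv_mul_cancel₀ hx0.ne', one_smul]
    rw [this, norm_smul, norm_inv, norm_norm, inv_mul_le_iff₀ hx0]
    linarith
  rw [div_le_one (by positivity)]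
  gcongr

lemma contDiffAt_unit {x : E} (hx : x ≠ 0) :
    ContDiffAt ℝ ∞ (fun y : E => ‖y‖⁻¹ • y) x := by
  have h1 : ContDiffAt ℝ ∞ (fun y : E => ‖y‖) x := contDiffAt_id.norm ℝ hx
  exact (h1.inv (norm_ne_zero_iff.2 hx)).smul contDiffAt_id

lemma contDiffAt_chi (e : E) (δ : ℝ) {x : E} (hx : x ≠ 0) : ContDiffAt ℝ ∞ (chi e δ) x := by
  unfold chi
  refine beta_contDiff.contDiffAt.comp x ?_
  exact (((contDiffAt_unit hx).sub contDiffAt_const).norm_sq ℝ).div_const _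

/-- derivative of `x ↦ ‖x‖⁻¹ • x` at a unit vector -/
lemma norm_fderiv_unit_le {x : E} (hx : ‖x‖ = 1) :
    ‖fderiv ℝ (fun y : E => ‖y‖⁻¹ • y) x‖ ≤ 2 := by
  have hne : x ≠ 0 := by
    rintro rfl; simp at hx
  have h1 : ContDiffAt ℝ 1 (fun y : E => ‖y‖) x := contDiffAt_id.norm ℝ hne
  have hN : HasFDerivAt (fun y : E => ‖y‖) (fderiv ℝ (fun y : E => ‖y‖) x) x :=
    (h1.differentiableAt one_ne_zero).hasFDerivAt
  set φ := fderiv ℝ (fun y : E => ‖y‖) x with hφ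
  have hφ1 : ‖φ‖ ≤ 1 := by
    have := norm_fderiv_le_of_lipschitz ℝ (lipschitzWith_one_norm (E := E)) (x₀ := x)
    simpa using this
  have hinv : HasFDerivAt (fun y : E => ‖y‖⁻¹) (-(‖x‖ ^ 2)⁻¹ • φ) x :=
    (hasDerivAt_inv (norm_ne_zero_iff.2 hne)).comp_hasFDerivAt x hN
  have h := hinv.smul (hasFDerivAt_id x)
  have h' : HasFDerivAt (fun y : E => ‖y‖⁻¹ • y)
      (‖x‖⁻¹ • ContinuousLinearMap.id ℝ E + (-(‖x‖ ^ 2)⁻¹ • φ).smulRight x) x := h
  rw [h'.fderiv, hx]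
  simp only [one_pow, inv_one, one_smul, neg_smul]
  calc ‖ContinuousLinearMap.id ℝ E + (-φ).smulRight x‖
      ≤ ‖ContinuousLinearMap.id ℝ E‖ + ‖(-φ).smulRight x‖ := norm_add_le _ _
    _ ≤ 1 + 1 * 1 := by
        rw [ContinuousLinearMap.norm_smulRight_apply, norm_neg, hx]
        gcongr
        exact ContinuousLinearMap.norm_id_le
    _ = 2 := by norm_num

/-- derivative of the cut-off at a unit vector -/
lemma norm_fderiv_chi_le {e : E} {δ B : ℝ} (hδ : 0 < δ) (hB : 0 ≤ B)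
    (hb : ∀ q, |deriv beta q| ≤ B)
    {x : E} (hx : ‖x‖ = 1) : ‖fderiv ℝ (chi e δ) x‖ ≤ B * (4 * ‖x - e‖ / δ ^ 2) := by
  have hne : x ≠ 0 := by
    rintro rfl; simp at hx
  set u : E → E := fun y => ‖y‖⁻¹ • y with hu
  have hux : u x = x := by simp [hu, hx]
  have hU : HasFDerivAt u (fderiv ℝ u x) x :=
    ((contDiffAt_unit hne).differentiableAt (by simp)).hasFDerivAt
  have hU2 : ‖fderiv ℝ u x‖ ≤ 2 := norm_fderiv_unit_le hx
  have hq := (hU.sub_const e).norm_sq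
  have hq2 : HasFDerivAt (fun y => ‖u y - e‖ ^ 2 / δ ^ 2)
      ((δ ^ 2)⁻¹ • (2 • (innerSL ℝ (u x - e)).comp (fderiv ℝ u x))) x := by
    have := hq.const_mul ((δ ^ 2)⁻¹)
    refine this.congr_of_eventuallyEq (Eventually.of_forall fun y => ?_)
    simp only [div_eq_inv_mul]
  have hbeta : HasDerivAt beta (deriv beta (‖u x - e‖ ^ 2 / δ ^ 2)) (‖u x - e‖ ^ 2 / δ ^ 2) :=
    ((beta_contDiff.differentiable (by simp)) _).hasDerivAt
  have hchi : HasFDerivAt (chi e δ) (deriv beta (‖u x - e‖ ^ 2 / δ ^ 2) •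
      ((δ ^ 2)⁻¹ • (2 • (innerSL ℝ (u x - e)).comp (fderiv ℝ u x)))) x :=
    hbeta.comp_hasFDerivAt x hq2
  rw [hchi.fderiv, norm_smul, Real.norm_eq_abs]
  refine mul_le_mul (hb _) ?_ (norm_nonneg _) hB
  rw [norm_smul, norm_inv, Real.norm_eq_abs, abs_of_nonneg (sq_nonneg δ), hux]
  have h1 : ‖(2:ℕ) • (innerSL ℝ (x - e)).comp (fderiv ℝ u x)‖ ≤ 2 * (‖x - e‖ * 2) := by
    rw [← Nat.cast_smul_eq_nsmul ℝ, norm_smul]
    have h2 : ‖(innerSL ℝ (x - e)).comp (fderiv ℝ u x)‖ ≤ ‖x - e‖ * 2 := by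
      refine (ContinuousLinearMap.opNorm_comp_le _ _).trans ?_
      rw [innerSL_apply_norm]
      gcongr
    have h3 : ‖((2:ℕ):ℝ)‖ = 2 := by simp
    rw [h3]
    gcongr
  calc (δ ^ 2)⁻¹ * ‖(2:ℕ) • (innerSL ℝ (x - e)).comp (fderiv ℝ u x)‖
      ≤ (δ ^ 2)⁻¹ * (2 * (‖x - e‖ * 2)) := by gcongr
    _ = 4 * ‖x - e‖ / δ ^ 2 := by ring

/-- the perturbation -/
noncomputable def pert (H : E → E) (e : E) (δ : ℝ) (x : E) : E := chi e δ x • (x - H x)

lemma pert_conic {H : E → E} (hc : Conic H) (e : E) (δ : ℝ) : Conic (pert H e δ) := by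
  intro c hc0 x
  rcases hc0.eq_or_lt with h | h
  · rw [← h, zero_smul, zero_smul, pert, hc.zero, sub_zero, smul_zero]
  · rw [pert, pert, chi_smul e δ h, hc c hc0, ← smul_sub, smul_comm]

lemma pert_contDiffAt {H : E → E} (h : SC H) (e : E) (δ : ℝ) {x : E} (hx : x ≠ 0) :
    ContDiffAt ℝ ∞ (pert H e δ) x :=
  (contDiffAt_chi e δ hx).smul (contDiffAt_id.sub (h.contDiffAt hx))

lemma exists_pert [FiniteDimensional ℝ E] {H : E → E} (h : SC H) {e : E} (he : ‖e‖ = 1)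
    (hd : fderiv ℝ H e = ContinuousLinearMap.id ℝ E) {η : ℝ} (hη : 0 < η) :
    ∃ δ > 0, ∀ x, ‖x‖ = 1 → ‖fderiv ℝ (pert H e δ) x‖ ≤ η := by
  have hne : e ≠ 0 := by
    rintro rfl; simp at he
  obtain ⟨B, hB, hb⟩ := exists_beta_bound
  set η' := η / (1 + 16 * B) with hη'
  have hη'0 : 0 < η' := by positivity
  have hcont : ContinuousAt (fderiv ℝ H) e := (h.contDiffAt hne).continuousAt_fderiv (by simp)
  have h1 : ∀ᶠ x in 𝓝 e, dist (fderiv ℝ H x) (fderiv ℝ H e) < η' :=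
    hcont.eventually (ball_mem_nhds _ hη'0)
  have h2 : ∀ᶠ x in 𝓝 e, x ≠ 0 := isOpen_ne.mem_nhds hne
  obtain ⟨r, hr, hrb⟩ := Metric.eventually_nhds_iff_ball.1 (h1.and h2)
  refine ⟨r / 4, by positivity, fun x hx => ?_⟩
  set δ := r / 4 with hδ
  have hδ0 : 0 < δ := by positivity
  have hxne : x ≠ 0 := by
    rintro rfl; simp at hx
  have hchi : HasFDerivAt (chi e δ) (fderiv ℝ (chi e δ) x) x :=
    ((contDiffAt_chi e δ hxne).differentiableAt (by simp)).hasFDerivAt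
  have hHx : HasFDerivAt H (fderiv ℝ H x) x := (h.differentiableAt hxne).hasFDerivAt
  have hP : HasFDerivAt (pert H e δ) (chi e δ x • (ContinuousLinearMap.id ℝ E - fderiv ℝ H x) +
      (fderiv ℝ (chi e δ) x).smulRight (x - H x)) x :=
    hchi.smul ((hasFDerivAt_id x).sub hHx)
  rw [hP.fderiv]
  have hux : ‖x‖⁻¹ • x = x := by rw [hx, inv_one, one_smul]
  by_cases hθ : 2 * δ ≤ ‖x - e‖
  · have hq : 4 ≤ ‖x - e‖ ^ 2 / δ ^ 2 := by
      rw [le_div_iff₀ (by positivity)]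
      nlinarith
    have hz : chi e δ x = 0 := by
      unfold chi; rw [hux]; exact beta_of_ge hq
    have hz' : fderiv ℝ (chi e δ) x = 0 := by
      have hq' : DifferentiableAt ℝ (fun y : E => ‖‖y‖⁻¹ • y - e‖ ^ 2 / δ ^ 2) x :=
        ((((contDiffAt_unit hxne).sub contDiffAt_const).norm_sq ℝ).div_const _).differentiableAt
          (n := ∞) (by simp)
      have hbeta : HasDerivAt beta (deriv beta (‖‖x‖⁻¹ • x - e‖ ^ 2 / δ ^ 2))
          (‖‖x‖⁻¹ • x - e‖ ^ 2 / δ ^ 2) :=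
        ((beta_contDiff.differentiable (by simp)) _).hasDerivAt
      have h3 : HasFDerivAt (chi e δ) _ x := hbeta.comp_hasFDerivAt x hq'.hasFDerivAt
      rw [h3.fderiv, hux, deriv_beta_of_ge hq, zero_smul]
    rw [hz, hz', zero_smul, zero_add]
    simp only [ContinuousLinearMap.zero_smulRight, norm_zero]
    exact hη.le
  · push Not at hθ
    have hxr : x ∈ ball e r := by
      rw [mem_ball, dist_eq_norm]; linarith
    have h4 : ‖ContinuousLinearMap.id ℝ E - fderiv ℝ H x‖ ≤ η' := by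
      have := (hrb x hxr).1
      rw [hd, dist_eq_norm, norm_sub_rev] at this
      exact this.le
    have h5 : ‖x - H x‖ ≤ η' * ‖x - e‖ := by
      have hf : ∀ z ∈ ball e r, HasFDerivWithinAt (fun y => y - H y)
          (ContinuousLinearMap.id ℝ E - fderiv ℝ H z) (ball e r) z := fun z hz =>
        ((hasFDerivAt_id z).sub (h.differentiableAt (hrb z hz).2).hasFDerivAt).hasFDerivWithinAt
      have hbd : ∀ z ∈ ball e r, ‖ContinuousLinearMap.id ℝ E - fderiv ℝ H z‖ ≤ η' := by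
        intro z hz
        have := (hrb z hz).1
        rw [hd, dist_eq_norm, norm_sub_rev] at this
        exact this.le
      have h6 := (convex_ball e r).norm_image_sub_le_of_norm_hasFDerivWithin_le hf hbd
        (mem_ball_self hr) hxr
      have h7 : H e = e := by
        rw [← euler h.conic (h.differentiableAt hne), hd]; rfl
      rw [h7, sub_self, sub_zero] at h6
      exact h6
    have h8 := norm_fderiv_chi_le (e := e) hδ0 hB hb hx
    calc ‖chi e δ x • (ContinuousLinearMap.id ℝ E - fderiv ℝ H x) +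
          (fderiv ℝ (chi e δ) x).smulRight (x - H x)‖
        ≤ ‖chi e δ x • (ContinuousLinearMap.id ℝ E - fderiv ℝ H x)‖ +
          ‖(fderiv ℝ (chi e δ) x).smulRight (x - H x)‖ := norm_add_le _ _
      _ ≤ 1 * η' + (B * (4 * ‖x - e‖ / δ ^ 2)) * (η' * ‖x - e‖) := by
          rw [norm_smul, ContinuousLinearMap.norm_smulRight_apply, Real.norm_eq_abs,
            abs_of_nonneg (chi_nonneg e δ x)]
          gcongr
          exact chi_le_one e δ x
      _ ≤ 1 * η' + (B * (4 * (2 * δ) / δ ^ 2)) * (η' * (2 * δ)) := by gcongr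
      _ = η' * (1 + 16 * B) := by field_simp; ring
      _ = η := by rw [hη']; field_simp

section core
variable [FiniteDimensional ℝ E] [MeasurableSpace E] [BorelSpace E] (μ : Measure E)
  [μ.IsAddHaarMeasure]

/-- **R2**: a smooth conic diffeomorphism with `D H (e) = id` can be made the identity near the
ray through `e`. -/
theorem localise (hE : 1 < Module.finrank ℝ E) {H : E → E} (h : SC H) {e : E} (he : ‖e‖ = 1)
    (hd : fderiv ℝ H e = ContinuousLinearMap.id ℝ E) :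
    ∃ H' : E → E, SC H' ∧ (CoreAt μ H' ↔ CoreAt μ H) ∧
      ∃ δ > 0, ∀ x, ‖x - ‖x‖ • e‖ ≤ δ * ‖x‖ → H' x = x := by
  have hps : ProperSpace E := FiniteDimensional.proper_real _
  -- margin
  have hcompact : IsCompact ((fderiv ℝ H) '' sphere (0:E) 1) := by
    refine (isCompact_sphere (0:E) 1).image_of_continuousOn ?_
    intro x hx
    have hx' : ‖x‖ = 1 := by simpa using hx
    have hne : x ≠ 0 := by
      rintro rfl; simp at hx'
    exact ((h.contDiffAt hne).continuousAt_fderiv (by simp)).continuousWithinAt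
  have hdet : ∀ A ∈ ((fderiv ℝ H) '' sphere (0:E) 1), 0 < A.det := by
    rintro _ ⟨x, hx, rfl⟩
    have hx' : ‖x‖ = 1 := by simpa using hx
    refine h.det x ?_
    rintro rfl; simp at hx'
  obtain ⟨η, hη, hηd⟩ := Mo_119.exists_tol hcompact hdet
  obtain ⟨δ, hδ, hδP⟩ := exists_pert h he hd hη
  set H' : E → E := fun x => H x + pert H e δ x with hH'
  have hc' : Conic H' := by
    intro c hc x
    simp only [hH']
    rw [h.conic c hc, pert_conic h.conic e δ c hc, smul_add]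
  have hs' : ContDiffOn ℝ ∞ H' {0}ᶜ := fun x hx =>
    ((h.contDiffAt hx).add (pert_contDiffAt h e δ hx)).contDiffWithinAt
  have hstep := segment_step μ hE h hc' hs' ?_
  · refine ⟨H', hstep.1, hstep.2, δ, hδ, fun x hx => ?_⟩
    rcases eq_or_ne x 0 with hx0 | hx0
    · subst hx0; exact hstep.1.conic.zero
    · simp only [hH', pert]
      rw [chi_eq_one hδ hx0 hx, one_smul]; abel
  · intro x hx s hs
    have hx0 : 0 < ‖x‖ := norm_pos_iff.2 hx
    have hfd : fderiv ℝ H' x = fderiv ℝ H x + fderiv ℝ (pert H e δ) x :=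
      ((h.differentiableAt hx).hasFDerivAt.add
        ((pert_contDiffAt h e δ hx).differentiableAt (by simp)).hasFDerivAt).fderiv
    have e1 : (1 - s) • fderiv ℝ H x + s • fderiv ℝ H' x
        = fderiv ℝ H x + s • fderiv ℝ (pert H e δ) x := by
      rw [hfd, sub_smul, one_smul, smul_add]; abel
    rw [e1]
    -- move to the unit sphere
    have hu : ‖‖x‖⁻¹ • x‖ = 1 := by rw [norm_smul, norm_inv, norm_norm, inv_mul_cancel₀ hx0.ne']
    rw [← h.conic.fderiv_smul (inv_pos.2 hx0) x,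
      ← (pert_conic h.conic e δ).fderiv_smul (inv_pos.2 hx0) x]
    refine (hηd _ ?_).1
    refine mem_cthickening_of_dist_le _ (fderiv ℝ H (‖x‖⁻¹ • x)) _ _
      (mem_image_of_mem _ (by simpa using hu)) ?_
    rw [dist_eq_norm, add_sub_cancel_left, norm_smul, Real.norm_eq_abs, abs_of_nonneg hs.1]
    calc s * ‖fderiv ℝ (pert H e δ) (‖x‖⁻¹ • x)‖ ≤ 1 * η := by
          gcongr
          · exact hs.2
          · exact hδP _ hu
      _ = η := one_mul _

end core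

end Crest.Agent.R096.Rd_695
end

-- ▼ part R096/Rd3_695
section

/-!
# C3-RED, part 3 (helper695, row 96 P5): smooth paths, conjugation by Lorentz boosts
-/

set_option autoImplicit false

open MeasureTheory Metric Set Filter Topology
open scoped NNReal ContDiff

namespace Crest.Agent.R096.Rd_695

open Crest.Agent.R096.Vx_270 (Seg Good Sim CoreAt)
open Crest.Agent.R096.Hm_695 (Conic Conic.fderiv_smul Conic.zero)

/-- a continuous nonvanishing function on `[0,1]` keeps its sign -/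
lemma pos_of_ne {f : ℝ → ℝ} (hf : ContinuousOn f (Icc 0 1)) (hne : ∀ t ∈ Icc (0:ℝ) 1, f t ≠ 0)
    (h0 : 0 < f 0) {t : ℝ} (ht : t ∈ Icc (0:ℝ) 1) : 0 < f t := by
  by_contra hcon
  push Not at hcon
  have h1 := intermediate_value_Icc' ht.1 (hf.mono (Icc_subset_Icc le_rfl ht.2))
  obtain ⟨s, hs, hs0⟩ := h1 ⟨hcon, h0.le⟩
  exact hne s ⟨hs.1, hs.2.trans ht.2⟩ hs0

variable {E : Type*} [NormedAddCommGroup E] [InnerProductSpace ℝ E]

/-- jointly smooth path of conic maps with invertible derivatives -/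
structure JS (K : ℝ → E → E) : Prop where
  conic : ∀ t, Conic (K t)
  smooth : ContDiffOn ℝ ∞ (fun p : ℝ × E => K p.1 p.2) (univ ×ˢ {0}ᶜ)
  inj : ∀ t ∈ Icc (0:ℝ) 1, ∀ x, x ≠ 0 → ∀ v, fderiv ℝ (K t) x v = 0 → v = 0

omit [InnerProductSpace ℝ E] in
lemma isOpen_dom : IsOpen ((univ : Set ℝ) ×ˢ ({0}ᶜ : Set E)) :=
  isOpen_univ.prod isOpen_compl_singleton

lemma JS.contDiffAt {K : ℝ → E → E} (h : JS K) (t : ℝ) {x : E} (hx : x ≠ 0) :
    ContDiffAt ℝ ∞ (fun p : ℝ × E => K p.1 p.2) (t, x) :=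
  h.smooth.contDiffAt (isOpen_dom.mem_nhds ⟨mem_univ _, hx⟩)

lemma JS.contDiffAt_slice {K : ℝ → E → E} (h : JS K) (t : ℝ) {x : E} (hx : x ≠ 0) :
    ContDiffAt ℝ ∞ (K t) x := by
  have h1 : ContDiffAt ℝ ∞ (fun y : E => ((t, y) : ℝ × E)) x := contDiffAt_const.prodMk contDiffAt_id
  exact (h.contDiffAt t hx).comp x h1

lemma JS.fderiv_eq {K : ℝ → E → E} (h : JS K) (t : ℝ) {x : E} (hx : x ≠ 0) :
    fderiv ℝ (K t) x =
      (fderiv ℝ (fun p : ℝ × E => K p.1 p.2) (t, x)).comp (ContinuousLinearMap.inr ℝ ℝ E) := by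
  have h1 : HasFDerivAt (fun p : ℝ × E => K p.1 p.2) _ (t, x) :=
    ((h.contDiffAt t hx).differentiableAt (by simp)).hasFDerivAt
  have h2 : HasFDerivAt (fun y : E => ((t, y) : ℝ × E)) (ContinuousLinearMap.inr ℝ ℝ E) x :=
    hasFDerivAt_prodMk_right t x
  exact (h1.comp x h2).fderiv

lemma JS.continuousOn_fderiv {K : ℝ → E → E} (h : JS K) :
    ContinuousOn (fun p : ℝ × E => fderiv ℝ (K p.1) p.2) (Icc 0 1 ×ˢ {0}ᶜ) := by
  have h1 : ContinuousOn (fderiv ℝ (fun p : ℝ × E => K p.1 p.2)) (univ ×ˢ {0}ᶜ) :=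
    h.smooth.continuousOn_fderiv_of_isOpen isOpen_dom (by simp)
  have h2 : ContinuousOn (fun p : ℝ × E => (fderiv ℝ (fun p : ℝ × E => K p.1 p.2) p).comp
      (ContinuousLinearMap.inr ℝ ℝ E)) (Icc 0 1 ×ˢ {0}ᶜ) :=
    (h1.mono (prod_mono (subset_univ _) le_rfl)).clm_comp continuousOn_const
  refine h2.congr fun p hp => ?_
  exact h.fderiv_eq p.1 hp.2

section core
variable [FiniteDimensional ℝ E]

lemma JS.det_pos {K : ℝ → E → E} (h : JS K) (h0 : SC (K 0)) {t : ℝ} (ht : t ∈ Icc (0:ℝ) 1)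
    {x : E} (hx : x ≠ 0) : 0 < (fderiv ℝ (K t) x).det := by
  refine pos_of_ne (f := fun t => (fderiv ℝ (K t) x).det) ?_ ?_ (h0.det x hx) ht
  · refine ContinuousLinearMap.continuous_det.comp_continuousOn ?_
    have : ContinuousOn (fun s : ℝ => ((s, x) : ℝ × E)) (Icc 0 1) := by fun_prop
    exact h.continuousOn_fderiv.comp this fun s hs => ⟨hs, hx⟩
  · exact fun s hs => det_ne_of_inj (h.inj s hs x hx)

variable [MeasurableSpace E] [BorelSpace E] (μ : Measure E) [μ.IsAddHaarMeasure]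

theorem JS.step (hE : 1 < Module.finrank ℝ E) {K : ℝ → E → E} (h : JS K) (h0 : SC (K 0))
    {t : ℝ} (ht : t ∈ Icc (0:ℝ) 1) : SC (K t) ∧ (CoreAt μ (K t) ↔ CoreAt μ (K 0)) := by
  obtain ⟨h1, h2⟩ := path_step μ hE (fun t _ => h.conic t)
    (fun t _ x hx => ((h.contDiffAt_slice t hx).of_le (by norm_cast)).contDiffWithinAt)
    h.continuousOn_fderiv (fun t ht x hx => h.det_pos h0 ht hx) h0.homeo ht
  exact ⟨⟨h.conic t, fun x hx => (h.contDiffAt_slice t hx).contDiffWithinAt,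
    fun x hx => h.det_pos h0 ht hx, h1⟩, h2⟩

end core

/-! ### Lorentz boosts -/

/-- the boost in direction `e` -/
noncomputable def bo (e : E) (b : ℝ) (x : E) : E :=
  x + ((Real.cosh b - 1) * inner ℝ e x + Real.sinh b * ‖x‖) • e

lemma inner_bo {e : E} (he : ‖e‖ = 1) (b : ℝ) (x : E) :
    inner ℝ e (bo e b x) = Real.cosh b * inner ℝ e x + Real.sinh b * ‖x‖ := by
  rw [bo, inner_add_right, inner_smul_right, real_inner_self_eq_norm_sq, he]
  ring

lemma abs_sinh_le (b : ℝ) : |Real.sinh b| ≤ Real.cosh b := by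
  rw [abs_le]
  have h1 := Real.cosh_add_sinh b
  have h2 := Real.cosh_sub_sinh b
  have h3 := Real.exp_pos b
  have h4 := Real.exp_pos (-b)
  constructor <;> linarith

lemma norm_bo {e : E} (he : ‖e‖ = 1) (b : ℝ) (x : E) :
    ‖bo e b x‖ = Real.cosh b * ‖x‖ + Real.sinh b * inner ℝ e x := by
  have h1 : |inner ℝ e x| ≤ ‖x‖ := by
    have := abs_real_inner_le_norm e x
    rwa [he, one_mul] at this
  have h2 : 0 ≤ Real.cosh b * ‖x‖ + Real.sinh b * inner ℝ e x := by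
    have h3 : |Real.sinh b * inner ℝ e x| ≤ Real.cosh b * ‖x‖ := by
      rw [abs_mul]
      exact mul_le_mul (abs_sinh_le b) h1 (abs_nonneg _) (Real.cosh_pos b).le
    have := neg_abs_le (Real.sinh b * inner ℝ e x)
    linarith
  rw [← sq_eq_sq₀ (norm_nonneg _) h2]
  have h4 := Real.cosh_sq b
  rw [bo, norm_add_sq_real, norm_smul, inner_smul_right, he, mul_one, Real.norm_eq_abs, sq_abs,
    real_inner_comm e x]
  set C := Real.cosh b
  set S := Real.sinh b
  set t := inner ℝ e x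
  set n := ‖x‖
  linear_combination (t ^ 2 - n ^ 2) * h4

lemma bo_neg_bo {e : E} (he : ‖e‖ = 1) (b : ℝ) (x : E) : bo e (-b) (bo e b x) = x := by
  have h1 := inner_bo he b x
  have h2 := norm_bo he b x
  rw [bo, h1, h2, Real.cosh_neg, Real.sinh_neg]
  have h4 := Real.cosh_sq b
  rw [bo, add_assoc, ← add_smul]
  have : (Real.cosh b - 1) * inner ℝ e x + Real.sinh b * ‖x‖ +
      ((Real.cosh b - 1) * (Real.cosh b * inner ℝ e x + Real.sinh b * ‖x‖) +
        -Real.sinh b * (Real.cosh b * ‖x‖ + Real.sinh b * inner ℝ e x)) = 0 := by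
    linear_combination (inner ℝ e x) * h4
  rw [this, zero_smul, add_zero]

lemma bo_bo_neg {e : E} (he : ‖e‖ = 1) (b : ℝ) (x : E) : bo e b (bo e (-b) x) = x := by
  have := bo_neg_bo he (-b) x
  rwa [neg_neg] at this

lemma bo_zero (e : E) (x : E) : bo e 0 x = x := by simp [bo]

lemma bo_conic (e : E) (b : ℝ) : Conic (bo e b) := by
  intro c hc x
  rw [bo, bo, inner_smul_right, norm_smul, Real.norm_eq_abs, abs_of_nonneg hc, smul_add, smul_smul]
  congr 2
  ring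

lemma bo_ne_zero {e : E} (he : ‖e‖ = 1) (b : ℝ) {x : E} (hx : x ≠ 0) : bo e b x ≠ 0 := by
  intro h
  apply hx
  rw [← bo_neg_bo he b x, h, (bo_conic e (-b)).zero]

lemma bo_contDiffAt (e : E) {g : ℝ × E → ℝ} {f : ℝ × E → E} {p : ℝ × E}
    (hg : ContDiffAt ℝ ∞ g p) (hf : ContDiffAt ℝ ∞ f p) (h0 : f p ≠ 0) :
    ContDiffAt ℝ ∞ (fun q => bo e (g q) (f q)) p := by
  unfold bo
  refine hf.add (ContDiffAt.smul ?_ contDiffAt_const)
  refine ContDiffAt.add (ContDiffAt.mul ?_ ?_) (ContDiffAt.mul ?_ ?_)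
  · exact (Real.contDiff_cosh.contDiffAt.comp p hg).sub contDiffAt_const
  · exact contDiffAt_const.inner ℝ hf
  · exact Real.contDiff_sinh.contDiffAt.comp p hg
  · exact hf.norm ℝ h0

lemma bo_contDiffAt' (e : E) (b : ℝ) {x : E} (hx : x ≠ 0) : ContDiffAt ℝ ∞ (bo e b) x := by
  have h1 : ContDiffAt ℝ ∞ (fun y : E => ((0:ℝ), y)) x := contDiffAt_const.prodMk contDiffAt_id
  have h2 := bo_contDiffAt e (g := fun _ => b) (f := fun p : ℝ × E => p.2) (p := ((0:ℝ), x))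
    contDiffAt_const contDiffAt_snd hx
  exact h2.comp x h1

lemma bo_fderiv_inj {e : E} (he : ‖e‖ = 1) (b : ℝ) {x : E} (hx : x ≠ 0) {v : E}
    (hv : fderiv ℝ (bo e b) x v = 0) : v = 0 := by
  have h1 : HasFDerivAt (bo e b) (fderiv ℝ (bo e b) x) x :=
    ((bo_contDiffAt' e b hx).differentiableAt (by simp)).hasFDerivAt
  have h2 : HasFDerivAt (bo e (-b)) (fderiv ℝ (bo e (-b)) (bo e b x)) (bo e b x) :=
    ((bo_contDiffAt' e (-b) (bo_ne_zero he b hx)).differentiableAt (by simp)).hasFDerivAt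
  have h3 := h2.comp x h1
  have h4 : (bo e (-b)) ∘ (bo e b) = id := by
    funext y; exact bo_neg_bo he b y
  rw [h4] at h3
  have h5 := h3.unique (hasFDerivAt_id x)
  have h6 := congrArg (fun A : E →L[ℝ] E => A v) h5
  simp only [ContinuousLinearMap.comp_apply, hv, map_zero, ContinuousLinearMap.id_apply] at h6
  exact h6.symm

section core
variable [FiniteDimensional ℝ E]

/-- the path of conjugates -/
lemma boost_js {H : E → E} (h : SC H) {e : E} (he : ‖e‖ = 1) (b : ℝ) :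
    JS (fun t x => bo e (t * b) (H (bo e (-(t * b)) x))) := by
  refine ⟨fun t c hc x => ?_, fun p hp => ?_, fun t _ x hx v hv => ?_⟩
  · rw [bo_conic e _ c hc, h.conic c hc, bo_conic e _ c hc]
  · have hx : p.2 ≠ 0 := hp.2
    have h1 : ContDiffAt ℝ ∞ (fun q : ℝ × E => -(q.1 * b)) p := by fun_prop
    have h1' : ContDiffAt ℝ ∞ (fun q : ℝ × E => q.1 * b) p := by fun_prop
    have h2 := bo_contDiffAt e h1 contDiffAt_snd hx
    have hne : bo e (-(p.1 * b)) p.2 ≠ 0 := bo_ne_zero he _ hx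
    have h3 : ContDiffAt ℝ ∞ (fun q : ℝ × E => H (bo e (-(q.1 * b)) q.2)) p :=
      ContDiffAt.comp p (h.contDiffAt hne) h2
    exact (bo_contDiffAt e h1' h3 (h.ne_zero hne)).contDiffWithinAt
  · set y := bo e (-(t * b)) x with hy
    have hy0 : y ≠ 0 := bo_ne_zero he _ hx
    have h1 : HasFDerivAt (bo e (-(t * b))) (fderiv ℝ (bo e (-(t * b))) x) x :=
      ((bo_contDiffAt' e _ hx).differentiableAt (by simp)).hasFDerivAt
    have h2 : HasFDerivAt H (fderiv ℝ H y) y := (h.differentiableAt hy0).hasFDerivAt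
    have h3 : HasFDerivAt (bo e (t * b)) (fderiv ℝ (bo e (t * b)) (H y)) (H y) :=
      ((bo_contDiffAt' e _ (h.ne_zero hy0)).differentiableAt (by simp)).hasFDerivAt
    have h21 : HasFDerivAt (fun x => H (bo e (-(t * b)) x)) ((fderiv ℝ H y).comp
          (fderiv ℝ (bo e (-(t * b))) x)) x := HasFDerivAt.comp x h2 h1
    have h4 : HasFDerivAt (fun x => bo e (t * b) (H (bo e (-(t * b)) x)))
        ((fderiv ℝ (bo e (t * b)) (H y)).comp ((fderiv ℝ H y).comp
          (fderiv ℝ (bo e (-(t * b))) x))) x :=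
      HasFDerivAt.comp (g := bo e (t * b)) x h3 h21
    rw [h4.fderiv] at hv
    have h5 := bo_fderiv_inj he (t * b) (h.ne_zero hy0) hv
    have h6 := inj_of_det (h.det y hy0).ne' h5
    exact bo_fderiv_inj he _ hx h6

/-- existence of a large boost -/
lemma exists_boost {δ : ℝ} (hδ : 0 < δ) : ∃ b : ℝ, 0 < b ∧
    Real.cosh b * (3 - 2 * δ) ≤ Real.sinh b * (3 - δ) := by
  refine ⟨6 / δ, by positivity, ?_⟩
  set b := 6 / δ with hb
  have hb0 : 0 < b := by positivity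
  have h1 := Real.cosh_eq b
  have h2 := Real.sinh_eq b
  have ha : b + 1 ≤ Real.exp b := Real.add_one_le_exp b
  have ha0 : 0 < Real.exp b := Real.exp_pos b
  have hm : Real.exp (-b) ≤ 1 := by
    rw [Real.exp_le_one_iff]; linarith
  have hm0 : 0 < Real.exp (-b) := Real.exp_pos _
  have h3 : 6 ≤ Real.exp b * δ := by
    have : b * δ = 6 := by rw [hb]; field_simp
    nlinarith
  rw [h1, h2]
  have h4 : (0:ℝ) ≤ Real.exp (-b) * δ := by positivity
  nlinarith

variable [MeasurableSpace E] [BorelSpace E] (μ : Measure E) [μ.IsAddHaarMeasure]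

/-- **R3** -/
theorem boost_step (hE : 1 < Module.finrank ℝ E) {H : E → E} (h : SC H) {e : E} (he : ‖e‖ = 1)
    {δ : ℝ} (hδ : 0 < δ) (hid : ∀ x, ‖x - ‖x‖ • e‖ ≤ δ * ‖x‖ → H x = x) :
    ∃ H' : E → E, SC H' ∧ (CoreAt μ H' ↔ CoreAt μ H) ∧
      ∀ z, -(‖z‖ / 2) ≤ inner ℝ e z → H' z = z := by
  set δ' := δ ^ 2 / 2 with hδ'
  have hδ'0 : 0 < δ' := by positivity
  obtain ⟨b, hb, hbC⟩ := exists_boost hδ'0
  have hjs := boost_js h he (-b)
  have h0 : SC ((fun (t : ℝ) x => bo e (t * (-b)) (H (bo e (-(t * (-b))) x))) 0) := by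
    have e0 : (fun (t : ℝ) x => bo e (t * (-b)) (H (bo e (-(t * (-b))) x))) 0 = H := by
      funext x; simp [bo_zero]
    rw [e0]; exact h
  have e0 : (fun (t : ℝ) x => bo e (t * (-b)) (H (bo e (-(t * (-b))) x))) 0 = H := by
    funext x; simp [bo_zero]
  obtain ⟨h1, h2⟩ := hjs.step μ hE h0 (t := 1) (by simp)
  have e1 : (fun x => bo e (0 * -b) (H (bo e (-(0 * -b)) x))) = H := e0
  rw [e1] at h2
  refine ⟨_, h1, h2, fun z hz => ?_⟩
  simp only [one_mul, neg_neg]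
  have hin := inner_bo he b z
  have hno := norm_bo he b z
  set y := bo e b z with hy
  have hyid : H y = y := by
    refine hid y ?_
    -- ‖y - ‖y‖ e‖² = 2 ‖y‖ (‖y‖ - ⟪e, y⟫)
    have hsq : ‖y - ‖y‖ • e‖ ^ 2 = 2 * ‖y‖ * (‖y‖ - inner ℝ e y) := by
      rw [norm_sub_sq_real, norm_smul, inner_smul_right, he, norm_norm, real_inner_comm]
      ring
    have hkey : (1 - δ') * ‖y‖ ≤ inner ℝ e y := by
      rw [hin, hno]
      have hS0 : 0 < Real.sinh b := Real.sinh_pos_iff.2 hb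
      have hCS : Real.sinh b ≤ Real.cosh b := (le_abs_self _).trans (abs_sinh_le b)
      have hcoef : 0 ≤ Real.cosh b - (1 - δ') * Real.sinh b := by nlinarith
      have hn : 0 ≤ ‖z‖ := norm_nonneg z
      have h3 := mul_le_mul_of_nonneg_left hz hcoef
      have h4 := mul_le_mul_of_nonneg_right hbC hn
      nlinarith
    have h5 : ‖y - ‖y‖ • e‖ ^ 2 ≤ (δ * ‖y‖) ^ 2 := by
      rw [hsq]
      have hn : 0 ≤ ‖y‖ := norm_nonneg y
      have : (δ * ‖y‖) ^ 2 = 2 * ‖y‖ * (δ' * ‖y‖) := by rw [hδ']; ring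
      rw [this]
      refine mul_le_mul_of_nonneg_left ?_ (by positivity)
      linarith
    exact le_of_sq_le_sq h5 (by positivity)
  rw [hyid, hy]
  exact bo_neg_bo he b z

end core

end Crest.Agent.R096.Rd_695
end

-- ▼ part R096/Rd4_695
section

/-!
# C3-RED, part 4 (helper695, row 96 P5): radial factor, linear normalisation
-/

set_option autoImplicit false

open MeasureTheory Metric Set Filter Topology
open scoped NNReal ContDiff

namespace Crest.Agent.R096.Rd_695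

open Crest.Agent.R096.Vx_270 (Seg Good Sim CoreAt)
open Crest.Agent.R096.Hm_695 (Conic Conic.fderiv_smul Conic.zero)

variable {E : Type*} [NormedAddCommGroup E] [InnerProductSpace ℝ E]

section height

variable {K : E → E} {e : E}

/-- the maps `K` and `id` separate the cone where `K ≠ id` -/
lemma height_pos (h : SC K) (hid : ∀ z, inner ℝ e z ≤ ‖z‖ / 2 → K z = z) {z : E}
    (hz : ‖z‖ / 2 < inner ℝ e z) : ‖K z‖ / 2 < inner ℝ e (K z) := by
  by_contra hcon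
  push Not at hcon
  have h1 := hid (K z) hcon
  have h2 := h.homeo.injective h1
  rw [h2] at hcon
  linarith

open Classical in
/-- the radial factor -/
noncomputable def rho (K : E → E) (e : E) (z : E) : ℝ :=
  if inner ℝ e z ≤ ‖z‖ / 2 then 1 else inner ℝ e z / inner ℝ e (K z)

lemma rho_of_le {z : E} (hz : inner ℝ e z ≤ ‖z‖ / 2) : rho K e z = 1 := if_pos hz

lemma rho_of_pos (hid : ∀ z, inner ℝ e z ≤ ‖z‖ / 2 → K z = z) {z : E} (hz : 0 < inner ℝ e z) :
    rho K e z = inner ℝ e z / inner ℝ e (K z) := by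
  by_cases h : inner ℝ e z ≤ ‖z‖ / 2
  · rw [rho_of_le h, hid z h, div_self hz.ne']
  · rw [rho, if_neg h]

lemma inner_K_pos (h : SC K) (hid : ∀ z, inner ℝ e z ≤ ‖z‖ / 2 → K z = z) {z : E}
    (hz : 0 < inner ℝ e z) : 0 < inner ℝ e (K z) := by
  by_cases h' : inner ℝ e z ≤ ‖z‖ / 2
  · rw [hid z h']; exact hz
  · push Not at h'
    have := height_pos h hid h'
    linarith [norm_nonneg (K z)]

lemma rho_pos (h : SC K) (hid : ∀ z, inner ℝ e z ≤ ‖z‖ / 2 → K z = z) (z : E) :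
    0 < rho K e z := by
  by_cases h' : inner ℝ e z ≤ ‖z‖ / 2
  · rw [rho_of_le h']; exact one_pos
  · push Not at h'
    have hz : 0 < inner ℝ e z := lt_of_le_of_lt (by positivity) h'
    rw [rho_of_pos hid hz]
    exact div_pos hz (inner_K_pos h hid hz)

lemma rho_smul (h : SC K) {c : ℝ} (hc : 0 < c) (z : E) : rho K e (c • z) = rho K e z := by
  have h1 : inner ℝ e (c • z) = c * inner ℝ e z := inner_smul_right _ _ _
  have h2 : ‖c • z‖ = c * ‖z‖ := by rw [norm_smul, Real.norm_eq_abs, abs_of_pos hc]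
  by_cases h' : inner ℝ e z ≤ ‖z‖ / 2
  · rw [rho_of_le h', rho_of_le]
    rw [h1, h2]
    have := mul_le_mul_of_nonneg_left h' hc.le
    linarith
  · have h'' : ¬ (inner ℝ e (c • z) ≤ ‖c • z‖ / 2) := by
      rw [h1, h2]
      intro h3
      apply h'
      have : c * inner ℝ e z ≤ c * (‖z‖ / 2) := by linarith
      exact le_of_mul_le_mul_left this hc
    rw [rho, if_neg h'', rho, if_neg h', h1, h.conic c hc.le, inner_smul_right]
    rw [mul_div_mul_left _ _ hc.ne']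

lemma rho_contDiffAt (h : SC K) (hid : ∀ z, inner ℝ e z ≤ ‖z‖ / 2 → K z = z) {z : E}
    (hz : z ≠ 0) : ContDiffAt ℝ ∞ (rho K e) z := by
  have hz0 : 0 < ‖z‖ := norm_pos_iff.2 hz
  rcases lt_or_ge 0 (inner ℝ e z) with hp | hp
  · have h1 : ContDiffAt ℝ ∞ (fun y => inner ℝ e y / inner ℝ e (K y)) z :=
      (contDiffAt_const.inner ℝ contDiffAt_id).div (contDiffAt_const.inner ℝ (h.contDiffAt hz))
        (inner_K_pos h hid hp).ne'
    refine h1.congr_of_eventuallyEq ?_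
    have hopen : ∀ᶠ y in 𝓝 z, 0 < inner ℝ e y :=
      (isOpen_lt continuous_const (by fun_prop)).mem_nhds hp
    filter_upwards [hopen] with y hy
    exact rho_of_pos hid hy
  · have hopen : ∀ᶠ y in 𝓝 z, inner ℝ e y < ‖y‖ / 2 :=
      (isOpen_lt (by fun_prop) (by fun_prop)).mem_nhds (show inner ℝ e z < ‖z‖ / 2 by linarith)
    refine (contDiffAt_const (c := (1:ℝ))).congr_of_eventuallyEq ?_
    filter_upwards [hopen] with y hy
    exact rho_of_le hy.le

/-- the derivative of a `0`-homogeneous function kills the radial direction -/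
lemma rho_radial (h : SC K) (hid : ∀ z, inner ℝ e z ≤ ‖z‖ / 2 → K z = z) {z : E}
    (hz : z ≠ 0) : fderiv ℝ (rho K e) z z = 0 := by
  have h0 : HasFDerivAt (rho K e) (fderiv ℝ (rho K e) z) z :=
    ((rho_contDiffAt h hid hz).differentiableAt (by simp)).hasFDerivAt
  have h1 : HasDerivAt (fun t : ℝ => rho K e (t • z)) (fderiv ℝ (rho K e) z z) 1 := by
    have h2 : HasDerivAt (fun t : ℝ => t • z) z 1 := by
      simpa using (hasDerivAt_id (1:ℝ)).smul_const z
    have h3 : HasFDerivAt (rho K e) (fderiv ℝ (rho K e) z) ((1:ℝ) • z) := by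
      rw [one_smul]; exact h0
    exact h3.comp_hasDerivAt (1:ℝ) h2
  have h2 : HasDerivAt (fun t : ℝ => rho K e (t • z)) 0 1 := by
    refine (hasDerivAt_const (1:ℝ) (rho K e z)).congr_of_eventuallyEq ?_
    filter_upwards [Ioi_mem_nhds (show (0:ℝ) < 1 from one_pos)] with t ht
    exact rho_smul h ht z
  exact h1.unique h2

variable [FiniteDimensional ℝ E] [MeasurableSpace E] [BorelSpace E] (μ : Measure E)
  [μ.IsAddHaarMeasure]

/-- **R4** -/
theorem height_step (hE : 1 < Module.finrank ℝ E) (h : SC K)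
    (hid : ∀ z, inner ℝ e z ≤ ‖z‖ / 2 → K z = z) :
    ∃ K' : E → E, SC K' ∧ (CoreAt μ K' ↔ CoreAt μ K) ∧
      (∀ z, inner ℝ e z ≤ ‖z‖ / 2 → K' z = z) ∧ ∀ z, inner ℝ e (K' z) = inner ℝ e z := by
  set K' : E → E := fun z => rho K e z • K z with hK'
  have hc' : Conic K' := by
    intro c hc x
    rcases hc.eq_or_lt with hc0 | hc0
    · rw [← hc0, zero_smul, zero_smul]
      simp only [hK']
      rw [h.conic.zero, smul_zero]
    · simp only [hK']
      rw [rho_smul h hc0, h.conic c hc, smul_comm]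
  have hs' : ContDiffOn ℝ ∞ K' {0}ᶜ := fun x hx =>
    ((rho_contDiffAt h hid hx).smul (h.contDiffAt hx)).contDiffWithinAt
  have hstep := segment_step μ hE h hc' hs' ?_
  · refine ⟨K', hstep.1, hstep.2, fun z hz => ?_, fun z => ?_⟩
    · simp only [hK']
      rw [rho_of_le hz, one_smul, hid z hz]
    · simp only [hK']
      rw [inner_smul_right]
      by_cases h' : inner ℝ e z ≤ ‖z‖ / 2
      · rw [rho_of_le h', one_mul, hid z h']
      · push Not at h'
        have hz : 0 < inner ℝ e z := lt_of_le_of_lt (by positivity) h'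
        rw [rho_of_pos hid hz, div_mul_cancel₀ _ (inner_K_pos h hid hz).ne']
  · intro x hx s hs
    have hd := h.differentiableAt hx
    have hfd : fderiv ℝ K' x = rho K e x • fderiv ℝ K x + (fderiv ℝ (rho K e) x).smulRight (K x) :=
      (((rho_contDiffAt h hid hx).differentiableAt (by simp)).hasFDerivAt.smul
        hd.hasFDerivAt).fderiv
    refine pos_of_ne (f := fun s => ((1 - s) • fderiv ℝ K x + s • fderiv ℝ K' x).det) ?_ ?_ ?_ hs
    · refine ContinuousLinearMap.continuous_det.comp_continuousOn ?_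
      fun_prop
    · intro s hs
      refine det_ne_of_inj fun v hv => ?_
      rw [hfd] at hv
      set ρ := rho K e x with hρ
      set φ := fderiv ℝ (rho K e) x with hφ
      have hρ0 : 0 < ρ := rho_pos h hid x
      have hρs : 0 < (1 - s) + s * ρ := by
        rcases hs.1.eq_or_lt with h0 | h0
        · rw [← h0]; simp
        · have : 0 < s * ρ := mul_pos h0 hρ0
          linarith [hs.2]
      have hEu : fderiv ℝ K x x = K x := euler h.conic hd
      have h1 : fderiv ℝ K x (((1 - s) + s * ρ) • v + (s * φ v) • x) = 0 := by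
        rw [map_add, map_smul, map_smul, hEu]
        simp only [add_apply, smul_apply,
          ContinuousLinearMap.smulRight_apply] at hv
        rw [← hv, add_smul, smul_add, smul_smul, smul_smul]
        abel
      have h2 := inj_of_det (h.det x hx).ne' h1
      have h3 : φ x = 0 := rho_radial h hid hx
      have h4 : φ v = 0 := by
        have := congrArg φ h2
        rw [map_add, map_smul, map_smul, h3, map_zero, smul_zero, add_zero, smul_eq_mul] at this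
        exact (mul_eq_zero.1 this).resolve_left hρs.ne'
      rw [h4, mul_zero, zero_smul, add_zero] at h2
      exact (smul_eq_zero.1 h2).resolve_left hρs.ne'
    · simpa using h.det x hx

end height

section linear

variable [FiniteDimensional ℝ E]

omit [FiniteDimensional ℝ E] in
lemma det_symm_pos {A : E ≃L[ℝ] E} (hA : 0 < (A : E →L[ℝ] E).det) :
    0 < (A.symm : E →L[ℝ] E).det := by
  have h1 : (A.symm : E →L[ℝ] E).det * (A : E →L[ℝ] E).det = 1 := by
    have h2 : LinearMap.det (((A.symm : E →L[ℝ] E) : E →ₗ[ℝ] E) ∘ₗ ((A : E →L[ℝ] E) : E →ₗ[ℝ] E))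
        = 1 := by
      have : ((A.symm : E →L[ℝ] E) : E →ₗ[ℝ] E) ∘ₗ ((A : E →L[ℝ] E) : E →ₗ[ℝ] E)
          = LinearMap.id := by
        ext v; simp
      rw [this, LinearMap.det_id]
    rw [LinearMap.det_comp] at h2
    exact h2
  by_contra hcon
  push Not at hcon
  nlinarith

omit [FiniteDimensional ℝ E] in
lemma det_comp_pos {A B : E →L[ℝ] E} (hA : 0 < A.det) (hB : 0 < B.det) :
    0 < (A.comp B).det := by
  have h2 : LinearMap.det ((A : E →ₗ[ℝ] E) ∘ₗ (B : E →ₗ[ℝ] E))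
      = LinearMap.det (A : E →ₗ[ℝ] E) * LinearMap.det (B : E →ₗ[ℝ] E) := LinearMap.det_comp _ _
  have h3 : (A.comp B).det = A.det * B.det := h2
  rw [h3]
  exact mul_pos hA hB

variable [MeasurableSpace E] [BorelSpace E] {μ : Measure E} [μ.IsAddHaarMeasure]

omit [μ.IsAddHaarMeasure] [BorelSpace E] in
/-- `MollAt` is invariant under composition with an orientation preserving linear map -/
lemma mollAt_comp_left {A : E ≃L[ℝ] E} (hA : 0 < (A : E →L[ℝ] E).det) {Φ : E → E} {x : E}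
    (h : Mo_119.MollAt μ Φ x) : Mo_119.MollAt μ (fun y => A (Φ y)) x := by
  obtain ⟨r, hr, C, hC1, hC2, hC3, ⟨L, hL⟩, hae⟩ := h
  refine ⟨r, hr, (fun B : E →L[ℝ] E => (A : E →L[ℝ] E).comp B) '' C, ?_, ?_, ?_, ?_, ?_⟩
  · exact hC1.linear_image ((ContinuousLinearMap.compL ℝ E E E (A : E →L[ℝ] E)) :
      (E →L[ℝ] E) →ₗ[ℝ] (E →L[ℝ] E))
  · exact hC2.image (ContinuousLinearMap.compL ℝ E E E (A : E →L[ℝ] E)).continuous
  · rintro _ ⟨B, hB, rfl⟩
    exact det_comp_pos hA (hC3 B hB)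
  · exact ⟨_, (A : E →L[ℝ] E).lipschitz.comp_lipschitzOnWith hL⟩
  · filter_upwards [hae] with y hy hyb
    refine ⟨fderiv ℝ Φ y, hy hyb, ?_⟩
    exact (A.comp_fderiv (f := Φ) (x := y)).symm

omit [μ.IsAddHaarMeasure] [BorelSpace E] in
theorem coreAt_of_comp_left {A : E ≃L[ℝ] E} (hA : 0 < (A : E →L[ℝ] E).det) {K : E → E}
    (h : CoreAt μ (fun x => A (K x))) : CoreAt μ K := by
  obtain ⟨Φ, hΦ, hout, hmoll, C, hC⟩ := h
  refine ⟨fun x => A.symm (Φ x), A.symm.toHomeomorph.isHomeomorph.comp hΦ, fun x hx => ?_,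
    fun x => mollAt_comp_left (det_symm_pos hA) (hmoll x), _,
    (A.symm : E →L[ℝ] E).lipschitz.comp hC⟩
  show A.symm (Φ x) = K x
  rw [hout x hx]
  exact A.symm_apply_apply _

omit [MeasurableSpace E] [BorelSpace E] in
lemma SC.comp_left {K : E → E} (h : SC K) {A : E ≃L[ℝ] E} (hA : 0 < (A : E →L[ℝ] E).det) :
    SC (fun x => A (K x)) := by
  refine ⟨fun c hc x => by rw [h.conic c hc, map_smul], fun x hx => ?_, fun x hx => ?_,
    A.toHomeomorph.isHomeomorph.comp h.homeo⟩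
  · exact (A.contDiff.contDiffAt.comp x (h.contDiffAt hx)).contDiffWithinAt
  · have : fderiv ℝ (fun x => A (K x)) x = (A : E →L[ℝ] E).comp (fderiv ℝ K x) :=
      A.comp_fderiv (f := K) (x := x)
    rw [this]
    exact det_comp_pos hA (h.det x hx)

end linear

section normal
variable [FiniteDimensional ℝ E] [MeasurableSpace E] [BorelSpace E] (μ : Measure E)
  [μ.IsAddHaarMeasure]

/-- **R1 - R4 together**: every smooth conic diffeomorphism is reduced to one which preserves the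
height `⟪e, ·⟫` and is the identity for `⟪e, z⟫ ≤ ‖z‖ / 2`. -/
theorem normalise (hE : 1 < Module.finrank ℝ E) {e : E} (he : ‖e‖ = 1) {H : E → E} (h : SC H) :
    ∃ K : E → E, SC K ∧ (CoreAt μ K → CoreAt μ H) ∧
      (∀ z, inner ℝ e z ≤ ‖z‖ / 2 → K z = z) ∧ ∀ z, inner ℝ e (K z) = inner ℝ e z := by
  -- use the opposite direction for the localisation
  set e' : E := -e with he'
  have hne' : ‖e'‖ = 1 := by rw [he', norm_neg, he]
  have hne : e' ≠ 0 := by
    intro h0; rw [h0, norm_zero] at hne'; exact zero_ne_one hne'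
  set D : E ≃L[ℝ] E := (fderiv ℝ H e').toContinuousLinearEquivOfDetNeZero (h.det e' hne).ne'
    with hD
  have hDe : (D : E →L[ℝ] E) = fderiv ℝ H e' :=
    ContinuousLinearMap.coe_toContinuousLinearEquivOfDetNeZero _ _
  have hDdet : 0 < (D : E →L[ℝ] E).det := by rw [hDe]; exact h.det e' hne
  have hAdet : 0 < (D.symm : E →L[ℝ] E).det := det_symm_pos hDdet
  have h1 : SC (fun x => D.symm (H x)) := h.comp_left hAdet
  have hfd : fderiv ℝ (fun x => D.symm (H x)) e' = ContinuousLinearMap.id ℝ E := by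
    have : fderiv ℝ (fun x => D.symm (H x)) e' =
        (D.symm : E →L[ℝ] E).comp (fderiv ℝ H e') := D.symm.comp_fderiv (f := H) (x := e')
    rw [this, ← hDe]
    ext v; simp
  obtain ⟨H2, h2, hc2, δ, hδ, hid2⟩ := localise μ hE h1 hne' hfd
  obtain ⟨H3, h3, hc3, hid3⟩ := boost_step μ hE h2 hne' hδ hid2
  have hid3' : ∀ z, inner ℝ e z ≤ ‖z‖ / 2 → H3 z = z := by
    intro z hz
    refine hid3 z ?_
    rw [he', inner_neg_left]
    linarith
  obtain ⟨H4, h4, hc4, hid4, hh4⟩ := height_step μ hE h3 hid3'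
  exact ⟨H4, h4, fun hc => coreAt_of_comp_left hAdet (hc2.1 (hc3.1 (hc4.1 hc))), hid4, hh4⟩

end normal

end Crest.Agent.R096.Rd_695
end

-- ▼ part R096/Rd5_695
section

/-!
# C3-RED, part 5 (helper695, row 96 P5): cones over maps of the plane
-/

set_option autoImplicit false

open MeasureTheory Metric Set Filter Topology
open scoped NNReal ContDiff

namespace Crest.Agent.R096.Rd_695

open Crest.Agent.R096.Vx_270 (Seg Good Sim CoreAt)
open Crest.Agent.R096.Hm_695 (Conic Conic.fderiv_smul Conic.zero)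
open Crest.Agent.R096.BelDefs_205 (Adm PathC Bel)

variable {E : Type*} [NormedAddCommGroup E] [InnerProductSpace ℝ E]

/-- coordinates `ℂ × ℝ` adapted to the unit vector `e` -/
structure Chart (e : E) where
  ι : ℂ →L[ℝ] E
  π : E →L[ℝ] ℂ
  πι : ∀ w, π (ι w) = w
  πe : π e = 0
  sι : ∀ w, inner ℝ e (ι w) = 0
  dec : ∀ z, ι (π z) + (inner ℝ e z : ℝ) • e = z

theorem exists_chart [FiniteDimensional ℝ E] (hE : Module.finrank ℝ E = 3) {e : E}
    (he : ‖e‖ = 1) : Nonempty (Chart e) := by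
  have hne : e ≠ 0 := by
    rintro rfl; simp at he
  have : Fact (Module.finrank ℝ E = 2 + 1) := ⟨hE⟩
  have h2 : Module.finrank ℝ (ℝ ∙ e)ᗮ = 2 := Submodule.finrank_orthogonal_span_singleton hne
  let ψ : ℂ ≃L[ℝ] (ℝ ∙ e)ᗮ := ContinuousLinearEquiv.ofFinrankEq (by
    rw [h2, Complex.finrank_real_complex])
  have hs : ∀ y : (ℝ ∙ e)ᗮ, inner ℝ e (y : E) = 0 := fun y =>
    (Submodule.mem_orthogonal_singleton_iff_inner_right).1 y.2
  refine ⟨⟨(ℝ ∙ e)ᗮ.subtypeL.comp (ψ : ℂ →L[ℝ] (ℝ ∙ e)ᗮ),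
    (ψ.symm : (ℝ ∙ e)ᗮ →L[ℝ] ℂ).comp (ℝ ∙ e)ᗮ.orthogonalProjectionOnto, ?_, ?_, ?_, ?_⟩⟩
  · intro w
    simp
  · have : (ℝ ∙ e)ᗮ.orthogonalProjectionOnto e = 0 := by
      apply Submodule.orthogonalProjectionOnto_orthogonal_apply_eq_zero
      exact Submodule.mem_span_singleton_self e
    simp [this]
  · intro w
    exact hs (ψ w)
  · intro z
    simp only [ContinuousLinearMap.comp_apply, ContinuousLinearEquiv.coe_coe,
      ContinuousLinearEquiv.apply_symm_apply, Submodule.subtypeL_apply]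
    have h3 := Submodule.starProjection_add_starProjection_orthogonal (K := ℝ ∙ e) z
    have h4 : (ℝ ∙ e).starProjection z = (inner ℝ e z : ℝ) • e := by
      rw [Submodule.starProjection_unit_singleton ℝ he]
    rw [h4] at h3
    rw [add_comm] at h3
    exact h3

namespace Chart

variable {e : E} (c : Chart e)

/-- the cone over `g`, upper half space -/
noncomputable def up (g : ℂ → ℂ) (z : E) : E :=
  c.ι ((inner ℝ e z : ℝ) • g ((inner ℝ e z : ℝ)⁻¹ • c.π z)) + (inner ℝ e z : ℝ) • e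

open Classical in
/-- the cone over `g` -/
noncomputable def cone (g : ℂ → ℂ) (z : E) : E :=
  if 0 < (inner ℝ e z : ℝ) then c.up g z else z

/-- derivative of the cone -/
noncomputable def DC (A : ℂ →L[ℝ] ℂ) (w gw : ℂ) : E →L[ℝ] E :=
  c.ι.comp (A.comp (c.π - (innerSL ℝ e).smulRight w) + (innerSL ℝ e).smulRight gw)
    + (innerSL ℝ e).smulRight e

lemma DC_apply (A : ℂ →L[ℝ] ℂ) (w gw : ℂ) (v : E) :
    c.DC A w gw v = c.ι (A (c.π v - (inner ℝ e v : ℝ) • w) + (inner ℝ e v : ℝ) • gw)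
      + (inner ℝ e v : ℝ) • e := rfl

lemma hasFDerivAt_up {g : ℂ → ℂ} {z : E} (hz : 0 < (inner ℝ e z : ℝ))
    (hg : DifferentiableAt ℝ g ((inner ℝ e z : ℝ)⁻¹ • c.π z)) :
    HasFDerivAt (c.up g) (c.DC (fderiv ℝ g ((inner ℝ e z : ℝ)⁻¹ • c.π z))
      ((inner ℝ e z : ℝ)⁻¹ • c.π z) (g ((inner ℝ e z : ℝ)⁻¹ • c.π z))) z := by
  set s := (inner ℝ e z : ℝ) with hs
  set w := s⁻¹ • c.π z with hw
  have h1 : HasFDerivAt (fun y : E => (inner ℝ e y : ℝ)) (innerSL ℝ e) z :=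
    (innerSL ℝ e).hasFDerivAt
  have h2 : HasFDerivAt (fun y : E => (inner ℝ e y : ℝ)⁻¹) (-(s ^ 2)⁻¹ • innerSL ℝ e) z :=
    (hasDerivAt_inv hz.ne').comp_hasFDerivAt z h1
  have h3 : HasFDerivAt (fun y : E => c.π y) c.π z := c.π.hasFDerivAt
  have h4 : HasFDerivAt (fun y : E => (inner ℝ e y : ℝ)⁻¹ • c.π y)
      (s⁻¹ • c.π + (-(s ^ 2)⁻¹ • innerSL ℝ e).smulRight (c.π z)) z := h2.smul h3
  have h5 : HasFDerivAt g (fderiv ℝ g w) ((fun y : E => (inner ℝ e y : ℝ)⁻¹ • c.π y) z) :=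
    hg.hasFDerivAt
  have h6 : HasFDerivAt (fun y : E => g ((inner ℝ e y : ℝ)⁻¹ • c.π y))
      ((fderiv ℝ g w).comp (s⁻¹ • c.π + (-(s ^ 2)⁻¹ • innerSL ℝ e).smulRight (c.π z))) z :=
    HasFDerivAt.comp z h5 h4
  have h7 := h1.smul h6
  have h8 := (c.ι.hasFDerivAt.comp z h7).add (h1.smul_const e)
  refine HasFDerivAt.congr_fderiv h8 ?_
  ext v
  rw [DC_apply]
  simp only [add_apply, ContinuousLinearMap.comp_apply, smul_apply,
    ContinuousLinearMap.smulRight_apply, innerSL_apply_apply]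
  have key : s • (fderiv ℝ g w) (s⁻¹ • c.π v + (-(s ^ 2)⁻¹ • (inner ℝ e v : ℝ)) • c.π z) =
      (fderiv ℝ g w) (c.π v - (inner ℝ e v : ℝ) • w) := by
    rw [← map_smul]
    congr 1
    rw [hw, smul_add, smul_smul, mul_inv_cancel₀ hz.ne', one_smul, smul_smul, smul_smul,
      sub_eq_add_neg, ← neg_smul]
    congr 2
    rw [smul_eq_mul]
    field_simp
  rw [← key]

lemma DC_inj {A : ℂ →L[ℝ] ℂ} (hA : ∀ u, A u = 0 → u = 0) (w gw : ℂ) (he : ‖e‖ = 1) {v : E}
    (hv : c.DC A w gw v = 0) : v = 0 := by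
  rw [DC_apply] at hv
  have h1 : (inner ℝ e v : ℝ) = 0 := by
    have := congrArg (fun y => (inner ℝ e y : ℝ)) hv
    simp only [inner_add_right, c.sι, inner_smul_right, real_inner_self_eq_norm_sq, he,
      inner_zero_right] at this
    simpa using this
  rw [h1] at hv
  simp only [zero_smul, sub_zero, add_zero] at hv
  have h2 : A (c.π v) = 0 := by
    have := congrArg c.π hv
    rwa [c.πι, map_zero] at this
  have h3 := hA _ h2
  rw [← c.dec v, h3, h1, map_zero, zero_smul, add_zero]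

/-- the open set where all cones are the identity -/
def out (R : ℝ) : Set E := {z | R * (inner ℝ e z : ℝ) < ‖c.π z‖} ∪ {z | (inner ℝ e z : ℝ) < 0}

lemma isOpen_out (R : ℝ) : IsOpen (c.out R) :=
  (isOpen_lt (by fun_prop) (by fun_prop)).union (isOpen_lt (by fun_prop) (by fun_prop))

lemma isOpen_upper : IsOpen {z : E | 0 < (inner ℝ e z : ℝ)} :=
  isOpen_lt (by fun_prop) (by fun_prop)

lemma cone_of_out {g : ℂ → ℂ} {R : ℝ} (hg : ∀ w, R < ‖w‖ → g w = w) {z : E}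
    (hz : z ∈ c.out R) : c.cone g z = z := by
  by_cases hs : 0 < (inner ℝ e z : ℝ)
  · rw [cone, if_pos hs, up]
    have hz' : R * (inner ℝ e z : ℝ) < ‖c.π z‖ := by
      rcases hz with hz | hz
      · exact hz
      · exact absurd hs (not_lt.2 (le_of_lt hz))
    have h1 : R < ‖(inner ℝ e z : ℝ)⁻¹ • c.π z‖ := by
      rw [norm_smul, norm_inv, Real.norm_eq_abs, abs_of_pos hs, lt_inv_mul_iff₀ hs]
      linarith
    rw [hg _ h1, smul_smul, mul_inv_cancel₀ hs.ne', one_smul]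
    exact c.dec z
  · rw [cone, if_neg hs]

lemma mem_out_of_le {R : ℝ} {z : E} (hz : z ≠ 0) (hs : (inner ℝ e z : ℝ) ≤ 0) :
    z ∈ c.out R := by
  rcases hs.lt_or_eq with h | h
  · exact Or.inr h
  · left
    show R * (inner ℝ e z : ℝ) < ‖c.π z‖
    rw [h, mul_zero, norm_pos_iff]
    intro h0
    apply hz
    rw [← c.dec z, h0, h, map_zero, zero_smul, add_zero]

lemma cone_conic (g : ℂ → ℂ) : Conic (c.cone g) := by
  intro a ha z
  rcases ha.eq_or_lt with ha0 | ha0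
  · rw [← ha0, zero_smul, zero_smul, cone, if_neg]
    simp
  · have h1 : (inner ℝ e (a • z) : ℝ) = a * inner ℝ e z := inner_smul_right _ _ _
    by_cases hs : 0 < (inner ℝ e z : ℝ)
    · have hs' : 0 < (inner ℝ e (a • z) : ℝ) := by rw [h1]; positivity
      have h2 : (a * (inner ℝ e z : ℝ))⁻¹ * a = (inner ℝ e z : ℝ)⁻¹ := by
        field_simp
      rw [cone, if_pos hs', cone, if_pos hs, up, up, h1, c.π.map_smul, smul_smul, h2, smul_add,
        mul_smul, mul_smul, c.ι.map_smul]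
    · have hs' : ¬ 0 < (inner ℝ e (a • z) : ℝ) := by
        rw [h1]
        push Not at hs ⊢
        exact mul_nonpos_of_nonneg_of_nonpos ha0.le hs
      rw [cone, if_neg hs', cone, if_neg hs]

lemma cone_id : c.cone id = id := by
  funext z
  by_cases hs : 0 < (inner ℝ e z : ℝ)
  · rw [cone, if_pos hs, up, id, smul_smul, mul_inv_cancel₀ hs.ne', one_smul]
    exact c.dec z
  · rw [cone, if_neg hs]; rfl

lemma cone_eventually_up (g : ℂ → ℂ) {z : E} (hz : 0 < (inner ℝ e z : ℝ)) :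
    c.cone g =ᶠ[𝓝 z] c.up g := by
  filter_upwards [isOpen_upper.mem_nhds (show z ∈ {z : E | 0 < (inner ℝ e z : ℝ)} from hz)]
    with y hy
  rw [cone, if_pos hy]

lemma cone_eventually_id {g : ℂ → ℂ} {R : ℝ} (hg : ∀ w, R < ‖w‖ → g w = w) {z : E}
    (hz : z ∈ c.out R) : c.cone g =ᶠ[𝓝 z] id := by
  filter_upwards [(c.isOpen_out R).mem_nhds hz] with y hy
  exact c.cone_of_out hg hy

lemma fderiv_cone_up {g : ℂ → ℂ} {z : E} (hz : 0 < (inner ℝ e z : ℝ))
    (hg : DifferentiableAt ℝ g ((inner ℝ e z : ℝ)⁻¹ • c.π z)) :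
    fderiv ℝ (c.cone g) z = c.DC (fderiv ℝ g ((inner ℝ e z : ℝ)⁻¹ • c.π z))
      ((inner ℝ e z : ℝ)⁻¹ • c.π z) (g ((inner ℝ e z : ℝ)⁻¹ • c.π z)) := by
  rw [(c.cone_eventually_up g hz).fderiv_eq]
  exact (c.hasFDerivAt_up hz hg).fderiv

lemma fderiv_cone_out {g : ℂ → ℂ} {R : ℝ} (hg : ∀ w, R < ‖w‖ → g w = w) {z : E}
    (hz : z ∈ c.out R) : fderiv ℝ (c.cone g) z = ContinuousLinearMap.id ℝ E := by
  rw [(c.cone_eventually_id hg hz).fderiv_eq]
  exact fderiv_id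

lemma contDiffAt_cone {R : ℝ} {g : ℂ → ℂ} (hg : Adm R g) {z : E} (hz : z ≠ 0) :
    ContDiffAt ℝ ∞ (c.cone g) z := by
  by_cases hs : 0 < (inner ℝ e z : ℝ)
  · refine ContDiffAt.congr_of_eventuallyEq ?_ (c.cone_eventually_up g hs)
    unfold up
    have h1 : ContDiffAt ℝ ∞ (fun y : E => (inner ℝ e y : ℝ)) z :=
      contDiffAt_const.inner ℝ contDiffAt_id
    have h2 : ContDiffAt ℝ ∞ (fun y : E => (inner ℝ e y : ℝ)⁻¹ • c.π y) z :=
      (h1.inv hs.ne').smul c.π.contDiff.contDiffAt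
    have h3 : ContDiffAt ℝ ∞ (fun y : E => g ((inner ℝ e y : ℝ)⁻¹ • c.π y)) z :=
      hg.smooth.contDiffAt.comp z h2
    exact (c.ι.contDiff.contDiffAt.comp z (h1.smul h3)).add (h1.smul contDiffAt_const)
  · push Not at hs
    exact contDiffAt_id.congr_of_eventuallyEq
      (c.cone_eventually_id hg.out (c.mem_out_of_le hz hs))

lemma fderiv_cone_inj {R : ℝ} {g : ℂ → ℂ} (hg : Adm R g) (he : ‖e‖ = 1) {z : E} (hz : z ≠ 0)
    {v : E} (hv : fderiv ℝ (c.cone g) z v = 0) : v = 0 := by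
  by_cases hs : 0 < (inner ℝ e z : ℝ)
  · rw [c.fderiv_cone_up hs ((hg.smooth.differentiable (by simp)) _)] at hv
    exact c.DC_inj (fun u hu => inj_of_det (hg.det _).ne' hu) _ _ he hv
  · push Not at hs
    rw [c.fderiv_cone_out hg.out (c.mem_out_of_le hz hs)] at hv
    exact hv

section path

lemma joint0 {R M : ℝ} {F : ℝ → ℂ → ℂ} (h : PathC R M F) :
    ContinuousOn (fun p : ℝ × ℂ => F p.1 p.2) (Icc 0 1 ×ˢ univ) := by
  refine continuousOn_prod_of_continuousOn_lipschitzOnWith (fun p : ℝ × ℂ => F p.1 p.2)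
    M.toNNReal (fun a ha => ((h.adm a ha).smooth.continuous).continuousOn) fun b _ => ?_
  refine LipschitzOnWith.of_dist_le_mul fun s hs t ht => ?_
  rw [dist_eq_norm, Real.dist_eq]
  exact (h.lip0 s hs t ht b).trans
    (mul_le_mul_of_nonneg_right (Real.le_coe_toNNReal M) (abs_nonneg _))

lemma joint1 {R M : ℝ} {F : ℝ → ℂ → ℂ} (h : PathC R M F) :
    ContinuousOn (fun p : ℝ × ℂ => fderiv ℝ (F p.1) p.2) (Icc 0 1 ×ˢ univ) := by
  refine continuousOn_prod_of_continuousOn_lipschitzOnWith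
    (fun p : ℝ × ℂ => fderiv ℝ (F p.1) p.2)
    M.toNNReal (fun a ha => ((h.adm a ha).smooth.continuous_fderiv (by simp)).continuousOn)
    fun b _ => ?_
  refine LipschitzOnWith.of_dist_le_mul fun s hs t ht => ?_
  rw [dist_eq_norm, Real.dist_eq]
  exact (h.lip1 s hs t ht b).trans
    (mul_le_mul_of_nonneg_right (Real.le_coe_toNNReal M) (abs_nonneg _))

lemma continuous_DC : Continuous fun q : (ℂ →L[ℝ] ℂ) × ℂ × ℂ => c.DC q.1 q.2.1 q.2.2 := by
  unfold DC
  fun_prop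

lemma continuousOn_fderiv_cone {R M : ℝ} {F : ℝ → ℂ → ℂ} (h : PathC R M F) :
    ContinuousOn (fun p : ℝ × E => fderiv ℝ (c.cone (F p.1)) p.2) (Icc 0 1 ×ˢ {0}ᶜ) := by
  rintro ⟨t, z⟩ ⟨ht, hz⟩
  have hz0 : z ≠ 0 := hz
  by_cases hs : 0 < (inner ℝ e z : ℝ)
  · set W : Set (ℝ × E) := Icc 0 1 ×ˢ {z : E | 0 < (inner ℝ e z : ℝ)} with hW
    set w : ℝ × E → ℂ := fun p => (inner ℝ e p.2 : ℝ)⁻¹ • c.π p.2 with hw
    have hsc : ContinuousOn (fun p : ℝ × E => (inner ℝ e p.2 : ℝ)) W := by fun_prop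
    have hπc : ContinuousOn (fun p : ℝ × E => c.π p.2) W := by fun_prop
    have hwc : ContinuousOn w W := (hsc.inv₀ fun p hp => ne_of_gt hp.2).smul hπc
    have hpw : ContinuousOn (fun p : ℝ × E => (p.1, w p)) W := continuousOn_fst.prodMk hwc
    have hmaps : MapsTo (fun p : ℝ × E => (p.1, w p)) W (Icc 0 1 ×ˢ univ) :=
      fun p hp => ⟨hp.1, mem_univ _⟩
    have h0 : ContinuousOn (fun p : ℝ × E => F p.1 (w p)) W := (joint0 h).comp hpw hmaps
    have h1 : ContinuousOn (fun p : ℝ × E => fderiv ℝ (F p.1) (w p)) W :=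
      (joint1 h).comp hpw hmaps
    have h12 : ContinuousOn (fun p : ℝ × E => (fderiv ℝ (F p.1) (w p), w p, F p.1 (w p))) W :=
      h1.prodMk (hwc.prodMk h0)
    have h2 := c.continuous_DC.comp_continuousOn h12
    have h3 : ContinuousOn (fun p : ℝ × E => fderiv ℝ (c.cone (F p.1)) p.2) W := by
      refine h2.congr fun p hp => ?_
      exact c.fderiv_cone_up hp.2 (((h.adm p.1 hp.1).smooth.differentiable (by simp)) _)
    have h4 : ContinuousWithinAt (fun p : ℝ × E => fderiv ℝ (c.cone (F p.1)) p.2) W (t, z) :=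
      h3 (t, z) ⟨ht, hs⟩
    refine h4.mono_of_mem_nhdsWithin ?_
    have h5 : (univ : Set ℝ) ×ˢ {z : E | 0 < (inner ℝ e z : ℝ)} ∈ 𝓝 (t, z) :=
      (isOpen_univ.prod isOpen_upper).mem_nhds ⟨mem_univ _, hs⟩
    filter_upwards [self_mem_nhdsWithin, mem_nhdsWithin_of_mem_nhds h5] with p hp hp'
    exact ⟨hp.1, hp'.2⟩
  · push Not at hs
    have hout : z ∈ c.out R := c.mem_out_of_le hz0 hs
    have h5 : (univ : Set ℝ) ×ˢ c.out R ∈ 𝓝 (t, z) :=
      (isOpen_univ.prod (c.isOpen_out R)).mem_nhds ⟨mem_univ _, hout⟩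
    have h6 : (fun p : ℝ × E => fderiv ℝ (c.cone (F p.1)) p.2)
        =ᶠ[𝓝[Icc 0 1 ×ˢ {0}ᶜ] (t, z)] fun _ => ContinuousLinearMap.id ℝ E := by
      filter_upwards [self_mem_nhdsWithin, mem_nhdsWithin_of_mem_nhds h5] with p hp hp'
      exact c.fderiv_cone_out (h.adm p.1 hp.1).out hp'.2
    exact (continuousWithinAt_const (b := ContinuousLinearMap.id ℝ E)).congr_of_eventuallyEq h6
      (c.fderiv_cone_out (h.adm t ht).out hout)

variable [FiniteDimensional ℝ E]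

lemma cone_det_pos {R M : ℝ} {F : ℝ → ℂ → ℂ} (h : PathC R M F) (he : ‖e‖ = 1)
    (h0 : ∀ z, z ≠ 0 → 0 < (fderiv ℝ (c.cone (F 0)) z).det) {t : ℝ} (ht : t ∈ Icc (0:ℝ) 1)
    {z : E} (hz : z ≠ 0) : 0 < (fderiv ℝ (c.cone (F t)) z).det := by
  refine pos_of_ne (f := fun t => (fderiv ℝ (c.cone (F t)) z).det) ?_ ?_ (h0 z hz) ht
  · refine ContinuousLinearMap.continuous_det.comp_continuousOn ?_
    have : ContinuousOn (fun s : ℝ => ((s, z) : ℝ × E)) (Icc 0 1) := by fun_prop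
    exact (c.continuousOn_fderiv_cone h).comp this fun s hs => ⟨hs, hz⟩
  · exact fun s hs => det_ne_of_inj fun v hv => c.fderiv_cone_inj (h.adm s hs) he hz hv

variable [MeasurableSpace E] [BorelSpace E] (μ : Measure E) [μ.IsAddHaarMeasure]

/-- the cones over a path of plane maps -/
theorem cone_step (hE : 1 < Module.finrank ℝ E) {R M : ℝ} {F : ℝ → ℂ → ℂ} (h : PathC R M F)
    (he : ‖e‖ = 1) (h0 : ∀ z, z ≠ 0 → 0 < (fderiv ℝ (c.cone (F 0)) z).det)
    (hh : IsHomeomorph (c.cone (F 0))) {t : ℝ} (ht : t ∈ Icc (0:ℝ) 1) :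
    IsHomeomorph (c.cone (F t)) ∧ (CoreAt μ (c.cone (F t)) ↔ CoreAt μ (c.cone (F 0))) :=
  path_step μ hE (fun t _ => c.cone_conic (F t))
    (fun t ht z hz => ((c.contDiffAt_cone (h.adm t ht) hz).of_le (by norm_cast)).contDiffWithinAt)
    (c.continuousOn_fderiv_cone h) (fun t ht z hz => c.cone_det_pos h he h0 ht hz) hh ht

end path

/-- a height preserving smooth conic diffeomorphism is the cone over a map of the plane -/
theorem exists_plane [FiniteDimensional ℝ E] {K : E → E} (h : SC K) (he : ‖e‖ = 1)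
    (hid : ∀ z, inner ℝ e z ≤ ‖z‖ / 2 → K z = z) (hh : ∀ z, inner ℝ e (K z) = (inner ℝ e z : ℝ)) :
    ∃ (R : ℝ) (f : ℂ → ℂ), Adm R f ∧ c.cone f = K := by
  set f : ℂ → ℂ := fun w => c.π (K (c.ι w + e)) with hf
  have hs1 : ∀ w, (inner ℝ e (c.ι w + e) : ℝ) = 1 := fun w => by
    rw [inner_add_right, c.sι, real_inner_self_eq_norm_sq, he]; norm_num
  have hne : ∀ w, c.ι w + e ≠ 0 := fun w h0 => by
    have := hs1 w
    rw [h0, inner_zero_right] at this
    exact zero_ne_one this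
  have hKf : ∀ w, K (c.ι w + e) = c.ι (f w) + e := fun w => by
    have h1 := c.dec (K (c.ι w + e))
    rw [hh, hs1, one_smul] at h1
    exact h1.symm
  have haff : ∀ w, HasFDerivAt (fun w => c.ι w + e) c.ι w := fun w =>
    c.ι.hasFDerivAt.add_const e
  have hfd : ∀ w, HasFDerivAt f ((c.π.comp (fderiv ℝ K (c.ι w + e))).comp c.ι) w := fun w => by
    have h1 : HasFDerivAt K (fderiv ℝ K (c.ι w + e)) (c.ι w + e) :=
      (h.differentiableAt (hne w)).hasFDerivAt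
    exact c.π.hasFDerivAt.comp w (h1.comp w (haff w))
  have hsm : ContDiff ℝ ∞ f := by
    rw [contDiff_iff_contDiffAt]
    intro w
    have h1 : ContDiffAt ℝ ∞ (fun w => c.ι w + e) w :=
      c.ι.contDiff.contDiffAt.add contDiffAt_const
    exact c.π.contDiff.contDiffAt.comp w ((h.contDiffAt (hne w)).comp w h1)
  -- derivative of the height
  have hhd : ∀ w v, (inner ℝ e (fderiv ℝ K (c.ι w + e) v) : ℝ) = inner ℝ e v := fun w v => by
    have h1 : HasFDerivAt K (fderiv ℝ K (c.ι w + e)) (c.ι w + e) :=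
      (h.differentiableAt (hne w)).hasFDerivAt
    have h2 : HasFDerivAt (fun z => (inner ℝ e (K z) : ℝ))
        ((innerSL ℝ e).comp (fderiv ℝ K (c.ι w + e))) (c.ι w + e) :=
      (innerSL ℝ e).hasFDerivAt.comp _ h1
    have h3 : (fun z => (inner ℝ e (K z) : ℝ)) = fun z => (innerSL ℝ e) z := by
      funext z; exact hh z
    rw [h3] at h2
    have h4 := h2.unique (innerSL ℝ e).hasFDerivAt
    have h5 := congrArg (fun A : E →L[ℝ] ℝ => A v) h4
    exact h5
  have hinj : ∀ w v, fderiv ℝ f w v = 0 → v = 0 := fun w v hv => by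
    rw [(hfd w).fderiv] at hv
    have h1 : c.π (fderiv ℝ K (c.ι w + e) (c.ι v)) = 0 := hv
    have h2 := c.dec (fderiv ℝ K (c.ι w + e) (c.ι v))
    rw [h1, hhd, c.sι, map_zero, zero_smul, add_zero] at h2
    have h3 := inj_of_det (h.det _ (hne w)).ne' h2.symm
    rw [← c.πι v, h3, map_zero]
  -- radius
  set R : ℝ := 3 * ‖c.π‖ with hR
  have hR0 : 0 ≤ R := by positivity
  have hout : ∀ w, R < ‖w‖ → f w = w := fun w hw => by
    have h1 : ‖w‖ ≤ ‖c.π‖ * ‖c.ι w‖ := by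
      have := c.π.le_opNorm (c.ι w)
      rwa [c.πι] at this
    have h2 : 3 < ‖c.ι w‖ := by
      by_contra hcon
      push Not at hcon
      have : ‖c.π‖ * ‖c.ι w‖ ≤ ‖c.π‖ * 3 := by gcongr
      linarith
    have h3 : ‖c.ι w‖ ≤ ‖c.ι w + e‖ + 1 := by
      calc ‖c.ι w‖ = ‖(c.ι w + e) - e‖ := by congr 1; abel
        _ ≤ ‖c.ι w + e‖ + ‖e‖ := norm_sub_le _ _
        _ = _ := by rw [he]
    have h4 : K (c.ι w + e) = c.ι w + e := hid _ (by rw [hs1]; linarith)
    simp only [hf]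
    rw [h4, map_add, c.πι, c.πe, add_zero]
  have hdet : ∀ w, 0 < (fderiv ℝ f w).det := fun w => by
    set w₁ : ℂ := ((R + 1 : ℝ) : ℂ) with hw₁
    have hn : R < ‖w₁‖ := by
      rw [hw₁, Complex.norm_real, Real.norm_eq_abs, abs_of_nonneg (by linarith)]; linarith
    have h1 : fderiv ℝ f w₁ = ContinuousLinearMap.id ℝ ℂ := by
      have : f =ᶠ[𝓝 w₁] id := by
        filter_upwards [(isOpen_lt continuous_const continuous_norm).mem_nhds hn] with y hy
        exact hout y hy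
      rw [this.fderiv_eq]; exact fderiv_id
    have h2 := pos_of_ne (f := fun t => (fderiv ℝ f (w₁ + t • (w - w₁))).det) (t := 1) ?_ ?_ ?_
      (by simp)
    · simpa using h2
    · refine Continuous.continuousOn ?_
      refine ContinuousLinearMap.continuous_det.comp ?_
      exact (hsm.continuous_fderiv (by simp)).comp (by fun_prop)
    · intro t _
      exact det_ne_of_inj fun v hv => hinj _ v hv
    · simp only [zero_smul, add_zero]
      rw [h1]
      show 0 < LinearMap.det _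
      simp
  refine ⟨R, f, ⟨hsm, hout, hdet⟩, ?_⟩
  funext z
  by_cases hs : 0 < (inner ℝ e z : ℝ)
  · rw [cone, if_pos hs, up]
    set s := (inner ℝ e z : ℝ) with hs'
    have h1 : z = s • (c.ι (s⁻¹ • c.π z) + e) := by
      rw [map_smul, smul_add, smul_smul, mul_inv_cancel₀ hs.ne', one_smul]
      exact (c.dec z).symm
    conv_rhs => rw [h1, h.conic s hs.le, hKf, smul_add]
    rw [map_smul]
  · rw [cone, if_neg hs]
    push Not at hs
    exact (hid z (hs.trans (by positivity))).symm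

end Chart

section final
variable [FiniteDimensional ℝ E] [MeasurableSpace E] [BorelSpace E] (μ : Measure E)
  [μ.IsAddHaarMeasure]

/-- **C3-RED**: smooth conic diffeomorphisms of a `3`-dimensional space are `CoreAt`, granted the
path connectedness of `Diff_c(ℂ)`. -/
theorem coreAt_of_bel (hB : Bel) (hE : Module.finrank ℝ E = 3) {H : E → E} (h : SC H) :
    CoreAt μ H := by
  have hE1 : 1 < Module.finrank ℝ E := by rw [hE]; norm_num
  have hnt : Nontrivial E := Module.nontrivial_of_finrank_pos (R := ℝ) (by omega)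
  obtain ⟨e, he⟩ := exists_norm_eq E (zero_le_one)
  obtain ⟨c⟩ := exists_chart hE he
  obtain ⟨K, hK, hc, hid, hh⟩ := normalise μ hE1 he h
  refine hc ?_
  obtain ⟨R, f, hf, hKf⟩ := c.exists_plane hK he hid hh
  obtain ⟨R', M, F, G, hF, hG, hF0, hFG, hG1⟩ := hB R f hf
  rw [← hKf, ← hG1]
  have hid0 : c.cone (F 0) = id := by rw [hF0]; exact c.cone_id
  have hdet0 : ∀ z, z ≠ 0 → 0 < (fderiv ℝ (c.cone (F 0)) z).det := fun z _ => by
    rw [hid0, fderiv_id]
    show 0 < LinearMap.det _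
    simp
  have h1 := fun t (ht : t ∈ Icc (0:ℝ) 1) => c.cone_step μ hE1 hF he hdet0
    (by rw [hid0]; exact IsHomeomorph.id) ht
  have hdetG : ∀ z, z ≠ 0 → 0 < (fderiv ℝ (c.cone (G 0)) z).det := fun z hz => by
    rw [← hFG]
    exact c.cone_det_pos hF he hdet0 (by simp) hz
  have h2 := c.cone_step μ hE1 hG he hdetG (by rw [← hFG]; exact (h1 1 (by simp)).1)
    (t := 1) (by simp)
  rw [h2.2, ← hFG, (h1 1 (by simp)).2, hid0]
  have h3 := Vx_270.coreAt_linear (μ := μ) (L := ContinuousLinearMap.id ℝ E) (by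
    show 0 < LinearMap.det _
    simp)
  exact h3

/-- **CORE3** from `Bel` -/
theorem core_of_bel (hB : Bel) (hE : Module.finrank ℝ E = 3) {K : E → E} (hK : IsHomeomorph K)
    (hc : ∀ c : ℝ, 0 ≤ c → ∀ x, K (c • x) = c • K x)
    (hM : ∀ x, x ≠ 0 → Mo_119.MollAt μ K x) : CoreAt μ K :=
  Hm_695.coreAt_of_smooth μ (by rw [hE]; norm_num)
    (fun G h1 h2 h3 h4 => coreAt_of_bel μ hB hE ⟨h2, h3, h4, h1⟩) hK hc hM

end final

end Crest.Agent.R096.Rd_695
end

-- ▼ part R096/Rd6_695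
section

/-!
# C3-RED, part 6 (helper695, row 96 P5): `Core` of `P5Spec_205` from `Bel`
-/

set_option autoImplicit false

open MeasureTheory

namespace Crest.Agent.R096.Rd_695

/-- `Core` in dimension three, granted `Bel` -/
theorem core_of_bel_spec (hB : BelDefs_205.Bel) :
    P5Spec_205.Core (EuclideanSpace ℝ (Fin 3)) := by
  intro K hK hc hM
  exact core_of_bel volume hB (by simp) hK hc hM

end Crest.Agent.R096.Rd_695
end

-- ▼ part R096/BelE_205
section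

/-!
Row 96, P5 / C3-BEL: at `s = 1` the approximate solutions converge to `f` in `C¹`.
-/

open Set Metric MeasureTheory Filter Topology
open scoped ContDiff NNReal Real ComplexConjugate
open Crest.Agent.R096.BelA_205 Crest.Agent.R096.BelB_205 Crest.Agent.R096.BelC_205
open Crest.Agent.R096.BelDefs_205 Crest.Agent.R096.BelD_205

namespace Crest.Agent.R096.BelE_205

noncomputable section

variable {R : ℝ} {f : ℂ → ℂ}

/-- Beltrami coefficient -/
def mu (f : ℂ → ℂ) (z : ℂ) : ℂ := dzb f z / dz f z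

theorem dz_ne (hf : Adm R f) (z : ℂ) : dz f z ≠ 0 := by
  have h := hf.det z
  rw [det_fderiv] at h
  intro h0
  rw [h0] at h
  simp only [norm_zero] at h
  have := sq_nonneg ‖dzb f z‖
  linarith

theorem dzb_zero (hf : Adm R f) {z : ℂ} (hz : R < ‖z‖) : dzb f z = 0 := by
  have h1 : f =ᶠ[𝓝 z] fun z => z := by
    filter_upwards [(isOpen_lt continuous_const continuous_norm).mem_nhds hz] with y hy
    exact hf.out y hy
  unfold dzb dd
  rw [h1.fderiv_eq, fderiv_fun_id]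
  simp

theorem mul_dz (hf : Adm R f) (z : ℂ) : mu f z * dz f z = dzb f z :=
  div_mul_cancel₀ _ (dz_ne hf z)

theorem tst_mu (hf : Adm R f) : Tst R (mu f) := by
  refine ⟨?_, fun z hz => ?_⟩
  · have e : mu f = fun z => dzb f z * (dz f z)⁻¹ := by
      ext z; rw [mu, div_eq_mul_inv]
    rw [e]
    exact (contDiff_dzb hf.smooth).mul ((contDiff_dz hf.smooth).inv (dz_ne hf))
  · unfold mu
    rw [dzb_zero hf hz]; simp

theorem tst_dzb (hf : Adm R f) : Tst R (dzb f) :=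
  ⟨contDiff_dzb hf.smooth, fun _ hz => dzb_zero hf hz⟩

theorem norm_mu_lt (hf : Adm R f) (z : ℂ) : ‖mu f z‖ < 1 := by
  have h := hf.det z
  rw [det_fderiv] at h
  have hpos : 0 < ‖dz f z‖ := norm_pos_iff.2 (dz_ne hf z)
  unfold mu
  rw [norm_div, div_lt_one hpos]
  have := norm_nonneg (dzb f z)
  nlinarith

theorem exists_k (hf : Adm R f) : ∃ k : ℝ, k < 1 ∧ ∀ z, ‖mu f z‖ ≤ k := by
  rcases le_or_gt 0 R with hR | hR
  · obtain ⟨z0, -, hz0⟩ := (isCompact_closedBall (0:ℂ) R).exists_isMaxOn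
      (nonempty_closedBall.2 hR) (tst_mu hf).cont.norm.continuousOn
    refine ⟨‖mu f z0‖, norm_mu_lt hf z0, fun z => ?_⟩
    by_cases hz : R < ‖z‖
    · rw [(tst_mu hf).zero z hz]; simp
    · exact hz0 (by simpa using hz)
  · refine ⟨0, one_pos, fun z => ?_⟩
    rw [(tst_mu hf).zero z (lt_of_lt_of_le hR (norm_nonneg z))]; simp

section

variable {k C ρ : ℝ} (hf : Adm R f) (h : Bd R (mu f) k C ρ)

include hf h

/-- `ω = ∂̄ (F - f)` -/
theorem tst_ω (n : ℕ) : Tst R (fun z => ν (mu f) n 1 z - dzb f z) :=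
  (tst_ν h.tst n 1).sub (tst_dzb hf)

theorem d_eq (n : ℕ) (z : ℂ) : F (mu f) n 1 z - f z = P (fun z => ν (mu f) n 1 z - dzb f z) z := by
  have hF : Differentiable ℝ (F (mu f) n 1) := (smooth_F h.tst n 1).differentiable (by simp)
  have hfd : Differentiable ℝ f := hf.smooth.differentiable (by simp)
  apply eq_P (w := fun z => F (mu f) n 1 z - f z) (hF.sub hfd) (tst_ω hf h n)
  · intro z
    rw [dzb_sub hF hfd, dzb_F h.tst]
  · have t1 := P_tendsto (tst_ν h.tst n 1)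
    have t2 : Tendsto (fun z => z - f z) (cocompact ℂ) (𝓝 0) := by
      apply tendsto_const_nhds.congr'
      filter_upwards [(tendsto_norm_cocompact_atTop (E := ℂ)).eventually (eventually_gt_atTop R)]
        with z hz
      rw [hf.out z hz]; simp
    have t3 := t1.add t2
    rw [add_zero] at t3
    refine t3.congr fun z => ?_
    unfold F; ring

theorem ω_eq (n : ℕ) (z : ℂ) : ν (mu f) n 1 z - dzb f z
    = -(mu f z * (dz (F (mu f) n 1) z - Complex.exp (σ (mu f) n 1 z)))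
      + mu f z * dz (P (fun z => ν (mu f) n 1 z - dzb f z)) z := by
  have hF : Differentiable ℝ (F (mu f) n 1) := (smooth_F h.tst n 1).differentiable (by simp)
  have hfd : Differentiable ℝ f := hf.smooth.differentiable (by simp)
  have e : P (fun z => ν (mu f) n 1 z - dzb f z) = fun z => F (mu f) n 1 z - f z := by
    ext z; rw [d_eq hf h]
  rw [e, dz_sub hF hfd]
  have e2 := mul_dz hf z
  have e3 : ν (mu f) n 1 z = mu f z * Complex.exp (σ (mu f) n 1 z) := by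
    unfold ν; simp
  rw [e3, ← e2]; ring

/-- bound of the remainder -/
def G (R C ρ : ℝ) (n : ℕ) : ℝ := CP R * (C * ρ ^ n * Real.exp (Bd.Sg R C ρ))

theorem exists_A : ∃ B : ℝ, ∀ n, A (fun z => ν (mu f) n 1 z - dzb f z) ≤ B * (G R C ρ n) ^ 2 := by
  have hk0 := h.k_nonneg
  obtain ⟨ε, hε, hεq⟩ : ∃ ε : ℝ, 0 < ε ∧ (1 + ε) * k ^ 2 < 1 := by
    refine ⟨(1 - k ^ 2) / 2, ?_, ?_⟩
    · nlinarith [h.hk1]
    · nlinarith [sq_nonneg (k ^ 2 - 1), sq_nonneg k, h.hk1]
  set q := (1 + ε) * k ^ 2 with hq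
  refine ⟨(1 - q)⁻¹ * ((1 + ε⁻¹) * A (mu f)), fun n => ?_⟩
  have hω := tst_ω hf h n
  have i1 := integrable_sq_P hω
  have i2 := sq_integrable h.tst
  have hG : 0 ≤ G R C ρ n := by
    have := h.g_le n (s := 1) ⟨by norm_num, le_refl _⟩ 0
    exact (norm_nonneg _).trans this
  have key : A (fun z => ν (mu f) n 1 z - dzb f z)
      ≤ q * A (fun z => ν (mu f) n 1 z - dzb f z) + (1 + ε⁻¹) * (G R C ρ n) ^ 2 * A (mu f) := by
    have hi : Integrable fun z => q * ‖dz (P (fun z => ν (mu f) n 1 z - dzb f z)) z‖ ^ 2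
        + (1 + ε⁻¹) * (G R C ρ n) ^ 2 * ‖mu f z‖ ^ 2 := (i1.const_mul _).add (i2.const_mul _)
    refine (A_le_of hω hi ?_).trans (le_of_eq ?_)
    · intro z
      rw [ω_eq hf h n z]
      refine (norm_add_sq_le ε hε _ _).trans ?_
      rw [norm_neg, norm_mul, norm_mul, mul_pow, mul_pow]
      have h1 := h.g_le n (s := 1) ⟨by norm_num, le_refl _⟩ z
      have h2 : ‖mu f z‖ ^ 2 ≤ k ^ 2 := by gcongr; exact h.hk z
      have h3 : ‖dz (F (mu f) n 1) z - Complex.exp (σ (mu f) n 1 z)‖ ^ 2 ≤ (G R C ρ n) ^ 2 := by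
        gcongr; exact h1
      calc (1 + ε) * (‖mu f z‖ ^ 2 * ‖dz (P (fun z => ν (mu f) n 1 z - dzb f z)) z‖ ^ 2)
            + (1 + ε⁻¹) * (‖mu f z‖ ^ 2
              * ‖dz (F (mu f) n 1) z - Complex.exp (σ (mu f) n 1 z)‖ ^ 2)
          ≤ (1 + ε) * (k ^ 2 * ‖dz (P (fun z => ν (mu f) n 1 z - dzb f z)) z‖ ^ 2)
            + (1 + ε⁻¹) * (‖mu f z‖ ^ 2 * (G R C ρ n) ^ 2) := by gcongr
        _ = _ := by rw [hq]; ring
    · rw [integral_add (i1.const_mul _) (i2.const_mul _), integral_const_mul, integral_const_mul]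
      rw [show ∫ z, ‖dz (P (fun z => ν (mu f) n 1 z - dzb f z)) z‖ ^ 2
        = A (fun z => ν (mu f) n 1 z - dzb f z) from BelB_205.isometry hω]
      rfl
  have hq1 : 0 < 1 - q := by linarith
  have : (1 - q) * A (fun z => ν (mu f) n 1 z - dzb f z)
      ≤ (1 + ε⁻¹) * (G R C ρ n) ^ 2 * A (mu f) := by linarith
  rw [mul_comm, ← le_div_iff₀ hq1] at this
  refine this.trans (le_of_eq ?_)
  rw [div_eq_inv_mul]; ring

omit hf in
theorem G_tendsto : Tendsto (G R C ρ) atTop (𝓝 0) := h.g_tendsto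

/-- uniform convergence `F n 1 → f` -/
theorem unif0 {η : ℝ} (hη : 0 < η) : ∃ N : ℕ, ∀ n, N ≤ n → ∀ z, ‖F (mu f) n 1 z - f z‖ ≤ η := by
  obtain ⟨B1, hB1⟩ := (tst_dzb hf).cont.bounded_above_of_compact_support (tst_dzb hf).compact
  obtain ⟨D, hD⟩ := exists_A hf h
  set B := k * Real.exp (Bd.Sg R C ρ) + B1 with hB
  have hωB : ∀ n z, ‖ν (mu f) n 1 z - dzb f z‖ ≤ B := by
    intro n z
    refine (norm_sub_le _ _).trans (add_le_add ?_ (hB1 z))
    have e3 : ν (mu f) n 1 z = mu f z * Complex.exp (σ (mu f) n 1 z) := by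
      unfold ν; simp
    rw [e3, norm_mul]
    exact mul_le_mul (h.hk z) (h.exp_le n ⟨by norm_num, le_refl _⟩ z) (norm_nonneg _) h.k_nonneg
  -- choose r
  have t1 : Tendsto (fun m : ℕ => IK (1 / ((m:ℝ) + 1)) * B) atTop (𝓝 0) := by
    simpa using IK_tendsto.mul_const B
  obtain ⟨m, hm⟩ := (t1.eventually (gt_mem_nhds (show (0:ℝ) < η / 3 by linarith))).exists
  set r : ℝ := 1 / ((m:ℝ) + 1) with hr
  have hrpos : 0 < r := by positivity
  set V := volume.real (closedBall (0:ℂ) R) with hV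
  have hV0 : 0 ≤ V := by positivity
  have hpr : 0 < (π * r)⁻¹ := by positivity
  set t := (η / 3) / ((π * r)⁻¹ * (V + 1)) with ht
  have htpos : 0 < t := by positivity
  have t2 : Tendsto (fun n : ℕ => (π * r)⁻¹ * (t⁻¹ * (D * (G R C ρ n) ^ 2))) atTop (𝓝 0) := by
    have := ((((G_tendsto h).pow 2).const_mul D).const_mul t⁻¹).const_mul (π * r)⁻¹
    simpa using this
  obtain ⟨N, hN⟩ := (t2.eventually (gt_mem_nhds (show (0:ℝ) < η / 3 by linarith))).exists_forall_of_atTop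
  refine ⟨N, fun n hn z => ?_⟩
  rw [d_eq hf h]
  have h1 := P_bound (tst_ω hf h n) (hωB n) hrpos z
  have h2 := int_le_sq (tst_ω hf h n) htpos
  have h3 := hD n
  have h4 := hN n hn
  have h5 : (π * r)⁻¹ * (t * V) ≤ η / 3 := by
    have : (π * r)⁻¹ * (t * V) = (η / 3) * (V / (V + 1)) := by
      rw [ht]; field_simp
    rw [this]
    have : V / (V + 1) ≤ 1 := by rw [div_le_one (by positivity)]; linarith
    calc (η / 3) * (V / (V + 1)) ≤ (η / 3) * 1 := mul_le_mul_of_nonneg_left this (by positivity)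
      _ = η / 3 := mul_one _
  have h6 : t⁻¹ * A (fun z => ν (mu f) n 1 z - dzb f z) ≤ t⁻¹ * (D * (G R C ρ n) ^ 2) :=
    mul_le_mul_of_nonneg_left h3 (by positivity)
  have h7 : (π * r)⁻¹ * ∫ ζ, ‖ν (mu f) n 1 ζ - dzb f ζ‖
      ≤ (π * r)⁻¹ * ((t * V + t⁻¹ * (D * (G R C ρ n) ^ 2)) / 2) :=
    mul_le_mul_of_nonneg_left (by linarith) hpr.le
  have h8 : (π * r)⁻¹ * ((t * V + t⁻¹ * (D * (G R C ρ n) ^ 2)) / 2)
      = ((π * r)⁻¹ * (t * V) + (π * r)⁻¹ * (t⁻¹ * (D * (G R C ρ n) ^ 2))) / 2 := by ring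
  linarith

/-- the limit of `σ` -/
def σL (f : ℂ → ℂ) (z : ℂ) : ℂ := ∑' j, P (δ (mu f) j) z

theorem σ_unif : TendstoUniformly (fun n => σ (mu f) n 1) (σL f) atTop := by
  have hs : Summable fun j : ℕ => CP R * (C * ρ ^ j) :=
    ((summable_geometric_of_lt_one h.hρ0.le h.hρ1).mul_left C).mul_left (CP R)
  have hb : ∀ j z, ‖P (δ (mu f) j) z‖ ≤ CP R * (C * ρ ^ j) := fun j z =>
    P_sup (tst_δ h.tst j) (h.hδ j) z
  have := tendstoUniformly_tsum_nat hs hb
  have e : (fun n => σ (mu f) n 1)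
      = fun N x => ∑ n ∈ Finset.range N, P (δ (mu f) n) x := by
    ext n z
    simp [σ_eq h.tst]
  rw [e]
  exact this

theorem exp_unif : TendstoUniformly (fun n z => Complex.exp (σ (mu f) n 1 z))
    (fun z => Complex.exp (σL f z)) atTop := by
  have hσ := σ_unif hf h
  have hcomp : IsCompact (closedBall (0:ℂ) (Bd.Sg R C ρ)) := isCompact_closedBall _ _
  have huc : UniformContinuousOn Complex.exp (closedBall (0:ℂ) (Bd.Sg R C ρ)) :=
    hcomp.uniformContinuousOn_of_continuous Complex.continuous_exp.continuousOn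
  have hm : ∀ n z, σ (mu f) n 1 z ∈ closedBall (0:ℂ) (Bd.Sg R C ρ) := by
    intro n z
    simpa using h.σ_le n (s := 1) ⟨by norm_num, le_refl _⟩ z
  have hL : ∀ z, σL f z ∈ closedBall (0:ℂ) (Bd.Sg R C ρ) := fun z =>
    isClosed_closedBall.mem_of_tendsto (hσ.tendsto_at z) (Eventually.of_forall fun n => hm n z)
  exact huc.comp_tendstoUniformly hm hL hσ

theorem dz_unif : TendstoUniformly (fun n z => dz (F (mu f) n 1) z)
    (fun z => Complex.exp (σL f z)) atTop := by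
  have h1 := exp_unif hf h
  rw [Metric.tendstoUniformly_iff] at h1 ⊢
  intro ε hε
  have h2 := (G_tendsto h).eventually (gt_mem_nhds (show (0:ℝ) < ε / 2 by linarith))
  filter_upwards [h1 (ε / 2) (by linarith), h2] with n hn1 hn2 z
  have h3 := h.g_le n (s := 1) ⟨by norm_num, le_refl _⟩ z
  have h4 := hn1 z
  rw [dist_eq_norm] at h4 ⊢
  have h5 : Complex.exp (σL f z) - dz (F (mu f) n 1) z
      = (Complex.exp (σL f z) - Complex.exp (σ (mu f) n 1 z))
        - (dz (F (mu f) n 1) z - Complex.exp (σ (mu f) n 1 z)) := by ring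
  rw [h5]
  refine (norm_sub_le _ _).trans_lt ?_
  have h6 : G R C ρ n = CP R * (C * ρ ^ n * Real.exp (Bd.Sg R C ρ)) := rfl
  rw [h6] at hn2
  linarith

theorem fderiv_unif : TendstoUniformly (fun n z => fderiv ℝ (F (mu f) n 1) z)
    (fun z => LL (Complex.exp (σL f z)) (mu f z * Complex.exp (σL f z))) atTop := by
  have h1 := exp_unif hf h
  have h2 := dz_unif hf h
  rw [Metric.tendstoUniformly_iff] at h1 h2 ⊢
  intro ε hε
  filter_upwards [h1 (ε / 2) (by linarith), h2 (ε / 2) (by linarith)] with n hn1 hn2 z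
  rw [dist_eq_norm, fderiv_eq_LL, LL_sub]
  refine (norm_LL_le _ _).trans_lt ?_
  have e3 : ν (mu f) n 1 z = mu f z * Complex.exp (σ (mu f) n 1 z) := by
    unfold ν; simp
  have h3 := hn1 z
  have h4 := hn2 z
  rw [dist_eq_norm] at h3 h4
  rw [dzb_F h.tst, e3, ← mul_sub, norm_mul]
  have h5 : ‖mu f z‖ * ‖Complex.exp (σL f z) - Complex.exp (σ (mu f) n 1 z)‖
      ≤ 1 * ‖Complex.exp (σL f z) - Complex.exp (σ (mu f) n 1 z)‖ :=
    mul_le_mul_of_nonneg_right (norm_mu_lt hf z).le (norm_nonneg _)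
  linarith

theorem hasFDerivAt_f (z : ℂ) :
    HasFDerivAt f (LL (Complex.exp (σL f z)) (mu f z * Complex.exp (σL f z))) z := by
  apply hasFDerivAt_of_tendstoUniformly (fderiv_unif hf h)
    (fun n => fun z => ((smooth_F h.tst n 1).differentiable (by simp) z).hasFDerivAt)
  intro z
  rw [Metric.tendsto_atTop]
  intro ε hε
  obtain ⟨N, hN⟩ := unif0 hf h (show (0:ℝ) < ε / 2 by linarith)
  refine ⟨N, fun n hn => ?_⟩
  rw [dist_eq_norm]
  linarith [hN n hn z]

/-- **`C¹` convergence** -/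
theorem close {η : ℝ} (hη : 0 < η) : ∃ N : ℕ, ∀ n, N ≤ n → ∀ z, ‖F (mu f) n 1 z - f z‖ ≤ η ∧
    ‖fderiv ℝ (F (mu f) n 1) z - fderiv ℝ f z‖ ≤ η := by
  obtain ⟨N, hN⟩ := unif0 hf h hη
  have h1 := fderiv_unif hf h
  rw [Metric.tendstoUniformly_iff] at h1
  obtain ⟨N', hN'⟩ := (h1 η hη).exists_forall_of_atTop
  refine ⟨max N N', fun n hn z => ⟨hN n ((le_max_left _ _).trans hn) z, ?_⟩⟩
  have h2 := hN' n ((le_max_right _ _).trans hn) z
  rw [dist_eq_norm] at h2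
  rw [(hasFDerivAt_f hf h z).fderiv, norm_sub_rev]
  exact h2.le

end

end

end Crest.Agent.R096.BelE_205
end

-- ▼ part R096/BelF_205

/-!
Row 96, P5 / C3-BEL: assembly of the path, `theorem bel : Bel`.
-/

open Set Metric MeasureTheory Filter Topology
open scoped ContDiff NNReal Real ComplexConjugate
open Crest.Agent.R096.BelA_205 Crest.Agent.R096.BelB_205 Crest.Agent.R096.BelC_205
open Crest.Agent.R096.BelDefs_205 Crest.Agent.R096.BelD_205 Crest.Agent.R096.BelE_205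

namespace Crest.Agent.R096.BelF_205

noncomputable section

/-- operator norm by the two basis vectors -/
theorem norm_le_two (L : ℂ →L[ℝ] ℂ) {a b : ℝ} (ha : ‖L 1‖ ≤ a) (hb : ‖L Complex.I‖ ≤ b) :
    ‖L‖ ≤ a + b := by
  have ha0 : 0 ≤ a := (norm_nonneg _).trans ha
  have hb0 : 0 ≤ b := (norm_nonneg _).trans hb
  apply ContinuousLinearMap.opNorm_le_bound _ (by positivity)
  intro v
  have hv : v = v.re • (1:ℂ) + v.im • Complex.I := by
    simp [Complex.real_smul]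
  have h1 : L v = v.re • L 1 + v.im • L Complex.I := by
    conv_lhs => rw [hv, map_add, map_smul, map_smul]
  rw [h1]
  refine (norm_add_le _ _).trans ?_
  rw [norm_smul, norm_smul, Real.norm_eq_abs, Real.norm_eq_abs]
  have h2 := Complex.abs_re_le_norm v
  have h3 := Complex.abs_im_le_norm v
  calc |v.re| * ‖L 1‖ + |v.im| * ‖L Complex.I‖ ≤ ‖v‖ * a + ‖v‖ * b := by gcongr
    _ = (a + b) * ‖v‖ := by ring

/-! ### Lipschitz dependence on the parameter -/

theorem lip_aux {G : ℝ × ℂ → ℂ} (hG : ContDiff ℝ 1 G) {R : ℝ} (h0 : ∀ s z, R < ‖z‖ → G (s, z) = 0) :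
    ∃ M : ℝ, 0 ≤ M ∧ (∀ s ∈ Icc (0:ℝ) 1, ∀ z, ‖G (s, z)‖ ≤ M) ∧
      ∀ s ∈ Icc (0:ℝ) 1, ∀ t ∈ Icc (0:ℝ) 1, ∀ z, ‖G (s, z) - G (t, z)‖ ≤ M * |s - t| := by
  have hK : IsCompact (Icc (0:ℝ) 1 ×ˢ closedBall (0:ℂ) R) :=
    isCompact_Icc.prod (isCompact_closedBall _ _)
  have hKc : Convex ℝ (Icc (0:ℝ) 1 ×ˢ closedBall (0:ℂ) R) :=
    (convex_Icc _ _).prod (convex_closedBall _ _)
  obtain ⟨M1, hM1⟩ := hK.exists_bound_of_continuousOn hG.continuous.continuousOn
  obtain ⟨M2, hM2⟩ := hK.exists_bound_of_continuousOn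
    (hG.continuous_fderiv (by norm_num)).continuousOn
  refine ⟨max (max M1 M2) 0, le_max_right _ _, fun s hs z => ?_, fun s hs t ht z => ?_⟩
  · by_cases hz : R < ‖z‖
    · rw [h0 s z hz]; simp
    · exact (hM1 (s, z) ⟨hs, by simpa using hz⟩).trans ((le_max_left _ _).trans (le_max_left _ _))
  · by_cases hz : R < ‖z‖
    · rw [h0 s z hz, h0 t z hz]; simp
      positivity
    · have h1 := hKc.norm_image_sub_le_of_norm_fderiv_le (𝕜 := ℝ) (f := G) (C := M2)
        (x := (t, z)) (y := (s, z))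
        (fun x _ => hG.differentiable (by norm_num) x) (fun x hx => hM2 x hx)
        ⟨ht, by simpa using hz⟩ ⟨hs, by simpa using hz⟩
      have h2 : ‖((s, z) : ℝ × ℂ) - (t, z)‖ = |s - t| := by
        simp [Prod.norm_def]
      rw [h2] at h1
      refine h1.trans ?_
      apply mul_le_mul_of_nonneg_right _ (abs_nonneg _)
      exact (le_max_right _ _).trans (le_max_left _ _)

theorem dd_param {N : ℝ × ℂ → ℂ} (hN : ContDiff ℝ ∞ N) (v : ℂ) (s : ℝ) (z : ℂ) :
    dd v (fun z => N (s, z)) z = fderiv ℝ N (s, z) (0, v) := by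
  have h1 : HasFDerivAt (fun z : ℂ => ((s, z) : ℝ × ℂ)) (ContinuousLinearMap.inr ℝ ℝ ℂ) z :=
    hasFDerivAt_prodMk_right s z
  have h2 := (hN.differentiable (by simp) (s, z)).hasFDerivAt.comp z h1
  unfold dd
  have h3 : (N ∘ fun z : ℂ => ((s, z) : ℝ × ℂ)) = fun z => N (s, z) := rfl
  rw [h3] at h2
  rw [h2.fderiv]
  simp

/-- uniform `C¹` bounds and Lipschitz bounds for a smooth family of test functions -/
theorem fam_bounds {N : ℝ × ℂ → ℂ} (hN : ContDiff ℝ ∞ N) {R : ℝ}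
    (h0 : ∀ s z, R < ‖z‖ → N (s, z) = 0) :
    ∃ M : ℝ, 0 ≤ M ∧ (∀ s ∈ Icc (0:ℝ) 1, ∀ z, ‖N (s, z)‖ ≤ M) ∧
      (∀ s ∈ Icc (0:ℝ) 1, ∀ z, ‖dd 1 (fun z => N (s, z)) z‖ ≤ M) ∧
      (∀ s ∈ Icc (0:ℝ) 1, ∀ z, ‖dd Complex.I (fun z => N (s, z)) z‖ ≤ M) ∧
      (∀ s ∈ Icc (0:ℝ) 1, ∀ t ∈ Icc (0:ℝ) 1, ∀ z, ‖N (s, z) - N (t, z)‖ ≤ M * |s - t|) ∧
      (∀ s ∈ Icc (0:ℝ) 1, ∀ t ∈ Icc (0:ℝ) 1, ∀ z,
        ‖dd 1 (fun z => N (s, z)) z - dd 1 (fun z => N (t, z)) z‖ ≤ M * |s - t|) ∧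
      (∀ s ∈ Icc (0:ℝ) 1, ∀ t ∈ Icc (0:ℝ) 1, ∀ z,
        ‖dd Complex.I (fun z => N (s, z)) z - dd Complex.I (fun z => N (t, z)) z‖
          ≤ M * |s - t|) := by
  have hD : ∀ v : ℂ, ContDiff ℝ 1 fun p : ℝ × ℂ => fderiv ℝ N p ((0:ℝ), v) := by
    intro v
    have h1 : ContDiff ℝ 1 (fderiv ℝ N) := hN.fderiv_right (by
      have h2 : (2 : ℕ∞ω) ≤ ∞ := ENat.LEInfty.out
      have : (1 : ℕ∞ω) + 1 ≤ ∞ := by norm_num; exact h2
      exact this)
    exact h1.clm_apply contDiff_const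
  have hD0 : ∀ (v : ℂ) (s : ℝ) (z : ℂ), R < ‖z‖ → fderiv ℝ N (s, z) ((0:ℝ), v) = 0 := by
    intro v s z hz
    rw [← dd_param hN]
    unfold dd
    rw [fderiv_zero_of (h0 s) hz]; rfl
  obtain ⟨M0, p0, a0, b0⟩ := lip_aux (hN.of_le (by simp)) h0
  obtain ⟨M1, p1, a1, b1⟩ := lip_aux (hD 1) (hD0 1)
  obtain ⟨M2, p2, a2, b2⟩ := lip_aux (hD Complex.I) (hD0 Complex.I)
  refine ⟨M0 + M1 + M2, by positivity, fun s hs z => ?_, fun s hs z => ?_, fun s hs z => ?_,
    fun s hs t ht z => ?_, fun s hs t ht z => ?_, fun s hs t ht z => ?_⟩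
  · linarith [a0 s hs z]
  · rw [dd_param hN]; linarith [a1 s hs z]
  · rw [dd_param hN]; linarith [a2 s hs z]
  · refine (b0 s hs t ht z).trans ?_
    apply mul_le_mul_of_nonneg_right _ (abs_nonneg _); linarith
  · rw [dd_param hN, dd_param hN]
    refine (b1 s hs t ht z).trans ?_
    apply mul_le_mul_of_nonneg_right _ (abs_nonneg _); linarith
  · rw [dd_param hN, dd_param hN]
    refine (b2 s hs t ht z).trans ?_
    apply mul_le_mul_of_nonneg_right _ (abs_nonneg _); linarith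

/-- the family `ν n s` is jointly smooth -/
theorem joint {μ : ℂ → ℂ} {R : ℝ} (hμ : Tst R μ) (n : ℕ) :
    ContDiff ℝ ∞ fun p : ℝ × ℂ => ν μ n p.1 p.2 := by
  have e : (fun p : ℝ × ℂ => ν μ n p.1 p.2) = fun p : ℝ × ℂ => (p.1 : ℂ) * (μ p.2
      * Complex.exp (∑ j ∈ Finset.range n, (p.1:ℂ) ^ (j + 1) * P (δ μ j) p.2)) := by
    ext p
    unfold ν
    rw [σ_eq hμ]
  rw [e]
  have h1 : ContDiff ℝ ∞ fun p : ℝ × ℂ => (p.1 : ℂ) := Complex.ofRealCLM.contDiff.comp contDiff_fst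
  have h2 : ContDiff ℝ ∞ fun p : ℝ × ℂ => μ p.2 := hμ.smooth.comp contDiff_snd
  have h3 : ∀ j, ContDiff ℝ ∞ fun p : ℝ × ℂ => P (δ μ j) p.2 := fun j =>
    (P_smooth (tst_δ hμ j)).comp contDiff_snd
  exact h1.mul (h2.mul (ContDiff.sum fun j _ => (h1.pow _).mul (h3 j)).cexp)

/-! ### Cutoff -/

/-- a smooth cutoff: `1` on the ball of radius `L`, `0` outside the ball of radius `2 L`, with
derivative bounded by an absolute constant (for `L ≥ 1`) -/
theorem exists_cutoff : ∃ Cχ : ℝ, 0 ≤ Cχ ∧ ∀ L : ℝ, 1 ≤ L → ∃ χ : ℂ → ℝ, ContDiff ℝ ∞ χ ∧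
    (∀ z, ‖z‖ ≤ L → χ z = 1) ∧ (∀ z, 2 * L ≤ ‖z‖ → χ z = 0) ∧ (∀ z, 0 ≤ χ z ∧ χ z ≤ 1) ∧
    ∀ z, ‖fderiv ℝ χ z‖ ≤ Cχ := by
  let b : ContDiffBump (0:ℂ) := ⟨1, 2, one_pos, one_lt_two⟩
  have hb : ContDiff ℝ ∞ (b : ℂ → ℝ) := b.contDiff
  have hc : HasCompactSupport (b : ℂ → ℝ) := b.hasCompactSupport
  obtain ⟨C, hC⟩ := (hb.continuous_fderiv (by simp)).bounded_above_of_compact_support
    (hc.fderiv ℝ)
  refine ⟨max C 0, le_max_right _ _, fun L hL => ⟨fun z => b ((L⁻¹ : ℝ) • z), ?_, ?_, ?_, ?_, ?_⟩⟩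
  · exact hb.comp (contDiff_const_smul _)
  · intro z hz
    apply b.one_of_mem_closedBall
    have : ‖(L⁻¹ : ℝ) • z‖ ≤ 1 := by
      rw [norm_smul, Real.norm_of_nonneg (by positivity), inv_mul_le_iff₀ (by positivity)]
      linarith
    simpa using this
  · intro z hz
    apply b.zero_of_le_dist
    have : (2:ℝ) ≤ ‖(L⁻¹ : ℝ) • z‖ := by
      rw [norm_smul, Real.norm_of_nonneg (by positivity), le_inv_mul_iff₀ (by positivity)]
      linarith
    simpa using this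
  · intro z
    exact ⟨b.nonneg, b.le_one⟩
  · intro z
    have h1 : HasFDerivAt (fun z : ℂ => (L⁻¹ : ℝ) • z) ((L⁻¹ : ℝ) • ContinuousLinearMap.id ℝ ℂ) z :=
      ((L⁻¹ : ℝ) • ContinuousLinearMap.id ℝ ℂ).hasFDerivAt
    have h2 := (hb.differentiable (by simp) ((L⁻¹ : ℝ) • z)).hasFDerivAt.comp z h1
    have h3 : ((b : ℂ → ℝ) ∘ fun z : ℂ => (L⁻¹ : ℝ) • z) = fun z => b ((L⁻¹ : ℝ) • z) := rfl
    rw [h3] at h2
    rw [h2.fderiv]
    refine (ContinuousLinearMap.opNorm_comp_le _ _).trans ?_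
    have h4 : ‖(L⁻¹ : ℝ) • ContinuousLinearMap.id ℝ ℂ‖ ≤ 1 := by
      rw [norm_smul, Real.norm_of_nonneg (by positivity)]
      have : ‖ContinuousLinearMap.id ℝ ℂ‖ ≤ 1 := ContinuousLinearMap.norm_id_le
      have h5 : L⁻¹ ≤ 1 := inv_le_one_of_one_le₀ hL
      calc L⁻¹ * ‖ContinuousLinearMap.id ℝ ℂ‖ ≤ 1 * 1 := by gcongr
        _ = 1 := one_mul 1
    calc ‖fderiv ℝ b ((L⁻¹ : ℝ) • z)‖ * ‖(L⁻¹ : ℝ) • ContinuousLinearMap.id ℝ ℂ‖
        ≤ max C 0 * 1 := by
          gcongr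
          exact (hC _).trans (le_max_left _ _)
      _ = max C 0 := mul_one _

/-- the cut off correction -/
def Hh (χ : ℂ → ℝ) (w : ℂ → ℂ) (z : ℂ) : ℂ := z + (χ z : ℂ) * w z

theorem hasFDerivAt_cut {χ : ℂ → ℝ} (hχ : ContDiff ℝ ∞ χ) {w : ℂ → ℂ} (hw : ContDiff ℝ ∞ w)
    (z : ℂ) : HasFDerivAt (fun z => (χ z : ℂ) * w z)
      ((χ z) • fderiv ℝ w z + (fderiv ℝ χ z).smulRight (w z)) z := by
  have h1 := (hχ.differentiable (by simp) z).hasFDerivAt.smul
    (hw.differentiable (by simp) z).hasFDerivAt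
  have e : (fun z => (χ z : ℂ) * w z) = fun z => χ z • w z := by
    ext z; rw [Complex.real_smul]
  rw [e]
  exact h1

theorem norm_cut_le {χ : ℂ → ℝ} (hχ1 : ∀ z, 0 ≤ χ z ∧ χ z ≤ 1) {Cχ : ℝ}
    (hχd : ∀ z, ‖fderiv ℝ χ z‖ ≤ Cχ) {w : ℂ → ℂ} {z : ℂ} {a b : ℝ} (ha : ‖w z‖ ≤ a)
    (hb : ‖fderiv ℝ w z‖ ≤ b) :
    ‖(χ z) • fderiv ℝ w z + (fderiv ℝ χ z).smulRight (w z)‖ ≤ b + Cχ * a := by
  refine (norm_add_le _ _).trans (add_le_add ?_ ?_)
  · rw [norm_smul, Real.norm_of_nonneg (hχ1 z).1]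
    calc χ z * ‖fderiv ℝ w z‖ ≤ 1 * ‖fderiv ℝ w z‖ :=
          mul_le_mul_of_nonneg_right (hχ1 z).2 (norm_nonneg _)
      _ ≤ b := by rw [one_mul]; exact hb
  · rw [ContinuousLinearMap.norm_smulRight_apply]
    have h0 : 0 ≤ Cχ := (norm_nonneg _).trans (hχd z)
    exact mul_le_mul (hχd z) ha (norm_nonneg _) h0

/-! ### The path -/

theorem Adm.mono {R R' : ℝ} {f : ℂ → ℂ} (hf : Adm R f) (h : R ≤ R') : Adm R' f :=
  ⟨hf.smooth, fun z hz => hf.out z (lt_of_le_of_lt h hz), hf.det⟩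

theorem fderiv_out {R : ℝ} {f : ℂ → ℂ} (hf : Adm R f) {z : ℂ} (hz : R < ‖z‖) :
    fderiv ℝ f z = ContinuousLinearMap.id ℝ ℂ := by
  have h1 : f =ᶠ[𝓝 z] fun z => z := by
    filter_upwards [(isOpen_lt continuous_const continuous_norm).mem_nhds hz] with y hy
    exact hf.out y hy
  rw [h1.fderiv_eq, fderiv_fun_id]

/-- uniform stability of positive determinant -/
theorem exists_stab {R : ℝ} {f : ℂ → ℂ} (hf : Adm R f) :
    ∃ d : ℝ, 0 < d ∧ ∀ z, ∀ A : ℂ →L[ℝ] ℂ, ‖A - fderiv ℝ f z‖ < d → 0 < A.det := by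
  have hcont : Continuous (fderiv ℝ f) := hf.smooth.continuous_fderiv (by simp)
  set K : Set (ℂ →L[ℝ] ℂ) := fderiv ℝ f '' closedBall 0 (|R| + 1) with hK
  have hKc : IsCompact K := (isCompact_closedBall _ _).image hcont
  have hU : IsOpen {A : ℂ →L[ℝ] ℂ | 0 < A.det} :=
    isOpen_lt continuous_const ContinuousLinearMap.continuous_det
  have hsub : K ⊆ {A : ℂ →L[ℝ] ℂ | 0 < A.det} := by
    rintro A ⟨z, -, rfl⟩
    exact hf.det z
  obtain ⟨d, hd, hth⟩ := hKc.exists_thickening_subset_open hU hsub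
  refine ⟨d, hd, fun z A hA => ?_⟩
  apply hth
  rw [mem_thickening_iff]
  have hmem : fderiv ℝ f z ∈ K := by
    by_cases hz : ‖z‖ ≤ |R| + 1
    · exact ⟨z, by simpa using hz, rfl⟩
    · push Not at hz
      have h1 : R < ‖z‖ := by linarith [le_abs_self R]
      rw [fderiv_out hf h1]
      refine ⟨((|R| + 1 : ℝ) : ℂ), ?_, ?_⟩
      · rw [mem_closedBall_zero_iff, Complex.norm_real, Real.norm_of_nonneg (by positivity)]
      · apply fderiv_out hf
        rw [Complex.norm_real, Real.norm_of_nonneg (by positivity)]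
        linarith [le_abs_self R]
  exact ⟨_, hmem, by rw [dist_eq_norm]; exact hA⟩

/-- derivative bound for `P` -/
theorem fderiv_P_le {R : ℝ} {u : ℂ → ℂ} (h : Tst R u) {M : ℝ} (h1 : ∀ z, ‖dd 1 u z‖ ≤ M)
    (h2 : ∀ z, ‖dd Complex.I u z‖ ≤ M) (z : ℂ) : ‖fderiv ℝ (P u) z‖ ≤ 2 * (CP R * M) := by
  have e : ∀ v, fderiv ℝ (P u) z v = P (dd v u) z := fun v => congrFun (dd_P h v) z
  have a1 : ‖fderiv ℝ (P u) z 1‖ ≤ CP R * M := by rw [e]; exact P_sup (h.dd 1) h1 z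
  have a2 : ‖fderiv ℝ (P u) z Complex.I‖ ≤ CP R * M := by rw [e]; exact P_sup (h.dd _) h2 z
  have := norm_le_two _ a1 a2
  linarith

theorem fderiv_P_decay {R : ℝ} {u : ℂ → ℂ} (h : Tst R u) (hR : 0 < R) {M : ℝ}
    (h1 : ∀ z, ‖dd 1 u z‖ ≤ M) (h2 : ∀ z, ‖dd Complex.I u z‖ ≤ M) {z : ℂ} (hz : 2 * R ≤ ‖z‖) :
    ‖fderiv ℝ (P u) z‖ ≤ 2 * (2 * π⁻¹ * (volume.real (closedBall (0:ℂ) R) * M) * ‖z‖⁻¹) := by
  have e : ∀ v, fderiv ℝ (P u) z v = P (dd v u) z := fun v => congrFun (dd_P h v) z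
  have hM : ∀ v, (∀ z, ‖dd v u z‖ ≤ M) → ‖P (dd v u) z‖
      ≤ 2 * π⁻¹ * (volume.real (closedBall (0:ℂ) R) * M) * ‖z‖⁻¹ := by
    intro v hv
    refine (P_decay (h.dd v) hR hz).trans ?_
    gcongr
    exact int_norm_le (h.dd v) hv
  have a1 := hM 1 h1
  have a2 := hM Complex.I h2
  rw [← e] at a1 a2
  have := norm_le_two _ a1 a2
  linarith

/-- `C3-BEL` for `R > 0` -/
theorem bel_pos {R : ℝ} (hR : 0 < R) {f : ℂ → ℂ} (hf : Adm R f) :
    ∃ (R' M : ℝ) (F G : ℝ → ℂ → ℂ), PathC R' M F ∧ PathC R' M G ∧ F 0 = id ∧ F 1 = G 0 ∧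
      G 1 = f := by
  obtain ⟨k, hk1, hk⟩ := exists_k hf
  obtain ⟨C, ρ, h⟩ := exists_Bd (tst_mu hf) hk hk1
  obtain ⟨d, hd, hdet⟩ := exists_stab hf
  -- choose `n`
  obtain ⟨N1, hN1⟩ := close hf h (show (0:ℝ) < d / 2 by linarith)
  have hpos : 0 < (1 - k) * Real.exp (-Bd.Sg R C ρ) :=
    mul_pos (by linarith) (Real.exp_pos _)
  obtain ⟨N2, hN2⟩ := (h.g_tendsto.eventually (gt_mem_nhds hpos)).exists_forall_of_atTop
  set n := max N1 N2 with hn
  have hclose := hN1 n (le_max_left _ _)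
  have hdetF := fun s hs z => h.det_pos (hN2 n (le_max_right _ _)) (s := s) hs z
  -- the smooth family
  set μ := mu f with hμdef
  have hμ : Tst R μ := h.tst
  have hN := joint hμ n
  have hν0 : ∀ (s : ℝ) (z : ℂ), R < ‖z‖ → (fun p : ℝ × ℂ => ν μ n p.1 p.2) (s, z) = 0 :=
    fun s z hz => (tst_ν hμ n s).zero z hz
  obtain ⟨M, hM0, b0, b1, b2, c0, c1, c2⟩ := fam_bounds hN hν0
  simp only at b0 b1 b2 c0 c1 c2
  -- choose `L`
  obtain ⟨Cχ, hCχ, hcut⟩ := exists_cutoff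
  set V := volume.real (closedBall (0:ℂ) R) with hV
  have hV0 : 0 ≤ V := by positivity
  set D := 2 * (2 * π⁻¹ * (V * M)) + Cχ * (2 * π⁻¹ * (V * M)) with hD
  have hD0 : 0 ≤ D := by positivity
  obtain ⟨L, hL1, hL2, hL3⟩ : ∃ L : ℝ, 1 ≤ L ∧ 2 * R ≤ L ∧ D * L⁻¹ < d / 2 := by
    have h1 : Tendsto (fun L : ℝ => D * L⁻¹) atTop (𝓝 0) := by
      simpa using tendsto_inv_atTop_zero.const_mul D
    have h2 := h1.eventually (gt_mem_nhds (show (0:ℝ) < d / 2 by linarith))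
    obtain ⟨L, hL⟩ := ((eventually_ge_atTop (1:ℝ)).and ((eventually_ge_atTop (2 * R)).and h2)).exists
    exact ⟨L, hL.1, hL.2.1, hL.2.2⟩
  obtain ⟨χ, χs, χ1, χ0, χb, χd⟩ := hcut L hL1
  have hLR : R < L := by linarith
  -- the cut off maps
  have hPs : ∀ s, ContDiff ℝ ∞ (P (ν μ n s)) := fun s => P_smooth (tst_ν hμ n s)
  have hχc : ContDiff ℝ ∞ (fun z => (χ z : ℂ)) := Complex.ofRealCLM.contDiff.comp χs
  have hHs : ∀ s, ContDiff ℝ ∞ (Hh χ (P (ν μ n s))) := fun s =>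
    contDiff_id.add (hχc.mul (hPs s))
  have hHd : ∀ s z, HasFDerivAt (Hh χ (P (ν μ n s))) (ContinuousLinearMap.id ℝ ℂ
      + ((χ z) • fderiv ℝ (P (ν μ n s)) z + (fderiv ℝ χ z).smulRight (P (ν μ n s) z))) z :=
    fun s z => (hasFDerivAt_id z).add (hasFDerivAt_cut χs (hPs s) z)
  have hHfar : ∀ s ∈ Icc (0:ℝ) 1, ∀ z, L ≤ ‖z‖ →
      ‖fderiv ℝ (Hh χ (P (ν μ n s))) z - ContinuousLinearMap.id ℝ ℂ‖ < d / 2 := by
    intro s hs z hz
    rw [(hHd s z).fderiv, add_sub_cancel_left]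
    have hz2 : 2 * R ≤ ‖z‖ := hL2.trans hz
    have hzpos : 0 < ‖z‖ := by linarith
    have a1 : ‖P (ν μ n s) z‖ ≤ 2 * π⁻¹ * (V * M) * ‖z‖⁻¹ := by
      refine (P_decay (tst_ν hμ n s) hR hz2).trans ?_
      gcongr
      exact int_norm_le (tst_ν hμ n s) (b0 s hs)
    have a2 := fderiv_P_decay (tst_ν hμ n s) hR (b1 s hs) (b2 s hs) hz2
    refine (norm_cut_le χb χd a1 a2).trans_lt ?_
    have a3 : ‖z‖⁻¹ ≤ L⁻¹ := inv_anti₀ (by linarith) hz
    calc 2 * (2 * π⁻¹ * (V * M) * ‖z‖⁻¹) + Cχ * (2 * π⁻¹ * (V * M) * ‖z‖⁻¹)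
        = D * ‖z‖⁻¹ := by rw [hD]; ring
      _ ≤ D * L⁻¹ := mul_le_mul_of_nonneg_left a3 hD0
      _ < d / 2 := hL3
  have hHnear : ∀ s z, ‖z‖ < L → fderiv ℝ (Hh χ (P (ν μ n s))) z = fderiv ℝ (F μ n s) z := by
    intro s z hz
    have : Hh χ (P (ν μ n s)) =ᶠ[𝓝 z] F μ n s := by
      filter_upwards [(isOpen_lt continuous_norm continuous_const).mem_nhds hz] with y hy
      unfold Hh F
      rw [χ1 y (le_of_lt hy)]; simp
    exact this.fderiv_eq
  have hHdet : ∀ s ∈ Icc (0:ℝ) 1, ∀ z, 0 < (fderiv ℝ (Hh χ (P (ν μ n s))) z).det := by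
    intro s hs z
    rcases lt_or_ge ‖z‖ L with hz | hz
    · rw [hHnear s z hz]; exact hdetF s hs z
    · apply hdet z
      rw [fderiv_out hf (lt_of_lt_of_le hLR hz)]
      linarith [hHfar s hs z hz]
  have hHout : ∀ s z, 2 * L < ‖z‖ → Hh χ (P (ν μ n s)) z = z := by
    intro s z hz
    unfold Hh
    rw [χ0 z hz.le]; simp
  -- Lipschitz dependence
  have hdiffT : ∀ s t, Tst R (fun z => ν μ n s z - ν μ n t z) := fun s t =>
    (tst_ν hμ n s).sub (tst_ν hμ n t)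
  have hPsub : ∀ s t z, P (ν μ n s) z - P (ν μ n t) z = P (fun z => ν μ n s z - ν μ n t z) z :=
    fun s t z => (P_sub (tst_ν hμ n s) (tst_ν hμ n t) z).symm
  have hl0 : ∀ s ∈ Icc (0:ℝ) 1, ∀ t ∈ Icc (0:ℝ) 1, ∀ z,
      ‖P (ν μ n s) z - P (ν μ n t) z‖ ≤ CP R * (M * |s - t|) := by
    intro s hs t ht z
    rw [hPsub]
    exact P_sup (hdiffT s t) (c0 s hs t ht) z
  have hl1 : ∀ s ∈ Icc (0:ℝ) 1, ∀ t ∈ Icc (0:ℝ) 1, ∀ z,
      ‖fderiv ℝ (P (ν μ n s)) z - fderiv ℝ (P (ν μ n t)) z‖ ≤ 2 * (CP R * (M * |s - t|)) := by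
    intro s hs t ht z
    have e1 : fderiv ℝ (P (ν μ n s)) z - fderiv ℝ (P (ν μ n t)) z
        = fderiv ℝ (P (fun z => ν μ n s z - ν μ n t z)) z := by
      have : P (fun z => ν μ n s z - ν μ n t z) = fun z => P (ν μ n s) z - P (ν μ n t) z := by
        ext z; rw [hPsub]
      rw [this, fderiv_fun_sub ((hPs s).differentiable (by simp) z)
        ((hPs t).differentiable (by simp) z)]
    rw [e1]
    apply fderiv_P_le (hdiffT s t)
    · intro z
      rw [dd_sub (tst_ν hμ n s).diff (tst_ν hμ n t).diff]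
      exact c1 s hs t ht z
    · intro z
      rw [dd_sub (tst_ν hμ n s).diff (tst_ν hμ n t).diff]
      exact c2 s hs t ht z
  set M1 := 2 * (CP R * M) + Cχ * (CP R * M) with hM1
  have hCP := CP_nonneg R
  have hM10 : 0 ≤ M1 := by positivity
  -- bounds for the second family
  have hdfs : ContDiff ℝ ∞ (fun z => Hh χ (P (ν μ n 1)) z - f z) := (hHs 1).sub hf.smooth
  have hdfc : HasCompactSupport (fun z => Hh χ (P (ν μ n 1)) z - f z) := by
    apply HasCompactSupport.intro (isCompact_closedBall (0:ℂ) (2 * L))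
    intro z hz
    have hz' : 2 * L < ‖z‖ := by simpa using hz
    rw [hHout 1 z hz', hf.out z (by linarith)]; simp
  obtain ⟨B0, hB0⟩ := hdfs.continuous.bounded_above_of_compact_support hdfc
  obtain ⟨B1, hB1⟩ := (hdfs.continuous_fderiv (by simp)).bounded_above_of_compact_support
    (hdfc.fderiv ℝ)
  set MM := max (max (CP R * M) M1) (max B0 B1) with hMM
  have h1I : (1:ℝ) ∈ Icc (0:ℝ) 1 := ⟨by norm_num, le_refl _⟩
  refine ⟨2 * L, MM, fun s => Hh χ (P (ν μ n s)),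
    fun t z => (1 - t : ℝ) • Hh χ (P (ν μ n 1)) z + t • f z, ⟨?_, ?_, ?_⟩, ⟨?_, ?_, ?_⟩, ?_, ?_, ?_⟩
  · intro s hs
    exact ⟨hHs s, hHout s, hHdet s hs⟩
  · intro s hs t ht z
    have e1 : Hh χ (P (ν μ n s)) z - Hh χ (P (ν μ n t)) z
        = (χ z : ℂ) * (P (ν μ n s) z - P (ν μ n t) z) := by unfold Hh; ring
    beta_reduce
    rw [e1, norm_mul, Complex.norm_real, Real.norm_of_nonneg (χb z).1]
    calc χ z * ‖P (ν μ n s) z - P (ν μ n t) z‖ ≤ 1 * (CP R * (M * |s - t|)) :=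
          mul_le_mul (χb z).2 (hl0 s hs t ht z) (norm_nonneg _) zero_le_one
      _ = (CP R * M) * |s - t| := by ring
      _ ≤ MM * |s - t| := by
          apply mul_le_mul_of_nonneg_right _ (abs_nonneg _)
          exact (le_max_left _ _).trans (le_max_left _ _)
  · intro s hs t ht z
    beta_reduce
    have e1 : fderiv ℝ (Hh χ (P (ν μ n s))) z - fderiv ℝ (Hh χ (P (ν μ n t))) z
        = (χ z) • fderiv ℝ (fun z => P (ν μ n s) z - P (ν μ n t) z) z
          + (fderiv ℝ χ z).smulRight ((fun z => P (ν μ n s) z - P (ν μ n t) z) z) := by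
      rw [(hHd s z).fderiv, (hHd t z).fderiv,
        fderiv_fun_sub ((hPs s).differentiable (by simp) z) ((hPs t).differentiable (by simp) z)]
      ext v
      simp only [ContinuousLinearMap.sub_apply, ContinuousLinearMap.add_apply,
        ContinuousLinearMap.smul_apply, ContinuousLinearMap.smulRight_apply,
        Complex.real_smul, ContinuousLinearMap.id_apply]
      ring
    rw [e1]
    have a1 := hl0 s hs t ht z
    have a2 := hl1 s hs t ht z
    rw [← fderiv_fun_sub ((hPs s).differentiable (by simp) z)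
      ((hPs t).differentiable (by simp) z)] at a2
    refine (norm_cut_le (w := fun z => P (ν μ n s) z - P (ν μ n t) z) χb χd a1 a2).trans ?_
    calc 2 * (CP R * (M * |s - t|)) + Cχ * (CP R * (M * |s - t|)) = M1 * |s - t| := by
          rw [hM1]; ring
      _ ≤ MM * |s - t| := by
          apply mul_le_mul_of_nonneg_right _ (abs_nonneg _)
          exact (le_max_right _ _).trans (le_max_left _ _)
  · intro t ht
    refine ⟨?_, ?_, ?_⟩
    · exact ((hHs 1).const_smul (1 - t)).add (hf.smooth.const_smul t)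
    · intro z hz
      beta_reduce
      rw [hHout 1 z hz, hf.out z (by linarith), ← add_smul]; simp
    · intro z
      apply hdet z
      have e1 : fderiv ℝ (fun z => (1 - t : ℝ) • Hh χ (P (ν μ n 1)) z + t • f z) z
          - fderiv ℝ f z = (1 - t : ℝ) • (fderiv ℝ (Hh χ (P (ν μ n 1))) z - fderiv ℝ f z) := by
        have d1 := ((hHs 1).differentiable (by simp) z).hasFDerivAt.const_smul (1 - t)
        have d2 := (hf.smooth.differentiable (by simp) z).hasFDerivAt.const_smul t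
        have d3 : HasFDerivAt (fun z => (1 - t : ℝ) • Hh χ (P (ν μ n 1)) z + t • f z)
          ((1 - t) • fderiv ℝ (Hh χ (P (ν μ n 1))) z + t • fderiv ℝ f z) z := d1.add d2
        rw [d3.fderiv]
        module
      rw [e1, norm_smul, Real.norm_of_nonneg (by linarith [ht.2])]
      have a1 : ‖fderiv ℝ (Hh χ (P (ν μ n 1))) z - fderiv ℝ f z‖ ≤ d / 2 := by
        rcases lt_or_ge ‖z‖ L with hz | hz
        · rw [hHnear 1 z hz]; exact (hclose z).2
        · rw [fderiv_out hf (lt_of_lt_of_le hLR hz)]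
          exact (hHfar 1 h1I z hz).le
      calc (1 - t) * ‖fderiv ℝ (Hh χ (P (ν μ n 1))) z - fderiv ℝ f z‖ ≤ 1 * (d / 2) :=
            mul_le_mul (by linarith [ht.1]) a1 (norm_nonneg _) zero_le_one
        _ < d := by linarith
  · intro s hs t ht z
    beta_reduce
    have e1 : ((1 - s : ℝ) • Hh χ (P (ν μ n 1)) z + s • f z)
        - ((1 - t : ℝ) • Hh χ (P (ν μ n 1)) z + t • f z)
        = (t - s) • (Hh χ (P (ν μ n 1)) z - f z) := by module
    rw [e1, norm_smul, Real.norm_eq_abs, abs_sub_comm, mul_comm]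
    apply mul_le_mul_of_nonneg_right _ (abs_nonneg _)
    exact (hB0 z).trans ((le_max_left _ _).trans (le_max_right _ _))
  · intro s hs t ht z
    beta_reduce
    have d3 : ∀ t : ℝ, HasFDerivAt (fun z => (1 - t : ℝ) • Hh χ (P (ν μ n 1)) z + t • f z)
        ((1 - t) • fderiv ℝ (Hh χ (P (ν μ n 1))) z + t • fderiv ℝ f z) z := fun t =>
      (((hHs 1).differentiable (by simp) z).hasFDerivAt.const_smul (1 - t)).add
        ((hf.smooth.differentiable (by simp) z).hasFDerivAt.const_smul t)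
    rw [(d3 s).fderiv, (d3 t).fderiv]
    have e1 : ((1 - s) • fderiv ℝ (Hh χ (P (ν μ n 1))) z + s • fderiv ℝ f z)
        - ((1 - t) • fderiv ℝ (Hh χ (P (ν μ n 1))) z + t • fderiv ℝ f z)
        = (t - s) • (fderiv ℝ (Hh χ (P (ν μ n 1))) z - fderiv ℝ f z) := by module
    rw [e1, norm_smul, Real.norm_eq_abs, abs_sub_comm, mul_comm]
    apply mul_le_mul_of_nonneg_right _ (abs_nonneg _)
    have := hB1 z
    rw [fderiv_fun_sub ((hHs 1).differentiable (by simp) z)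
      (hf.smooth.differentiable (by simp) z)] at this
    exact this.trans ((le_max_right _ _).trans (le_max_right _ _))
  · ext z
    have : ν μ n 0 = fun _ => 0 := by ext z; simp [ν]
    simp [Hh, this, P_zero]
  · ext z; simp
  · ext z; simp

/-- **C3-BEL** -/
theorem bel : Bel := by
  intro R f hf
  exact bel_pos (R := max R 1) (by positivity) (Adm.mono hf (le_max_left _ _))

end

end Crest.Agent.R096.BelF_205
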