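import Crest.Agent.R096.Osc6_802
import Crest.Agent.R096.ThC9_766
import Crest.Agent.R96.Lu7_538

-- ▼ part R096/LusN_766
section

/-!
Row 96 (S0127), helper766.  **Lusin (N)** for Sobolev homeomorphisms of open subsets of `ℝ³`,
`p ≥ 3`: the volume of the image of a cube is at most a constant times the integral of
`∑ ‖G j‖³` over the double cube; null sets are mapped to null sets.
-/

set_option autoImplicit false
set_option linter.unusedVariables false
set_option linter.style.longLine false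

namespace Crest.Agent.R096.LusN_766

open MeasureTheory Set Metric Filter Topology
open scoped ENNReal NNReal RealInnerProductSpace
open Crest.AnalysisR.VecCalc3 Crest.AnalysisR.Sobolev
open Crest.Agent.R096.Osc_802

/-- volume of the image of a cube. -/
theorem volume_image_cube_le {Ω Λ : Set R3} (hΩ : IsOpen Ω) (hΛ : IsOpen Λ) {f : R3 → R3}
    (hf : IsHomeomorphOn f Ω Λ) {G : Fin 3 → R3 → R3}
    (hG : ∀ j, HasWeakGradOn Ω (fun x => f x j) (G j)) :
    ∃ K : ℝ, 0 < K ∧ ∀ (c : R3) (R : ℝ), 0 < R → cube c (2 * R) ⊆ Ω →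
      volume (f '' cube c R) ≤ ENNReal.ofReal K *
        ∫⁻ x in cube c (2 * R), ∑ j, ‖G j x‖ₑ ^ (3 : ℝ) := by
  set V : ℝ := (volume : Measure R3).real (closedBall 0 1) with hV
  have hC : 0 < Cp 3 := Cp_pos (by norm_num)
  have hV0 : 0 ≤ V := measureReal_nonneg
  refine ⟨(108 * Cp 3) ^ 3 * V + 1, by positivity, fun c R hR hQ => ?_⟩
  rcases eq_or_ne (∫⁻ x in cube c (2 * R), ∑ j, ‖G j x‖ₑ ^ (3 : ℝ)) ∞ with hI | hI
  · rw [hI, ENNReal.mul_top]
    · exact le_top
    · rw [Ne, ENNReal.ofReal_eq_zero, not_le]; positivity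
  set I : ℝ := (∫⁻ x in cube c (2 * R), ∑ j, ‖G j x‖ₑ ^ (3 : ℝ)).toReal with hIdef
  have hI0 : 0 ≤ I := ENNReal.toReal_nonneg
  have hIe : ENNReal.ofReal I = ∫⁻ x in cube c (2 * R), ∑ j, ‖G j x‖ₑ ^ (3 : ℝ) :=
    ENNReal.ofReal_toReal hI
  have h1 := homeo_osc_le hΩ hΛ hf hG (p := 3) (by norm_num) hR hQ hI0 hIe.ge
  set D : ℝ := 108 * Cp 3 * R ^ (1 - 3 / (3 : ℝ)) * I ^ (1 / (3 : ℝ)) with hD
  have hD0 : 0 ≤ D := by positivity
  have hD3 : D ^ 3 = (108 * Cp 3) ^ 3 * I := by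
    have e1 : R ^ (1 - 3 / (3 : ℝ)) = 1 := by norm_num
    have e2 : (I ^ (1 / (3 : ℝ))) ^ 3 = I := by
      rw [← Real.rpow_natCast, ← Real.rpow_mul hI0]; norm_num
    rw [hD, e1, mul_one, mul_pow, e2]
  have hsub : f '' cube c R ⊆ closedBall (f c) D := by
    rintro _ ⟨y, hy, rfl⟩
    rw [mem_closedBall, dist_eq_norm]
    exact h1 y hy c (mem_cube_self c hR.le)
  calc volume (f '' cube c R) ≤ volume (closedBall (f c) D) := measure_mono hsub
    _ = ENNReal.ofReal (D ^ 3 * V) := volume_closedBall_le _ hD0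
    _ ≤ ENNReal.ofReal (((108 * Cp 3) ^ 3 * V + 1) * I) := by
        apply ENNReal.ofReal_le_ofReal
        rw [hD3]
        nlinarith
    _ = _ := by rw [ENNReal.ofReal_mul (by positivity), hIe]

/-- grid centres. -/
noncomputable def gc (h : ℝ) (z : Fin 3 → ℤ) : R3 := WithLp.toLp 2 fun i => h * z i

@[simp] lemma gc_apply (h : ℝ) (z : Fin 3 → ℤ) (i : Fin 3) : gc h z i = h * z i := rfl

lemma overlap (h : ℝ) (hh : 0 < h) (y : R3) :
    ∃ S : Finset (Fin 3 → ℤ), S.card ≤ 27 ∧ ∀ z, y ∈ cube (gc h z) h → z ∈ S := by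
  classical
  refine ⟨Fintype.piFinset fun i => Finset.Icc (⌈y i / h⌉ - 1) (⌊y i / h⌋ + 1), ?_, ?_⟩
  · rw [Fintype.card_piFinset]
    calc ∏ i : Fin 3, (Finset.Icc (⌈y i / h⌉ - 1) (⌊y i / h⌋ + 1)).card ≤ ∏ i : Fin 3, 3 := by
          apply Finset.prod_le_prod' fun i _ => ?_
          rw [Int.card_Icc]
          have := Int.floor_le_ceil (y i / h)
          omega
      _ = 27 := by simp
  · intro z hz
    rw [Fintype.mem_piFinset]
    intro i
    have h1 := hz i
    rw [gc_apply, abs_le] at h1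
    rw [Finset.mem_Icc]
    have h2 : y i / h = y i / h := rfl
    constructor
    · have : ⌈y i / h⌉ ≤ z i + 1 := by
        rw [Int.ceil_le, div_le_iff₀ hh]
        push_cast
        nlinarith [h1.2]
      omega
    · have : z i - 1 ≤ ⌊y i / h⌋ := by
        rw [Int.le_floor, le_div_iff₀ hh]
        push_cast
        nlinarith [h1.1]
      omega

lemma mem_grid (h : ℝ) (hh : 0 < h) (y : R3) : ∃ z : Fin 3 → ℤ, y ∈ cube (gc h z) (h / 2) := by
  refine ⟨fun i => round (y i / h), fun i => ?_⟩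
  rw [gc_apply]
  have h1 := abs_sub_round (y i / h)
  have h2 : y i - h * (round (y i / h) : ℝ) = h * (y i / h - round (y i / h)) := by
    field_simp
  rw [h2, abs_mul, abs_of_pos hh]
  nlinarith

/-- sum over the doubled grid cubes. -/
lemma tsum_grid_le (m : Measure R3) {h : ℝ} (hh : 0 < h) (T : Set (Fin 3 → ℤ)) {U : Set R3}
    (hU : MeasurableSet U) (hT : ∀ z ∈ T, cube (gc h z) h ⊆ U) :
    ∑' z : T, m (cube (gc h z) h) ≤ 27 * m U := by
  have h1 : ∀ z : T, m (cube (gc h z) h) = ∫⁻ y, (cube (gc h z) h).indicator (fun _ => (1 : ℝ≥0∞)) y ∂m := by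
    intro z
    rw [lintegral_indicator (measurable_cube _ _)]
    simp
  simp only [h1]
  rw [← lintegral_tsum (fun z => (measurable_const.indicator (measurable_cube _ _)).aemeasurable)]
  calc ∫⁻ y, ∑' z : T, (cube (gc h z) h).indicator (fun _ => (1 : ℝ≥0∞)) y ∂m
      ≤ ∫⁻ y, U.indicator (fun _ => (27 : ℝ≥0∞)) y ∂m := by
        apply lintegral_mono
        intro y
        simp only
        by_cases hy : y ∈ U
        · rw [indicator_of_mem hy]
          obtain ⟨S, hS, hSm⟩ := overlap h hh y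
          classical
          have h2 : ∑' z : T, (cube (gc h z) h).indicator (fun _ => (1 : ℝ≥0∞)) y ≤
              ∑' z : Fin 3 → ℤ, (cube (gc h z) h).indicator (fun _ => (1 : ℝ≥0∞)) y :=
            ENNReal.tsum_comp_le_tsum_of_injective Subtype.val_injective _
          refine h2.trans ?_
          rw [tsum_eq_sum (s := S)]
          · calc ∑ z ∈ S, (cube (gc h z) h).indicator (fun _ => (1 : ℝ≥0∞)) y ≤ ∑ z ∈ S, 1 :=
                  Finset.sum_le_sum fun z _ => by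
                    by_cases hz : y ∈ cube (gc h z) h
                    · rw [indicator_of_mem hz]
                    · rw [indicator_of_notMem hz]; exact zero_le_one
              _ = (S.card : ℝ≥0∞) := by simp
              _ ≤ 27 := by exact_mod_cast hS
          · intro z hz
            apply indicator_of_notMem
            exact fun hcon => hz (hSm z hcon)
        · rw [indicator_of_notMem hy, nonpos_iff_eq_zero, ENNReal.tsum_eq_zero]
          intro z
          apply indicator_of_notMem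
          exact fun hcon => hy (hT z z.2 hcon)
    _ = 27 * m U := by
        rw [lintegral_indicator hU]
        simp

/-- compact null sets have null images. -/
theorem compact_null {Ω Λ : Set R3} (hΩ : IsOpen Ω) (hΛ : IsOpen Λ) {f : R3 → R3}
    (hf : IsHomeomorphOn f Ω Λ) {G : Fin 3 → R3 → R3}
    (hG : ∀ j, HasWeakGradOn Ω (fun x => f x j) (G j))
    (hloc : ∀ K : Set R3, IsCompact K → K ⊆ Ω → ∫⁻ x in K, ∑ j, ‖G j x‖ₑ ^ (3 : ℝ) ≠ ∞)
    {K : Set R3} (hK : IsCompact K) (hKΩ : K ⊆ Ω) (hK0 : volume K = 0) : volume (f '' K) = 0 := by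
  obtain ⟨A, hA, hvol⟩ := volume_image_cube_le hΩ hΛ hf hG
  obtain ⟨δ, hδ, hδΩ⟩ := hK.exists_cthickening_subset_open hΩ hKΩ
  set m : Measure R3 := volume.withDensity fun x => ∑ j, ‖G j x‖ₑ ^ (3 : ℝ) with hm
  have hmK : m K = 0 := withDensity_absolutelyContinuous _ _ hK0
  have hmA : ∀ s : Set R3, MeasurableSet s → m s = ∫⁻ x in s, ∑ j, ‖G j x‖ₑ ^ (3 : ℝ) :=
    fun s hs => withDensity_apply _ hs
  have hlim : Tendsto (fun r => 27 * m (cthickening r K)) (𝓝 0) (𝓝 0) := by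
    have h1 : Tendsto (fun r => m (cthickening r K)) (𝓝 0) (𝓝 (m K)) := by
      apply tendsto_measure_cthickening_of_isClosed _ hK.isClosed
      refine ⟨δ, hδ, ?_⟩
      rw [hmA _ isClosed_cthickening.measurableSet]
      exact hloc _ hK.cthickening hδΩ
    rw [hmK] at h1
    have := ENNReal.Tendsto.const_mul (a := (27 : ℝ≥0∞)) h1 (Or.inr (by norm_num))
    simpa using this
  have hlim' : Tendsto (fun r => ENNReal.ofReal A * (27 * m (cthickening r K))) (𝓝 0) (𝓝 0) := by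
    have := ENNReal.Tendsto.const_mul (a := ENNReal.ofReal A) hlim (Or.inr ENNReal.ofReal_ne_top)
    simpa using this
  have hkey : ∀ r : ℝ, 0 < r → r ≤ δ → volume (f '' K) ≤ ENNReal.ofReal A * (27 * m (cthickening r K)) := by
    intro r hr hrδ
    set h : ℝ := r / 5 with hh
    have hh0 : 0 < h := by positivity
    set T : Set (Fin 3 → ℤ) := {z | (cube (gc h z) (h / 2) ∩ K).Nonempty} with hT
    have hTsub : ∀ z ∈ T, cube (gc h z) h ⊆ cthickening r K := by
      rintro z ⟨x, hx, hxK⟩ y hy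
      apply mem_cthickening_of_dist_le y x r K hxK
      rw [dist_eq_norm]
      refine (norm_le_sum3 _).trans ?_
      calc ∑ j, |(y - x) j| ≤ ∑ j : Fin 3, (3 / 2 * h) := by
            apply Finset.sum_le_sum fun j _ => ?_
            have h1 := hx j
            have h2 := hy j
            rw [PiLp.sub_apply]
            rw [abs_le] at h1 h2 ⊢
            constructor <;> linarith [h1.1, h1.2, h2.1, h2.2]
        _ = 9 / 2 * h := by simp; ring
        _ ≤ _ := by rw [hh]; linarith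
    have hcov : f '' K ⊆ ⋃ z : T, f '' cube (gc h z) (h / 2) := by
      rintro _ ⟨x, hx, rfl⟩
      obtain ⟨z, hz⟩ := mem_grid h hh0 x
      exact mem_iUnion.2 ⟨⟨z, ⟨x, hz, hx⟩⟩, mem_image_of_mem f hz⟩
    have e2 : 2 * (h / 2) = h := by ring
    calc volume (f '' K) ≤ ∑' z : T, volume (f '' cube (gc h z) (h / 2)) :=
          (measure_mono hcov).trans (measure_iUnion_le _)
      _ ≤ ∑' z : T, ENNReal.ofReal A * m (cube (gc h z) h) := by
          apply ENNReal.tsum_le_tsum fun z => ?_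
          have h3 := hvol (gc h z) (h / 2) (by positivity) (by
            rw [e2]
            exact (hTsub z z.2).trans ((cthickening_mono hrδ K).trans hδΩ))
          rw [e2] at h3
          rwa [hmA _ (measurable_cube _ _)]
      _ = ENNReal.ofReal A * ∑' z : T, m (cube (gc h z) h) := ENNReal.tsum_mul_left
      _ ≤ ENNReal.ofReal A * (27 * m (cthickening r K)) := by
          gcongr
          exact tsum_grid_le m hh0 T isClosed_cthickening.measurableSet hTsub
  have h0 : volume (f '' K) ≤ 0 := by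
    have hlim2 : Tendsto (fun r => ENNReal.ofReal A * (27 * m (cthickening r K))) (𝓝[>] 0) (𝓝 0) :=
      hlim'.mono_left nhdsWithin_le_nhds
    refine ge_of_tendsto hlim2 ?_
    filter_upwards [Ioc_mem_nhdsGT hδ] with r hr
    exact hkey r hr.1 hr.2
  exact nonpos_iff_eq_zero.1 h0

/-- **Lusin (N)** from local integrability of the cubes of the gradients. -/
theorem lusinN_of {Ω Λ : Set R3} (hΩ : IsOpen Ω) (hΛ : IsOpen Λ) {f : R3 → R3}
    (hf : IsHomeomorphOn f Ω Λ) {G : Fin 3 → R3 → R3}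
    (hG : ∀ j, HasWeakGradOn Ω (fun x => f x j) (G j))
    (hloc : ∀ K : Set R3, IsCompact K → K ⊆ Ω → ∫⁻ x in K, ∑ j, ‖G j x‖ₑ ^ (3 : ℝ) ≠ ∞)
    {N : Set R3} (hN : volume N = 0) : volume (f '' (N ∩ Ω)) = 0 := by
  set N' : Set R3 := toMeasurable volume N ∩ Ω with hN'
  have hN'm : MeasurableSet N' := (measurableSet_toMeasurable _ _).inter hΩ.measurableSet
  have hN'0 : volume N' = 0 := by
    apply measure_mono_null inter_subset_left
    rw [measure_toMeasurable]; exact hN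
  have hsub : N ∩ Ω ⊆ N' := inter_subset_inter_left _ (subset_toMeasurable _ _)
  have hf' := hf
  obtain ⟨g, hfm, hgm, hgf, hfg, hfc, hgc⟩ := hf'
  have hinj : InjOn f Ω := fun x hx y hy hxy => by rw [← hgf x hx, ← hgf y hy, hxy]
  have him : MeasurableSet (f '' N') :=
    hN'm.image_of_continuousOn_injOn (hfc.mono inter_subset_right) (hinj.mono inter_subset_right)
  refine measure_mono_null (image_mono hsub) ?_
  by_contra hne
  obtain ⟨K', hK'sub, hK'c, hK'pos⟩ := him.exists_lt_isCompact (μ := volume) (r := 0)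
    (pos_iff_ne_zero.2 hne)
  have hK'Λ : K' ⊆ Λ := by
    intro y hy
    obtain ⟨x, hx, rfl⟩ := hK'sub hy
    exact hfm hx.2
  have hKc : IsCompact (g '' K') := hK'c.image_of_continuousOn (hgc.mono hK'Λ)
  have hKN : g '' K' ⊆ N' := by
    rintro _ ⟨y, hy, rfl⟩
    obtain ⟨x, hx, rfl⟩ := hK'sub hy
    rwa [hgf x hx.2]
  have h1 := compact_null hΩ hΛ hf hG hloc hKc (hKN.trans inter_subset_right)
    (measure_mono_null hKN hN'0)
  have h2 : f '' (g '' K') = K' := by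
    ext y
    constructor
    · rintro ⟨_, ⟨z, hz, rfl⟩, rfl⟩
      rwa [hfg z (hK'Λ hz)]
    · intro hy
      exact ⟨g y, mem_image_of_mem g hy, hfg y (hK'Λ hy)⟩
  rw [h2] at h1
  exact absurd h1 hK'pos.ne'

/-- local integrability of the cubes. -/
lemma loc_of_memLp {Ω : Set R3} (hΩ : IsOpen Ω) {G : Fin 3 → R3 → R3} {p : ℝ} (hp : 3 ≤ p)
    (hGp : ∀ j, MemLp (G j) (ENNReal.ofReal p) (volume.restrict Ω)) {K : Set R3} (hK : IsCompact K)
    (hKΩ : K ⊆ Ω) : ∫⁻ x in K, ∑ j, ‖G j x‖ₑ ^ (3 : ℝ) ≠ ∞ := by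
  have : IsFiniteMeasure (volume.restrict K) := ⟨by
    rw [Measure.restrict_apply_univ]; exact hK.measure_lt_top⟩
  have h1 : ∀ j, MemLp (G j) (ENNReal.ofReal 3) (volume.restrict K) := fun j =>
    ((hGp j).mono_measure (Measure.restrict_mono hKΩ le_rfl)).mono_exponent
      (ENNReal.ofReal_le_ofReal hp)
  have h2 : ∀ j, ∫⁻ x in K, ‖G j x‖ₑ ^ (3 : ℝ) < ∞ := by
    intro j
    have := lintegral_rpow_enorm_lt_top_of_eLpNorm_lt_top (by simp) (by simp) (h1 j).2
    simpa using this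
  rw [lintegral_finsetSum' _ (fun j _ => ((h1 j).1.enorm.pow_const _))]
  exact (ENNReal.sum_lt_top.2 fun j _ => h2 j).ne

/-- **Lusin (N)**, `p ≥ 3`. -/
theorem lusinN {Ω Λ : Set R3} (hΩ : IsOpen Ω) (hΛ : IsOpen Λ) {f : R3 → R3}
    (hf : IsHomeomorphOn f Ω Λ) {G : Fin 3 → R3 → R3}
    (hG : ∀ j, HasWeakGradOn Ω (fun x => f x j) (G j)) {p : ℝ} (hp : 3 ≤ p)
    (hGp : ∀ j, MemLp (G j) (ENNReal.ofReal p) (volume.restrict Ω))
    {N : Set R3} (hN : volume N = 0) : volume (f '' (N ∩ Ω)) = 0 :=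
  lusinN_of hΩ hΛ hf hG (fun K hK hKΩ => loc_of_memLp hΩ hp hGp hK hKΩ) hN

end Crest.Agent.R096.LusN_766
end

-- ▼ part R096/VolC_766
section

/-!
Row 96 (S0127), helper766.  Volume form of the choice of the exact cubes: for a homeomorphism
`f : Ω → Λ` with Lusin's condition (N), a decreasing sequence `B m` of sets with null intersection
(`B m` = points which are not good at scale `1/(m+1)`), there is a scale function `δ` on `Ω` such
that the Laguerre system of Theorem C exists for `D = closure (f '' X)`, for EVERY relatively closed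
`X` which consists of points bad at scale `δ`, of a set with null image and of thin collars.
-/

set_option autoImplicit false
set_option linter.unusedSectionVars false
set_option linter.style.longLine false
set_option linter.style.haveILetI false
set_option linter.unusedVariables false

namespace Crest.Agent.R096.VolC_766

open MeasureTheory Set Filter Topology Metric
open scoped ENNReal
open Crest.Agent.R096.ThC6_766 Crest.Agent.R096.ThC7_766 Crest.Agent.R096.ThC9_766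

section Gen

/-- absolute continuity in `ε`-`τ` form, arbitrary sets. -/
lemma small_of_ac {E : Type*} [MeasurableSpace E] {μ ν : Measure E} [SigmaFinite μ]
    [IsFiniteMeasure ν] (h : ν ≪ μ) {ε : ℝ≥0∞} (hε : ε ≠ 0) :
    ∃ τ : ℝ≥0∞, 0 < τ ∧ ∀ C : Set E, μ C < τ → ν C < ε := by
  have h1 : μ.withDensity (ν.rnDeriv μ) = ν := Measure.withDensity_rnDeriv_eq ν μ h
  have h2 : ∫⁻ x, ν.rnDeriv μ x ∂μ ≠ ∞ := (Measure.lintegral_rnDeriv_lt_top ν μ).ne
  obtain ⟨τ, hτ, hτ2⟩ := exists_pos_setLIntegral_lt_of_measure_lt h2 hε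
  refine ⟨τ, hτ, fun C hC => ?_⟩
  calc ν C ≤ ν (toMeasurable μ C) := measure_mono (subset_toMeasurable _ _)
    _ = ∫⁻ x in toMeasurable μ C, ν.rnDeriv μ x ∂μ := by
        conv_lhs => rw [← h1]
        rw [withDensity_apply _ (measurableSet_toMeasurable _ _)]
    _ < ε := hτ2 _ (by rwa [measure_toMeasurable])

open Classical in
/-- a countable family of positive numbers below finite minima, with small weighted sums. -/
lemma exists_weights {ι κ : Type*} [Countable ι] (R : ι → κ → Prop)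
    (hR : ∀ i, {k | R i k}.Finite) (η : κ → ℝ≥0∞) (hη : ∀ k, 0 < η k) (hηt : ∀ k, η k ≠ ∞) :
    ∃ s : ι → ℝ≥0∞, (∀ i, 0 < s i) ∧ (∀ i, s i ≠ ∞) ∧
      (∀ k, ∑' i, (if R i k then s i else 0) ≤ η k) ∧ ∑' i, s i < 1 := by
  classical
  obtain ⟨u, hu, hus⟩ := ENNReal.exists_pos_sum_of_countable' (one_ne_zero (α := ℝ≥0∞)) ι
  have hu1 : ∀ i, u i ≤ 1 := fun i => (ENNReal.le_tsum i).trans hus.le
  set c : ι → ℝ≥0∞ := fun i => min 1 ((hR i).toFinset.inf η) with hc
  have hc0 : ∀ i, 0 < c i := by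
    intro i
    apply lt_min one_pos
    rw [Finset.lt_inf_iff (by simp)]
    exact fun k _ => hη k
  have hc1 : ∀ i, c i ≤ 1 := fun i => min_le_left _ _
  have hck : ∀ i k, R i k → c i ≤ η k := fun i k h =>
    (min_le_right _ _).trans (Finset.inf_le ((hR i).mem_toFinset.2 h))
  refine ⟨fun i => u i * c i, fun i => ENNReal.mul_pos (hu i).ne' (hc0 i).ne', fun i => ?_, fun k => ?_, ?_⟩
  · exact ENNReal.mul_ne_top ((hu1 i).trans_lt ENNReal.one_lt_top).ne
      ((hc1 i).trans_lt ENNReal.one_lt_top).ne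
  · calc ∑' i, (if R i k then u i * c i else 0) ≤ ∑' i, u i * η k := by
          apply ENNReal.tsum_le_tsum fun i => ?_
          split_ifs with h
          · gcongr; exact hck i k h
          · exact zero_le
      _ = (∑' i, u i) * η k := ENNReal.tsum_mul_right
      _ ≤ 1 * η k := by gcongr
      _ = η k := one_mul _
  · refine lt_of_le_of_lt (ENNReal.tsum_le_tsum fun i => ?_) hus
    calc u i * c i ≤ u i * 1 := by gcongr; exact hc1 i
      _ = u i := mul_one _

end Gen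

variable {V : Type*} [NormedAddCommGroup V] [InnerProductSpace ℝ V]
variable [FiniteDimensional ℝ V] [MeasurableSpace V] [BorelSpace V]

/-- an open neighbourhood small in every ball of a locally finite family. -/
lemma exists_open_small {L : Set V} (hL : IsOpen L) {z : ℕ → V} {r : ℕ → ℝ}
    (hr : ∀ k, 0 < r k) (hrL : ∀ k, closedBall (z k) (2 * r k) ⊆ L) (hcov : L ⊆ ⋃ k, ball (z k) (r k))
    (hlf : ∀ K : Set V, IsCompact K → K ⊆ L → {k | (closedBall (z k) (2 * r k) ∩ K).Nonempty}.Finite)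
    {η : ℕ → ℝ≥0∞} (hη : ∀ k, 0 < η k) (hηt : ∀ k, η k ≠ ∞) {A : Set V} (hA : MeasurableSet A)
    (hAL : A ⊆ L)
    (hvol : ∀ k, volume (A ∩ closedBall (z k) (2 * r k)) ≤ η k / 2) :
    ∃ W : Set V, IsOpen W ∧ A ⊆ W ∧ ∀ k, volume (W ∩ ball (z k) (3 / 2 * r k)) < η k := by
  classical
  obtain ⟨s, hs, hst, hsk, -⟩ := exists_weights
    (fun k l : ℕ => (closedBall (z l) (2 * r l) ∩ closedBall (z k) (2 * r k)).Nonempty)
    (fun k => hlf _ (isCompact_closedBall _ _) (hrL k)) (fun k => η k / 4)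
    (fun k => ENNReal.div_pos (hη k).ne' (by norm_num)) (fun k => ENNReal.div_ne_top (hηt k) (by norm_num))
  set A' : ℕ → Set V := fun k => A ∩ closedBall (z k) (2 * r k) with hA'
  have hA'm : ∀ k, MeasurableSet (A' k) := fun k => hA.inter isClosed_closedBall.measurableSet
  have hA'f : ∀ k, volume (A' k) ≠ ∞ := fun k =>
    ((measure_mono inter_subset_right).trans_lt measure_closedBall_lt_top).ne
  have h1 : ∀ k, ∃ U, A' k ⊆ U ∧ IsOpen U ∧ volume U ≤ volume (A' k) + s k := fun k =>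
    Set.exists_isOpen_le_add (A' k) volume (hs k).ne'
  choose U hU hUo hUv using h1
  have hdiff : ∀ k, volume (U k \ A' k) ≤ s k := by
    intro k
    rw [measure_sdiff (hU k) (hA'm k).nullMeasurableSet (hA'f k)]
    exact tsub_le_iff_left.2 (hUv k)
  refine ⟨⋃ k, U k ∩ ball (z k) (3 / 2 * r k), isOpen_iUnion fun k => (hUo k).inter isOpen_ball,
    fun x hx => ?_, fun l => ?_⟩
  · obtain ⟨k, hk⟩ := mem_iUnion.1 (hcov (hAL hx))
    refine mem_iUnion.2 ⟨k, hU k ⟨hx, ?_⟩, ?_⟩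
    · exact ball_subset_closedBall.trans (closedBall_subset_closedBall (by have := hr k; linarith)) hk
    · exact ball_subset_ball (by have := hr k; linarith) hk
  · have hsub : (⋃ k, U k ∩ ball (z k) (3 / 2 * r k)) ∩ ball (z l) (3 / 2 * r l) ⊆
        A' l ∪ ⋃ k, (if (closedBall (z l) (2 * r l) ∩ closedBall (z k) (2 * r k)).Nonempty then
          U k \ A' k else ∅) := by
      rintro x ⟨hx, hxl⟩
      obtain ⟨k, hxU, hxk⟩ := mem_iUnion.1 hx
      have hxl' : x ∈ closedBall (z l) (2 * r l) :=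
        ball_subset_closedBall.trans (closedBall_subset_closedBall (by have := hr l; linarith)) hxl
      have hxk' : x ∈ closedBall (z k) (2 * r k) :=
        ball_subset_closedBall.trans (closedBall_subset_closedBall (by have := hr k; linarith)) hxk
      by_cases hxA : x ∈ A
      · exact Or.inl ⟨hxA, hxl'⟩
      · refine Or.inr (mem_iUnion.2 ⟨k, ?_⟩)
        rw [if_pos ⟨x, hxl', hxk'⟩]
        exact ⟨hxU, fun h => hxA h.1⟩
    have hη4 : η l / 2 + η l / 4 < η l := by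
      have h0 := hηt l
      have h00 := (hη l)
      have e2 : η l / 2 + η l / 4 + η l / 4 = η l := by
        have e1 : η l / 4 + η l / 4 = η l / 2 := by
          rw [← ENNReal.add_div, ← two_mul]
          rw [show (4 : ℝ≥0∞) = 2 * 2 by norm_num]
          rw [ENNReal.mul_div_mul_left _ _ (by norm_num) (by norm_num)]
        rw [add_assoc, e1, ENNReal.add_halves]
      conv_rhs => rw [← e2]
      apply ENNReal.lt_add_right
      · exact ENNReal.add_ne_top.2 ⟨ENNReal.div_ne_top h0 (by norm_num), ENNReal.div_ne_top h0 (by norm_num)⟩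
      · exact (ENNReal.div_pos h00.ne' (by norm_num)).ne'
    calc volume ((⋃ k, U k ∩ ball (z k) (3 / 2 * r k)) ∩ ball (z l) (3 / 2 * r l))
        ≤ volume (A' l) + ∑' k, volume (if (closedBall (z l) (2 * r l) ∩
            closedBall (z k) (2 * r k)).Nonempty then U k \ A' k else ∅) :=
          (measure_mono hsub).trans ((measure_union_le _ _).trans (by gcongr; exact measure_iUnion_le _))
      _ ≤ η l / 2 + ∑' k, (if (closedBall (z l) (2 * r l) ∩
            closedBall (z k) (2 * r k)).Nonempty then s k else 0) := by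
          gcongr with k
          · exact hvol l
          · split_ifs with h
            · exact hdiff k
            · simp
      _ ≤ η l / 2 + η l / 4 := by gcongr; exact hsk l
      _ < η l := hη4

section Main

variable {E : Type*} [NormedAddCommGroup E] [InnerProductSpace ℝ E]
variable [FiniteDimensional ℝ E] [MeasurableSpace E] [BorelSpace E]

/-- points which are bad at the scale `δ`. -/
def Bad (Ω : Set E) (B : ℕ → Set E) (δ : E → ℝ) : Set E :=
  {x | x ∈ Ω ∧ ∀ m : ℕ, δ x ≤ 1 / ((m : ℝ) + 1) → x ∈ B m}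

/-- the measure `A ↦ volume (f '' A)` on `Ω`. -/
lemma exists_image_measure {Ω : Set E} {Λ : Set V} (hΩ : IsOpen Ω) (hΛ : IsOpen Λ)
    {f : E → V} {g : V → E} (hfm : MapsTo f Ω Λ) (hgm : MapsTo g Λ Ω) (hgf : ∀ x ∈ Ω, g (f x) = x)
    (hfg : ∀ y ∈ Λ, f (g y) = y) (hfc : ContinuousOn f Ω) (hgc : ContinuousOn g Λ) {μ : Measure E}
    (hN : ∀ N : Set E, μ N = 0 → (volume : Measure V) (f '' (N ∩ Ω)) = 0) :
    ∃ ν : Measure E, ν ≪ μ ∧ (∀ A : Set E, volume (f '' (A ∩ Ω)) ≤ ν A) ∧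
      (∀ K : Set E, IsCompact K → K ⊆ Ω → ν K ≠ ∞) := by
  have hga : AEMeasurable g ((volume : Measure V).restrict Λ) := hgc.aemeasurable hΛ.measurableSet
  set ν : Measure E := ((volume : Measure V).restrict Λ).map g with hν
  have hpre : ∀ A : Set E, g ⁻¹' A ∩ Λ = f '' (A ∩ Ω) := by
    intro A
    ext y
    constructor
    · rintro ⟨hy, hyΛ⟩
      exact ⟨g y, ⟨hy, hgm hyΛ⟩, hfg y hyΛ⟩
    · rintro ⟨x, ⟨hx, hxΩ⟩, rfl⟩
      exact ⟨by rw [mem_preimage, hgf x hxΩ]; exact hx, hfm hxΩ⟩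
  have hνA : ∀ A : Set E, MeasurableSet A → ν A = volume (f '' (A ∩ Ω)) := by
    intro A hA
    rw [hν, Measure.map_apply_of_aemeasurable hga hA, Measure.restrict_apply' hΛ.measurableSet, hpre]
  refine ⟨ν, Measure.AbsolutelyContinuous.mk fun A hA h0 => ?_, fun A => ?_, fun K hK hKΩ => ?_⟩
  · rw [hνA A hA]; exact hN A h0
  · calc volume (f '' (A ∩ Ω)) ≤ volume (f '' (toMeasurable ν A ∩ Ω)) :=
          measure_mono (image_mono (inter_subset_inter_left _ (subset_toMeasurable _ _)))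
      _ = ν (toMeasurable ν A) := (hνA _ (measurableSet_toMeasurable _ _)).symm
      _ = ν A := measure_toMeasurable _
  · rw [hνA K hK.measurableSet, inter_eq_self_of_subset_left hKΩ]
    exact (hK.image_of_continuousOn (hfc.mono hKΩ)).measure_lt_top.ne

/-- **Volume form of the choice of the exact cubes.** -/
theorem exists_volc [Nontrivial V] {Ω : Set E} {Λ : Set V} (hΩ : IsOpen Ω) (hΛ : IsOpen Λ)
    (hne : Λ.Nonempty)
    {f : E → V} {g : V → E} (hfm : MapsTo f Ω Λ) (hgm : MapsTo g Λ Ω) (hgf : ∀ x ∈ Ω, g (f x) = x)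
    (hfg : ∀ y ∈ Λ, f (g y) = y) (hfc : ContinuousOn f Ω) (hgc : ContinuousOn g Λ)
    {μ : Measure E} [SigmaFinite μ]
    (hN : ∀ N : Set E, μ N = 0 → (volume : Measure V) (f '' (N ∩ Ω)) = 0)
    {Z : Set E} (hZ : (volume : Measure V) (f '' (Z ∩ Ω)) = 0)
    {B : ℕ → Set E} (hB : ∀ m, NullMeasurableSet (B m) μ) (hBa : Antitone B) (hB0 : μ (⋂ m, B m) = 0)
    {ρ : Measure E} [IsFiniteMeasure ρ] (hρ : ρ ≪ μ) {ε : ℝ≥0∞} (hε : 0 < ε) (hεt : ε ≠ ∞)
    {h₀ : E → ℝ} (hh₀ : ∀ x ∈ Ω, ∃ r : ℝ, 0 < r ∧ ∃ m : ℝ, 0 < m ∧ ∀ y ∈ ball x r, m ≤ h₀ y)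
    {e : V → ℝ} (he : Scale Λ e) {β : ℝ} (hβ : 0 < β) (hβ1 : β ≤ 1 / 2) :
    ∃ δ : E → ℝ, Scale Ω δ ∧ (∀ x ∈ Ω, δ x ≤ h₀ x) ∧ ρ (Bad Ω B δ) < ε ∧
      ∀ (ι : Type) [Countable ι] (Q : ι → Set E), (∀ i, IsCompact (Q i)) → (∀ i, Q i ⊆ Ω) →
        (∀ K : Set E, IsCompact K → K ⊆ Ω → {i | (Q i ∩ K).Nonempty}.Finite) →
        ∃ τ : ι → ℝ≥0∞, (∀ i, 0 < τ i) ∧ ∀ C : ι → Set E, (∀ i, C i ⊆ Q i) → (∀ i, μ (C i) < τ i) →
          ρ (⋃ i, C i) < ε ∧ ∀ X : Set E, X ⊆ Ω → closure X ∩ Ω ⊆ X →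
            X ⊆ Z ∪ Bad Ω B δ ∪ ⋃ i, C i →
            ∃ (S : Set V) (a : S → V) (c : S → ℝ) (Phi : V → ℝ) (th : V → V),
              Lag Λ (1 + 2 * β) e (closure (f '' X)) S a c Phi th := by
  classical
  obtain ⟨z, r, hr, hrL, hcov, -, hlf⟩ := exists_cover_lf hΛ hne he
  obtain ⟨η, hη, hmain⟩ := exists_lag_cov hr hrL hcov hΛ he hβ hβ1
  obtain ⟨ν, hνμ, hνle, hνK⟩ := exists_image_measure hΩ hΛ hfm hgm hgf hfg hfc hgc hN
  set η' : ℕ → ℝ≥0∞ := fun k => ENNReal.ofReal (η k) with hη'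
  have hη'0 : ∀ k, 0 < η' k := fun k => ENNReal.ofReal_pos.2 (hη k)
  have hη't : ∀ k, η' k ≠ ∞ := fun k => ENNReal.ofReal_ne_top
  set K : ℕ → Set E := fun k => g '' closedBall (z k) (2 * r k) with hK
  have hKc : ∀ k, IsCompact (K k) := fun k =>
    (isCompact_closedBall _ _).image_of_continuousOn (hgc.mono (hrL k))
  have hKΩ : ∀ k, K k ⊆ Ω := by
    rintro k _ ⟨y, hy, rfl⟩
    exact hgm (hrL k hy)
  have hmemK : ∀ k, ∀ x ∈ Ω, (x ∈ K k ↔ f x ∈ closedBall (z k) (2 * r k)) := by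
    intro k x hx
    constructor
    · rintro ⟨y, hy, rfl⟩
      rwa [hfg y (hrL k hy)]
    · intro h
      exact ⟨f x, h, hgf x hx⟩
  -- choice of m k
  have hlim : ∀ (σ : Measure E), σ ≪ μ → σ univ ≠ ∞ → Tendsto (fun m => σ (B m)) atTop (𝓝 0) := by
    intro σ hσ hσf
    have h1 := tendsto_measure_iInter_atTop (μ := σ) (s := B) (fun m => (hB m).mono_ac hσ) hBa
      ⟨0, ((measure_mono (subset_univ _)).trans_lt (lt_top_iff_ne_top.2 hσf)).ne⟩
    rwa [hσ hB0] at h1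
  have hmk : ∀ k, ∃ m : ℕ, ν (B m ∩ K k) < η' k / 4 := by
    intro k
    have h1 := hlim (ν.restrict (K k)) (Measure.absolutelyContinuous_of_le Measure.restrict_le_self |>.trans hνμ)
      (by rw [Measure.restrict_apply_univ]; exact hνK _ (hKc k) (hKΩ k))
    have h2 : 0 < η' k / 4 := ENNReal.div_pos (hη'0 k).ne' (by norm_num)
    obtain ⟨m, hm⟩ := (h1.eventually (gt_mem_nhds h2)).exists
    refine ⟨m, ?_⟩
    rwa [Measure.restrict_apply' (hKc k).measurableSet] at hm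
  choose m hm using hmk
  obtain ⟨M, hM⟩ : ∃ M : ℕ, ρ (B M) < ε :=
    ((hlim ρ hρ (measure_ne_top _ _)).eventually (gt_mem_nhds hε)).exists
  -- the scale
  set h : E → ℝ := fun y => min (min (h₀ y) (1 / ((M : ℝ) + 1)))
    (⨅ k : ℕ, if y ∈ K k then 1 / ((m k : ℝ) + 1) else 1) with hh
  have hbdd : ∀ y, BddBelow (range fun k : ℕ => if y ∈ K k then 1 / ((m k : ℝ) + 1) else 1) := by
    intro y
    refine ⟨0, ?_⟩
    rintro _ ⟨k, rfl⟩
    simp only
    split_ifs <;> positivity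
  have hfinK : ∀ N : Set E, IsCompact N → N ⊆ Ω → {k | (K k ∩ N).Nonempty}.Finite := by
    intro N hN hNΩ
    refine (hlf (f '' N) (hN.image_of_continuousOn (hfc.mono hNΩ)) ?_).subset ?_
    · rintro _ ⟨x, hx, rfl⟩; exact hfm (hNΩ hx)
    · rintro k ⟨x, hxK, hxN⟩
      exact ⟨f x, (hmemK k x (hNΩ hxN)).1 hxK, mem_image_of_mem f hxN⟩
  obtain ⟨δ, hδ, hδh⟩ := exists_scale hΩ (h := h) (by
    intro x hx
    obtain ⟨r₀, hr₀, m₀, hm₀, hm₀b⟩ := hh₀ x hx
    obtain ⟨r₁, hr₁, hr₁Ω⟩ := Metric.nhds_basis_closedBall.mem_iff.1 (hΩ.mem_nhds hx)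
    have hfin := hfinK (closedBall x r₁) (isCompact_closedBall _ _) hr₁Ω
    set c : ℝ := (insert M (hfin.toFinset.image m)).inf' (Finset.insert_nonempty _ _)
      (fun n : ℕ => 1 / ((n : ℝ) + 1)) with hc
    have hcpos : 0 < c := by
      rw [hc, Finset.lt_inf'_iff]
      intro n _
      positivity
    have hcM : c ≤ 1 / ((M : ℝ) + 1) := Finset.inf'_le _ (Finset.mem_insert_self _ _)
    refine ⟨min r₀ r₁, lt_min hr₀ hr₁, min m₀ c, lt_min hm₀ hcpos, fun y hy => ?_⟩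
    have hy₀ : y ∈ ball x r₀ := ball_subset_ball (min_le_left _ _) hy
    have hy₁ : y ∈ closedBall x r₁ := ball_subset_closedBall (ball_subset_ball (min_le_right _ _) hy)
    refine le_min (le_min ((min_le_left _ _).trans (hm₀b y hy₀)) ((min_le_right _ _).trans hcM)) ?_
    refine (min_le_right _ _).trans (le_ciInf fun k => ?_)
    split_ifs with hk
    · refine Finset.inf'_le _ (Finset.mem_insert_of_mem (Finset.mem_image_of_mem _ ?_))
      exact hfin.mem_toFinset.2 ⟨y, hk, hy₁⟩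
    · refine hcM.trans ?_
      rw [div_le_one (by positivity)]
      have : (0 : ℝ) ≤ M := Nat.cast_nonneg _
      linarith)
  have hδK : ∀ k, ∀ x ∈ Ω, x ∈ K k → δ x ≤ 1 / ((m k : ℝ) + 1) := by
    intro k x hx hxK
    refine (hδh x hx).trans ((min_le_right _ _).trans ?_)
    refine (ciInf_le (hbdd x) k).trans ?_
    rw [if_pos hxK]
  have hδM : ∀ x ∈ Ω, δ x ≤ 1 / ((M : ℝ) + 1) := fun x hx =>
    (hδh x hx).trans ((min_le_left _ _).trans (min_le_right _ _))
  have hbadK : ∀ k, Bad Ω B δ ∩ K k ⊆ B (m k) ∩ K k := fun k x hx =>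
    ⟨hx.1.2 (m k) (hδK k x hx.1.1 hx.2), hx.2⟩
  have hbadM : Bad Ω B δ ⊆ B M := fun x hx => hx.2 M (hδM x hx.1)
  refine ⟨δ, hδ, fun x hx => (hδh x hx).trans ((min_le_left _ _).trans (min_le_left _ _)),
    (measure_mono hbadM).trans_lt hM, ?_⟩
  intro ι _ Q hQc hQΩ hQlf
  obtain ⟨s, hs, hst, hsk, hs1⟩ := exists_weights (fun (i : ι) (k : ℕ) => (K k ∩ Q i).Nonempty)
    (fun i => hfinK (Q i) (hQc i) (hQΩ i)) (fun k => η' k / 4)
    (fun k => ENNReal.div_pos (hη'0 k).ne' (by norm_num))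
    (fun k => ENNReal.div_ne_top (hη't k) (by norm_num))
  have hτ1 : ∀ i, ∃ τ : ℝ≥0∞, 0 < τ ∧ ∀ C : Set E, μ C < τ → (ν.restrict (Q i)) C < s i := by
    intro i
    haveI : IsFiniteMeasure (ν.restrict (Q i)) := ⟨by
      rw [Measure.restrict_apply_univ]; exact lt_top_iff_ne_top.2 (hνK _ (hQc i) (hQΩ i))⟩
    exact small_of_ac (Measure.absolutelyContinuous_of_le Measure.restrict_le_self |>.trans hνμ) (hs i).ne'
  choose τ₁ hτ₁ hτ₁s using hτ1
  have hτ2 : ∀ i, ∃ τ : ℝ≥0∞, 0 < τ ∧ ∀ C : Set E, μ C < τ → ρ C < s i * ε := fun i =>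
    small_of_ac hρ (mul_ne_zero (hs i).ne' hε.ne')
  choose τ₂ hτ₂ hτ₂s using hτ2
  refine ⟨fun i => min (τ₁ i) (τ₂ i), fun i => lt_min (hτ₁ i) (hτ₂ i), fun C hCQ hCμ => ⟨?_, ?_⟩⟩
  · calc ρ (⋃ i, C i) ≤ ∑' i, ρ (C i) := measure_iUnion_le _
      _ ≤ ∑' i, s i * ε := ENNReal.tsum_le_tsum fun i => (hτ₂s i _ ((hCμ i).trans_le (min_le_right _ _))).le
      _ = (∑' i, s i) * ε := ENNReal.tsum_mul_right
      _ < 1 * ε := by
          rw [ENNReal.mul_lt_mul_iff_left hε.ne' hεt]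
          exact hs1
      _ = ε := one_mul _
  intro X hXΩ hXcl hXsub
  -- D ∩ Λ = f '' X
  have hfX : f '' X ⊆ Λ := by rintro _ ⟨x, hx, rfl⟩; exact hfm (hXΩ hx)
  have hgfX : g '' (f '' X) = X := by
    ext x
    constructor
    · rintro ⟨_, ⟨x', hx', rfl⟩, rfl⟩
      rwa [hgf x' (hXΩ hx')]
    · intro hx
      exact ⟨f x, mem_image_of_mem f hx, hgf x (hXΩ hx)⟩
  have hD : closure (f '' X) ∩ Λ = f '' X := by
    apply Subset.antisymm
    · rintro y ⟨hy, hyΛ⟩
      have h1 : g y ∈ closure (g '' (f '' X)) := ((hgc y hyΛ).mono hfX).mem_closure_image hy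
      rw [hgfX] at h1
      exact ⟨g y, hXcl ⟨h1, hgm hyΛ⟩, hfg y hyΛ⟩
    · exact fun y hy => ⟨subset_closure hy, hfX hy⟩
  have hmeas : MeasurableSet (f '' X) := by
    rw [← hD]; exact isClosed_closure.measurableSet.inter hΛ.measurableSet
  -- volume of the image in the balls
  have hvol : ∀ k, volume (f '' X ∩ closedBall (z k) (2 * r k)) ≤ η' k / 2 := by
    intro k
    have hsub : f '' X ∩ closedBall (z k) (2 * r k) ⊆ f '' (Z ∩ Ω) ∪
        (f '' ((B (m k) ∩ K k) ∩ Ω) ∪ ⋃ i, (if (K k ∩ Q i).Nonempty then f '' (C i ∩ Ω) else ∅)) := by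
      rintro _ ⟨⟨x, hx, rfl⟩, hxk⟩
      have hxΩ := hXΩ hx
      have hxK : x ∈ K k := (hmemK k x hxΩ).2 hxk
      rcases hXsub hx with (h1 | h1) | h1
      · exact Or.inl ⟨x, ⟨h1, hxΩ⟩, rfl⟩
      · exact Or.inr (Or.inl ⟨x, ⟨hbadK k ⟨h1, hxK⟩, hxΩ⟩, rfl⟩)
      · obtain ⟨i, hi⟩ := mem_iUnion.1 h1
        refine Or.inr (Or.inr (mem_iUnion.2 ⟨i, ?_⟩))
        rw [if_pos ⟨x, hxK, hCQ i hi⟩]
        exact ⟨x, ⟨hi, hxΩ⟩, rfl⟩
    have hCi : ∀ i, volume (f '' (C i ∩ Ω)) ≤ s i := by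
      intro i
      refine (hνle (C i)).trans ?_
      have h1 := hτ₁s i (C i) ((hCμ i).trans_le (min_le_left _ _))
      rw [Measure.restrict_apply' (hQc i).measurableSet, inter_eq_self_of_subset_left (hCQ i)] at h1
      exact h1.le
    have e1 : η' k / 4 + η' k / 4 = η' k / 2 := by
      rw [← ENNReal.add_div, ← two_mul]
      rw [show (4 : ℝ≥0∞) = 2 * 2 by norm_num]
      rw [ENNReal.mul_div_mul_left _ _ (by norm_num) (by norm_num)]
    calc volume (f '' X ∩ closedBall (z k) (2 * r k))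
        ≤ volume (f '' (Z ∩ Ω)) + (volume (f '' ((B (m k) ∩ K k) ∩ Ω)) +
            ∑' i, volume (if (K k ∩ Q i).Nonempty then f '' (C i ∩ Ω) else ∅)) := by
          refine (measure_mono hsub).trans ((measure_union_le _ _).trans ?_)
          gcongr
          refine (measure_union_le _ _).trans ?_
          gcongr
          exact measure_iUnion_le _
      _ ≤ 0 + (η' k / 4 + ∑' i, (if (K k ∩ Q i).Nonempty then s i else 0)) := by
          gcongr with i
          · exact hZ.le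
          · exact (hνle _).trans (hm k).le
          · split_ifs with h1
            · exact hCi i
            · simp
      _ ≤ 0 + (η' k / 4 + η' k / 4) := by gcongr; exact hsk k
      _ = η' k / 2 := by rw [zero_add, e1]
  obtain ⟨W, hWo, hWX, hWv⟩ := exists_open_small hΛ hr hrL hcov hlf hη'0 hη't hmeas hfX hvol
  exact hmain W (closure (f '' X)) hWo (fun k => ENNReal.toReal_lt_of_lt_ofReal (hWv k))
    isClosed_closure (by rw [hD]; exact hWX)

end Main

end Crest.Agent.R096.VolC_766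
end

-- ▼ part R096/VolC2_766
section

/-!
Row 96 (S0127), helper766.  Good points of a Sobolev homeomorphism (`p > 2`) at all small scales:
measurability, a.e. point is good; critical values are null (`p ≥ 3`).
-/

set_option autoImplicit false
set_option linter.unusedSectionVars false
set_option linter.style.longLine false
set_option linter.style.haveILetI false
set_option linter.unusedVariables false

namespace Crest.Agent.R096.VolC2_766

open MeasureTheory Set Filter Topology Metric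
open scoped ENNReal NNReal RealInnerProductSpace Pointwise
open Crest.AnalysisR.VecCalc3 Crest.AnalysisR.Sobolev
open Crest.Agent.R096.Osc_802 Crest.Agent.R096.LusN_766 Crest.Agent.R096.VolC_766
open Crest.Agent.R96.Lu_538

lemma rowMap_eq_Gmat (G : Fin 3 → R3 → R3) (x : R3) : rowMap (fun j => G j x) = Gmat G x := by
  ext w j
  rfl

/-- critical values are null, `p ≥ 3`. -/
theorem crit_image_null {Ω Λ : Set R3} (hΩ : IsOpen Ω) (hΛ : IsOpen Λ) {f : R3 → R3}
    (hf : IsHomeomorphOn f Ω Λ) {G : Fin 3 → R3 → R3}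
    (hG : ∀ j, HasWeakGradOn Ω (fun x => f x j) (G j)) {p : ℝ} (hp : 3 ≤ p)
    (hGp : ∀ j, MemLp (G j) (ENNReal.ofReal p) (volume.restrict Ω)) :
    volume (f '' ({x | (Gmat G x).det = 0} ∩ Ω)) = 0 := by
  have h1 := homeo_ae_diff hΩ hΛ hf hG (p := p) (by linarith) hGp
  set N : Set R3 := {x | ¬ (x ∈ Ω → (∀ j, LebPt p (Ω.indicator (G j)) x) ∧
      HasFDerivAt f (rowMap fun j => G j x) x)} with hN
  have hN0 : volume N = 0 := h1
  have hsub : f '' ({x | (Gmat G x).det = 0} ∩ Ω) ⊆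
      f '' (({x | (Gmat G x).det = 0} ∩ Ω) ∩ Nᶜ) ∪ f '' (N ∩ Ω) := by
    rintro _ ⟨x, hx, rfl⟩
    by_cases hxN : x ∈ N
    · exact Or.inr ⟨x, ⟨hxN, hx.2⟩, rfl⟩
    · exact Or.inl ⟨x, ⟨hx, hxN⟩, rfl⟩
  refine measure_mono_null hsub (measure_union_null ?_ (lusinN hΩ hΛ hf hG hp hGp hN0))
  apply addHaar_image_eq_zero_of_det_fderivWithin_eq_zero volume (f' := fun x => Gmat G x)
  · rintro x ⟨⟨hx0, hxΩ⟩, hxN⟩
    have h2 : x ∈ Ω → (∀ j, LebPt p (Ω.indicator (G j)) x) ∧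
      HasFDerivAt f (rowMap fun j => G j x) x := by
      by_contra hcon
      exact hxN hcon
    have h3 := (h2 hxΩ).2
    rw [rowMap_eq_Gmat] at h3
    exact h3.hasFDerivWithinAt
  · rintro x ⟨⟨hx0, hxΩ⟩, hxN⟩
    exact hx0

/-- good points at the scale `s`. -/
structure GoodAt (Ω : Set R3) (f : R3 → R3) (G : Fin 3 → R3 → R3) (p : ℝ) (κ : R3 → ℝ) (x : R3)
    (s : ℝ) : Prop where
  sub : cube x (2 * s) ⊆ Ω
  aff : ∀ y ∈ cube x s, ∀ y' ∈ cube x s, ‖f y - f y' - Gmat G x (y - y')‖ ≤ κ x * s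
  int : ∫⁻ y in cube x s, ∑ j, ‖G j y - G j x‖ₑ ^ p ≤ ENNReal.ofReal (κ x * s ^ 3)

/-- a.e. point is good at all small scales. -/
theorem ae_good {Ω Λ : Set R3} (hΩ : IsOpen Ω) (hΛ : IsOpen Λ) {f : R3 → R3}
    (hf : IsHomeomorphOn f Ω Λ) {G : Fin 3 → R3 → R3}
    (hG : ∀ j, HasWeakGradOn Ω (fun x => f x j) (G j)) {p : ℝ} (hp : 2 < p)
    (hGp : ∀ j, MemLp (G j) (ENNReal.ofReal p) (volume.restrict Ω)) {κ : R3 → ℝ}
    (hκ : ∀ x ∈ Ω, 0 < κ x) :
    ∀ᵐ x, x ∈ Ω → ∃ r₀ > 0, ∀ s : ℝ, 0 < s → s < r₀ → GoodAt Ω f G p κ x s := by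
  filter_upwards [homeo_ae_diff hΩ hΛ hf hG hp hGp] with x hx hxΩ
  obtain ⟨hL, -⟩ := hx hxΩ
  obtain ⟨r₀, hr₀, h1⟩ := homeo_affine_at_lebPt hΩ hΛ hf hG hp hxΩ hL (hκ x hxΩ)
  -- integral
  set v : ℝ := (volume : Measure R3).real (closedBall 0 1) with hv
  have hv0 : 0 < v := by
    rw [hv, Measure.real, ENNReal.toReal_pos_iff]
    exact ⟨measure_closedBall_pos _ _ one_pos, measure_closedBall_lt_top⟩
  set a : ℝ := κ x / (24 * v) with ha
  have ha0 : 0 < a := by have := hκ x hxΩ; positivity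
  have h2 : ∀ j, ∀ᶠ r : ℝ in 𝓝[>] 0, (∫⁻ y in closedBall x r, ‖Ω.indicator (G j) y - Ω.indicator (G j) x‖ₑ ^ p) /
      volume (closedBall x r) < ENNReal.ofReal a := fun j =>
    (hL j).eventually (gt_mem_nhds (ENNReal.ofReal_pos.2 ha0))
  have h3 := eventually_all.2 h2
  obtain ⟨r₁, hr₁, h4⟩ := (nhdsGT_basis (0 : ℝ)).mem_iff.1 h3
  refine ⟨min r₀ (r₁ / 2), lt_min hr₀ (by have : (0 : ℝ) < r₁ := hr₁; positivity), fun s hs hss => ?_⟩
  have hs0 : s < r₀ := hss.trans_le (min_le_left _ _)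
  have hs1 : 2 * s < r₁ := by
    have := hss.trans_le (min_le_right _ _)
    linarith
  obtain ⟨hsub, haff⟩ := h1 s hs hs0
  refine ⟨hsub, fun y hy y' hy' => ?_, ?_⟩
  · rw [← rowMap_eq_Gmat]; exact haff y hy y' hy'
  · have hcs : cube x s ⊆ Ω := fun y hy => hsub (fun i => by have := hy i; linarith)
    have hj : ∀ j, ∫⁻ y in cube x s, ‖G j y - G j x‖ₑ ^ p ≤ ENNReal.ofReal (a * ((2 * s) ^ 3 * v)) := by
      intro j
      have h5 := h4 (show 2 * s ∈ Ioo (0 : ℝ) r₁ from ⟨by positivity, hs1⟩) j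
      rw [ENNReal.div_lt_iff (Or.inl (measure_closedBall_pos _ _ (by positivity)).ne')
        (Or.inl measure_closedBall_lt_top.ne), volume_closedBall_le _ (by positivity),
        ← ENNReal.ofReal_mul ha0.le] at h5
      refine le_trans ?_ h5.le
      calc ∫⁻ y in cube x s, ‖G j y - G j x‖ₑ ^ p
          = ∫⁻ y in cube x s, ‖Ω.indicator (G j) y - Ω.indicator (G j) x‖ₑ ^ p := by
            apply setLIntegral_congr_fun (measurable_cube _ _)
            intro y hy
            simp only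
            rw [indicator_of_mem (hcs hy), indicator_of_mem hxΩ]
        _ ≤ _ := lintegral_mono_set (cube_subset_closedBall hs.le)
    have hmeas : ∀ j, AEMeasurable (fun y => ‖G j y - G j x‖ₑ ^ p) (volume.restrict (cube x s)) := by
      intro j
      have h6 : AEStronglyMeasurable (G j) (volume.restrict (cube x s)) :=
        (hGp j).1.mono_measure (Measure.restrict_mono hcs le_rfl)
      exact (h6.sub aestronglyMeasurable_const).enorm.pow_const _
    rw [lintegral_finsetSum' _ (fun j _ => hmeas j)]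
    calc ∑ j, ∫⁻ y in cube x s, ‖G j y - G j x‖ₑ ^ p
        ≤ ∑ j : Fin 3, ENNReal.ofReal (a * ((2 * s) ^ 3 * v)) := Finset.sum_le_sum fun j _ => hj j
      _ = ENNReal.ofReal (κ x * s ^ 3) := by
          rw [Finset.sum_const, Finset.card_univ, Fintype.card_fin, nsmul_eq_mul]
          rw [show ((3 : ℕ) : ℝ≥0∞) = ENNReal.ofReal 3 by simp, ← ENNReal.ofReal_mul (by norm_num)]
          congr 1
          rw [ha]
          field_simp
          ring

/-! ### measurability -/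

lemma isOpen_cubeSub {Ω : Set R3} (hΩ : IsOpen Ω) {R : ℝ} (hR : 0 ≤ R) :
    IsOpen {x : R3 | cube x R ⊆ Ω} := by
  have h1 : {x : R3 | cube x R ⊆ Ω} = (Ωᶜ + cube 0 R)ᶜ := by
    ext x
    rw [mem_compl_iff, Set.mem_add]
    constructor
    · rintro h ⟨y, hy, u, hu, rfl⟩
      apply hy
      apply h
      intro i
      have := hu i
      simp only [PiLp.add_apply, PiLp.zero_apply, sub_zero] at this ⊢
      rwa [show y i - (y i + u i) = -u i by ring, abs_neg]
    · intro h y hy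
      by_contra hcon
      refine h ⟨y, hcon, x - y, fun i => ?_, by abel⟩
      have := hy i
      simp only [PiLp.sub_apply, PiLp.zero_apply, sub_zero]
      rwa [abs_sub_comm]
  rw [h1]
  exact (hΩ.isClosed_compl.add_right_of_isCompact (isCompact_cube 0 hR)).isOpen_compl

/-- points whose open cube of half side `2R` is in `Ω`. -/
def UU (Ω : Set R3) (R : ℝ) : Set R3 := {x | ∀ s : ℝ, 0 < s → s < R → cube x (2 * s) ⊆ Ω}

lemma measurable_UU {Ω : Set R3} (hΩ : IsOpen Ω) (R : ℝ) : MeasurableSet (UU Ω R) := by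
  have h1 : UU Ω R = ⋂ q : ℚ, {x | 0 < (q : ℝ) → (q : ℝ) < R → cube x (2 * (q : ℝ)) ⊆ Ω} := by
    ext x
    simp only [UU, mem_ofPred_eq, mem_iInter]
    constructor
    · exact fun h q h1 h2 => h q h1 h2
    · intro h s hs hsR
      obtain ⟨q, hq1, hq2⟩ := exists_rat_btwn hsR
      exact fun y hy => h q (hs.trans hq1) hq2 (fun i => by have := hy i; linarith)
  rw [h1]
  refine MeasurableSet.iInter fun q => ?_
  by_cases hq : 0 < (q : ℝ)
  · by_cases hqR : (q : ℝ) < R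
    · simp only [hq, hqR, true_imp_iff]
      exact (isOpen_cubeSub hΩ (by positivity)).measurableSet
    · simp [hqR]
  · simp [hq]


/-- affine part. -/
def AA (f : R3 → R3) (G : Fin 3 → R3 → R3) (κ : R3 → ℝ) (R : ℝ) : Set R3 :=
  {x | ∀ s : ℝ, 0 < s → s < R → ∀ y ∈ cube x s, ∀ y' ∈ cube x s,
    ‖f y - f y' - Gmat G x (y - y')‖ ≤ κ x * s}

lemma measurable_Gmat {G : Fin 3 → R3 → R3} (hG : ∀ j, Measurable (G j)) : Measurable (Gmat G) :=
  continuous_gmatL.measurable.comp (measurable_pi_lambda _ hG)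

lemma mem_cube_smul {x u : R3} {s : ℝ} (hs : 0 ≤ s) (hu : u ∈ cube 0 1) : x + s • u ∈ cube x s := by
  intro i
  have := hu i
  simp only [PiLp.zero_apply, sub_zero] at this
  simp only [PiLp.add_apply, PiLp.smul_apply, smul_eq_mul, add_sub_cancel_left]
  rw [abs_mul, abs_of_nonneg hs]
  nlinarith

lemma measurable_AA {Ω : Set R3} (hΩ : IsOpen Ω) {f : R3 → R3} (hf : ContinuousOn f Ω)
    {G : Fin 3 → R3 → R3} (hG : ∀ j, Measurable (G j)) {κ : R3 → ℝ} (hκ : Measurable κ) {R : ℝ}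
    (hR : 0 < R) : MeasurableSet (UU Ω R ∩ AA f G κ R) := by
  set Y : Set (ℝ × R3 × R3) := {y | 0 < y.1 ∧ y.1 < R ∧ y.2.1 ∈ cube 0 1 ∧ y.2.2 ∈ cube 0 1} with hY
  haveI : Nonempty Y := ⟨⟨(R / 2, 0, 0), by
    refine ⟨by positivity, by simp only; linarith, ?_, ?_⟩ <;> exact mem_cube_self 0 zero_le_one⟩⟩
  set H : R3 → ℝ × R3 × R3 → Prop := fun x y =>
    ‖f (x + y.1 • y.2.1) - f (x + y.1 • y.2.2) - Gmat G x (y.1 • y.2.1 - y.1 • y.2.2)‖ ≤ κ x * y.1
    with hH
  have hmemΩ : ∀ x ∈ UU Ω R, ∀ y ∈ Y, x + y.1 • y.2.1 ∈ Ω ∧ x + y.1 • y.2.2 ∈ Ω := by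
    intro x hx y hy
    have h1 : cube x y.1 ⊆ Ω := fun w hw =>
      hx y.1 hy.1 hy.2.1 (fun i => by have := hw i; have := hy.1; linarith)
    exact ⟨h1 (mem_cube_smul hy.1.le hy.2.2.1), h1 (mem_cube_smul hy.1.le hy.2.2.2)⟩
  have key : UU Ω R ∩ AA f G κ R = ⋂ n : ℕ, {x | x ∈ UU Ω R ∧ H x (TopologicalSpace.denseSeq Y n : Y)} := by
    ext x
    simp only [mem_iInter, mem_ofPred_eq]
    constructor
    · rintro ⟨hx, hA⟩ n
      refine ⟨hx, ?_⟩
      set y := (TopologicalSpace.denseSeq Y n) with hy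
      have h1 := hA y.1.1 y.2.1 y.2.2.1 _ (mem_cube_smul (x := x) y.2.1.le y.2.2.2.1) _
        (mem_cube_smul (x := x) y.2.1.le y.2.2.2.2)
      rw [add_sub_add_left_eq_sub] at h1
      exact h1
    · intro h
      have hx : x ∈ UU Ω R := (h 0).1
      refine ⟨hx, ?_⟩
      -- closed condition
      have hcl : IsClosed {y : Y | H x y} := by
        have hc1 : Continuous fun y : Y => f (x + y.1.1 • y.1.2.1) := by
          rw [← continuousOn_univ]
          refine hf.comp (by fun_prop) fun y _ => (hmemΩ x hx y y.2).1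
        have hc2 : Continuous fun y : Y => f (x + y.1.1 • y.1.2.2) := by
          rw [← continuousOn_univ]
          refine hf.comp (by fun_prop) fun y _ => (hmemΩ x hx y y.2).2
        apply isClosed_le
        · apply Continuous.norm
          apply (hc1.sub hc2).sub
          apply (Gmat G x).continuous.comp
          fun_prop
        · fun_prop
      have hall : ∀ y : Y, H x y := by
        have h1 : closure (range (TopologicalSpace.denseSeq Y)) ⊆ {y : Y | H x y} :=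
          closure_minimal (by rintro _ ⟨n, rfl⟩; exact (h n).2) hcl
        rw [(TopologicalSpace.denseRange_denseSeq Y).closure_range] at h1
        exact fun y => h1 (mem_univ y)
      intro s hs hsR y hy y' hy'
      have hu : ∀ w ∈ cube x s, s⁻¹ • (w - x) ∈ cube (0 : R3) 1 := by
        intro w hw i
        have := hw i
        simp only [PiLp.smul_apply, PiLp.sub_apply, smul_eq_mul, PiLp.zero_apply, sub_zero]
        rw [abs_mul, abs_inv, abs_of_pos hs, inv_mul_le_iff₀ hs]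
        linarith
      have h2 := hall ⟨(s, s⁻¹ • (y - x), s⁻¹ • (y' - x)), hs, hsR, hu y hy, hu y' hy'⟩
      simp only [hH] at h2
      rw [smul_smul, smul_smul, mul_inv_cancel₀ hs.ne', one_smul, one_smul, add_sub_cancel,
        add_sub_cancel, sub_sub_sub_cancel_right] at h2
      exact h2
  rw [key]
  refine MeasurableSet.iInter fun n => ?_
  set y := (TopologicalSpace.denseSeq Y n) with hy
  have hU := measurable_UU hΩ R
  have h1 : {x | x ∈ UU Ω R ∧ H x y} = Subtype.val '' {x : UU Ω R | H x y} := by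
    ext x
    constructor
    · rintro ⟨hx, hxH⟩
      exact ⟨⟨x, hx⟩, hxH, rfl⟩
    · rintro ⟨⟨x', hx'⟩, hxH, rfl⟩
      exact ⟨hx', hxH⟩
  rw [h1]
  apply hU.subtype_image
  apply measurableSet_le
  · apply Measurable.norm
    apply Measurable.sub
    · apply Measurable.sub
      · apply Continuous.measurable
        rw [← continuousOn_univ]
        exact hf.comp (by fun_prop) fun x _ => (hmemΩ x x.2 y y.2).1
      · apply Continuous.measurable
        rw [← continuousOn_univ]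
        exact hf.comp (by fun_prop) fun x _ => (hmemΩ x x.2 y y.2).2
    · have h2 : Measurable fun x : R3 => Gmat G x (y.1.1 • y.1.2.1 - y.1.1 • y.1.2.2) :=
        (ContinuousLinearMap.apply ℝ R3 (y.1.1 • y.1.2.1 - y.1.1 • y.1.2.2)).continuous.measurable.comp
          (measurable_Gmat hG)
      exact h2.comp measurable_subtype_coe
  · exact (hκ.comp measurable_subtype_coe).mul_const _

/-- integral part. -/
def II (G : Fin 3 → R3 → R3) (p : ℝ) (κ : R3 → ℝ) (R : ℝ) : Set R3 :=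
  {x | ∀ s : ℝ, 0 < s → s < R →
    ∫⁻ y in cube x s, ∑ j, ‖G j y - G j x‖ₑ ^ p ≤ ENNReal.ofReal (κ x * s ^ 3)}

lemma measurable_II {G : Fin 3 → R3 → R3} (hG : ∀ j, Measurable (G j)) {p : ℝ} {κ : R3 → ℝ}
    (hκ : Measurable κ) {R : ℝ} : MeasurableSet (II G p κ R) := by
  have key : II G p κ R = ⋂ q : ℚ, {x | 0 < (q : ℝ) → (q : ℝ) < R →
      ∫⁻ y in cube x q, ∑ j, ‖G j y - G j x‖ₑ ^ p ≤ ENNReal.ofReal (κ x * (q : ℝ) ^ 3)} := by
    ext x
    simp only [II, mem_ofPred_eq, mem_iInter]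
    constructor
    · exact fun h q h1 h2 => h q h1 h2
    · intro h s hs hsR
      by_contra hcon
      push Not at hcon
      have hc : ContinuousAt (fun t : ℝ => ENNReal.ofReal (κ x * t ^ 3)) s := by
        apply Continuous.continuousAt
        exact ENNReal.continuous_ofReal.comp (by fun_prop)
      obtain ⟨ε, hε, h1⟩ := Metric.eventually_nhds_iff.1 (hc.eventually (gt_mem_nhds hcon))
      obtain ⟨q, hq1, hq2⟩ := exists_rat_btwn (show s < min R (s + ε) from lt_min hsR (by linarith))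
      have h2 := h q (hs.trans hq1) (hq2.trans_le (min_le_left _ _))
      have h3 := @h1 (q : ℝ) (by
        rw [Real.dist_eq, abs_of_pos (by linarith)]
        have := hq2.trans_le (min_le_right _ _)
        linarith)
      have h4 : ∫⁻ y in cube x s, ∑ j, ‖G j y - G j x‖ₑ ^ p ≤
          ∫⁻ y in cube x q, ∑ j, ‖G j y - G j x‖ₑ ^ p :=
        lintegral_mono_set fun y hy i => (hy i).trans hq1.le
      exact absurd (h4.trans h2) (not_le.2 h3)
  rw [key]
  refine MeasurableSet.iInter fun q => ?_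
  by_cases hq : 0 < (q : ℝ)
  swap
  · simp [hq]
  by_cases hqR : (q : ℝ) < R
  swap
  · simp [hqR]
  simp only [hq, hqR, true_imp_iff]
  have hcl : MeasurableSet {z : R3 × R3 | z.2 ∈ cube z.1 q} := by
    apply IsClosed.measurableSet
    have : {z : R3 × R3 | z.2 ∈ cube z.1 q} = ⋂ i, {z : R3 × R3 | |z.2 i - z.1 i| ≤ q} := by
      ext z; simp [cube]
    rw [this]
    refine isClosed_iInter fun i => isClosed_le ?_ continuous_const
    fun_prop
  have hint : Measurable fun x : R3 => ∫⁻ y in cube x q, ∑ j, ‖G j y - G j x‖ₑ ^ p := by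
    have h1 : (fun x : R3 => ∫⁻ y in cube x q, ∑ j, ‖G j y - G j x‖ₑ ^ p) = fun x : R3 =>
        ∫⁻ y, ({z : R3 × R3 | z.2 ∈ cube z.1 q}.indicator
          (fun z : R3 × R3 => ∑ j, ‖G j z.2 - G j z.1‖ₑ ^ p)) (x, y) := by
      funext x
      rw [← lintegral_indicator (measurable_cube _ _)]
      rfl
    rw [h1]
    apply Measurable.lintegral_prod_right'
    apply Measurable.indicator _ hcl
    have := hG
    fun_prop
  exact measurableSet_le hint (by fun_prop)

end Crest.Agent.R096.VolC2_766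
end

-- ▼ part R096/VolC3_766
section

/-!
Row 96 (S0127), helper766.  Volume form of the choice of the exact cubes for a Sobolev
homeomorphism of open subsets of `ℝ³`, `p ≥ 3`.
-/

set_option autoImplicit false
set_option linter.unusedSectionVars false
set_option linter.style.longLine false
set_option linter.style.haveILetI false
set_option linter.unusedVariables false

namespace Crest.Agent.R096.VolC3_766

open MeasureTheory Set Filter Topology Metric
open scoped ENNReal NNReal RealInnerProductSpace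
open Crest.AnalysisR.VecCalc3 Crest.AnalysisR.Sobolev
open Crest.Agent.R096.Osc_802 Crest.Agent.R096.LusN_766 Crest.Agent.R096.VolC_766
open Crest.Agent.R096.VolC2_766 Crest.Agent.R96.Lu_538
open Crest.Agent.R096.ThC6_766 Crest.Agent.R096.ThC7_766

/-- regular points which are not good at all scales `< R`. -/
def BB (Ω : Set R3) (f : R3 → R3) (G : Fin 3 → R3 → R3) (p : ℝ) (κ : R3 → ℝ) (R : ℝ) : Set R3 :=
  {x | x ∈ Ω ∧ (Gmat G x).det ≠ 0 ∧ ¬ ∀ s : ℝ, 0 < s → s < R → GoodAt Ω f G p κ x s}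

lemma measurable_BB {Ω : Set R3} (hΩ : IsOpen Ω) {f : R3 → R3} (hf : ContinuousOn f Ω)
    {G : Fin 3 → R3 → R3} (hG : ∀ j, Measurable (G j)) {p : ℝ} {κ : R3 → ℝ} (hκ : Measurable κ)
    {R : ℝ} (hR : 0 < R) : MeasurableSet (BB Ω f G p κ R) := by
  have h1 : BB Ω f G p κ R = Ω ∩ ({x | (Gmat G x).det = 0}ᶜ ∩
      ((UU Ω R ∩ AA f G κ R) ∩ II G p κ R)ᶜ) := by
    ext x
    constructor
    · rintro ⟨hx, hx0, hg⟩
      refine ⟨hx, hx0, fun h => hg fun s hs hsR => ⟨h.1.1 s hs hsR, h.1.2 s hs hsR, h.2 s hs hsR⟩⟩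
    · rintro ⟨hx, hx0, hg⟩
      refine ⟨hx, hx0, fun h => hg ⟨⟨fun s hs hsR => (h s hs hsR).sub, fun s hs hsR => (h s hs hsR).aff⟩,
        fun s hs hsR => (h s hs hsR).int⟩⟩
  rw [h1]
  refine hΩ.measurableSet.inter (MeasurableSet.inter ?_ ?_)
  · apply MeasurableSet.compl
    have h2 : Measurable fun x => (Gmat G x).det :=
      (ContinuousLinearMap.continuous_det).measurable.comp (measurable_Gmat hG)
    exact h2 (measurableSet_singleton 0)
  · exact ((measurable_AA hΩ hf hG hκ hR).inter (measurable_II hG hκ)).compl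

/-- the choice of measurable representatives does not matter. -/
lemma nullMeasurable_BB {Ω : Set R3} (hΩ : IsOpen Ω) {f : R3 → R3} (hf : ContinuousOn f Ω)
    {G : Fin 3 → R3 → R3} (hG : ∀ j, AEStronglyMeasurable (G j) (volume.restrict Ω)) {p : ℝ}
    {κ : R3 → ℝ} (hκ : Measurable κ) {R : ℝ} (hR : 0 < R) :
    NullMeasurableSet (BB Ω f G p κ R) volume := by
  set G' : Fin 3 → R3 → R3 := fun j => (hG j).mk (G j) with hG'
  have hG'm : ∀ j, Measurable (G' j) := fun j => (hG j).stronglyMeasurable_mk.measurable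
  have hae : ∀ᵐ x, x ∈ Ω → ∀ j, G j x = G' j x := by
    have h1 : ∀ j, ∀ᵐ x, x ∈ Ω → G j x = G' j x := fun j =>
      (ae_restrict_iff' hΩ.measurableSet).1 (hG j).ae_eq_mk
    filter_upwards [ae_all_iff.2 h1] with x hx hxΩ j
    exact hx j hxΩ
  refine (measurable_BB hΩ hf hG'm hκ hR (p := p)).nullMeasurableSet.congr ?_
  filter_upwards [hae] with x hx
  apply propext
  by_cases hxΩ : x ∈ Ω
  swap
  · constructor
    · exact fun h => absurd h.1 hxΩ
    · exact fun h => absurd h.1 hxΩ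
  have hGx := hx hxΩ
  have e1 : Gmat G' x = Gmat G x := by
    simp only [Gmat]
    congr 1
    funext j
    exact (hGx j).symm
  have e2 : ∀ s : ℝ, cube x (2 * s) ⊆ Ω → 0 < s → ∫⁻ y in cube x s, ∑ j, ‖G' j y - G' j x‖ₑ ^ p =
      ∫⁻ y in cube x s, ∑ j, ‖G j y - G j x‖ₑ ^ p := by
    intro s hs hs0
    apply setLIntegral_congr_fun_ae (measurable_cube _ _)
    filter_upwards [hae] with y hy hyc
    have hyΩ : y ∈ Ω := hs (fun i => by have := hyc i; linarith)
    simp only [hy hyΩ, hGx]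
  have e3 : ∀ s : ℝ, 0 < s → (GoodAt Ω f G' p κ x s ↔ GoodAt Ω f G p κ x s) := by
    intro s hs
    constructor
    · intro h
      refine ⟨h.sub, ?_, ?_⟩
      · have := h.aff; rwa [e1] at this
      · have := h.int; rwa [e2 s h.sub hs] at this
    · intro h
      refine ⟨h.sub, ?_, ?_⟩
      · rw [e1]; exact h.aff
      · rw [e2 s h.sub hs]; exact h.int
  constructor
  · rintro ⟨h1, h2, h3⟩
    refine ⟨h1, by rwa [← e1], fun h => h3 fun s hs hsR => (e3 s hs).2 (h s hs hsR)⟩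
  · rintro ⟨h1, h2, h3⟩
    refine ⟨h1, by rwa [e1], fun h => h3 fun s hs hsR => (e3 s hs).1 (h s hs hsR)⟩

/-- regular points which are bad at the scale `δ`. -/
def BadG (Ω : Set R3) (f : R3 → R3) (G : Fin 3 → R3 → R3) (p : ℝ) (κ δ : R3 → ℝ) : Set R3 :=
  {x | x ∈ Ω ∧ (Gmat G x).det ≠ 0 ∧ ¬ ∀ s : ℝ, 0 < s → s < δ x → GoodAt Ω f G p κ x s}

/-- **Volume form of the choice of the exact cubes**, `p ≥ 3`: see the header. -/
theorem exists_exact {Ω Λ : Set R3} (hΩ : IsOpen Ω) (hΛ : IsOpen Λ) (hne : Λ.Nonempty)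
    {f : R3 → R3} (hf : IsHomeomorphOn f Ω Λ) {G : Fin 3 → R3 → R3}
    (hG : ∀ j, HasWeakGradOn Ω (fun x => f x j) (G j)) {p : ℝ} (hp : 3 ≤ p)
    (hGp : ∀ j, MemLp (G j) (ENNReal.ofReal p) (volume.restrict Ω)) {κ : R3 → ℝ}
    (hκm : Measurable κ) (hκ : ∀ x ∈ Ω, 0 < κ x)
    {ρ : Measure R3} [IsFiniteMeasure ρ] (hρ : ρ ≪ volume) {ε : ℝ≥0∞} (hε : 0 < ε) (hεt : ε ≠ ∞)
    {h₀ : R3 → ℝ} (hh₀ : ∀ x ∈ Ω, ∃ r : ℝ, 0 < r ∧ ∃ m : ℝ, 0 < m ∧ ∀ y ∈ ball x r, m ≤ h₀ y)
    {e : R3 → ℝ} (he : Scale Λ e) {β : ℝ} (hβ : 0 < β) (hβ1 : β ≤ 1 / 2) :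
    ∃ δ : R3 → ℝ, Scale Ω δ ∧ (∀ x ∈ Ω, δ x ≤ h₀ x) ∧ ρ (BadG Ω f G p κ δ) < ε ∧
      ∀ (ι : Type) [Countable ι] (Q : ι → Set R3), (∀ i, IsCompact (Q i)) → (∀ i, Q i ⊆ Ω) →
        (∀ K : Set R3, IsCompact K → K ⊆ Ω → {i | (Q i ∩ K).Nonempty}.Finite) →
        ∃ τ : ι → ℝ≥0∞, (∀ i, 0 < τ i) ∧ ∀ C : ι → Set R3, (∀ i, C i ⊆ Q i) →
          (∀ i, volume (C i) < τ i) →
          ρ (⋃ i, C i) < ε ∧ ∀ X : Set R3, X ⊆ Ω → closure X ∩ Ω ⊆ X →
            (∀ x ∈ X, (Gmat G x).det = 0 ∨ x ∈ BadG Ω f G p κ δ ∨ x ∈ ⋃ i, C i) →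
            ∃ (S : Set R3) (a : S → R3) (c : S → ℝ) (Phi : R3 → ℝ) (th : R3 → R3),
              Lag Λ (1 + 2 * β) e (closure (f '' X)) S a c Phi th := by
  have hf' := hf
  obtain ⟨g, hfm, hgm, hgf, hfg, hfc, hgc⟩ := hf'
  set B : ℕ → Set R3 := fun m => BB Ω f G p κ (1 / ((m : ℝ) + 1)) with hB
  have hBn : ∀ m, NullMeasurableSet (B m) volume := fun m =>
    nullMeasurable_BB hΩ hfc (fun j => (hGp j).1) hκm (by positivity)
  have hBa : Antitone B := by
    intro m m' hmm x hx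
    refine ⟨hx.1, hx.2.1, fun h => hx.2.2 fun s hs hsR => h s hs (hsR.trans_le ?_)⟩
    apply one_div_le_one_div_of_le (by positivity)
    have : (m : ℝ) ≤ m' := by exact_mod_cast hmm
    linarith
  have hB0 : volume (⋂ m, B m) = 0 := by
    have h1 := ae_good hΩ hΛ hf hG (p := p) (by linarith) hGp hκ
    refine measure_mono_null (fun x hx => ?_) h1
    rw [mem_iInter] at hx
    intro hcon
    obtain ⟨r₀, hr₀, h2⟩ := hcon (hx 0).1
    obtain ⟨m, hm⟩ := exists_nat_one_div_lt hr₀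
    exact (hx m).2.2 fun s hs hsR => h2 s hs (hsR.trans hm)
  obtain ⟨δ, hδ, hδh, hδρ, hmain⟩ := exists_volc hΩ hΛ hne hfm hgm hgf hfg hfc hgc (μ := volume)
    (fun N hN => lusinN hΩ hΛ hf hG hp hGp hN) (crit_image_null hΩ hΛ hf hG hp hGp) hBn hBa hB0 hρ hε
    hεt hh₀ he hβ hβ1
  have hsub : BadG Ω f G p κ δ ⊆ Bad Ω B δ := by
    rintro x ⟨hx, hx0, hxb⟩
    exact ⟨hx, fun m hm => ⟨hx, hx0, fun h => hxb fun s hs hsδ => h s hs (hsδ.trans_le hm)⟩⟩
  refine ⟨δ, hδ, hδh, (measure_mono hsub).trans_lt hδρ, fun ι _ Q hQc hQΩ hQlf => ?_⟩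
  obtain ⟨τ, hτ, h1⟩ := hmain ι Q hQc hQΩ hQlf
  refine ⟨τ, hτ, fun C hCQ hCτ => ⟨(h1 C hCQ hCτ).1, fun X hXΩ hXcl hX => ?_⟩⟩
  refine (h1 C hCQ hCτ).2 X hXΩ hXcl fun x hx => ?_
  rcases hX x hx with h | h | h
  · exact Or.inl (Or.inl h)
  · exact Or.inl (Or.inr (hsub h))
  · exact Or.inr h



end Crest.Agent.R096.VolC3_766
end

-- ▼ part R096/Sel1_766
section

/-!
Row 96 (S0127), helper766.  Choice of the scale of goodness such that the image of the bad set is small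
in every set of a given locally finite family.
-/

set_option autoImplicit false
set_option linter.unusedSectionVars false
set_option linter.style.longLine false
set_option linter.style.haveILetI false
set_option linter.unusedVariables false

namespace Crest.Agent.R096.Sel_766

open MeasureTheory Set Filter Topology Metric
open scoped ENNReal NNReal RealInnerProductSpace
open Crest.Agent.R096.VolC_766
open Crest.Agent.R096.ThC6_766

variable {V : Type*} [NormedAddCommGroup V] [InnerProductSpace ℝ V]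
variable [FiniteDimensional ℝ V] [MeasurableSpace V] [BorelSpace V]
variable {E : Type*} [NormedAddCommGroup E] [InnerProductSpace ℝ E]
variable [FiniteDimensional ℝ E] [MeasurableSpace E] [BorelSpace E]

/-- **Scale selection**: the bad points have small image in every `Q i`. -/
theorem exists_volsel {Ω : Set E} {Λ : Set V} (hΩ : IsOpen Ω) (hΛ : IsOpen Λ)
    {f : E → V} {g : V → E} (hfm : MapsTo f Ω Λ) (hgm : MapsTo g Λ Ω) (hgf : ∀ x ∈ Ω, g (f x) = x)
    (hfg : ∀ y ∈ Λ, f (g y) = y) (hfc : ContinuousOn f Ω) (hgc : ContinuousOn g Λ)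
    {μ : Measure E} [SigmaFinite μ]
    (hN : ∀ N : Set E, μ N = 0 → (volume : Measure V) (f '' (N ∩ Ω)) = 0)
    {B : ℕ → Set E} (hB : ∀ m, NullMeasurableSet (B m) μ) (hBa : Antitone B) (hB0 : μ (⋂ m, B m) = 0)
    {ρ : Measure E} [IsFiniteMeasure ρ] (hρ : ρ ≪ μ) {ε : ℝ≥0∞} (hε : 0 < ε)
    {h₀ : E → ℝ} (hh₀ : ∀ x ∈ Ω, ∃ r : ℝ, 0 < r ∧ ∃ m : ℝ, 0 < m ∧ ∀ y ∈ ball x r, m ≤ h₀ y)
    {ι : Type*} (Q : ι → Set V) (hQc : ∀ i, IsCompact (Q i)) (hQΛ : ∀ i, Q i ⊆ Λ)
    (hlf : ∀ K : Set V, IsCompact K → K ⊆ Λ → {i | (Q i ∩ K).Nonempty}.Finite)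
    {η : ι → ℝ≥0∞} (hη : ∀ i, 0 < η i) :
    ∃ δ : E → ℝ, Scale Ω δ ∧ (∀ x ∈ Ω, δ x ≤ h₀ x) ∧ ρ (Bad Ω B δ) < ε ∧
      ∀ i, volume (f '' (Bad Ω B δ) ∩ Q i) < η i := by
  classical
  obtain ⟨ν, hνμ, hνle, hνK⟩ := exists_image_measure hΩ hΛ hfm hgm hgf hfg hfc hgc hN
  set K : ι → Set E := fun k => g '' Q k with hK
  have hKc : ∀ k, IsCompact (K k) := fun k => (hQc k).image_of_continuousOn (hgc.mono (hQΛ k))
  have hKΩ : ∀ k, K k ⊆ Ω := by
    rintro k _ ⟨y, hy, rfl⟩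
    exact hgm (hQΛ k hy)
  have hmemK : ∀ k, ∀ x ∈ Ω, (x ∈ K k ↔ f x ∈ Q k) := by
    intro k x hx
    constructor
    · rintro ⟨y, hy, rfl⟩
      rwa [hfg y (hQΛ k hy)]
    · intro h
      exact ⟨f x, h, hgf x hx⟩
  have hlim : ∀ (σ : Measure E), σ ≪ μ → σ univ ≠ ∞ → Tendsto (fun m => σ (B m)) atTop (𝓝 0) := by
    intro σ hσ hσf
    have h1 := tendsto_measure_iInter_atTop (μ := σ) (s := B) (fun m => (hB m).mono_ac hσ) hBa
      ⟨0, ((measure_mono (subset_univ _)).trans_lt (lt_top_iff_ne_top.2 hσf)).ne⟩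
    rwa [hσ hB0] at h1
  have hmk : ∀ k, ∃ m : ℕ, ν (B m ∩ K k) < η k := by
    intro k
    have h1 := hlim (ν.restrict (K k)) (Measure.absolutelyContinuous_of_le Measure.restrict_le_self |>.trans hνμ)
      (by rw [Measure.restrict_apply_univ]; exact hνK _ (hKc k) (hKΩ k))
    obtain ⟨m, hm⟩ := (h1.eventually (gt_mem_nhds (hη k))).exists
    refine ⟨m, ?_⟩
    rwa [Measure.restrict_apply' (hKc k).measurableSet] at hm
  choose m hm using hmk
  obtain ⟨M, hM⟩ : ∃ M : ℕ, ρ (B M) < ε :=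
    ((hlim ρ hρ (measure_ne_top _ _)).eventually (gt_mem_nhds hε)).exists
  -- the scale
  set h : E → ℝ := fun y => min (min (h₀ y) (1 / ((M : ℝ) + 1)))
    (⨅ k : Option ι, (match k with | none => 1 | some k => if y ∈ K k then 1 / ((m k : ℝ) + 1) else 1)) with hh
  have hbdd : ∀ y, BddBelow (range fun k : Option ι =>
      (match k with | none => 1 | some k => if y ∈ K k then 1 / ((m k : ℝ) + 1) else 1 : ℝ)) := by
    intro y
    refine ⟨0, ?_⟩
    rintro _ ⟨k, rfl⟩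
    rcases k with _ | k
    · simp
    · simp only
      split_ifs <;> positivity
  have hfinK : ∀ N : Set E, IsCompact N → N ⊆ Ω → {k | (K k ∩ N).Nonempty}.Finite := by
    intro N hN hNΩ
    refine (hlf (f '' N) (hN.image_of_continuousOn (hfc.mono hNΩ)) ?_).subset ?_
    · rintro _ ⟨x, hx, rfl⟩; exact hfm (hNΩ hx)
    · rintro k ⟨x, hxK, hxN⟩
      exact ⟨f x, (hmemK k x (hNΩ hxN)).1 hxK, mem_image_of_mem f hxN⟩
  obtain ⟨δ, hδ, hδh⟩ := exists_scale hΩ (h := h) (by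
    intro x hx
    obtain ⟨r₀, hr₀, m₀, hm₀, hm₀b⟩ := hh₀ x hx
    obtain ⟨r₁, hr₁, hr₁Ω⟩ := Metric.nhds_basis_closedBall.mem_iff.1 (hΩ.mem_nhds hx)
    have hfin := hfinK (closedBall x r₁) (isCompact_closedBall _ _) hr₁Ω
    set c : ℝ := (insert M (hfin.toFinset.image m)).inf' (Finset.insert_nonempty _ _)
      (fun n : ℕ => 1 / ((n : ℝ) + 1)) with hc
    have hcpos : 0 < c := by
      rw [hc, Finset.lt_inf'_iff]
      intro n _
      positivity
    have hcM : c ≤ 1 / ((M : ℝ) + 1) := Finset.inf'_le _ (Finset.mem_insert_self _ _)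
    have hc1 : c ≤ 1 := by
      refine hcM.trans ?_
      rw [div_le_one (by positivity)]
      have : (0 : ℝ) ≤ M := Nat.cast_nonneg _
      linarith
    refine ⟨min r₀ r₁, lt_min hr₀ hr₁, min m₀ c, lt_min hm₀ hcpos, fun y hy => ?_⟩
    have hy₀ : y ∈ ball x r₀ := ball_subset_ball (min_le_left _ _) hy
    have hy₁ : y ∈ closedBall x r₁ := ball_subset_closedBall (ball_subset_ball (min_le_right _ _) hy)
    refine le_min (le_min ((min_le_left _ _).trans (hm₀b y hy₀)) ((min_le_right _ _).trans hcM)) ?_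
    refine (min_le_right _ _).trans (le_ciInf fun k => ?_)
    rcases k with _ | k
    · exact hc1
    · simp only
      split_ifs with hk
      · refine Finset.inf'_le _ (Finset.mem_insert_of_mem (Finset.mem_image_of_mem _ ?_))
        exact hfin.mem_toFinset.2 ⟨y, hk, hy₁⟩
      · exact hc1)
  have hδK : ∀ k, ∀ x ∈ Ω, x ∈ K k → δ x ≤ 1 / ((m k : ℝ) + 1) := by
    intro k x hx hxK
    refine (hδh x hx).trans ((min_le_right _ _).trans ?_)
    refine (ciInf_le (hbdd x) (some k)).trans ?_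
    simp only
    rw [if_pos hxK]
  have hδM : ∀ x ∈ Ω, δ x ≤ 1 / ((M : ℝ) + 1) := fun x hx =>
    (hδh x hx).trans ((min_le_left _ _).trans (min_le_right _ _))
  have hbadK : ∀ k, Bad Ω B δ ∩ K k ⊆ B (m k) ∩ K k := fun k x hx =>
    ⟨hx.1.2 (m k) (hδK k x hx.1.1 hx.2), hx.2⟩
  have hbadM : Bad Ω B δ ⊆ B M := fun x hx => hx.2 M (hδM x hx.1)
  refine ⟨δ, hδ, fun x hx => (hδh x hx).trans ((min_le_left _ _).trans (min_le_left _ _)),
    (measure_mono hbadM).trans_lt hM, fun k => ?_⟩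
  refine lt_of_le_of_lt ?_ (hm k)
  refine le_trans (measure_mono ?_) (hνle (B (m k) ∩ K k))
  rintro _ ⟨⟨x, hx, rfl⟩, hxk⟩
  have hxK : x ∈ K k := (hmemK k x hx.1).2 hxk
  exact ⟨x, ⟨hbadK k ⟨hx, hxK⟩, hx.1⟩, rfl⟩

/-- a locally finite family of balls of the size of a given scale. -/
theorem exists_balls {L : Set V} {w : V → ℝ} (hw : Scale L w) :
    ∃ S : Set V, S ⊆ L ∧ S.Countable ∧ (∀ z ∈ L, ∃ x ∈ S, ‖z - x‖ ≤ w z) ∧
      (∀ x ∈ S, closedBall x (3 * w x) ⊆ L) ∧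
      ∀ K : Set V, IsCompact K → K ⊆ L → {x : V | x ∈ S ∧ (closedBall x (3 * w x) ∩ K).Nonempty}.Finite := by
  have : ProperSpace V := FiniteDimensional.proper_real V
  obtain ⟨S, hSL, hSc, hSnet, hSfin⟩ := exists_net' hw
  refine ⟨S, hSL, hSc, hSnet, ?_, ?_⟩
  · intro x hx y hy
    apply hw.mem (hSL hx)
    rw [mem_closedBall, dist_eq_norm] at hy
    have := hw.pos x (hSL hx)
    linarith
  intro K hK hKL
  set K' : Set V := (fun q : V × V => q.1 + (24 / 5 * w q.1) • q.2) '' (K ×ˢ closedBall 0 1) with hK'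
  have hK'c : IsCompact K' := by
    apply (hK.prod (isCompact_closedBall 0 1)).image
    have := hw.cont
    fun_prop
  have hK'L : K' ⊆ L := by
    rintro _ ⟨⟨x, u⟩, ⟨hx, hu⟩, rfl⟩
    apply hw.mem (hKL hx)
    have h1 : ‖u‖ ≤ 1 := by simpa using hu
    have h2 := hw.pos x (hKL hx)
    simp only [add_sub_cancel_left]
    rw [norm_smul, Real.norm_of_nonneg (by positivity)]
    nlinarith
  have hSK' : (S ∩ K').Finite := by
    obtain ⟨t, htK, htf⟩ := hK'c.elim_nhds_subcover (fun x => closedBall x (w x))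
      (fun x hx => closedBall_mem_nhds x (hw.pos x (hK'L hx)))
    have : S ∩ K' ⊆ ⋃ x ∈ t, (S ∩ closedBall x (w x)) := by
      rintro x ⟨hxS, hxK⟩
      obtain ⟨y, hy⟩ := mem_iUnion.1 (htf hxK)
      obtain ⟨hyt, hxy⟩ := mem_iUnion.1 hy
      exact mem_iUnion.2 ⟨y, mem_iUnion.2 ⟨hyt, hxS, hxy⟩⟩
    exact (t.finite_toSet.biUnion fun x hx => hSfin x (hK'L (htK x hx))).subset this
  refine hSK'.subset ?_
  rintro x ⟨hxS, y, hyx, hyK⟩
  refine ⟨hxS, ⟨(y, (24 / 5 * w y)⁻¹ • (x - y)), ⟨hyK, ?_⟩, ?_⟩⟩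
  · have h2 := hw.pos y (hKL hyK)
    have h3 := hw.lip x y
    rw [mem_closedBall, dist_eq_norm, norm_sub_rev] at hyx
    rw [mem_closedBall, dist_zero_right, norm_smul, norm_inv, Real.norm_of_nonneg (by positivity),
      inv_mul_le_iff₀ (by positivity)]
    linarith
  · have h2 := hw.pos y (hKL hyK)
    simp only
    rw [smul_smul, mul_inv_cancel₀ (by positivity), one_smul, add_sub_cancel]

/-- density form of the smallness in the balls of a family. -/
theorem density_of_balls [Nontrivial V] {L : Set V} {w : V → ℝ} (hw : Scale L w) {S : Set V}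
    (hSL : S ⊆ L) (hSnet : ∀ z ∈ L, ∃ x ∈ S, ‖z - x‖ ≤ w z) {η : ℝ} (hη : 0 < η) {A : Set V}
    (hA : ∀ x ∈ S, volume (A ∩ closedBall x (3 * w x)) ≤
      ENNReal.ofReal (η * (volume : Measure V).real (ball x (w x / 2)))) :
    ∀ y ∈ L, (volume : Measure V).real (A ∩ ball y (w y)) ≤
      η * (volume : Measure V).real (ball y (w y)) := by
  intro y hy
  obtain ⟨x, hxS, hxy⟩ := hSnet y hy
  have hwx := hw.pos x (hSL hxS)
  have hwy := hw.pos y hy
  have h1 := hw.lip x y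
  have h2 := hw.lip y x
  rw [norm_sub_rev] at h1
  have h3 : A ∩ ball y (w y) ⊆ A ∩ closedBall x (3 * w x) := by
    apply inter_subset_inter_right
    intro z hz
    rw [mem_ball, dist_eq_norm] at hz
    rw [mem_closedBall, dist_eq_norm]
    have := norm_add_le (z - y) (y - x)
    rw [sub_add_sub_cancel] at this
    linarith
  have h4 : (volume : Measure V).real (A ∩ ball y (w y)) ≤
      η * (volume : Measure V).real (ball x (w x / 2)) := by
    rw [Measure.real]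
    refine ENNReal.toReal_le_of_le_ofReal (by positivity) ((measure_mono h3).trans (hA x hxS))
  refine h4.trans ?_
  have h5 : (volume : Measure V).real (ball x (w x / 2)) ≤ (volume : Measure V).real (ball y (w y)) := by
    have e1 : (volume : Measure V).real (ball x (w x / 2)) = (volume : Measure V).real (ball y (w x / 2)) := by
      rw [Measure.real, Measure.real, Measure.addHaar_ball_center, Measure.addHaar_ball_center volume y]
    rw [e1]
    apply measureReal_mono (ball_subset_ball (by linarith)) measure_ball_lt_top.ne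
  gcongr

end Crest.Agent.R096.Sel_766
end

-- ▼ part R096/Sel2_766

/-!
Row 96 (S0127), helper766.  **SEL**: the set `EE` of the points with controlled singular values which
are good at all scales `< δ`; its image has density close to `1` in all balls of a given scale.
-/

set_option autoImplicit false
set_option linter.unusedSectionVars false
set_option linter.style.longLine false
set_option linter.style.haveILetI false
set_option linter.unusedVariables false

namespace Crest.Agent.R096.Sel_766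

open MeasureTheory Set Filter Topology Metric
open scoped ENNReal NNReal RealInnerProductSpace
open Crest.AnalysisR.VecCalc3 Crest.AnalysisR.Sobolev
open Crest.Agent.R096.Osc_802 Crest.Agent.R096.LusN_766 Crest.Agent.R096.VolC_766
open Crest.Agent.R096.VolC2_766 Crest.Agent.R096.VolC3_766 Crest.Agent.R96.Lu_538
open Crest.Agent.R096.ThC6_766

/-- linear maps with singular values in `[m, 1/m]`. -/
def LM (m : ℝ) : Set (R3 →L[ℝ] R3) := {A | ∀ v, m * ‖v‖ ≤ ‖A v‖ ∧ m * ‖A v‖ ≤ ‖v‖}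

lemma isClosed_LM (m : ℝ) : IsClosed (LM m) := by
  have h1 : LM m = ⋂ v : R3, ({A : R3 →L[ℝ] R3 | m * ‖v‖ ≤ ‖A v‖} ∩ {A | m * ‖A v‖ ≤ ‖v‖}) := by
    ext A
    simp only [LM, mem_ofPred_eq, mem_iInter, mem_inter_iff]
  rw [h1]
  refine isClosed_iInter fun v => IsClosed.inter ?_ ?_
  · exact isClosed_le continuous_const (by fun_prop)
  · exact isClosed_le (by fun_prop) continuous_const

lemma LM_mono {m m' : ℝ} (h : m ≤ m') : LM m' ⊆ LM m := by
  intro A hA v
  have h1 := hA v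
  have h2 := norm_nonneg v
  have h3 := norm_nonneg (A v)
  constructor <;> nlinarith

lemma exists_LM {A : R3 →L[ℝ] R3} (hA : A.det ≠ 0) : ∃ n : ℕ, A ∈ LM (1 / ((n : ℝ) + 1)) := by
  set B := A.toContinuousLinearEquivOfDetNeZero hA with hB
  obtain ⟨n, hn⟩ := exists_nat_ge (max ‖A‖ ‖(B.symm : R3 →L[ℝ] R3)‖)
  refine ⟨n, fun v => ?_⟩
  have h1 := A.le_opNorm v
  have h2 := (B.symm : R3 →L[ℝ] R3).le_opNorm (A v)
  have h3 : (B.symm : R3 →L[ℝ] R3) (A v) = v := by
    have : A v = B v := by rw [hB, ContinuousLinearMap.toContinuousLinearEquivOfDetNeZero_apply]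
    rw [this]
    exact B.symm_apply_apply v
  rw [h3] at h2
  have h4 : ‖A‖ ≤ n := (le_max_left _ _).trans hn
  have h5 : ‖(B.symm : R3 →L[ℝ] R3)‖ ≤ n := (le_max_right _ _).trans hn
  have h6 := norm_nonneg v
  have h7 := norm_nonneg (A v)
  constructor
  · rw [one_div, inv_mul_le_iff₀ (by positivity)]
    nlinarith
  · rw [one_div, inv_mul_le_iff₀ (by positivity)]
    nlinarith

/-- regular points with singular values outside `[m, 1/m]`. -/
def BS (Ω : Set R3) (G : Fin 3 → R3 → R3) (m : ℝ) : Set R3 :=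
  {x | x ∈ Ω ∧ (Gmat G x).det ≠ 0 ∧ Gmat G x ∉ LM m}

lemma measurable_BS {Ω : Set R3} (hΩ : IsOpen Ω) {G : Fin 3 → R3 → R3} (hG : ∀ j, Measurable (G j))
    (m : ℝ) : MeasurableSet (BS Ω G m) := by
  have h1 : BS Ω G m = Ω ∩ ({x | (Gmat G x).det = 0}ᶜ ∩ (Gmat G ⁻¹' LM m)ᶜ) := rfl
  rw [h1]
  refine hΩ.measurableSet.inter (MeasurableSet.inter ?_ ?_)
  · apply MeasurableSet.compl
    have h2 : Measurable fun x => (Gmat G x).det :=
      (ContinuousLinearMap.continuous_det).measurable.comp (measurable_Gmat hG)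
    exact h2 (measurableSet_singleton 0)
  · exact ((measurable_Gmat hG) (isClosed_LM m).measurableSet).compl

lemma nullMeasurable_BS {Ω : Set R3} (hΩ : IsOpen Ω) {G : Fin 3 → R3 → R3}
    (hG : ∀ j, AEStronglyMeasurable (G j) (volume.restrict Ω)) (m : ℝ) :
    NullMeasurableSet (BS Ω G m) volume := by
  set G' : Fin 3 → R3 → R3 := fun j => (hG j).mk (G j) with hG'
  have hG'm : ∀ j, Measurable (G' j) := fun j => (hG j).stronglyMeasurable_mk.measurable
  have hae : ∀ᵐ x, x ∈ Ω → ∀ j, G j x = G' j x := by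
    have h1 : ∀ j, ∀ᵐ x, x ∈ Ω → G j x = G' j x := fun j =>
      (ae_restrict_iff' hΩ.measurableSet).1 (hG j).ae_eq_mk
    filter_upwards [ae_all_iff.2 h1] with x hx hxΩ j
    exact hx j hxΩ
  refine (measurable_BS hΩ hG'm m).nullMeasurableSet.congr ?_
  filter_upwards [hae] with x hx
  apply propext
  by_cases hxΩ : x ∈ Ω
  swap
  · constructor
    · exact fun h => absurd h.1 hxΩ
    · exact fun h => absurd h.1 hxΩ
  have hGx := hx hxΩ
  have e1 : Gmat G' x = Gmat G x := by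
    simp only [Gmat]
    congr 1
    funext j
    exact (hGx j).symm
  constructor
  · rintro ⟨h1, h2, h3⟩
    rw [e1] at h2 h3
    exact ⟨h1, h2, h3⟩
  · rintro ⟨h1, h2, h3⟩
    refine ⟨h1, ?_, ?_⟩
    · rw [e1]; exact h2
    · rw [e1]; exact h3

/-- the good points. -/
def EE (Ω : Set R3) (f : R3 → R3) (G : Fin 3 → R3 → R3) (p : ℝ) (μ κ δ : R3 → ℝ) : Set R3 :=
  {x | x ∈ Ω ∧ Gmat G x ∈ LM (μ x) ∧ ∀ s : ℝ, 0 < s → s < δ x → GoodAt Ω f G p κ x s}

/-- **SEL.** -/
theorem sel {Ω Λ : Set R3} (hΩ : IsOpen Ω) (hΛ : IsOpen Λ)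
    {f : R3 → R3} (hf : IsHomeomorphOn f Ω Λ) {G : Fin 3 → R3 → R3}
    (hG : ∀ j, HasWeakGradOn Ω (fun x => f x j) (G j)) {p : ℝ} (hp : 3 ≤ p)
    (hGp : ∀ j, MemLp (G j) (ENNReal.ofReal p) (volume.restrict Ω))
    {ρ : Measure R3} [IsFiniteMeasure ρ] (hρ : ρ ≪ volume) {ε : ℝ≥0∞} (hε : 0 < ε)
    {w : R3 → ℝ} (hw : Scale Λ w) {η : ℝ} (hη : 0 < η)
    {h₁ : R3 → ℝ} (hh₁ : ∀ x ∈ Ω, ∃ r : ℝ, 0 < r ∧ ∃ m : ℝ, 0 < m ∧ ∀ y ∈ ball x r, m ≤ h₁ y) :
    ∃ μ : R3 → ℝ, Scale Ω μ ∧ (∀ x ∈ Ω, μ x ≤ h₁ x) ∧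
      ρ {x | x ∈ Ω ∧ (Gmat G x).det ≠ 0 ∧ Gmat G x ∉ LM (μ x)} < ε / 2 ∧
      ∀ κ : R3 → ℝ, Measurable κ → (∀ x ∈ Ω, 0 < κ x) →
      ∀ h₀ : R3 → ℝ, (∀ x ∈ Ω, ∃ r : ℝ, 0 < r ∧ ∃ m : ℝ, 0 < m ∧ ∀ y ∈ ball x r, m ≤ h₀ y) →
      ∃ δ : R3 → ℝ, Scale Ω δ ∧ (∀ x ∈ Ω, δ x ≤ h₀ x) ∧
        ρ {x | x ∈ Ω ∧ (Gmat G x).det ≠ 0 ∧ x ∉ EE Ω f G p μ κ δ} < ε ∧
        ∀ y ∈ Λ, (volume : Measure R3).real ((Λ \ f '' EE Ω f G p μ κ δ) ∩ ball y (w y)) ≤
          η * (volume : Measure R3).real (ball y (w y)) := by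
  have hf' := hf
  obtain ⟨g, hfm, hgm, hgf, hfg, hfc, hgc⟩ := hf'
  obtain ⟨S, hSL, hSc, hSnet, hSball, hSlf⟩ := exists_balls hw
  set Q : S → Set R3 := fun k => closedBall (k : R3) (3 * w k) with hQ
  set η₁ : S → ℝ≥0∞ := fun k =>
    ENNReal.ofReal (η * (volume : Measure R3).real (ball (k : R3) (w k / 2))) / 2 with hη₁
  have hlf : ∀ K : Set R3, IsCompact K → K ⊆ Λ → {i | (Q i ∩ K).Nonempty}.Finite := by
    intro K hK hKΛ
    refine Set.Finite.of_finite_image (f := fun k : S => (k : R3)) ((hSlf K hK hKΛ).subset ?_)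
      Subtype.val_injective.injOn
    rintro _ ⟨k, hk, rfl⟩
    exact ⟨k.2, hk⟩
  have hη₁0 : ∀ k, 0 < η₁ k := by
    intro k
    apply ENNReal.div_pos _ (by norm_num)
    rw [ENNReal.ofReal_ne_zero_iff]
    apply mul_pos hη
    rw [Measure.real, ENNReal.toReal_pos_iff]
    exact ⟨measure_ball_pos _ _ (by have := hw.pos k (hSL k.2); positivity), measure_ball_lt_top⟩
  have hLN : ∀ N : Set R3, volume N = 0 → (volume : Measure R3) (f '' (N ∩ Ω)) = 0 :=
    fun N hN => lusinN hΩ hΛ hf hG hp hGp hN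
  have hmono : ∀ m m' : ℕ, m ≤ m' → (1 : ℝ) / ((m' : ℝ) + 1) ≤ 1 / ((m : ℝ) + 1) := by
    intro m m' h
    apply one_div_le_one_div_of_le (by positivity)
    have : (m : ℝ) ≤ m' := by exact_mod_cast h
    linarith
  -- first choice
  set B₁ : ℕ → Set R3 := fun m => BS Ω G (1 / ((m : ℝ) + 1)) with hB₁
  have hB₁a : Antitone B₁ := fun m m' h x hx =>
    ⟨hx.1, hx.2.1, fun h1 => hx.2.2 (LM_mono (hmono m m' h) h1)⟩
  have hB₁0 : volume (⋂ m, B₁ m) = 0 := by
    have : (⋂ m, B₁ m) = ∅ := by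
      rw [eq_empty_iff_forall_notMem]
      intro x hx
      rw [mem_iInter] at hx
      obtain ⟨n, hn⟩ := exists_LM (hx 0).2.1
      exact (hx n).2.2 hn
    rw [this, measure_empty]
  have hε2 : 0 < ε / 2 := ENNReal.half_pos hε.ne'
  obtain ⟨μ, hμ, hμh, hμρ, hμQ⟩ := exists_volsel hΩ hΛ hfm hgm hgf hfg hfc hgc (μ := volume) hLN
    (fun m => nullMeasurable_BS hΩ (fun j => (hGp j).1) _) hB₁a hB₁0 hρ hε2
    hh₁ Q (fun k => isCompact_closedBall _ _) (fun k => hSball k k.2) hlf hη₁0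
  have hbad₁ : {x | x ∈ Ω ∧ (Gmat G x).det ≠ 0 ∧ Gmat G x ∉ LM (μ x)} ⊆ Bad Ω B₁ μ := by
    rintro x ⟨hx, hx0, hx1⟩
    exact ⟨hx, fun m hm => ⟨hx, hx0, fun h => hx1 (LM_mono hm h)⟩⟩
  refine ⟨μ, hμ, hμh, (measure_mono hbad₁).trans_lt hμρ, ?_⟩
  intro κ hκm hκ h₀ hh₀
  -- second choice
  set B : ℕ → Set R3 := fun m => BB Ω f G p κ (1 / ((m : ℝ) + 1)) with hB
  have hBn : ∀ m, NullMeasurableSet (B m) volume := fun m =>
    nullMeasurable_BB hΩ hfc (fun j => (hGp j).1) hκm (by positivity)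
  have hBa : Antitone B := by
    intro m m' hmm x hx
    exact ⟨hx.1, hx.2.1, fun h => hx.2.2 fun s hs hsR => h s hs (hsR.trans_le (hmono m m' hmm))⟩
  have hB0 : volume (⋂ m, B m) = 0 := by
    have h1 := ae_good hΩ hΛ hf hG (p := p) (by linarith) hGp hκ
    refine measure_mono_null (fun x hx => ?_) h1
    rw [mem_iInter] at hx
    intro hcon
    obtain ⟨r₀, hr₀, h2⟩ := hcon (hx 0).1
    obtain ⟨m, hm⟩ := exists_nat_one_div_lt hr₀
    exact (hx m).2.2 fun s hs hsR => h2 s hs (hsR.trans hm)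
  obtain ⟨δ, hδ, hδh, hδρ, hδQ⟩ := exists_volsel hΩ hΛ hfm hgm hgf hfg hfc hgc (μ := volume) hLN
    hBn hBa hB0 hρ hε2 hh₀ Q (fun k => isCompact_closedBall _ _) (fun k => hSball k k.2) hlf hη₁0
  have hbad₂ : BadG Ω f G p κ δ ⊆ Bad Ω B δ := by
    rintro x ⟨hx, hx0, hxb⟩
    exact ⟨hx, fun m hm => ⟨hx, hx0, fun h => hxb fun s hs hsδ => h s hs (hsδ.trans_le hm)⟩⟩
  have hsplit : ∀ x, x ∈ Ω → (Gmat G x).det ≠ 0 → x ∉ EE Ω f G p μ κ δ →
      x ∈ Bad Ω B₁ μ ∪ Bad Ω B δ := by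
    intro x hx hx0 hxE
    by_cases h1 : Gmat G x ∈ LM (μ x)
    · right
      exact hbad₂ ⟨hx, hx0, fun h => hxE ⟨hx, h1, h⟩⟩
    · left
      exact hbad₁ ⟨hx, hx0, h1⟩
  refine ⟨δ, hδ, hδh, ?_, ?_⟩
  · calc ρ {x | x ∈ Ω ∧ (Gmat G x).det ≠ 0 ∧ x ∉ EE Ω f G p μ κ δ}
        ≤ ρ (Bad Ω B₁ μ ∪ Bad Ω B δ) := measure_mono fun x hx => hsplit x hx.1 hx.2.1 hx.2.2
      _ ≤ ρ (Bad Ω B₁ μ) + ρ (Bad Ω B δ) := measure_union_le _ _
      _ < ε / 2 + ε / 2 := ENNReal.add_lt_add hμρ hδρ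
      _ = ε := ENNReal.add_halves ε
  · refine density_of_balls hw hSL hSnet hη fun k hk => ?_
    have hcrit := crit_image_null hΩ hΛ hf hG hp hGp
    have hsub : (Λ \ f '' EE Ω f G p μ κ δ) ∩ closedBall k (3 * w k) ⊆
        f '' ({x | (Gmat G x).det = 0} ∩ Ω) ∪ ((f '' Bad Ω B₁ μ ∩ closedBall k (3 * w k)) ∪
          (f '' Bad Ω B δ ∩ closedBall k (3 * w k))) := by
      rintro y ⟨⟨hyΛ, hyE⟩, hyk⟩
      have hgy := hgm hyΛ
      have hfy := hfg y hyΛ
      by_cases h0 : (Gmat G (g y)).det = 0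
      · exact Or.inl ⟨g y, ⟨h0, hgy⟩, hfy⟩
      · have h1 : g y ∉ EE Ω f G p μ κ δ := fun h => hyE ⟨g y, h, hfy⟩
        rcases hsplit (g y) hgy h0 h1 with h2 | h2
        · exact Or.inr (Or.inl ⟨⟨g y, h2, hfy⟩, hyk⟩)
        · exact Or.inr (Or.inr ⟨⟨g y, h2, hfy⟩, hyk⟩)
    calc volume ((Λ \ f '' EE Ω f G p μ κ δ) ∩ closedBall k (3 * w k))
        ≤ volume (f '' ({x | (Gmat G x).det = 0} ∩ Ω)) +
            (volume (f '' Bad Ω B₁ μ ∩ closedBall k (3 * w k)) +
              volume (f '' Bad Ω B δ ∩ closedBall k (3 * w k))) :=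
          (measure_mono hsub).trans ((measure_union_le _ _).trans (by
            gcongr; exact measure_union_le _ _))
      _ ≤ 0 + (η₁ ⟨k, hk⟩ + η₁ ⟨k, hk⟩) := by
          gcongr
          · exact hcrit.le
          · exact (hμQ ⟨k, hk⟩).le
          · exact (hδQ ⟨k, hk⟩).le
      _ = ENNReal.ofReal (η * (volume : Measure R3).real (ball k (w k / 2))) := by
          rw [zero_add]
          exact ENNReal.add_halves _

end Crest.Agent.R096.Sel_766
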