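import Mathlib
import Crest.Agent.R094.Env

-- ▼ part R096/ThC1_766
section

/-!
Row 96 (S0127), helper766.  Theorem C of #4068, step (1): the semi-discrete mass lemma.
For a finite measure `μ` on `Q`, bounded measurable functions `c j` (`j` in a finite type) and
positive masses `m j` of total mass `μ Q` there are weights `w` such that for every set `J` of
indices the closed Laguerre cells `{c j - w j = max}` with `j ∈ J` cover mass at least `∑_J m j`.
-/

set_option autoImplicit false
set_option linter.unusedSectionVars false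
set_option linter.style.longLine false

namespace Crest.Agent.R096.ThC1_766

open MeasureTheory Set Filter Topology

variable {Q ι : Type*} [MeasurableSpace Q] [Fintype ι] [Nonempty ι]

/-- the maximum `max_j (c j q - w j)`. -/
noncomputable def S (c : ι → Q → ℝ) (w : ι → ℝ) (q : Q) : ℝ :=
  Finset.univ.sup' Finset.univ_nonempty (fun j => c j q - w j)

lemma le_S (c : ι → Q → ℝ) (w : ι → ℝ) (q : Q) (j : ι) : c j q - w j ≤ S c w q :=
  Finset.le_sup' (fun j => c j q - w j) (Finset.mem_univ j)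

lemma S_le {c : ι → Q → ℝ} {w : ι → ℝ} {q : Q} {b : ℝ} (h : ∀ j, c j q - w j ≤ b) : S c w q ≤ b :=
  Finset.sup'_le _ _ (fun j _ => h j)

lemma exists_S (c : ι → Q → ℝ) (w : ι → ℝ) (q : Q) : ∃ j, S c w q = c j q - w j := by
  obtain ⟨j, -, hj⟩ := Finset.exists_mem_eq_sup' Finset.univ_nonempty (fun j => c j q - w j)
  exact ⟨j, hj⟩

lemma S_lip (c : ι → Q → ℝ) (w w' : ι → ℝ) (q : Q) : S c w q ≤ S c w' q + ‖w - w'‖ := by
  refine S_le fun j => ?_
  have h1 := le_S c w' q j
  have h2 : |(w - w') j| ≤ ‖w - w'‖ := by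
    simpa [Real.norm_eq_abs] using norm_le_pi_norm (w - w') j
  have h3 := (abs_le.1 h2).1
  simp only [Pi.sub_apply] at h3
  linarith

lemma S_abs {c : ι → Q → ℝ} {B : ℝ} (hB : ∀ j q, |c j q| ≤ B) (w : ι → ℝ) (q : Q) :
    |S c w q| ≤ B + ‖w‖ := by
  have hw : ∀ j, |w j| ≤ ‖w‖ := fun j => by simpa [Real.norm_eq_abs] using norm_le_pi_norm w j
  rw [abs_le]
  constructor
  · obtain ⟨j⟩ := (inferInstance : Nonempty ι)
    have h1 := le_S c w q j
    have h2 := abs_le.1 (hB j q)
    have h3 := abs_le.1 (hw j)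
    linarith
  · refine S_le fun j => ?_
    have h2 := abs_le.1 (hB j q)
    have h3 := abs_le.1 (hw j)
    linarith

lemma measurable_S {c : ι → Q → ℝ} (hc : ∀ j, Measurable (c j)) (w : ι → ℝ) :
    Measurable (S c w) := by
  have : S c w = Finset.univ.sup' Finset.univ_nonempty (fun j q => c j q - w j) := by
    funext q
    simp [S, Finset.sup'_apply]
  rw [this]
  refine Finset.measurable_sup' _ fun j _ => (hc j).sub_const _

lemma integrable_S {μ : Measure Q} [IsFiniteMeasure μ] {c : ι → Q → ℝ} {B : ℝ}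
    (hc : ∀ j, Measurable (c j)) (hB : ∀ j q, |c j q| ≤ B) (w : ι → ℝ) :
    Integrable (S c w) μ :=
  Integrable.of_bound (measurable_S hc w).aestronglyMeasurable (B + ‖w‖)
    (Eventually.of_forall fun q => by simpa [Real.norm_eq_abs] using S_abs hB w q)

/-- the Kantorovich functional. -/
noncomputable def VV (μ : Measure Q) (c : ι → Q → ℝ) (m w : ι → ℝ) : ℝ :=
  ∫ q, S c w q ∂μ + ∑ j, m j * w j

lemma VV_cont {μ : Measure Q} [IsFiniteMeasure μ] {c : ι → Q → ℝ} {B : ℝ}
    (hc : ∀ j, Measurable (c j)) (hB : ∀ j q, |c j q| ≤ B) (m : ι → ℝ) :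
    Continuous (VV μ c m) := by
  have h1 : LipschitzWith (μ.real univ).toNNReal (fun w : ι → ℝ => ∫ q, S c w q ∂μ) := by
    apply LipschitzWith.of_le_add_mul
    intro w w'
    have h2 : ∫ q, S c w q ∂μ ≤ ∫ q, (S c w' q + ‖w - w'‖) ∂μ :=
      integral_mono (integrable_S hc hB w) ((integrable_S hc hB w').add (integrable_const _))
        (fun q => S_lip c w w' q)
    rw [integral_add (integrable_S hc hB w') (integrable_const _), integral_const] at h2
    rw [Real.coe_toNNReal _ measureReal_nonneg, dist_eq_norm]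
    simpa [smul_eq_mul] using h2
  exact h1.continuous.add (by fun_prop)

lemma VV_shift {μ : Measure Q} [IsFiniteMeasure μ] {c : ι → Q → ℝ} {B : ℝ}
    (hc : ∀ j, Measurable (c j)) (hB : ∀ j q, |c j q| ≤ B) {m : ι → ℝ}
    (hm : ∑ j, m j = μ.real univ) (w : ι → ℝ) (t : ℝ) :
    VV μ c m (fun j => w j + t) = VV μ c m w := by
  have h1 : ∀ q, S c (fun j => w j + t) q = S c w q + -t := by
    intro q
    apply le_antisymm
    · refine S_le fun j => ?_
      have := le_S c w q j
      linarith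
    · obtain ⟨j, hj⟩ := exists_S c w q
      have := le_S c (fun j => w j + t) q j
      rw [hj]
      linarith
  unfold VV
  simp only [h1]
  rw [integral_add (integrable_S hc hB w) (integrable_const _), integral_const]
  have h2 : ∑ j, m j * (w j + t) = ∑ j, m j * w j + μ.real univ * t := by
    simp only [mul_add, Finset.sum_add_distrib, ← Finset.sum_mul, hm]
  rw [h2]
  simp only [smul_eq_mul]
  ring

/-- existence of a global minimiser of the Kantorovich functional. -/
lemma exists_min {μ : Measure Q} [IsFiniteMeasure μ] {c : ι → Q → ℝ} {B : ℝ}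
    (hc : ∀ j, Measurable (c j)) (hB : ∀ j q, |c j q| ≤ B) {m : ι → ℝ} (hmp : ∀ j, 0 < m j)
    (hm : ∑ j, m j = μ.real univ) :
    ∃ w : ι → ℝ, ∀ w', VV μ c m w ≤ VV μ c m w' := by
  obtain ⟨j0, hj0⟩ := Finite.exists_min m
  have hB0 : 0 ≤ B := by
    by_contra hneg
    push Not at hneg
    by_cases hQ : Nonempty Q
    · obtain ⟨q⟩ := hQ
      have := hB j0 q
      linarith [abs_nonneg (c j0 q)]
    · rw [not_nonempty_iff] at hQ
      have h0 : μ.real univ = 0 := by
        rw [Set.univ_eq_empty_iff.2 hQ]; simp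
      have h1 : 0 < ∑ j, m j := Finset.sum_pos (fun j _ => hmp j) Finset.univ_nonempty
      linarith
  set K : ℝ := (2 * B * μ.real univ + 1) / m j0 with hK
  have hμ : 0 ≤ μ.real univ := measureReal_nonneg
  have hK0 : 0 < K := by
    have := hmp j0
    positivity
  obtain ⟨w, hw, hwmin⟩ := (isCompact_Icc (a := (0 : ι → ℝ)) (b := fun _ => K)).exists_isMinOn
    ⟨0, by simp [Pi.le_def, hK0.le]⟩ (VV_cont hc hB m).continuousOn (f := VV μ c m)
  have hV0 : VV μ c m 0 ≤ B * μ.real univ := by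
    unfold VV
    have h1 : ∫ q, S c 0 q ∂μ ≤ ∫ _q, B ∂μ :=
      integral_mono (integrable_S hc hB 0) (integrable_const _) (fun q => S_le fun j => by
        have := (abs_le.1 (hB j q)).2
        simpa using this)
    rw [integral_const, smul_eq_mul] at h1
    simp only [Pi.zero_apply, mul_zero, Finset.sum_const_zero, add_zero]
    linarith
  refine ⟨w, fun w' => ?_⟩
  obtain ⟨i0, hi0⟩ := Finite.exists_min w'
  set w'' : ι → ℝ := fun j => w' j + (- w' i0) with hw''
  have hs : VV μ c m w'' = VV μ c m w' := VV_shift hc hB hm w' (- w' i0)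
  rw [← hs]
  have hnn : ∀ j, 0 ≤ w'' j := fun j => by
    have := hi0 j
    simp only [hw'']
    linarith
  by_cases hbox : ∀ j, w'' j ≤ K
  · exact hwmin (a := w'') ⟨fun j => hnn j, fun j => hbox j⟩
  · push Not at hbox
    obtain ⟨k, hk⟩ := hbox
    have h1 : -B * μ.real univ ≤ ∫ q, S c w'' q ∂μ := by
      have h2 : ∫ _q, (-B) ∂μ ≤ ∫ q, S c w'' q ∂μ :=
        integral_mono (integrable_const _) (integrable_S hc hB w'') (fun q => by
          have h3 := le_S c w'' q i0
          have h4 : w'' i0 = 0 := by simp [hw'']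
          have h5 := (abs_le.1 (hB i0 q)).1
          simp only
          linarith)
      rw [integral_const, smul_eq_mul] at h2
      linarith
    have h6 : m k * w'' k ≤ ∑ j, m j * w'' j :=
      Finset.single_le_sum (f := fun j => m j * w'' j) (fun j _ => mul_nonneg (hmp j).le (hnn j))
        (Finset.mem_univ k)
    have h7 : 2 * B * μ.real univ + 1 ≤ m k * w'' k := by
      have h8 : m j0 * K = 2 * B * μ.real univ + 1 := by
        rw [hK]; field_simp [(hmp j0).ne']
      have h9 : m j0 * K ≤ m k * w'' k :=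
        mul_le_mul (hj0 k) hk.le hK0.le (hmp k).le
      linarith
    have h10 : VV μ c m w ≤ VV μ c m 0 := hwmin (a := 0) (by simp [Pi.le_def, hK0.le])
    have h11 : VV μ c m w'' = ∫ q, S c w'' q ∂μ + ∑ j, m j * w'' j := rfl
    linarith

/-- **semi-discrete mass lemma**, equality of total masses. -/
theorem mass_eq {μ : Measure Q} [IsFiniteMeasure μ] {c : ι → Q → ℝ} {B : ℝ}
    (hc : ∀ j, Measurable (c j)) (hB : ∀ j q, |c j q| ≤ B) {m : ι → ℝ} (hmp : ∀ j, 0 < m j)
    (hm : ∑ j, m j = μ.real univ) :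
    ∃ w : ι → ℝ, ∀ J : Finset ι,
      ∑ j ∈ J, m j ≤ μ.real {q | ∃ j ∈ J, ∀ k, c k q - w k ≤ c j q - w j} := by
  classical
  obtain ⟨w, hw⟩ := exists_min hc hB hmp hm
  refine ⟨w, fun J => ?_⟩
  rcases J.eq_empty_or_nonempty with rfl | hJ
  · simp
  set G : Q → ℝ := fun q => J.sup' hJ (fun j => c j q - w j) with hG
  have hGm : Measurable G := by
    have : G = J.sup' hJ (fun j q => c j q - w j) := by
      funext q
      simp [hG, Finset.sup'_apply]
    rw [this]
    exact Finset.measurable_sup' _ fun j _ => (hc j).sub_const _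
  have hSm := measurable_S hc w
  -- the comparison at scale s
  have key : ∀ s : ℝ, 0 < s → ∑ j ∈ J, m j ≤ μ.real {q | S c w q ≤ G q + s} := by
    intro s hs
    set w' : ι → ℝ := fun j => if j ∈ J then w j - s else w j with hw'
    have hA : MeasurableSet {q | S c w q ≤ G q + s} := measurableSet_le hSm (hGm.add_const _)
    have h1 : ∀ q, S c w' q ≤ S c w q + ({q | S c w q ≤ G q + s}.indicator (fun _ => s)) q := by
      intro q
      by_cases hq : S c w q ≤ G q + s
      · rw [indicator_of_mem (show q ∈ {q | S c w q ≤ G q + s} from hq)]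
        refine S_le fun j => ?_
        have := le_S c w q j
        by_cases hj : j ∈ J
        · simp only [hw', hj, if_true]; linarith
        · simp only [hw', hj, if_false]; linarith
      · rw [indicator_of_notMem (show q ∉ {q | S c w q ≤ G q + s} from hq), add_zero]
        push Not at hq
        refine S_le fun j => ?_
        have := le_S c w q j
        by_cases hj : j ∈ J
        · simp only [hw', hj, if_true]
          have h2 : c j q - w j ≤ G q := Finset.le_sup' (fun j => c j q - w j) hj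
          linarith
        · simp only [hw', hj, if_false]; linarith
    have hind : Integrable ({q | S c w q ≤ G q + s}.indicator (fun _ => s)) μ :=
      (integrable_const s).indicator hA
    have h2 : ∫ q, S c w' q ∂μ ≤ ∫ q, S c w q ∂μ + s * μ.real {q | S c w q ≤ G q + s} := by
      have h3 := integral_mono (μ := μ) (integrable_S hc hB w') ((integrable_S hc hB w).add hind)
        (fun q => h1 q)
      simp only [Pi.add_apply] at h3
      rw [integral_add (integrable_S hc hB w) hind, integral_indicator hA, setIntegral_const,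
        smul_eq_mul] at h3
      linarith
    have h4 : ∑ j, m j * w' j = ∑ j, m j * w j - s * ∑ j ∈ J, m j := by
      have h5 : ∀ j, m j * w' j = m j * w j - (if j ∈ J then s * m j else 0) := by
        intro j
        by_cases hj : j ∈ J
        · simp only [hw', hj, if_true]; ring
        · simp only [hw', hj, if_false]; ring
      simp only [h5, Finset.sum_sub_distrib, Finset.sum_ite_mem, Finset.univ_inter]
      rw [Finset.mul_sum]
    have h6 := hw w'
    unfold VV at h6
    have h7 : s * ∑ j ∈ J, m j ≤ s * μ.real {q | S c w q ≤ G q + s} := by linarith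
    exact le_of_mul_le_mul_left h7 hs
  -- pass to the limit s → 0
  have hset : {q | ∃ j ∈ J, ∀ k, c k q - w k ≤ c j q - w j} = ⋂ n : ℕ, {q | S c w q ≤ G q + 1 / ((n : ℝ) + 1)} := by
    ext q
    simp only [mem_ofPred_eq, mem_iInter]
    constructor
    · rintro ⟨j, hj, hk⟩ n
      have h1 : S c w q ≤ c j q - w j := S_le hk
      have h2 : c j q - w j ≤ G q := Finset.le_sup' (fun j => c j q - w j) hj
      have h3 : 0 < 1 / ((n : ℝ) + 1) := by positivity
      linarith
    · intro h
      have h1 : S c w q ≤ G q := by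
        refine le_of_forall_pos_le_add fun ε hε => ?_
        obtain ⟨n, hn⟩ := exists_nat_one_div_lt hε
        exact (h n).trans (by linarith)
      obtain ⟨j, hj, hj2⟩ := Finset.exists_mem_eq_sup' hJ (fun j => c j q - w j)
      refine ⟨j, hj, fun k => ?_⟩
      have h2 := le_S c w q k
      have h3 : G q = c j q - w j := hj2
      linarith
  rw [hset]
  have hmeas : ∀ n : ℕ, MeasurableSet {q | S c w q ≤ G q + 1 / ((n : ℝ) + 1)} := fun n =>
    measurableSet_le hSm (hGm.add_const _)
  have hanti : Antitone fun n : ℕ => {q | S c w q ≤ G q + 1 / ((n : ℝ) + 1)} := by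
    intro n n' hn q hq
    have h1 : (1 : ℝ) / ((n' : ℝ) + 1) ≤ 1 / ((n : ℝ) + 1) := by
      apply one_div_le_one_div_of_le (by positivity)
      have : (n : ℝ) ≤ n' := by exact_mod_cast hn
      linarith
    simp only [mem_ofPred_eq] at hq ⊢
    linarith
  have hlim := tendsto_measure_iInter_atTop (μ := μ) (fun n => (hmeas n).nullMeasurableSet) hanti
    ⟨0, measure_ne_top μ _⟩
  have hlim2 : Tendsto (fun n : ℕ => μ.real {q | S c w q ≤ G q + 1 / ((n : ℝ) + 1)}) atTop
      (𝓝 (μ.real (⋂ n : ℕ, {q | S c w q ≤ G q + 1 / ((n : ℝ) + 1)}))) :=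
    (ENNReal.tendsto_toReal (measure_ne_top μ _)).comp hlim
  exact ge_of_tendsto' hlim2 fun n => key _ (by positivity)

/-- **semi-discrete mass lemma**, total mass at most the mass of the measure. -/
theorem mass_le {μ : Measure Q} [IsFiniteMeasure μ] {c : ι → Q → ℝ} {B : ℝ}
    (hc : ∀ j, Measurable (c j)) (hB : ∀ j q, |c j q| ≤ B) {m : ι → ℝ} (hmp : ∀ j, 0 < m j)
    (hm : ∑ j, m j ≤ μ.real univ) :
    ∃ w : ι → ℝ, ∀ J : Finset ι,
      ∑ j ∈ J, m j ≤ μ.real {q | ∃ j ∈ J, ∀ k, c k q - w k ≤ c j q - w j} := by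
  have hpos : 0 < ∑ j, m j := Finset.sum_pos (fun j _ => hmp j) Finset.univ_nonempty
  set r : ℝ := μ.real univ / ∑ j, m j with hr
  have hr1 : 1 ≤ r := by rw [hr, le_div_iff₀ hpos]; linarith
  obtain ⟨w, hw⟩ := mass_eq (μ := μ) (m := fun j => r * m j) hc hB
    (fun j => mul_pos (by linarith) (hmp j)) (by
      rw [← Finset.mul_sum, hr]; field_simp)
  refine ⟨w, fun J => (le_trans ?_ (hw J))⟩
  rw [← Finset.mul_sum]
  have : 0 ≤ ∑ j ∈ J, m j := Finset.sum_nonneg fun j _ => (hmp j).le
  nlinarith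

end Crest.Agent.R096.ThC1_766
end

-- ▼ part R096/ThC2_766
section

/-!
Row 96 (S0127), helper766.  Theorem C of #4068, steps (1) and (4): a convex function `phi` with
slopes at most `rho` whose Monge-Ampere mass on small balls of `W` is at least `H` times their
volume; if `H = (3A)^n` then `phi` is nowhere touched from above by a paraboloid of opening `A`.
-/

set_option autoImplicit false
set_option linter.unusedSectionVars false
set_option linter.style.haveILetI false
set_option linter.style.longLine false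

namespace Crest.Agent.R096.ThC2_766

open MeasureTheory Set Filter Topology Metric
open Crest.Agent.R096.ThC1_766

variable {V : Type*} [NormedAddCommGroup V] [InnerProductSpace ℝ V] [FiniteDimensional ℝ V]
  [MeasurableSpace V] [BorelSpace V]

/-- `q` is a subgradient of `phi` at `x`. -/
def Sub (phi : V → ℝ) (x q : V) : Prop := ∀ y, phi x + inner ℝ q (y - x) ≤ phi y

/-- Convex function with prescribed lower bounds for the mass of the subdifferential. -/
theorem exists_phi {ι : Type*} [Fintype ι] [Nonempty ι] {ρ : ℝ} (hρ : 0 < ρ) (u : ι → V)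
    {m : ι → ℝ} (hmp : ∀ j, 0 < m j)
    (hm : ∑ j, m j ≤ (volume : Measure V).real (closedBall 0 ρ)) :
    ∃ phi : V → ℝ, (∀ x, ∃ q, ‖q‖ ≤ ρ ∧ Sub phi x q) ∧
      ∀ J : Finset ι, ∑ j ∈ J, m j ≤
        (volume : Measure V).real {q | ‖q‖ ≤ ρ ∧ ∃ j ∈ J, Sub phi (u j) q} := by
  classical
  set μ : Measure V := (volume : Measure V).restrict (closedBall 0 ρ) with hμ
  have : IsFiniteMeasure μ := ⟨by
    rw [hμ, Measure.restrict_apply_univ]; exact measure_closedBall_lt_top⟩
  set c : ι → V → ℝ := fun j => (closedBall (0 : V) ρ).indicator (fun q => inner ℝ q (u j)) with hc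
  have hcm : ∀ j, Measurable (c j) := fun j => by
    refine Measurable.indicator ?_ isClosed_closedBall.measurableSet
    fun_prop
  obtain ⟨B, hB⟩ : ∃ B : ℝ, ∀ j q, |c j q| ≤ B := by
    refine ⟨ρ * ∑ j, ‖u j‖, fun j q => ?_⟩
    have h1 : ‖u j‖ ≤ ∑ j, ‖u j‖ :=
      Finset.single_le_sum (f := fun j => ‖u j‖) (fun j _ => norm_nonneg _) (Finset.mem_univ j)
    by_cases hq : q ∈ closedBall (0 : V) ρ
    · simp only [hc, indicator_of_mem hq]
      have h2 : ‖q‖ ≤ ρ := by simpa using hq
      calc |inner ℝ q (u j)| ≤ ‖q‖ * ‖u j‖ := abs_real_inner_le_norm _ _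
        _ ≤ ρ * ∑ j, ‖u j‖ := by gcongr
    · simp only [hc, indicator_of_notMem hq, abs_zero]
      have : 0 ≤ ∑ j, ‖u j‖ := (norm_nonneg (u j)).trans h1
      positivity
  have hmu : μ.real univ = (volume : Measure V).real (closedBall 0 ρ) := by
    simp [hμ, Measure.real]
  obtain ⟨w, hw⟩ := mass_le (μ := μ) hcm hB hmp (by rw [hmu]; exact hm)
  -- the convex dual
  set Mq : V → ℝ := fun q => S (fun j q => inner ℝ q (u j)) w q with hMq
  have hMc : Continuous Mq := by
    have : Mq = Finset.univ.sup' Finset.univ_nonempty (fun j (q : V) => inner ℝ q (u j) - w j) := by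
      funext q
      simp [hMq, S, Finset.sup'_apply]
    rw [this]
    exact Continuous.finset_sup' _ fun j _ => by fun_prop
  have hex : ∀ x : V, ∃ q ∈ closedBall (0 : V) ρ, ∀ q' ∈ closedBall (0 : V) ρ,
      inner ℝ q' x - Mq q' ≤ inner ℝ q x - Mq q := by
    intro x
    obtain ⟨q, hq, hmax⟩ := (isCompact_closedBall (0 : V) ρ).exists_isMaxOn
      ⟨0, by simp [hρ.le]⟩ (f := fun q => inner ℝ q x - Mq q) (by fun_prop)
    exact ⟨q, hq, fun q' hq' => hmax hq'⟩
  choose qx hqx hqmax using hex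
  refine ⟨fun x => inner ℝ (qx x) x - Mq (qx x), fun x => ⟨qx x, by simpa using hqx x, fun y => ?_⟩,
    fun J => (hw J).trans ?_⟩
  · have h1 := hqmax y (qx x) (hqx x)
    have h2 : inner ℝ (qx x) (y - x) = inner ℝ (qx x) y - inner ℝ (qx x) x := inner_sub_right _ _ _
    simp only
    linarith
  · have hsub : {q | ∃ j ∈ J, ∀ k, c k q - w k ≤ c j q - w j} ∩ closedBall (0 : V) ρ ⊆
        {q | ‖q‖ ≤ ρ ∧ ∃ j ∈ J, Sub (fun x => inner ℝ (qx x) x - Mq (qx x)) (u j) q} := by
      rintro q ⟨⟨j, hj, hk⟩, hq⟩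
      refine ⟨by simpa using hq, j, hj, fun y => ?_⟩
      simp only
      have h1 := hqmax y q hq
      have h2 : inner ℝ q (y - u j) = inner ℝ q y - inner ℝ q (u j) := inner_sub_right _ _ _
      have h3 : Mq q ≤ inner ℝ q (u j) - w j := by
        refine S_le fun k => ?_
        have := hk k
        simpa only [hc, indicator_of_mem hq] using this
      have h4 : inner ℝ (qx (u j)) (u j) - w j ≤ Mq (qx (u j)) :=
        le_S (fun j q => inner ℝ q (u j)) w (qx (u j)) j
      linarith
    have h5 : μ.real {q | ∃ j ∈ J, ∀ k, c k q - w k ≤ c j q - w j} =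
        (volume : Measure V).real
          ({q | ∃ j ∈ J, ∀ k, c k q - w k ≤ c j q - w j} ∩ closedBall (0 : V) ρ) := by
      rw [hμ, measureReal_restrict_apply' isClosed_closedBall.measurableSet]
    rw [h5]
    refine measureReal_mono hsub ?_
    refine ne_top_of_le_ne_top (measure_closedBall_lt_top (x := (0 : V)) (r := ρ)).ne
      (measure_mono ?_)
    rintro q ⟨hq, -⟩
    simpa using hq

/-- a finite valued measurable map close to the identity on a ball. -/
lemma exists_net (R : ℝ) {h : ℝ} (hh : 0 < h) :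
    ∃ T : V → V, Measurable T ∧ (range T).Finite ∧ ∀ x ∈ closedBall (0 : V) R, dist (T x) x < h := by
  have : ProperSpace V := FiniteDimensional.proper_real V
  set e := TopologicalSpace.denseSeq V with he
  have hcov : closedBall (0 : V) R ⊆ ⋃ k, ball (e k) h := by
    intro x _
    obtain ⟨k, hk⟩ := (TopologicalSpace.denseRange_denseSeq V).exists_dist_lt x hh
    exact mem_iUnion.2 ⟨k, by simpa [mem_ball] using hk⟩
  obtain ⟨t, ht⟩ := (isCompact_closedBall (0 : V) R).elim_finite_subcover _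
    (fun k => isOpen_ball) hcov
  refine ⟨SimpleFunc.nearestPt e (t.sup id), (SimpleFunc.nearestPt e (t.sup id)).measurable,
    (SimpleFunc.nearestPt e (t.sup id)).finite_range, fun x hx => ?_⟩
  obtain ⟨k, hk⟩ := mem_iUnion.1 (ht hx)
  obtain ⟨hkt, hk2⟩ := mem_iUnion.1 hk
  have h1 := SimpleFunc.edist_nearestPt_le e x (k := k) (N := t.sup id)
    (Finset.le_sup (f := id) hkt)
  rw [edist_dist, edist_dist] at h1
  have h2 := (ENNReal.ofReal_le_ofReal_iff dist_nonneg).1 h1
  rw [mem_ball, dist_comm] at hk2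
  exact h2.trans_lt hk2

/-- the convex function with large Monge-Ampere mass in all balls of `W` of radius at least `s`. -/
theorem exists_phi_mass {ρ R s H : ℝ} (hρ : 0 < ρ) (hs : 0 < s) (hH : 0 ≤ H) {W : Set V}
    (hW : MeasurableSet W) (hWR : W ⊆ closedBall 0 R)
    (hvol : H * (volume : Measure V).real W < (volume : Measure V).real (closedBall 0 ρ)) :
    ∃ phi : V → ℝ, (∀ x, ∃ q, ‖q‖ ≤ ρ ∧ Sub phi x q) ∧
      ∀ x0, ball x0 s ⊆ W →
        H * (volume : Measure V).real (ball x0 (3 / 4 * s)) ≤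
          (volume : Measure V).real {q | ‖q‖ ≤ ρ ∧ ∃ x ∈ ball x0 s, Sub phi x q} := by
  classical
  obtain ⟨T, hTm, hTf, hT⟩ := exists_net (V := V) R (h := s / 4) (by positivity)
  set F : Finset V := hTf.toFinset with hF
  have hTF : ∀ x, T x ∈ F := fun x => by simp [hF]
  have : Nonempty F := ⟨⟨T 0, hTF 0⟩⟩
  have hWfin : (volume : Measure V) W ≠ ⊤ :=
    ne_top_of_le_ne_top (measure_closedBall_lt_top (x := (0 : V)) (r := R)).ne (measure_mono hWR)
  set vol : Measure V := volume with hvoldef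
  set P : V → Set V := fun v => W ∩ T ⁻¹' {v} with hP
  have hPm : ∀ v, MeasurableSet (P v) := fun v => hW.inter (hTm (measurableSet_singleton v))
  have hPfin : ∀ v, vol (P v) ≠ ⊤ := fun v => ne_top_of_le_ne_top hWfin (measure_mono inter_subset_left)
  set τ : ℝ := (vol.real (closedBall 0 ρ) - H * vol.real W) / Fintype.card F with hτ
  have hcard : (0 : ℝ) < Fintype.card F := by exact_mod_cast Fintype.card_pos
  have hτ0 : 0 < τ := div_pos (by linarith) hcard
  set m : F → ℝ := fun v => H * vol.real (P v) + τ with hm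
  have hsumP : ∑ v ∈ F, vol.real (P v) ≤ vol.real W := by
    rw [← measureReal_biUnion_finset (μ := vol) (s := F) (f := P) ?_ (fun v _ => hPm v)
      (fun v _ => hPfin v)]
    · exact measureReal_mono (iUnion₂_subset fun v _ => inter_subset_left) hWfin
    · intro v _ v' _ hvv
      refine Set.disjoint_left.2 fun x hx hx' => hvv ?_
      have h1 : T x = v := hx.2
      have h2 : T x = v' := hx'.2
      rw [← h1, ← h2]
  have hmsum : ∑ j, m j ≤ vol.real (closedBall 0 ρ) := by
    have h1 : ∑ j : F, m j = H * ∑ v ∈ F, vol.real (P v) + Fintype.card F * τ := by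
      simp only [hm, Finset.sum_add_distrib, ← Finset.mul_sum, Finset.sum_const, Finset.card_univ,
        nsmul_eq_mul]
      congr 2
      exact Finset.sum_coe_sort F (fun v => vol.real (P v))
    rw [h1]
    have h2 : (Fintype.card F : ℝ) * τ = vol.real (closedBall 0 ρ) - H * vol.real W := by
      rw [hτ]; field_simp
    rw [h2]
    have h3 : H * ∑ v ∈ F, vol.real (P v) ≤ H * vol.real W := by gcongr
    linarith
  obtain ⟨phi, hphi, hmass⟩ := exists_phi (V := V) (ι := F) hρ (fun v => (v : V)) (m := m)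
    (fun v => by
      have : 0 ≤ vol.real (P v) := measureReal_nonneg
      simp only [hm]
      positivity) hmsum
  refine ⟨phi, hphi, fun x0 hx0 => ?_⟩
  set J : Finset F := Finset.univ.filter (fun v => (v : V) ∈ ball x0 s) with hJ
  have h1 := hmass J
  have h2 : vol.real {q | ‖q‖ ≤ ρ ∧ ∃ j ∈ J, Sub phi (j : V) q} ≤
      vol.real {q | ‖q‖ ≤ ρ ∧ ∃ x ∈ ball x0 s, Sub phi x q} := by
    refine measureReal_mono ?_ ?_
    · rintro q ⟨hq, j, hj, hjs⟩
      refine ⟨hq, j, ?_, hjs⟩
      simpa [hJ] using hj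
    · refine ne_top_of_le_ne_top (measure_closedBall_lt_top (x := (0 : V)) (r := ρ)).ne
        (measure_mono ?_)
      rintro q ⟨hq, -⟩
      simpa using hq
  refine le_trans ?_ (h1.trans h2)
  have h3 : vol.real (ball x0 (3 / 4 * s)) ≤ ∑ j ∈ J, vol.real (P (j : V)) := by
    refine le_trans (measureReal_mono (?_ : ball x0 (3 / 4 * s) ⊆ ⋃ j ∈ J, P (j : V)) ?_)
      (measureReal_biUnion_finset_le _ _)
    · intro x hx
      rw [mem_ball] at hx
      have hxs : x ∈ ball x0 s := by rw [mem_ball]; linarith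
      have hxW := hx0 hxs
      have hTx := hT x (hWR hxW)
      have hTs : T x ∈ ball x0 s := by
        rw [mem_ball]
        have := dist_triangle (T x) x x0
        linarith
      simp only [mem_iUnion]
      exact ⟨⟨T x, hTF x⟩, by simp only [hJ, Finset.mem_filter, Finset.mem_univ, true_and]; exact hTs,
        hxW, rfl⟩
    · exact ne_top_of_le_ne_top hWfin (measure_mono (iUnion₂_subset fun v _ => inter_subset_left))
  calc H * vol.real (ball x0 (3 / 4 * s)) ≤ H * ∑ j ∈ J, vol.real (P (j : V)) := by gcongr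
    _ = ∑ j ∈ J, H * vol.real (P (j : V)) := by rw [Finset.mul_sum]
    _ ≤ ∑ j ∈ J, m j := Finset.sum_le_sum fun j _ => by simp only [hm]; linarith

/-- at a point of touching by a paraboloid of opening `1` the subgradients near the point are
confined to a ball of radius `2 s`. -/
lemma sub_confined {phi : V → ℝ} (hphi : ∀ x, ∃ q, Sub phi x q) {x0 p : V} {s A : ℝ} (hs : 0 < s)
    (hA : 0 < A)
    (htouch : ∀ y ∈ closedBall x0 (2 * s),
      phi y ≤ phi x0 + inner ℝ p (y - x0) + A / 2 * ‖y - x0‖ ^ 2)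
    {x q : V} (hx : x ∈ ball x0 s) (hq : Sub phi x q) : q ∈ closedBall p (2 * A * s) := by
  -- the subgradient at x0 is p
  obtain ⟨p', hp'⟩ := hphi x0
  have hpp : p' = p := by
    by_contra hne
    have hn : 0 < ‖p' - p‖ := norm_pos_iff.2 (sub_ne_zero.2 hne)
    set t : ℝ := min (1 / A) (2 * s / ‖p' - p‖) with ht
    have ht0 : 0 < t := lt_min (by positivity) (by positivity)
    have ht1 : A * t ≤ 1 := by
      have : t ≤ 1 / A := min_le_left _ _
      rwa [le_div_iff₀ hA, mul_comm] at this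
    have ht2 : t * ‖p' - p‖ ≤ 2 * s := by
      have : t ≤ 2 * s / ‖p' - p‖ := min_le_right _ _
      rwa [le_div_iff₀ hn] at this
    have h1 := htouch (x0 + t • (p' - p)) (by
      rw [mem_closedBall, dist_eq_norm, add_sub_cancel_left, norm_smul, Real.norm_eq_abs,
        abs_of_pos ht0]
      exact ht2)
    have h2 := hp' (x0 + t • (p' - p))
    rw [add_sub_cancel_left, real_inner_smul_right] at h1 h2
    rw [norm_smul, Real.norm_eq_abs, abs_of_pos ht0] at h1
    have h3 : inner ℝ p' (p' - p) - inner ℝ p (p' - p) = ‖p' - p‖ ^ 2 := by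
      rw [← inner_sub_left, real_inner_self_eq_norm_sq]
    have h4 : t * (inner ℝ p' (p' - p) - inner ℝ p (p' - p)) ≤ A / 2 * (t * ‖p' - p‖) ^ 2 := by
      linarith
    rw [h3] at h4
    have h5 : t * ‖p' - p‖ ^ 2 ≤ t * ‖p' - p‖ ^ 2 / 2 := by
      calc t * ‖p' - p‖ ^ 2 ≤ A / 2 * (t * ‖p' - p‖) ^ 2 := h4
        _ = (A * t) * (t * ‖p' - p‖ ^ 2) / 2 := by ring
        _ ≤ 1 * (t * ‖p' - p‖ ^ 2) / 2 := by gcongr
        _ = t * ‖p' - p‖ ^ 2 / 2 := by ring
    have h6 : 0 < t * ‖p' - p‖ ^ 2 := by positivity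
    linarith
  rw [hpp] at hp'
  rw [mem_closedBall, dist_eq_norm]
  by_cases hqp : q = p
  · rw [hqp, sub_self, norm_zero]; positivity
  have hn : 0 < ‖q - p‖ := norm_pos_iff.2 (sub_ne_zero.2 hqp)
  set v : V := (s / ‖q - p‖) • (q - p) with hv
  have hvn : ‖v‖ = s := by
    rw [hv, norm_smul, Real.norm_eq_abs, abs_of_pos (by positivity)]
    field_simp
  have hxn : ‖x - x0‖ < s := by simpa [mem_ball, dist_eq_norm] using hx
  have hyn : ‖x + v - x0‖ ≤ 2 * s := by
    have : x + v - x0 = (x - x0) + v := by abel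
    rw [this]
    have := norm_add_le (x - x0) v
    linarith
  have h1 := htouch (x + v) (by rw [mem_closedBall, dist_eq_norm]; exact hyn)
  have h2 := hq (x + v)
  have h3 := hp' x
  have h4 : x + v - x = v := by abel
  rw [h4] at h2
  have h5 : inner ℝ p (x + v - x0) = inner ℝ p (x - x0) + inner ℝ p v := by
    rw [← inner_add_right]; congr 1; abel
  rw [h5] at h1
  have h6 : inner ℝ q v - inner ℝ p v = s * ‖q - p‖ := by
    rw [← inner_sub_left, hv, real_inner_smul_right, real_inner_self_eq_norm_sq]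
    field_simp
  have h7 : ‖x + v - x0‖ ^ 2 ≤ (2 * s) ^ 2 := by gcongr
  have h9 : A / 2 * ‖x + v - x0‖ ^ 2 ≤ A / 2 * (2 * s) ^ 2 := by gcongr
  have h8 : s * ‖q - p‖ ≤ s * (2 * A * s) := by nlinarith
  exact le_of_mul_le_mul_left h8 hs

/-- **no touching from above**. -/
theorem no_touch [Nontrivial V] {phi : V → ℝ} {ρ : ℝ} {x0 : V} {s A : ℝ} (hs : 0 < s) (hA : 0 < A)
    (hphi : ∀ x, ∃ q, Sub phi x q)
    (hmass : (3 * A) ^ (Module.finrank ℝ V) * (volume : Measure V).real (ball x0 (3 / 4 * s)) ≤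
          (volume : Measure V).real {q | ‖q‖ ≤ ρ ∧ ∃ x ∈ ball x0 s, Sub phi x q}) (p : V) :
    ¬ ∀ y ∈ closedBall x0 (2 * s), phi y ≤ phi x0 + inner ℝ p (y - x0) + A / 2 * ‖y - x0‖ ^ 2 := by
  intro htouch
  have h1 : (volume : Measure V).real {q | ‖q‖ ≤ ρ ∧ ∃ x ∈ ball x0 s, Sub phi x q} ≤
      (volume : Measure V).real (closedBall p (2 * A * s)) := by
    refine measureReal_mono ?_ measure_closedBall_lt_top.ne
    rintro q ⟨-, x, hx, hq⟩
    exact sub_confined hphi hs hA htouch hx hq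
  have h2 := hmass.trans h1
  rw [← Measure.addHaar_real_closedBall_eq_addHaar_real_ball,
    Measure.addHaar_real_closedBall _ _ (by positivity),
    Measure.addHaar_real_closedBall _ _ (by positivity)] at h2
  have hb : 0 < (volume : Measure V).real (ball (0 : V) 1) := by
    rw [Measure.real, ENNReal.toReal_pos_iff]
    exact ⟨measure_ball_pos _ _ one_pos, measure_ball_lt_top⟩
  have hN : 0 < Module.finrank ℝ V := Module.finrank_pos
  have h3 : (2 * A * s) ^ Module.finrank ℝ V <
      (3 * A) ^ Module.finrank ℝ V * (3 / 4 * s) ^ Module.finrank ℝ V := by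
    rw [← mul_pow]
    apply pow_lt_pow_left₀ _ (by positivity) hN.ne'
    have : 0 < A * s := by positivity
    linarith
  nlinarith

end Crest.Agent.R096.ThC2_766
end

-- ▼ part R096/ThC3_766
section

/-!
Row 96 (S0127), helper766.  Theorem C of #4068, step (3): convex functions of class `C^{1,1}`
(a pair `Phi`, `th` with two sided quadratic bounds) and the convex envelope of `|x|^2/2 + g`
for a `β`-semiconcave function `g`.
-/

set_option autoImplicit false
set_option linter.unusedSectionVars false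
set_option linter.style.haveILetI false
set_option linter.unusedVariables false
set_option linter.style.longLine false

namespace Crest.Agent.R096.ThC3_766

open Set Filter Topology Metric
open Crest.Agent.R094.Env

variable {V : Type*} [NormedAddCommGroup V] [InnerProductSpace ℝ V]

/-- `th` is the gradient of the convex `C^{1,1}` function `Phi` (constant `C`). -/
structure CT (C : ℝ) (Phi : V → ℝ) (th : V → V) : Prop where
  lower : ∀ x y, Phi x + inner ℝ (th x) (y - x) ≤ Phi y
  upper : ∀ x y, Phi y ≤ Phi x + inner ℝ (th x) (y - x) + C / 2 * ‖y - x‖ ^ 2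

lemma eq_zero_of_quad {v : V} {K : ℝ} (h : ∀ z : V, inner ℝ v z ≤ K * ‖z‖ ^ 2) : v = 0 := by
  by_contra hv
  have hn : 0 < ‖v‖ := norm_pos_iff.2 hv
  set t : ℝ := 1 / (|K| + 1) with ht
  have hK : 0 < |K| + 1 := by positivity
  have ht0 : 0 < t := by positivity
  have h1 := h (t • v)
  rw [real_inner_smul_right, real_inner_self_eq_norm_sq, norm_smul, Real.norm_eq_abs,
    abs_of_pos ht0] at h1
  have h2 : K * (t * ‖v‖) ^ 2 ≤ (|K| * t) * (t * ‖v‖ ^ 2) := by
    have : K * (t * ‖v‖) ^ 2 ≤ |K| * (t * ‖v‖) ^ 2 := by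
      gcongr; exact le_abs_self K
    nlinarith
  have h3 : |K| * t < 1 := by
    rw [ht, mul_one_div, div_lt_one hK]; linarith
  have h4 : 0 < t * ‖v‖ ^ 2 := by positivity
  nlinarith

namespace CT

variable {C : ℝ} {Phi : V → ℝ} {th : V → V}

lemma slope_unique (h : CT C Phi th) {x p : V} (hp : ∀ y, Phi x + inner ℝ p (y - x) ≤ Phi y) :
    p = th x := by
  have h1 : ∀ z : V, inner ℝ (p - th x) z ≤ C / 2 * ‖z‖ ^ 2 := by
    intro z
    have h2 := hp (x + z)
    have h3 := h.upper x (x + z)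
    rw [add_sub_cancel_left] at h2 h3
    rw [inner_sub_left]
    linarith
  exact sub_eq_zero.1 (eq_zero_of_quad h1)

/-- cocoercivity (Baillon-Haddad). -/
lemma half (h : CT C Phi th) (hC : 0 < C) (x y : V) :
    Phi x + inner ℝ (th x) (y - x) + ‖th x - th y‖ ^ 2 / (2 * C) ≤ Phi y := by
  set z : V := y + (1 / C) • (th x - th y) with hz
  have h1 := h.lower x z
  have h2 := h.upper y z
  have h3 : z - y = (1 / C) • (th x - th y) := by rw [hz]; abel
  have h4 : z - x = (y - x) + (1 / C) • (th x - th y) := by rw [hz]; abel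
  rw [h4, inner_add_right, real_inner_smul_right] at h1
  rw [h3, real_inner_smul_right, norm_smul, Real.norm_eq_abs, abs_of_pos (by positivity)] at h2
  have h5 : inner ℝ (th x) (th x - th y) - inner ℝ (th y) (th x - th y) = ‖th x - th y‖ ^ 2 := by
    rw [← inner_sub_left, real_inner_self_eq_norm_sq]
  have h6 : C / 2 * (1 / C * ‖th x - th y‖) ^ 2 = ‖th x - th y‖ ^ 2 / (2 * C) := by
    field_simp
  have h7 : 1 / C * (inner ℝ (th x) (th x - th y) - inner ℝ (th y) (th x - th y))
      = ‖th x - th y‖ ^ 2 / (2 * C) + ‖th x - th y‖ ^ 2 / (2 * C) := by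
    rw [h5]; field_simp; ring
  rw [h6] at h2
  linarith

lemma coco (h : CT C Phi th) (hC : 0 < C) (x y : V) :
    ‖th x - th y‖ ^ 2 ≤ C * inner ℝ (th x - th y) (x - y) := by
  have h1 := h.half hC x y
  have h2 := h.half hC y x
  have h3 : ‖th y - th x‖ = ‖th x - th y‖ := norm_sub_rev _ _
  have h4 : inner ℝ (th x - th y) (x - y) = - inner ℝ (th x) (y - x) - inner ℝ (th y) (x - y) := by
    rw [inner_sub_left, ← neg_sub y x, inner_neg_right]
  rw [h3] at h2
  have h5 : ‖th x - th y‖ ^ 2 / (2 * C) + ‖th x - th y‖ ^ 2 / (2 * C) = ‖th x - th y‖ ^ 2 / C := by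
    field_simp; ring
  have h6 : ‖th x - th y‖ ^ 2 / C ≤ inner ℝ (th x - th y) (x - y) := by rw [h4]; linarith
  rw [div_le_iff₀ hC] at h6
  linarith

lemma mono (h : CT C Phi th) (x y : V) : 0 ≤ inner ℝ (th x - th y) (x - y) := by
  have h1 := h.lower x y
  have h2 := h.lower y x
  have h4 : inner ℝ (th x - th y) (x - y) = - inner ℝ (th x) (y - x) - inner ℝ (th y) (x - y) := by
    rw [inner_sub_left, ← neg_sub y x, inner_neg_right]
  rw [h4]; linarith

lemma lip (h : CT C Phi th) (hC : 0 < C) (x y : V) : ‖th x - th y‖ ≤ C * ‖x - y‖ := by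
  have h1 := h.coco hC x y
  have h2 : inner ℝ (th x - th y) (x - y) ≤ ‖th x - th y‖ * ‖x - y‖ := real_inner_le_norm _ _
  by_cases h0 : ‖th x - th y‖ = 0
  · rw [h0]; positivity
  · have hp : 0 < ‖th x - th y‖ := lt_of_le_of_ne (norm_nonneg _) (Ne.symm h0)
    have h3 : ‖th x - th y‖ * ‖th x - th y‖ ≤ ‖th x - th y‖ * (C * ‖x - y‖) := by
      calc ‖th x - th y‖ * ‖th x - th y‖ = ‖th x - th y‖ ^ 2 := by ring
        _ ≤ C * inner ℝ (th x - th y) (x - y) := h1
        _ ≤ C * (‖th x - th y‖ * ‖x - y‖) := by gcongr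
        _ = _ := by ring
    exact le_of_mul_le_mul_left h3 hp

lemma lipschitz (h : CT C Phi th) (hC : 0 < C) : LipschitzWith C.toNNReal th := by
  refine LipschitzWith.of_dist_le_mul fun x y => ?_
  rw [Real.coe_toNNReal _ hC.le, dist_eq_norm, dist_eq_norm]
  exact h.lip hC x y

lemma hasFDerivAt (h : CT C Phi th) (x : V) : HasFDerivAt Phi (innerSL ℝ (th x)) x := by
  rw [hasFDerivAt_iff_isLittleO_nhds_zero]
  have h1 : (fun z => Phi (x + z) - Phi x - (innerSL ℝ (th x)) z) =O[𝓝 0] fun z : V => ‖z‖ ^ 2 := by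
    refine Asymptotics.IsBigO.of_bound (C / 2) (Eventually.of_forall fun z => ?_)
    have h2 := h.lower x (x + z)
    have h3 := h.upper x (x + z)
    rw [add_sub_cancel_left] at h2 h3
    rw [innerSL_apply_apply, Real.norm_eq_abs, abs_le, Real.norm_of_nonneg (by positivity)]
    constructor
    · have : 0 ≤ C / 2 * ‖z‖ ^ 2 := by linarith
      linarith
    · linarith
  refine h1.trans_isLittleO ?_
  have h4 : (fun z : V => ‖z‖ ^ 2) =o[𝓝 0] fun z : V => z := by
    have := Asymptotics.isLittleO_norm_pow_id (E' := V) one_lt_two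
    simpa using this
  exact h4

lemma continuous (h : CT C Phi th) : Continuous Phi :=
  continuous_iff_continuousAt.2 fun x => (h.hasFDerivAt x).continuousAt

lemma convexOn (h : CT C Phi th) : ConvexOn ℝ univ Phi := by
  refine ⟨convex_univ, fun x _ y _ a b ha hb hab => ?_⟩
  have h1 := h.lower (a • x + b • y) x
  have h2 := h.lower (a • x + b • y) y
  have h3 : a * (Phi (a • x + b • y) + inner ℝ (th (a • x + b • y)) (x - (a • x + b • y))) +
      b * (Phi (a • x + b • y) + inner ℝ (th (a • x + b • y)) (y - (a • x + b • y)))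
      = Phi (a • x + b • y) := by
    have h4 : a * inner ℝ (th (a • x + b • y)) (x - (a • x + b • y)) +
      b * inner ℝ (th (a • x + b • y)) (y - (a • x + b • y)) = 0 := by
      rw [← real_inner_smul_right, ← real_inner_smul_right, ← inner_add_right]
      have : a • (x - (a • x + b • y)) + b • (y - (a • x + b • y)) = 0 := by
        have hb' : b = 1 - a := by linarith
        subst hb'
        module
      rw [this, inner_zero_right]
    have h5 : a * Phi (a • x + b • y) + b * Phi (a • x + b • y) = Phi (a • x + b • y) := by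
      rw [← add_mul, hab, one_mul]
    linarith
  simp only [smul_eq_mul]
  have h6 := mul_le_mul_of_nonneg_left h1 ha
  have h7 := mul_le_mul_of_nonneg_left h2 hb
  linarith



/-- the gradient is constant on a segment or hull on which `Phi` is below a supporting affine
function. -/
lemma const_of_le (h : CT C Phi th) {x z : V} (hz : Phi z ≤ Phi x + inner ℝ (th x) (z - x)) :
    th z = th x := by
  symm
  apply h.slope_unique
  intro y
  have h1 := h.lower x y
  have h2 : inner ℝ (th x) (y - z) = inner ℝ (th x) (y - x) - inner ℝ (th x) (z - x) := by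
    rw [← inner_sub_right]; congr 1; abel
  linarith

lemma const_on_hull (h : CT C Phi th) {x : V} {s : Set V}
    (hs : ∀ a ∈ s, Phi a ≤ Phi x + inner ℝ (th x) (a - x)) {z : V} (hz : z ∈ convexHull ℝ s) :
    th z = th x ∧ Phi z = Phi x + inner ℝ (th x) (z - x) := by
  have h1 : Convex ℝ {z | Phi z ≤ Phi x + inner ℝ (th x) (z - x)} := by
    intro a ha b hb t r ht hr htr
    simp only [mem_ofPred_eq] at ha hb ⊢
    have h2 := h.convexOn.2 (mem_univ a) (mem_univ b) ht hr htr
    simp only [smul_eq_mul] at h2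
    have h3 : inner ℝ (th x) (t • a + r • b - x) = t * inner ℝ (th x) (a - x) + r * inner ℝ (th x) (b - x) := by
      rw [← real_inner_smul_right, ← real_inner_smul_right, ← inner_add_right]
      congr 1
      have hr' : r = 1 - t := by linarith
      subst hr'
      module
    rw [h3]
    have h4 := mul_le_mul_of_nonneg_left ha ht
    have h5 := mul_le_mul_of_nonneg_left hb hr
    have h6 : t * Phi x + r * Phi x = Phi x := by rw [← add_mul, htr, one_mul]
    linarith
  have h2 : z ∈ {z | Phi z ≤ Phi x + inner ℝ (th x) (z - x)} := convexHull_min hs h1 hz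
  exact ⟨h.const_of_le h2, le_antisymm h2 (h.lower x z)⟩

/-- `th + δ id` is a homeomorphism with explicit bounds. -/
lemma anti (h : CT C Phi th) {δ : ℝ} (hδ : 0 < δ) (x y : V) :
    δ * ‖x - y‖ ≤ ‖(th x + δ • x) - (th y + δ • y)‖ := by
  have h1 := h.mono x y
  have h2 : inner ℝ ((th x + δ • x) - (th y + δ • y)) (x - y) =
      inner ℝ (th x - th y) (x - y) + δ * ‖x - y‖ ^ 2 := by
    have : (th x + δ • x) - (th y + δ • y) = (th x - th y) + δ • (x - y) := by module
    rw [this, inner_add_left, real_inner_smul_left, real_inner_self_eq_norm_sq]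
  have h3 : inner ℝ ((th x + δ • x) - (th y + δ • y)) (x - y) ≤
      ‖(th x + δ • x) - (th y + δ • y)‖ * ‖x - y‖ := real_inner_le_norm _ _
  by_cases h0 : ‖x - y‖ = 0
  · rw [h0, mul_zero]; exact norm_nonneg _
  · have hp : 0 < ‖x - y‖ := lt_of_le_of_ne (norm_nonneg _) (Ne.symm h0)
    have h4 : (δ * ‖x - y‖) * ‖x - y‖ ≤ ‖(th x + δ • x) - (th y + δ • y)‖ * ‖x - y‖ := by
      nlinarith
    exact le_of_mul_le_mul_right h4 hp



end CT

/-- `β`-semiconcavity (touching paraboloids from above). -/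
def SC (β : ℝ) (g : V → ℝ) : Prop :=
  ∀ x, ∃ p : V, ∀ y, g y ≤ g x + inner ℝ p (y - x) + β / 2 * ‖y - x‖ ^ 2

/-- the contact relation of the envelope. -/
def Contact (g : V → ℝ) (a p : V) : Prop :=
  ∀ y, g a + ‖a‖ ^ 2 / 2 + inner ℝ p (y - a) ≤ g y + ‖y‖ ^ 2 / 2

lemma contact_iff (g : V → ℝ) (a p : V) :
    Contact g a p ↔ ∀ b, g a + ‖a - p‖ ^ 2 / (2 * 1) ≤ g b + ‖b - p‖ ^ 2 / (2 * 1) := by
  have h : ∀ b : V, ‖b - p‖ ^ 2 = ‖b‖ ^ 2 - 2 * inner ℝ p b + ‖p‖ ^ 2 := fun b => by
    rw [norm_sub_sq_real, real_inner_comm]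
  constructor
  · intro h1 b
    have h2 := h1 b
    rw [inner_sub_right] at h2
    rw [h a, h b]; linarith
  · intro h1 b
    have h2 := h1 b
    rw [h a, h b] at h2
    rw [inner_sub_right]; linarith

/-- a semiconcave function is above no paraboloid smaller than the touching one at contacts. -/
lemma contact_upper {g : V → ℝ} {β : ℝ} (hSC : SC β g) {a p : V} (hc : Contact g a p) (w : V) :
    g (a + w) ≤ g a + inner ℝ (p - a) w + β / 2 * ‖w‖ ^ 2 := by
  obtain ⟨q, hq⟩ := hSC a
  have h1 : ∀ z : V, inner ℝ ((p - a) - q) z ≤ ((1 + β) / 2) * ‖z‖ ^ 2 := by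
    intro z
    have h2 := hq (a + z)
    have h3 := hc (a + z)
    rw [add_sub_cancel_left] at h2 h3
    rw [norm_add_sq_real] at h3
    rw [inner_sub_left, inner_sub_left]
    linarith
  have h2 : q = p - a := (sub_eq_zero.1 (eq_zero_of_quad h1)).symm
  have h3 := hq (a + w)
  rw [add_sub_cancel_left, h2] at h3
  exact h3

/-- **the convex envelope of `|x|²/2 + g`**. -/
theorem envelope [FiniteDimensional ℝ V] {g : V → ℝ} {β : ℝ} (hg : Continuous g) (hgs : SubQ g)
    (hSC : SC β g) :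
    ∃ (Phi : V → ℝ) (th : V → V), CT (1 + β) Phi th ∧
      (∀ x, Phi x ≤ g x + ‖x‖ ^ 2 / 2) ∧
      (∀ (p : V) (c : ℝ), (∀ y, inner ℝ p y + c ≤ g y + ‖y‖ ^ 2 / 2) → ∀ x, inner ℝ p x + c ≤ Phi x) ∧
      ∀ x, ∃ (ι : Type) (_ : Fintype ι) (w : ι → ℝ) (a : ι → V),
        (∀ i, 0 < w i) ∧ ∑ i, w i = 1 ∧ ∑ i, w i • a i = x ∧
        ∀ i, Contact g (a i) (th x) ∧ Phi (a i) = g (a i) + ‖a i‖ ^ 2 / 2 ∧
          Phi (a i) = Phi x + inner ℝ (th x) (a i - x) := by
  have hone : (0 : ℝ) < 1 := one_pos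
  have hex := fun x => exists_contact hg hgs hone x
  choose th ι' hι' w a hw0 hw1 hwa hcon henv henv2 using hex
  set Phi : V → ℝ := fun x => Env 1 g x + ‖x‖ ^ 2 / 2 with hPhi
  have hcon' : ∀ x i, Contact g (a x i) (th x) := fun x i => (contact_iff _ _ _).2 (hcon x i)
  have hlow : ∀ x y, Phi x + inner ℝ (th x) (y - x) ≤ Phi y := by
    intro x y
    have h1 := le_Env hgs hone y (th x)
    have h2 := henv2 x
    have h3 : ‖y - th x‖ ^ 2 = ‖y‖ ^ 2 - 2 * inner ℝ (th x) y + ‖th x‖ ^ 2 := by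
      rw [norm_sub_sq_real, real_inner_comm]
    have h4 : ‖x - th x‖ ^ 2 = ‖x‖ ^ 2 - 2 * inner ℝ (th x) x + ‖th x‖ ^ 2 := by
      rw [norm_sub_sq_real, real_inner_comm]
    simp only [hPhi]
    rw [inner_sub_right]
    rw [h3] at h1
    rw [h4] at h2
    linarith
  have hup : ∀ x y, Phi y ≤ Phi x + inner ℝ (th x) (y - x) + (1 + β) / 2 * ‖y - x‖ ^ 2 := by
    intro x y
    set v : V := y - x with hv
    have hy : y = x + v := by rw [hv]; abel
    letI := hι' x
    have h1 : Env 1 g y ≤ ∑ i, w x i * (g (a x i + v) + ‖(a x i + v) - y‖ ^ 2 / (2 * 1)) := by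
      refine Env_le_sum hgs hone (hw0 x) (hw1 x) ?_
      rw [hy]
      simp only [smul_add, Finset.sum_add_distrib, ← Finset.sum_smul, hw1 x, one_smul, hwa x]
    have h2 : ∀ i, g (a x i + v) + ‖(a x i + v) - y‖ ^ 2 / (2 * 1) ≤
        g (a x i) + ‖a x i - x‖ ^ 2 / (2 * 1) + inner ℝ (th x - a x i) v + β / 2 * ‖v‖ ^ 2 := by
      intro i
      have h3 := contact_upper hSC (hcon' x i) v
      have h4 : (a x i + v) - y = a x i - x := by rw [hy]; abel
      rw [h4]; linarith
    have h5 : ∑ i, w x i * (g (a x i + v) + ‖(a x i + v) - y‖ ^ 2 / (2 * 1)) ≤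
        ∑ i, w x i * (g (a x i) + ‖a x i - x‖ ^ 2 / (2 * 1) + inner ℝ (th x - a x i) v + β / 2 * ‖v‖ ^ 2) :=
      Finset.sum_le_sum fun i _ => mul_le_mul_of_nonneg_left (h2 i) (hw0 x i)
    have h6 : ∑ i, w x i * (g (a x i) + ‖a x i - x‖ ^ 2 / (2 * 1) + inner ℝ (th x - a x i) v + β / 2 * ‖v‖ ^ 2)
        = Env 1 g x + inner ℝ (th x - x) v + β / 2 * ‖v‖ ^ 2 := by
      rw [henv x]
      simp only [mul_add, Finset.sum_add_distrib]
      have h7 : ∑ i, w x i * inner ℝ (th x - a x i) v = inner ℝ (th x - x) v := by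
        simp only [← real_inner_smul_left]
        rw [← sum_inner]
        congr 1
        simp only [smul_sub, Finset.sum_sub_distrib, ← Finset.sum_smul, hw1 x, one_smul, hwa x]
      have h8 : ∑ i, w x i * (β / 2 * ‖v‖ ^ 2) = β / 2 * ‖v‖ ^ 2 := by
        rw [← Finset.sum_mul, hw1 x, one_mul]
      rw [h7, h8]
    have h9 : ‖y‖ ^ 2 = ‖x‖ ^ 2 + 2 * inner ℝ x v + ‖v‖ ^ 2 := by rw [hy]; exact norm_add_sq_real x v
    have h10 : inner ℝ (th x - x) v = inner ℝ (th x) v - inner ℝ x v := inner_sub_left _ _ _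
    simp only [hPhi]
    rw [h9]
    linarith
  have hCT : CT (1 + β) Phi th := ⟨hlow, hup⟩
  have hle : ∀ x, Phi x ≤ g x + ‖x‖ ^ 2 / 2 := fun x => by
    simp only [hPhi]
    have := Env_le_self hgs hone x
    linarith
  refine ⟨Phi, th, hCT, hle, ?_, fun x => ?_⟩
  · intro p c hpc x
    have h1 : c - ‖p‖ ^ 2 / 2 + ‖p‖ ^ 2 ≤ Qi 1 g p := by
      refine le_Qi fun b => ?_
      have h2 := hpc b
      have h3 : ‖b - p‖ ^ 2 = ‖b‖ ^ 2 - 2 * inner ℝ p b + ‖p‖ ^ 2 := by
        rw [norm_sub_sq_real, real_inner_comm]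
      rw [h3]; linarith
    have h2 := le_Env hgs hone x p
    have h3 : ‖x - p‖ ^ 2 = ‖x‖ ^ 2 - 2 * inner ℝ p x + ‖p‖ ^ 2 := by
      rw [norm_sub_sq_real, real_inner_comm]
    rw [h3] at h2
    simp only [hPhi]
    linarith
  · letI := hι' x
    -- all terms are contact points, equality of Phi with the affine function
    have hA : ∀ i, Phi (a x i) ≤ g (a x i) + ‖a x i‖ ^ 2 / 2 := fun i => hle _
    have hB : ∀ i, Phi x + inner ℝ (th x) (a x i - x) ≤ Phi (a x i) := fun i => hlow x _
    have hsum : ∑ i, w x i * (g (a x i) + ‖a x i‖ ^ 2 / 2) = Phi x := by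
      simp only [hPhi]
      rw [henv x]
      have h1 : ∀ i, w x i * (g (a x i) + ‖a x i - x‖ ^ 2 / (2 * 1)) =
          w x i * (g (a x i) + ‖a x i‖ ^ 2 / 2) - inner ℝ (w x i • a x i) x + w x i * (‖x‖ ^ 2 / 2) := by
        intro i
        rw [norm_sub_sq_real, real_inner_smul_left]; ring
      simp only [h1, Finset.sum_add_distrib, Finset.sum_sub_distrib]
      rw [← sum_inner, hwa x, ← Finset.sum_mul, hw1 x, real_inner_self_eq_norm_sq]
      ring
    have haff : ∑ i, w x i * (Phi x + inner ℝ (th x) (a x i - x)) = Phi x := by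
      simp only [mul_add, Finset.sum_add_distrib, ← Finset.sum_mul, hw1 x, one_mul]
      have h1 : ∑ i, w x i * inner ℝ (th x) (a x i - x) = 0 := by
        simp only [← real_inner_smul_right]
        rw [← inner_sum]
        simp only [smul_sub, Finset.sum_sub_distrib, ← Finset.sum_smul, hw1 x, one_smul, hwa x,
          sub_self, inner_zero_right]
      rw [h1, add_zero]
    -- g(a)+|a|²/2 equals Phi x + <th, a - x> at contacts
    have hC : ∀ i, g (a x i) + ‖a x i‖ ^ 2 / 2 = Phi x + inner ℝ (th x) (a x i - x) := by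
      intro i
      -- the contact property: g(a_i)+|a_i|²/2 - <th, a_i> is the same minimal value for all i
      have h1 : ∀ j, g (a x j) + ‖a x j‖ ^ 2 / 2 + inner ℝ (th x) (a x i - a x j) =
          g (a x i) + ‖a x i‖ ^ 2 / 2 := by
        intro j
        have h2 := hcon' x j (a x i)
        have h3 := hcon' x i (a x j)
        have h4 : inner ℝ (th x) (a x j - a x i) = - inner ℝ (th x) (a x i - a x j) := by
          rw [← inner_neg_right, neg_sub]
        linarith
      have h5 : ∑ j, w x j * (g (a x j) + ‖a x j‖ ^ 2 / 2) =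
          ∑ j, w x j * (g (a x i) + ‖a x i‖ ^ 2 / 2 - inner ℝ (th x) (a x i - a x j)) := by
        refine Finset.sum_congr rfl fun j _ => ?_
        rw [← h1 j]; ring
      have h6 : ∑ j, w x j * (g (a x i) + ‖a x i‖ ^ 2 / 2 - inner ℝ (th x) (a x i - a x j)) =
          g (a x i) + ‖a x i‖ ^ 2 / 2 - inner ℝ (th x) (a x i - x) := by
        simp only [mul_sub, Finset.sum_sub_distrib, ← Finset.sum_mul, hw1 x, one_mul]
        congr 1
        simp only [← real_inner_smul_right]
        rw [← inner_sum]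
        congr 1
        simp only [smul_sub, Finset.sum_sub_distrib, ← Finset.sum_smul, hw1 x, one_smul, hwa x]
      rw [hsum] at h5
      linarith
    refine ⟨{i // 0 < w x i}, Subtype.fintype _, fun i => w x i, fun i => a x i, fun i => i.2, ?_, ?_,
      fun i => ⟨hcon' x i, ?_, ?_⟩⟩
    · rw [← hw1 x]
      rw [← Finset.sum_subtype (p := fun i => 0 < w x i) (Finset.univ.filter fun i => 0 < w x i)
        (by simp) (fun i => w x i)]
      rw [Finset.sum_filter]
      refine Finset.sum_congr rfl fun i _ => ?_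
      by_cases hi : 0 < w x i
      · rw [if_pos hi]
      · rw [if_neg hi]; exact le_antisymm (hw0 x i) (not_lt.1 hi)
    · refine Eq.trans ?_ (hwa x)
      rw [← Finset.sum_subtype (p := fun i => 0 < w x i) (Finset.univ.filter fun i => 0 < w x i)
        (by simp) (fun i => w x i • a x i)]
      rw [Finset.sum_filter]
      refine Finset.sum_congr rfl fun i _ => ?_
      by_cases hi : 0 < w x i
      · rw [if_pos hi]
      · rw [if_neg hi]
        have : w x i = 0 := le_antisymm (not_lt.1 hi) (hw0 x i)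
        rw [this, zero_smul]
    · have h1 := hA i
      have h2 := hB i
      have h3 := hC i
      linarith
    · have h1 := hA i
      have h2 := hB i
      have h3 := hC i
      linarith

end Crest.Agent.R096.ThC3_766
end

-- ▼ part R096/ThC4_766
section

/-!
Row 96 (S0127), helper766.  **Theorem C of #4068** (bounded version).
-/

set_option autoImplicit false
set_option linter.unusedSectionVars false
set_option linter.style.longLine false
set_option linter.style.haveILetI false
set_option linter.unusedVariables false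

namespace Crest.Agent.R096.ThC4_766

open MeasureTheory Set Filter Topology Metric
open Crest.Agent.R094.Env
open Crest.Agent.R096.ThC2_766
open Crest.Agent.R096.ThC3_766

variable {V : Type*} [NormedAddCommGroup V] [InnerProductSpace ℝ V]

/-- the distance to the complement of the ball `B(c,R)`. -/
noncomputable def dc (c : V) (R : ℝ) (x : V) : ℝ := max (R - ‖x - c‖) 0

lemma dc_nonneg (c : V) (R : ℝ) (x : V) : 0 ≤ dc c R x := le_max_right _ _


lemma dc_cont (c : V) (R : ℝ) : Continuous (dc c R) := by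
  unfold dc; fun_prop

lemma dc_zero {c : V} {R : ℝ} {x : V} (h : R ≤ ‖x - c‖) : dc c R x = 0 :=
  max_eq_right (by linarith)

lemma dc_touch [Nontrivial V] (c : V) {R : ℝ} (hR : 0 ≤ R) (x : V) :
    ∃ a, dc c R x = ‖x - a‖ ∧ ∀ y, dc c R y ≤ ‖y - a‖ := by
  by_cases hx : R ≤ ‖x - c‖
  · refine ⟨x, by rw [dc_zero hx]; simp, fun y => max_le ?_ (norm_nonneg _)⟩
    have : ‖x - c‖ ≤ ‖y - x‖ + ‖y - c‖ := by
      have h1 := norm_sub_le (y - c) (y - x)
      have h2 : (y - c) - (y - x) = x - c := by abel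
      rw [h2] at h1
      linarith
    linarith
  · push Not at hx
    obtain ⟨e, he, hxe⟩ : ∃ e : V, ‖e‖ = 1 ∧ x - c = ‖x - c‖ • e := by
      by_cases h0 : x - c = 0
      · obtain ⟨v, hv⟩ := exists_norm_eq V (zero_le_one (α := ℝ))
        exact ⟨v, hv, by rw [h0]; simp⟩
      · refine ⟨‖x - c‖⁻¹ • (x - c), ?_, ?_⟩
        · rw [norm_smul, norm_inv, norm_norm]
          exact inv_mul_cancel₀ (norm_ne_zero_iff.2 h0)
        · rw [smul_smul, mul_inv_cancel₀ (norm_ne_zero_iff.2 h0), one_smul]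
    refine ⟨c + R • e, ?_, fun y => max_le ?_ (norm_nonneg _)⟩
    · have h1 : x - (c + R • e) = (‖x - c‖ - R) • e := by
        have : x - (c + R • e) = (x - c) - R • e := by abel
        rw [this, sub_smul, ← hxe]
      rw [h1, norm_smul, he, mul_one, Real.norm_eq_abs, abs_of_neg (by linarith)]
      unfold dc
      rw [max_eq_left (by linarith)]
      ring
    · have h1 := norm_add_le (y - (c + R • e)) (c - y)
      have h2 : (y - (c + R • e)) + (c - y) = -(R • e) := by abel
      rw [h2, norm_neg, norm_smul, he, mul_one, Real.norm_eq_abs, abs_of_nonneg hR,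
        norm_sub_rev c y] at h1
      linarith

/-- touching paraboloid of a squared distance. -/
lemma dsq_touch [Nontrivial V] (c : V) {R β : ℝ} (hR : 0 ≤ R) (hβ : 0 ≤ β) (x : V) :
    ∃ p : V, ∀ y, β / 2 * dc c R y ^ 2 ≤
      β / 2 * dc c R x ^ 2 + inner ℝ p (y - x) + β / 2 * ‖y - x‖ ^ 2 := by
  obtain ⟨a, ha, hy⟩ := dc_touch c hR x
  refine ⟨β • (x - a), fun y => ?_⟩
  rw [ha, real_inner_smul_left]
  have h1 : dc c R y ^ 2 ≤ ‖y - a‖ ^ 2 := pow_le_pow_left₀ (dc_nonneg _ _ _) (hy y) 2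
  have h2 : ‖y - a‖ ^ 2 = ‖x - a‖ ^ 2 + 2 * inner ℝ (x - a) (y - x) + ‖y - x‖ ^ 2 := by
    have h3 : y - a = (x - a) + (y - x) := by abel
    rw [h3]; exact norm_add_sq_real _ _
  have h4 : β / 2 * dc c R y ^ 2 ≤ β / 2 * ‖y - a‖ ^ 2 := by gcongr
  rw [h2] at h4
  linarith

lemma phi_bounds {phi : V → ℝ} {ρ : ℝ} (hphi : ∀ x, ∃ q, ‖q‖ ≤ ρ ∧ Sub phi x q) (x y : V) :
    phi x ≤ phi y + ρ * ‖x - y‖ := by
  obtain ⟨q, hq, hs⟩ := hphi x
  have h1 := hs y
  have h2 := (abs_le.1 (abs_real_inner_le_norm q (y - x))).1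
  have h3 : ‖q‖ * ‖y - x‖ ≤ ρ * ‖x - y‖ := by
    rw [norm_sub_rev y x]; gcongr
  linarith

lemma phi_cont {phi : V → ℝ} {ρ : ℝ} (hphi : ∀ x, ∃ q, ‖q‖ ≤ ρ ∧ Sub phi x q) (hρ : 0 ≤ ρ) :
    Continuous phi := by
  have : LipschitzWith ρ.toNNReal phi := by
    apply LipschitzWith.of_le_add_mul
    intro x y
    rw [Real.coe_toNNReal _ hρ, dist_eq_norm]
    exact phi_bounds hphi x y
  exact this.continuous

/-- the semiconcave bump built from `phi` on the ball `B(c,R)`. -/
noncomputable def bump (phi : V → ℝ) (ρ β : ℝ) (c : V) (R : ℝ) (x : V) : ℝ :=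
  min (max (phi c + 2 * ρ * R - phi x) 0) (β / 2 * dc c R x ^ 2)

lemma bump_nonneg (phi : V → ℝ) (ρ : ℝ) {β : ℝ} (hβ : 0 ≤ β) (c : V) (R : ℝ) (x : V) :
    0 ≤ bump phi ρ β c R x := by
  have := dc_nonneg c R x
  exact le_min (le_max_right _ _) (by positivity)

lemma bump_zero {phi : V → ℝ} {ρ β : ℝ} (hβ : 0 ≤ β) {c : V} {R : ℝ} {x : V} (h : R ≤ ‖x - c‖) :
    bump phi ρ β c R x = 0 := by
  apply le_antisymm _ (bump_nonneg phi ρ hβ c R x)
  refine (min_le_right _ _).trans ?_
  rw [dc_zero h]; simp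

lemma bump_cont {phi : V → ℝ} {ρ : ℝ} (hphi : ∀ x, ∃ q, ‖q‖ ≤ ρ ∧ Sub phi x q) (hρ : 0 ≤ ρ)
    (β : ℝ) (c : V) (R : ℝ) : Continuous (bump phi ρ β c R) := by
  have h1 := phi_cont hphi hρ
  have h2 := dc_cont c R
  unfold bump
  fun_prop

lemma bump_le {phi : V → ℝ} {ρ : ℝ} (hphi : ∀ x, ∃ q, ‖q‖ ≤ ρ ∧ Sub phi x q) (hρ : 0 ≤ ρ)
    {β : ℝ} (hβ : 0 ≤ β) (c : V) {R : ℝ} (hR : 0 ≤ R) (x : V) :
    bump phi ρ β c R x ≤ 3 * ρ * R := by
  by_cases hx : R ≤ ‖x - c‖
  · rw [bump_zero hβ hx]; positivity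
  · push Not at hx
    refine (min_le_left _ _).trans (max_le ?_ (by positivity))
    have h1 := phi_bounds hphi c x
    rw [norm_sub_rev] at h1
    have h2 : ρ * ‖x - c‖ ≤ ρ * R := by gcongr
    linarith

lemma bump_SC [Nontrivial V] {phi : V → ℝ} {ρ : ℝ} (hphi : ∀ x, ∃ q, ‖q‖ ≤ ρ ∧ Sub phi x q)
    (hρ : 0 ≤ ρ) {β : ℝ} (hβ : 0 ≤ β) (c : V) {R : ℝ} (hR : 0 ≤ R) (hρR : ρ ≤ β * R / 2) :
    SC β (bump phi ρ β c R) := by
  intro x
  by_cases h : β / 2 * dc c R x ^ 2 ≤ max (phi c + 2 * ρ * R - phi x) 0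
  · obtain ⟨p, hp⟩ := dsq_touch c hR hβ x
    refine ⟨p, fun y => ?_⟩
    have h1 : bump phi ρ β c R x = β / 2 * dc c R x ^ 2 := min_eq_right h
    rw [h1]
    exact (min_le_right _ _).trans (hp y)
  · push Not at h
    have hxR : ‖x - c‖ < R := by
      by_contra hcon
      push Not at hcon
      rw [dc_zero hcon] at h
      have := le_max_right (phi c + 2 * ρ * R - phi x) 0
      simp only [ne_eq, OfNat.ofNat_ne_zero, not_false_eq_true, zero_pow, mul_zero] at h
      linarith
    have hin : ∀ y, ‖y - c‖ ≤ 2 * R → 0 ≤ phi c + 2 * ρ * R - phi y := by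
      intro y hy
      have h1 := phi_bounds hphi y c
      have h2 : ρ * ‖y - c‖ ≤ ρ * (2 * R) := by gcongr
      linarith
    have hx0 : 0 ≤ phi c + 2 * ρ * R - phi x := hin x (by linarith)
    have h1 : bump phi ρ β c R x = phi c + 2 * ρ * R - phi x := by
      unfold bump
      rw [min_eq_left h.le, max_eq_left hx0]
    obtain ⟨q, hq, hs⟩ := hphi x
    refine ⟨-q, fun y => ?_⟩
    rw [h1, inner_neg_left]
    have h2 := hs y
    have h3 : 0 ≤ β / 2 * ‖y - x‖ ^ 2 := by positivity
    refine (min_le_left _ _).trans (max_le (by linarith) ?_)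
    by_cases hy : ‖y - c‖ ≤ 2 * R
    · have := hin y hy
      linarith
    · push Not at hy
      have h4 : R ≤ ‖y - x‖ := by
        have h5 := norm_add_le (y - x) (x - c)
        have h6 : (y - x) + (x - c) = y - c := by abel
        rw [h6] at h5
        linarith
      have h7 := (abs_le.1 (abs_real_inner_le_norm q (y - x))).2
      have h8 : ‖q‖ * ‖y - x‖ ≤ (β * R / 2) * ‖y - x‖ := by gcongr; linarith
      have h9 : (β * R / 2) * ‖y - x‖ ≤ β / 2 * ‖y - x‖ ^ 2 := by
        have : β * R / 2 * ‖y - x‖ ≤ β * ‖y - x‖ / 2 * ‖y - x‖ := by gcongr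
        nlinarith
      linarith

lemma bump_eq {phi : V → ℝ} {ρ : ℝ} (hphi : ∀ x, ∃ q, ‖q‖ ≤ ρ ∧ Sub phi x q)
    (hρ : 0 ≤ ρ) {β : ℝ} {c : V} {r R : ℝ} (hR : 0 ≤ R) (hrR : r ≤ R)
    (hρR : 3 * ρ * R ≤ β / 2 * (R - r) ^ 2) (hβ : 0 ≤ β) {x : V} (hx : ‖x - c‖ ≤ r) :
    bump phi ρ β c R x = phi c + 2 * ρ * R - phi x := by
  have h1 := phi_bounds hphi c x
  have h2 := phi_bounds hphi x c
  rw [norm_sub_rev] at h1
  have h3 : ρ * ‖x - c‖ ≤ ρ * R := by gcongr; linarith
  have h0 : 0 ≤ phi c + 2 * ρ * R - phi x := by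
    have : 0 ≤ ρ * R := by positivity
    linarith
  unfold bump
  rw [max_eq_left h0, min_eq_left]
  have h4 : R - r ≤ dc c R x := (by linarith : R - r ≤ R - ‖x - c‖).trans (le_max_left _ _)
  have h5 : (R - r) ^ 2 ≤ dc c R x ^ 2 := pow_le_pow_left₀ (by linarith) h4 2
  have h6 : β / 2 * (R - r) ^ 2 ≤ β / 2 * dc c R x ^ 2 := by gcongr
  linarith

lemma subQ_of_bounded {f : V → ℝ} {M : ℝ} (h : ∀ x, |f x| ≤ M) : SubQ f := by
  intro ε hε
  refine ⟨M, fun a => (h a).trans ?_⟩
  have : 0 ≤ ε * ‖a‖ ^ 2 := by positivity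
  linarith

/-- a point with a nontrivial contact representation lies inside a segment of the hull. -/
lemma exists_dir {s : Set V} {ι : Type} [Fintype ι] {w : ι → ℝ} {a : ι → V} (hw : ∀ i, 0 < w i)
    (hw1 : ∑ i, w i = 1) {x : V} (hx : ∑ i, w i • a i = x) (ha : ∀ i, a i ∈ s)
    (hne : ∃ i, a i ≠ x) : ∃ v : V, v ≠ 0 ∧ ∀ t ∈ Icc (-1 : ℝ) 1, x + t • v ∈ convexHull ℝ s := by
  classical
  obtain ⟨i0, hi0⟩ := hne
  have hwle : w i0 ≤ 1 := by
    rw [← hw1]
    exact Finset.single_le_sum (f := w) (fun j _ => (hw j).le) (Finset.mem_univ i0)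
  have hmemA : a i0 ∈ convexHull ℝ s := subset_convexHull ℝ s (ha i0)
  have hmemB : x + w i0 • (x - a i0) ∈ convexHull ℝ s := by
    refine mem_convexHull_iff_exists_fintype.2
      ⟨ι, inferInstance, fun i => (1 + w i0) * w i - (if i = i0 then w i0 else 0), a, ?_, ?_, ha, ?_⟩
    · intro i
      by_cases hi : i = i0
      · subst hi; simp only [if_true]; nlinarith [hw i]
      · simp only [hi, if_false, sub_zero]
        have := hw i
        have := hw i0
        positivity
    · simp only [Finset.sum_sub_distrib, ← Finset.mul_sum, hw1, Finset.sum_ite_eq', Finset.mem_univ,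
        if_true]
      ring
    · simp only [sub_smul, Finset.sum_sub_distrib, ite_smul, zero_smul, Finset.sum_ite_eq',
        Finset.mem_univ, if_true, mul_smul, ← Finset.smul_sum, hx]
      module
  refine ⟨w i0 • (a i0 - x), smul_ne_zero (hw i0).ne' (sub_ne_zero.2 hi0), fun t ht => ?_⟩
  have hseg : segment ℝ (a i0) (x + w i0 • (x - a i0)) ⊆ convexHull ℝ s :=
    (convex_convexHull ℝ s).segment_subset hmemA hmemB
  apply hseg
  have hpos : 0 < 1 + w i0 := by have := hw i0; linarith
  refine ⟨(w i0 * (1 + t)) / (1 + w i0), (1 - t * w i0) / (1 + w i0), ?_, ?_, ?_, ?_⟩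
  · have := hw i0
    have : 0 ≤ 1 + t := by linarith [ht.1]
    positivity
  · have h1 : t * w i0 ≤ 1 := by
      have h2 := ht.2
      have := hw i0
      nlinarith
    apply div_nonneg (by linarith) hpos.le
  · field_simp; ring
  · rw [smul_add, smul_smul]
    have hA : (w i0 * (1 + t)) / (1 + w i0) + (1 - t * w i0) / (1 + w i0) = 1 := by
      field_simp; ring
    have hB : (w i0 * (1 + t)) / (1 + w i0) - (1 - t * w i0) / (1 + w i0) * w i0 = t * w i0 := by
      field_simp; ring
    have h3 : ((w i0 * (1 + t)) / (1 + w i0)) • a i0 +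
        (((1 - t * w i0) / (1 + w i0)) • x + ((1 - t * w i0) / (1 + w i0) * w i0) • (x - a i0)) =
        ((w i0 * (1 + t)) / (1 + w i0) + (1 - t * w i0) / (1 + w i0)) • x +
        ((w i0 * (1 + t)) / (1 + w i0) - (1 - t * w i0) / (1 + w i0) * w i0) • (a i0 - x) := by
      module
    rw [h3, hA, hB]
    module

variable [FiniteDimensional ℝ V] [MeasurableSpace V] [BorelSpace V]

/-- The output of Theorem C: `th` is the gradient of the convex `C^{1,1}` function `Phi`, the convex
envelope of `|x|²/2 + g`; there is no contact point in `K`. -/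
structure Collapse (β ε : ℝ) (c : V) (R : ℝ) (K : Set V) (g Phi : V → ℝ) (th : V → V) : Prop where
  cont : Continuous g
  sc : SC β g
  nonneg : ∀ x, 0 ≤ g x
  small : ∀ x, g x ≤ ε ^ 2 / 2
  supp : ∀ x, R ≤ ‖x - c‖ → g x = 0
  ct : CT (1 + β) Phi th
  ge : ∀ x, ‖x‖ ^ 2 / 2 ≤ Phi x
  le : ∀ x, Phi x ≤ g x + ‖x‖ ^ 2 / 2
  outside : ∀ x, R ≤ ‖x - c‖ → th x = x
  near : ∀ x, ‖th x - x‖ ≤ ε
  repr : ∀ x, ∃ (ι : Type) (_ : Fintype ι) (w : ι → ℝ) (a : ι → V),
        (∀ i, 0 < w i) ∧ ∑ i, w i = 1 ∧ ∑ i, w i • a i = x ∧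
        ∀ i, Contact g (a i) (th x) ∧ Phi (a i) = g (a i) + ‖a i‖ ^ 2 / 2 ∧
          Phi (a i) = Phi x + inner ℝ (th x) (a i - x)
  noContact : ∀ x ∈ K, Phi x < g x + ‖x‖ ^ 2 / 2

/-- every point of `K` is the midpoint of a nondegenerate segment on which `th` is constant. -/
theorem Collapse.seg {β ε : ℝ} {c : V} {R : ℝ} {K : Set V} {g Phi : V → ℝ} {th : V → V}
    (h : Collapse β ε c R K g Phi th) {x : V} (hx : x ∈ K) :
    ∃ v : V, v ≠ 0 ∧ ∀ t ∈ Icc (-1 : ℝ) 1, th (x + t • v) = th x := by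
  obtain ⟨ι, hι, w, a, hw, hw1, hwx, hc⟩ := h.repr x
  have hne : ∃ i, a i ≠ x := by
    have : Nonempty ι := by
      by_contra hcon
      rw [not_nonempty_iff] at hcon
      simp at hw1
    obtain ⟨i⟩ := this
    refine ⟨i, fun hi => ?_⟩
    have h1 := (hc i).2.1
    have h2 := h.noContact x hx
    rw [hi] at h1
    linarith
  obtain ⟨v, hv, hvt⟩ := exists_dir hw hw1 hwx (s := range a) (fun i => ⟨i, rfl⟩) hne
  refine ⟨v, hv, fun t ht => (h.ct.const_on_hull (s := range a) ?_ (hvt t ht)).1⟩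
  rintro _ ⟨i, rfl⟩
  exact (hc i).2.2.le


end Crest.Agent.R096.ThC4_766
end

-- ▼ part R096/ThC5_766
section

/-!
Row 96 (S0127), helper766.  Theorem C of #4068 in the non-compact (locally small) form of #6574 (3):
infinite sums of semiconcave bumps.
-/

set_option autoImplicit false
set_option linter.unusedSectionVars false
set_option linter.style.longLine false
set_option linter.style.haveILetI false
set_option linter.unusedVariables false

namespace Crest.Agent.R096.ThC5_766

open MeasureTheory Set Filter Topology Metric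
open Crest.Agent.R094.Env
open Crest.Agent.R096.ThC2_766
open Crest.Agent.R096.ThC3_766
open Crest.Agent.R096.ThC4_766

variable {V : Type*} [NormedAddCommGroup V] [InnerProductSpace ℝ V]

/-- slopes of touching paraboloids of a nonnegative function are small. -/
lemma slope_le {g : V → ℝ} {β m : ℝ} (hβ : 0 ≤ β) (hm : 0 ≤ m) (h0 : ∀ y, 0 ≤ g y) {x p : V}
    (hgm : g x ≤ m) (hp : ∀ y, g y ≤ g x + inner ℝ p (y - x) + β / 2 * ‖y - x‖ ^ 2) :
    ‖p‖ ≤ β + m := by
  by_contra hcon
  push Not at hcon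
  have hpn : 0 < ‖p‖ := by linarith
  rcases hβ.eq_or_lt with hb | hb
  · -- β = 0
    subst hb
    have h1 := hp (x - ((m + 1) / ‖p‖ ^ 2) • p)
    have h2 := h0 (x - ((m + 1) / ‖p‖ ^ 2) • p)
    rw [sub_sub_cancel_left, inner_neg_right, real_inner_smul_right, real_inner_self_eq_norm_sq] at h1
    have h3 : (m + 1) / ‖p‖ ^ 2 * ‖p‖ ^ 2 = m + 1 := by field_simp
    rw [h3] at h1
    linarith
  · have h1 := hp (x - (1 / β) • p)
    have h2 := h0 (x - (1 / β) • p)
    rw [sub_sub_cancel_left, inner_neg_right, real_inner_smul_right, real_inner_self_eq_norm_sq,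
      norm_neg, norm_smul, Real.norm_eq_abs, abs_of_pos (by positivity)] at h1
    have h3 : β / 2 * (1 / β * ‖p‖) ^ 2 = 1 / β * ‖p‖ ^ 2 / 2 := by field_simp
    rw [h3] at h1
    have h4 : 1 / β * ‖p‖ ^ 2 / 2 ≤ m := by linarith
    have h5 : ‖p‖ ^ 2 ≤ 2 * β * m := by
      rw [div_le_iff₀ (by norm_num), one_div, inv_mul_le_iff₀ hb] at h4
      linarith
    nlinarith [sq_nonneg (β - m)]

lemma SC_zero {β : ℝ} (hβ : 0 ≤ β) : SC β (fun _ : V => (0 : ℝ)) := by
  intro x
  refine ⟨0, fun y => ?_⟩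
  rw [inner_zero_left]; positivity

/-- infinite sums of semiconcave functions. -/
lemma SC_tsum [CompleteSpace V] {g : ℕ → V → ℝ} {β m : ℕ → ℝ} (hβ : ∀ k, 0 ≤ β k) (hm : ∀ k, 0 ≤ m k)
    (hβs : Summable β) (hms : Summable m) (h0 : ∀ k y, 0 ≤ g k y) (hgm : ∀ k y, g k y ≤ m k)
    (hSC : ∀ k, SC (β k) (g k)) : SC (∑' k, β k) (fun x => ∑' k, g k x) := by
  intro x
  choose p hp using fun k => hSC k x
  have hpn : ∀ k, ‖p k‖ ≤ β k + m k := fun k => slope_le (hβ k) (hm k) (h0 k) (hgm k x) (hp k)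
  have hps : Summable p := Summable.of_norm_bounded (hβs.add hms) hpn
  have hgs : ∀ y, Summable fun k => g k y := fun y =>
    Summable.of_nonneg_of_le (fun k => h0 k y) (fun k => hgm k y) hms
  refine ⟨∑' k, p k, fun y => ?_⟩
  have hin : HasSum (fun k => inner ℝ (p k) (y - x)) (inner ℝ (∑' k, p k) (y - x)) := by
    have h1 := (hps.hasSum).mapL (innerSL ℝ (y - x))
    simp only [innerSL_apply_apply] at h1
    simpa only [real_inner_comm (y - x)] using h1
  have h2 : HasSum (fun k => g k x + inner ℝ (p k) (y - x) + β k * (‖y - x‖ ^ 2 / 2))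
      (∑' k, g k x + inner ℝ (∑' k, p k) (y - x) + (∑' k, β k) * (‖y - x‖ ^ 2 / 2)) :=
    ((hgs x).hasSum.add hin).add (hβs.hasSum.mul_right _)
  have h3 := hasSum_le (fun k => (by
    have := hp k y
    linarith : g k y ≤ g k x + inner ℝ (p k) (y - x) + β k * (‖y - x‖ ^ 2 / 2))) (hgs y).hasSum h2
  simp only
  linarith

lemma cont_tsum {g : ℕ → V → ℝ} {m : ℕ → ℝ} (hms : Summable m) (h0 : ∀ k y, 0 ≤ g k y)
    (hgm : ∀ k y, g k y ≤ m k) (hc : ∀ k, Continuous (g k)) : Continuous fun x => ∑' k, g k x :=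
  continuous_tsum hc hms fun k y => by
    rw [Real.norm_eq_abs, abs_of_nonneg (h0 k y)]; exact hgm k y

/-- local deviation from the identity. -/
lemma near_id_loc {C : ℝ} {Phi : V → ℝ} {th : V → V} (h : CT C Phi th) {e : V → ℝ}
    (he0 : ∀ x, 0 ≤ e x) (he : ∀ x y, e x ≤ e y + ‖x - y‖ / 2) (h0 : ∀ x, ‖x‖ ^ 2 / 2 ≤ Phi x)
    (h1 : ∀ x, Phi x ≤ ‖x‖ ^ 2 / 2 + e x ^ 2 / 2) (x : V) : ‖th x - x‖ ≤ 2 * e x := by
  set v : V := th x - x with hv
  have h2 := h.lower x (x + v)
  have h3 := h1 (x + v)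
  have h4 := h0 x
  rw [add_sub_cancel_left] at h2
  have h5 : ‖x + v‖ ^ 2 = ‖x‖ ^ 2 + 2 * inner ℝ x v + ‖v‖ ^ 2 := norm_add_sq_real x v
  have h6 : inner ℝ (th x) v = inner ℝ x v + ‖v‖ ^ 2 := by
    have : th x = x + v := by rw [hv]; abel
    rw [this, inner_add_left, real_inner_self_eq_norm_sq]
  have h7 : ‖v‖ ^ 2 ≤ e (x + v) ^ 2 := by linarith
  have h8 : ‖v‖ ≤ e (x + v) := le_of_sq_le_sq h7 (he0 _) |> fun h => h
  have h9 := he (x + v) x
  rw [add_sub_cancel_left] at h9
  linarith


variable [FiniteDimensional ℝ V] [MeasurableSpace V] [BorelSpace V]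

/-- one bump of the family. -/
lemma one_bump [Nontrivial V] {z : V} {r b m : ℝ} (hr : 0 < r) (hb : 0 < b) (hm : 0 < m) :
    ∃ η : ℝ, 0 < η ∧ ∀ W D : Set V, IsOpen W → (volume : Measure V).real (W ∩ ball z (3 / 2 * r)) < η →
      IsClosed D → D ∩ closedBall z r ⊆ W →
      ∃ g : V → ℝ, Continuous g ∧ SC b g ∧ (∀ x, 0 ≤ g x) ∧ (∀ x, g x ≤ m) ∧
        (∀ x, 2 * r ≤ ‖x - z‖ → g x = 0) ∧
        ∀ x ∈ D ∩ closedBall z r, ∃ s : ℝ, 0 < s ∧ ∀ p : V,
          ¬ ∀ y ∈ closedBall x (2 * s), g x + inner ℝ p (y - x) - 2 / 2 * ‖y - x‖ ^ 2 ≤ g y := by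
  set R : ℝ := 2 * r with hR
  have hR0 : 0 < R := by positivity
  set ρ : ℝ := min (b * R / 2) (min (b * (R - 3 / 2 * r) ^ 2 / (6 * R)) (m / (3 * R))) with hρdef
  have hRr : 0 < R - 3 / 2 * r := by rw [hR]; linarith
  have hρ : 0 < ρ := lt_min (by positivity) (lt_min (by positivity) (by positivity))
  have hρ1 : ρ ≤ b * R / 2 := min_le_left _ _
  have hρ2 : 3 * ρ * R ≤ b / 2 * (R - 3 / 2 * r) ^ 2 := by
    have h1 : ρ ≤ b * (R - 3 / 2 * r) ^ 2 / (6 * R) := (min_le_right _ _).trans (min_le_left _ _)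
    rw [le_div_iff₀ (by positivity)] at h1
    linarith
  have hρ3 : 3 * ρ * R ≤ m := by
    have h1 : ρ ≤ m / (3 * R) := (min_le_right _ _).trans (min_le_right _ _)
    rw [le_div_iff₀ (by positivity)] at h1
    linarith
  set N := Module.finrank ℝ V with hN
  have hbv : 0 < (volume : Measure V).real (closedBall (0 : V) ρ) := by
    rw [Measure.real, ENNReal.toReal_pos_iff]
    exact ⟨measure_closedBall_pos _ _ hρ, measure_closedBall_lt_top⟩
  refine ⟨(volume : Measure V).real (closedBall (0 : V) ρ) / (3 * 2) ^ N, by positivity,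
    fun W D hWo hWv hD hDW => ?_⟩
  have hK : IsCompact (D ∩ closedBall z r) := (isCompact_closedBall z r).inter_left hD
  have hW' : IsOpen (W ∩ ball z (3 / 2 * r)) := hWo.inter isOpen_ball
  obtain ⟨δ, hδ, hδW⟩ := hK.exists_cthickening_subset_open hW'
    (subset_inter hDW (inter_subset_right.trans (closedBall_subset_ball (by linarith))))
  set s : ℝ := δ / 2 with hs
  have hs0 : 0 < s := by positivity
  have hballK : ∀ x ∈ D ∩ closedBall z r, closedBall x (2 * s) ⊆ W ∩ ball z (3 / 2 * r) := by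
    intro x hx
    have h1 : 2 * s = δ := by rw [hs]; ring
    rw [h1]
    exact (closedBall_subset_cthickening hx δ).trans hδW
  have hvol : (3 * 2) ^ N * (volume : Measure V).real (W ∩ ball z (3 / 2 * r))
      < (volume : Measure V).real (closedBall 0 ρ) := by
    rw [lt_div_iff₀ (by positivity)] at hWv
    linarith
  obtain ⟨phi, hphi, hmass⟩ := exists_phi_mass (V := V) (R := ‖z‖ + 3 / 2 * r) (s := s)
    (H := (3 * 2) ^ N) hρ hs0 (by positivity) hW'.measurableSet (fun x hx => by
      have hx2 := hx.2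
      rw [mem_ball, dist_eq_norm] at hx2
      rw [mem_closedBall, dist_zero_right]
      have := norm_add_le (x - z) z
      rw [sub_add_cancel] at this
      linarith) hvol
  refine ⟨bump phi ρ b z R, bump_cont hphi hρ.le b z R, bump_SC hphi hρ.le hb.le z hR0.le hρ1,
    bump_nonneg phi ρ hb.le z R, fun x => (bump_le hphi hρ.le hb.le z hR0.le x).trans hρ3,
    fun x hx => bump_zero hb.le hx, fun x hx => ⟨s, hs0, fun p hp => ?_⟩⟩
  have heq : ∀ y ∈ W ∩ ball z (3 / 2 * r), bump phi ρ b z R y = phi z + 2 * ρ * R - phi y := by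
    intro y hy
    have hy2 := hy.2
    rw [mem_ball, dist_eq_norm] at hy2
    exact bump_eq hphi hρ.le hR0.le (r := 3 / 2 * r) (by linarith) hρ2 hb.le hy2.le
  have hxW : x ∈ W ∩ ball z (3 / 2 * r) := hballK x hx (mem_closedBall_self (by positivity))
  refine no_touch hs0 two_pos (fun x => (hphi x).imp fun q hq => hq.2)
      (hmass x ((ball_subset_closedBall.trans (closedBall_subset_closedBall (by linarith))).trans
        (hballK x hx))) (-p) fun y hy => ?_
  have h1 := hp y hy
  rw [heq y (hballK x hx hy), heq x hxW] at h1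
  rw [inner_neg_left]
  linarith


end Crest.Agent.R096.ThC5_766
end

-- ▼ part R096/ThC6_766

/-!
Row 96 (S0127), helper766.  Tools for the PL version of Theorem C: continuity of semiconcave
functions, scale functions of an open set, locally finite nets, generic perturbation of heights.
-/

set_option autoImplicit false
set_option linter.unusedSectionVars false
set_option linter.style.longLine false
set_option linter.style.haveILetI false
set_option linter.unusedVariables false

namespace Crest.Agent.R096.ThC6_766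

open MeasureTheory Set Filter Topology Metric
open Crest.Agent.R096.ThC3_766

variable {V : Type*} [NormedAddCommGroup V] [InnerProductSpace ℝ V]

lemma SC_concave {β : ℝ} {g : V → ℝ} (h : SC β g) :
    ConcaveOn ℝ univ (fun x => g x - β / 2 * ‖x‖ ^ 2) := by
  refine ⟨convex_univ, fun x _ y _ a b ha hb hab => ?_⟩
  obtain ⟨p, hp⟩ := h (a • x + b • y)
  have hn : ∀ u : V, ‖u - (a • x + b • y)‖ ^ 2 =
      ‖u‖ ^ 2 - ‖a • x + b • y‖ ^ 2 - 2 * inner ℝ (a • x + b • y) (u - (a • x + b • y)) := by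
    intro u
    rw [norm_sub_sq_real, inner_sub_right, real_inner_self_eq_norm_sq, real_inner_comm u]
    ring
  have h1 := hp x
  have h2 := hp y
  rw [hn] at h1 h2
  set z := a • x + b • y with hz
  have h3 : a * (inner ℝ p (x - z) - β * inner ℝ z (x - z)) +
      b * (inner ℝ p (y - z) - β * inner ℝ z (y - z)) = 0 := by
    have h4 : ∀ q : V, a * inner ℝ q (x - z) + b * inner ℝ q (y - z) = 0 := by
      intro q
      rw [← real_inner_smul_right, ← real_inner_smul_right, ← inner_add_right]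
      have : a • (x - z) + b • (y - z) = 0 := by
        have hb' : b = 1 - a := by linarith
        rw [hz, hb']
        module
      rw [this, inner_zero_right]
    have h5 := h4 p
    have h6 := h4 z
    linear_combination h5 - β * h6
  simp only [smul_eq_mul]
  have h7 := mul_le_mul_of_nonneg_left h1 ha
  have h8 := mul_le_mul_of_nonneg_left h2 hb
  have h9 : a * (g z - β / 2 * ‖z‖ ^ 2) + b * (g z - β / 2 * ‖z‖ ^ 2) = g z - β / 2 * ‖z‖ ^ 2 := by
    rw [← add_mul, hab, one_mul]
  nlinarith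

lemma SC_continuous [FiniteDimensional ℝ V] {β : ℝ} {g : V → ℝ} (h : SC β g) : Continuous g := by
  have h1 : ContinuousOn (fun x => g x - β / 2 * ‖x‖ ^ 2) univ :=
    (SC_concave h).continuousOn isOpen_univ
  rw [continuousOn_univ] at h1
  have h2 : g = fun x => (g x - β / 2 * ‖x‖ ^ 2) + β / 2 * ‖x‖ ^ 2 := by
    funext x; ring
  rw [h2]
  exact h1.add (by fun_prop)

/-- scale functions of the open set `L`. -/
structure Scale (L : Set V) (w : V → ℝ) : Prop where
  nonneg : ∀ x, 0 ≤ w x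
  lip : ∀ x y, w x ≤ w y + ‖x - y‖ / 8
  pos : ∀ x ∈ L, 0 < w x
  off : ∀ x ∉ L, w x = 0
  le_one : ∀ x, w x ≤ 1

lemma Scale.cont {L : Set V} {w : V → ℝ} (h : Scale L w) : Continuous w := by
  have : LipschitzWith (1 / 8 : ℝ).toNNReal w := by
    apply LipschitzWith.of_le_add_mul
    intro x y
    rw [Real.coe_toNNReal _ (by norm_num), dist_eq_norm]
    have := h.lip x y
    linarith
  exact this.continuous

lemma Scale.mem {L : Set V} {w : V → ℝ} (h : Scale L w) {x y : V} (hx : x ∈ L)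
    (hxy : ‖y - x‖ < 8 * w x) : y ∈ L := by
  by_contra hy
  have h1 := h.lip x y
  rw [h.off y hy, norm_sub_rev] at h1
  linarith

theorem exists_scale {L : Set V} (hL : IsOpen L) {h : V → ℝ}
    (hh : ∀ x ∈ L, ∃ r : ℝ, 0 < r ∧ ∃ m : ℝ, 0 < m ∧ ∀ y ∈ ball x r, m ≤ h y) :
    ∃ w : V → ℝ, Scale L w ∧ ∀ x ∈ L, w x ≤ h x := by
  classical
  set H : V → ℝ := fun y => if y ∈ L then min 1 (h y) else 0 with hH
  have hpos : ∀ y ∈ L, 0 < h y := by
    intro y hy
    obtain ⟨r, hr, m, hm, hb⟩ := hh y hy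
    exact hm.trans_le (hb y (mem_ball_self hr))
  have hH0 : ∀ y, 0 ≤ H y := by
    intro y
    by_cases hy : y ∈ L
    · simp only [hH, hy, if_true]; exact le_min zero_le_one (hpos y hy).le
    · simp [hH, hy]
  have hbdd : ∀ x, BddBelow (range fun y => H y + ‖x - y‖ / 8) := fun x =>
    ⟨0, by rintro _ ⟨y, rfl⟩; have := hH0 y; positivity⟩
  set w : V → ℝ := fun x => ⨅ y, (H y + ‖x - y‖ / 8) with hw
  have hwle : ∀ x y, w x ≤ H y + ‖x - y‖ / 8 := fun x y => ciInf_le (hbdd x) y
  have hlew : ∀ x c, (∀ y, c ≤ H y + ‖x - y‖ / 8) → c ≤ w x := fun x c hc => le_ciInf hc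
  have hself : ∀ x, w x ≤ H x := fun x => by
    have := hwle x x
    simpa using this
  refine ⟨w, ⟨fun x => hlew x 0 fun y => by have := hH0 y; positivity, ?_, ?_, ?_, ?_⟩, ?_⟩
  · intro x y
    have : w x - ‖x - y‖ / 8 ≤ w y := by
      refine hlew y _ fun z => ?_
      have h1 := hwle x z
      have h2 : ‖x - z‖ ≤ ‖x - y‖ + ‖y - z‖ := by
        have := norm_add_le (x - y) (y - z)
        rwa [sub_add_sub_cancel] at this
      linarith
    linarith
  · intro x hx
    obtain ⟨r, hr, m, hm, hb⟩ := hh x hx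
    obtain ⟨r', hr', hrL⟩ := Metric.isOpen_iff.1 hL x hx
    have hlow : min (min 1 m) (min r r' / 8) ≤ w x := by
      refine hlew x _ fun y => ?_
      by_cases hy : ‖x - y‖ < min r r'
      · have hyr : y ∈ ball x r := by
          rw [mem_ball, dist_comm, dist_eq_norm]; exact hy.trans_le (min_le_left _ _)
        have hyL : y ∈ L := hrL (by
          rw [mem_ball, dist_comm, dist_eq_norm]; exact hy.trans_le (min_le_right _ _))
        have h1 : min 1 m ≤ H y := by
          simp only [hH, hyL, if_true]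
          exact min_le_min le_rfl (hb y hyr)
        have h2 : 0 ≤ ‖x - y‖ / 8 := by positivity
        exact (min_le_left _ _).trans (by linarith)
      · push Not at hy
        have := hH0 y
        exact (min_le_right _ _).trans (by linarith)
    exact lt_of_lt_of_le (by positivity) hlow
  · intro x hx
    apply le_antisymm
    · have := hself x
      simpa [hH, hx] using this
    · exact hlew x 0 fun y => by have := hH0 y; positivity
  · intro x
    refine (hself x).trans ?_
    by_cases hx : x ∈ L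
    · simp only [hH, hx, if_true]; exact min_le_left _ _
    · simp [hH, hx]
  · intro x hx
    refine (hself x).trans ?_
    simp only [hH, hx, if_true]; exact min_le_right _ _

/-- a separated bounded subset of a proper space is finite. -/
lemma finite_of_sep [ProperSpace V] {S : Set V} {δ : ℝ} (hδ : 0 < δ)
    (hsep : ∀ x ∈ S, ∀ y ∈ S, x ≠ y → δ ≤ ‖x - y‖) (c : V) (r : ℝ) :
    (S ∩ closedBall c r).Finite := by
  obtain ⟨t, -, htf, ht⟩ := (isCompact_closedBall c r).finite_cover_balls (half_pos hδ)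
  have : S ∩ closedBall c r ⊆ ⋃ y ∈ t, (S ∩ ball y (δ / 2)) := by
    intro x hx
    obtain ⟨y, hy⟩ := mem_iUnion.1 (ht hx.2)
    obtain ⟨hyt, hxy⟩ := mem_iUnion.1 hy
    exact mem_iUnion.2 ⟨y, mem_iUnion.2 ⟨hyt, hx.1, hxy⟩⟩
  refine (htf.biUnion fun y _ => ?_).subset this
  apply Set.Subsingleton.finite
  rintro a ⟨haS, ha⟩ b ⟨hbS, hb⟩
  by_contra hab
  have h1 := hsep a haS b hbS hab
  rw [mem_ball, dist_eq_norm] at ha hb
  have h2 := norm_sub_le (a - y) (b - y)
  have h3 : (a - y) - (b - y) = a - b := by abel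
  rw [h3] at h2
  linarith

/-- locally finite nets of fineness `w`. -/
theorem exists_net' [ProperSpace V] {L : Set V} {w : V → ℝ} (hw : Scale L w) :
    ∃ S : Set V, S ⊆ L ∧ S.Countable ∧ (∀ z ∈ L, ∃ x ∈ S, ‖z - x‖ ≤ w z) ∧
      ∀ z ∈ L, (S ∩ closedBall z (w z)).Finite := by
  set F : Set (Set V) := {S | S ⊆ L ∧ ∀ x ∈ S, ∀ y ∈ S, x ≠ y → w x / 2 ≤ ‖x - y‖} with hF
  obtain ⟨S, hSmax⟩ := zorn_subset F (by
    intro c hc hchain
    refine ⟨⋃₀ c, ⟨?_, ?_⟩, fun s hs => subset_sUnion_of_mem hs⟩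
    · exact sUnion_subset fun s hs => (hc hs).1
    · rintro x ⟨s, hs, hxs⟩ y ⟨t, ht, hyt⟩ hxy
      rcases hchain.total hs ht with h | h
      · exact (hc ht).2 x (h hxs) y hyt hxy
      · exact (hc hs).2 x hxs y (h hyt) hxy)
  have hS : S ∈ F := hSmax.prop
  have hsep : ∀ x ∈ S, ∀ y ∈ S, x ≠ y → w x / 2 ≤ ‖x - y‖ := hS.2
  have hnet : ∀ z ∈ L, ∃ x ∈ S, ‖z - x‖ ≤ w z := by
    intro z hz
    by_contra hcon
    push Not at hcon
    have hzS : z ∉ S := fun h => by
      have := hcon z h
      rw [sub_self, norm_zero] at this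
      exact absurd this (not_lt.2 (hw.nonneg z))
    have hins : insert z S ∈ F := by
      refine ⟨insert_subset hz hS.1, ?_⟩
      intro x hx y hy hxy
      rcases hx with rfl | hx
      · rcases hy with rfl | hy
        · exact absurd rfl hxy
        · have := hcon y hy
          have := hw.nonneg x
          linarith
      · rcases hy with rfl | hy
        · have h1 := hcon x hx
          have h2 := hw.lip x y
          rw [norm_sub_rev] at h1
          have h3 := hw.nonneg y
          linarith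
        · exact hsep x hx y hy hxy
    have := hSmax.eq_of_subset hins (subset_insert z S)
    exact hzS (this ▸ mem_insert z S)
  have hfin : ∀ z ∈ L, (S ∩ closedBall z (w z)).Finite := by
    intro z hz
    have hwz := hw.pos z hz
    have h1 : ((S ∩ closedBall z (w z)) ∩ closedBall z (w z)).Finite := by
      apply finite_of_sep (δ := 7 / 16 * w z) (by positivity)
      rintro x ⟨hx, hxz⟩ y ⟨hy, -⟩ hxy
      have h2 := hsep x hx y hy hxy
      have h3 := hw.lip z x
      rw [mem_closedBall, dist_eq_norm] at hxz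
      rw [norm_sub_rev] at h3
      linarith
    rwa [inter_assoc, inter_self] at h1
  refine ⟨S, hS.1, ?_, hnet, hfin⟩
  -- countability
  have hcover : ∀ x : L, ∃ U : Set V, IsOpen U ∧ (x : V) ∈ U ∧ (S ∩ U).Finite := fun x =>
    ⟨ball (x : V) (w x), isOpen_ball, mem_ball_self (hw.pos x x.2),
      (hfin x x.2).subset (inter_subset_inter_right _ ball_subset_closedBall)⟩
  choose U hUo hUx hUf using hcover
  obtain ⟨T, hT, hTU⟩ := TopologicalSpace.isOpen_iUnion_countable U hUo
  have : S ⊆ ⋃ i ∈ T, (S ∩ U i) := by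
    intro x hx
    have h2 : x ∈ ⋃ i : L, U i := mem_iUnion.2 ⟨⟨x, hS.1 hx⟩, hUx _⟩
    rw [← hTU] at h2
    obtain ⟨i, hi⟩ := mem_iUnion.1 h2
    obtain ⟨hiT, hxi⟩ := mem_iUnion.1 hi
    exact mem_iUnion.2 ⟨i, mem_iUnion.2 ⟨hiT, hx, hxi⟩⟩
  exact (hT.biUnion fun i _ => (hUf i).countable).mono this

/-! ### generic heights -/

/-- affine independence of a finite set of indices, in weight form. -/
def AI {ι : Type*} (a : ι → V) (I : Finset ι) : Prop :=
  ∀ w : ι → ℝ, ∑ i ∈ I, w i = 0 → ∑ i ∈ I, w i • a i = 0 → ∀ i ∈ I, w i = 0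

lemma step_avoid (a : ℕ → V) (n : ℕ) (c : ℕ → ℝ) {lo room : ℝ} (hroom : 0 < room) :
    ∃ v : ℝ, lo ≤ v ∧ v ≤ lo + room ∧ ∀ I : Finset ℕ, I ⊆ Finset.range n → AI a I →
      ∀ w : ℕ → ℝ, ∑ i ∈ I, w i = 1 → ∑ i ∈ I, w i • a i = a n → v ≠ ∑ i ∈ I, w i * c i := by
  set E : Set ℝ := ⋃ I ∈ (Finset.range n).powerset, {v | AI a I ∧ ∃ w : ℕ → ℝ, ∑ i ∈ I, w i = 1 ∧
    ∑ i ∈ I, w i • a i = a n ∧ v = ∑ i ∈ I, w i * c i} with hE
  have hEf : E.Finite := by
    refine (Finset.finite_toSet (Finset.range n).powerset).biUnion fun I _ => ?_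
    apply Set.Subsingleton.finite
    rintro v ⟨hI, w, hw1, hw2, rfl⟩ v' ⟨-, w', hw1', hw2', rfl⟩
    have h1 := hI (fun i => w i - w' i) (by rw [Finset.sum_sub_distrib, hw1, hw1', sub_self]) (by
      simp only [sub_smul, Finset.sum_sub_distrib, hw2, hw2', sub_self])
    refine Finset.sum_congr rfl fun i hi => ?_
    have := h1 i hi
    rw [sub_eq_zero.1 this]
  obtain ⟨v, hv, hvE⟩ := (Set.Icc_infinite (show lo < lo + room by linarith)).exists_notMem_finite hEf
  refine ⟨v, hv.1, hv.2, fun I hI hAI w hw1 hw2 heq => hvE ?_⟩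
  rw [hE]
  exact mem_iUnion₂.2 ⟨I, Finset.mem_powerset.2 hI, hAI, w, hw1, hw2, heq⟩

/-- the perturbed heights. -/
noncomputable def cc (a : ℕ → V) (lo room : ℕ → ℝ) (hroom : ∀ n, 0 < room n) : ℕ → ℝ
  | n => Classical.choose (step_avoid a n (fun i => if h : i < n then cc a lo room hroom i else 0)
      (lo := lo n) (hroom n))

lemma cc_spec (a : ℕ → V) (lo room : ℕ → ℝ) (hroom : ∀ n, 0 < room n) (n : ℕ) :
    lo n ≤ cc a lo room hroom n ∧ cc a lo room hroom n ≤ lo n + room n ∧
    ∀ I : Finset ℕ, I ⊆ Finset.range n → AI a I →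
      ∀ w : ℕ → ℝ, ∑ i ∈ I, w i = 1 → ∑ i ∈ I, w i • a i = a n →
        cc a lo room hroom n ≠ ∑ i ∈ I, w i * cc a lo room hroom i := by
  have h := Classical.choose_spec (step_avoid a n
    (fun i => if h : i < n then cc a lo room hroom i else 0) (lo := lo n) (hroom n))
  have he : cc a lo room hroom n = Classical.choose (step_avoid a n
    (fun i => if h : i < n then cc a lo room hroom i else 0) (lo := lo n) (hroom n)) := by
    rw [cc]
  rw [← he] at h
  refine ⟨h.1, h.2.1, fun I hI hAI w hw1 hw2 => ?_⟩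
  have h1 := h.2.2 I hI hAI w hw1 hw2
  have h2 : ∑ i ∈ I, w i * (if h : i < n then cc a lo room hroom i else 0) =
      ∑ i ∈ I, w i * cc a lo room hroom i := by
    refine Finset.sum_congr rfl fun i hi => ?_
    have := Finset.mem_range.1 (hI hi)
    rw [dif_pos this]
  rwa [h2] at h1

lemma generic_nat (a : ℕ → V) (lo room : ℕ → ℝ) (hroom : ∀ n, 0 < room n) :
    ∃ c : ℕ → ℝ, (∀ n, lo n ≤ c n ∧ c n ≤ lo n + room n) ∧
      ∀ (I : Finset ℕ) (p : V) (m : ℝ), (∀ i ∈ I, inner ℝ (a i) p - c i = m) → AI a I := by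
  refine ⟨cc a lo room hroom, fun n => ⟨(cc_spec a lo room hroom n).1, (cc_spec a lo room hroom n).2.1⟩,
    fun I => ?_⟩
  induction I using Finset.induction_on_max with
  | empty => intro p m _ w _ _ i hi; simp at hi
  | insert n I hlt ih =>
    intro p m hI
    have hnI : n ∉ I := fun h => lt_irrefl _ (hlt n h)
    have hAI : AI a I := ih p m fun i hi => hI i (Finset.mem_insert_of_mem hi)
    intro w hw1 hw2
    rw [Finset.sum_insert hnI] at hw1 hw2
    have hwn : w n = 0 := by
      by_contra hne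
      have h1 : ∑ i ∈ I, (-(w i) / w n) = 1 := by
        rw [← Finset.sum_div, Finset.sum_neg_distrib, div_eq_one_iff_eq hne]
        linarith
      have h2 : ∑ i ∈ I, (-(w i) / w n) • a i = a n := by
        have h3 : ∑ i ∈ I, (-(w i) / w n) • a i = (-(1 / w n)) • ∑ i ∈ I, w i • a i := by
          rw [Finset.smul_sum]
          refine Finset.sum_congr rfl fun i _ => ?_
          rw [smul_smul]; congr 1; ring
        rw [h3, (eq_neg_of_add_eq_zero_right hw2 : ∑ i ∈ I, w i • a i = -(w n • a n)), smul_neg,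
          neg_smul, neg_neg, smul_smul, one_div, inv_mul_cancel₀ hne, one_smul]
      refine (cc_spec a lo room hroom n).2.2 I (fun i hi => Finset.mem_range.2 (hlt i hi)) hAI _ h1 h2 ?_
      have h4 : ∀ i ∈ insert n I, cc a lo room hroom i = inner ℝ (a i) p - m := fun i hi => by
        have := hI i hi; linarith
      rw [h4 n (Finset.mem_insert_self n I)]
      have h5 : ∑ i ∈ I, -(w i) / w n * cc a lo room hroom i =
          ∑ i ∈ I, (inner ℝ ((-(w i) / w n) • a i) p - (-(w i) / w n) * m) := by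
        refine Finset.sum_congr rfl fun i hi => ?_
        rw [h4 i (Finset.mem_insert_of_mem hi), real_inner_smul_left]; ring
      rw [h5, Finset.sum_sub_distrib, ← sum_inner, h2, ← Finset.sum_mul, h1, one_mul]
    rw [hwn, zero_add] at hw1
    rw [hwn, zero_smul, zero_add] at hw2
    intro i hi
    rcases Finset.mem_insert.1 hi with rfl | hi
    · exact hwn
    · exact hAI w hw1 hw2 i hi

/-- **generic heights** over a countable index set. -/
theorem generic {ι : Type*} [Countable ι] (a : ι → V) (lo room : ι → ℝ) (hroom : ∀ n, 0 < room n) :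
    ∃ c : ι → ℝ, (∀ n, lo n ≤ c n ∧ c n ≤ lo n + room n) ∧
      ∀ (I : Finset ι) (p : V) (m : ℝ), (∀ i ∈ I, inner ℝ (a i) p - c i = m) → AI a I := by
  classical
  obtain ⟨enc, henc⟩ := exists_injective_nat ι
  set a' : ℕ → V := Function.extend enc a 0 with ha'
  set lo' : ℕ → ℝ := Function.extend enc lo 0 with hlo'
  set room' : ℕ → ℝ := Function.extend enc room 1 with hroom'
  have hr' : ∀ n, 0 < room' n := by
    intro n
    by_cases hn : ∃ i, enc i = n
    · obtain ⟨i, rfl⟩ := hn
      rw [hroom', henc.extend_apply]; exact hroom i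
    · rw [hroom', Function.extend_apply' _ _ _ hn]; exact one_pos
  obtain ⟨c, hc, hgen⟩ := generic_nat a' lo' room' hr'
  refine ⟨fun i => c (enc i), fun i => ?_, fun I p m hI => ?_⟩
  · have := hc (enc i)
    rwa [hlo', hroom', henc.extend_apply, henc.extend_apply] at this
  · have h1 := hgen (I.map ⟨enc, henc⟩) p m (by
      intro n hn
      obtain ⟨i, hi, rfl⟩ := Finset.mem_map.1 hn
      have h2 := hI i hi
      show inner ℝ (a' (enc i)) p - c (enc i) = m
      rw [ha', henc.extend_apply]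
      exact h2)
    intro w hw1 hw2 i hi
    have h3 := h1 (Function.extend enc w 0) (by
      rw [Finset.sum_map]
      simp only [Function.Embedding.coeFn_mk, henc.extend_apply]
      exact hw1) (by
      rw [Finset.sum_map]
      simp only [Function.Embedding.coeFn_mk, ha', henc.extend_apply]
      exact hw2) (enc i) (Finset.mem_map.2 ⟨i, hi, rfl⟩)
    rwa [henc.extend_apply] at h3


end Crest.Agent.R096.ThC6_766
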