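import Mathlib
import Crest.Agent.R096.ThC6_766
import Crest.Agent.R332.FullTop
import Crest.Agent.R096.ThC7_766

-- ▼ part R096/Ho1_627
section

/-!
Row 96 (S0127), helper627.  Hole-opening lemma (961 #9403), part 1: radial maps.
-/

set_option autoImplicit false
set_option linter.unusedSectionVars false
set_option linter.style.longLine false

namespace Crest.Agent.R096.Ho_627

open Set Metric

variable {V : Type*} [NormedAddCommGroup V] [InnerProductSpace ℝ V]

/-- radial map with profile `g`. -/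
noncomputable def rad (g : ℝ → ℝ) (v : V) : V := (g ‖v‖ / ‖v‖) • v

lemma norm_rad {g : ℝ → ℝ} (h0 : g 0 = 0) (hp : ∀ t, 0 ≤ t → 0 ≤ g t) (v : V) :
    ‖rad g v‖ = g ‖v‖ := by
  rw [rad, norm_smul, Real.norm_eq_abs, abs_of_nonneg (div_nonneg (hp _ (norm_nonneg v)) (norm_nonneg v))]
  by_cases h : ‖v‖ = 0
  · rw [h, h0]; simp
  · field_simp

lemma inner_rad_le {f g : ℝ → ℝ} (hf0 : f 0 = 0) (hf : ∀ t, 0 ≤ t → 0 ≤ f t) (hg0 : g 0 = 0)
    (hg : ∀ t, 0 ≤ t → 0 ≤ g t) (v w : V) :
    inner ℝ (rad f v) (rad g w) ≤ f ‖v‖ * g ‖w‖ := by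
  have h := real_inner_le_norm (rad f v) (rad g w)
  rwa [norm_rad hf0 hf, norm_rad hg0 hg] at h

lemma inner_rad_self {f g : ℝ → ℝ} (hf0 : f 0 = 0) (v : V) :
    inner ℝ (rad f v) (rad g v) = f ‖v‖ * g ‖v‖ := by
  rw [rad, rad, real_inner_smul_left, real_inner_smul_right, real_inner_self_eq_norm_sq]
  by_cases h : ‖v‖ = 0
  · rw [h, hf0]; simp
  · field_simp

lemma rad_mono {f g : ℝ → ℝ} (hf0 : f 0 = 0) (hf : ∀ t, 0 ≤ t → 0 ≤ f t) (hg0 : g 0 = 0)
    (hg : ∀ t, 0 ≤ t → 0 ≤ g t) (hfm : Monotone f) (hgm : Monotone g) (v w : V) :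
    0 ≤ inner ℝ (rad f v - rad f w) (rad g v - rad g w) := by
  rw [inner_sub_left, inner_sub_right, inner_sub_right, inner_rad_self hf0, inner_rad_self hf0]
  have h1 := inner_rad_le hf0 hf hg0 hg v w
  have h2 := inner_rad_le hf0 hf hg0 hg w v
  have h3 : 0 ≤ (f ‖v‖ - f ‖w‖) * (g ‖v‖ - g ‖w‖) := by
    rcases le_total ‖v‖ ‖w‖ with h | h
    · exact mul_nonneg_of_nonpos_of_nonpos (sub_nonpos.2 (hfm h)) (sub_nonpos.2 (hgm h))
    · exact mul_nonneg (sub_nonneg.2 (hfm h)) (sub_nonneg.2 (hgm h))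
  nlinarith

lemma rad_lip {g : ℝ → ℝ} {K : ℝ} (hK : 0 ≤ K) (h0 : g 0 = 0) (hp : ∀ t, 0 ≤ t → 0 ≤ g t)
    (hl : ∀ a b, |g a - g b| ≤ K * |a - b|) (v w : V) :
    ‖rad g v - rad g w‖ ≤ K * ‖v - w‖ := by
  have hle : ∀ t, 0 ≤ t → g t ≤ K * t := by
    intro t ht
    have := hl t 0
    rw [h0, sub_zero, sub_zero, abs_of_nonneg (hp t ht), abs_of_nonneg ht] at this
    exact this
  by_cases hv : ‖v‖ = 0
  · have hv' := norm_eq_zero.1 hv
    have hr : rad g v = 0 := by rw [hv', rad]; simp
    rw [hr, hv', zero_sub, zero_sub, norm_neg, norm_neg, norm_rad h0 hp]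
    exact hle _ (norm_nonneg _)
  by_cases hw : ‖w‖ = 0
  · have hw' := norm_eq_zero.1 hw
    have hr : rad g w = 0 := by rw [hw', rad]; simp
    rw [hr, hw', sub_zero, sub_zero, norm_rad h0 hp]
    exact hle _ (norm_nonneg _)
  have ha : 0 < ‖v‖ := lt_of_le_of_ne (norm_nonneg _) (Ne.symm hv)
  have hb : 0 < ‖w‖ := lt_of_le_of_ne (norm_nonneg _) (Ne.symm hw)
  have hga := hp _ ha.le
  have hgb := hp _ hb.le
  have hla := hle _ ha.le
  have hlb := hle _ hb.le
  have hc := real_inner_le_norm v w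
  have hlab := hl ‖v‖ ‖w‖
  set a := ‖v‖ with hadef
  set b := ‖w‖ with hbdef
  set c := inner ℝ v w with hcdef
  have hsq : (K * |a - b|) ^ 2 = K ^ 2 * (a - b) ^ 2 := by rw [mul_pow, sq_abs]
  have h1 : (g a - g b) ^ 2 ≤ K ^ 2 * (a - b) ^ 2 := by
    rw [← hsq, ← sq_abs (g a - g b)]
    exact pow_le_pow_left₀ (abs_nonneg _) hlab 2
  -- kappa
  set k : ℝ := (g a / a) * (g b / b) with hk
  have hkab : k * (a * b) = g a * g b := by rw [hk]; field_simp
  have hkK : k ≤ K ^ 2 := by
    have e1 : g a / a ≤ K := by rw [div_le_iff₀ ha]; exact hla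
    have e2 : g b / b ≤ K := by rw [div_le_iff₀ hb]; exact hlb
    have e3 : 0 ≤ g b / b := div_nonneg hgb hb.le
    calc k ≤ K * K := mul_le_mul e1 e2 e3 hK
      _ = K ^ 2 := by ring
  have h2 : ‖rad g v - rad g w‖ ^ 2 = g a ^ 2 + g b ^ 2 - 2 * (k * c) := by
    rw [norm_sub_sq_real, norm_rad h0 hp, norm_rad h0 hp, rad, rad, real_inner_smul_left,
      real_inner_smul_right, hk]
    ring
  have h3 : ‖v - w‖ ^ 2 = a ^ 2 + b ^ 2 - 2 * c := by
    rw [norm_sub_sq_real]; ring
  have h4 : ‖rad g v - rad g w‖ ^ 2 ≤ (K * ‖v - w‖) ^ 2 := by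
    rw [h2, mul_pow, h3]
    have h5 : 0 ≤ (K ^ 2 - k) * (a * b - c) := mul_nonneg (sub_nonneg.2 hkK) (sub_nonneg.2 hc)
    nlinarith
  exact le_of_sq_le_sq h4 (mul_nonneg hK (norm_nonneg _))

/-- profile of the ball retraction. -/
noncomputable def capf (s t : ℝ) : ℝ := max 0 (min t s)

/-- profile of the collapse. -/
noncomputable def colf (s t : ℝ) : ℝ := max 0 (min t (2 * t - 2 * s))

section
variable {s : ℝ}

lemma capf_zero (hs : 0 ≤ s) : capf s 0 = 0 := by simp [capf, hs]
lemma colf_zero (_hs : 0 ≤ s) : colf s 0 = 0 := by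
  unfold colf; rw [max_eq_left]; apply min_le_of_left_le; exact le_rfl
lemma capf_nonneg (t : ℝ) : 0 ≤ capf s t := le_max_left _ _
lemma colf_nonneg (t : ℝ) : 0 ≤ colf s t := le_max_left _ _
lemma capf_mono : Monotone (capf s) := fun _ _ h =>
  max_le_max le_rfl (min_le_min h le_rfl)
lemma colf_mono : Monotone (colf s) := fun a b h =>
  max_le_max le_rfl (min_le_min h (by linarith))
lemma capf_lip (a b : ℝ) : |capf s a - capf s b| ≤ 1 * |a - b| := by
  rw [one_mul]
  calc |capf s a - capf s b| ≤ |min a s - min b s| := by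
        have := abs_max_sub_max_le_max 0 (min a s) 0 (min b s)
        simpa [capf] using this
    _ ≤ |a - b| := by
        have := abs_min_sub_min_le_max a s b s
        simpa using this
lemma colf_lip (a b : ℝ) : |colf s a - colf s b| ≤ 2 * |a - b| := by
  calc |colf s a - colf s b| ≤ |min a (2 * a - 2 * s) - min b (2 * b - 2 * s)| := by
        have := abs_max_sub_max_le_max 0 (min a (2 * a - 2 * s)) 0 (min b (2 * b - 2 * s))
        simpa [colf] using this
    _ ≤ max |a - b| |2 * a - 2 * s - (2 * b - 2 * s)| := abs_min_sub_min_le_max _ _ _ _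
    _ ≤ 2 * |a - b| := by
        apply max_le
        · linarith [abs_nonneg (a - b)]
        · have : 2 * a - 2 * s - (2 * b - 2 * s) = 2 * (a - b) := by ring
          rw [this, abs_mul]; simp

lemma capf_le (hs : 0 ≤ s) (t : ℝ) : capf s t ≤ s := max_le hs (min_le_right _ _)
lemma capf_of_le {t : ℝ} (ht : 0 ≤ t) (h : t ≤ s) : capf s t = t := by
  rw [capf, min_eq_left h, max_eq_right ht]
lemma capf_of_ge (hs : 0 ≤ s) {t : ℝ} (h : s ≤ t) : capf s t = s := by
  rw [capf, min_eq_right h, max_eq_right hs]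
lemma colf_of_le {t : ℝ} (h : t ≤ s) : colf s t = 0 := by
  rw [colf, max_eq_left]
  exact min_le_of_right_le (by linarith)
lemma colf_of_ge (hs : 0 ≤ s) {t : ℝ} (h : 2 * s ≤ t) : colf s t = t := by
  rw [colf, min_eq_left (by linarith), max_eq_right (by linarith)]
lemma colf_pos {t : ℝ} (hs : 0 ≤ s) (h : s < t) : 0 < colf s t := by
  rw [colf]
  exact lt_max_of_lt_right (lt_min (by linarith) (by linarith))
lemma colf_le {t : ℝ} (ht : 0 ≤ t) : colf s t ≤ t := max_le ht (min_le_left _ _)
lemma colf_ge {t : ℝ} (hs : 0 ≤ s) : t - s ≤ colf s t := by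
  rw [colf]
  rcases le_total t s with h | h
  · exact le_max_of_le_left (by linarith)
  · exact le_max_of_le_right (le_min (by linarith) (by linarith))
lemma colf_strict {a b : ℝ} (ha : s < a) (hab : a < b) (hs : 0 ≤ s) : colf s a < colf s b := by
  rw [colf, colf, max_eq_right (le_min (by linarith) (by linarith)),
    max_eq_right (le_min (by linarith) (by linarith))]
  exact lt_min (lt_of_le_of_lt (min_le_left _ _) hab)
    (lt_of_le_of_lt (min_le_right _ _) (by linarith))
end

end Crest.Agent.R096.Ho_627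
end

-- ▼ part R096/Ho2_627
section

/-!
Row 96 (S0127), helper627.  Hole-opening lemma (961 #9403), part 2: the collapse of a separated
family of balls and its subgradients.
-/

set_option autoImplicit false
set_option linter.unusedSectionVars false
set_option linter.style.longLine false

namespace Crest.Agent.R096.Ho_627

open Set Metric

variable {V : Type*} [NormedAddCommGroup V] [InnerProductSpace ℝ V] {ι : Type*}
variable {yc : ι → V} {s : ι → ℝ}

/-- separated family of balls. -/
structure Sep (yc : ι → V) (s : ι → ℝ) : Prop where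
  pos : ∀ c, 0 < s c
  sep : ∀ c c', c ≠ c' → 8 * s c + 8 * s c' < ‖yc c - yc c'‖

lemma rad_colf_ge {t : ℝ} (ht : 0 ≤ t) {v : V} (h : 2 * t ≤ ‖v‖) : rad (colf t) v = v := by
  rw [rad, colf_of_ge ht h]
  by_cases hv : ‖v‖ = 0
  · rw [norm_eq_zero.1 hv]; simp
  · rw [div_self hv, one_smul]

lemma rad_colf_le {t : ℝ} {v : V} (h : ‖v‖ ≤ t) : rad (colf t) v = 0 := by
  rw [rad, colf_of_le h]; simp

lemma rad_capf_le {t : ℝ} {v : V} (h : ‖v‖ ≤ t) : rad (capf t) v = v := by
  rw [rad, capf_of_le (norm_nonneg v) h]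
  by_cases hv : ‖v‖ = 0
  · rw [norm_eq_zero.1 hv]; simp
  · rw [div_self hv, one_smul]

lemma norm_colf {t : ℝ} (ht : 0 ≤ t) (v : V) : ‖rad (colf t) v‖ = colf t ‖v‖ :=
  norm_rad (colf_zero ht) (fun _ _ => colf_nonneg _) v

lemma norm_capf {t : ℝ} (ht : 0 ≤ t) (v : V) : ‖rad (capf t) v‖ = capf t ‖v‖ :=
  norm_rad (capf_zero ht) (fun _ _ => capf_nonneg _) v

lemma rad_colf_sub {t : ℝ} (ht : 0 ≤ t) (v : V) : ‖rad (colf t) v - v‖ ≤ t := by
  by_cases hv : ‖v‖ = 0
  · rw [norm_eq_zero.1 hv, rad]; simpa using ht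
  have ha : 0 < ‖v‖ := lt_of_le_of_ne (norm_nonneg _) (Ne.symm hv)
  have h1 : rad (colf t) v - v = (colf t ‖v‖ / ‖v‖ - 1) • v := by rw [rad, sub_smul, one_smul]
  rw [h1, norm_smul, Real.norm_eq_abs]
  have h2 : |colf t ‖v‖ / ‖v‖ - 1| * ‖v‖ = |colf t ‖v‖ - ‖v‖| := by
    rw [show colf t ‖v‖ / ‖v‖ - 1 = (colf t ‖v‖ - ‖v‖) / ‖v‖ by field_simp, abs_div,
      abs_of_pos ha]
    field_simp
  rw [h2, abs_le]
  have h3 := colf_ge (t := ‖v‖) ht
  have h4 := colf_le (s := t) (norm_nonneg v)
  constructor <;> linarith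

lemma rad_colf_lip {t : ℝ} (ht : 0 ≤ t) (v w : V) :
    ‖rad (colf t) v - rad (colf t) w‖ ≤ 2 * ‖v - w‖ :=
  rad_lip (by norm_num) (colf_zero ht) (fun _ _ => colf_nonneg _) colf_lip v w

lemma rad_capf_lip {t : ℝ} (ht : 0 ≤ t) (v w : V) :
    ‖rad (capf t) v - rad (capf t) w‖ ≤ ‖v - w‖ := by
  have := rad_lip (by norm_num) (capf_zero ht) (fun _ _ => capf_nonneg _) capf_lip v w
  rwa [one_mul] at this

lemma rad_colf_inj {t : ℝ} (ht : 0 ≤ t) {v w : V} (h : rad (colf t) v = rad (colf t) w)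
    (h0 : rad (colf t) v ≠ 0) : v = w := by
  have hn : colf t ‖v‖ = colf t ‖w‖ := by rw [← norm_colf ht, ← norm_colf ht, h]
  have hp : 0 < colf t ‖v‖ := by rw [← norm_colf ht]; exact norm_pos_iff.2 h0
  have hv : t < ‖v‖ := by
    by_contra hcon
    rw [colf_of_le (not_lt.1 hcon)] at hp
    exact lt_irrefl _ hp
  have hw : t < ‖w‖ := by
    by_contra hcon
    rw [hn, colf_of_le (not_lt.1 hcon)] at hp
    exact lt_irrefl _ hp
  have hvw : ‖v‖ = ‖w‖ := by
    rcases lt_trichotomy ‖v‖ ‖w‖ with hl | hl | hl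
    · exact absurd hn (colf_strict hv hl ht).ne
    · exact hl
    · exact absurd hn (colf_strict hw hl ht).ne'
  rw [rad, rad, ← hvw] at h
  have hk : colf t ‖v‖ / ‖v‖ ≠ 0 := (div_pos hp (lt_of_le_of_lt ht hv)).ne'
  exact smul_right_injective V hk h

open Classical in
/-- collapse of the balls of the subfamily `A`. -/
noncomputable def col (yc : ι → V) (s : ι → ℝ) (A : Set ι) (y : V) : V :=
  if h : ∃ c ∈ A, ‖y - yc c‖ < 2 * s c then
    yc h.choose + rad (colf (s h.choose)) (y - yc h.choose) else y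

lemma Sep.uniq (h : Sep yc s) {c c' : ι} {y : V} (hc : ‖y - yc c‖ < 2 * s c)
    (hc' : ‖y - yc c'‖ < 2 * s c') : c = c' := by
  by_contra hne
  have h1 := h.sep c c' hne
  have h2 : ‖yc c - yc c'‖ ≤ ‖y - yc c‖ + ‖y - yc c'‖ := by
    have : yc c - yc c' = (y - yc c') - (y - yc c) := by abel
    rw [this]
    refine (norm_sub_le _ _).trans ?_
    linarith
  have := h.pos c
  have := h.pos c'
  linarith

lemma col_in (h : Sep yc s) {A : Set ι} {c : ι} {y : V} (hc : c ∈ A)
    (hy : ‖y - yc c‖ < 2 * s c) : col yc s A y = yc c + rad (colf (s c)) (y - yc c) := by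
  have hex : ∃ c ∈ A, ‖y - yc c‖ < 2 * s c := ⟨c, hc, hy⟩
  have hch : hex.choose = c := h.uniq hex.choose_spec.2 hy
  rw [col, dif_pos hex, hch]

lemma col_out {A : Set ι} {y : V} (hy : ∀ c ∈ A, 2 * s c ≤ ‖y - yc c‖) : col yc s A y = y := by
  rw [col, dif_neg]
  rintro ⟨c, hc, hlt⟩
  exact absurd hlt (not_lt.2 (hy c hc))

/-- in the ball of `c` or in no ball at all. -/
lemma col_form (h : Sep yc s) {A : Set ι} {c : ι} {y : V} (hc : c ∈ A)
    (hy : ∀ c' ∈ A, c' ≠ c → 2 * s c' ≤ ‖y - yc c'‖) :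
    col yc s A y = yc c + rad (colf (s c)) (y - yc c) := by
  by_cases hyc : ‖y - yc c‖ < 2 * s c
  · exact col_in h hc hyc
  · rw [col_out, rad_colf_ge (h.pos c).le (not_lt.1 hyc)]
    · abel
    · intro c' hc'
      by_cases hcc : c' = c
      · rw [hcc]; exact not_lt.1 hyc
      · exact hy c' hc' hcc

lemma col_near (h : Sep yc s) {A : Set ι} {c : ι} {y : V} (hc : c ∈ A)
    (hy : ‖y - yc c‖ < 2 * s c) : ‖col yc s A y - y‖ ≤ s c := by
  rw [col_in h hc hy]
  have : yc c + rad (colf (s c)) (y - yc c) - y = rad (colf (s c)) (y - yc c) - (y - yc c) := by abel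
  rw [this]
  exact rad_colf_sub (h.pos c).le _

lemma col_lip (h : Sep yc s) (A : Set ι) (y y' : V) :
    ‖col yc s A y - col yc s A y'‖ ≤ 2 * ‖y - y'‖ := by
  -- two points governed by the same formula
  have key : ∀ c ∈ A, col yc s A y = yc c + rad (colf (s c)) (y - yc c) →
      col yc s A y' = yc c + rad (colf (s c)) (y' - yc c) →
      ‖col yc s A y - col yc s A y'‖ ≤ 2 * ‖y - y'‖ := by
    intro c _ h1 h2
    rw [h1, h2]
    have := rad_colf_lip (h.pos c).le (y - yc c) (y' - yc c)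
    rw [show y - yc c - (y' - yc c) = y - y' by abel] at this
    rw [show yc c + rad (colf (s c)) (y - yc c) - (yc c + rad (colf (s c)) (y' - yc c)) =
      rad (colf (s c)) (y - yc c) - rad (colf (s c)) (y' - yc c) by abel]
    exact this
  by_cases h1 : ∃ c ∈ A, ‖y - yc c‖ < 2 * s c
  · obtain ⟨c, hc, hyc⟩ := h1
    by_cases h2 : ∀ c' ∈ A, c' ≠ c → 2 * s c' ≤ ‖y' - yc c'‖
    · exact key c hc (col_in h hc hyc) (col_form h hc h2)
    · push Not at h2
      obtain ⟨c', hc', hne, hyc'⟩ := h2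
      have e1 := col_near h hc hyc
      have e2 := col_near h hc' hyc'
      have e3 := h.sep c c' (Ne.symm hne)
      have e4 : ‖yc c - yc c'‖ ≤ ‖y - yc c‖ + ‖y - y'‖ + ‖y' - yc c'‖ := by
        have : yc c - yc c' = -(y - yc c) + (y - y') + (y' - yc c') := by abel
        rw [this]
        refine (norm_add₃_le).trans ?_
        rw [norm_neg]
      have e5 : ‖col yc s A y - col yc s A y'‖ ≤ ‖col yc s A y - y‖ + ‖y - y'‖ + ‖col yc s A y' - y'‖ := by
        have : col yc s A y - col yc s A y' = (col yc s A y - y) + (y - y') + -(col yc s A y' - y') := by abel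
        rw [this]
        refine (norm_add₃_le).trans ?_
        rw [norm_neg]
      have := h.pos c
      have := h.pos c'
      linarith
  · push Not at h1
    by_cases h2 : ∃ c ∈ A, ‖y' - yc c‖ < 2 * s c
    · obtain ⟨c, hc, hyc⟩ := h2
      exact key c hc (col_form h hc fun c' hc' _ => h1 c' hc') (col_in h hc hyc)
    · push Not at h2
      rw [col_out h1, col_out h2]
      linarith [norm_nonneg (y - y')]

/-- the position of `y` seen from `c` when the ball of `c` is not collapsed. -/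
noncomputable def pos (yc : ι → V) (s : ι → ℝ) (c : ι) (y : V) : V := col yc s {c}ᶜ y - yc c

/-- the subgradient. -/
noncomputable def xi (yc : ι → V) (s : ι → ℝ) (c : ι) (y : V) : V := rad (capf (s c)) (pos yc s c y)

lemma pos_alt (h : Sep yc s) (c : ι) (y : V) :
    (‖y - yc c‖ < 2 * s c ∧ pos yc s c y = y - yc c) ∨
      (2 * s c ≤ ‖y - yc c‖ ∧ 2 * s c ≤ ‖pos yc s c y‖ ∧ pos yc s c y = col yc s univ y - yc c) := by
  by_cases hy : ‖y - yc c‖ < 2 * s c
  · left
    refine ⟨hy, ?_⟩
    rw [pos, col_out]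
    intro c' hc'
    by_contra hcon
    exact hc' (h.uniq (not_le.1 hcon) hy)
  · right
    have hy' := not_lt.1 hy
    by_cases h2 : ∃ c', c' ≠ c ∧ ‖y - yc c'‖ < 2 * s c'
    · obtain ⟨c', hne, hyc'⟩ := h2
      have e1 : col yc s {c}ᶜ y = yc c' + rad (colf (s c')) (y - yc c') := col_in h hne hyc'
      have e2 : col yc s univ y = yc c' + rad (colf (s c')) (y - yc c') := col_in h (mem_univ _) hyc'
      refine ⟨hy', ?_, by rw [pos, e1, e2]⟩
      rw [pos, e1]
      have e3 := h.sep c' c hne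
      have e4 : ‖rad (colf (s c')) (y - yc c')‖ ≤ 2 * s c' := by
        rw [norm_colf (h.pos c').le]
        exact (colf_le (norm_nonneg _)).trans hyc'.le
      have e5 : ‖yc c' - yc c‖ ≤ ‖yc c' + rad (colf (s c')) (y - yc c') - yc c‖ +
          ‖rad (colf (s c')) (y - yc c')‖ := by
        have : yc c' - yc c = (yc c' + rad (colf (s c')) (y - yc c') - yc c) -
          rad (colf (s c')) (y - yc c') := by abel
        rw [this]
        exact norm_sub_le _ _
      have := h.pos c
      have := h.pos c'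
      linarith
    · push Not at h2
      have e1 : col yc s {c}ᶜ y = y := col_out fun c' hc' => h2 c' hc'
      have e2 : col yc s univ y = y := col_out fun c' _ => by
        by_cases hcc : c' = c
        · rw [hcc]; exact hy'
        · exact h2 c' hcc
      refine ⟨hy', ?_, ?_⟩
      · rw [pos, e1]; exact hy'
      · rw [pos, e1, e2]

lemma col_sub (h : Sep yc s) (c : ι) (y : V) :
    col yc s univ y - yc c = rad (colf (s c)) (pos yc s c y) := by
  rcases pos_alt h c y with ⟨h1, h2⟩ | ⟨h1, h2, h3⟩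
  · rw [h2, col_in h (mem_univ c) h1]; abel
  · rw [rad_colf_ge (h.pos c).le h2, h3]

lemma xi_norm (h : Sep yc s) (c : ι) (y : V) : ‖xi yc s c y‖ ≤ s c := by
  rw [xi, norm_capf (h.pos c).le]
  exact capf_le (h.pos c).le _

lemma xi_lip (h : Sep yc s) (c : ι) (y y' : V) :
    ‖xi yc s c y - xi yc s c y'‖ ≤ 2 * ‖y - y'‖ := by
  refine (rad_capf_lip (h.pos c).le _ _).trans ?_
  have := col_lip h {c}ᶜ y y'
  rw [pos, pos, show col yc s {c}ᶜ y - yc c - (col yc s {c}ᶜ y' - yc c) =
    col yc s {c}ᶜ y - col yc s {c}ᶜ y' by abel]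
  exact this

lemma xi_mono (h : Sep yc s) (c : ι) (y y' : V) :
    0 ≤ inner ℝ (xi yc s c y - xi yc s c y') (col yc s univ y - col yc s univ y') := by
  have e : col yc s univ y - col yc s univ y' =
      rad (colf (s c)) (pos yc s c y) - rad (colf (s c)) (pos yc s c y') := by
    rw [← col_sub h, ← col_sub h]; abel
  rw [e]
  exact rad_mono (capf_zero (h.pos c).le) (fun _ _ => capf_nonneg _) (colf_zero (h.pos c).le)
    (fun _ _ => colf_nonneg _) capf_mono colf_mono _ _

/-- `xi` is a nonnegative multiple of `z - yc c` unless `z = yc c`. -/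
lemma xi_par (h : Sep yc s) (c : ι) (y : V) :
    col yc s univ y = yc c ∨ ∃ k : ℝ, 0 ≤ k ∧ xi yc s c y = k • (col yc s univ y - yc c) := by
  by_cases hz : ‖pos yc s c y‖ ≤ s c
  · left
    have := col_sub h c y
    rw [rad_colf_le hz] at this
    exact sub_eq_zero.1 this
  · right
    have hp := colf_pos (h.pos c).le (not_le.1 hz)
    refine ⟨capf (s c) ‖pos yc s c y‖ / colf (s c) ‖pos yc s c y‖,
      div_nonneg (capf_nonneg _) hp.le, ?_⟩
    rw [col_sub h, xi, rad, rad, smul_smul]
    congr 1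
    field_simp

lemma of_col_eq (h : Sep yc s) {c : ι} {y : V} (hz : col yc s univ y = yc c) :
    ‖y - yc c‖ ≤ s c ∧ xi yc s c y = y - yc c := by
  have h1 := col_sub h c y
  rw [hz, sub_self] at h1
  have h2 : ‖pos yc s c y‖ ≤ s c := by
    by_contra hcon
    have h3 := colf_pos (h.pos c).le (not_le.1 hcon)
    rw [← norm_colf (h.pos c).le, ← h1, norm_zero] at h3
    exact lt_irrefl _ h3
  have hp := h.pos c
  rcases pos_alt h c y with ⟨h3, h4⟩ | ⟨h3, h4, h5⟩
  · rw [h4] at h2
    exact ⟨h2, by rw [xi, h4, rad_capf_le h2]⟩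
  · linarith

lemma of_xi_lt (h : Sep yc s) {c : ι} {y : V} (hx : ‖xi yc s c y‖ < s c) :
    xi yc s c y = y - yc c ∧ col yc s univ y = yc c := by
  rw [xi, norm_capf (h.pos c).le] at hx
  have h2 : ‖pos yc s c y‖ ≤ s c := by
    by_contra hcon
    rw [capf_of_ge (h.pos c).le (not_le.1 hcon).le] at hx
    exact lt_irrefl _ hx
  have hp := h.pos c
  have h6 := col_sub h c y
  rw [rad_colf_le h2] at h6
  rcases pos_alt h c y with ⟨h3, h4⟩ | ⟨h3, h4, h5⟩
  · exact ⟨by rw [xi, rad_capf_le h2, h4], sub_eq_zero.1 h6⟩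
  · linarith

lemma of_ball (h : Sep yc s) {c : ι} {y : V} (hy : ‖y - yc c‖ ≤ s c) :
    xi yc s c y = y - yc c ∧ col yc s univ y = yc c := by
  have hp := h.pos c
  have h1 : ‖y - yc c‖ < 2 * s c := by linarith
  rcases pos_alt h c y with ⟨h3, h4⟩ | ⟨h3, h4, h5⟩
  · refine ⟨by rw [xi, h4, rad_capf_le hy], ?_⟩
    rw [col_in h (mem_univ c) h1, rad_colf_le hy, add_zero]
  · linarith

/-- `col` is injective away from the centres. -/
lemma col_inj (h : Sep yc s) {y y' : V} (he : col yc s univ y = col yc s univ y')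
    (hne : ∀ c, col yc s univ y ≠ yc c) : y = y' := by
  have key : ∀ c, ‖y - yc c‖ < 2 * s c → ∀ c', ‖y' - yc c'‖ < 2 * s c' → y = y' := by
    intro c hc c' hc'
    have e1 := col_in h (mem_univ c) hc
    have e2 := col_in h (mem_univ c') hc'
    have f1 : ‖col yc s univ y - yc c‖ < 2 * s c := by
      rw [e1, add_sub_cancel_left, norm_colf (h.pos c).le]
      exact lt_of_le_of_lt (colf_le (norm_nonneg _)) hc
    have f2 : ‖col yc s univ y - yc c'‖ < 2 * s c' := by
      rw [he, e2, add_sub_cancel_left, norm_colf (h.pos c').le]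
      exact lt_of_le_of_lt (colf_le (norm_nonneg _)) hc'
    have hcc := h.uniq f1 f2
    subst hcc
    have e3 : rad (colf (s c)) (y - yc c) = rad (colf (s c)) (y' - yc c) := by
      have := he
      rw [e1, e2] at this
      exact add_left_cancel this
    have e4 : rad (colf (s c)) (y - yc c) ≠ 0 := by
      intro h0
      rw [h0, add_zero] at e1
      exact hne c e1
    have := rad_colf_inj (h.pos c).le e3 e4
    exact sub_left_injective this
  -- if one of them is in a ball, so is the other one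
  have key2 : ∀ u u' : V, col yc s univ u = col yc s univ u' → (∃ c, ‖u - yc c‖ < 2 * s c) →
      ∃ c', ‖u' - yc c'‖ < 2 * s c' := by
    rintro u u' hu ⟨c, hc⟩
    by_contra hcon
    push Not at hcon
    rw [col_out fun c' _ => hcon c'] at hu
    have e1 := col_in h (mem_univ c) hc
    have f1 : ‖u' - yc c‖ < 2 * s c := by
      rw [← hu, e1, add_sub_cancel_left, norm_colf (h.pos c).le]
      exact lt_of_le_of_lt (colf_le (norm_nonneg _)) hc
    exact absurd f1 (not_lt.2 (hcon c))
  by_cases h1 : ∃ c, ‖y - yc c‖ < 2 * s c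
  · obtain ⟨c', hc'⟩ := key2 y y' he h1
    obtain ⟨c, hc⟩ := h1
    exact key c hc c' hc'
  · have h2 : ¬ ∃ c, ‖y' - yc c‖ < 2 * s c := fun h2 => h1 (key2 y' y he.symm h2)
    push Not at h1 h2
    rw [col_out fun c _ => h1 c, col_out fun c _ => h2 c] at he
    exact he

end Crest.Agent.R096.Ho_627
end

-- ▼ part R096/Ho3_627
section

/-!
Row 96 (S0127), helper627.  Hole-opening lemma (961 #9403), part 3: data, the implicit equation.
-/

set_option autoImplicit false
set_option linter.unusedSectionVars false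
set_option linter.style.longLine false

namespace Crest.Agent.R096.Ho_627

open Set Metric
open Crest.Agent.R096.ThC6_766

variable {V : Type*} [NormedAddCommGroup V] [InnerProductSpace ℝ V] {ι : Type*}

/-- data of the hole-opening lemma: a monotone Lipschitz map `th`, equal to the identity off `L`,
and a locally finite family of holes: centres `yc c`, radii `R c`. -/
structure Holes (L : Set V) (C : ℝ) (e : V → ℝ) (th : V → V) (yc : ι → V) (R : ι → ℝ) : Prop where
  op : IsOpen L
  sc : Scale L e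
  C2 : C ≤ 2
  mono : ∀ y y', 0 ≤ inner ℝ (th y - th y') (y - y')
  lip : ∀ y y', ‖th y - th y'‖ ≤ C * ‖y - y'‖
  near : ∀ y, ‖th y - y‖ ≤ e y
  pos : ∀ c, 0 < R c
  small : ∀ c, R c ≤ e (th (yc c)) / 8
  disj : ∀ c c', c ≠ c' → 2 * R c + 2 * R c' < ‖th (yc c) - th (yc c')‖
  fin : ∀ p ∈ L, ∃ r : ℝ, 0 < r ∧ {c | (closedBall (th (yc c)) (2 * R c) ∩ ball p r).Nonempty}.Finite

variable {L : Set V} {C : ℝ} {e : V → ℝ} {th : V → V} {yc : ι → V} {R : ι → ℝ}

lemma Scale.memL {L : Set V} {e : V → ℝ} (h : Scale L e) {y : V} (hy : 0 < e y) : y ∈ L := by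
  by_contra hcon
  rw [h.off y hcon] at hy
  exact lt_irrefl _ hy

namespace Holes

lemma off (h : Holes L C e th yc R) {y : V} (hy : y ∉ L) : th y = y := by
  have h1 := h.near y
  rw [h.sc.off y hy] at h1
  exact sub_eq_zero.1 (norm_eq_zero.1 (le_antisymm h1 (norm_nonneg _)))

lemma memL (h : Holes L C e th yc R) {y : V} (hy : y ∈ L) : th y ∈ L := by
  apply Scale.memL h.sc
  have h1 := h.sc.lip y (th y)
  have h2 := h.near y
  rw [norm_sub_rev] at h2
  have h3 := h.sc.pos y hy
  linarith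

lemma pL (h : Holes L C e th yc R) (c : ι) : th (yc c) ∈ L := by
  apply Scale.memL h.sc
  have h1 := h.small c
  have h2 := h.pos c
  linarith

lemma cen (h : Holes L C e th yc R) (c : ι) : yc c ∈ L := by
  by_contra hcon
  have h1 := h.pL c
  rw [h.off hcon] at h1
  exact hcon h1

lemma sep (h : Holes L C e th yc R) : Sep yc (fun c => R c / 8) := by
  refine ⟨fun c => by have := h.pos c; positivity, fun c c' hne => ?_⟩
  have h1 := h.disj c c' hne
  have h2 := h.lip (yc c) (yc c')
  have h3 : C * ‖yc c - yc c'‖ ≤ 2 * ‖yc c - yc c'‖ :=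
    mul_le_mul_of_nonneg_right h.C2 (norm_nonneg _)
  show 8 * (R c / 8) + 8 * (R c' / 8) < _
  linarith

lemma ballp (h : Holes L C e th yc R) {c : ι} {q : V} (hq : ‖q - th (yc c)‖ ≤ 2 * R c) : q ∈ L := by
  apply Scale.memL h.sc
  have h1 := h.sc.lip (th (yc c)) q
  rw [norm_sub_rev] at h1
  have h2 := h.small c
  have h3 := h.pos c
  linarith

lemma bally (h : Holes L C e th yc R) {c : ι} {y : V} (hy : ‖y - yc c‖ ≤ R c) : y ∈ L := by
  apply Scale.memL h.sc
  have h1 := h.sc.lip (yc c) y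
  rw [norm_sub_rev] at h1
  have h2 := h.small c
  have h3 := h.pos c
  have h4 := h.sc.lip (th (yc c)) (yc c)
  have h5 := h.near (yc c)
  have h6 := h.sc.pos _ (h.cen c)
  linarith

/-- two active holes agree. -/
lemma uniq (h : Holes L C e th yc R) {c c' : ι} {q : V} (hc : ‖q - th (yc c)‖ < 2 * R c)
    (hc' : ‖q - th (yc c')‖ ≤ 2 * R c') : c = c' := by
  by_contra hne
  have h1 := h.disj c c' hne
  have h2 : ‖th (yc c) - th (yc c')‖ ≤ ‖q - th (yc c)‖ + ‖q - th (yc c')‖ := by
    have : th (yc c) - th (yc c') = (q - th (yc c')) - (q - th (yc c)) := by abel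
    rw [this]
    refine (norm_sub_le _ _).trans ?_
    linarith
  linarith

end Holes

/-! ### cut-offs -/

/-- cut-off of a hole. -/
noncomputable def om (r t : ℝ) : ℝ := max 0 (min 1 (2 - t / r))

lemma om_nonneg (r t : ℝ) : 0 ≤ om r t := le_max_left _ _
lemma om_le_one (r t : ℝ) : om r t ≤ 1 := max_le zero_le_one (min_le_left _ _)
lemma om_one {r t : ℝ} (hr : 0 < r) (ht : t ≤ r) : om r t = 1 := by
  have : t / r ≤ 1 := by rw [div_le_one hr]; exact ht
  rw [om, min_eq_left (by linarith), max_eq_right zero_le_one]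
lemma om_zero {r t : ℝ} (hr : 0 < r) (ht : 2 * r ≤ t) : om r t = 0 := by
  have : 2 ≤ t / r := by rw [le_div_iff₀ hr]; exact ht
  rw [om, max_eq_left]
  exact min_le_of_right_le (by linarith)
lemma om_le {r t : ℝ} (hr : 0 < r) (ht : t ≤ 2 * r) : om r t * r ≤ 2 * r - t := by
  have h1 : t / r ≤ 2 := by rw [div_le_iff₀ hr]; exact ht
  have h2 : om r t ≤ 2 - t / r := max_le (by linarith) (min_le_right _ _)
  calc om r t * r ≤ (2 - t / r) * r := mul_le_mul_of_nonneg_right h2 hr.le
    _ = 2 * r - t := by field_simp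
lemma om_lip {r : ℝ} (hr : 0 < r) (a b : ℝ) : |om r a - om r b| * r ≤ |a - b| := by
  have h1 : |om r a - om r b| ≤ |a / r - b / r| := by
    calc |om r a - om r b| ≤ |min 1 (2 - a / r) - min 1 (2 - b / r)| := by
          have := abs_max_sub_max_le_max 0 (min 1 (2 - a / r)) 0 (min 1 (2 - b / r))
          simpa [om] using this
      _ ≤ |(2 - a / r) - (2 - b / r)| := by
          have := abs_min_sub_min_le_max 1 (2 - a / r) 1 (2 - b / r)
          simpa using this
      _ = |a / r - b / r| := by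
          rw [show (2 - a / r) - (2 - b / r) = -(a / r - b / r) by ring, abs_neg]
  calc |om r a - om r b| * r ≤ |a / r - b / r| * r := mul_le_mul_of_nonneg_right h1 hr.le
    _ = |a - b| := by
        rw [← sub_div, abs_div, abs_of_pos hr]; field_simp

open Classical in
/-- the strength of the pull towards the identity. -/
noncomputable def del (Z : Set V) (q : V) : ℝ :=
  if Z.Nonempty then min (infDist q Z / 32) (1 / 8) else 1 / 8

lemma del_nonneg (Z : Set V) (q : V) : 0 ≤ del Z q := by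
  unfold del
  split_ifs
  · exact le_min (div_nonneg infDist_nonneg (by norm_num)) (by norm_num)
  · norm_num

lemma del_le (Z : Set V) (q : V) : del Z q ≤ 1 / 8 := by
  unfold del
  split_ifs
  · exact min_le_right _ _
  · exact le_rfl

lemma del_lip (Z : Set V) (q q' : V) : |del Z q - del Z q'| ≤ ‖q - q'‖ / 32 := by
  unfold del
  split_ifs with h
  · have h1 := abs_min_sub_min_le_max (infDist q Z / 32) (1 / 8) (infDist q' Z / 32) (1 / 8)
    rw [sub_self, abs_zero, max_eq_left (abs_nonneg _)] at h1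
    refine h1.trans ?_
    rw [← sub_div, abs_div, abs_of_pos (show (0:ℝ) < 32 by norm_num)]
    refine div_le_div_of_nonneg_right ?_ (by norm_num)
    rw [abs_le]
    have e1 := infDist_le_infDist_add_dist (s := Z) (x := q) (y := q')
    have e2 := infDist_le_infDist_add_dist (s := Z) (x := q') (y := q)
    rw [dist_comm] at e2
    rw [dist_eq_norm] at e1 e2
    constructor <;> linarith
  · rw [sub_self, abs_zero]; positivity

lemma del_eq_zero {Z : Set V} (hZ : IsClosed Z) {q : V} : del Z q = 0 ↔ q ∈ Z := by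
  unfold del
  split_ifs with h
  · rw [hZ.mem_iff_infDist_zero h]
    constructor
    · intro h1
      rcases min_choice (infDist q Z / 32) (1 / 8 : ℝ) with h2 | h2
      · rw [h2] at h1; linarith
      · rw [h2] at h1; norm_num at h1
    · intro h1
      rw [h1]; norm_num
  · constructor
    · intro h1; norm_num at h1
    · intro h1; exact absurd ⟨q, h1⟩ h

lemma del_le_dist {Z : Set V} {p : V} (hp : p ∈ Z) (q : V) : del Z q ≤ ‖q - p‖ / 32 := by
  unfold del
  rw [if_pos ⟨p, hp⟩]
  refine (min_le_left _ _).trans (div_le_div_of_nonneg_right ?_ (by norm_num))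
  rw [← dist_eq_norm]
  exact infDist_le_dist_of_mem hp

/-- complement of `L` and cores. -/
def ZZ (L : Set V) (th : V → V) (yc : ι → V) (R : ι → ℝ) : Set V :=
  Lᶜ ∪ ⋃ c, closedBall (th (yc c)) (R c / 16)

lemma Holes.closedZ (h : Holes L C e th yc R) : IsClosed (ZZ L th yc R) := by
  rw [← isOpen_compl_iff, Metric.isOpen_iff]
  intro q hq
  have hqL : q ∈ L := by
    by_contra hcon
    exact hq (Or.inl hcon)
  have hqc : ∀ c, q ∉ closedBall (th (yc c)) (R c / 16) := fun c hc => hq (Or.inr (mem_iUnion.2 ⟨c, hc⟩))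
  obtain ⟨r, hr, hfin⟩ := h.fin q hqL
  have hop : IsOpen (L ∩ ⋂ c ∈ {c | (closedBall (th (yc c)) (2 * R c) ∩ ball q r).Nonempty},
      (closedBall (th (yc c)) (R c / 16))ᶜ) :=
    h.op.inter (hfin.isOpen_biInter fun c _ => isClosed_closedBall.isOpen_compl)
  obtain ⟨r', hr', hsub⟩ := Metric.isOpen_iff.1 hop q ⟨hqL, mem_iInter₂.2 fun c _ => hqc c⟩
  refine ⟨min r r', lt_min hr hr', fun x hx => ?_⟩
  rintro (hxL | hxc)
  · exact hxL (hsub (ball_subset_ball (min_le_right _ _) hx)).1
  · obtain ⟨c, hc⟩ := mem_iUnion.1 hxc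
    have h1 : c ∈ {c | (closedBall (th (yc c)) (2 * R c) ∩ ball q r).Nonempty} :=
      ⟨x, closedBall_subset_closedBall (by have := h.pos c; linarith) hc,
        ball_subset_ball (min_le_left _ _) hx⟩
    exact mem_iInter₂.1 (hsub (ball_subset_ball (min_le_right _ _) hx)).2 c h1 hc

/-! ### the sum over the holes -/

open Classical in
/-- the contribution of the active hole. -/
noncomputable def TT (th : V → V) (yc : ι → V) (R : ι → ℝ) (q y : V) : V :=
  if h : ∃ c, ‖q - th (yc c)‖ < 2 * R c then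
    om (R h.choose) ‖q - th (yc h.choose)‖ • xi yc (fun c => R c / 8) h.choose y else 0

lemma TT_act (h : Holes L C e th yc R) {c : ι} {q : V} (hq : ‖q - th (yc c)‖ < 2 * R c) (y : V) :
    TT th yc R q y = om (R c) ‖q - th (yc c)‖ • xi yc (fun c => R c / 8) c y := by
  have hex : ∃ c, ‖q - th (yc c)‖ < 2 * R c := ⟨c, hq⟩
  have hch : hex.choose = c := h.uniq hex.choose_spec hq.le
  rw [TT, dif_pos hex, hch]

lemma TT_none {q : V} (hq : ∀ c, 2 * R c ≤ ‖q - th (yc c)‖) (y : V) : TT th yc R q y = 0 := by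
  rw [TT, dif_neg]
  push Not
  exact hq

lemma TT_lip_y (h : Holes L C e th yc R) (q y y' : V) :
    ‖TT th yc R q y - TT th yc R q y'‖ ≤ 2 * ‖y - y'‖ := by
  by_cases hq : ∃ c, ‖q - th (yc c)‖ < 2 * R c
  · obtain ⟨c, hc⟩ := hq
    rw [TT_act h hc, TT_act h hc, ← smul_sub, norm_smul, Real.norm_eq_abs,
      abs_of_nonneg (om_nonneg _ _)]
    have h1 := xi_lip h.sep c y y'
    have h2 := om_le_one (R c) ‖q - th (yc c)‖
    calc om (R c) ‖q - th (yc c)‖ * ‖xi yc (fun c => R c / 8) c y - xi yc (fun c => R c / 8) c y'‖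
        ≤ 1 * (2 * ‖y - y'‖) := mul_le_mul h2 h1 (norm_nonneg _) zero_le_one
      _ = 2 * ‖y - y'‖ := one_mul _
  · push Not at hq
    rw [TT_none hq, TT_none hq, sub_self, norm_zero]; positivity

/-- the variation of one term. -/
lemma om_var (h : Holes L C e th yc R) (c : ι) (q q' y : V) :
    ‖om (R c) ‖q - th (yc c)‖ • xi yc (fun c => R c / 8) c y -
      om (R c) ‖q' - th (yc c)‖ • xi yc (fun c => R c / 8) c y‖ ≤ ‖q - q'‖ / 8 := by
  rw [← sub_smul, norm_smul, Real.norm_eq_abs]
  have h1 := om_lip (h.pos c) ‖q - th (yc c)‖ ‖q' - th (yc c)‖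
  have h2 : |‖q - th (yc c)‖ - ‖q' - th (yc c)‖| ≤ ‖q - q'‖ := by
    have := abs_norm_sub_norm_le (q - th (yc c)) (q' - th (yc c))
    rwa [show q - th (yc c) - (q' - th (yc c)) = q - q' by abel] at this
  have h3 : ‖xi yc (fun c => R c / 8) c y‖ ≤ R c / 8 := xi_norm h.sep c y
  have h4 := abs_nonneg (om (R c) ‖q - th (yc c)‖ - om (R c) ‖q' - th (yc c)‖)
  calc _ ≤ |om (R c) ‖q - th (yc c)‖ - om (R c) ‖q' - th (yc c)‖| * (R c / 8) :=
        mul_le_mul_of_nonneg_left h3 h4
    _ = (|om (R c) ‖q - th (yc c)‖ - om (R c) ‖q' - th (yc c)‖| * R c) / 8 := by ring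
    _ ≤ ‖q - q'‖ / 8 := by linarith

lemma TT_small (h : Holes L C e th yc R) {c : ι} {q q' : V} (hc : ‖q - th (yc c)‖ < 2 * R c)
    (hc' : 2 * R c ≤ ‖q' - th (yc c)‖) (y : V) : ‖TT th yc R q y‖ ≤ ‖q - q'‖ / 8 := by
  have := om_var h c q q' y
  rwa [om_zero (h.pos c) hc', zero_smul, sub_zero, ← TT_act h hc] at this

lemma TT_lip_q (h : Holes L C e th yc R) (q q' y : V) :
    ‖TT th yc R q y - TT th yc R q' y‖ ≤ ‖q - q'‖ / 4 := by
  have hn := norm_nonneg (q - q')
  by_cases h1 : ∃ c, ‖q - th (yc c)‖ < 2 * R c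
  · obtain ⟨c, hc⟩ := h1
    by_cases h2 : ‖q' - th (yc c)‖ < 2 * R c
    · rw [TT_act h hc, TT_act h h2]
      refine (om_var h c q q' y).trans (by linarith)
    · have e1 := TT_small h hc (not_lt.1 h2) y
      by_cases h3 : ∃ c, ‖q' - th (yc c)‖ < 2 * R c
      · obtain ⟨c', hc'⟩ := h3
        have h4 : 2 * R c' ≤ ‖q - th (yc c')‖ := by
          by_contra hcon
          have := h.uniq hc (not_le.1 hcon).le
          subst this
          exact h2 hc'
        have e2 := TT_small h hc' h4 y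
        rw [norm_sub_rev q' q] at e2
        refine (norm_sub_le _ _).trans (by linarith)
      · push Not at h3
        rw [TT_none h3, sub_zero]
        linarith
  · push Not at h1
    rw [TT_none h1, zero_sub, norm_neg]
    by_cases h3 : ∃ c, ‖q' - th (yc c)‖ < 2 * R c
    · obtain ⟨c', hc'⟩ := h3
      have e2 := TT_small h hc' (h1 c') y
      rw [norm_sub_rev q' q] at e2
      linarith
    · push Not at h3
      rw [TT_none h3, norm_zero]; positivity

/-! ### the implicit equation -/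

/-- right hand side of the implicit equation. -/
noncomputable def FF (L : Set V) (th : V → V) (yc : ι → V) (R : ι → ℝ) (y q : V) : V :=
  th (col yc (fun c => R c / 8) univ y) +
    del (ZZ L th yc R) q • rad (capf 4) (col yc (fun c => R c / 8) univ y - q) + TT th yc R q y

lemma FF_contr (h : Holes L C e th yc R) (y q q' : V) :
    ‖FF L th yc R y q - FF L th yc R y q'‖ ≤ ‖q - q'‖ / 2 := by
  have h1 := TT_lip_q h q q' y
  set z := col yc (fun c => R c / 8) univ y with hz
  set Z := ZZ L th yc R with hZ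
  have h2 : ‖del Z q • rad (capf 4) (z - q) - del Z q' • rad (capf 4) (z - q')‖ ≤ ‖q - q'‖ / 4 := by
    have e1 : del Z q • rad (capf 4) (z - q) - del Z q' • rad (capf 4) (z - q') =
        (del Z q - del Z q') • rad (capf 4) (z - q) +
          del Z q' • (rad (capf 4) (z - q) - rad (capf 4) (z - q')) := by
      rw [sub_smul, smul_sub]; abel
    rw [e1]
    refine (norm_add_le _ _).trans ?_
    rw [norm_smul, norm_smul, Real.norm_eq_abs, Real.norm_eq_abs, abs_of_nonneg (del_nonneg _ _)]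
    have e2 := del_lip Z q q'
    have e3 : ‖rad (capf 4) (z - q)‖ ≤ 4 := by
      rw [norm_capf (by norm_num)]; exact capf_le (by norm_num) _
    have e4 : ‖rad (capf 4) (z - q) - rad (capf 4) (z - q')‖ ≤ ‖q - q'‖ := by
      have := rad_capf_lip (t := 4) (by norm_num) (z - q) (z - q')
      rwa [show z - q - (z - q') = -(q - q') by abel, norm_neg] at this
    have e5 := del_le Z q'
    have e6 : |del Z q - del Z q'| * ‖rad (capf 4) (z - q)‖ ≤ ‖q - q'‖ / 32 * 4 :=
      mul_le_mul e2 e3 (norm_nonneg _) (by positivity)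
    have e7 : del Z q' * ‖rad (capf 4) (z - q) - rad (capf 4) (z - q')‖ ≤ 1 / 8 * ‖q - q'‖ :=
      mul_le_mul e5 e4 (norm_nonneg _) (by norm_num)
    linarith
  have e8 : FF L th yc R y q - FF L th yc R y q' =
      (del Z q • rad (capf 4) (z - q) - del Z q' • rad (capf 4) (z - q')) +
        (TT th yc R q y - TT th yc R q' y) := by
    rw [FF, FF]; abel
  rw [e8]
  refine (norm_add_le _ _).trans ?_
  linarith

lemma FF_lip (h : Holes L C e th yc R) (y y' q : V) :
    ‖FF L th yc R y q - FF L th yc R y' q‖ ≤ 25 / 4 * ‖y - y'‖ := by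
  have h1 := TT_lip_y h q y y'
  set z := col yc (fun c => R c / 8) univ y with hz
  set z' := col yc (fun c => R c / 8) univ y' with hz'
  set Z := ZZ L th yc R with hZ
  have hzz : ‖z - z'‖ ≤ 2 * ‖y - y'‖ := col_lip h.sep univ y y'
  have h2 : ‖th z - th z'‖ ≤ 4 * ‖y - y'‖ := by
    have e1 := h.lip z z'
    have e2 : C * ‖z - z'‖ ≤ 2 * ‖z - z'‖ := mul_le_mul_of_nonneg_right h.C2 (norm_nonneg _)
    linarith
  have h3 : ‖del Z q • rad (capf 4) (z - q) - del Z q • rad (capf 4) (z' - q)‖ ≤ 1 / 8 * (2 * ‖y - y'‖) := by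
    rw [← smul_sub, norm_smul, Real.norm_eq_abs, abs_of_nonneg (del_nonneg _ _)]
    have e4 : ‖rad (capf 4) (z - q) - rad (capf 4) (z' - q)‖ ≤ 2 * ‖y - y'‖ := by
      have := rad_capf_lip (t := 4) (by norm_num) (z - q) (z' - q)
      rw [show z - q - (z' - q) = z - z' by abel] at this
      exact this.trans hzz
    exact mul_le_mul (del_le Z q) e4 (norm_nonneg _) (by norm_num)
  have e8 : FF L th yc R y q - FF L th yc R y' q = (th z - th z') +
      (del Z q • rad (capf 4) (z - q) - del Z q • rad (capf 4) (z' - q)) +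
        (TT th yc R q y - TT th yc R q y') := by
    rw [FF, FF]; abel
  rw [e8]
  refine norm_add₃_le.trans ?_
  linarith

lemma exists_fix [CompleteSpace V] (h : Holes L C e th yc R) (y : V) :
    ∃ q, FF L th yc R y q = q := by
  have hc : ContractingWith (1 / 2) (FF L th yc R y) := by
    refine ⟨by
      rw [← NNReal.coe_lt_coe]; norm_num, LipschitzWith.of_dist_le_mul fun q q' => ?_⟩
    rw [dist_eq_norm, dist_eq_norm]
    have := FF_contr h y q q'
    push_cast
    linarith
  exact ⟨_, hc.fixedPoint_isFixedPt⟩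

lemma fix_lip (h : Holes L C e th yc R) {y y' q q' : V} (hq : FF L th yc R y q = q)
    (hq' : FF L th yc R y' q' = q') : ‖q - q'‖ ≤ 25 / 2 * ‖y - y'‖ := by
  have h1 := FF_contr h y q q'
  have h2 := FF_lip h y y' q'
  have h3 : ‖q - q'‖ ≤ ‖FF L th yc R y q - FF L th yc R y q'‖ +
      ‖FF L th yc R y q' - FF L th yc R y' q'‖ := by
    have h4 := norm_add_le (FF L th yc R y q - FF L th yc R y q') (FF L th yc R y q' - FF L th yc R y' q')
    rw [sub_add_sub_cancel] at h4
    have h5 : ‖q - q'‖ = ‖FF L th yc R y q - FF L th yc R y' q'‖ := by rw [hq, hq']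
    rw [h5]
    exact h4
  linarith

lemma fix_uniq (h : Holes L C e th yc R) {y q q' : V} (hq : FF L th yc R y q = q)
    (hq' : FF L th yc R y q' = q') : q = q' := by
  have h1 := fix_lip h hq hq'
  rw [sub_self, norm_zero, mul_zero] at h1
  exact sub_eq_zero.1 (norm_eq_zero.1 (le_antisymm h1 (norm_nonneg _)))

end Crest.Agent.R096.Ho_627
end

-- ▼ part R096/Ho4_627
section

/-!
Row 96 (S0127), helper627.  Hole-opening lemma (961 #9403), part 4: the homeomorphism.
-/

set_option autoImplicit false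
set_option linter.unusedSectionVars false
set_option linter.style.longLine false

namespace Crest.Agent.R096.Ho_627

open Set Metric Filter Topology
open Crest.Agent.R096.ThC6_766

variable {V : Type*} [NormedAddCommGroup V] [InnerProductSpace ℝ V] {ι : Type*}
variable {L : Set V} {C : ℝ} {e : V → ℝ} {th : V → V} {yc : ι → V} {R : ι → ℝ}

lemma TT_le_act (h : Holes L C e th yc R) {c : ι} {q : V} (hq : ‖q - th (yc c)‖ < 2 * R c) (y : V) :
    ‖TT th yc R q y‖ ≤ om (R c) ‖q - th (yc c)‖ * R c / 8 := by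
  rw [TT_act h hq, norm_smul, Real.norm_eq_abs, abs_of_nonneg (om_nonneg _ _)]
  have h1 : ‖xi yc (fun c => R c / 8) c y‖ ≤ R c / 8 := xi_norm h.sep c y
  have := mul_le_mul_of_nonneg_left h1 (om_nonneg (R c) ‖q - th (yc c)‖)
  linarith

lemma TT_le (h : Holes L C e th yc R) (q y : V) : ‖TT th yc R q y‖ ≤ e q / 60 := by
  by_cases hq : ∃ c, ‖q - th (yc c)‖ < 2 * R c
  · obtain ⟨c, hc⟩ := hq
    have h1 := TT_le_act h hc y
    have h2 := om_le_one (R c) ‖q - th (yc c)‖
    have h3 := h.pos c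
    have h4 : om (R c) ‖q - th (yc c)‖ * R c ≤ 1 * R c := mul_le_mul_of_nonneg_right h2 h3.le
    have h5 := h.small c
    have h6 := h.sc.lip (th (yc c)) q
    rw [norm_sub_rev] at h6
    linarith
  · push Not at hq
    rw [TT_none hq, norm_zero]
    have := h.sc.nonneg q
    positivity

lemma col_e (h : Holes L C e th yc R) (y : V) :
    ‖col yc (fun c => R c / 8) univ y - y‖ ≤ e y / 50 := by
  by_cases hy : ∃ c, ‖y - yc c‖ < 2 * (R c / 8)
  · obtain ⟨c, hc⟩ := hy
    have h1 := col_near h.sep (mem_univ c) hc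
    have h2 := h.pos c
    have h3 := h.small c
    have h4 := h.sc.lip (th (yc c)) (yc c)
    have h5 := h.near (yc c)
    have h6 := h.sc.lip (yc c) y
    rw [norm_sub_rev] at h6
    have h7 : ‖col yc (fun c => R c / 8) univ y - y‖ ≤ R c / 8 := h1
    linarith
  · push Not at hy
    have h1 : col yc (fun c => R c / 8) univ y = y := col_out fun c _ => hy c
    rw [h1, sub_self, norm_zero]
    have := h.sc.nonneg y
    positivity

/-- the solution is close to `z`, hence the truncation is not seen. -/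
lemma sol_eq (h : Holes L C e th yc R) {y q : V} (hq : FF L th yc R y q = q) :
    ‖col yc (fun c => R c / 8) univ y - q‖ ≤ 4 ∧
    q = th (col yc (fun c => R c / 8) univ y) +
      del (ZZ L th yc R) q • (col yc (fun c => R c / 8) univ y - q) + TT th yc R q y := by
  have hq' := hq
  rw [FF] at hq
  set z := col yc (fun c => R c / 8) univ y with hz
  set Z := ZZ L th yc R with hZ
  have h1 := TT_le h q y
  have h2 := h.sc.le_one q
  have h3 : ‖del Z q • rad (capf 4) (z - q)‖ ≤ 1 / 2 := by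
    rw [norm_smul, Real.norm_eq_abs, abs_of_nonneg (del_nonneg _ _)]
    have e3 : ‖rad (capf 4) (z - q)‖ ≤ 4 := by
      rw [norm_capf (by norm_num)]; exact capf_le (by norm_num) _
    have := mul_le_mul (del_le Z q) e3 (norm_nonneg _) (by norm_num)
    linarith
  have h4 := h.near z
  have h5 := h.sc.le_one z
  have h6 : ‖z - q‖ ≤ ‖th z - z‖ + ‖del Z q • rad (capf 4) (z - q)‖ + ‖TT th yc R q y‖ := by
    have : z - q = -((th z - z) + del Z q • rad (capf 4) (z - q) + TT th yc R q y) := by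
      nth_rewrite 1 [← hq]
      abel
    calc ‖z - q‖ = ‖(th z - z) + del Z q • rad (capf 4) (z - q) + TT th yc R q y‖ := by
          conv_lhs => rw [this]
          rw [norm_neg]
      _ ≤ _ := norm_add₃_le
  have h7 : ‖z - q‖ ≤ 4 := by linarith
  refine ⟨h7, ?_⟩
  rw [rad_capf_le h7] at hq
  exact hq.symm

lemma sol_near (h : Holes L C e th yc R) {y q : V} (hq : FF L th yc R y q = q) :
    ‖q - y‖ ≤ 5 / 4 * e y := by
  obtain ⟨-, h2⟩ := sol_eq h hq
  have h8 := col_e h y
  set z := col yc (fun c => R c / 8) univ y with hz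
  set Z := ZZ L th yc R with hZ
  have h1 := TT_le h q y
  have h3 : ‖del Z q • (z - q)‖ ≤ 1 / 8 * ‖z - q‖ := by
    rw [norm_smul, Real.norm_eq_abs, abs_of_nonneg (del_nonneg _ _)]
    exact mul_le_mul_of_nonneg_right (del_le Z q) (norm_nonneg _)
  have h4 := h.near z
  have h6 : ‖z - q‖ ≤ ‖th z - z‖ + ‖del Z q • (z - q)‖ + ‖TT th yc R q y‖ := by
    have : z - q = -((th z - z) + del Z q • (z - q) + TT th yc R q y) := by
      nth_rewrite 1 [h2]
      abel
    calc ‖z - q‖ = ‖(th z - z) + del Z q • (z - q) + TT th yc R q y‖ := by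
          conv_lhs => rw [this]
          rw [norm_neg]
      _ ≤ _ := norm_add₃_le
  have h7 := h.sc.lip q z
  rw [norm_sub_rev] at h7
  have h9 := h.sc.lip z y
  have h10 : ‖q - y‖ ≤ ‖z - q‖ + ‖z - y‖ := by
    have : q - y = -(z - q) + (z - y) := by abel
    rw [this]
    refine (norm_add_le _ _).trans ?_
    rw [norm_neg]
  have h11 := h.sc.nonneg y
  linarith

lemma TT_mono (h : Holes L C e th yc R) (q y y' : V) :
    0 ≤ inner ℝ (TT th yc R q y - TT th yc R q y')
      (col yc (fun c => R c / 8) univ y - col yc (fun c => R c / 8) univ y') := by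
  by_cases hq : ∃ c, ‖q - th (yc c)‖ < 2 * R c
  · obtain ⟨c, hc⟩ := hq
    rw [TT_act h hc, TT_act h hc, ← smul_sub, real_inner_smul_left]
    exact mul_nonneg (om_nonneg _ _) (xi_mono h.sep c y y')
  · push Not at hq
    rw [TT_none hq, TT_none hq, sub_self, inner_zero_left]

/-- a solution with `z` a centre is near the image of this centre. -/
lemma near_center (h : Holes L C e th yc R) {y q : V} (hq : FF L th yc R y q = q) {c : ι}
    (hz : col yc (fun c => R c / 8) univ y = yc c) : ‖q - th (yc c)‖ ≤ R c := by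
  obtain ⟨h1, h2⟩ := sol_eq h hq
  rw [hz] at h1 h2
  have hpZ : th (yc c) ∈ ZZ L th yc R := Or.inr (mem_iUnion.2 ⟨c, by
    rw [mem_closedBall, dist_self]; have := h.pos c; positivity⟩)
  have h3 := del_le_dist hpZ q
  set t := ‖q - th (yc c)‖ with ht
  have h0 : 0 ≤ t := norm_nonneg _
  have h4 : ‖del (ZZ L th yc R) q • (yc c - q)‖ ≤ t / 8 := by
    rw [norm_smul, Real.norm_eq_abs, abs_of_nonneg (del_nonneg _ _)]
    have := mul_le_mul h3 h1 (norm_nonneg _) (by positivity)
    linarith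
  have h5 : t ≤ t / 8 + ‖TT th yc R q y‖ := by
    have e1 : q - th (yc c) = del (ZZ L th yc R) q • (yc c - q) + TT th yc R q y := by
      nth_rewrite 1 [h2]
      abel
    have e2 : t ≤ ‖del (ZZ L th yc R) q • (yc c - q)‖ + ‖TT th yc R q y‖ := by
      rw [ht]
      conv_lhs => rw [e1]
      exact norm_add_le _ _
    linarith
  have hpos := h.pos c
  by_cases hact : ∃ c', ‖q - th (yc c')‖ < 2 * R c'
  · obtain ⟨c', hc'⟩ := hact
    have h6 := TT_le_act h hc' y
    by_cases hcc : c' = c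
    · subst hcc
      have h7 := om_le_one (R c') ‖q - th (yc c')‖
      have h8 : om (R c') ‖q - th (yc c')‖ * R c' ≤ 1 * R c' := mul_le_mul_of_nonneg_right h7 hpos.le
      linarith
    · exfalso
      have h7 := h.disj c' c hcc
      have h8 := om_le (h.pos c') hc'.le
      have h9 : ‖th (yc c') - th (yc c)‖ ≤ ‖q - th (yc c')‖ + t := by
        have : th (yc c') - th (yc c) = (q - th (yc c)) - (q - th (yc c')) := by abel
        rw [this]
        refine (norm_sub_le _ _).trans ?_
        linarith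
      linarith
  · push Not at hact
    rw [TT_none hact, norm_zero] at h5
    linarith

/-- a solution off `L`. -/
lemma sol_off (h : Holes L C e th yc R) {y q : V} (hq : FF L th yc R y q = q) (hL : q ∉ L) :
    y = q := by
  obtain ⟨-, h2⟩ := sol_eq h hq
  have hdel : del (ZZ L th yc R) q = 0 := (del_eq_zero h.closedZ).2 (Or.inl hL)
  have hact : ∀ c, 2 * R c ≤ ‖q - th (yc c)‖ := fun c => by
    by_contra hcon
    exact hL (h.ballp (not_le.1 hcon).le)
  rw [hdel, zero_smul, add_zero, TT_none hact, add_zero] at h2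
  have hzL : col yc (fun c => R c / 8) univ y ∉ L := fun hz => hL (h2 ▸ h.memL hz)
  have hz : col yc (fun c => R c / 8) univ y = q := by rw [h.off hzL] at h2; exact h2.symm
  have hout : ∀ c ∈ (univ : Set ι), 2 * (R c / 8) ≤ ‖y - yc c‖ := by
    intro c _
    by_contra hcon
    have hlt := not_le.1 hcon
    have e1 := col_in h.sep (mem_univ c) hlt
    apply hzL
    apply h.bally (c := c)
    rw [e1, add_sub_cancel_left, norm_colf (by have := h.pos c; positivity)]
    have := h.pos c
    have := colf_le (s := R c / 8) (norm_nonneg (y - yc c))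
    linarith
  rw [col_out hout] at hz
  exact hz

/-- a solution in a core. -/
lemma sol_core (h : Holes L C e th yc R) {y q : V} (hq : FF L th yc R y q = q) {c : ι}
    (hc : ‖q - th (yc c)‖ ≤ R c / 16) : y = yc c + (q - th (yc c)) := by
  obtain ⟨-, h2⟩ := sol_eq h hq
  have hpos := h.pos c
  have hdel : del (ZZ L th yc R) q = 0 := (del_eq_zero h.closedZ).2 (Or.inr (mem_iUnion.2
    ⟨c, by rwa [mem_closedBall, dist_eq_norm]⟩))
  rw [hdel, zero_smul, add_zero, TT_act h (c := c) (by linarith), om_one hpos (by linarith),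
    one_smul] at h2
  have hx : 0 ≤ inner ℝ (th (col yc (fun c => R c / 8) univ y) - th (yc c))
      (xi yc (fun c => R c / 8) c y) := by
    rcases xi_par h.sep c y with h3 | ⟨k, hk, h3⟩
    · rw [h3, sub_self, inner_zero_left]
    · rw [h3, real_inner_smul_right]
      exact mul_nonneg hk (h.mono _ _)
  have hsq : ‖xi yc (fun c => R c / 8) c y‖ ^ 2 ≤ ‖q - th (yc c)‖ ^ 2 := by
    have e1 : q - th (yc c) = (th (col yc (fun c => R c / 8) univ y) - th (yc c)) +
        xi yc (fun c => R c / 8) c y := by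
      nth_rewrite 1 [h2]
      abel
    rw [e1, norm_add_sq_real]
    have := sq_nonneg ‖th (col yc (fun c => R c / 8) univ y) - th (yc c)‖
    linarith
  have hn : ‖xi yc (fun c => R c / 8) c y‖ ≤ ‖q - th (yc c)‖ := by
    exact (sq_le_sq₀ (norm_nonneg _) (norm_nonneg _)).1 hsq
  have hlt : ‖xi yc (fun c => R c / 8) c y‖ < R c / 8 := by linarith
  obtain ⟨e2, e3⟩ := of_xi_lt h.sep hlt
  rw [e2, e3] at h2
  have e4 : q - th (yc c) = y - yc c := by
    nth_rewrite 1 [h2]
    abel
  rw [e4]; abel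

lemma sol_inj (h : Holes L C e th yc R) {y y' q : V} (hq : FF L th yc R y q = q)
    (hq' : FF L th yc R y' q = q) : y = y' := by
  by_cases hZ : q ∈ ZZ L th yc R
  · rcases hZ with hL | hc
    · rw [sol_off h hq hL, sol_off h hq' hL]
    · obtain ⟨c, hc⟩ := mem_iUnion.1 hc
      rw [mem_closedBall, dist_eq_norm] at hc
      rw [sol_core h hq hc, sol_core h hq' hc]
  · have hdel : 0 < del (ZZ L th yc R) q := lt_of_le_of_ne (del_nonneg _ _) fun h0 =>
      hZ ((del_eq_zero h.closedZ).1 h0.symm)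
    obtain ⟨-, h1⟩ := sol_eq h hq
    obtain ⟨-, h2⟩ := sol_eq h hq'
    have hT := TT_mono h q y y'
    set z := col yc (fun c => R c / 8) univ y with hz
    set z' := col yc (fun c => R c / 8) univ y' with hz'
    have h3 : (th z - th z') + del (ZZ L th yc R) q • (z - z') +
        (TT th yc R q y - TT th yc R q y') = 0 := by
      have e1 : (th z - th z') + del (ZZ L th yc R) q • (z - z') +
        (TT th yc R q y - TT th yc R q y') =
        (th z + del (ZZ L th yc R) q • (z - q) + TT th yc R q y) -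
        (th z' + del (ZZ L th yc R) q • (z' - q) + TT th yc R q y') := by
        rw [smul_sub, smul_sub, smul_sub]; abel
      rw [e1, ← h1, ← h2, sub_self]
    have h4 : inner ℝ ((th z - th z') + del (ZZ L th yc R) q • (z - z') +
        (TT th yc R q y - TT th yc R q y')) (z - z') = (0 : ℝ) := by
      rw [h3, inner_zero_left]
    rw [inner_add_left, inner_add_left, real_inner_smul_left, real_inner_self_eq_norm_sq] at h4
    have h5 := h.mono z z'
    have h6 : del (ZZ L th yc R) q * ‖z - z'‖ ^ 2 ≤ 0 := by linarith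
    have h7 : ‖z - z'‖ ^ 2 ≤ 0 := by
      by_contra hcon
      have := mul_pos hdel (not_le.1 hcon)
      linarith
    have h8 : z = z' := by
      have : ‖z - z'‖ = 0 := by
        have := sq_nonneg ‖z - z'‖
        exact pow_eq_zero_iff (two_ne_zero) |>.1 (le_antisymm h7 this)
      exact sub_eq_zero.1 (norm_eq_zero.1 this)
    by_cases hc : ∃ c, z = yc c
    · obtain ⟨c, hc⟩ := hc
      have hc' : z' = yc c := h8 ▸ hc
      obtain ⟨-, e1⟩ := of_col_eq h.sep hc
      obtain ⟨-, e2⟩ := of_col_eq h.sep hc'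
      have e3 := near_center h hq hc
      have hpos := h.pos c
      rw [h8, sub_self, sub_self, smul_zero, zero_add, zero_add,
        TT_act h (c := c) (by linarith), TT_act h (c := c) (by linarith), om_one hpos e3,
        one_smul, one_smul, e1, e2] at h3
      have : y - y' = 0 := by rw [← h3]; abel
      exact sub_eq_zero.1 this
    · push Not at hc
      exact col_inj h.sep h8 hc

lemma core_sol (h : Holes L C e th yc R) {y : V} {c : ι} (hy : ‖y - yc c‖ ≤ R c / 16) :
    FF L th yc R y (th (yc c) + (y - yc c)) = th (yc c) + (y - yc c) := by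
  have hpos := h.pos c
  obtain ⟨e1, e2⟩ := of_ball h.sep (c := c) (y := y) (by
    show ‖y - yc c‖ ≤ R c / 8
    linarith)
  have e3 : th (yc c) + (y - yc c) - th (yc c) = y - yc c := by abel
  have hdel : del (ZZ L th yc R) (th (yc c) + (y - yc c)) = 0 :=
    (del_eq_zero h.closedZ).2 (Or.inr (mem_iUnion.2 ⟨c, by
      rw [mem_closedBall, dist_eq_norm, e3]; exact hy⟩))
  rw [FF, hdel, zero_smul, add_zero, TT_act h (c := c) (by rw [e3]; linarith), e3,
    om_one hpos (by linarith), one_smul, e1, e2]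

lemma free_sol {y : V} (hy : th y = y)
    (h1 : ∀ c, R c / 4 ≤ ‖y - yc c‖) (h2 : ∀ c, 2 * R c ≤ ‖y - th (yc c)‖) :
    FF L th yc R y y = y := by
  have e1 : col yc (fun c => R c / 8) univ y = y := col_out fun c _ => by
    have := h1 c
    linarith
  rw [FF, e1, TT_none h2, hy, sub_self, add_zero]
  have : rad (capf 4) (0 : V) = 0 := by rw [rad, smul_zero]
  rw [this, smul_zero, add_zero]

/-- **the hole-opening lemma.** -/
theorem hole_opening [FiniteDimensional ℝ V] (h : Holes L C e th yc R) :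
    ∃ Th : V ≃ₜ V, (∀ y, y ∉ L → Th y = y) ∧ (∀ y, Th y ∈ L ↔ y ∈ L) ∧
      (∀ y, ‖Th y - y‖ ≤ 5 / 4 * e y) ∧
      (∀ y y', ‖Th y - Th y'‖ ≤ 25 / 2 * ‖y - y'‖) ∧
      (∀ c y, ‖y - yc c‖ ≤ R c / 16 → Th y = th (yc c) + (y - yc c)) ∧
      (∀ c y, ‖Th y - th (yc c)‖ ≤ R c / 16 → y = yc c + (Th y - th (yc c))) ∧
      (∀ y, th y = y → (∀ c, R c / 4 ≤ ‖y - yc c‖) → (∀ c, 2 * R c ≤ ‖y - th (yc c)‖) →
        Th y = y) := by
  have hcomp : CompleteSpace V := FiniteDimensional.complete ℝ V
  have hprop : ProperSpace V := FiniteDimensional.proper_real V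
  choose T hT using exists_fix h
  have hlip : ∀ y y', ‖T y - T y'‖ ≤ 25 / 2 * ‖y - y'‖ := fun y y' => fix_lip h (hT y) (hT y')
  have hcont : Continuous T := by
    have : LipschitzWith (25 / 2 : ℝ).toNNReal T := by
      apply LipschitzWith.of_dist_le_mul
      intro y y'
      rw [dist_eq_norm, dist_eq_norm, Real.coe_toNNReal _ (by norm_num)]
      exact hlip y y'
    exact this.continuous
  have hnear : ∀ y, ‖T y - y‖ ≤ 5 / 4 * e y := fun y => sol_near h (hT y)
  have hnear2 : ∀ y, ‖T y - y‖ ≤ 2 := fun y => by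
    have := hnear y
    have := h.sc.le_one y
    linarith
  have hinj : Function.Injective T := fun y y' hyy => sol_inj h (hT y) (by
    rw [hyy]; exact hT y')
  have hsurj : Function.Surjective T := by
    intro q0
    obtain ⟨x, hx⟩ := R332.Full.exists_zero_of_inner_pos (fun x => T x - q0)
      (hcont.sub continuous_const) (‖q0‖ + 3) (by positivity) (by
      intro x hx
      have e1 : T x - q0 = x + ((T x - x) - q0) := by abel
      rw [e1, inner_add_left, real_inner_self_eq_norm_sq]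
      have e2 : |inner ℝ ((T x - x) - q0) x| ≤ ‖(T x - x) - q0‖ * ‖x‖ := abs_real_inner_le_norm _ _
      have e3 : ‖(T x - x) - q0‖ ≤ 2 + ‖q0‖ := (norm_sub_le _ _).trans (by
        have := hnear2 x
        linarith)
      have e4 : ‖(T x - x) - q0‖ * ‖x‖ ≤ (2 + ‖q0‖) * ‖x‖ :=
        mul_le_mul_of_nonneg_right e3 (norm_nonneg _)
      have e5 := (abs_le.1 e2).1
      have e6 := norm_nonneg q0
      nlinarith)
    exact ⟨x, sub_eq_zero.1 hx⟩
  have hclosed : IsClosedMap T := by
    have hp : IsProperMap T := by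
      rw [isProperMap_iff_tendsto_cocompact]
      refine ⟨hcont, ?_⟩
      rw [← Metric.cobounded_eq_cocompact, ← tendsto_norm_atTop_iff_cobounded]
      have e1 : Tendsto (fun y : V => ‖y‖ - 2) (Bornology.cobounded V) atTop :=
        tendsto_atTop_add_const_right _ (-2 : ℝ) tendsto_norm_cobounded_atTop
      refine tendsto_atTop_mono (fun y => ?_) e1
      have e2 := hnear2 y
      have e3 := norm_sub_norm_le y (y - T y)
      rw [sub_sub_cancel] at e3
      rw [norm_sub_rev] at e2
      linarith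
    exact hp.isClosedMap
  let Eq : V ≃ V := Equiv.ofBijective T ⟨hinj, hsurj⟩
  have huniq : ∀ y q, FF L th yc R y q = q → T y = q := fun y q hq => fix_uniq h (hT y) hq
  have hoff : ∀ y, y ∉ L → T y = y := fun y hy => huniq y y (free_sol (h.off hy) (fun c => by
      by_contra hcon
      have := h.pos c
      exact hy (h.bally (c := c) (by linarith))) (fun c => by
      by_contra hcon
      exact hy (h.ballp (not_le.1 hcon).le)))
  refine ⟨Eq.toHomeomorphOfContinuousClosed hcont hclosed, hoff, ?_, hnear, hlip, ?_, ?_, ?_⟩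
  · intro y
    show T y ∈ L ↔ y ∈ L
    constructor
    · intro hy
      by_contra hcon
      rw [hoff y hcon] at hy
      exact hcon hy
    · intro hy
      by_contra hcon
      have := hinj (hoff _ hcon)
      rw [this] at hcon
      exact hcon hy
  · intro c y hy
    exact huniq y _ (core_sol h hy)
  · intro c y hy
    exact sol_core h (hT y) hy
  · intro y h1 h2 h3
    exact huniq y y (free_sol h1 h2 h3)

end Crest.Agent.R096.Ho_627
end

-- ▼ part R096/Ho5_627

/-!
Row 96 (S0127), helper627.  Hole-opening lemma for the collapse maps `Lag` of 766, for a family of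
holes given by their IMAGES: points `p i ∈ L` and radii `R i`.
-/

set_option autoImplicit false
set_option linter.unusedSectionVars false
set_option linter.style.longLine false

namespace Crest.Agent.R096.Ho_627

open Set Metric Filter Topology
open Crest.Agent.R096.ThC3_766
open Crest.Agent.R096.ThC6_766
open Crest.Agent.R096.ThC7_766

variable {V : Type*} [NormedAddCommGroup V] [InnerProductSpace ℝ V]
variable {L : Set V} {C : ℝ} {e : V → ℝ} {D S : Set V} {a : S → V} {c : S → ℝ}
    {Phi : V → ℝ} {th : V → V}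


/-- the hole-opening lemma for holes given by their images. `tag` is what we know of the centres. -/
theorem hole_opening_image [FiniteDimensional ℝ V] {ι : Type*} (hL : IsOpen L) (he : Scale L e)
    (hC2 : C ≤ 2) (mono : ∀ y y', 0 ≤ inner ℝ (th y - th y') (y - y'))
    (lip : ∀ y y', ‖th y - th y'‖ ≤ C * ‖y - y'‖) (near : ∀ y, ‖th y - y‖ ≤ e y)
    {Q : V → Prop} (p : ι → V) (R : ι → ℝ) (hex : ∀ i, ∃ y, th y = p i ∧ Q y)
    (pos : ∀ i, 0 < R i) (small : ∀ i, R i ≤ e (p i) / 8)
    (disj : ∀ i j, i ≠ j → 2 * R i + 2 * R j < ‖p i - p j‖)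
    (fin : ∀ q ∈ L, ∃ r : ℝ, 0 < r ∧ {i | (closedBall (p i) (2 * R i) ∩ ball q r).Nonempty}.Finite) :
    ∃ (yc : ι → V) (Th : V ≃ₜ V), (∀ i, th (yc i) = p i ∧ Q (yc i)) ∧
      (∀ y, y ∉ L → Th y = y) ∧ (∀ y, Th y ∈ L ↔ y ∈ L) ∧
      (∀ y, ‖Th y - y‖ ≤ 5 / 4 * e y) ∧
      (∀ y y', ‖Th y - Th y'‖ ≤ 25 / 2 * ‖y - y'‖) ∧
      (∀ i y, ‖y - yc i‖ ≤ R i / 16 → Th y = p i + (y - yc i)) ∧
      (∀ i y, ‖Th y - p i‖ ≤ R i / 16 → y = yc i + (Th y - p i)) ∧
      (∀ y, th y = y → (∀ i, R i / 4 ≤ ‖y - yc i‖) → (∀ i, 2 * R i ≤ ‖y - p i‖) → Th y = y) := by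
  choose yc hyc using hex
  have hp : ∀ i, th (yc i) = p i := fun i => (hyc i).1
  have H : Holes L C e th yc R :=
    { op := hL, sc := he, C2 := hC2, mono := mono, lip := lip, near := near, pos := pos
      small := fun i => by rw [hp]; exact small i
      disj := fun i j hij => by rw [hp, hp]; exact disj i j hij
      fin := fun q hq => by
        obtain ⟨r, hr, hf⟩ := fin q hq
        refine ⟨r, hr, ?_⟩
        simp only [hp]
        exact hf }
  obtain ⟨Th, h1, h2, h3, h4, h5, h6, h7⟩ := hole_opening H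
  simp only [hp] at h5 h6 h7
  exact ⟨yc, Th, hyc, h1, h2, h3, h4, h5, h6, h7⟩


end Crest.Agent.R096.Ho_627
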