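import Crest.Agent.R096.ThC7_766

/-!
Row 96 (S0127), helper766.  Final form of the PL version of Theorem C (#4068, #6574 (3)).
-/

set_option autoImplicit false
set_option linter.unusedSectionVars false
set_option linter.style.longLine false

namespace Crest.Agent.R096.ThC8_766

open MeasureTheory Set Filter Topology Metric
open Crest.Agent.R096.ThC3_766
open Crest.Agent.R096.ThC5_766
open Crest.Agent.R096.ThC6_766
open Crest.Agent.R096.ThC7_766

variable {V : Type*} [NormedAddCommGroup V] [InnerProductSpace ℝ V]

section api

variable {L : Set V} {C : ℝ} {e : V → ℝ} {D S : Set V} {a : S → V} {c : S → ℝ}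
    {Phi : V → ℝ} {th : V → V}


/-- the open cell of `k`, a core: `th` is a similarity there. -/
lemma core (h : Lag L C e D S a c Phi th) {p : V} (hp : p ∈ L) {k : S}
    (hk : act a c p = {k}) {y : V} : th y = p ∧ y ∈ L ↔ y = (1 / C) • p + a k := by
  constructor
  · rintro ⟨hy, hyL⟩
    obtain ⟨z, hz, hyz⟩ := h.fib y hyL
    rw [hy, hk, image_singleton, convexHull_singleton, mem_singleton_iff] at hz
    rw [hyz, hy, hz]
  · rintro rfl
    have := h.fib' p hp (a k) (by
      rw [hk, image_singleton, convexHull_singleton]; exact mem_singleton _)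
    exact ⟨this.2, this.1⟩

/-- the cells. -/
def cell (L : Set V) (a : S → V) (c : S → ℝ) (k : S) : Set V := {p | p ∈ L ∧ k ∈ act a c p}



lemma cell_near (he : Scale L e) (h : Lag L C e D S a c Phi th) {k : S} {p : V}
    (hp : p ∈ cell L a c k) : ‖p - k‖ ≤ e k / 2 := by
  have h1 := h.near_ctr p hp.1 k hp.2
  have h2 := he.lip p k
  have h3 := he.nonneg p
  linarith






end api

variable [FiniteDimensional ℝ V] [MeasurableSpace V] [BorelSpace V]


end Crest.Agent.R096.ThC8_766
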