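import Crest.Agent.R096.ThC9_766
import Crest.Agent.R096.ThC8_766
import Crest.Agent.R096.Sel2_766
import Crest.Agent.R096.Ho5_627
import Crest.Agent.R096.Core2_124

-- ▼ part R096/ThCi1_766
section

/-!
Row 96 (S0127), helper766.  Tools for the scale invariant localised Theorem C: packing numbers,
sums of semiconcave functions with bounded overlap, the bump with explicit threshold, separated nets.
-/

set_option autoImplicit false
set_option linter.unusedSectionVars false
set_option linter.style.longLine false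
set_option linter.style.haveILetI false
set_option linter.unusedVariables false

namespace Crest.Agent.R096.ThCi1_766

open MeasureTheory Set Filter Topology Metric
open scoped ENNReal
open Crest.Agent.R096.ThC2_766 Crest.Agent.R096.ThC3_766 Crest.Agent.R096.ThC4_766
open Crest.Agent.R096.ThC5_766 Crest.Agent.R096.ThC6_766 Crest.Agent.R096.ThC7_766

variable {V : Type*} [NormedAddCommGroup V] [InnerProductSpace ℝ V]

/-- packing numbers. -/
theorem packing [FiniteDimensional ℝ V] (K : ℝ) : ∃ N : ℕ, ∀ (x : V) (t : ℝ), 0 < t → ∀ S : Set V,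
    (∀ a ∈ S, ∀ b ∈ S, a ≠ b → t ≤ ‖a - b‖) → (∀ a ∈ S, ‖a - x‖ ≤ K * t) → S.Finite ∧ S.ncard ≤ N := by
  classical
  have : ProperSpace V := FiniteDimensional.proper_real V
  obtain ⟨T, -, hTf, hT⟩ := (isCompact_closedBall (0 : V) K).finite_cover_balls
    (e := 1 / 2) (by norm_num)
  refine ⟨T.ncard, fun x t ht S hsep hK => ?_⟩
  have h1 : ∀ a ∈ S, ∃ y ∈ T, (1 / t) • (a - x) ∈ ball y (1 / 2) := by
    intro a ha
    have h2 : (1 / t) • (a - x) ∈ closedBall (0 : V) K := by
      rw [mem_closedBall, dist_zero_right, norm_smul, Real.norm_of_nonneg (by positivity)]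
      rw [one_div, inv_mul_le_iff₀ ht, mul_comm]
      exact hK a ha
    obtain ⟨y, hy⟩ := mem_iUnion.1 (hT h2)
    obtain ⟨hyT, hy⟩ := mem_iUnion.1 hy
    exact ⟨y, hyT, hy⟩
  choose! F hFT hF using h1
  have hinj : InjOn F S := by
    intro a ha b hb hab
    by_contra hne
    have h2 := hF a ha
    have h3 := hF b hb
    rw [← hab] at h3
    rw [mem_ball, dist_eq_norm] at h2 h3
    have h4 : (1 / t) • (a - b) = ((1 / t) • (a - x) - F a) - ((1 / t) • (b - x) - F a) := by
      rw [sub_sub_sub_cancel_right, ← smul_sub, sub_sub_sub_cancel_right]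
    have h5 : ‖(1 / t) • (a - b)‖ < 1 := by
      rw [h4]
      have := norm_sub_le ((1 / t) • (a - x) - F a) ((1 / t) • (b - x) - F a)
      linarith
    rw [norm_smul, Real.norm_of_nonneg (by positivity), one_div, inv_mul_lt_iff₀ ht, mul_one] at h5
    exact absurd (hsep a ha b hb hne) (not_le.2 h5)
  exact ⟨Set.Finite.of_finite_image (hTf.subset (by rintro _ ⟨a, ha, rfl⟩; exact hFT a ha)) hinj,
    Set.ncard_le_ncard_of_injOn F hFT hinj hTf⟩

/-- sums of nonnegative semiconcave functions with bounded overlap. -/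
theorem SC_finsum {ι : Type*} {g : ι → V → ℝ} {β : ℝ} {N : ℕ} (hβ : 0 < β) (hSC : ∀ k, SC β (g k))
    (h0 : ∀ k x, 0 ≤ g k x) (hfin : ∀ x, (Function.support fun k => g k x).Finite)
    (hN : ∀ x, (Function.support fun k => g k x).ncard ≤ N) :
    SC (2 * N * β) (fun x => ∑ᶠ k, g k x) := by
  classical
  intro x
  choose p hp using fun k => hSC k x
  have hp0 : ∀ k, g k x = 0 → p k = 0 := by
    intro k hk
    have h1 := slope_sq hβ (h0 k) (hp k)
    rw [hk, mul_zero] at h1
    have h2 : ‖p k‖ = 0 := by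
      have := norm_nonneg (p k)
      nlinarith
    exact norm_eq_zero.1 h2
  set F : V → Finset ι := fun y => (hfin y).toFinset with hF
  have hFc : ∀ y, (F y).card ≤ N := fun y => by
    have := hN y
    rwa [Set.ncard_eq_toFinset_card _ (hfin y)] at this
  refine ⟨∑ k ∈ F x, p k, fun y => ?_⟩
  set s : Finset ι := F x ∪ F y with hs
  have e1 : ∑ᶠ k, g k y = ∑ k ∈ s, g k y := by
    apply finsum_eq_sum_of_support_subset
    intro k hk
    simp only [hs, Finset.coe_union, mem_union, Finset.mem_coe]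
    exact Or.inr ((hfin y).mem_toFinset.2 hk)
  have e2 : ∑ᶠ k, g k x = ∑ k ∈ s, g k x := by
    apply finsum_eq_sum_of_support_subset
    intro k hk
    simp only [hs, Finset.coe_union, mem_union, Finset.mem_coe]
    exact Or.inl ((hfin x).mem_toFinset.2 hk)
  have e3 : ∑ k ∈ F x, p k = ∑ k ∈ s, p k := by
    apply Finset.sum_subset Finset.subset_union_left
    intro k _ hk
    apply hp0
    by_contra h
    exact hk ((hfin x).mem_toFinset.2 h)
  simp only
  rw [e1, e2, e3, sum_inner]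
  have h1 : ∑ k ∈ s, g k y ≤ ∑ k ∈ s, (g k x + inner ℝ (p k) (y - x) + β / 2 * ‖y - x‖ ^ 2) :=
    Finset.sum_le_sum fun k _ => hp k y
  rw [Finset.sum_add_distrib, Finset.sum_add_distrib, Finset.sum_const, nsmul_eq_mul] at h1
  have h2 : (s.card : ℝ) ≤ 2 * N := by
    have h3 : s.card ≤ 2 * N := (Finset.card_union_le _ _).trans (by have := hFc x; have := hFc y; omega)
    exact_mod_cast h3
  have h3 : (s.card : ℝ) * (β / 2 * ‖y - x‖ ^ 2) ≤ 2 * N * (β / 2 * ‖y - x‖ ^ 2) :=
    mul_le_mul_of_nonneg_right h2 (by positivity)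
  linarith

/-- separated nets. -/
theorem exists_net_sep {L : Set V} {w : V → ℝ} (hw : Scale L w) :
    ∃ S : Set V, S ⊆ L ∧ (∀ z ∈ L, ∃ x ∈ S, ‖z - x‖ ≤ w z) ∧
      ∀ x ∈ S, ∀ y ∈ S, x ≠ y → w x / 2 ≤ ‖x - y‖ := by
  set F : Set (Set V) := {S | S ⊆ L ∧ ∀ x ∈ S, ∀ y ∈ S, x ≠ y → w x / 2 ≤ ‖x - y‖} with hF
  obtain ⟨S, hSmax⟩ := zorn_subset F (by
    intro c hc hchain
    refine ⟨⋃₀ c, ⟨?_, ?_⟩, fun s hs => subset_sUnion_of_mem hs⟩
    · exact sUnion_subset fun s hs => (hc hs).1
    · rintro x ⟨s, hs, hxs⟩ y ⟨t, ht, hyt⟩ hxy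
      rcases hchain.total hs ht with h | h
      · exact (hc ht).2 x (h hxs) y hyt hxy
      · exact (hc hs).2 x hxs y (h hyt) hxy)
  have hS : S ∈ F := hSmax.prop
  have hsep : ∀ x ∈ S, ∀ y ∈ S, x ≠ y → w x / 2 ≤ ‖x - y‖ := hS.2
  refine ⟨S, hS.1, ?_, hsep⟩
  intro z hz
  by_contra hcon
  push Not at hcon
  have hzS : z ∉ S := fun h => by
    have := hcon z h
    rw [sub_self, norm_zero] at this
    exact absurd this (not_lt.2 (hw.nonneg z))
  have hins : insert z S ∈ F := by
    refine ⟨insert_subset hz hS.1, ?_⟩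
    intro x hx y hy hxy
    rcases hx with rfl | hx
    · rcases hy with rfl | hy
      · exact absurd rfl hxy
      · have := hcon y hy
        have := hw.nonneg x
        linarith
    · rcases hy with rfl | hy
      · have h1 := hcon x hx
        have h2 := hw.lip x y
        rw [norm_sub_rev] at h1
        have h3 := hw.nonneg y
        linarith
      · exact hsep x hx y hy hxy
  have := hSmax.eq_of_subset hins (subset_insert z S)
  exact hzS (this ▸ mem_insert z S)

variable [FiniteDimensional ℝ V] [MeasurableSpace V] [BorelSpace V]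

/-- the bump with explicit threshold. -/
lemma one_bump' [Nontrivial V] {z : V} {r b : ℝ} (hr : 0 < r) (hb : 0 < b) {W D : Set V}
    (hWo : IsOpen W)
    (hvol0 : (3 * 2) ^ (Module.finrank ℝ V) * (volume : Measure V).real (W ∩ ball z (3 / 2 * r))
      < (volume : Measure V).real (closedBall 0 (b * r / 48)))
    (hD : IsClosed D) (hDW : D ∩ closedBall z r ⊆ W) :
      ∃ g : V → ℝ, Continuous g ∧ SC b g ∧ (∀ x, 0 ≤ g x) ∧ (∀ x, g x ≤ b * r ^ 2 / 8) ∧
        (∀ x, 2 * r ≤ ‖x - z‖ → g x = 0) ∧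
        ∀ x ∈ D ∩ closedBall z r, ∃ s : ℝ, 0 < s ∧ ∀ p : V,
          ¬ ∀ y ∈ closedBall x (2 * s), g x + inner ℝ p (y - x) - 2 / 2 * ‖y - x‖ ^ 2 ≤ g y := by
  have : ProperSpace V := FiniteDimensional.proper_real V
  set R : ℝ := 2 * r with hR
  have hR0 : 0 < R := by positivity
  set ρ : ℝ := b * r / 48 with hρdef
  have hRr : 0 < R - 3 / 2 * r := by rw [hR]; linarith
  have hρ : 0 < ρ := by positivity
  have hbr : 0 < b * r := by positivity
  have hρ1 : ρ ≤ b * R / 2 := by
    rw [hρdef, hR]; linarith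
  have hρ2 : 3 * ρ * R ≤ b / 2 * (R - 3 / 2 * r) ^ 2 := by
    rw [hρdef, hR]
    apply le_of_eq
    ring
  have hρ3 : 3 * ρ * R ≤ b * r ^ 2 / 8 := by
    rw [hρdef, hR]
    apply le_of_eq
    ring
  set N := Module.finrank ℝ V with hN
  have hK : IsCompact (D ∩ closedBall z r) := (isCompact_closedBall z r).inter_left hD
  have hW' : IsOpen (W ∩ ball z (3 / 2 * r)) := hWo.inter isOpen_ball
  obtain ⟨δ, hδ, hδW⟩ := hK.exists_cthickening_subset_open hW'
    (subset_inter hDW (inter_subset_right.trans (closedBall_subset_ball (by linarith))))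
  set s : ℝ := δ / 2 with hs
  have hs0 : 0 < s := by positivity
  have hballK : ∀ x ∈ D ∩ closedBall z r, closedBall x (2 * s) ⊆ W ∩ ball z (3 / 2 * r) := by
    intro x hx
    have h1 : 2 * s = δ := by rw [hs]; ring
    rw [h1]
    exact (closedBall_subset_cthickening hx δ).trans hδW
  obtain ⟨phi, hphi, hmass⟩ := exists_phi_mass (V := V) (R := ‖z‖ + 3 / 2 * r) (s := s)
    (H := (3 * 2) ^ N) hρ hs0 (by positivity) hW'.measurableSet (fun x hx => by
      have hx2 := hx.2
      rw [mem_ball, dist_eq_norm] at hx2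
      rw [mem_closedBall, dist_zero_right]
      have := norm_add_le (x - z) z
      rw [sub_add_cancel] at this
      linarith) hvol0
  refine ⟨bump phi ρ b z R, bump_cont hphi hρ.le b z R, bump_SC hphi hρ.le hb.le z hR0.le hρ1,
    bump_nonneg phi ρ hb.le z R, fun x => (bump_le hphi hρ.le hb.le z hR0.le x).trans hρ3,
    fun x hx => bump_zero hb.le hx, fun x hx => ⟨s, hs0, fun p hp => ?_⟩⟩
  have heq : ∀ y ∈ W ∩ ball z (3 / 2 * r), bump phi ρ b z R y = phi z + 2 * ρ * R - phi y := by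
    intro y hy
    have hy2 := hy.2
    rw [mem_ball, dist_eq_norm] at hy2
    exact bump_eq hphi hρ.le hR0.le (r := 3 / 2 * r) (by linarith) hρ2 hb.le hy2.le
  have hxW : x ∈ W ∩ ball z (3 / 2 * r) := hballK x hx (mem_closedBall_self (by positivity))
  refine no_touch hs0 two_pos (fun x => (hphi x).imp fun q hq => hq.2)
      (hmass x ((ball_subset_closedBall.trans (closedBall_subset_closedBall (by linarith))).trans
        (hballK x hx))) (-p) fun y hy => ?_
  have h1 := hp y hy
  rw [heq y (hballK x hx hy), heq x hxW] at h1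
  rw [inner_neg_left]
  linarith

end Crest.Agent.R096.ThCi1_766
end

-- ▼ part R096/ThCi2_766
section

/-!
Row 96 (S0127), helper766.  The set `OO` of the points where an open set `W` has density `> η` at
some scale `< w`: openness, comparison, measure (Vitali), the scale function of `OO`.
-/

set_option autoImplicit false
set_option linter.unusedSectionVars false
set_option linter.style.longLine false
set_option linter.style.haveILetI false
set_option linter.unusedVariables false

namespace Crest.Agent.R096.ThCi2_766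

open MeasureTheory Set Filter Topology Metric
open scoped ENNReal
open Crest.Agent.R096.ThC2_766 Crest.Agent.R096.ThC3_766 Crest.Agent.R096.ThC4_766
open Crest.Agent.R096.ThC5_766 Crest.Agent.R096.ThC6_766 Crest.Agent.R096.ThC7_766

variable {V : Type*} [NormedAddCommGroup V] [InnerProductSpace ℝ V]
variable [FiniteDimensional ℝ V] [MeasurableSpace V] [BorelSpace V]

/-- volume of the unit ball. -/
lemma v1_pos : 0 < (volume : Measure V).real (ball (0 : V) 1) := by
  rw [Measure.real, ENNReal.toReal_pos_iff]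
  exact ⟨measure_ball_pos _ _ one_pos, measure_ball_lt_top⟩

lemma vb [Nontrivial V] (x : V) {r : ℝ} (hr : 0 ≤ r) :
    (volume : Measure V).real (ball x r) =
      r ^ (Module.finrank ℝ V) * (volume : Measure V).real (ball (0 : V) 1) := by
  rw [Measure.real, Measure.addHaar_ball volume x hr, ENNReal.toReal_mul,
    ENNReal.toReal_ofReal (by positivity)]
  rfl

lemma vb_mono {A : Set V} {x y : V} {r s : ℝ} (h : r + ‖x - y‖ ≤ s) :
    (volume : Measure V).real (A ∩ ball x r) ≤ (volume : Measure V).real (A ∩ ball y s) := by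
  apply measureReal_mono
  · apply inter_subset_inter_right
    intro z hz
    rw [mem_ball, dist_eq_norm] at hz ⊢
    have := norm_add_le (z - x) (x - y)
    rw [sub_add_sub_cancel] at this
    linarith
  · exact ((measure_mono inter_subset_right).trans_lt measure_ball_lt_top).ne

/-- the points where `W` has density `> η` at some scale `< w`. -/
def OO (η : ℝ) (w : V → ℝ) (W : Set V) : Set V :=
  {y | ∃ ρ : ℝ, 0 < ρ ∧ ρ < w y ∧
    η * (volume : Measure V).real (ball y ρ) < (volume : Measure V).real (W ∩ ball y ρ)}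

lemma OO_subset {L : Set V} {w : V → ℝ} (hw : Scale L w) (η : ℝ) (W : Set V) : OO η w W ⊆ L := by
  rintro y ⟨ρ, h0, h1, -⟩
  by_contra hy
  rw [hw.off y hy] at h1
  linarith

lemma subset_OO {L : Set V} {w : V → ℝ} (hw : Scale L w) {η : ℝ} (hη : η < 1) {W : Set V}
    (hW : IsOpen W) (hWL : W ⊆ L) : W ⊆ OO η w W := by
  intro y hy
  obtain ⟨ε, hε, hεW⟩ := Metric.isOpen_iff.1 hW y hy
  have hwy := hw.pos y (hWL hy)
  refine ⟨min ε (w y / 2), lt_min hε (by positivity), (min_le_right _ _).trans_lt (by linarith), ?_⟩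
  have h1 : ball y (min ε (w y / 2)) ⊆ W := (ball_subset_ball (min_le_left _ _)).trans hεW
  rw [inter_eq_self_of_subset_right h1]
  have h2 : 0 < (volume : Measure V).real (ball y (min ε (w y / 2))) := by
    rw [Measure.real, ENNReal.toReal_pos_iff]
    exact ⟨measure_ball_pos _ _ (lt_min hε (by positivity)), measure_ball_lt_top⟩
  nlinarith

lemma le_of_notMem {η : ℝ} {w : V → ℝ} {W : Set V} {y : V} (hy : y ∉ OO η w W) {ρ : ℝ} (h0 : 0 < ρ)
    (h1 : ρ < w y) :
    (volume : Measure V).real (W ∩ ball y ρ) ≤ η * (volume : Measure V).real (ball y ρ) := by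
  by_contra h
  push Not at h
  exact hy ⟨ρ, h0, h1, h⟩

lemma isOpen_OO [Nontrivial V] {L : Set V} {w : V → ℝ} (hw : Scale L w) (η : ℝ) (W : Set V) :
    IsOpen (OO η w W) := by
  rw [isOpen_iff_mem_nhds]
  rintro y ⟨ρ, h0, h1, h2⟩
  have hwc := hw.cont
  have c1 : ContinuousAt (fun z : V => w z - (ρ + ‖z - y‖)) y := by fun_prop
  have c2 : ContinuousAt (fun z : V => (volume : Measure V).real (W ∩ ball y ρ) -
      η * ((ρ + ‖z - y‖) ^ (Module.finrank ℝ V) * (volume : Measure V).real (ball (0 : V) 1))) y := by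
    fun_prop
  have e1 : ∀ᶠ z in 𝓝 y, 0 < w z - (ρ + ‖z - y‖) := by
    apply c1.eventually (lt_mem_nhds _)
    simp only [sub_self, norm_zero, add_zero]
    linarith
  have e2 : ∀ᶠ z in 𝓝 y, 0 < (volume : Measure V).real (W ∩ ball y ρ) -
      η * ((ρ + ‖z - y‖) ^ (Module.finrank ℝ V) * (volume : Measure V).real (ball (0 : V) 1)) := by
    apply c2.eventually (lt_mem_nhds _)
    simp only [sub_self, norm_zero, add_zero]
    rw [← vb y h0.le]
    linarith
  filter_upwards [e1, e2] with z hz1 hz2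
  have h3 := norm_nonneg (z - y)
  refine ⟨ρ + ‖z - y‖, by positivity, by linarith, ?_⟩
  rw [vb z (by positivity)]
  have h4 := vb_mono (A := W) (x := y) (y := z) (r := ρ) (s := ρ + ‖z - y‖) (by rw [norm_sub_rev])
  linarith


/-- the scale function of an open subset below a given one. -/
theorem scale_min {L O : Set V} {w : V → ℝ} (hw : Scale L w) (hO : IsOpen O) (hOL : O ⊆ L)
    (hne : (Oᶜ).Nonempty) : Scale O (fun x => min (infDist x Oᶜ / 8) (w x / 16)) := by
  refine ⟨fun x => le_min (by have := infDist_nonneg (x := x) (s := Oᶜ); positivity)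
    (by have := hw.nonneg x; positivity), fun x y => ?_, fun x hx => ?_, fun x hx => ?_, fun x => ?_⟩
  · have h1 := infDist_le_infDist_add_dist (s := Oᶜ) (x := x) (y := y)
    rw [dist_eq_norm] at h1
    have h2 := hw.lip x y
    have h3 := norm_nonneg (x - y)
    rcases min_cases (infDist y Oᶜ / 8) (w y / 16) with h | h
    · rw [h.1]
      exact (min_le_left _ _).trans (by linarith)
    · rw [h.1]
      exact (min_le_right _ _).trans (by linarith)
  · have h1 : 0 < infDist x Oᶜ := by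
      rw [← hO.isClosed_compl.notMem_iff_infDist_pos hne]
      exact fun h => h hx
    have h2 := hw.pos x (hOL hx)
    exact lt_min (by positivity) (by positivity)
  · have h1 : infDist x Oᶜ = 0 := infDist_zero_of_mem hx
    rw [h1]
    have := hw.nonneg x
    rw [zero_div]
    exact min_eq_left (by positivity)
  · have := hw.le_one x
    exact (min_le_right _ _).trans (by linarith)

/-- density of `W` in the Whitney balls of `OO`. -/
theorem density [Nontrivial V] {L : Set V} {w : V → ℝ} (hw : Scale L w) (hLc : (Lᶜ).Nonempty)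
    {η : ℝ} (hη : 0 < η) {W : Set V}
    (hden : ∀ y ∈ L, (volume : Measure V).real (W ∩ ball y (w y)) ≤
      η * (volume : Measure V).real (ball y (w y))) {x : V} (hx : x ∈ OO η w W) {t : ℝ}
    (ht : t ≤ min (infDist x (OO η w W)ᶜ / 8) (w x / 16)) (ht0 : 0 < t) :
    (volume : Measure V).real (W ∩ ball x t) ≤
      η * ((16 * min (infDist x (OO η w W)ᶜ / 8) (w x / 16)) ^ (Module.finrank ℝ V) *
        (volume : Measure V).real (ball (0 : V) 1)) := by
  have : ProperSpace V := FiniteDimensional.proper_real V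
  set O := OO η w W with hOdef
  have hO : IsOpen O := isOpen_OO hw η W
  have hOL : O ⊆ L := OO_subset hw η W
  have hne : (Oᶜ).Nonempty := hLc.mono (compl_subset_compl.2 hOL)
  set e : ℝ := min (infDist x Oᶜ / 8) (w x / 16) with he
  have he0 : 0 < e := (scale_min hw hO hOL hne).pos x hx
  have hv := v1_pos (V := V)
  rcases le_or_gt (infDist x Oᶜ / 8) (w x / 16) with hc | hc
  · have hee : e = infDist x Oᶜ / 8 := min_eq_left hc
    obtain ⟨y, hy, hxy⟩ := hO.isClosed_compl.exists_infDist_eq_dist hne x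
    rw [dist_eq_norm] at hxy
    have h1 : ‖x - y‖ = 8 * e := by rw [hee, ← hxy]; ring
    have h2 := hw.lip x y
    have h3 : 9 * e < w y := by
      have : 16 * e ≤ w x := by rw [hee]; linarith
      linarith
    calc (volume : Measure V).real (W ∩ ball x t)
        ≤ (volume : Measure V).real (W ∩ ball y (9 * e)) := vb_mono (by linarith)
      _ ≤ η * (volume : Measure V).real (ball y (9 * e)) := le_of_notMem hy (by positivity) h3
      _ = η * ((9 * e) ^ (Module.finrank ℝ V) * (volume : Measure V).real (ball (0 : V) 1)) := by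
          rw [vb y (by positivity)]
      _ ≤ η * ((16 * e) ^ (Module.finrank ℝ V) * (volume : Measure V).real (ball (0 : V) 1)) := by
          gcongr
          norm_num
  · have hee : e = w x / 16 := min_eq_right hc.le
    have h3 : w x = 16 * e := by rw [hee]; ring
    have h4 := hden x (hOL hx)
    rw [vb x (hw.nonneg x), h3] at h4
    refine le_trans (vb_mono ?_) h4
    rw [sub_self, norm_zero]
    linarith

end Crest.Agent.R096.ThCi2_766
end

-- ▼ part R096/Lag1_766
section

/-!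
Row 96 (S0127), helper766.  The 2-skeleton of the generic Laguerre system: a locally finite family
of compact convex pieces of hyperplanes, at most `(n+1 choose 2)` through every point (6 in R^3).
-/
namespace Crest.Agent.R096.Lag1_766
end Crest.Agent.R096.Lag1_766
end

-- ▼ part R096/Lag2_766
section

/-!
Row 96 (S0127), helper766.  Fibres of the collapse maps.
-/

set_option autoImplicit false
set_option linter.unusedSectionVars false
set_option linter.style.longLine false

namespace Crest.Agent.R096.Lag2_766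

open Set Filter Topology Metric
open Crest.Agent.R096.ThC3_766
open Crest.Agent.R096.ThC6_766
open Crest.Agent.R096.ThC7_766
open Crest.Agent.R096.ThC8_766
open Crest.Agent.R096.Lag1_766

variable {V : Type*} [NormedAddCommGroup V] [InnerProductSpace ℝ V]
variable {L : Set V} {C : ℝ} {e : V → ℝ} {D S : Set V} {a : S → V} {c : S → ℝ}
    {Phi : V → ℝ} {th : V → V}



/-- the collapse maps `L` into `L` and the complement identically. -/
theorem th_off (he : Scale L e) (h : Lag L C e D S a c Phi th) {x : V} (hx : x ∉ L) : th x = x := by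
  have h1 := h.near x
  rw [he.off x hx] at h1
  have h2 : ‖th x - x‖ = 0 := le_antisymm (by linarith) (norm_nonneg _)
  exact sub_eq_zero.1 (norm_eq_zero.1 h2)

theorem th_mem_iff (he : Scale L e) (h : Lag L C e D S a c Phi th) (x : V) : th x ∈ L ↔ x ∈ L := by
  constructor
  · intro hx
    by_contra hcon
    rw [th_off he h hcon] at hx
    exact hcon hx
  · exact h.mem x





end Crest.Agent.R096.Lag2_766
end

-- ▼ part R096/ThCi3_766
section

/-!
Row 96 (S0127), helper766.  **Scale invariant localised Theorem C**: the collapse is the identity off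
the set `OO` of the points where `W` has density `> η` at some scale `< w`; `η` depends on `V`, `β`
only.
-/

set_option autoImplicit false
set_option linter.unusedSectionVars false
set_option linter.style.longLine false
set_option linter.style.haveILetI false
set_option linter.unusedVariables false

namespace Crest.Agent.R096.ThCi3_766

open MeasureTheory Set Filter Topology Metric
open scoped ENNReal
open Crest.Agent.R094.Env
open Crest.Agent.R096.ThC2_766 Crest.Agent.R096.ThC3_766 Crest.Agent.R096.ThC4_766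
open Crest.Agent.R096.ThC5_766 Crest.Agent.R096.ThC6_766 Crest.Agent.R096.ThC7_766
open Crest.Agent.R096.ThC8_766 Crest.Agent.R096.ThCi1_766 Crest.Agent.R096.ThCi2_766

variable {V : Type*} [NormedAddCommGroup V] [InnerProductSpace ℝ V]
variable [FiniteDimensional ℝ V] [MeasurableSpace V] [BorelSpace V]

set_option maxHeartbeats 1000000 in
/-- the semiconcave function without contact points. -/
theorem exists_gi [Nontrivial V] {β : ℝ} (hβ : 0 < β) (hβ1 : β ≤ 1 / 2) :
    ∃ η : ℝ, 0 < η ∧ η < 1 ∧ ∀ {L : Set V}, IsOpen L → (Lᶜ).Nonempty → ∀ {w : V → ℝ}, Scale L w →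
      ∀ {W : Set V}, IsOpen W → W ⊆ L →
      (∀ y ∈ L, (volume : Measure V).real (W ∩ ball y (w y)) ≤
        η * (volume : Measure V).real (ball y (w y))) →
      ∀ {D : Set V}, IsClosed D → D ∩ L ⊆ W →
      ∃ g : V → ℝ, Continuous g ∧ SC β g ∧ (∀ x, 0 ≤ g x) ∧
        (∀ x, g x ≤ β / 128 * (min (infDist x (OO η w W)ᶜ / 8) (w x / 16)) ^ 2) ∧
        ∀ x ∈ D ∩ OO η w W, ∀ p, ¬ Contact g x p := by
  classical
  have : ProperSpace V := FiniteDimensional.proper_real V
  obtain ⟨N0, hN0⟩ := packing (V := V) (66 / 5)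
  set N : ℕ := N0 + 1 with hN
  have hNpos : (0 : ℝ) < N := by rw [hN]; positivity
  set b : ℝ := β / (2 * N) with hb
  have hb0 : 0 < b := by positivity
  have hNb : 2 * N * b = β := by rw [hb]; field_simp
  have hb1 : b ≤ 1 := by
    have h1 : (1 : ℝ) ≤ N := by rw [hN]; push_cast; linarith [(Nat.cast_nonneg N0 : (0 : ℝ) ≤ N0)]
    rw [hb, div_le_iff₀ (by positivity)]
    linarith
  set n := Module.finrank ℝ V with hn
  set η : ℝ := (b / 24576) ^ n / 2 with hη
  have hη0 : 0 < η := by positivity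
  have hη1 : η < 1 := by
    have : (b / 24576) ^ n ≤ 1 := pow_le_one₀ (by positivity) (by linarith)
    rw [hη]; linarith
  refine ⟨η, hη0, hη1, ?_⟩
  intro L hL hLc w hw W hW hWL hden D hD hDW
  set O : Set V := OO η w W with hOdef
  have hO : IsOpen O := isOpen_OO hw η W
  have hOL : O ⊆ L := OO_subset hw η W
  have hne : (Oᶜ).Nonempty := hLc.mono (compl_subset_compl.2 hOL)
  set e : V → ℝ := fun x => min (infDist x Oᶜ / 8) (w x / 16) with he
  have heS : Scale O e := scale_min hw hO hOL hne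
  set u : V → ℝ := fun x => e x / 8 with hu
  have huS : Scale O u := by
    refine ⟨fun x => by have := heS.nonneg x; simp only [hu]; positivity, fun x y => ?_,
      fun x hx => by have := heS.pos x hx; simp only [hu]; positivity, fun x hx => by
        simp only [hu]; rw [heS.off x hx, zero_div], fun x => ?_⟩
    · have h1 := heS.lip x y
      have h2 := norm_nonneg (x - y)
      simp only [hu]
      linarith
    · have := heS.le_one x
      simp only [hu]
      linarith
  obtain ⟨S, hSO, hSnet, hSsep⟩ := exists_net_sep huS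
  have hupos : ∀ k ∈ S, 0 < u k := fun k hk => huS.pos k (hSO hk)
  -- comparison
  have hcmp : ∀ k ∈ S, ∀ y : V, ‖y - k‖ < 3 * u k → y ∈ O ∧ u k ≤ 8 / 5 * u y ∧ u y ≤ 11 / 8 * u k := by
    intro k hk y hy
    have h0 := hupos k hk
    refine ⟨huS.mem (hSO hk) (by linarith), ?_, ?_⟩
    · have h1 := huS.lip k y
      rw [norm_sub_rev] at h1
      linarith
    · have h1 := huS.lip y k
      linarith
  -- overlap
  set T : V → Set V := fun y => {x | x ∈ S ∧ ‖y - x‖ < 3 * u x} with hT
  have hTN : ∀ y, (T y).Finite ∧ (T y).ncard ≤ N := by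
    intro y
    rcases (T y).eq_empty_or_nonempty with h | ⟨x0, hx0⟩
    · rw [h]; simp
    · have hyO := (hcmp x0 hx0.1 y hx0.2).1
      have huy := huS.pos y hyO
      have h1 := hN0 y (4 / 11 * u y) (by positivity) (T y) (by
        intro a ha c hc hac
        have h2 := hSsep a ha.1 c hc.1 hac
        have h3 := (hcmp a ha.1 y ha.2).2.2
        linarith) (by
        intro a ha
        have h3 := (hcmp a ha.1 y ha.2).2.1
        have h4 := ha.2
        rw [norm_sub_rev] at h4
        linarith)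
      exact ⟨h1.1, h1.2.trans (by omega)⟩
  -- the bumps
  have hbump : ∀ k : S, ∃ g : V → ℝ, Continuous g ∧ SC b g ∧ (∀ x, 0 ≤ g x) ∧
        (∀ x, g x ≤ b * (3 / 2 * u k) ^ 2 / 8) ∧
        (∀ x : V, 2 * (3 / 2 * u k) ≤ ‖x - (k : V)‖ → g x = 0) ∧
        ∀ x ∈ D ∩ closedBall (k : V) (3 / 2 * u k), ∃ s : ℝ, 0 < s ∧ ∀ p : V,
          ¬ ∀ y ∈ closedBall x (2 * s), g x + inner ℝ p (y - x) - 2 / 2 * ‖y - x‖ ^ 2 ≤ g y := by
    intro k
    have hk0 := hupos k k.2
    refine one_bump' (r := 3 / 2 * u k) (by positivity) hb0 hW ?_ hD ?_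
    · have h1 := density hw hLc hη0 hden (hSO k.2) (t := 3 / 2 * (3 / 2 * u k)) (by
        change 3 / 2 * (3 / 2 * u k) ≤ e k
        have : e k = 8 * u k := by simp only [hu]; ring
        rw [this]; linarith) (by positivity)
      have h1' : (volume : Measure V).real (W ∩ ball (k : V) (3 / 2 * (3 / 2 * u k))) ≤
        η * ((128 * u k) ^ n * (volume : Measure V).real (ball (0 : V) 1)) := by
        refine h1.trans (le_of_eq ?_)
        have e2 : 16 * min (infDist (k : V) (OO η w W)ᶜ / 8) (w k / 16) = 128 * u k := by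
          change 16 * e k = 128 * u k
          simp only [hu]; ring
        rw [e2]
      have h2 : (volume : Measure V).real (closedBall (0 : V) (b * (3 / 2 * u k) / 48)) =
          (b * u k / 32) ^ n * (volume : Measure V).real (ball (0 : V) 1) := by
        rw [Measure.addHaar_real_closedBall volume (0 : V) (by positivity)]
        congr 2
        ring
      rw [h2]
      have hv := v1_pos (V := V)
      have h3 : (3 * 2 : ℝ) ^ n * (η * ((128 * u k) ^ n * (volume : Measure V).real (ball (0 : V) 1)))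
          = (b * u k / 32) ^ n * (volume : Measure V).real (ball (0 : V) 1) / 2 := by
        have e3 : (b * u k / 32) ^ n = (3 * 2 : ℝ) ^ n * (b / 24576) ^ n * (128 * u k) ^ n := by
          rw [← mul_pow, ← mul_pow]
          congr 1
          ring
        rw [e3, hη]
        ring
      calc (3 * 2 : ℝ) ^ n * (volume : Measure V).real (W ∩ ball (k : V) (3 / 2 * (3 / 2 * u k)))
          ≤ (3 * 2 : ℝ) ^ n * (η * ((128 * u k) ^ n * (volume : Measure V).real (ball (0 : V) 1))) := by
            gcongr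
        _ = (b * u k / 32) ^ n * (volume : Measure V).real (ball (0 : V) 1) / 2 := h3
        _ < (b * u k / 32) ^ n * (volume : Measure V).real (ball (0 : V) 1) := by
            have : 0 < (b * u k / 32) ^ n * (volume : Measure V).real (ball (0 : V) 1) := by positivity
            linarith
    · rintro x ⟨hxD, hx⟩
      apply hDW ⟨hxD, hOL _⟩
      rw [mem_closedBall, dist_eq_norm] at hx
      exact (hcmp k k.2 x (by linarith)).1
  choose g hgc hgSC hg0 hgm hgz hgn using hbump
  have hsup : ∀ y, ∀ k : S, g k y ≠ 0 → (k : V) ∈ T y := by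
    intro y k hk
    refine ⟨k.2, ?_⟩
    by_contra hcon
    push Not at hcon
    exact hk (hgz k y (by linarith))
  have hfin : ∀ y, (Function.support fun k => g k y).Finite := fun y =>
    Set.Finite.of_finite_image (f := fun k : S => (k : V))
      ((hTN y).1.subset (by rintro _ ⟨k, hk, rfl⟩; exact hsup y k hk)) Subtype.val_injective.injOn
  have hcard : ∀ y, (Function.support fun k => g k y).ncard ≤ N := fun y =>
    (Set.ncard_le_ncard_of_injOn (fun k : S => (k : V)) (fun k hk => hsup y k hk)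
      Subtype.val_injective.injOn (hTN y).1).trans (hTN y).2
  have hSC : SC β (fun x => ∑ᶠ k, g k x) := by
    rw [← hNb]
    exact SC_finsum hb0 hgSC hg0 hfin hcard
  refine ⟨fun x => ∑ᶠ k, g k x, SC_continuous hSC, hSC, fun x => finsum_nonneg fun k => hg0 k x, ?_, ?_⟩
  · -- the height
    intro x
    have h1 : ∑ᶠ k, g k x = ∑ k ∈ (hfin x).toFinset, g k x := by
      apply finsum_eq_sum_of_support_subset
      intro k hk
      exact (Set.Finite.mem_toFinset _).2 hk
    simp only
    rw [h1]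
    have h2 : ∀ k ∈ (hfin x).toFinset, g k x ≤ β / (128 * N) * e x ^ 2 := by
      intro k hk
      have hk' : g k x ≠ 0 := (hfin x).mem_toFinset.1 hk
      have h3 := hsup x k hk'
      have h4 := (hcmp k h3.1 x h3.2).2.1
      have h5 := hupos k h3.1
      have h6 : u k ≤ e x / 5 := by
        have : u x = e x / 8 := rfl
        linarith
      calc g k x ≤ b * (3 / 2 * u k) ^ 2 / 8 := hgm k x
        _ ≤ b * (3 / 2 * (e x / 5)) ^ 2 / 8 := by gcongr
        _ ≤ β / (128 * N) * e x ^ 2 := by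
          rw [hb]
          have h7 : 0 ≤ β / N * e x ^ 2 := by positivity
          have e1 : β / (2 * N) * (3 / 2 * (e x / 5)) ^ 2 / 8 = 9 / 1600 * (β / N * e x ^ 2) := by
            field_simp; ring
          have e2 : β / (128 * N) * e x ^ 2 = 1 / 128 * (β / N * e x ^ 2) := by field_simp
          rw [e1, e2]
          linarith
    have h3 : ((hfin x).toFinset.card : ℝ) ≤ N := by
      have := hcard x
      rw [Set.ncard_eq_toFinset_card _ (hfin x)] at this
      exact_mod_cast this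
    calc ∑ k ∈ (hfin x).toFinset, g k x ≤ ∑ k ∈ (hfin x).toFinset, β / (128 * N) * e x ^ 2 :=
          Finset.sum_le_sum h2
      _ = (hfin x).toFinset.card * (β / (128 * N) * e x ^ 2) := by rw [Finset.sum_const, nsmul_eq_mul]
      _ ≤ N * (β / (128 * N) * e x ^ 2) := by gcongr
      _ = β / 128 * e x ^ 2 := by field_simp
  · -- no contact
    rintro x ⟨hxD, hxO⟩ p hp
    obtain ⟨k0, hk0S, hk0⟩ := hSnet x hxO
    set k : S := ⟨k0, hk0S⟩ with hk
    have hxk : x ∈ closedBall (k : V) (3 / 2 * u k) := by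
      rw [mem_closedBall, dist_eq_norm]
      have h1 := huS.lip x k0
      have h2 := hupos k0 hk0S
      change ‖x - k0‖ ≤ 3 / 2 * u k0
      linarith
    obtain ⟨s, hs, hns⟩ := hgn k x ⟨hxD, hxk⟩
    set g' : S → V → ℝ := fun j x => if j = k then 0 else g j x with hg'
    have hsub : ∀ y, (Function.support fun j => g' j y) ⊆ Function.support fun j => g j y := by
      intro y j hj
      simp only [hg', Function.mem_support] at hj ⊢
      by_cases hjk : j = k
      · rw [if_pos hjk] at hj; exact absurd rfl hj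
      · rwa [if_neg hjk] at hj
    have hSC' : SC β (fun x => ∑ᶠ j, g' j x) := by
      rw [← hNb]
      refine SC_finsum hb0 ?_ ?_ (fun y => (hfin y).subset (hsub y))
        (fun y => (Set.ncard_le_ncard (hsub y) (hfin y)).trans (hcard y))
      · intro j
        by_cases hj : j = k
        · simp only [hg', hj, if_true]; exact SC_zero hb0.le
        · simp only [hg', hj, if_false]; exact hgSC j
      · intro j y
        by_cases hj : j = k
        · simp [hg', hj]
        · simp only [hg', hj, if_false]; exact hg0 j y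
    have hdec : ∀ y, ∑ᶠ j, g j y = g k y + ∑ᶠ j, g' j y := by
      intro y
      have e1 : (fun j => g j y) = fun j => (if j = k then g k y else 0) + g' j y := by
        funext j
        by_cases hj : j = k
        · simp [hg', hj]
        · simp [hg', hj]
      rw [e1, finsum_add_distrib]
      · congr 1
        rw [finsum_eq_single _ k]
        · simp
        · intro j hj; simp [hj]
      · refine (Set.finite_singleton k).subset fun j hj => ?_
        by_contra hjk
        rw [Function.mem_support] at hj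
        apply hj
        rw [if_neg]
        exact fun h => hjk h
      · exact (hfin y).subset (hsub y)
    obtain ⟨q, hq⟩ := hSC' x
    refine hns (p - x - q) fun y hy => ?_
    have h1 := hp y
    simp only at h1 hq
    rw [hdec x, hdec y] at h1
    have h2 := hq y
    have h5 : ‖y‖ ^ 2 = ‖x‖ ^ 2 + 2 * inner ℝ x (y - x) + ‖y - x‖ ^ 2 := by
      have := norm_add_sq_real x (y - x)
      rwa [add_sub_cancel] at this
    rw [inner_sub_left, inner_sub_left]
    have h6 : β / 2 * ‖y - x‖ ^ 2 ≤ 1 / 2 * ‖y - x‖ ^ 2 := by gcongr; linarith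
    linarith

/-- **Scale invariant localised Laguerre system.** -/
theorem exists_lagi [Nontrivial V] {β : ℝ} (hβ : 0 < β) (hβ1 : β ≤ 1 / 2) :
    ∃ η : ℝ, 0 < η ∧ η < 1 ∧ ∀ {L : Set V}, IsOpen L → (Lᶜ).Nonempty → ∀ {w : V → ℝ}, Scale L w →
      ∀ {W : Set V}, IsOpen W → W ⊆ L →
      (∀ y ∈ L, (volume : Measure V).real (W ∩ ball y (w y)) ≤
        η * (volume : Measure V).real (ball y (w y))) →
      ∀ {D : Set V}, IsClosed D → D ∩ L ⊆ W →
      ∃ (S : Set V) (a : S → V) (c : S → ℝ) (Phi : V → ℝ) (th : V → V),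
        Lag (OO η w W) (1 + 2 * β) (fun x => min (infDist x (OO η w W)ᶜ / 8) (w x / 16))
          D S a c Phi th := by
  obtain ⟨η, hη, hη1, h⟩ := exists_gi (V := V) hβ hβ1
  refine ⟨η, hη, hη1, ?_⟩
  intro L hL hLc w hw W hW hWL hden D hD hDW
  obtain ⟨g, hg, hgSC, hg0, hge, hcon⟩ := h hL hLc hw hW hWL hden hD hDW
  have hO : IsOpen (OO η w W) := isOpen_OO hw η W
  exact exists_lag_of hO (scale_min hw hO (OO_subset hw η W)
    (hLc.mono (compl_subset_compl.2 (OO_subset hw η W)))) hβ hβ1 hg hgSC hg0 hge hD hcon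

/-- **The collapse used for the cores**: every point `p` of `L` is the image of a point which is not
in `D`. -/
theorem exists_thi [Nontrivial V] {β : ℝ} (hβ : 0 < β) (hβ1 : β ≤ 1 / 2) :
    ∃ η : ℝ, 0 < η ∧ η < 1 ∧ ∀ {L : Set V}, IsOpen L → (Lᶜ).Nonempty → ∀ {w : V → ℝ}, Scale L w →
      ∀ {W : Set V}, IsOpen W → W ⊆ L →
      (∀ y ∈ L, (volume : Measure V).real (W ∩ ball y (w y)) ≤
        η * (volume : Measure V).real (ball y (w y))) →
      ∀ {D : Set V}, IsClosed D → D ∩ L ⊆ W →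
      ∃ (Phi : V → ℝ) (th : V → V), CT (1 + 2 * β) Phi th ∧ (∀ y ∉ OO η w W, th y = y) ∧
        (∀ y, ‖th y - y‖ ≤ w y / 16) ∧ (∀ y, th y ∈ L ↔ y ∈ L) ∧ (∀ y, th y ∈ OO η w W ↔ y ∈ OO η w W) ∧
        ∀ p ∈ L, ∃ y ∈ L, th y = p ∧ ‖p - y‖ ≤ w p / 16 ∧ y ∉ D := by
  obtain ⟨η, hη, hη1, h⟩ := exists_lagi (V := V) hβ hβ1
  refine ⟨η, hη, hη1, ?_⟩
  intro L hL hLc w hw W hW hWL hden D hD hDW
  obtain ⟨S, a, c, Phi, th, hlag⟩ := h hL hLc hw hW hWL hden hD hDW
  have hO : IsOpen (OO η w W) := isOpen_OO hw η W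
  have hOL := OO_subset hw η W
  have heS : Scale (OO η w W) (fun x => min (infDist x (OO η w W)ᶜ / 8) (w x / 16)) :=
    scale_min hw hO hOL (hLc.mono (compl_subset_compl.2 hOL))
  have hoff : ∀ y ∉ OO η w W, th y = y := fun y hy => Lag2_766.th_off heS hlag hy
  have hmemO : ∀ y, th y ∈ OO η w W ↔ y ∈ OO η w W := fun y => Lag2_766.th_mem_iff heS hlag y
  have hew : ∀ x, min (infDist x (OO η w W)ᶜ / 8) (w x / 16) ≤ w x / 16 := fun x => min_le_right _ _
  refine ⟨Phi, th, hlag.ct, hoff, fun y => ?_, fun y => ?_, hmemO, fun p hp => ?_⟩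
  · have h1 := hlag.near y
    have h2 := hew y
    have h3 := heS.nonneg y
    linarith
  · by_cases hy : y ∈ OO η w W
    · exact ⟨fun _ => hOL hy, fun _ => hOL ((hmemO y).2 hy)⟩
    · rw [hoff y hy]
  · by_cases hpO : p ∈ OO η w W
    · obtain ⟨k, hk⟩ := hlag.ne p hpO
      have hz : a k ∈ convexHull ℝ (a '' act a c p) := subset_convexHull _ _ (mem_image_of_mem a hk)
      obtain ⟨h1, h2⟩ := hlag.fib' p hpO (a k) hz
      refine ⟨_, hOL h1, h2, ?_, hlag.avoid p hpO k hk⟩
      have h3 := hlag.core_near p hpO k hk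
      have h4 := hew p
      have h5 := heS.nonneg p
      linarith
    · refine ⟨p, hp, hoff p hpO, ?_, fun hD' => hpO ?_⟩
      · rw [sub_self, norm_zero]
        have := hw.nonneg p
        positivity
      · exact subset_OO hw hη1 hW hWL (hDW ⟨hD', hp⟩)

end Crest.Agent.R096.ThCi3_766
end

-- ▼ part R096/Toph1_766

/-!
Row 96 (S0127), helper766.  **TOPH**: for a Sobolev homeomorphism `f`, `p ≥ 3`, and a locally finite
family of disjoint balls of the target: a homeomorphism `Th` of the target such that `Th ∘ f` is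
`C⁰`-close to an affine map over every ball of the family.
-/

set_option autoImplicit false
set_option linter.unusedSectionVars false
set_option linter.style.longLine false
set_option linter.style.haveILetI false
set_option linter.unusedVariables false

namespace Crest.Agent.R096.Toph_766

open MeasureTheory Set Filter Topology Metric
open scoped ENNReal NNReal RealInnerProductSpace
open Crest.AnalysisR.VecCalc3 Crest.AnalysisR.Sobolev
open Crest.Agent.R096.Osc_802 Crest.Agent.R096.LusN_766 Crest.Agent.R096.VolC_766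
open Crest.Agent.R096.VolC2_766 Crest.Agent.R096.VolC3_766 Crest.Agent.R96.Lu_538
open Crest.Agent.R096.ThC6_766 Crest.Agent.R096.ThCi2_766 Crest.Agent.R096.ThCi3_766
open Crest.Agent.R096.Sel_766

lemma norm_le_of_cube {c x : R3} {r : ℝ} (h : x ∉ interior (cube c r)) : r ≤ ‖x - c‖ := by
  by_contra hcon
  push Not at hcon
  apply h
  have h1 : IsOpen {y : R3 | ∀ i, |y i - c i| < r} := by
    have : {y : R3 | ∀ i, |y i - c i| < r} = ⋂ i : Fin 3, {y : R3 | |y i - c i| < r} := by
      ext y; simp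
    rw [this]
    exact isOpen_iInter_of_finite fun i => isOpen_lt (by fun_prop) continuous_const
  refine interior_maximal (s := cube c r) (fun y hy i => (hy i).le) h1 fun i => ?_
  refine lt_of_le_of_lt ?_ hcon
  have := PiLp.norm_apply_le (p := 2) (x - c) i
  rwa [Real.norm_eq_abs, PiLp.sub_apply] at this

lemma mem_cube_of_norm {c x : R3} {r : ℝ} (h : ‖x - c‖ ≤ r) : x ∈ cube c r := by
  intro i
  have := PiLp.norm_apply_le (p := 2) (x - c) i
  rw [Real.norm_eq_abs, PiLp.sub_apply] at this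
  exact this.trans h

/-- **The core at a good point**: `y` is `R`-close to `f ξ`, `ξ` good. -/
theorem core_at {Ω Λ : Set R3} (hΩ : IsOpen Ω) (hΛ : IsOpen Λ) {f : R3 → R3}
    (hf : IsHomeomorphOn f Ω Λ) {G : Fin 3 → R3 → R3} {p : ℝ} {μ κ δ : R3 → ℝ} {ξ y : R3} {R κ₁ : ℝ}
    (hR : 0 < R) (hξ : ξ ∈ EE Ω f G p μ κ δ) (hμ : 0 < μ ξ) (hκ₁ : κ₁ ≤ 1 / 32)
    (hκ : κ ξ * 4 ≤ κ₁ * μ ξ) (hy : ‖y - f ξ‖ ≤ R) (hδ : 4 * R < μ ξ * δ ξ) :
    GoodAt Ω f G p κ ξ (4 * R / μ ξ) ∧
    (∀ x ∈ Ω, ‖f x - y‖ ≤ R → x ∈ cube ξ (4 * R / μ ξ)) ∧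
    (∀ x, ‖f ξ + Gmat G ξ (x - ξ) - y‖ ≤ 2 * R → x ∈ cube ξ (4 * R / μ ξ)) ∧
    ∀ x ∈ cube ξ (4 * R / μ ξ), x ∈ Ω ∧ ‖f x - (f ξ + Gmat G ξ (x - ξ))‖ ≤ κ₁ * R := by
  obtain ⟨hξΩ, hLM, hgood⟩ := hξ
  set r : ℝ := 4 * R / μ ξ with hr
  have hr0 : 0 < r := by positivity
  have hrδ : r < δ ξ := by
    rw [hr, div_lt_iff₀ hμ]; linarith
  have hμr : μ ξ * r = 4 * R := by rw [hr]; field_simp
  have hg := hgood r hr0 hrδ
  have hsub : cube ξ r ⊆ Ω := fun x hx => hg.sub fun i => by
    have := hx i; linarith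
  have hξc : ξ ∈ cube ξ r := mem_cube_self ξ hr0.le
  have hκr : κ ξ * r ≤ κ₁ * R := by
    have h1 : κ ξ * 4 * (r / 4) ≤ κ₁ * μ ξ * (r / 4) := by gcongr
    have h2 : κ₁ * μ ξ * (r / 4) = κ₁ * R := by
      rw [hr]; field_simp
    linarith
  have haff : ∀ x ∈ cube ξ r, ‖f x - (f ξ + Gmat G ξ (x - ξ))‖ ≤ κ₁ * R := by
    intro x hx
    have h1 := hg.aff x hx ξ hξc
    have e1 : f x - (f ξ + Gmat G ξ (x - ξ)) = f x - f ξ - Gmat G ξ (x - ξ) := by abel
    rw [e1]
    exact h1.trans hκr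
  have hlow : ∀ v : R3, μ ξ * ‖v‖ ≤ ‖Gmat G ξ v‖ := fun v => (hLM v).1
  refine ⟨hg, ?_, ?_, fun x hx => ⟨hsub hx, haff x hx⟩⟩
  · obtain ⟨g, hfm, hgm, hgf, hfg, hfc, hgc⟩ := hf
    have hint : IsOpen (f '' interior (cube ξ r)) := by
      have e1 : f '' interior (cube ξ r) = Λ ∩ g ⁻¹' interior (cube ξ r) := by
        ext z
        constructor
        · rintro ⟨x, hx, rfl⟩
          have hxΩ := hsub (interior_subset hx)
          exact ⟨hfm hxΩ, by rw [mem_preimage, hgf x hxΩ]; exact hx⟩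
        · rintro ⟨hz, hz'⟩
          exact ⟨g z, hz', hfg z hz⟩
      rw [e1]
      exact hgc.isOpen_inter_preimage hΛ isOpen_interior
    have hξi : ξ ∈ interior (cube ξ r) := by
      by_contra h
      have := norm_le_of_cube h
      rw [sub_self, norm_zero] at this
      linarith
    have key := Core_124.no_intruders (f := f) (Om := Ω) (K := cube ξ r) (P := closedBall y R)
      (fun a ha b hb hab => by rw [← hgf a ha, ← hgf b hb, hab]) hsub (isCompact_cube ξ hr0.le)
      (hfc.mono hsub) hint (convex_closedBall y R).isPreconnected (by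
        intro x hx hxi hxy
        rw [mem_closedBall, dist_eq_norm] at hxy
        have h1 := norm_le_of_cube hxi
        have h2 := haff x hx
        have h3 := hlow (x - ξ)
        have h4 : μ ξ * r ≤ μ ξ * ‖x - ξ‖ := by gcongr
        have h5 : Gmat G ξ (x - ξ) = (f x - y) + (y - f ξ) - (f x - (f ξ + Gmat G ξ (x - ξ))) := by abel
        have h6 : ‖Gmat G ξ (x - ξ)‖ ≤ ‖f x - y‖ + ‖y - f ξ‖ + ‖f x - (f ξ + Gmat G ξ (x - ξ))‖ := by
          conv_lhs => rw [h5]
          exact (norm_sub_le _ _).trans (by gcongr; exact norm_add_le _ _)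
        have h7 : κ₁ * R ≤ 1 / 32 * R := by gcongr
        linarith)
      ⟨f ξ, by rw [mem_closedBall, dist_comm, dist_eq_norm]; exact hy, mem_image_of_mem f hξi⟩
    intro x hx hxy
    exact interior_subset (key x hx (by rw [mem_closedBall, dist_eq_norm]; exact hxy))
  · intro x hx
    apply mem_cube_of_norm
    have h3 := hlow (x - ξ)
    have h5 : Gmat G ξ (x - ξ) = (f ξ + Gmat G ξ (x - ξ) - y) + (y - f ξ) := by abel
    have h6 : ‖Gmat G ξ (x - ξ)‖ ≤ ‖f ξ + Gmat G ξ (x - ξ) - y‖ + ‖y - f ξ‖ := by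
      conv_lhs => rw [h5]
      exact norm_add_le _ _
    rw [hr, le_div_iff₀ hμ]
    linarith

/-- the affine map at a good point, with translation `t`. -/
noncomputable def Aff (f : R3 → R3) (G : Fin 3 → R3 → R3) (ξ t : R3) (x : R3) : R3 :=
  f ξ + Gmat G ξ (x - ξ) + t

/-- **TOPH.** -/
theorem toph {Ω Λ : Set R3} (hΩ : IsOpen Ω) (hΛ : IsOpen Λ) (hΛc : (Λᶜ).Nonempty) {f : R3 → R3}
    (hf : IsHomeomorphOn f Ω Λ) {G : Fin 3 → R3 → R3} {p : ℝ} {w : R3 → ℝ} (hw : Scale Λ w) :
    ∃ η : ℝ, 0 < η ∧ η < 1 ∧ ∀ {μ κ δ : R3 → ℝ}, (∀ x ∈ Ω, 0 < μ x) → ∀ {κ₁ : ℝ}, κ₁ ≤ 1 / 32 →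
      (∀ x ∈ Ω, κ x * 4 ≤ κ₁ * μ x) →
      (∀ y ∈ Λ, (volume : Measure R3).real ((Λ \ f '' EE Ω f G p μ κ δ) ∩ ball y (w y)) ≤
          η * (volume : Measure R3).real (ball y (w y))) →
      ∀ {σ : R3 → ℝ}, Scale Λ σ →
      ∀ {W D : Set R3}, W = {y | y ∈ Λ ∧ σ y / 2 < infDist y (f '' EE Ω f G p μ κ δ)} →
      D = {y | σ y ≤ infDist y (f '' EE Ω f G p μ κ δ)} →
      ∃ (Phi : R3 → ℝ) (th : R3 → R3), ThC3_766.CT 2 Phi th ∧ (∀ y ∉ OO η w W, th y = y) ∧
        (∀ y, ‖th y - y‖ ≤ w y / 16) ∧ (∀ y, th y ∈ Λ ↔ y ∈ Λ) ∧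
        (∀ q ∈ Λ, ∃ y ∈ Λ, th y = q ∧ ‖q - y‖ ≤ w q / 16 ∧ y ∉ D) ∧
      (∀ q ∈ Λ, q ∉ OO η w W → ∃ ξ ∈ EE Ω f G p μ κ δ, ‖q - f ξ‖ < σ q) ∧
      ∀ {ι : Type} (P : ι → R3) (R : ι → ℝ), (∀ i, P i ∈ Λ) → (∀ i, 0 < R i) →
        (∀ i, R i ≤ w (P i) / 8) → (∀ i j, i ≠ j → 2 * R i + 2 * R j < ‖P i - P j‖) →
        (∀ q ∈ Λ, ∃ r : ℝ, 0 < r ∧ {i | (closedBall (P i) (2 * R i) ∩ ball q r).Nonempty}.Finite) →
        (∀ i y, ‖P i - y‖ ≤ w (P i) / 16 → σ y ≤ R i) →
        (∀ i, ∀ x ∈ Ω, ‖f x - P i‖ ≤ w (P i) / 4 → 4 * R i < μ x * δ x) →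
        ∃ (yc ξ : ι → R3) (Th : R3 ≃ₜ R3), (∀ i, ξ i ∈ EE Ω f G p μ κ δ) ∧ (∀ i, yc i ∈ Λ) ∧
          (∀ i, ‖yc i - f (ξ i)‖ ≤ R i) ∧ (∀ i, ‖P i - yc i‖ ≤ w (P i) / 16) ∧
          (∀ i, th (yc i) = P i) ∧
          (∀ y, y ∉ Λ → Th y = y) ∧ (∀ y, Th y ∈ Λ ↔ y ∈ Λ) ∧
          (∀ y, ‖Th y - y‖ ≤ 5 / 4 * w y) ∧
          (∀ y y', ‖Th y - Th y'‖ ≤ 25 / 2 * ‖y - y'‖) ∧
          (∀ i y, ‖y - yc i‖ ≤ R i / 16 → Th y = P i + (y - yc i)) ∧
          (∀ i y, ‖Th y - P i‖ ≤ R i / 16 → y = yc i + (Th y - P i)) ∧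
          (∀ y, y ∉ OO η w W → (∀ i, 2 * R i ≤ ‖y - P i‖) → Th y = y) ∧
          (∀ i, GoodAt Ω f G p κ (ξ i) (4 * R i / μ (ξ i))) ∧
          (∀ i, ∀ x ∈ cube (ξ i) (4 * R i / μ (ξ i)),
            x ∈ Ω ∧ ‖f x - (f (ξ i) + Gmat G (ξ i) (x - ξ i))‖ ≤ κ₁ * R i) ∧
          (∀ i x, x ∈ Ω → ‖Th (f x) - P i‖ ≤ R i / 16 → x ∈ cube (ξ i) (4 * R i / μ (ξ i)) ∧
            ‖Th (f x) - Aff f G (ξ i) (P i - yc i) x‖ ≤ κ₁ * R i) ∧
          (∀ i x, ‖Aff f G (ξ i) (P i - yc i) x - P i‖ ≤ R i / 32 →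
            x ∈ Ω ∧ x ∈ cube (ξ i) (4 * R i / μ (ξ i)) ∧
            ‖Th (f x) - Aff f G (ξ i) (P i - yc i) x‖ ≤ κ₁ * R i) := by
  obtain ⟨η, hη, hη1, hmain⟩ := exists_thi (V := R3) (β := 1 / 2) (by norm_num) le_rfl
  refine ⟨η, hη, hη1, ?_⟩
  intro μ κ δ hμ κ₁ hκ₁ hκ hden σ hσ W D hWdef hDdef
  set F : Set R3 := f '' EE Ω f G p μ κ δ with hF
  have hFΛ : F ⊆ Λ := by
    rintro _ ⟨x, hx, rfl⟩
    obtain ⟨g, hfm, -⟩ := hf
    exact hfm hx.1
  have hcd : Continuous fun y : R3 => infDist y F := continuous_infDist_pt F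
  have hσc := hσ.cont
  have hW : IsOpen W := by
    rw [hWdef]
    exact hΛ.inter (isOpen_lt (by fun_prop) hcd)
  have hWL : W ⊆ Λ := by rw [hWdef]; exact fun y hy => hy.1
  have hD : IsClosed D := by
    rw [hDdef]
    exact isClosed_le hσc hcd
  have hDW : D ∩ Λ ⊆ W := by
    rintro y ⟨hy, hyΛ⟩
    rw [hDdef] at hy
    rw [hWdef]
    have h1 := hσ.pos y hyΛ
    have h2 : σ y ≤ infDist y F := hy
    exact ⟨hyΛ, by linarith⟩
  have hWF : W ⊆ Λ \ F := by
    intro y hy
    rw [hWdef] at hy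
    refine ⟨hy.1, fun h => ?_⟩
    have h1 := hy.2
    rw [infDist_zero_of_mem h] at h1
    have h2 := hσ.pos y hy.1
    linarith
  have hdW : ∀ y ∈ Λ, (volume : Measure R3).real (W ∩ ball y (w y)) ≤
      η * (volume : Measure R3).real (ball y (w y)) := by
    intro y hy
    refine le_trans ?_ (hden y hy)
    exact measureReal_mono (inter_subset_inter_left _ hWF)
      ((measure_mono inter_subset_right).trans_lt measure_ball_lt_top).ne
  have hFne : Λ.Nonempty → F.Nonempty := by
    rintro ⟨y, hy⟩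
    by_contra hcon
    rw [not_nonempty_iff_eq_empty] at hcon
    have h1 := hden y hy
    have hwy := hw.pos y hy
    have h2 : Λ ∩ ball y (w y) = ball y (w y) := by
      apply inter_eq_self_of_subset_right
      intro z hz
      apply hw.mem hy
      rw [mem_ball, dist_eq_norm] at hz
      linarith
    rw [hcon, sdiff_empty, h2] at h1
    have h3 : 0 < (volume : Measure R3).real (ball y (w y)) := by
      rw [Measure.real, ENNReal.toReal_pos_iff]
      exact ⟨measure_ball_pos _ _ hwy, measure_ball_lt_top⟩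
    nlinarith
  obtain ⟨Phi, th, hCT, hoff, hnear, hmem, -, hex⟩ := hmain hΛ hΛc hw hW hWL hdW hD hDW
  have hCT2 : ThC3_766.CT 2 Phi th := by
    convert hCT using 1
    norm_num
  refine ⟨Phi, th, hCT2, hoff, hnear, hmem, hex, ?_, ?_⟩
  · intro q hq hqO
    have hqW : q ∉ W := fun h => hqO (subset_OO hw hη1 hW hWL h)
    have h1 : infDist q F ≤ σ q / 2 := by
      by_contra hcon
      push Not at hcon
      exact hqW (by rw [hWdef]; exact ⟨hq, hcon⟩)
    have h2 := hσ.pos q hq
    obtain ⟨z, ⟨ξ, hξ, rfl⟩, hz⟩ := (infDist_lt_iff (hFne ⟨q, hq⟩)).1 (show infDist q F < σ q by linarith)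
    rw [dist_eq_norm] at hz
    exact ⟨ξ, hξ, hz⟩
  intro ι P R hPΛ hR0 hRw hdisj hfin hσR hRδ
  have hC : (0 : ℝ) < 2 := two_pos
  obtain ⟨yc, Th, hyc, hTh1, hTh2, hTh3, hTh4, hTh5, hTh6, hTh7⟩ :=
    Ho_627.hole_opening_image (V := R3) (L := Λ) (C := 2) (e := w) (th := th)
      (Q := fun y => y ∈ Λ ∧ y ∉ D ∧ ∃ q ∈ Λ, th y = q ∧ ‖q - y‖ ≤ w q / 16) hΛ hw le_rfl
      (fun y y' => hCT2.mono y y') (fun y y' => hCT2.lip hC y y')
      (fun y => (hnear y).trans (by have := hw.nonneg y; linarith)) P R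
      (fun i => by
        obtain ⟨y, hyΛ, h1, h2, h3⟩ := hex (P i) (hPΛ i)
        exact ⟨y, h1, hyΛ, h3, P i, hPΛ i, h1, h2⟩) hR0 hRw hdisj hfin
  have hyn : ∀ i, ‖P i - yc i‖ ≤ w (P i) / 16 := by
    intro i
    obtain ⟨h1, -, -, q, -, h2, h3⟩ := hyc i
    rw [h1] at h2
    rwa [← h2] at h3
  have hξ : ∀ i, ∃ ξ ∈ EE Ω f G p μ κ δ, ‖yc i - f ξ‖ ≤ R i := by
    intro i
    obtain ⟨-, h2, h3, -⟩ := hyc i
    have h4 : infDist (yc i) F < σ (yc i) := by
      by_contra hcon
      push Not at hcon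
      exact h3 (by rw [hDdef]; exact hcon)
    obtain ⟨z, ⟨ξ, hξ, rfl⟩, hz⟩ := (infDist_lt_iff (hFne ⟨_, h2⟩)).1 h4
    rw [dist_eq_norm] at hz
    exact ⟨ξ, hξ, (hz.le.trans (hσR i (yc i) (hyn i)))⟩
  choose ξ hξE hξn using hξ
  have hcore : ∀ i, GoodAt Ω f G p κ (ξ i) (4 * R i / μ (ξ i)) ∧
    (∀ x ∈ Ω, ‖f x - yc i‖ ≤ R i → x ∈ cube (ξ i) (4 * R i / μ (ξ i))) ∧
    (∀ x, ‖f (ξ i) + Gmat G (ξ i) (x - ξ i) - yc i‖ ≤ 2 * R i → x ∈ cube (ξ i) (4 * R i / μ (ξ i))) ∧
    ∀ x ∈ cube (ξ i) (4 * R i / μ (ξ i)), x ∈ Ω ∧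
      ‖f x - (f (ξ i) + Gmat G (ξ i) (x - ξ i))‖ ≤ κ₁ * R i := by
    intro i
    have hξΩ := (hξE i).1
    refine core_at hΩ hΛ hf (hR0 i) (hξE i) (hμ _ hξΩ) hκ₁ (hκ _ hξΩ) (hξn i) (hRδ i _ hξΩ ?_)
    have h1 : f (ξ i) - P i = -(yc i - f (ξ i)) - (P i - yc i) := by abel
    have h2 : ‖f (ξ i) - P i‖ ≤ ‖yc i - f (ξ i)‖ + ‖P i - yc i‖ := by
      rw [h1]
      refine (norm_sub_le _ _).trans ?_
      rw [norm_neg]
    have h3 := hξn i
    have h4 := hyn i
    have h5 := hRw i
    have h6 := hw.nonneg (P i)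
    linarith
  refine ⟨yc, ξ, Th, hξE, fun i => (hyc i).2.1, hξn, hyn, fun i => (hyc i).1, hTh1, hTh2, hTh3, hTh4,
    hTh5, hTh6, ?_, fun i => (hcore i).1, fun i => (hcore i).2.2.2, ?_, ?_⟩
  · intro y hy hyR
    have hthy := hoff y hy
    refine hTh7 y hthy (fun i => ?_) hyR
    have h1 := hCT2.lip hC y (yc i)
    rw [hthy, (hyc i).1] at h1
    have h2 := hyR i
    have h3 := hR0 i
    linarith
  · intro i x hx hxT
    have h1 := hTh6 i (f x) hxT
    have h2 : ‖f x - yc i‖ ≤ R i := by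
      have e1 : f x - yc i = Th (f x) - P i := by rw [h1]; simp only [add_sub_cancel_left]; rw [← h1]
      rw [e1]
      have := hR0 i
      linarith
    have hxc := (hcore i).2.1 x hx h2
    refine ⟨hxc, ?_⟩
    have h3 := ((hcore i).2.2.2 x hxc).2
    have e1 : Th (f x) = f x + (P i - yc i) := by
      have : Th (f x) - P i = f x - yc i := by
        conv_rhs => rw [h1]
        rw [add_sub_cancel_left]
      have e2 : Th (f x) = (Th (f x) - P i) + P i := by abel
      rw [e2, this]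
      abel
    have e2 : Th (f x) - Aff f G (ξ i) (P i - yc i) x = f x - (f (ξ i) + Gmat G (ξ i) (x - ξ i)) := by
      rw [e1, Aff]
      abel
    rw [e2]
    exact h3
  · intro i x hxA
    have hRi := hR0 i
    have e0 : f (ξ i) + Gmat G (ξ i) (x - ξ i) - yc i = Aff f G (ξ i) (P i - yc i) x - P i := by
      rw [Aff]; abel
    have h1 : x ∈ cube (ξ i) (4 * R i / μ (ξ i)) := (hcore i).2.2.1 x (by
      rw [e0]; linarith)
    obtain ⟨hxΩ, h3⟩ := (hcore i).2.2.2 x h1
    have h4 : ‖f x - yc i‖ ≤ R i / 16 := by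
      have e1 : f x - yc i = (f x - (f (ξ i) + Gmat G (ξ i) (x - ξ i))) +
          (Aff f G (ξ i) (P i - yc i) x - P i) := by
        rw [← e0]; abel
      rw [e1]
      refine (norm_add_le _ _).trans ?_
      have : κ₁ * R i ≤ 1 / 32 * R i := by gcongr
      linarith
    have h5 := hTh5 i (f x) h4
    refine ⟨hxΩ, h1, ?_⟩
    have e2 : Th (f x) - Aff f G (ξ i) (P i - yc i) x = f x - (f (ξ i) + Gmat G (ξ i) (x - ξ i)) := by
      rw [h5, Aff]
      abel
    rw [e2]
    exact h3

end Crest.Agent.R096.Toph_766
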