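import Mathlib
import Crest.Agent.R096.Sel2_766
import Crest.Agent.R096.Sk0_962
import Crest.Agent.R096.EaX1_766
import Crest.Agent.R096.Toph1_766

-- ▼ part R096/Bks1_896
section

/-!
Row 96 (S0127), helper896.  **BLOCKS-SMALL** (leaf [B] of 962 #10270), abstract part: pure measure theory.
Countably many a.e. disjoint blocks `N i ⊆ Om` of finite measure, `D` close to a constant `A i` on `N i`
in the mean (`∫_(N i) Σ‖D l - A i l‖^p ≤ (m i / 2) μ (N i)`), every tuple at distance `< m i` of `A i`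
is good (`S`), `m i ≤ Σ ‖A i l‖^p`.  Then `μ (⋃ N i) ≤ 2 μ (Om ∩ S)` and
`Σ' (Σ ‖A i l‖^p) μ (N i) ≤ C_p (∫_Om Σ ‖D l - v l‖^p + (Σ ‖v l‖^p) μ (Om ∩ S))`.
-/

set_option autoImplicit false
set_option linter.unusedSectionVars false
set_option linter.style.longLine false
set_option linter.unusedVariables false

namespace Crest.Agent.R096.Bks_896

open MeasureTheory Set
open scoped ENNReal NNReal

variable {X : Type*} [MeasurableSpace X] {μ : Measure X}

/-- **Chebyshev**: half of the block is in `S`. -/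
theorem half_of_cheb {N S : Set X} (hN : NullMeasurableSet N μ) (hNt : μ N ≠ ∞) {φ : X → ℝ≥0∞}
    (hφ : AEMeasurable φ (μ.restrict N)) {m : ℝ≥0∞} (hm : m ≠ 0) (hmt : m ≠ ∞)
    (hint : ∫⁻ x in N, φ x ∂μ ≤ m / 2 * μ N) (hS : ∀ x ∈ N, φ x < m → x ∈ S) :
    μ N ≤ 2 * μ (N ∩ S) := by
  have h1 : N ⊆ (N ∩ S) ∪ ({x | m ≤ φ x} ∩ N) := by
    intro x hx
    by_cases h : φ x < m
    · exact Or.inl ⟨hx, hS x hx h⟩
    · exact Or.inr ⟨not_lt.1 h, hx⟩
  have h2 : μ ({x | m ≤ φ x} ∩ N) ≤ μ N / 2 := by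
    rw [← Measure.restrict_apply₀' hN]
    refine (meas_ge_le_lintegral_div hφ hm hmt).trans ?_
    refine (ENNReal.div_le_div_right hint m).trans (le_of_eq ?_)
    rw [div_eq_mul_inv, div_eq_mul_inv, div_eq_mul_inv]
    calc m * 2⁻¹ * μ N * m⁻¹ = (m * m⁻¹) * (μ N * 2⁻¹) := by ring
      _ = μ N * 2⁻¹ := by rw [ENNReal.mul_inv_cancel hm hmt, one_mul]
  have h3 : μ N ≤ μ (N ∩ S) + μ N / 2 :=
    (measure_mono h1).trans ((measure_union_le _ _).trans (by gcongr))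
  have h4 : μ N / 2 ≤ μ (N ∩ S) := by
    have h5 : μ N / 2 + μ N / 2 ≤ μ (N ∩ S) + μ N / 2 := by rwa [ENNReal.add_halves]
    have h6 : μ N / 2 ≠ ∞ := ENNReal.div_ne_top hNt (by norm_num)
    exact (ENNReal.add_le_add_iff_right h6).1 h5
  calc μ N = μ N / 2 + μ N / 2 := (ENNReal.add_halves _).symm
    _ ≤ μ (N ∩ S) + μ (N ∩ S) := add_le_add h4 h4
    _ = 2 * μ (N ∩ S) := (two_mul _).symm

section family

variable {ι : Type*} [Countable ι] {N : ι → Set X} {Om S : Set X}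

theorem tsum_inter_le (hN : ∀ i, NullMeasurableSet (N i) μ)
    (hd : Pairwise (Function.onFun (AEDisjoint μ) N)) (hsub : ∀ i, N i ⊆ Om) :
    ∑' i, μ (N i ∩ S) ≤ μ (Om ∩ S) := by
  have hac : μ.restrict S ≤ μ := Measure.restrict_le_self
  have h1 : ∀ i, NullMeasurableSet (N i) (μ.restrict S) := fun i =>
    (hN i).mono_ac (Measure.absolutelyContinuous_of_le hac)
  have h2 : ∀ i, μ.restrict S (N i) = μ (N i ∩ S) := fun i => Measure.restrict_apply₀ (h1 i)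
  have h3 : Pairwise (Function.onFun (AEDisjoint (μ.restrict S)) N) := by
    intro i j hij
    exact le_antisymm ((hac _).trans (hd hij).le) zero_le
  calc ∑' i, μ (N i ∩ S) = ∑' i, μ.restrict S (N i) := by simp only [h2]
    _ = μ.restrict S (⋃ i, N i) := (measure_iUnion₀ h3 h1).symm
    _ = μ ((⋃ i, N i) ∩ S) := Measure.restrict_apply₀ (NullMeasurableSet.iUnion h1)
    _ ≤ μ (Om ∩ S) := measure_mono (inter_subset_inter_left _ (iUnion_subset hsub))

/-- **the blocks are small** -/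
theorem vol_blocks (hN : ∀ i, NullMeasurableSet (N i) μ)
    (hd : Pairwise (Function.onFun (AEDisjoint μ) N)) (hsub : ∀ i, N i ⊆ Om)
    (h : ∀ i, μ (N i) ≤ 2 * μ (N i ∩ S)) : μ (⋃ i, N i) ≤ 2 * μ (Om ∩ S) := by
  refine (measure_iUnion_le _).trans ((ENNReal.tsum_le_tsum h).trans ?_)
  rw [ENNReal.tsum_mul_left]
  gcongr
  exact tsum_inter_le hN hd hsub

end family

section energy

variable {V : Type*} [NormedAddCommGroup V] {κ : Type*} [Fintype κ]

/-- the constant of one block -/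
noncomputable def Kb (p : ℝ) : ℝ≥0∞ := ((1 - (1 / 2 : ℝ≥0∞) ^ (1 / p))⁻¹) ^ p

theorem Kb_ne_top {p : ℝ} (hp : 0 < p) : Kb p ≠ ∞ := by
  refine ENNReal.rpow_ne_top_of_nonneg hp.le ?_
  rw [ENNReal.inv_ne_top]
  have h1 : (1 / 2 : ℝ≥0∞) ^ (1 / p) < 1 :=
    ENNReal.rpow_lt_one (by rw [one_div]; exact ENNReal.inv_lt_one.2 (by norm_num)) (by positivity)
  exact (tsub_pos_of_lt h1).ne'

/-- **energy of the constant `A` on one block** (Minkowski). -/
theorem block_energy {p : ℝ} (hp : 1 ≤ p) {N : Set X} (hNt : μ N ≠ ∞) {D : κ → X → V}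
    (hD : ∀ l, AEStronglyMeasurable (D l) (μ.restrict N)) (A : κ → V) {m : ℝ≥0∞}
    (hmA : m ≤ ∑ l, ‖A l‖ₑ ^ p)
    (hint : ∫⁻ x in N, ∑ l, ‖D l x - A l‖ₑ ^ p ∂μ ≤ m / 2 * μ N) :
    (∑ l, ‖A l‖ₑ ^ p) * μ N ≤ Kb p * ∫⁻ x in N, ∑ l, ‖D l x‖ₑ ^ p ∂μ := by
  have hp0 : 0 < p := by linarith
  have hpp : 1 / p * p = 1 := by field_simp
  set s : ℝ≥0∞ := ∑ l, ‖A l‖ₑ ^ p with hs
  have hst : s ≠ ∞ := by
    rw [hs, ENNReal.sum_ne_top]
    intro l _
    exact ENNReal.rpow_ne_top_of_nonneg hp0.le enorm_ne_top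
  have hm1 : AEMeasurable (fun x => (∑ l, ‖D l x - A l‖ₑ ^ p) ^ (1 / p)) (μ.restrict N) := by
    refine AEMeasurable.pow_const (Finset.aemeasurable_fun_sum _ fun l _ => ?_) _
    exact ((hD l).sub aestronglyMeasurable_const).enorm.pow_const _
  have hm2 : AEMeasurable (fun x => (∑ l, ‖D l x‖ₑ ^ p) ^ (1 / p)) (μ.restrict N) := by
    refine AEMeasurable.pow_const (Finset.aemeasurable_fun_sum _ fun l _ => ?_) _
    exact (hD l).enorm.pow_const _
  have hpw : ∀ x, s ^ (1 / p) ≤ ((fun x => (∑ l, ‖D l x - A l‖ₑ ^ p) ^ (1 / p)) +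
      (fun x => (∑ l, ‖D l x‖ₑ ^ p) ^ (1 / p))) x := by
    intro x
    have h1 : ∀ l, ‖A l‖ₑ ≤ ‖D l x - A l‖ₑ + ‖D l x‖ₑ := by
      intro l
      have h2 : A l = D l x - (D l x - A l) := by abel
      calc ‖A l‖ₑ = ‖D l x - (D l x - A l)‖ₑ := by rw [← h2]
        _ ≤ ‖D l x‖ₑ + ‖D l x - A l‖ₑ := enorm_sub_le
        _ = _ := add_comm _ _
    refine le_trans ?_ (ENNReal.Lp_add_le Finset.univ (fun l => ‖D l x - A l‖ₑ)
      (fun l => ‖D l x‖ₑ) hp)
    refine ENNReal.rpow_le_rpow (Finset.sum_le_sum fun l _ => ?_) (by positivity)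
    exact ENNReal.rpow_le_rpow (h1 l) hp0.le
  set I := ∫⁻ x in N, ∑ l, ‖D l x‖ₑ ^ p ∂μ with hI
  set t : ℝ≥0∞ := (s * μ N) ^ (1 / p) with ht
  have htt : t ≠ ∞ := ENNReal.rpow_ne_top_of_nonneg (by positivity) (ENNReal.mul_ne_top hst hNt)
  set c : ℝ≥0∞ := (1 / 2 : ℝ≥0∞) ^ (1 / p) with hc
  have hc1 : c < 1 :=
    ENNReal.rpow_lt_one (by rw [one_div]; exact ENNReal.inv_lt_one.2 (by norm_num)) (by positivity)
  have key : t ≤ c * t + I ^ (1 / p) := by
    have e0 : (∫⁻ x in N, (s ^ (1 / p)) ^ p ∂μ) = s * μ N := by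
      rw [← ENNReal.rpow_mul, hpp, ENNReal.rpow_one, lintegral_const, Measure.restrict_apply_univ]
    have e1 : t ≤ (∫⁻ x in N, (((fun x => (∑ l, ‖D l x - A l‖ₑ ^ p) ^ (1 / p)) +
      (fun x => (∑ l, ‖D l x‖ₑ ^ p) ^ (1 / p))) x) ^ p ∂μ) ^ (1 / p) := by
      rw [ht, ← e0]
      refine ENNReal.rpow_le_rpow (lintegral_mono fun x => ?_) (by positivity)
      exact ENNReal.rpow_le_rpow (hpw x) hp0.le
    refine e1.trans ((ENNReal.lintegral_Lp_add_le hm1 hm2 hp).trans ?_)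
    have e2 : ∀ g : X → ℝ≥0∞, (∫⁻ x in N, (g x ^ (1 / p)) ^ p ∂μ) = ∫⁻ x in N, g x ∂μ := by
      intro g
      refine lintegral_congr fun x => ?_
      rw [← ENNReal.rpow_mul, hpp, ENNReal.rpow_one]
    rw [e2 (fun x => ∑ l, ‖D l x - A l‖ₑ ^ p), e2 (fun x => ∑ l, ‖D l x‖ₑ ^ p)]
    refine add_le_add ?_ le_rfl
    rw [hc, ht, ← ENNReal.mul_rpow_of_nonneg _ _ (by positivity : (0:ℝ) ≤ 1 / p)]
    refine ENNReal.rpow_le_rpow (hint.trans ?_) (by positivity)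
    calc m / 2 * μ N ≤ s / 2 * μ N := by gcongr
      _ = 1 / 2 * (s * μ N) := by rw [div_eq_mul_inv, div_eq_mul_inv, one_mul]; ring
  have k2 : (1 - c) * t ≤ I ^ (1 / p) := by
    rw [ENNReal.sub_mul (fun _ _ => htt), one_mul, tsub_le_iff_left]
    exact key
  have hc0 : 1 - c ≠ 0 := (tsub_pos_of_lt hc1).ne'
  have hct : 1 - c ≠ ∞ := (lt_of_le_of_lt tsub_le_self ENNReal.one_lt_top).ne
  have k3 : t ≤ (1 - c)⁻¹ * I ^ (1 / p) := by
    calc t = (1 - c)⁻¹ * ((1 - c) * t) := by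
          rw [← mul_assoc, ENNReal.inv_mul_cancel hc0 hct, one_mul]
      _ ≤ _ := by gcongr
  calc s * μ N = t ^ p := by rw [ht, ← ENNReal.rpow_mul, hpp, ENNReal.rpow_one]
    _ ≤ ((1 - c)⁻¹ * I ^ (1 / p)) ^ p := ENNReal.rpow_le_rpow k3 hp0.le
    _ = Kb p * I := by
        rw [ENNReal.mul_rpow_of_nonneg _ _ hp0.le, ← ENNReal.rpow_mul, hpp, ENNReal.rpow_one, Kb, hc]

/-- the constant of `blocks_energy` -/
noncomputable def Cb (p : ℝ) : ℝ≥0∞ := Kb p * 2 ^ (p - 1) * 2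

theorem Cb_ne_top {p : ℝ} (hp : 1 ≤ p) : Cb p ≠ ∞ := by
  refine ENNReal.mul_ne_top (ENNReal.mul_ne_top (Kb_ne_top (by linarith)) ?_) (by norm_num)
  exact ENNReal.rpow_ne_top_of_nonneg (by linarith) (by norm_num)

theorem pow_split {p : ℝ} (hp : 1 ≤ p) (B v : κ → V) :
    ∑ l, ‖B l‖ₑ ^ p ≤ 2 ^ (p - 1) * (∑ l, ‖B l - v l‖ₑ ^ p + ∑ l, ‖v l‖ₑ ^ p) := by
  rw [← Finset.sum_add_distrib, Finset.mul_sum]
  refine Finset.sum_le_sum fun l _ => ?_
  have h1 : ‖B l‖ₑ ≤ ‖B l - v l‖ₑ + ‖v l‖ₑ := by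
    calc ‖B l‖ₑ = ‖(B l - v l) + v l‖ₑ := by rw [sub_add_cancel]
      _ ≤ _ := enorm_add_le _ _
  exact (ENNReal.rpow_le_rpow h1 (by linarith)).trans (ENNReal.rpow_add_le_mul_rpow_add_rpow _ _ hp)

variable {ι : Type*} [Countable ι] {N : ι → Set X} {Om S : Set X}

/-- **the energy of the blocks is small** -/
theorem blocks_energy {p : ℝ} (hp : 1 ≤ p) (hN : ∀ i, NullMeasurableSet (N i) μ)
    (hNt : ∀ i, μ (N i) ≠ ∞) (hd : Pairwise (Function.onFun (AEDisjoint μ) N))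
    (hsub : ∀ i, N i ⊆ Om) {D : κ → X → V}
    (hD : ∀ l, AEStronglyMeasurable (D l) (μ.restrict Om)) (A : ι → κ → V) {m : ι → ℝ≥0∞}
    (hmA : ∀ i, m i ≤ ∑ l, ‖A i l‖ₑ ^ p)
    (hint : ∀ i, ∫⁻ x in N i, ∑ l, ‖D l x - A i l‖ₑ ^ p ∂μ ≤ m i / 2 * μ (N i))
    (hvol : μ (⋃ i, N i) ≤ 2 * μ (Om ∩ S)) (v : κ → V) :
    ∑' i, (∑ l, ‖A i l‖ₑ ^ p) * μ (N i) ≤
      Cb p * (∫⁻ x in Om, ∑ l, ‖D l x - v l‖ₑ ^ p ∂μ + (∑ l, ‖v l‖ₑ ^ p) * μ (Om ∩ S)) := by
  have h1 : ∀ i, (∑ l, ‖A i l‖ₑ ^ p) * μ (N i) ≤ Kb p * ∫⁻ x in N i, ∑ l, ‖D l x‖ₑ ^ p ∂μ :=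
    fun i => block_energy hp (hNt i)
      (fun l => (hD l).mono_measure (Measure.restrict_mono (hsub i) le_rfl)) (A i) (hmA i) (hint i)
  refine (ENNReal.tsum_le_tsum h1).trans ?_
  rw [ENNReal.tsum_mul_left, ← lintegral_iUnion₀ hN hd, Cb, mul_assoc, mul_assoc]
  gcongr
  have h2 : (∫⁻ x in ⋃ i, N i, ∑ l, ‖D l x‖ₑ ^ p ∂μ) ≤
      2 ^ (p - 1) * (∫⁻ x in Om, ∑ l, ‖D l x - v l‖ₑ ^ p ∂μ +
        (∑ l, ‖v l‖ₑ ^ p) * μ (⋃ i, N i)) := by
    have hpt : (2 : ℝ≥0∞) ^ (p - 1) ≠ ∞ :=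
      ENNReal.rpow_ne_top_of_nonneg (by linarith) (by norm_num)
    calc (∫⁻ x in ⋃ i, N i, ∑ l, ‖D l x‖ₑ ^ p ∂μ)
        ≤ ∫⁻ x in ⋃ i, N i, 2 ^ (p - 1) * (∑ l, ‖D l x - v l‖ₑ ^ p + ∑ l, ‖v l‖ₑ ^ p) ∂μ :=
          lintegral_mono fun x => pow_split hp (fun l => D l x) v
      _ = 2 ^ (p - 1) * (∫⁻ x in ⋃ i, N i, ∑ l, ‖D l x - v l‖ₑ ^ p ∂μ +
            (∑ l, ‖v l‖ₑ ^ p) * μ (⋃ i, N i)) := by
          rw [lintegral_const_mul' _ _ hpt, lintegral_add_right _ measurable_const,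
            lintegral_const, Measure.restrict_apply_univ]
      _ ≤ _ := by
          gcongr
          exact iUnion_subset hsub
  refine h2.trans ?_
  gcongr
  rw [mul_add]
  refine add_le_add ?_ ?_
  · calc (∫⁻ x in Om, ∑ l, ‖D l x - v l‖ₑ ^ p ∂μ) = 1 * ∫⁻ x in Om, ∑ l, ‖D l x - v l‖ₑ ^ p ∂μ :=
        (one_mul _).symm
      _ ≤ _ := by gcongr; norm_num
  · calc (∑ l, ‖v l‖ₑ ^ p) * μ (⋃ i, N i) ≤ (∑ l, ‖v l‖ₑ ^ p) * (2 * μ (Om ∩ S)) := by gcongr
      _ = _ := by ring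

end energy

end Crest.Agent.R096.Bks_896
end

-- ▼ part R096/Bks2_896
section

/-!
Row 96 (S0127), helper896.  **BLOCKS-SMALL** (leaf [B] of 962 #10270), the form in `R3`, with 538's
`Gmat` and 766's `LM`, `GoodAt`, `EE`.
-/

set_option autoImplicit false
set_option linter.unusedSectionVars false
set_option linter.style.longLine false
set_option linter.unusedVariables false

namespace Crest.Agent.R096.Bks_896

open MeasureTheory Set Metric
open scoped ENNReal NNReal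
open Crest.AnalysisR.VecCalc3 Crest.AnalysisR.Sobolev
open Crest.Agent.R96.Lu_538 Crest.Agent.R096.Sel_766 Crest.Agent.R096.Osc_802
open Crest.Agent.R096.VolC2_766
open Crest.Agent.R096.Sk_962 (SH)

/-- the threshold of a matrix with smallest singular value `≥ μ` -/
noncomputable def mth (p μ : ℝ) : ℝ := (μ / 3) ^ p

theorem mth_pos {p μ : ℝ} (hμ : 0 < μ) : 0 < mth p μ := Real.rpow_pos_of_pos (by positivity) _

theorem norm_gmatL_le_sum (g : Fin 3 → R3) : ‖gmatL g‖ ≤ ∑ j, ‖g j‖ := by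
  refine (norm_gmatL_le g).trans (Real.sqrt_le_iff.2 ⟨Finset.sum_nonneg fun _ _ => norm_nonneg _, ?_⟩)
  exact Finset.sum_sq_le_sq_sum_of_nonneg (s := Finset.univ) fun j _ => norm_nonneg (g j)

/-- tuples near `A` are invertible -/
theorem det_ne_of_near {p μ : ℝ} (hp : 0 < p) (hμ : 0 < μ) {A B : Fin 3 → R3}
    (hA : ∀ v, μ * ‖v‖ ≤ ‖gmatL A v‖) (hB : ∑ j, ‖B j - A j‖ ^ p < mth p μ) :
    (gmatL B).det ≠ 0 := by
  have h1 : ∀ j, ‖B j - A j‖ < μ / 3 := by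
    intro j
    have h2 : ‖B j - A j‖ ^ p ≤ ∑ j, ‖B j - A j‖ ^ p :=
      Finset.single_le_sum (f := fun j => ‖B j - A j‖ ^ p)
        (fun i _ => Real.rpow_nonneg (norm_nonneg _) _) (Finset.mem_univ j)
    exact (Real.rpow_lt_rpow_iff (norm_nonneg _) (by positivity) hp).1 (h2.trans_lt hB)
  have h3 : ‖gmatL B - gmatL A‖ < μ := by
    have h4 : gmatL B - gmatL A = gmatL (fun j => B j - A j) := by
      rw [← map_sub]; rfl
    rw [h4]
    refine (norm_gmatL_le_sum _).trans_lt ?_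
    rw [Fin.sum_univ_three]
    have a0 := h1 0
    have a1 := h1 1
    have a2 := h1 2
    linarith
  intro hdet
  have h5 : ¬ Function.Injective (gmatL B) := by
    intro hinj
    apply (LinearMap.isUnit_iff_ker_eq_bot (gmatL B : R3 →ₗ[ℝ] R3)).not.1 ?_
      (LinearMap.ker_eq_bot.2 hinj)
    intro hu
    have h6 := (LinearMap.isUnit_det _ hu)
    rw [show LinearMap.det (gmatL B : R3 →ₗ[ℝ] R3) = (gmatL B).det from rfl, hdet] at h6
    exact not_isUnit_zero h6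
  apply h5
  have h7 : ∀ v, gmatL B v = 0 → v = 0 := by
    intro v hv
    by_contra hne
    have hv0 : 0 < ‖v‖ := norm_pos_iff.2 hne
    have h8 := hA v
    have h9 : gmatL A v = -((gmatL B - gmatL A) v) := by
      rw [sub_apply, hv]; abel
    rw [h9, norm_neg] at h8
    have h10 := (gmatL B - gmatL A).le_opNorm v
    have : ‖gmatL B - gmatL A‖ * ‖v‖ < μ * ‖v‖ := mul_lt_mul_of_pos_right h3 hv0
    linarith
  intro v w hvw
  have := h7 (v - w) (by rw [map_sub, hvw, sub_self])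
  exact sub_eq_zero.1 this

theorem mth_le {p μ : ℝ} (hp : 0 < p) (hμ : 0 < μ) {A : Fin 3 → R3}
    (hA : ∀ v, μ * ‖v‖ ≤ ‖gmatL A v‖) : mth p μ ≤ ∑ j, ‖A j‖ ^ p := by
  have h1 : ∃ j, μ / 3 ≤ ‖A j‖ := by
    by_contra hcon
    push Not at hcon
    have h2 : ‖gmatL A‖ < μ := by
      refine (norm_gmatL_le_sum _).trans_lt ?_
      rw [Fin.sum_univ_three]
      have a0 := hcon 0
      have a1 := hcon 1
      have a2 := hcon 2
      linarith
    obtain ⟨v, hv⟩ := exists_ne (0 : R3)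
    have hv0 : 0 < ‖v‖ := norm_pos_iff.2 hv
    have h3 := (gmatL A).le_opNorm v
    have h4 : ‖gmatL A‖ * ‖v‖ < μ * ‖v‖ := mul_lt_mul_of_pos_right h2 hv0
    linarith [hA v]
  obtain ⟨j, hj⟩ := h1
  calc mth p μ ≤ ‖A j‖ ^ p := Real.rpow_le_rpow (by positivity) hj hp.le
    _ ≤ _ := Finset.single_le_sum (f := fun j => ‖A j‖ ^ p)
        (fun i _ => Real.rpow_nonneg (norm_nonneg _) _) (Finset.mem_univ j)

theorem sum_enorm_lt {p m : ℝ} (hp : 0 < p) {B : Fin 3 → R3}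
    (h : ∑ j, ‖B j‖ₑ ^ p < ENNReal.ofReal m) : ∑ j, ‖B j‖ ^ p < m := by
  have h1 : ∑ j, ‖B j‖ₑ ^ p = ENNReal.ofReal (∑ j, ‖B j‖ ^ p) := by
    rw [ENNReal.ofReal_sum_of_nonneg fun i _ => Real.rpow_nonneg (norm_nonneg _) _]
    refine Finset.sum_congr rfl fun j _ => ?_
    rw [← ofReal_norm, ENNReal.ofReal_rpow_of_nonneg (norm_nonneg _) hp.le]
  rw [h1] at h
  exact (ENNReal.ofReal_lt_ofReal_iff_of_nonneg
    (Finset.sum_nonneg fun i _ => Real.rpow_nonneg (norm_nonneg _) _)).1 h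

theorem sum_enorm_eq {p : ℝ} (hp : 0 < p) (B : Fin 3 → R3) :
    ∑ j, ‖B j‖ₑ ^ p = ENNReal.ofReal (∑ j, ‖B j‖ ^ p) := by
  rw [ENNReal.ofReal_sum_of_nonneg fun i _ => Real.rpow_nonneg (norm_nonneg _) _]
  refine Finset.sum_congr rfl fun j _ => ?_
  rw [← ofReal_norm, ENNReal.ofReal_rpow_of_nonneg (norm_nonneg _) hp.le]

variable {ι : Type*} [Countable ι] {N : ι → Set R3} {Om : Set R3}

/-- **BLOCKS-SMALL** with real thresholds `m i`. -/
theorem blocks_small {p : ℝ} (hp : 1 ≤ p) (hN : ∀ i, NullMeasurableSet (N i))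
    (hNt : ∀ i, volume (N i) ≠ ∞) (hd : Pairwise (Function.onFun (AEDisjoint volume) N))
    (hsub : ∀ i, N i ⊆ Om) {G : Fin 3 → R3 → R3}
    (hG : ∀ j, AEStronglyMeasurable (G j) (volume.restrict Om)) {A : ι → Fin 3 → R3} {m : ι → ℝ}
    (hm : ∀ i, 0 < m i) (hdet : ∀ i, ∀ B : Fin 3 → R3, ∑ j, ‖B j - A i j‖ ^ p < m i → (gmatL B).det ≠ 0)
    (hmA : ∀ i, m i ≤ ∑ j, ‖A i j‖ ^ p)
    (hint : ∀ i, ∫⁻ x in N i, ∑ j, ‖G j x - A i j‖ₑ ^ p ≤ ENNReal.ofReal (m i / 2) * volume (N i)) :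
    volume (⋃ i, N i) ≤ 2 * volume (Om ∩ {x | (Gmat G x).det ≠ 0}) ∧
    ∀ v : Fin 3 → R3, ∑' i, ENNReal.ofReal (∑ j, ‖A i j‖ ^ p) * volume (N i) ≤
      Cb p * ((∫⁻ x in Om, ∑ j, ‖G j x - v j‖ₑ ^ p) +
        ENNReal.ofReal (∑ j, ‖v j‖ ^ p) * volume (Om ∩ {x | (Gmat G x).det ≠ 0})) := by
  have hp0 : 0 < p := by linarith
  have hint' : ∀ i, ∫⁻ x in N i, ∑ j, ‖G j x - A i j‖ₑ ^ p ≤ ENNReal.ofReal (m i) / 2 * volume (N i) := by
    intro i
    refine (hint i).trans (le_of_eq ?_)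
    rw [ENNReal.ofReal_div_of_pos (by norm_num), ENNReal.ofReal_ofNat]
  have hvol : volume (⋃ i, N i) ≤ 2 * volume (Om ∩ {x | (Gmat G x).det ≠ 0}) := by
    refine vol_blocks hN hd hsub fun i => ?_
    refine half_of_cheb (hN i) (hNt i) (m := ENNReal.ofReal (m i)) ?_ ?_ ENNReal.ofReal_ne_top
      (hint' i) ?_
    · refine Finset.aemeasurable_fun_sum _ fun l _ => ?_
      exact (((hG l).mono_measure (Measure.restrict_mono (hsub i) le_rfl)).sub
        aestronglyMeasurable_const).enorm.pow_const _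
    · exact (ENNReal.ofReal_pos.2 (hm i)).ne'
    · intro x _ hx
      exact hdet i (fun j => G j x) (sum_enorm_lt hp0 (B := fun j => G j x - A i j) hx)
  refine ⟨hvol, fun v => ?_⟩
  have h1 := blocks_energy (μ := volume) hp hN hNt hd hsub hG A (m := fun i => ENNReal.ofReal (m i))
    (fun i => by
      rw [sum_enorm_eq hp0]
      exact ENNReal.ofReal_le_ofReal (hmA i)) hint' hvol v
  simp only [sum_enorm_eq hp0 v, sum_enorm_eq hp0 (A _)] at h1
  exact h1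

/-- **BLOCKS-SMALL at good points** (`A i = G (ξ i)`, `Gmat G (ξ i)` with singular values
`≥ μ i`): the averaged distance has to be `≤ (μ i / 3)^p / 2`. -/
theorem blocks_small_at {p : ℝ} (hp : 1 ≤ p) (hN : ∀ i, NullMeasurableSet (N i))
    (hNt : ∀ i, volume (N i) ≠ ∞) (hd : Pairwise (Function.onFun (AEDisjoint volume) N))
    (hsub : ∀ i, N i ⊆ Om) {G : Fin 3 → R3 → R3}
    (hG : ∀ j, AEStronglyMeasurable (G j) (volume.restrict Om)) {ξ : ι → R3} {μ : ι → ℝ}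
    (hμ : ∀ i, 0 < μ i) (hLM : ∀ i, Gmat G (ξ i) ∈ LM (μ i))
    (hint : ∀ i, ∫⁻ x in N i, ∑ j, ‖G j x - G j (ξ i)‖ₑ ^ p ≤
      ENNReal.ofReal (mth p (μ i) / 2) * volume (N i)) :
    volume (⋃ i, N i) ≤ 2 * volume (Om ∩ {x | (Gmat G x).det ≠ 0}) ∧
    ∀ v : Fin 3 → R3, ∑' i, ENNReal.ofReal (∑ j, ‖G j (ξ i)‖ ^ p) * volume (N i) ≤
      Cb p * ((∫⁻ x in Om, ∑ j, ‖G j x - v j‖ₑ ^ p) +
        ENNReal.ofReal (∑ j, ‖v j‖ ^ p) * volume (Om ∩ {x | (Gmat G x).det ≠ 0})) :=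
  blocks_small hp hN hNt hd hsub hG (A := fun i j => G j (ξ i)) (m := fun i => mth p (μ i))
    (fun i => mth_pos (hμ i))
    (fun i B hB => det_ne_of_near (by linarith) (hμ i) (A := fun j => G j (ξ i))
      (fun v => (hLM i v).1) hB)
    (fun i => mth_le (by linarith) (hμ i) (A := fun j => G j (ξ i)) (fun v => (hLM i v).1)) hint

/-- **BLOCKS-SMALL from 766's `GoodAt`**: `N i` in the cube `(ξ i, s i)`, and `N i` not small. -/
theorem blocks_small_good {p : ℝ} (hp : 1 ≤ p) (hN : ∀ i, NullMeasurableSet (N i))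
    (hd : Pairwise (Function.onFun (AEDisjoint volume) N)) {f : R3 → R3} {G : Fin 3 → R3 → R3}
    (hG : ∀ j, AEStronglyMeasurable (G j) (volume.restrict Om)) {ξ : ι → R3} {μ κ : R3 → ℝ}
    {s : ι → ℝ} (hs : ∀ i, 0 < s i) (hμ : ∀ i, 0 < μ (ξ i)) (hLM : ∀ i, Gmat G (ξ i) ∈ LM (μ (ξ i)))
    (hgood : ∀ i, GoodAt Om f G p κ (ξ i) (s i)) (hcube : ∀ i, N i ⊆ cube (ξ i) (s i))
    (hvol : ∀ i, ENNReal.ofReal (κ (ξ i) * s i ^ 3) ≤
      ENNReal.ofReal (mth p (μ (ξ i)) / 2) * volume (N i)) :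
    volume (⋃ i, N i) ≤ 2 * volume (Om ∩ {x | (Gmat G x).det ≠ 0}) ∧
    ∀ v : Fin 3 → R3, ∑' i, ENNReal.ofReal (∑ j, ‖G j (ξ i)‖ ^ p) * volume (N i) ≤
      Cb p * ((∫⁻ x in Om, ∑ j, ‖G j x - v j‖ₑ ^ p) +
        ENNReal.ofReal (∑ j, ‖v j‖ ^ p) * volume (Om ∩ {x | (Gmat G x).det ≠ 0})) := by
  have hcb : ∀ i, cube (ξ i) (s i) ⊆ Om := by
    intro i y hy
    apply (hgood i).sub
    intro k
    exact (hy k).trans (by linarith [hs i])
  have hbd : ∀ i, Bornology.IsBounded (cube (ξ i) (s i)) := by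
    intro i
    rw [isBounded_iff_forall_norm_le]
    refine ⟨‖ξ i‖ + Real.sqrt (∑ _k : Fin 3, s i ^ 2), fun y hy => ?_⟩
    have h1 : y = ξ i + (y - ξ i) := by abel
    rw [h1]
    refine (norm_add_le _ _).trans ?_
    gcongr
    rw [EuclideanSpace.norm_eq]
    apply Real.sqrt_le_sqrt
    refine Finset.sum_le_sum fun k _ => ?_
    have h2 : ‖(y - ξ i) k‖ ≤ s i := by
      have := hy k
      simpa [Real.norm_eq_abs] using this
    have h3 := norm_nonneg ((y - ξ i) k)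
    nlinarith
  refine blocks_small_at hp hN (fun i => ?_) hd (fun i => (hcube i).trans (hcb i)) hG hμ hLM
    fun i => ?_
  · exact ((measure_mono (hcube i)).trans_lt (hbd i).measure_lt_top).ne
  · refine (lintegral_mono_set (hcube i)).trans ?_
    exact (hgood i).int.trans (hvol i)

end Crest.Agent.R096.Bks_896
end

-- ▼ part R096/Bks3_896
section

/-!
Row 96 (S0127), helper896.  **BLOCKS-SMALL**, part 3: the hypothesis `hvol` of `blocks_small_good` for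
blocks which contain `g⁻¹ (ball)`, `g` affine with linear part in `LM μ`, and `κ ≤ kf p θ σ μ`.
-/

set_option autoImplicit false
set_option linter.unusedSectionVars false
set_option linter.style.longLine false
set_option linter.unusedVariables false

namespace Crest.Agent.R096.Bks_896

open MeasureTheory Set Metric
open scoped ENNReal NNReal
open Crest.AnalysisR.VecCalc3 Crest.AnalysisR.Sobolev
open Crest.Agent.R96.Lu_538 Crest.Agent.R096.Sel_766 Crest.Agent.R096.Osc_802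
open Crest.Agent.R096.VolC2_766

theorem vol_ball {x : R3} {r : ℝ} (hr : 0 ≤ r) {N : Set R3} (h : closedBall x r ⊆ N) :
    ENNReal.ofReal (r ^ 3) ≤ volume N := by
  refine le_trans ?_ (measure_mono h)
  rw [EuclideanSpace.volume_closedBall_fin_three, ← ENNReal.ofReal_pow hr]
  have h1 : (1 : ℝ≥0∞) ≤ ENNReal.ofReal (Real.pi * 4 / 3) := by
    rw [← ENNReal.ofReal_one]
    apply ENNReal.ofReal_le_ofReal
    have := Real.pi_gt_three
    linarith
  calc ENNReal.ofReal (r ^ 3) = ENNReal.ofReal (r ^ 3) * 1 := (mul_one _).symm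
    _ ≤ _ := by gcongr

/-- the function `κf` of the blocks -/
noncomputable def kf (p θ σ μ : ℝ) : ℝ := mth p μ / 2 * (μ ^ 2 * θ / σ) ^ 3

theorem kf_pos {p θ σ μ : ℝ} (hθ : 0 < θ) (hσ : 0 < σ) (hμ : 0 < μ) : 0 < kf p θ σ μ := by
  have := mth_pos (p := p) hμ
  unfold kf
  positivity

theorem measurable_kf (p θ σ : ℝ) : Measurable (kf p θ σ) := by
  unfold kf mth
  fun_prop

/-- **`hvol`** -/
theorem hvol_of {p θ σ μ sz κ s : ℝ} (hμ : 0 < μ) (hθ : 0 < θ) (hσ : 0 < σ) (hsz : 0 < sz)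
    {A : R3 →L[ℝ] R3} (hA : A ∈ LM μ) {g : R3 → R3} (hg : ∀ x x', g x - g x' = A (x - x')) {x0 : R3}
    {N : Set R3} (hN : ∀ x, ‖g x - g x0‖ ≤ θ * sz → x ∈ N) (hκ : κ ≤ kf p θ σ μ)
    (hs0 : 0 ≤ s) (hs : s ≤ σ * sz / μ) :
    ENNReal.ofReal (κ * s ^ 3) ≤ ENNReal.ofReal (mth p μ / 2) * volume N := by
  have hm := mth_pos (p := p) hμ
  have h1 : closedBall x0 (μ * (θ * sz)) ⊆ N := by
    intro x hx
    apply hN
    rw [mem_closedBall, dist_eq_norm] at hx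
    rw [hg]
    have h2 := (hA (x - x0)).2
    have h3 : μ * ‖A (x - x0)‖ ≤ μ * (θ * sz) := h2.trans hx
    exact le_of_mul_le_mul_left h3 hμ
  have h4 := vol_ball (by positivity) h1
  refine le_trans ?_ (mul_le_mul_right h4 _)
  rw [← ENNReal.ofReal_mul (by positivity)]
  apply ENNReal.ofReal_le_ofReal
  have h5 : κ * s ^ 3 ≤ kf p θ σ μ * (σ * sz / μ) ^ 3 := by
    rcases le_or_gt 0 κ with h | h
    · have h7 := (kf_pos (p := p) hθ hσ hμ).le
      gcongr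
    · have h6 : κ * s ^ 3 ≤ 0 := mul_nonpos_of_nonpos_of_nonneg h.le (by positivity)
      exact h6.trans (by have := kf_pos (p := p) hθ hσ hμ; positivity)
  refine h5.trans (le_of_eq ?_)
  unfold kf
  field_simp


end Crest.Agent.R096.Bks_896
end

-- ▼ part R096/Blk3_764

/-!
Row 96 (S0127), helper764, NO0 `p ≥ 3`, leaf (Q4) `blocks3` of 899 #11058: the neighbourhoods `N c` of
the exact cores have small total volume and small energy, on the `E3` side, from 896's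
`blocks_small_good` (BLOCKS-SMALL).
-/

set_option autoImplicit false
set_option linter.unusedSectionVars false
set_option linter.unusedVariables false
set_option linter.style.longLine false

open MeasureTheory Set Filter Topology Metric
open scoped ENNReal NNReal

namespace Crest.Agent.R096.Blk_764

open Crest.AnalysisR.VecCalc3 Crest.AnalysisR.Sobolev
open Crest.Agent.R96.Lu_538 Crest.Agent.R096.Sel_766 Crest.Agent.R096.Osc_802
open Crest.Agent.R096.VolC2_766 Crest.Agent.R096.Toph_766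
open Crest.Agent.R096.Bks_896
open Crest.Agent.R96.En10_199 (P3 P3_mp P3_apply)
open Crest.Agent.R096.Er_594
open Crest.Agent.R096.SkC1_961 (E3)
open Crest.Agent.R096.EaX_766 (cbx lin)

noncomputable section

theorem P3_emb : MeasurableEmbedding (P3 : (Fin 3 → ℝ) → R3) :=
  P3.toHomeomorph.measurableEmbedding

theorem vol_P3 (S : Set R3) : volume (P3 ⁻¹' S) = volume S := P3_mp.measure_preimage_emb P3_emb S

theorem vol_P3_symm (S : Set E3) : volume (P3.symm ⁻¹' S) = volume S := by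
  have h := vol_P3 (P3.symm ⁻¹' S)
  have e : P3 ⁻¹' (P3.symm ⁻¹' S) = S := by ext x; simp
  rw [e] at h
  exact h.symm

/-- linear maps bounded below are onto -/
theorem surj_of_LM {m : ℝ} (hm : 0 < m) {A : R3 →L[ℝ] R3} (hA : A ∈ LM m) :
    Function.Surjective A := by
  have hinj : Function.Injective (A : R3 →ₗ[ℝ] R3) := by
    intro v w hvw
    have h1 := (hA (v - w)).1
    have h2 : A (v - w) = 0 := by rw [map_sub]; exact sub_eq_zero.2 hvw
    rw [h2, norm_zero] at h1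
    have h3 : ‖v - w‖ = 0 := by
      have := norm_nonneg (v - w)
      nlinarith
    exact sub_eq_zero.1 (norm_eq_zero.1 h3)
  exact (LinearMap.injective_iff_surjective (f := (A : R3 →ₗ[ℝ] R3))).1 hinj

/-- the scaling factors of the rows -/
def cg (Gc : ℝ) (j : Fin 3) : ℝ := if j = 2 then Gc else 1

theorem det_zero_gm {L : E3 →L[ℝ] E3} {a : Fin 3 → R3} {Gc : ℝ}
    (ha : ∀ j, a j = cg Gc j • row L j) (hL : L.det = 0) : (gmatL a).det = 0 := by
  have h1 : LinearMap.det (L : E3 →ₗ[ℝ] E3) = 0 := hL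
  have h2 := LinearMap.bot_lt_ker_of_det_eq_zero h1
  obtain ⟨v, hv, hv0⟩ := Submodule.exists_mem_ne_zero_of_ne_bot h2.ne'
  have h3 : L v = 0 := by simpa using hv
  have h4 : gmatL a (P3 v) = 0 := by
    ext j
    rw [gmatL_apply, ha, real_inner_smul_left, inner_row, h3]
    simp
  by_contra hne
  have h5 : IsUnit (LinearMap.det (gmatL a : R3 →ₗ[ℝ] R3)) := isUnit_iff_ne_zero.2 hne
  have h6 : (LinearMap.equivOfIsUnitDet h5) (P3 v) = 0 := by
    rw [LinearMap.equivOfIsUnitDet_apply]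
    simpa using h4
  have h7 : P3 v = 0 := (LinearEquiv.map_eq_zero_iff _).1 h6
  exact hv0 (by simpa using h7)

/-- rows against columns -/
theorem rows_le_cols {p : ℝ} (hp : 1 ≤ p) (L : E3 →L[ℝ] E3) (s : Fin 3 → ℝ) :
    ∑ j, ‖row L j - EuclideanSpace.single j (s j)‖ₑ ^ p ≤
      3 ^ p * ∑ l, ‖P3 (L (Pi.single l 1)) - EuclideanSpace.single l (s l)‖ₑ ^ p := by
  set b : Fin 3 → ℝ≥0∞ := fun l => ‖P3 (L (Pi.single l 1)) - EuclideanSpace.single l (s l)‖ₑ with hb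
  have h1 : ∀ j, ‖row L j - EuclideanSpace.single j (s j)‖ₑ ≤ ∑ l, b l := by
    intro j
    have h2 : row L j - EuclideanSpace.single j (s j) = ∑ i, EuclideanSpace.single i
        ((row L j - EuclideanSpace.single j (s j)) i) := by
      ext k
      simp [Finset.sum_apply]
    rw [h2]
    refine (enorm_sum_le _ _).trans (Finset.sum_le_sum fun i _ => ?_)
    show _ ≤ ‖P3 (L (Pi.single i 1)) - EuclideanSpace.single i (s i)‖ₑ
    rw [← ofReal_norm, ← ofReal_norm]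
    apply ENNReal.ofReal_le_ofReal
    rw [PiLp.norm_single]
    have h3 : (row L j - EuclideanSpace.single j (s j)) i =
        (P3 (L (Pi.single i 1)) - EuclideanSpace.single i (s i)) j := by
      rw [PiLp.sub_apply, PiLp.sub_apply, row_apply, P3_apply]
      by_cases hij : i = j
      · subst hij; rfl
      · simp [hij, Ne.symm hij]
    rw [h3]
    exact PiLp.norm_apply_le _ j
  calc ∑ j, ‖row L j - EuclideanSpace.single j (s j)‖ₑ ^ p
      ≤ ∑ _j : Fin 3, (∑ l, b l) ^ p := Finset.sum_le_sum fun j _ =>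
        ENNReal.rpow_le_rpow (h1 j) (by linarith)
    _ = 3 * (∑ l, b l) ^ p := by
        rw [Finset.sum_const, Finset.card_univ, Fintype.card_fin, nsmul_eq_mul]; norm_num
    _ ≤ 3 * (3 ^ (p - 1) * ∑ l, b l ^ p) := by
        gcongr
        have := ENNReal.rpow_sum_le_const_mul_sum_rpow (Finset.univ : Finset (Fin 3)) b hp
        simpa using this
    _ = 3 ^ p * ∑ l, b l ^ p := by
        rw [← mul_assoc]
        congr 1
        have e : (3:ℝ≥0∞) ^ p = 3 ^ (1 : ℝ) * 3 ^ (p - 1) := by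
          rw [← ENNReal.rpow_add _ _ (by norm_num) (by norm_num)]
          congr 1; ring
        rw [e, ENNReal.rpow_one]

/-- the constant of `blocks3` -/
def C3 (p Gc C0 lam0 : ℝ) : ℝ≥0∞ :=
  ENNReal.ofReal ((3 * C0 / lam0) ^ p) * (Cb p * (ENNReal.ofReal (Gc ^ p) * 3 ^ p))

theorem C3_ne_top {p Gc C0 lam0 : ℝ} (hp : 1 ≤ p) : C3 p Gc C0 lam0 ≠ ∞ := by
  unfold C3
  refine ENNReal.mul_ne_top ENNReal.ofReal_ne_top (ENNReal.mul_ne_top (Cb_ne_top hp)
    (ENNReal.mul_ne_top ENNReal.ofReal_ne_top ?_))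
  exact ENNReal.rpow_ne_top_of_nonneg (by linarith) (by norm_num)

/-- **(Q4) BLOCKS ON THE `E3` SIDE.** `G₁` = rows of `D`, the last one multiplied by `Gc` (the map
`Γ ∘ f`); `N c` = enlarged preimage of the core box, `K c ⊆ N c` the preimage of the core box. -/
theorem blocks3 {p : ℝ} (hp : 1 ≤ p) {Gc C0 lam0 θ σ : ℝ} (hGc : 1 ≤ Gc) (hC0 : 0 ≤ C0)
    (hlam0 : 0 < lam0) (hθ : 0 < θ) (hσ : 0 < σ) {Om : Set E3} (hOm : IsOpen Om)
    {D : E3 → E3 →L[ℝ] E3}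
    {Ω : Set R3} (hΩ : Ω = P3.symm ⁻¹' Om)
    {f₁ : R3 → R3} {G₁ : Fin 3 → R3 → R3}
    (hGm : ∀ j, AEStronglyMeasurable (G₁ j) (volume.restrict Ω))
    (hGD : ∀ᵐ x : E3, x ∈ Om → ∀ j, G₁ j (P3 x) = cg Gc j • row (D x) j)
    {μ κ δ : R3 → ℝ} (hμ : ∀ x ∈ Ω, 0 < μ x) (hκ : ∀ x ∈ Ω, κ x ≤ kf p θ σ (μ x))
    {I : Type*} [Countable I] {ξ t P : I → R3} {R sz lam : I → ℝ} {A : I → E3 ≃ᵃ[ℝ] E3}
    {N K : I → Set E3} (hξ : ∀ c, ξ c ∈ EE Ω f₁ G₁ p μ κ δ)
    (hgood : ∀ c, GoodAt Ω f₁ G₁ p κ (ξ c) (4 * R c / μ (ξ c)))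
    (hR : ∀ c, 0 < R c) (hRs : ∀ c, 4 * R c ≤ σ * sz c)
    (hN : ∀ c, MeasurableSet (N c)) (hNd : Pairwise (Function.onFun Disjoint N))
    (hNc : ∀ c, N c ⊆ P3 ⁻¹' cube (ξ c) (4 * R c / μ (ξ c)))
    (hNA : ∀ c x, ‖Aff f₁ G₁ (ξ c) (t c) (P3 x) - P c‖ ≤ θ * sz c → x ∈ N c)
    (hKN : ∀ c, K c ⊆ N c) (hl : ∀ c, lam0 ≤ lam c)
    (hlin : ∀ c, ‖lin (A c)‖ ≤ C0 * ‖Gmat G₁ (ξ c)‖) :
    volume (⋃ c, N c) ≤ 2 * volume (Om \ {x | (D x).det = 0}) ∧
    ∀ s : Fin 3 → ℝ, s 2 = 0 →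
      ∑' c, ENNReal.ofReal ((1 / lam c * ‖lin (A c)‖) ^ p) * volume (K c) ≤
        C3 p Gc C0 lam0 * ((∫⁻ x in Om, ∑ l, ‖P3 (D x (Pi.single l 1)) -
          EuclideanSpace.single l (s l)‖ₑ ^ p) +
          ENNReal.ofReal (∑ l, |s l| ^ p) * volume (Om \ {x | (D x).det = 0})) := by
  have hp0 : 0 < p := by linarith
  have hξΩ : ∀ c, ξ c ∈ Ω := fun c => (hξ c).1
  have hLM : ∀ c, Gmat G₁ (ξ c) ∈ LM (μ (ξ c)) := fun c => (hξ c).2.1
  have hsz : ∀ c, 0 < sz c := by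
    intro c
    have h1 := hR c
    have h2 := hRs c
    by_contra hcon
    push Not at hcon
    nlinarith [mul_nonneg hσ.le (neg_nonneg.2 hcon)]
  -- the sets on `R3`
  set N' : I → Set R3 := fun c => P3.symm ⁻¹' N c with hN'
  have hN'm : ∀ c, NullMeasurableSet (N' c) := fun c =>
    ((hN c).preimage P3.symm.continuous.measurable).nullMeasurableSet
  have hN'd : Pairwise (Function.onFun (AEDisjoint volume) N') := by
    intro c c' hcc
    exact ((hNd hcc).preimage _).aedisjoint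
  have hN'c : ∀ c, N' c ⊆ cube (ξ c) (4 * R c / μ (ξ c)) := by
    intro c y hy
    have h1 := hNc c hy
    simpa using h1
  have hvol : ∀ c, ENNReal.ofReal (κ (ξ c) * (4 * R c / μ (ξ c)) ^ 3) ≤
      ENNReal.ofReal (mth p (μ (ξ c)) / 2) * volume (N' c) := by
    intro c
    have hm := hμ _ (hξΩ c)
    obtain ⟨v0, hv0⟩ := surj_of_LM hm (hLM c) (P c - f₁ (ξ c) - t c)
    refine hvol_of hm hθ hσ (hsz c) (hLM c) (g := Aff f₁ G₁ (ξ c) (t c)) (fun x x' => ?_)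
      (x0 := v0 + ξ c) (fun x hx => ?_) (hκ _ (hξΩ c)) (by have := hR c; positivity) ?_
    · unfold Aff
      have : Gmat G₁ (ξ c) (x - x') = Gmat G₁ (ξ c) (x - ξ c) - Gmat G₁ (ξ c) (x' - ξ c) := by
        rw [← map_sub]; congr 1; abel
      rw [this]; abel
    · have h1 : Aff f₁ G₁ (ξ c) (t c) (v0 + ξ c) = P c := by
        unfold Aff
        rw [add_sub_cancel_right, hv0]; abel
      rw [h1] at hx
      show P3.symm x ∈ N c
      apply hNA c
      rw [P3.apply_symm_apply]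
      exact hx
    · exact div_le_div_of_nonneg_right (hRs c) hm.le
  obtain ⟨hv, he⟩ := blocks_small_good hp hN'm hN'd hGm (μ := μ) (κ := κ)
    (s := fun c => 4 * R c / μ (ξ c))
    (fun c => by
      have h1 := hR c
      have h2 := hμ _ (hξΩ c)
      positivity) (fun c => hμ _ (hξΩ c)) hLM hgood hN'c hvol
  -- the singular set
  have hdet : volume (Ω ∩ {x | (Gmat G₁ x).det ≠ 0}) ≤ volume (Om \ {x | (D x).det = 0}) := by
    rw [← vol_P3]
    refine measure_mono_ae ?_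
    filter_upwards [hGD] with x hx
    intro hx1
    have hxOm : x ∈ Om := by
      have h1 : P3 x ∈ Ω := hx1.1
      rw [hΩ] at h1
      simpa using h1
    refine ⟨hxOm, fun h0 => hx1.2 ?_⟩
    exact det_zero_gm (Gc := Gc) (fun j => hx hxOm j) h0
  have hvolN : ∀ c, volume (N' c) = volume (N c) := fun c => vol_P3_symm (N c)
  constructor
  · have h1 : volume (⋃ c, N c) = volume (⋃ c, N' c) := by
      rw [← vol_P3_symm (⋃ c, N c), preimage_iUnion]
    rw [h1]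
    exact hv.trans (by gcongr)
  · intro s hs
    have h1 := he fun j => EuclideanSpace.single j (s j)
    -- left-hand side
    have h2 : ∀ c, ENNReal.ofReal ((1 / lam c * ‖lin (A c)‖) ^ p) * volume (K c) ≤
        ENNReal.ofReal ((3 * C0 / lam0) ^ p) *
          (ENNReal.ofReal (∑ j, ‖G₁ j (ξ c)‖ ^ p) * volume (N' c)) := by
      intro c
      rw [← mul_assoc, ← ENNReal.ofReal_mul (by positivity), hvolN]
      refine mul_le_mul' (ENNReal.ofReal_le_ofReal ?_) (measure_mono (hKN c))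
      have hlc : 0 < lam c := lt_of_lt_of_le hlam0 (hl c)
      have h3 : 1 / lam c * ‖lin (A c)‖ ≤ C0 / lam0 * ∑ j, ‖G₁ j (ξ c)‖ := by
        have h4 := norm_gmatL_le_sum fun j => G₁ j (ξ c)
        have h5 : ‖lin (A c)‖ ≤ C0 * ∑ j, ‖G₁ j (ξ c)‖ :=
          (hlin c).trans (mul_le_mul_of_nonneg_left h4 hC0)
        have h6 : 1 / lam c ≤ 1 / lam0 := one_div_le_one_div_of_le hlam0 (hl c)
        calc 1 / lam c * ‖lin (A c)‖ ≤ 1 / lam0 * (C0 * ∑ j, ‖G₁ j (ξ c)‖) :=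
              mul_le_mul h6 h5 (norm_nonneg _) (by positivity)
          _ = C0 / lam0 * ∑ j, ‖G₁ j (ξ c)‖ := by ring
      have h7 : (∑ j, ‖G₁ j (ξ c)‖) ^ p ≤ 3 ^ (p - 1) * ∑ j, ‖G₁ j (ξ c)‖ ^ p := by
        have := Real.rpow_sum_le_const_mul_sum_rpow_of_nonneg (Finset.univ : Finset (Fin 3))
          (f := fun j => ‖G₁ j (ξ c)‖) hp (fun j _ => norm_nonneg _)
        simpa using this
      have h8 : (3:ℝ) ^ (p - 1) ≤ 3 ^ p := Real.rpow_le_rpow_of_exponent_le (by norm_num) (by linarith)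
      have h9 : 0 ≤ ∑ j, ‖G₁ j (ξ c)‖ ^ p :=
        Finset.sum_nonneg fun j _ => Real.rpow_nonneg (norm_nonneg _) _
      calc (1 / lam c * ‖lin (A c)‖) ^ p ≤ (C0 / lam0 * ∑ j, ‖G₁ j (ξ c)‖) ^ p :=
            Real.rpow_le_rpow (by positivity) h3 hp0.le
        _ = (C0 / lam0) ^ p * (∑ j, ‖G₁ j (ξ c)‖) ^ p :=
            Real.mul_rpow (by positivity) (Finset.sum_nonneg fun _ _ => norm_nonneg _)
        _ ≤ (C0 / lam0) ^ p * (3 ^ p * ∑ j, ‖G₁ j (ξ c)‖ ^ p) := by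
            refine mul_le_mul_of_nonneg_left (h7.trans ?_) (by positivity)
            exact mul_le_mul_of_nonneg_right h8 h9
        _ = (3 * C0 / lam0) ^ p * ∑ j, ‖G₁ j (ξ c)‖ ^ p := by
            rw [show 3 * C0 / lam0 = 3 * (C0 / lam0) by ring,
              Real.mul_rpow (by norm_num) (by positivity)]
            ring
    refine (ENNReal.tsum_le_tsum h2).trans ?_
    rw [ENNReal.tsum_mul_left]
    unfold C3
    rw [mul_assoc]
    refine mul_le_mul' le_rfl (h1.trans ?_)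
    rw [mul_assoc]
    refine mul_le_mul' le_rfl ?_
    rw [mul_add]
    have hG3 : (1:ℝ≥0∞) ≤ ENNReal.ofReal (Gc ^ p) * 3 ^ p := by
      have a1 : (1:ℝ≥0∞) ≤ ENNReal.ofReal (Gc ^ p) := by
        rw [← ENNReal.ofReal_one]
        exact ENNReal.ofReal_le_ofReal (Real.one_le_rpow hGc hp0.le)
      have a2 : (1:ℝ≥0∞) ≤ 3 ^ p := ENNReal.one_le_rpow (by norm_num) hp0
      calc (1:ℝ≥0∞) = 1 * 1 := (one_mul 1).symm
        _ ≤ _ := mul_le_mul' a1 a2
    refine add_le_add ?_ ?_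
    · -- the integrals
      have h3 : (∫⁻ x in Ω, ∑ j, ‖G₁ j x - EuclideanSpace.single j (s j)‖ₑ ^ p) =
          ∫⁻ x in Om, ∑ j, ‖G₁ j (P3 x) - EuclideanSpace.single j (s j)‖ₑ ^ p := by
        rw [← P3_mp.setLIntegral_comp_preimage_emb P3_emb
          (fun x => ∑ j, ‖G₁ j x - EuclideanSpace.single j (s j)‖ₑ ^ p) Ω]
        have e : (P3 : (Fin 3 → ℝ) → R3) ⁻¹' Ω = Om := by rw [hΩ]; ext x; simp
        rw [e]
      rw [h3, ← lintegral_const_mul' _ _ (ENNReal.mul_ne_top ENNReal.ofReal_ne_top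
        (ENNReal.rpow_ne_top_of_nonneg hp0.le (by norm_num)))]
      have hae : ∀ᵐ x ∂(volume.restrict Om), ∀ j, G₁ j (P3 x) = cg Gc j • row (D x) j :=
        (ae_restrict_iff' hOm.measurableSet).2 hGD
      refine lintegral_mono_ae ?_
      filter_upwards [hae] with x hx
      have h4 : ∀ j, ‖G₁ j (P3 x) - EuclideanSpace.single j (s j)‖ₑ ≤
          ENNReal.ofReal Gc * ‖row (D x) j - EuclideanSpace.single j (s j)‖ₑ := by
        intro j
        rw [hx j, ← ofReal_norm, ← ofReal_norm, ← ENNReal.ofReal_mul (by linarith)]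
        apply ENNReal.ofReal_le_ofReal
        by_cases hj : j = 2
        · subst hj
          unfold cg
          rw [if_pos rfl, hs]
          have e : EuclideanSpace.single (2 : Fin 3) (0:ℝ) = 0 := by simp
          rw [e, sub_zero, sub_zero, norm_smul, Real.norm_eq_abs, abs_of_nonneg (by linarith)]
        · unfold cg
          rw [if_neg hj, one_smul]
          have := norm_nonneg (row (D x) j - EuclideanSpace.single j (s j))
          nlinarith
      calc ∑ j, ‖G₁ j (P3 x) - EuclideanSpace.single j (s j)‖ₑ ^ p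
          ≤ ∑ j, (ENNReal.ofReal Gc * ‖row (D x) j - EuclideanSpace.single j (s j)‖ₑ) ^ p :=
            Finset.sum_le_sum fun j _ => ENNReal.rpow_le_rpow (h4 j) hp0.le
        _ = ENNReal.ofReal (Gc ^ p) * ∑ j, ‖row (D x) j - EuclideanSpace.single j (s j)‖ₑ ^ p := by
            rw [Finset.mul_sum]
            refine Finset.sum_congr rfl fun j _ => ?_
            rw [ENNReal.mul_rpow_of_nonneg _ _ hp0.le, ENNReal.ofReal_rpow_of_nonneg (by linarith) hp0.le]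
        _ ≤ ENNReal.ofReal (Gc ^ p) * (3 ^ p * ∑ l, ‖P3 (D x (Pi.single l 1)) -
              EuclideanSpace.single l (s l)‖ₑ ^ p) := by
            gcongr
            exact rows_le_cols hp (D x) s
        _ = _ := by rw [mul_assoc]
    · have h5 : (∑ j, ‖EuclideanSpace.single j (s j)‖ ^ p : ℝ) = ∑ l, |s l| ^ p := by
        refine Finset.sum_congr rfl fun j _ => ?_
        rw [PiLp.norm_single, Real.norm_eq_abs]
      rw [h5]
      calc ENNReal.ofReal (∑ l, |s l| ^ p) * volume (Ω ∩ {x | (Gmat G₁ x).det ≠ 0})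
          ≤ 1 * (ENNReal.ofReal (∑ l, |s l| ^ p) * volume (Om \ {x | (D x).det = 0})) := by
            rw [one_mul]
            gcongr
        _ ≤ _ := mul_le_mul' hG3 le_rfl

/-- the hypothesis `hGD` for 899's `G₁` (rows of `D`, the last one multiplied). -/
theorem hGD_of {D : E3 → E3 →L[ℝ] E3} (Gc : ℝ) (x : E3) (j : Fin 3) :
    (fun j => if j = 2 then Gc • (fun j y => row (D (P3.symm y)) j) 2 else
      (fun j y => row (D (P3.symm y)) j) j : Fin 3 → R3 → R3) j (P3 x) = cg Gc j • row (D x) j := by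
  unfold cg
  by_cases hj : j = 2
  · subst hj
    simp only [if_true, Pi.smul_apply, P3.symm_apply_apply]
  · simp only [if_neg hj, P3.symm_apply_apply, one_smul]

end

end Crest.Agent.R096.Blk_764
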