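import Mathlib
import Crest.Agent.R096.Gno3_324
import Crest.Agent.R096.Ps5_273

-- ▼ part R096/Nh1_273
section

/-!
Row 96 (S0127), helper273.  NO0-N6 (477 #10028), part 1: the heights of a uniform mesh avoid the
tiny cubes; averages over the remaining heights.
-/

set_option autoImplicit false
set_option linter.unusedSectionVars false
set_option linter.style.longLine false

open Set

namespace Crest.Agent.R096.Nh_273

/-- an interval of length `2 ρ` contains at most `2 ρ / r + 1` points of an arithmetic progression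
of step `r` -/
theorem card_interval {r : ℝ} (hr : 0 < r) (z0 t : ℝ) {ρ : ℝ} (hρ : 0 ≤ ρ) (A : Finset ℤ)
    (hA : ∀ j ∈ A, |z0 + j * r - t| ≤ ρ) : (A.card : ℝ) ≤ 2 * ρ / r + 1 := by
  have hsub : A ⊆ Finset.Icc ⌈(t - ρ - z0) / r⌉ ⌊(t + ρ - z0) / r⌋ := by
    intro j hj
    have h := abs_le.1 (hA j hj)
    rw [Finset.mem_Icc]
    constructor
    · rw [Int.ceil_le, div_le_iff₀ hr]
      linarith [h.1]
    · rw [Int.le_floor, le_div_iff₀ hr]
      linarith [h.2]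
  have h1 := Finset.card_le_card hsub
  rw [Int.card_Icc] at h1
  have h2 : ((⌊(t + ρ - z0) / r⌋ + 1 - ⌈(t - ρ - z0) / r⌉).toNat : ℝ) ≤ 2 * ρ / r + 1 := by
    have h3 : ((⌊(t + ρ - z0) / r⌋ : ℤ) : ℝ) ≤ (t + ρ - z0) / r := Int.floor_le _
    have h4 : (t - ρ - z0) / r ≤ ((⌈(t - ρ - z0) / r⌉ : ℤ) : ℝ) := Int.le_ceil _
    have h5 : (t + ρ - z0) / r - (t - ρ - z0) / r = 2 * ρ / r := by ring
    rcases le_or_gt 0 (⌊(t + ρ - z0) / r⌋ + 1 - ⌈(t - ρ - z0) / r⌉) with h | h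
    · have h6 : ((⌊(t + ρ - z0) / r⌋ + 1 - ⌈(t - ρ - z0) / r⌉).toNat : ℝ) =
          ((⌊(t + ρ - z0) / r⌋ + 1 - ⌈(t - ρ - z0) / r⌉ : ℤ) : ℝ) := by
        have := Int.toNat_of_nonneg h
        exact_mod_cast this
      rw [h6]
      push_cast
      linarith
    · rw [Int.toNat_of_nonpos h.le]
      have : 0 ≤ 2 * ρ / r := by positivity
      push_cast
      linarith
  calc (A.card : ℝ) ≤ _ := by exact_mod_cast h1
    _ ≤ _ := h2

/-- **few heights meet the tiny cubes** (`t c` = third coordinate of the centre, `ρ c` = radius) -/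
theorem card_bad {I : Type*} [DecidableEq I] {r : ℝ} (hr : 0 < r) (z0 : ℝ) (S : Finset I)
    (t ρ : I → ℝ) (hρ : ∀ c ∈ S, 0 ≤ ρ c) (A : Finset ℤ)
    (hA : ∀ j ∈ A, ∃ c ∈ S, |z0 + j * r - t c| ≤ ρ c) :
    (A.card : ℝ) ≤ ∑ c ∈ S, (2 * ρ c / r + 1) := by
  classical
  have hsub : A ⊆ S.biUnion fun c => A.filter fun j : ℤ => |z0 + j * r - t c| ≤ ρ c := by
    intro j hj
    obtain ⟨c, hc, h⟩ := hA j hj
    exact Finset.mem_biUnion.2 ⟨c, hc, Finset.mem_filter.2 ⟨hj, h⟩⟩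
  calc (A.card : ℝ) ≤ ((S.biUnion fun c => A.filter fun j : ℤ => |z0 + j * r - t c| ≤ ρ c).card : ℝ) := by
        exact_mod_cast Finset.card_le_card hsub
    _ ≤ ∑ c ∈ S, ((A.filter fun j : ℤ => |z0 + j * r - t c| ≤ ρ c).card : ℝ) := by
        exact_mod_cast Finset.card_biUnion_le
    _ ≤ _ := by
        refine Finset.sum_le_sum fun c hc => ?_
        exact card_interval hr z0 (t c) (hρ c hc) _ fun j hj => (Finset.mem_filter.1 hj).2

/-- **most heights are free** : at least `(1 - θ) n` of the `n` heights avoid all cubes if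
`∑ (2 ρ c) ≤ θ / 2 * (n r)` and `#S ≤ θ / 2 * n` -/
theorem card_free {I : Type*} [DecidableEq I] {r : ℝ} (hr : 0 < r) (z0 : ℝ) (S : Finset I)
    (t ρ : I → ℝ) (hρ : ∀ c ∈ S, 0 ≤ ρ c) (A : Finset ℤ) {θ : ℝ}
    (h1 : ∑ c ∈ S, 2 * ρ c ≤ θ / 2 * (A.card * r)) (h2 : (S.card : ℝ) ≤ θ / 2 * A.card)
    [DecidablePred fun j : ℤ => ∀ c ∈ S, ρ c < |z0 + j * r - t c|] :
    (1 - θ) * A.card ≤ ((A.filter fun j : ℤ => ∀ c ∈ S, ρ c < |z0 + j * r - t c|).card : ℝ) := by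
  classical
  have h3 := card_bad hr z0 S t ρ hρ
    (A.filter fun j : ℤ => ¬ ∀ c ∈ S, ρ c < |z0 + j * r - t c|) (by
      intro j hj
      have := (Finset.mem_filter.1 hj).2
      push Not at this
      exact this)
  have h4 : ∑ c ∈ S, (2 * ρ c / r + 1) ≤ θ * A.card := by
    rw [Finset.sum_add_distrib, ← Finset.sum_div]
    simp only [Finset.sum_const, nsmul_eq_mul, mul_one]
    have h5 : (∑ c ∈ S, 2 * ρ c) / r ≤ θ / 2 * A.card := by
      rw [div_le_iff₀ hr]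
      linarith
    linarith
  have h6 := Finset.card_filter_add_card_filter_not
    (s := A) (fun j : ℤ => ∀ c ∈ S, ρ c < |z0 + j * r - t c|)
  have h7 : (((A.filter fun j : ℤ => ∀ c ∈ S, ρ c < |z0 + j * r - t c|).card : ℝ)) +
      ((A.filter fun j : ℤ => ¬ ∀ c ∈ S, ρ c < |z0 + j * r - t c|).card : ℝ) = A.card := by
    exact_mod_cast h6
  linarith

end Crest.Agent.R096.Nh_273
end

-- ▼ part R096/Nsl1_552
section

/-!
Row 96 (S0127), helper552.  NO0-PRE [P-B] (582 #10478): choice of the slices and counting.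

On 324's block (`Gno3_324.exists_block`: `o, M, A` = ALL slices `|L (a 2 + r m)| ≤ 1/2`,
`2/L ≤ #A M² r³ ≤ 5/L`):
* `exists_slices`    : `k` nonnegative functions on the slices, forbidden intervals (273's `card_free`)
* `exists_slices_e`  : the same, `ℝ≥0∞`-valued functions
* `exists_slices_block` : on the block; the slabs over the chosen slices miss the balls
  `closedBall (x c) (ρ c)`, `c ∈ S` (tiny cores), `∑ (ρ c + r) ≤ 1 / (32 L)`
* `sum_lint_le` : the sum of the integrals over the cubes of the block is at most the integral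
* `slice_lint`, `slice_card` : averages per slice of an integral / of the number of cubes inside a set
-/

set_option autoImplicit false
set_option linter.style.longLine false
set_option linter.unusedSectionVars false

open MeasureTheory Set Filter Topology Metric
open scoped ENNReal

namespace Crest.Agent.R096.Nsl_552

open Crest.Agent.R096.Nh_273 (card_free)
open Crest.Agent.R096.SkC1_961 (E3)
open Crest.Agent.R096.No0_477 (vx cub Fc)
open Crest.Agent.R096.Gno_324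

noncomputable section

/-- Markov for one function -/
theorem markov (A : Finset ℤ) (F : ℤ → ℝ) (hF : ∀ m ∈ A, 0 ≤ F m) {ε K : ℝ}
    (hs : ∑ m ∈ A, F m ≤ ε * A.card) : K * ((A.filter fun m => K * ε < F m).card : ℝ) ≤ A.card := by
  classical
  rcases A.eq_empty_or_nonempty with rfl | hA
  · simp
  have hc : (0 : ℝ) < A.card := by exact_mod_cast hA.card_pos
  have hε : 0 ≤ ε := by
    have h := (Finset.sum_nonneg hF).trans hs
    by_contra hcon
    push Not at hcon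
    nlinarith
  set B := A.filter fun m => K * ε < F m with hB
  rcases B.eq_empty_or_nonempty with h | ⟨m0, hm0⟩
  · rw [h]; simp
  rcases hε.eq_or_lt with h0 | h0
  · exfalso
    rw [← h0, zero_mul] at hs
    have h1 := (Finset.sum_eq_zero_iff_of_nonneg hF).1 (le_antisymm hs (Finset.sum_nonneg hF))
    have h2 := Finset.mem_filter.1 hm0
    have h3 := h1 m0 h2.1
    rw [h3, ← h0, mul_zero] at h2
    exact lt_irrefl _ h2.2
  · have h1 : (B.card : ℝ) * (K * ε) ≤ ∑ m ∈ B, F m := by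
      rw [← nsmul_eq_mul]
      exact Finset.card_nsmul_le_sum _ _ _ fun m hm => (Finset.mem_filter.1 hm).2.le
    have h2 : ∑ m ∈ B, F m ≤ ∑ m ∈ A, F m :=
      Finset.sum_le_sum_of_subset_of_nonneg (Finset.filter_subset _ _) fun m hm _ => hF m hm
    have h3 : (K * (B.card : ℝ)) * ε ≤ A.card * ε := by linarith
    exact le_of_mul_le_mul_right h3 h0

/-- **choice of the slices**: `k` nonnegative functions with small averages, finitely many
forbidden intervals; at least half of the slices are good for all of them. -/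
theorem exists_slices {I : Type*} {r : ℝ} (hr : 0 < r) (z0 : ℝ) (A : Finset ℤ) (hA : A.Nonempty)
    (S : Finset I) (t ρ : I → ℝ) (hρ : ∀ c ∈ S, 0 ≤ ρ c)
    (h1 : ∑ c ∈ S, 2 * ρ c ≤ 1 / 8 * (A.card * r)) (h2 : (S.card : ℝ) ≤ 1 / 8 * A.card)
    {k : ℕ} (F : Fin k → ℤ → ℝ) (hF : ∀ i, ∀ m ∈ A, 0 ≤ F i m) (ε : Fin k → ℝ)
    (hs : ∀ i, ∑ m ∈ A, F i m ≤ ε i * A.card) :
    ∃ Zs : Finset ℤ, Zs ⊆ A ∧ Zs.Nonempty ∧ (A.card : ℝ) ≤ 2 * Zs.card ∧
      (∀ m ∈ Zs, ∀ c ∈ S, ρ c < |z0 + r * m - t c|) ∧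
      (∀ i, ∀ m ∈ Zs, F i m ≤ 4 * k * ε i) ∧ ∀ i, ∑ m ∈ Zs, F i m ≤ 4 * k * ε i * Zs.card := by
  classical
  have hc : (0 : ℝ) < A.card := by exact_mod_cast hA.card_pos
  set G : Finset ℤ := A.filter fun j : ℤ => ∀ c ∈ S, ρ c < |z0 + j * r - t c| with hG
  have hfree : (1 - 1 / 4) * (A.card : ℝ) ≤ G.card :=
    card_free hr z0 S t ρ hρ A (θ := 1 / 4) (by linarith) (by linarith)
  set B : Fin k → Finset ℤ := fun i => A.filter fun m => 4 * k * ε i < F i m with hB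
  set Zs : Finset ℤ := G \ Finset.univ.biUnion B with hZ
  have hZA : Zs ⊆ A := (Finset.sdiff_subset).trans (Finset.filter_subset _ _)
  have hBc : ∀ i, ((B i).card : ℝ) * (4 * k) ≤ A.card := by
    intro i
    have hk : (0 : ℝ) < 4 * k := by
      have : 0 < k := Fin.pos i
      have : (0 : ℝ) < k := by exact_mod_cast this
      positivity
    have := markov A (F i) (hF i) (K := 4 * k) (hs i)
    linarith
  have hU : ((Finset.univ.biUnion B).card : ℝ) ≤ A.card / 4 := by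
    rcases Nat.eq_zero_or_pos k with rfl | hk
    · simp; positivity
    have hk' : (0 : ℝ) < k := by exact_mod_cast hk
    calc ((Finset.univ.biUnion B).card : ℝ) ≤ ∑ i, ((B i).card : ℝ) := by
          exact_mod_cast Finset.card_biUnion_le
      _ ≤ ∑ _i : Fin k, (A.card : ℝ) / (4 * k) := by
          refine Finset.sum_le_sum fun i _ => ?_
          rw [le_div_iff₀ (by positivity)]
          exact hBc i
      _ = A.card / 4 := by
          rw [Finset.sum_const, Finset.card_univ, Fintype.card_fin, nsmul_eq_mul]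
          field_simp
  have hZc : (A.card : ℝ) ≤ 2 * Zs.card := by
    have h3 := Finset.le_card_sdiff (Finset.univ.biUnion B) G
    rw [← hZ] at h3
    have h4 : (G.card : ℝ) ≤ Zs.card + (Finset.univ.biUnion B).card := by
      have : G.card ≤ Zs.card + (Finset.univ.biUnion B).card := by omega
      exact_mod_cast this
    linarith
  have hpt : ∀ i, ∀ m ∈ Zs, F i m ≤ 4 * k * ε i := by
    intro i m hm
    by_contra hcon
    push Not at hcon
    refine (Finset.mem_sdiff.1 hm).2 (Finset.mem_biUnion.2 ⟨i, Finset.mem_univ _, ?_⟩)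
    exact Finset.mem_filter.2 ⟨hZA hm, hcon⟩
  refine ⟨Zs, hZA, ?_, hZc, ?_, hpt, ?_⟩
  · rw [← Finset.card_pos]
    have : (0 : ℝ) < Zs.card := by linarith
    exact_mod_cast this
  · intro m hm c hcS
    have := (Finset.mem_filter.1 (Finset.mem_sdiff.1 hm).1).2 c hcS
    rwa [mul_comm r]
  · intro i
    calc ∑ m ∈ Zs, F i m ≤ Zs.card • (4 * k * ε i) := Finset.sum_le_card_nsmul _ _ _ (hpt i)
      _ = 4 * k * ε i * Zs.card := by rw [nsmul_eq_mul]; ring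


/-- the same with values in `ℝ≥0∞` -/
theorem exists_slices_e {I : Type*} {r : ℝ} (hr : 0 < r) (z0 : ℝ) (A : Finset ℤ) (hA : A.Nonempty)
    (S : Finset I) (t ρ : I → ℝ) (hρ : ∀ c ∈ S, 0 ≤ ρ c)
    (h1 : ∑ c ∈ S, 2 * ρ c ≤ 1 / 8 * (A.card * r)) (h2 : (S.card : ℝ) ≤ 1 / 8 * A.card)
    {k : ℕ} (F : Fin k → ℤ → ℝ≥0∞) (ε : Fin k → ℝ≥0∞) (hε : ∀ i, ε i ≠ ⊤)
    (hs : ∀ i, ∑ m ∈ A, F i m ≤ ε i * A.card) :
    ∃ Zs : Finset ℤ, Zs ⊆ A ∧ Zs.Nonempty ∧ (A.card : ℝ) ≤ 2 * Zs.card ∧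
      (∀ m ∈ Zs, ∀ c ∈ S, ρ c < |z0 + r * m - t c|) ∧
      (∀ i, ∀ m ∈ Zs, F i m ≤ 4 * k * ε i) ∧ ∀ i, ∑ m ∈ Zs, F i m ≤ 4 * k * ε i * Zs.card := by
  have hfin : ∀ i, ∀ m ∈ A, F i m ≠ ⊤ := by
    intro i m hm
    have h3 : F i m ≤ ∑ m ∈ A, F i m := Finset.single_le_sum (f := F i) (fun _ _ => bot_le) hm
    exact ((h3.trans (hs i)).trans_lt (ENNReal.mul_lt_top (hε i).lt_top (by simp))).ne
  obtain ⟨Zs, h3, h4, h5, h6, h7, -⟩ := exists_slices hr z0 A hA S t ρ hρ h1 h2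
    (fun i m => (F i m).toReal) (fun i m _ => ENNReal.toReal_nonneg) (fun i => (ε i).toReal) (by
      intro i
      rw [← ENNReal.toReal_sum (hfin i)]
      have := ENNReal.toReal_mono (ENNReal.mul_ne_top (hε i) (by simp)) (hs i)
      rwa [ENNReal.toReal_mul, ENNReal.toReal_natCast] at this)
  have h8 : ∀ i, ∀ m ∈ Zs, F i m ≤ 4 * k * ε i := by
    intro i m hm
    have h9 := h7 i m hm
    have e : 4 * (k : ℝ) * (ε i).toReal = (4 * (k : ℝ≥0∞) * ε i).toReal := by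
      rw [ENNReal.toReal_mul, ENNReal.toReal_mul, ENNReal.toReal_natCast]; simp
    rw [e] at h9
    refine (ENNReal.toReal_le_toReal (hfin i m (h3 hm)) ?_).1 h9
    exact ENNReal.mul_ne_top (ENNReal.mul_ne_top (by simp) (by simp)) (hε i)
  refine ⟨Zs, h3, h4, h5, h6, h8, fun i => ?_⟩
  calc ∑ m ∈ Zs, F i m ≤ Zs.card • (4 * k * ε i) := Finset.sum_le_card_nsmul _ _ _ (h8 i)
    _ = 4 * k * ε i * Zs.card := by rw [nsmul_eq_mul]; ring

section block

variable {L : ℕ} {r : ℝ} {a : E3} {A : Finset ℤ}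

/-- the number of all slices -/
theorem card_block (hL : 1 ≤ L) (hr : 0 < r) (hrL : 4 * L * r ≤ 1)
    (hA : ∀ m, m ∈ A ↔ |(L : ℝ) * (a 2 + r * m)| ≤ 1 / 2) :
    A.Nonempty ∧ 3 / (4 * L) ≤ (A.card : ℝ) * r ∧ (A.card : ℝ) * r ≤ 5 / (4 * L) := by
  have hL0 : (0 : ℝ) < L := by exact_mod_cast hL
  obtain ⟨Zs, h1, h2, h3⟩ := exists_Zs hL hr hrL (a 2)
  have e : A = Zs := by ext m; rw [hA, h1]
  subst e
  refine ⟨?_, h2, h3⟩
  rw [Finset.nonempty_iff_ne_empty]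
  intro h0
  rw [h0] at h2
  simp only [Finset.card_empty, Nat.cast_zero, zero_mul] at h2
  have : (0 : ℝ) < 3 / (4 * L) := by positivity
  linarith

/-- a slab over a slice at distance `> ρ + r` (height) misses the ball of radius `ρ` -/
theorem cub_disj_ball (o : Fin 2 → ℤ) {m : ℤ} (v : Fin 2 → ℕ) {x : E3} {ρ : ℝ}
    (h : ρ + r < |a 2 + r * m - x 2|) : Disjoint (cub (vx a r o m v) r) (closedBall x ρ) := by
  rw [Set.disjoint_left]
  intro y hy hy'
  have h1 := hy 2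
  have e : vx a r o m v 2 = a 2 + r * m := by simp [vx]
  rw [e] at h1
  have h2 : |y 2 - x 2| ≤ ρ := by
    have h3 := norm_le_pi_norm (y - x) 2
    rw [mem_closedBall_iff_norm] at hy'
    simpa using h3.trans hy'
  have h4 : |a 2 + r * m - x 2| ≤ |y 2 - x 2| + |a 2 + r * m - y 2| := by
    have := abs_add_le (a 2 + r * m - y 2) (y 2 - x 2)
    rw [sub_add_sub_cancel] at this
    linarith
  have h5 : |a 2 + r * m - y 2| ≤ r := by
    rw [abs_le]; constructor <;> linarith [h1.1, h1.2]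
  linarith

theorem slices_hyp (hL : 1 ≤ L) (hr : 0 < r) (hrL : 4 * L * r ≤ 1)
    (hA : ∀ m, m ∈ A ↔ |(L : ℝ) * (a 2 + r * m)| ≤ 1 / 2) {I : Type*} (S : Finset I) (ρ : I → ℝ)
    (hρ : ∀ c ∈ S, 0 ≤ ρ c) (hS : ∑ c ∈ S, (ρ c + r) ≤ 1 / (32 * L)) :
    ∑ c ∈ S, 2 * (ρ c + r) ≤ 1 / 8 * (A.card * r) ∧ (S.card : ℝ) ≤ 1 / 8 * A.card := by
  have hL0 : (0 : ℝ) < L := by exact_mod_cast hL
  obtain ⟨-, h1, -⟩ := card_block hL hr hrL hA
  have e1 : (3 : ℝ) / (4 * L) = 24 * (1 / (32 * L)) := by field_simp; norm_num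
  have h0 : (0 : ℝ) < 1 / (32 * L) := by positivity
  rw [e1] at h1
  constructor
  · rw [← Finset.mul_sum]
    linarith
  · have h2 : (S.card : ℝ) * r ≤ ∑ c ∈ S, (ρ c + r) := by
      rw [← nsmul_eq_mul]
      exact Finset.card_nsmul_le_sum _ _ _ fun c hc => by linarith [hρ c hc]
    have h3 : (S.card : ℝ) * r ≤ (1 / 8 * A.card) * r := by linarith
    exact le_of_mul_le_mul_right h3 hr

/-- **choice of the slices on the block** -/
theorem exists_slices_block (hL : 1 ≤ L) (hr : 0 < r) (hrL : 4 * L * r ≤ 1)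
    (hA : ∀ m, m ∈ A ↔ |(L : ℝ) * (a 2 + r * m)| ≤ 1 / 2)
    {I : Type*} (S : Finset I) (x : I → E3) (ρ : I → ℝ) (hρ : ∀ c ∈ S, 0 ≤ ρ c)
    (hS : ∑ c ∈ S, (ρ c + r) ≤ 1 / (32 * L))
    {k : ℕ} (F : Fin k → ℤ → ℝ) (hF : ∀ i, ∀ m ∈ A, 0 ≤ F i m) (ε : Fin k → ℝ)
    (hs : ∀ i, ∑ m ∈ A, F i m ≤ ε i * A.card) :
    ∃ Zs : Finset ℤ, Zs ⊆ A ∧ Zs.Nonempty ∧ (A.card : ℝ) ≤ 2 * Zs.card ∧
      (∀ m ∈ Zs, |(L : ℝ) * (a 2 + r * m)| ≤ 1 / 2) ∧
      (∀ m ∈ Zs, ∀ c ∈ S, ρ c + r < |a 2 + r * m - x c 2|) ∧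
      (∀ m ∈ Zs, ∀ c ∈ S, ∀ (o : Fin 2 → ℤ) (v : Fin 2 → ℕ),
        Disjoint (cub (vx a r o m v) r) (closedBall (x c) (ρ c))) ∧
      (∀ i, ∀ m ∈ Zs, F i m ≤ 4 * k * ε i) ∧ ∀ i, ∑ m ∈ Zs, F i m ≤ 4 * k * ε i * Zs.card := by
  obtain ⟨h1, h2⟩ := slices_hyp hL hr hrL hA S ρ hρ hS
  obtain ⟨Zs, h3, h4, h5, h6, h7, h8⟩ := exists_slices hr (a 2) A (card_block hL hr hrL hA).1 S
    (fun c => x c 2) (fun c => ρ c + r) (fun c hc => by linarith [hρ c hc]) h1 h2 F hF ε hs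
  exact ⟨Zs, h3, h4, h5, fun m hm => (hA m).1 (h3 hm), h6,
    fun m hm c hc o v => cub_disj_ball o v (h6 m hm c hc), h7, h8⟩

/-- **choice of the slices on the block**, values in `ℝ≥0∞` -/
theorem exists_slices_block_e (hL : 1 ≤ L) (hr : 0 < r) (hrL : 4 * L * r ≤ 1)
    (hA : ∀ m, m ∈ A ↔ |(L : ℝ) * (a 2 + r * m)| ≤ 1 / 2)
    {I : Type*} (S : Finset I) (x : I → E3) (ρ : I → ℝ) (hρ : ∀ c ∈ S, 0 ≤ ρ c)
    (hS : ∑ c ∈ S, (ρ c + r) ≤ 1 / (32 * L))
    {k : ℕ} (F : Fin k → ℤ → ℝ≥0∞) (ε : Fin k → ℝ≥0∞) (hε : ∀ i, ε i ≠ ⊤)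
    (hs : ∀ i, ∑ m ∈ A, F i m ≤ ε i * A.card) :
    ∃ Zs : Finset ℤ, Zs ⊆ A ∧ Zs.Nonempty ∧ (A.card : ℝ) ≤ 2 * Zs.card ∧
      (∀ m ∈ Zs, |(L : ℝ) * (a 2 + r * m)| ≤ 1 / 2) ∧
      (∀ m ∈ Zs, ∀ c ∈ S, ρ c + r < |a 2 + r * m - x c 2|) ∧
      (∀ m ∈ Zs, ∀ c ∈ S, ∀ (o : Fin 2 → ℤ) (v : Fin 2 → ℕ),
        Disjoint (cub (vx a r o m v) r) (closedBall (x c) (ρ c))) ∧
      (∀ i, ∀ m ∈ Zs, F i m ≤ 4 * k * ε i) ∧ ∀ i, ∑ m ∈ Zs, F i m ≤ 4 * k * ε i * Zs.card := by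
  obtain ⟨h1, h2⟩ := slices_hyp hL hr hrL hA S ρ hρ hS
  obtain ⟨Zs, h3, h4, h5, h6, h7, h8⟩ := exists_slices_e hr (a 2) A (card_block hL hr hrL hA).1 S
    (fun c => x c 2) (fun c => ρ c + r) (fun c hc => by linarith [hρ c hc]) h1 h2 F ε hε hs
  exact ⟨Zs, h3, h4, h5, fun m hm => (hA m).1 (h3 hm), h6,
    fun m hm c hc o v => cub_disj_ball o v (h6 m hm c hc), h7, h8⟩

/-! ### integrals over the cubes -/



/-- the squares of one slice -/
def sqs (M : ℕ) : Finset (Fin 2 → ℕ) := Fintype.piFinset fun _ : Fin 2 => Finset.range M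


theorem sum_Fc {β : Type*} [AddCommMonoid β] (M : ℕ) (A : Finset ℤ) (F : ℤ × (Fin 2 → ℕ) → β) :
    ∑ q ∈ Fc M A, F q = ∑ m ∈ A, ∑ v ∈ sqs M, F (m, v) := by
  unfold Fc sqs
  rw [Finset.sum_product]


/-- **number of the squares of the slices whose cube lies in `B`** (or satisfies any condition which
puts the cube into `B`), `vol B ≤ β / L` -/
theorem slice_card (hL : 1 ≤ L) (hr : 0 < r) (o : Fin 2 → ℤ) {M : ℕ} {A : Finset ℤ}
    (hN : 2 / L ≤ ((A.card : ℝ) * M ^ 2) * r ^ 3) (B : Set E3) {β : ℝ} (hβ : 0 ≤ β)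
    (hB : volume B ≤ ENNReal.ofReal (β / L)) (C : ℤ → (Fin 2 → ℕ) → Prop)
    [∀ m, DecidablePred (C m)]
    (hC : ∀ m ∈ A, ∀ v : Fin 2 → ℕ, (∀ j, v j < M) → C m v → cub (vx a r o m v) r ⊆ B) :
    ∑ m ∈ A, (((sqs M).filter (C m)).card : ℝ) ≤ β * M ^ 2 * A.card := by
  classical
  have hL0 : (0 : ℝ) < L := by exact_mod_cast hL
  have h1 := count_real a hr o ((Fc M A).filter fun q => C q.1 q.2) B (by
    intro q hq
    have h2 := Finset.mem_filter.1 hq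
    rw [Fc, Finset.mem_product, Fintype.mem_piFinset] at h2
    exact hC q.1 h2.1.1 q.2 (fun j => by simpa using h2.1.2 j) h2.2) hL hN (ε := β) hβ (by
      refine hB.trans (ENNReal.ofReal_le_ofReal ?_)
      rw [div_le_div_iff_of_pos_right hL0]; linarith)
  have h3 : (((Fc M A).filter fun q => C q.1 q.2).card : ℝ) =
      ∑ m ∈ A, (((sqs M).filter (C m)).card : ℝ) := by
    have h4 : ((Fc M A).filter fun q => C q.1 q.2).card = ∑ m ∈ A, ((sqs M).filter (C m)).card := by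
      rw [Finset.card_filter, sum_Fc]
      refine Finset.sum_congr rfl fun m _ => ?_
      rw [Finset.card_filter]
    rw [h4]; push_cast; rfl
  rw [← h3]
  linarith

end block

end

end Crest.Agent.R096.Nsl_552
end

-- ▼ part R096/Ps7_273

set_option autoImplicit false

open MeasureTheory Set Filter
open scoped Topology ENNReal

namespace Crest.Agent.R096.Ps_273

open Crest.Agent.R096.Msh_810 Crest.Agent.R96.En3_199
  Crest.Agent.R96.En4_199 Crest.Agent.R96.En5_199 Crest.Agent.R96.En6_199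
  Crest.Agent.R96.En7_199 Crest.Agent.R96.En8_199 Crest.Agent.R96.En9_199
  Crest.Agent.R96.En11_199 Crest.Agent.R96.Sg1_199
open Crest.Agent.R096.Msh_715 hiding P I
open Crest.Agent.R096.Ls_222
open Crest.Agent.R096.No0_477 (cub fr)
open Crest.Agent.R096.SkN1_477 (side usq)
open Crest.Agent.R096.Gno_324 (vz cub_vx mem_side_fr mem_usq_fr)
open Crest.Agent.R096.SkC1_961 (E3)

noncomputable section

/-- the value of `Y` at the mesh cell with lower corner `(m, v)` and directions `J` -/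
def cellv (D : Dat 3) (k : ℕ) (o : Fin 2 → ℤ) (J : Finset (Fin 3)) (Y : Cel D → ℝ≥0∞) (m : ℤ)
    (v : Fin 2 → ℕ) : ℝ≥0∞ :=
  open Classical in if h : IsM D ⟨k, vz o m v, J⟩ then Y ⟨⟨k, vz o m v, J⟩, h⟩ else 0

theorem cellv_eq {D : Dat 3} {k : ℕ} {o : Fin 2 → ℤ} {J : Finset (Fin 3)} (Y : Cel D → ℝ≥0∞) {m : ℤ}
    {v : Fin 2 → ℕ} (h : IsM D ⟨k, vz o m v, J⟩) :
    cellv D k o J Y m v = Y ⟨⟨k, vz o m v, J⟩, h⟩ := by
  unfold cellv
  rw [dif_pos h]

theorem vz_inj {o : Fin 2 → ℤ} {m m' : ℤ} {v v' : Fin 2 → ℕ} (h : vz o m v = vz o m' v') :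
    m = m' ∧ v = v' := by
  have h0 := congrFun h 0
  have h1 := congrFun h 1
  have h2 := congrFun h 2
  simp only [vz, Matrix.cons_val_zero, Matrix.cons_val_one, Matrix.cons_val] at h0 h1 h2
  refine ⟨h2, ?_⟩
  funext i
  fin_cases i
  · show v 0 = v' 0
    omega
  · show v 1 = v' 1
    omega

/-- **sums over the block are bounded by the energy of the mesh** -/
theorem slice_le (D : Dat 3) (k : ℕ) (o : Fin 2 → ℤ) (J : Finset (Fin 3)) (G : Cel D → ℝ≥0∞)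
    (A : Finset ℤ) (B : Finset (Fin 2 → ℕ)) :
    ∑ m ∈ A, ∑ v ∈ B, cellv D k o J G m v ≤
      ((2:ℝ≥0∞) ^ k) ^ 3 * ∑' σ : {σ : Cel D // σ.1.J = J}, vol D σ.1 * G σ.1 := by
  classical
  rw [← Finset.sum_product']
  set s : Finset (ℤ × (Fin 2 → ℕ)) := (A ×ˢ B).filter fun q => IsM D ⟨k, vz o q.1 q.2, J⟩ with hs
  have h1 : ∑ q ∈ A ×ˢ B, cellv D k o J G q.1 q.2 = ∑ q ∈ s, cellv D k o J G q.1 q.2 := by
    rw [hs, Finset.sum_filter]
    refine Finset.sum_congr rfl fun q _ => ?_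
    split_ifs with h
    · rfl
    · unfold cellv; rw [dif_neg h]
  rw [h1, ← ENNReal.tsum_mul_left]
  have hM : ∀ q : {q // q ∈ s}, IsM D ⟨k, vz o q.1.1 q.1.2, J⟩ := fun q =>
    (Finset.mem_filter.1 q.2).2
  set φ : {q // q ∈ s} → {σ : Cel D // σ.1.J = J} := fun q =>
    ⟨⟨⟨k, vz o q.1.1 q.1.2, J⟩, hM q⟩, rfl⟩ with hφ
  have hinj : Function.Injective φ := by
    intro q q' h
    have h2 : (φ q).1.1.z = (φ q').1.1.z := by rw [h]
    obtain ⟨h3, h4⟩ := vz_inj h2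
    exact Subtype.ext (Prod.ext h3 h4)
  rw [← Finset.sum_coe_sort]
  have h5 : ∑ q : {q // q ∈ s}, cellv D k o J G q.1.1 q.1.2 =
      ∑' q : {q // q ∈ s}, ((2:ℝ≥0∞) ^ k) ^ 3 * (vol D (φ q).1 * G (φ q).1) := by
    rw [tsum_fintype]
    refine Finset.sum_congr rfl fun q _ => ?_
    rw [cellv_eq G (hM q), ← mul_assoc]
    have h6 : ((2:ℝ≥0∞) ^ k) ^ 3 * vol D (φ q).1 = 1 := by
      show ((2:ℝ≥0∞) ^ k) ^ 3 * (((2:ℝ≥0∞) ^ k)⁻¹) ^ 3 = 1
      rw [← mul_pow, ENNReal.mul_inv_cancel (by positivity) (ENNReal.pow_ne_top (by norm_num)),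
        one_pow]
    rw [h6, one_mul]
  rw [h5]
  exact ENNReal.tsum_comp_le_tsum_of_injective hinj
    (fun σ : {σ : Cel D // σ.1.J = J} => ((2:ℝ≥0∞) ^ k) ^ 3 * (vol D σ.1 * G σ.1))

/-- **edges of the block**, exponent `p` -/
theorem slice_edges (D : Dat 3) (k : ℕ) (o : Fin 2 → ℤ) (l : Fin 3) (p : ℝ) (Y : Cel D → ℝ≥0∞)
    (A : Finset ℤ) (B : Finset (Fin 2 → ℕ)) :
    ∑ m ∈ A, ∑ v ∈ B, cellv D k o {l} (fun σ => ((2:ℝ≥0∞) ^ σ.1.k * Y σ) ^ p) m v ≤
      ((2:ℝ≥0∞) ^ k) ^ 3 * Ye D l p Y :=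
  slice_le D k o {l} _ A B

/-- **cubes of the block**, exponent `p` -/
theorem slice_cubes (D : Dat 3) (k : ℕ) (o : Fin 2 → ℤ) {p : ℝ} (hp : 1 ≤ p) (Y : Cel D → ℝ≥0∞)
    (A : Finset ℤ) (B : Finset (Fin 2 → ℕ)) :
    ∑ m ∈ A, ∑ v ∈ B, cellv D k o Finset.univ (fun τ => ((2:ℝ≥0∞) ^ τ.1.k * tE D Y τ) ^ p) m v ≤
      ((2:ℝ≥0∞) ^ k) ^ 3 * (KC 3 p * ∑ l : Fin 3, Ye D l p Y) := by
  refine (slice_le D k o Finset.univ _ A B).trans ?_
  gcongr
  exact cubes_le hp Y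

/-- the block lies in the uniform zone of scale `k` -/
def Blk (D : Dat 3) (k : ℕ) (o : Fin 2 → ℤ) (M : ℕ) (A : Finset ℤ) : Prop :=
  ∀ m ∈ A, ∀ v : Fin 2 → ℕ, (∀ j, v j < M) →
    ∀ x ∈ cub (No0_477.vx D.a ((2:ℝ) ^ k)⁻¹ o m v) ((2:ℝ) ^ k)⁻¹, 0 < D.ρ x ∧ Msh_810.K D x = k

theorem ps_cub {a : E3} {k : ℕ} {o : Fin 2 → ℤ} {m : ℤ} {v : Fin 2 → ℕ} {x : E3} :
    x ∈ cub (No0_477.vx a ((2:ℝ) ^ k)⁻¹ o m v) ((2:ℝ) ^ k)⁻¹ ↔
      ∀ i, (vz o m v i : ℝ) ≤ ps a k x i ∧ ps a k x i ≤ vz o m v i + 1 := by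
  have h2 : (0:ℝ) < 2 ^ k := by positivity
  refine forall_congr' fun i => ?_
  rw [Gno_324.vx_eq]
  unfold ps
  constructor
  · rintro ⟨h1, h3⟩
    constructor
    · have h4 : ((2:ℝ) ^ k)⁻¹ * vz o m v i ≤ x i - a i := by linarith
      have h5 := mul_le_mul_of_nonneg_left h4 h2.le
      rwa [← mul_assoc, mul_inv_cancel₀ h2.ne', one_mul] at h5
    · have h4 : x i - a i ≤ ((2:ℝ) ^ k)⁻¹ * (vz o m v i + 1) := by linarith
      have h5 := mul_le_mul_of_nonneg_left h4 h2.le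
      rwa [← mul_assoc, mul_inv_cancel₀ h2.ne', one_mul] at h5
  · rintro ⟨h1, h3⟩
    have h1' := mul_le_mul_of_nonneg_left h1 (inv_nonneg.2 h2.le)
    have h3' := mul_le_mul_of_nonneg_left h3 (inv_nonneg.2 h2.le)
    rw [← mul_assoc, inv_mul_cancel₀ h2.ne', one_mul] at h1' h3'
    constructor <;> linarith

/-- the faces of the cubes of the block are mesh cells -/
theorem Blk.isM {D : Dat 3} {k : ℕ} {o : Fin 2 → ℤ} {M : ℕ} {A : Finset ℤ} (h : Blk D k o M A)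
    {m : ℤ} (hm : m ∈ A) {v : Fin 2 → ℕ} (hv : ∀ j, v j < M) {z : Fin 3 → ℤ} {J : Finset (Fin 3)}
    (hJ : ∀ i ∈ J, z i = vz o m v i) (hJ' : ∀ i ∉ J, z i = vz o m v i ∨ z i = vz o m v i + 1) :
    IsM D ⟨k, z, J⟩ := by
  classical
  have h2 : (0:ℝ) < 2 ^ k := by positivity
  set x : Fin 3 → ℝ := fun i => D.a i + ((2:ℝ) ^ k)⁻¹ * (z i + if i ∈ J then 1 / 2 else 0) with hx
  have hps : ∀ i, ps D.a k x i = z i + if i ∈ J then 1 / 2 else 0 := by
    intro i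
    simp only [ps, hx]
    rw [add_sub_cancel_left, ← mul_assoc, mul_inv_cancel₀ h2.ne', one_mul]
  have h3 := h m hm v hv x (ps_cub.2 fun i => by
    rw [hps]
    by_cases hi : i ∈ J
    · rw [if_pos hi, hJ i hi]
      constructor <;> linarith
    · rw [if_neg hi]
      rcases hJ' i hi with h4 | h4
      · rw [h4]; constructor <;> linarith
      · rw [h4]; push_cast; constructor <;> linarith)
  refine ⟨x, fun i => ⟨fun hi => ?_, fun hi => ?_⟩, h3.1, h3.2⟩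
  · show (z i : ℝ) < ps D.a k x i ∧ ps D.a k x i < z i + 1
    rw [hps, if_pos hi]; constructor <;> linarith
  · show ps D.a k x i = z i
    rw [hps, if_neg hi, add_zero]

/-- the sides of the squares as mesh cells -/
theorem side_eq {a : E3} {k : ℕ} {o : Fin 2 → ℤ} {m : ℤ} {v : Fin 2 → ℕ} {r : ℝ} (hr : r ≠ 0)
    (hrk : r = ((2:ℝ) ^ k)⁻¹) (j : Fin 2) (b : ℕ) :
    side (fr (No0_477.vx a r o m v) r hr) j b =
      Dc a ⟨k, vz o m (fun i => v i + if i = j then 0 else b), {j.castSucc}⟩ := by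
  have h2 : (0:ℝ) < 2 ^ k := by positivity
  have hr0 : 0 < r := by rw [hrk]; positivity
  have hrk' : (2:ℝ) ^ k * r = 1 := by rw [hrk]; exact mul_inv_cancel₀ h2.ne'
  have hrk2 : r * (2:ℝ) ^ k = 1 := by rw [mul_comm]; exact hrk'
  have key : ∀ (y : E3) (i : Fin 3) (t : ℝ), (a i + r * t ≤ y i ↔ t ≤ ps a k y i) ∧
      (y i ≤ a i + r * t ↔ ps a k y i ≤ t) ∧ (y i = a i + r * t ↔ ps a k y i = t) := by
    intro y i t
    have e1 : a i + r * t ≤ y i ↔ t ≤ ps a k y i := by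
      unfold ps
      constructor
      · intro h
        have h5 := mul_le_mul_of_nonneg_left (show r * t ≤ y i - a i by linarith) h2.le
        rwa [← mul_assoc, hrk', one_mul] at h5
      · intro h
        have h5 := mul_le_mul_of_nonneg_left h hr0.le
        rw [← mul_assoc, hrk2, one_mul] at h5
        linarith
    have e2 : y i ≤ a i + r * t ↔ ps a k y i ≤ t := by
      unfold ps
      constructor
      · intro h
        have h5 := mul_le_mul_of_nonneg_left (show y i - a i ≤ r * t by linarith) h2.le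
        rwa [← mul_assoc ((2:ℝ)^k) r, hrk', one_mul] at h5
      · intro h
        have h5 := mul_le_mul_of_nonneg_left h hr0.le
        rw [← mul_assoc, hrk2, one_mul] at h5
        linarith
    refine ⟨e1, e2, ?_⟩
    constructor
    · intro h
      exact le_antisymm (e2.1 h.le) (e1.1 h.ge)
    · intro h
      exact le_antisymm (e2.2 h.le) (e1.2 h.ge)
  ext y
  rw [mem_side_fr hr0 hr, Gno_324.vx_eq, Gno_324.vx_eq, Gno_324.vx_eq]
  have ea : ∀ (i : Fin 3) (c : ℝ), a i + r * (vz o m v i : ℝ) + c * r =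
      a i + r * (vz o m v i + c) := fun i c => by ring
  have eb : ∀ i : Fin 3, a i + r * (vz o m v i : ℝ) + r = a i + r * (vz o m v i + 1) := fun i => by
    ring
  rw [ea, eb, (key y _ _).1, (key y _ _).2.1, (key y _ _).2.2, (key y _ _).2.2]
  set v' : Fin 2 → ℕ := fun i => v i + if i = j then 0 else b with hv'
  have z1 : vz o m v' j.castSucc = vz o m v j.castSucc := by
    fin_cases j <;> simp [vz, hv']
  have z2 : (vz o m v' (1 - j).castSucc : ℝ) = vz o m v (1 - j).castSucc + b := by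
    fin_cases j
    · show ((vz o m v' 1 : ℤ) : ℝ) = (vz o m v 1 : ℤ) + b
      simp [vz, hv']; ring
    · show ((vz o m v' 0 : ℤ) : ℝ) = (vz o m v 0 : ℤ) + b
      simp [vz, hv']; ring
  have z3 : vz o m v' 2 = vz o m v 2 := by simp [vz]
  constructor
  · rintro ⟨h1, h3, h4, h5⟩ i
    show (i ∈ ({j.castSucc} : Finset (Fin 3)) → ((vz o m v' i : ℤ) : ℝ) ≤ ps a k y i ∧
      ps a k y i ≤ (vz o m v' i : ℤ) + 1) ∧
      (i ∉ ({j.castSucc} : Finset (Fin 3)) → ps a k y i = (vz o m v' i : ℤ))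
    rw [Finset.mem_singleton]
    constructor
    · rintro rfl
      rw [z1]; exact ⟨h1, h3⟩
    · intro hi
      rcases Gno_324.fin_d j i hi with rfl | rfl
      · rw [h4, z2]
      · rw [h5, z3]
  · intro h
    have g1 := (h j.castSucc).1 (Finset.mem_singleton_self _)
    have g2 := (h (1 - j).castSucc).2 (by
      rw [Finset.mem_singleton]; exact fun h => Gno_324.fin_a j h.symm)
    have g3 := (h 2).2 (by rw [Finset.mem_singleton]; exact Gno_324.fin_c j)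
    simp only at g1 g2 g3
    rw [z1] at g1
    rw [z2] at g2
    rw [z3] at g3
    exact ⟨g1.1, g1.2, g2, g3⟩

end

end Crest.Agent.R096.Ps_273
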