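import Crest.Agent.R096.Gsm4_432
import Crest.Agent.R096.Mal16_874

/-!
# Row 96, GAPSIM (helper432), part 6: the tiles of the aligned mesh `MD.mesh` (helper874) have a uniform
gap
-/

set_option autoImplicit false
set_option linter.unusedSectionVars false

open Set Metric Topology Filter

namespace Crest.Agent.R096.Gsm_432

open Crest.Agent.R096.Msh_715 Crest.Agent.R096.Mal_874 Crest.Agent.R096.Cut_874
open Crest.Agent.R096.Msh_810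

universe u v w

variable {n : ℕ}

theorem good_mono {E : Type u} [NormedAddCommGroup E] [NormedSpace ℝ E] {Om : Set E} {ι : Type v}
    {T : Tiling Om ι} {t : ι} {χ : E ≃ᵃ[ℝ] (Fin n → ℝ)} {k : ℕ} {𝒩 𝒩' : Finset (Fin n → ℝ)} {d : ℕ}
    {R R' : ℝ} (h : Good T t χ k 𝒩 d R) (h1 : 𝒩 ⊆ 𝒩') (h2 : R ≤ R') : Good T t χ k 𝒩' d R' := by
  refine ⟨fun l hl g hg => ?_, fun x hx y hy m => (h.sz x hx y hy m).trans h2⟩
  obtain ⟨ν, c, hν, e⟩ := h.gf l hl g hg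
  exact ⟨ν, c, h1 hν, e⟩

/-- **every good tile has a gap, with uniform constants** -/
theorem gap_good (E : Type u) [NormedAddCommGroup E] [NormedSpace ℝ E] [FiniteDimensional ℝ E]
    (𝒩 : Finset (Fin n → ℝ)) {d : ℕ} (hd : 0 < d)
    (h𝒩 : ∀ ν ∈ 𝒩, ∀ m, ∃ c : ℤ, ν m = c / d) (R : ℝ) :
    ∃ β > 0, ∃ ρ > 0, ∃ D, ∃ nc : ℕ, ∀ {Om : Set E} {ι : Type v} (T : Tiling Om ι) (t : ι)
      (χ : E ≃ᵃ[ℝ] (Fin n → ℝ)) (k : ℕ), Good T t χ k 𝒩 d R → ∃ c, GapT T t χ c β ρ D nc := by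
  obtain ⟨β, hβ, ρ, hρ, D, nc, h⟩ := gap_tile.{u, v} E 𝒩 hd h𝒩 R
  exact ⟨β, hβ, ρ, hρ, D, nc, fun T i χ k hg => h T i χ (2 ^ k) (by positivity) hg.gf hg.sz⟩

theorem NB_mono {B B' : ℕ} (h : B ≤ B') : NB n B ⊆ NB n B' := by
  classical
  unfold NB
  refine Finset.image_subset_image (Fintype.piFinset_subset _ _ fun _ => ?_)
  have h' : (B : ℤ) ≤ B' := by exact_mod_cast h
  exact Finset.Icc_subset_Icc (by linarith) h'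

/-- **uniform constants for a finite list of lists** -/
theorem gap_goods (E : Type u) [NormedAddCommGroup E] [NormedSpace ℝ E] [FiniteDimensional ℝ E]
    {Ls : Set (Finset (Fin n → ℝ) × ℕ)} (hLs : Ls.Finite) (hpos : ∀ p ∈ Ls, 0 < p.2)
    (hrat : ∀ p ∈ Ls, ∀ ν ∈ p.1, ∀ m, ∃ c : ℤ, ν m = c / p.2) (R : ℝ) :
    ∃ β > 0, ∃ ρ > 0, ∃ D, ∃ nc : ℕ, ∀ {Om : Set E} {ι : Type v} (T : Tiling Om ι) (t : ι)
      (χ : E ≃ᵃ[ℝ] (Fin n → ℝ)) (k : ℕ), ∀ p ∈ Ls, Good T t χ k p.1 p.2 R →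
      ∃ c, GapT T t χ c β ρ D nc := by
  have key : ∀ p : Finset (Fin n → ℝ) × ℕ, ∃ β > 0, ∃ ρ > 0, ∃ D, ∃ nc : ℕ, p ∈ Ls →
      ∀ {Om : Set E} {ι : Type v} (T : Tiling Om ι) (t : ι)
      (χ : E ≃ᵃ[ℝ] (Fin n → ℝ)) (k : ℕ), Good T t χ k p.1 p.2 R →
      ∃ c, GapT T t χ c β ρ D nc := by
    intro p
    by_cases hp : p ∈ Ls
    · obtain ⟨β, hβ, ρ, hρ, D, nc, h⟩ := gap_good.{u, v} E p.1 (hpos p hp) (hrat p hp) R
      exact ⟨β, hβ, ρ, hρ, D, nc, fun _ => h⟩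
    · exact ⟨1, one_pos, 1, one_pos, 0, 0, fun h => absurd h hp⟩
  choose β hβ ρ hρ D nc h using key
  obtain ⟨β0, hβ0, h1⟩ := exists_lb hLs hβ
  obtain ⟨ρ0, hρ0, h2⟩ := exists_lb hLs hρ
  obtain ⟨D0, h3⟩ := (hLs.image D).bddAbove
  obtain ⟨n0, h4⟩ := (hLs.image nc).bddAbove
  refine ⟨β0, hβ0, ρ0, hρ0, D0, n0, fun T i χ k p hp hg => ?_⟩
  obtain ⟨c, hc⟩ := h p hp T i χ k hg
  exact ⟨c, hc.mono hβ0.le (h1 _ hp) (h2 _ hp) (h3 (mem_image_of_mem _ hp))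
    (h4 (mem_image_of_mem _ hp))⟩


end Crest.Agent.R096.Gsm_432
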