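import Crest.Agent.R096.Dic2_582
import Crest.Agent.R096.Log3_582

-- ▼ part R096/Dic3_582
section

/-!
# Row 96, DICT: good squares near `K₀`, weighted sum of the derivatives everywhere, measure of the
strips of cut squares, final inequality
-/

set_option autoImplicit false
set_option linter.unusedSectionVars false
set_option linter.style.haveILetI false
open Set Filter Topology MeasureTheory
open scoped NNReal ENNReal

namespace Crest.Agent.R096.Dic3_582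

open Crest.Agent.R096.Brk1_582 Crest.Agent.R096.Brk2_582 Crest.Agent.R096.Brk3_582
open Crest.Agent.R096.Brk4_582 Crest.Agent.R096.Brk5_582 Crest.Agent.R096.Brk7_582
open Crest.Agent.R096.Bsp_628 Crest.Agent.R096.Log1_582 Crest.Agent.R096.Log2_582
open Crest.Agent.R096.Log3_582 Crest.Agent.R096.Dic1_582 Crest.Agent.R096.Dic2_582

section near

variable {q : ℕ} {a : Fin 3 → ℝ} {h : ℝ} {F : Set (Bx (Fin 3))} {La : Set (Fin 3 → ℝ)} {δ κ0 : ℝ}
  {K₀ : Set (Fin 3 → ℝ)} {r r' : ℝ}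

theorem floor_bounds (hh : 0 < h) (x b : ℝ) :
    b + h * (⌊(x - b) / h⌋ : ℝ) ≤ x ∧ x ≤ b + h * ((⌊(x - b) / h⌋ : ℝ) + 1) := by
  have h1 := Int.floor_le ((x - b) / h)
  have h2 := (Int.lt_floor_add_one ((x - b) / h)).le
  rw [le_div_iff₀ hh] at h1
  rw [div_le_iff₀ hh] at h2
  constructor <;> linarith

/-- **good squares near `K₀`** -/
theorem gsq_near (hq : 1 ≤ q) (hh : 0 < h) (H : LogsNear F q a h K₀ r)
    (hr : r' + 2 * h ≤ r) {y : Fin 3 → ℝ} (hy : y ∈ Nr K₀ r') {z : ℤ} (hyz : y 2 = a 2 + h * z)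
    (hi : ¬ (q : ℤ) ∣ ⌊(y 0 - a 0) / h⌋) (hj : ¬ (q : ℤ) ∣ ⌊(y 1 - a 1) / h⌋) :
    ∃ e o i j, GSq F q a h e o i j ∧ y ∈ sqr a h e o i j := by
  obtain ⟨e, o, he, ho, heo, hz⟩ := exists_slabs z
  set i := ⌊(y 0 - a 0) / h⌋ with hi'
  set j := ⌊(y 1 - a 1) / h⌋ with hj'
  have hb0 := floor_bounds hh (y 0) (a 0)
  have hb1 := floor_bounds hh (y 1) (a 1)
  rw [← hi'] at hb0
  rw [← hj'] at hb1
  have hgood : GoodSq q i j := goodSq_of hi hj
  obtain ⟨b1, b2⟩ := slab_bounds hh heo hz hyz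
  have hnorm : ∀ x : Fin 3 → ℝ, |x 0 - y 0| ≤ 2 * h → |x 1 - y 1| ≤ 2 * h → x 2 = y 2 →
      x ∈ Nr K₀ r := by
    intro x h0 h1 h2
    refine Nr_mono hr (Nr_add hy ?_)
    refine (pi_norm_le_iff_of_nonneg (by positivity)).2 fun k => ?_
    rw [Pi.sub_apply, Real.norm_eq_abs]
    fin_cases k
    · exact h0
    · exact h1
    · change |x 2 - y 2| ≤ _
      rw [h2, sub_self, abs_zero]; positivity
  have hcast : ∀ τ : ℤ, τ = -1 ∨ τ = 0 ∨ τ = 1 → -1 ≤ (τ : ℝ) ∧ (τ : ℝ) ≤ 1 := by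
    rintro τ (rfl | rfl | rfl) <;> norm_num
  refine ⟨e, o, i, j, ⟨he, ho, heo, hgood, fun τ hτ => ?_, fun σ hσ => ?_⟩, ?_⟩
  · obtain ⟨t1, t2⟩ := hcast τ hτ
    refine H _ ⟨_, _, _, rfl⟩ ⟨pt a h (i + 1 / 2) (j + τ + 1 / 2) z, ?_, hnorm _ ?_ ?_ ?_⟩
    · refine Lx_of hq hh he (hgood τ hτ).1 ?_ ?_ ?_
      · rw [pt_zero]; constructor <;> nlinarith
      · rw [pt_one]; push_cast; constructor <;> nlinarith
      · rw [pt_two, ← hyz]; exact b1
    · rw [pt_zero, abs_le]; constructor <;> nlinarith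
    · rw [pt_one, abs_le]; constructor <;> nlinarith
    · rw [pt_two, hyz]
  · obtain ⟨t1, t2⟩ := hcast σ hσ
    refine H _ ⟨_, _, _, rfl⟩ ⟨pt a h (i + σ + 1 / 2) (j + 1 / 2) z, ?_, hnorm _ ?_ ?_ ?_⟩
    · refine Ly_of hq hh ho (hgood σ hσ).2 ?_ ?_ ?_
      · rw [pt_zero]; push_cast; constructor <;> nlinarith
      · rw [pt_one]; constructor <;> nlinarith
      · rw [pt_two, ← hyz]; exact b2
    · rw [pt_zero, abs_le]; constructor <;> nlinarith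
    · rw [pt_one, abs_le]; constructor <;> nlinarith
    · rw [pt_two, hyz]
  · rw [mem_sqr, hz]
    exact ⟨hb0, hb1, hyz⟩

end near

/-! ### the inputs of 199's `shift_R3`, `exists_derivs` -/

section inputs

variable {F : Set (Bx (Fin 3))} {La : Set (Fin 3 → ℝ)} {δ κ0 R : ℝ}

/-- `La` in the euclidean space -/
def La3 (La : Set (Fin 3 → ℝ)) : Set (EuclideanSpace ℝ (Fin 3)) := {y | WithLp.ofLp y ∈ La}

/-- the coordinates as functions on the euclidean space -/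
noncomputable def s3 (F : Set (Bx (Fin 3))) (c : F) (y : EuclideanSpace ℝ (Fin 3)) : ℝ :=
  sc (Pc F) (bc (F := F)) (WithLp.ofLp y) c

/-- the pointwise Lipschitz constants -/
noncomputable def L3 (F : Set (Bx (Fin 3))) (δ R : ℝ) (c : F) : ℝ≥0 :=
  Real.toNNReal (Cs 3 δ R * R / c.1.sz)

theorem L3_coe (BF : BoxFoam La F δ κ0) (hδ : 0 < δ) (hR : 0 < R) (c : F) :
    (L3 F δ R c : ℝ) = Cs 3 δ R * R / c.1.sz := by
  have hsz : 0 < c.1.sz := Bx.sz_pos (BF.pos _ c.2)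
  exact Real.coe_toNNReal _ (div_nonneg (mul_nonneg (Cs_nonneg hδ hR) hR.le) hsz.le)

theorem continuous_ofLp3 : Continuous (fun y : EuclideanSpace ℝ (Fin 3) => WithLp.ofLp y) :=
  PiLp.continuous_ofLp 2 _

theorem s3_locLip (BF : BoxFoam La F δ κ0) (hLa : IsOpen La) (hδ : 0 < δ) (hR : 0 < R)
    (hcmp : Cmp F R) (c : F) : LocallyLipschitzOn (La3 La) (s3 F c) := by
  intro y hy
  obtain ⟨K, t, ht, hK⟩ := locallyLipschitzOn_sc BF hLa hδ hR hcmp c hy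
  refine ⟨K, (fun y : EuclideanSpace ℝ (Fin 3) => WithLp.ofLp y) ⁻¹' t, ?_, ?_⟩
  · have h1 : Tendsto (fun y : EuclideanSpace ℝ (Fin 3) => WithLp.ofLp y) (𝓝[La3 La] y)
        (𝓝[La] (WithLp.ofLp y)) := by
      apply tendsto_nhdsWithin_iff.2
      exact ⟨continuous_ofLp3.continuousAt.mono_left nhdsWithin_le_nhds,
        eventually_nhdsWithin_of_forall fun y hy => hy⟩
    exact h1 ht
  · refine LipschitzOnWith.of_dist_le_mul fun z hz z' hz' => ?_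
    refine (hK.dist_le_mul _ hz _ hz').trans ?_
    rw [dist_eq_norm, dist_eq_norm]
    exact mul_le_mul_of_nonneg_left (norm_ofLp_sub_le z z') K.2

theorem s3_hL (BF : BoxFoam La F δ κ0) (hLa : IsOpen La) (hδ : 0 < δ) (hR : 0 < R)
    (hcmp : Cmp F R) (c : F) : ∀ y ∈ La3 La, ∀ ε > 0, ∀ᶠ z in 𝓝[La3 La] y,
      |s3 F c z - s3 F c y| ≤ (L3 F δ R c + ε) * ‖z - y‖ := by
  intro y hy ε hε
  have h1 := (sc_local BF hLa hδ hR hcmp c hy)
  have h2 := (continuous_ofLp3.continuousAt (x := y)).eventually h1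
  filter_upwards [h2.filter_mono nhdsWithin_le_nhds, self_mem_nhdsWithin] with z h3 hz
  rw [L3_coe BF hδ hR]
  refine (h3 hz).trans ?_
  have h4 := norm_ofLp_sub_le z y
  have h5 : 0 ≤ Cs 3 δ R * R / c.1.sz := by
    rw [← L3_coe BF hδ hR]; exact NNReal.coe_nonneg _
  calc Cs (Fintype.card (Fin 3)) δ R * R / c.1.sz * ‖WithLp.ofLp z - WithLp.ofLp y‖
      ≤ Cs 3 δ R * R / c.1.sz * ‖z - y‖ := by
        rw [Fintype.card_fin]; exact mul_le_mul_of_nonneg_left h4 h5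
    _ ≤ _ := mul_le_mul_of_nonneg_right (by linarith) (norm_nonneg _)

theorem s3_N (BF : BoxFoam La F δ κ0) (hLa : IsOpen La) {y : EuclideanSpace ℝ (Fin 3)}
    (hy : y ∈ La3 La) : {c | s3 F c y ≠ 0 ∧ s3 F c y ≠ 1}.encard ≤ (3 : ℕ) := by
  have h1 := active_encard (foam BF hLa) (y := WithLp.ofLp y) hy
  simpa [s3] using h1

theorem s3_w (BF : BoxFoam La F δ κ0) (hδ : 0 < δ) (hR : 0 < R) {w : F → ℝ≥0∞}
    (hw : ∀ c : F, w c ≤ ENNReal.ofReal c.1.sz) (c : F) :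
    w c * L3 F δ R c ≤ ENNReal.ofReal (Cs 3 δ R * R) := by
  have hsz : 0 < c.1.sz := Bx.sz_pos (BF.pos _ c.2)
  rw [← ENNReal.ofReal_coe_nnreal (p := L3 F δ R c), L3_coe BF hδ hR]
  refine (mul_le_mul' (hw c) le_rfl).trans ?_
  rw [← ENNReal.ofReal_mul hsz.le]
  apply ENNReal.ofReal_le_ofReal
  rw [mul_div_cancel₀ _ hsz.ne']

end inputs

/-! ### the general bound -/

section gen

open Crest.Agent.R96.Acl_392 Crest.Agent.R96.Sob2_199 Crest.Agent.R96.Sob3_199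
open Crest.Agent.R96.Sob4_199 Crest.Agent.R96.Sob5_199 Crest.Agent.R96.En10_199

variable {E : Type*} [NormedAddCommGroup E] [NormedSpace ℝ E] [FiniteDimensional ℝ E]
  [MeasurableSpace E] [BorelSpace E] {μ : Measure E} [μ.IsAddHaarMeasure]
variable {F : Set (Bx (Fin 3))} {La : Set (Fin 3 → ℝ)} {δ κ0 R : ℝ}

/-- **everywhere** the weighted sum of the derivatives of the coordinates is at most
`3 Cs R |D f|` (weights at most the sizes) -/
theorem gen_tsum (BF : BoxFoam La F δ κ0) (hLa : IsOpen La) (hδ : 0 < δ) (hR : 0 < R)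
    (hcmp : Cmp F R) {Ω : Set E} (hΩ : IsOpen Ω) {u : E}
    {f D : E → EuclideanSpace ℝ (Fin 3)} (hD : VWD Ω μ f D u) (hf : ContinuousOn f Ω)
    (hfL : MapsTo f Ω (La3 La)) {g : F → E → ℝ}
    (hg : ∀ c, WD Ω μ (fun x => s3 F c (f x)) (g c) u)
    {w : F → ℝ≥0∞} (hw : ∀ c : F, w c ≤ ENNReal.ofReal c.1.sz) :
    ∀ᵐ x ∂μ, x ∈ Ω → ∑' c, w c * ‖g c x‖ₑ ≤ ENNReal.ofReal (3 * (Cs 3 δ R * R)) * ‖D x‖ₑ := by
  classical
  have hcnt : Countable F := BF.countable.to_subtype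
  have hCR : 0 ≤ Cs 3 δ R * R := mul_nonneg (Cs_nonneg hδ hR) hR.le
  have key := fun c => comp_real_bound hΩ hD hf hfL (s3_locLip BF hLa hδ hR hcmp c)
    (s3_hL BF hLa hδ hR hcmp c)
  have hcont : ∀ c, ContinuousOn (fun x => s3 F c (f x)) Ω := fun c =>
    (s3_locLip BF hLa hδ hR hcmp c).continuousOn.comp hf hfL
  filter_upwards [ae_all_iff.2 fun c => (key c).2.2.1,
    ae_all_iff.2 fun c => wd_unique hΩ (hg c) (key c).1,
    ae_all_iff.2 fun c => wd_level hΩ (hg c) (hcont c) 0,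
    ae_all_iff.2 fun c => wd_level hΩ (hg c) (hcont c) 1] with x h1 h2 h3 h4 hx
  have hN := s3_N BF hLa (hfL hx)
  set Tset : Set F := {c | s3 F c (f x) ≠ 0 ∧ s3 F c (f x) ≠ 1} with hT
  have hfin : Tset.Finite := Set.finite_of_encard_le_coe hN
  have hcard : hfin.toFinset.card ≤ 3 := by
    have h5 : (Tset.encard : ℕ∞) = hfin.toFinset.card := hfin.encard_eq_coe_toFinset_card
    rw [h5] at hN
    exact_mod_cast hN
  have hzero : ∀ c ∉ hfin.toFinset, w c * ‖g c x‖ₑ = 0 := by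
    intro c hc
    rw [hfin.mem_toFinset] at hc
    by_cases h5 : s3 F c (f x) = 0
    · rw [h3 c hx h5, enorm_zero, mul_zero]
    · by_cases h6 : s3 F c (f x) = 1
      · rw [h4 c hx h6, enorm_zero, mul_zero]
      · exact absurd ⟨h5, h6⟩ hc
  rw [tsum_eq_sum hzero]
  have hterm : ∀ c ∈ hfin.toFinset, w c * ‖g c x‖ₑ ≤ ENNReal.ofReal (Cs 3 δ R * R) * ‖D x‖ₑ := by
    intro c _
    have h5 := h1 c hx
    rw [← h2 c hx] at h5
    calc w c * ‖g c x‖ₑ ≤ w c * (L3 F δ R c * ‖D x‖ₑ) := by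
          gcongr
          rw [← ofReal_norm, ← ofReal_norm, ← ENNReal.ofReal_coe_nnreal,
            ← ENNReal.ofReal_mul (NNReal.coe_nonneg _)]
          exact ENNReal.ofReal_le_ofReal h5
      _ = w c * L3 F δ R c * ‖D x‖ₑ := by rw [mul_assoc]
      _ ≤ _ := by gcongr; exact s3_w BF hδ hR hw c
  calc ∑ c ∈ hfin.toFinset, w c * ‖g c x‖ₑ
      ≤ ∑ _c ∈ hfin.toFinset, ENNReal.ofReal (Cs 3 δ R * R) * ‖D x‖ₑ := Finset.sum_le_sum hterm
    _ = (hfin.toFinset.card : ℝ≥0∞) * (ENNReal.ofReal (Cs 3 δ R * R) * ‖D x‖ₑ) := by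
        rw [Finset.sum_const, nsmul_eq_mul]
    _ ≤ 3 * (ENNReal.ofReal (Cs 3 δ R * R) * ‖D x‖ₑ) := by
        gcongr
        exact_mod_cast hcard
    _ = ENNReal.ofReal (3 * (Cs 3 δ R * R)) * ‖D x‖ₑ := by
        rw [ENNReal.ofReal_mul (p := (3 : ℝ)) (q := Cs 3 δ R * R) (by norm_num), ← mul_assoc]
        norm_num

variable {q : ℕ} {a : Fin 3 → ℝ} {h : ℝ} {K₀ : Set (Fin 3 → ℝ)} {r r' : ℝ}

/-- **DICTIONARY, pointwise**: at almost every point which is mapped to a horizontal plane near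
`K₀`: the third component does not move, the weighted sum of the derivatives of the coordinates is
at most `64 |D|`, and equal to `|D_0| + |D_1|` outside the strips of the cut squares -/
theorem dict_ptw (BF : BoxFoam La F δ κ0) (hLa : IsOpen La) (hδ : 0 < δ) (hR : 0 < R)
    (hcmp : Cmp F R) (hq : 1 ≤ q) (hh : 0 < h) (H : LogsNear F q a h K₀ r) (hr : r' + 2 * h < r)
    {Ω : Set E} (hΩ : IsOpen Ω) {u : E}
    {f D : E → EuclideanSpace ℝ (Fin 3)} (hD : VWD Ω μ f D u) (hf : ContinuousOn f Ω)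
    (hfL : MapsTo f Ω (La3 La)) {g : F → E → ℝ}
    (hg : ∀ c, WD Ω μ (fun x => s3 F c (f x)) (g c) u)
    {w : F → ℝ≥0∞} (hw : ∀ c : F, IsLog q a h c.1 → w c = ENNReal.ofReal (h / 2)) :
    ∀ᵐ x ∂μ, x ∈ Ω → WithLp.ofLp (f x) ∈ Nr K₀ r' → (∃ z : ℤ, f x 2 = a 2 + h * z) →
      D x 2 = 0 ∧ ∑' c, w c * ‖g c x‖ₑ ≤ 64 * ‖D x‖ₑ ∧
      (¬ (q : ℤ) ∣ ⌊(f x 0 - a 0) / h⌋ → ¬ (q : ℤ) ∣ ⌊(f x 1 - a 1) / h⌋ →
        ∑' c, w c * ‖g c x‖ₑ = ‖D x 0‖ₑ + ‖D x 1‖ₑ) := by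
  have hcnt : Countable F := BF.countable.to_subtype
  have hcont : ∀ c, ContinuousOn (fun x => s3 F c (f x)) Ω := fun c =>
    (s3_locLip BF hLa hδ hR hcmp c).continuousOn.comp hf hfL
  have h1 : ∀ᵐ x ∂μ, ∀ C O : F, Hor F q a h C O → x ∈ Ω →
      WithLp.ofLp (f x) ∈ Pc F C ∩ Pc F O → D x 2 = 0 ∧ ∑' c, w c * ‖g c x‖ₑ ≤ 64 * ‖D x‖ₑ := by
    rw [ae_all_iff]; intro C
    rw [ae_all_iff]; intro O
    by_cases hH : Hor F q a h C O
    · filter_upwards [hor_tsum hH BF hLa hq hh hΩ hD hf hg hcont hw] with x hx _ using hx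
    · exact Eventually.of_forall fun x hx => absurd hx hH
  have h2 : ∀ᵐ x ∂μ, ∀ e o i j : ℤ, GSq F q a h e o i j → x ∈ Ω →
      WithLp.ofLp (f x) ∈ sqr a h e o i j →
      D x 2 = 0 ∧ ∑' c, w c * ‖g c x‖ₑ = ‖D x 0‖ₑ + ‖D x 1‖ₑ := by
    rw [ae_all_iff]; intro e
    rw [ae_all_iff]; intro o
    rw [ae_all_iff]; intro i
    rw [ae_all_iff]; intro j
    by_cases hH : GSq F q a h e o i j
    · filter_upwards [good_tsum hH BF hLa hq hh hΩ hD hf hg hcont hw] with x hx _ using hx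
    · exact Eventually.of_forall fun x hx => absurd hx hH
  filter_upwards [h1, h2] with x h1 h2 hx hK hz
  obtain ⟨z, hz⟩ := hz
  obtain ⟨C, O, hH, hy⟩ := hor_near BF hq hh H (by linarith) hK (z := z) hz
  obtain ⟨h3, h4⟩ := h1 C O hH hx hy
  refine ⟨h3, h4, fun hi hj => ?_⟩
  obtain ⟨e, o, i, j, hG, hy'⟩ := gsq_near hq hh H hr.le hK (z := z) hz hi hj
  exact (h2 e o i j hG hx hy').2

end gen

end Crest.Agent.R096.Dic3_582
end

-- ▼ part R096/Dic4_582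
section

/-!
# Row 96, DICT: measure of the strips of the cut squares, energy inequality
-/

set_option autoImplicit false
set_option linter.unusedSectionVars false
set_option linter.style.haveILetI false
open Set Filter Topology MeasureTheory
open scoped NNReal ENNReal

namespace Crest.Agent.R096.Dic4_582

open Crest.Agent.R096.Brk1_582 Crest.Agent.R096.Brk2_582 Crest.Agent.R096.Brk3_582
open Crest.Agent.R096.Brk4_582 Crest.Agent.R096.Brk5_582 Crest.Agent.R096.Brk7_582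
open Crest.Agent.R096.Bsp_628 Crest.Agent.R096.Log1_582 Crest.Agent.R096.Log2_582
open Crest.Agent.R096.Log3_582 Crest.Agent.R096.Dic1_582 Crest.Agent.R096.Dic2_582
open Crest.Agent.R096.Dic3_582

/-! ### strips -/

/-- the integer `n` is within `1` of a multiple of `q` -/
def NearMul (q : ℕ) (n : ℤ) : Prop := ∃ σ : ℤ, (σ = -1 ∨ σ = 0 ∨ σ = 1) ∧ (q : ℤ) ∣ n + σ

theorem not_dvd_of {q : ℕ} {n n' : ℤ} (h : ¬ NearMul q n) (h' : |n' - n| ≤ 1) : ¬ (q : ℤ) ∣ n' := by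
  intro h1
  apply h
  refine ⟨n' - n, ?_, by rwa [add_sub_cancel]⟩
  have := abs_le.1 h'
  omega

/-- **pigeonhole for the strips**: one of `q` consecutive integer shifts is good -/
theorem exists_shift_strip {X : Type*} [MeasurableSpace X] (ν : Measure X) {f : X → ℝ}
    (hf : AEMeasurable f ν) {q : ℕ} (hq : 1 ≤ q) :
    ∃ α : ℕ, α < q ∧ ν {x | NearMul q (⌊f x⌋ - α)} ≤ 3 * ν univ / q := by
  classical
  have hq0 : (q : ℝ≥0∞) ≠ 0 := by
    have : q ≠ 0 := by omega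
    exact_mod_cast this
  set S : ℤ → ℕ → Set X := fun σ α => {x | (q : ℤ) ∣ ⌊f x⌋ - α + σ} with hS
  have hSm : ∀ σ α, NullMeasurableSet (S σ α) ν := by
    intro σ α
    have h1 : Measurable fun t : ℝ => ⌊t⌋ := Int.measurable_floor
    have h2 : MeasurableSet {t : ℝ | (q : ℤ) ∣ ⌊t⌋ - α + σ} :=
      h1 (show MeasurableSet {n : ℤ | (q : ℤ) ∣ n - α + σ} from MeasurableSet.of_discrete)
    exact hf.nullMeasurableSet_preimage h2
  have hsum : ∀ σ, ∑ α ∈ Finset.range q, ν (S σ α) ≤ ν univ := by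
    intro σ
    rw [← measure_biUnion_finset₀ ?_ fun α _ => hSm σ α]
    · exact measure_mono (subset_univ _)
    · intro α hα β hβ hne
      refine Disjoint.aedisjoint ?_
      rw [Set.disjoint_left]
      intro x hx hy
      have h1 : (q : ℤ) ∣ (⌊f x⌋ - α + σ) - (⌊f x⌋ - β + σ) := dvd_sub hx hy
      have h2 : (⌊f x⌋ - α + σ) - (⌊f x⌋ - β + σ) = (β : ℤ) - α := by ring
      rw [h2] at h1
      have h3 : α < q := Finset.mem_range.1 (by exact_mod_cast hα)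
      have h4 : β < q := Finset.mem_range.1 (by exact_mod_cast hβ)
      obtain ⟨c, hc⟩ := h1
      apply hne
      have h5 : -(q : ℤ) < (β : ℤ) - α := by omega
      have h6 : (β : ℤ) - α < q := by omega
      have hc0 : c = 0 := by
        rcases lt_trichotomy c 0 with h7 | h7 | h7
        · exfalso; nlinarith
        · exact h7
        · exfalso; nlinarith
      rw [hc0, mul_zero] at hc
      omega
  set g : ℕ → ℝ≥0∞ := fun α => ν (S (-1) α) + ν (S 0 α) + ν (S 1 α) with hg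
  have hgs : ∑ α ∈ Finset.range q, g α ≤ 3 * ν univ := by
    simp only [hg, Finset.sum_add_distrib]
    calc _ ≤ ν univ + ν univ + ν univ := by gcongr <;> exact hsum _
      _ = 3 * ν univ := by ring
  obtain ⟨α, hα, hmin⟩ := Finset.exists_min_image (Finset.range q) g ⟨0, Finset.mem_range.2 (by omega)⟩
  refine ⟨α, Finset.mem_range.1 hα, ?_⟩
  have h1 : (q : ℝ≥0∞) * g α ≤ 3 * ν univ := by
    refine le_trans ?_ hgs
    calc (q : ℝ≥0∞) * g α = ∑ _β ∈ Finset.range q, g α := by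
          rw [Finset.sum_const, Finset.card_range, nsmul_eq_mul]
      _ ≤ _ := Finset.sum_le_sum hmin
  have h2 : g α ≤ 3 * ν univ / q := by
    rw [ENNReal.le_div_iff_mul_le (Or.inl hq0) (Or.inl (ENNReal.natCast_ne_top q)), mul_comm]
    exact h1
  refine le_trans ?_ h2
  have h3 : {x | NearMul q (⌊f x⌋ - α)} ⊆ S (-1) α ∪ S 0 α ∪ S 1 α := by
    rintro x ⟨σ, hσ | hσ | hσ, hx⟩
    · exact Or.inl (Or.inl (by rw [hσ] at hx; exact hx))
    · exact Or.inl (Or.inr (by rw [hσ] at hx; exact hx))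
    · exact Or.inr (by rw [hσ] at hx; exact hx)
  refine (measure_mono h3).trans ((measure_union_le _ _).trans ?_)
  exact add_le_add (measure_union_le _ _) le_rfl

/-- the floor moves by at most `1` -/
theorem abs_floor_sub_le {x y : ℝ} (h : |x - y| ≤ 1) : |⌊x⌋ - ⌊y⌋| ≤ 1 := by
  rw [abs_le] at h ⊢
  have h1 := Int.floor_le x
  have h2 := Int.lt_floor_add_one x
  have h3 := Int.floor_le y
  have h4 := Int.lt_floor_add_one y
  have h5 : (⌊x⌋ : ℝ) - ⌊y⌋ < 2 := by linarith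
  have h6 : (-2 : ℝ) < (⌊x⌋ : ℝ) - ⌊y⌋ := by linarith
  have h7 : ⌊x⌋ - ⌊y⌋ < 2 := by exact_mod_cast h5
  have h8 : -2 < ⌊x⌋ - ⌊y⌋ := by exact_mod_cast h6
  omega

/-! ### the energy inequality -/

section split

variable {E : Type*} [MeasurableSpace E] {μ : Measure E}

theorem lint_part {d : E → ℝ≥0∞} {H : E → ℝ≥0∞} {s N C : ℝ≥0∞} (hC : C ≠ ⊤) {p : ℝ}
    (hp : 1 ≤ p) {Ω Z : Set E} (hZ : MeasurableSet Z) (hZΩ : Z ⊆ Ω)
    (h : ∀ᵐ x ∂μ, x ∈ Z → H x ≤ C * (d x + N)) :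
    ∫⁻ x in Z, (H x - s) ^ p ∂μ ≤ C ^ p * 2 ^ (p - 1) * (∫⁻ x in Ω, d x ^ p ∂μ + N ^ p * μ Z) := by
  have hp0 : 0 ≤ p := by linarith
  calc ∫⁻ x in Z, (H x - s) ^ p ∂μ
      ≤ ∫⁻ x in Z, C ^ p * 2 ^ (p - 1) * (d x ^ p + N ^ p) ∂μ := by
        apply lintegral_mono_ae
        rw [ae_restrict_iff' hZ]
        filter_upwards [h] with x hx hxZ
        calc (H x - s) ^ p ≤ (C * (d x + N)) ^ p :=
              ENNReal.rpow_le_rpow (tsub_le_self.trans (hx hxZ)) hp0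
          _ = C ^ p * (d x + N) ^ p := ENNReal.mul_rpow_of_nonneg _ _ hp0
          _ ≤ C ^ p * (2 ^ (p - 1) * (d x ^ p + N ^ p)) := by
              gcongr
              exact ENNReal.rpow_add_le_mul_rpow_add_rpow _ _ hp
          _ = _ := by rw [mul_assoc]
    _ = C ^ p * 2 ^ (p - 1) * ∫⁻ x in Z, (d x ^ p + N ^ p) ∂μ := by
        apply lintegral_const_mul'
        exact ENNReal.mul_ne_top (ENNReal.rpow_ne_top_of_nonneg hp0 hC)
          (ENNReal.rpow_ne_top_of_nonneg (by linarith) (by norm_num))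
    _ = C ^ p * 2 ^ (p - 1) * (∫⁻ x in Z, d x ^ p ∂μ + N ^ p * μ Z) := by
        rw [lintegral_add_right _ measurable_const, setLIntegral_const]
    _ ≤ _ := by
        gcongr

/-- good set, strips, bad set -/
theorem energy_split {Ω : Set E} (hΩ : MeasurableSet Ω) {d H : E → ℝ≥0∞} {s N c C₀ C₁ : ℝ≥0∞}
    (hc : c ≠ ⊤) (hC₀ : C₀ ≠ ⊤) (hC₁ : C₁ ≠ ⊤) {p : ℝ} (hp : 1 ≤ p) {X Y : Set E}
    (h1 : ∀ᵐ x ∂μ, x ∈ Ω → H x ≤ C₁ * (d x + N))
    (h2 : ∀ᵐ x ∂μ, x ∈ Ω → x ∉ X → H x ≤ C₀ * (d x + N))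
    (h3 : ∀ᵐ x ∂μ, x ∈ Ω → x ∉ X → x ∉ Y → H x ≤ s + c * d x) :
    ∫⁻ x in Ω, (H x - s) ^ p ∂μ ≤
      (c ^ p + C₀ ^ p * 2 ^ (p - 1) + C₁ ^ p * 2 ^ (p - 1)) * ∫⁻ x in Ω, d x ^ p ∂μ +
      (C₀ ^ p * 2 ^ (p - 1) * (N ^ p * μ (Ω ∩ Y)) + C₁ ^ p * 2 ^ (p - 1) * (N ^ p * μ (Ω ∩ X))) := by
  have hp0 : 0 ≤ p := by linarith
  set X' := toMeasurable μ (Ω ∩ X) with hX'
  set Y' := toMeasurable μ (Ω ∩ Y) with hY'
  have mX : MeasurableSet X' := measurableSet_toMeasurable _ _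
  have mY : MeasurableSet Y' := measurableSet_toMeasurable _ _
  have sX : Ω ∩ X ⊆ X' := subset_toMeasurable _ _
  have sY : Ω ∩ Y ⊆ Y' := subset_toMeasurable _ _
  set A := Ω \ (X' ∪ Y') with hA
  set B := (Ω ∩ Y') \ X' with hB
  set C := Ω ∩ X' with hC
  have mA : MeasurableSet A := hΩ.diff (mX.union mY)
  have mB : MeasurableSet B := (hΩ.inter mY).diff mX
  have mC : MeasurableSet C := hΩ.inter mX
  have hcov : Ω ⊆ A ∪ B ∪ C := by
    intro x hx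
    by_cases hxX : x ∈ X'
    · exact Or.inr ⟨hx, hxX⟩
    · by_cases hxY : x ∈ Y'
      · exact Or.inl (Or.inr ⟨⟨hx, hxY⟩, hxX⟩)
      · exact Or.inl (Or.inl ⟨hx, fun h => h.elim hxX hxY⟩)
  have eA : ∫⁻ x in A, (H x - s) ^ p ∂μ ≤ c ^ p * ∫⁻ x in Ω, d x ^ p ∂μ := by
    calc ∫⁻ x in A, (H x - s) ^ p ∂μ ≤ ∫⁻ x in A, c ^ p * d x ^ p ∂μ := by
          apply lintegral_mono_ae
          rw [ae_restrict_iff' mA]
          filter_upwards [h3] with x hx hxA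
          rw [← ENNReal.mul_rpow_of_nonneg _ _ hp0]
          refine ENNReal.rpow_le_rpow ?_ hp0
          have hxX : x ∉ X := fun h => hxA.2 (Or.inl (sX ⟨hxA.1, h⟩))
          have hxY : x ∉ Y := fun h => hxA.2 (Or.inr (sY ⟨hxA.1, h⟩))
          exact tsub_le_iff_left.2 (hx hxA.1 hxX hxY)
      _ = c ^ p * ∫⁻ x in A, d x ^ p ∂μ :=
          lintegral_const_mul' _ _ (ENNReal.rpow_ne_top_of_nonneg hp0 hc)
      _ ≤ _ := by gcongr; exact sdiff_subset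
  have eB : ∫⁻ x in B, (H x - s) ^ p ∂μ ≤
      C₀ ^ p * 2 ^ (p - 1) * (∫⁻ x in Ω, d x ^ p ∂μ + N ^ p * μ (Ω ∩ Y)) := by
    have h4 := lint_part (μ := μ) (d := d) (H := H) (s := s) (N := N) hC₀ hp mB
      (fun x hx => hx.1.1) (by
        filter_upwards [h2] with x hx hxB
        exact hx hxB.1.1 fun h => hxB.2 (sX ⟨hxB.1.1, h⟩))
    have h5 : μ B ≤ μ (Ω ∩ Y) := by
      calc μ B ≤ μ Y' := measure_mono fun x hx => hx.1.2
        _ = μ (Ω ∩ Y) := measure_toMeasurable _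
    exact h4.trans (mul_le_mul' le_rfl (add_le_add le_rfl (mul_le_mul' le_rfl h5)))
  have eC : ∫⁻ x in C, (H x - s) ^ p ∂μ ≤
      C₁ ^ p * 2 ^ (p - 1) * (∫⁻ x in Ω, d x ^ p ∂μ + N ^ p * μ (Ω ∩ X)) := by
    have h4 := lint_part (μ := μ) (d := d) (H := H) (s := s) (N := N) hC₁ hp mC
      (fun x hx => hx.1) (by
        filter_upwards [h1] with x hx hxC
        exact hx hxC.1)
    have h5 : μ C ≤ μ (Ω ∩ X) := by
      calc μ C ≤ μ X' := measure_mono fun x hx => hx.2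
        _ = μ (Ω ∩ X) := measure_toMeasurable _
    exact h4.trans (mul_le_mul' le_rfl (add_le_add le_rfl (mul_le_mul' le_rfl h5)))
  calc ∫⁻ x in Ω, (H x - s) ^ p ∂μ ≤ ∫⁻ x in A ∪ B ∪ C, (H x - s) ^ p ∂μ :=
        lintegral_mono_set hcov
    _ ≤ (∫⁻ x in A, (H x - s) ^ p ∂μ + ∫⁻ x in B, (H x - s) ^ p ∂μ) +
        ∫⁻ x in C, (H x - s) ^ p ∂μ :=
        (lintegral_union_le _ _ _).trans (add_le_add (lintegral_union_le _ _ _) le_rfl)
    _ ≤ _ := (add_le_add (add_le_add eA eB) eC).trans (le_of_eq (by ring))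

end split

section final

open Crest.Agent.R96.Acl_392 Crest.Agent.R96.Sob2_199 Crest.Agent.R96.Sob3_199
open Crest.Agent.R96.Sob4_199 Crest.Agent.R96.Sob5_199 Crest.Agent.R96.En10_199

variable {E : Type*} [NormedAddCommGroup E] [NormedSpace ℝ E] [FiniteDimensional ℝ E]
  [MeasurableSpace E] [BorelSpace E] {μ : Measure E} [μ.IsAddHaarMeasure]
variable {F : Set (Bx (Fin 3))} {La : Set (Fin 3 → ℝ)} {δ κ0 R : ℝ}
variable {q : ℕ} {a : Fin 3 → ℝ} {h : ℝ} {K₀ : Set (Fin 3 → ℝ)} {r r' : ℝ}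

/-- the strips: `φ x` is over a square next to a possibly cut one -/
def Strip (q : ℕ) (a : Fin 3 → ℝ) (h : ℝ) (φ : E → EuclideanSpace ℝ (Fin 3)) : Set E :=
  {x | NearMul q ⌊(φ x 0 - a 0) / h⌋ ∨ NearMul q ⌊(φ x 1 - a 1) / h⌋}

omit [NormedAddCommGroup E] [NormedSpace ℝ E] [FiniteDimensional ℝ E] [BorelSpace E]
  [μ.IsAddHaarMeasure] in
/-- **a translate of the log pattern has small strips** -/
theorem exists_translate (hq : 1 ≤ q) (hh : 0 < h) {Ω : Set E}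
    {φ : E → EuclideanSpace ℝ (Fin 3)} (hφ : ∀ i, AEMeasurable (fun x => φ x i) (μ.restrict Ω))
    (a : Fin 3 → ℝ) : ∃ α β : ℕ, α < q ∧ β < q ∧
      (μ.restrict Ω) (Strip q (fun i => a i + h * (![(α : ℝ), β, 0] : Fin 3 → ℝ) i) h φ) ≤
        6 * μ Ω / q := by
  have key : ∀ i, ∃ α : ℕ, α < q ∧
      (μ.restrict Ω) {x | NearMul q ⌊(φ x i - (a i + h * α)) / h⌋} ≤ 3 * μ Ω / q := by
    intro i
    obtain ⟨α, h1, h2⟩ := exists_shift_strip (μ.restrict Ω)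
      (f := fun x => (φ x i - a i) / h) (((hφ i).sub_const _).div_const _) hq
    refine ⟨α, h1, ?_⟩
    rw [Measure.restrict_apply_univ] at h2
    refine le_trans (le_of_eq ?_) h2
    congr 1
    ext x
    have e1 : (φ x i - (a i + h * α)) / h = (φ x i - a i) / h - (α : ℤ) := by
      push_cast
      field_simp
      ring
    simp only [mem_ofPred_eq]
    rw [e1, Int.floor_sub_intCast]
  obtain ⟨α, hα, h1⟩ := key 0
  obtain ⟨β, hβ, h2⟩ := key 1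
  refine ⟨α, β, hα, hβ, ?_⟩
  have h3 : Strip q (fun i => a i + h * (![(α : ℝ), β, 0] : Fin 3 → ℝ) i) h φ =
      {x | NearMul q ⌊(φ x 0 - (a 0 + h * α)) / h⌋} ∪
      {x | NearMul q ⌊(φ x 1 - (a 1 + h * β)) / h⌋} := by
    ext x
    simp [Strip]
  rw [h3]
  refine (measure_union_le _ _).trans ((add_le_add h1 h2).trans (le_of_eq ?_))
  rw [ENNReal.div_add_div_same]
  congr 1
  ring

/-- **DICT, energy form**: `H x = Σ w_c |D (s_c ∘ f)|`, target derivative `v` -/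
theorem dict_energy (BF : BoxFoam La F δ κ0) (hLa : IsOpen La) (hδ : 0 < δ) (hR : 0 < R)
    (hcmp : Cmp F R) (hq : 1 ≤ q) (hh : 0 < h) (H : LogsNear F q a h K₀ r) (hr : r' + 2 * h < r)
    {Ω : Set E} (hΩ : IsOpen Ω) {u : E}
    {f D φ : E → EuclideanSpace ℝ (Fin 3)} (hD : VWD Ω μ f D u) (hf : ContinuousOn f Ω)
    (hfL : MapsTo f Ω (La3 La)) {g : F → E → ℝ}
    (hg : ∀ c, WD Ω μ (fun x => s3 F c (f x)) (g c) u)
    {w : F → ℝ≥0∞} (hw : ∀ c : F, IsLog q a h c.1 → w c = ENNReal.ofReal (h / 2))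
    (hw' : ∀ c : F, w c ≤ ENNReal.ofReal c.1.sz) (v : EuclideanSpace ℝ (Fin 3)) {X : Set E}
    (hX1 : ∀ x ∈ Ω, x ∉ X → WithLp.ofLp (f x) ∈ Nr K₀ r')
    (hX2 : ∀ x ∈ Ω, x ∉ X → ∃ z : ℤ, f x 2 = a 2 + h * z)
    (hX3 : ∀ x ∈ Ω, x ∉ X → |f x 0 - φ x 0| ≤ h ∧ |f x 1 - φ x 1| ≤ h)
    {p : ℝ} (hp : 1 ≤ p) :
    ∫⁻ x in Ω, (∑' c, w c * ‖g c x‖ₑ - (‖v 0‖ₑ + ‖v 1‖ₑ)) ^ p ∂μ ≤
      (2 ^ p + 64 ^ p * 2 ^ (p - 1) + ENNReal.ofReal (3 * (Cs 3 δ R * R)) ^ p * 2 ^ (p - 1)) *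
        ∫⁻ x in Ω, ‖D x - v‖ₑ ^ p ∂μ +
      (64 ^ p * 2 ^ (p - 1) * (‖v‖ₑ ^ p * μ (Ω ∩ Strip q a h φ)) +
        ENNReal.ofReal (3 * (Cs 3 δ R * R)) ^ p * 2 ^ (p - 1) * (‖v‖ₑ ^ p * μ (Ω ∩ X))) := by
  have hDv : ∀ x, ‖D x‖ₑ ≤ ‖D x - v‖ₑ + ‖v‖ₑ := by
    intro x
    calc ‖D x‖ₑ = ‖(D x - v) + v‖ₑ := by rw [sub_add_cancel]
      _ ≤ _ := enorm_add_le _ _
  have happ : ∀ (y : EuclideanSpace ℝ (Fin 3)) (i : Fin 3), ‖y i‖ₑ ≤ ‖y‖ₑ := by
    intro y i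
    rw [← ofReal_norm, ← ofReal_norm]
    exact ENNReal.ofReal_le_ofReal (PiLp.norm_apply_le y i)
  have hptw := dict_ptw BF hLa hδ hR hcmp hq hh H hr hΩ hD hf hfL hg hw
  refine energy_split hΩ.measurableSet (c := 2) (by norm_num) (by norm_num) ENNReal.ofReal_ne_top
    hp ?_ ?_ ?_
  · filter_upwards [gen_tsum BF hLa hδ hR hcmp hΩ hD hf hfL hg hw'] with x hx hxΩ
    exact (hx hxΩ).trans (mul_le_mul' le_rfl (hDv x))
  · filter_upwards [hptw] with x hx hxΩ hxX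
    exact (hx hxΩ (hX1 x hxΩ hxX) (hX2 x hxΩ hxX)).2.1.trans (mul_le_mul' le_rfl (hDv x))
  · filter_upwards [hptw] with x hx hxΩ hxX hxY
    obtain ⟨h3, h4⟩ := hX3 x hxΩ hxX
    have hY : ¬ NearMul q ⌊(φ x 0 - a 0) / h⌋ ∧ ¬ NearMul q ⌊(φ x 1 - a 1) / h⌋ :=
      not_or.1 hxY
    have e1 : ∀ s t b : ℝ, |s - t| ≤ h → |⌊(s - b) / h⌋ - ⌊(t - b) / h⌋| ≤ 1 := by
      intro s t b hst
      apply abs_floor_sub_le
      have : (s - b) / h - (t - b) / h = (s - t) / h := by ring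
      rw [this, abs_div, abs_of_pos hh, div_le_one hh]
      exact hst
    rw [(hx hxΩ (hX1 x hxΩ hxX) (hX2 x hxΩ hxX)).2.2 (not_dvd_of hY.1 (e1 _ _ _ h3))
      (not_dvd_of hY.2 (e1 _ _ _ h4))]
    have h5 : ∀ i : Fin 3, ‖D x i‖ₑ ≤ ‖v i‖ₑ + ‖D x - v‖ₑ := by
      intro i
      calc ‖D x i‖ₑ = ‖v i + (D x - v) i‖ₑ := by
            congr 1
            simp
        _ ≤ ‖v i‖ₑ + ‖(D x - v) i‖ₑ := enorm_add_le _ _
        _ ≤ _ := add_le_add le_rfl (happ _ _)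
    calc ‖D x 0‖ₑ + ‖D x 1‖ₑ ≤ (‖v 0‖ₑ + ‖D x - v‖ₑ) + (‖v 1‖ₑ + ‖D x - v‖ₑ) :=
          add_le_add (h5 0) (h5 1)
      _ = ‖v 0‖ₑ + ‖v 1‖ₑ + 2 * ‖D x - v‖ₑ := by ring

end final

end Crest.Agent.R096.Dic4_582
end

-- ▼ part R096/Dic5_582

/-!
# Row 96, DICT, the `T` side: horizontal coordinates of `T u` on the good squares
-/

set_option autoImplicit false
set_option linter.unusedSectionVars false
set_option linter.style.haveILetI false
open Set Filter Topology MeasureTheory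
open scoped NNReal ENNReal

namespace Crest.Agent.R096.Dic5_582

open Crest.Agent.R096.Brk1_582 Crest.Agent.R096.Brk2_582 Crest.Agent.R096.Brk3_582
open Crest.Agent.R096.Brk4_582 Crest.Agent.R096.Brk5_582 Crest.Agent.R096.Brk7_582
open Crest.Agent.R096.Bsp_628 Crest.Agent.R096.Log1_582 Crest.Agent.R096.Log2_582
open Crest.Agent.R096.Log3_582 Crest.Agent.R096.Dic1_582 Crest.Agent.R096.Dic2_582
open Crest.Agent.R096.Dic3_582 Crest.Agent.R096.Dic4_582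

variable {q : ℕ} {a : Fin 3 → ℝ} {h : ℝ} {F : Set (Bx (Fin 3))} {La : Set (Fin 3 → ℝ)} {δ κ0 : ℝ}
  {e o i j : ℤ}

/-- the two logs of the square -/
noncomputable def cx (G : GSq F q a h e o i j) : F :=
  ⟨Lx q a h e i j, by simpa using G.hE 0 (Or.inr (Or.inl rfl))⟩
noncomputable def cy (G : GSq F q a h e o i j) : F :=
  ⟨Ly q a h o i j, by simpa using G.hO 0 (Or.inr (Or.inl rfl))⟩

/-- the square is the common face of its two logs -/
theorem inter_eq (G : GSq F q a h e o i j) (hq : 1 ≤ q) (hh : 0 < h) :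
    Pc F (cx G) ∩ Pc F (cy G) = sqr a h e o i j := by
  have h0 : ∀ τ' ∈ ({0} : Finset ℤ), τ' = -1 ∨ τ' = 0 ∨ τ' = 1 := by simp
  obtain ⟨f0, -⟩ := fc_crs (F := F) (a := a) hq hh G.he G.ho G.adj (J := {0}) (K := {0}) (by simp)
    (by simp) (fun t ht => (G.good t (h0 t ht)).1) (fun t ht => (G.good t (h0 t ht)).2)
    (fun t ht => G.hE t (h0 t ht)) (fun t ht => G.hO t (h0 t ht)) (l0 := i) (r0 := i + 1)
    (l1 := j) (r1 := j + 1) (by linarith) (by linarith) (one_Icc i) (one_Icc j)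
  rw [sqr, ← f0]
  ext x
  rw [mem_fc]
  constructor
  · rintro ⟨h1, h2⟩ c hc
    rcases mem_crs_zero.1 hc with h3 | h3
    · have : c = cx G := Subtype.ext h3
      rw [this]; exact h1
    · have : c = cy G := Subtype.ext h3
      rw [this]; exact h2
  · intro h1
    exact ⟨h1 _ (mem_crs_zero.2 (Or.inl rfl)), h1 _ (mem_crs_zero.2 (Or.inr rfl))⟩

section one

variable (G : GSq F q a h e o i j) (BF : BoxFoam La F δ κ0) (hLa : IsOpen La)
    (hq : 1 ≤ q) (hh : 0 < h)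

include BF hLa hq hh

/-- **(T1)** the coordinates of a point of the square are read off from its foam coordinates -/
theorem GSq.coord {y : Fin 3 → ℝ} (hy : y ∈ sqr a h e o i j) :
    y 0 = a 0 + h * (i + 1 / 2 + (sc (Pc F) (bc (F := F)) y G.xm -
        sc (Pc F) (bc (F := F)) y G.xp) / 2) ∧
      y 1 = a 1 + h * (j + 1 / 2 + (sc (Pc F) (bc (F := F)) y G.ym -
        sc (Pc F) (bc (F := F)) y G.yp) / 2) ∧
      y 2 = a 2 + h * ((max e o : ℤ) : ℝ) := by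
  have key : ∀ t : ℝ, (1 - 2 * max (-t) 0 - (1 - 2 * max t 0)) / 2 = t := by
    intro t
    rcases le_total 0 t with h1 | h1
    · rw [max_eq_left h1, max_eq_right (by linarith)]; ring
    · rw [max_eq_right h1, max_eq_left (by linarith)]; ring
  refine ⟨?_, ?_, (mem_sqr.1 hy).2.2⟩
  · rw [G.sc_xp BF hLa hq hh hy, G.sc_xm BF hLa hq hh hy, key]
    field_simp
    ring
  · rw [G.sc_yp BF hLa hq hh hy, G.sc_ym BF hLa hq hh hy, key]
    field_simp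
    ring

/-- **(T1)** in terms of `u ∈ K` -/
theorem GSq.coord_T {u : F → ℝ} (hu : u ∈ K (Pc F)) (h0 : u (cx G) = 0) (h1 : u (cy G) = 0) :
    T (bc (F := F)) u ∈ sqr a h e o i j ∧
      T (bc (F := F)) u 0 = a 0 + h * (i + 1 / 2 + (u G.xm - u G.xp) / 2) ∧
      T (bc (F := F)) u 1 = a 1 + h * (j + 1 / 2 + (u G.ym - u G.yp) / 2) ∧
      T (bc (F := F)) u 2 = a 2 + h * ((max e o : ℤ) : ℝ) := by
  have FF := foam BF hLa
  have hact := FF.act_T hu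
  have hy : T (bc (F := F)) u ∈ sqr a h e o i j := by
    rw [← inter_eq G hq hh]
    constructor
    · have : cx G ∈ act (Pc F) (T (bc (F := F)) u) := by rw [hact]; exact h0
      exact this
    · have : cy G ∈ act (Pc F) (T (bc (F := F)) u) := by rw [hact]; exact h1
      exact this
  have h2 := GSq.coord G BF hLa hq hh hy
  rw [FF.sc_T hu] at h2
  exact ⟨hy, h2⟩

end one

/-! ### (T2) the universal constant on the horizontal faces -/

theorem hor_diam {C O : F} (H : Hor F q a h C O) (hh : 0 < h) {x y : Fin 3 → ℝ}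
    (hx : x ∈ Pc F C ∩ Pc F O) (hy : y ∈ Pc F C ∩ Pc F O) : ‖x - y‖ ≤ h := by
  obtain ⟨k1, j1, m1, hk1, hC⟩ := H.even
  obtain ⟨k2, j2, m2, hk2, hO⟩ := H.odd
  refine (pi_norm_le_iff_of_nonneg hh.le).2 fun k => ?_
  rw [Pi.sub_apply, Real.norm_eq_abs, abs_le]
  have x1 : x ∈ C.1.set := hx.1
  have x2 : x ∈ O.1.set := hx.2
  have y1 : y ∈ C.1.set := hy.1
  have y2 : y ∈ O.1.set := hy.2
  by_cases hk : k = 0
  · subst hk
    have s1 := logA_side_odd (a := a) (h := h) (q := q) (j := j2) (m := m2) hk2 0 (by decide)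
    rw [hO] at x2 y2
    have s2 := Bx.mem_set.1 x2 0
    have s3 := Bx.mem_set.1 y2 0
    unfold Bx.side at s1
    constructor <;> linarith [s2.1, s2.2, s3.1, s3.2]
  · have s1 := logA_side_even (a := a) (h := h) (q := q) (j := j1) (m := m1) hk1 k hk
    rw [hC] at x1 y1
    have s2 := Bx.mem_set.1 x1 k
    have s3 := Bx.mem_set.1 y1 k
    unfold Bx.side at s1
    constructor <;> linarith [s2.1, s2.2, s3.1, s3.2]


/-! ### increments along paths -/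




end Crest.Agent.R096.Dic5_582
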