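/-
helper273, row 96, NO0-PRE [P3] (582 #10220), part 1: the shift of the base mesh for functions which
are only defined off countably many points (the holes); the mesh lines avoid countable sets.
-/
import Mathlib
import Crest.Agent.R96.En11_199

set_option autoImplicit false

open MeasureTheory Set Filter
open scoped Topology ENNReal

namespace Crest.Agent.R096.Ps_273

open Crest.Agent.R096.Msh_810 Crest.Agent.R096.Bas_731 Crest.Agent.R96.En3_199
  Crest.Agent.R96.En4_199 Crest.Agent.R96.En5_199 Crest.Agent.R96.En2_199 Crest.Agent.R96.En6_199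
  Crest.Agent.R96.En7_199 Crest.Agent.R96.En8_199 Crest.Agent.R96.En9_199
  Crest.Agent.R96.En11_199
  Crest.Agent.R96.Acl_392 Crest.Agent.R96.Sob2_199 Crest.Agent.R96.Sob3_199

noncomputable section

variable {n : ℕ}

/-- a.e. shift avoids a given value of a coordinate -/
theorem ae_coord (i : Fin n) (t : ℝ) : ∀ᵐ a : Fin n → ℝ, a i ≠ t := by
  rw [ae_iff]
  have h : {a : Fin n → ℝ | ¬ a i ≠ t} = {a | a i = t} := by ext; simp
  rw [h]
  exact Measure.pi_hyperplane (fun _ => (volume : Measure ℝ)) i t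

/-- **the hyperplanes of the meshes avoid a countable set of points** for a.e. shift -/
theorem ae_avoid_countable {Z : Set (Fin n → ℝ)} (hZ : Z.Countable) :
    ∀ᵐ a : Fin n → ℝ, ∀ x ∈ Z, ∀ (i : Fin n) (k : ℕ) (z : ℤ), x i ≠ a i + z / 2 ^ k := by
  rw [ae_ball_iff hZ]
  intro x _
  rw [ae_all_iff]; intro i
  rw [ae_all_iff]; intro k
  rw [ae_all_iff]; intro z
  filter_upwards [ae_coord i (x i - z / 2 ^ k)] with a ha h
  apply ha
  linarith


/-- the cell functions of the direction `i` above the constant `s i` -/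
def Xs {𝒞 : Type*} (w : 𝒞 → ℝ≥0∞) (g : 𝒞 → Fin n → (Fin n → ℝ) → ℝ) (s : Fin n → ℝ≥0∞) (i : Fin n)
    (x : Fin n → ℝ) : ℝ≥0∞ := Hw w g i x - s i

theorem measurable_Xs {𝒞 : Type*} [Countable 𝒞] {g : 𝒞 → Fin n → (Fin n → ℝ) → ℝ}
    (hg : ∀ c i, Measurable (g c i)) (w : 𝒞 → ℝ≥0∞) (s : Fin n → ℝ≥0∞) (i : Fin n) :
    Measurable (Xs w g s i) := (measurable_Hw hg w i).sub_const _

theorem measurable_GGw {𝒞 : Type*} [Countable 𝒞] {g : 𝒞 → Fin n → (Fin n → ℝ) → ℝ}
    (hg : ∀ c i, Measurable (g c i)) (w : 𝒞 → ℝ≥0∞) : Measurable (GGw w g) :=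
  Measurable.tsum fun c => (measurable_G1 (hg c)).const_mul _

/-- the punctures do not count -/
theorem setLIntegral_punct {Om Ω : Set (Fin n → ℝ)} (hn : 1 ≤ n) (hsub : Ω ⊆ Om)
    (hc : (Om \ Ω).Countable) (F : (Fin n → ℝ) → ℝ≥0∞) :
    ∫⁻ x in Om, F x = ∫⁻ x in Ω, F x := by
  have : NeZero n := ⟨by omega⟩
  have : Nonempty (Fin n) := ⟨0⟩
  have h0 : volume (Om \ Ω) = 0 := hc.measure_zero _
  apply setLIntegral_congr
  rw [ae_eq_set]
  refine ⟨h0, ?_⟩
  rw [sdiff_eq_empty.2 hsub]; simp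


end

end Crest.Agent.R096.Ps_273
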