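import Mathlib
import Crest.Agent.R096.Ps1_273
import Crest.Agent.R096.Ls4_222
import Crest.Agent.R096.Msh6_810
import Crest.Agent.R096.Ea1_713

-- ▼ part R096/Ps2_273
section

set_option autoImplicit false

open MeasureTheory Set Filter
open scoped Topology ENNReal

namespace Crest.Agent.R096.Ps_273

open Crest.Agent.R096.Msh_810 Crest.Agent.R096.Bas_731 Crest.Agent.R96.En3_199
  Crest.Agent.R96.En4_199 Crest.Agent.R96.En5_199 Crest.Agent.R96.En2_199 Crest.Agent.R96.En6_199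
  Crest.Agent.R96.En7_199 Crest.Agent.R96.En8_199 Crest.Agent.R96.En9_199
  Crest.Agent.R96.En11_199
  Crest.Agent.R96.Acl_392 Crest.Agent.R96.Sob2_199 Crest.Agent.R96.Sob3_199

noncomputable section

variable {n : ℕ}

/-- the sum of the energies of the edges of all directions -/
theorem tsum_dir_le {D : Dat n} (x : Cel D → ℝ≥0∞) :
    ∑' σ : Cel D, ({σ : Cel D | σ.1.J.card = 1}).indicator x σ ≤
      ∑ l : Fin n, ∑' σ : {σ : Cel D // σ.1.J = {l}}, x σ.1 := by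
  classical
  have h1 : ∀ l : Fin n, ∑' σ : {σ : Cel D // σ.1.J = {l}}, x σ.1 =
      ∑' σ : Cel D, ({σ : Cel D | σ.1.J = {l}}).indicator x σ := fun l =>
    tsum_subtype {σ : Cel D | σ.1.J = {l}} x
  simp only [h1]
  rw [← Summable.tsum_finsetSum (fun _ _ => ENNReal.summable)]
  refine ENNReal.tsum_le_tsum fun σ => ?_
  by_cases hσ : σ.1.J.card = 1
  · obtain ⟨l, hl⟩ := Finset.card_eq_one.1 hσ
    rw [indicator_of_mem (show σ ∈ {σ : Cel D | σ.1.J.card = 1} from hσ)]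
    calc x σ = ({σ : Cel D | σ.1.J = {l}}).indicator x σ :=
          (indicator_of_mem (show σ ∈ {σ : Cel D | σ.1.J = {l}} from hl) x).symm
      _ ≤ _ := Finset.single_le_sum (f := fun l => ({σ : Cel D | σ.1.J = {l}}).indicator x σ)
          (fun _ _ => zero_le) (Finset.mem_univ l)
  · rw [indicator_of_notMem (show σ ∉ {σ : Cel D | σ.1.J.card = 1} from hσ)]
    exact zero_le

/-- the energy of a function on the edges -/
def Ye (D : Dat n) (l : Fin n) (p : ℝ) (Y : Cel D → ℝ≥0∞) : ℝ≥0∞ :=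
  ∑' σ : {σ : Cel D // σ.1.J = {l}}, vol D σ.1 * ((2:ℝ≥0∞) ^ σ.1.1.k * Y σ.1) ^ p

/-- the total of the edges of a cube -/
def tE (D : Dat n) (tt : Cel D → ℝ≥0∞) (τ : Cel D) : ℝ≥0∞ :=
  ∑' σ : {σ : Cel D // σ ∈ edgesOf τ}, tt σ.1

/-- one cube, edges with values `Y` -/
theorem cube_le {D : Dat n} {p : ℝ} (hp : 1 ≤ p) (Y : Cel D → ℝ≥0∞) (τ : Cel D) :
    vol D τ * ((2:ℝ≥0∞) ^ τ.1.k * tE D Y τ) ^ p ≤
      ((M1 n : ℝ≥0∞) ^ (p - 1) * 2 ^ n) *
        ∑' σ : {σ : Cel D // σ ∈ edgesOf τ}, vol D σ.1 * ((2:ℝ≥0∞) ^ σ.1.1.k * Y σ.1) ^ p := by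
  have h1 : (2:ℝ≥0∞) ^ τ.1.k * tE D Y τ ≤
      ∑' σ : (edgesOf τ), (2:ℝ≥0∞) ^ (σ : Cel D).1.k * Y (σ : Cel D) := by
    rw [tE, ← ENNReal.tsum_mul_left]
    refine ENNReal.tsum_le_tsum fun σ => ?_
    gcongr
    · norm_num
    · exact (scale_le_of_le σ.2.1).1
  have h2 : ((2:ℝ≥0∞) ^ τ.1.k * tE D Y τ) ^ p ≤ (M1 n : ℝ≥0∞) ^ (p - 1) *
      ∑' σ : (edgesOf τ), ((2:ℝ≥0∞) ^ (σ : Cel D).1.k * Y (σ : Cel D)) ^ p :=
    (ENNReal.rpow_le_rpow h1 (by linarith)).trans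
      (tsum_rpow_le (finite_edgesOf τ) (encard_edgesOf τ)
        (fun σ : Cel D => (2:ℝ≥0∞) ^ σ.1.k * Y σ) hp)
  calc vol D τ * ((2:ℝ≥0∞) ^ τ.1.k * tE D Y τ) ^ p
      ≤ vol D τ * ((M1 n : ℝ≥0∞) ^ (p - 1) *
        ∑' σ : (edgesOf τ), ((2:ℝ≥0∞) ^ (σ : Cel D).1.k * Y (σ : Cel D)) ^ p) := by
          gcongr
    _ = (M1 n : ℝ≥0∞) ^ (p - 1) * ∑' σ : (edgesOf τ), vol D τ *
        ((2:ℝ≥0∞) ^ (σ : Cel D).1.k * Y (σ : Cel D)) ^ p := by
          rw [ENNReal.tsum_mul_left]; ring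
    _ ≤ (M1 n : ℝ≥0∞) ^ (p - 1) * ∑' σ : (edgesOf τ), 2 ^ n * (vol D (σ : Cel D) *
        ((2:ℝ≥0∞) ^ (σ : Cel D).1.k * Y (σ : Cel D)) ^ p) := by
          refine mul_le_mul' le_rfl (ENNReal.tsum_le_tsum fun σ => ?_)
          have h4 : vol D τ ≤ 2 ^ n * vol D (σ : Cel D) := by
            rw [vol, vol, ← mul_pow]
            gcongr
            have h5 := (scale_le_of_le σ.2.1).2
            rw [← div_eq_mul_inv, ENNReal.le_div_iff_mul_le
              (Or.inl (by positivity)) (Or.inl (ENNReal.pow_ne_top (by norm_num)))]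
            calc ((2:ℝ≥0∞) ^ τ.1.k)⁻¹ * 2 ^ (σ : Cel D).1.k
                ≤ ((2:ℝ≥0∞) ^ τ.1.k)⁻¹ * 2 ^ (τ.1.k + 1) := by
                  gcongr
                  norm_num
              _ = (((2:ℝ≥0∞) ^ τ.1.k)⁻¹ * 2 ^ τ.1.k) * 2 := by rw [pow_succ]; ring
              _ = 2 := by
                  rw [ENNReal.inv_mul_cancel (by positivity) (ENNReal.pow_ne_top (by norm_num)),
                    one_mul]
          rw [← mul_assoc]
          gcongr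
    _ = _ := by
          rw [ENNReal.tsum_mul_left]
          ring

/-- the constant of the sums over the cubes -/
def KC (n : ℕ) (p : ℝ) : ℝ≥0∞ := (M1 n : ℝ≥0∞) ^ (p - 1) * 2 ^ n * M2 n

theorem KC_ne_top {p : ℝ} (hp : 1 ≤ p) : KC n p ≠ ∞ := by
  unfold KC
  have h1 : (M1 n : ℝ≥0∞) ^ (p - 1) ≠ ∞ :=
    ENNReal.rpow_ne_top_of_nonneg (by linarith) (ENNReal.natCast_ne_top _)
  exact ENNReal.mul_ne_top (ENNReal.mul_ne_top h1 (by finiteness)) (ENNReal.natCast_ne_top _)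

/-- all cubes -/
theorem cubes_le {D : Dat n} {p : ℝ} (hp : 1 ≤ p) (Y : Cel D → ℝ≥0∞) :
    ∑' τ : {τ : Cel D // τ.1.J = Finset.univ}, vol D τ.1 *
      ((2:ℝ≥0∞) ^ τ.1.1.k * tE D Y τ.1) ^ p ≤ KC n p * ∑ l : Fin n, Ye D l p Y := by
  calc _ ≤ ∑' τ : {τ : Cel D // τ.1.J = Finset.univ}, ((M1 n : ℝ≥0∞) ^ (p - 1) * 2 ^ n) *
        ∑' σ : {σ : Cel D // σ ∈ edgesOf τ.1}, vol D σ.1 * ((2:ℝ≥0∞) ^ σ.1.1.k * Y σ.1) ^ p :=
        ENNReal.tsum_le_tsum fun τ => cube_le hp Y τ.1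
    _ = ((M1 n : ℝ≥0∞) ^ (p - 1) * 2 ^ n) * ∑' τ : {τ : Cel D // τ.1.J = Finset.univ},
        ∑' σ : {σ : Cel D // σ ∈ edgesOf τ.1}, vol D σ.1 * ((2:ℝ≥0∞) ^ σ.1.1.k * Y σ.1) ^ p :=
        ENNReal.tsum_mul_left
    _ ≤ ((M1 n : ℝ≥0∞) ^ (p - 1) * 2 ^ n) * (M2 n * ∑ l : Fin n, Ye D l p Y) := by
        refine mul_le_mul' le_rfl ?_
        refine (swap_le (fun σ => vol D σ * ((2:ℝ≥0∞) ^ σ.1.k * Y σ) ^ p)).trans ?_
        exact mul_le_mul' le_rfl (tsum_dir_le _)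
    _ = _ := by rw [KC]; ring

/-- **SUM OVER A SET OF CUBES** with edge bounds `tt σ ≤ s l |σ| + Y σ` (`σ` of direction `l`). -/
theorem cubes_sharp {D : Dat n} {p : ℝ} (hp : 1 ≤ p) {tt Y : Cel D → ℝ≥0∞} {s : ℝ≥0∞}
    (h : ∀ (σ : Cel D) (l : Fin n), σ.1.J = {l} → tt σ ≤ s * ((2:ℝ≥0∞) ^ σ.1.k)⁻¹ + Y σ)
    (𝒬 : Set {τ : Cel D // τ.1.J = Finset.univ}) :
    ∑' τ : 𝒬, vol D τ.1.1 * ((2:ℝ≥0∞) ^ τ.1.1.1.k * tE D tt τ.1.1) ^ p ≤
      2 ^ (p - 1) * ((M1 n * s) ^ p * ∑' τ : 𝒬, vol D τ.1.1 + KC n p * ∑ l : Fin n, Ye D l p Y) := by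
  have h1 : ∀ τ : {τ : Cel D // τ.1.J = Finset.univ}, (2:ℝ≥0∞) ^ τ.1.1.k * tE D tt τ.1 ≤
      M1 n * s + (2:ℝ≥0∞) ^ τ.1.1.k * tE D Y τ.1 := by
    intro τ
    have h2 : tE D tt τ.1 ≤ M1 n * (s * ((2:ℝ≥0∞) ^ τ.1.1.k)⁻¹) + tE D Y τ.1 := by
      calc tE D tt τ.1 ≤ ∑' σ : {σ : Cel D // σ ∈ edgesOf τ.1},
            (s * ((2:ℝ≥0∞) ^ τ.1.1.k)⁻¹ + Y σ.1) := by
            refine ENNReal.tsum_le_tsum fun σ => ?_
            obtain ⟨l, hl⟩ := Finset.card_eq_one.1 σ.2.2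
            refine (h σ.1 l hl).trans ?_
            gcongr
            · norm_num
            · exact (scale_le_of_le σ.2.1).1
        _ = (∑' _σ : {σ : Cel D // σ ∈ edgesOf τ.1}, s * ((2:ℝ≥0∞) ^ τ.1.1.k)⁻¹) + tE D Y τ.1 :=
            ENNReal.tsum_add
        _ ≤ _ := by
            gcongr
            rw [ENNReal.tsum_const]
            refine mul_le_mul' ?_ le_rfl
            have h3 := encard_edgesOf τ.1
            rw [← ENat.card_coe_set_eq] at h3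
            have h4 := ENat.toENNReal_mono h3
            simpa using h4
    calc (2:ℝ≥0∞) ^ τ.1.1.k * tE D tt τ.1 ≤
        (2:ℝ≥0∞) ^ τ.1.1.k * (M1 n * (s * ((2:ℝ≥0∞) ^ τ.1.1.k)⁻¹) + tE D Y τ.1) := by gcongr
      _ = ((2:ℝ≥0∞) ^ τ.1.1.k * ((2:ℝ≥0∞) ^ τ.1.1.k)⁻¹) * (M1 n * s) +
          (2:ℝ≥0∞) ^ τ.1.1.k * tE D Y τ.1 := by ring
      _ = _ := by
          rw [ENNReal.mul_inv_cancel (by positivity) (ENNReal.pow_ne_top (by norm_num)), one_mul]
  calc ∑' τ : 𝒬, vol D τ.1.1 * ((2:ℝ≥0∞) ^ τ.1.1.1.k * tE D tt τ.1.1) ^ p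
      ≤ ∑' τ : 𝒬, 2 ^ (p - 1) * (vol D τ.1.1 * (M1 n * s) ^ p +
          vol D τ.1.1 * ((2:ℝ≥0∞) ^ τ.1.1.1.k * tE D Y τ.1.1) ^ p) := by
        refine ENNReal.tsum_le_tsum fun τ => ?_
        calc vol D τ.1.1 * ((2:ℝ≥0∞) ^ τ.1.1.1.k * tE D tt τ.1.1) ^ p
            ≤ vol D τ.1.1 * (M1 n * s + (2:ℝ≥0∞) ^ τ.1.1.1.k * tE D Y τ.1.1) ^ p := by
              gcongr
              exact h1 τ.1
          _ ≤ vol D τ.1.1 * (2 ^ (p - 1) * ((M1 n * s) ^ p +
              ((2:ℝ≥0∞) ^ τ.1.1.1.k * tE D Y τ.1.1) ^ p)) := by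
              gcongr
              exact ENNReal.rpow_add_le_mul_rpow_add_rpow _ _ hp
          _ = _ := by ring
    _ = 2 ^ (p - 1) * ((M1 n * s) ^ p * ∑' τ : 𝒬, vol D τ.1.1 +
          ∑' τ : 𝒬, vol D τ.1.1 * ((2:ℝ≥0∞) ^ τ.1.1.1.k * tE D Y τ.1.1) ^ p) := by
        rw [ENNReal.tsum_mul_left, ENNReal.tsum_add, ENNReal.tsum_mul_right, mul_comm (∑' _, _)]
    _ ≤ _ := by
        gcongr
        refine le_trans ?_ (cubes_le hp Y)
        exact ENNReal.tsum_comp_le_tsum_of_injective (f := fun τ : 𝒬 => τ.1) Subtype.val_injective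
          (fun τ : {τ : Cel D // τ.1.J = Finset.univ} => vol D τ.1 *
            ((2:ℝ≥0∞) ^ τ.1.1.k * tE D Y τ.1) ^ p)

/-- **SUM OVER CUBES INSIDE `R`** with edge bounds `tt σ ≤ c ∫_σ G + e σ`. -/
theorem cubes_inside {D : Dat n} {p : ℝ} (hp : 1 ≤ p) {tt : Cel D → ℝ≥0∞} {e : Cel D → ℝ≥0∞}
    {G : (Fin n → ℝ) → ℝ≥0∞} {c : ℝ≥0∞}
    (h : ∀ (σ : Cel D) (l : Fin n), σ.1.J = {l} → tt σ ≤ c * ic G D.a σ.1 + e σ)
    (R : Set (Fin n → ℝ)) :
    ∑' τ : {τ : Cel D // τ.1.J = Finset.univ ∧ τ.c ⊆ R}, vol D τ.1 *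
      ((2:ℝ≥0∞) ^ τ.1.1.k * tE D tt τ.1) ^ p ≤
      2 ^ (p - 1) * (c ^ p * S D p (R.indicator G) + KC n p * ∑ l : Fin n, Ye D l p e) := by
  have h1 : ∀ τ : {τ : Cel D // τ.1.J = Finset.univ ∧ τ.c ⊆ R}, tE D tt τ.1 ≤
      c * eg D (R.indicator G) τ.1 + tE D e τ.1 := by
    intro τ
    calc tE D tt τ.1 ≤ ∑' σ : {σ : Cel D // σ ∈ edgesOf τ.1}, (c * ic G D.a σ.1.1 + e σ.1) := by
          refine ENNReal.tsum_le_tsum fun σ => ?_
          obtain ⟨l, hl⟩ := Finset.card_eq_one.1 σ.2.2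
          exact h σ.1 l hl
      _ = c * eg D G τ.1 + tE D e τ.1 := by
          rw [ENNReal.tsum_add, ENNReal.tsum_mul_left]; rfl
      _ = _ := by
          congr 2
          exact eg_congr_on fun x hx => (indicator_of_mem (τ.2.2 hx) G).symm
  calc _ ≤ ∑' τ : {τ : Cel D // τ.1.J = Finset.univ ∧ τ.c ⊆ R}, 2 ^ (p - 1) *
        (c ^ p * (vol D τ.1 * ((2:ℝ≥0∞) ^ τ.1.1.k * eg D (R.indicator G) τ.1) ^ p) +
          vol D τ.1 * ((2:ℝ≥0∞) ^ τ.1.1.k * tE D e τ.1) ^ p) := by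
        refine ENNReal.tsum_le_tsum fun τ => ?_
        calc vol D τ.1 * ((2:ℝ≥0∞) ^ τ.1.1.k * tE D tt τ.1) ^ p
            ≤ vol D τ.1 * (c * ((2:ℝ≥0∞) ^ τ.1.1.k * eg D (R.indicator G) τ.1) +
              (2:ℝ≥0∞) ^ τ.1.1.k * tE D e τ.1) ^ p := by
              gcongr
              calc (2:ℝ≥0∞) ^ τ.1.1.k * tE D tt τ.1 ≤ (2:ℝ≥0∞) ^ τ.1.1.k *
                  (c * eg D (R.indicator G) τ.1 + tE D e τ.1) := by gcongr; exact h1 τ
                _ = _ := by ring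
          _ ≤ vol D τ.1 * (2 ^ (p - 1) * ((c * ((2:ℝ≥0∞) ^ τ.1.1.k *
              eg D (R.indicator G) τ.1)) ^ p + ((2:ℝ≥0∞) ^ τ.1.1.k * tE D e τ.1) ^ p)) := by
              gcongr
              exact ENNReal.rpow_add_le_mul_rpow_add_rpow _ _ hp
          _ = _ := by
              rw [ENNReal.mul_rpow_of_nonneg c _ (by linarith)]
              ring
    _ = 2 ^ (p - 1) * (c ^ p * (∑' τ : {τ : Cel D // τ.1.J = Finset.univ ∧ τ.c ⊆ R},
          vol D τ.1 * ((2:ℝ≥0∞) ^ τ.1.1.k * eg D (R.indicator G) τ.1) ^ p) +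
          ∑' τ : {τ : Cel D // τ.1.J = Finset.univ ∧ τ.c ⊆ R},
          vol D τ.1 * ((2:ℝ≥0∞) ^ τ.1.1.k * tE D e τ.1) ^ p) := by
        rw [ENNReal.tsum_mul_left, ENNReal.tsum_add, ENNReal.tsum_mul_left]
    _ ≤ _ := by
        have hinj : Function.Injective (fun τ : {τ : Cel D // τ.1.J = Finset.univ ∧ τ.c ⊆ R} =>
            (⟨τ.1, τ.2.1⟩ : {τ : Cel D // τ.1.J = Finset.univ})) := by
          intro τ τ' h
          exact Subtype.ext (congrArg (fun x => x.1) h)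
        refine mul_le_mul' le_rfl (add_le_add (mul_le_mul' le_rfl ?_) ?_)
        · exact ENNReal.tsum_comp_le_tsum_of_injective hinj
            (fun τ : {τ : Cel D // τ.1.J = Finset.univ} => vol D τ.1 *
              ((2:ℝ≥0∞) ^ τ.1.1.k * eg D (R.indicator G) τ.1) ^ p)
        · refine le_trans ?_ (cubes_le hp e)
          exact ENNReal.tsum_comp_le_tsum_of_injective hinj
            (fun τ : {τ : Cel D // τ.1.J = Finset.univ} => vol D τ.1 *
              ((2:ℝ≥0∞) ^ τ.1.1.k * tE D e τ.1) ^ p)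

/-- the energy of a sum -/
theorem Ye_add_le {D : Dat n} {p : ℝ} (hp : 1 ≤ p) (l : Fin n) (Y Y' : Cel D → ℝ≥0∞) :
    Ye D l p (fun σ => Y σ + Y' σ) ≤ 2 ^ (p - 1) * (Ye D l p Y + Ye D l p Y') := by
  unfold Ye
  calc _ ≤ ∑' σ : {σ : Cel D // σ.1.J = {l}}, 2 ^ (p - 1) *
      (vol D σ.1 * ((2:ℝ≥0∞) ^ σ.1.1.k * Y σ.1) ^ p +
        vol D σ.1 * ((2:ℝ≥0∞) ^ σ.1.1.k * Y' σ.1) ^ p) := by
        refine ENNReal.tsum_le_tsum fun σ => ?_
        rw [mul_add]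
        calc _ ≤ vol D σ.1 * (2 ^ (p - 1) * (((2:ℝ≥0∞) ^ σ.1.1.k * Y σ.1) ^ p +
              ((2:ℝ≥0∞) ^ σ.1.1.k * Y' σ.1) ^ p)) := by
              gcongr
              exact ENNReal.rpow_add_le_mul_rpow_add_rpow _ _ hp
          _ = _ := by ring
    _ = _ := by rw [ENNReal.tsum_mul_left, ENNReal.tsum_add]

theorem Ye_mul {D : Dat n} {p : ℝ} (hp : 1 ≤ p) (l : Fin n) (c : ℝ≥0∞) (Y : Cel D → ℝ≥0∞) :
    Ye D l p (fun σ => c * Y σ) = c ^ p * Ye D l p Y := by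
  unfold Ye
  rw [← ENNReal.tsum_mul_left]
  refine tsum_congr fun σ => ?_
  rw [show (2:ℝ≥0∞) ^ σ.1.1.k * (c * Y σ.1) = c * ((2:ℝ≥0∞) ^ σ.1.1.k * Y σ.1) by ring,
    ENNReal.mul_rpow_of_nonneg _ _ (by linarith)]
  ring

theorem Ye_ic {D : Dat n} {p : ℝ} (l : Fin n) (X : (Fin n → ℝ) → ℝ≥0∞) :
    Ye D l p (fun σ => ic X D.a σ.1) = Ed D l p X := rfl

end

end Crest.Agent.R096.Ps_273
end

-- ▼ part R096/Ps3_273
section

set_option autoImplicit false

open MeasureTheory Set Filter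
open scoped Topology ENNReal

namespace Crest.Agent.R096.Ps_273

open Crest.Agent.R096.Msh_810 Crest.Agent.R096.Bas_731 Crest.Agent.R96.En3_199
  Crest.Agent.R96.En4_199 Crest.Agent.R96.En5_199 Crest.Agent.R96.En2_199 Crest.Agent.R96.En6_199
  Crest.Agent.R96.En7_199 Crest.Agent.R96.En8_199 Crest.Agent.R96.En9_199
  Crest.Agent.R96.En11_199 Crest.Agent.R96.Sg1_199
open Crest.Agent.R096.Msh_715 hiding P I
open Crest.Agent.R096.Ls_222

noncomputable section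

section agree

variable {E : Type*} [NormedAddCommGroup E] [NormedSpace ℝ E]
  {Om Om' : Set E} {ι ι' : Type*} {T : Tiling Om ι} {T' : Tiling Om' ι'}

/-- if the tiles of `T` at `x` are tiles of `T'`, the two tilings have the same tiles at `x` -/
theorem agree {x : E} (hx : x ∈ Om) (hx' : x ∈ Om') (h : ∀ i ∈ T.at_ x, ∃ j, T.H i = T'.H j) :
    ∀ j ∈ T'.at_ x, ∃ i ∈ T.at_ x, T.H i = T'.H j := by
  intro j hj
  obtain ⟨r, hr, hO, hat⟩ := T.exists_ball hx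
  obtain ⟨z, hz⟩ := T'.ne j
  -- a point of the interior of the tile `j` close to `x`
  obtain ⟨y, hy1, hy2⟩ : ∃ y ∈ Metric.ball x r, y ∈ Msh_715.I (T'.H j) := by
    have hc : Tendsto (fun s : ℝ => x + s • (z - x)) (𝓝[>] (0:ℝ)) (𝓝 x) := by
      have h1 : Continuous fun s : ℝ => x + s • (z - x) := by fun_prop
      have h2 := h1.tendsto 0
      simp only [zero_smul, add_zero] at h2
      exact h2.mono_left nhdsWithin_le_nhds
    have h1 : ∀ᶠ s : ℝ in 𝓝[>] (0:ℝ), x + s • (z - x) ∈ Metric.ball x r :=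
      hc (Metric.ball_mem_nhds x hr)
    have h2 : ∀ᶠ s : ℝ in 𝓝[>] (0:ℝ), s < 1 :=
      (gt_mem_nhds (zero_lt_one' ℝ)).filter_mono nhdsWithin_le_nhds
    obtain ⟨s, hs1, hs2, hs3⟩ := (h1.and (h2.and self_mem_nhdsWithin)).exists
    exact ⟨_, hs1, mem_I_of_move hj hz hs3 hs2.le⟩
  obtain ⟨i, hi⟩ := T.cov y (hO hy1)
  have hix : i ∈ T.at_ x := hat y hy1 hi
  obtain ⟨j', hj'⟩ := h i hix
  have h3 : j' ∈ T'.at_ y := by
    show y ∈ Msh_715.P (T'.H j')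
    rw [← hj']; exact hi
  rw [T'.at_eq_singleton hy2] at h3
  have h4 : j' = j := h3
  exact ⟨i, hix, h4 ▸ hj'⟩

theorem cc_agree {x : E} (hx : x ∈ Om) (hx' : x ∈ Om') (h : ∀ i ∈ T.at_ x, ∃ j, T.H i = T'.H j) :
    T.cc x = T'.cc x := by
  have h2 := agree hx hx' h
  ext y
  constructor
  · intro hy j hj g hg
    obtain ⟨i, hi, he⟩ := h2 j hj
    rw [← he] at hg
    exact hy i hi g hg
  · intro hy i hi g hg
    obtain ⟨j, he⟩ := h i hi
    have hj : j ∈ T'.at_ x := by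
      show x ∈ Msh_715.P (T'.H j)
      rw [← he]; exact hi
    rw [he] at hg
    exact hy j hj g hg


end agree

section line

variable {n : ℕ}

/-- the end points of a segment which is a closed edge of the mesh -/
theorem ends_of_edge {a : Fin n → ℝ} {σ : Idx n} {l : Fin n} (hσ : σ.J = {l}) {x v : Fin n → ℝ}
    (h : sgm x v = Dc a σ) :
    (x = vx a σ.k σ.z ∧ v = Pi.single l (1 / 2 ^ σ.k)) ∨
    (x = vx a σ.k σ.z + Pi.single l (1 / 2 ^ σ.k) ∧ v = Pi.single l (-(1 / 2 ^ σ.k))) := by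
  have hk : (0:ℝ) < 1 / 2 ^ σ.k := by positivity
  set r : ℝ := 1 / 2 ^ σ.k with hr
  set w := vx a σ.k σ.z with hw
  have hx : x ∈ Dc a σ := by
    rw [← h]; exact ⟨0, by simp, by simp⟩
  have hxv : x + v ∈ Dc a σ := by
    rw [← h]; exact ⟨1, by simp, by simp⟩
  obtain ⟨s0, ⟨h00, h01⟩, e0⟩ := (mem_edge_iff hσ x).1 hx
  obtain ⟨s1, ⟨h10, h11⟩, e1⟩ := (mem_edge_iff hσ (x + v)).1 hxv
  have hv : v = Pi.single l (s1 - s0) := by
    have : v = (x + v) - x := by abel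
    rw [this, e1, e0, Pi.single_sub]
    abel
  have hw1 : w ∈ sgm x v := by
    rw [h]; exact (mem_edge_iff hσ w).2 ⟨0, ⟨le_rfl, hk.le⟩, by simp [hw]⟩
  have hw2 : w + Pi.single l r ∈ sgm x v := by
    rw [h]; exact (mem_edge_iff hσ _).2 ⟨r, ⟨hk.le, le_rfl⟩, rfl⟩
  obtain ⟨t, ⟨ht0, ht1⟩, et⟩ := hw1
  obtain ⟨t', ⟨ht0', ht1'⟩, et'⟩ := hw2
  have f1 : s0 + t * (s1 - s0) = 0 := by
    have h1 := congrFun et l
    simp only [e0, hv, Pi.add_apply, Pi.smul_apply, Pi.single_eq_same, smul_eq_mul] at h1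
    linarith
  have f2 : s0 + t' * (s1 - s0) = r := by
    have h1 := congrFun et' l
    simp only [e0, hv, Pi.add_apply, Pi.smul_apply, Pi.single_eq_same, smul_eq_mul] at h1
    linarith
  have f3 : (1 - t) * s0 + t * s1 = 0 := by linarith
  have f4 : (1 - t) * s0 = 0 := by
    have := mul_nonneg (by linarith : 0 ≤ 1 - t) h00
    have := mul_nonneg ht0 h10
    linarith
  have f5 : t * s1 = 0 := by linarith
  have f6 : (1 - t') * s0 + t' * s1 = r := by linarith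
  rcases mul_eq_zero.1 f4 with h1 | h1
  · -- t = 1, s1 = 0
    have ht : t = 1 := by linarith
    have hs1 : s1 = 0 := by rw [ht, one_mul] at f5; exact f5
    right
    rw [hs1, mul_zero, add_zero] at f6
    have hs0 : s0 = r := by
      apply le_antisymm h01
      calc r = (1 - t') * s0 := f6.symm
        _ ≤ 1 * s0 := mul_le_mul_of_nonneg_right (by linarith) h00
        _ = s0 := one_mul _
    refine ⟨by rw [e0, hs0], by rw [hv, hs1, hs0, zero_sub]⟩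
  · left
    rw [h1, mul_zero, zero_add] at f6
    have hs1 : s1 = r := by
      apply le_antisymm h11
      calc r = t' * s1 := f6.symm
        _ ≤ 1 * s1 := mul_le_mul_of_nonneg_right ht1' h10
        _ = s1 := one_mul _
    refine ⟨by rw [e0, h1]; simp [hw], by rw [hv, hs1, h1, sub_zero]⟩

/-- **the line integral over a base edge** -/
theorem li_eq_ic {F : (Fin n → ℝ) → ℝ≥0∞} (hF : Measurable F) {a : Fin n → ℝ} {σ : Idx n}
    {l : Fin n} (hσ : σ.J = {l}) {x v : Fin n → ℝ} (h : sgm x v = Dc a σ) :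
    ENNReal.ofReal |v l| * li F x v = ic F a σ := by
  have hk : (0:ℝ) < 1 / 2 ^ σ.k := by positivity
  rw [ic_single hF a hσ]
  unfold li
  rcases ends_of_edge hσ h with ⟨h1, h2⟩ | ⟨h1, h2⟩
  · have himg : (fun τ : ℝ => τ * (1 / 2 ^ σ.k)) '' Icc (0:ℝ) 1 = Icc (0:ℝ) (1 / 2 ^ σ.k) := by
      rw [image_mul_right_Icc (by norm_num) hk.le]; simp
    rw [← himg, lintegral_image_eq_lintegral_abs_deriv_mul measurableSet_Icc
      (f' := fun _ => 1 / 2 ^ σ.k)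
      (fun t _ => by simpa using ((hasDerivAt_id t).mul_const (1 / 2 ^ σ.k)).hasDerivWithinAt)
      (fun s _ t _ hst => mul_right_cancel₀ hk.ne' hst)]
    rw [lintegral_const_mul' _ _ ENNReal.ofReal_ne_top]
    rw [h1, h2, Pi.single_eq_same]
    congr 1
    refine lintegral_congr fun t => ?_
    rw [← Pi.single_smul, smul_eq_mul]
  · have himg : (fun τ : ℝ => 1 / 2 ^ σ.k - τ * (1 / 2 ^ σ.k)) '' Icc (0:ℝ) 1 =
        Icc (0:ℝ) (1 / 2 ^ σ.k) := by
      ext y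
      constructor
      · rintro ⟨t, ⟨ht0, ht1⟩, rfl⟩
        constructor
        · have := mul_le_mul_of_nonneg_right ht1 hk.le
          simp only; linarith
        · have := mul_nonneg ht0 hk.le
          simp only; linarith
      · rintro ⟨hy0, hy1⟩
        refine ⟨1 - y / (1 / 2 ^ σ.k), ⟨?_, ?_⟩, ?_⟩
        · have : y / (1 / 2 ^ σ.k) ≤ 1 := (div_le_one hk).2 hy1
          linarith
        · have : 0 ≤ y / (1 / 2 ^ σ.k) := div_nonneg hy0 hk.le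
          linarith
        · show 1 / 2 ^ σ.k - (1 - y / (1 / 2 ^ σ.k)) * (1 / 2 ^ σ.k) = y
          rw [sub_mul, one_mul, div_mul_cancel₀ _ hk.ne']; ring
    rw [← himg, lintegral_image_eq_lintegral_abs_deriv_mul measurableSet_Icc
      (f' := fun _ => -(1 / 2 ^ σ.k))
      (fun t _ => by
        have h9 := (((hasDerivAt_id t).mul_const (1 / 2 ^ σ.k)).const_sub
          (1 / 2 ^ σ.k)).hasDerivWithinAt (s := Icc (0:ℝ) 1)
        rw [one_mul] at h9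
        exact h9)
      (fun s _ t _ hst => by
        have h3 : s * (1 / 2 ^ σ.k) = t * (1 / 2 ^ σ.k) := by
          have h4 : 1 / 2 ^ σ.k - s * (1 / 2 ^ σ.k) = 1 / 2 ^ σ.k - t * (1 / 2 ^ σ.k) := hst
          linarith
        exact mul_right_cancel₀ hk.ne' h3)]
    rw [lintegral_const_mul' _ _ ENNReal.ofReal_ne_top]
    rw [h1, h2, Pi.single_eq_same]
    congr 1
    refine lintegral_congr fun t => ?_
    rw [← Pi.single_smul, smul_eq_mul, add_assoc, ← Pi.single_add]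
    congr 3
    ring

end line

end

end Crest.Agent.R096.Ps_273
end

-- ▼ part R096/Ps4_273

set_option autoImplicit false

open MeasureTheory Set Filter
open scoped Topology ENNReal

namespace Crest.Agent.R096.Ps_273

open Crest.Agent.R096.Msh_810 Crest.Agent.R096.Bas_731 Crest.Agent.R96.En3_199
  Crest.Agent.R96.En4_199 Crest.Agent.R96.En5_199 Crest.Agent.R96.En2_199 Crest.Agent.R96.En6_199
  Crest.Agent.R96.En7_199 Crest.Agent.R96.En8_199 Crest.Agent.R96.En9_199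
  Crest.Agent.R96.En11_199 Crest.Agent.R96.Sg1_199
open Crest.Agent.R096.Msh_715 hiding P I
open Crest.Agent.R096.Ls_222

noncomputable section

variable {n : ℕ}

/-- the identity frame -/
def idn : (Fin n → ℝ) ≃L[ℝ] (Fin n → ℝ) := ContinuousLinearEquiv.refl ℝ _

@[simp] theorem idn_apply (x : Fin n → ℝ) : idn x = x := rfl

/-- **near the tiles of `Q` the tiling `T` is the base mesh `D`** -/
structure BaseOn {Om : Set (Fin n → ℝ)} {ι : Type*} (T : Tiling Om ι) (D : Dat n) (Q : Set ι)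
    (τ : ι → Top D) : Prop where
  Om_eq : Om = D.Om
  tile : ∀ i ∈ Q, T.H i = (tiling idn D).H (τ i)
  nb : ∀ i ∈ Q, ∀ j, (Msh_715.P (T.H i) ∩ Msh_715.P (T.H j)).Nonempty →
    ∃ τ', T.H j = (tiling idn D).H τ'

namespace BaseOn

variable {Om : Set (Fin n → ℝ)} {ι : Type*} {T : Tiling Om ι} {D : Dat n} {Q : Set ι}
  {τ : ι → Top D}

theorem mono (h : BaseOn T D Q τ) {Q' : Set ι} (hQ : Q' ⊆ Q) : BaseOn T D Q' τ :=
  ⟨h.Om_eq, fun i hi => h.tile i (hQ hi), fun i hi => h.nb i (hQ hi)⟩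

theorem P_eq (h : BaseOn T D Q τ) {i : ι} (hi : i ∈ Q) : Msh_715.P (T.H i) = (τ i).1.c := by
  rw [h.tile i hi]
  show Msh_715.P (Hc idn D.a (τ i).1.1.k (τ i).1.1.z) = _
  rw [P_Hc, ← Top.c_eq]
  rfl

theorem inj (h : BaseOn T D Q τ) : InjOn τ Q := by
  intro i hi j hj hij
  by_contra hne
  have h1 := T.dis i j hne
  rw [h.tile i hi, h.tile j hj, hij] at h1
  obtain ⟨x, hx⟩ := (tiling idn D).ne (τ j)
  exact disjoint_left.1 h1 hx hx

theorem cc_eq (h : BaseOn T D Q τ) {i : ι} (hi : i ∈ Q) {x : Fin n → ℝ}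
    (hx : x ∈ Msh_715.P (T.H i)) (hxO : x ∈ D.Om) :
    T.cc x = (Cel.of x hxO).c := by
  have h1 : T.cc x = (tiling idn D).cc x := by
    apply cc_agree (T.sub i hx) hxO
    intro j hj
    exact h.nb i hi j ⟨x, hx, hj⟩
  rw [h1]
  exact Crest.Agent.R096.Msh_810.cc_eq (φ := idn) (D := D) (x := x) hxO

end BaseOn

/-- a closed cell which is a segment is an edge of the mesh -/
theorem card_eq_one_of_sgm {a : Fin n → ℝ} {σ : Idx n} {x v : Fin n → ℝ} (hv : v ≠ 0)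
    (h : sgm x v = Dc a σ) : σ.J.card = 1 := by
  have hk : (0:ℝ) < 1 / 2 ^ σ.k := by positivity
  have h2k : (2:ℝ) ^ σ.k ≠ 0 := by positivity
  set w := vx a σ.k σ.z with hw
  have hw0 : w ∈ Dc a σ := vx_mem a σ
  have hps : ∀ i, ps a σ.k w i = σ.z i := by
    intro i
    rw [hw]
    simp only [ps, vx]
    field_simp
    ring
  have hwl : ∀ l ∈ σ.J, w + Pi.single l (1 / 2 ^ σ.k) ∈ Dc a σ := by
    intro l hl i
    have h1 : ps a σ.k (w + Pi.single l (1 / 2 ^ σ.k)) i = σ.z i + if i = l then 1 else 0 := by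
      rw [← hps i]
      simp only [ps, Pi.add_apply]
      by_cases hi : i = l
      · subst hi
        simp only [Pi.single_eq_same, if_true]
        field_simp
        ring
      · simp only [Pi.single_apply, if_neg hi]
        ring
    rw [h1]
    constructor
    · intro _
      split_ifs <;> constructor <;> linarith
    · intro hi
      have : i ≠ l := fun h => hi (h ▸ hl)
      simp [this]
  apply le_antisymm
  · by_contra hcon
    push Not at hcon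
    obtain ⟨l, hl, l', hl', hne⟩ := Finset.one_lt_card.1 hcon
    have h0 := hw0
    have h1 := hwl l hl
    have h2 := hwl l' hl'
    rw [← h] at h0 h1 h2
    obtain ⟨t0, -, e0⟩ := h0
    obtain ⟨t1, -, e1⟩ := h1
    obtain ⟨t2, -, e2⟩ := h2
    simp only at e0 e1 e2
    have f1 : (t1 - t0) • v = Pi.single l (1 / 2 ^ σ.k) := by
      rw [sub_smul]
      have : t1 • v - t0 • v = (x + t1 • v) - (x + t0 • v) := by abel
      rw [this, e1, e0]; abel
    have f2 : (t2 - t0) • v = Pi.single l' (1 / 2 ^ σ.k) := by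
      rw [sub_smul]
      have : t2 • v - t0 • v = (x + t2 • v) - (x + t0 • v) := by abel
      rw [this, e2, e0]; abel
    have g1 := congrFun f1 l
    have g2 := congrFun f1 l'
    have g3 := congrFun f2 l'
    simp only [Pi.smul_apply, smul_eq_mul, Pi.single_eq_same] at g1 g3
    rw [Pi.single_eq_of_ne hne.symm, Pi.smul_apply, smul_eq_mul] at g2
    have g4 : t1 - t0 ≠ 0 := by
      intro h0
      rw [h0, zero_mul] at g1
      linarith
    have g5 : v l' = 0 := (mul_eq_zero.1 g2).resolve_left g4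
    rw [g5, mul_zero] at g3
    linarith
  · rw [Nat.one_le_iff_ne_zero, Ne, Finset.card_eq_zero]
    intro hJ
    apply hv
    have h0 : x ∈ Dc a σ := by rw [← h]; exact ⟨0, by simp, by simp⟩
    have h1 : x + v ∈ Dc a σ := by rw [← h]; exact ⟨1, by simp, by simp⟩
    funext i
    have e0 := (h0 i).2 (by rw [hJ]; simp)
    have e1 := (h1 i).2 (by rw [hJ]; simp)
    simp only [ps, Pi.add_apply] at e0 e1
    have e2 : (2:ℝ) ^ σ.k * v i = 0 := by linarith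
    simpa using (mul_eq_zero.1 e2).resolve_left h2k

section tiles

variable {Om : Set (Fin n → ℝ)} {ι : Type*} {T : Tiling Om ι} {D : Dat n} {Q : Set ι}
  {τ : ι → Top D}

/-- **the edges of a base tile are mesh edges** -/
theorem BaseOn.edge (h : BaseOn T D Q τ) {i : ι} (hi : i ∈ Q) {e : Edg T} (he : e ∈ eIn T i) :
    ∃ σ : Cel D, σ ∈ edgesOf (τ i).1 ∧ e.1 = σ.c := by
  have h1 := mem_eIn.1 he
  have hs : sgm (ea e) (ev e) = e.1 := sgm_edg e
  have hv := ev_ne e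
  obtain ⟨x, hx, hd, he'⟩ := e.2
  have hx1 : x ∈ e.1 := by rw [he']; exact T.self_mem_cc x
  have hxO : x ∈ D.Om := h.Om_eq ▸ hx
  have h2 := h.cc_eq hi (h1 hx1) hxO
  have h3 : e.1 = (Cel.of x hxO).c := he'.trans h2
  refine ⟨Cel.of x hxO, ⟨?_, ?_⟩, h3⟩
  · show (Cel.of x hxO).c ⊆ (τ i).1.c
    rw [← h3, ← h.P_eq hi]
    exact h1
  · exact card_eq_one_of_sgm hv (hs.trans h3)

theorem BaseOn.vol_eq (h : BaseOn T D Q τ) {i : ι} (hi : i ∈ Q) :
    volume (Msh_715.P (T.H i)) = vol D (τ i).1 := by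
  rw [h.P_eq hi]
  exact volume_cube D.a (τ i).2

/-- **sum over the edges of a tile** -/
theorem BaseOn.sum_le (h : BaseOn T D Q τ) {i : ι} (hi : i ∈ Q) {F : Edg T → ℝ≥0∞}
    {tt : Cel D → ℝ≥0∞} (hF : ∀ e : Edg T, ∀ σ : Cel D, σ ∈ edgesOf (τ i).1 → e.1 = σ.c →
      F e ≤ tt σ) :
    ∑ e ∈ eIn T i, F e ≤ tE D tt (τ i).1 := by
  classical
  have : Nonempty (Cel D) := ⟨(τ i).1⟩
  choose! s hs1 hs2 using fun (e : Edg T) (he : e ∈ eIn T i) => h.edge hi he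
  have hinj : InjOn s (eIn T i : Set (Edg T)) := by
    intro e he e' he' hee
    apply Subtype.ext
    rw [hs2 e he, hs2 e' he', hee]
  calc ∑ e ∈ eIn T i, F e ≤ ∑ e ∈ eIn T i, tt (s e) :=
        Finset.sum_le_sum fun e he => hF e (s e) (hs1 e he) (hs2 e he)
    _ = ∑ σ ∈ (eIn T i).image s, tt σ := (Finset.sum_image hinj).symm
    _ ≤ tE D tt (τ i).1 := by
        unfold tE
        have h1 : ∑' σ : {σ : Cel D // σ ∈ edgesOf (τ i).1}, tt σ.1 =
            ∑' σ : Cel D, (edgesOf (τ i).1).indicator tt σ := tsum_subtype (edgesOf (τ i).1) tt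
        rw [h1]
        refine le_trans (le_of_eq ?_) (ENNReal.sum_le_tsum ((eIn T i).image s))
        refine Finset.sum_congr rfl fun σ hσ => ?_
        obtain ⟨e, he, rfl⟩ := Finset.mem_image.1 hσ
        rw [indicator_of_mem (hs1 e he)]

/-- **change of the index set**: sums over tiles of `Q` are sums over cubes -/
theorem BaseOn.tsum_le (h : BaseOn T D Q τ) {A : {τ : Cel D // τ.1.J = Finset.univ} → ℝ≥0∞}
    {B : ι → ℝ≥0∞} (hB : ∀ i ∈ Q, B i ≤ A (τ i)) :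
    ∑' i : Q, B i ≤ ∑' t : (τ '' Q : Set (Top D)), A t := by
  have hinj : Function.Injective (fun i : Q => (⟨τ i, mem_image_of_mem τ i.2⟩ :
      (τ '' Q : Set (Top D)))) := by
    intro i j hij
    exact Subtype.ext (h.inj i.2 j.2 (congrArg (fun t => t.1) hij))
  refine le_trans (ENNReal.tsum_le_tsum fun i : Q => hB i.1 i.2) ?_
  exact ENNReal.tsum_comp_le_tsum_of_injective hinj
    (fun t : (τ '' Q : Set (Top D)) => A t.1)

/-- the volume of the cubes -/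
theorem BaseOn.tsum_vol (h : BaseOn T D Q τ) :
    ∑' t : (τ '' Q : Set (Top D)), vol D t.1.1 = volume (⋃ i ∈ Q, Msh_715.P (T.H i)) := by
  have hcount : Countable ι := Crest.Agent.R096.Ea_713.countable_ix T
  have h1 : ∑' t : (τ '' Q : Set (Top D)), vol D t.1.1 = ∑' i : Q, vol D (τ i).1 :=
    ((Equiv.Set.imageOfInjOn τ Q h.inj).tsum_eq
      (fun t : (τ '' Q : Set (Top D)) => vol D t.1.1)).symm
  rw [h1, biUnion_eq_iUnion, measure_iUnion₀]
  · exact tsum_congr fun i => (h.vol_eq i.2).symm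
  · intro i j hij
    exact Crest.Agent.R096.Ea_713.aedisj volume T (fun hh => hij (Subtype.ext hh))
  · intro i
    exact (Msh_715.isClosed_P _).measurableSet.nullMeasurableSet

end tiles

end

end Crest.Agent.R096.Ps_273
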