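import Crest.Agent.R096.Ls5_222
import Crest.Agent.R96.Sg5_199
import Crest.Agent.R96.En10_199

/-!
Row 96 (S0127), helper764, EA-ASM leaf [DER]: **weak derivatives of the level functions**
`us Φ f c x = Φ.lev c (f x) = s_c (Psi (f x))` off the holes, and the pointwise bound
`Σ'_c 2 sz(c) |∂_l (us Φ f c)| ≤ CD(δ, R) |∂_l (Psi ∘ f)|`.
-/

set_option autoImplicit false
set_option linter.style.longLine false
set_option linter.unusedSectionVars false

open MeasureTheory Set Filter Topology Metric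
open scoped ENNReal NNReal

namespace Crest.Agent.R096.Der_764

open Crest.Agent.R096.Bsp_628 Crest.Agent.R096.Brk1_582 Crest.Agent.R096.Brk3_582
open Crest.Agent.R096.Brk4_582 Crest.Agent.R096.Brk5_582
open Crest.Agent.R096.SkC1_961 Crest.Agent.R096.Ls_222
open Crest.Agent.R96.Acl_392 Crest.Agent.R96.Sob2_199 Crest.Agent.R96.Sob3_199
open Crest.Agent.R96.Sob4_199 Crest.Agent.R96.Sob5_199
open Crest.Agent.R96.En9_199 Crest.Agent.R96.En10_199 Crest.Agent.R96.Sg5_199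

noncomputable section

/-! ### the pointwise Lipschitz constant of one coordinate -/

section lip

variable {κ : Type*} [Fintype κ] [Nonempty κ] {La : Set (κ → ℝ)} {F : Set (Bx κ)} {δ κ0 : ℝ}



end lip

/-! ### the domain off the holes -/

section foam

variable {δ κ0 R c0 : ℝ} {La Om : Set E3} (Φ : FoamD δ κ0 R c0 La) (f : E3 → E3)

/-- the hole is in the interior of the brick -/
theorem hole_sub {c : Φ.F} {y : E3} (hy : y ∈ (Φ.B c).S) : ∀ i, c.1.lo i < y i ∧ y i < c.1.hi i := by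
  intro i
  rcases Φ.push c with ⟨P, κ, ρ, hS, -⟩ | ⟨P, κ, ρ, C, hS, hI, -⟩
  · have h1 := hS.nest.lo i
    have h2 := hS.nest.hi i
    have h3 := hy i
    exact ⟨lt_of_lt_of_le h1 h3.1, lt_of_le_of_lt h3.2 h2⟩
  · have h1 := hS.nest.lo i
    have h2 := hS.nest.hi i
    have h4 := hI.nest.lo i
    have h5 := hI.nest.hi i
    have h3 := hy i
    exact ⟨(h1.trans h4).trans_le h3.1, (h3.2.trans_lt h5).trans h2⟩

theorem hole_mem {c : Φ.F} {y : E3} (hy : y ∈ (Φ.B c).S) : y ∈ c.1.set :=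
  Bx.mem_set.2 fun i => ⟨(hole_sub Φ hy i).1.le, (hole_sub Φ hy i).2.le⟩

/-- the target off the holes -/
def LaH : Set E3 := {y | y ∈ La ∧ ∀ c, y ∉ (Φ.B c).S}

/-- the domain off the preimages of the holes -/
def OmH (Om : Set E3) : Set E3 := {x | x ∈ Om ∧ ∀ c, f x ∉ (Φ.B c).S}

theorem mem_LaH_iff (hLa : IsOpen La) {y : E3} :
    y ∈ LaH Φ ↔ y ∈ La ∧ 0 < Vb_965.muD Φ y := by
  constructor
  · rintro ⟨h1, h2⟩
    exact ⟨h1, mu_pos hLa h1 h2⟩
  · rintro ⟨h1, h2⟩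
    refine ⟨h1, fun c hc => ?_⟩
    exact (Vb_965.muD_pos Φ hLa (hole_mem Φ hc)).1 h2 hc

theorem isOpen_LaH (hLa : IsOpen La) : IsOpen (LaH Φ) := by
  have h1 : LaH Φ = La ∩ Vb_965.muD Φ ⁻¹' Ioi 0 := by
    ext y
    rw [mem_LaH_iff Φ hLa]
    rfl
  rw [h1]
  exact (Vb_965.pushD Φ hLa).mu_cont.isOpen_inter_preimage hLa isOpen_Ioi

variable {Φ f}

theorem isOpen_OmH (hOm : IsOpen Om) (hLa : IsOpen La) (hf : Hom3 f Om La) :
    IsOpen (OmH Φ f Om) := by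
  obtain ⟨fi, h1, -, -, -, h5, -⟩ := hf
  have h2 : OmH Φ f Om = Om ∩ f ⁻¹' (LaH Φ) := by
    ext x
    exact ⟨fun h => ⟨h.1, h1 h.1, h.2⟩, fun h => ⟨h.1, h.2.2⟩⟩
  rw [h2]
  exact h5.isOpen_inter_preimage hOm (isOpen_LaH Φ hLa)

theorem mapsTo_OmH (hf : Hom3 f Om La) : MapsTo f (OmH Φ f Om) (LaH Φ) := by
  obtain ⟨fi, h1, -⟩ := hf
  exact fun x hx => ⟨h1 hx.1, hx.2⟩

theorem OmH_sub : OmH Φ f Om ⊆ Om := fun _ h => h.1

theorem continuousOn_Psi (hLa : IsOpen La) : ContinuousOn Φ.Psi (LaH Φ) :=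
  (Vb_965.pushD Φ hLa).cont.mono fun _ hy => ((mem_LaH_iff Φ hLa).1 hy)


theorem continuousOn_Psif (hLa : IsOpen La) (hf : Hom3 f Om La) :
    ContinuousOn (fun x => Φ.Psi (f x)) (OmH Φ f Om) := by
  have h0 := mapsTo_OmH (Φ := Φ) hf
  obtain ⟨fi, h1, -, -, -, h5, -⟩ := hf
  exact (continuousOn_Psi hLa).comp (h5.mono OmH_sub) h0

end foam

/-! ### the derivatives -/

section der

variable {δ κ0 R c0 : ℝ} {La Om : Set E3} {Φ : FoamD δ κ0 R c0 La} {f : E3 → E3}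



theorem norm_P3_symm_le (z : Crest.AnalysisR.VecCalc3.R3) : ‖P3.symm z‖ ≤ ‖z‖ := by
  refine (pi_norm_le_iff_of_nonneg (norm_nonneg _)).2 fun i => ?_
  exact PiLp.norm_apply_le (p := 2) z i






end der

end

end Crest.Agent.R096.Der_764
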