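import Mathlib
import Crest.Agent.R96.Sg1_199

-- ▼ part R096/Ls1_222
section

set_option autoImplicit false

open MeasureTheory Set Filter
open scoped Topology ENNReal

namespace Crest.Agent.R096.Ls_222

open Crest.Agent.R096.Bas_731 Crest.Agent.R96.En2_199 Crest.Agent.R96.Sg1_199

noncomputable section

/-- recursion along an enumeration -/
theorem exists_rec {𝒞 α : Type*} (enc : 𝒞 → ℕ)
    (G : ∀ c : 𝒞, (∀ c', enc c' < enc c → α) → α → Prop)
    (h : ∀ c prev, ∃ a, G c prev a) : ∃ o : 𝒞 → α, ∀ c, G c (fun c' _ => o c') (o c) := by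
  classical
  choose F hF using h
  let wf : WellFounded (fun a b : 𝒞 => enc a < enc b) := (measure enc).wf
  refine ⟨wf.fix (fun c ih => F c ih), fun c => ?_⟩
  have h1 := wf.fix_eq (fun c ih => F c ih) c
  rw [h1]
  exact hF c _

/-- good offsets; the threshold does not depend on the null set -/
theorem good_offset {ι : Type*} [Fintype ι] {N : ι → ℝ → ℝ≥0∞} {I : ι → ℝ}
    (hN : ∀ i, AEMeasurable (N i) (volume.restrict (Icc (0:ℝ) 1)))
    (hI0 : ∀ i, 0 ≤ I i) (hI : ∀ i, ∫⁻ y in Icc (0:ℝ) 1, N i y ≤ ENNReal.ofReal (I i))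
    {ε : ℝ} (hε : 0 < ε) :
    ∃ m0 : ℕ, ∀ m ≥ m0, 0 < m → ∀ Z : Set ℝ, volume Z = 0 →
      ∃ c ∈ Ioo (0:ℝ) 1, (∀ k < m, (c + k) / m ∉ Z) ∧
        ∀ i, ∑ k ∈ Finset.range m, N i ((c + k) / m) ≤ ENNReal.ofReal (m * (I i + ε)) := by
  obtain ⟨m0, hm0⟩ := exists_levels hN hI0 hI (Z := ∅) (by simp) (ε := min ε (1/2)) (by positivity)
  refine ⟨m0, fun m hm hmp Z hZ => ?_⟩
  have h1 := hm0 m hm hmp
  by_contra hcon
  have hav : volume {c : ℝ | ¬ ∀ k < m, (c + k) / m ∉ Z} = 0 := ae_avoid hZ (m := m)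
  have h2 : Icc (0:ℝ) 1 ⊆ (Icc (0:ℝ) 1 \ {c | c ∈ Ioo (0:ℝ) 1 ∧ (∀ k < m, (c + k) / m ∉ (∅ : Set ℝ)) ∧
        ∀ i, ∑ k ∈ Finset.range m, N i ((c + k) / m) ≤
          ENNReal.ofReal (m * (I i + min ε (1/2)))}) ∪ {c : ℝ | ¬ ∀ k < m, (c + k) / m ∉ Z} := by
    intro c hc
    by_cases h3 : ∀ k < m, (c + k) / m ∉ Z
    · left
      refine ⟨hc, ?_⟩
      rintro ⟨h4, -, h5⟩
      refine hcon ⟨c, h4, h3, fun i => (h5 i).trans ?_⟩
      apply ENNReal.ofReal_le_ofReal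
      gcongr
      exact min_le_left _ _
    · exact Or.inr h3
  have h3 := (measure_mono h2).trans (measure_union_le (μ := volume) _ _)
  rw [hav, add_zero, Real.volume_Icc] at h3
  have h4 : ENNReal.ofReal (min ε (1/2)) ≤ ENNReal.ofReal (1/2) :=
    ENNReal.ofReal_le_ofReal (min_le_right _ _)
  have h5 := (h3.trans h1).trans h4
  rw [ENNReal.ofReal_le_ofReal_iff (by norm_num)] at h5
  norm_num at h5

variable {E : Type*} [NormedAddCommGroup E] [NormedSpace ℝ E]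

/-- 199's `segs_one` with the null set chosen after the number of levels -/
theorem segs_one' {κ κ' : Type*} [Fintype κ] [Fintype κ'] (x v : κ → E) (hv : ∀ j, v j ≠ 0)
    {u : E → ℝ} {g : κ → E → ℝ≥0∞} (hu : ∀ j, ContinuousOn u (sgm (x j) (v j)))
    (hug : ∀ j, UGs u (g j) (x j) (v j)) (hfin : ∀ j, li (g j) (x j) (v j) ≠ ∞)
    {X : κ' → ℝ → ℝ≥0∞} (hX : ∀ j, AEMeasurable (X j) (volume.restrict (Icc (0:ℝ) 1)))
    {J : κ' → ℝ} (hJ0 : ∀ j, 0 ≤ J j) (hJ : ∀ j, ∫⁻ y in Icc (0:ℝ) 1, X j y ≤ ENNReal.ofReal (J j))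
    {ε : ℝ} (hε : 0 < ε) :
    ∃ m0 : ℕ, ∀ m ≥ m0, 0 < m → ∀ Z : Set ℝ, volume Z = 0 →
      ∃ c ∈ Ioo (0:ℝ) 1, (∀ k < m, (c + k) / m ∉ Z) ∧
      (∀ j, (m:ℝ≥0∞)⁻¹ * ∑ k ∈ Finset.range m, cr u (x j) (v j) ((c + k) / m) ≤
        li (g j) (x j) (v j) + ENNReal.ofReal ε) ∧
      ∀ j, (m:ℝ≥0∞)⁻¹ * ∑ k ∈ Finset.range m, X j ((c + k) / m) ≤
        ENNReal.ofReal (J j) + ENNReal.ofReal ε := by
  have hf := fun j => cr_facts (hv j) (hu j) (hug j)
  have hN : ∀ j : κ ⊕ κ', AEMeasurable (Sum.elim (fun j => cr u (x j) (v j)) X j)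
      (volume.restrict (Icc (0:ℝ) 1)) := by
    rintro (j | j)
    · exact (hf j).1
    · exact hX j
  have hI0 : ∀ j : κ ⊕ κ', 0 ≤ Sum.elim (fun j => (li (g j) (x j) (v j)).toReal) J j := by
    rintro (j | j)
    · exact ENNReal.toReal_nonneg
    · exact hJ0 j
  have hI : ∀ j : κ ⊕ κ', ∫⁻ y in Icc (0:ℝ) 1, Sum.elim (fun j => cr u (x j) (v j)) X j y ≤
      ENNReal.ofReal (Sum.elim (fun j => (li (g j) (x j) (v j)).toReal) J j) := by
    rintro (j | j)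
    · simp only [Sum.elim_inl]
      rw [ENNReal.ofReal_toReal (hfin j)]
      exact (hf j).2
    · exact hJ j
  obtain ⟨m0, hm0⟩ := good_offset hN hI0 hI hε
  refine ⟨m0, fun m hm hmp Z hZ => ?_⟩
  obtain ⟨c, hc, h1, h2⟩ := hm0 m hm hmp Z hZ
  have hm1 : (m:ℝ≥0∞) ≠ 0 := by positivity
  have hm2 : (m:ℝ≥0∞) ≠ ∞ := ENNReal.natCast_ne_top m
  have key : ∀ (x : ℝ≥0∞) (r : ℝ), 0 ≤ r → x ≤ ENNReal.ofReal (m * (r + ε)) →
      (m:ℝ≥0∞)⁻¹ * x ≤ ENNReal.ofReal r + ENNReal.ofReal ε := by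
    intro x r hr hx
    calc (m:ℝ≥0∞)⁻¹ * x ≤ (m:ℝ≥0∞)⁻¹ * ENNReal.ofReal (m * (r + ε)) := by gcongr
      _ = (m:ℝ≥0∞)⁻¹ * (m * (ENNReal.ofReal r + ENNReal.ofReal ε)) := by
          rw [ENNReal.ofReal_mul (by positivity), ENNReal.ofReal_natCast,
            ENNReal.ofReal_add hr hε.le]
      _ = ENNReal.ofReal r + ENNReal.ofReal ε := by
          rw [← mul_assoc, ENNReal.inv_mul_cancel hm1 hm2, one_mul]
  refine ⟨c, hc, h1, fun j => ?_, fun j => ?_⟩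
  · have := key _ _ ENNReal.toReal_nonneg (h2 (Sum.inl j))
    rwa [ENNReal.ofReal_toReal (hfin j)] at this
  · exact key _ _ (hJ0 j) (h2 (Sum.inr j))

theorem level_mem {o : ℝ} (ho : o ∈ Ioo (0:ℝ) 1) {m k : ℕ} (hk : k < m) :
    (o + k) / m ∈ Ioo (0:ℝ) 1 := by
  have hmR : (0:ℝ) < m := by exact_mod_cast lt_of_le_of_lt (Nat.zero_le k) hk
  have h5 : ((k:ℝ) + 1) ≤ m := by exact_mod_cast hk
  constructor
  · have := ho.1; positivity
  · rw [div_lt_one hmR]; linarith [ho.2]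

theorem cr_zero {u : E → ℝ} {x v : E} {t : ℝ} (h : ∀ y ∈ sgm x v, u y ≠ t) : cr u x v t = 0 := by
  unfold cr
  have h6 : sgm x v ∩ u ⁻¹' {t} = ∅ := by
    rw [eq_empty_iff_forall_notMem]
    rintro y ⟨hx1, hx2⟩
    exact h y hx1 hx2
  rw [h6]; simp

theorem finite_of_cr {u : E → ℝ} {x v : E} {t : ℝ} (h : cr u x v t ≠ ∞) :
    (sgm x v ∩ u ⁻¹' {t}).Finite := by
  unfold cr at h
  rw [← encard_ne_top_iff]
  intro h1
  rw [h1] at h
  simp at h

/-- **offsets of the levels of countably many bricks** -/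
theorem exists_offsets {ι 𝒞 : Type*} [Countable 𝒞] (x v : ι → E) (hv : ∀ j, v j ≠ 0)
    {u : 𝒞 → E → ℝ} {g : 𝒞 → ι → E → ℝ≥0∞} (Fc : 𝒞 → Finset ι)
    (hF2 : ∀ c, ∀ j ∉ Fc c, ∀ y ∈ sgm (x j) (v j), u c y ∉ Ioo (0:ℝ) 1)
    (hu : ∀ c, ∀ j ∈ Fc c, ContinuousOn (u c) (sgm (x j) (v j)))
    (hug : ∀ c, ∀ j ∈ Fc c, UGs (u c) (g c j) (x j) (v j))
    (hfin : ∀ c, ∀ j ∈ Fc c, li (g c j) (x j) (v j) ≠ ∞)
    {V : Set E} (hV : V.Countable)
    {κ : 𝒞 → Type*} [∀ c, Fintype (κ c)] {X : ∀ c, κ c → ℝ → ℝ≥0∞}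
    (hX : ∀ c j, AEMeasurable (X c j) (volume.restrict (Icc (0:ℝ) 1)))
    {J : ∀ c, κ c → ℝ} (hJ0 : ∀ c j, 0 ≤ J c j)
    (hJ : ∀ c j, ∫⁻ y in Icc (0:ℝ) 1, X c j y ≤ ENNReal.ofReal (J c j))
    {e : 𝒞 → ι → ℝ} (he : ∀ c j, 0 < e c j)
    {e' : 𝒞 → ℝ} (he' : ∀ c, 0 < e' c) :
    ∃ m0 : 𝒞 → ℕ, ∀ m : 𝒞 → ℕ, (∀ c, m0 c ≤ m c) → (∀ c, 0 < m c) →
      ∀ Z : 𝒞 → Set ℝ, (∀ c, volume (Z c) = 0) → ∃ o : 𝒞 → ℝ,
      (∀ c, o c ∈ Ioo (0:ℝ) 1) ∧ (∀ c, ∀ k < m c, (o c + k) / m c ∉ Z c) ∧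
      (∀ c, ∀ k < m c, ∀ p ∈ V, u c p ≠ (o c + k) / m c) ∧
      (∀ c, ∀ k < m c, ∀ j, (sgm (x j) (v j) ∩ u c ⁻¹' {(o c + k) / m c}).Finite) ∧
      (∀ c c', c ≠ c' → ∀ k < m c, ∀ k' < m c', ∀ j, ∀ y ∈ sgm (x j) (v j),
        ¬ (u c y = (o c + k) / m c ∧ u c' y = (o c' + k') / m c')) ∧
      (∀ c j, (m c:ℝ≥0∞)⁻¹ * ∑ k ∈ Finset.range (m c),
        cr (u c) (x j) (v j) ((o c + k) / m c) ≤
          li (g c j) (x j) (v j) + ENNReal.ofReal (e c j)) ∧
      ∀ c j, (m c:ℝ≥0∞)⁻¹ * ∑ k ∈ Finset.range (m c), X c j ((o c + k) / m c) ≤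
        ENNReal.ofReal (J c j) + ENNReal.ofReal (e' c) := by
  classical
  -- the error for `c`
  have hε : ∀ c, ∃ ε : ℝ, 0 < ε ∧ ε ≤ e' c ∧ ∀ j ∈ Fc c, ε ≤ e c j := by
    intro c
    rcases (Fc c).eq_empty_or_nonempty with h | h
    · exact ⟨e' c, he' c, le_rfl, fun σ hσ => by rw [h] at hσ; simp at hσ⟩
    · refine ⟨min (e' c) ((Fc c).inf' h (fun σ => e c σ)), lt_min (he' c) ?_, min_le_left _ _,
        fun σ hσ => (min_le_right _ _).trans (Finset.inf'_le _ hσ)⟩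
      rw [Finset.lt_inf'_iff]
      intro σ _
      exact he c σ
  choose ε hε0 hε2 hε1 using hε
  choose m0 hm0 using fun c => segs_one' (κ := {j // j ∈ Fc c}) (fun j => x j.1) (fun j => v j.1)
    (fun j => hv j.1) (g := fun j => g c j.1) (fun j => hu c j.1 j.2) (fun j => hug c j.1 j.2)
    (fun j => hfin c j.1 j.2) (hX c) (hJ0 c) (hJ c) (hε0 c)
  refine ⟨m0, fun m hm hmp Z hZ => ?_⟩
  obtain ⟨enc, henc⟩ := Countable.exists_injective_nat 𝒞
  -- the exceptional set at step `c`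
  let W : ∀ c : 𝒞, (∀ c', enc c' < enc c → ℝ) → Set ℝ := fun c prev =>
    ⋃ (c' : 𝒞) (h : enc c' < enc c) (k' : ℕ) (j ∈ Fc c),
      {t | (sgm (x j) (v j) ∩ u c' ⁻¹' {(prev c' h + k') / m c'}).Finite ∧
        t ∈ u c '' (sgm (x j) (v j) ∩ u c' ⁻¹' {(prev c' h + k') / m c'})}
  have hW : ∀ c prev, (W c prev).Countable := by
    intro c prev
    refine countable_iUnion fun c' => countable_iUnion fun h => countable_iUnion fun k' =>
      (Fc c).countable_toSet.biUnion fun j _ => ?_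
    by_cases hf : (sgm (x j) (v j) ∩ u c' ⁻¹' {(prev c' h + k') / m c'}).Finite
    · exact (hf.image (u c)).countable.mono fun t ht => ht.2
    · have : {t | (sgm (x j) (v j) ∩ u c' ⁻¹' {(prev c' h + k') / m c'}).Finite ∧
        t ∈ u c '' (sgm (x j) (v j) ∩ u c' ⁻¹' {(prev c' h + k') / m c'})} = ∅ := by
        rw [eq_empty_iff_forall_notMem]
        exact fun t ht => hf ht.1
      rw [this]
      exact countable_empty
  have hZ' : ∀ c prev, volume (Z c ∪ (u c '' V ∪ W c prev)) = 0 := fun c prev =>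
    measure_union_null (hZ c) (measure_union_null ((hV.image _).measure_zero _)
      ((hW c prev).measure_zero _))
  obtain ⟨o, ho⟩ := exists_rec enc (fun c prev o => o ∈ Ioo (0:ℝ) 1 ∧
      (∀ k < m c, (o + k) / m c ∉ Z c ∪ (u c '' V ∪ W c prev)) ∧
      (∀ j : {j // j ∈ Fc c}, (m c:ℝ≥0∞)⁻¹ * ∑ k ∈ Finset.range (m c),
        cr (u c) (x j) (v j) ((o + k) / m c) ≤
          li (g c j) (x j) (v j) + ENNReal.ofReal (ε c)) ∧
      ∀ j, (m c:ℝ≥0∞)⁻¹ * ∑ k ∈ Finset.range (m c), X c j ((o + k) / m c) ≤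
        ENNReal.ofReal (J c j) + ENNReal.ofReal (ε c)) (fun c prev => by
      obtain ⟨o, h1, h2, h3, h4⟩ := hm0 c (m c) (hm c) (hmp c) _ (hZ' c prev)
      exact ⟨o, h1, h2, h3, h4⟩)
  have ho0 := fun c => (ho c).1
  have hlev := fun c k (hk : k < m c) => level_mem (ho0 c) hk
  have hen : ∀ c j, (m c:ℝ≥0∞)⁻¹ * ∑ k ∈ Finset.range (m c),
        cr (u c) (x j) (v j) ((o c + k) / m c) ≤
          li (g c j) (x j) (v j) + ENNReal.ofReal (e c j) := by
    intro c j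
    by_cases hjc : j ∈ Fc c
    · refine ((ho c).2.2.1 ⟨j, hjc⟩).trans ?_
      gcongr
      exact hε1 c j hjc
    · have h3 : ∑ k ∈ Finset.range (m c), cr (u c) (x j) (v j) ((o c + k) / m c) = 0 := by
        apply Finset.sum_eq_zero
        intro k hk
        apply cr_zero
        intro y hy hyt
        apply hF2 c j hjc y hy
        rw [hyt]
        exact hlev c k (Finset.mem_range.1 hk)
      rw [h3, mul_zero]
      exact zero_le
  have hfn : ∀ c, ∀ k < m c, ∀ j, (sgm (x j) (v j) ∩ u c ⁻¹' {(o c + k) / m c}).Finite := by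
    intro c k hk j
    by_cases hjc : j ∈ Fc c
    · apply finite_of_cr
      have h1 := (ho c).2.2.1 ⟨j, hjc⟩
      have h2 : li (g c j) (x j) (v j) + ENNReal.ofReal (ε c) ≠ ∞ := by
        simp [hfin c j hjc]
      have h3 : ∑ k ∈ Finset.range (m c), cr (u c) (x j) (v j) ((o c + k) / m c) ≠ ∞ := by
        intro h4
        rw [h4] at h1
        apply h2
        rw [eq_top_iff]
        refine le_trans ?_ h1
        rw [ENNReal.mul_top]
        simp
      have h4 := Finset.single_le_sum (f := fun k : ℕ => cr (u c) (x j) (v j) ((o c + k) / m c))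
        (fun _ _ => zero_le) (Finset.mem_range.2 hk)
      exact ne_top_of_le_ne_top h3 h4
    · have h5 : sgm (x j) (v j) ∩ u c ⁻¹' {(o c + k) / m c} = ∅ := by
        rw [eq_empty_iff_forall_notMem]
        rintro y ⟨hy, hyt⟩
        apply hF2 c j hjc y hy
        rw [mem_preimage, mem_singleton_iff] at hyt
        rw [hyt]
        exact hlev c k hk
      rw [h5]
      exact finite_empty
  have hsep : ∀ c c', enc c' < enc c → ∀ k < m c, ∀ k' < m c', ∀ j, ∀ y ∈ sgm (x j) (v j),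
        ¬ (u c y = (o c + k) / m c ∧ u c' y = (o c' + k') / m c') := by
    rintro c c' hcc k hk k' hk' j y hy ⟨h1, h2⟩
    have hjc : j ∈ Fc c := by
      by_contra hjc
      apply hF2 c j hjc y hy
      rw [h1]
      exact hlev c k hk
    apply (ho c).2.1 k hk
    right; right
    simp only [W, mem_iUnion]
    refine ⟨c', hcc, k', j, hjc, hfn c' k' hk' j, y, ⟨hy, h2⟩, h1⟩
  refine ⟨o, ho0, fun c k hk h => (ho c).2.1 k hk (Or.inl h), fun c k hk p hp h => ?_, hfn, ?_,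
    hen, fun c j => ((ho c).2.2.2 j).trans ?_⟩
  · exact (ho c).2.1 k hk (Or.inr (Or.inl ⟨p, hp, h⟩))
  · intro c c' hcc k hk k' hk' j y hy
    rcases lt_or_gt_of_ne (fun h => hcc (henc h)) with h | h
    · exact fun h' => hsep c' c h k' hk' k hk j y hy ⟨h'.2, h'.1⟩
    · exact hsep c c' h k hk k' hk' j y hy
  · gcongr
    exact hε2 c

end

end Crest.Agent.R096.Ls_222
end

-- ▼ part R096/Ls2_222
section

set_option autoImplicit false

open Set Filter

namespace Crest.Agent.R096.Ls_222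

noncomputable section

/-- the progression `(o + k) / m`, `k < m` -/
def ap (m : ℕ) (o : ℝ) : Finset ℝ := (Finset.range m).image fun k : ℕ => (o + k) / m

theorem mem_ap {m : ℕ} {o t : ℝ} : t ∈ ap m o ↔ ∃ k < m, (o + k) / m = t := by
  simp [ap]

theorem ap_inj {m : ℕ} (hm : 0 < m) (o : ℝ) : Function.Injective fun k : ℕ => (o + k) / (m:ℝ) := by
  intro a b h
  have hmR : (m:ℝ) ≠ 0 := by positivity
  have h1 : (o + a) = (o + b) := by
    have := congrArg (fun z => z * (m:ℝ)) h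
    simpa [div_mul_cancel₀ _ hmR] using this
  have h2 : (a:ℝ) = b := by linarith
  exact_mod_cast h2

theorem card_ap {m : ℕ} (hm : 0 < m) (o : ℝ) : (ap m o).card = m := by
  unfold ap
  rw [Finset.card_image_of_injective _ (ap_inj hm o), Finset.card_range]

theorem sum_ap {M : Type*} [AddCommMonoid M] {m : ℕ} (hm : 0 < m) (o : ℝ) (F : ℝ → M) :
    ∑ t ∈ ap m o, F t = ∑ k ∈ Finset.range m, F ((o + k) / m) := by
  unfold ap
  rw [Finset.sum_image (fun a _ b _ h => ap_inj hm o h)]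

/-- at most `(v - u) m + 1` terms in the open interval `(u, v)` -/
theorem card_ap_Ioo {m : ℕ} (hm : 0 < m) {o u v : ℝ} (huv : u ≤ v) :
    (((ap m o).filter fun t => u < t ∧ t < v).card : ℝ) ≤ (v - u) * m + 1 := by
  have hmR : (0:ℝ) < m := by exact_mod_cast hm
  set S : Finset ℕ := (Finset.range m).filter fun k => u < (o + k) / m ∧ (o + k) / m < v with hS
  have hcard : ((ap m o).filter fun t => u < t ∧ t < v).card = S.card := by
    rw [show ((ap m o).filter fun t => u < t ∧ t < v) = S.image (fun k : ℕ => (o + k) / (m:ℝ)) from by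
      unfold ap
      rw [Finset.filter_image]]
    exact Finset.card_image_of_injective _ (ap_inj hm o)
  rw [hcard]
  rcases S.eq_empty_or_nonempty with h | h
  · rw [h]
    simp only [Finset.card_empty, Nat.cast_zero]
    have : 0 ≤ (v - u) * m := mul_nonneg (by linarith) hmR.le
    linarith
  · have h1 : S ⊆ Finset.Icc (S.min' h) (S.max' h) := fun k hk =>
      Finset.mem_Icc.2 ⟨S.min'_le k hk, S.le_max' k hk⟩
    have h2 := Finset.card_le_card h1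
    rw [Nat.card_Icc] at h2
    have h3 : S.min' h ≤ S.max' h := S.min'_le _ (S.max'_mem h)
    have h4 : (S.card : ℝ) ≤ (S.max' h : ℝ) - S.min' h + 1 := by
      have : S.card + S.min' h ≤ S.max' h + 1 := by omega
      have h5 : ((S.card + S.min' h : ℕ) : ℝ) ≤ ((S.max' h + 1 : ℕ) : ℝ) := by exact_mod_cast this
      push_cast at h5
      linarith
    have h5 := (Finset.mem_filter.1 (S.max'_mem h)).2.2
    have h6 := (Finset.mem_filter.1 (S.min'_mem h)).2.1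
    rw [div_lt_iff₀ hmR] at h5
    rw [lt_div_iff₀ hmR] at h6
    nlinarith

/-- number of terms below a term -/
theorem card_ap_lt {m : ℕ} (hm : 0 < m) {o : ℝ} {k0 : ℕ} (hk0 : k0 < m) :
    ((ap m o).filter fun s => s < (o + k0) / m).card = k0 := by
  have hmR : (0:ℝ) < m := by exact_mod_cast hm
  have h1 : ((ap m o).filter fun s => s < (o + k0) / m) =
      (Finset.range k0).image (fun k : ℕ => (o + k) / (m:ℝ)) := by
    ext t
    simp only [Finset.mem_filter, mem_ap, Finset.mem_image, Finset.mem_range]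
    constructor
    · rintro ⟨⟨k, hk, rfl⟩, h⟩
      refine ⟨k, ?_, rfl⟩
      rw [div_lt_div_iff_of_pos_right hmR] at h
      have : (k:ℝ) < k0 := by linarith
      exact_mod_cast this
    · rintro ⟨k, hk, rfl⟩
      refine ⟨⟨k, hk.trans hk0, rfl⟩, ?_⟩
      rw [div_lt_div_iff_of_pos_right hmR]
      have : (k:ℝ) < k0 := by exact_mod_cast hk
      linarith
  rw [h1, Finset.card_image_of_injective _ (ap_inj hm o), Finset.card_range]

section Sub

variable {m : ℕ} {o b : ℝ} {L : Finset ℝ}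

/-- upper density of a progression with at most `b m` deleted terms -/
theorem dens_of_sub (hm : 0 < m) (hL : L ⊆ ap m o) (hb : (1 - b) * m ≤ L.card) {κ1 : ℝ}
    (h0 : 0 < κ1) (h1 : κ1 ≤ 1) (hbκ : b ≤ κ1 / 4) {u v : ℝ} (huv : u ≤ v) :
    ((L.filter fun t => u < t ∧ t < v).card : ℝ) ≤ (1 + κ1) * (v - u) * L.card + 1 := by
  have h2 : ((L.filter fun t => u < t ∧ t < v).card : ℝ) ≤
      (((ap m o).filter fun t => u < t ∧ t < v).card : ℝ) := by
    exact_mod_cast Finset.card_le_card (Finset.filter_subset_filter _ hL)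
  have h3 := card_ap_Ioo hm (o := o) huv
  have hmR : (0:ℝ) < m := by exact_mod_cast hm
  have h4 : (m:ℝ) ≤ (1 + κ1) * L.card := by
    have h5 : (1 - κ1 / 4) * m ≤ L.card :=
      (mul_le_mul_of_nonneg_right (by linarith) hmR.le).trans hb
    have h6 := mul_le_mul_of_nonneg_left h5 (by linarith : (0:ℝ) ≤ 1 + κ1)
    have h7 : (1:ℝ) ≤ (1 + κ1) * (1 - κ1 / 4) := by nlinarith
    have h8 := mul_le_mul_of_nonneg_right h7 hmR.le
    nlinarith
  have h5 : (v - u) * m ≤ (v - u) * ((1 + κ1) * L.card) :=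
    mul_le_mul_of_nonneg_left h4 (by linarith)
  nlinarith

/-- position of the terms -/
theorem pos_of_sub (hm : 0 < m) (ho : o ∈ Ioo (0:ℝ) 1) (hL : L ⊆ ap m o)
    (hb0 : 0 ≤ b) (hb : (1 - b) * m ≤ L.card) {κ1 : ℝ}
    (h1 : κ1 ≤ 1) (hbκ : b ≤ κ1 / 4) (hmκ : 2 ≤ κ1 * m) {t : ℝ} (ht : t ∈ L) :
    |((L.filter (· < t)).card : ℝ) / L.card - t| ≤ κ1 := by
  have hmR : (0:ℝ) < m := by exact_mod_cast hm
  obtain ⟨k0, hk0, hkt⟩ := mem_ap.1 (hL ht)
  have hLm : (L.card : ℝ) ≤ m := by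
    have := Finset.card_le_card hL
    rw [card_ap hm] at this
    exact_mod_cast this
  have hn : (0:ℝ) < L.card := by
    have : 0 < L.card := Finset.card_pos.2 ⟨t, ht⟩
    exact_mod_cast this
  set a : ℝ := ((L.filter (· < t)).card : ℝ) with ha
  have ha1 : a ≤ k0 := by
    have h2 := Finset.card_le_card (Finset.filter_subset_filter (fun s => s < t) hL)
    have h3 := card_ap_lt (o := o) hm hk0
    rw [hkt] at h3
    rw [h3] at h2
    rw [ha]
    exact Nat.cast_le.2 h2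
  have ha2 : (k0:ℝ) - b * m ≤ a := by
    have h2 : ((ap m o).filter fun s => s < t).card ≤
        (L.filter (· < t)).card + (ap m o \ L).card := by
      refine le_trans (Finset.card_le_card (t := L.filter (· < t) ∪ (ap m o \ L)) ?_)
        (Finset.card_union_le _ _)
      intro s hs
      obtain ⟨hs1, hs2⟩ := Finset.mem_filter.1 hs
      by_cases h : s ∈ L
      · exact Finset.mem_union_left _ (Finset.mem_filter.2 ⟨h, hs2⟩)
      · exact Finset.mem_union_right _ (Finset.mem_sdiff.2 ⟨hs1, h⟩)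
    have h3 := card_ap_lt (o := o) hm hk0
    rw [hkt] at h3
    rw [h3] at h2
    have h4 : (ap m o \ L).card = m - L.card := by
      rw [Finset.card_sdiff_of_subset hL, card_ap hm]
    have h5 : L.card ≤ m := by exact_mod_cast hLm
    have h6 : k0 + L.card ≤ (L.filter (· < t)).card + m := by omega
    have h7 : ((k0 + L.card : ℕ):ℝ) ≤ (((L.filter (· < t)).card + m : ℕ) : ℝ) := by
      exact_mod_cast h6
    push_cast at h7
    linarith
  have hk0m : (k0:ℝ) + 1 ≤ m := by exact_mod_cast hk0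
  have ha0 : 0 ≤ a := by positivity
  have ht1 : t * m = o + k0 := by rw [← hkt]; field_simp
  have ho0 := ho.1
  have ho1 := ho.2
  rw [abs_le]
  constructor
  · -- lower bound
    have h2 : t - κ1 ≤ a / L.card := by
      rw [le_div_iff₀ hn]
      by_cases h3 : 0 ≤ t - κ1
      · have h4 : (t - κ1) * L.card ≤ (t - κ1) * m := mul_le_mul_of_nonneg_left hLm h3
        have h5 : (t - κ1) * m ≤ k0 - b * m := by
          have : κ1 * m ≥ 1 + b * m := by nlinarith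
          nlinarith
        linarith
      · have h4 : (t - κ1) * L.card ≤ 0 := mul_nonpos_of_nonpos_of_nonneg (by linarith) hn.le
        linarith
    linarith
  · -- upper bound
    have h2 : a / L.card ≤ t + κ1 := by
      rw [div_le_iff₀ hn]
      have h3 : (t + κ1) * ((1 - b) * m) ≤ (t + κ1) * L.card := by
        have ht0 : 0 ≤ t := by
          have : 0 ≤ t * m := by rw [ht1]; positivity
          exact nonneg_of_mul_nonneg_left this hmR
        have hκ0 : 0 ≤ κ1 := by nlinarith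
        exact mul_le_mul_of_nonneg_left hb (by linarith)
      have h4 : (k0:ℝ) ≤ (t + κ1) * ((1 - b) * m) := by
        have e1 : (t + κ1) * ((1 - b) * m) = (1 - b) * (o + k0) + κ1 * (1 - b) * m := by
          rw [← ht1]; ring
        rw [e1]
        have hκ0 : 0 ≤ κ1 := by nlinarith
        have e2 : b * k0 ≤ b * m := mul_le_mul_of_nonneg_left (by linarith) hb0
        have e3 : b ≤ 1 / 4 := by linarith
        have e4 : b * m ≤ κ1 / 4 * m := mul_le_mul_of_nonneg_right hbκ hmR.le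
        have e5 : κ1 * (1 - b) * m ≥ κ1 * (3 / 4) * m := by
          have : κ1 * m * (1 - b) ≥ κ1 * m * (3 / 4) :=
            mul_le_mul_of_nonneg_left (by linarith) (by positivity)
          nlinarith
        have e6 : 0 ≤ (1 - b) * o := mul_nonneg (by linarith) ho0.le
        nlinarith
      linarith
    linarith

end Sub

/-- dyadic weights -/
theorem exists_weight {m : ℕ} {s : ℝ} (hs : 0 < s) {n : ℕ} (hm : s * 2 ^ (n + 1) ≤ m) :
    ∃ κ : ℕ, n ≤ κ ∧ s ≤ m * (2:ℝ)⁻¹ ^ κ ∧ m * (2:ℝ)⁻¹ ^ κ < 2 * s := by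
  have h2 : (1:ℝ) ≤ m / s := by
    rw [le_div_iff₀ hs]
    have : (1:ℝ) ≤ 2 ^ (n + 1) := one_le_pow₀ (by norm_num)
    nlinarith
  obtain ⟨κ, h3, h4⟩ := exists_nat_pow_near h2 (by norm_num : (1:ℝ) < 2)
  refine ⟨κ, ?_, ?_, ?_⟩
  · by_contra hlt
    have h5 : κ + 1 ≤ n + 1 := by omega
    have h6 : (2:ℝ) ^ (κ + 1) ≤ 2 ^ (n + 1) := pow_le_pow_right₀ (by norm_num) h5
    have h7 : (2:ℝ) ^ (n + 1) ≤ m / s := by
      rw [le_div_iff₀ hs]; linarith
    linarith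
  · rw [le_div_iff₀ hs] at h3
    rw [inv_pow, ← div_eq_mul_inv, le_div_iff₀ (by positivity)]
    linarith
  · rw [div_lt_iff₀ hs, pow_succ] at h4
    rw [inv_pow, ← div_eq_mul_inv, div_lt_iff₀ (by positivity)]
    linarith

end

end Crest.Agent.R096.Ls_222
end

-- ▼ part R096/Ls3_222

set_option autoImplicit false

open MeasureTheory Set Filter
open scoped Topology ENNReal

namespace Crest.Agent.R096.Ls_222

open Crest.Agent.R096.Bas_731 Crest.Agent.R96.En2_199 Crest.Agent.R96.Sg1_199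

noncomputable section

variable {E : Type*} [NormedAddCommGroup E] [NormedSpace ℝ E]

/-- the chosen levels `L c` of the functions `u c` with respect to the segments `x j + [0,1] v j` and
the vertices `V`: a progression of `m c` terms with at most `κ1/4 * m c` deleted terms. -/
structure Lv {ι 𝒞 : Type*} (x v : ι → E) (u : 𝒞 → E → ℝ) (V : Set E) (κ1 : ℝ) (sz : 𝒞 → ℝ)
    (Z Bad : 𝒞 → Set ℝ) (m κ : 𝒞 → ℕ) (L : 𝒞 → Finset ℝ) : Prop where
  lf : ∀ n : ℕ, {c | κ c ≤ n}.Finite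
  sub : ∀ c, ∀ t ∈ L c, t ∈ Ioo (0 : ℝ) 1
  wt1 : ∀ c, sz c ≤ m c * (2 : ℝ)⁻¹ ^ κ c
  wt2 : ∀ c, m c * (2 : ℝ)⁻¹ ^ κ c < 2 * sz c
  card1 : ∀ c, (1 - κ1 / 4) * m c ≤ (L c).card
  card2 : ∀ c, ((L c).card : ℝ) ≤ m c
  card3 : ∀ c, Bad c = ∅ → (L c).card = m c
  mlarge : ∀ c, 2 ≤ κ1 * m c
  large : ∀ c, 1 ≤ κ1 * (L c).card
  pos : ∀ c, ∀ t ∈ L c, |(((L c).filter (· < t)).card : ℝ) / (L c).card - t| ≤ κ1
  dens : ∀ c u v, u ≤ v → (((L c).filter fun t => u < t ∧ t < v).card : ℝ) ≤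
    (1 + κ1) * (v - u) * (L c).card + 1
  prog : ∀ c, ∃ o ∈ Ioo (0 : ℝ) 1, L c ⊆ ap (m c) o
  gap : ∀ c, ∀ t ∈ L c, ∀ t' ∈ L c, t < t' → 1 ≤ m c * (t' - t)
  off : ∀ c, ∀ t ∈ L c, t ∉ Z c
  bad : ∀ c, ∀ t ∈ L c, t ∉ Bad c
  vert : ∀ c, ∀ t ∈ L c, ∀ p ∈ V, u c p ≠ t
  fin : ∀ c, ∀ t ∈ L c, ∀ j, (sgm (x j) (v j) ∩ u c ⁻¹' {t}).Finite
  sep : ∀ c c', c ≠ c' → ∀ t ∈ L c, ∀ t' ∈ L c', ∀ j, ∀ y ∈ sgm (x j) (v j),
    ¬ (u c y = t ∧ u c' y = t')


/-- **LEVSEL**, abstract form. -/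
theorem exists_Lv {ι 𝒞 : Type*} [Countable 𝒞] (x v : ι → E) (hv : ∀ j, v j ≠ 0)
    {u : 𝒞 → E → ℝ} {g : 𝒞 → ι → E → ℝ≥0∞} (Fc : 𝒞 → Finset ι)
    (hF2 : ∀ c, ∀ j ∉ Fc c, ∀ y ∈ sgm (x j) (v j), u c y ∉ Ioo (0:ℝ) 1)
    (hu : ∀ c, ∀ j ∈ Fc c, ContinuousOn (u c) (sgm (x j) (v j)))
    (hug : ∀ c, ∀ j ∈ Fc c, UGs (u c) (g c j) (x j) (v j))
    (hfin : ∀ c, ∀ j ∈ Fc c, li (g c j) (x j) (v j) ≠ ∞)
    {V : Set E} (hV : V.Countable)
    {κ' : 𝒞 → Type*} [∀ c, Fintype (κ' c)] {X : ∀ c, κ' c → ℝ → ℝ≥0∞}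
    (hX : ∀ c j, AEMeasurable (X c j) (volume.restrict (Icc (0:ℝ) 1)))
    {J : ∀ c, κ' c → ℝ} (hJ0 : ∀ c j, 0 ≤ J c j)
    (hJ : ∀ c j, ∫⁻ y in Icc (0:ℝ) 1, X c j y ≤ ENNReal.ofReal (J c j))
    {e : 𝒞 → ι → ℝ} (he : ∀ c j, 0 < e c j) {e' : 𝒞 → ℝ} (he' : ∀ c, 0 < e' c)
    {κ1 : ℝ} (hκ0 : 0 < κ1) (hκ1 : κ1 ≤ 1) {sz : 𝒞 → ℝ} (hsz : ∀ c, 0 < sz c)
    {Z Bad : 𝒞 → Set ℝ} (hZ : ∀ c, volume (Z c) = 0) (hBm : ∀ c, MeasurableSet (Bad c))
    (hB : ∀ c, volume (Bad c ∩ Icc 0 1) ≤ ENNReal.ofReal (κ1 / 8))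
    (M0 : 𝒞 → ℕ) (pick : 𝒞 → ℕ → ℕ) (hpick : ∀ c n, n ≤ pick c n) :
    ∃ (m κ : 𝒞 → ℕ) (L : 𝒞 → Finset ℝ), Lv x v u V κ1 sz Z Bad m κ L ∧
      (∀ c, ∃ n, m c = pick c n) ∧ (∀ c, M0 c ≤ (L c).card) ∧
      (∀ c j, ENNReal.ofReal ((2 : ℝ)⁻¹ ^ κ c) * ∑ t ∈ L c, cr (u c) (x j) (v j) t ≤
        ENNReal.ofReal (m c * (2 : ℝ)⁻¹ ^ κ c) *
          (li (g c j) (x j) (v j) + ENNReal.ofReal (e c j))) ∧
      ∀ c i, ENNReal.ofReal ((2 : ℝ)⁻¹ ^ κ c) * ∑ t ∈ L c, X c i t ≤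
        ENNReal.ofReal (m c * (2 : ℝ)⁻¹ ^ κ c) *
          (ENNReal.ofReal (J c i) + ENNReal.ofReal (e' c)) := by
  classical
  obtain ⟨enc, henc⟩ := Countable.exists_injective_nat 𝒞
  -- the extended family of weights
  let X' : ∀ c, Unit ⊕ κ' c → ℝ → ℝ≥0∞ := fun c => Sum.elim (fun _ => (Bad c).indicator 1) (X c)
  let J' : ∀ c, Unit ⊕ κ' c → ℝ := fun c => Sum.elim (fun _ => κ1 / 8) (J c)
  have hX' : ∀ c j, AEMeasurable (X' c j) (volume.restrict (Icc (0:ℝ) 1)) := by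
    rintro c (j | j)
    · exact (measurable_const.indicator (hBm c)).aemeasurable
    · exact hX c j
  have hJ0' : ∀ c j, 0 ≤ J' c j := by
    rintro c (j | j)
    · show 0 ≤ κ1 / 8
      positivity
    · exact hJ0 c j
  have hJ' : ∀ c j, ∫⁻ y in Icc (0:ℝ) 1, X' c j y ≤ ENNReal.ofReal (J' c j) := by
    rintro c (j | j)
    · show ∫⁻ y in Icc (0:ℝ) 1, (Bad c).indicator 1 y ≤ ENNReal.ofReal (κ1 / 8)
      rw [lintegral_indicator_one (hBm c), Measure.restrict_apply (hBm c)]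
      exact hB c
    · exact hJ c j
  have he'' : ∀ c, 0 < min (e' c) (κ1 / 8) := fun c => lt_min (he' c) (by positivity)
  obtain ⟨m0, hm0⟩ := exists_offsets x v hv Fc hF2 hu hug hfin hV hX' hJ0' hJ' he he''
  -- the numbers of terms
  let n0 : 𝒞 → ℕ := fun c => m0 c + ⌈sz c * 2 ^ (enc c + 1)⌉₊ + ⌈2 / κ1⌉₊ + 2 * M0 c + 1
  let m : 𝒞 → ℕ := fun c => pick c (n0 c)
  have hmn : ∀ c, n0 c ≤ m c := fun c => hpick c _
  have hm1 : ∀ c, m0 c ≤ m c := fun c => le_trans (by simp only [n0]; omega) (hmn c)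
  have hm2 : ∀ c, 0 < m c := fun c => lt_of_lt_of_le (by simp only [n0]; omega) (hmn c)
  have hm3 : ∀ c, sz c * 2 ^ (enc c + 1) ≤ m c := by
    intro c
    refine (Nat.le_ceil _).trans ?_
    have : ⌈sz c * 2 ^ (enc c + 1)⌉₊ ≤ m c := le_trans (by simp only [n0]; omega) (hmn c)
    exact_mod_cast this
  have hm4 : ∀ c, 2 ≤ κ1 * m c := by
    intro c
    have h1 : ⌈2 / κ1⌉₊ ≤ m c := le_trans (by simp only [n0]; omega) (hmn c)
    have h2 : 2 / κ1 ≤ m c := (Nat.le_ceil _).trans (by exact_mod_cast h1)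
    rw [div_le_iff₀ hκ0] at h2
    linarith
  have hm5 : ∀ c, 2 * M0 c ≤ m c := fun c => le_trans (by simp only [n0]; omega) (hmn c)
  have hmR : ∀ c, (0:ℝ) < m c := fun c => by exact_mod_cast hm2 c
  choose κ hκ using fun c => exists_weight (hsz c) (hm3 c)
  obtain ⟨o, ho, hoZ, hoV, hofin, hosep, hoen, hoX⟩ := hm0 m hm1 hm2 Z hZ
  let L : 𝒞 → Finset ℝ := fun c => (ap (m c) (o c)).filter fun t => t ∉ Bad c
  have hL : ∀ c, L c ⊆ ap (m c) (o c) := fun c => Finset.filter_subset _ _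
  have hLk : ∀ c, ∀ t ∈ L c, ∃ k < m c, (o c + k) / m c = t := fun c t ht => mem_ap.1 (hL c ht)
  have hcard2 : ∀ c, ((L c).card : ℝ) ≤ m c := by
    intro c
    have := Finset.card_le_card (hL c)
    rw [card_ap (hm2 c)] at this
    exact_mod_cast this
  have hcard1 : ∀ c, (1 - κ1 / 4) * m c ≤ (L c).card := by
    intro c
    have h1 := hoX c (Sum.inl ())
    have h2 : ∑ k ∈ Finset.range (m c), X' c (Sum.inl ()) ((o c + k) / m c) =
        (((ap (m c) (o c)).filter fun t => t ∈ Bad c).card : ℝ≥0∞) := by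
      rw [← sum_ap (hm2 c) (o c) (X' c (Sum.inl ()))]
      rw [Finset.card_filter]
      push_cast
      refine Finset.sum_congr rfl fun t _ => ?_
      show (Bad c).indicator 1 t = _
      by_cases h : t ∈ Bad c <;> simp [h]
    rw [h2] at h1
    have h3 : ENNReal.ofReal (J' c (Sum.inl ())) + ENNReal.ofReal (min (e' c) (κ1 / 8)) ≤
        ENNReal.ofReal (κ1 / 4) := by
      show ENNReal.ofReal (κ1 / 8) + ENNReal.ofReal (min (e' c) (κ1 / 8)) ≤ _
      rw [← ENNReal.ofReal_add (by positivity) (he'' c).le]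
      apply ENNReal.ofReal_le_ofReal
      have := min_le_right (e' c) (κ1 / 8)
      linarith
    have h4 := h1.trans h3
    have h5 : (((ap (m c) (o c)).filter fun t => t ∈ Bad c).card : ℝ) ≤ κ1 / 4 * m c := by
      have h6 : ((((ap (m c) (o c)).filter fun t => t ∈ Bad c).card : ℝ≥0∞)) ≤
          (m c : ℝ≥0∞) * ENNReal.ofReal (κ1 / 4) := by
        calc ((((ap (m c) (o c)).filter fun t => t ∈ Bad c).card : ℝ≥0∞))
            = (m c : ℝ≥0∞) * ((m c : ℝ≥0∞)⁻¹ *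
              (((ap (m c) (o c)).filter fun t => t ∈ Bad c).card : ℝ≥0∞)) := by
              rw [← mul_assoc, ENNReal.mul_inv_cancel (by have := hm2 c; positivity)
                (ENNReal.natCast_ne_top _), one_mul]
          _ ≤ _ := by gcongr
      have h7 : ENNReal.ofReal (((ap (m c) (o c)).filter fun t => t ∈ Bad c).card : ℝ) ≤
          ENNReal.ofReal (κ1 / 4 * m c) := by
        rw [ENNReal.ofReal_natCast, mul_comm, ENNReal.ofReal_mul (hmR c).le,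
          ENNReal.ofReal_natCast]
        exact h6
      exact (ENNReal.ofReal_le_ofReal_iff (by have := hmR c; positivity)).1 h7
    have h6 : (L c).card + ((ap (m c) (o c)).filter fun t => t ∈ Bad c).card = m c := by
      have := Finset.card_filter_add_card_filter_not (s := ap (m c) (o c)) (fun t => t ∈ Bad c)
      rw [card_ap (hm2 c)] at this
      show ((ap (m c) (o c)).filter fun t => t ∉ Bad c).card + _ = _
      omega
    have h7 : (((L c).card : ℝ)) + (((ap (m c) (o c)).filter fun t => t ∈ Bad c).card : ℝ) = m c := by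
      exact_mod_cast h6
    linarith
  have hlarge : ∀ c, 1 ≤ κ1 * (L c).card := by
    intro c
    have h1 := mul_le_mul_of_nonneg_left (hcard1 c) hκ0.le
    have h2 := hm4 c
    have h3 : κ1 * ((1 - κ1 / 4) * m c) = (1 - κ1 / 4) * (κ1 * m c) := by ring
    rw [h3] at h1
    nlinarith
  -- weighted sums
  have hsum : ∀ c, ∀ F : ℝ → ℝ≥0∞, ∀ R : ℝ≥0∞,
      (m c : ℝ≥0∞)⁻¹ * ∑ k ∈ Finset.range (m c), F ((o c + k) / m c) ≤ R →
      ENNReal.ofReal ((2 : ℝ)⁻¹ ^ κ c) * ∑ t ∈ L c, F t ≤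
        ENNReal.ofReal (m c * (2 : ℝ)⁻¹ ^ κ c) * R := by
    intro c F R h
    have h1 : ∑ t ∈ L c, F t ≤ (m c : ℝ≥0∞) * R := by
      calc ∑ t ∈ L c, F t ≤ ∑ t ∈ ap (m c) (o c), F t :=
            Finset.sum_le_sum_of_subset (hL c)
        _ = ∑ k ∈ Finset.range (m c), F ((o c + k) / m c) := sum_ap (hm2 c) _ _
        _ = (m c : ℝ≥0∞) * ((m c : ℝ≥0∞)⁻¹ *
            ∑ k ∈ Finset.range (m c), F ((o c + k) / m c)) := by
            rw [← mul_assoc, ENNReal.mul_inv_cancel (by have := hm2 c; positivity)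
                (ENNReal.natCast_ne_top _), one_mul]
        _ ≤ _ := by gcongr
    calc ENNReal.ofReal ((2 : ℝ)⁻¹ ^ κ c) * ∑ t ∈ L c, F t
        ≤ ENNReal.ofReal ((2 : ℝ)⁻¹ ^ κ c) * ((m c : ℝ≥0∞) * R) := by gcongr
      _ = ENNReal.ofReal (m c * (2 : ℝ)⁻¹ ^ κ c) * R := by
          rw [ENNReal.ofReal_mul (hmR c).le, ENNReal.ofReal_natCast]
          ring
  have hcard3 : ∀ c, Bad c = ∅ → (L c).card = m c := by
    intro c hb
    have h1 : L c = ap (m c) (o c) := Finset.filter_true_of_mem fun t _ => by rw [hb]; exact id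
    rw [h1, card_ap (hm2 c)]
  refine ⟨m, κ, L, ⟨?_, ?_, fun c => (hκ c).2.1, fun c => (hκ c).2.2, hcard1, hcard2, hcard3, hm4, hlarge,
    ?_, ?_, fun c => ⟨o c, ho c, hL c⟩, ?_, ?_, ?_, ?_, ?_, ?_⟩, fun c => ⟨_, rfl⟩, ?_, fun c j => hsum c _ _ (hoen c j),
    fun c i => ?_⟩
  · intro n
    refine Finite.subset ((finite_Iic n).preimage henc.injOn) fun c hc => ?_
    exact (hκ c).1.trans hc
  · intro c t ht
    obtain ⟨k, hk, rfl⟩ := hLk c t ht
    exact level_mem (ho c) hk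
  · intro c t ht
    exact pos_of_sub (hm2 c) (ho c) (hL c) (by positivity) (hcard1 c) hκ1 le_rfl (hm4 c) ht
  · intro c a b hab
    exact dens_of_sub (hm2 c) (hL c) (hcard1 c) hκ0 hκ1 le_rfl hab
  · intro c t ht t' ht' htt
    obtain ⟨k, hk, rfl⟩ := hLk c t ht
    obtain ⟨k', hk', rfl⟩ := hLk c t' ht'
    have h1 := hmR c
    rw [div_lt_div_iff_of_pos_right h1] at htt
    have h2 : (k : ℝ) < k' := by linarith
    have h3 : (k : ℝ) + 1 ≤ k' := by exact_mod_cast (by exact_mod_cast h2 : k < k')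
    have h4 : (m c : ℝ) * ((o c + k') / m c - (o c + k) / m c) = k' - k := by
      field_simp; ring
    rw [h4]; linarith
  · intro c t ht
    obtain ⟨k, hk, rfl⟩ := hLk c t ht
    exact hoZ c k hk
  · intro c t ht
    exact (Finset.mem_filter.1 ht).2
  · intro c t ht p hp
    obtain ⟨k, hk, rfl⟩ := hLk c t ht
    exact hoV c k hk p hp
  · intro c t ht j
    obtain ⟨k, hk, rfl⟩ := hLk c t ht
    exact hofin c k hk j
  · intro c c' hcc t ht t' ht' j y hy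
    obtain ⟨k, hk, rfl⟩ := hLk c t ht
    obtain ⟨k', hk', rfl⟩ := hLk c' t' ht'
    exact hosep c c' hcc k hk k' hk' j y hy
  · intro c
    have h1 := hcard1 c
    have h2 : (2 * M0 c : ℝ) ≤ m c := by exact_mod_cast hm5 c
    have h3 : ((M0 c : ℝ)) ≤ (L c).card := by nlinarith [hmR c]
    exact_mod_cast h3
  · refine hsum c _ _ ((hoX c (Sum.inr i)).trans ?_)
    show ENNReal.ofReal (J c i) + _ ≤ _
    gcongr
    exact min_le_left _ _

end

end Crest.Agent.R096.Ls_222
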