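import Mathlib
import Crest.Agent.R096.Ls3_222
import Crest.Agent.R096.Mbf_337
import Crest.Agent.R096.Ls6_222

-- ▼ part R096/Ls7_222
section

set_option autoImplicit false

open MeasureTheory Set Filter
open scoped Topology ENNReal

namespace Crest.Agent.R096.Ls_222

open Crest.Agent.R096.Bas_731 Crest.Agent.R96.En2_199 Crest.Agent.R96.Sg1_199

noncomputable section

variable {E : Type*} [NormedAddCommGroup E] [NormedSpace ℝ E]

/-- the chosen levels, exact version -/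
structure Lx {ι 𝒞 : Type*} (x v : ι → E) (u : 𝒞 → E → ℝ) (V : Set E) (κp μ : ℝ) (W : 𝒞 → ℝ)
    (Z Bad : 𝒞 → Set ℝ) (κ : 𝒞 → ℕ) (L : 𝒞 → Finset ℝ) : Prop where
  lf : ∀ n : ℕ, {c | κ c ≤ n}.Finite
  marg : ∀ c, ∀ t ∈ L c, μ ≤ t ∧ t ≤ 1 - μ
  card : ∀ c, ((L c).card : ℝ) * (2 : ℝ)⁻¹ ^ κ c = W c
  pos : ∀ c, ∀ t ∈ L c, |(((L c).filter (· < t)).card : ℝ) / (L c).card - t| ≤ κp
  dens : ∀ c u v, u ≤ v → (((L c).filter fun t => u < t ∧ t < v).card : ℝ) ≤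
    (1 + κp) * (v - u) * (L c).card + 1
  gap : ∀ c, ∀ t ∈ L c, ∀ t' ∈ L c, t < t' → 1 ≤ (1 + κp) * (L c).card * (t' - t)
  off : ∀ c, ∀ t ∈ L c, t ∉ Z c
  bad : ∀ c, ∀ t ∈ L c, t ∉ Bad c
  vert : ∀ c, ∀ t ∈ L c, ∀ p ∈ V, u c p ≠ t
  fin : ∀ c, ∀ t ∈ L c, ∀ j, (sgm (x j) (v j) ∩ u c ⁻¹' {t}).Finite
  sep : ∀ c c', c ≠ c' → ∀ t ∈ L c, ∀ t' ∈ L c', ∀ j, ∀ y ∈ sgm (x j) (v j),
    ¬ (u c y = t ∧ u c' y = t')

/-- **LEVSEL with exact cardinals.** -/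
theorem exists_Lx {ι 𝒞 : Type*} [Countable 𝒞] (x v : ι → E) (hv : ∀ j, v j ≠ 0)
    {u : 𝒞 → E → ℝ} {g : 𝒞 → ι → E → ℝ≥0∞} (Fc : 𝒞 → Finset ι)
    (hF2 : ∀ c, ∀ j ∉ Fc c, ∀ y ∈ sgm (x j) (v j), u c y ∉ Ioo (0:ℝ) 1)
    (hu : ∀ c, ∀ j ∈ Fc c, ContinuousOn (u c) (sgm (x j) (v j)))
    (hug : ∀ c, ∀ j ∈ Fc c, UGs (u c) (g c j) (x j) (v j))
    (hfin : ∀ c, ∀ j ∈ Fc c, li (g c j) (x j) (v j) ≠ ∞)
    {V : Set E} (hV : V.Countable)
    {κ' : 𝒞 → Type*} [∀ c, Fintype (κ' c)] {X : ∀ c, κ' c → ℝ → ℝ≥0∞}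
    (hX : ∀ c j, AEMeasurable (X c j) (volume.restrict (Icc (0:ℝ) 1)))
    {J : ∀ c, κ' c → ℝ} (hJ0 : ∀ c j, 0 ≤ J c j)
    (hJ : ∀ c j, ∫⁻ y in Icc (0:ℝ) 1, X c j y ≤ ENNReal.ofReal (J c j))
    {e : 𝒞 → ι → ℝ} (he : ∀ c j, 0 < e c j) {e' : 𝒞 → ℝ} (he' : ∀ c, 0 < e' c)
    {κp : ℝ} (hκ0 : 0 < κp) (hκ1 : κp ≤ 1) {μ : ℝ} (hμ : μ ≤ κp / 64)
    {W : 𝒞 → ℝ} (hW0 : ∀ c, 0 < W c) (hW : ∀ c, ∃ k N : ℕ, W c * 2 ^ k = N)
    {Z Bad : 𝒞 → Set ℝ} (hZ : ∀ c, volume (Z c) = 0) (hBm : ∀ c, MeasurableSet (Bad c))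
    (hB : ∀ c, volume (Bad c ∩ Icc 0 1) ≤ ENNReal.ofReal (κp / 32))
    (M0 : 𝒞 → ℕ) :
    ∃ (κ : 𝒞 → ℕ) (L : 𝒞 → Finset ℝ), Lx x v u V κp μ W Z Bad κ L ∧
      (∀ c, M0 c ≤ (L c).card) ∧
      (∀ c j, ENNReal.ofReal ((2 : ℝ)⁻¹ ^ κ c) * ∑ t ∈ L c, cr (u c) (x j) (v j) t ≤
        ENNReal.ofReal ((1 + κp) * W c) *
          (li (g c j) (x j) (v j) + ENNReal.ofReal (e c j))) ∧
      ∀ c i, ENNReal.ofReal ((2 : ℝ)⁻¹ ^ κ c) * ∑ t ∈ L c, X c i t ≤
        ENNReal.ofReal ((1 + κp) * W c) *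
          (ENNReal.ofReal (J c i) + ENNReal.ofReal (e' c)) := by
  classical
  choose k0 N0 hN0 using hW
  have hN0p : ∀ c, 1 ≤ N0 c := by
    intro c
    have h1 : (0:ℝ) < N0 c := by rw [← hN0 c]; have := hW0 c; positivity
    exact_mod_cast h1
  -- the numbers
  let jj : 𝒞 → ℕ → ℕ := fun c n => n + ⌈16 / κp⌉₊ + M0 c
  let N : 𝒞 → ℕ → ℕ := fun c n => N0 c * 2 ^ jj c n
  let kk : 𝒞 → ℕ → ℕ := fun c n => k0 c + jj c n
  have hNW : ∀ c n, W c * 2 ^ kk c n = N c n := by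
    intro c n
    simp only [kk, N, pow_add]
    push_cast
    rw [← mul_assoc, hN0 c]
  have hNj : ∀ c n, jj c n ≤ N c n := by
    intro c n
    have h1 : jj c n < 2 ^ jj c n := Nat.lt_two_pow_self
    calc jj c n ≤ 1 * 2 ^ jj c n := by omega
      _ ≤ N0 c * 2 ^ jj c n := Nat.mul_le_mul_right _ (hN0p c)
  let pick : 𝒞 → ℕ → ℕ := fun c n => ⌊(N c n : ℝ) / (1 - κp / 8)⌋₊ + 1
  have h8 : (0:ℝ) < 1 - κp / 8 := by linarith
  have hNp : ∀ c n, (N c n : ℝ) < (1 - κp / 8) * pick c n := by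
    intro c n
    have h1 := Nat.lt_floor_add_one ((N c n : ℝ) / (1 - κp / 8))
    rw [div_lt_iff₀ h8] at h1
    have h2 : ((pick c n : ℕ) : ℝ) = (⌊(N c n : ℝ) / (1 - κp / 8)⌋₊ : ℝ) + 1 := by
      simp [pick]
    rw [h2, mul_comm]; exact h1
  have hNle : ∀ c n, N c n < pick c n := by
    intro c n
    have h1 := hNp c n
    have h2 : (0:ℝ) ≤ pick c n := Nat.cast_nonneg _
    have h3 : (N c n : ℝ) < pick c n := by nlinarith
    exact_mod_cast h3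
  have hpick : ∀ c n, n ≤ pick c n := by
    intro c n
    have h1 := hNj c n
    have h2 := hNle c n
    have h3 : n ≤ jj c n := by simp only [jj]; omega
    omega
  have hN16 : ∀ c n, 16 ≤ κp * N c n := by
    intro c n
    have h1 : ⌈16 / κp⌉₊ ≤ N c n := le_trans (by simp only [jj]; omega) (hNj c n)
    have h2 : 16 / κp ≤ N c n := (Nat.le_ceil _).trans (by exact_mod_cast h1)
    rw [div_le_iff₀ hκ0] at h2
    linarith
  have hup : ∀ c n, (pick c n : ℝ) ≤ (1 + κp / 4) * N c n := by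
    intro c n
    have h1 := Nat.floor_le (show 0 ≤ (N c n : ℝ) / (1 - κp / 8) by positivity)
    rw [le_div_iff₀ h8] at h1
    have h2 : ((pick c n : ℕ) : ℝ) = (⌊(N c n : ℝ) / (1 - κp / 8)⌋₊ : ℝ) + 1 := by
      simp [pick]
    have h3 := hN16 c n
    have h4 : (0:ℝ) ≤ N c n := Nat.cast_nonneg _
    set a : ℝ := (⌊(N c n : ℝ) / (1 - κp / 8)⌋₊ : ℝ)
    rw [h2]
    -- `a (1 - κp/8) ≤ N`, want `a + 1 ≤ (1 + κp/4) N`
    have h5 : (1 + κp / 8 + κp ^ 2 / 32) * (a * (1 - κp / 8)) ≤ (1 + κp / 8 + κp ^ 2 / 32) * N c n :=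
      mul_le_mul_of_nonneg_left h1 (by positivity)
    have h6 : a ≤ (1 + κp / 8 + κp ^ 2 / 32) * (a * (1 - κp / 8)) := by
      have h7 : (0:ℝ) ≤ a := Nat.cast_nonneg _
      have h9 : (1:ℝ) ≤ (1 + κp / 8 + κp ^ 2 / 32) * (1 - κp / 8) := by nlinarith [sq_nonneg κp]
      nlinarith
    have h7 : κp ^ 2 * N c n ≤ κp * N c n := by nlinarith
    nlinarith
  let Bad' : 𝒞 → Set ℝ := fun c => Bad c ∪ (Iio μ ∪ Ioi (1 - μ))
  have hBm' : ∀ c, MeasurableSet (Bad' c) := fun c =>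
    (hBm c).union (measurableSet_Iio.union measurableSet_Ioi)
  have hκ2 : 0 < κp / 2 := by positivity
  have hB' : ∀ c, volume (Bad' c ∩ Icc 0 1) ≤ ENNReal.ofReal (κp / 2 / 8) := by
    intro c
    have h1 : Bad' c ∩ Icc 0 1 ⊆ (Bad c ∩ Icc 0 1) ∪ (Icc 0 (κp / 64) ∪ Icc (1 - κp / 64) 1) := by
      rintro t ⟨ht | ht | ht, ht'⟩
      · exact Or.inl ⟨ht, ht'⟩
      · exact Or.inr (Or.inl ⟨ht'.1, (le_of_lt ht).trans hμ⟩)
      · refine Or.inr (Or.inr ⟨?_, ht'.2⟩)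
        have : 1 - μ < t := ht
        linarith
    calc volume (Bad' c ∩ Icc 0 1)
        ≤ volume (Bad c ∩ Icc 0 1) + (volume (Icc (0:ℝ) (κp / 64)) +
            volume (Icc (1 - κp / 64) (1:ℝ))) :=
          (measure_mono h1).trans ((measure_union_le _ _).trans (by gcongr; exact measure_union_le _ _))
      _ ≤ ENNReal.ofReal (κp / 32) + (ENNReal.ofReal (κp / 64) + ENNReal.ofReal (κp / 64)) := by
          rw [Real.volume_Icc, Real.volume_Icc]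
          gcongr
          · exact hB c
          · linarith
          · linarith
      _ = ENNReal.ofReal (κp / 2 / 8) := by
          rw [← ENNReal.ofReal_add (by positivity) (by positivity),
            ← ENNReal.ofReal_add (by positivity) (by positivity)]
          congr 1; ring
  obtain ⟨m, κ, L, hL, hmp, -, hE, hXX⟩ := exists_Lv x v hv Fc hF2 hu hug hfin hV hX hJ0 hJ he he'
    hκ2 (by linarith) hW0 hZ hBm' hB' M0 pick hpick
  choose n hn using hmp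
  have hmR : ∀ c, (0:ℝ) < m c := by
    intro c
    have h1 := hNle c (n c)
    rw [← hn c] at h1
    exact_mod_cast (Nat.zero_le _).trans_lt h1
  -- the weights
  have hκk : ∀ c, κ c = kk c (n c) := by
    intro c
    have h1 := hL.wt1 c
    have h2 := hL.wt2 c
    have h3 : W c < m c * (2:ℝ)⁻¹ ^ kk c (n c) := by
      have h4 := hNW c (n c)
      have h5 : (N c (n c) : ℝ) < m c := by rw [hn c]; exact_mod_cast hNle c (n c)
      rw [inv_pow, ← div_eq_mul_inv, lt_div_iff₀ (by positivity), h4]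
      exact h5
    have h4 : (m c : ℝ) * (2:ℝ)⁻¹ ^ kk c (n c) < 2 * W c := by
      have h4 := hNW c (n c)
      have h5 : (m c : ℝ) ≤ (1 + κp / 4) * N c (n c) := by rw [hn c]; exact hup c (n c)
      have h6 := hN16 c (n c)
      have h7 : (0:ℝ) < N c (n c) := by nlinarith
      rw [inv_pow, ← div_eq_mul_inv, div_lt_iff₀ (by positivity), mul_assoc, h4]
      nlinarith
    rcases lt_trichotomy (κ c) (kk c (n c)) with h5 | h5 | h5
    · exfalso
      have h6 : (2:ℝ)⁻¹ ^ kk c (n c) ≤ (2:ℝ)⁻¹ ^ (κ c + 1) :=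
        pow_le_pow_of_le_one (by norm_num) (by norm_num) h5
      rw [pow_succ] at h6
      have h7 := mul_le_mul_of_nonneg_left h6 (hmR c).le
      nlinarith
    · exact h5
    · exfalso
      have h6 : (2:ℝ)⁻¹ ^ κ c ≤ (2:ℝ)⁻¹ ^ (kk c (n c) + 1) :=
        pow_le_pow_of_le_one (by norm_num) (by norm_num) h5
      rw [pow_succ] at h6
      have h7 := mul_le_mul_of_nonneg_left h6 (hmR c).le
      nlinarith
  -- the subsets
  have hsub : ∀ c, ∃ L' ⊆ L c, L'.card = N c (n c) := by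
    intro c
    apply Finset.exists_subset_card_eq
    have h1 := hL.card1 c
    have h2 := hNp c (n c)
    rw [← hn c] at h2
    have h3 : (N c (n c) : ℝ) < (L c).card := by
      have h4 : (1 - κp / 2 / 4) * (m c : ℝ) = (1 - κp / 8) * m c := by ring
      rw [h4] at h1
      linarith
    exact_mod_cast h3.le
  choose L' hL' hc' using hsub
  have hup' : ∀ c, (m c : ℝ) ≤ (1 + κp / 4) * (L' c).card := by
    intro c
    rw [hc' c, hn c]; exact hup c (n c)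
  have hb' : ∀ c, (1 - κp / 4) * m c ≤ (L' c).card := by
    intro c
    have h1 := hup' c
    have h2 : (0:ℝ) ≤ (L' c).card := Nat.cast_nonneg _
    have h3 := mul_le_mul_of_nonneg_left h1 (by linarith : (0:ℝ) ≤ 1 - κp / 4)
    nlinarith [sq_nonneg κp]
  have hm0 : ∀ c, 0 < m c := fun c => by exact_mod_cast hmR c
  have hwt : ∀ c, (m c : ℝ) * (2:ℝ)⁻¹ ^ κ c ≤ (1 + κp) * W c := by
    intro c
    have h4 := hNW c (n c)
    have h5 := hup' c
    rw [hc' c] at h5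
    rw [hκk c, inv_pow, ← div_eq_mul_inv, div_le_iff₀ (by positivity), mul_assoc, h4]
    have h7 : (0:ℝ) ≤ N c (n c) := Nat.cast_nonneg _
    nlinarith
  have hprog : ∀ c, ∃ o ∈ Ioo (0:ℝ) 1, L' c ⊆ ap (m c) o := by
    intro c
    obtain ⟨o, ho, h⟩ := hL.prog c
    exact ⟨o, ho, (hL' c).trans h⟩
  refine ⟨κ, L', ⟨hL.lf, ?_, ?_, ?_, ?_, ?_, ?_, ?_, ?_, ?_, ?_⟩, ?_, ?_, ?_⟩
  · intro c t ht
    have h1 := hL.bad c t (hL' c ht)
    constructor
    · by_contra h2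
      exact h1 (Or.inr (Or.inl (not_le.1 h2)))
    · by_contra h2
      exact h1 (Or.inr (Or.inr (not_le.1 h2)))
  · intro c
    rw [hc' c, hκk c, ← hNW c (n c), mul_assoc, ← mul_pow]
    norm_num
  · intro c t ht
    obtain ⟨o, ho, h⟩ := hprog c
    refine pos_of_sub (hm0 c) ho h (b := κp / 4) (by positivity) (hb' c) hκ1 le_rfl ?_ ht
    have h1 := hN16 c (n c)
    have h2 : (N c (n c) : ℝ) ≤ m c := by rw [hn c]; exact_mod_cast (hNle c (n c)).le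
    nlinarith
  · intro c a b hab
    obtain ⟨o, ho, h⟩ := hprog c
    exact dens_of_sub (hm0 c) h (hb' c) hκ0 hκ1 le_rfl hab
  · intro c t ht t' ht' htt
    have h1 := hL.gap c t (hL' c ht) t' (hL' c ht') htt
    have h2 := hup' c
    have h3 : 0 < t' - t := by linarith
    have h4 := mul_le_mul_of_nonneg_right h2 h3.le
    have h5 : (0:ℝ) ≤ (L' c).card := Nat.cast_nonneg _
    have h6 : (1 + κp / 4) * ((L' c).card : ℝ) * (t' - t) ≤ (1 + κp) * (L' c).card * (t' - t) := by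
      gcongr
      linarith
    linarith
  · exact fun c t ht => hL.off c t (hL' c ht)
  · exact fun c t ht h => hL.bad c t (hL' c ht) (Or.inl h)
  · exact fun c t ht => hL.vert c t (hL' c ht)
  · exact fun c t ht => hL.fin c t (hL' c ht)
  · exact fun c c' hcc t ht t' ht' => hL.sep c c' hcc t (hL' c ht) t' (hL' c' ht')
  · intro c
    rw [hc' c]
    exact le_trans (by simp only [jj]; omega) (hNj c (n c))
  · intro c j
    calc _ ≤ ENNReal.ofReal ((2 : ℝ)⁻¹ ^ κ c) * ∑ t ∈ L c, cr (u c) (x j) (v j) t := by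
          gcongr
          exact hL' c
      _ ≤ _ := hE c j
      _ ≤ _ := mul_le_mul' (ENNReal.ofReal_le_ofReal (hwt c)) le_rfl
  · intro c i
    calc _ ≤ ENNReal.ofReal ((2 : ℝ)⁻¹ ^ κ c) * ∑ t ∈ L c, X c i t := by
          gcongr
          exact hL' c
      _ ≤ _ := hXX c i
      _ ≤ _ := mul_le_mul' (ENNReal.ofReal_le_ofReal (hwt c)) le_rfl

end

end Crest.Agent.R096.Ls_222
end

-- ▼ part R096/Ls8_222

set_option autoImplicit false
set_option linter.unusedSectionVars false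

open MeasureTheory Set Filter
open scoped Topology ENNReal

namespace Crest.Agent.R096.Ls_222

open Crest.Agent.R096.Bas_731 Crest.Agent.R96.En2_199 Crest.Agent.R96.Sg1_199
open Crest.Agent.R096.Msh_715
open Crest.Agent.R096.SkC1_961 (E3 Hom3 FoamD NN)
open Crest.Agent.R096.Bsp_628 Crest.Agent.R096.Brk1_582 Crest.Agent.R096.Brk3_582
open Crest.Agent.R096.Brk5_582
open Crest.Agent.R96.Push_899
open Crest.Agent.R096.Mbf_337

noncomputable section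

/-! ### dyadic targets -/

/-- a power of two in `(s/2, s]` as a dyadic target -/
theorem exists_dyadic {s : ℝ} (hs : 0 < s) :
    ∃ W : ℝ, 0 < W ∧ s / 2 < W ∧ W ≤ s ∧ ∃ k N : ℕ, W * 2 ^ k = N := by
  obtain ⟨n, h1, h2⟩ := exists_mem_Ico_zpow hs (by norm_num : (1:ℝ) < 2)
  refine ⟨(2:ℝ) ^ n, by positivity, ?_, h1, ?_⟩
  · rw [zpow_add₀ (by norm_num), zpow_one] at h2
    linarith
  · refine ⟨n.natAbs, 2 ^ (n + n.natAbs).toNat, ?_⟩
    have h3 : (0:ℤ) ≤ n + n.natAbs := by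
      have := neg_abs_le n
      rw [← Int.natCast_natAbs] at this
      omega
    rw [← zpow_natCast (2:ℝ) n.natAbs, ← zpow_add₀ (by norm_num), Nat.cast_pow, Nat.cast_ofNat,
      ← zpow_natCast, Int.toNat_of_nonneg h3]

section foam

variable {δ κ0 R c0 : ℝ} {La Om : Set E3} {ι : Type} {Φ : FoamD δ κ0 R c0 La} {T : Tiling Om ι}
  {f : E3 → E3}

/-- our levels are levels of `Mbf_337` -/
theorem levels2_of_Lx {κp μ κ3 : ℝ} {W : Φ.F → ℝ} (hW1 : ∀ c, c.1.sz ≤ κ3 * W c)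
    (hW2 : ∀ c, W c ≤ κ3 * c.1.sz) {Z Bad : Φ.F → Set ℝ} {κ : Φ.F → ℕ} {L : Φ.F → Finset ℝ}
    (h : Lx (ea (T := T)) (ev (T := T)) (us Φ f) (Vt T) κp μ W Z Bad κ L) {m0 : Φ.F → ℕ}
    (hm : ∀ c, m0 c ≤ (L c).card) : Mbf_337.Levels Φ T f κp μ κ3 Z m0 κ L where
  lf := h.lf
  marg := h.marg
  many := fun c => by rw [h.card c]; exact hW1 c
  few := fun c => by rw [h.card c]; exact hW2 c
  large := hm
  dens := h.dens
  off := h.off
  vert := fun c t ht x hx hd => h.vert c t ht x ⟨hx, hd⟩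
  fin := by
    intro c t ht x hx hd
    let e : Edg T := ⟨T.cc x, x, hx, hd, rfl⟩
    have he : sgm (ea e) (ev e) = T.cc x := sgm_edg e
    have h1 := h.fin c t ht e
    rw [he] at h1
    exact h1
  sep := by
    intro c c' hcc t ht t' ht' x hx hd
    let e : Edg T := ⟨T.cc x, x, hx, hd, rfl⟩
    have he : sgm (ea e) (ev e) = T.cc x := sgm_edg e
    exact h.sep c c' hcc t ht t' ht' e x (he ▸ T.self_mem_cc x)

/-- **LEVSEL**, output in the language of `Mbf_337`, exact cardinals, sharp energy factor -/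
theorem levsel2 (hLa : IsOpen La) (hf : Hom3 f Om La) (T : Tiling Om ι)
    (hh : ∀ e : Edg T, ∀ y ∈ sgm (ea e) (ev e), ∀ c, f y ∉ (Φ.B c).S)
    {g : Φ.F → Edg T → E3 → ℝ≥0∞}
    (hug : ∀ c e, UGs (us Φ f c) (g c e) (ea e) (ev e))
    (hfin : ∀ c e, li (g c e) (ea e) (ev e) ≠ ∞)
    {κ' : Φ.F → Type*} [∀ c, Fintype (κ' c)] {X : ∀ c, κ' c → ℝ → ℝ≥0∞}
    (hX : ∀ c j, AEMeasurable (X c j) (volume.restrict (Icc (0:ℝ) 1)))
    {J : ∀ c, κ' c → ℝ} (hJ0 : ∀ c j, 0 ≤ J c j)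
    (hJ : ∀ c j, ∫⁻ y in Icc (0:ℝ) 1, X c j y ≤ ENNReal.ofReal (J c j))
    {e' : Φ.F → ℝ} (he' : ∀ c, 0 < e' c)
    {err : Edg T → ℝ≥0∞} (herr : ∀ e, err e ≠ 0)
    {κp : ℝ} (hκ0 : 0 < κp) (hκ1 : κp ≤ 1) {μ : ℝ} (hμ : μ ≤ κp / 64) {κ3 : ℝ}
    {W : Φ.F → ℝ} (hW0 : ∀ c, 0 < W c) (hWd : ∀ c, ∃ k N : ℕ, W c * 2 ^ k = N)
    (hW1 : ∀ c, c.1.sz ≤ κ3 * W c) (hW2 : ∀ c, W c ≤ κ3 * c.1.sz)
    {Z Bad : Φ.F → Set ℝ} (hZ : ∀ c, volume (Z c) = 0) (hBm : ∀ c, MeasurableSet (Bad c))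
    (hB : ∀ c, volume (Bad c ∩ Icc 0 1) ≤ ENNReal.ofReal (κp / 32)) (m0 : Φ.F → ℕ) :
    ∃ (κ : Φ.F → ℕ) (L : Φ.F → Finset ℝ),
      Lx (ea (T := T)) (ev (T := T)) (us Φ f) (Vt T) κp μ W Z Bad κ L ∧
      Mbf_337.Levels Φ T f κp μ κ3 Z m0 κ L ∧ (∀ c, ∀ t ∈ L c, t ∉ Bad c) ∧
      (∀ c, ((L c).card : ℝ) * (2 : ℝ)⁻¹ ^ κ c = W c) ∧
      (∀ e, EN (us Φ f) κ L e ≤
        li (fun y => ∑' c : Φ.F, ENNReal.ofReal ((1 + κp) * W c) * g c e y) (ea e) (ev e) + err e) ∧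
      (∀ i, NN Φ T f κ L i ≤ ∑ e ∈ eIn T i,
        (li (fun y => ∑' c : Φ.F, ENNReal.ofReal ((1 + κp) * W c) * g c e y) (ea e) (ev e) +
          err e)) ∧
      ∀ c j, ENNReal.ofReal ((2 : ℝ)⁻¹ ^ κ c) * ∑ t ∈ L c, X c j t ≤
        ENNReal.ofReal ((1 + κp) * W c) * (ENNReal.ofReal (J c j) + ENNReal.ofReal (e' c)) := by
  classical
  have : Countable Φ.F := countable_F Φ
  obtain ⟨e0, he0, hes⟩ := exists_errs (𝒞 := Φ.F) (ι := Edg T)
    (w := fun c => ENNReal.ofReal ((1 + κp) * W c)) (fun c => ENNReal.ofReal_ne_top) herr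
  choose K hK hKO hKc using fun c => exists_compact_us (Φ := Φ) hLa hf c
  let Fc : Φ.F → Finset (Edg T) := fun c => (finite_edg_sgm T (hK c) (hKO c)).toFinset
  obtain ⟨κ, L, hLx, hM, hE, hXX⟩ := exists_Lx (ea (T := T)) (ev (T := T)) (fun e => ev_ne e)
    (u := us Φ f) (g := g) Fc
    (by
      intro c e he y hy hyv
      apply he
      simp only [Fc, Finite.mem_toFinset]
      exact ⟨y, hy, hKc c y (sgm_sub_Om e hy) (hh e y hy) hyv.2⟩)
    (fun c e _ => continuousOn_us hLa hf (sgm_sub_Om e) (hh e) c)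
    (fun c e _ => hug c e) (fun c e _ => hfin c e) (countable_Vt T) hX hJ0 hJ he0 he' hκ0 hκ1 hμ
    hW0 hWd hZ hBm hB m0
  have hen : ∀ e, EN (us Φ f) κ L e ≤
      li (fun y => ∑' c : Φ.F, ENNReal.ofReal ((1 + κp) * W c) * g c e y) (ea e) (ev e) +
        err e := by
    intro e
    unfold EN
    calc ∑' c, ENNReal.ofReal ((2 : ℝ)⁻¹ ^ κ c) * ∑ t ∈ L c, cr (us Φ f c) (ea e) (ev e) t
        ≤ ∑' c : Φ.F, (ENNReal.ofReal ((1 + κp) * W c) * li (g c e) (ea e) (ev e) +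
            ENNReal.ofReal ((1 + κp) * W c) * ENNReal.ofReal (e0 c e)) := by
          refine ENNReal.tsum_le_tsum fun c => ?_
          rw [← mul_add]
          exact hE c e
      _ = ∑' c : Φ.F, ENNReal.ofReal ((1 + κp) * W c) * li (g c e) (ea e) (ev e) +
            ∑' c : Φ.F, ENNReal.ofReal ((1 + κp) * W c) * ENNReal.ofReal (e0 c e) :=
          ENNReal.tsum_add
      _ ≤ _ := add_le_add (tsum_mul_li_le _ _ _ _) (hes e)
  have hLe := levels2_of_Lx hW1 hW2 hLx hM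
  exact ⟨κ, L, hLx, hLe, hLx.bad, hLx.card, hen,
    fun i => (NN_le hLe.vert i).trans (Finset.sum_le_sum fun e _ => hen e), hXX⟩

/-- weighted sum of the upper gradients of all level functions, any weights `A c ≤ B * size` -/
theorem sum_grad_le' (hLa : IsOpen La) (hδ : 0 < δ) (hR : 0 < R) (hf : Hom3 f Om La) {y : E3}
    (hy : y ∈ Om) (hh : ∀ c, f y ∉ (Φ.B c).S) (G : E3 → ℝ≥0∞) {A : Φ.F → ℝ} {B : ℝ}
    (hB : 0 ≤ B) (hA : ∀ c, A c ≤ B * c.1.sz) :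
    ∑' c : Φ.F, ENNReal.ofReal (A c) * (ENNReal.ofReal (Cl δ R / c.1.sz) *
      {y | us Φ f c y < 1}.indicator G y) ≤ ENNReal.ofReal (4 * B * Cl δ R) * G y := by
  have h1 := sum_grad_le (Φ := Φ) hLa hδ hR hf hy hh G
  have hCl := Cl_nonneg hδ hR
  calc ∑' c : Φ.F, ENNReal.ofReal (A c) * (ENNReal.ofReal (Cl δ R / c.1.sz) *
      {y | us Φ f c y < 1}.indicator G y)
      ≤ ∑' c : Φ.F, ENNReal.ofReal (B / 2) * (ENNReal.ofReal (2 * c.1.sz) *
        (ENNReal.ofReal (Cl δ R / c.1.sz) * {y | us Φ f c y < 1}.indicator G y)) := by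
        refine ENNReal.tsum_le_tsum fun c => ?_
        rw [← mul_assoc (ENNReal.ofReal (B / 2)), ← ENNReal.ofReal_mul (by positivity)]
        refine mul_le_mul' (ENNReal.ofReal_le_ofReal ?_) le_rfl
        have := hA c
        linarith
    _ = ENNReal.ofReal (B / 2) * ∑' c : Φ.F, (ENNReal.ofReal (2 * c.1.sz) *
        (ENNReal.ofReal (Cl δ R / c.1.sz) * {y | us Φ f c y < 1}.indicator G y)) :=
        ENNReal.tsum_mul_left
    _ ≤ ENNReal.ofReal (B / 2) * (ENNReal.ofReal (8 * Cl δ R) * G y) := by gcongr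
    _ = _ := by
        rw [← mul_assoc, ← ENNReal.ofReal_mul (by positivity)]
        congr 2; ring

/-- **LEVSEL from an upper gradient of `Psi ∘ f`** -/
theorem levsel2_G (hLa : IsOpen La) (hδ : 0 < δ) (hR : 0 < R) (hf : Hom3 f Om La)
    (T : Tiling Om ι)
    (hh : ∀ e : Edg T, ∀ y ∈ sgm (ea e) (ev e), ∀ c, f y ∉ (Φ.B c).S)
    {G : Edg T → E3 → ℝ≥0∞}
    (hG : ∀ e, UGv (fun y => Φ.Psi (f y)) (G e) (ea e) (ev e))
    (hGf : ∀ e, li (G e) (ea e) (ev e) ≠ ∞)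
    {κ' : Φ.F → Type*} [∀ c, Fintype (κ' c)] {X : ∀ c, κ' c → ℝ → ℝ≥0∞}
    (hX : ∀ c j, AEMeasurable (X c j) (volume.restrict (Icc (0:ℝ) 1)))
    {J : ∀ c, κ' c → ℝ} (hJ0 : ∀ c j, 0 ≤ J c j)
    (hJ : ∀ c j, ∫⁻ y in Icc (0:ℝ) 1, X c j y ≤ ENNReal.ofReal (J c j))
    {e' : Φ.F → ℝ} (he' : ∀ c, 0 < e' c)
    {err : Edg T → ℝ≥0∞} (herr : ∀ e, err e ≠ 0)
    {κp : ℝ} (hκ0 : 0 < κp) (hκ1 : κp ≤ 1) {μ : ℝ} (hμ : μ ≤ κp / 64) {κ3 θ : ℝ} (hθ : 0 ≤ θ)
    {W : Φ.F → ℝ} (hW0 : ∀ c, 0 < W c) (hWd : ∀ c, ∃ k N : ℕ, W c * 2 ^ k = N)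
    (hW1 : ∀ c, c.1.sz ≤ κ3 * W c) (hW2 : ∀ c, W c ≤ κ3 * c.1.sz) (hW3 : ∀ c, W c ≤ θ * c.1.sz)
    {Z Bad : Φ.F → Set ℝ} (hZ : ∀ c, volume (Z c) = 0) (hBm : ∀ c, MeasurableSet (Bad c))
    (hB : ∀ c, volume (Bad c ∩ Icc 0 1) ≤ ENNReal.ofReal (κp / 32)) (m0 : Φ.F → ℕ) :
    ∃ (κ : Φ.F → ℕ) (L : Φ.F → Finset ℝ),
      Lx (ea (T := T)) (ev (T := T)) (us Φ f) (Vt T) κp μ W Z Bad κ L ∧
      Mbf_337.Levels Φ T f κp μ κ3 Z m0 κ L ∧ (∀ c, ∀ t ∈ L c, t ∉ Bad c) ∧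
      (∀ c, ((L c).card : ℝ) * (2 : ℝ)⁻¹ ^ κ c = W c) ∧
      (∀ e, EN (us Φ f) κ L e ≤
        ENNReal.ofReal (8 * θ * Cl δ R) * li (G e) (ea e) (ev e) + err e) ∧
      (∀ i, NN Φ T f κ L i ≤ ∑ e ∈ eIn T i,
        (ENNReal.ofReal (8 * θ * Cl δ R) * li (G e) (ea e) (ev e) + err e)) ∧
      ∀ c j, ENNReal.ofReal ((2 : ℝ)⁻¹ ^ κ c) * ∑ t ∈ L c, X c j t ≤
        ENNReal.ofReal ((1 + κp) * W c) * (ENNReal.ofReal (J c j) + ENNReal.ofReal (e' c)) := by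
  have hfin : ∀ (c : Φ.F) e, li (fun y => ENNReal.ofReal (Cl δ R / c.1.sz) *
      {y | us Φ f c y < 1}.indicator (G e) y) (ea e) (ev e) ≠ ∞ := by
    intro c e
    rw [li_const_mul ENNReal.ofReal_ne_top]
    refine ENNReal.mul_ne_top ENNReal.ofReal_ne_top (ne_top_of_le_ne_top (hGf e) ?_)
    exact li_mono fun y _ => indicator_le_self _ _ _
  obtain ⟨κ, L, h1, h2, h3, h4, h5, -, h7⟩ := levsel2 hLa hf T hh
    (g := fun c e y => ENNReal.ofReal (Cl δ R / c.1.sz) * {y | us Φ f c y < 1}.indicator (G e) y)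
    (fun c e => ugs_us hLa hδ hR hf (sgm_sub_Om e) (hh e) (hG e) c) hfin hX hJ0 hJ he' herr hκ0 hκ1
    hμ hW0 hWd hW1 hW2 hZ hBm hB m0
  have h8 : ∀ e, EN (us Φ f) κ L e ≤
      ENNReal.ofReal (8 * θ * Cl δ R) * li (G e) (ea e) (ev e) + err e := by
    intro e
    refine (h5 e).trans (add_le_add ?_ le_rfl)
    rw [← li_const_mul ENNReal.ofReal_ne_top]
    refine li_mono fun y hy => ?_
    have h9 := sum_grad_le' (Φ := Φ) hLa hδ hR hf (sgm_sub_Om e hy) (hh e y hy) (G e)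
      (A := fun c => (1 + κp) * W c) (B := 2 * θ) (by positivity) (fun c => by
        have h10 := hW3 c
        have h11 := hW0 c
        nlinarith)
    rwa [show 4 * (2 * θ) * Cl δ R = 8 * θ * Cl δ R by ring] at h9
  exact ⟨κ, L, h1, h2, h3, h4, h8,
    fun i => (NN_le h2.vert i).trans (Finset.sum_le_sum fun e _ => h8 e), h7⟩

/-- dyadic targets `sz / 2 < W ≤ sz` for all bricks (BF / EA; `θ = 1`, `κ3 = 8`) -/
theorem exists_targets (Φ : FoamD δ κ0 R c0 La) {κ3 : ℝ} (hκ3 : 8 ≤ κ3) :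
    ∃ W : Φ.F → ℝ, (∀ c, 0 < W c) ∧ (∀ c, ∃ k N : ℕ, W c * 2 ^ k = N) ∧
      (∀ c, c.1.sz ≤ κ3 * W c) ∧ (∀ c, W c ≤ κ3 * c.1.sz) ∧ ∀ c, W c ≤ 1 * c.1.sz := by
  choose W h1 h2 h3 h4 using fun c : Φ.F => exists_dyadic (szF_pos Φ c)
  refine ⟨W, h1, h4, fun c => ?_, fun c => ?_, fun c => ?_⟩
  · nlinarith [h1 c, h2 c]
  · nlinarith [szF_pos Φ c, h3 c]
  · rw [one_mul]; exact h3 c

end foam

/-! ### the edges avoid the holes -/

section holes

variable {E : Type*} [NormedAddCommGroup E] [NormedSpace ℝ E] [FiniteDimensional ℝ E]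

theorem interior_sub_I {H : Finset ((E →L[ℝ] ℝ) × ℝ)} (hne : (I H).Nonempty) :
    interior (P H) ⊆ I H := by
  obtain ⟨z, hz⟩ := hne
  intro x hx
  have hc : Tendsto (fun t : ℝ => x + t • (x - z)) (𝓝 0) (𝓝 x) := by
    have : Continuous fun t : ℝ => x + t • (x - z) := by fun_prop
    simpa using this.tendsto 0
  obtain ⟨ε, hε, hb⟩ := Metric.eventually_nhds_iff.1 (hc.eventually (isOpen_interior.mem_nhds hx))
  have h1 : x + (ε / 2) • (x - z) ∈ P H := interior_subset (hb (by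
    rw [Real.dist_eq, sub_zero, abs_of_pos (by positivity)]; linarith))
  intro h hh
  have h2 := h1 h hh
  have h3 := hz h hh
  rw [map_add, map_smul, map_sub, smul_eq_mul] at h2
  nlinarith

end holes

section holes3

variable {δ κ0 R c0 : ℝ} {La Om : Set E3} {ι : Type} {Φ : FoamD δ κ0 R c0 La} {T : Tiling Om ι}
  {f : E3 → E3}

/-- **the 1-cells of the mesh avoid the holes**; `hx`: the preimages of the point holes are on no
1-cell (true for almost every translate) -/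
theorem hh_of_cores {κ1 κ2 : ℝ} (hκ2 : 0 ≤ κ2) (hκ : κ1 * κ0 < κ2) {X : Set Φ.F}
    {J0 J V : Φ.F → Set ι}
    {ct : Φ.F → ι} {A : Φ.F → E3 ≃ᵃ[ℝ] E3} {lam : Φ.F → ℝ} {z : Φ.F → E3} {θ : Φ.F → E3 → E3}
    {φ : Φ.F → E3 → ℝ} (hC : Cores Φ T f κ1 κ2 X J0 J V ct A lam z θ φ)
    (hx : ∀ c ∉ X, ∀ x ∈ Om, f x = (Φ.B c).lo → 2 ≤ T.dim x) :
    ∀ e : Edg T, ∀ y ∈ sgm (ea e) (ev e), ∀ c, f y ∉ (Φ.B c).S := by
  intro e y hy c hyc
  have hyO := sgm_sub_Om e hy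
  have hdim : T.dim y ≤ 1 := by
    rw [sgm_edg] at hy
    obtain ⟨e', x, hx', hd, rfl⟩ := e
    exact (T.dim_le hy).trans hd.le
  by_cases hcX : c ∈ X
  · have h := hC.exact_ c hcX
    have hyt : y ∈ P (T.H (ct c)) := by
      by_contra hn
      exact h.miss y hyO hn hyc
    have hyi : y ∉ interior (P (T.H (ct c))) := by
      intro hi
      have h1 := interior_sub_I (T.ne (ct c)) hi
      have h2 : T.V y = ⊤ := (T.V_eq_top_iff hyO).2 ⟨_, h1⟩
      have h3 : T.dim y = 3 := by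
        unfold Tiling.dim
        rw [h2, finrank_top]
        simp [E3]
      omega
    have hbox : ∀ k, z c k + lam c * c.1.lo k ≤ A c y k ∧ A c y k ≤ z c k + lam c * c.1.hi k := by
      have h1 := hyt
      rw [h.tile] at h1
      exact h1
    have hlam := h.lam0
    have hsz := szF_pos Φ c
    have hside : ∀ k, 0 < c.1.side k := fun k => Bx.side_pos (Φ.bf.pos c.1 c.2) k
    have hasp : ∀ k, c.1.sz ≤ κ0 * c.1.side k := Φ.bf.asp c.1 c.2
    -- `y` is on the boundary of the box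
    have hface : ∃ k, A c y k = z c k + lam c * c.1.lo k ∨ A c y k = z c k + lam c * c.1.hi k := by
      by_contra hn
      push Not at hn
      apply hyi
      rw [h.tile]
      have hop : IsOpen (A c ⁻¹' {y | ∀ k, z c k + lam c * c.1.lo k < y k ∧
          y k < z c k + lam c * c.1.hi k}) := by
        refine IsOpen.preimage (AffineEquiv.continuous_of_finiteDimensional (A c)) ?_
        have : {y : E3 | ∀ k, z c k + lam c * c.1.lo k < y k ∧ y k < z c k + lam c * c.1.hi k} =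
            ⋂ k, {y : E3 | z c k + lam c * c.1.lo k < y k ∧ y k < z c k + lam c * c.1.hi k} := by
          ext; simp
        rw [this]
        refine isOpen_iInter_of_finite fun k => ?_
        exact (isOpen_lt continuous_const (continuous_apply k)).inter
          (isOpen_lt (continuous_apply k) continuous_const)
      refine interior_maximal ?_ hop ?_
      · intro w hw k
        exact ⟨(hw k).1.le, (hw k).2.le⟩
      · intro k
        exact ⟨lt_of_le_of_ne (hbox k).1 (Ne.symm (hn k).1), lt_of_le_of_ne (hbox k).2 (hn k).2⟩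
    have hdist : ‖f y - A c y‖ ≤ κ1 * (lam c * c.1.sz) := by
      refine (h.nbd y fun k => ?_).2 hyi
      have h1 := hbox k
      have h2 : 0 ≤ κ2 * (lam c * c.1.side k) := by have := hside k; positivity
      constructor <;> linarith [h1.1, h1.2]
    have hκ1 : 0 ≤ κ1 := by
      by_contra hneg
      push Not at hneg
      have h1 : κ1 * (lam c * c.1.sz) < 0 := mul_neg_of_neg_of_pos hneg (by positivity)
      linarith [norm_nonneg (f y - A c y)]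
    obtain ⟨k, hk⟩ := hface
    have h1 : |f y k - A c y k| ≤ κ1 * (lam c * c.1.sz) := by
      have := norm_le_pi_norm (f y - A c y) k
      rw [Pi.sub_apply, Real.norm_eq_abs] at this
      exact this.trans hdist
    have h2 : κ1 * (lam c * c.1.sz) < κ2 * (lam c * c.1.side k) := by
      have h3 : κ1 * (lam c * c.1.sz) ≤ κ1 * (lam c * (κ0 * c.1.side k)) := by
        gcongr
        exact hasp k
      have h4 : κ1 * (lam c * (κ0 * c.1.side k)) = κ1 * κ0 * (lam c * c.1.side k) := by ring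
      have h5 : κ1 * κ0 * (lam c * c.1.side k) < κ2 * (lam c * c.1.side k) :=
        mul_lt_mul_of_pos_right hκ (by have := hside k; positivity)
      linarith
    have h3 := h.hole k
    have h4 : (Φ.B c).lo k ≤ f y k ∧ f y k ≤ (Φ.B c).hi k := hyc k
    rw [abs_le] at h1
    rcases hk with hk | hk <;> linarith [h1.1, h1.2, h3.1, h3.2, h4.1, h4.2]
  · have h := hC.tiny c hcX
    have h1 : f y = (Φ.B c).lo := by
      funext k
      have h4 : (Φ.B c).lo k ≤ f y k ∧ f y k ≤ (Φ.B c).hi k := hyc k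
      rw [← h.pt] at h4
      exact le_antisymm h4.2 h4.1
    have := hx c hcX y hyO h1
    omega

end holes3

end

end Crest.Agent.R096.Ls_222
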