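import Crest.Agent.R96.Pm2_199
import Crest.Agent.R96.Eac1_348
import Mathlib
import Crest.Agent.R096.Ls8_222
import Crest.Agent.R096.Ls9_222
import Crest.Agent.R096.Der1_764

-- ▼ part R096/Pmc2_112
section

/-!
# Row 96 (S0127), helper112.  PREMACH, part 2: the energy of the edges of one mesh and the classes

`EE_le`: 348's energy `EE` of the ordinary tiles (with the constants `C (shape)` of the machine) is at
most the weighted sum of the energies `MF.EnT` of the classes of 199's shiftable mesh.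
-/

set_option autoImplicit false
set_option linter.style.longLine false

open MeasureTheory Set Filter Metric
open scoped Topology ENNReal

namespace Crest.Agent.R096.Pmc_112

open Crest.Agent.R096.Msh_715
open Crest.Agent.R096.SkC1_961 (E3 Cfg FoamD)
open Crest.Agent.R096.Ls_222 (Edg ea ev eIn)
open Crest.Agent.R096.Ea_713 (lin)
open Crest.Agent.R96.Pm_199
open Crest.Agent.R96.Sg1_199 (li sgm)
open Crest.Agent.R96.Sg3_199 (EnF)
open Crest.Agent.R96.EaCore_348 (bt EE)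

noncomputable section

variable {Om : Set E3} {F J : Type}

/-- the norm of the linear part of the frame -/
theorem norm_lin_le {A : E3 ≃ᵃ[ℝ] E3} {β : ℝ} (h : ∀ y : E3, ‖A.linear y‖ ≤ β * ‖y‖) :
    0 ≤ β ∧ ‖lin A‖ ≤ β := by
  have h0 : 0 ≤ β := by
    have h1 := h (Pi.single 0 1)
    have h2 : ‖(Pi.single 0 1 : E3)‖ = 1 := by
      rw [Pi.norm_single, norm_one]
    rw [h2, mul_one] at h1
    exact (norm_nonneg _).trans h1
  exact ⟨h0, ContinuousLinearMap.opNorm_le_bound _ h0 h⟩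

/-- **the energy of one mesh and its classes** -/
theorem EE_le (M : MF Om F J) {C : Set (Set E3) → ℝ} (hC0 : ∀ 𝒦, 0 ≤ C 𝒦) {Cm : M.κ → ℝ}
    (hC : ∀ k, ∀ 𝒦 ∈ M.Sh k, C 𝒦 ≤ Cm k) (G : E3 → E3 → ℝ≥0∞) (K : ℝ≥0∞) {p : ℝ} (hp : 0 ≤ p)
    {a : E3} {w : J → E3} (h : M.Ok a w) :
    EE C (M.md a w h).T (M.md a w h).fr {i | (M.md a w h).Ord i} (fun e => K * le G e) p ≤
      ∑' k, (ENNReal.ofReal (Cm k) * K) ^ p * M.EnT G p a w h k := by
  classical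
  set T := (M.md a w h).T with hT
  set fr := (M.md a w h).fr with hfr
  set O : Set (M.md a w h).ι := {i | (M.md a w h).Ord i} with hO
  have key : ∀ i : O, bt C T fr i.1 * ∑ e ∈ eIn T i.1, K * le G e ≤
      (ENNReal.ofReal (Cm (M.cl (M.pot a w h i.1))) * K) *
        (ENNReal.ofReal (M.β (M.pot a w h i.1)) * ∑ e ∈ eIn T i.1, le G e) := by
    intro i
    have h1 := M.shp a w h i.1 i.2
    obtain ⟨h2, h3⟩ := norm_lin_le (M.frn a w h i.1 i.2)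
    rw [← Finset.mul_sum]
    have h4 : bt C T fr i.1 ≤ ENNReal.ofReal (Cm (M.cl (M.pot a w h i.1))) *
        ENNReal.ofReal (M.β (M.pot a w h i.1)) := by
      unfold bt
      rw [← ENNReal.ofReal_mul ((hC0 _).trans (hC _ _ h1))]
      exact ENNReal.ofReal_le_ofReal (mul_le_mul (hC _ _ h1) h3 (norm_nonneg _)
        ((hC0 _).trans (hC _ _ h1)))
    calc bt C T fr i.1 * (K * ∑ e ∈ eIn T i.1, le G e)
        ≤ (ENNReal.ofReal (Cm (M.cl (M.pot a w h i.1))) *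
            ENNReal.ofReal (M.β (M.pot a w h i.1))) * (K * ∑ e ∈ eIn T i.1, le G e) :=
          mul_le_mul' h4 le_rfl
      _ = _ := by ring
  -- the fibres
  have e1 : ∑' i : O, volume (P (T.H i.1)) *
      ((ENNReal.ofReal (Cm (M.cl (M.pot a w h i.1))) * K) *
        (ENNReal.ofReal (M.β (M.pot a w h i.1)) * ∑ e ∈ eIn T i.1, le G e)) ^ p =
      ∑' (k : M.κ) (i : {i : O // M.cl (M.pot a w h i.1) = k}), volume (P (T.H i.1.1)) *
      ((ENNReal.ofReal (Cm (M.cl (M.pot a w h i.1.1))) * K) *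
        (ENNReal.ofReal (M.β (M.pot a w h i.1.1)) * ∑ e ∈ eIn T i.1.1, le G e)) ^ p := by
    rw [← ENNReal.tsum_sigma' (f := fun q : Σ k : M.κ, {i : O // M.cl (M.pot a w h i.1) = k} =>
      volume (P (T.H q.2.1.1)) *
      ((ENNReal.ofReal (Cm (M.cl (M.pot a w h q.2.1.1))) * K) *
        (ENNReal.ofReal (M.β (M.pot a w h q.2.1.1)) * ∑ e ∈ eIn T q.2.1.1, le G e)) ^ p)]
    exact ((Equiv.sigmaFiberEquiv (fun i : O => M.cl (M.pot a w h i.1))).tsum_eq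
      (fun i : O => volume (P (T.H i.1)) *
      ((ENNReal.ofReal (Cm (M.cl (M.pot a w h i.1))) * K) *
        (ENNReal.ofReal (M.β (M.pot a w h i.1)) * ∑ e ∈ eIn T i.1, le G e)) ^ p)).symm
  calc EE C T fr O (fun e => K * le G e) p
      ≤ ∑' i : O, volume (P (T.H i.1)) *
      ((ENNReal.ofReal (Cm (M.cl (M.pot a w h i.1))) * K) *
        (ENNReal.ofReal (M.β (M.pot a w h i.1)) * ∑ e ∈ eIn T i.1, le G e)) ^ p :=
        ENNReal.tsum_le_tsum fun i => mul_le_mul' le_rfl (ENNReal.rpow_le_rpow (key i) hp)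
    _ = _ := e1
    _ ≤ ∑' k, (ENNReal.ofReal (Cm k) * K) ^ p * M.EnT G p a w h k := by
        refine ENNReal.tsum_le_tsum fun k => ?_
        unfold MF.EnT EnF
        rw [← ENNReal.tsum_mul_left]
        refine le_trans (le_of_eq ?_) (ENNReal.tsum_comp_le_tsum_of_injective
          (f := fun i : {i : O // M.cl (M.pot a w h i.1) = k} =>
            (⟨i.1.1, i.1.2, i.2⟩ : {i // (M.md a w h).Ord i ∧ M.cl (M.pot a w h i) = k}))
          (fun i j hij => by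
            have h5 := congrArg Subtype.val hij
            exact Subtype.ext (Subtype.ext h5)) _)
        refine tsum_congr fun i => ?_
        obtain ⟨⟨i, hi⟩, hk⟩ := i
        simp only at hk ⊢
        subst hk
        rw [ENNReal.mul_rpow_of_nonneg _ _ hp]
        ring

end

end Crest.Agent.R096.Pmc_112
end

-- ▼ part R096/Ls10_222
section

set_option autoImplicit false
set_option linter.unusedSectionVars false

open MeasureTheory Set Filter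
open scoped Topology ENNReal

namespace Crest.Agent.R096.Ls_222

open Crest.Agent.R096.Bas_731 Crest.Agent.R96.En2_199 Crest.Agent.R96.Sg1_199
open Crest.Agent.R96.Acl_392
open Crest.Agent.R096.Msh_715
open Crest.Agent.R096.SkC1_961 (E3 Hom3 FoamD NN)
open Crest.Agent.R096.Mbf_337

noncomputable section

section sel

variable {δ κ0 R c0 : ℝ} {La Om : Set E3} {ι : Type} {Φ : FoamD δ κ0 R c0 La} {T : Tiling Om ι}
  {f : E3 → E3}

/-- **`sel`**: levels with words and numbers for one mesh, for all errors, null sets and lower bounds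
of the numbers of levels. `Bad` = the deleted levels; `hwd` = 124 / 120's words. -/
theorem sel (hLa : IsOpen La) (hδ : 0 < δ) (hR : 0 < R) (hf : Hom3 f Om La) (T : Tiling Om ι)
    (hh : ∀ e : Edg T, ∀ y ∈ sgm (ea e) (ev e), ∀ c, f y ∉ (Φ.B c).S)
    {G : Edg T → E3 → ℝ≥0∞}
    (hG : ∀ e, UGv (fun y => Φ.Psi (f y)) (G e) (ea e) (ev e))
    (hGf : ∀ e, li (G e) (ea e) (ev e) ≠ ∞)
    {κp : ℝ} (hκ0 : 0 < κp) (hκ1 : κp ≤ 1) {μ : ℝ} (hμ : μ ≤ κp / 64) {κ3 θ : ℝ} (hθ : 0 ≤ θ)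
    {W : Φ.F → ℝ} (hW0 : ∀ c, 0 < W c) (hWd : ∀ c, ∃ k N : ℕ, W c * 2 ^ k = N)
    (hW1 : ∀ c, c.1.sz ≤ κ3 * W c) (hW2 : ∀ c, W c ≤ κ3 * c.1.sz) (hW3 : ∀ c, W c ≤ θ * c.1.sz)
    {Bad : Φ.F → Set ℝ} (hBm : ∀ c, MeasurableSet (Bad c))
    (hB : ∀ c, volume (Bad c ∩ Icc 0 1) ≤ ENNReal.ofReal (κp / 32))
    {X : Set Φ.F} {ct : Φ.F → ι} {A : Φ.F → E3 ≃ᵃ[ℝ] E3} {lam : Φ.F → ℝ} {z : Φ.F → E3}
    {M : Φ.F → ℕ}
    (hwd : ∀ L : Φ.F → Finset ℝ, (∀ c, ∀ t ∈ L c, μ ≤ t ∧ t ≤ 1 - μ) →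
      (∀ c, ∀ t ∈ L c, t ∉ Bad c) → Words Φ T f X ct A lam z M L)
    (err : Edg T → ℝ≥0∞) (herr : ∀ e, err e ≠ 0) (Z : Φ.F → Set ℝ) (hZ : ∀ c, volume (Z c) = 0)
    (m0 : Φ.F → ℕ) :
    ∃ (κ : Φ.F → ℕ) (L : Φ.F → Finset ℝ),
      Levels Φ T f κp μ κ3 Z m0 κ L ∧ Words Φ T f X ct A lam z M L ∧
      (∀ c, ((L c).card : ℝ) * (2 : ℝ)⁻¹ ^ κ c = W c) ∧
      (∀ e, EN (us Φ f) κ L e ≤
        ENNReal.ofReal (8 * θ * Cl δ R) * li (G e) (ea e) (ev e) + err e) ∧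
      ∀ i, NN Φ T f κ L i ≤ ∑ e ∈ eIn T i,
        (ENNReal.ofReal (8 * θ * Cl δ R) * li (G e) (ea e) (ev e) + err e) := by
  obtain ⟨κ, L, -, h2, h3, h4, h5, h6, -⟩ := levsel2_G hLa hδ hR hf T hh hG hGf
    (κ' := fun _ => Empty) (X := fun _ j => j.elim) (fun _ j => j.elim)
    (J := fun _ j => j.elim) (fun _ j => j.elim) (fun _ j => j.elim) (e' := fun _ => 1)
    (fun _ => one_pos) herr hκ0 hκ1 hμ hθ hW0 hWd hW1 hW2 hW3 hZ hBm hB m0
  exact ⟨κ, L, h2, hwd L h2.marg h3, h4, h5, h6⟩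

/-- `sel` with `θ = 1` and the standard dyadic targets -/
theorem sel_std (hLa : IsOpen La) (hδ : 0 < δ) (hR : 0 < R) (hf : Hom3 f Om La) (T : Tiling Om ι)
    (hh : ∀ e : Edg T, ∀ y ∈ sgm (ea e) (ev e), ∀ c, f y ∉ (Φ.B c).S)
    {G : Edg T → E3 → ℝ≥0∞}
    (hG : ∀ e, UGv (fun y => Φ.Psi (f y)) (G e) (ea e) (ev e))
    (hGf : ∀ e, li (G e) (ea e) (ev e) ≠ ∞)
    {κp : ℝ} (hκ0 : 0 < κp) (hκ1 : κp ≤ 1) {μ : ℝ} (hμ : μ ≤ κp / 64) {κ3 : ℝ} (hκ3 : 8 ≤ κ3)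
    {Bad : Φ.F → Set ℝ} (hBm : ∀ c, MeasurableSet (Bad c))
    (hB : ∀ c, volume (Bad c ∩ Icc 0 1) ≤ ENNReal.ofReal (κp / 32))
    {X : Set Φ.F} {ct : Φ.F → ι} {A : Φ.F → E3 ≃ᵃ[ℝ] E3} {lam : Φ.F → ℝ} {z : Φ.F → E3}
    {M : Φ.F → ℕ}
    (hwd : ∀ L : Φ.F → Finset ℝ, (∀ c, ∀ t ∈ L c, μ ≤ t ∧ t ≤ 1 - μ) →
      (∀ c, ∀ t ∈ L c, t ∉ Bad c) → Words Φ T f X ct A lam z M L)
    (err : Edg T → ℝ≥0∞) (herr : ∀ e, err e ≠ 0) (Z : Φ.F → Set ℝ) (hZ : ∀ c, volume (Z c) = 0)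
    (m0 : Φ.F → ℕ) :
    ∃ (κ : Φ.F → ℕ) (L : Φ.F → Finset ℝ),
      Levels Φ T f κp μ κ3 Z m0 κ L ∧ Words Φ T f X ct A lam z M L ∧
      ∀ i, NN Φ T f κ L i ≤ ∑ e ∈ eIn T i,
        (ENNReal.ofReal (8 * Cl δ R) * li (G e) (ea e) (ev e) + err e) := by
  obtain ⟨W, h1, h2, h3, h4, h5⟩ := exists_targets Φ hκ3
  obtain ⟨κ, L, g1, g2, -, -, g3⟩ := sel hLa hδ hR hf T hh hG hGf hκ0 hκ1 hμ zero_le_one h1 h2 h3 h4
    h5 hBm hB hwd err herr Z hZ m0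
  rw [mul_one] at g3
  exact ⟨κ, L, g1, g2, g3⟩



end sel

end

end Crest.Agent.R096.Ls_222
end

-- ▼ part R096/Pmc3_112
section

/-!
# Row 96 (S0127), helper112.  PREMACH, part 3: the theorem

`premach`: for most shifts `a` of a shiftable mesh (199's `MF`) there are shifts of the blocks such
that the mesh has everything the machine needs: `Cores`, `Fine`, the choice of the levels with words
and numbers (348's `Choice`), and the energies of the classes.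
-/

set_option autoImplicit false
set_option linter.style.longLine false

open MeasureTheory Set Filter Metric
open scoped Topology ENNReal

namespace Crest.Agent.R096.Pmc_112

open Crest.Agent.R096.Msh_715
open Crest.Agent.R096.SkC1_961 (E3 Cfg FoamD Hom3 NN)
open Crest.Agent.R096.Ls_222
open Crest.Agent.R096.Ea_713 (lin)
open Crest.Agent.R096.Der_764 (OmH isOpen_OmH continuousOn_Psif)
open Crest.Agent.R096.Mbf_337
open Crest.Agent.R96.Pm_199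
open Crest.Agent.R96.Acl_392 (ACLat WD)
open Crest.Agent.R96.Sob4_199 (VWD)
open Crest.Agent.R96.En10_199 (P3)
open Crest.Agent.R96.Sg5_199 (gdir wd_dir)
open Crest.Agent.R96.Sg1_199 (li sgm)
open Crest.Agent.R96.Sg3_199 (EnF)
open Crest.Agent.R96.EaCore_348 (bt EE Choice)

noncomputable section

variable {δ κ0 R c0 : ℝ} {La Om : Set E3} {Φ : FoamD δ κ0 R c0 La} {f : E3 → E3}

/-- monotonicity of the levels in the density -/
theorem levels_mono {ι : Type} {T : Tiling Om ι} {κp κp' μ κ3 : ℝ} (h : κp ≤ κp')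
    {Z : Φ.F → Set ℝ} {m0 κ : Φ.F → ℕ} {L : Φ.F → Finset ℝ}
    (hL : Mbf_337.Levels Φ T f κp μ κ3 Z m0 κ L) : Mbf_337.Levels Φ T f κp' μ κ3 Z m0 κ L :=
  { hL with
    dens := fun c u v huv => by
      refine (hL.dens c u v huv).trans ?_
      have h1 : (0:ℝ) ≤ (L c).card := Nat.cast_nonneg _
      have h2 : 0 ≤ v - u := by linarith
      have h3 : 0 ≤ (v - u) * (L c).card := mul_nonneg h2 h1
      nlinarith }

/-- the points over the point holes are in no closed cell of dimension `≤ 1` -/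
theorem dim_of_cores {ι : Type} {T : Tiling Om ι} (hf : Hom3 f Om La) {κ1 κ2 : ℝ} {X : Set Φ.F}
    {J0 J V : Φ.F → Set ι} {ct : Φ.F → ι} {A : Φ.F → E3 ≃ᵃ[ℝ] E3} {lam : Φ.F → ℝ}
    {z : Φ.F → E3} {θ : Φ.F → E3 → E3} {φ : Φ.F → E3 → ℝ}
    (hC : Cores Φ T f κ1 κ2 X J0 J V ct A lam z θ φ) :
    ∀ c ∉ X, ∀ x ∈ Om, f x = (Φ.B c).lo → 2 ≤ T.dim x := by
  intro c hc x hx hfx
  obtain ⟨i, hi, y, hy, hfy⟩ := (hC.tiny c hc).mem
  have hyO : y ∈ Om := T.sub i (I_sub_P _ hy)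
  obtain ⟨fi, -, -, hfi, -⟩ := hf
  have hxy : x = y := by rw [← hfi x hx, hfx, ← hfy, hfi y hyO]
  have h1 := (T.V_eq_top_iff hyO).2 ⟨i, hy⟩
  rw [hxy]
  unfold Tiling.dim
  rw [h1, finrank_top]
  simp

/-- the good segments: `Psi ∘ f` has the upper gradient `‖D' y v‖` along the segment -/
def Qs (Φ : FoamD δ κ0 R c0 La) (f : E3 → E3) (Om : Set E3) (D' : E3 → E3 →L[ℝ] E3)
    (x v : E3) : Prop :=
  sgm x v ⊆ OmH Φ f Om → UGv (fun y => Φ.Psi (f y)) (fun y => ‖D' y v‖ₑ) x v ∧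
    li (fun y => ‖D' y v‖ₑ) x v ≠ ∞


theorem Qs_rev {D' : E3 → E3 →L[ℝ] E3} {x v : E3} (h : Qs Φ f Om D' x v) :
    Qs Φ f Om D' (x + v) (-v) := by
  intro hs
  have e1 : sgm (x + v) (-v) = sgm x v := by
    ext y
    constructor
    · rintro ⟨τ, hτ, rfl⟩
      refine ⟨1 - τ, ⟨by linarith [hτ.2], by linarith [hτ.1]⟩, ?_⟩
      show x + (1 - τ) • v = x + v + τ • -v
      rw [sub_smul, one_smul, smul_neg]; abel
    · rintro ⟨τ, hτ, rfl⟩
      refine ⟨1 - τ, ⟨by linarith [hτ.2], by linarith [hτ.1]⟩, ?_⟩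
      show x + v + (1 - τ) • -v = x + τ • v
      rw [sub_smul, one_smul, smul_neg]; abel
  rw [e1] at hs
  obtain ⟨h1, h2⟩ := h hs
  have e2 : (fun y => ‖D' y (-v)‖ₑ) = fun y => ‖D' y v‖ₑ := by
    funext y; rw [map_neg, enorm_neg]
  rw [e2]
  refine ⟨ugv_rev h1, ?_⟩
  rw [Ls_222.li_rev]
  exact h2

/-- almost every translate of a segment is good -/
theorem ae_Qs (hO : IsOpen Om) (hLa : IsOpen La) (hf : Hom3 f Om La)
    {D' : E3 → E3 →L[ℝ] E3}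
    (hD : ∀ l, VWD (OmH Φ f Om) volume (fun x => P3 (Φ.Psi (f x)))
      (fun x => P3 (D' x (Pi.single l 1))) (Pi.single l (1:ℝ))) (x v : E3) :
    ∀ᵐ a : E3, Qs Φ f Om D' (x + a) v := by
  have hOH : IsOpen (OmH Φ f Om) := isOpen_OmH hO hLa hf
  have hc := continuousOn_Psif (Φ := Φ) hLa hf
  have hu : ∀ k : Fin 3, ContinuousOn (fun y => Φ.Psi (f y) k) (OmH Φ f Om) := fun k =>
    (continuous_apply k).comp_continuousOn hc
  have hg : ∀ k : Fin 3, WD (OmH Φ f Om) volume (fun y => Φ.Psi (f y) k)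
      (gdir (fun l y => D' y (Pi.single l 1) k) v) v := fun k =>
    wd_dir (fun l => hD l k) v
  have h1 := Crest.Agent.R96.Sg2_199.ae_shift (μ := (volume : Measure E3)) hOH
    (ι := Unit) (fun _ => x) (fun _ => v) (u := fun (k : Fin 3) y => Φ.Psi (f y) k)
    (g := fun k _ => gdir (fun l y => D' y (Pi.single l 1) k) v) hu (fun k _ => hg k)
  have e : ∀ k : Fin 3, gdir (fun l y => D' y (Pi.single l 1) k) v = fun y => D' y v k := by
    intro k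
    funext y
    show ∑ l, v l * D' y (Pi.single l 1) k = D' y v k
    have hv : v = ∑ l, v l • (Pi.single l (1:ℝ) : E3) := by
      funext j
      simp [Finset.sum_apply, Pi.single_apply]
    conv_rhs => rw [hv, map_sum]
    rw [Finset.sum_apply]
    refine Finset.sum_congr rfl fun l _ => ?_
    rw [map_smul, Pi.smul_apply, smul_eq_mul]
  filter_upwards [h1] with a ha hs
  have h2 : ∀ k : Fin 3, ACLat (OmH Φ f Om) (fun y => Φ.Psi (f y) k) (fun y => D' y v k) v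
      (x + a) := by
    intro k
    have h3 := ha k ()
    simp only [e k] at h3
    exact h3
  exact ⟨ugv_of_acl hs h2, li_ne_top_of_aclv hs h2⟩

end

end Crest.Agent.R096.Pmc_112
end

-- ▼ part R096/Pmc4_112

/-!
# Row 96 (S0127), helper112.  PREMACH, part 4: the theorem `premach`
-/

set_option autoImplicit false
set_option linter.style.longLine false

open MeasureTheory Set Filter Metric
open scoped Topology ENNReal

namespace Crest.Agent.R096.Pmc_112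

open Crest.Agent.R096.Msh_715
open Crest.Agent.R096.SkC1_961 (E3 Cfg FoamD Hom3 NN)
open Crest.Agent.R096.Ls_222
open Crest.Agent.R096.Der_764 (OmH)
open Crest.Agent.R096.Mbf_337
open Crest.Agent.R96.Pm_199
open Crest.Agent.R96.Sob4_199 (VWD)
open Crest.Agent.R96.En10_199 (P3)
open Crest.Agent.R96.Sg1_199 (li sgm)
open Crest.Agent.R96.EaCore_348 (bt EE Choice)

noncomputable section

variable {δ κ0 R c0 : ℝ} {La Om : Set E3} {Φ : FoamD δ κ0 R c0 La} {f : E3 → E3} {J : Type}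

/-- the size of the derivative in the direction `v` -/
def Gd' (D' : E3 → E3 →L[ℝ] E3) (v y : E3) : ℝ≥0∞ := ‖D' y v‖ₑ

/-- **what the mesh `md a w` must satisfy** when the shifts of the blocks are good: exact and tiny
cores, fineness, and the words of the exact cores off few levels. -/
structure Mok (Φ : FoamD δ κ0 R c0 La) (f : E3 → E3) (κp μ κ1 κ2 : ℝ) (X : Set Φ.F)
    (D : Dec Om Φ.F) : Prop where
  cores : Cores Φ D.T f κ1 κ2 X D.J0 D.J D.V D.ct D.A D.lam D.z D.θ D.φ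
  fine : Fine Φ D.T f κ1 D.J0
  words : ∃ Bad : Φ.F → Set ℝ, (∀ c, MeasurableSet (Bad c)) ∧
    (∀ c, volume (Bad c ∩ Icc 0 1) ≤ ENNReal.ofReal (κp / 32)) ∧
    ∀ L : Φ.F → Finset ℝ, (∀ c, ∀ t ∈ L c, μ ≤ t ∧ t ≤ 1 - μ) →
      (∀ c, ∀ t ∈ L c, t ∉ Bad c) → Words Φ D.T f X D.ct D.A D.lam D.z D.M L

/-- **the output of PREMACH for one mesh** -/
structure PreOut (Φ : FoamD δ κ0 R c0 La) (f : E3 → E3) (κp μ κ1 κ2 κ3 : ℝ) (X : Set Φ.F)
    (D : Dec Om Φ.F) (l : Edg D.T → ℝ≥0∞) : Prop where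
  cores : Cores Φ D.T f κ1 κ2 X D.J0 D.J D.V D.ct D.A D.lam D.z D.θ D.φ
  fine : Fine Φ D.T f κ1 D.J0
  fin : ∀ e, l e ≠ ∞
  choice : Choice Φ D.T f κp μ κ3 X D.V D.ct D.A D.lam D.z D.M l

/-- one mesh -/
theorem preOut_of (hLa : IsOpen La) (hδ : 0 < δ) (hR : 0 < R) (hf : Hom3 f Om La)
    {D' : E3 → E3 →L[ℝ] E3} {κp μ κ1 κ2 κ3 : ℝ} (hκp : 0 < κp) (hκp1 : κp ≤ 1)
    (hμ : μ ≤ κp / 64) (hκ3 : 8 ≤ κ3) (hκ2 : 0 ≤ κ2) (hκ : κ1 * κ0 < κ2) {X : Set Φ.F}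
    {D : Dec Om Φ.F} (hM : Mok Φ f κp μ κ1 κ2 X D)
    (hQ : ∀ e : Edg D.T, Qs Φ f Om D' (ea e) (ev e)) :
    PreOut Φ f κp μ κ1 κ2 κ3 X D
      (fun e => ENNReal.ofReal (8 * Cl δ R) * le (Gd' D') e) := by
  have hh := hh_of_cores hκ2 hκ hM.cores (dim_of_cores hf hM.cores)
  have hs : ∀ e : Edg D.T, sgm (ea e) (ev e) ⊆ OmH Φ f Om := fun e y hy =>
    ⟨sgm_sub_Om e hy, hh e y hy⟩
  have hG : ∀ e : Edg D.T, UGv (fun y => Φ.Psi (f y)) (fun y => ‖D' y (ev e)‖ₑ) (ea e) (ev e) :=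
    fun e => (hQ e (hs e)).1
  have hGf : ∀ e : Edg D.T, li (fun y => ‖D' y (ev e)‖ₑ) (ea e) (ev e) ≠ ∞ :=
    fun e => (hQ e (hs e)).2
  obtain ⟨Bad, hB1, hB2, hB3⟩ := hM.words
  refine ⟨hM.cores, hM.fine, fun e => ENNReal.mul_ne_top ENNReal.ofReal_ne_top (hGf e), ?_⟩
  intro err herr Z m0 hZ
  obtain ⟨κ, L, h1, h2, h3⟩ := sel_std hLa hδ hR hf D.T hh hG hGf hκp hκp1 hμ hκ3 hB1 hB2 hB3
    err herr Z hZ m0
  exact ⟨κ, L, h1, h2, fun i _ => h3 i⟩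

/-- **PREMACH**: for most shifts `a` there are shifts `w` of the blocks such that the mesh `md a w`
has everything the machine needs, with small energies in all classes. -/
theorem premach (hO : IsOpen Om) (hLa : IsOpen La) (hδ : 0 < δ) (hR : 0 < R) (hf : Hom3 f Om La)
    (M : MF Om Φ.F J) {D' : E3 → E3 →L[ℝ] E3} (hDm : ∀ v, Measurable fun y => D' y v)
    (hD : ∀ l, VWD (OmH Φ f Om) volume (fun x => P3 (Φ.Psi (f x)))
      (fun x => P3 (D' x (Pi.single l 1))) (Pi.single l (1:ℝ)))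
    {κp μ κ1 κ2 κ3 : ℝ} (hκp : 0 < κp) (hκp1 : κp ≤ 1)
    (hμ : μ ≤ κp / 64) (hκ3 : 8 ≤ κ3) (hκ2 : 0 ≤ κ2) (hκ : κ1 * κ0 < κ2) {X : Set Φ.F}
    {p : ℝ} (hp : 0 ≤ p) {Gd : J → Set E3} (hGd : ∀ j, Gd j ⊆ M.Bx j) {θ₁ θ₂ : ℝ≥0∞}
    (hZ : volume (⋃ j, {a | a ∈ M.A ∧ ∀ w ∈ M.W j, a + w ∉ Gd j}) ≤ θ₁ * volume M.A)
    {m lam : M.κ → ℝ≥0∞} (hm0 : ∀ k, m k ≠ 0)
    (hm : ∀ k, M.bl k = none → ∫⁻ a in M.A, M.EnC (Gd' D') p k a ≤ m k * volume M.A)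
    (hl0 : ∀ k, lam k ≠ 0) (hl1 : ∀ k, lam k ≠ ∞) (hl : ∑' k, (lam k)⁻¹ ≤ θ₂)
    {P' : E3 → Prop} (hP : ∀ᵐ a : E3, a ∈ M.A → P' a)
    (hM : ∀ᵐ a : E3, a ∈ M.A → ∀ w (h : M.Ok a w), (∀ j, a + w j ∈ Gd j) →
      Mok Φ f κp μ κ1 κ2 X (M.md a w h)) :
    ∃ A' ⊆ M.A, MeasurableSet A' ∧ volume (M.A \ A') ≤ (θ₁ + θ₂) * volume M.A ∧
      ∀ a ∈ A', P' a ∧ ∃ (w : J → E3) (h : M.Ok a w), (∀ j, a + w j ∈ Gd j) ∧
        PreOut Φ f κp μ κ1 κ2 κ3 X (M.md a w h)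
          (fun e => ENNReal.ofReal (8 * Cl δ R) * le (Gd' D') e) ∧
        (∀ k, M.bl k = none → M.EnT (Gd' D') p a w h k ≤ lam k * m k) ∧
        ∀ k j, M.bl k = some j → M.EnT (Gd' D') p a w h k ≤ M.EnC (Gd' D') p k (a + w j) := by
  have hGh : ∀ (t : ℝ) v y, Gd' D' (t • v) y = ‖t‖ₑ * Gd' D' v y := by
    intro t v y
    unfold Gd'
    rw [map_smul, enorm_smul]
  have hGm : ∀ v, Measurable (Gd' D' v) := fun v => (hDm v).enorm
  obtain ⟨A', h1, h2, h3, h4⟩ := M.sel (Q := Qs Φ f Om D') (ae_Qs hO hLa hf hD)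
    (fun x v h => Qs_rev h) hGh hGm hp hGd hZ hm0 hm hl0 hl1 hl
    (P' := fun a => P' a ∧ ∀ w (h : M.Ok a w), (∀ j, a + w j ∈ Gd j) →
      Mok Φ f κp μ κ1 κ2 X (M.md a w h))
    (by filter_upwards [hP, hM] with a ha1 ha2 ha
        exact ⟨ha1 ha, ha2 ha⟩)
  refine ⟨A', h1, h2, h3, fun a ha => ?_⟩
  obtain ⟨⟨h5, h6⟩, w, h, h7, h8, h9, h10⟩ := h4 a ha
  exact ⟨h5, w, h, h7, preOut_of hLa hδ hR hf hκp hκp1 hμ hκ3 hκ2 hκ (h6 w h h7) h8, h9, h10⟩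

end

end Crest.Agent.R096.Pmc_112
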