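import Mathlib

-- ▼ part R096/Bsp1_628
section

/-!
# Row 96, U1 / FOAM-EX (helper628), part 1: boxes, binary cuts with pairwise different positions

`Bx κ` = axis-parallel box in `κ → ℝ` (`κ` a finite type), `child P i t b` = the two halves of a cut,
`node D Q p` = the box of the node `p : List Bool` of the tree of binary cuts (the head of the list is
the LAST cut; the cut at `q` is perpendicular to the longest side, at a position in `D q`, in the middle
third). If the sets `D q` are pairwise disjoint, two nodes which are not nested are opposite in exactly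
one coordinate at every common point.
-/

set_option autoImplicit false
set_option linter.unusedSectionVars false

open Set

namespace Crest.Agent.R096.Bsp_628

variable {κ : Type*}

/-- an axis-parallel box (data) -/
structure Bx (κ : Type*) where
  lo : κ → ℝ
  hi : κ → ℝ

namespace Bx

/-- all sides have positive length -/
def Pos (Q : Bx κ) : Prop := ∀ i, Q.lo i < Q.hi i

/-- length of the side `i` -/
def side (Q : Bx κ) (i : κ) : ℝ := Q.hi i - Q.lo i

/-- the closed box as a set -/
def set (Q : Bx κ) : Set (κ → ℝ) := Icc Q.lo Q.hi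


theorem mem_set {Q : Bx κ} {x : κ → ℝ} : x ∈ Q.set ↔ ∀ i, Q.lo i ≤ x i ∧ x i ≤ Q.hi i := by
  constructor
  · intro h i
    exact ⟨h.1 i, h.2 i⟩
  · intro h
    exact ⟨fun i => (h i).1, fun i => (h i).2⟩

theorem side_pos {Q : Bx κ} (h : Q.Pos) (i : κ) : 0 < Q.side i := sub_pos.2 (h i)

/-- `Q` inside `P`, coordinatewise -/
def Le (Q P : Bx κ) : Prop := ∀ i, P.lo i ≤ Q.lo i ∧ Q.hi i ≤ P.hi i

theorem Le.refl (Q : Bx κ) : Q.Le Q := fun _ => ⟨le_rfl, le_rfl⟩

theorem Le.trans {Q P R : Bx κ} (h : Q.Le P) (h' : P.Le R) : Q.Le R :=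
  fun i => ⟨(h' i).1.trans (h i).1, (h i).2.trans (h' i).2⟩

theorem Le.subset {Q P : Bx κ} (h : Q.Le P) : Q.set ⊆ P.set := by
  intro x hx
  rw [mem_set] at hx ⊢
  exact fun i => ⟨(h i).1.trans (hx i).1, (hx i).2.trans (h i).2⟩

theorem Le.side_le {Q P : Bx κ} (h : Q.Le P) (i : κ) : Q.side i ≤ P.side i := by
  have := h i
  unfold side
  linarith

end Bx

/-- the boxes are on opposite sides of `x` in direction `i` -/
def Opp (Q Q' : Bx κ) (x : κ → ℝ) (i : κ) : Prop :=
  (x i = Q.hi i ∧ x i = Q'.lo i) ∨ (x i = Q.lo i ∧ x i = Q'.hi i)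

theorem Opp.symm {Q Q' : Bx κ} {x : κ → ℝ} {i : κ} (h : Opp Q Q' x i) : Opp Q' Q x i := by
  rcases h with h | h
  · exact Or.inr ⟨h.2, h.1⟩
  · exact Or.inl ⟨h.2, h.1⟩


section Cut

variable [DecidableEq κ]

/-- the two halves of a box cut at `x i = t`: `false` = lower half, `true` = upper half -/
def child (P : Bx κ) (i : κ) (t : ℝ) (b : Bool) : Bx κ :=
  if b then ⟨Function.update P.lo i t, P.hi⟩ else ⟨P.lo, Function.update P.hi i t⟩

theorem child_true_lo (P : Bx κ) (i : κ) (t : ℝ) :
    (child P i t true).lo = Function.update P.lo i t := rfl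

theorem child_true_hi (P : Bx κ) (i : κ) (t : ℝ) : (child P i t true).hi = P.hi := rfl

theorem child_false_lo (P : Bx κ) (i : κ) (t : ℝ) : (child P i t false).lo = P.lo := rfl

theorem child_false_hi (P : Bx κ) (i : κ) (t : ℝ) :
    (child P i t false).hi = Function.update P.hi i t := rfl

theorem child_pos {P : Bx κ} (h : P.Pos) {i : κ} {t : ℝ} (h1 : P.lo i < t) (h2 : t < P.hi i)
    (b : Bool) : (child P i t b).Pos := by
  intro j
  by_cases hj : j = i
  · subst hj
    cases b
    · simpa [child_false_lo, child_false_hi] using h1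
    · simpa [child_true_lo, child_true_hi] using h2
  · cases b
    · simpa [child_false_lo, child_false_hi, Function.update_of_ne hj] using h j
    · simpa [child_true_lo, child_true_hi, Function.update_of_ne hj] using h j

theorem child_le {P : Bx κ} {i : κ} {t : ℝ} (h1 : P.lo i ≤ t) (h2 : t ≤ P.hi i)
    (b : Bool) : (child P i t b).Le P := by
  intro j
  by_cases hj : j = i
  · subst hj
    cases b
    · simpa [child_false_lo, child_false_hi] using h2
    · simpa [child_true_lo, child_true_hi] using h1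
  · cases b
    · simp [child_false_lo, child_false_hi, Function.update_of_ne hj]
    · simp [child_true_lo, child_true_hi, Function.update_of_ne hj]

/-- every point of the box is in one of the halves -/
theorem mem_child {P : Bx κ} {i : κ} {t : ℝ} {x : κ → ℝ} (hx : x ∈ P.set) :
    ∃ b, x ∈ (child P i t b).set := by
  rw [Bx.mem_set] at hx
  rcases le_total (x i) t with h | h
  · refine ⟨false, Bx.mem_set.2 fun j => ?_⟩
    by_cases hj : j = i
    · subst hj
      simpa [child_false_lo, child_false_hi] using ⟨(hx j).1, h⟩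
    · simpa [child_false_lo, child_false_hi, Function.update_of_ne hj] using hx j
  · refine ⟨true, Bx.mem_set.2 fun j => ?_⟩
    by_cases hj : j = i
    · subst hj
      simpa [child_true_lo, child_true_hi] using ⟨h, (hx j).2⟩
    · simpa [child_true_lo, child_true_hi, Function.update_of_ne hj] using hx j

end Cut

/-! ### lists of Booleans -/





/-! ### the tree of cuts -/

section Tree

variable [Fintype κ] [Nonempty κ]

/-- the longest side -/
noncomputable def ax (P : Bx κ) : κ := (Finite.exists_max P.side).choose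

theorem side_le_ax (P : Bx κ) (j : κ) : P.side j ≤ P.side (ax P) :=
  (Finite.exists_max P.side).choose_spec j

/-- a position in `D`, in the middle third of the longest side -/
noncomputable def cutpos (D : Set ℝ) (P : Bx κ) : ℝ := by
  classical
  exact if h : ∃ t ∈ D, P.lo (ax P) + P.side (ax P) / 3 < t ∧
    t < P.lo (ax P) + 2 * (P.side (ax P) / 3) then h.choose else 0


variable [DecidableEq κ]

/-- the box of a node -/
noncomputable def node (D : List Bool → Set ℝ) (Q : Bx κ) : List Bool → Bx κ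
  | [] => Q
  | b :: p => child (node D Q p) (ax (node D Q p)) (cutpos (D p) (node D Q p)) b



variable {D : List Bool → Set ℝ} {Q : Bx κ}











/-! ### aspect and volume -/


theorem side_child_le {P : Bx κ} {t : ℝ} (h1 : P.lo (ax P) + P.side (ax P) / 3 < t)
    (h2 : t < P.lo (ax P) + 2 * (P.side (ax P) / 3)) (b : Bool) :
    (child P (ax P) t b).side (ax P) ≤ 2 / 3 * P.side (ax P) := by
  have hs : P.side (ax P) = P.hi (ax P) - P.lo (ax P) := rfl
  cases b
  · simp only [Bx.side, child_false_lo, child_false_hi, Function.update_self]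
    simp only [Bx.side] at h2
    linarith
  · simp only [Bx.side, child_true_lo, child_true_hi, Function.update_self]
    simp only [Bx.side] at h1
    linarith


/-- volume of a box -/
def Bx.vol (Q : Bx κ) : ℝ := ∏ i, Q.side i

theorem vol_child {P : Bx κ} (hP : P.Pos) {t : ℝ}
    (h1 : P.lo (ax P) + P.side (ax P) / 3 < t)
    (h2 : t < P.lo (ax P) + 2 * (P.side (ax P) / 3)) (b : Bool) :
    (child P (ax P) t b).vol ≤ 2 / 3 * P.vol := by
  unfold Bx.vol
  rw [← Finset.mul_prod_erase Finset.univ _ (Finset.mem_univ (ax P)),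
    ← Finset.mul_prod_erase Finset.univ (fun i => P.side i) (Finset.mem_univ (ax P))]
  have h3 : ∏ i ∈ Finset.univ.erase (ax P), (child P (ax P) t b).side i =
      ∏ i ∈ Finset.univ.erase (ax P), P.side i := by
    refine Finset.prod_congr rfl fun i hi => ?_
    have hi' : i ≠ ax P := (Finset.mem_erase.1 hi).1
    cases b
    · simp [Bx.side, child_false_lo, child_false_hi, Function.update_of_ne hi']
    · simp [Bx.side, child_true_lo, child_true_hi, Function.update_of_ne hi']
  rw [h3]
  have h4 := side_child_le h1 h2 b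
  have h5 : 0 ≤ ∏ i ∈ Finset.univ.erase (ax P), P.side i :=
    Finset.prod_nonneg fun i _ => (Bx.side_pos hP i).le
  calc (child P (ax P) t b).side (ax P) * ∏ i ∈ Finset.univ.erase (ax P), P.side i
      ≤ (2 / 3 * P.side (ax P)) * ∏ i ∈ Finset.univ.erase (ax P), P.side i :=
        mul_le_mul_of_nonneg_right h4 h5
    _ = 2 / 3 * (P.side (ax P) * ∏ i ∈ Finset.univ.erase (ax P), P.side i) := by ring




end Tree

/-! ### dense disjoint sets of positions -/


end Crest.Agent.R096.Bsp_628
end

-- ▼ part R096/Bsp2_628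
section

/-!
# Row 96, U1 / FOAM-EX (helper628), part 2: the quantitative invariant and one greedy step

`INV δ P` (582's invariant): finitely many boxes of `P` with a common point have exactly `card - 1`
degenerate coordinates, and in the other coordinates the common part has length at least
`δ * (longest side of one of the boxes)`. One cut at a position which is `δ t` away from all walls of
the boxes touching the box preserves `INV`; such a position exists by pigeonhole.
-/

set_option autoImplicit false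
set_option linter.unusedSectionVars false

open Set

namespace Crest.Agent.R096.Bsp_628

variable {κ : Type*}

/-- the boxes of `A` have a common point (coordinatewise form) -/
def Meet (A : Finset (Bx κ)) : Prop := ∀ B ∈ A, ∀ C ∈ A, ∀ k, B.lo k ≤ C.hi k

/-- the coordinate `k` is degenerate in the intersection of the boxes of `A` -/
def Deg (A : Finset (Bx κ)) (k : κ) : Prop := ∃ B ∈ A, ∃ C ∈ A, B.lo k = C.hi k

section

variable [Fintype κ] [Nonempty κ]

/-- the size of a box: its longest side -/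
noncomputable def Bx.sz (Q : Bx κ) : ℝ := Q.side (ax Q)

theorem Bx.side_le_sz (Q : Bx κ) (i : κ) : Q.side i ≤ Q.sz := side_le_ax Q i

theorem Bx.Le.sz_le {Q P : Bx κ} (h : Q.Le P) : Q.sz ≤ P.sz :=
  (h.side_le _).trans (P.side_le_sz _)

theorem Bx.sz_pos {Q : Bx κ} (h : Q.Pos) : 0 < Q.sz := Bx.side_pos h _

/-- **the invariant** -/
def INV (δ : ℝ) (P : Set (Bx κ)) : Prop :=
  ∀ A : Finset (Bx κ), (↑A : Set (Bx κ)) ⊆ P → A.Nonempty → Meet A →
    {k | Deg A k}.ncard + 1 = A.card ∧
    ∀ k, ¬ Deg A k → ∃ D ∈ A, ∀ B ∈ A, ∀ C ∈ A, B.lo k + δ * D.sz ≤ C.hi k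

theorem INV.mono {δ δ' : ℝ} {P P' : Set (Bx κ)} (h : INV δ P) (hP : P' ⊆ P) (hδ : δ' ≤ δ)
    (hpos : ∀ B ∈ P', B.Pos) : INV δ' P' := by
  intro A hA hne hm
  obtain ⟨h1, h2⟩ := h A (hA.trans hP) hne hm
  refine ⟨h1, fun k hk => ?_⟩
  obtain ⟨D, hD, h3⟩ := h2 k hk
  refine ⟨D, hD, fun B hB C hC => ?_⟩
  have h4 := h3 B hB C hC
  have h5 := Bx.sz_pos (hpos D (hA hD))
  have h6 : δ' * D.sz ≤ δ * D.sz := mul_le_mul_of_nonneg_right hδ h5.le
  linarith

/-- two boxes touch -/
def Touch (B C : Bx κ) : Prop := ∀ k, B.lo k ≤ C.hi k ∧ C.lo k ≤ B.hi k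

theorem Touch.symm {B C : Bx κ} (h : Touch B C) : Touch C B := fun k => ⟨(h k).2, (h k).1⟩

theorem Touch.refl {B : Bx κ} (h : B.Pos) : Touch B B := fun k => ⟨(h k).le, (h k).le⟩

/-- different boxes are separated by a wall -/
theorem INV.disj {δ : ℝ} {P : Set (Bx κ)} (h : INV δ P) {B C : Bx κ} (hB : B ∈ P) (hC : C ∈ P)
    (hBp : B.Pos) (hCp : C.Pos) (hne : B ≠ C) : ∃ k, B.hi k ≤ C.lo k ∨ C.hi k ≤ B.lo k := by
  classical
  by_contra hcon
  push Not at hcon
  have hm : Meet ({B, C} : Finset (Bx κ)) := by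
    intro X hX Y hY k
    simp only [Finset.mem_insert, Finset.mem_singleton] at hX hY
    rcases hX with rfl | rfl <;> rcases hY with rfl | rfl
    · exact (hBp k).le
    · exact (hcon k).2.le
    · exact (hcon k).1.le
    · exact (hCp k).le
  have h1 := (h {B, C} (by
    intro X hX
    simp only [Finset.coe_insert, Finset.coe_singleton, Set.mem_insert_iff,
      Set.mem_singleton_iff] at hX
    rcases hX with rfl | rfl
    · exact hB
    · exact hC) ⟨B, by simp⟩ hm).1
  rw [Finset.card_pair hne] at h1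
  have h2 : {k | Deg ({B, C} : Finset (Bx κ)) k} = ∅ := by
    ext k
    simp only [Set.mem_ofPred_eq, Set.mem_empty_iff_false, iff_false]
    rintro ⟨X, hX, Y, hY, hXY⟩
    simp only [Finset.mem_insert, Finset.mem_singleton] at hX hY
    rcases hX with rfl | rfl <;> rcases hY with rfl | rfl
    · exact absurd hXY (hBp k).ne
    · exact absurd hXY (hcon k).2.ne
    · exact absurd hXY (hcon k).1.ne
    · exact absurd hXY (hCp k).ne
  rw [h2, Set.ncard_empty] at h1
  omega

end

section Step

variable [Fintype κ] [Nonempty κ] [DecidableEq κ]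

theorem child_lo_of_ne {P : Bx κ} {k : κ} {t : ℝ} (b : Bool) {j : κ} (hj : j ≠ k) :
    (child P k t b).lo j = P.lo j := by
  cases b
  · rfl
  · rw [child_true_lo, Function.update_of_ne hj]

theorem child_hi_of_ne {P : Bx κ} {k : κ} {t : ℝ} (b : Bool) {j : κ} (hj : j ≠ k) :
    (child P k t b).hi j = P.hi j := by
  cases b
  · rw [child_false_hi, Function.update_of_ne hj]
  · rfl

/-- **the cut preserves the invariant** -/
theorem INV.cut {δ : ℝ} (hδ : 0 < δ) {P : Set (Bx κ)} (h : INV δ P) (hpos : ∀ X ∈ P, X.Pos)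
    {B : Bx κ} (hB : B ∈ P) (k : κ) {c : ℝ}
    (hc : ∀ C ∈ P, Touch B C → δ * B.sz ≤ |c - C.lo k| ∧ δ * B.sz ≤ |c - C.hi k|)
    (hc1 : B.lo k < c) (hc2 : c < B.hi k) :
    INV δ ({X | X ∈ P ∧ X ≠ B} ∪ {child B k c false, child B k c true}) := by
  classical
  have hBp := hpos B hB
  have hsz : 0 < δ * B.sz := mul_pos hδ (Bx.sz_pos hBp)
  set H : Bool → Bx κ := fun b => child B k c b with hH
  have hHle : ∀ b, (H b).Le B := fun b => child_le hc1.le hc2.le b
  have hHpos : ∀ b, (H b).Pos := fun b => child_pos hBp hc1 hc2 b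
  have hHsz : ∀ b, (H b).sz ≤ B.sz := fun b => (hHle b).sz_le
  have hHlo : ∀ b j, j ≠ k → (H b).lo j = B.lo j := fun b j hj => child_lo_of_ne b hj
  have hHhi : ∀ b j, j ≠ k → (H b).hi j = B.hi j := fun b j hj => child_hi_of_ne b hj
  have h0lo : (H false).lo k = B.lo k := rfl
  have h0hi : (H false).hi k = c := by
    simp only [hH, child_false_hi, Function.update_self]
  have h1lo : (H true).lo k = c := by
    simp only [hH, child_true_lo, Function.update_self]
  have h1hi : (H true).hi k = B.hi k := rfl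
  intro A' hA' hne hm
  -- elements of `A'` other than the halves are in `P`, different from `B`
  have hel : ∀ X ∈ A', (X ∈ P ∧ X ≠ B) ∨ ∃ b, X = H b := by
    intro X hX
    rcases hA' hX with h1 | h1
    · exact Or.inl h1
    · right
      simp only [Set.mem_insert_iff, Set.mem_singleton_iff] at h1
      rcases h1 with h1 | h1
      · exact ⟨false, h1⟩
      · exact ⟨true, h1⟩
  by_cases hnone : ∀ b, H b ∉ A'
  · -- no half at all
    refine h A' ?_ hne hm
    intro X hX
    rcases hel X hX with h1 | ⟨b, rfl⟩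
    · exact h1.1
    · exact absurd hX (hnone b)
  push Not at hnone
  obtain ⟨b0, hb0⟩ := hnone
  -- the old family
  set R : Finset (Bx κ) := A'.filter (fun X => ∀ b, X ≠ H b) with hR
  set A : Finset (Bx κ) := insert B R with hA
  have hRP : ∀ X ∈ R, X ∈ P ∧ X ≠ B ∧ X ∈ A' := by
    intro X hX
    rw [hR, Finset.mem_filter] at hX
    rcases hel X hX.1 with h1 | ⟨b, h1⟩
    · exact ⟨h1.1, h1.2, hX.1⟩
    · exact absurd h1 (hX.2 b)
  have hBR : B ∉ R := fun hcon => (hRP B hcon).2.1 rfl
  have hAP : (↑A : Set (Bx κ)) ⊆ P := by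
    intro X hX
    rw [hA, Finset.coe_insert] at hX
    rcases hX with rfl | hX
    · exact hB
    · exact (hRP X hX).1
  -- boxes of `A'` touch `B`
  have htouch : ∀ X ∈ A', Touch B X := by
    intro X hX j
    have h1 := hm _ hb0 X hX j
    have h2 := hm X hX _ hb0 j
    have h3 := hHle b0 j
    exact ⟨h3.1.trans h1, h2.trans h3.2⟩
  have hmA : Meet A := by
    intro X hX Y hY j
    rw [hA, Finset.mem_insert] at hX hY
    rcases hX with rfl | hX <;> rcases hY with rfl | hY
    · exact (hBp j).le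
    · exact (htouch Y (hRP Y hY).2.2 j).1
    · exact (htouch X (hRP X hX).2.2 j).2
    · exact hm X (hRP X hX).2.2 Y (hRP Y hY).2.2 j
  obtain ⟨hcard, hext⟩ := h A hAP ⟨B, by rw [hA]; exact Finset.mem_insert_self _ _⟩ hmA
  -- distances of `c` from the walls
  have hcl : ∀ X ∈ A, δ * B.sz ≤ |c - X.lo k| ∧ δ * B.sz ≤ |c - X.hi k| := by
    intro X hX
    refine hc X (hAP hX) ?_
    rw [hA, Finset.mem_insert] at hX
    rcases hX with rfl | hX
    · exact Touch.refl hBp
    · exact htouch X (hRP X hX).2.2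
  -- degenerate coordinates different from `k`
  have hdegj : ∀ j, j ≠ k → (Deg A' j ↔ Deg A j) := by
    intro j hj
    constructor
    · rintro ⟨X, hX, Y, hY, hXY⟩
      -- replace halves by B
      have key : ∀ Z ∈ A', ∃ Z' ∈ A, Z'.lo j = Z.lo j ∧ Z'.hi j = Z.hi j := by
        intro Z hZ
        by_cases hZh : ∀ b, Z ≠ H b
        · exact ⟨Z, by rw [hA, Finset.mem_insert, hR, Finset.mem_filter]; exact Or.inr ⟨hZ, hZh⟩,
            rfl, rfl⟩
        · push Not at hZh
          obtain ⟨b, rfl⟩ := hZh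
          exact ⟨B, by rw [hA]; exact Finset.mem_insert_self _ _, (hHlo b j hj).symm,
            (hHhi b j hj).symm⟩
      obtain ⟨X', hX', h1, -⟩ := key X hX
      obtain ⟨Y', hY', -, h2⟩ := key Y hY
      exact ⟨X', hX', Y', hY', by rw [h1, h2, hXY]⟩
    · rintro ⟨X, hX, Y, hY, hXY⟩
      have key : ∀ Z ∈ A, ∃ Z' ∈ A', Z'.lo j = Z.lo j ∧ Z'.hi j = Z.hi j := by
        intro Z hZ
        rw [hA, Finset.mem_insert] at hZ
        rcases hZ with rfl | hZ
        · exact ⟨H b0, hb0, hHlo b0 j hj, hHhi b0 j hj⟩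
        · exact ⟨Z, (hRP Z hZ).2.2, rfl, rfl⟩
      obtain ⟨X', hX', h1, -⟩ := key X hX
      obtain ⟨Y', hY', -, h2⟩ := key Y hY
      exact ⟨X', hX', Y', hY', by rw [h1, h2, hXY]⟩
  -- extents in the coordinates different from `k`
  have hextj : ∀ j, j ≠ k → ¬ Deg A' j → ∃ D ∈ A', ∀ X ∈ A', ∀ Y ∈ A',
      X.lo j + δ * D.sz ≤ Y.hi j := by
    intro j hj hnd
    obtain ⟨D, hD, hDX⟩ := hext j (fun hcon => hnd ((hdegj j hj).2 hcon))
    have key : ∀ Z ∈ A', ∃ Z' ∈ A, Z'.lo j = Z.lo j ∧ Z'.hi j = Z.hi j := by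
      intro Z hZ
      by_cases hZh : ∀ b, Z ≠ H b
      · exact ⟨Z, by rw [hA, Finset.mem_insert, hR, Finset.mem_filter]; exact Or.inr ⟨hZ, hZh⟩,
          rfl, rfl⟩
      · push Not at hZh
        obtain ⟨b, rfl⟩ := hZh
        exact ⟨B, by rw [hA]; exact Finset.mem_insert_self _ _, (hHlo b j hj).symm,
          (hHhi b j hj).symm⟩
    obtain ⟨D', hD', hsD⟩ : ∃ D' ∈ A', D'.sz ≤ D.sz := by
      rw [hA, Finset.mem_insert] at hD
      rcases hD with rfl | hD
      · exact ⟨H b0, hb0, hHsz b0⟩
      · exact ⟨D, (hRP D hD).2.2, le_rfl⟩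
    refine ⟨D', hD', fun X hX Y hY => ?_⟩
    obtain ⟨X', hX', h1, -⟩ := key X hX
    obtain ⟨Y', hY', -, h2⟩ := key Y hY
    have h3 := hDX X' hX' Y' hY'
    have h4 : δ * D'.sz ≤ δ * D.sz := mul_le_mul_of_nonneg_left hsD hδ.le
    rw [h1, h2] at h3
    linarith
  by_cases hboth : ∀ b, H b ∈ A'
  · -- both halves: `k` becomes degenerate
    have hlok : ∀ X ∈ A, X.lo k < c := by
      intro X hX
      have h1 := (hcl X hX).1
      rw [hA, Finset.mem_insert] at hX
      rcases hX with rfl | hX
      · exact hc1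
      · have h2 := hm X (hRP X hX).2.2 _ (hboth false) k
        rw [h0hi] at h2
        rcases h2.lt_or_eq with h3 | h3
        · exact h3
        · exfalso
          rw [h3, sub_self, abs_zero] at h1
          linarith
    have hhik : ∀ X ∈ A, c < X.hi k := by
      intro X hX
      have h1 := (hcl X hX).2
      rw [hA, Finset.mem_insert] at hX
      rcases hX with rfl | hX
      · exact hc2
      · have h2 := hm _ (hboth true) X (hRP X hX).2.2 k
        rw [h1lo] at h2
        rcases h2.lt_or_eq with h3 | h3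
        · exact h3
        · exfalso
          rw [h3, sub_self, abs_zero] at h1
          linarith
    have hkA : ¬ Deg A k := by
      rintro ⟨X, hX, Y, hY, hXY⟩
      have := (hlok X hX).trans (hhik Y hY)
      exact absurd hXY this.ne
    have hkA' : Deg A' k := ⟨H true, hboth true, H false, hboth false, by rw [h1lo, h0hi]⟩
    have hset : {j | Deg A' j} = insert k {j | Deg A j} := by
      ext j
      simp only [Set.mem_ofPred_eq, Set.mem_insert_iff]
      by_cases hj : j = k
      · subst hj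
        simp [hkA']
      · rw [hdegj j hj]
        simp [hj]
    have hne01 : H false ≠ H true := by
      intro hcon
      have h3 := congrArg (fun Q : Bx κ => Q.lo k) hcon
      simp only [h0lo, h1lo] at h3
      linarith
    have hcA' : A'.card = A.card + 1 := by
      have h1 : A' = insert (H false) (insert (H true) R) := by
        ext X
        rw [Finset.mem_insert, Finset.mem_insert, hR, Finset.mem_filter]
        constructor
        · intro hX
          by_cases hXh : ∀ b, X ≠ H b
          · exact Or.inr (Or.inr ⟨hX, hXh⟩)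
          · push Not at hXh
            obtain ⟨b, rfl⟩ := hXh
            cases b
            · exact Or.inl rfl
            · exact Or.inr (Or.inl rfl)
        · rintro (rfl | rfl | hX)
          · exact hboth false
          · exact hboth true
          · exact hX.1
      have h2 : H true ∉ R := by
        intro hcon
        rw [hR, Finset.mem_filter] at hcon
        exact hcon.2 true rfl
      have h3 : H false ∉ insert (H true) R := by
        intro hcon
        rw [Finset.mem_insert] at hcon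
        rcases hcon with hcon | hcon
        · exact hne01 hcon
        · rw [hR, Finset.mem_filter] at hcon
          exact hcon.2 false rfl
      rw [h1, Finset.card_insert_of_notMem h3, Finset.card_insert_of_notMem h2, hA,
        Finset.card_insert_of_notMem hBR]
    refine ⟨?_, ?_⟩
    · rw [hset, Set.ncard_insert_of_notMem (by simpa using hkA) (Set.toFinite _), hcA', ← hcard]
    · intro j hnd
      have hj : j ≠ k := by
        rintro rfl
        exact hnd hkA'
      exact hextj j hj hnd
  · -- exactly one half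
    have honly : ∀ b, H b ∈ A' → b = b0 := by
      intro b hb
      by_contra hbne
      apply hboth
      intro b'
      rcases Bool.eq_or_eq_not b' b0 with h1 | h1
      · rw [h1]; exact hb0
      · have h2 : b' = b := by
          have h3 : ∀ x y z : Bool, x ≠ z → y = !z → y = x := by decide
          exact h3 b b' b0 hbne h1
        rw [h2]; exact hb
    have hcA' : A'.card = A.card := by
      have h1 : A' = insert (H b0) R := by
        ext X
        rw [Finset.mem_insert, hR, Finset.mem_filter]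
        constructor
        · intro hX
          by_cases hXh : ∀ b, X ≠ H b
          · exact Or.inr ⟨hX, hXh⟩
          · push Not at hXh
            obtain ⟨b, rfl⟩ := hXh
            rw [honly b hX]
            exact Or.inl rfl
        · rintro (rfl | hX)
          · exact hb0
          · exact hX.1
      have h2 : H b0 ∉ R := by
        intro hcon
        rw [hR, Finset.mem_filter] at hcon
        exact hcon.2 b0 rfl
      rw [h1, Finset.card_insert_of_notMem h2, hA, Finset.card_insert_of_notMem hBR]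
    -- walls in direction `k`: strict inequalities against `c`
    have hRk : ∀ X ∈ R, (b0 = false → X.lo k + δ * B.sz ≤ c) ∧
        (b0 = true → c + δ * B.sz ≤ X.hi k) := by
      intro X hX
      have hXA : X ∈ A := by rw [hA]; exact Finset.mem_insert_of_mem hX
      have h1 := hcl X hXA
      constructor
      · intro hb
        have h2 := hm X (hRP X hX).2.2 _ hb0 k
        rw [hb, h0hi] at h2
        rw [abs_of_nonneg (by linarith)] at h1
        linarith [h1.1]
      · intro hb
        have h2 := hm _ hb0 X (hRP X hX).2.2 k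
        rw [hb, h1lo] at h2
        have h3 := h1.2
        rw [abs_of_nonpos (by linarith)] at h3
        linarith
    have hBk : δ * B.sz ≤ c - B.lo k ∧ δ * B.sz ≤ B.hi k - c := by
      have h1 := hcl B (by rw [hA]; exact Finset.mem_insert_self _ _)
      rw [abs_of_nonneg (by linarith), abs_of_nonpos (by linarith)] at h1
      constructor <;> linarith [h1.1, h1.2]
    -- every element of `A'` comes from an element of `A`
    have hpar : ∀ Z ∈ A', (Z ∈ R) ∨ Z = H b0 := by
      intro Z hZ
      by_cases hZh : ∀ b, Z ≠ H b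
      · left; rw [hR, Finset.mem_filter]; exact ⟨hZ, hZh⟩
      · push Not at hZh
        obtain ⟨b, rfl⟩ := hZh
        right; rw [honly b hZ]
    have hdegk : Deg A' k ↔ Deg A k := by
      constructor
      · rintro ⟨X, hX, Y, hY, hXY⟩
        rcases hpar X hX with hX1 | rfl <;> rcases hpar Y hY with hY1 | rfl
        · exact ⟨X, by rw [hA]; exact Finset.mem_insert_of_mem hX1, Y,
            by rw [hA]; exact Finset.mem_insert_of_mem hY1, hXY⟩
        · -- Y = H b0
          cases hb : b0 with
          | false =>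
            exfalso
            rw [hb, h0hi] at hXY
            have := (hRk X hX1).1 hb
            linarith
          | true =>
            rw [hb, h1hi] at hXY
            exact ⟨X, by rw [hA]; exact Finset.mem_insert_of_mem hX1, B,
              by rw [hA]; exact Finset.mem_insert_self _ _, hXY⟩
        · cases hb : b0 with
          | false =>
            rw [hb, h0lo] at hXY
            exact ⟨B, by rw [hA]; exact Finset.mem_insert_self _ _, Y,
              by rw [hA]; exact Finset.mem_insert_of_mem hY1, hXY⟩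
          | true =>
            exfalso
            rw [hb, h1lo] at hXY
            have := (hRk Y hY1).2 hb
            linarith
        · exact absurd hXY (hHpos b0 k).ne
      · rintro ⟨X, hX, Y, hY, hXY⟩
        have keylo : ∀ Z ∈ A, ∃ Z' ∈ A', Z.lo k ≤ Z'.lo k ∧ Z'.hi k ≤ Z.hi k := by
          intro Z hZ
          rw [hA, Finset.mem_insert] at hZ
          rcases hZ with rfl | hZ
          · exact ⟨H b0, hb0, (hHle b0 k).1, (hHle b0 k).2⟩
          · exact ⟨Z, (hRP Z hZ).2.2, le_rfl, le_rfl⟩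
        obtain ⟨X', hX', h1, -⟩ := keylo X hX
        obtain ⟨Y', hY', -, h2⟩ := keylo Y hY
        have h3 := hm X' hX' Y' hY' k
        exact ⟨X', hX', Y', hY', le_antisymm h3 (by linarith)⟩
    have hset : {j | Deg A' j} = {j | Deg A j} := by
      ext j
      simp only [Set.mem_ofPred_eq]
      by_cases hj : j = k
      · subst hj; exact hdegk
      · exact hdegj j hj
    refine ⟨by rw [hset, hcA', hcard], ?_⟩
    intro j hnd
    by_cases hj : j = k
    · subst hj
      obtain ⟨D, hD, hDX⟩ := hext j (fun hcon => hnd (hdegk.2 hcon))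
      -- an element of `A'` smaller than both
      obtain ⟨D', hD', hs1, hs2⟩ : ∃ D' ∈ A', D'.sz ≤ D.sz ∧ D'.sz ≤ B.sz := by
        by_cases hDB : D.sz ≤ B.sz
        · rw [hA, Finset.mem_insert] at hD
          rcases hD with rfl | hD
          · exact ⟨H b0, hb0, hHsz b0, hHsz b0⟩
          · exact ⟨D, (hRP D hD).2.2, le_rfl, hDB⟩
        · push Not at hDB
          exact ⟨H b0, hb0, (hHsz b0).trans hDB.le, hHsz b0⟩
      have hs1' : δ * D'.sz ≤ δ * D.sz := mul_le_mul_of_nonneg_left hs1 hδ.le
      have hs2' : δ * D'.sz ≤ δ * B.sz := mul_le_mul_of_nonneg_left hs2 hδ.le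
      refine ⟨D', hD', fun X hX Y hY => ?_⟩
      have hBA : B ∈ A := by rw [hA]; exact Finset.mem_insert_self _ _
      rcases hpar X hX with hX1 | rfl <;> rcases hpar Y hY with hY1 | rfl
      · have := hDX X (by rw [hA]; exact Finset.mem_insert_of_mem hX1) Y
          (by rw [hA]; exact Finset.mem_insert_of_mem hY1)
        linarith
      · cases hb : b0 with
        | false =>
          rw [h0hi]
          have := (hRk X hX1).1 hb
          linarith
        | true =>
          rw [h1hi]
          have := hDX X (by rw [hA]; exact Finset.mem_insert_of_mem hX1) B hBA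
          linarith
      · cases hb : b0 with
        | false =>
          rw [h0lo]
          have := hDX B hBA Y (by rw [hA]; exact Finset.mem_insert_of_mem hY1)
          linarith
        | true =>
          rw [h1lo]
          have := (hRk Y hY1).2 hb
          linarith
      · cases hb : b0 with
        | false =>
          rw [h0lo, h0hi]
          linarith [hBk.1]
        | true =>
          rw [h1lo, h1hi]
          linarith [hBk.2]
    · exact hextj j hj hnd

end Step

end Crest.Agent.R096.Bsp_628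
end

-- ▼ part R096/Bsp3_628
section

/-!
# Row 96, U1 / FOAM-EX (helper628), part 3: counting, choice of the position, the greedy process
-/

set_option autoImplicit false
set_option linter.unusedSectionVars false

open Set

namespace Crest.Agent.R096.Bsp_628

variable {κ : Type*} [Fintype κ] [Nonempty κ]

/-! ### the number of boxes which touch a box -/

/-- one coordinate: a grid point strictly inside the wall interval of a touching box -/
theorem exists_grid {a b lo hi s t κ0 : ℝ} (hs : 0 < s) (hab : b - a ≤ t) (hts : t = 2 * κ0 * s)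
    (h1 : lo ≤ b) (h2 : a ≤ hi) (h3 : 2 * s ≤ hi - lo) (hκ : 0 ≤ κ0) :
    ∃ m : Fin (⌊2 * κ0⌋₊ + 3), lo < a + s * ((m : ℝ) - 1) ∧ a + s * ((m : ℝ) - 1) < hi := by
  set u : ℝ := max lo (a - 2 * s) with hu
  have hu1 : lo ≤ u := le_max_left _ _
  have hu2 : a - 2 * s ≤ u := le_max_right _ _
  have hu3 : u + 2 * s ≤ hi := by
    rcases max_choice lo (a - 2 * s) with h | h
    · rw [hu, h]; linarith
    · rw [hu, h]; linarith
  have hu4 : u ≤ b ∨ u = a - 2 * s := by
    rcases max_choice lo (a - 2 * s) with h | h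
    · left; rw [hu, h]; exact h1
    · right; rw [hu, h]
  -- the integer
  set z : ℤ := ⌊(u - a) / s⌋ + 2 with hz
  have hz1 : (u - a) / s < (z : ℝ) - 1 := by
    have := Int.lt_floor_add_one ((u - a) / s)
    rw [hz]; push_cast; linarith
  have hz2 : (z : ℝ) - 1 ≤ (u - a) / s + 1 := by
    have := Int.floor_le ((u - a) / s)
    rw [hz]; push_cast; linarith
  have hq1 : -2 ≤ (u - a) / s := by
    rw [le_div_iff₀ hs]; linarith
  have hq2 : (u - a) / s ≤ 2 * κ0 := by
    rw [div_le_iff₀ hs]
    rcases hu4 with h | h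
    · linarith
    · rw [h]
      have : 0 ≤ 2 * κ0 * s := by positivity
      linarith
  have hz3 : 0 ≤ z := by
    have h4 : (-1 : ℝ) < (z : ℝ) := by linarith
    have h5 : (-1 : ℤ) < z := by exact_mod_cast h4
    omega
  have hz4 : z ≤ (⌊2 * κ0⌋₊ : ℤ) + 2 := by
    have h4 : (z : ℝ) - 2 ≤ 2 * κ0 := by linarith
    have h5 : z - 2 ≤ ⌊2 * κ0⌋ := by
      rw [Int.le_floor]
      push_cast
      exact h4
    have h6 : (⌊2 * κ0⌋₊ : ℤ) = ⌊2 * κ0⌋ := by
      rw [← Int.floor_toNat, Int.toNat_of_nonneg (Int.floor_nonneg.2 (by linarith))]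
    omega
  obtain ⟨m, hm⟩ := Int.eq_ofNat_of_zero_le hz3
  have hm' : m < ⌊2 * κ0⌋₊ + 3 := by omega
  refine ⟨⟨m, hm'⟩, ?_, ?_⟩
  · simp only
    have h7 : (z : ℝ) = (m : ℝ) := by rw [hm]; simp
    rw [h7] at hz1
    rw [div_lt_iff₀ hs] at hz1
    linarith [mul_comm s ((m : ℝ) - 1)]
  · simp only
    have h7 : (z : ℝ) = (m : ℝ) := by rw [hm]; simp
    rw [h7] at hz2
    have h8 : (m : ℝ) - 1 - 1 ≤ (u - a) / s := by linarith
    rw [le_div_iff₀ hs] at h8
    have h9 : s * ((m : ℝ) - 1) ≤ u - a + s := by linarith [mul_comm s ((m : ℝ) - 1)]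
    linarith

/-- the bound for the number of touching boxes -/
noncomputable def Nb (κ : Type*) [Fintype κ] (κ0 : ℝ) : ℕ := (⌊2 * κ0⌋₊ + 3) ^ Fintype.card κ

theorem touch_card {κ0 : ℝ} (hκ : 0 < κ0) {T : Finset (Bx κ)} {B : Bx κ} (hB : 0 < B.sz)
    (hT : ∀ C ∈ T, Touch B C) (hside : ∀ C ∈ T, ∀ i, B.sz ≤ κ0 * C.side i)
    (hdisj : ∀ C ∈ T, ∀ C' ∈ T, C ≠ C' → ∃ k, C.hi k ≤ C'.lo k ∨ C'.hi k ≤ C.lo k) :
    T.card ≤ Nb κ κ0 := by
  classical
  set s : ℝ := B.sz / (2 * κ0) with hs
  have hs0 : 0 < s := by positivity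
  have hts : B.sz = 2 * κ0 * s := by rw [hs]; field_simp
  have h1 : ∀ C ∈ T, ∃ m : κ → Fin (⌊2 * κ0⌋₊ + 3), ∀ k,
      C.lo k < B.lo k + s * ((m k : ℝ) - 1) ∧ B.lo k + s * ((m k : ℝ) - 1) < C.hi k := by
    intro C hC
    have h2 : ∀ k, ∃ m : Fin (⌊2 * κ0⌋₊ + 3),
        C.lo k < B.lo k + s * ((m : ℝ) - 1) ∧ B.lo k + s * ((m : ℝ) - 1) < C.hi k := by
      intro k
      have h3 := hT C hC k
      have h4 := hside C hC k
      have h5 : 2 * s ≤ C.hi k - C.lo k := by
        have h6 : C.side k = C.hi k - C.lo k := rfl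
        rw [← h6]
        rw [hts] at h4
        have h7 : 2 * κ0 * s = κ0 * (2 * s) := by ring
        rw [h7] at h4
        exact le_of_mul_le_mul_left h4 hκ
      exact exists_grid hs0 (B.side_le_sz k) hts h3.2 h3.1 h5 hκ.le
    choose m hm using h2
    exact ⟨m, hm⟩
  choose! m hm using h1
  have h2 : T.card ≤ (Finset.univ : Finset (κ → Fin (⌊2 * κ0⌋₊ + 3))).card := by
    refine Finset.card_le_card_of_injOn m (fun C _ => Finset.mem_univ _) ?_
    intro C hC C' hC' hmm
    by_contra hne
    obtain ⟨k, hk⟩ := hdisj C hC C' hC' hne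
    have h3 := hm C hC k
    have h4 := hm C' hC' k
    rw [← hmm] at h4
    rcases hk with hk | hk
    · linarith [h3.2, h4.1]
    · linarith [h3.1, h4.2]
  refine h2.trans ?_
  rw [Finset.card_univ, Fintype.card_fun, Fintype.card_fin]
  exact le_rfl

/-! ### the position of the cut -/


/-- the separation constant -/
noncomputable def dl (κ : Type*) [Fintype κ] (κ0 : ℝ) : ℝ := 1 / (12 * ((Nb κ κ0 : ℝ) + 1))

theorem dl_pos (κ0 : ℝ) : 0 < dl κ κ0 := by unfold dl; positivity

/-! ### volumes of the halves -/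

section

variable [DecidableEq κ]

theorem vol_add (B : Bx κ) (k : κ) (c : ℝ) :
    (child B k c false).vol + (child B k c true).vol = B.vol := by
  unfold Bx.vol
  rw [← Finset.mul_prod_erase Finset.univ _ (Finset.mem_univ k),
    ← Finset.mul_prod_erase Finset.univ (fun i => (child B k c true).side i) (Finset.mem_univ k),
    ← Finset.mul_prod_erase Finset.univ (fun i => B.side i) (Finset.mem_univ k)]
  have h3 : ∀ b, ∏ i ∈ Finset.univ.erase k, (child B k c b).side i =
      ∏ i ∈ Finset.univ.erase k, B.side i := by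
    intro b
    refine Finset.prod_congr rfl fun i hi => ?_
    have hi' : i ≠ k := (Finset.mem_erase.1 hi).1
    simp only [Bx.side, child_lo_of_ne b hi', child_hi_of_ne b hi']
  rw [h3, h3, ← add_mul]
  congr 1
  simp only [Bx.side, child_false_lo, child_false_hi, child_true_lo, child_true_hi,
    Function.update_self]
  ring

theorem vol_nonneg {B : Bx κ} (h : B.Pos) : 0 ≤ B.vol :=
  Finset.prod_nonneg fun i _ => (Bx.side_pos h i).le

theorem vol_ge {B : Bx κ} {κ0 ε : ℝ} (hκ : 0 < κ0) (hε : 0 ≤ ε)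
    (h : ∀ i, ε ≤ κ0 * B.side i) : (ε / κ0) ^ Fintype.card κ ≤ B.vol := by
  unfold Bx.vol
  rw [← Finset.card_univ, ← Finset.prod_const]
  refine Finset.prod_le_prod (fun i _ => by positivity) fun i _ => ?_
  rw [div_le_iff₀ hκ, mul_comm]
  exact h i

theorem vol_sq {B : Bx κ} (hB : B.Pos) {c : ℝ} (h1 : B.lo (ax B) + B.sz / 3 < c)
    (h2 : c < B.lo (ax B) + 2 * (B.sz / 3)) :
    (child B (ax B) c false).vol ^ 2 + (child B (ax B) c true).vol ^ 2 ≤
      B.vol ^ 2 - 1 / 3 * B.vol ^ 2 := by
  have hs : 0 < B.sz := Bx.sz_pos hB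
  have hs' : B.sz = B.hi (ax B) - B.lo (ax B) := rfl
  have h3 := vol_child hB h1 h2 false
  have h4 := vol_child hB h1 h2 true
  have h5 := vol_add B (ax B) c
  have hp := fun b => vol_nonneg (child_pos hB (i := ax B) (t := c) (by linarith) (by linarith) b)
  have h6 := hp false
  have h7 := hp true
  nlinarith [mul_nonneg h6 (sub_nonneg.2 h3), mul_nonneg h7 (sub_nonneg.2 h4)]

/-! ### the greedy process -/

/-- the box need not be cut any more -/
def Done (rho : (κ → ℝ) → ℝ) (B : Bx κ) : Prop := ∀ x ∈ B.set, B.sz ≤ rho x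

/-- the state of the process -/
structure St (κ0 δ : ℝ) (rho : (κ → ℝ) → ℝ) (P : Finset (Bx κ)) : Prop where
  pos : ∀ X ∈ P, X.Pos
  inv : INV δ (↑P : Set (Bx κ))
  cmp : ∀ U ∈ P, ¬ Done rho U → ∀ B ∈ P, ∀ i, U.sz ≤ κ0 * B.side i

/-- one step of the process -/
def Stp (rho : (κ → ℝ) → ℝ) (P P' : Finset (Bx κ)) : Prop :=
  ∃ B ∈ P, ¬ Done rho B ∧ (∀ U ∈ P, ¬ Done rho U → U.sz ≤ B.sz) ∧
    ∃ c, B.lo (ax B) + B.sz / 3 < c ∧ c < B.lo (ax B) + 2 * (B.sz / 3) ∧
      ∀ X, X ∈ P' ↔ (X ∈ P ∧ X ≠ B) ∨ X = child B (ax B) c false ∨ X = child B (ax B) c true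

theorem side_child_of {B : Bx κ} {κ0 c : ℝ} (h3 : 3 ≤ κ0)
    (hside : ∀ i, B.sz ≤ κ0 * B.side i) (hB : B.Pos)
    (h1 : B.lo (ax B) + B.sz / 3 < c) (h2 : c < B.lo (ax B) + 2 * (B.sz / 3)) (b : Bool) (i : κ) :
    B.sz ≤ κ0 * (child B (ax B) c b).side i := by
  have hs : 0 < B.sz := Bx.sz_pos hB
  have hs' : B.sz = B.hi (ax B) - B.lo (ax B) := rfl
  by_cases hi : i = ax B
  · subst hi
    have h4 : B.sz / 3 ≤ (child B (ax B) c b).side (ax B) := by
      cases b
      · simp only [Bx.side, child_false_lo, child_false_hi, Function.update_self]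
        linarith
      · simp only [Bx.side, child_true_lo, child_true_hi, Function.update_self]
        linarith
    nlinarith
  · have h4 : (child B (ax B) c b).side i = B.side i := by
      simp only [Bx.side, child_lo_of_ne b hi, child_hi_of_ne b hi]
    rw [h4]
    exact hside i

theorem sz_child_ge {B : Bx κ} {c : ℝ}
    (h1 : B.lo (ax B) + B.sz / 3 < c) (h2 : c < B.lo (ax B) + 2 * (B.sz / 3)) (b : Bool) :
    B.sz ≤ 3 * (child B (ax B) c b).sz := by
  have hs' : B.sz = B.hi (ax B) - B.lo (ax B) := rfl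
  have h4 : B.sz / 3 ≤ (child B (ax B) c b).side (ax B) := by
    cases b
    · simp only [Bx.side, child_false_lo, child_false_hi, Function.update_self]
      linarith
    · simp only [Bx.side, child_true_lo, child_true_hi, Function.update_self]
      linarith
  have h5 := (child B (ax B) c b).side_le_sz (ax B)
  linarith


/-- the potential of a state -/
noncomputable def pot (P : Finset (Bx κ)) : ℝ := ∑ X ∈ P, X.vol ^ 2

theorem pot_step {κ0 δ : ℝ} {rho : (κ → ℝ) → ℝ} (hκ : 0 < κ0) {P P' : Finset (Bx κ)}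
    (h : St κ0 δ rho P) (hs : Stp rho P P') {ε : ℝ} (hε : 0 ≤ ε)
    (hex : ∃ U ∈ P, ¬ Done rho U ∧ ε ≤ U.sz) :
    pot P' ≤ pot P - 1 / 3 * ((ε / κ0) ^ Fintype.card κ) ^ 2 := by
  classical
  obtain ⟨B, hB, hBD, hmax, c, hc1, hc2, hmem⟩ := hs
  obtain ⟨U, hU, hUD, hεU⟩ := hex
  have hBp := h.pos B hB
  have hεB : ε ≤ B.sz := hεU.trans (hmax U hU hUD)
  have hP' : P' = insert (child B (ax B) c false) (insert (child B (ax B) c true) (P.erase B)) := by
    ext X
    rw [hmem, Finset.mem_insert, Finset.mem_insert, Finset.mem_erase]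
    tauto
  have hins : ∀ (X : Bx κ) (S : Finset (Bx κ)), pot (insert X S) ≤ X.vol ^ 2 + pot S := by
    intro X S
    unfold pot
    by_cases hX : X ∈ S
    · rw [Finset.insert_eq_of_mem hX]
      have : 0 ≤ X.vol ^ 2 := by positivity
      linarith
    · rw [Finset.sum_insert hX]
  have h1 : pot P = B.vol ^ 2 + pot (P.erase B) := by
    unfold pot
    rw [Finset.add_sum_erase P (fun X : Bx κ => X.vol ^ 2) hB]
  have h2 := hins (child B (ax B) c false) (insert (child B (ax B) c true) (P.erase B))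
  have h3 := hins (child B (ax B) c true) (P.erase B)
  have h4 := vol_sq hBp hc1 hc2
  have h5 : (ε / κ0) ^ Fintype.card κ ≤ B.vol :=
    vol_ge hκ hε fun i => hεB.trans (h.cmp B hB hBD B hB i)
  have h6 : 0 ≤ (ε / κ0) ^ Fintype.card κ := by positivity
  have h7 : ((ε / κ0) ^ Fintype.card κ) ^ 2 ≤ B.vol ^ 2 := pow_le_pow_left₀ h6 h5 2
  rw [hP']
  linarith

end

end Crest.Agent.R096.Bsp_628
end

-- ▼ part R096/Bsp4_628

/-!
# Row 96, U1 / FOAM-EX (helper628), part 4: the graded simple box foam

**Theorem `exists_foam`**: from every finite start family of boxes with `INV` (one big cube, or the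
crossing logs) which covers the open set `La = {0 < rho}` (`rho` Lipschitz for the sup norm), there is a
locally finite family `F` of boxes covering exactly `La`, graded by `rho`, with the quantitative
simplicity `INV`; start boxes which are already small enough are kept.
-/

set_option autoImplicit false
set_option linter.unusedSectionVars false

open Set

namespace Crest.Agent.R096.Bsp_628

variable {κ : Type*} [Fintype κ] [Nonempty κ] [DecidableEq κ]

/-- one step or nothing -/
def Nxt (rho : (κ → ℝ) → ℝ) (P P' : Finset (Bx κ)) : Prop :=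
  ((∀ U ∈ P, Done rho U) ∧ P' = P) ∨ Stp rho P P'


section Seq

variable {κ0 δ : ℝ} {rho : (κ → ℝ) → ℝ} {s : ℕ → Finset (Bx κ)}

/-- facts about one step, in usable form -/
theorem Stp.born {P P' : Finset (Bx κ)} (h : Stp rho P P') (hst : St κ0 δ rho P)
    (hκ : 3 ≤ κ0) {C : Bx κ} (hC : C ∈ P') (hn : C ∉ P) :
    ∃ B ∈ P, ¬ Done rho B ∧ C.Le B ∧ B.sz ≤ 3 * C.sz ∧ ∀ i, B.sz ≤ κ0 * C.side i := by
  obtain ⟨B, hB, hBD, hmax, c, hc1, hc2, hmem⟩ := h
  have hBp := hst.pos B hB
  have hs : 0 < B.sz := Bx.sz_pos hBp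
  have hs' : B.sz = B.hi (ax B) - B.lo (ax B) := rfl
  have hlt1 : B.lo (ax B) < c := by linarith
  have hlt2 : c < B.hi (ax B) := by linarith
  refine ⟨B, hB, hBD, ?_⟩
  have key : ∀ b, C = child B (ax B) c b → C.Le B ∧ B.sz ≤ 3 * C.sz ∧
      ∀ i, B.sz ≤ κ0 * C.side i := by
    rintro b rfl
    exact ⟨child_le hlt1.le hlt2.le b, sz_child_ge hc1 hc2 b,
      fun i => side_child_of hκ (hst.cmp B hB hBD B hB) hBp hc1 hc2 b i⟩
  rcases (hmem C).1 hC with h1 | h1 | h1
  · exact absurd h1.1 hn
  · exact key false h1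
  · exact key true h1

theorem Nxt.done {P P' : Finset (Bx κ)} (h : Nxt rho P P') {C : Bx κ} (hC : C ∈ P)
    (hD : Done rho C) : C ∈ P' := by
  rcases h with ⟨-, rfl⟩ | ⟨B, hB, hBD, hmax, c, hc1, hc2, hmem⟩
  · exact hC
  · rw [hmem]
    left
    refine ⟨hC, ?_⟩
    rintro rfl
    exact hBD hD

theorem Nxt.cover {P P' : Finset (Bx κ)} (h : Nxt rho P P') {x : κ → ℝ}
    (hx : ∃ B ∈ P, x ∈ B.set) : ∃ B ∈ P', x ∈ B.set := by
  rcases h with ⟨-, rfl⟩ | ⟨B, hB, hBD, hmax, c, hc1, hc2, hmem⟩
  · exact hx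
  · obtain ⟨C, hC, hxC⟩ := hx
    by_cases hCB : C = B
    · subst hCB
      obtain ⟨b, hb⟩ := mem_child (i := ax C) (t := c) hxC
      cases b
      · exact ⟨_, (hmem _).2 (Or.inr (Or.inl rfl)), hb⟩
      · exact ⟨_, (hmem _).2 (Or.inr (Or.inr rfl)), hb⟩
    · exact ⟨C, (hmem C).2 (Or.inl ⟨hC, hCB⟩), hxC⟩

variable (hst : ∀ n, St κ0 δ rho (s n)) (hnx : ∀ n, Nxt rho (s n) (s (n + 1)))

include hst hnx

theorem seq_done {n m : ℕ} (hnm : n ≤ m) {C : Bx κ} (hC : C ∈ s n) (hD : Done rho C) :
    C ∈ s m := by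
  induction m, hnm using Nat.le_induction with
  | base => exact hC
  | succ m _ ih => exact (hnx m).done ih hD

theorem seq_cover {x : κ → ℝ} (hx : ∃ B ∈ s 0, x ∈ B.set) (n : ℕ) : ∃ B ∈ s n, x ∈ B.set := by
  induction n with
  | zero => exact hx
  | succ n ih => exact (hnx n).cover ih

theorem seq_refine (hκ : 3 ≤ κ0) {n m : ℕ} (hnm : n ≤ m) {C : Bx κ} (hC : C ∈ s m) :
    C ∈ s n ∨ ∃ U ∈ s n, ¬ Done rho U ∧ C.Le U := by
  induction m, hnm using Nat.le_induction generalizing C with
  | base => exact Or.inl hC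
  | succ m _ ih =>
    by_cases hCm : C ∈ s m
    · exact ih hCm
    · rcases hnx m with ⟨-, h1⟩ | h1
      · rw [h1] at hC
        exact absurd hC hCm
      · obtain ⟨B, hB, hBD, hCB, -, -⟩ := h1.born (hst m) hκ hC hCm
        rcases ih hB with h2 | ⟨U, hU, hUD, hBU⟩
        · exact Or.inr ⟨B, h2, hBD, hCB⟩
        · exact Or.inr ⟨U, hU, hUD, hCB.trans hBU⟩

theorem seq_birth (hκ : 3 ≤ κ0) {n : ℕ} {C : Bx κ} (hC : C ∈ s n) :
    C ∈ s 0 ∨ ∃ B, B.Pos ∧ ¬ Done rho B ∧ C.Le B ∧ B.sz ≤ 3 * C.sz ∧
      ∀ i, B.sz ≤ κ0 * C.side i := by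
  induction n with
  | zero => exact Or.inl hC
  | succ n ih =>
    by_cases hCm : C ∈ s n
    · exact ih hCm
    · rcases hnx n with ⟨-, h1⟩ | h1
      · rw [h1] at hC
        exact absurd hC hCm
      · obtain ⟨B, hB, h2⟩ := h1.born (hst n) hκ hC hCm
        exact Or.inr ⟨B, (hst n).pos B hB, h2⟩

theorem seq_root (hκ : 3 ≤ κ0) {n : ℕ} {C : Bx κ} (hC : C ∈ s n) : ∃ B ∈ s 0, C.Le B := by
  rcases seq_refine hst hnx hκ (Nat.zero_le n) hC with h | ⟨U, hU, -, h⟩
  · exact ⟨C, h, Bx.Le.refl _⟩
  · exact ⟨U, hU, h⟩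

/-- the unfinished boxes become small -/
theorem seq_small (hκ : 3 ≤ κ0) {ε : ℝ} (hε : 0 < ε) :
    ∃ n, ∀ U ∈ s n, ¬ Done rho U → U.sz < ε := by
  by_contra hcon
  push Not at hcon
  have hκ0 : 0 < κ0 := by linarith
  set η : ℝ := 1 / 3 * ((ε / κ0) ^ Fintype.card κ) ^ 2 with hη
  have hη0 : 0 < η := by positivity
  have h1 : ∀ n, pot (s n) ≤ pot (s 0) - n * η := by
    intro n
    induction n with
    | zero => simp
    | succ n ih =>
      obtain ⟨U, hU, hUD, hUε⟩ := hcon n
      rcases hnx n with ⟨h2, -⟩ | h2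
      · exact absurd (h2 U hU) hUD
      · have h3 := pot_step hκ0 (hst n) h2 hε.le ⟨U, hU, hUD, hUε⟩
        push_cast
        linarith
  obtain ⟨n, hn⟩ := exists_nat_gt (pot (s 0) / η)
  rw [div_lt_iff₀ hη0] at hn
  have h2 := h1 n
  have h3 : 0 ≤ pot (s n) := Finset.sum_nonneg fun X _ => by positivity
  linarith

end Seq

/-- distance of two points of a box in the sup norm -/
theorem dist_le_sz {B : Bx κ} {x y : κ → ℝ} (hx : x ∈ B.set) (hy : y ∈ B.set) (hB : B.Pos) :
    dist x y ≤ B.sz := by
  rw [dist_pi_le_iff (Bx.sz_pos hB).le]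
  intro i
  have h1 := Bx.mem_set.1 hx i
  have h2 := Bx.mem_set.1 hy i
  have h3 := B.side_le_sz i
  have h4 : B.side i = B.hi i - B.lo i := rfl
  rw [Real.dist_eq, abs_le]
  constructor <;> linarith [h1.1, h1.2, h2.1, h2.2]

/-- the output: a graded family of boxes with the quantitative simplicity -/
structure BoxFoam (La : Set (κ → ℝ)) (F : Set (Bx κ)) (δ κ0 : ℝ) : Prop where
  countable : F.Countable
  pos : ∀ C ∈ F, C.Pos
  sub : ∀ C ∈ F, C.set ⊆ La
  cov : ∀ x ∈ La, ∃ C ∈ F, x ∈ C.set
  lf : ∀ x ∈ La, ∃ r > 0, {C | C ∈ F ∧ (C.set ∩ Metric.ball x r).Nonempty}.Finite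
  inv : INV δ F
  asp : ∀ C ∈ F, ∀ i, C.sz ≤ κ0 * C.side i


/-- one box is an admissible start -/
theorem inv_single {Q : Bx κ} (hQ : Q.Pos) {κ0 : ℝ} (hκ : 0 < κ0)
    (hs : ∀ i, Q.sz ≤ κ0 * Q.side i) : INV (1 / κ0) (↑({Q} : Finset (Bx κ)) : Set (Bx κ)) := by
  classical
  intro A hA hne hm
  have hA' : A = {Q} := by
    refine Finset.eq_singleton_iff_nonempty_unique_mem.2 ⟨hne, fun X hX => ?_⟩
    have := hA (by exact_mod_cast hX : X ∈ (↑A : Set (Bx κ)))
    simpa using this
  subst hA'
  have hd : ∀ k, ¬ Deg ({Q} : Finset (Bx κ)) k := by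
    rintro k ⟨X, hX, Y, hY, hXY⟩
    rw [Finset.mem_singleton] at hX hY
    subst hX
    subst hY
    exact absurd hXY (hQ k).ne
  refine ⟨?_, fun k _ => ⟨Q, Finset.mem_singleton_self _, fun X hX Y hY => ?_⟩⟩
  · have : {k | Deg ({Q} : Finset (Bx κ)) k} = ∅ := by
      ext k
      simp [hd k]
    rw [this, Set.ncard_empty, Finset.card_singleton]
  · rw [Finset.mem_singleton] at hX hY
    rw [hX, hY]
    have h1 : Q.side k = Q.hi k - Q.lo k := rfl
    have h2 := hs k
    have h3 : 1 / κ0 * Q.sz ≤ Q.side k := by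
      rw [one_div, inv_mul_le_iff₀ hκ]
      exact h2
    linarith


end Crest.Agent.R096.Bsp_628
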