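import Crest.Agent.R096.Bxs6_627
import Crest.Agent.R096.SkC1_961

/-!
Row 96 (S0127), helper627.  BOXES, part 7: the `FoamD` of a foam with concentric homothetic cores, and
`Exact` for its bricks.
-/

set_option autoImplicit false
set_option linter.unusedSectionVars false
set_option linter.style.longLine false
set_option linter.unusedVariables false

open MeasureTheory Set Filter Topology Metric

namespace Crest.Agent.R096.Bxs_627

open Crest.AnalysisR.VecCalc3 Crest.AnalysisR.Sobolev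
open Crest.Agent.R096.Bsp_628 Crest.Agent.R96.Push_899 Crest.Agent.R96.En10_199
open Crest.Agent.R096.Brk5_582 Crest.Agent.R096.Msh_715

noncomputable section

variable {La : Set E3} {F : Set (Bx (Fin 3))} {δ κ0 R c0 : ℝ}

/-- the `FoamD` with concentric homothetic cores of ratio `lam c`, holes of ratio `lam c / 2`. -/
def fD (bf : BoxFoam La F δ κ0) (cmp : Cmp F R) (hκ : 1 ≤ κ0) (hc : 0 < c0) (hc2 : c0 * κ0 ≤ 1)
    (lam : F → ℝ) (hl : ∀ c, c0 ≤ lam c) (hl1 : ∀ c, lam c < 1) : SkC1_961.FoamD δ κ0 R c0 La where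
  F := F
  bf := bf
  cmp := cmp
  B c := cb c.1 (bf.pos _ c.2) (lam c / 2) (half_pos (hc.trans_le (hl c))).le
  pu c := pus c.1 (bf.pos _ c.2) (lam c) (hc.trans_le (hl c))
  push c := Or.inr ⟨∅, 0, (1 - lam c) * c.1.sz / 2,
    cb c.1 (bf.pos _ c.2) (lam c) (hc.trans_le (hl c)).le,
    shape_cb' (bf.pos _ c.2) hκ (bf.asp _ c.2) (hc.trans_le (hl c)) (hl1 c) hc (hl c) hc2,
    inner_cb (bf.pos _ c.2) (hc.trans_le (hl c)), rfl⟩


end

end Crest.Agent.R096.Bxs_627
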