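import Crest.Agent.R096.Wd4_120
import Crest.Agent.R096.Mbf_337
import Crest.Agent.R096.Cel1_715
import Crest.Agent.R096.Dic2_582
import Crest.Agent.R096.Bsp4_628
import Crest.Agent.R096.Exa2_365
import Crest.Agent.R96.EaP2_899
import Crest.Agent.R096.Mcc1_715
import Crest.Agent.R096.Mf2_113
import Crest.Agent.R096.Mfa2_880
import Crest.Agent.R096.Core2_124
import Crest.Agent.R96.Sg5_199
import Crest.Agent.R096.Ea0_961

-- ▼ part R096/Wd5_120
section

/-!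
Row 96, exact cores (helper120), part 5: edges of the `M`-grid are `EdgeC`; bad levels of the edges
of one exact core.
-/

set_option autoImplicit false
set_option linter.unusedSectionVars false

open Set Filter Topology Metric MeasureTheory

namespace Crest.Agent.R096.Wd_120

open Crest.Agent.R096.Bsp_628 Crest.Agent.R096.Bxs_627 Crest.Agent.R096.Brk1_582
open Crest.Agent.R096.Brk3_582 Crest.Agent.R096.Brk5_582 Crest.Agent.R096.Core_124

variable {κ : Type*} [Fintype κ] [Nonempty κ] {La : Set (κ → ℝ)} {F : Set (Bx κ)} {δ κ0 R : ℝ}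

/-- a point of two bricks is on the boundary -/
theorem mu_eq_one (BF : BoxFoam La F δ κ0) {c d : F} (hcd : c ≠ d) {y : κ → ℝ} (hy : y ∈ Pc F c)
    (hy' : y ∈ Pc F d) : mu c.1 y = 1 := by
  have hQ := BF.pos _ c.2
  refine le_antisymm ((mem_set_iff hQ).1 hy) ?_
  obtain ⟨k, hk⟩ := opp_of_pair BF hcd hy hy'
  have hs := Bx.side_pos hQ k
  have h1 := norm_le_pi_norm (nc c.1 y) k
  rw [Real.norm_eq_abs] at h1
  refine le_trans ?_ h1
  have hlo := ctr_sub_lo c.1 k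
  have hhi := ctr_add_hi c.1 k
  have habs : |nc c.1 y k| = 2 * |y k - ctr c.1 k| / c.1.side k := by
    have e1 : nc c.1 y k = 2 * (y k - ctr c.1 k) / c.1.side k := rfl
    rw [e1, abs_div, abs_mul, abs_of_pos hs, abs_of_pos (by norm_num : (0:ℝ) < 2)]
  rw [habs, le_div_iff₀ hs]
  rcases hk with hk | hk
  · rw [show y k - ctr c.1 k = c.1.side k / 2 by rw [← hk.2]; linarith, abs_of_pos (by linarith)]
    linarith
  · rw [show y k - ctr c.1 k = -(c.1.side k / 2) by rw [← hk.1]; linarith, abs_neg,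
      abs_of_pos (by linarith)]
    linarith

/-- **an edge of the level-aligned `M`-grid of the boundary of the brick `c`** -/
structure MEdge (F : Set (Bx κ)) (M : ℕ) (c : F) (e0 e1 : κ → ℝ) : Prop where
  M0 : 0 < M
  m0 : e0 ∈ Pc F c
  m1 : e1 ∈ Pc F c
  d : ∃ d : F, d ≠ c ∧ e1 ∈ Pc F d
  ex : ∃ (a : F) (i : ℕ), sc (Pc F) (bc (F := F)) e0 a = i / M ∧
    sc (Pc F) (bc (F := F)) e1 a = (i + 1 : ℕ) / M ∧
    ∀ b : F, b ≠ a → sc (Pc F) (bc (F := F)) e1 b = sc (Pc F) (bc (F := F)) e0 b ∧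
      ∃ k : ℕ, sc (Pc F) (bc (F := F)) e0 b = k / M

theorem gap_int {M : ℕ} (hM : 0 < M) {i j : ℕ} (h : (i : ℝ) / M < j / M) :
    (i : ℝ) / M + 1 / M ≤ j / M := by
  have hM' : (0 : ℝ) < M := by exact_mod_cast hM
  rw [div_lt_div_iff_of_pos_right hM'] at h
  have h1 : i < j := by exact_mod_cast h
  have h2 : (i : ℝ) + 1 ≤ j := by exact_mod_cast h1
  rw [← add_div]
  exact div_le_div_of_nonneg_right h2 hM'.le

namespace MEdge

variable {M : ℕ} {c : F} {e0 e1 : κ → ℝ} (h : MEdge F M c e0 e1)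
include h

theorem nat0 (b : F) : ∃ k : ℕ, sc (Pc F) (bc (F := F)) e0 b = k / M := by
  obtain ⟨a, i, h1, h2, h3⟩ := h.ex
  by_cases hb : b = a
  · exact ⟨i, by rw [hb, h1]⟩
  · exact (h3 b hb).2

theorem nat1 (b : F) : ∃ k : ℕ, sc (Pc F) (bc (F := F)) e1 b = k / M := by
  obtain ⟨a, i, h1, h2, h3⟩ := h.ex
  by_cases hb : b = a
  · exact ⟨i + 1, by rw [hb, h2]⟩
  · obtain ⟨h4, k, h5⟩ := h3 b hb
    exact ⟨k, by rw [h4, h5]⟩

theorem com : Com (sc (Pc F) (bc (F := F)) e0) (sc (Pc F) (bc (F := F)) e1) := by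
  have hM' : (0 : ℝ) < M := by exact_mod_cast h.M0
  obtain ⟨a, i, h1, h2, h3⟩ := h.ex
  intro p q hpq
  by_cases hp : p = a
  · by_cases hq : q = a
    · subst hp; subst hq; exact absurd hpq (lt_irrefl _)
    · obtain ⟨h4, k, h5⟩ := h3 q hq
      rw [hp, h2, h4, h5]
      rw [hp, h1, h5] at hpq
      have := gap_int h.M0 hpq
      rw [← add_div] at this
      push_cast
      exact this
  · by_cases hq : q = a
    · obtain ⟨h4, k, h5⟩ := h3 p hp
      rw [h4, hq, h2]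
      rw [hq, h1] at hpq
      refine hpq.le.trans ?_
      exact div_le_div_of_nonneg_right (by push_cast; linarith) hM'.le
    · rw [(h3 p hp).1, (h3 q hq).1]
      exact hpq.le

theorem edgeK (BF : BoxFoam La F δ κ0) (hLa : IsOpen La) :
    EdgeK (Pc F) c (1 / M) (sc (Pc F) (bc (F := F)) e0) (sc (Pc F) (bc (F := F)) e1) := by
  have FF := foam BF hLa
  have hM' : (0 : ℝ) < M := by exact_mod_cast h.M0
  have l0 := FF.sub c h.m0
  have l1 := FF.sub c h.m1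
  have hM1 : (M : ℝ) / M = 1 := div_self hM'.ne'
  refine ⟨by positivity, FF.sc_mem_K l0, FF.sc_mem_K l1, (FF.sc_eq_zero l0).2 h.m0,
    (FF.sc_eq_zero l1).2 h.m1, h.com, ?_, ?_, ?_, ?_⟩
  · intro a b hab
    obtain ⟨i, hi⟩ := h.nat0 a
    obtain ⟨j, hj⟩ := h.nat0 b
    rw [hi, hj] at hab ⊢
    exact gap_int h.M0 hab
  · intro a b hab
    obtain ⟨i, hi⟩ := h.nat1 a
    obtain ⟨j, hj⟩ := h.nat1 b
    rw [hi, hj] at hab ⊢
    exact gap_int h.M0 hab
  · intro a ha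
    obtain ⟨i, hi⟩ := h.nat0 a
    rw [hi] at ha ⊢
    rw [← hM1] at ha ⊢
    rw [hM1]
    have := gap_int h.M0 ha
    rwa [hM1] at this
  · intro a ha
    obtain ⟨i, hi⟩ := h.nat1 a
    rw [hi] at ha ⊢
    rw [← hM1] at ha ⊢
    rw [hM1]
    have := gap_int h.M0 ha
    rwa [hM1] at this

/-- the coordinates are affine on an M-edge -/
theorem line (BF : BoxFoam La F δ κ0) (hLa : IsOpen La) {t : ℝ} (ht : t ∈ Icc (0 : ℝ) 1) :
    (∀ a : F, sc (Pc F) (bc (F := F)) (sg e0 e1 t) a = (1 - t) * sc (Pc F) (bc (F := F)) e0 a +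
      t * sc (Pc F) (bc (F := F)) e1 a) ∧ sg e0 e1 t ∈ Pc F c ∧ ∃ d : F, d ≠ c ∧ sg e0 e1 t ∈ Pc F d := by
  classical
  have FF := foam BF hLa
  have hM' : (0 : ℝ) < M := by exact_mod_cast h.M0
  have l0 := FF.sub c h.m0
  have l1 := FF.sub c h.m1
  have k0 := FF.sc_mem_K l0
  have k1 := FF.sc_mem_K l1
  set u0 := sc (Pc F) (bc (F := F)) e0 with hu0
  set u1 := sc (Pc F) (bc (F := F)) e1 with hu1
  have z0 : u0 c = 0 := (FF.sc_eq_zero l0).2 h.m0
  have z1 : u1 c = 0 := (FF.sc_eq_zero l1).2 h.m1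
  obtain ⟨a, i, h1, h2, h3⟩ := h.ex
  rw [← hu0, ← hu1] at h3
  rw [← hu0] at h1
  rw [← hu1] at h2
  have hle : ∀ b, u0 b ≤ u1 b := by
    intro b
    by_cases hb : b = a
    · rw [hb, h1, h2]
      exact div_le_div_of_nonneg_right (by push_cast; linarith) hM'.le
    · rw [(h3 b hb).1]
  have htt : 0 ≤ 1 - t := by linarith [ht.2]
  have hcomb : ∀ b, (1 - t) * u0 b + t * u1 b ∈ Icc (0 : ℝ) 1 := by
    intro b
    refine ⟨add_nonneg (mul_nonneg htt (k0.1 b).1) (mul_nonneg ht.1 (k1.1 b).1), ?_⟩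
    have := mul_le_mul_of_nonneg_left (k0.1 b).2 htt
    have := mul_le_mul_of_nonneg_left (k1.1 b).2 ht.1
    linarith
  have hK : (fun b => (1 - t) * u0 b + t * u1 b) ∈ K (Pc F) := by
    refine ⟨fun b => hcomb b, ⟨c, by simp only [z0, z1]; ring⟩, k0.2.2.mono (fc_anti fun b hb => ?_)⟩
    have hb' : (1 - t) * u0 b + t * u1 b < 1 := hb
    have h4 := hle b
    show u0 b < 1
    by_contra hcon
    push Not at hcon
    have e0 := le_antisymm (k0.1 b).2 hcon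
    have e1 := le_antisymm (k1.1 b).2 (hcon.trans h4)
    rw [e0, e1] at hb'
    linarith
  have hT : T (bc (F := F)) (fun b => (1 - t) * u0 b + t * u1 b) = sg e0 e1 t := by
    have hfin : ({b | u0 b < 1} ∪ {b | u1 b < 1}).Finite := (FF.K_finite k0).union (FF.K_finite k1)
    have key := T_comb (bc (F := F)) h.com (fun b => k0.1 b) (fun b => k1.1 b) hfin.toFinset
      (fun b hb => by
        rw [Set.Finite.mem_toFinset] at hb
        simp only [mem_union, mem_ofPred_eq, not_or, not_lt] at hb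
        exact ⟨le_antisymm (k0.1 b).2 hb.1, le_antisymm (k1.1 b).2 hb.2⟩) ht
    rw [← hu0, ← hu1] at key
    rw [key, FF.T_sc l0, FF.T_sc l1]
    funext k
    simp [sg]
  have hsc := FF.sc_T hK
  rw [hT] at hsc
  have hLa' : sg e0 e1 t ∈ La := by rw [← hT]; exact FF.T_mem_La hK
  obtain ⟨d, hd1, hd2⟩ := h.d
  have y1 : u1 d = 0 := (FF.sc_eq_zero l1).2 hd2
  have y0 : u0 d = 0 := le_antisymm ((hle d).trans y1.le) (k0.1 d).1
  refine ⟨fun b => by rw [hsc], ?_, d, hd1, ?_⟩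
  · rw [show Pc F c = {y | y ∈ Pc F c} from rfl]
    refine (FF.sc_eq_zero hLa').1 ?_
    rw [hsc]
    simp only [z0, z1]; ring
  · refine (FF.sc_eq_zero hLa').1 ?_
    rw [hsc]
    simp only [y0, y1]; ring

end MEdge

/-- the point of the core box over the point `e` of the brick -/
noncomputable def shr (Q : Bx κ) (lam : ℝ) (e : κ → ℝ) : κ → ℝ := fun k => ctr Q k + lam * (e k - ctr Q k)

theorem nc_shr {Q : Bx κ} (lam : ℝ) (e : κ → ℝ) : nc Q (shr Q lam e) = lam • nc Q e := by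
  funext k
  simp only [nc, shr, Pi.smul_apply, smul_eq_mul]; ring

theorem mu_shr {Q : Bx κ} {lam : ℝ} (hl : 0 ≤ lam) (e : κ → ℝ) :
    mu Q (shr Q lam e) = lam * mu Q e := by
  unfold mu
  rw [nc_shr, norm_smul, Real.norm_eq_abs, abs_of_nonneg hl]

theorem rp_shr {Q : Bx κ} {lam : ℝ} (hl : 0 < lam) {e : κ → ℝ} (he : mu Q e = 1) :
    rp Q (shr Q lam e) = e := by
  funext k
  unfold rp
  rw [mu_shr hl.le, he, mul_one]
  unfold shr
  field_simp
  ring

theorem shr_sg {Q : Bx κ} (lam : ℝ) (e0 e1 : κ → ℝ) (t : ℝ) :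
    sg (shr Q lam e0) (shr Q lam e1) t = shr Q lam (sg e0 e1 t) := by
  funext k
  simp only [sg, shr]; ring

/-- **M-edges satisfy all hypotheses of RADIAL** -/
theorem MEdge.edgeC [DecidableEq κ] (BF : BoxFoam La F δ κ0) (hLa : IsOpen La) (hδ : 0 < δ)
    (hR : 0 < R) (hcmp : Cmp F R) (hC : 0 < Cs (Fintype.card κ) δ R) {M : ℕ} {c : F}
    {e0 e1 : κ → ℝ} (h : MEdge F M c e0 e1) {lam : ℝ} (hl : 0 < lam) :
    EdgeC F c lam (lam * min 1 (2 * (1 / M) / Cs (Fintype.card κ) δ R)) (1 / M)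
      (shr c.1 lam e0) (shr c.1 lam e1) := by
  have FF := foam BF hLa
  have hM' : (0 : ℝ) < M := by exact_mod_cast h.M0
  have l0 := FF.sub c h.m0
  have l1 := FF.sub c h.m1
  have mm : ∀ t ∈ Icc (0 : ℝ) 1, mu c.1 (sg e0 e1 t) = 1 := by
    intro t ht
    obtain ⟨-, h2, d, h3, h4⟩ := h.line BF hLa ht
    exact mu_eq_one BF (Ne.symm h3) h2 h4
  have s0 : sg e0 e1 0 = e0 := by funext k; simp [sg]
  have s1 : sg e0 e1 1 = e1 := by funext k; simp [sg]
  have mm0 : mu c.1 e0 = 1 := by have := mm 0 ⟨le_rfl, zero_le_one⟩; rwa [s0] at this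
  have mm1 : mu c.1 e1 = 1 := by have := mm 1 ⟨zero_le_one, le_rfl⟩; rwa [s1] at this
  have hEK := h.edgeK BF hLa
  have g0 : ∀ a : F, 0 < sc (Pc F) (bc (F := F)) e0 a → 1 / (M : ℝ) ≤ sc (Pc F) (bc (F := F)) e0 a := by
    intro a ha
    have := hEK.gap0 c a (by rw [hEK.z0]; exact ha)
    rw [hEK.z0] at this
    linarith
  have g1 : ∀ a : F, 0 < sc (Pc F) (bc (F := F)) e1 a → 1 / (M : ℝ) ≤ sc (Pc F) (bc (F := F)) e1 a := by
    intro a ha
    have := hEK.gap1 c a (by rw [hEK.z1]; exact ha)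
    rw [hEK.z1] at this
    linarith
  have hm : 0 < 1 / (M : ℝ) := by positivity
  refine ⟨⟨hl, by positivity, ?_, ?_, ?_, ?_⟩, ?_, ?_⟩
  · have := min_le_left 1 (2 * (1 / (M : ℝ)) / Cs (Fintype.card κ) δ R)
    nlinarith
  · intro t ht
    have := shr_sg (Q := c.1) lam e0 e1 t
    change mu c.1 (sg (shr c.1 lam e0) (shr c.1 lam e1) t) = lam
    rw [this, mu_shr hl.le, mm t ht, mul_one]
  · intro k hk
    rw [nc_shr, Pi.smul_apply, smul_eq_mul, abs_mul, abs_of_pos hl] at hk ⊢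
    have h1 : |nc c.1 e0 k| < 1 := by
      by_contra hcon
      push Not at hcon
      nlinarith
    have := margin_nc BF hLa hδ hR hcmp c h.m0 hm g0 k h1
    nlinarith
  · intro k hk
    rw [nc_shr, Pi.smul_apply, smul_eq_mul, abs_mul, abs_of_pos hl] at hk ⊢
    have h1 : |nc c.1 e1 k| < 1 := by
      by_contra hcon
      push Not at hcon
      nlinarith
    have := margin_nc BF hLa hδ hR hcmp c h.m1 hm g1 k h1
    nlinarith
  · rw [rp_shr hl mm0, rp_shr hl mm1]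
    exact hEK
  · intro t ht a
    rw [shr_sg, rp_shr hl (mm t ht), rp_shr hl mm0, rp_shr hl mm1]
    exact (h.line BF hLa ht).1 a

/-- reversal of the edge -/
theorem EdgeC.symm {c : F} {lam mg m : ℝ} {y0 y1 : κ → ℝ} (h : EdgeC F c lam mg m y0 y1) :
    EdgeC F c lam mg m y1 y0 := by
  refine ⟨⟨h.B.lam0, h.B.mg0, h.B.mgl, fun t ht => ?_, h.B.g1, h.B.g0⟩,
    ⟨h.K.m0, h.K.K1, h.K.K0, h.K.z1, h.K.z0, h.K.com.symm, h.K.gap1, h.K.gap0, h.K.one1, h.K.one0⟩,
    fun t ht a => ?_⟩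
  · have := h.B.on (1 - t) ⟨by linarith [ht.2], by linarith [ht.1]⟩
    rw [← this]
    congr 1
    funext k
    ring
  · have := h.line (1 - t) ⟨by linarith [ht.2], by linarith [ht.1]⟩ a
    have e : sg y0 y1 (1 - t) = sg y1 y0 t := by funext k; simp only [sg]; ring
    rw [e] at this
    rw [this]; ring

end Crest.Agent.R096.Wd_120
end

-- ▼ part R096/Wd6_120
section

/-!
Row 96, exact cores (helper120), part 6: the edges of an exact core with the `M`-grid on its boundary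
(446's closed form of `grid`) are M-edges.
-/

set_option autoImplicit false
set_option linter.unusedSectionVars false

open Set Filter Topology Metric MeasureTheory

namespace Crest.Agent.R096.Wd_120

open Crest.Agent.R096.Bsp_628 Crest.Agent.R096.Bxs_627 Crest.Agent.R096.Brk1_582
open Crest.Agent.R096.Brk3_582 Crest.Agent.R096.Brk5_582 Crest.Agent.R096.Core_124
open Crest.Agent.R096.Msh_715 Crest.Agent.R096.Ls_222 Crest.Agent.R96.Sg1_199
open Crest.Agent.R096.SkC1_961 (FoamD th)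
open Crest.Agent.R096.Mbf_337 (sb)

theorem mem_I_of_interior {E : Type*} [NormedAddCommGroup E] [NormedSpace ℝ E]
    {H : Finset ((E →L[ℝ] ℝ) × ℝ)} (hne : (I H).Nonempty) {y : E} (hy : y ∈ interior (P H)) :
    y ∈ I H := by
  obtain ⟨z, hz⟩ := hne
  intro h hh
  refine lt_of_le_of_ne (interior_subset hy h hh) fun e => ?_
  have hc : Continuous (fun t : ℝ => y + t • (y - z)) := by fun_prop
  have h1 : ∀ᶠ t in 𝓝 (0 : ℝ), y + t • (y - z) ∈ P H := by
    have := hc.tendsto 0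
    simp only [zero_smul, add_zero] at this
    exact this.eventually (mem_interior_iff_mem_nhds.1 hy)
  have h2 : ∀ᶠ t in 𝓝[>] (0 : ℝ), y + t • (y - z) ∈ P H := nhdsWithin_le_nhds h1
  obtain ⟨t, ht, ht0⟩ := (h2.and self_mem_nhdsWithin).exists
  have h3 := ht h hh
  have h4 := hz h hh
  have ht0' : (0 : ℝ) < t := ht0
  simp only [map_add, map_smul, map_sub, smul_eq_mul] at h3
  nlinarith

section grid

variable {δ κ0 R c0 : ℝ} {La Om : Set (Fin 3 → ℝ)} {ι : Type} {Φ : FoamD δ κ0 R c0 La}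
  {T : Tiling Om ι}

/-- the `M`-grid on the boundary of the core tile `i` (446's closed form) -/
def GridC (Φ : FoamD δ κ0 R c0 La) (T : Tiling Om ι) (M : ℕ) (i : ι)
    (u : (Fin 3 → ℝ) → Φ.F → ℝ) : Prop :=
  ∀ x ∈ P (T.H i), x ∉ I (T.H i) →
    T.cc x = {y | y ∈ P (T.H i) ∧ ∀ a : Φ.F, (⌊M * u x a⌋₊ : ℝ) ≤ M * u y a ∧
      M * u y a ≤ ⌈M * u x a⌉₊} ∧ T.dim x = {a | ⌊M * u x a⌋₊ < ⌈M * u x a⌉₊}.ncard

variable {c : Φ.F} {i : ι} {A : (Fin 3 → ℝ) ≃ᵃ[ℝ] (Fin 3 → ℝ)} {lam : ℝ} {z : Fin 3 → ℝ}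

theorem th_mem (hl : 0 < lam)
    (ht : P (T.H i) = A ⁻¹' {y | ∀ k, z k + lam * c.1.lo k ≤ y k ∧ y k ≤ z k + lam * c.1.hi k})
    {y : Fin 3 → ℝ} (hy : y ∈ P (T.H i)) : th A lam z y ∈ Pc Φ.F c := by
  rw [ht] at hy
  refine Bx.mem_set.2 fun k => ?_
  obtain ⟨h1, h2⟩ := hy k
  unfold th
  constructor
  · rw [le_div_iff₀ hl]; linarith
  · rw [div_le_iff₀ hl]; linarith

theorem th_bd (hLa : IsOpen La) (hl : 0 < lam)
    (ht : P (T.H i) = A ⁻¹' {y | ∀ k, z k + lam * c.1.lo k ≤ y k ∧ y k ≤ z k + lam * c.1.hi k})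
    {y : Fin 3 → ℝ} (hy : y ∈ P (T.H i)) (hn : y ∉ I (T.H i)) :
    ∃ d : Φ.F, d ≠ c ∧ th A lam z y ∈ Pc Φ.F d := by
  have hm := th_mem (c := c) hl ht hy
  have hk : ∃ k, A y k = z k + lam * c.1.lo k ∨ A y k = z k + lam * c.1.hi k := by
    by_contra hcon
    push Not at hcon
    apply hn
    refine mem_I_of_interior (T.ne i) ?_
    rw [ht]
    have hA : Continuous A := A.toAffineMap.continuous_of_finiteDimensional
    have hop : IsOpen {y : Fin 3 → ℝ | ∀ k, z k + lam * c.1.lo k < y k ∧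
        y k < z k + lam * c.1.hi k} := by
      have e : {y : Fin 3 → ℝ | ∀ k, z k + lam * c.1.lo k < y k ∧ y k < z k + lam * c.1.hi k} =
          ⋂ k, {y | z k + lam * c.1.lo k < y k ∧ y k < z k + lam * c.1.hi k} := by
        ext y; simp
      rw [e]
      refine isOpen_iInter_of_finite fun k => ?_
      exact (isOpen_lt continuous_const (continuous_apply k)).inter
        (isOpen_lt (continuous_apply k) continuous_const)
    have hsub : A ⁻¹' {y : Fin 3 → ℝ | ∀ k, z k + lam * c.1.lo k < y k ∧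
        y k < z k + lam * c.1.hi k} ⊆
        A ⁻¹' {y | ∀ k, z k + lam * c.1.lo k ≤ y k ∧ y k ≤ z k + lam * c.1.hi k} :=
      fun w hw k => ⟨(hw k).1.le, (hw k).2.le⟩
    refine interior_maximal hsub (hop.preimage hA) ?_
    rw [ht] at hy
    intro k
    exact ⟨lt_of_le_of_ne (hy k).1 (Ne.symm (hcon k).1), lt_of_le_of_ne (hy k).2 (hcon k).2⟩
  obtain ⟨k, hk | hk⟩ := hk
  · have e : th A lam z y k = c.1.lo k := by
      unfold th; rw [hk]; field_simp; ring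
    obtain ⟨a, ha, hak⟩ := exists_below Φ.bf hLa c hm k e
    refine ⟨a, ?_, ha⟩
    rintro rfl
    have := Φ.bf.pos _ a.2 k
    rw [hak] at this
    exact lt_irrefl _ this
  · have e : th A lam z y k = c.1.hi k := by
      unfold th; rw [hk]; field_simp; ring
    obtain ⟨a, ha, hak⟩ := exists_above Φ.bf hLa c hm k e
    refine ⟨a, ?_, ha⟩
    rintro rfl
    have := Φ.bf.pos _ a.2 k
    rw [hak] at this
    exact lt_irrefl _ this

theorem th_inj (hl : 0 < lam) {y y' : Fin 3 → ℝ} (h : th A lam z y = th A lam z y') : y = y' := by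
  apply A.injective
  funext k
  have := congrFun h k
  unfold th at this
  rw [div_left_inj' hl.ne'] at this
  linarith

theorem not_mem_I_of_dim {x : Fin 3 → ℝ} (hx : x ∈ Om) (hd : T.dim x ≤ 2) : x ∉ I (T.H i) := by
  intro h
  have hV := (T.V_eq_top_iff hx).2 ⟨i, h⟩
  have : T.dim x = 3 := by
    unfold Tiling.dim
    rw [hV, finrank_top]
    simp
  omega

/-- at a vertex of the grid all coordinates are multiples of `1/M` -/
theorem vertex_nat (hLa : IsOpen La) (hl : 0 < lam) {M : ℕ} (hM : 0 < M)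
    (ht : P (T.H i) = A ⁻¹' {y | ∀ k, z k + lam * c.1.lo k ≤ y k ∧ y k ≤ z k + lam * c.1.hi k})
    (hg : GridC Φ T M i (fun y => sb Φ (th A lam z y))) {x : Fin 3 → ℝ} (hx : x ∈ P (T.H i))
    (hd : T.dim x = 0) (a : Φ.F) : ∃ k : ℕ, sb Φ (th A lam z x) a = k / M := by
  have hM' : (0 : ℝ) < M := by exact_mod_cast hM
  have FF := foam Φ.bf hLa
  have hm := th_mem (c := c) hl ht hx
  have hL := FF.sub c hm
  have hxO : x ∈ Om := T.sub i hx
  obtain ⟨-, h2⟩ := hg x hx (not_mem_I_of_dim hxO (by omega))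
  rw [hd] at h2
  have hK := FF.sc_mem_K hL
  have hfin : {a : Φ.F | ⌊M * sb Φ (th A lam z x) a⌋₊ < ⌈M * sb Φ (th A lam z x) a⌉₊}.Finite := by
    refine (FF.K_finite hK).subset fun b hb => ?_
    have hb' : ⌊M * sb Φ (th A lam z x) b⌋₊ < ⌈M * sb Φ (th A lam z x) b⌉₊ := hb
    show sc (Pc Φ.F) (bc (F := Φ.F)) (th A lam z x) b < 1
    by_contra hcon
    push Not at hcon
    have e1 : sb Φ (th A lam z x) b = 1 := le_antisymm (hK.1 b).2 hcon
    rw [e1, mul_one, Nat.floor_natCast, Nat.ceil_natCast] at hb'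
    exact lt_irrefl _ hb'
  have h3 := (Set.ncard_eq_zero hfin).1 h2.symm
  have h4 : ¬ ⌊M * sb Φ (th A lam z x) a⌋₊ < ⌈M * sb Φ (th A lam z x) a⌉₊ := by
    intro h
    have : a ∈ ({a : Φ.F | ⌊M * sb Φ (th A lam z x) a⌋₊ < ⌈M * sb Φ (th A lam z x) a⌉₊} : Set _) := h
    rw [h3] at this
    exact this
  push Not at h4
  refine ⟨⌊M * sb Φ (th A lam z x) a⌋₊, ?_⟩
  have h5 : 0 ≤ M * sb Φ (th A lam z x) a := mul_nonneg hM'.le (hK.1 a).1
  have h6 := Nat.floor_le h5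
  have h7 := Nat.le_ceil (M * sb Φ (th A lam z x) a)
  have h8 : (⌈M * sb Φ (th A lam z x) a⌉₊ : ℝ) ≤ ⌊M * sb Φ (th A lam z x) a⌋₊ := by exact_mod_cast h4
  rw [eq_div_iff hM'.ne']
  linarith

/-- **the edges of the core tile are M-edges** -/
theorem medge_of_grid (hLa : IsOpen La) (hl : 0 < lam) {M : ℕ} (hM : 0 < M)
    (ht : P (T.H i) = A ⁻¹' {y | ∀ k, z k + lam * c.1.lo k ≤ y k ∧ y k ≤ z k + lam * c.1.hi k})
    (hg : GridC Φ T M i (fun y => sb Φ (th A lam z y))) {e : Edg T} (he : e ∈ eIn T i) :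
    MEdge Φ.F M c (th A lam z (ea e)) (th A lam z (ea e + ev e)) ∨
      MEdge Φ.F M c (th A lam z (ea e + ev e)) (th A lam z (ea e)) := by
  have hM' : (0 : ℝ) < M := by exact_mod_cast hM
  have FF := foam Φ.bf hLa
  have heP : e.1 ⊆ P (T.H i) := mem_eIn.1 he
  obtain ⟨x, hxO, hd, hex⟩ := e.2
  have hxe : x ∈ e.1 := by rw [hex]; exact T.self_mem_cc x
  have hxP := heP hxe
  have hp : ea e ∈ e.1 := by
    rw [← sgm_edg e, sgm_eq_segment]; exact left_mem_segment _ _ _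
  have hq : ea e + ev e ∈ e.1 := by
    rw [← sgm_edg e, sgm_eq_segment]; exact right_mem_segment _ _ _
  have hpP := heP hp
  have hqP := heP hq
  have hne : th A lam z (ea e) ≠ th A lam z (ea e + ev e) := by
    intro h
    have := th_inj hl h
    exact ev_ne e (by simpa using this.symm)
  have mp := th_mem (c := c) hl ht hpP
  have mq := th_mem (c := c) hl ht hqP
  have lp := FF.sub c mp
  have lq := FF.sub c mq
  obtain ⟨g1, g2⟩ := hg x hxP (not_mem_I_of_dim hxO (by omega))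
  rw [hd] at g2
  obtain ⟨a, ha⟩ := Set.ncard_eq_one.1 g2.symm
  have hp' : ea e ∈ T.cc x := by rw [← hex]; exact hp
  have hq' : ea e + ev e ∈ T.cc x := by rw [← hex]; exact hq
  rw [g1] at hp' hq'
  have Np := vertex_nat (c := c) hLa hl hM ht hg hpP (dim_ea e)
  have Nq := vertex_nat (c := c) hLa hl hM ht hg hqP (dim_eb e)
  -- the other coordinates are constant
  have oth : ∀ b : Φ.F, b ≠ a → sb Φ (th A lam z (ea e + ev e)) b = sb Φ (th A lam z (ea e)) b := by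
    intro b hb
    have h1 : ¬ ⌊M * sb Φ (th A lam z x) b⌋₊ < ⌈M * sb Φ (th A lam z x) b⌉₊ := by
      intro h
      have h2 : b ∈ ({a} : Set Φ.F) := by rw [← ha]; exact h
      exact hb h2
    push Not at h1
    have h2 : (⌈M * sb Φ (th A lam z x) b⌉₊ : ℝ) ≤ ⌊M * sb Φ (th A lam z x) b⌋₊ := by
      exact_mod_cast h1
    have h3 := hp'.2 b
    have h4 := hq'.2 b
    have h5 : M * sb Φ (th A lam z (ea e + ev e)) b = M * sb Φ (th A lam z (ea e)) b := by
      simp only at h3 h4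
      linarith [h3.1, h3.2, h4.1, h4.2]
    exact mul_left_cancel₀ hM'.ne' h5
  -- the coordinate `a`
  have hfl : ⌊M * sb Φ (th A lam z x) a⌋₊ < ⌈M * sb Φ (th A lam z x) a⌉₊ := by
    have h2 : a ∈ ({a} : Set Φ.F) := rfl
    rw [← ha] at h2
    exact h2
  set n := ⌊M * sb Φ (th A lam z x) a⌋₊ with hn
  have hce : ⌈M * sb Φ (th A lam z x) a⌉₊ = n + 1 :=
    le_antisymm (Nat.ceil_le_floor_add_one _) hfl
  have key : ∀ w : Fin 3 → ℝ, (∃ k : ℕ, sb Φ (th A lam z w) a = k / M) →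
      ((n : ℝ) ≤ M * sb Φ (th A lam z w) a ∧
        M * sb Φ (th A lam z w) a ≤ (⌈M * sb Φ (th A lam z x) a⌉₊ : ℝ)) →
      sb Φ (th A lam z w) a = n / M ∨ sb Φ (th A lam z w) a = (n + 1 : ℕ) / M := by
    rintro w ⟨k, hk⟩ ⟨h1, h2⟩
    rw [hce] at h2
    have e : M * sb Φ (th A lam z w) a = k := by rw [hk]; field_simp
    rw [e] at h1 h2
    have h1' : n ≤ k := by exact_mod_cast h1
    have h2' : k ≤ n + 1 := by exact_mod_cast h2
    rcases Nat.lt_or_ge k (n + 1) with h3 | h3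
    · left; rw [hk, show k = n by omega]
    · right; rw [hk, show k = n + 1 by omega]
  have kp := key (ea e) (Np a) (hp'.2 a)
  have kq := key (ea e + ev e) (Nq a) (hq'.2 a)
  have hneq : sb Φ (th A lam z (ea e)) a ≠ sb Φ (th A lam z (ea e + ev e)) a := by
    intro h
    apply hne
    refine FF.sc_inj lp lq ?_
    funext b
    by_cases hb : b = a
    · rw [hb]; exact h
    · exact (oth b hb).symm
  have dp := th_bd (c := c) hLa hl ht hpP
    (not_mem_I_of_dim (T.sub i hpP) (by have := dim_ea e; omega))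
  have dq := th_bd (c := c) hLa hl ht hqP
    (not_mem_I_of_dim (T.sub i hqP) (by have := dim_eb e; omega))
  rcases kp with kp | kp <;> rcases kq with kq | kq
  · exact absurd (kp.trans kq.symm) hneq
  · exact Or.inl ⟨hM, mp, mq, dq, a, n, kp, kq, fun b hb => ⟨oth b hb, Np b⟩⟩
  · exact Or.inr ⟨hM, mq, mp, dp, a, n, kq, kp, fun b hb => ⟨(oth b hb).symm, Nq b⟩⟩
  · exact absurd (kp.trans kq.symm) hneq

end grid

end Crest.Agent.R096.Wd_120
end

-- ▼ part R096/Wd7_120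
section

/-!
Row 96, exact cores (helper120), part 7: one exact core: bad levels and words.
-/

set_option autoImplicit false
set_option linter.unusedSectionVars false

open Set Filter Topology Metric MeasureTheory

namespace Crest.Agent.R096.Wd_120

open Crest.Agent.R096.Bsp_628 Crest.Agent.R096.Bxs_627 Crest.Agent.R096.Brk1_582
open Crest.Agent.R096.Brk3_582 Crest.Agent.R096.Brk5_582 Crest.Agent.R096.Core_124
open Crest.Agent.R096.Msh_715 Crest.Agent.R096.Ls_222 Crest.Agent.R96.Sg1_199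
open Crest.Agent.R096.SkC1_961 (FoamD th)
open Crest.Agent.R096.Mbf_337 (sb)

section word

variable {Om : Set (Fin 3 → ℝ)} {ι : Type} {T : Tiling Om ι}

/-- the conclusion of `word` for one edge with the ends `p, q` -/
def WE (K : Set (Fin 3 → ℝ)) (u s : (Fin 3 → ℝ) → ℝ) (t : ℝ) (p q : Fin 3 → ℝ) : Prop :=
  s p ≠ t ∧ s q ≠ t ∧
    ((s p < t ∧ t < s q) ∨ (s q < t ∧ t < s p) → ∃! y, y ∈ K ∧ u y = t) ∧
    (¬ ((s p < t ∧ t < s q) ∨ (s q < t ∧ t < s p)) → ∀ y ∈ K, u y ≠ t)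

theorem WE.symm {K : Set (Fin 3 → ℝ)} {u s : (Fin 3 → ℝ) → ℝ} {t : ℝ} {p q : Fin 3 → ℝ}
    (h : WE K u s t p q) : WE K u s t q p :=
  ⟨h.2.1, h.1, fun hh => h.2.2.1 hh.symm, fun hh => h.2.2.2 fun h' => hh h'.symm⟩

theorem we_of_exactZ {e : Edg T} {u s : (Fin 3 → ℝ) → ℝ} {t : ℝ}
    (h : ExactZ (fun τ => u (ea e + τ • ev e)) (s (ea e)) (s (ea e + ev e) - s (ea e)) t)
    (h0 : s (ea e) ≠ t) (h1 : s (ea e + ev e) ≠ t) :
    WE e.1 u s t (ea e) (ea e + ev e) := by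
  refine ⟨h0, h1, fun hh => ?_, fun hh y hy => ?_⟩
  · have h2 : (s (ea e) < t ∧ t < s (ea e) + (s (ea e + ev e) - s (ea e))) ∨
        (s (ea e) + (s (ea e + ev e) - s (ea e)) < t ∧ t < s (ea e)) := by
      rw [add_sub_cancel]; exact hh
    obtain ⟨τ, ⟨hτ, hv⟩, huniq⟩ := h.cross h2
    refine ⟨ea e + τ • ev e, ⟨?_, hv⟩, ?_⟩
    · rw [← sgm_edg e]; exact ⟨τ, hτ, rfl⟩
    · rintro y ⟨hy, hyt⟩
      rw [← sgm_edg e] at hy
      obtain ⟨τ', hτ', rfl⟩ := hy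
      have := huniq τ' ⟨hτ', hyt⟩
      rw [this]
  · have h2 : ¬ ((s (ea e) < t ∧ t < s (ea e) + (s (ea e + ev e) - s (ea e))) ∨
        (s (ea e) + (s (ea e + ev e) - s (ea e)) < t ∧ t < s (ea e))) := by
      rw [add_sub_cancel]; exact hh
    rw [← sgm_edg e] at hy
    obtain ⟨τ', hτ', rfl⟩ := hy
    exact h.no_cross h2 τ' hτ'

theorem we_ends {e : Edg T} {u s : (Fin 3 → ℝ) → ℝ} {t : ℝ}
    (h : WE e.1 u s t (ea e) (ea e + ev e)) {a b : Fin 3 → ℝ} (hab : e.1 = segment ℝ a b) :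
    WE e.1 u s t a b := by
  obtain ⟨x, hxO, hd, hex⟩ := e.2
  have hp : ea e ∈ T.cc x := by
    rw [← hex, ← sgm_edg e, sgm_eq_segment]; exact left_mem_segment _ _ _
  have hq : ea e + ev e ∈ T.cc x := by
    rw [← hex, ← sgm_edg e, sgm_eq_segment]; exact right_mem_segment _ _ _
  have hab' : T.cc x = segment ℝ a b := by rw [← hex]; exact hab
  have h1 := T.vertex_of_edge hxO hd hab' hp (dim_ea e)
  have h2 := T.vertex_of_edge hxO hd hab' hq (dim_eb e)
  have hne : ea e ≠ ea e + ev e := fun h' => ev_ne e (by simpa using h'.symm)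
  rcases h1 with h1 | h1 <;> rcases h2 with h2 | h2
  · exact absurd (h1.trans h2.symm) hne
  · rw [← h1, ← h2]; exact h
  · rw [← h1, ← h2]; exact h.symm
  · exact absurd (h1.trans h2.symm) hne

end word

section core

variable {δ κ0 R c0 : ℝ} {La Om : Set (Fin 3 → ℝ)} {ι : Type}

/-- **hypotheses for the words of one exact core**: concentric core of ratio `lam`, radial push,
`M`-grid on the boundary, `f` close to `A` at the vertices and on the edges, integrable defect `g`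
of the increments along the edges. -/
structure CoreW (Φ : FoamD δ κ0 R c0 La) (T : Tiling Om ι) (f : (Fin 3 → ℝ) → Fin 3 → ℝ) (c : Φ.F)
    (i : ι) (A : (Fin 3 → ℝ) ≃ᵃ[ℝ] (Fin 3 → ℝ)) (lam : ℝ) (M : ℕ) (ε : ℝ)
    (g : Edg T → ℝ → ℝ) : Prop where
  lam0 : 0 < lam
  lam1 : lam < 1
  M0 : 0 < M
  ε0 : 0 ≤ ε
  tile : P (T.H i) = A ⁻¹' {y | ∀ k, zz c.1 lam k + lam * c.1.lo k ≤ y k ∧
    y k ≤ zz c.1 lam k + lam * c.1.hi k}
  push : ∀ y ∈ Pc Φ.F c, 3 / 4 * lam ≤ mu c.1 y → Φ.pu c y = rp c.1 y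
  grid : GridC Φ T M i (fun y => sb Φ (th A lam (zz c.1 lam) y))
  close : ∀ x ∈ P (T.H i), T.dim x = 0 → ‖f x - A x‖ ≤ ε
  seg : ∀ e ∈ eIn T i, NearSeg (fun t => f (ea e + t • ev e)) (g e) (A (ea e))
    (A (ea e + ev e) - A (ea e)) ε

namespace CoreW

variable {Φ : FoamD δ κ0 R c0 La} {T : Tiling Om ι} {f : (Fin 3 → ℝ) → Fin 3 → ℝ} {c : Φ.F}
  {i : ι} {A : (Fin 3 → ℝ) ≃ᵃ[ℝ] (Fin 3 → ℝ)} {lam : ℝ} {M : ℕ} {ε : ℝ} {g : Edg T → ℝ → ℝ}

theorem shr_th (hl : 0 < lam) (x : Fin 3 → ℝ) : shr c.1 lam (th A lam (zz c.1 lam) x) = A x := by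
  funext k
  unfold shr th zz
  field_simp
  ring

variable (h : CoreW Φ T f c i A lam M ε g)
include h

theorem mu_A (hLa : IsOpen La) {x : Fin 3 → ℝ} (hx : x ∈ P (T.H i)) (hn : x ∉ I (T.H i)) :
    mu c.1 (A x) = lam ∧ mu c.1 (th A lam (zz c.1 lam) x) = 1 := by
  obtain ⟨d, hd1, hd2⟩ := th_bd (c := c) hLa h.lam0 h.tile hx hn
  have h1 := mu_eq_one Φ.bf (Ne.symm hd1) (th_mem (c := c) h.lam0 h.tile hx) hd2
  refine ⟨?_, h1⟩
  rw [← shr_th (A := A) (c := c) h.lam0 x, mu_shr h.lam0.le, h1, mul_one]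

theorem rp_A (hLa : IsOpen La) {x : Fin 3 → ℝ} (hx : x ∈ P (T.H i)) (hn : x ∉ I (T.H i)) :
    rp c.1 (A x) = th A lam (zz c.1 lam) x := by
  have h1 := (h.mu_A hLa hx hn).2
  conv_lhs => rw [← shr_th (A := A) (c := c) h.lam0 x]
  exact rp_shr h.lam0 h1

theorem psi (hLa : IsOpen La) {y : Fin 3 → ℝ} (hy : y ∈ Pc Φ.F c) (hy' : 3 / 4 * lam ≤ mu c.1 y) :
    Φ.Psi y = rp c.1 y := by
  rw [Vb_965.Psi_eqD Φ hLa hy, h.push y hy hy']

/-- the data of RADIAL for an edge of the core -/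
theorem edgeC (hLa : IsOpen La) (hδ : 0 < δ) (hR : 0 < R) (hC : 0 < Cs (Fintype.card (Fin 3)) δ R)
    {e : Edg T} (he : e ∈ eIn T i) :
    EdgeC Φ.F c lam (lam * min 1 (2 * (1 / M) / Cs (Fintype.card (Fin 3)) δ R)) (1 / M)
      (A (ea e)) (A (ea e + ev e)) := by
  rcases medge_of_grid (c := c) hLa h.lam0 h.M0 h.tile h.grid he with h1 | h1
  · have h2 := h1.edgeC Φ.bf hLa hδ hR Φ.cmp hC h.lam0
    rwa [shr_th h.lam0, shr_th h.lam0] at h2
  · have h2 := (h1.edgeC Φ.bf hLa hδ hR Φ.cmp hC h.lam0).symm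
    rwa [shr_th h.lam0, shr_th h.lam0] at h2

theorem mem_ea {e : Edg T} (he : e ∈ eIn T i) : ea e ∈ P (T.H i) ∧ ea e ∉ I (T.H i) := by
  have h1 : ea e ∈ P (T.H i) := mem_eIn.1 he (by
    rw [← sgm_edg e, sgm_eq_segment]; exact left_mem_segment _ _ _)
  exact ⟨h1, not_mem_I_of_dim (T.sub i h1) (by have := dim_ea e; omega)⟩

theorem mem_eb {e : Edg T} (he : e ∈ eIn T i) :
    ea e + ev e ∈ P (T.H i) ∧ ea e + ev e ∉ I (T.H i) := by
  have h1 : ea e + ev e ∈ P (T.H i) := mem_eIn.1 he (by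
    rw [← sgm_edg e, sgm_eq_segment]; exact right_mem_segment _ _ _)
  exact ⟨h1, not_mem_I_of_dim (T.sub i h1) (by have := dim_eb e; omega)⟩

/-- **bad levels of one edge of the core** -/
theorem bad_edge (hLa : IsOpen La) (hδ : 0 < δ) (hR : 0 < R)
    (hC : 0 < Cs (Fintype.card (Fin 3)) δ R) {θ : ℝ} (hθ : 0 < θ) (hθ1 : θ < 1 / 2)
    (e1 : 2 * (2 * κ0 / c.1.sz * ε) <
      θ * (lam * min 1 (2 * (1 / M) / Cs (Fintype.card (Fin 3)) δ R)))
    (e2 : 2 * κ0 / c.1.sz * ε ≤ 1 - lam)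
    (e3 : 2 * (Cs (Fintype.card (Fin 3)) δ R / c.1.sz * ((1 + κ0) / (3 / 4 * lam) * ε)) <
      θ * (1 / M)) {e : Edg T} (he : e ∈ eIn T i) (c' : Φ.F) :
    ∃ Bad : Set ℝ, MeasurableSet Bad ∧ volume Bad ≤ ENNReal.ofReal
      (4 * (Cs (Fintype.card (Fin 3)) δ R / c.1.sz * ((1 + κ0) / (3 / 4 * lam)) *
        ∫ τ in (0:ℝ)..1, g e τ) +
      4 * (Cs (Fintype.card (Fin 3)) δ R / c.1.sz * (2 * κ0 * ε / (3 / 4 * lam))) +
      16 * (Cs (Fintype.card (Fin 3)) δ R / c.1.sz * ((1 + κ0) / (3 / 4 * lam)) * ε) + 4 * θ) ∧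
      ∀ t ∉ Bad, ExactZ (fun τ => Φ.lev c' (f (ea e + τ • ev e)))
        (sb Φ (th A lam (zz c.1 lam) (ea e)) c')
        (sb Φ (th A lam (zz c.1 lam) (ea e + ev e)) c' - sb Φ (th A lam (zz c.1 lam) (ea e)) c') t := by
  have FF := foam Φ.bf hLa
  have hrad := radial Φ.bf hLa hδ hR Φ.cmp c (h.edgeC hLa hδ hR hC he) (Psi := Φ.Psi)
    (fun y hy hy' => h.psi hLa hy hy') hθ hθ1 h.ε0 e1 e2 e3 c'
  obtain ⟨Bad, b1, b2, b3⟩ := (h.seg e he).bad_levelsW hrad
  have ma := h.mem_ea he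
  have mb := h.mem_eb he
  rw [h.rp_A hLa ma.1 ma.2, h.rp_A hLa mb.1 mb.2] at b2 b3
  have hS : sc (Pc Φ.F) (bc (F := Φ.F)) (Φ.Psi (A (ea e))) c' =
      sb Φ (th A lam (zz c.1 lam) (ea e)) c' := by
    have hmu := (h.mu_A hLa ma.1 ma.2).1
    have hQ := Φ.bf.pos _ c.2
    rw [h.psi hLa ((mem_set_iff hQ).2 (by rw [hmu]; exact h.lam1.le))
      (by rw [hmu]; linarith [h.lam0]), h.rp_A hLa ma.1 ma.2]
    rfl
  refine ⟨Bad, b1, b2.trans (ENNReal.ofReal_le_ofReal ?_), fun t ht => ?_⟩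
  · have hb : |sc (Pc Φ.F) (bc (F := Φ.F)) (th A lam (zz c.1 lam) (ea e + ev e)) c' -
        sc (Pc Φ.F) (bc (F := Φ.F)) (th A lam (zz c.1 lam) (ea e)) c'| ≤ 1 := by
      have la := FF.sub c (th_mem (c := c) h.lam0 h.tile ma.1)
      have lb := FF.sub c (th_mem (c := c) h.lam0 h.tile mb.1)
      rw [abs_le]
      constructor <;> linarith [FF.sc_nonneg la c', FF.sc_le_one la c', FF.sc_nonneg lb c',
        FF.sc_le_one lb c']
    have := mul_le_mul_of_nonneg_right hb hθ.le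
    linarith
  · have := b3 t ht
    rw [hS] at this
    exact this

/-- closeness of the levels at the vertices -/
theorem close_vertex (hLa : IsOpen La) (hδ : 0 < δ) (hR : 0 < R)
    (e1 : 2 * κ0 / c.1.sz * ε ≤ lam / 4) (e2 : 2 * κ0 / c.1.sz * ε ≤ 1 - lam)
    {x : Fin 3 → ℝ} (hx : x ∈ P (T.H i)) (hd : T.dim x = 0) (c' : Φ.F) :
    |Φ.lev c' (f x) - sb Φ (th A lam (zz c.1 lam) x) c'| ≤
      Cs (Fintype.card (Fin 3)) δ R / c.1.sz * ((1 + κ0) / (3 / 4 * lam)) * ε := by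
  have hQ := Φ.bf.pos _ c.2
  have hsz := Bx.sz_pos hQ
  have hasp := Φ.bf.asp _ c.2
  have hn := not_mem_I_of_dim (T := T) (i := i) (T.sub i hx) (by omega)
  have hmu := (h.mu_A hLa hx hn).1
  have hl := h.lam0
  have hC := Cs_nonneg (n := Fintype.card (Fin 3)) hδ hR
  have hκ := κ0_nonneg hQ hasp
  have h1 := mu_lip hQ hasp (f x) (A x)
  rw [hmu] at h1
  have h2 : |mu c.1 (f x) - lam| ≤ 2 * κ0 / c.1.sz * ε :=
    h1.trans (mul_le_mul_of_nonneg_left (h.close x hx hd) (by positivity))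
  have h3 := abs_le.1 h2
  have h4 : 3 / 4 * lam ≤ mu c.1 (f x) := by linarith
  have h5 : f x ∈ Pc Φ.F c := (mem_set_iff hQ).2 (by linarith)
  have h6 : Φ.lev c' (f x) = sc (Pc Φ.F) (bc (F := Φ.F)) (rp c.1 (f x)) c' := by
    show sc (Pc Φ.F) (bc (F := Φ.F)) (Φ.Psi (f x)) c' = _
    rw [h.psi hLa h5 h4]
  have hr : 0 < 3 / 4 * lam := by linarith
  have h7 : 3 / 4 * lam ≤ mu c.1 (A x) := by rw [hmu]; linarith
  have h8 := lip_cell Φ.bf hLa hδ hR Φ.cmp c _ (rp_mem hQ (hr.trans_le h4)) _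
    (rp_mem hQ (hr.trans_le h7)) c'
  have h9 := rp_lip hQ hasp hr h4 h7
  rw [h6, sb, ← h.rp_A hLa hx hn]
  refine h8.trans ?_
  rw [mul_assoc]
  refine mul_le_mul_of_nonneg_left (h9.trans ?_) (by positivity)
  exact mul_le_mul_of_nonneg_left (h.close x hx hd) (by positivity)

end CoreW

end core

end Crest.Agent.R096.Wd_120
end

-- ▼ part R096/Wd8_120
section

/-!
Row 96, exact cores (helper120), part 8: WORDS.  Bad levels of all cores, and the clauses `word` and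
`sign` of `Mbf_337.Words`.
-/

set_option autoImplicit false
set_option linter.unusedSectionVars false

open Set Filter Topology Metric MeasureTheory
open scoped ENNReal

namespace Crest.Agent.R096.Wd_120

open Crest.Agent.R096.Bsp_628 Crest.Agent.R096.Bxs_627 Crest.Agent.R096.Brk1_582
open Crest.Agent.R096.Brk3_582 Crest.Agent.R096.Brk5_582 Crest.Agent.R096.Core_124
open Crest.Agent.R096.Msh_715 Crest.Agent.R096.Ls_222 Crest.Agent.R96.Sg1_199
open Crest.Agent.R096.SkC1_961 (FoamD th)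
open Crest.Agent.R096.Mbf_337 (sb)

/-! ### numbers -/

/-- **constants**: `C` = Lipschitz constant of the coordinates, `M` = mesh of the grid, `n` = number
of edges of a core, `η` = allowed measure of the bad levels of one core, `lam1` = upper bound of the
ratios of the cores. -/
theorem exists_kw {C κ0 η lam1 : ℝ} (hC : 0 < C) (hκ : 0 ≤ κ0) (hη : 0 < η) (hl1 : lam1 < 1)
    {M : ℕ} (hM : 0 < M) (n : ℕ) :
    ∃ θ kw : ℝ, 0 < θ ∧ θ < 1 / 2 ∧ 0 < kw ∧
      4 * κ0 * kw < θ * min 1 (2 * (1 / M) / C) ∧ 2 * κ0 * kw ≤ 1 - lam1 ∧ 2 * κ0 * kw ≤ 1 / 4 ∧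
      2 * (C * (1 + κ0) * (4 / 3) * kw) < θ * (1 / M) ∧
      (6 + 24 * n + 2 * M) * (C * (1 + κ0) * (4 / 3) * kw) + 4 * n * θ ≤ η := by
  have hM' : (0 : ℝ) < M := by exact_mod_cast hM
  have hn : (0 : ℝ) ≤ n := Nat.cast_nonneg n
  set θ : ℝ := min (1 / 4) (η / (8 * (n + 1))) with hθ
  have hθ0 : 0 < θ := lt_min (by norm_num) (by positivity)
  have hθ1 : θ ≤ 1 / 4 := min_le_left _ _
  have hθ2 : θ ≤ η / (8 * (n + 1)) := min_le_right _ _
  have hm : 0 < θ * min 1 (2 * (1 / M) / C) := by positivity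
  set D : ℝ := C * (1 + κ0) * (4 / 3) with hD
  have hD0 : 0 < D := by positivity
  set kw : ℝ := min (θ * min 1 (2 * (1 / M) / C) / (8 * (κ0 + 1)))
    (min ((1 - lam1) / (2 * (κ0 + 1))) (min (1 / (8 * (κ0 + 1))) (min (θ * (1 / M) / (4 * D))
      (η / 2 / ((6 + 24 * n + 2 * M) * D))))) with hkw
  have a1 : kw ≤ θ * min 1 (2 * (1 / M) / C) / (8 * (κ0 + 1)) := min_le_left _ _
  have a2 : kw ≤ (1 - lam1) / (2 * (κ0 + 1)) := (min_le_right _ _).trans (min_le_left _ _)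
  have a3 : kw ≤ 1 / (8 * (κ0 + 1)) :=
    (min_le_right _ _).trans ((min_le_right _ _).trans (min_le_left _ _))
  have a4 : kw ≤ θ * (1 / M) / (4 * D) :=
    (min_le_right _ _).trans ((min_le_right _ _).trans ((min_le_right _ _).trans (min_le_left _ _)))
  have a5 : kw ≤ η / 2 / ((6 + 24 * n + 2 * M) * D) :=
    (min_le_right _ _).trans ((min_le_right _ _).trans ((min_le_right _ _).trans (min_le_right _ _)))
  have hkw0 : 0 < kw := by
    refine lt_min (by positivity) (lt_min ?_ (lt_min (by positivity) (lt_min (by positivity)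
      (by positivity))))
    exact div_pos (by linarith) (by positivity)
  refine ⟨θ, kw, hθ0, by linarith, hkw0, ?_, ?_, ?_, ?_, ?_⟩
  · rw [le_div_iff₀ (by positivity)] at a1
    nlinarith
  · rw [le_div_iff₀ (by positivity)] at a2
    nlinarith
  · rw [le_div_iff₀ (by positivity)] at a3
    nlinarith
  · rw [le_div_iff₀ (by positivity)] at a4
    have : 0 < θ * (1 / M) := by positivity
    nlinarith
  · rw [le_div_iff₀ (by positivity)] at a5
    rw [le_div_iff₀ (by positivity)] at hθ2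
    have h1 : (6 + 24 * (n : ℝ) + 2 * M) * (D * kw) ≤ η / 2 := by
      calc (6 + 24 * (n : ℝ) + 2 * M) * (D * kw) = kw * ((6 + 24 * n + 2 * M) * D) := by ring
        _ ≤ η / 2 := a5
    have h2 : 4 * (n : ℝ) * θ ≤ η / 2 := by nlinarith
    linarith

/-! ### levels of bricks which do not touch the core -/

section far

variable {δ κ0 R c0 : ℝ} {La Om : Set (Fin 3 → ℝ)} {ι : Type} {Φ : FoamD δ κ0 R c0 La}
  {T : Tiling Om ι} {f : (Fin 3 → ℝ) → Fin 3 → ℝ} {c : Φ.F}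
  {i : ι} {A : (Fin 3 → ℝ) ≃ᵃ[ℝ] (Fin 3 → ℝ)} {lam : ℝ} {M : ℕ} {ε : ℝ} {g : Edg T → ℝ → ℝ}

/-- near the boundary of the core the pushed map is in the brick -/
theorem CoreW.lev_far (h : CoreW Φ T f c i A lam M ε g) (hLa : IsOpen La)
    (e1 : 2 * κ0 / c.1.sz * ε ≤ lam / 4) (e2 : 2 * κ0 / c.1.sz * ε ≤ 1 - lam) {y w : Fin 3 → ℝ}
    (hw : mu c.1 w = lam) (hy : ‖y - w‖ ≤ ε) {c' : Φ.F}
    (hc' : ¬ (Pc Φ.F c' ∩ Pc Φ.F c).Nonempty) : Φ.lev c' y = 1 := by
  have FF := foam Φ.bf hLa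
  have hQ := Φ.bf.pos _ c.2
  have hsz := Bx.sz_pos hQ
  have hasp := Φ.bf.asp _ c.2
  have hl := h.lam0
  have hκ := κ0_nonneg hQ hasp
  have h1 := mu_lip hQ hasp y w
  rw [hw] at h1
  have h2 : |mu c.1 y - lam| ≤ 2 * κ0 / c.1.sz * ε :=
    h1.trans (mul_le_mul_of_nonneg_left hy (by positivity))
  have h3 := abs_le.1 h2
  have h4 : 3 / 4 * lam ≤ mu c.1 y := by linarith
  have h5 : y ∈ Pc Φ.F c := (mem_set_iff hQ).2 (by linarith)
  show sc (Pc Φ.F) (bc (F := Φ.F)) (Φ.Psi y) c' = 1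
  rw [h.psi hLa h5 h4]
  exact Dic2_582.sc_eq_one_of_not_touch FF hc' (rp_mem hQ (by linarith))

theorem CoreW.sb_far (h : CoreW Φ T f c i A lam M ε g) (hLa : IsOpen La) {x : Fin 3 → ℝ}
    (hx : x ∈ P (T.H i)) {c' : Φ.F} (hc' : ¬ (Pc Φ.F c' ∩ Pc Φ.F c).Nonempty) :
    sb Φ (th A lam (zz c.1 lam) x) c' = 1 :=
  Dic2_582.sc_eq_one_of_not_touch (foam Φ.bf hLa) hc' (th_mem (c := c) h.lam0 h.tile hx)

end far

/-! ### one core -/

section one

variable {δ κ0 R c0 : ℝ} {La Om : Set (Fin 3 → ℝ)} {ι : Type} {Φ : FoamD δ κ0 R c0 La}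
  {T : Tiling Om ι} {f : (Fin 3 → ℝ) → Fin 3 → ℝ} {c : Φ.F}
  {i : ι} {A : (Fin 3 → ℝ) ≃ᵃ[ℝ] (Fin 3 → ℝ)} {lam : ℝ} {M : ℕ} {g : Edg T → ℝ → ℝ}

/-- **word and sign of the level `t` of the family `c'` on the core** -/
def WS (Φ : FoamD δ κ0 R c0 La) (T : Tiling Om ι) (f : (Fin 3 → ℝ) → Fin 3 → ℝ) (c : Φ.F) (i : ι)
    (A : (Fin 3 → ℝ) ≃ᵃ[ℝ] (Fin 3 → ℝ)) (lam : ℝ) (z : Fin 3 → ℝ) (c' : Φ.F) (t : ℝ) : Prop :=
  (∀ x ∈ P (T.H i), T.dim x = 1 → ∀ a b : Fin 3 → ℝ, T.cc x = segment ℝ a b →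
    WE (T.cc x) (fun y => Φ.lev c' (f y)) (fun y => sb Φ (th A lam z y) c') t a b) ∧
  ∀ x ∈ P (T.H i), T.dim x = 0 → (Φ.lev c' (f x) < t ↔ sb Φ (th A lam z x) c' < t)

/-- the two scale invariant conditions -/
theorem scale1 {a b lam sz : ℝ} (hs : 0 < sz) : 2 * a / sz * (b * (lam * sz)) = 2 * a * b * lam := by
  field_simp

theorem scale2 {C a b lam sz : ℝ} (hs : 0 < sz) (hl : 0 < lam) :
    C / sz * ((1 + a) / (3 / 4 * lam)) * (b * (lam * sz)) = C * (1 + a) * (4 / 3) * b := by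
  field_simp

theorem scale3 {C a b lam sz : ℝ} (hs : 0 < sz) (hl : 0 < lam) :
    C / sz * (2 * a * (b * (lam * sz)) / (3 / 4 * lam)) = C * (2 * a) * (4 / 3) * b := by
  field_simp

/-- levels of a brick which does not touch the core brick: no bad level at all -/
theorem CoreW.ws_far {ε : ℝ} (h : CoreW Φ T f c i A lam M ε g) (hLa : IsOpen La)
    (e1 : 2 * κ0 / c.1.sz * ε ≤ lam / 4) (e2 : 2 * κ0 / c.1.sz * ε ≤ 1 - lam) {c' : Φ.F}
    (hc' : ¬ (Pc Φ.F c' ∩ Pc Φ.F c).Nonempty) {t : ℝ} (ht : t ∈ Ioo (0 : ℝ) 1) :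
    WS Φ T f c i A lam (zz c.1 lam) c' t := by
  constructor
  · intro x hx hd a b hab
    have hxO : x ∈ Om := T.sub i hx
    set e : Edg T := ⟨T.cc x, x, hxO, hd, rfl⟩ with he
    have hcc : T.cc x ⊆ P (T.H i) := T.cc_sub_tile hx
    have heI : e ∈ eIn T i := mem_eIn.2 hcc
    have hsub : ∀ y ∈ T.cc x, y ∉ I (T.H i) := fun y hy =>
      not_mem_I_of_dim (T.sub i (hcc hy)) ((T.dim_le hy).trans (by omega))
    have ha : a ∈ T.cc x := by rw [hab]; exact left_mem_segment _ _ _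
    have hb : b ∈ T.cc x := by rw [hab]; exact right_mem_segment _ _ _
    have sa := h.sb_far hLa (hcc ha) hc'
    have sb' := h.sb_far hLa (hcc hb) hc'
    refine ⟨?_, ?_, fun hh => ?_, fun _ y hy => ?_⟩
    · show sb Φ (th A lam (zz c.1 lam) a) c' ≠ t
      rw [sa]; exact ht.2.ne'
    · show sb Φ (th A lam (zz c.1 lam) b) c' ≠ t
      rw [sb']; exact ht.2.ne'
    · simp only [sa, sb'] at hh
      rcases hh with hh | hh <;> exact absurd hh.1 (not_lt.2 ht.2.le)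
    · have hy' : y ∈ sgm (ea e) (ev e) := by rw [sgm_edg]; exact hy
      obtain ⟨τ, hτ, rfl⟩ := hy'
      have hcl := (h.seg e heI).close τ hτ
      have hA : A (ea e) + τ • (A (ea e + ev e) - A (ea e)) = A (ea e + τ • ev e) := by
        have h1 : A (ea e + ev e) = A.linear (ev e) + A (ea e) := by
          have := A.map_vadd (ea e) (ev e)
          simpa [add_comm] using this
        have h2 : A (ea e + τ • ev e) = A.linear (τ • ev e) + A (ea e) := by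
          have := A.map_vadd (ea e) (τ • ev e)
          simpa [add_comm] using this
        rw [h1, h2, add_sub_cancel_right, map_smul, add_comm]
      rw [hA] at hcl
      have hmu := (h.mu_A hLa (hcc hy) (hsub _ hy)).1
      show Φ.lev c' (f (ea e + τ • ev e)) ≠ t
      rw [h.lev_far hLa e1 e2 hmu hcl hc']
      exact ht.2.ne'
  · intro x hx hd
    have hn := not_mem_I_of_dim (T := T) (i := i) (T.sub i hx) (by omega)
    rw [h.sb_far hLa hx hc', h.lev_far hLa e1 e2 (h.mu_A hLa hx hn).1 (h.close x hx hd) hc']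

/-- **bad levels of one core** -/
theorem CoreW.bad {kw θ η : ℝ} {n : ℕ}
    (h : CoreW Φ T f c i A lam M (kw * (lam * c.1.sz)) g) (hLa : IsOpen La) (hδ : 0 < δ)
    (hR : 0 < R) (hC : 0 < Cs (Fintype.card (Fin 3)) δ R) (hθ : 0 < θ) (hθ1 : θ < 1 / 2)
    (k1 : 4 * κ0 * kw < θ * min 1 (2 * (1 / M) / Cs (Fintype.card (Fin 3)) δ R))
    (k2 : 2 * κ0 * kw ≤ 1 - lam) (k3 : 2 * κ0 * kw ≤ 1 / 4)
    (k4 : 2 * (Cs (Fintype.card (Fin 3)) δ R * (1 + κ0) * (4 / 3) * kw) < θ * (1 / M))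
    (k5 : (6 + 24 * n + 2 * M) * (Cs (Fintype.card (Fin 3)) δ R * (1 + κ0) * (4 / 3) * kw) +
      4 * n * θ ≤ η) (hkw : 0 ≤ kw) (hn : (eIn T i).card ≤ n)
    (hg : ∑ e ∈ eIn T i, ∫ τ in (0:ℝ)..1, g e τ ≤ kw * (lam * c.1.sz)) (c' : Φ.F) :
    ∃ Bad : Set ℝ, MeasurableSet Bad ∧ volume Bad ≤ ENNReal.ofReal η ∧
      ∀ t ∉ Bad, WS Φ T f c i A lam (zz c.1 lam) c' t := by
  classical
  have FF := foam Φ.bf hLa
  have hQ := Φ.bf.pos _ c.2
  have hsz := Bx.sz_pos hQ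
  have hasp := Φ.bf.asp _ c.2
  have hκ := κ0_nonneg hQ hasp
  have hl := h.lam0
  have hM' : (0 : ℝ) < M := by exact_mod_cast h.M0
  set C := Cs (Fintype.card (Fin 3)) δ R with hCdef
  set ε : ℝ := kw * (lam * c.1.sz) with hε
  set D : ℝ := C * (1 + κ0) * (4 / 3) with hD
  have hD0 : 0 < D := by positivity
  have s1 : 2 * κ0 / c.1.sz * ε = 2 * κ0 * kw * lam := scale1 hsz
  have s2 : C / c.1.sz * ((1 + κ0) / (3 / 4 * lam)) * ε = D * kw := scale2 hsz hl
  have s3 : C / c.1.sz * (2 * κ0 * ε / (3 / 4 * lam)) = C * (2 * κ0) * (4 / 3) * kw := scale3 hsz hl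
  have l1 := h.lam1
  have c1 : 2 * (2 * κ0 / c.1.sz * ε) < θ * (lam * min 1 (2 * (1 / M) / C)) := by
    rw [s1]
    have := mul_lt_mul_of_pos_right k1 hl
    linarith
  have c2 : 2 * κ0 / c.1.sz * ε ≤ 1 - lam := by
    rw [s1]
    have h0 : 0 ≤ 2 * κ0 * kw := by positivity
    nlinarith
  have c3 : 2 * (C / c.1.sz * ((1 + κ0) / (3 / 4 * lam) * ε)) < θ * (1 / M) := by
    rw [← mul_assoc (C / c.1.sz), s2]
    exact k4
  have c4 : 2 * κ0 / c.1.sz * ε ≤ lam / 4 := by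
    rw [s1]
    nlinarith
  have hedge : ∀ e : eIn T i, ∃ Bad : Set ℝ, MeasurableSet Bad ∧ volume Bad ≤ ENNReal.ofReal
      (4 * (C / c.1.sz * ((1 + κ0) / (3 / 4 * lam)) * ∫ τ in (0:ℝ)..1, g e τ) +
      4 * (C / c.1.sz * (2 * κ0 * ε / (3 / 4 * lam))) +
      16 * (C / c.1.sz * ((1 + κ0) / (3 / 4 * lam)) * ε) + 4 * θ) ∧
      ∀ t ∉ Bad, ExactZ (fun τ => Φ.lev c' (f (ea e.1 + τ • ev e.1)))
        (sb Φ (th A lam (zz c.1 lam) (ea e.1)) c')
        (sb Φ (th A lam (zz c.1 lam) (ea e.1 + ev e.1)) c' -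
          sb Φ (th A lam (zz c.1 lam) (ea e.1)) c') t :=
    fun e => h.bad_edge hLa hδ hR hC hθ hθ1 c1 c2 c3 e.2 c'
  choose Bad b1 b2 b3 using hedge
  set W : Set ℝ := ⋃ k ∈ Finset.range (M + 1), closedBall ((k : ℝ) / M) (D * kw) with hW
  refine ⟨(⋃ e, Bad e) ∪ W, (MeasurableSet.iUnion b1).union ?_, ?_, fun t ht => ?_⟩
  · exact Finset.measurableSet_biUnion _ fun k _ => isClosed_closedBall.measurableSet
  · -- measure
    have hgn : ∀ e ∈ eIn T i, 0 ≤ ∫ τ in (0:ℝ)..1, g e τ := fun e he =>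
      intervalIntegral.integral_nonneg zero_le_one (h.seg e he).nonneg
    have m1 : volume (⋃ e, Bad e) ≤ ENNReal.ofReal (4 * (D * kw) + n * (24 * (D * kw) + 4 * θ)) := by
      refine (measure_iUnion_fintype_le _ _).trans ((Finset.sum_le_sum fun e _ => b2 e).trans ?_)
      rw [← ENNReal.ofReal_sum_of_nonneg]
      · refine ENNReal.ofReal_le_ofReal ?_
        rw [Finset.sum_coe_sort (eIn T i) (fun e => 4 * (C / c.1.sz * ((1 + κ0) / (3 / 4 * lam)) *
          ∫ τ in (0:ℝ)..1, g e τ) + 4 * (C / c.1.sz * (2 * κ0 * ε / (3 / 4 * lam))) +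
          16 * (C / c.1.sz * ((1 + κ0) / (3 / 4 * lam)) * ε) + 4 * θ), s3, s2]
        simp only [Finset.sum_add_distrib, Finset.sum_const, nsmul_eq_mul]
        rw [← Finset.mul_sum, ← Finset.mul_sum]
        have t1 : C / c.1.sz * ((1 + κ0) / (3 / 4 * lam)) * ∑ e ∈ eIn T i, ∫ τ in (0:ℝ)..1, g e τ ≤
            D * kw := by
          rw [← s2]
          exact mul_le_mul_of_nonneg_left hg (by positivity)
        have t2 : C * (2 * κ0) * (4 / 3) * kw ≤ 2 * (D * kw) := by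
          rw [hD]
          have : 0 ≤ C * (4 / 3) * kw := by positivity
          nlinarith
        have hn' : ((eIn T i).card : ℝ) ≤ n := by exact_mod_cast hn
        have hD1 : 0 ≤ D * kw := by positivity
        have t3 : ((eIn T i).card : ℝ) * (24 * (D * kw) + 4 * θ) ≤ n * (24 * (D * kw) + 4 * θ) :=
          mul_le_mul_of_nonneg_right hn' (by positivity)
        have t4 : ((eIn T i).card : ℝ) * (4 * (C * (2 * κ0) * (4 / 3) * kw)) ≤
            ((eIn T i).card : ℝ) * (8 * (D * kw)) :=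
          mul_le_mul_of_nonneg_left (by linarith) (Nat.cast_nonneg _)
        nlinarith
      · intro e _
        have := hgn e.1 e.2
        rw [s3, s2]
        positivity
    have m2 : volume W ≤ ENNReal.ofReal ((M + 1) * (2 * (D * kw))) := by
      refine (measure_biUnion_finset_le _ _).trans ?_
      simp only [Real.volume_closedBall, Finset.sum_const, Finset.card_range, nsmul_eq_mul]
      rw [← ENNReal.ofReal_natCast, ← ENNReal.ofReal_mul (Nat.cast_nonneg _)]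
      refine ENNReal.ofReal_le_ofReal ?_
      push_cast
      exact le_rfl
    refine (measure_union_le _ _).trans ((add_le_add m1 m2).trans ?_)
    rw [← ENNReal.ofReal_add (by positivity) (by positivity)]
    refine ENNReal.ofReal_le_ofReal ?_
    nlinarith
  · -- words
    simp only [mem_union, not_or, mem_iUnion, not_exists] at ht
    obtain ⟨ht1, ht2⟩ := ht
    have hvert : ∀ x ∈ P (T.H i), T.dim x = 0 →
        D * kw < |t - sb Φ (th A lam (zz c.1 lam) x) c'| := by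
      intro x hx hd
      obtain ⟨k, hk⟩ := vertex_nat (c := c) hLa hl h.M0 h.tile h.grid hx hd c'
      have hk1 : sb Φ (th A lam (zz c.1 lam) x) c' ≤ 1 :=
        FF.sc_le_one (FF.sub c (th_mem (c := c) hl h.tile hx)) c'
      rw [hk, div_le_one hM'] at hk1
      have hkM : k ≤ M := by exact_mod_cast hk1
      by_contra hcon
      push Not at hcon
      apply ht2
      rw [hW]
      simp only [mem_iUnion]
      refine ⟨k, Finset.mem_range.2 (by omega), ?_⟩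
      rw [mem_closedBall, Real.dist_eq, ← hk]
      exact hcon
    have hDk : 0 ≤ D * kw := by positivity
    constructor
    · intro x hx hd a b hab
      have hxO : x ∈ Om := T.sub i hx
      set e : Edg T := ⟨T.cc x, x, hxO, hd, rfl⟩ with he
      have hcc : T.cc x ⊆ P (T.H i) := T.cc_sub_tile hx
      have heI : e ∈ eIn T i := mem_eIn.2 hcc
      have ma := h.mem_ea heI
      have mb := h.mem_eb heI
      have v0 := hvert _ ma.1 (dim_ea e)
      have v1 := hvert _ mb.1 (dim_eb e)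
      have n0 : sb Φ (th A lam (zz c.1 lam) (ea e)) c' ≠ t := by
        intro h'
        rw [h', sub_self, abs_zero] at v0
        linarith
      have n1 : sb Φ (th A lam (zz c.1 lam) (ea e + ev e)) c' ≠ t := by
        intro h'
        rw [h', sub_self, abs_zero] at v1
        linarith
      have hZ := b3 ⟨e, heI⟩ t (ht1 ⟨e, heI⟩)
      exact we_ends (we_of_exactZ (u := fun y => Φ.lev c' (f y))
        (s := fun y => sb Φ (th A lam (zz c.1 lam) y) c') hZ n0 n1) hab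
    · intro x hx hd
      have v0 := hvert x hx hd
      have hcl := h.close_vertex hLa hδ hR c4 c2 hx hd c'
      rw [s2] at hcl
      have hcl' := abs_le.1 hcl
      rcases lt_abs.1 v0 with v | v
      · constructor <;> intro _ <;> linarith [hcl'.1, hcl'.2]
      · constructor <;> intro _ <;> linarith [hcl'.1, hcl'.2]

end one

end Crest.Agent.R096.Wd_120
end

-- ▼ part R096/Wd9_120
section

/-!
Row 96, exact cores (helper120), part 9: WORDS for all exact cores.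
-/

set_option autoImplicit false
set_option linter.unusedSectionVars false

open Set Filter Topology Metric MeasureTheory
open scoped ENNReal

namespace Crest.Agent.R096.Wd_120

open Crest.Agent.R096.Bsp_628 Crest.Agent.R096.Bxs_627 Crest.Agent.R096.Brk1_582
open Crest.Agent.R096.Brk3_582 Crest.Agent.R096.Brk5_582 Crest.Agent.R096.Core_124
open Crest.Agent.R096.Msh_715 Crest.Agent.R096.Ls_222 Crest.Agent.R96.Sg1_199
open Crest.Agent.R096.SkC1_961 (FoamD th)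
open Crest.Agent.R096.Mbf_337 (sb)

section touch

variable {κ : Type*} [Fintype κ] [Nonempty κ] [DecidableEq κ] {La : Set (κ → ℝ)} {F : Set (Bx κ)}
  {δ κ0 R : ℝ}

/-- finitely many bricks touch a brick, at most `Nb κ (R κ0)` -/
theorem touch_finset (BF : BoxFoam La F δ κ0) (hκ : 0 < κ0) (hR : 0 < R) (hcmp : Cmp F R) (c' : F)
    (S : Finset F) (hS : ∀ c ∈ S, (Pc F c' ∩ Pc F c).Nonempty) : S.card ≤ Nb κ (R * κ0) := by
  classical
  have h1 : (S.image Subtype.val).card = S.card :=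
    Finset.card_image_of_injective _ Subtype.val_injective
  rw [← h1]
  refine touch_card (B := c'.1) (by positivity) (Bx.sz_pos (BF.pos _ c'.2)) ?_ ?_ ?_
  · intro C hC k
    obtain ⟨c, hc, rfl⟩ := Finset.mem_image.1 hC
    obtain ⟨y, hy', hy⟩ := hS c hc
    have a1 := Bx.mem_set.1 hy' k
    have a2 := Bx.mem_set.1 hy k
    exact ⟨a1.1.trans a2.2, a2.1.trans a1.2⟩
  · intro C hC i
    obtain ⟨c, hc, rfl⟩ := Finset.mem_image.1 hC
    have a1 := hcmp c' c (hS c hc)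
    have a2 := BF.asp _ c.2 i
    calc c'.1.sz ≤ R * c.1.sz := a1
      _ ≤ R * (κ0 * c.1.side i) := mul_le_mul_of_nonneg_left a2 hR.le
      _ = R * κ0 * c.1.side i := by ring
  · intro C hC C' hC' hne
    obtain ⟨c, hc, rfl⟩ := Finset.mem_image.1 hC
    obtain ⟨c1, hc1, rfl⟩ := Finset.mem_image.1 hC'
    exact BF.inv.disj c.2 c1.2 (BF.pos _ c.2) (BF.pos _ c1.2) hne

theorem touch_finite (BF : BoxFoam La F δ κ0) (hκ : 0 < κ0) (hR : 0 < R) (hcmp : Cmp F R) (c' : F) :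
    {c : F | (Pc F c' ∩ Pc F c).Nonempty}.Finite := by
  by_contra hinf
  obtain ⟨S, hS, hcard⟩ := (show Set.Infinite _ from hinf).exists_subset_card_eq (Nb κ (R * κ0) + 1)
  have := touch_finset BF hκ hR hcmp c' S fun c hc => hS hc
  omega

end touch

section all

variable {δ κ0 R c0 : ℝ} {La Om : Set (Fin 3 → ℝ)} {ι : Type}

theorem Cs_pos (hδ : 0 < δ) (hR : 0 < R) : 0 < Cs (Fintype.card (Fin 3)) δ R := by
  have h3 : Fintype.card (Fin 3) = 2 + 1 := by simp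
  rw [h3]
  unfold Cs
  simp only [Brk4_582.Lc]
  have hw : 0 < δ / R := by positivity
  have : 0 ≤ max (2 * (2 / (δ / R) + max (2 * (2 / (δ / R) + max (2 * 0) (1 / (δ / R)) *
    (1 + 1 / (δ / R)))) (1 / (δ / R)) * (1 + 1 / (δ / R)))) (1 / (δ / R)) *
    (1 + 1 / (δ / R)) := by
    refine mul_nonneg (le_max_of_le_right (by positivity)) (by positivity)
  positivity

/-- **WORDS.**  For every allowed measure `η` of the bad levels, every bound `M` of the grids, `n` of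
the numbers of edges of the cores and `lam1 < 1` of the ratios there is `kw > 0` such that: if on the
edges of every exact core `f` is `kw lam sz`-close to `A` and the integrated defect of the increments
is at most `kw lam sz`, then there are sets of bad levels of measure `≤ η`, and all other levels have
exact words and signs on all exact cores. -/
theorem words (hδ : 0 < δ) (hκ : 1 ≤ κ0) (hR : 1 ≤ R) {η lam1 : ℝ} (hη : 0 < η) (hl1 : lam1 < 1)
    {M : ℕ} (hM : 0 < M) (n : ℕ) :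
    ∃ kw : ℝ, 0 < kw ∧ ∀ (La Om : Set (Fin 3 → ℝ)), IsOpen La → ∀ (c0 : ℝ)
      (Φ : FoamD δ κ0 R c0 La) (ι : Type) (T : Tiling Om ι) (f : (Fin 3 → ℝ) → Fin 3 → ℝ)
      (X : Set Φ.F) (ct : Φ.F → ι) (A : Φ.F → (Fin 3 → ℝ) ≃ᵃ[ℝ] (Fin 3 → ℝ)) (lam : Φ.F → ℝ)
      (Mc : Φ.F → ℕ) (g : Φ.F → Edg T → ℝ → ℝ),
      (∀ c ∈ X, CoreW Φ T f c (ct c) (A c) (lam c) (Mc c) (kw * (lam c * c.1.sz)) (g c)) →
      (∀ c ∈ X, lam c ≤ lam1) → (∀ c ∈ X, Mc c ≤ M) → (∀ c ∈ X, (eIn T (ct c)).card ≤ n) →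
      (∀ c ∈ X, ∑ e ∈ eIn T (ct c), ∫ τ in (0:ℝ)..1, g c e τ ≤ kw * (lam c * c.1.sz)) →
      ∃ Bad : Φ.F → Set ℝ, (∀ c', MeasurableSet (Bad c')) ∧
        (∀ c', volume (Bad c') ≤ ENNReal.ofReal η) ∧
        ∀ c ∈ X, ∀ c', ∀ t ∈ Ioo (0 : ℝ) 1, t ∉ Bad c' →
          WS Φ T f c (ct c) (A c) (lam c) (zz c.1 (lam c)) c' t := by
  classical
  have hR0 : 0 < R := by linarith
  have hκ0 : 0 < κ0 := by linarith
  have hC := Cs_pos (R := R) hδ hR0
  set N : ℕ := Nb (Fin 3) (R * κ0) with hN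
  have hη' : 0 < η / (N + 1) := by positivity
  obtain ⟨θ, kw, hθ, hθ1, hkw, k1, k2, k3, k4, k5⟩ := exists_kw hC hκ0.le hη' hl1 hM n
  refine ⟨kw, hkw, ?_⟩
  intro La Om hLa c0 Φ ι T f X ct A lam Mc g hX hlam hMc hn hg
  have hM' : (0 : ℝ) < M := by exact_mod_cast hM
  set C := Cs (Fintype.card (Fin 3)) δ R with hCdef
  have cond : ∀ c ∈ X, 1 / (M : ℝ) ≤ 1 / (Mc c) := by
    intro c hc
    have h1 : (0 : ℝ) < Mc c := by exact_mod_cast (hX c hc).M0
    exact one_div_le_one_div_of_le h1 (by exact_mod_cast hMc c hc)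
  have hone : ∀ c ∈ X, ∀ c', ∃ Bad : Set ℝ, MeasurableSet Bad ∧
      volume Bad ≤ ENNReal.ofReal (η / (N + 1)) ∧
      ∀ t ∉ Bad, WS Φ T f c (ct c) (A c) (lam c) (zz c.1 (lam c)) c' t := by
    intro c hc c'
    have hh := cond c hc
    have hMr : ((Mc c : ℕ) : ℝ) ≤ M := by exact_mod_cast hMc c hc
    refine (hX c hc).bad hLa hδ hR0 hC hθ hθ1 ?_ ?_ k3 ?_ ?_ hkw.le (hn c hc) (hg c hc) c'
    · refine k1.trans_le (mul_le_mul_of_nonneg_left (min_le_min le_rfl ?_) hθ.le)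
      exact div_le_div_of_nonneg_right (by linarith) hC.le
    · linarith [hlam c hc]
    · exact k4.trans_le (mul_le_mul_of_nonneg_left hh hθ.le)
    · refine le_trans ?_ k5
      have hD : 0 ≤ C * (1 + κ0) * (4 / 3) * kw := by positivity
      nlinarith
  choose! B b1 b2 b3 using hone
  have hfin : ∀ c' : Φ.F, {c : Φ.F | (Pc Φ.F c' ∩ Pc Φ.F c).Nonempty}.Finite :=
    fun c' => touch_finite Φ.bf hκ0 hR0 Φ.cmp c'
  refine ⟨fun c' => ⋃ c ∈ ((hfin c').toFinset.filter fun c => c ∈ X), B c c', ?_, ?_, ?_⟩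
  · intro c'
    exact Finset.measurableSet_biUnion _ fun c hc => b1 c (Finset.mem_filter.1 hc).2 c'
  · intro c'
    refine (measure_biUnion_finset_le _ _).trans ?_
    refine (Finset.sum_le_sum (g := fun _ => ENNReal.ofReal (η / (N + 1))) fun c hc =>
      b2 c (Finset.mem_filter.1 hc).2 c').trans ?_
    rw [Finset.sum_const, nsmul_eq_mul, ← ENNReal.ofReal_natCast, ← ENNReal.ofReal_mul
      (Nat.cast_nonneg _)]
    refine ENNReal.ofReal_le_ofReal ?_
    have hcard : ((hfin c').toFinset.filter fun c => c ∈ X).card ≤ N :=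
      touch_finset Φ.bf hκ0 hR0 Φ.cmp c' _ fun c hc => by
        have := (Finset.mem_filter.1 hc).1
        rwa [Set.Finite.mem_toFinset] at this
    have hcard' : ((((hfin c').toFinset.filter fun c => c ∈ X).card : ℕ) : ℝ) ≤ N := by
      exact_mod_cast hcard
    have hN0 : (0 : ℝ) ≤ N := Nat.cast_nonneg _
    rw [mul_div_assoc', div_le_iff₀ (by positivity)]
    nlinarith
  · intro c hc c' t ht htB
    by_cases htouch : (Pc Φ.F c' ∩ Pc Φ.F c).Nonempty
    · refine b3 c hc c' t fun hh => htB ?_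
      simp only [mem_iUnion]
      exact ⟨c, Finset.mem_filter.2 ⟨(Set.Finite.mem_toFinset _).2 htouch, hc⟩, hh⟩
    · have h := hX c hc
      have hsz := Bx.sz_pos (Φ.bf.pos _ c.2)
      have hl := h.lam0
      have hl' := h.lam1
      have h0 : 0 ≤ 2 * κ0 * kw := by positivity
      refine h.ws_far hLa ?_ ?_ htouch ht
      · rw [scale1 hsz]; nlinarith
      · rw [scale1 hsz]
        have := hlam c hc
        nlinarith

/-- the clause `push` of `CoreW` for 627's concentric two-stage push -/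
theorem push_pus {Φ : FoamD δ κ0 R c0 La} {c : Φ.F} {lam : ℝ} (hQ : c.1.Pos) (hl : 0 < lam)
    (hl1 : lam < 1) (hpu : Φ.pu c = pus c.1 hQ lam hl) :
    ∀ y ∈ Pc Φ.F c, 3 / 4 * lam ≤ mu c.1 y → Φ.pu c y = rp c.1 y := by
  intro y _ hy
  rw [hpu]
  exact pus_eq_rp hQ hl hl1 (by linarith)


end all

end Crest.Agent.R096.Wd_120
end

-- ▼ part R096/Wd10_120
section

/-!
Row 96, exact cores (helper120), part 10: `Mbf_337.Words` for all exact cores (112 #10679 (B)).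
-/

set_option autoImplicit false
set_option linter.unusedSectionVars false

open Set Filter Topology Metric MeasureTheory
open scoped ENNReal

namespace Crest.Agent.R096.Wd_120

open Crest.Agent.R096.Bsp_628 Crest.Agent.R096.Bxs_627 Crest.Agent.R096.Brk1_582
open Crest.Agent.R096.Brk3_582 Crest.Agent.R096.Brk5_582 Crest.Agent.R096.Core_124
open Crest.Agent.R096.Msh_715 Crest.Agent.R096.Ls_222 Crest.Agent.R96.Sg1_199
open Crest.Agent.R096.SkC1_961 (FoamD th)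
open Crest.Agent.R096.Mbf_337 (sb)

section ends

variable {Om : Set (Fin 3 → ℝ)} {ι : Type} {T : Tiling Om ι}

/-- the ends of a closed 1-cell are vertices of it -/
theorem dim_ends {x a b : Fin 3 → ℝ} (hx : x ∈ Om) (hd : T.dim x = 1)
    (hab : T.cc x = segment ℝ a b) : T.dim a = 0 ∧ T.dim b = 0 := by
  obtain ⟨a', b', hne, -, -, ha0, hb0, ha, hb⟩ := T.edge_eq hx hd
  have h1 := T.vertex_of_edge hx hd hab ha ha0
  have h2 := T.vertex_of_edge hx hd hab hb hb0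
  rcases h1 with h1 | h1 <;> rcases h2 with h2 | h2
  · exact absurd (h1.trans h2.symm) hne
  · exact ⟨h1 ▸ ha0, h2 ▸ hb0⟩
  · exact ⟨h2 ▸ hb0, h1 ▸ ha0⟩
  · exact absurd (h1.trans h2.symm) hne

end ends

section card

variable {δ κ0 R c0 : ℝ} {La Om : Set (Fin 3 → ℝ)} {ι : Type} {Φ : FoamD δ κ0 R c0 La}
  {T : Tiling Om ι} {c : Φ.F} {i : ι} {A : (Fin 3 → ℝ) ≃ᵃ[ℝ] (Fin 3 → ℝ)} {lam : ℝ} {z : Fin 3 → ℝ}

/-- **the number of edges of an exact core** -/
theorem card_eIn_le (hLa : IsOpen La) (hκ : 0 < κ0) (hR : 0 < R) (hl : 0 < lam) {M : ℕ}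
    (ht : P (T.H i) = A ⁻¹' {y | ∀ k, z k + lam * c.1.lo k ≤ y k ∧ y k ≤ z k + lam * c.1.hi k})
    (hg : GridC Φ T M i (fun y => sb Φ (th A lam z y))) :
    (eIn T i).card ≤ ((M + 1) * (M + 1)) ^ Nb (Fin 3) (R * κ0) := by
  classical
  have FF := foam Φ.bf hLa
  have hfin := touch_finite Φ.bf hκ hR Φ.cmp c
  set S : Finset Φ.F := hfin.toFinset with hS
  have hcard : S.card ≤ Nb (Fin 3) (R * κ0) := touch_finset Φ.bf hκ hR Φ.cmp c S fun d hd =>
    (Set.Finite.mem_toFinset hfin).1 hd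
  have hx : ∀ e : Edg T, ∃ x ∈ Om, T.dim x = 1 ∧ e.1 = T.cc x := fun e => e.2
  choose x xO xd xe using hx
  have hxP : ∀ e ∈ eIn T i, x e ∈ P (T.H i) := fun e he => by
    apply mem_eIn.1 he
    rw [xe e]
    exact T.self_mem_cc _
  have hb : ∀ e ∈ eIn T i, ∀ a, 0 ≤ sb Φ (th A lam z (x e)) a ∧ sb Φ (th A lam z (x e)) a ≤ 1 :=
    fun e he a =>
      (FF.sc_mem_K (FF.sub c (th_mem (c := c) hl ht (hxP e he)))).1 a
  let fl : Edg T → S → Fin (M + 1) × Fin (M + 1) := fun e a =>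
    (Fin.ofNat (M + 1) ⌊M * sb Φ (th A lam z (x e)) a⌋₊,
      Fin.ofNat (M + 1) ⌈M * sb Φ (th A lam z (x e)) a⌉₊)
  have hM1 : ∀ e ∈ eIn T i, ∀ a, ⌊M * sb Φ (th A lam z (x e)) a⌋₊ < M + 1 ∧
      ⌈M * sb Φ (th A lam z (x e)) a⌉₊ < M + 1 := by
    intro e he a
    have h := hb e he a
    have hM : (0 : ℝ) ≤ M := Nat.cast_nonneg _
    have h1 : M * sb Φ (th A lam z (x e)) a ≤ M := by nlinarith
    have h2 : ⌈M * sb Φ (th A lam z (x e)) a⌉₊ ≤ M := Nat.ceil_le.2 h1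
    have h3 := Nat.floor_le_ceil (M * sb Φ (th A lam z (x e)) a)
    constructor <;> omega
  have hinj : Set.InjOn fl (eIn T i : Set (Edg T)) := by
    intro e he e' he' hee
    have he1 : e ∈ eIn T i := he
    have he1' : e' ∈ eIn T i := he'
    have key : ∀ a : Φ.F, ⌊M * sb Φ (th A lam z (x e)) a⌋₊ = ⌊M * sb Φ (th A lam z (x e')) a⌋₊ ∧
        ⌈M * sb Φ (th A lam z (x e)) a⌉₊ = ⌈M * sb Φ (th A lam z (x e')) a⌉₊ := by
      intro a
      by_cases ha : (Pc Φ.F c ∩ Pc Φ.F a).Nonempty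
      · have haS : a ∈ S := (Set.Finite.mem_toFinset hfin).2 ha
        have h1 := congrFun hee ⟨a, haS⟩
        have h2 := hM1 e he1 a
        have h3 := hM1 e' he1' a
        simp only [fl, Prod.mk.injEq, Fin.ext_iff, Fin.ofNat_eq_cast, Fin.val_natCast] at h1
        rw [Nat.mod_eq_of_lt h2.1, Nat.mod_eq_of_lt h3.1, Nat.mod_eq_of_lt h2.2,
          Nat.mod_eq_of_lt h3.2] at h1
        exact h1
      · have ha' : ¬ (Pc Φ.F a ∩ Pc Φ.F c).Nonempty := by rwa [inter_comm]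
        have e1 : sb Φ (th A lam z (x e)) a = 1 :=
          Dic2_582.sc_eq_one_of_not_touch FF ha' (th_mem (c := c) hl ht (hxP e he1))
        have e2 : sb Φ (th A lam z (x e')) a = 1 :=
          Dic2_582.sc_eq_one_of_not_touch FF ha' (th_mem (c := c) hl ht (hxP e' he1'))
        rw [e1, e2]
        exact ⟨rfl, rfl⟩
    have g1 := (hg (x e) (hxP e he1) (not_mem_I_of_dim (xO e) (by have := xd e; omega))).1
    have g2 := (hg (x e') (hxP e' he1') (not_mem_I_of_dim (xO e') (by have := xd e'; omega))).1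
    apply Subtype.ext
    rw [xe e, xe e', g1, g2]
    ext y
    simp only [mem_ofPred_eq]
    refine and_congr Iff.rfl (forall_congr' fun a => ?_)
    rw [(key a).1, (key a).2]
  have h1 : (eIn T i).card ≤ (Finset.univ : Finset (S → Fin (M + 1) × Fin (M + 1))).card :=
    Finset.card_le_card_of_injOn fl (fun _ _ => Finset.mem_coe.2 (Finset.mem_univ _)) hinj
  refine h1.trans ?_
  rw [Finset.card_univ, Fintype.card_fun, Fintype.card_prod, Fintype.card_fin, Fintype.card_coe]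
  exact Nat.pow_le_pow_right (by positivity) hcard

end card

section all

/-- **WORDS for all exact cores** (112 #10679 (B)): the literal `Mbf_337.Words`. -/
theorem words_all {δ κ0 R : ℝ} (hδ : 0 < δ) (hκ : 1 ≤ κ0) (hR : 1 ≤ R) {κb lam0 lam1 : ℝ}
    (hκb : 0 < κb) (hl0 : 0 < lam0) (hl1 : lam1 < 1) (Mx : ℕ) :
    ∃ κw : ℝ, 0 < κw ∧ ∀ (La Om : Set (Fin 3 → ℝ)), IsOpen La → ∀ (c0 : ℝ)
      (Φ : FoamD δ κ0 R c0 La) (ι : Type) (T : Tiling Om ι) (f : (Fin 3 → ℝ) → Fin 3 → ℝ)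
      (X : Set Φ.F) (ct : Φ.F → ι) (A : Φ.F → (Fin 3 → ℝ) ≃ᵃ[ℝ] (Fin 3 → ℝ)) (lam : Φ.F → ℝ)
      (M : Φ.F → ℕ),
      (∀ c ∈ X, 0 < M c ∧ ∀ x ∈ P (T.H (ct c)), x ∉ I (T.H (ct c)) →
        T.cc x = {y | y ∈ P (T.H (ct c)) ∧ ∀ a : Φ.F,
          (⌊M c * sb Φ (th (A c) (lam c) (zz c.1 (lam c)) x) a⌋₊ : ℝ) ≤
            M c * sb Φ (th (A c) (lam c) (zz c.1 (lam c)) y) a ∧
          M c * sb Φ (th (A c) (lam c) (zz c.1 (lam c)) y) a ≤
            ⌈M c * sb Φ (th (A c) (lam c) (zz c.1 (lam c)) x) a⌉₊} ∧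
        T.dim x = {a : Φ.F | ⌊M c * sb Φ (th (A c) (lam c) (zz c.1 (lam c)) x) a⌋₊ <
          ⌈M c * sb Φ (th (A c) (lam c) (zz c.1 (lam c)) x) a⌉₊}.ncard) →
      (∀ c ∈ X, M c ≤ Mx) → (∀ c ∈ X, lam0 ≤ lam c ∧ lam c ≤ lam1) →
      (∀ c ∈ X, ∀ y ∈ Pc Φ.F c, 3 / 4 * lam c ≤ mu c.1 y → Φ.pu c y = rp c.1 y) →
      (∀ c ∈ X, P (T.H (ct c)) = A c ⁻¹' {y | ∀ k, zz c.1 (lam c) k + lam c * c.1.lo k ≤ y k ∧
        y k ≤ zz c.1 (lam c) k + lam c * c.1.hi k}) →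
      (∀ c ∈ X, ∀ x ∈ P (T.H (ct c)), T.dim x = 0 → ‖f x - A c x‖ ≤ κw * c.1.sz) →
      (∀ c ∈ X, ∀ e ∈ eIn T (ct c), ∃ g : ℝ → ℝ,
        NearSeg (fun τ => f (ea e + τ • ev e)) g (A c (ea e)) (A c (ea e + ev e) - A c (ea e))
          (κw * c.1.sz) ∧ ∫ τ in (0:ℝ)..1, g τ ≤ κw * c.1.sz) →
      ∃ Bad : Φ.F → Set ℝ, (∀ c', MeasurableSet (Bad c')) ∧
        (∀ c', volume (Bad c') ≤ ENNReal.ofReal κb) ∧
        ∀ L : Φ.F → Finset ℝ, (∀ c', ∀ t ∈ L c', t ∈ Ioo (0 : ℝ) 1 ∧ t ∉ Bad c') →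
          Mbf_337.Words Φ T f X ct A lam (fun c => zz c.1 (lam c)) M L := by
  classical
  set n : ℕ := ((Mx + 1) * (Mx + 1)) ^ Nb (Fin 3) (R * κ0) with hn
  obtain ⟨kw, hkw, H⟩ := words (κ0 := κ0) (R := R) hδ hκ hR hκb hl1 (M := Mx + 1) (by omega) n
  refine ⟨kw * lam0 / (n + 1), by positivity, ?_⟩
  intro La Om hLa c0 Φ ι T f X ct A lam M hgrid hM hlam hpush htile hvx hed
  choose! g hg1 hg2 using hed
  have hn1 : (0 : ℝ) < n + 1 := by positivity
  have hsz : ∀ c : Φ.F, 0 < c.1.sz := fun c => Bx.sz_pos (Φ.bf.pos _ c.2)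
  have hle1 : ∀ c ∈ X, (n + 1) * (kw * lam0 / (n + 1) * c.1.sz) ≤ kw * (lam c * c.1.sz) := by
    intro c hc
    have e : (n + 1 : ℝ) * (kw * lam0 / (n + 1) * c.1.sz) = kw * (lam0 * c.1.sz) := by
      field_simp
    rw [e]
    exact mul_le_mul_of_nonneg_left (mul_le_mul_of_nonneg_right (hlam c hc).1 (hsz c).le) hkw.le
  have hle : ∀ c ∈ X, kw * lam0 / (n + 1) * c.1.sz ≤ kw * (lam c * c.1.sz) := by
    intro c hc
    refine le_trans ?_ (hle1 c hc)
    have h0 : 0 ≤ kw * lam0 / (n + 1) * c.1.sz := mul_nonneg (by positivity) (hsz c).le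
    have hn0 : (0 : ℝ) ≤ n := Nat.cast_nonneg n
    nlinarith
  have hcard : ∀ c ∈ X, (eIn T (ct c)).card ≤ n := by
    intro c hc
    have h1 := card_eIn_le (c := c) hLa (by linarith) (by linarith) (hl0.trans_le (hlam c hc).1)
      (htile c hc) (fun x hx hxI => (hgrid c hc).2 x hx hxI)
    refine h1.trans (Nat.pow_le_pow_left ?_ _)
    have := hM c hc
    exact Nat.mul_le_mul (by omega) (by omega)
  have hX : ∀ c ∈ X, CoreW Φ T f c (ct c) (A c) (lam c) (M c) (kw * (lam c * c.1.sz)) (g c) :=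
    fun c hc =>
      { lam0 := hl0.trans_le (hlam c hc).1
        lam1 := (hlam c hc).2.trans_lt hl1
        M0 := (hgrid c hc).1
        ε0 := mul_nonneg hkw.le (mul_nonneg (hl0.le.trans (hlam c hc).1) (hsz c).le)
        tile := htile c hc
        push := hpush c hc
        grid := fun x hx hxI => (hgrid c hc).2 x hx hxI
        close := fun x hx hd => (hvx c hc x hx hd).trans (hle c hc)
        seg := fun e he =>
          ⟨(hg1 c hc e he).cont, (hg1 c hc e he).int, (hg1 c hc e he).nonneg,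
            (hg1 c hc e he).inc, fun t ht => ((hg1 c hc e he).close t ht).trans (hle c hc)⟩ }
  have hsum : ∀ c ∈ X, ∑ e ∈ eIn T (ct c), ∫ τ in (0:ℝ)..1, g c e τ ≤ kw * (lam c * c.1.sz) := by
    intro c hc
    calc ∑ e ∈ eIn T (ct c), ∫ τ in (0:ℝ)..1, g c e τ
        ≤ ∑ e ∈ eIn T (ct c), kw * lam0 / (n + 1) * c.1.sz :=
          Finset.sum_le_sum fun e he => hg2 c hc e he
      _ = (eIn T (ct c)).card * (kw * lam0 / (n + 1) * c.1.sz) := by
          rw [Finset.sum_const, nsmul_eq_mul]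
      _ ≤ (n + 1) * (kw * lam0 / (n + 1) * c.1.sz) := by
          refine mul_le_mul_of_nonneg_right ?_ (mul_nonneg (by positivity) (hsz c).le)
          have : ((eIn T (ct c)).card : ℝ) ≤ n := by exact_mod_cast hcard c hc
          linarith
      _ ≤ kw * (lam c * c.1.sz) := hle1 c hc
  obtain ⟨Bad, hB1, hB2, hB3⟩ := H La Om hLa c0 Φ ι T f X ct A lam M g hX
    (fun c hc => (hlam c hc).2) (fun c hc => (hM c hc).trans (Nat.le_succ _)) hcard hsum
  refine ⟨Bad, hB1, hB2, fun L hL => ?_⟩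
  have hsign : ∀ c ∈ X, ∀ x ∈ P (T.H (ct c)), T.dim x = 0 → ∀ c' : Φ.F, ∀ t ∈ L c',
      (Φ.lev c' (f x) < t ↔ sb Φ (th (A c) (lam c) (zz c.1 (lam c)) x) c' < t) :=
    fun c hc x hx hd c' t ht => (hB3 c hc c' t (hL c' t ht).1 (hL c' t ht).2).2 x hx hd
  refine ⟨hgrid, ?_, hsign⟩
  intro c hc x hx hd c' t ht a b hab
  have hw := (hB3 c hc c' t (hL c' t ht).1 (hL c' t ht).2).1 x hx hd a b hab
  have hxO : x ∈ Om := T.sub _ hx
  have hde := dim_ends hxO hd hab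
  have haP : a ∈ P (T.H (ct c)) := T.cc_sub_tile hx (by rw [hab]; exact left_mem_segment _ _ _)
  have hbP : b ∈ P (T.H (ct c)) := T.cc_sub_tile hx (by rw [hab]; exact right_mem_segment _ _ _)
  exact ⟨hw.1, hw.2.1, (hsign c hc a haP hde.1 c' t ht).symm,
    (hsign c hc b hbP hde.2 c' t ht).symm, hw.2.2.1, hw.2.2.2⟩

end all

end Crest.Agent.R096.Wd_120
end

-- ▼ part R096/Wd11_120
section

/-!
Row 96, exact cores (helper120), part 11: the words of the exact cores of a mesh from `Cores` and the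
increments of `f` along the edges of the core tiles (`words_cores`), in particular from `GoodW`
(`words_good`).
-/

set_option autoImplicit false
set_option linter.unusedSectionVars false

open Set Filter Topology Metric MeasureTheory
open scoped ENNReal

namespace Crest.Agent.R096.Wd_120

open Crest.Agent.R096.Bsp_628 Crest.Agent.R096.Bxs_627 Crest.Agent.R096.Brk1_582
open Crest.Agent.R096.Brk3_582 Crest.Agent.R096.Brk5_582 Crest.Agent.R096.Core_124
open Crest.Agent.R096.Msh_715 Crest.Agent.R096.Ls_222 Crest.Agent.R96.Sg1_199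
open Crest.Agent.R096.SkC1_961 (FoamD th E3)
open Crest.Agent.R096.Mbf_337 (sb Cores Exact Words)
open Crest.Agent.R096.EaX_766 (lin)
open Crest.Agent.R096.Exa_365 (GoodW)

section seg

variable {F : Type*} [NormedAddCommGroup F] [NormedSpace ℝ F]

/-- the segment run backwards -/
theorem nearSeg_rev {c : ℝ → F} {g : ℝ → ℝ} {y0 u : F} {ε : ℝ} (h : NearSeg c g y0 u ε) :
    NearSeg (fun t => c (1 - t)) (fun t => g (1 - t)) (y0 + u) (-u) ε := by
  have hI : ∀ t ∈ Icc (0:ℝ) 1, 1 - t ∈ Icc (0:ℝ) 1 := fun t ht => ⟨by linarith [ht.2], by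
    linarith [ht.1]⟩
  refine ⟨?_, ?_, fun t ht => h.nonneg _ (hI t ht), ?_, ?_⟩
  · exact h.cont.comp (by fun_prop) hI
  · have h1 := h.int.comp_sub_left 1
    simp only [sub_zero, sub_self] at h1
    exact h1.symm
  · intro s hs t ht hst
    have h1 := h.inc (1 - t) (hI t ht) (1 - s) (hI s hs) (by linarith)
    have e : c (1 - t) - c (1 - s) - (t - s) • -u = -(c (1 - s) - c (1 - t) -
        ((1 - s) - (1 - t)) • u) := by
      rw [show (1 - s) - (1 - t) = t - s by ring]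
      simp only [smul_neg, sub_neg_eq_add, neg_sub]
      abel
    rw [e, norm_neg]
    refine h1.trans (le_of_eq ?_)
    rw [intervalIntegral.integral_comp_sub_left (fun τ => g τ) 1]
  · intro t ht
    have h1 := h.close (1 - t) (hI t ht)
    have e : y0 + u + t • -u = y0 + (1 - t) • u := by
      rw [sub_smul, one_smul, smul_neg]; abel
    rw [e]
    exact h1

theorem integral_rev (g : ℝ → ℝ) : ∫ t in (0:ℝ)..1, g (1 - t) = ∫ t in (0:ℝ)..1, g t := by
  rw [intervalIntegral.integral_comp_sub_left (fun τ => g τ) 1]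
  simp

/-- another affine map near the curve -/
theorem nearSeg_close {c : ℝ → F} {g : ℝ → ℝ} {y0 y0' u : F} {ε ε' : ℝ} (h : NearSeg c g y0 u ε)
    (hc : ∀ t ∈ Icc (0:ℝ) 1, ‖c t - (y0' + t • u)‖ ≤ ε') : NearSeg c g y0' u ε' :=
  ⟨h.cont, h.int, h.nonneg, h.inc, hc⟩

end seg

section edges

variable {Om : Set (Fin 3 → ℝ)} {ι : Type} {T : Tiling Om ι}

/-- a closed 1-cell which is the segment `sgm a v`: its parametrisation is `a, v` or backwards -/
theorem edg_sgm {e : Edg T} {a v : Fin 3 → ℝ} (h : e.1 = sgm a v) :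
    (ea e = a ∧ ev e = v) ∨ (ea e = a + v ∧ ev e = -v) := by
  obtain ⟨x, hxO, hd, hex⟩ := e.2
  have hab : T.cc x = segment ℝ a (a + v) := by rw [← hex, h, sgm_eq_segment]
  have hp : ea e ∈ T.cc x := by
    rw [← hex, ← sgm_edg e, sgm_eq_segment]; exact left_mem_segment _ _ _
  have hq : ea e + ev e ∈ T.cc x := by
    rw [← hex, ← sgm_edg e, sgm_eq_segment]; exact right_mem_segment _ _ _
  have h1 := T.vertex_of_edge hxO hd hab hp (dim_ea e)
  have h2 := T.vertex_of_edge hxO hd hab hq (dim_eb e)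
  have hne : ea e ≠ ea e + ev e := fun h' => ev_ne e (by simpa using h'.symm)
  rcases h1 with h1 | h1 <;> rcases h2 with h2 | h2
  · exact absurd (h1.trans h2.symm) hne
  · left
    refine ⟨h1, ?_⟩
    rw [h1] at h2
    exact add_left_cancel h2
  · right
    refine ⟨h1, ?_⟩
    rw [h1] at h2
    have : a + v + ev e = a + v + -v := by rw [h2]; abel
    exact add_left_cancel this
  · exact absurd (h1.trans h2.symm) hne

end edges

section mesh

/-- **the words of the exact cores of a mesh**: `Cores`, the grid, the increments of `f` along the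
edges of the core tiles. -/
theorem words_cores {δ κ0 R : ℝ} (hδ : 0 < δ) (hκ : 1 ≤ κ0) (hR : 1 ≤ R) {κb lam0 lam1 : ℝ}
    (hκb : 0 < κb) (hl0 : 0 < lam0) (hl1 : lam1 < 1) (Mx : ℕ) :
    ∃ κw : ℝ, 0 < κw ∧ ∀ (La Om : Set (Fin 3 → ℝ)), IsOpen La → ∀ (c0 : ℝ)
      (Φ : FoamD δ κ0 R c0 La) (ι : Type) (T : Tiling Om ι) (f : (Fin 3 → ℝ) → Fin 3 → ℝ)
      (κ1 κ2 : ℝ), κ1 ≤ κw → 0 ≤ κ2 → ∀ (X : Set Φ.F) (J0 J V : Φ.F → Set ι) (ct : Φ.F → ι)
      (A : Φ.F → (Fin 3 → ℝ) ≃ᵃ[ℝ] (Fin 3 → ℝ)) (lam : Φ.F → ℝ) (z : Φ.F → Fin 3 → ℝ)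
      (θ : Φ.F → (Fin 3 → ℝ) → Fin 3 → ℝ) (φ : Φ.F → (Fin 3 → ℝ) → ℝ) (M : Φ.F → ℕ),
      Cores Φ T f κ1 κ2 X J0 J V ct A lam z θ φ →
      (∀ c ∈ X, z c = zz c.1 (lam c)) →
      (∀ c ∈ X, 0 < M c ∧ ∀ x ∈ P (T.H (ct c)), x ∉ I (T.H (ct c)) →
        T.cc x = {y | y ∈ P (T.H (ct c)) ∧ ∀ a : Φ.F,
          (⌊M c * sb Φ (th (A c) (lam c) (z c) x) a⌋₊ : ℝ) ≤ M c * sb Φ (th (A c) (lam c) (z c) y) a ∧
          M c * sb Φ (th (A c) (lam c) (z c) y) a ≤ ⌈M c * sb Φ (th (A c) (lam c) (z c) x) a⌉₊} ∧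
        T.dim x = {a : Φ.F | ⌊M c * sb Φ (th (A c) (lam c) (z c) x) a⌋₊ <
          ⌈M c * sb Φ (th (A c) (lam c) (z c) x) a⌉₊}.ncard) →
      (∀ c ∈ X, M c ≤ Mx) → (∀ c ∈ X, lam0 ≤ lam c ∧ lam c ≤ lam1) →
      (∀ c ∈ X, ∀ y ∈ Pc Φ.F c, 3 / 4 * lam c ≤ mu c.1 y → Φ.pu c y = rp c.1 y) →
      (∀ c ∈ X, ∀ e ∈ eIn T (ct c), ∃ (a v : Fin 3 → ℝ) (g : ℝ → ℝ) (y0 : Fin 3 → ℝ) (ε : ℝ),
        e.1 = sgm a v ∧ NearSeg (fun τ => f (a + τ • v)) g y0 ((A c).linear v) ε ∧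
        ∫ τ in (0:ℝ)..1, g τ ≤ κw * c.1.sz) →
      ∃ Bad : Φ.F → Set ℝ, (∀ c', MeasurableSet (Bad c')) ∧
        (∀ c', volume (Bad c') ≤ ENNReal.ofReal κb) ∧
        ∀ L : Φ.F → Finset ℝ, (∀ c', ∀ t ∈ L c', t ∈ Ioo (0 : ℝ) 1 ∧ t ∉ Bad c') →
          Words Φ T f X ct A lam z M L := by
  obtain ⟨κw, hκw, H⟩ := words_all hδ hκ hR hκb hl0 hl1 Mx
  refine ⟨κw, hκw, ?_⟩
  intro La Om hLa c0 Φ ι T f κ1 κ2 hκ1 hκ2 X J0 J V ct A lam z θ φ M hC hz hgrid hM hlam hpush hed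
  have hsz : ∀ c : Φ.F, 0 < c.1.sz := fun c => Bx.sz_pos (Φ.bf.pos _ c.2)
  have hEx : ∀ c ∈ X, Exact Φ T f κ1 κ2 c (ct c) (A c) (lam c) (z c) := hC.exact_
  -- closeness on the 1-skeleton of the core tiles
  have hcl : ∀ c ∈ X, ∀ x ∈ P (T.H (ct c)), T.dim x ≤ 2 → ‖f x - A c x‖ ≤ κw * c.1.sz := by
    intro c hc x hx hd
    have hE := hEx c hc
    have hl := hE.lam0
    have hl' := hE.lam1
    have hxt := hx
    rw [hE.tile] at hxt
    have hside : ∀ k, 0 ≤ κ2 * (lam c * c.1.side k) := fun k =>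
      mul_nonneg hκ2 (mul_nonneg hl.le (Bx.side_pos (Φ.bf.pos _ c.2) k).le)
    have h1 := (hE.nbd x fun k => ⟨by linarith [(hxt k).1, hside k], by
      linarith [(hxt k).2, hside k]⟩).2 (fun hi => not_mem_I_of_dim (T.sub _ hx) hd
        (mem_I_of_interior (T.ne _) hi))
    refine h1.trans ?_
    have h2 : κ1 * (lam c * c.1.sz) ≤ κw * (lam c * c.1.sz) :=
      mul_le_mul_of_nonneg_right hκ1 (mul_pos hl (hsz c)).le
    refine h2.trans (mul_le_mul_of_nonneg_left ?_ hκw.le)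
    have := hsz c
    nlinarith
  have hzX : ∀ c ∈ X, ∀ y : Fin 3 → ℝ, th (A c) (lam c) (zz c.1 (lam c)) y =
      th (A c) (lam c) (z c) y := fun c hc y => by rw [hz c hc]
  have hed' : ∀ c ∈ X, ∀ e ∈ eIn T (ct c), ∃ g : ℝ → ℝ,
      NearSeg (fun τ => f (ea e + τ • ev e)) g (A c (ea e)) (A c (ea e + ev e) - A c (ea e))
        (κw * c.1.sz) ∧ ∫ τ in (0:ℝ)..1, g τ ≤ κw * c.1.sz := by
    intro c hc e he
    obtain ⟨a, v, g, y0, ε, hav, hseg, hg⟩ := hed c hc e he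
    have heP : e.1 ⊆ P (T.H (ct c)) := mem_eIn.1 he
    obtain ⟨x, hxO, hd, hex⟩ := e.2
    -- closeness along the edge
    have hce : ∀ t ∈ Icc (0:ℝ) 1, ‖f (a + t • v) - A c (a + t • v)‖ ≤ κw * c.1.sz := by
      intro t ht
      have hm : a + t • v ∈ e.1 := by rw [hav]; exact ⟨t, ht, rfl⟩
      refine hcl c hc _ (heP hm) ?_
      have : a + t • v ∈ T.cc x := by rw [← hex]; exact hm
      have h1 := T.dim_le this
      omega
    have hA : ∀ t : ℝ, A c (a + t • v) = A c a + t • (A c).linear v := by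
      intro t
      have h1 := (A c).map_vadd a (t • v)
      rw [vadd_eq_add, vadd_eq_add, map_smul] at h1
      rw [add_comm a, h1]
      abel
    have hN : NearSeg (fun τ => f (a + τ • v)) g (A c a) ((A c).linear v) (κw * c.1.sz) :=
      nearSeg_close hseg fun t ht => by
        have := hce t ht
        rw [hA t] at this
        exact this
    rcases edg_sgm hav with ⟨h1, h2⟩ | ⟨h1, h2⟩
    · refine ⟨g, ?_, hg⟩
      have e1 : A c (ea e + ev e) - A c (ea e) = (A c).linear v := by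
        rw [h1, h2]
        have := hA 1
        rw [one_smul, one_smul] at this
        rw [this]; abel
      rw [e1, h1, h2]
      exact hN
    · refine ⟨fun t => g (1 - t), ?_, ?_⟩
      · have hR := nearSeg_rev hN
        have e0 : ea e = a + v := h1
        have e1 : A c (ea e + ev e) - A c (ea e) = -(A c).linear v := by
          rw [h1, h2]
          have := hA 1
          rw [one_smul, one_smul] at this
          rw [this, show a + v + -v = a by abel]; abel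
        have e2 : A c (ea e) = A c a + (A c).linear v := by
          rw [h1]
          have := hA 1
          rw [one_smul, one_smul] at this
          exact this
        have e3 : (fun τ : ℝ => f (ea e + τ • ev e)) = fun t => f (a + (1 - t) • v) := by
          funext t
          congr 1
          rw [h1, h2, sub_smul, one_smul, smul_neg]
          abel
        rw [e1, e2, e3]
        exact hR
      · rw [integral_rev]
        exact hg
  obtain ⟨Bad, hB1, hB2, hB3⟩ := H La Om hLa c0 Φ ι T f X ct A lam M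
    (fun c hc => by simp only [← hz c hc]; exact hgrid c hc) hM hlam hpush
    (fun c hc => by rw [← hz c hc]; exact (hEx c hc).tile)
    (fun c hc x hx hd => hcl c hc x hx (by omega)) hed'
  refine ⟨Bad, hB1, hB2, fun L hL => ?_⟩
  have hW := hB3 L hL
  refine ⟨fun c hc => hgrid c hc, ?_, ?_⟩
  · intro c hc
    have := hW.word c hc
    simp only [← hz c hc] at this
    exact this
  · intro c hc
    have := hW.sign c hc
    simp only [← hz c hc] at this
    exact this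

end mesh

section good

/-- **the words of the exact cores from `GoodW`** (365): the edges of the core tile are translates of a
family of segments, good for the total shift `w`. -/
theorem words_good {δ κ0 R : ℝ} (hδ : 0 < δ) (hκ : 1 ≤ κ0) (hR : 1 ≤ R) {κb lam0 lam1 : ℝ}
    (hκb : 0 < κb) (hl0 : 0 < lam0) (hl1 : lam1 < 1) (Mx : ℕ) :
    ∃ κw : ℝ, 0 < κw ∧ ∀ (La Om : Set (Fin 3 → ℝ)), IsOpen La → ∀ (c0 : ℝ)
      (Φ : FoamD δ κ0 R c0 La) (ι : Type) (T : Tiling Om ι) (f : (Fin 3 → ℝ) → Fin 3 → ℝ)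
      (p : ℝ), 1 ≤ p → ContinuousOn f Om → ∀ (D : (Fin 3 → ℝ) → (Fin 3 → ℝ) →L[ℝ] (Fin 3 → ℝ))
      (κ1 κ2 : ℝ), κ1 ≤ κw → 0 ≤ κ2 → ∀ (X : Set Φ.F) (J0 J V : Φ.F → Set ι) (ct : Φ.F → ι)
      (A : Φ.F → (Fin 3 → ℝ) ≃ᵃ[ℝ] (Fin 3 → ℝ)) (lam : Φ.F → ℝ) (z : Φ.F → Fin 3 → ℝ)
      (θ : Φ.F → (Fin 3 → ℝ) → Fin 3 → ℝ) (φ : Φ.F → (Fin 3 → ℝ) → ℝ) (M : Φ.F → ℕ),
      Cores Φ T f κ1 κ2 X J0 J V ct A lam z θ φ →
      (∀ c ∈ X, z c = zz c.1 (lam c)) →
      (∀ c ∈ X, 0 < M c ∧ ∀ x ∈ P (T.H (ct c)), x ∉ I (T.H (ct c)) →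
        T.cc x = {y | y ∈ P (T.H (ct c)) ∧ ∀ a : Φ.F,
          (⌊M c * sb Φ (th (A c) (lam c) (z c) x) a⌋₊ : ℝ) ≤ M c * sb Φ (th (A c) (lam c) (z c) y) a ∧
          M c * sb Φ (th (A c) (lam c) (z c) y) a ≤ ⌈M c * sb Φ (th (A c) (lam c) (z c) x) a⌉₊} ∧
        T.dim x = {a : Φ.F | ⌊M c * sb Φ (th (A c) (lam c) (z c) x) a⌋₊ <
          ⌈M c * sb Φ (th (A c) (lam c) (z c) x) a⌉₊}.ncard) →
      (∀ c ∈ X, M c ≤ Mx) → (∀ c ∈ X, lam0 ≤ lam c ∧ lam c ≤ lam1) →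
      (∀ c ∈ X, ∀ y ∈ Pc Φ.F c, 3 / 4 * lam c ≤ mu c.1 y → Φ.pu c y = rp c.1 y) →
      (∀ c ∈ X, ∃ (K : Type) (A' : (Fin 3 → ℝ) ≃ᵃ[ℝ] (Fin 3 → ℝ)) (x v : K → Fin 3 → ℝ)
        (η : ℝ≥0∞) (w : Fin 3 → ℝ), GoodW p Om f D A' x v η w ∧ η ≠ ∞ ∧
        (η ^ (1 / p)).toReal ≤ κw ∧ (∀ y, (A c).linear y = A'.linear y) ∧
        ∀ e ∈ eIn T (ct c), ∃ j, e.1 = sgm (x j + w) (v j)) →
      ∃ Bad : Φ.F → Set ℝ, (∀ c', MeasurableSet (Bad c')) ∧
        (∀ c', volume (Bad c') ≤ ENNReal.ofReal κb) ∧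
        ∀ L : Φ.F → Finset ℝ, (∀ c', ∀ t ∈ L c', t ∈ Ioo (0 : ℝ) 1 ∧ t ∉ Bad c') →
          Words Φ T f X ct A lam z M L := by
  obtain ⟨κw, hκw, H⟩ := words_cores hδ hκ hR hκb hl0 hl1 Mx
  refine ⟨κw, hκw, ?_⟩
  intro La Om hLa c0 Φ ι T f p hp hf D κ1 κ2 hκ1 hκ2 X J0 J V ct A lam z θ φ M hC hz hgrid hM hlam
    hpush hgood
  refine H La Om hLa c0 Φ ι T f κ1 κ2 hκ1 hκ2 X J0 J V ct A lam z θ φ M hC hz hgrid hM hlam hpush ?_
  intro c hc e he
  obtain ⟨K, A', x, v, η, w, hG, hη, hηw, hlin, hed⟩ := hgood c hc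
  obtain ⟨j, hj⟩ := hed e he
  have hE := hC.exact_ c hc
  have hsz : 0 < c.1.sz := Bx.sz_pos (Φ.bf.pos _ c.2)
  have heP : e.1 ⊆ P (T.H (ct c)) := mem_eIn.1 he
  have hsub : sgm (x j + w) (v j) ⊆ Om := by
    rw [← hj]; exact heP.trans (T.sub _)
  -- some bound for the closeness
  have hcpt : IsCompact (sgm (x j + w) (v j)) := by
    rw [sgm_eq_segment, segment_eq_image_lineMap]
    exact isCompact_Icc.image (by fun_prop)
  have hcont : ContinuousOn (fun y => f y - A' y) (sgm (x j + w) (v j)) :=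
    (hf.mono hsub).sub (A'.toAffineMap.continuous_of_finiteDimensional.continuousOn)
  obtain ⟨ε, hε⟩ := hcpt.exists_bound_of_continuousOn hcont
  obtain ⟨h1, h2⟩ := hG.nearSeg hp hη hf j hsub hε
  have hl : lin A' (v j) = (A c).linear (v j) := by
    rw [hlin]; rfl
  refine ⟨x j + w, v j, fun τ => ‖D (x j + w + τ • v j) (v j) - lin A' (v j)‖, A' (x j + w), ε, hj,
    ?_, ?_⟩
  · rw [← hl]; exact h1
  · refine h2.trans ?_
    -- the image of the edge lies in the box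
    have hm0 : x j + w ∈ e.1 := by rw [hj]; exact ⟨0, by simp, by simp⟩
    have hm1 : x j + w + v j ∈ e.1 := by rw [hj]; exact ⟨1, by simp, by simp⟩
    have p0 := heP hm0
    have p1 := heP hm1
    rw [hE.tile] at p0 p1
    have hd : lin A' (v j) = A c (x j + w + v j) - A c (x j + w) := by
      rw [hl]
      have h3 := (A c).map_vadd (x j + w) (v j)
      rw [vadd_eq_add, vadd_eq_add, add_comm (v j)] at h3
      rw [h3]; abel
    have hb : ‖lin A' (v j)‖ ≤ lam c * c.1.sz := by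
      rw [hd, pi_norm_le_iff_of_nonneg (mul_pos hE.lam0 hsz).le]
      intro k
      have q0 := p0 k
      have q1 := p1 k
      have hs : lam c * c.1.side k ≤ lam c * c.1.sz :=
        mul_le_mul_of_nonneg_left (Bx.side_le_sz _ k) hE.lam0.le
      have hs' : lam c * c.1.side k = lam c * c.1.hi k - lam c * c.1.lo k := by
        unfold Bx.side; ring
      rw [Pi.sub_apply, Real.norm_eq_abs, abs_le]
      constructor <;> linarith [q0.1, q0.2, q1.1, q1.2]
    calc (η ^ (1 / p)).toReal * ‖lin A' (v j)‖ ≤ κw * (lam c * c.1.sz) :=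
          mul_le_mul hηw hb (norm_nonneg _) hκw.le
      _ ≤ κw * c.1.sz := by
          refine mul_le_mul_of_nonneg_left ?_ hκw.le
          have := hE.lam1
          nlinarith

end good

end Crest.Agent.R096.Wd_120
end

-- ▼ part R096/Wd12_120
section

/-!
Row 96, exact cores (helper120), part 12: the format of 112's `Mok.words`; the clause `push` for the
foam `fX` of helper899.
-/

set_option autoImplicit false
set_option linter.unusedSectionVars false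

open Set Filter Topology Metric MeasureTheory
open scoped ENNReal

namespace Crest.Agent.R096.Wd_120

open Crest.Agent.R096.Bsp_628 Crest.Agent.R096.Brk1_582
open Crest.Agent.R096.Brk3_582 Crest.Agent.R096.Brk5_582
open Crest.Agent.R096.Msh_715
open Crest.Agent.R096.SkC1_961 (FoamD E3)
open Crest.Agent.R096.Mbf_337 (Words)
open Crest.Agent.R96.EaP_899 (XD fX fX_pu_mem)

/-- the clause `words` of `Pmc_112.Mok` -/
theorem words_mok {δ κ0 R c0 : ℝ} {La Om : Set E3} {Φ : FoamD δ κ0 R c0 La} {ι : Type}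
    {T : Tiling Om ι} {f : E3 → E3} {X : Set Φ.F} {ct : Φ.F → ι} {A : Φ.F → E3 ≃ᵃ[ℝ] E3}
    {lam : Φ.F → ℝ} {z : Φ.F → E3} {M : Φ.F → ℕ} {κb μ : ℝ} (hμ : 0 < μ)
    (h : ∃ Bad : Φ.F → Set ℝ, (∀ c', MeasurableSet (Bad c')) ∧
      (∀ c', volume (Bad c') ≤ ENNReal.ofReal κb) ∧
      ∀ L : Φ.F → Finset ℝ, (∀ c', ∀ t ∈ L c', t ∈ Ioo (0 : ℝ) 1 ∧ t ∉ Bad c') →
        Words Φ T f X ct A lam z M L) :
    ∃ Bad : Φ.F → Set ℝ, (∀ c, MeasurableSet (Bad c)) ∧
      (∀ c, volume (Bad c ∩ Icc 0 1) ≤ ENNReal.ofReal κb) ∧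
      ∀ L : Φ.F → Finset ℝ, (∀ c, ∀ t ∈ L c, μ ≤ t ∧ t ≤ 1 - μ) →
        (∀ c, ∀ t ∈ L c, t ∉ Bad c) → Words Φ T f X ct A lam z M L := by
  obtain ⟨Bad, h1, h2, h3⟩ := h
  refine ⟨Bad, h1, fun c => (measure_mono inter_subset_left).trans (h2 c), fun L hL hL' => ?_⟩
  exact h3 L fun c t ht => ⟨⟨hμ.trans_le (hL c t ht).1, by linarith [(hL c t ht).2]⟩, hL' c t ht⟩

/-- the clause `push` for `fX` -/
theorem push_fX {La : Set E3} {F : Set (Bx (Fin 3))} {δ κ0 R c0 : ℝ} (bf : BoxFoam La F δ κ0)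
    (cmp : Cmp F R) {X : Set F} {lam : F → ℝ} {z : F → E3} (H : XD bf c0 X lam z) {c : F}
    (hc : c ∈ X) :
    ∀ y ∈ Pc (fX bf cmp H).F c, 3 / 4 * lam c ≤ mu c.1 y → (fX bf cmp H).pu c y = rp c.1 y :=
  push_pus (Φ := fX bf cmp H) (bf.pos _ c.2) (H.pos hc) (H.hl1 c hc) (fX_pu_mem bf cmp H hc)

end Crest.Agent.R096.Wd_120
end

-- ▼ part R096/Wd13_120
section

/-!
Row 96, exact cores (helper120), part 13: general form of `words_cores` (closeness on the edges of the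
core tiles as a hypothesis of its own: EA0).
-/

set_option autoImplicit false
set_option linter.unusedSectionVars false

open Set Filter Topology Metric MeasureTheory
open scoped ENNReal

namespace Crest.Agent.R096.Wd_120

open Crest.Agent.R096.Bsp_628 Crest.Agent.R096.Bxs_627 Crest.Agent.R096.Brk1_582
open Crest.Agent.R096.Brk3_582 Crest.Agent.R096.Brk5_582 Crest.Agent.R096.Core_124
open Crest.Agent.R096.Msh_715 Crest.Agent.R096.Ls_222 Crest.Agent.R96.Sg1_199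
open Crest.Agent.R096.SkC1_961 (FoamD th)
open Crest.Agent.R096.Mbf_337 (sb Cores Exact Words)

/-- **the words of the exact cores of a mesh**, general form: `Cores` with any `κ1`; `f` is close to `A c`
on the edges of the core tiles (`hcl`), the increments of `f` along the edges. -/
theorem words_edge {δ κ0 R : ℝ} (hδ : 0 < δ) (hκ : 1 ≤ κ0) (hR : 1 ≤ R) {κb lam0 lam1 : ℝ}
    (hκb : 0 < κb) (hl0 : 0 < lam0) (hl1 : lam1 < 1) (Mx : ℕ) :
    ∃ κw : ℝ, 0 < κw ∧ ∀ (La Om : Set (Fin 3 → ℝ)), IsOpen La → ∀ (c0 : ℝ)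
      (Φ : FoamD δ κ0 R c0 La) (ι : Type) (T : Tiling Om ι) (f : (Fin 3 → ℝ) → Fin 3 → ℝ)
      (κ1 κ2 : ℝ) (X : Set Φ.F) (J0 J V : Φ.F → Set ι) (ct : Φ.F → ι)
      (A : Φ.F → (Fin 3 → ℝ) ≃ᵃ[ℝ] (Fin 3 → ℝ)) (lam : Φ.F → ℝ) (z : Φ.F → Fin 3 → ℝ)
      (θ : Φ.F → (Fin 3 → ℝ) → Fin 3 → ℝ) (φ : Φ.F → (Fin 3 → ℝ) → ℝ) (M : Φ.F → ℕ),
      Cores Φ T f κ1 κ2 X J0 J V ct A lam z θ φ →
      (∀ c ∈ X, z c = zz c.1 (lam c)) →
      (∀ c ∈ X, 0 < M c ∧ ∀ x ∈ P (T.H (ct c)), x ∉ I (T.H (ct c)) →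
        T.cc x = {y | y ∈ P (T.H (ct c)) ∧ ∀ a : Φ.F,
          (⌊M c * sb Φ (th (A c) (lam c) (z c) x) a⌋₊ : ℝ) ≤ M c * sb Φ (th (A c) (lam c) (z c) y) a ∧
          M c * sb Φ (th (A c) (lam c) (z c) y) a ≤ ⌈M c * sb Φ (th (A c) (lam c) (z c) x) a⌉₊} ∧
        T.dim x = {a : Φ.F | ⌊M c * sb Φ (th (A c) (lam c) (z c) x) a⌋₊ <
          ⌈M c * sb Φ (th (A c) (lam c) (z c) x) a⌉₊}.ncard) →
      (∀ c ∈ X, M c ≤ Mx) → (∀ c ∈ X, lam0 ≤ lam c ∧ lam c ≤ lam1) →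
      (∀ c ∈ X, ∀ y ∈ Pc Φ.F c, 3 / 4 * lam c ≤ mu c.1 y → Φ.pu c y = rp c.1 y) →
      (∀ c ∈ X, ∀ x ∈ P (T.H (ct c)), T.dim x ≤ 1 → ‖f x - A c x‖ ≤ κw * c.1.sz) →
      (∀ c ∈ X, ∀ e ∈ eIn T (ct c), ∃ (a v : Fin 3 → ℝ) (g : ℝ → ℝ) (y0 : Fin 3 → ℝ) (ε : ℝ),
        e.1 = sgm a v ∧ NearSeg (fun τ => f (a + τ • v)) g y0 ((A c).linear v) ε ∧
        ∫ τ in (0:ℝ)..1, g τ ≤ κw * c.1.sz) →
      ∃ Bad : Φ.F → Set ℝ, (∀ c', MeasurableSet (Bad c')) ∧
        (∀ c', volume (Bad c') ≤ ENNReal.ofReal κb) ∧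
        ∀ L : Φ.F → Finset ℝ, (∀ c', ∀ t ∈ L c', t ∈ Ioo (0 : ℝ) 1 ∧ t ∉ Bad c') →
          Words Φ T f X ct A lam z M L := by
  obtain ⟨κw, hκw, H⟩ := words_all hδ hκ hR hκb hl0 hl1 Mx
  refine ⟨κw, hκw, ?_⟩
  intro La Om hLa c0 Φ ι T f κ1 κ2 X J0 J V ct A lam z θ φ M hC hz hgrid hM hlam hpush hcl hed
  have hsz : ∀ c : Φ.F, 0 < c.1.sz := fun c => Bx.sz_pos (Φ.bf.pos _ c.2)
  have hEx : ∀ c ∈ X, Exact Φ T f κ1 κ2 c (ct c) (A c) (lam c) (z c) := hC.exact_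
  have hzX : ∀ c ∈ X, ∀ y : Fin 3 → ℝ, th (A c) (lam c) (zz c.1 (lam c)) y =
      th (A c) (lam c) (z c) y := fun c hc y => by rw [hz c hc]
  have hed' : ∀ c ∈ X, ∀ e ∈ eIn T (ct c), ∃ g : ℝ → ℝ,
      NearSeg (fun τ => f (ea e + τ • ev e)) g (A c (ea e)) (A c (ea e + ev e) - A c (ea e))
        (κw * c.1.sz) ∧ ∫ τ in (0:ℝ)..1, g τ ≤ κw * c.1.sz := by
    intro c hc e he
    obtain ⟨a, v, g, y0, ε, hav, hseg, hg⟩ := hed c hc e he
    have heP : e.1 ⊆ P (T.H (ct c)) := mem_eIn.1 he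
    obtain ⟨x, hxO, hd, hex⟩ := e.2
    -- closeness along the edge
    have hce : ∀ t ∈ Icc (0:ℝ) 1, ‖f (a + t • v) - A c (a + t • v)‖ ≤ κw * c.1.sz := by
      intro t ht
      have hm : a + t • v ∈ e.1 := by rw [hav]; exact ⟨t, ht, rfl⟩
      refine hcl c hc _ (heP hm) ?_
      have : a + t • v ∈ T.cc x := by rw [← hex]; exact hm
      have h1 := T.dim_le this
      omega
    have hA : ∀ t : ℝ, A c (a + t • v) = A c a + t • (A c).linear v := by
      intro t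
      have h1 := (A c).map_vadd a (t • v)
      rw [vadd_eq_add, vadd_eq_add, map_smul] at h1
      rw [add_comm a, h1]
      abel
    have hN : NearSeg (fun τ => f (a + τ • v)) g (A c a) ((A c).linear v) (κw * c.1.sz) :=
      nearSeg_close hseg fun t ht => by
        have := hce t ht
        rw [hA t] at this
        exact this
    rcases edg_sgm hav with ⟨h1, h2⟩ | ⟨h1, h2⟩
    · refine ⟨g, ?_, hg⟩
      have e1 : A c (ea e + ev e) - A c (ea e) = (A c).linear v := by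
        rw [h1, h2]
        have := hA 1
        rw [one_smul, one_smul] at this
        rw [this]; abel
      rw [e1, h1, h2]
      exact hN
    · refine ⟨fun t => g (1 - t), ?_, ?_⟩
      · have hR := nearSeg_rev hN
        have e0 : ea e = a + v := h1
        have e1 : A c (ea e + ev e) - A c (ea e) = -(A c).linear v := by
          rw [h1, h2]
          have := hA 1
          rw [one_smul, one_smul] at this
          rw [this, show a + v + -v = a by abel]; abel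
        have e2 : A c (ea e) = A c a + (A c).linear v := by
          rw [h1]
          have := hA 1
          rw [one_smul, one_smul] at this
          exact this
        have e3 : (fun τ : ℝ => f (ea e + τ • ev e)) = fun t => f (a + (1 - t) • v) := by
          funext t
          congr 1
          rw [h1, h2, sub_smul, one_smul, smul_neg]
          abel
        rw [e1, e2, e3]
        exact hR
      · rw [integral_rev]
        exact hg
  obtain ⟨Bad, hB1, hB2, hB3⟩ := H La Om hLa c0 Φ ι T f X ct A lam M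
    (fun c hc => by simp only [← hz c hc]; exact hgrid c hc) hM hlam hpush
    (fun c hc => by rw [← hz c hc]; exact (hEx c hc).tile)
    (fun c hc x hx hd => hcl c hc x hx (by omega)) hed'
  refine ⟨Bad, hB1, hB2, fun L hL => ?_⟩
  have hW := hB3 L hL
  refine ⟨fun c hc => hgrid c hc, ?_, ?_⟩
  · intro c hc
    have := hW.word c hc
    simp only [← hz c hc] at this
    exact this
  · intro c hc
    have := hW.sign c hc
    simp only [← hz c hc] at this
    exact this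

end Crest.Agent.R096.Wd_120
end

-- ▼ part R096/Wd14_120
section

/-!
Row 96, exact cores (helper120), part 14: the core tile of a block `Q` (874's `CB`) in a tiling:
`CoreAt T i Q`.  The grid clause of `Mbf_337.Words` from the grid clause of the shell in integer
coordinates (`GridS`), the edges of the core are rigid.
-/

set_option autoImplicit false
set_option linter.unusedSectionVars false

open Set Filter Topology Metric MeasureTheory
open scoped ENNReal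

namespace Crest.Agent.R096.Wd_120

open Crest.Agent.R096.Bsp_628 Crest.Agent.R096.Brk1_582
open Crest.Agent.R096.Brk3_582 Crest.Agent.R096.Brk5_582
open Crest.Agent.R096.Msh_715 Crest.Agent.R096.Ls_222 Crest.Agent.R96.Sg1_199
open Crest.Agent.R096.SkC1_961 (th)
open Crest.Agent.R096.Msh_810 (ps)
open Crest.Agent.R096.Mal_874 Crest.Agent.R096.Mcc_715

section core

variable {E : Type*} [NormedAddCommGroup E] [NormedSpace ℝ E] {n : ℕ}

/-- the integer coordinates of the block -/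
noncomputable abbrev uc (Q : CB E n) (y : E) : Fin n → ℝ := ps Q.a' Q.kc (Q.ψ y)

theorem uc_tr (Q : CB E n) (v y : E) : uc (Q.tr v) y = uc Q (y - v) := CB.ps_tr Q v y

theorem mem_Kc {Q : CB E n} {y : E} : y ∈ Q.Kc ↔ uc Q y ∈ Q.S.B0 := Iff.rfl

/-- the tile `i` of `T` is the core of the block `Q`, and the cells of `T` at the core are the cells of
the shell. -/
structure CoreAt {Om : Set E} {ι : Type*} (T : Tiling Om ι) (i : ι) (Q : CB E n) : Prop where
  tile : P (T.H i) = Q.Kc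
  cc : ∀ x ∈ Q.Kc, T.cc x = {y | uc Q y ∈ cell Q.S (uc Q x)}
  dim : ∀ x ∈ Q.Kc, T.dim x = Module.finrank ℝ (dirS Q.S (uc Q x))

variable {Om Om' : Set E} {ι ι' : Type*} {T : Tiling Om ι} {T' : Tiling Om' ι'} {i : ι} {i' : ι'}
  {Q : CB E n}

theorem strict_of_mem {Q : CB E n} {x : E} (hx : x ∈ Q.Kc) :
    ∀ l, (Q.S.lo l : ℝ) - Q.S.t < uc Q x l ∧ uc Q x l < Q.S.hi l + Q.S.t := by
  intro l
  have h := (mem_Kc.1 hx) l
  have ht := Q.S.t_pos
  exact ⟨by linarith [h.1], by linarith [h.2]⟩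

/-- another tiling with the same tile and the same cells at it -/
theorem CoreAt.congr (h : CoreAt T i Q) (hP : P (T'.H i') = P (T.H i))
    (hcc : ∀ x ∈ P (T.H i), T'.cc x = T.cc x) (hd : ∀ x ∈ P (T.H i), T'.dim x = T.dim x) :
    CoreAt T' i' Q where
  tile := hP.trans h.tile
  cc x hx := (hcc x (h.tile ▸ hx)).trans (h.cc x hx)
  dim x hx := (hd x (h.tile ▸ hx)).trans (h.dim x hx)

/-- the tiling of the block itself -/
theorem coreAt_T (Q : CB E n) (k : ℕ) (hk : Q.kc ≤ k) : CoreAt (Q.T k hk) (Q.cix k hk) Q := by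
  have key : ∀ x ∈ Q.Kc, x ∈ interior (Q.S.bp Q.ψ Q.a' Q.kc) := fun x hx =>
    mem_interior_bp Q.S Q.ψ Q.a' Q.kc (strict_of_mem hx)
  refine ⟨Q.P_core k hk, fun x hx => (T_in Q k hk (key x hx)).1, fun x hx => ?_⟩
  have h1 := (T_in Q k hk (key x hx)).2.2
  have h2 : (Q.T k hk).V x = (dirS Q.S (uc Q x)).comap
      (Q.ψ.toLinearEquiv : E →ₗ[ℝ] (Fin n → ℝ)) := by
    apply SetLike.coe_injective
    exact h1
  unfold Tiling.dim
  rw [h2]
  exact (Q.ψ.toLinearEquiv.ofSubmodule' _).finrank_eq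

/-- the aligned mesh -/
theorem coreAt_mesh {J : Type*} (M : MD E n J) [NeZero n] {k : J → ℕ} (hk : M.Sc k)
    (a : Fin n → ℝ) {v : J → E} (hv : M.Adm v) (j : J) :
    CoreAt (M.mesh hk a hv) (Sum.inr ⟨j, M.core hk a hv j⟩) (M.Bk v j) :=
  ⟨M.P_core hk a hv j, fun x hx => cc_mesh M hk a hv j (strict_of_mem hx),
    fun x hx => dim_mesh M hk a hv j (strict_of_mem hx)⟩

/-- a boundary point of the core has a coordinate on a wall -/
theorem CoreAt.wall [FiniteDimensional ℝ E] (h : CoreAt T i Q) {x : E} (hx : x ∈ P (T.H i))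
    (hn : x ∉ I (T.H i)) : ∃ l, uc Q x l = Q.S.lo l ∨ uc Q x l = Q.S.hi l := by
  by_contra hcon
  push Not at hcon
  apply hn
  refine mem_I_of_interior (T.ne i) ?_
  rw [h.tile] at hx ⊢
  have hop : IsOpen {y : E | ∀ l, (Q.S.lo l : ℝ) < uc Q y l ∧ uc Q y l < Q.S.hi l} := by
    have e : {y : E | ∀ l, (Q.S.lo l : ℝ) < uc Q y l ∧ uc Q y l < Q.S.hi l} =
        ⋂ l, {y | (Q.S.lo l : ℝ) < uc Q y l ∧ uc Q y l < Q.S.hi l} := by
      ext y; simp
    rw [e]
    refine isOpen_iInter_of_finite fun l => ?_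
    have hc : Continuous fun y : E => uc Q y l := (continuous_ps Q.a' Q.kc l).comp Q.ψ.continuous
    exact (isOpen_lt continuous_const hc).inter (isOpen_lt hc continuous_const)
  refine interior_maximal (fun y hy => mem_Kc.2 fun l => ⟨(hy l).1.le, (hy l).2.le⟩) hop ?_
  intro l
  have h1 := (mem_Kc.1 hx) l
  exact ⟨lt_of_le_of_ne h1.1 (Ne.symm (hcon l).1), lt_of_le_of_ne h1.2 (hcon l).2⟩

end core

section edge

variable {E : Type*} [NormedAddCommGroup E] [NormedSpace ℝ E] [FiniteDimensional ℝ E] {n : ℕ}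
  {Om Om' : Set E} {ι ι' : Type} {T : Tiling Om ι} {T' : Tiling Om' ι'} {i : ι} {i' : ι'}
  {Q : CB E n}

/-- **the edges of the core are rigid**: they are the translates of the edges of the core of any other
tiling with the same block (e.g. `Q.T k hk`). -/
theorem CoreAt.edge {v : E} (h : CoreAt T i (Q.tr v)) (h' : CoreAt T' i' Q) {e : Edg T}
    (he : e ∈ eIn T i) : ∃ e' ∈ eIn T' i', e.1 = sgm (ea e' + v) (ev e') := by
  obtain ⟨x, hxO, hd, hex⟩ := e.2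
  have heP := mem_eIn.1 he
  have hxP : x ∈ P (T.H i) := heP (by rw [hex]; exact T.self_mem_cc x)
  have hxK : x ∈ (Q.tr v).Kc := h.tile ▸ hxP
  have hxK' : x - v ∈ Q.Kc := (Q.mem_Kc_tr v x).1 hxK
  have hxP' : x - v ∈ P (T'.H i') := h'.tile.symm ▸ hxK'
  have hd' : T'.dim (x - v) = 1 := by
    rw [h'.dim _ hxK', ← hd, h.dim _ hxK, uc_tr]
    rfl
  let e' : Edg T' := ⟨T'.cc (x - v), x - v, T'.sub _ hxP', hd', rfl⟩
  refine ⟨e', mem_eIn.2 (T'.cc_sub_tile hxP'), ?_⟩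
  have h1 : e.1 = {y | y - v ∈ e'.1} := by
    rw [hex, h.cc _ hxK]
    ext y
    show uc (Q.tr v) y ∈ cell (Q.tr v).S (uc (Q.tr v) x) ↔ y - v ∈ T'.cc (x - v)
    rw [h'.cc _ hxK', uc_tr, uc_tr]
    exact Iff.rfl
  rw [h1, ← sgm_edg e']
  ext y
  constructor
  · rintro ⟨τ, hτ, hy⟩
    refine ⟨τ, hτ, ?_⟩
    have hy' : ea e' + τ • ev e' = y - v := hy
    show ea e' + v + τ • ev e' = y
    rw [add_right_comm, hy']
    abel
  · rintro ⟨τ, hτ, rfl⟩
    refine ⟨τ, hτ, ?_⟩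
    show ea e' + τ • ev e' = ea e' + v + τ • ev e' - v
    abel

end edge

section grid

/-- the grid clause of the shell in integer coordinates: `pt` = the affine map onto the brick -/
def GridS (F : Set (Bx (Fin 3))) (S : PS 3) (pt : (Fin 3 → ℝ) → Fin 3 → ℝ) (M : ℕ) : Prop :=
  ∀ u ∈ S.B0, (∃ l, u l = S.lo l ∨ u l = S.hi l) →
    cell S u = {v | v ∈ S.B0 ∧ ∀ a : F,
      (⌊M * sc (Pc F) (bc (F := F)) (pt u) a⌋₊ : ℝ) ≤ M * sc (Pc F) (bc (F := F)) (pt v) a ∧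
      M * sc (Pc F) (bc (F := F)) (pt v) a ≤ ⌈M * sc (Pc F) (bc (F := F)) (pt u) a⌉₊} ∧
    Module.finrank ℝ (dirS S u) = {a : F | ⌊M * sc (Pc F) (bc (F := F)) (pt u) a⌋₊ <
      ⌈M * sc (Pc F) (bc (F := F)) (pt u) a⌉₊}.ncard

variable {Om : Set (Fin 3 → ℝ)} {ι : Type} {T : Tiling Om ι} {i : ι} {Q : CB (Fin 3 → ℝ) 3}

/-- **the clause `grid` at a core tile** -/
theorem CoreAt.grid (h : CoreAt T i Q) {F : Set (Bx (Fin 3))} {pt : (Fin 3 → ℝ) → Fin 3 → ℝ}
    {M : ℕ} (hS : GridS F Q.S pt M) {A : (Fin 3 → ℝ) ≃ᵃ[ℝ] (Fin 3 → ℝ)} {lam : ℝ}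
    {z : Fin 3 → ℝ} (hth : ∀ y, th A lam z y = pt (uc Q y)) :
    ∀ x ∈ P (T.H i), x ∉ I (T.H i) →
      T.cc x = {y | y ∈ P (T.H i) ∧ ∀ a : F,
        (⌊M * sc (Pc F) (bc (F := F)) (th A lam z x) a⌋₊ : ℝ) ≤
          M * sc (Pc F) (bc (F := F)) (th A lam z y) a ∧
        M * sc (Pc F) (bc (F := F)) (th A lam z y) a ≤
          ⌈M * sc (Pc F) (bc (F := F)) (th A lam z x) a⌉₊} ∧
      T.dim x = {a : F | ⌊M * sc (Pc F) (bc (F := F)) (th A lam z x) a⌋₊ <
        ⌈M * sc (Pc F) (bc (F := F)) (th A lam z x) a⌉₊}.ncard := by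
  intro x hx hn
  have hw := h.wall hx hn
  have hxK : x ∈ Q.Kc := h.tile ▸ hx
  obtain ⟨h1, h2⟩ := hS (uc Q x) (mem_Kc.1 hxK) hw
  refine ⟨?_, ?_⟩
  · rw [h.cc x hxK, h1]
    ext y
    simp only [mem_ofPred_eq, h.tile, hth]
    exact Iff.rfl
  · rw [h.dim x hxK, h2]
    simp only [hth]

end grid

end Crest.Agent.R096.Wd_120
end

-- ▼ part R096/Wd15_120
section

/-!
Row 96, exact cores (helper120), part 15: transfer of the grid clause between a tiling and the tiling of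
the block (`CoreAt.grid_tr`), `CoreAt` from the configuration of the tile, edges at the points of the
1-skeleton of a tile.
-/

set_option autoImplicit false
set_option linter.unusedSectionVars false

open Set Filter Topology Metric MeasureTheory
open scoped ENNReal

namespace Crest.Agent.R096.Wd_120

open Crest.Agent.R096.Bsp_628 Crest.Agent.R096.Brk1_582
open Crest.Agent.R096.Brk3_582 Crest.Agent.R096.Brk5_582
open Crest.Agent.R096.Msh_715 Crest.Agent.R096.Ls_222 Crest.Agent.R96.Sg1_199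
open Crest.Agent.R096.SkC1_961 (th Cfg)
open Crest.Agent.R096.Msh_810 (ps)
open Crest.Agent.R096.Mal_874 Crest.Agent.R096.Mcc_715

section gen

variable {E : Type*} [NormedAddCommGroup E] [NormedSpace ℝ E] [FiniteDimensional ℝ E]
  {Om : Set E} {ι : Type*} {T : Tiling Om ι} {i : ι}

theorem dim_of_mem_I {x : E} (hx : x ∈ I (T.H i)) : T.dim x = Module.finrank ℝ E := by
  have hV := (T.V_eq_top_iff (T.sub i (I_sub_P _ hx))).2 ⟨i, hx⟩
  unfold Tiling.dim
  rw [hV, finrank_top]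


end gen

section vertex

variable {E : Type*} [NormedAddCommGroup E] [NormedSpace ℝ E] [FiniteDimensional ℝ E]
  {Om : Set E} {ι : Type} {T : Tiling Om ι} {i : ι}

/-- every point of the 1-skeleton of a tile lies on an edge of the tile -/
theorem edge_of_sk1 (h1 : 1 ≤ Module.finrank ℝ E) {x : E} (hx : x ∈ P (T.H i))
    (hd : T.dim x ≤ 1) : ∃ e ∈ eIn T i, x ∈ e.1 := by
  rcases Nat.eq_zero_or_pos (T.dim x) with h0 | h0
  · obtain ⟨y, hy⟩ := T.ne i
    have hyO := T.sub i (I_sub_P _ hy)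
    have hcc := T.cc_eq_tile hy
    have hdy : 1 ≤ T.dim y := by rw [dim_of_mem_I hy]; exact h1
    obtain ⟨e, he, hde, hxe⟩ := Mf_113.exists_edge_of_vertex h0 hyO (by rw [hcc]; exact hx) hdy
    rw [hcc] at he
    exact ⟨⟨T.cc e, e, T.sub i he, hde, rfl⟩, mem_eIn.2 (T.cc_sub_tile he), hxe⟩
  · exact ⟨⟨T.cc x, x, T.sub i hx, by omega, rfl⟩, mem_eIn.2 (T.cc_sub_tile hx), T.self_mem_cc x⟩

end vertex

section core

variable {E : Type*} [NormedAddCommGroup E] [NormedSpace ℝ E] [FiniteDimensional ℝ E] {n : ℕ}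
  {Om : Set E} {ι : Type*} {T : Tiling Om ι} {i : ι} {Q : CB E n}

/-- a point with a coordinate on a wall is a boundary point of the core -/
theorem CoreAt.not_mem (h : CoreAt T i Q) {x : E} (hx : x ∈ Q.Kc)
    (hw : ∃ l, uc Q x l = Q.S.lo l ∨ uc Q x l = Q.S.hi l) : x ∉ I (T.H i) := by
  intro hI
  have hd := dim_of_mem_I hI
  rw [h.dim x hx, LinearEquiv.finrank_eq Q.ψ.toLinearEquiv] at hd
  have htop : dirS Q.S (uc Q x) = ⊤ := Submodule.eq_top_of_finrank_eq hd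
  obtain ⟨l, hl⟩ := hw
  have hm : (Pi.single l 1 : Fin n → ℝ) ∈ dirS Q.S (uc Q x) := by rw [htop]; trivial
  have h1 := ((mem_dirS_box (mem_Kc.1 hx)).1 hm).1 l
  rcases hl with hl | hl
  · have := h1.2 hl
    simp at this
  · have := h1.1 hl
    simp at this

end core

section tr

variable {Om Om' : Set (Fin 3 → ℝ)} {ι ι' : Type} {T : Tiling Om ι} {T' : Tiling Om' ι'} {i : ι}
  {i' : ι'} {Q : CB (Fin 3 → ℝ) 3}

/-- `CoreAt` depends only on the tile and its configuration -/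
theorem CoreAt.congr_cfg (h : CoreAt T i Q) (hP : P (T'.H i') = P (T.H i))
    (hC : Cfg T' i' = Cfg T i) : CoreAt T' i' Q := by
  have hcc : ∀ x ∈ P (T.H i), T'.cc x = T.cc x := by
    intro x hx
    have hx' : x ∈ P (T'.H i') := hP ▸ hx
    have h1 : T'.cc x ∈ Cfg T i := hC ▸ ⟨x, hx', rfl⟩
    have h2 : T.cc x ∈ Cfg T' i' := hC.symm ▸ ⟨x, hx, rfl⟩
    obtain ⟨y, hy, e1⟩ := h1
    obtain ⟨z, hz, e2⟩ := h2
    apply Subset.antisymm
    · have : x ∈ T'.cc z := by rw [← e2]; exact T.self_mem_cc x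
      rw [e2]
      exact T'.cc_sub_of_mem this
    · have : x ∈ T.cc y := by rw [← e1]; exact T'.self_mem_cc x
      rw [e1]
      exact T.cc_sub_of_mem this
  exact h.congr hP hcc fun x hx =>
    Mfa_880.dim_eq_of_cc (T.sub i hx) (T'.sub i' (hP ▸ hx)) (hcc x hx)

/-- **transfer of the grid clause** from the tiling of the block to the translated core of the mesh -/
theorem CoreAt.grid_tr {v : Fin 3 → ℝ} (h : CoreAt T i (Q.tr v)) (h' : CoreAt T' i' Q)
    {F : Set (Bx (Fin 3))} {A A0 : (Fin 3 → ℝ) ≃ᵃ[ℝ] (Fin 3 → ℝ)} {lam : ℝ} {z : Fin 3 → ℝ} {M : ℕ}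
    (hA : ∀ y, A y = A0 (y - v))
    (hg : ∀ x ∈ Q.Kc, x ∉ I (T'.H i') →
      T'.cc x = {y | y ∈ Q.Kc ∧ ∀ a : F,
        (⌊M * sc (Pc F) (bc (F := F)) (th A0 lam z x) a⌋₊ : ℝ) ≤
          M * sc (Pc F) (bc (F := F)) (th A0 lam z y) a ∧
        M * sc (Pc F) (bc (F := F)) (th A0 lam z y) a ≤
          ⌈M * sc (Pc F) (bc (F := F)) (th A0 lam z x) a⌉₊} ∧
      T'.dim x = {a : F | ⌊M * sc (Pc F) (bc (F := F)) (th A0 lam z x) a⌋₊ <
        ⌈M * sc (Pc F) (bc (F := F)) (th A0 lam z x) a⌉₊}.ncard) :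
    ∀ x ∈ P (T.H i), x ∉ I (T.H i) →
      T.cc x = {y | y ∈ P (T.H i) ∧ ∀ a : F,
        (⌊M * sc (Pc F) (bc (F := F)) (th A lam z x) a⌋₊ : ℝ) ≤
          M * sc (Pc F) (bc (F := F)) (th A lam z y) a ∧
        M * sc (Pc F) (bc (F := F)) (th A lam z y) a ≤
          ⌈M * sc (Pc F) (bc (F := F)) (th A lam z x) a⌉₊} ∧
      T.dim x = {a : F | ⌊M * sc (Pc F) (bc (F := F)) (th A lam z x) a⌋₊ <
        ⌈M * sc (Pc F) (bc (F := F)) (th A lam z x) a⌉₊}.ncard := by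
  intro x hx hn
  have hth : ∀ y, th A lam z y = th A0 lam z (y - v) := fun y => by
    unfold th
    rw [hA]
  have hxK : x ∈ (Q.tr v).Kc := h.tile ▸ hx
  have hxK' : x - v ∈ Q.Kc := (Q.mem_Kc_tr v x).1 hxK
  have hw : ∃ l, uc Q (x - v) l = Q.S.lo l ∨ uc Q (x - v) l = Q.S.hi l := by
    obtain ⟨l, hl⟩ := h.wall hx hn
    rw [uc_tr] at hl
    exact ⟨l, hl⟩
  obtain ⟨g1, g2⟩ := hg (x - v) hxK' (h'.not_mem hxK' hw)
  refine ⟨?_, ?_⟩
  · have e1 : T.cc x = {y | y - v ∈ T'.cc (x - v)} := by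
      rw [h.cc _ hxK, h'.cc _ hxK']
      ext y
      show uc (Q.tr v) y ∈ cell (Q.tr v).S (uc (Q.tr v) x) ↔
        uc Q (y - v) ∈ cell Q.S (uc Q (x - v))
      rw [uc_tr, uc_tr]
      exact Iff.rfl
    rw [e1, g1]
    ext y
    simp only [mem_ofPred_eq, h.tile, hth]
    rw [Q.mem_Kc_tr v y]
  · have e2 : T.dim x = T'.dim (x - v) := by
      rw [h.dim _ hxK, h'.dim _ hxK', uc_tr]
      rfl
    rw [e2, g2]
    simp only [hth]

end tr

end Crest.Agent.R096.Wd_120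
end

-- ▼ part R096/Cns1_976
section

/-!
Row 96 (S0127), helper976.  WORDS, leaf (N) of helper124: `NearSeg` (a curve close to an affine one, with
integrable defect of its increments) for `f` on a segment on which its coordinates are absolutely
continuous (`ACLat`).  The defect is the line integral of `|∂_v f - A v|`.
-/

set_option autoImplicit false
set_option linter.unusedSectionVars false

open MeasureTheory Set Filter
open scoped Topology ENNReal

namespace Crest.Agent.R096.Cns_976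

open Crest.Agent.R096.Core_124 Crest.Agent.R96.Acl_392 Crest.Agent.R96.Sob2_199
  Crest.Agent.R96.Sob3_199 Crest.Agent.R96.Sg1_199 Crest.Agent.R96.Sg5_199

noncomputable section

variable {E : Type*} [NormedAddCommGroup E] [NormedSpace ℝ E] [FiniteDimensional ℝ E]
  [MeasurableSpace E] [BorelSpace E] {ι : Type*} [Fintype ι]

/-- the defect of the direction derivative `D` from the constant vector `u` -/
def dfc (D : E → ι → ℝ) (u : ι → ℝ) (y : E) : ℝ := ∑ k, |D y k - u k|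

theorem dfc_nonneg (D : E → ι → ℝ) (u : ι → ℝ) (y : E) : 0 ≤ dfc D u y :=
  Finset.sum_nonneg fun _ _ => abs_nonneg _

theorem seg_mem {Om : Set E} {y0 v : E} (hsub : sgm y0 v ⊆ Om) {s t : ℝ} (hs : 0 ≤ s)
    (ht : t ≤ 1) : y0 ∈ segIn Om v s t := fun τ hτ =>
  hsub ⟨τ, ⟨hs.trans hτ.1, hτ.2.trans ht⟩, rfl⟩

theorem intOn_dfc {Om : Set E} {f D : E → ι → ℝ} {y0 v : E} {u : ι → ℝ} (hsub : sgm y0 v ⊆ Om)
    (h : ∀ k, ACLat Om (fun y => f y k) (fun y => D y k) v y0) :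
    IntegrableOn (fun τ : ℝ => dfc D u (y0 + τ • v)) (Icc 0 1) := by
  unfold dfc
  refine integrable_finsetSum _ fun k _ => ?_
  have h1 := (h k 0 1 zero_le_one (seg_mem hsub le_rfl le_rfl)).1
  have h2 : IntegrableOn (fun τ : ℝ => D (y0 + τ • v) k - u k) (Icc 0 1) :=
    Integrable.sub h1 (integrable_const _)
  exact Integrable.abs h2

theorem intervalIntegrable_dfc {Om : Set E} {f D : E → ι → ℝ} {y0 v : E} {u : ι → ℝ}
    (hsub : sgm y0 v ⊆ Om) (h : ∀ k, ACLat Om (fun y => f y k) (fun y => D y k) v y0) {s t : ℝ}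
    (hs : 0 ≤ s) (hst : s ≤ t) (ht : t ≤ 1) :
    IntervalIntegrable (fun τ : ℝ => dfc D u (y0 + τ • v)) volume s t := by
  rw [intervalIntegrable_iff_integrableOn_Icc_of_le hst]
  exact (intOn_dfc hsub h).mono_set (Icc_subset_Icc hs ht)

/-- **(N)**: `NearSeg` from absolute continuity of the coordinates on the segment. -/
theorem nearSeg_of_acl {Om : Set E} {f D : E → ι → ℝ} {y0 v : E} {a0 u : ι → ℝ} {ε : ℝ}
    (hsub : sgm y0 v ⊆ Om) (hfc : ContinuousOn f Om)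
    (h : ∀ k, ACLat Om (fun y => f y k) (fun y => D y k) v y0)
    (hcl : ∀ t ∈ Icc (0:ℝ) 1, ‖f (y0 + t • v) - (a0 + t • u)‖ ≤ ε) :
    NearSeg (fun τ : ℝ => f (y0 + τ • v)) (fun τ => dfc D u (y0 + τ • v)) a0 u ε where
  cont := by
    refine hfc.comp (by fun_prop) fun τ hτ => hsub ⟨τ, hτ, rfl⟩
  int := intervalIntegrable_dfc hsub h le_rfl zero_le_one le_rfl
  nonneg := fun t _ => dfc_nonneg D u _
  inc := by
    intro s hs t ht hst
    have hI := intervalIntegrable_dfc (u := u) hsub h hs.1 hst ht.2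
    have h0 : 0 ≤ ∫ τ in s..t, dfc D u (y0 + τ • v) :=
      intervalIntegral.integral_nonneg hst fun τ _ => dfc_nonneg D u _
    rw [pi_norm_le_iff_of_nonneg h0]
    intro k
    obtain ⟨h1, h2⟩ := h k s t hst (seg_mem hsub hs.1 ht.2)
    have h1' : IntervalIntegrable (fun τ : ℝ => D (y0 + τ • v) k) volume s t :=
      (intervalIntegrable_iff_integrableOn_Icc_of_le hst).2 h1
    have e : (f (y0 + t • v) - f (y0 + s • v) - (t - s) • u) k =
        ∫ τ in s..t, (D (y0 + τ • v) k - u k) := by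
      rw [intervalIntegral.integral_sub h1' intervalIntegrable_const, ← h2,
        intervalIntegral.integral_const]
      rfl
    rw [e]
    refine (intervalIntegral.norm_integral_le_integral_norm hst).trans ?_
    refine intervalIntegral.integral_mono_on hst (h1'.sub intervalIntegrable_const).norm hI
      fun τ _ => ?_
    rw [Real.norm_eq_abs]
    exact Finset.single_le_sum (f := fun k => |D (y0 + τ • v) k - u k|)
      (fun _ _ => abs_nonneg _) (Finset.mem_univ k)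
  close := hcl

/-- the defect in terms of the line integrals of the `k`-th coordinates -/
theorem integral_dfc_eq {Om : Set E} {f D : E → ι → ℝ} {y0 v : E} {u : ι → ℝ}
    (hsub : sgm y0 v ⊆ Om) (h : ∀ k, ACLat Om (fun y => f y k) (fun y => D y k) v y0) :
    ∫ τ in (0:ℝ)..1, dfc D u (y0 + τ • v) = (∑ k, li (fun y => ‖D y k - u k‖ₑ) y0 v).toReal := by
  have h1 : ∀ k, IntegrableOn (fun τ : ℝ => |D (y0 + τ • v) k - u k|) (Icc 0 1) := by
    intro k
    have h1 := (h k 0 1 zero_le_one (seg_mem hsub le_rfl le_rfl)).1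
    have h2 : IntegrableOn (fun τ : ℝ => D (y0 + τ • v) k - u k) (Icc 0 1) :=
      Integrable.sub h1 (integrable_const _)
    exact Integrable.abs h2
  have h3 : ∀ k, li (fun y => ‖D y k - u k‖ₑ) y0 v =
      ENNReal.ofReal (∫ τ in Icc (0:ℝ) 1, |D (y0 + τ • v) k - u k|) := by
    intro k
    rw [ofReal_integral_eq_lintegral_ofReal (h1 k) (Eventually.of_forall fun _ => abs_nonneg _)]
    unfold li
    refine lintegral_congr fun τ => ?_
    show ‖D (y0 + τ • v) k - u k‖ₑ = _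
    rw [← ofReal_norm, Real.norm_eq_abs]
  rw [ENNReal.toReal_sum fun k _ => by rw [h3 k]; exact ENNReal.ofReal_ne_top]
  rw [intervalIntegral.integral_of_le zero_le_one, ← integral_Icc_eq_integral_Ioc]
  unfold dfc
  rw [integral_finsetSum _ fun k _ => h1 k]
  refine Finset.sum_congr rfl fun k _ => ?_
  rw [h3 k, ENNReal.toReal_ofReal (integral_nonneg fun _ => abs_nonneg _)]






end

end Crest.Agent.R096.Cns_976
end

-- ▼ part R096/Wd16_120

/-!
Row 96, exact cores (helper120), part 16: **the words of the exact cores of a mesh whose core tiles are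
the cores of 874's blocks** (`CoreAt`): `words_blk_good` (EaX, `GoodW` of helper365 at the total shift) and
`words_blk_in` (EA0: `Blk`, `InS` of helper961).
-/

set_option autoImplicit false
set_option linter.unusedSectionVars false
set_option linter.style.longLine false

open Set Filter Topology Metric MeasureTheory
open scoped ENNReal

namespace Crest.Agent.R096.Wd_120

open Crest.Agent.R096.Bsp_628 Crest.Agent.R096.Bxs_627 Crest.Agent.R096.Brk1_582
open Crest.Agent.R096.Brk3_582 Crest.Agent.R096.Brk5_582 Crest.Agent.R096.Core_124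
open Crest.Agent.R096.Msh_715 Crest.Agent.R096.Ls_222 Crest.Agent.R96.Sg1_199
open Crest.Agent.R096.SkC1_961 (FoamD th)
open Crest.Agent.R096.Mbf_337 (sb Cores Exact Words)
open Crest.Agent.R096.EaX_766 (lin)
open Crest.Agent.R096.Exa_365 (GoodW)
open Crest.Agent.R096.Mal_874 (CB)
open Crest.Agent.R96.Acl_392 (ACLat)

/-- **words of the exact cores, `GoodW` form** (EaX, NO0): the core tiles are the cores of the blocks
`Q c` translated by `w c`. -/
theorem words_blk_good {δ κ0 R : ℝ} (hδ : 0 < δ) (hκ : 1 ≤ κ0) (hR : 1 ≤ R) {κb lam0 lam1 : ℝ}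
    (hκb : 0 < κb) (hl0 : 0 < lam0) (hl1 : lam1 < 1) (Mx : ℕ) :
    ∃ κw : ℝ, 0 < κw ∧ ∀ (La Om : Set (Fin 3 → ℝ)), IsOpen La → ∀ (c0 : ℝ)
      (Φ : FoamD δ κ0 R c0 La) (ι : Type) (T : Tiling Om ι) (f : (Fin 3 → ℝ) → Fin 3 → ℝ)
      (p : ℝ), 1 ≤ p → ContinuousOn f Om → ∀ (D : (Fin 3 → ℝ) → (Fin 3 → ℝ) →L[ℝ] (Fin 3 → ℝ))
      (κ1 κ2 : ℝ), κ1 ≤ κw → 0 ≤ κ2 → ∀ (X : Set Φ.F) (J0 J V : Φ.F → Set ι) (ct : Φ.F → ι)
      (A : Φ.F → (Fin 3 → ℝ) ≃ᵃ[ℝ] (Fin 3 → ℝ)) (lam : Φ.F → ℝ) (z : Φ.F → Fin 3 → ℝ)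
      (θ : Φ.F → (Fin 3 → ℝ) → Fin 3 → ℝ) (φ : Φ.F → (Fin 3 → ℝ) → ℝ) (M : Φ.F → ℕ)
      (Q : Φ.F → CB (Fin 3 → ℝ) 3) (k0 : Φ.F → ℕ) (hk : ∀ c, (Q c).kc ≤ k0 c)
      (A0 : Φ.F → (Fin 3 → ℝ) ≃ᵃ[ℝ] (Fin 3 → ℝ)) (w : Φ.F → Fin 3 → ℝ) (η : ℝ≥0∞),
      Cores Φ T f κ1 κ2 X J0 J V ct A lam z θ φ →
      (∀ c ∈ X, z c = zz c.1 (lam c)) →
      (∀ c ∈ X, CoreAt T (ct c) ((Q c).tr (w c))) →
      (∀ c ∈ X, ∀ y, A c y = A0 c (y - w c)) →
      (∀ c ∈ X, 0 < M c ∧ ∀ x ∈ (Q c).Kc, x ∉ I (((Q c).T (k0 c) (hk c)).H ((Q c).cix (k0 c) (hk c))) →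
        ((Q c).T (k0 c) (hk c)).cc x = {y | y ∈ (Q c).Kc ∧ ∀ a : Φ.F,
          (⌊M c * sb Φ (th (A0 c) (lam c) (z c) x) a⌋₊ : ℝ) ≤ M c * sb Φ (th (A0 c) (lam c) (z c) y) a ∧
          M c * sb Φ (th (A0 c) (lam c) (z c) y) a ≤ ⌈M c * sb Φ (th (A0 c) (lam c) (z c) x) a⌉₊} ∧
        ((Q c).T (k0 c) (hk c)).dim x = {a : Φ.F | ⌊M c * sb Φ (th (A0 c) (lam c) (z c) x) a⌋₊ <
          ⌈M c * sb Φ (th (A0 c) (lam c) (z c) x) a⌉₊}.ncard) →
      (∀ c ∈ X, M c ≤ Mx) → (∀ c ∈ X, lam0 ≤ lam c ∧ lam c ≤ lam1) →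
      (∀ c ∈ X, ∀ y ∈ Pc Φ.F c, 3 / 4 * lam c ≤ mu c.1 y → Φ.pu c y = rp c.1 y) →
      η ≠ ∞ → (η ^ (1 / p)).toReal ≤ κw →
      (∀ c ∈ X, GoodW p Om f D (A0 c)
        (fun e : {e // e ∈ eIn ((Q c).T (k0 c) (hk c)) ((Q c).cix (k0 c) (hk c))} => ea e.1)
        (fun e => ev e.1) η (w c)) →
      ∃ Bad : Φ.F → Set ℝ, (∀ c', MeasurableSet (Bad c')) ∧
        (∀ c', volume (Bad c') ≤ ENNReal.ofReal κb) ∧
        ∀ L : Φ.F → Finset ℝ, (∀ c', ∀ t ∈ L c', t ∈ Ioo (0 : ℝ) 1 ∧ t ∉ Bad c') →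
          Words Φ T f X ct A lam z M L := by
  obtain ⟨κw, hκw, H⟩ := words_good hδ hκ hR hκb hl0 hl1 Mx
  refine ⟨κw, hκw, ?_⟩
  intro La Om hLa c0 Φ ι T f p hp hf D κ1 κ2 hκ1 hκ2 X J0 J V ct A lam z θ φ M Q k0 hk A0 w η hC hz
    hcore hA hgrid hM hlam hpush hη hηw hgood
  have hlinA : ∀ c ∈ X, ∀ y, (A c).linear y = (A0 c).linear y := by
    intro c hc y
    have h1 := (A c).map_vadd 0 y
    have h2 := (A0 c).map_vadd (0 - w c) y
    rw [vadd_eq_add, vadd_eq_add] at h1 h2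
    rw [hA c hc, hA c hc, show y + 0 - w c = y + (0 - w c) by abel, h2] at h1
    exact (add_right_cancel h1).symm
  refine H La Om hLa c0 Φ ι T f p hp hf D κ1 κ2 hκ1 hκ2 X J0 J V ct A lam z θ φ M hC hz ?_ hM hlam
    hpush ?_
  · intro c hc
    exact ⟨(hgrid c hc).1, (hcore c hc).grid_tr (coreAt_T (Q c) (k0 c) (hk c)) (hA c hc)
      (hgrid c hc).2⟩
  · intro c hc
    refine ⟨{e // e ∈ eIn ((Q c).T (k0 c) (hk c)) ((Q c).cix (k0 c) (hk c))}, A0 c, _, _, η, w c,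
      hgood c hc, hη, hηw, hlinA c hc, fun e he => ?_⟩
    obtain ⟨e', he', h1⟩ := (hcore c hc).edge (coreAt_T (Q c) (k0 c) (hk c)) he
    exact ⟨⟨e', he'⟩, h1⟩

/-- **words of the exact cores, EA0 form**: `gam` and (2a) of `InS`, `thin` and `lin_eq` of `Blk`. -/
theorem words_blk_in {δ κ0 R : ℝ} (hδ : 0 < δ) (hκ : 1 ≤ κ0) (hR : 1 ≤ R) {κb lam0 lam1 : ℝ}
    (hκb : 0 < κb) (hl0 : 0 < lam0) (hl1 : lam1 < 1) (Mx : ℕ) :
    ∃ κw : ℝ, 0 < κw ∧ ∀ (La Om : Set (Fin 3 → ℝ)), IsOpen La → ∀ (c0 : ℝ)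
      (Φ : FoamD δ κ0 R c0 La) (ι : Type) (T : Tiling Om ι) (f : (Fin 3 → ℝ) → Fin 3 → ℝ),
      ContinuousOn f Om → ∀ (D : (Fin 3 → ℝ) → (Fin 3 → ℝ) →L[ℝ] (Fin 3 → ℝ))
      (u κ1 κ2 κv κt : ℝ), 0 ≤ u → 0 ≤ κv → κv ≤ κw → κt ≤ κw →
      ∀ (X : Set Φ.F) (J0 J V : Φ.F → Set ι) (ct : Φ.F → ι)
      (A : Φ.F → (Fin 3 → ℝ) ≃ᵃ[ℝ] (Fin 3 → ℝ)) (lam : Φ.F → ℝ) (z : Φ.F → Fin 3 → ℝ)
      (θ : Φ.F → (Fin 3 → ℝ) → Fin 3 → ℝ) (φ : Φ.F → (Fin 3 → ℝ) → ℝ) (M : Φ.F → ℕ)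
      (Q : Φ.F → CB (Fin 3 → ℝ) 3) (k0 : Φ.F → ℕ) (hk : ∀ c, (Q c).kc ≤ k0 c)
      (A0 : Φ.F → (Fin 3 → ℝ) ≃ᵃ[ℝ] (Fin 3 → ℝ)) (w : Φ.F → Fin 3 → ℝ),
      Cores Φ T f κ1 κ2 X J0 J V ct A lam z θ φ →
      (∀ c ∈ X, z c = zz c.1 (lam c)) →
      (∀ c ∈ X, CoreAt T (ct c) ((Q c).tr (w c))) →
      (∀ c ∈ X, ∀ y, A c y = A0 c (y - w c)) →
      (∀ c ∈ X, 0 < M c ∧ ∀ x ∈ (Q c).Kc, x ∉ I (((Q c).T (k0 c) (hk c)).H ((Q c).cix (k0 c) (hk c))) →
        ((Q c).T (k0 c) (hk c)).cc x = {y | y ∈ (Q c).Kc ∧ ∀ a : Φ.F,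
          (⌊M c * sb Φ (th (A0 c) (lam c) (z c) x) a⌋₊ : ℝ) ≤ M c * sb Φ (th (A0 c) (lam c) (z c) y) a ∧
          M c * sb Φ (th (A0 c) (lam c) (z c) y) a ≤ ⌈M c * sb Φ (th (A0 c) (lam c) (z c) x) a⌉₊} ∧
        ((Q c).T (k0 c) (hk c)).dim x = {a : Φ.F | ⌊M c * sb Φ (th (A0 c) (lam c) (z c) x) a⌋₊ <
          ⌈M c * sb Φ (th (A0 c) (lam c) (z c) x) a⌉₊}.ncard) →
      (∀ c ∈ X, M c ≤ Mx) → (∀ c ∈ X, lam0 ≤ lam c ∧ lam c ≤ lam1) →
      (∀ c ∈ X, ∀ y ∈ Pc Φ.F c, 3 / 4 * lam c ≤ mu c.1 y → Φ.pu c y = rp c.1 y) →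
      (∀ c ∈ X, ∀ x, (A0 c).linear x = u • (Q c).ψ x) →
      (∀ c ∈ X, ‖(Q c).ψ (w c)‖ ≤ 1 / (10 * 2 ^ k0 c)) →
      (∀ c ∈ X, u / 2 ^ k0 c ≤ κt * (lam c * c.1.sz) / M c) →
      (∀ c ∈ X, ∀ x ∈ (Q c).Kc, ((Q c).T (k0 c) (hk c)).dim x = 1 →
        ∀ y ∈ ((Q c).T (k0 c) (hk c)).cc x,
          ‖f (y + w c) - A0 c (y + w c)‖ ≤ κv * (lam c * c.1.sz) / M c) →
      (∀ c ∈ X, ∀ e ∈ Ea0_961.Ed (Q c) (k0 c) (hk c), segment ℝ e.1 e.2 ⊆ (Q c).Kc →
        ∫⁻ τ in Icc (0:ℝ) 1, ‖D (e.1 + w c + τ • (e.2 - e.1)) (e.2 - e.1) -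
          lin (A0 c) (e.2 - e.1)‖ₑ ≤ ENNReal.ofReal (κv * ‖lin (A0 c) (e.2 - e.1)‖)) →
      (∀ c ∈ X, ∀ e ∈ eIn ((Q c).T (k0 c) (hk c)) ((Q c).cix (k0 c) (hk c)), ∀ k,
        ACLat Om (fun y => f y k) (fun y => D y (ev e) k) (ev e) (ea e + w c)) →
      ∃ Bad : Φ.F → Set ℝ, (∀ c', MeasurableSet (Bad c')) ∧
        (∀ c', volume (Bad c') ≤ ENNReal.ofReal κb) ∧
        ∀ L : Φ.F → Finset ℝ, (∀ c', ∀ t ∈ L c', t ∈ Ioo (0 : ℝ) 1 ∧ t ∉ Bad c') →
          Words Φ T f X ct A lam z M L := by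
  obtain ⟨κw, hκw, H⟩ := words_edge hδ hκ hR hκb hl0 hl1 Mx
  refine ⟨κw / 3, by positivity, ?_⟩
  intro La Om hLa c0 Φ ι T f hf D u κ1 κ2 κv κt hu hκv0 hκv hκt X J0 J V ct A lam z θ φ M Q k0 hk
    A0 w hC hz hcore hA hgrid hM hlam hpush hlin hw hthin hgam htra hacl
  have hA0 : ∀ c y v, A0 c (y + v) = A0 c y + (A0 c).linear v := by
    intro c y v
    have h2 := (A0 c).map_vadd y v
    rw [vadd_eq_add, vadd_eq_add, add_comm v] at h2
    rw [h2, add_comm]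
  have hlinA : ∀ c ∈ X, ∀ y, (A c).linear y = (A0 c).linear y := by
    intro c hc y
    have h1 := (A c).map_vadd 0 y
    have h2 := (A0 c).map_vadd (0 - w c) y
    rw [vadd_eq_add, vadd_eq_add] at h1 h2
    rw [hA c hc, hA c hc, show y + 0 - w c = y + (0 - w c) by abel, h2] at h1
    exact (add_right_cancel h1).symm
  refine H La Om hLa c0 Φ ι T f κ1 κ2 X J0 J V ct A lam z θ φ M hC hz ?_ hM hlam hpush ?_ ?_
  · intro c hc
    exact ⟨(hgrid c hc).1, (hcore c hc).grid_tr (coreAt_T (Q c) (k0 c) (hk c)) (hA c hc)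
      (hgrid c hc).2⟩
  · intro c hc x hx hd
    have hsz : 0 < c.1.sz := Bx.sz_pos (Φ.bf.pos _ c.2)
    have hM1 : (1 : ℝ) ≤ M c := by exact_mod_cast (hgrid c hc).1
    have hl : 0 < lam c := hl0.trans_le (hlam c hc).1
    have hl' : lam c < 1 := (hlam c hc).2.trans_lt hl1
    obtain ⟨e, he, hxe⟩ := edge_of_sk1 (by simp) hx hd
    obtain ⟨e', he', h1⟩ := (hcore c hc).edge (coreAt_T (Q c) (k0 c) (hk c)) he
    rw [h1] at hxe
    obtain ⟨τ, hτ, hxτ⟩ := hxe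
    have hxτ' : ea e' + w c + τ • ev e' = x := hxτ
    have hy : x - w c ∈ e'.1 := by
      rw [← sgm_edg e']
      refine ⟨τ, hτ, ?_⟩
      show ea e' + τ • ev e' = x - w c
      rw [← hxτ']; abel
    obtain ⟨x0, hx0O, hd0, hex0⟩ := e'.2
    have hx0K : x0 ∈ (Q c).Kc := by
      rw [← (coreAt_T (Q c) (k0 c) (hk c)).tile]
      exact mem_eIn.1 he' (by rw [hex0]; exact Tiling.self_mem_cc _ x0)
    have h2 := hgam c hc x0 hx0K hd0 (x - w c) (by rw [← hex0]; exact hy)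
    rw [sub_add_cancel] at h2
    have h3 : A0 c x = A c x + (A0 c).linear (w c) := by
      rw [hA c hc, ← hA0, sub_add_cancel]
    have h4 : ‖(A0 c).linear (w c)‖ ≤ κt * (lam c * c.1.sz) / M c := by
      rw [hlin c hc, norm_smul, Real.norm_of_nonneg hu]
      calc u * ‖(Q c).ψ (w c)‖ ≤ u * (1 / (10 * 2 ^ k0 c)) :=
            mul_le_mul_of_nonneg_left (hw c hc) hu
        _ = 1 / 10 * (u / 2 ^ k0 c) := by field_simp
        _ ≤ u / 2 ^ k0 c := by
            have : 0 ≤ u / 2 ^ k0 c := by positivity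
            linarith
        _ ≤ _ := hthin c hc
    have h5 : f x - A c x = (f x - A0 c x) + (A0 c).linear (w c) := by rw [h3]; abel
    have hs : lam c * c.1.sz / M c ≤ c.1.sz := by
      rw [div_le_iff₀ (by linarith)]
      nlinarith
    have hs0 : 0 ≤ lam c * c.1.sz / M c := by positivity
    calc ‖f x - A c x‖ ≤ ‖f x - A0 c x‖ + ‖(A0 c).linear (w c)‖ := by
          rw [h5]; exact norm_add_le _ _
      _ ≤ κv * (lam c * c.1.sz) / M c + κt * (lam c * c.1.sz) / M c := add_le_add h2 h4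
      _ = (κv + κt) * (lam c * c.1.sz / M c) := by ring
      _ ≤ κw * (lam c * c.1.sz / M c) := mul_le_mul_of_nonneg_right (by linarith) hs0
      _ ≤ κw * c.1.sz := mul_le_mul_of_nonneg_left hs hκw.le
  · intro c hc e he
    have hE := hC.exact_ c hc
    have hsz : 0 < c.1.sz := Bx.sz_pos (Φ.bf.pos _ c.2)
    obtain ⟨e', he', h1⟩ := (hcore c hc).edge (coreAt_T (Q c) (k0 c) (hk c)) he
    have heP : e.1 ⊆ P (T.H (ct c)) := mem_eIn.1 he
    have hsub : sgm (ea e' + w c) (ev e') ⊆ Om := by rw [← h1]; exact heP.trans (T.sub _)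
    have hcpt : IsCompact (sgm (ea e' + w c) (ev e')) := by
      rw [sgm_eq_segment, segment_eq_image_lineMap]
      exact isCompact_Icc.image (by fun_prop)
    have hcont : ContinuousOn (fun y => f y - A0 c y) (sgm (ea e' + w c) (ev e')) :=
      (hf.mono hsub).sub ((A0 c).toAffineMap.continuous_of_finiteDimensional.continuousOn)
    obtain ⟨ε, hε⟩ := hcpt.exists_bound_of_continuousOn hcont
    have hN := Cns_976.nearSeg_of_acl (D := fun y => D y (ev e')) (a0 := A0 c (ea e' + w c))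
      (u := lin (A0 c) (ev e')) (ε := ε) hsub hf (hacl c hc e' he') (by
        intro t ht
        have h2 := hε (ea e' + w c + t • ev e') ⟨t, ht, rfl⟩
        have h3 : A0 c (ea e' + w c + t • ev e') = A0 c (ea e' + w c) + t • lin (A0 c) (ev e') := by
          rw [hA0, map_smul]; rfl
        rw [h3] at h2
        exact h2)
    have hl : lin (A0 c) (ev e') = (A c).linear (ev e') := by rw [hlinA c hc]; rfl
    refine ⟨ea e' + w c, ev e', _, A0 c (ea e' + w c), ε, h1, by rw [← hl]; exact hN, ?_⟩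
    -- the edge lies in the box
    have hm0 : ea e' + w c ∈ e.1 := by rw [h1]; exact ⟨0, by simp, by simp⟩
    have hm1 : ea e' + w c + ev e' ∈ e.1 := by rw [h1]; exact ⟨1, by simp, by simp⟩
    have p0 := heP hm0
    have p1 := heP hm1
    rw [hE.tile] at p0 p1
    have hd : lin (A0 c) (ev e') = A c (ea e' + w c + ev e') - A c (ea e' + w c) := by
      rw [hl]
      have h3 := (A c).map_vadd (ea e' + w c) (ev e')
      rw [vadd_eq_add, vadd_eq_add, add_comm (ev e')] at h3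
      rw [h3]; abel
    have hb : ‖lin (A0 c) (ev e')‖ ≤ lam c * c.1.sz := by
      rw [hd, pi_norm_le_iff_of_nonneg (mul_pos hE.lam0 hsz).le]
      intro k
      have q0 := p0 k
      have q1 := p1 k
      have hs : lam c * c.1.side k ≤ lam c * c.1.sz :=
        mul_le_mul_of_nonneg_left (Bx.side_le_sz _ k) hE.lam0.le
      have hs' : lam c * c.1.side k = lam c * c.1.hi k - lam c * c.1.lo k := by
        unfold Bx.side; ring
      rw [Pi.sub_apply, Real.norm_eq_abs, abs_le]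
      constructor <;> linarith [q0.1, q0.2, q1.1, q1.2]
    -- (2a)
    have hEd : (ea e', ea e' + ev e') ∈ Ea0_961.Ed (Q c) (k0 c) (hk c) ∧
        segment ℝ (ea e') (ea e' + ev e') ⊆ (Q c).Kc := by
      obtain ⟨x0, hx0O, hd0, hex0⟩ := e'.2
      have h5 : e'.1 = segment ℝ (ea e') (ea e' + ev e') := by
        rw [← sgm_edg e', sgm_eq_segment]
      have h6 : e'.1 ⊆ (Q c).Kc := by
        rw [← (coreAt_T (Q c) (k0 c) (hk c)).tile]
        exact mem_eIn.1 he'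
      refine ⟨⟨x0, hd0, by rw [← hex0]; exact h5, ?_⟩, by rw [← h5]; exact h6⟩
      show segment ℝ (ea e') (ea e' + ev e') ⊆ (Q c).N
      rw [← h5]
      refine h6.trans (fun y hy => (Q c).bp_sub_N ?_)
      exact interior_subset (Mcc_715.mem_interior_bp (Q c).S (Q c).ψ (Q c).a' (Q c).kc
        (strict_of_mem hy))
    have h7 := htra c hc _ hEd.1 hEd.2
    simp only [add_sub_cancel_left] at h7
    have hfin : ∀ k, li (fun y => ‖D y (ev e') k - lin (A0 c) (ev e') k‖ₑ) (ea e' + w c) (ev e') ≤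
        ENNReal.ofReal (κv * ‖lin (A0 c) (ev e')‖) := by
      intro k
      refine le_trans (lintegral_mono fun τ => ?_) h7
      show ‖(D _ (ev e') - lin (A0 c) (ev e')) k‖ₑ ≤ _
      rw [← ofReal_norm, ← ofReal_norm]
      exact ENNReal.ofReal_le_ofReal (norm_le_pi_norm _ k)
    rw [Cns_976.integral_dfc_eq (D := fun y => D y (ev e')) hsub (hacl c hc e' he')]
    have h8 : ∑ k, li (fun y => ‖D y (ev e') k - lin (A0 c) (ev e') k‖ₑ) (ea e' + w c) (ev e') ≤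
        ENNReal.ofReal (3 * (κv * ‖lin (A0 c) (ev e')‖)) := by
      refine (Finset.sum_le_sum fun k _ => hfin k).trans ?_
      rw [Finset.sum_const, Finset.card_univ, Fintype.card_fin, nsmul_eq_mul,
        ENNReal.ofReal_mul (by norm_num : (0:ℝ) ≤ 3)]
      norm_num
    refine (ENNReal.toReal_le_of_le_ofReal (by positivity) h8).trans ?_
    calc 3 * (κv * ‖lin (A0 c) (ev e')‖) ≤ 3 * (κw / 3 * (lam c * c.1.sz)) := by
          gcongr
      _ = κw * (lam c * c.1.sz) := by ring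
      _ ≤ κw * c.1.sz := by
          refine mul_le_mul_of_nonneg_left ?_ hκw.le
          have := hE.lam1
          nlinarith

end Crest.Agent.R096.Wd_120
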