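import Crest.Agent.R096.Mdd3_360
import Crest.Agent.R096.Fbr5_628

/-!
Row 96 (S0127), helper360.  MD-DATA, part 4: 628's shell in 874's block, the whole `MD`, and `Cores` + `Fine`
on its meshes.

* **`blkD`** : the block of a brick with 628's prism shell (`m` = subdivision number, `t` = thickness);
  `blkD_Kc`, `blkD_N`, `blkD_uA`, `blkD_u_le`, `blkD_rt`, `blkD_bnd`, `blkD_size`;
* **`md_gen`** : the mesh data `MD E3 3 J` (any injective family of bricks);
* **`cf_md`** : `Mbf_337.Cores` and `Mbf_337.Fine` for all meshes of such an `MD` (all bricks exact).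
-/

set_option autoImplicit false
set_option linter.style.longLine false
set_option linter.unusedSectionVars false

open MeasureTheory Set Filter Topology Metric

namespace Crest.Agent.R096.Mdd_360

open Crest.Agent.R096.Bsp_628 Crest.Agent.R096.Brk5_582 Crest.Agent.R096.Brk1_582
open Crest.Agent.R096.Brk2_582 Crest.Agent.R096.Brk3_582 Crest.Agent.R096.Grd_714
open Crest.Agent.R096.SkC1_961 (E3 FoamD Hom3)
open Crest.Agent.R096.EaX_766 (cbx RatA)
open Crest.Agent.R096.Bxs_627 (ctr CoriE fD)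
open Crest.Agent.R096.Mal_874 Crest.Agent.R096.Msh_810
open Crest.Agent.R096.Fns_360

noncomputable section

/-! ### the block of a brick -/

section shell

variable {La : Set E3} {F : Set (Bx (Fin 3))} {δ κ0 : ℝ} {N : ℕ} {FF : Foam La (Pc F) (bc (F := F)) N}
  {h3 : Module.finrank ℝ (Fin 3 → ℝ) = 3} {c : F} {o : E3} {B : ℝ} (D : Fbr_628.BD FF h3 c o B)
  (hN : N ≤ 4) (BF : BoxFoam La F δ κ0) (hLa : IsOpen La) (hQ : Quads (Pc F) (bc (F := F)))
  {m : ℕ} (hm : 0 < m) {t : ℤ} (ht : 0 < t) (A : E3 ≃ᵃ[ℝ] E3) {lam : ℝ} (hl : 0 < lam)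

include D in
theorem side_eq (l : Fin 3) : c.1.side l = 2 * (D.h l * D.w) := by
  have h1 : Fbr_628.hs c l = c.1.side l / 2 := rfl
  have h2 := D.side l
  rw [h1] at h2
  linarith

include D in
theorem two_w_le (l : Fin 3) : 2 * D.w ≤ c.1.side l := by
  rw [side_eq D l]
  have h1 : (1 : ℝ) ≤ D.h l := by exact_mod_cast D.h0 l
  have h2 := D.w0
  nlinarith

/-- the unit of the block -/
def uD (m : ℕ) : ℝ := 2 ^ 3 * (D.w / m)

theorem uD_pos (hm : 0 < m) : 0 < uD D m := by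
  have h1 : (0 : ℝ) < m := by exact_mod_cast hm
  have h2 := D.w0
  unfold uD
  positivity

/-- **the block of a brick with 628's prism shell** -/
def blkD : CB E3 3 :=
  mkCB c.1 A hl (uD_pos D hm) 3 le_rfl (D.shell hN BF hLa hQ hm t ht) (t + 10) (le_refl (t + 10))



theorem blkD_hS (l : Fin 3) : uD D m * (((D.shell hN BF hLa hQ hm t ht).hi l : ℝ) -
    (D.shell hN BF hLa hQ hm t ht).lo l) = 2 ^ 3 * c.1.side l := by
  have h1 := D.lo_eq hm l
  have h2 := D.hi_eq hm l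
  have e : c.1.side l = D.w / m * ((D.hi m l : ℝ) - D.lo m l) := by
    change c.1.hi l - c.1.lo l = _
    rw [h1, h2]
    ring
  change uD D m * ((D.hi m l : ℝ) - D.lo m l) = _
  unfold uD
  rw [e]
  ring

/-- the core of the block -/
theorem blkD_Kc : (blkD D hN BF hLa hQ hm ht A hl).Kc = A ⁻¹' cbx c.1 lam :=
  mkCB_Kc _ _ _ _ _ _ _ _ _ (blkD_hS D hN BF hLa hQ hm ht)

/-- the coordinates of the block are 628's lattice coordinates -/
theorem blkD_ps (y : E3) (l : Fin 3) :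
    D.w / m * ps (blkD D hN BF hLa hQ hm ht A hl).a' (blkD D hN BF hLa hQ hm ht A hl).kc
      ((blkD D hN BF hLa hQ hm ht A hl).ψ y) l + o l =
    (A y l - (1 - lam) * ctr c.1 l) / lam := by
  have hm' : (0 : ℝ) < m := by exact_mod_cast hm
  have hw := D.w0
  unfold blkD
  rw [mkCB_ps]
  have h1 := D.lo_eq hm l
  have e0 : ((D.shell hN BF hLa hQ hm t ht).lo l : ℝ) = D.lo m l := rfl
  rw [e0]
  have e1 : D.w / m * (D.lo m l : ℝ) = c.1.lo l - o l := by linarith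
  have e2 : ctr c.1 l - lam * c.1.side l / 2 = (1 - lam) * ctr c.1 l + lam * c.1.lo l := by
    change (c.1.lo l + c.1.hi l) / 2 - lam * (c.1.hi l - c.1.lo l) / 2 =
      (1 - lam) * ((c.1.lo l + c.1.hi l) / 2) + lam * c.1.lo l
    ring
  rw [mul_add, e1, e2]
  unfold uD
  field_simp
  ring

/-- the block in the target coordinates -/
theorem blkD_N {κ : ℝ} (hκ : (t : ℝ) + 10 ≤ 2 * κ * m) :
    (blkD D hN BF hLa hQ hm ht A hl).N ⊆ A ⁻¹' cbx c.1 ((1 + 2 * κ) * lam) := by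
  refine mkCB_N _ _ _ _ _ _ _ _ _ (blkD_hS D hN BF hLa hQ hm ht) fun l => ?_
  have hm' : (0 : ℝ) < m := by exact_mod_cast hm
  have hw := D.w0
  have h1 := two_w_le D l
  have ht' : (0 : ℝ) < t := by exact_mod_cast ht
  have hκ0 : 0 < κ := by
    by_contra hcon
    push Not at hcon
    have : 2 * κ * m ≤ 0 := by nlinarith
    linarith
  unfold uD
  push_cast
  have h2 : ((t : ℝ) + 10) * (D.w / m) ≤ κ * c.1.side l := by
    rw [mul_div_assoc', div_le_iff₀ hm']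
    calc ((t : ℝ) + 10) * D.w ≤ 2 * κ * m * D.w := mul_le_mul_of_nonneg_right hκ hw.le
      _ = κ * m * (2 * D.w) := by ring
      _ ≤ κ * m * c.1.side l := by gcongr
      _ = κ * c.1.side l * m := by ring
  nlinarith



theorem blkD_rt {uE Md : ℝ} (huE : 0 < uE) (hA : RatA o uE A) (hdy : Dy o uE Md c.1)
    (hlq : ∃ q : ℚ, lam = q) :
    ∃ (Bm : Fin 3 → Fin 3 → ℤ) (d : ℕ), 0 < d ∧
      Rt (ContinuousLinearEquiv.refl ℝ E3) (blkD D hN BF hLa hQ hm ht A hl).ψ Bm d ∧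
      ∀ l, ∃ z : ℤ, (d : ℝ) * (blkD D hN BF hLa hQ hm ht A hl).a' l = z := by
  refine mkCB_rt _ _ _ _ _ _ _ _ _ huE hA hdy hlq ?_
  obtain ⟨q, -, hq⟩ := bd_w_rat D huE hdy
  refine ⟨2 ^ 3 * q / m, ?_⟩
  unfold uD
  rw [hq]
  push_cast
  ring

theorem blkD_bnd {Bn : ℕ} (h1 : 1 ≤ Bn) (hB : 4 * B ^ 2 ≤ Bn) :
    ∀ i, ∀ p ∈ (blkD D hN BF hLa hQ hm ht A hl).S.GG i, ∀ l, |p.1 l| ≤ (Bn : ℤ) :=
  Fbr_628.BD.shell_bnd D hN BF hLa hQ h1 hB

theorem blkD_size {R0 : ℝ} (hR : 8 * B ≤ R0) (htR : (t : ℝ) ≤ R0) :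
    ∀ i, i ≠ (blkD D hN BF hLa hQ hm ht A hl).S.core →
      ∀ u ∈ ZP ((blkD D hN BF hLa hQ hm ht A hl).S.GG i),
      ∀ v ∈ ZP ((blkD D hN BF hLa hQ hm ht A hl).S.GG i), ∀ l, |v l - u l| ≤ R0 :=
  Fbr_628.BD.shell_size D hN BF hLa hQ hR htR

end shell

/-! ### the mesh data -/


/-! ### `Cores` and `Fine` on the meshes -/

section univ

variable {La Om : Set E3} {f : E3 → E3} {F : Set (Bx (Fin 3))} {δ κ0 R c0 : ℝ}


end univ

end

end Crest.Agent.R096.Mdd_360
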