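import Crest.Agent.R096.Fbr5_628
import Crest.Agent.R096.Wd16_120
import Crest.Agent.R096.Mdd4_360

-- ▼ part R096/Fbr6_628
section

/-!
# Row 96, FAN (helper628), part 6: the closed cells of the boundary of the brick in the prism shell

`Mal_874.PS.CC`, `PS.VV`: smallest face and its direction space, in scaled coordinates.
`exists_ext`: a face of a box foam has two different extensions; `tight_core`: tight inequalities.
-/

set_option autoImplicit false
set_option linter.unusedSectionVars false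

open Set

namespace Crest.Agent.R096.Mal_874

open Cut_874

variable {n : ℕ}

namespace PS

/-- the smallest face containing `X`, in scaled coordinates -/
def CC (S : PS n) (X : Fin n → ℝ) : Set (Fin n → ℝ) :=
  {Y | ∀ i : S.Ix, X ∈ ZP (S.GG i) → ∀ p ∈ S.GG i,
    dt (rv p.1) Y ≤ p.2 ∧ (dt (rv p.1) X = p.2 → dt (rv p.1) Y = p.2)}

theorem dt_add' (ν : Fin n → ℝ) (u v : Fin n → ℝ) : dt ν (u + v) = dt ν u + dt ν v := by
  unfold dt
  rw [← Finset.sum_add_distrib]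
  exact Finset.sum_congr rfl fun m _ => by rw [Pi.add_apply]; ring

theorem dt_smul' (ν : Fin n → ℝ) (c : ℝ) (u : Fin n → ℝ) : dt ν (c • u) = c * dt ν u := by
  unfold dt
  rw [Finset.mul_sum]
  exact Finset.sum_congr rfl fun m _ => by rw [Pi.smul_apply, smul_eq_mul]; ring

/-- the direction space of the smallest face -/
def VV (S : PS n) (X : Fin n → ℝ) : Submodule ℝ (Fin n → ℝ) where
  carrier := {v | ∀ i : S.Ix, X ∈ ZP (S.GG i) → ∀ p ∈ S.GG i,
    dt (rv p.1) X = p.2 → dt (rv p.1) v = 0}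
  zero_mem' := by
    intro i _ p _ _
    unfold dt
    simp
  add_mem' := by
    intro u v hu hv i hi p hp h
    rw [dt_add', hu i hi p hp h, hv i hi p hp h, add_zero]
  smul_mem' := by
    intro c u hu i hi p hp h
    rw [dt_smul', hu i hi p hp h, mul_zero]

variable (S : PS n)



theorem dt_sub' (ν : Fin n → ℝ) (u v : Fin n → ℝ) : dt ν (u - v) = dt ν u - dt ν v := by
  unfold dt
  rw [← Finset.sum_sub_distrib]
  exact Finset.sum_congr rfl fun m _ => by rw [Pi.sub_apply]; ring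

theorem sub_mem_VV {X Y : Fin n → ℝ} (h : Y ∈ S.CC X) : Y - X ∈ S.VV X := by
  intro i hi p hp hpX
  rw [dt_sub', (h i hi p hp).2 hpX, hpX, sub_self]

/-- small moves along the direction space stay in the face -/
theorem exists_move {X v : Fin n → ℝ} (hv : v ∈ S.VV X) :
    ∃ ε : ℝ, 0 < ε ∧ X + ε • v ∈ S.CC X := by
  classical
  have := Fintype.ofFinite S.Ix
  let A : Finset ((Fin n → ℤ) × ℤ) :=
    (Finset.univ.filter fun i : S.Ix => X ∈ ZP (S.GG i)).biUnion fun i => S.GG i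
  have hA : ∀ p ∈ A, dt (rv p.1) X ≤ p.2 := by
    intro p hp
    obtain ⟨i, hi, hp'⟩ := Finset.mem_biUnion.1 hp
    exact (Finset.mem_filter.1 hi).2 p hp'
  have hAv : ∀ p ∈ A, dt (rv p.1) X = p.2 → dt (rv p.1) v = 0 := by
    intro p hp h
    obtain ⟨i, hi, hp'⟩ := Finset.mem_biUnion.1 hp
    exact hv i (Finset.mem_filter.1 hi).2 p hp' h
  have key : ∀ B : Finset ((Fin n → ℤ) × ℤ), B ⊆ A → ∃ ε : ℝ, 0 < ε ∧ ∀ δ : ℝ, 0 ≤ δ → δ ≤ ε →
      ∀ p ∈ B, dt (rv p.1) X + δ * dt (rv p.1) v ≤ p.2 := by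
    intro B
    induction B using Finset.induction_on with
    | empty => exact fun _ => ⟨1, one_pos, fun _ _ _ p hp => absurd hp (Finset.notMem_empty _)⟩
    | insert p B hpB ih =>
      intro hB
      obtain ⟨ε, hε, h⟩ := ih fun q hq => hB (Finset.mem_insert_of_mem hq)
      have hpA := hB (Finset.mem_insert_self p B)
      rcases (hA p hpA).eq_or_lt with h1 | h1
      · refine ⟨ε, hε, fun δ h0 h2 q hq => ?_⟩
        rcases Finset.mem_insert.1 hq with rfl | hq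
        · rw [hAv _ hpA h1, mul_zero, add_zero, h1]
        · exact h δ h0 h2 q hq
      · set g := (p.2 : ℝ) - dt (rv p.1) X with hg
        have hg0 : 0 < g := by linarith
        refine ⟨min ε (g / (|dt (rv p.1) v| + 1)), lt_min hε (by positivity),
          fun δ h0 h2 q hq => ?_⟩
        rcases Finset.mem_insert.1 hq with rfl | hq
        · have h3 := h2.trans (min_le_right _ _)
          rw [le_div_iff₀ (by positivity)] at h3
          have h4 := le_abs_self (dt (rv q.1) v)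
          have h5 : δ * dt (rv q.1) v ≤ δ * |dt (rv q.1) v| := mul_le_mul_of_nonneg_left h4 h0
          linarith
        · exact h δ h0 (h2.trans (min_le_left _ _)) q hq
  obtain ⟨ε, hε, h⟩ := key A subset_rfl
  refine ⟨ε, hε, fun i hi p hp => ?_⟩
  have hpA : p ∈ A := Finset.mem_biUnion.2 ⟨i, Finset.mem_filter.2 ⟨Finset.mem_univ _, hi⟩, hp⟩
  rw [dt_add', dt_smul']
  exact ⟨h ε hε.le le_rfl p hpA, fun h1 => by rw [hv i hi p hp h1, mul_zero, add_zero, h1]⟩

end PS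

end Crest.Agent.R096.Mal_874

namespace Crest.Agent.R096.Fbr_628

open Crest.Agent.R096.Brk1_582 Crest.Agent.R096.Brk2_582 Crest.Agent.R096.Grd_714
  Crest.Agent.R096.Brk3_582 Crest.Agent.R096.Brk5_582 Crest.Agent.R096.Bsp_628
  Crest.Agent.R096.Mal_874 Crest.Agent.R096.Cut_874

/-! ### two extensions of a face -/

/-- **a face which is not a vertex has an extension which avoids a given label** -/
theorem exists_ext {La : Set (Fin 3 → ℝ)} {F : Set (Bx (Fin 3))} {δ κ0 : ℝ} {N : ℕ}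
    (FF : Foam La (Pc F) (bc (F := F)) N) (BF : BoxFoam La F δ κ0) (hLa : IsOpen La) {A : Set F}
    (hA : A.Finite) (hne : A.Nonempty) (hfc : (fc (Pc F) A).Nonempty) (h3 : A.ncard ≤ 3) (a : F) :
    ∃ p : F, p ∉ A ∧ p ≠ a ∧ (fc (Pc F) (insert p A)).Nonempty := by
  have hcount := deg_count BF hA hne hfc
  obtain ⟨k, hk⟩ : ∃ k, loA A k ≠ hiA A k := by
    by_contra hcon
    push Not at hcon
    have : {k | loA A k = hiA A k} = univ := by
      ext k; simp [hcon k]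
    rw [this, ncard_univ, Nat.card_eq_fintype_card, Fintype.card_fin] at hcount
    omega
  have hb := FF.mem A hne hfc
  have hbm := (mem_fc_iff hA hne).1 hb
  have hle : ∀ j, loA A j ≤ hiA A j := fun j => (hbm j).1.trans (hbm j).2
  have hin : ∀ v : ℝ, loA A k ≤ v → v ≤ hiA A k →
      Function.update (bc (F := F) A) k v ∈ fc (Pc F) A := by
    intro v h1 h2
    rw [mem_fc_iff hA hne]
    intro j
    by_cases hj : j = k
    · subst hj; rw [Function.update_self]; exact ⟨h1, h2⟩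
    · rw [Function.update_of_ne hj]; exact hbm j
  have hup := hin _ (hle k) le_rfl
  have hdn := hin _ le_rfl (hle k)
  have hLaf : ∀ {y}, y ∈ fc (Pc F) A → y ∈ La := fun {y} hy => by
    obtain ⟨c, hc⟩ := hne
    exact BF.sub _ c.2 (mem_fc.1 hy c hc)
  have hne' : ∀ {y}, y ∈ fc (Pc F) A → (act (Pc F) y).Nonempty := fun {y} hy => by
    obtain ⟨c, hc⟩ := hne
    exact ⟨c, mem_fc.1 hy c hc⟩
  -- a new label at the upper end
  obtain ⟨p, hp, hpA⟩ : ∃ p ∈ act (Pc F) (Function.update (bc (F := F) A) k (hiA A k)), p ∉ A := by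
    by_contra hcon
    push Not at hcon
    have e : act (Pc F) (Function.update (bc (F := F) A) k (hiA A k)) = A :=
      Set.Subset.antisymm hcon (mem_fc'.1 hup)
    have := lt_hiA BF hLa (hLaf hup) (k := k) (by rw [e]; exact hk) (finite_act' BF (hLaf hup))
      (hne' hup)
    rw [e, Function.update_self] at this
    exact lt_irrefl _ this
  obtain ⟨q, hq, hqA⟩ : ∃ p ∈ act (Pc F) (Function.update (bc (F := F) A) k (loA A k)), p ∉ A := by
    by_contra hcon
    push Not at hcon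
    have e : act (Pc F) (Function.update (bc (F := F) A) k (loA A k)) = A :=
      Set.Subset.antisymm hcon (mem_fc'.1 hdn)
    have := loA_lt BF hLa (hLaf hdn) (k := k) (by rw [e]; exact hk) (finite_act' BF (hLaf hdn))
      (hne' hdn)
    rw [e, Function.update_self] at this
    exact lt_irrefl _ this
  have hmem : ∀ {y p}, y ∈ fc (Pc F) A → p ∈ act (Pc F) y → (fc (Pc F) (insert p A)).Nonempty := by
    intro y p hy hp
    refine ⟨y, mem_fc.2 fun x hx => ?_⟩
    rcases mem_insert_iff.1 hx with rfl | hx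
    · exact hp
    · exact mem_fc.1 hy x hx
  by_cases hpa : p = a
  · by_cases hqa : q = a
    · exfalso
      subst hpa
      subst hqa
      have hcv : Convex ℝ (Pc F q) := FF.cvx q
      have h1 : Function.update (bc (F := F) A) k (hiA A k) ∈ Pc F q := hp
      have h2 : Function.update (bc (F := F) A) k (loA A k) ∈ Pc F q := hq
      have h4 := hcv h1 h2 (by norm_num : (0 : ℝ) ≤ 1 / 2) (by norm_num : (0 : ℝ) ≤ 1 / 2)
        (by norm_num)
      have e : (1 / 2 : ℝ) • Function.update (bc (F := F) A) k (hiA A k) +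
          (1 / 2 : ℝ) • Function.update (bc (F := F) A) k (loA A k) = bc A := by
        funext j
        by_cases hj : j = k
        · subst hj
          simp only [Pi.add_apply, Pi.smul_apply, Function.update_self, smul_eq_mul]
          unfold bc; ring
        · simp only [Pi.add_apply, Pi.smul_apply, Function.update_of_ne hj, smul_eq_mul]
          ring
      rw [e] at h4
      have h5 := FF.act_b hne hfc
      exact hqA (h5 ▸ h4)
    · exact ⟨q, hqA, hqa, hmem hdn hq⟩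
  · exact ⟨p, hpA, hpa, hmem hup hp⟩

/-! ### tight inequalities -/

section tight

variable {E : Type*} [NormedAddCommGroup E] [NormedSpace ℝ E] [CompleteSpace E] {I : Type*}
variable {La : Set E} {P : I → Set E} {b : Set I → E} {N : ℕ} {c : I} {M : ℕ}
variable (F : Foam La P b N) (h3 : Module.finrank ℝ E = 3)

theorem tight_core (hQ : Quads P b) (f : Flg P c) (hM : 0 < M) {u u' : E}
    (hu : InC F h3 f u ∨ InC F h3 f.sw u) (hu' : InC F h3 f u' ∨ InC F h3 f.sw u') {j : ℕ}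
    (b2 : (j : ℝ) ≤ M * sc P b (b {c} + u) f.a2 ∧ M * sc P b (b {c} + u) f.a2 ≤ j + 1)
    (b3 : (j : ℝ) ≤ M * sc P b (b {c} + u) f.a3 ∧ M * sc P b (b {c} + u) f.a3 ≤ j + 1)
    (b2' : (j : ℝ) ≤ M * sc P b (b {c} + u') f.a2 ∧ M * sc P b (b {c} + u') f.a2 ≤ j + 1)
    (b3' : (j : ℝ) ≤ M * sc P b (b {c} + u') f.a3 ∧ M * sc P b (b {c} + u') f.a3 ≤ j + 1)
    (H : ∀ a (n : ℕ), M * sc P b (b {c} + u) a = n → M * sc P b (b {c} + u') a = n) :
    (M * cf F h3 f 0 u = j → M * cf F h3 f 0 u' = j) ∧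
      (M * (cf F h3 f 0 u + cf F h3 f 1 u) = j + 1 →
        M * (cf F h3 f 0 u' + cf F h3 f 1 u') = j + 1) := by
  have hM' : (0 : ℝ) < M := by exact_mod_cast hM
  obtain ⟨l, m, hl, hm, hlm, hs⟩ := cf_sw F h3 hQ f
  -- values of the coordinates
  have key : ∀ z : E, (InC F h3 f z ∨ InC F h3 f.sw z) →
      (0 ≤ cf F h3 f 1 z ∧ sc P b (b {c} + z) f.a2 = cf F h3 f 0 z ∧
        sc P b (b {c} + z) f.a3 = cf F h3 f 0 z + cf F h3 f 1 z) ∨
      (cf F h3 f 1 z ≤ 0 ∧ sc P b (b {c} + z) f.a3 = cf F h3 f 0 z + l * cf F h3 f 1 z ∧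
        sc P b (b {c} + z) f.a2 = cf F h3 f 0 z + (l - m) * cf F h3 f 1 z) := by
    intro z hz
    rcases hz with hz | hz
    · obtain ⟨-, -, -, s2, s3, -⟩ := hz.spec F h3
      exact Or.inl ⟨hz.1 1, s2, s3⟩
    · obtain ⟨-, -, -, s2, s3, -⟩ := hz.spec F h3
      obtain ⟨t0, t1, t2⟩ := hs z
      have e2 : f.sw.a2 = f.a3 := rfl
      have e3 : f.sw.a3 = f.a2 := rfl
      rw [e2, t0] at s2
      rw [e3, t0, t1] at s3
      have h1 := hz.1 1
      rw [t1] at h1
      refine Or.inr ⟨?_, s2, by rw [s3]; ring⟩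
      by_contra hcon
      push Not at hcon
      nlinarith
  have H2 := H f.a2
  have H3 := H f.a3
  have K1 := key u hu
  have K2 := key u' hu'
  clear key
  set A := cf F h3 f 0 u
  set C := cf F h3 f 1 u
  set A' := cf F h3 f 0 u'
  set C' := cf F h3 f 1 u'
  set s2 := sc P b (b {c} + u) f.a2
  set s3 := sc P b (b {c} + u) f.a3
  set s2' := sc P b (b {c} + u') f.a2
  set s3' := sc P b (b {c} + u') f.a3
  constructor
  · intro hA
    rcases K1 with ⟨hC, e2, e3⟩ | ⟨hC, e3, e2⟩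
    · have h1 := H2 j (by rw [e2]; exact hA)
      rcases K2 with ⟨hC', e2', e3'⟩ | ⟨hC', e3', e2'⟩
      · rw [← e2']; exact h1
      · have h5 : M * (m * C') = M * s3' - M * s2' := by rw [e2', e3']; ring
        have h6 : 0 ≤ M * (m * C') := by rw [h5, h1]; linarith [b3'.1]
        have h7 : 0 ≤ m * C' := nonneg_of_mul_nonneg_right h6 hM'
        have h8 : 0 ≤ C' := nonneg_of_mul_nonneg_right h7 hm
        have h9 : C' = 0 := le_antisymm hC' h8
        rw [h9, mul_zero, add_zero] at e2'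
        rw [← e2']; exact h1
    · have h5 : (j : ℝ) ≤ j + M * (l * C) := by
        have := b3.1
        rw [e3] at this
        linarith
      have h6 : 0 ≤ M * (l * C) := by linarith
      have h7 : 0 ≤ l * C := nonneg_of_mul_nonneg_right h6 hM'
      have h8 : l * C = 0 := le_antisymm (mul_nonpos_of_nonneg_of_nonpos hl hC) h7
      have h9 : M * s3 = j := by rw [e3, h8, add_zero]; exact hA
      have h1 := H3 j h9
      rcases K2 with ⟨hC', e2', e3'⟩ | ⟨hC', e3', e2'⟩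
      · have h10 : M * C' = M * s3' - M * s2' := by rw [e2', e3']; ring
        have h11 : M * C' ≤ 0 := by rw [h10, h1]; linarith [b2'.1]
        have h12 : C' ≤ 0 := nonpos_of_mul_nonpos_right h11 hM'
        have h13 : C' = 0 := le_antisymm h12 hC'
        rw [h13, add_zero] at e3'
        rw [← e3']; exact h1
      · rcases mul_eq_zero.1 h8 with h10 | h10
        · rw [h10, zero_mul, add_zero] at e3'
          rw [← e3']; exact h1
        · -- C = 0
          have h11 : M * s2 = j := by rw [e2, h10, mul_zero, add_zero]; exact hA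
          have h12 := H2 j h11
          have h13 : M * (m * C') = M * s3' - M * s2' := by rw [e2', e3']; ring
          have h14 : M * (m * C') = 0 := by rw [h13, h1, h12, sub_self]
          have h15 : m * C' = 0 := (mul_eq_zero.1 h14).resolve_left hM'.ne'
          have h16 : C' = 0 := (mul_eq_zero.1 h15).resolve_left hm.ne'
          rw [h16, mul_zero, add_zero] at e3'
          rw [← e3']; exact h1
  · intro hA
    have hA' : M * (A + C) = ((j + 1 : ℕ) : ℝ) := by push_cast; exact hA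
    rcases K1 with ⟨hC, e2, e3⟩ | ⟨hC, e3, e2⟩
    · have h1 := H3 (j + 1) (by rw [e3]; exact hA')
      push_cast at h1
      rcases K2 with ⟨hC', e2', e3'⟩ | ⟨hC', e3', e2'⟩
      · rw [← e3']; exact h1
      · have h5 : M * (m * C') = M * s3' - M * s2' := by rw [e2', e3']; ring
        have h6 : 0 ≤ M * (m * C') := by rw [h5, h1]; linarith [b2'.2]
        have h7 : 0 ≤ m * C' := nonneg_of_mul_nonneg_right h6 hM'
        have h8 : 0 ≤ C' := nonneg_of_mul_nonneg_right h7 hm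
        have h9 : C' = 0 := le_antisymm hC' h8
        rw [h9, mul_zero, add_zero] at e3'
        rw [h9, add_zero, ← e3']; exact h1
    · have h5 : M * (A + (l - m) * C) ≤ M * (A + C) := by
        have := b2.2
        rw [e2] at this
        linarith
      have h6 : A + (l - m) * C ≤ A + C := le_of_mul_le_mul_left h5 hM'
      have h7 : C = 0 := by
        by_contra hne
        have hlt : C < 0 := lt_of_le_of_ne hC hne
        nlinarith
      rw [h7, mul_zero, add_zero] at e2 e3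
      have h8 := H3 (j + 1) (by rw [e3]; rw [h7, add_zero] at hA'; exact hA')
      have h9 := H2 (j + 1) (by rw [e2]; rw [h7, add_zero] at hA'; exact hA')
      push_cast at h8 h9
      rcases K2 with ⟨hC', e2', e3'⟩ | ⟨hC', e3', e2'⟩
      · rw [← e3']; exact h8
      · have h10 : M * (m * C') = M * s3' - M * s2' := by rw [e2', e3']; ring
        have h14 : M * (m * C') = 0 := by rw [h10, h8, h9, sub_self]
        have h15 : m * C' = 0 := (mul_eq_zero.1 h14).resolve_left hM'.ne'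
        have h16 : C' = 0 := (mul_eq_zero.1 h15).resolve_left hm.ne'
        rw [h16, mul_zero, add_zero] at e3'
        rw [h16, add_zero, ← e3']; exact h8

/-- **tight inequalities of a cell stay tight** -/
theorem tight_ineq (hQ : Quads P b) (t : Tc P c M) {u u' : E} (hw : wf F h3 t.1.1 u = 1)
    (hw' : wf F h3 t.1.1 u' = 1) (hi : ∀ k, ineq F h3 t k u ≤ 0) (hi' : ∀ k, ineq F h3 t k u' ≤ 0)
    (H : ∀ a (n : ℕ), M * sc P b (b {c} + u) a = n → M * sc P b (b {c} + u') a = n) (k : Fin 4)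
    (hk : ineq F h3 t k u = 0) : ineq F h3 t k u' = 0 := by
  have hM : 0 < M := t.1.2.1.pos
  have hM' : (0 : ℝ) < M := by exact_mod_cast hM
  have inc : ∀ z, wf F h3 t.1.1 z = 1 → (∀ k, ineq F h3 t k z ≤ 0) →
      (InC F h3 t.1.1 z ∨ InC F h3 t.1.1.sw z ∧ t.1.2.1 = t.1.2.2) := by
    intro z hz1 hz2
    obtain ⟨g, hg, hwg, g0, g1, g2, -⟩ := cone_cases F h3 hQ hz2
    have hI : InC F h3 g z := by
      refine ⟨?_, by rw [← hwg]; exact hz1⟩
      intro k
      fin_cases k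
      · exact g0
      · exact g1
      · exact g2
    rcases hg with rfl | ⟨rfl, h⟩
    · exact Or.inl hI
    · exact Or.inr ⟨hI, h⟩
  have hI := inc u hw hi
  have hI' := inc u' hw' hi'
  have conv : ∀ {x m : ℝ}, x ∈ Icc (m / M) ((m + 1) / M) → m ≤ M * x ∧ M * x ≤ m + 1 := by
    intro x m hx
    rw [mem_Icc, div_le_iff₀ hM', le_div_iff₀ hM'] at hx
    exact ⟨by linarith [hx.1], by linarith [hx.2]⟩
  obtain ⟨-, c2, c3, -⟩ := cell_sc F h3 hQ hi (by rw [hw]; exact one_pos)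
  obtain ⟨-, c2', c3', -⟩ := cell_sc F h3 hQ hi' (by rw [hw']; exact one_pos)
  rw [hw, inv_one, one_smul] at c2 c3
  rw [hw', inv_one, one_smul] at c2' c3'
  have b2 := conv c2
  have b3 := conv c3
  have b2' := conv c2'
  have b3' := conv c3'
  by_cases hlt : t.1.2.1 < t.1.2.2
  · have h1 : InC F h3 t.1.1 u := hI.resolve_right fun h => absurd h.2 hlt.ne
    have h1' : InC F h3 t.1.1 u' := hI'.resolve_right fun h => absurd h.2 hlt.ne
    obtain ⟨-, -, -, s2, s3, -⟩ := h1.spec F h3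
    obtain ⟨-, -, -, s2', s3', -⟩ := h1'.spec F h3
    obtain ⟨e0, e1, e2, e3⟩ := ineq_off F h3 hlt u
    obtain ⟨e0', e1', e2', e3'⟩ := ineq_off F h3 hlt u'
    have H2 := H t.1.1.a2
    have H3 := H t.1.1.a3
    rw [s2, s2'] at H2
    rw [s3, s3'] at H3
    rw [hw] at e0 e1 e2 e3
    rw [hw'] at e0' e1' e2' e3'
    fin_cases k
    · have h5 : ineq F h3 t 0 u = 0 := hk
      show ineq F h3 t 0 u' = 0
      have := H2 ((t.1.2.1 : ℕ) + 1) (by push_cast; linarith)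
      push_cast at this
      linarith
    · have h5 : ineq F h3 t 1 u = 0 := hk
      show ineq F h3 t 1 u' = 0
      have := H2 (t.1.2.1 : ℕ) (by linarith)
      linarith
    · have h5 : ineq F h3 t 2 u = 0 := hk
      show ineq F h3 t 2 u' = 0
      have := H3 ((t.1.2.2 : ℕ) + 1) (by push_cast; linarith)
      push_cast at this
      linarith
    · have h5 : ineq F h3 t 3 u = 0 := hk
      show ineq F h3 t 3 u' = 0
      have := H3 (t.1.2.2 : ℕ) (by linarith)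
      linarith
  · have hd := (diag_eq hlt).1
    rw [← hd] at b3 b3'
    obtain ⟨e0, e1, e2, e3⟩ := ineq_diag F h3 hlt u
    obtain ⟨e0', e1', e2', e3'⟩ := ineq_diag F h3 hlt u'
    rw [hw] at e0 e1
    rw [hw'] at e0' e1'
    rw [wf_sw F h3 hQ, hw] at e2 e3
    rw [wf_sw F h3 hQ, hw'] at e2' e3'
    have hJ : InC F h3 t.1.1 u ∨ InC F h3 t.1.1.sw u := hI.imp_right fun h => h.1
    have hJ' : InC F h3 t.1.1 u' ∨ InC F h3 t.1.1.sw u' := hI'.imp_right fun h => h.1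
    obtain ⟨T1, T2⟩ := tight_core F h3 hQ t.1.1 hM hJ hJ' b2 b3 b2' b3' H
    obtain ⟨T3, T4⟩ := tight_core F h3 hQ t.1.1.sw hM hJ.symm hJ'.symm b3 b2 b3' b2' H
    fin_cases k
    · have h5 : ineq F h3 t 0 u = 0 := hk
      show ineq F h3 t 0 u' = 0
      have := T1 (by linarith)
      linarith
    · have h5 : ineq F h3 t 1 u = 0 := hk
      show ineq F h3 t 1 u' = 0
      have := T2 (by linarith)
      linarith
    · have h5 : ineq F h3 t 2 u = 0 := hk
      show ineq F h3 t 2 u' = 0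
      have := T3 (by linarith)
      linarith
    · have h5 : ineq F h3 t 3 u = 0 := hk
      show ineq F h3 t 3 u' = 0
      have := T4 (by linarith)
      linarith

/-- flag with the last label replaced -/
theorem InC.replace {f : Flg P c} {u : E} (h : InC F h3 f u) (h2 : cf F h3 f 2 u = 0) (g : Flg P c)
    (e1 : g.a1 = f.a1) (e2 : g.a2 = f.a2) : InC F h3 g u := by
  have hd0 : dir b g 0 = dir b f 0 := by
    show b {c, g.a1} - b {c} = b {c, f.a1} - b {c}
    rw [e1]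
  have hd1 : dir b g 1 = dir b f 1 := by
    show b {c, g.a1, g.a2} - b {c} = b {c, f.a1, f.a2} - b {c}
    rw [e1, e2]
  have hu : u = cf F h3 f 0 u • dir b g 0 + cf F h3 f 1 u • dir b g 1 + (0 : ℝ) • dir b g 2 := by
    conv_lhs => rw [← cf_sum F h3 f u, h2, ← hd0, ← hd1]
    simp
  obtain ⟨c0, c1, c2⟩ := cf_comb F h3 g (cf F h3 f 0 u) (cf F h3 f 1 u) 0
  rw [← hu] at c0 c1 c2
  have hw := h.2
  rw [wf_apply, h2] at hw
  refine ⟨?_, by rw [wf_apply, c0, c1, c2]; exact hw⟩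
  intro k
  fin_cases k
  · exact (h.1 0).trans_eq c0.symm
  · exact (h.1 1).trans_eq c1.symm
  · exact c2.ge

/-- the point is the centre of the face of the first label -/
theorem InC.replace2 {f : Flg P c} {u : E} (h : InC F h3 f u) (h1 : cf F h3 f 1 u = 0)
    (h2 : cf F h3 f 2 u = 0) (g : Flg P c) (e1 : g.a1 = f.a1) : InC F h3 g u := by
  have hd0 : dir b g 0 = dir b f 0 := by
    show b {c, g.a1} - b {c} = b {c, f.a1} - b {c}
    rw [e1]
  have hu : u = cf F h3 f 0 u • dir b g 0 + (0 : ℝ) • dir b g 1 + (0 : ℝ) • dir b g 2 := by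
    conv_lhs => rw [← cf_sum F h3 f u, h1, h2, ← hd0]
    simp
  obtain ⟨c0, c1, c2⟩ := cf_comb F h3 g (cf F h3 f 0 u) 0 0
  rw [← hu] at c0 c1 c2
  have hw := h.2
  rw [wf_apply, h1, h2] at hw
  refine ⟨?_, by rw [wf_apply, c0, c1, c2]; exact hw⟩
  intro k
  fin_cases k
  · exact (h.1 0).trans_eq c0.symm
  · exact c1.ge
  · exact c2.ge

/-- **a cell of the grid through a point of the cone of a flag** -/
theorem exists_tile (hQ : Quads P b) {g : Flg P c} {u : E} (h : InC F h3 g u) {j i : Fin M}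
    (hji : j ≤ i) (k1 : ((j : ℕ) : ℝ) ≤ M * cf F h3 g 0 u) (k2 : M * cf F h3 g 0 u ≤ (j : ℕ) + 1)
    (k3 : ((i : ℕ) : ℝ) ≤ M * (cf F h3 g 0 u + cf F h3 g 1 u))
    (k4 : M * (cf F h3 g 0 u + cf F h3 g 1 u) ≤ (i : ℕ) + 1) :
    ∃ t : Tc P c M, t.1.1.a1 = g.a1 ∧ (∀ k, ineq F h3 t k u ≤ 0) ∧
      ∀ u', wf F h3 t.1.1 u' = 1 → (∀ k, ineq F h3 t k u' ≤ 0) →
        (((j : ℕ) : ℝ) ≤ M * sc P b (b {c} + u') g.a2 ∧ M * sc P b (b {c} + u') g.a2 ≤ (j : ℕ) + 1) ∧
        (((i : ℕ) : ℝ) ≤ M * sc P b (b {c} + u') g.a3 ∧ M * sc P b (b {c} + u') g.a3 ≤ (i : ℕ) + 1) ∧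
        sc P b (b {c} + u') g.a1 = 0 ∧
        ∀ a, a ≠ c → a ≠ g.a1 → a ≠ g.a2 → a ≠ g.a3 → sc P b (b {c} + u') a = 1 := by
  have hM : (0 : ℝ) < M := by
    have := j.pos
    exact_mod_cast this
  have conv : ∀ {x m : ℝ}, x ∈ Icc (m / M) ((m + 1) / M) → m ≤ M * x ∧ M * x ≤ m + 1 := by
    intro x m hx
    rw [mem_Icc, div_le_iff₀ hM, le_div_iff₀ hM] at hx
    exact ⟨by linarith [hx.1], by linarith [hx.2]⟩
  have conv' : ∀ {x m : ℝ}, m ≤ M * x → M * x ≤ m + 1 → x ∈ Icc (m / M) ((m + 1) / M) := by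
    intro x m h1 h2
    rw [mem_Icc, div_le_iff₀ hM, le_div_iff₀ hM]
    exact ⟨by linarith, by linarith⟩
  obtain ⟨-, s0, s1, s2, s3, s4⟩ := h.spec F h3
  have hmem := h.mem F h3
  rw [← s2] at k1 k2
  rw [← s3] at k3 k4
  have sub : b {c} + u - b {c} = u := by abel
  rcases hji.eq_or_lt with hji | hji
  · subst hji
    -- diagonal
    obtain ⟨t, ht⟩ : ∃ t : Tc P c M, t.1.2.1 = j ∧ t.1.2.2 = j ∧ (t.1.1 = g ∨ t.1.1 = g.sw) := by
      by_cases hr : WellOrderingRel g.a2 g.a3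
      · exact ⟨⟨(g, j, j), Or.inr ⟨rfl, hr⟩⟩, rfl, rfl, Or.inl rfl⟩
      · have hr' : WellOrderingRel g.a3 g.a2 := by
          rcases trichotomous_of WellOrderingRel g.a2 g.a3 with h | h | h
          · exact absurd h hr
          · exact absurd h g.h23
          · exact h
        exact ⟨⟨(g.sw, j, j), Or.inr ⟨rfl, hr'⟩⟩, rfl, rfl, Or.inr rfl⟩
    obtain ⟨t1, t2, t3⟩ := ht
    refine ⟨t, by rcases t3 with h | h <;> rw [h]; rfl, ?_, fun u' hw' hi' => ?_⟩
    · have := mem_cell_of_sc F h3 hQ t hmem (by rcases t3 with h | h <;> rw [h] <;> exact s1)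
        (by
          rw [t1]
          rcases t3 with h | h <;> rw [h]
          · exact conv' k1 k2
          · exact conv' k3 k4)
        (by
          rw [t2]
          rcases t3 with h | h <;> rw [h]
          · exact conv' k3 k4
          · exact conv' k1 k2)
        (by
          rcases t3 with h | h <;> rw [h]
          · exact s4
          · exact fun a a0 a1 a2 a3 => s4 a a0 a1 a3 a2)
      rw [sub] at this
      exact this.2
    · obtain ⟨q0, q2, q3, q4⟩ := cell_sc F h3 hQ hi' (by rw [hw']; exact one_pos)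
      rw [hw', inv_one, one_smul] at q0 q2 q3 q4
      have q1 : sc P b (b {c} + u') t.1.1.a1 = 0 :=
        (F.sc_eq_zero (F.sub c (mem_fc.1 q0 c (by simp)))).2 (mem_fc.1 q0 t.1.1.a1 (by simp))
      rw [t1] at q2
      rw [t2] at q3
      rcases t3 with h | h <;> rw [h] at q1 q2 q3 q4
      · exact ⟨conv q2, conv q3, q1, q4⟩
      · exact ⟨conv q3, conv q2, q1, fun a a0 a1 a2 a3 => q4 a a0 a1 a3 a2⟩
  · refine ⟨⟨(g, j, i), Or.inl hji⟩, rfl, ?_, fun u' hw' hi' => ?_⟩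
    · have := mem_cell_of_sc F h3 hQ (⟨(g, j, i), Or.inl hji⟩ : Tc P c M) hmem s1 (conv' k1 k2)
        (conv' k3 k4) s4
      rw [sub] at this
      exact this.2
    · obtain ⟨q0, q2, q3, q4⟩ := cell_sc F h3 hQ hi' (by rw [hw']; exact one_pos)
      rw [hw', inv_one, one_smul] at q0 q2 q3 q4
      have q1 : sc P b (b {c} + u') g.a1 = 0 :=
        (F.sc_eq_zero (F.sub c (mem_fc.1 q0 c (by simp)))).2 (mem_fc.1 q0 g.a1 (by simp))
      exact ⟨conv q2, conv q3, q1, q4⟩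

end tight

end Crest.Agent.R096.Fbr_628
end

-- ▼ part R096/Fbr7_628
section

/-!
# Row 96, FAN (helper628), part 7: the closed cells of the boundary of the brick

`mem_CC_iff`: for a boundary point `X` of the box, the smallest face of the prism shell is the closed
cell of the `1/M`-grid of the coordinates `sc`; `finrank_VV`: its dimension.
-/

set_option autoImplicit false
set_option linter.unusedSectionVars false

open Set

namespace Crest.Agent.R096.Fbr_628

open Crest.Agent.R096.Brk1_582 Crest.Agent.R096.Brk2_582 Crest.Agent.R096.Grd_714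
  Crest.Agent.R096.Brk3_582 Crest.Agent.R096.Brk5_582 Crest.Agent.R096.Bsp_628
  Crest.Agent.R096.Mal_874 Crest.Agent.R096.Cut_874

variable {La : Set (Fin 3 → ℝ)} {F : Set (Bx (Fin 3))} {δ κ0 : ℝ} {N : ℕ}

namespace BD

variable {FF : Foam La (Pc F) (bc (F := F)) N} {h3 : Module.finrank ℝ (Fin 3 → ℝ) = 3} {c : F}
  {o : Fin 3 → ℝ} {B : ℝ} (D : BD FF h3 c o B) {M : ℕ}

/-- the coordinate `sc` of the point with integer coordinates `X` -/
noncomputable def sx (M : ℕ) (X : Fin 3 → ℝ) (a : F) : ℝ := sc (Pc F) (bc (F := F)) (D.pt M X) a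

/-- `Y` is in the closed grid cell of `X` -/
def FC (M : ℕ) (X Y : Fin 3 → ℝ) : Prop := ∀ a, (⌊(M : ℝ) * D.sx M X a⌋₊ : ℝ) ≤ M * D.sx M Y a ∧
  M * D.sx M Y a ≤ ⌈(M : ℝ) * D.sx M X a⌉₊

theorem pt_dsp (hM : 0 < M) (X : Fin 3 → ℝ) : D.pt M X = bc ({c} : Set F) + D.dsp M 0 X :=
  D.pt_eq hM (fun l h => absurd (show (0 : SignType) = 1 from h) (by decide))
    (fun l h => absurd (show (0 : SignType) = -1 from h) (by decide))

theorem dsp_eq (hM : 0 < M) {σ : Fin 3 → SignType} {X : Fin 3 → ℝ}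
    (h1 : ∀ l, σ l = 1 → X l = D.hi M l) (h2 : ∀ l, σ l = -1 → X l = D.lo M l) :
    D.dsp M σ X = D.dsp M 0 X := by
  have := (D.pt_eq hM h1 h2).symm.trans (D.pt_dsp hM X)
  exact add_left_cancel this

theorem hi_iff (hM : 0 < M) {X : Fin 3 → ℝ} {l : Fin 3} :
    X l = D.hi M l ↔ D.dsp M 0 X l = 1 * hs c l := by
  have hM' : (0 : ℝ) < M := by exact_mod_cast hM
  have hw := D.w0
  have e : D.dsp M 0 X l = D.w / M * (X l - M * D.z l) := if_pos rfl
  rw [e, one_mul, D.side]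
  unfold hi
  push_cast
  constructor
  · intro h
    rw [h]
    field_simp
    ring
  · intro h
    field_simp at h
    linarith

theorem lo_iff (hM : 0 < M) {X : Fin 3 → ℝ} {l : Fin 3} :
    X l = D.lo M l ↔ D.dsp M 0 X l = -1 * hs c l := by
  have hM' : (0 : ℝ) < M := by exact_mod_cast hM
  have hw := D.w0
  have e : D.dsp M 0 X l = D.w / M * (X l - M * D.z l) := if_pos rfl
  rw [e, D.side]
  unfold lo
  push_cast
  constructor
  · intro h
    rw [h]
    field_simp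
    ring
  · intro h
    field_simp at h
    linarith

theorem box_iff (hM : 0 < M) {X : Fin 3 → ℝ} : (∀ l, (D.lo M l : ℝ) ≤ X l ∧ X l ≤ D.hi M l) ↔
    D.pt M X ∈ Pc F c := by
  rw [D.pt_dsp hM, mem_Pc]
  exact forall_congr' fun l => (D.dsp_range hM (σ := 0) rfl).symm

/-- the point is on a facet of the box -/
def OnB (M : ℕ) (X : Fin 3 → ℝ) : Prop := ∃ l, X l = D.lo M l ∨ X l = D.hi M l

theorem OnB.inC (hN : N ≤ 4) (BF : BoxFoam La F δ κ0) (hLa : IsOpen La) (hM : 0 < M)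
    {X : Fin 3 → ℝ} (hX : D.pt M X ∈ Pc F c) (h : D.OnB M X) :
    ∃ g : Flg (Pc F) c, InC FF h3 g (D.dsp M 0 X) := by
  have hu : ∀ j, |D.dsp M 0 X j| ≤ hs c j := by
    rw [D.pt_dsp hM] at hX
    exact mem_Pc.1 hX
  obtain ⟨l, h | h⟩ := h
  · exact exists_inC FF h3 hN BF hu (Or.inr rfl) ((D.lo_iff hM).1 h) hLa
  · exact exists_inC FF h3 hN BF hu (Or.inl rfl) ((D.hi_iff hM).1 h) hLa

section fcs

variable {D}

theorem FC.nat (hM : 0 < M) {X Y : Fin 3 → ℝ} (h : D.FC M X Y) {a : F} {n : ℕ}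
    (hn : M * D.sx M X a = n) : M * D.sx M Y a = n := by
  obtain ⟨h1, h2⟩ := h a
  rw [hn, Nat.floor_natCast] at h1
  rw [hn, Nat.ceil_natCast] at h2
  exact le_antisymm h2 h1

theorem FC.zero (hM : 0 < M) {X Y : Fin 3 → ℝ} (h : D.FC M X Y) {a : F}
    (hn : D.sx M X a = 0) : D.sx M Y a = 0 := by
  have hM' : (M : ℝ) ≠ 0 := by exact_mod_cast hM.ne'
  have := h.nat hM (n := 0) (by rw [hn]; simp)
  rw [Nat.cast_zero] at this
  exact (mul_eq_zero.1 this).resolve_left hM'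

theorem FC.one (hM : 0 < M) {X Y : Fin 3 → ℝ} (h : D.FC M X Y) {a : F}
    (hn : D.sx M X a = 1) : D.sx M Y a = 1 := by
  have hM' : (M : ℝ) ≠ 0 := by exact_mod_cast hM.ne'
  have := h.nat hM (n := M) (by rw [hn]; simp)
  field_simp at this
  exact this

theorem FC.box {X Y : Fin 3 → ℝ} (h : D.FC M X Y) {a : F} {j : ℕ}
    (h1 : (j : ℝ) ≤ M * D.sx M X a) (h2 : M * D.sx M X a ≤ j + 1) :
    (j : ℝ) ≤ M * D.sx M Y a ∧ M * D.sx M Y a ≤ j + 1 := by
  obtain ⟨k1, k2⟩ := h a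
  constructor
  · refine le_trans ?_ k1
    exact_mod_cast Nat.le_floor h1
  · refine k2.trans ?_
    have : ⌈(M : ℝ) * D.sx M X a⌉₊ ≤ j + 1 := Nat.ceil_le.2 (by push_cast; exact h2)
    exact_mod_cast this

end fcs

theorem sx_bnd {X : Fin 3 → ℝ} (hX : D.pt M X ∈ Pc F c) (a : F) :
    0 ≤ D.sx M X a ∧ D.sx M X a ≤ 1 :=
  (FF.sc_mem_K (FF.sub c hX)).1 a

theorem sx_zero {X : Fin 3 → ℝ} (hX : D.pt M X ∈ Pc F c) {a : F} :
    D.sx M X a = 0 ↔ D.pt M X ∈ Pc F a :=
  FF.sc_eq_zero (FF.sub c hX)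

/-- coordinates of a point of the cone of a flag -/
theorem inC_sx (hM : 0 < M) {X : Fin 3 → ℝ} {g : Flg (Pc F) c} (h : InC FF h3 g (D.dsp M 0 X)) :
    D.sx M X c = 0 ∧ D.sx M X g.a1 = 0 ∧ D.sx M X g.a2 = cf FF h3 g 0 (D.dsp M 0 X) ∧
      D.sx M X g.a3 = cf FF h3 g 0 (D.dsp M 0 X) + cf FF h3 g 1 (D.dsp M 0 X) ∧
      ∀ a, a ≠ c → a ≠ g.a1 → a ≠ g.a2 → a ≠ g.a3 → D.sx M X a = 1 := by
  obtain ⟨-, s⟩ := h.spec FF h3
  rw [← D.pt_dsp hM] at s
  exact s

/-- the facets through `X` contain the cell of `X` -/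
theorem facet_of_fc (BF : BoxFoam La F δ κ0) (hLa : IsOpen La) (hM : 0 < M) {X Y : Fin 3 → ℝ}
    (hX : D.pt M X ∈ Pc F c) (hY : D.pt M Y ∈ Pc F c) (h : D.FC M X Y) (l : Fin 3) :
    (X l = D.hi M l → Y l = D.hi M l) ∧ (X l = D.lo M l → Y l = D.lo M l) := by
  have key : ∀ ε : ℝ, (ε = 1 ∨ ε = -1) → D.dsp M 0 X l = ε * hs c l →
      D.dsp M 0 Y l = ε * hs c l := by
    intro ε hε he
    have hX' := hX
    have hY' := hY
    rw [D.pt_dsp hM] at hX' hY'
    obtain ⟨a, hac, ha, hf⟩ := exists_fct BF hLa hε (mem_Pc.1 hX') he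
    rw [← D.pt_dsp hM] at ha
    have h1 := h.zero hM ((D.sx_zero hX).2 ha)
    have h2 := (D.sx_zero hY).1 h1
    rw [D.pt_dsp hM] at h2
    exact hf.coord hY' h2
  constructor
  · intro h1
    exact (D.hi_iff hM).2 (key 1 (Or.inl rfl) ((D.hi_iff hM).1 h1))
  · intro h1
    exact (D.lo_iff hM).2 (key (-1) (Or.inr rfl) ((D.lo_iff hM).1 h1))

theorem vec_eqz (hM : 0 < M) {σ : Fin 3 → SignType} {f : Flg (Pc F) c} {l0 : Fin 3} {ε : ℝ}
    (h : Fct c f.a1 l0 ε) (h0 : σ l0 ≠ 0) {p0 p1 n : ℤ} {X : Fin 3 → ℝ} :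
    dt (rv (D.vec M σ f p0 p1 n).1) X = (D.vec M σ f p0 p1 n).2 ↔
      fun' FF h3 M f p0 p1 n (D.dsp M σ X) = 0 := by
  constructor
  · intro h5
    refine le_antisymm ((D.vec_le hM h h0).1 h5.le) (not_lt.1 fun h6 => ?_)
    exact absurd ((D.vec_lt hM h h0).2 h6) (by rw [h5]; exact lt_irrefl _)
  · intro h5
    refine le_antisymm ((D.vec_le hM h h0).2 h5.le) (not_lt.1 fun h6 => ?_)
    exact absurd ((D.vec_lt hM h h0).1 h6) (by rw [h5]; exact lt_irrefl _)

variable (hN : N ≤ 4) (BF : BoxFoam La F δ κ0) (hLa : IsOpen La)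
  (hQ : Quads (Pc F) (bc (F := F))) (hM : 0 < M) (t : ℤ) (ht : 0 < t)

/-- on a face the point is on the corresponding facets -/
theorem on_face {i : (D.shell hN BF hLa hQ hM t ht).Ix} {X : Fin 3 → ℝ}
    (hX : D.pt M X ∈ Pc F c) (hi : X ∈ ZP ((D.shell hN BF hLa hQ hM t ht).GG i)) :
    (∀ l, i.1 l = 1 → X l = D.hi M l) ∧ (∀ l, i.1 l = -1 → X l = D.lo M l) := by
  obtain ⟨-, h2⟩ := (PS.mem_ZP _).1 hi
  have hb := (D.box_iff hM).2 hX
  constructor
  · intro l hl
    exact le_antisymm (hb l).2 ((h2 l).1 hl).1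
  · intro l hl
    exact le_antisymm ((h2 l).2 hl).2 (hb l).1

/-- **the closed grid cell is in the smallest face** -/
theorem mem_CC_of_fc {X Y : Fin 3 → ℝ} (hX : D.pt M X ∈ Pc F c) (hY : D.pt M Y ∈ Pc F c)
    (h : D.FC M X Y) : Y ∈ (D.shell hN BF hLa hQ hM t ht).CC X := by
  intro i hi
  obtain ⟨o1, o2⟩ := D.on_face hN BF hLa hQ hM t ht hX hi
  have hf := D.facet_of_fc BF hLa hM hX hY h
  have q1 : ∀ l, i.1 l = 1 → Y l = D.hi M l := fun l hl => (hf l).1 (o1 l hl)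
  have q2 : ∀ l, i.1 l = -1 → Y l = D.lo M l := fun l hl => (hf l).2 (o2 l hl)
  have hbX := (D.box_iff hM).2 hX
  have hbY := (D.box_iff hM).2 hY
  have ht' : (0 : ℝ) < t := by exact_mod_cast ht
  rw [PS.forall_GG]
  refine ⟨?_, fun l => ⟨fun hl => ⟨?_, ?_⟩, fun hl => ⟨?_, ?_⟩⟩⟩
  · have hXG := ((PS.mem_ZP _).1 hi).1
    obtain ⟨σ, τ⟩ := i
    change (D.shF hN BF hLa hQ hM σ).Tc at τ
    change X ∈ ZP ((D.shF hN BF hLa hQ hM σ).G τ) at hXG
    change ∀ l, σ l = 1 → X l = D.hi M l at o1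
    change ∀ l, σ l = -1 → X l = D.lo M l at o2
    change ∀ l, σ l = 1 → Y l = D.hi M l at q1
    change ∀ l, σ l = -1 → Y l = D.lo M l at q2
    change ∀ p ∈ (D.shF hN BF hLa hQ hM σ).G τ, _
    have eX := D.dsp_eq hM o1 o2
    have eY := D.dsp_eq hM q1 q2
    clear hi
    revert hXG
    revert τ
    rcases D.shF_cases hN BF hLa hQ hM σ with ⟨l0, h0, h1, e⟩ | ⟨l1, l2, hll, h01, h02, h1, e⟩ |
      ⟨h, e⟩
    · rw [e]
      intro τ hXG
      obtain ⟨tt, hτ⟩ := τ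
      have hXG' : X ∈ ZP (D.cellG σ tt) := hXG
      change ∀ p ∈ D.cellG σ tt, _
      rw [D.mem_ZP_cell hM hτ h0] at hXG'
      have cX := D.dsp_coord h0 (M := M) (X := X)
      have cY := D.dsp_coord h0 (M := M) (X := Y)
      have wX := D.wf_one hτ cX
      have wY := D.wf_one hτ cY
      have sX := cell_sc FF h3 hQ hXG' (by rw [wX]; exact one_pos)
      rw [wX, inv_one, one_smul, eX, ← D.pt_dsp hM] at sX
      obtain ⟨m0, m2, m3, m4⟩ := sX
      have hM' : (0 : ℝ) < M := by exact_mod_cast hM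
      have conv : ∀ {x m : ℝ}, x ∈ Icc (m / M) ((m + 1) / M) → m ≤ M * x ∧ M * x ≤ m + 1 := by
        intro x m hx
        rw [mem_Icc, div_le_iff₀ hM', le_div_iff₀ hM'] at hx
        exact ⟨by linarith [hx.1], by linarith [hx.2]⟩
      have conv' : ∀ {x m : ℝ}, m ≤ M * x ∧ M * x ≤ m + 1 → x ∈ Icc (m / M) ((m + 1) / M) := by
        intro x m h
        rw [mem_Icc, div_le_iff₀ hM', le_div_iff₀ hM']
        exact ⟨by linarith [h.1], by linarith [h.2]⟩
      have y1 : sc (Pc F) (bc (F := F)) (D.pt M Y) tt.1.1.a1 = 0 :=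
        h.zero hM ((D.sx_zero hX).2 (mem_fc.1 m0 _ (by simp)))
      have y2 := conv' (h.box (conv m2).1 (conv m2).2)
      have y3 := conv' (h.box (conv m3).1 (conv m3).2)
      have y4 : ∀ a, a ≠ c → a ≠ tt.1.1.a1 → a ≠ tt.1.1.a2 → a ≠ tt.1.1.a3 →
          sc (Pc F) (bc (F := F)) (D.pt M Y) a = 1 :=
        fun a a0 a1 a2 a3 => h.one hM (m4 a a0 a1 a2 a3)
      have hYc := (mem_cell_of_sc FF h3 hQ tt hY y1 y2 y3 y4).2
      rw [D.pt_dsp hM, add_sub_cancel_left, ← eY] at hYc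
      rw [D.forall_cellG]
      intro k
      have hfk : Fct c (dat tt k).1.a1 l0 ((σ l0 : SignType) : ℝ) := by rw [dat_a1]; exact hτ
      constructor
      · rw [D.vec_le hM hfk h0, ← ineq_eq]
        exact hYc k
      · rw [D.vec_eqz hM hfk h0, D.vec_eqz hM hfk h0, ← ineq_eq]
        intro hk
        refine tight_ineq FF h3 hQ tt wX wY hXG' hYc ?_ k hk
        intro a n
        rw [eX, eY, ← D.pt_dsp hM, ← D.pt_dsp hM]
        exact h.nat hM
    · rw [e]
      intro τ hXG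
      obtain ⟨⟨f, i⟩, hf1, hf2⟩ := τ
      have hXG' : X ∈ ZP (D.edgG σ (f, i)) := hXG
      change ∀ p ∈ D.edgG σ (f, i), _
      rw [D.mem_ZP_edg BF hM hll hf1 hf2 h01 h02] at hXG'
      have cX1 := D.dsp_coord h01 (M := M) (X := X)
      have cX2 := D.dsp_coord h02 (M := M) (X := X)
      have cY1 := D.dsp_coord h01 (M := M) (X := Y)
      have cY2 := D.dsp_coord h02 (M := M) (X := Y)
      have IX := D.inC_of_edg BF hll hf1 hf2 cX1 cX2 hXG'.1 hXG'.2
      have zX := (D.edge_cf0 BF hll hf1 hf2 cX1 cX2).1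
      have zY := D.edge_cf0 BF hll hf1 hf2 cY1 cY2
      rw [eX] at IX zX hXG'
      rw [eY] at zY
      obtain ⟨s0, s1, s2, s3, s4⟩ := D.inC_sx hM IX
      simp only at s0 s1 s2 s3 s4 zX zY hXG' hf1 hf2
      rw [zX] at s2
      rw [zX, zero_add] at s3
      have y1 : D.sx M Y f.a1 = 0 := h.zero hM s1
      have y2 : D.sx M Y f.a2 = 0 := h.zero hM s2
      have y3 := h.box (a := f.a3) (j := (i : ℕ)) (by rw [s3]; exact hXG'.1)
        (by rw [s3]; exact hXG'.2)
      have y4 : ∀ a, a ≠ c → a ≠ f.a1 → a ≠ f.a2 → a ≠ f.a3 → D.sx M Y a = 1 :=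
        fun a a0 a1 a2 a3 => h.one hM (s4 a a0 a1 a2 a3)
      obtain ⟨-, c1, -⟩ := cf_of_sc FF h3 f hY y1 (by
        change D.sx M Y f.a2 ≤ D.sx M Y f.a3
        rw [y2]; exact (D.sx_bnd hY _).1) y4
      rw [D.pt_dsp hM, add_sub_cancel_left, ← D.pt_dsp hM, zY.1, zero_add] at c1
      change cf FF h3 f 1 (D.dsp M 0 Y) = D.sx M Y f.a3 at c1
      have w1 := D.wf_one hf1 cX1
      have w1' := D.wf_one hf1 cY1
      rw [eX] at w1
      rw [eY] at w1'
      have ee : ∀ (p0 p1 n : ℤ) (z : Fin 3 → ℝ), fun' FF h3 M f p0 p1 n z =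
          M * (p0 * cf FF h3 f 0 z + p1 * cf FF h3 f 1 z) - n * wf FF h3 f z := fun _ _ _ _ => rfl
      have H3 : ∀ n : ℕ, M * D.sx M X f.a3 = n → M * D.sx M Y f.a3 = n := fun n => h.nat hM
      rw [← c1] at y3
      rw [s3, ← c1] at H3
      rw [D.forall_edgG]
      constructor
      · constructor
        · rw [D.vec_le hM hf1 h01, eY, ee, zY.1, w1']
          push_cast
          linarith [y3.2]
        · rw [D.vec_eqz hM hf1 h01, D.vec_eqz hM hf1 h01, eX, eY, ee, ee, zX, zY.1, w1, w1']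
          intro h5
          have := H3 ((i : ℕ) + 1) (by push_cast at h5 ⊢; linarith)
          push_cast at this ⊢
          linarith
      · constructor
        · rw [D.vec_le hM hf1 h01, eY, ee, zY.1, w1']
          push_cast
          linarith [y3.1]
        · rw [D.vec_eqz hM hf1 h01, D.vec_eqz hM hf1 h01, eX, eY, ee, ee, zX, zY.1, w1, w1']
          intro h5
          have := H3 (i : ℕ) (by push_cast at h5 ⊢; linarith)
          push_cast
          linarith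
    · rw [e]
      intro τ hXG
      refine forall_boxG.2 fun l hl => ?_
      rw [dt_ez, dt_neg_ez, dt_ez, dt_neg_ez]
      push_cast
      refine ⟨⟨(hbY l).2, fun h5 => (hf l).1 h5⟩, ⟨by linarith [(hbY l).1], fun h5 => ?_⟩⟩
      rw [(hf l).2 (by linarith)]
  · rw [dt_neg_ez, dt_neg_ez]
    have e1 := o1 l hl
    have e2 := q1 l hl
    rw [e1, e2]
    show -(D.hi M l : ℝ) ≤ ((-(D.hi M l) : ℤ) : ℝ) ∧ _
    push_cast
    exact ⟨le_rfl, fun h => h⟩
  · rw [dt_ez, dt_ez]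
    have e1 := o1 l hl
    have e2 := q1 l hl
    rw [e1, e2]
    show (D.hi M l : ℝ) ≤ ((D.hi M l + t : ℤ) : ℝ) ∧ _
    push_cast
    exact ⟨by linarith, fun h => h⟩
  · rw [dt_neg_ez, dt_neg_ez]
    have e1 := o2 l hl
    have e2 := q2 l hl
    rw [e1, e2]
    show -(D.lo M l : ℝ) ≤ ((-(D.lo M l - t) : ℤ) : ℝ) ∧ _
    push_cast
    exact ⟨by linarith, fun h => h⟩
  · rw [dt_ez, dt_ez]
    have e1 := o2 l hl
    have e2 := q2 l hl
    rw [e1, e2]
    show (D.lo M l : ℝ) ≤ ((D.lo M l : ℤ) : ℝ) ∧ _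
    exact ⟨le_rfl, fun h => h⟩

end BD

end Crest.Agent.R096.Fbr_628
end

-- ▼ part R096/Fbr8_628
section

/-!
# Row 96, FAN (helper628), part 8: the closed cells of the boundary of the brick (converse, dimension)
-/

set_option autoImplicit false
set_option linter.unusedSectionVars false

open Set

namespace Crest.Agent.R096.Fbr_628

open Crest.Agent.R096.Brk1_582 Crest.Agent.R096.Brk2_582 Crest.Agent.R096.Grd_714
  Crest.Agent.R096.Brk3_582 Crest.Agent.R096.Brk5_582 Crest.Agent.R096.Bsp_628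
  Crest.Agent.R096.Mal_874 Crest.Agent.R096.Cut_874

variable {La : Set (Fin 3 → ℝ)} {F : Set (Bx (Fin 3))} {δ κ0 : ℝ} {N : ℕ}

/-- a grid box above -/
theorem exists_above {M : ℕ} {x y : ℝ} (hxy : x ≤ y) (hx : 0 ≤ x) (hy : y ≤ 1) {j : Fin M}
    (hj : ((j : ℕ) : ℝ) ≤ M * x) : ∃ i : Fin M, j ≤ i ∧ ((i : ℕ) : ℝ) ≤ M * y ∧
      M * y ≤ (i : ℕ) + 1 := by
  have hM : 0 < M := j.pos
  have hM' : (0 : ℝ) < M := by exact_mod_cast hM
  obtain ⟨i, hi1, hi2⟩ := BD.exists_fin hM (hx.trans hxy) hy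
  have h1 : M * x ≤ M * y := mul_le_mul_of_nonneg_left hxy hM'.le
  rcases le_total j i with h | h
  · exact ⟨i, h, hi1, hi2⟩
  · rcases h.eq_or_lt with h | h
    · exact ⟨j, le_rfl, by rw [← h]; exact hi1, by rw [← h]; exact hi2⟩
    · have h2 : (((i : ℕ) : ℝ)) + 1 ≤ (j : ℕ) := by
        have : (i : ℕ) + 1 ≤ (j : ℕ) := h
        exact_mod_cast this
      exact ⟨j, le_rfl, by linarith, by linarith⟩

/-- a grid box below -/
theorem exists_below {M : ℕ} {x y : ℝ} (hxy : x ≤ y) (hx : 0 ≤ x) (hy : y ≤ 1) {i : Fin M}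
    (hi : M * y ≤ (i : ℕ) + 1) : ∃ j : Fin M, j ≤ i ∧ ((j : ℕ) : ℝ) ≤ M * x ∧
      M * x ≤ (j : ℕ) + 1 := by
  have hM : 0 < M := i.pos
  have hM' : (0 : ℝ) < M := by exact_mod_cast hM
  obtain ⟨j, hj1, hj2⟩ := BD.exists_fin hM hx (hxy.trans hy)
  have h1 : M * x ≤ M * y := mul_le_mul_of_nonneg_left hxy hM'.le
  rcases le_total j i with h | h
  · exact ⟨j, h, hj1, hj2⟩
  · rcases h.eq_or_lt with h | h
    · exact ⟨i, le_rfl, by rw [h]; exact hj1, by rw [h]; exact hj2⟩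
    · have h2 : (((i : ℕ) : ℝ)) + 1 ≤ (j : ℕ) := by
        have : (i : ℕ) + 1 ≤ (j : ℕ) := h
        exact_mod_cast this
      exact ⟨i, le_rfl, by linarith, by linarith⟩

namespace BD

variable {FF : Foam La (Pc F) (bc (F := F)) N} {h3 : Module.finrank ℝ (Fin 3 → ℝ) = 3} {c : F}
  {o : Fin 3 → ℝ} {B : ℝ} (D : BD FF h3 c o B) {M : ℕ}

variable (hN : N ≤ 4) (BF : BoxFoam La F δ κ0) (hLa : IsOpen La)
  (hQ : Quads (Pc F) (bc (F := F))) (hM : 0 < M) (t : ℤ) (ht : 0 < t)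

theorem B0_iff {X : Fin 3 → ℝ} :
    X ∈ (D.shell hN BF hLa hQ hM t ht).B0 ↔ D.pt M X ∈ Pc F c := D.box_iff hM

theorem mem_of_CC {X Y : Fin 3 → ℝ} (hX : D.pt M X ∈ Pc F c)
    (hY : Y ∈ (D.shell hN BF hLa hQ hM t ht).CC X) : D.pt M Y ∈ Pc F c := by
  have h1 := (D.B0_iff hN BF hLa hQ hM t ht).2 hX
  rw [← PS.ZP_core] at h1
  rw [← D.B0_iff hN BF hLa hQ hM t ht, ← PS.ZP_core]
  exact fun p hp => (hY _ h1 p hp).1

/-- a face tile through a boundary point contains its smallest face -/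
theorem box_of_CC {X Y : Fin 3 → ℝ} (hX : D.pt M X ∈ Pc F c)
    (hY : Y ∈ (D.shell hN BF hLa hQ hM t ht).CC X) {g : Flg (Pc F) c}
    (hg : InC FF h3 g (D.dsp M 0 X)) {j i : Fin M} (hji : j ≤ i)
    (k1 : ((j : ℕ) : ℝ) ≤ M * D.sx M X g.a2) (k2 : M * D.sx M X g.a2 ≤ (j : ℕ) + 1)
    (k3 : ((i : ℕ) : ℝ) ≤ M * D.sx M X g.a3) (k4 : M * D.sx M X g.a3 ≤ (i : ℕ) + 1) :
    (((j : ℕ) : ℝ) ≤ M * D.sx M Y g.a2 ∧ M * D.sx M Y g.a2 ≤ (j : ℕ) + 1) ∧
      (((i : ℕ) : ℝ) ≤ M * D.sx M Y g.a3 ∧ M * D.sx M Y g.a3 ≤ (i : ℕ) + 1) ∧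
      D.sx M Y g.a1 = 0 ∧ wf FF h3 g (D.dsp M 0 Y) = 1 ∧
      ∀ a, a ≠ c → a ≠ g.a1 → a ≠ g.a2 → a ≠ g.a3 → D.sx M Y a = 1 := by
  obtain ⟨-, -, s2, s3, -⟩ := D.inC_sx hM hg
  rw [s2] at k1 k2
  rw [s3] at k3 k4
  obtain ⟨tt, ta, ti, tb⟩ := exists_tile FF h3 hQ hg hji k1 k2 k3 k4
  obtain ⟨l0, ε, hf⟩ := exists_fct_of_flag BF g
  -- the sign
  obtain ⟨es, hes, hes0⟩ : ∃ es : SignType, (es : ℝ) = ε ∧ es ≠ 0 := by
    rcases hf.eps with h | h
    · exact ⟨1, by rw [h]; simp, by decide⟩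
    · exact ⟨-1, by rw [h]; simp, by decide⟩
  set σ : Fin 3 → SignType := Function.update 0 l0 es with hσ
  have h0 : σ l0 ≠ 0 := by rw [hσ, Function.update_self]; exact hes0
  have h1 : ∀ l, l ≠ l0 → σ l = 0 := fun l hl => by rw [hσ, Function.update_of_ne hl]; rfl
  have hσε : ((σ l0 : SignType) : ℝ) = ε := by rw [hσ, Function.update_self]; exact hes
  have hft : Fct c tt.1.1.a1 l0 ((σ l0 : SignType) : ℝ) := by rw [ta, hσε]; exact hf
  -- X on the facet
  have hm := (hg.spec FF h3).1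
  have hXl : D.dsp M 0 X l0 = ε * hs c l0 := hf.coord (mem_fc.1 hm c (by simp)) (mem_fc.1 hm g.a1 (by simp))
  have o1 : ∀ l, σ l = 1 → X l = D.hi M l := by
    intro l hl
    by_cases hll : l = l0
    · subst hll
      rw [hl] at hσε
      rw [D.hi_iff hM, hXl, ← hσε]; simp
    · rw [h1 l hll] at hl; exact absurd hl (by decide)
  have o2 : ∀ l, σ l = -1 → X l = D.lo M l := by
    intro l hl
    by_cases hll : l = l0
    · subst hll
      rw [hl] at hσε
      rw [D.lo_iff hM, hXl, ← hσε]; simp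
    · rw [h1 l hll] at hl; exact absurd hl (by decide)
  have eX := D.dsp_eq hM o1 o2
  -- the index
  obtain ⟨τ, hτ⟩ : ∃ τ : (D.shF hN BF hLa hQ hM σ).Tc, (D.shF hN BF hLa hQ hM σ).G τ =
      D.cellG σ tt := by
    rw [D.shF_face hN BF hLa hQ hM h0 h1]
    exact ⟨⟨tt, hft⟩, rfl⟩
  set S := D.shell hN BF hLa hQ hM t ht with hS
  let i0 : S.Ix := ⟨σ, τ⟩
  have ht' : (0 : ℝ) < t := by exact_mod_cast ht
  have hXi : X ∈ ZP (S.GG i0) := by
    rw [PS.mem_ZP]
    refine ⟨?_, fun l => ⟨fun hl => ?_, fun hl => ?_⟩⟩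
    · show X ∈ ZP ((D.shF hN BF hLa hQ hM σ).G τ)
      rw [hτ, D.mem_ZP_cell hM hft h0, eX]
      exact ti
    · rw [o1 l hl]
      show (D.hi M l : ℝ) ≤ D.hi M l ∧ (D.hi M l : ℝ) ≤ D.hi M l + t
      constructor <;> linarith
    · rw [o2 l hl]
      show (D.lo M l : ℝ) - t ≤ D.lo M l ∧ (D.lo M l : ℝ) ≤ D.lo M l
      constructor <;> linarith
  have hYi : Y ∈ ZP (S.GG i0) := fun p hp => (hY i0 hXi p hp).1
  have hYc := D.mem_of_CC hN BF hLa hQ hM t ht hX hY
  obtain ⟨q1, q2⟩ := D.on_face hN BF hLa hQ hM t ht hYc hYi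
  have eY := D.dsp_eq hM (σ := σ) q1 q2
  have hYG : Y ∈ ZP ((D.shF hN BF hLa hQ hM σ).G τ) := ((PS.mem_ZP _).1 hYi).1
  rw [hτ, D.mem_ZP_cell hM hft h0] at hYG
  have wY := D.wf_one hft (D.dsp_coord h0 (M := M) (X := Y))
  have := tb _ wY hYG
  rw [eY, ← D.pt_dsp hM] at this
  obtain ⟨b1, b2, b3, b4⟩ := this
  have wg : wf FF h3 g (D.dsp M 0 Y) = 1 := by
    rw [← eY]
    have hfg : Fct c g.a1 l0 ((σ l0 : SignType) : ℝ) := by rw [hσε]; exact hf
    exact D.wf_one hfg (D.dsp_coord h0 (M := M) (X := Y))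
  exact ⟨b1, b2, b3, wg, b4⟩

include BF hLa hM in
/-- **a flag through the point which avoids a label with coordinate one** -/
theorem exists_avoid {X : Fin 3 → ℝ} {g : Flg (Pc F) c} (hg : InC FF h3 g (D.dsp M 0 X)) {a : F}
    (ha : D.sx M X a = 1) : ∃ g' : Flg (Pc F) c, InC FF h3 g' (D.dsp M 0 X) ∧ a ≠ c ∧
      a ≠ g'.a1 ∧ a ≠ g'.a2 ∧ a ≠ g'.a3 := by
  obtain ⟨s0, s1, s2, s3, s4⟩ := D.inC_sx hM hg
  have n0 : a ≠ c := by rintro rfl; rw [s0] at ha; exact zero_ne_one ha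
  have n1 : a ≠ g.a1 := by rintro rfl; rw [s1] at ha; exact zero_ne_one ha
  have hw := hg.2
  rw [wf_apply] at hw
  have p0 := hg.1 0
  have p1 := hg.1 1
  have p2 := hg.1 2
  -- extensions of an edge
  have extE : ∀ f : Flg (Pc F) c, f.a1 ≠ a → f.a2 ≠ a → ∃ p, ∃ (hp1 : p ≠ f.a1) (hp2 : p ≠ f.a2)
      (hpc : p ≠ c), p ≠ a ∧ (fc (Pc F) {c, f.a1, f.a2, p}).Nonempty := by
    intro f hf1 hf2
    have hfin : ({c, f.a1, f.a2} : Set F).Finite := by simp
    have hcard : ({c, f.a1, f.a2} : Set F).ncard ≤ 3 := by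
      refine (ncard_insert_le _ _).trans ?_
      rw [ncard_pair f.h12]
    obtain ⟨p, hp1, hp2, hp3⟩ := exists_ext FF BF hLa hfin ⟨c, by simp⟩ f.ne2 hcard a
    have e : insert p ({c, f.a1, f.a2} : Set F) = {c, f.a1, f.a2, p} := by
      ext x; simp only [mem_insert_iff, mem_singleton_iff]; tauto
    rw [e] at hp3
    simp only [mem_insert_iff, mem_singleton_iff, not_or] at hp1
    exact ⟨p, hp1.2.1, hp1.2.2, hp1.1, hp2, hp3⟩
  by_cases n2 : a = g.a2
  · -- the point is the centre of the face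
    rw [n2, s2] at ha
    have z1 : cf FF h3 g 1 (D.dsp M 0 X) = 0 := by linarith
    have z2 : cf FF h3 g 2 (D.dsp M 0 X) = 0 := by linarith
    have hfin : ({c, g.a1} : Set F).Finite := by simp
    have hcard : ({c, g.a1} : Set F).ncard ≤ 3 := by
      rw [ncard_pair g.h1.symm]; norm_num
    obtain ⟨p, hp1, hp2, hp3⟩ := exists_ext FF BF hLa hfin ⟨c, by simp⟩ g.ne1 hcard a
    simp only [mem_insert_iff, mem_singleton_iff, not_or] at hp1
    have hfin2 : (insert p ({c, g.a1} : Set F)).Finite := by simp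
    have hcard2 : (insert p ({c, g.a1} : Set F)).ncard ≤ 3 := by
      refine (ncard_insert_le _ _).trans ?_
      rw [ncard_pair g.h1.symm]
    obtain ⟨q, hq1, hq2, hq3⟩ := exists_ext FF BF hLa hfin2 ⟨p, by simp⟩ hp3 hcard2 a
    simp only [mem_insert_iff, mem_singleton_iff, not_or] at hq1
    have e : insert q (insert p ({c, g.a1} : Set F)) = {c, g.a1, p, q} := by
      ext x; simp only [mem_insert_iff, mem_singleton_iff]; tauto
    rw [e] at hq3
    refine ⟨⟨g.a1, p, q, g.h1, hp1.1, hq1.2.1, Ne.symm hp1.2, Ne.symm hq1.2.2, Ne.symm hq1.1, hq3⟩,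
      hg.replace2 FF h3 z1 z2 _ rfl, n0, n1, hp2.symm, hq2.symm⟩
  by_cases n3 : a = g.a3
  · rw [n3, s3] at ha
    have z2 : cf FF h3 g 2 (D.dsp M 0 X) = 0 := by linarith
    obtain ⟨p, hp1, hp2, hpc, hpa, hp3⟩ := extE g (Ne.symm n1) (Ne.symm n2)
    exact ⟨⟨g.a1, g.a2, p, g.h1, g.h2, hpc, g.h12, Ne.symm hp1, Ne.symm hp2, hp3⟩,
      hg.replace FF h3 z2 _ rfl rfl, n0, n1, n2, Ne.symm hpa⟩
  · exact ⟨g, hg, n0, n1, n2, n3⟩

/-- **the smallest face of a boundary point is in the closed grid cell** -/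
theorem fc_of_mem_CC {X Y : Fin 3 → ℝ} (hX : D.pt M X ∈ Pc F c) (hB : D.OnB M X)
    (hY : Y ∈ (D.shell hN BF hLa hQ hM t ht).CC X) : D.pt M Y ∈ Pc F c ∧ D.FC M X Y := by
  have hYc := D.mem_of_CC hN BF hLa hQ hM t ht hX hY
  refine ⟨hYc, ?_⟩
  have hM' : (0 : ℝ) < M := by exact_mod_cast hM
  obtain ⟨g, hg⟩ := hB.inC D hN BF hLa hM hX
  -- a grid box for every flag
  have anyb : ∀ g : Flg (Pc F) c, InC FF h3 g (D.dsp M 0 X) →
      D.sx M Y g.a1 = 0 ∧ ∀ a, a ≠ c → a ≠ g.a1 → a ≠ g.a2 → a ≠ g.a3 → D.sx M Y a = 1 := by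
    intro g hg
    obtain ⟨-, -, s2, s3, -⟩ := D.inC_sx hM hg
    have h23 : D.sx M X g.a2 ≤ D.sx M X g.a3 := by rw [s2, s3]; linarith [hg.1 1]
    obtain ⟨j, j1, j2⟩ := exists_fin hM (D.sx_bnd hX g.a2).1 (D.sx_bnd hX g.a2).2
    obtain ⟨i, hji, i1, i2⟩ := exists_above h23 (D.sx_bnd hX g.a2).1 (D.sx_bnd hX g.a3).2 j1
    obtain ⟨-, -, b3, -, b4⟩ := D.box_of_CC hN BF hLa hQ hM t ht hX hY hg hji j1 j2 i1 i2
    exact ⟨b3, b4⟩
  have hzero : ∀ a, D.sx M X a = 0 → D.sx M Y a = 0 := by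
    intro a ha
    by_cases hac : a = c
    · subst hac
      exact (D.sx_zero hYc).2 hYc
    · have h1 := (D.sx_zero hX).1 ha
      rw [D.pt_dsp hM] at h1
      obtain ⟨g', hg', hi'⟩ := perm1 FF h3 hg hac h1
      rw [← hg']
      exact (anyb g' hi').1
  have hone : ∀ a, D.sx M X a = 1 → D.sx M Y a = 1 := by
    intro a ha
    obtain ⟨g', hi', n0, n1, n2, n3⟩ := D.exists_avoid BF hLa hM hg ha
    exact (anyb g' hi').2 a n0 n1 n2 n3
  obtain ⟨s0, s1, s2, s3, s4⟩ := D.inC_sx hM hg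
  have h23 : D.sx M X g.a2 ≤ D.sx M X g.a3 := by rw [s2, s3]; linarith [hg.1 1]
  have x2 := D.sx_bnd hX g.a2
  have x3 := D.sx_bnd hX g.a3
  intro a
  have hyb := D.sx_bnd hYc a
  have hxb := D.sx_bnd hX a
  constructor
  · -- lower bound
    rcases hxb.2.eq_or_lt with h1 | h1
    · rw [h1, hone a h1, mul_one, Nat.floor_natCast]
    rcases hxb.1.eq_or_lt with h0 | h0
    · rw [← h0, mul_zero, Nat.floor_zero, Nat.cast_zero]
      exact mul_nonneg hM'.le hyb.1
    have ha : a = g.a2 ∨ a = g.a3 := by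
      by_contra hcon
      push Not at hcon
      have n0 : a ≠ c := by rintro rfl; rw [s0] at h0; exact lt_irrefl _ h0
      have n1 : a ≠ g.a1 := by rintro rfl; rw [s1] at h0; exact lt_irrefl _ h0
      rw [s4 a n0 n1 hcon.1 hcon.2] at h1
      exact lt_irrefl _ h1
    have hMx : 0 ≤ M * D.sx M X a := mul_nonneg hM'.le hxb.1
    have hlt : ⌊(M : ℝ) * D.sx M X a⌋₊ < M := by
      rw [Nat.floor_lt hMx]; nlinarith
    have hfl := Nat.floor_le hMx
    have hfl2 := (Nat.lt_floor_add_one ((M : ℝ) * D.sx M X a)).le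
    rcases ha with rfl | rfl
    · obtain ⟨i, hji, i1, i2⟩ := exists_above (j := ⟨_, hlt⟩) h23 x2.1 x3.2 hfl
      exact (D.box_of_CC hN BF hLa hQ hM t ht hX hY hg hji hfl hfl2 i1 i2).1.1
    · obtain ⟨j, hji, j1, j2⟩ := exists_below (i := ⟨_, hlt⟩) h23 x2.1 x3.2 hfl2
      exact (D.box_of_CC hN BF hLa hQ hM t ht hX hY hg hji j1 j2 hfl hfl2).2.1.1
  · -- upper bound
    rcases hxb.1.eq_or_lt with h0 | h0
    · rw [← h0, hzero a h0.symm, mul_zero, Nat.ceil_zero, Nat.cast_zero]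
    rcases hxb.2.eq_or_lt with h1 | h1
    · rw [h1, mul_one, Nat.ceil_natCast]
      have := mul_le_mul_of_nonneg_left hyb.2 hM'.le
      linarith
    have ha : a = g.a2 ∨ a = g.a3 := by
      by_contra hcon
      push Not at hcon
      have n0 : a ≠ c := by rintro rfl; rw [s0] at h0; exact lt_irrefl _ h0
      have n1 : a ≠ g.a1 := by rintro rfl; rw [s1] at h0; exact lt_irrefl _ h0
      rw [s4 a n0 n1 hcon.1 hcon.2] at h1
      exact lt_irrefl _ h1
    have hMx : 0 < M * D.sx M X a := mul_pos hM' h0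
    have hc1 := Nat.ceil_pos.2 hMx
    have hcM : ⌈(M : ℝ) * D.sx M X a⌉₊ ≤ M := Nat.ceil_le.2 (by nlinarith)
    set n := ⌈(M : ℝ) * D.sx M X a⌉₊ with hn
    have hlt : n - 1 < M := by omega
    have hcast : (((n - 1 : ℕ) : ℝ)) + 1 = n := by
      have : n - 1 + 1 = n := by omega
      exact_mod_cast this
    have hfl2 : M * D.sx M X a ≤ ((n - 1 : ℕ) : ℝ) + 1 := by
      rw [hcast]; exact Nat.le_ceil _
    have hfl : ((n - 1 : ℕ) : ℝ) ≤ M * D.sx M X a := by
      have := Nat.ceil_lt_add_one hMx.le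
      rw [← hn] at this
      linarith
    rcases ha with rfl | rfl
    · obtain ⟨i, hji, i1, i2⟩ := exists_above (j := ⟨_, hlt⟩) h23 x2.1 x3.2 hfl
      have := (D.box_of_CC hN BF hLa hQ hM t ht hX hY hg hji hfl hfl2 i1 i2).1.2
      rw [← hcast]
      exact this
    · obtain ⟨j, hji, j1, j2⟩ := exists_below (i := ⟨_, hlt⟩) h23 x2.1 x3.2 hfl2
      have := (D.box_of_CC hN BF hLa hQ hM t ht hX hY hg hji j1 j2 hfl hfl2).2.1.2
      rw [← hcast]
      exact this

/-- **the smallest face of a boundary point is the closed grid cell** -/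
theorem mem_CC_iff {X Y : Fin 3 → ℝ} (hX : D.pt M X ∈ Pc F c) (hB : D.OnB M X) :
    Y ∈ (D.shell hN BF hLa hQ hM t ht).CC X ↔ D.pt M Y ∈ Pc F c ∧ D.FC M X Y :=
  ⟨D.fc_of_mem_CC hN BF hLa hQ hM t ht hX hB,
    fun h => D.mem_CC_of_fc hN BF hLa hQ hM t ht hX h.1 h.2⟩

end BD

end Crest.Agent.R096.Fbr_628
end

-- ▼ part R096/Fbr9_628
section

/-!
# Row 96, FAN (helper628), part 9: the dimension of the closed cells of the boundary of the brick
-/

set_option autoImplicit false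
set_option linter.unusedSectionVars false

open Set

namespace Crest.Agent.R096.Fbr_628

open Crest.Agent.R096.Brk1_582 Crest.Agent.R096.Brk2_582 Crest.Agent.R096.Grd_714
  Crest.Agent.R096.Brk3_582 Crest.Agent.R096.Brk5_582 Crest.Agent.R096.Bsp_628
  Crest.Agent.R096.Mal_874 Crest.Agent.R096.Cut_874

variable {La : Set (Fin 3 → ℝ)} {F : Set (Bx (Fin 3))} {δ κ0 : ℝ} {N : ℕ}

/-- the label has a value between two consecutive grid values -/
def NI (M : ℕ) (s : ℝ) : Prop := ⌊(M : ℝ) * s⌋₊ < ⌈(M : ℝ) * s⌉₊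

theorem not_NI_iff {M : ℕ} {s : ℝ} (hs : 0 ≤ s) : ¬ NI M s ↔ ∃ n : ℕ, (M : ℝ) * s = n := by
  have h0 : (0 : ℝ) ≤ M * s := mul_nonneg (Nat.cast_nonneg _) hs
  unfold NI
  rw [not_lt]
  constructor
  · intro h
    refine ⟨⌊(M : ℝ) * s⌋₊, le_antisymm ?_ (Nat.floor_le h0)⟩
    exact (Nat.le_ceil _).trans (by exact_mod_cast h)
  · rintro ⟨n, hn⟩
    rw [hn, Nat.ceil_natCast, Nat.floor_natCast]

theorem NI.lt {M : ℕ} {s : ℝ} (h : NI M s) (hs : 0 ≤ s) : (⌊(M : ℝ) * s⌋₊ : ℝ) < M * s ∧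
    M * s < ⌈(M : ℝ) * s⌉₊ := by
  have h0 : (0 : ℝ) ≤ M * s := mul_nonneg (Nat.cast_nonneg _) hs
  constructor
  · refine lt_of_le_of_ne (Nat.floor_le h0) fun e => ?_
    exact (not_NI_iff hs).2 ⟨_, e.symm⟩ h
  · refine lt_of_le_of_ne (Nat.le_ceil _) fun e => ?_
    exact (not_NI_iff hs).2 ⟨_, e⟩ h

namespace BD

variable {FF : Foam La (Pc F) (bc (F := F)) N} {h3 : Module.finrank ℝ (Fin 3 → ℝ) = 3} {c : F}
  {o : Fin 3 → ℝ} {B : ℝ} (D : BD FF h3 c o B) {M : ℕ}

/-- moving a point -/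
theorem dsp_move (hM : 0 < M) (X v : Fin 3 → ℝ) (η : ℝ) :
    D.dsp M 0 (X + (η * (M / D.w)) • v) = D.dsp M 0 X + η • v := by
  have hM' : (M : ℝ) ≠ 0 := by exact_mod_cast hM.ne'
  have hw := D.w0.ne'
  funext l
  have e : ∀ Z : Fin 3 → ℝ, D.dsp M 0 Z l = D.w / M * (Z l - M * D.z l) := fun Z => if_pos rfl
  rw [e, Pi.add_apply, Pi.add_apply, e, Pi.smul_apply, Pi.smul_apply, smul_eq_mul, smul_eq_mul]
  field_simp
  ring

theorem dsp_move' (hM : 0 < M) (X v : Fin 3 → ℝ) (ε : ℝ) :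
    D.dsp M 0 (X + ε • v) = D.dsp M 0 X + (ε * (D.w / M)) • v := by
  have hM' : (M : ℝ) ≠ 0 := by exact_mod_cast hM.ne'
  have hw := D.w0.ne'
  funext l
  have e : ∀ Z : Fin 3 → ℝ, D.dsp M 0 Z l = D.w / M * (Z l - M * D.z l) := fun Z => if_pos rfl
  rw [e, Pi.add_apply, Pi.add_apply, e, Pi.smul_apply, Pi.smul_apply, smul_eq_mul, smul_eq_mul]
  field_simp
  ring

variable (hN : N ≤ 4) (BF : BoxFoam La F δ κ0) (hLa : IsOpen La)
  (hQ : Quads (Pc F) (bc (F := F))) (hM : 0 < M) (t : ℤ) (ht : 0 < t)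

/-- the two directions of a flag in the facet -/
noncomputable def d1 (g : Flg (Pc F) c) : Fin 3 → ℝ :=
  dir (bc (F := F)) g 0 - dir (bc (F := F)) g 1

noncomputable def d2 (g : Flg (Pc F) c) : Fin 3 → ℝ :=
  dir (bc (F := F)) g 1 - dir (bc (F := F)) g 2

theorem cf_d1 (FF : Foam La (Pc F) (bc (F := F)) N) (h3 : Module.finrank ℝ (Fin 3 → ℝ) = 3)
    (g : Flg (Pc F) c) : cf FF h3 g 0 (d1 g) = 1 ∧ cf FF h3 g 1 (d1 g) = -1 ∧
    cf FF h3 g 2 (d1 g) = 0 := by
  unfold d1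
  simp only [map_sub, cf_dir]
  refine ⟨?_, ?_, ?_⟩ <;> simp

theorem cf_d2 (FF : Foam La (Pc F) (bc (F := F)) N) (h3 : Module.finrank ℝ (Fin 3 → ℝ) = 3)
    (g : Flg (Pc F) c) : cf FF h3 g 0 (d2 g) = 0 ∧ cf FF h3 g 1 (d2 g) = 1 ∧
    cf FF h3 g 2 (d2 g) = -1 := by
  unfold d2
  simp only [map_sub, cf_dir]
  refine ⟨?_, ?_, ?_⟩ <;> simp

theorem d1_mem {X : Fin 3 → ℝ} (hX : D.pt M X ∈ Pc F c) {g : Flg (Pc F) c}
    (hg : InC FF h3 g (D.dsp M 0 X)) (hn : NI M (D.sx M X g.a2)) :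
    d1 g ∈ (D.shell hN BF hLa hQ hM t ht).VV X := by
  have hM' : (0 : ℝ) < M := by exact_mod_cast hM
  obtain ⟨s0, s1, s2, s3, s4⟩ := D.inC_sx hM hg
  have hb := D.sx_bnd hX g.a2
  obtain ⟨n1, n2⟩ := hn.lt hb.1
  set A := cf FF h3 g 0 (D.dsp M 0 X) with hA
  have hgap : 0 < M * D.sx M X g.a2 - ⌊(M : ℝ) * D.sx M X g.a2⌋₊ := by linarith
  set η := (M * D.sx M X g.a2 - ⌊(M : ℝ) * D.sx M X g.a2⌋₊) / M with hη
  have hη0 : 0 < η := div_pos hgap hM'
  have hηM : M * η = M * D.sx M X g.a2 - ⌊(M : ℝ) * D.sx M X g.a2⌋₊ := by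
    rw [hη]; field_simp
  have hηA : η ≤ A := by
    have h5 : (0 : ℝ) ≤ (⌊(M : ℝ) * D.sx M X g.a2⌋₊ : ℝ) := Nat.cast_nonneg _
    have h6 : M * η ≤ M * A := by rw [hηM, ← s2]; linarith
    exact le_of_mul_le_mul_left h6 hM'
  set Y := X + ((-η) * (M / D.w)) • d1 g with hY
  have hdY : D.dsp M 0 Y = D.dsp M 0 X + (-η) • d1 g := D.dsp_move hM X (d1 g) (-η)
  obtain ⟨e0, e1, e2⟩ := cf_d1 FF h3 g
  have f0 : cf FF h3 g 0 (D.dsp M 0 Y) = A - η := by
    rw [hdY, map_add, map_smul, e0, smul_eq_mul]; ring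
  have f1 : cf FF h3 g 1 (D.dsp M 0 Y) = cf FF h3 g 1 (D.dsp M 0 X) + η := by
    rw [hdY, map_add, map_smul, e1, smul_eq_mul]; ring
  have f2 : cf FF h3 g 2 (D.dsp M 0 Y) = cf FF h3 g 2 (D.dsp M 0 X) := by
    rw [hdY, map_add, map_smul, e2, smul_eq_mul]; ring
  have hIY : InC FF h3 g (D.dsp M 0 Y) := by
    refine ⟨?_, ?_⟩
    · intro k
      fin_cases k
      · show 0 ≤ cf FF h3 g 0 (D.dsp M 0 Y)
        rw [f0]; linarith
      · show 0 ≤ cf FF h3 g 1 (D.dsp M 0 Y)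
        rw [f1]; linarith [hg.1 1]
      · show 0 ≤ cf FF h3 g 2 (D.dsp M 0 Y)
        rw [f2]; exact hg.1 2
    · have := hg.2
      rw [wf_apply] at this ⊢
      rw [f0, f1, f2]
      linarith
  obtain ⟨t0, t1, t2, t3, t4⟩ := D.inC_sx hM hIY
  have hYc : D.pt M Y ∈ Pc F c := by rw [D.pt_dsp hM]; exact hIY.mem FF h3
  have hFC : D.FC M X Y := by
    intro a
    by_cases a2 : a = g.a2
    · rw [a2, t2, f0]
      have e : (M : ℝ) * (A - η) = ⌊(M : ℝ) * D.sx M X g.a2⌋₊ := by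
        rw [mul_sub, hηM, s2]; ring
      rw [e]
      exact ⟨le_rfl, by linarith⟩
    · have : D.sx M Y a = D.sx M X a := by
        by_cases a0 : a = c
        · rw [a0, t0, s0]
        by_cases a1 : a = g.a1
        · rw [a1, t1, s1]
        by_cases a3 : a = g.a3
        · rw [a3, t3, s3, f0, f1]; ring
        · rw [t4 a a0 a1 a2 a3, s4 a a0 a1 a2 a3]
      rw [this]
      exact ⟨Nat.floor_le (mul_nonneg hM'.le (D.sx_bnd hX a).1), Nat.le_ceil _⟩
  have h5 := PS.sub_mem_VV _ (D.mem_CC_of_fc hN BF hLa hQ hM t ht hX hYc hFC)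
  have e : Y - X = ((-η) * (M / D.w)) • d1 g := by rw [hY]; abel
  rw [e] at h5
  refine (Submodule.smul_mem_iff _ ?_).1 h5
  have hw := D.w0
  have : 0 < M / D.w := div_pos hM' hw
  exact mul_ne_zero (neg_ne_zero.2 hη0.ne') this.ne'

theorem d2_mem {X : Fin 3 → ℝ} (hX : D.pt M X ∈ Pc F c) {g : Flg (Pc F) c}
    (hg : InC FF h3 g (D.dsp M 0 X)) (hn : NI M (D.sx M X g.a3)) :
    d2 g ∈ (D.shell hN BF hLa hQ hM t ht).VV X := by
  have hM' : (0 : ℝ) < M := by exact_mod_cast hM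
  obtain ⟨s0, s1, s2, s3, s4⟩ := D.inC_sx hM hg
  have hb := D.sx_bnd hX g.a3
  obtain ⟨n1, n2⟩ := hn.lt hb.1
  have hgap : 0 < ⌈(M : ℝ) * D.sx M X g.a3⌉₊ - M * D.sx M X g.a3 := by linarith
  set η := (⌈(M : ℝ) * D.sx M X g.a3⌉₊ - M * D.sx M X g.a3) / M with hη
  have hη0 : 0 < η := div_pos hgap hM'
  have hηM : M * η = ⌈(M : ℝ) * D.sx M X g.a3⌉₊ - M * D.sx M X g.a3 := by
    rw [hη]; field_simp
  have hsum := hg.2
  rw [wf_apply] at hsum
  have hηC : η ≤ cf FF h3 g 2 (D.dsp M 0 X) := by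
    have h5 : ⌈(M : ℝ) * D.sx M X g.a3⌉₊ ≤ M := Nat.ceil_le.2 (by nlinarith [hb.2])
    have h5' : ((⌈(M : ℝ) * D.sx M X g.a3⌉₊ : ℕ) : ℝ) ≤ M := by exact_mod_cast h5
    have h6 : M * η ≤ M * cf FF h3 g 2 (D.dsp M 0 X) := by
      have h7 : M * cf FF h3 g 2 (D.dsp M 0 X) = M - M * D.sx M X g.a3 := by
        rw [s3]; linear_combination M * hsum
      rw [hηM, h7]; linarith
    exact le_of_mul_le_mul_left h6 hM'
  set Y := X + (η * (M / D.w)) • d2 g with hY
  have hdY : D.dsp M 0 Y = D.dsp M 0 X + η • d2 g := D.dsp_move hM X (d2 g) η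
  obtain ⟨e0, e1, e2⟩ := cf_d2 FF h3 g
  have f0 : cf FF h3 g 0 (D.dsp M 0 Y) = cf FF h3 g 0 (D.dsp M 0 X) := by
    rw [hdY, map_add, map_smul, e0, smul_eq_mul]; ring
  have f1 : cf FF h3 g 1 (D.dsp M 0 Y) = cf FF h3 g 1 (D.dsp M 0 X) + η := by
    rw [hdY, map_add, map_smul, e1, smul_eq_mul]; ring
  have f2 : cf FF h3 g 2 (D.dsp M 0 Y) = cf FF h3 g 2 (D.dsp M 0 X) - η := by
    rw [hdY, map_add, map_smul, e2, smul_eq_mul]; ring
  have hIY : InC FF h3 g (D.dsp M 0 Y) := by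
    refine ⟨?_, ?_⟩
    · intro k
      fin_cases k
      · show 0 ≤ cf FF h3 g 0 (D.dsp M 0 Y)
        rw [f0]; exact hg.1 0
      · show 0 ≤ cf FF h3 g 1 (D.dsp M 0 Y)
        rw [f1]; linarith [hg.1 1]
      · show 0 ≤ cf FF h3 g 2 (D.dsp M 0 Y)
        rw [f2]; linarith
    · rw [wf_apply, f0, f1, f2]
      linarith
  obtain ⟨t0, t1, t2, t3, t4⟩ := D.inC_sx hM hIY
  have hYc : D.pt M Y ∈ Pc F c := by rw [D.pt_dsp hM]; exact hIY.mem FF h3
  have hFC : D.FC M X Y := by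
    intro a
    by_cases a3 : a = g.a3
    · rw [a3, t3, f0, f1]
      have e : (M : ℝ) * (cf FF h3 g 0 (D.dsp M 0 X) + (cf FF h3 g 1 (D.dsp M 0 X) + η)) =
          ⌈(M : ℝ) * D.sx M X g.a3⌉₊ := by
        have : (M : ℝ) * (cf FF h3 g 0 (D.dsp M 0 X) + (cf FF h3 g 1 (D.dsp M 0 X) + η)) =
          M * D.sx M X g.a3 + M * η := by rw [s3]; ring
        rw [this, hηM]; ring
      rw [e]
      exact ⟨by linarith, le_rfl⟩
    · have : D.sx M Y a = D.sx M X a := by
        by_cases a0 : a = c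
        · rw [a0, t0, s0]
        by_cases a1 : a = g.a1
        · rw [a1, t1, s1]
        by_cases a2 : a = g.a2
        · rw [a2, t2, s2, f0]
        · rw [t4 a a0 a1 a2 a3, s4 a a0 a1 a2 a3]
      rw [this]
      exact ⟨Nat.floor_le (mul_nonneg hM'.le (D.sx_bnd hX a).1), Nat.le_ceil _⟩
  have h5 := PS.sub_mem_VV _ (D.mem_CC_of_fc hN BF hLa hQ hM t ht hX hYc hFC)
  have e : Y - X = (η * (M / D.w)) • d2 g := by rw [hY]; abel
  rw [e] at h5
  refine (Submodule.smul_mem_iff _ ?_).1 h5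
  have hw := D.w0
  have : 0 < M / D.w := div_pos hM' hw
  exact mul_ne_zero hη0.ne' this.ne'

/-- **a direction of the smallest face in the directions of the flag** -/
theorem of_mem_VV {X v : Fin 3 → ℝ} (hX : D.pt M X ∈ Pc F c) (hB : D.OnB M X) {g : Flg (Pc F) c}
    (hg : InC FF h3 g (D.dsp M 0 X)) (hv : v ∈ (D.shell hN BF hLa hQ hM t ht).VV X) :
    v = cf FF h3 g 0 v • d1 g + (cf FF h3 g 0 v + cf FF h3 g 1 v) • d2 g ∧
      (¬ NI M (D.sx M X g.a2) → cf FF h3 g 0 v = 0) ∧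
      (¬ NI M (D.sx M X g.a3) → cf FF h3 g 0 v + cf FF h3 g 1 v = 0) := by
  have hM' : (0 : ℝ) < M := by exact_mod_cast hM
  obtain ⟨ε, hε, hmv⟩ := PS.exists_move _ hv
  obtain ⟨hYc, hFC⟩ := D.fc_of_mem_CC hN BF hLa hQ hM t ht hX hB hmv
  set Y := X + ε • v with hY
  obtain ⟨s0, s1, s2, s3, s4⟩ := D.inC_sx hM hg
  have hdY : D.dsp M 0 Y = D.dsp M 0 X + (ε * (D.w / M)) • v := D.dsp_move' hM X v ε
  set r := ε * (D.w / M) with hr
  have hr0 : 0 < r := mul_pos hε (div_pos D.w0 hM')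
  -- the wall functional
  have hwv : wf FF h3 g v = 0 := by
    obtain ⟨l0, ε', hf⟩ := exists_fct_of_flag BF g
    have hYa : D.pt M Y ∈ Pc F g.a1 := (D.sx_zero hYc).1 (hFC.zero hM s1)
    have hYc' := hYc
    rw [D.pt_dsp hM] at hYa hYc'
    have h1 := D.wf_one hf (hf.coord hYc' hYa)
    rw [hdY, map_add, map_smul, hg.2, smul_eq_mul] at h1
    have : r * wf FF h3 g v = 0 := by linarith
    exact (mul_eq_zero.1 this).resolve_left hr0.ne'
  rw [wf_apply] at hwv
  refine ⟨?_, ?_, ?_⟩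
  · have h2 : cf FF h3 g 2 v = -(cf FF h3 g 0 v + cf FF h3 g 1 v) := by linarith
    conv_lhs => rw [← cf_sum FF h3 g v, h2]
    unfold d1 d2
    module
  · intro hn
    obtain ⟨n, hn⟩ := (not_NI_iff (D.sx_bnd hX g.a2).1).1 hn
    have h1 := hFC.nat hM hn
    have h2 : D.sx M Y g.a2 = D.sx M X g.a2 := by
      have : (M : ℝ) * D.sx M Y g.a2 = M * D.sx M X g.a2 := by rw [h1, hn]
      exact mul_left_cancel₀ hM'.ne' this
    have h23 : D.sx M Y g.a2 ≤ D.sx M Y g.a3 := by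
      have h5 := (hFC g.a3).1
      have h6 : (n : ℝ) ≤ ⌊(M : ℝ) * D.sx M X g.a3⌋₊ := by
        have : n ≤ ⌊(M : ℝ) * D.sx M X g.a3⌋₊ := by
          refine Nat.le_floor ?_
          rw [← hn]
          refine mul_le_mul_of_nonneg_left ?_ hM'.le
          rw [s2, s3]; linarith [hg.1 1]
        exact_mod_cast this
      have h7 : M * D.sx M Y g.a2 ≤ M * D.sx M Y g.a3 := by rw [h1]; linarith
      exact le_of_mul_le_mul_left h7 hM'
    obtain ⟨c0, -, -⟩ := cf_of_sc FF h3 g hYc (hFC.zero hM s1) h23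
      fun a a0 a1 a2 a3 => hFC.one hM (s4 a a0 a1 a2 a3)
    rw [D.pt_dsp hM, add_sub_cancel_left, ← D.pt_dsp hM] at c0
    change _ = D.sx M Y g.a2 at c0
    rw [h2, s2, hdY, map_add, map_smul, smul_eq_mul] at c0
    have : r * cf FF h3 g 0 v = 0 := by linarith
    exact (mul_eq_zero.1 this).resolve_left hr0.ne'
  · intro hn
    obtain ⟨n, hn⟩ := (not_NI_iff (D.sx_bnd hX g.a3).1).1 hn
    have h1 := hFC.nat hM hn
    have h2 : D.sx M Y g.a3 = D.sx M X g.a3 := by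
      have : (M : ℝ) * D.sx M Y g.a3 = M * D.sx M X g.a3 := by rw [h1, hn]
      exact mul_left_cancel₀ hM'.ne' this
    have h23 : D.sx M Y g.a2 ≤ D.sx M Y g.a3 := by
      have h5 := (hFC g.a2).2
      have h6 : (⌈(M : ℝ) * D.sx M X g.a2⌉₊ : ℝ) ≤ n := by
        have : ⌈(M : ℝ) * D.sx M X g.a2⌉₊ ≤ n := by
          refine Nat.ceil_le.2 ?_
          rw [← hn]
          refine mul_le_mul_of_nonneg_left ?_ hM'.le
          rw [s2, s3]; linarith [hg.1 1]
        exact_mod_cast this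
      have h7 : M * D.sx M Y g.a2 ≤ M * D.sx M Y g.a3 := by rw [h1]; linarith
      exact le_of_mul_le_mul_left h7 hM'
    obtain ⟨-, c1, -⟩ := cf_of_sc FF h3 g hYc (hFC.zero hM s1) h23
      fun a a0 a1 a2 a3 => hFC.one hM (s4 a a0 a1 a2 a3)
    rw [D.pt_dsp hM, add_sub_cancel_left, ← D.pt_dsp hM] at c1
    change _ = D.sx M Y g.a3 at c1
    rw [h2, s3, hdY] at c1
    simp only [map_add, map_smul, smul_eq_mul] at c1
    have : r * (cf FF h3 g 0 v + cf FF h3 g 1 v) = 0 := by linarith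
    exact (mul_eq_zero.1 this).resolve_left hr0.ne'

include BF hLa hQ hN in
/-- **the dimension of the smallest face of a boundary point** -/
theorem finrank_VV {X : Fin 3 → ℝ} (hX : D.pt M X ∈ Pc F c) (hB : D.OnB M X) :
    Module.finrank ℝ ((D.shell hN BF hLa hQ hM t ht).VV X) =
      {a : F | ⌊(M : ℝ) * D.sx M X a⌋₊ < ⌈(M : ℝ) * D.sx M X a⌉₊}.ncard := by
  obtain ⟨g, hg⟩ := hB.inC D hN BF hLa hM hX
  obtain ⟨s0, s1, s2, s3, s4⟩ := D.inC_sx hM hg
  -- the labels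
  have hset : ∀ a : F, NI M (D.sx M X a) → a = g.a2 ∨ a = g.a3 := by
    intro a ha
    by_contra hcon
    push Not at hcon
    have key : ∀ n : ℕ, M * D.sx M X a = n → False := fun n hn =>
      (not_NI_iff (D.sx_bnd hX a).1).2 ⟨n, hn⟩ ha
    by_cases a0 : a = c
    · rw [a0, s0] at key
      exact key 0 (by simp)
    by_cases a1 : a = g.a1
    · rw [a1, s1] at key
      exact key 0 (by simp)
    · rw [s4 a a0 a1 hcon.1 hcon.2] at key
      exact key M (by simp)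
  obtain ⟨p0, p1, p2⟩ := cf_d1 FF h3 g
  obtain ⟨q0, q1, q2⟩ := cf_d2 FF h3 g
  have h1ne : d1 g ≠ 0 := by
    intro h
    rw [h, map_zero] at p0
    exact zero_ne_one p0
  have h2ne : d2 g ≠ 0 := by
    intro h
    rw [h, map_zero] at q1
    exact zero_ne_one q1
  set V := (D.shell hN BF hLa hQ hM t ht).VV X with hV
  have hof := fun v (hv : v ∈ V) => D.of_mem_VV hN BF hLa hQ hM t ht hX hB hg hv
  by_cases n2 : NI M (D.sx M X g.a2)
  · have m1 : d1 g ∈ V := D.d1_mem hN BF hLa hQ hM t ht hX hg n2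
    by_cases n3 : NI M (D.sx M X g.a3)
    · have m2 : d2 g ∈ V := D.d2_mem hN BF hLa hQ hM t ht hX hg n3
      have e1 : {a : F | ⌊(M : ℝ) * D.sx M X a⌋₊ < ⌈(M : ℝ) * D.sx M X a⌉₊} = {g.a2, g.a3} := by
        ext a
        constructor
        · intro ha
          exact hset a ha
        · rintro (rfl | rfl)
          · exact n2
          · exact n3
      rw [e1, ncard_pair g.h23]
      have hli : LinearIndependent ℝ ![d1 g, d2 g] := by
        rw [LinearIndependent.pair_iff]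
        intro x y hxy
        have k0 := congrArg (cf FF h3 g 0) hxy
        have k1 := congrArg (cf FF h3 g 1) hxy
        simp only [map_add, map_smul, smul_eq_mul, map_zero, p0, p1, q0, q1] at k0 k1
        constructor <;> linarith
      have e2 : V = Submodule.span ℝ (Set.range ![d1 g, d2 g]) := by
        apply le_antisymm
        · intro v hv
          rw [(hof v hv).1]
          exact add_mem (Submodule.smul_mem _ _ (Submodule.subset_span ⟨0, rfl⟩))
            (Submodule.smul_mem _ _ (Submodule.subset_span ⟨1, rfl⟩))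
        · rw [Submodule.span_le]
          rintro _ ⟨k, rfl⟩
          fin_cases k
          · exact m1
          · exact m2
      rw [e2, finrank_span_eq_card hli, Fintype.card_fin]
    · have e1 : {a : F | ⌊(M : ℝ) * D.sx M X a⌋₊ < ⌈(M : ℝ) * D.sx M X a⌉₊} = {g.a2} := by
        ext a
        constructor
        · intro ha
          rcases hset a ha with h | h
          · exact h
          · exact absurd (h ▸ ha : NI M (D.sx M X g.a3)) n3
        · rintro rfl
          exact n2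
      rw [e1, ncard_singleton]
      have e2 : V = Submodule.span ℝ {d1 g} := by
        apply le_antisymm
        · intro v hv
          obtain ⟨h5, -, h6⟩ := hof v hv
          rw [h5, h6 n3, zero_smul, add_zero]
          exact Submodule.smul_mem _ _ (Submodule.mem_span_singleton_self _)
        · rw [Submodule.span_le, singleton_subset_iff]
          exact m1
      rw [e2, finrank_span_singleton h1ne]
  · by_cases n3 : NI M (D.sx M X g.a3)
    · have m2 : d2 g ∈ V := D.d2_mem hN BF hLa hQ hM t ht hX hg n3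
      have e1 : {a : F | ⌊(M : ℝ) * D.sx M X a⌋₊ < ⌈(M : ℝ) * D.sx M X a⌉₊} = {g.a3} := by
        ext a
        constructor
        · intro ha
          rcases hset a ha with h | h
          · exact absurd (h ▸ ha : NI M (D.sx M X g.a2)) n2
          · exact h
        · rintro rfl
          exact n3
      rw [e1, ncard_singleton]
      have e2 : V = Submodule.span ℝ {d2 g} := by
        apply le_antisymm
        · intro v hv
          obtain ⟨h5, h6, -⟩ := hof v hv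
          rw [h5, h6 n2, zero_smul, zero_add]
          exact Submodule.smul_mem _ _ (Submodule.mem_span_singleton_self _)
        · rw [Submodule.span_le, singleton_subset_iff]
          exact m2
      rw [e2, finrank_span_singleton h2ne]
    · have e1 : {a : F | ⌊(M : ℝ) * D.sx M X a⌋₊ < ⌈(M : ℝ) * D.sx M X a⌉₊} = ∅ := by
        ext a
        constructor
        · intro ha
          rcases hset a ha with h | h
          · exact n2 (h ▸ ha : NI M (D.sx M X g.a2))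
          · exact n3 (h ▸ ha : NI M (D.sx M X g.a3))
        · intro ha
          exact absurd ha (notMem_empty a)
      rw [e1, ncard_empty]
      have e2 : V = ⊥ := by
        rw [eq_bot_iff]
        intro v hv
        obtain ⟨h5, h6, h7⟩ := hof v hv
        rw [h7 n3, h6 n2, zero_smul, zero_smul, add_zero] at h5
        exact h5
      rw [e2, finrank_bot]

end BD

end Crest.Agent.R096.Fbr_628
end

-- ▼ part R096/Wd17_120

/-!
Row 96, exact cores (helper120), part 17: the grid clause for the blocks `blkD` of helper360 (628's prism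
shell in 874's block).
-/

set_option autoImplicit false
set_option linter.unusedSectionVars false
set_option linter.style.longLine false

open Set Filter Topology Metric MeasureTheory
open scoped ENNReal

namespace Crest.Agent.R096.Wd_120

open Crest.Agent.R096.Bsp_628 Crest.Agent.R096.Brk1_582 Crest.Agent.R096.Brk2_582
open Crest.Agent.R096.Brk3_582 Crest.Agent.R096.Brk5_582 Crest.Agent.R096.Grd_714
open Crest.Agent.R096.Msh_715 Crest.Agent.R096.Ls_222 Crest.Agent.R96.Sg1_199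
open Crest.Agent.R096.SkC1_961 (th)
open Crest.Agent.R096.Msh_810 (ps)
open Crest.Agent.R096.Bxs_627 (zz ctr)
open Crest.Agent.R096.Mal_874 Crest.Agent.R096.Mcc_715
open Crest.Agent.R096.Mdd_360 (blkD blkD_ps)

section shell

variable {La : Set (Fin 3 → ℝ)} {F : Set (Bx (Fin 3))} {δ κ0 : ℝ} {N : ℕ}
  {FF : Foam La (Pc F) (bc (F := F)) N}
  {h3 : Module.finrank ℝ (Fin 3 → ℝ) = 3} {c : F} {o : Fin 3 → ℝ} {B : ℝ} (D : Fbr_628.BD FF h3 c o B)
  (hN : N ≤ 4) (BF : BoxFoam La F δ κ0) (hLa : IsOpen La) (hQ : Quads (Pc F) (bc (F := F)))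
  {m : ℕ} (hm : 0 < m) {t : ℤ} (ht : 0 < t)

/-- **the grid clause of 628's shell** -/
theorem gridS_shell : GridS F (D.shell hN BF hLa hQ hm t ht) (D.pt m) m := by
  intro u hu hw
  have hP : D.pt m u ∈ Pc F c := (D.box_iff hm).1 hu
  have hB : D.OnB m u := hw
  refine ⟨?_, D.finrank_VV hN BF hLa hQ hm t ht hP hB⟩
  ext v
  have h1 := D.mem_CC_iff hN BF hLa hQ hm t ht hP hB (Y := v)
  refine (show v ∈ cell (D.shell hN BF hLa hQ hm t ht) u ↔
    v ∈ (D.shell hN BF hLa hQ hm t ht).CC u from Iff.rfl).trans (h1.trans ?_)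
  exact and_congr (D.box_iff hm).symm Iff.rfl

variable (A : (Fin 3 → ℝ) ≃ᵃ[ℝ] (Fin 3 → ℝ)) {lam : ℝ} (hl : 0 < lam)

/-- the exact map in the coordinates of the block -/
theorem th_blkD (y : Fin 3 → ℝ) : th A lam (zz c.1 lam) y =
    D.pt m (uc (blkD D hN BF hLa hQ hm ht A hl) y) := by
  funext l
  have h1 := blkD_ps D hN BF hLa hQ hm ht A hl y l
  show (A y l - zz c.1 lam l) / lam = o l + D.w / m * _
  rw [add_comm (o l), h1]
  rfl

/-- **the clause `grid` for the tiling of the block** (= `Blk.grid` of `Ea0_961`) -/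
theorem grid_blkD (k : ℕ) (hk : (blkD D hN BF hLa hQ hm ht A hl).kc ≤ k) :
    ∀ x ∈ (blkD D hN BF hLa hQ hm ht A hl).Kc,
      x ∉ I (((blkD D hN BF hLa hQ hm ht A hl).T k hk).H ((blkD D hN BF hLa hQ hm ht A hl).cix k hk)) →
      ((blkD D hN BF hLa hQ hm ht A hl).T k hk).cc x =
        {y | y ∈ (blkD D hN BF hLa hQ hm ht A hl).Kc ∧ ∀ a : F,
          (⌊m * sc (Pc F) (bc (F := F)) (th A lam (zz c.1 lam) x) a⌋₊ : ℝ) ≤
            m * sc (Pc F) (bc (F := F)) (th A lam (zz c.1 lam) y) a ∧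
          m * sc (Pc F) (bc (F := F)) (th A lam (zz c.1 lam) y) a ≤
            ⌈m * sc (Pc F) (bc (F := F)) (th A lam (zz c.1 lam) x) a⌉₊} ∧
      ((blkD D hN BF hLa hQ hm ht A hl).T k hk).dim x =
        {a : F | ⌊m * sc (Pc F) (bc (F := F)) (th A lam (zz c.1 lam) x) a⌋₊ <
          ⌈m * sc (Pc F) (bc (F := F)) (th A lam (zz c.1 lam) x) a⌉₊}.ncard := by
  intro x hx hn
  have hc := coreAt_T (blkD D hN BF hLa hQ hm ht A hl) k hk
  have h := hc.grid (gridS_shell D hN BF hLa hQ hm ht) (th_blkD D hN BF hLa hQ hm ht A hl) x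
    (by rw [hc.tile]; exact hx) hn
  rw [hc.tile] at h
  exact h


end shell

end Crest.Agent.R096.Wd_120
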