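import Crest.Agent.R096.Rel2_628
import Crest.Agent.R096.Brk5_582
import Crest.Agent.R096.Bxs1_627
import Crest.Agent.R096.Core3_124
import Crest.Agent.R096.Bxs2_627
import Crest.Agent.R096.Vb8_965
import Crest.Agent.R096.Ls4_222

-- ▼ part R096/Wd1_120
section

/-!
Row 96, exact cores (helper120), part 1: `T` is additive on comonotone vectors; the coordinates `sc`
along a direction parallel to an edge of the M-mesh.
-/

set_option autoImplicit false
set_option linter.unusedSectionVars false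

open Set Filter Topology

namespace Crest.Agent.R096.Wd_120

open Crest.Agent.R096.Brk1_582 Crest.Agent.R096.Rel_628

variable {I : Type*}

/-- comonotone vectors -/
def Com (u v : I → ℝ) : Prop := ∀ a b, u a < u b → v a ≤ v b

theorem Com.symm {u v : I → ℝ} (h : Com u v) : Com v u := by
  intro a b hab
  by_contra hcon
  push Not at hcon
  exact absurd (h b a hcon) (not_le.2 hab)

theorem Com.exists_max {u v : I → ℝ} (h : Com u v) {A : Finset I} (hA : A.Nonempty) :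
    ∃ c ∈ A, ∀ a ∈ A, u a ≤ u c ∧ v a ≤ v c := by
  obtain ⟨c, hc, hmax⟩ := Finset.exists_max_image A (fun a => u a + v a) hA
  refine ⟨c, hc, fun a ha => ?_⟩
  have h1 := hmax a ha
  constructor
  · by_contra hcon
    push Not at hcon
    have := h c a hcon
    linarith
  · by_contra hcon
    push Not at hcon
    have := h.symm c a hcon
    linarith

theorem Com.exists_min {u v : I → ℝ} (h : Com u v) {A : Finset I} (hA : A.Nonempty) :
    ∃ c ∈ A, ∀ a ∈ A, u c ≤ u a ∧ v c ≤ v a := by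
  obtain ⟨c, hc, hmax⟩ := Finset.exists_min_image A (fun a => u a + v a) hA
  refine ⟨c, hc, fun a ha => ?_⟩
  have h1 := hmax a ha
  constructor
  · by_contra hcon
    push Not at hcon
    have := h a c hcon
    linarith
  · by_contra hcon
    push Not at hcon
    have := h.symm a c hcon
    linarith

theorem fold_max_eq {u : I → ℝ} {A : Finset I} {c : I} (hc : c ∈ A) (hm : ∀ a ∈ A, u a ≤ u c)
    (h0 : 0 ≤ u c) : A.fold max 0 u = u c := by
  classical
  apply le_antisymm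
  · rw [Finset.fold_max_le]
    exact ⟨h0, hm⟩
  · rw [Finset.le_fold_max]
    exact Or.inr ⟨c, hc, le_rfl⟩

theorem fold_min_eq {u : I → ℝ} {A : Finset I} {c : I} (hc : c ∈ A) (hm : ∀ a ∈ A, u c ≤ u a)
    (h1 : u c ≤ 1) : A.fold min 1 u = u c := by
  classical
  apply le_antisymm
  · rw [Finset.fold_min_le]
    exact Or.inr ⟨c, hc, le_rfl⟩
  · rw [Finset.le_fold_min]
    exact ⟨h1, hm⟩

/-- `fold max` on a comonotone convex combination -/
theorem Com.fold_max {u v : I → ℝ} (h : Com u v) (hu : ∀ c, 0 ≤ u c) (hv : ∀ c, 0 ≤ v c)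
    (A : Finset I) : ∃ p q : ℝ, A.fold max 0 u = p ∧ A.fold max 0 v = q ∧
      (∀ l ∈ Icc (0 : ℝ) 1, A.fold max 0 (fun c => (1 - l) * u c + l * v c) = (1 - l) * p + l * q) ∧
      ((p = 0 ∧ q = 0) ∨ ∃ c ∈ A, u c = p ∧ v c = q) := by
  rcases A.eq_empty_or_nonempty with rfl | hA
  · exact ⟨0, 0, by simp, by simp, fun l _ => by simp, Or.inl ⟨rfl, rfl⟩⟩
  · obtain ⟨c, hc, hm⟩ := h.exists_max hA
    refine ⟨u c, v c, fold_max_eq hc (fun a ha => (hm a ha).1) (hu c),
      fold_max_eq hc (fun a ha => (hm a ha).2) (hv c), fun l hl => ?_, Or.inr ⟨c, hc, rfl, rfl⟩⟩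
    have h1 := hl.1
    have h2 : 0 ≤ 1 - l := by linarith [hl.2]
    refine fold_max_eq (u := fun c => (1 - l) * u c + l * v c) hc (fun a ha => ?_) ?_
    · exact add_le_add (mul_le_mul_of_nonneg_left (hm a ha).1 h2)
        (mul_le_mul_of_nonneg_left (hm a ha).2 h1)
    · exact add_nonneg (mul_nonneg h2 (hu c)) (mul_nonneg h1 (hv c))

theorem Com.fold_min {u v : I → ℝ} (h : Com u v) (hu : ∀ c, u c ≤ 1) (hv : ∀ c, v c ≤ 1)
    (A : Finset I) : ∃ p q : ℝ, A.fold min 1 u = p ∧ A.fold min 1 v = q ∧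
      (∀ l ∈ Icc (0 : ℝ) 1, A.fold min 1 (fun c => (1 - l) * u c + l * v c) = (1 - l) * p + l * q) ∧
      ((p = 1 ∧ q = 1) ∨ ∃ c ∈ A, u c = p ∧ v c = q) := by
  rcases A.eq_empty_or_nonempty with rfl | hA
  · exact ⟨1, 1, by simp, by simp, fun l _ => by simp, Or.inl ⟨rfl, rfl⟩⟩
  · obtain ⟨c, hc, hm⟩ := h.exists_min hA
    refine ⟨u c, v c, fold_min_eq hc (fun a ha => (hm a ha).1) (hu c),
      fold_min_eq hc (fun a ha => (hm a ha).2) (hv c), fun l hl => ?_, Or.inr ⟨c, hc, rfl, rfl⟩⟩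
    have h1 := hl.1
    have h2 : 0 ≤ 1 - l := by linarith [hl.2]
    refine fold_min_eq (u := fun c => (1 - l) * u c + l * v c) hc (fun a ha => ?_) ?_
    · exact add_le_add (mul_le_mul_of_nonneg_left (hm a ha).1 h2)
        (mul_le_mul_of_nonneg_left (hm a ha).2 h1)
    · have := mul_le_mul_of_nonneg_left (hu c) h2
      have := mul_le_mul_of_nonneg_left (hv c) h1
      linarith

section T

variable {E : Type*} [NormedAddCommGroup E] [NormedSpace ℝ E] [CompleteSpace E]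

/-- **`T` is affine on segments between comonotone vectors** -/
theorem T_comb (b : Set I → E) {u v : I → ℝ} (h : Com u v) (hu : ∀ c, u c ∈ Icc (0 : ℝ) 1)
    (hv : ∀ c, v c ∈ Icc (0 : ℝ) 1) (C : Finset I) (hC : ∀ c, c ∉ C → u c = 1 ∧ v c = 1) {l : ℝ}
    (hl : l ∈ Icc (0 : ℝ) 1) :
    T b (fun c => (1 - l) * u c + l * v c) = (1 - l) • T b u + l • T b v := by
  classical
  have h1 := hl.1
  have h2 : 0 ≤ 1 - l := by linarith [hl.2]
  have hw : ∀ c, (fun c => (1 - l) * u c + l * v c) c ∈ Icc (0 : ℝ) 1 := by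
    intro c
    refine ⟨add_nonneg (mul_nonneg h2 (hu c).1) (mul_nonneg h1 (hv c).1), ?_⟩
    have := mul_le_mul_of_nonneg_left (hu c).2 h2
    have := mul_le_mul_of_nonneg_left (hv c).2 h1
    simp only
    linarith
  rw [T_eq_sum b hw C (fun c hc => by
      have := hC c hc
      simp only [this.1, this.2]; ring), T_eq_sum b hu C (fun c hc => (hC c hc).1),
    T_eq_sum b hv C (fun c hc => (hC c hc).2), Finset.smul_sum, Finset.smul_sum,
    ← Finset.sum_add_distrib]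
  refine Finset.sum_congr rfl fun A _ => ?_
  rw [smul_smul, smul_smul, ← add_smul]
  congr 1
  obtain ⟨p, q, e1, e2, e3, e4⟩ := h.fold_max (fun c => (hu c).1) (fun c => (hv c).1) A
  obtain ⟨p', q', e1', e2', e3', e4'⟩ := h.fold_min (fun c => (hu c).2) (fun c => (hv c).2) (C \ A)
  rw [e3 l hl, e3' l hl, e1, e2, e1', e2']
  have hp : 0 ≤ p ∧ p ≤ 1 ∧ 0 ≤ q ∧ q ≤ 1 := by
    rcases e4 with ⟨rfl, rfl⟩ | ⟨c, -, rfl, rfl⟩
    · norm_num
    · exact ⟨(hu c).1, (hu c).2, (hv c).1, (hv c).2⟩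
  have hp' : 0 ≤ p' ∧ p' ≤ 1 ∧ 0 ≤ q' ∧ q' ≤ 1 := by
    rcases e4' with ⟨rfl, rfl⟩ | ⟨c, -, rfl, rfl⟩
    · norm_num
    · exact ⟨(hu c).1, (hu c).2, (hv c).1, (hv c).2⟩
  have hs : (p ≤ p' ∧ q ≤ q') ∨ (p' ≤ p ∧ q' ≤ q) := by
    rcases e4 with ⟨rfl, rfl⟩ | ⟨c, -, rfl, rfl⟩
    · exact Or.inl ⟨hp'.1, hp'.2.2.1⟩
    · rcases e4' with ⟨rfl, rfl⟩ | ⟨c', -, rfl, rfl⟩
      · exact Or.inl ⟨hp.2.1, hp.2.2.2⟩
      · rcases lt_trichotomy (u c) (u c') with h3 | h3 | h3
        · exact Or.inl ⟨h3.le, h _ _ h3⟩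
        · rcases le_total (v c) (v c') with h4 | h4
          · exact Or.inl ⟨h3.le, h4⟩
          · exact Or.inr ⟨h3.ge, h4⟩
        · exact Or.inr ⟨h3.le, h _ _ h3⟩
  rcases hs with ⟨a1, a2⟩ | ⟨a1, a2⟩
  · have b1 := mul_le_mul_of_nonneg_left a1 h2
    have b2 := mul_le_mul_of_nonneg_left a2 h1
    have c1 : (0 : ℝ) ≤ p' - p := by linarith
    have c2 : (0 : ℝ) ≤ q' - q := by linarith
    have c3 : (0 : ℝ) ≤ (1 - l) * p' + l * q' - ((1 - l) * p + l * q) := by linarith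
    rw [max_eq_left c1, max_eq_left c2, max_eq_left c3]
    ring
  · have b1 := mul_le_mul_of_nonneg_left a1 h2
    have b2 := mul_le_mul_of_nonneg_left a2 h1
    have c1 : p' - p ≤ 0 := by linarith
    have c2 : q' - q ≤ 0 := by linarith
    have c3 : (1 - l) * p' + l * q' - ((1 - l) * p + l * q) ≤ 0 := by linarith
    rw [max_eq_right c1, max_eq_right c2, max_eq_right c3]
    ring

/-- **increments of `T`** -/
theorem T_incr (b : Set I → E) {u0 u1 v v' : I → ℝ} {τ : ℝ} (hτ : 0 ≤ τ)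
    (he : ∀ c, v' c + τ * u0 c = v c + τ * u1 c) (h0 : Com v' u0) (h1 : Com v u1)
    (hu0 : ∀ c, u0 c ∈ Icc (0 : ℝ) 1) (hu1 : ∀ c, u1 c ∈ Icc (0 : ℝ) 1)
    (hv : ∀ c, v c ∈ Icc (0 : ℝ) 1) (hv' : ∀ c, v' c ∈ Icc (0 : ℝ) 1)
    (C : Finset I) (hC : ∀ c, c ∉ C → u0 c = 1 ∧ u1 c = 1 ∧ v c = 1 ∧ v' c = 1) :
    T b v' - T b v = τ • (T b u1 - T b u0) := by
  have hpos : 0 < 1 + τ := by linarith
  set l : ℝ := τ / (1 + τ) with hl
  have hl0 : 0 ≤ l := by positivity
  have hl1 : l ≤ 1 := by rw [hl, div_le_one hpos]; linarith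
  have e1 : 1 - l = 1 / (1 + τ) := by rw [hl]; field_simp; ring
  have E0 := T_comb b h0 hv' hu0 C (fun c hc => ⟨(hC c hc).2.2.2, (hC c hc).1⟩) ⟨hl0, hl1⟩
  have E1 := T_comb b h1 hv hu1 C (fun c hc => ⟨(hC c hc).2.2.1, (hC c hc).2.1⟩) ⟨hl0, hl1⟩
  have e2 : (fun c => (1 - l) * v' c + l * u0 c) = fun c => (1 - l) * v c + l * u1 c := by
    funext c
    have := he c
    rw [e1, hl]
    field_simp
    linarith
  rw [e2, E1] at E0
  have e3 : (1 - l) • (T b v' - T b v) = l • (T b u1 - T b u0) := by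
    rw [smul_sub, smul_sub]
    have e4 : (1 - l) • T b v' = (1 - l) • T b v + l • T b u1 - l • T b u0 := by
      rw [E0]; abel
    rw [e4]; abel
  rw [e1, hl] at e3
  have e5 : (1 + τ) • ((1 / (1 + τ)) • (T b v' - T b v)) =
      (1 + τ) • ((τ / (1 + τ)) • (T b u1 - T b u0)) := by rw [e3]
  rw [smul_smul, smul_smul, mul_one_div_cancel hpos.ne', one_smul, mul_div_cancel₀ _ hpos.ne'] at e5
  exact e5

end T

/-! ### the coordinates in a direction parallel to an edge -/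

section shift

variable {E : Type*} [NormedAddCommGroup E] [NormedSpace ℝ E] {La : Set E} {P : I → Set E}
  {b : Set I → E} {N : ℕ}

/-- **the ends of an edge of the mesh of the boundary of the cell `c0`, in coordinates**:
comonotone, and different values differ at least by `m`. -/
structure EdgeK (P : I → Set E) (c0 : I) (m : ℝ) (u0 u1 : I → ℝ) : Prop where
  m0 : 0 < m
  K0 : u0 ∈ K P
  K1 : u1 ∈ K P
  z0 : u0 c0 = 0
  z1 : u1 c0 = 0
  com : Com u0 u1
  gap0 : ∀ a b, u0 a < u0 b → u0 a + m ≤ u0 b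
  gap1 : ∀ a b, u1 a < u1 b → u1 a + m ≤ u1 b
  one0 : ∀ a, u0 a < 1 → u0 a + m ≤ 1
  one1 : ∀ a, u1 a < 1 → u1 a + m ≤ 1

namespace EdgeK

variable {c0 : I} {m : ℝ} {u0 u1 : I → ℝ} (h : EdgeK P c0 m u0 u1)
include h

/-- strict inequalities of the ends persist near the middle of the edge -/
theorem lt_of {θ η s : ℝ} (hs0 : θ ≤ s) (hs1 : s ≤ 1 - θ) (hθ : 0 < θ) (hη : 2 * η < θ * m)
    {v : I → ℝ} (hv : ∀ a, |v a - ((1 - s) * u0 a + s * u1 a)| ≤ η) {a b : I}
    (hab : u0 a < u0 b ∨ u1 a < u1 b) : v a < v b := by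
  have h1 := abs_le.1 (hv a)
  have h2 := abs_le.1 (hv b)
  have hs : 0 < s := by linarith
  have hs' : 0 < 1 - s := by linarith
  have hm := h.m0
  have key : θ * m ≤ (1 - s) * (u0 b - u0 a) + s * (u1 b - u1 a) := by
    rcases hab with hab | hab
    · have e1 := h.gap0 a b hab
      have e2 := h.com a b hab
      have e3 : (1 - s) * m ≤ (1 - s) * (u0 b - u0 a) := mul_le_mul_of_nonneg_left (by linarith) hs'.le
      have e4 : 0 ≤ s * (u1 b - u1 a) := mul_nonneg hs.le (by linarith)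
      have e5 : θ * m ≤ (1 - s) * m := mul_le_mul_of_nonneg_right (by linarith) hm.le
      linarith
    · have e1 := h.gap1 a b hab
      have e2 := h.com.symm a b hab
      have e3 : s * m ≤ s * (u1 b - u1 a) := mul_le_mul_of_nonneg_left (by linarith) hs.le
      have e4 : 0 ≤ (1 - s) * (u0 b - u0 a) := mul_nonneg hs'.le (by linarith)
      have e5 : θ * m ≤ s * m := mul_le_mul_of_nonneg_right hs0 hm.le
      linarith
  nlinarith [h1.1, h1.2, h2.1, h2.2]

theorem lt_one_of {θ η s : ℝ} (hs0 : θ ≤ s) (hs1 : s ≤ 1 - θ) (hθ : 0 < θ) (hη : 2 * η < θ * m)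
    {v : I → ℝ} (hv : ∀ a, |v a - ((1 - s) * u0 a + s * u1 a)| ≤ η) {a : I}
    (hab : u0 a < 1 ∨ u1 a < 1) : v a < 1 := by
  have h1 := abs_le.1 (hv a)
  have hη0 : 0 ≤ η := (abs_nonneg _).trans (hv a)
  have hs : 0 < s := by linarith
  have hs' : 0 < 1 - s := by linarith
  have hm := h.m0
  have b0 := (h.K0.1 a).2
  have b1 := (h.K1.1 a).2
  have key : θ * m ≤ (1 - s) * (1 - u0 a) + s * (1 - u1 a) := by
    rcases hab with hab | hab
    · have e1 := h.one0 a hab
      have e3 : (1 - s) * m ≤ (1 - s) * (1 - u0 a) := mul_le_mul_of_nonneg_left (by linarith) hs'.le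
      have e4 : 0 ≤ s * (1 - u1 a) := mul_nonneg hs.le (by linarith)
      have e5 : θ * m ≤ (1 - s) * m := mul_le_mul_of_nonneg_right (by linarith) hm.le
      linarith
    · have e1 := h.one1 a hab
      have e3 : s * m ≤ s * (1 - u1 a) := mul_le_mul_of_nonneg_left (by linarith) hs.le
      have e4 : 0 ≤ (1 - s) * (1 - u0 a) := mul_nonneg hs'.le (by linarith)
      have e5 : θ * m ≤ s * m := mul_le_mul_of_nonneg_right hs0 hm.le
      linarith
  nlinarith [h1.1, h1.2]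

/-- **shift parallel to the edge** -/
theorem shift [CompleteSpace E] (F : Foam La P b N) {θ η t τ : ℝ} (ht0 : θ ≤ t) (hθ : 0 < θ)
    (hη : 2 * η < θ * m) (hτ : 0 ≤ τ) (htτ : t + τ ≤ 1 - θ) {v : I → ℝ} (hvK : v ∈ K P)
    (hv0 : v c0 = 0) (hv : ∀ a, |v a - ((1 - t) * u0 a + t * u1 a)| ≤ η) :
    (fun a => v a + τ * (u1 a - u0 a)) ∈ K P ∧
      T b (fun a => v a + τ * (u1 a - u0 a)) = T b v + τ • (T b u1 - T b u0) := by
  set v' : I → ℝ := fun a => v a + τ * (u1 a - u0 a) with hv'def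
  have ht1 : t ≤ 1 - θ := by linarith
  have hv' : ∀ a, |v' a - ((1 - (t + τ)) * u0 a + (t + τ) * u1 a)| ≤ η := by
    intro a
    have e : v' a - ((1 - (t + τ)) * u0 a + (t + τ) * u1 a) = v a - ((1 - t) * u0 a + t * u1 a) := by
      simp only [hv'def]; ring
    rw [e]; exact hv a
  have L1 : ∀ {a b : I}, (u0 a < u0 b ∨ u1 a < u1 b) → v a < v b := fun hab =>
    h.lt_of ht0 ht1 hθ hη hv hab
  have L2 : ∀ {a b : I}, (u0 a < u0 b ∨ u1 a < u1 b) → v' a < v' b := fun hab =>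
    h.lt_of (by linarith) htτ hθ hη hv' hab
  have M1 : ∀ {a : I}, (u0 a < 1 ∨ u1 a < 1) → v a < 1 := fun hab =>
    h.lt_one_of ht0 ht1 hθ hη hv hab
  have M2 : ∀ {a : I}, (u0 a < 1 ∨ u1 a < 1) → v' a < 1 := fun hab =>
    h.lt_one_of (by linarith) htτ hθ hη hv' hab
  have hv'0 : v' c0 = 0 := by simp [hv'def, hv0, h.z0, h.z1]
  have hb : ∀ a, v' a ∈ Icc (0 : ℝ) 1 := by
    intro a
    constructor
    · by_cases h1 : u0 c0 < u0 a ∨ u1 c0 < u1 a
      · have := L2 h1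
        rw [hv'0] at this
        exact this.le
      · push Not at h1
        rw [h.z0, h.z1] at h1
        have e0 := le_antisymm h1.1 (h.K0.1 a).1
        have e1 := le_antisymm h1.2 (h.K1.1 a).1
        simp only [hv'def, e0, e1]
        have := (hvK.1 a).1
        linarith
    · by_cases h1 : u0 a < 1 ∨ u1 a < 1
      · exact (M2 h1).le
      · push Not at h1
        have e0 := le_antisymm (h.K0.1 a).2 h1.1
        have e1 := le_antisymm (h.K1.1 a).2 h1.2
        simp only [hv'def, e0, e1]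
        have := (hvK.1 a).2
        linarith
  have hsub : {c | v' c < 1} ⊆ {c | v c < 1} := by
    intro a ha
    by_cases h1 : u0 a < 1 ∨ u1 a < 1
    · exact M1 h1
    · push Not at h1
      have e0 := le_antisymm (h.K0.1 a).2 h1.1
      have e1 := le_antisymm (h.K1.1 a).2 h1.2
      have ha' : v' a < 1 := ha
      simp only [hv'def, e0, e1] at ha'
      have : v a < 1 := by linarith
      exact this
  have hK' : v' ∈ K P := ⟨fun a => hb a, ⟨c0, hv'0⟩, hvK.2.2.mono (fc_anti hsub)⟩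
  refine ⟨hK', ?_⟩
  have hfin : ({c | v c < 1} ∪ ({c | u0 c < 1} ∪ {c | u1 c < 1})).Finite :=
    (F.K_finite hvK).union ((F.K_finite h.K0).union (F.K_finite h.K1))
  have hz : ∀ {w : I → ℝ}, w ∈ K P → ∀ a, ¬ w a < 1 → w a = 1 := fun hw a ha =>
    le_antisymm (hw.1 a).2 (not_lt.1 ha)
  have key := T_incr b (u0 := u0) (u1 := u1) (v := v) (v' := v') hτ
    (fun a => by simp only [hv'def]; ring)
    (fun a b' hab => by
      by_contra hcon
      push Not at hcon
      exact absurd (L2 (Or.inl hcon)) (not_lt.2 hab.le))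
    (fun a b' hab => by
      by_contra hcon
      push Not at hcon
      exact absurd (L1 (Or.inr hcon)) (not_lt.2 hab.le))
    (fun a => h.K0.1 a) (fun a => h.K1.1 a) (fun a => hvK.1 a) hb hfin.toFinset
    (fun a ha => by
      rw [Set.Finite.mem_toFinset] at ha
      simp only [mem_union, mem_ofPred_eq, not_or] at ha
      exact ⟨hz h.K0 a ha.2.1, hz h.K1 a ha.2.2, hz hvK a ha.1,
        hz hK' a fun hh => ha.1 (hsub hh)⟩)
  rw [← key]; abel

/-- **the coordinates along a direction parallel to the edge** -/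
theorem sc_shift [CompleteSpace E] (F : Foam La P b N) {θ η t τ : ℝ} (ht0 : θ ≤ t) (hθ : 0 < θ)
    (hη : 2 * η < θ * m) (hτ : 0 ≤ τ) (htτ : t + τ ≤ 1 - θ) {y : E} (hy : y ∈ P c0)
    (hv : ∀ a, |sc P b y a - ((1 - t) * u0 a + t * u1 a)| ≤ η) :
    y + τ • (T b u1 - T b u0) ∈ P c0 ∧
      ∀ a, sc P b (y + τ • (T b u1 - T b u0)) a = sc P b y a + τ * (u1 a - u0 a) := by
  have hyL := F.sub c0 hy
  obtain ⟨h1, h2⟩ := h.shift F ht0 hθ hη hτ htτ (F.sc_mem_K hyL) ((F.sc_eq_zero hyL).2 hy) hv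
  rw [F.T_sc hyL] at h2
  have h3 := F.sc_T h1
  rw [h2] at h3
  refine ⟨?_, fun a => by rw [h3]⟩
  have h4 : y + τ • (T b u1 - T b u0) ∈ La := by rw [← h2]; exact F.T_mem_La h1
  rw [← F.sc_eq_zero h4, h3]
  simp only
  rw [(F.sc_eq_zero hyL).2 hy, h.z0, h.z1]; ring

end EdgeK

end shift

end Crest.Agent.R096.Wd_120
end

-- ▼ part R096/Wd2_120
section

/-!
Row 96, exact cores (helper120), part 2: radial projection of a brick from its centre; increments
parallel to an edge of a homothetic box.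
-/

set_option autoImplicit false
set_option linter.unusedSectionVars false

open Set Filter Topology Metric

namespace Crest.Agent.R096.Wd_120

open Crest.Agent.R096.Bsp_628 Crest.Agent.R096.Bxs_627

variable {κ : Type*} [Fintype κ] [Nonempty κ]

/-- normalised coordinates of a box, in `[-1,1]` -/
noncomputable def nc (Q : Bx κ) (y : κ → ℝ) : κ → ℝ := fun k => 2 * (y k - ctr Q k) / Q.side k

/-- the gauge of the box with respect to its centre -/
noncomputable def mu (Q : Bx κ) (y : κ → ℝ) : ℝ := ‖nc Q y‖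

/-- radial projection to the boundary -/
noncomputable def rp (Q : Bx κ) (y : κ → ℝ) : κ → ℝ := fun k => ctr Q k + (y k - ctr Q k) / mu Q y

variable {Q : Bx κ} (hQ : Q.Pos)

theorem mu_nonneg (Q : Bx κ) (y : κ → ℝ) : 0 ≤ mu Q y := norm_nonneg _

include hQ

theorem mu_le_iff {y : κ → ℝ} {r : ℝ} (hr : 0 ≤ r) :
    mu Q y ≤ r ↔ ∀ k, |y k - ctr Q k| ≤ r * Q.side k / 2 := by
  unfold mu
  rw [pi_norm_le_iff_of_nonneg hr]
  refine forall_congr' fun k => ?_
  have hs := Bx.side_pos hQ k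
  rw [Real.norm_eq_abs, nc, abs_div, abs_mul, abs_of_pos hs, abs_of_pos (by norm_num : (0:ℝ) < 2),
    div_le_iff₀ hs]
  constructor <;> intro h <;> linarith

theorem abs_sub_ctr_le (y : κ → ℝ) (k : κ) : |y k - ctr Q k| ≤ mu Q y * Q.side k / 2 :=
  (mu_le_iff hQ (mu_nonneg Q y)).1 le_rfl k

theorem norm_sub_ctr_le (y : κ → ℝ) : ‖y - ctr Q‖ ≤ mu Q y * Q.sz / 2 := by
  have h0 := mu_nonneg Q y
  have hs := Bx.sz_pos hQ
  rw [pi_norm_le_iff_of_nonneg (by positivity)]
  intro k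
  rw [Pi.sub_apply, Real.norm_eq_abs]
  refine (abs_sub_ctr_le hQ y k).trans ?_
  have := mul_le_mul_of_nonneg_left (Q.side_le_sz k) h0
  linarith

omit hQ in
theorem nc_sub (y y' : κ → ℝ) (k : κ) : nc Q y k - nc Q y' k = 2 * (y k - y' k) / Q.side k := by
  unfold nc; ring

theorem abs_nc_sub_le {κ0 : ℝ} (hasp : ∀ i, Q.sz ≤ κ0 * Q.side i) (y y' : κ → ℝ) (k : κ) :
    |nc Q y k - nc Q y' k| ≤ 2 * κ0 / Q.sz * ‖y - y'‖ := by
  have hs := Bx.side_pos hQ k
  have hsz := Bx.sz_pos hQ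
  rw [nc_sub, abs_div, abs_mul, abs_of_pos hs, abs_of_pos (by norm_num : (0:ℝ) < 2),
    div_le_iff₀ hs]
  have h1 := norm_le_pi_norm (y - y') k
  rw [Pi.sub_apply, Real.norm_eq_abs] at h1
  have h2 := hasp k
  have h3 : 1 ≤ κ0 * Q.side k / Q.sz := by rw [le_div_iff₀ hsz]; linarith
  have h4 : 2 * κ0 / Q.sz * ‖y - y'‖ * Q.side k = 2 * ‖y - y'‖ * (κ0 * Q.side k / Q.sz) := by ring
  rw [h4]
  have h5 : 2 * |y k - y' k| ≤ 2 * ‖y - y'‖ := by linarith
  refine h5.trans ?_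
  have h6 : 0 ≤ 2 * ‖y - y'‖ := by positivity
  nlinarith

theorem mu_lip {κ0 : ℝ} (hasp : ∀ i, Q.sz ≤ κ0 * Q.side i) (y y' : κ → ℝ) :
    |mu Q y - mu Q y'| ≤ 2 * κ0 / Q.sz * ‖y - y'‖ := by
  unfold mu
  refine (abs_norm_sub_norm_le _ _).trans ?_
  have hsz := Bx.sz_pos hQ
  have hκ : 0 ≤ κ0 := by
    obtain ⟨i⟩ := ‹Nonempty κ›
    have h1 := hasp i
    have h2 := Bx.side_pos hQ i
    by_contra hc
    push Not at hc
    nlinarith
  rw [pi_norm_le_iff_of_nonneg (by positivity)]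
  intro k
  rw [Pi.sub_apply, Real.norm_eq_abs]
  exact abs_nc_sub_le hQ hasp y y' k

omit hQ in
theorem κ0_nonneg {κ0 : ℝ} (hQ : Q.Pos) (hasp : ∀ i, Q.sz ≤ κ0 * Q.side i) : 0 ≤ κ0 := by
  obtain ⟨i⟩ := ‹Nonempty κ›
  have h1 := hasp i
  have h2 := Bx.side_pos hQ i
  have hsz := Bx.sz_pos hQ
  by_contra hc
  push Not at hc
  nlinarith

omit hQ in
theorem ctr_sub_lo (Q : Bx κ) (k : κ) : ctr Q k - Q.side k / 2 = Q.lo k := by
  unfold ctr Bx.side; ring

omit hQ in
theorem ctr_add_hi (Q : Bx κ) (k : κ) : ctr Q k + Q.side k / 2 = Q.hi k := by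
  unfold ctr Bx.side; ring

theorem mem_set_iff {y : κ → ℝ} : y ∈ Q.set ↔ mu Q y ≤ 1 := by
  rw [Bx.mem_set, mu_le_iff hQ zero_le_one]
  refine forall_congr' fun k => ?_
  rw [abs_le]
  have h1 := ctr_sub_lo Q k
  have h2 := ctr_add_hi Q k
  constructor <;> rintro ⟨a, b⟩ <;> constructor <;> linarith

theorem mu_rp {y : κ → ℝ} (hy : 0 < mu Q y) : mu Q (rp Q y) = 1 := by
  have e : nc Q (rp Q y) = (mu Q y)⁻¹ • nc Q y := by
    funext k
    have hs := (Bx.side_pos hQ k).ne'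
    simp only [nc, rp, Pi.smul_apply, smul_eq_mul]
    field_simp
    ring
  unfold mu at hy ⊢
  rw [show nc Q (rp Q y) = (‖nc Q y‖)⁻¹ • nc Q y from e, norm_smul, norm_inv, norm_norm,
    inv_mul_cancel₀ hy.ne']

theorem rp_mem {y : κ → ℝ} (hy : 0 < mu Q y) : rp Q y ∈ Q.set :=
  (mem_set_iff hQ).2 (mu_rp hQ hy).le

/-- Lipschitz constant of the radial projection -/
theorem rp_lip {κ0 : ℝ} (hasp : ∀ i, Q.sz ≤ κ0 * Q.side i) {r : ℝ} (hr : 0 < r) {y y' : κ → ℝ}
    (hy : r ≤ mu Q y) (hy' : r ≤ mu Q y') :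
    ‖rp Q y - rp Q y'‖ ≤ (1 + κ0) / r * ‖y - y'‖ := by
  have hsz := Bx.sz_pos hQ
  have hκ := κ0_nonneg hQ hasp
  have hm : 0 < mu Q y := hr.trans_le hy
  have hm' : 0 < mu Q y' := hr.trans_le hy'
  have e : rp Q y - rp Q y' = (1 / mu Q y) • (y - y') +
      ((mu Q y' - mu Q y) / (mu Q y * mu Q y')) • (y' - ctr Q) := by
    funext k
    simp only [rp, Pi.sub_apply, Pi.add_apply, Pi.smul_apply, smul_eq_mul]
    field_simp
    ring
  rw [e]
  refine (norm_add_le _ _).trans ?_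
  rw [norm_smul, norm_smul, Real.norm_eq_abs, Real.norm_eq_abs, abs_div, abs_div, abs_one,
    abs_of_pos hm, abs_of_pos (mul_pos hm hm')]
  have h1 := mu_lip hQ hasp y y'
  rw [abs_sub_comm] at h1
  have h2 := norm_sub_ctr_le hQ y'
  have h3 : 1 / mu Q y * ‖y - y'‖ ≤ 1 / r * ‖y - y'‖ :=
    mul_le_mul_of_nonneg_right (one_div_le_one_div_of_le hr hy) (norm_nonneg _)
  have h4 : |mu Q y' - mu Q y| / (mu Q y * mu Q y') * ‖y' - ctr Q‖ ≤
      (2 * κ0 / Q.sz * ‖y - y'‖) / (mu Q y * mu Q y') * (mu Q y' * Q.sz / 2) := by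
    refine mul_le_mul ?_ h2 (norm_nonneg _) (by positivity)
    exact div_le_div_of_nonneg_right h1 (by positivity)
  have h5 : (2 * κ0 / Q.sz * ‖y - y'‖) / (mu Q y * mu Q y') * (mu Q y' * Q.sz / 2) =
      κ0 * ‖y - y'‖ * (1 / mu Q y) := by
    field_simp
  have h6 : κ0 * ‖y - y'‖ * (1 / mu Q y) ≤ κ0 * ‖y - y'‖ * (1 / r) :=
    mul_le_mul_of_nonneg_left (one_div_le_one_div_of_le hr hy) (by positivity)
  calc 1 / mu Q y * ‖y - y'‖ + |mu Q y' - mu Q y| / (mu Q y * mu Q y') * ‖y' - ctr Q‖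
      ≤ 1 / r * ‖y - y'‖ + κ0 * ‖y - y'‖ * (1 / r) := by
        rw [h5] at h4; linarith
    _ = (1 + κ0) / r * ‖y - y'‖ := by ring

/-- increments of the radial projection on a level set of the gauge -/
theorem rp_sub {y y' : κ → ℝ} (h : mu Q y' = mu Q y) :
    rp Q y' = rp Q y + (1 / mu Q y) • (y' - y) := by
  funext k
  simp only [rp, Pi.sub_apply, Pi.add_apply, Pi.smul_apply, smul_eq_mul, h]
  ring

/-- **an edge `[y0, y1]` of the boundary of the homothetic box `mu = lam`**; `mg` = margin of the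
normalised coordinates of the ends. -/
structure EdgeB (Q : Bx κ) (lam mg : ℝ) (y0 y1 : κ → ℝ) : Prop where
  lam0 : 0 < lam
  mg0 : 0 < mg
  mgl : mg ≤ lam
  on : ∀ t ∈ Icc (0 : ℝ) 1, mu Q (fun k => (1 - t) * y0 k + t * y1 k) = lam
  g0 : ∀ k, |nc Q y0 k| < lam → |nc Q y0 k| + mg ≤ lam
  g1 : ∀ k, |nc Q y1 k| < lam → |nc Q y1 k| + mg ≤ lam

omit hQ in
theorem nc_comb (Q : Bx κ) (y0 y1 : κ → ℝ) (t : ℝ) (k : κ) :
    nc Q (fun k => (1 - t) * y0 k + t * y1 k) k = (1 - t) * nc Q y0 k + t * nc Q y1 k := by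
  unfold nc; ring

omit hQ in
theorem EdgeB.le0 {lam mg : ℝ} {y0 y1 : κ → ℝ} (h : EdgeB Q lam mg y0 y1) (k : κ) :
    |nc Q y0 k| ≤ lam := by
  have h1 := h.on 0 ⟨le_rfl, zero_le_one⟩
  have e : (fun k => (1 - (0:ℝ)) * y0 k + 0 * y1 k) = y0 := by funext k; ring
  rw [e] at h1
  rw [← h1]
  exact norm_le_pi_norm (nc Q y0) k

omit hQ in
theorem EdgeB.le1 {lam mg : ℝ} {y0 y1 : κ → ℝ} (h : EdgeB Q lam mg y0 y1) (k : κ) :
    |nc Q y1 k| ≤ lam := by
  have h1 := h.on 1 ⟨zero_le_one, le_rfl⟩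
  have e : (fun k => (1 - (1:ℝ)) * y0 k + 1 * y1 k) = y1 := by funext k; ring
  rw [e] at h1
  rw [← h1]
  exact norm_le_pi_norm (nc Q y1) k

omit hQ in
/-- a coordinate which is not a contact coordinate -/
theorem EdgeB.far {lam mg : ℝ} {y0 y1 : κ → ℝ} (h : EdgeB Q lam mg y0 y1) {k : κ}
    (hk : ¬ (nc Q y0 k = nc Q y1 k ∧ |nc Q y0 k| = lam)) {θ t : ℝ} (hθ : 0 ≤ θ) (ht0 : θ ≤ t)
    (ht1 : t ≤ 1 - θ) : |nc Q (fun k => (1 - t) * y0 k + t * y1 k) k| ≤ lam - θ * mg := by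
  rw [nc_comb]
  have a0 := h.le0 k
  have a1 := h.le1 k
  have hm := h.mg0
  have hml := h.mgl
  have ht : 0 ≤ t := hθ.trans ht0
  have ht' : 0 ≤ 1 - t := by linarith
  have key : |(1 - t) * nc Q y0 k + t * nc Q y1 k| ≤ (1 - t) * |nc Q y0 k| + t * |nc Q y1 k| := by
    refine (abs_add_le _ _).trans ?_
    rw [abs_mul, abs_mul, abs_of_nonneg ht, abs_of_nonneg ht']
  rcases lt_or_eq_of_le a0 with b0 | b0
  · have := h.g0 k b0
    refine key.trans ?_
    nlinarith
  rcases lt_or_eq_of_le a1 with b1 | b1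
  · have := h.g1 k b1
    refine key.trans ?_
    nlinarith
  · have hne : nc Q y0 k ≠ nc Q y1 k := fun e => hk ⟨e, b0⟩
    have e1 : nc Q y1 k = - nc Q y0 k := by
      rcases abs_choice (nc Q y0 k) with c0 | c0 <;> rcases abs_choice (nc Q y1 k) with c1 | c1
      · exfalso; apply hne; rw [← c0, ← c1, b0, b1]
      · linarith
      · linarith
      · exfalso; apply hne; linarith
    rw [e1, show (1 - t) * nc Q y0 k + t * -nc Q y0 k = (1 - 2 * t) * nc Q y0 k by ring, abs_mul, b0]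
    have h2 : |1 - 2 * t| ≤ 1 - 2 * θ := by rw [abs_le]; constructor <;> linarith
    have h3 := mul_le_mul_of_nonneg_right h2 h.lam0.le
    nlinarith

/-- **the gauge is constant along the edge direction near the middle of the edge** -/
theorem EdgeB.mu_eq {lam mg κ0 : ℝ} {y0 y1 : κ → ℝ} (h : EdgeB Q lam mg y0 y1)
    (hasp : ∀ i, Q.sz ≤ κ0 * Q.side i) {θ ε t s : ℝ} (hθ : 0 < θ)
    (ht0 : θ ≤ t) (ht1 : t ≤ 1 - θ) (hs0 : θ ≤ s) (hs1 : s ≤ 1 - θ)
    (hε : 2 * (2 * κ0 / Q.sz * ε) < θ * mg) {z : κ → ℝ} (hz : ‖z‖ ≤ ε) :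
    mu Q (fun k => (1 - s) * y0 k + s * y1 k + z k) =
      mu Q (fun k => (1 - t) * y0 k + t * y1 k + z k) := by
  have hsz := Bx.sz_pos hQ
  have hκ := κ0_nonneg hQ hasp
  set η : ℝ := 2 * κ0 / Q.sz * ε with hη
  -- perturbation of the normalised coordinates
  have pert : ∀ (r : ℝ) (k : κ), |nc Q (fun k => (1 - r) * y0 k + r * y1 k + z k) k -
      nc Q (fun k => (1 - r) * y0 k + r * y1 k) k| ≤ η := by
    intro r k
    refine (abs_nc_sub_le hQ hasp _ _ k).trans ?_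
    have e : (fun k => (1 - r) * y0 k + r * y1 k + z k) - (fun k => (1 - r) * y0 k + r * y1 k) = z := by
      funext k; simp
    rw [e]
    exact mul_le_mul_of_nonneg_left hz (by positivity)
  -- contact coordinate
  obtain ⟨j, hj1, hj2⟩ : ∃ j, nc Q y0 j = nc Q y1 j ∧ |nc Q y0 j| = lam := by
    by_contra hcon
    push Not at hcon
    have h1 := h.on (1 / 2) ⟨by norm_num, by norm_num⟩
    have h2 : mu Q (fun k => (1 - (1 / 2 : ℝ)) * y0 k + 1 / 2 * y1 k) ≤ lam - 1 / 2 * mg := by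
      have hml := h.mgl
      have hm := h.mg0
      unfold mu
      rw [pi_norm_le_iff_of_nonneg (by linarith)]
      intro k
      rw [Real.norm_eq_abs]
      exact h.far (fun hh => hcon k hh.1 hh.2) (by norm_num) le_rfl (by norm_num)
    rw [h1] at h2
    have := h.mg0
    linarith
  -- the upper bound for the gauge through contact coordinates
  have key : ∀ {r r' : ℝ}, θ ≤ r → r ≤ 1 - θ → θ ≤ r' → r' ≤ 1 - θ →
      mu Q (fun k => (1 - r) * y0 k + r * y1 k + z k) ≤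
        mu Q (fun k => (1 - r') * y0 k + r' * y1 k + z k) := by
    intro r r' hr0 hr1 hr0' hr1'
    -- value of the contact coordinate j at r'
    have hj' : lam - η ≤ mu Q (fun k => (1 - r') * y0 k + r' * y1 k + z k) := by
      have h1 := pert r' j
      rw [nc_comb, ← hj1] at h1
      have h2 : (1 - r') * nc Q y0 j + r' * nc Q y0 j = nc Q y0 j := by ring
      rw [h2] at h1
      have h3 := norm_le_pi_norm (nc Q (fun k => (1 - r') * y0 k + r' * y1 k + z k)) j
      rw [Real.norm_eq_abs] at h3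
      have h4 : |nc Q y0 j| ≤ |nc Q (fun k => (1 - r') * y0 k + r' * y1 k + z k) j| + η := by
        have := abs_sub_abs_le_abs_sub (nc Q y0 j)
          (nc Q (fun k => (1 - r') * y0 k + r' * y1 k + z k) j)
        rw [abs_sub_comm] at this
        linarith
      rw [hj2] at h4
      unfold mu
      linarith
    conv_lhs => unfold mu
    rw [pi_norm_le_iff_of_nonneg (mu_nonneg Q _)]
    intro k
    rw [Real.norm_eq_abs]
    by_cases hk : nc Q y0 k = nc Q y1 k ∧ |nc Q y0 k| = lam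
    · have e : nc Q (fun k => (1 - r) * y0 k + r * y1 k + z k) k =
          nc Q (fun k => (1 - r') * y0 k + r' * y1 k + z k) k := by
        have h1 : y0 k = y1 k := by
          have h2 := hk.1
          unfold nc at h2
          have hs := Bx.side_pos hQ k
          rw [div_left_inj' hs.ne'] at h2
          linarith
        unfold nc
        simp only [h1]
        ring
      rw [e]
      exact norm_le_pi_norm (nc Q (fun k => (1 - r') * y0 k + r' * y1 k + z k)) k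
    · have h1 := h.far hk hθ.le hr0 hr1
      have h2 := pert r k
      have h3 : |nc Q (fun k => (1 - r) * y0 k + r * y1 k + z k) k| ≤
          |nc Q (fun k => (1 - r) * y0 k + r * y1 k) k| + η := by
        have := abs_sub_abs_le_abs_sub (nc Q (fun k => (1 - r) * y0 k + r * y1 k + z k) k)
          (nc Q (fun k => (1 - r) * y0 k + r * y1 k) k)
        linarith
      linarith
  exact le_antisymm (key hs0 hs1 ht0 ht1) (key ht0 ht1 hs0 hs1)

end Crest.Agent.R096.Wd_120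
end

-- ▼ part R096/Wd3_120
section

/-!
Row 96, exact cores (helper120), part 3: RADIAL.  The level functions of the pushed map along the
edges of the M-mesh of the boundary of a homothetic core box satisfy `NearAffW` (124), with explicit
scale invariant constants.
-/

set_option autoImplicit false
set_option linter.unusedSectionVars false

open Set Filter Topology Metric

namespace Crest.Agent.R096.Wd_120

open Crest.Agent.R096.Bsp_628 Crest.Agent.R096.Bxs_627 Crest.Agent.R096.Brk1_582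
open Crest.Agent.R096.Brk3_582 Crest.Agent.R096.Brk5_582 Crest.Agent.R096.Core_124

variable {κ : Type*} [Fintype κ] [Nonempty κ] {La : Set (κ → ℝ)} {F : Set (Bx κ)} {δ κ0 R : ℝ}

section margin

variable [DecidableEq κ]

/-- a brick on the other side of the lower wall `k` -/
theorem exists_below (BF : BoxFoam La F δ κ0) (hLa : IsOpen La) (c0 : F) {y : κ → ℝ}
    (hy : y ∈ Pc F c0) (k : κ) (hk : y k = c0.1.lo k) :
    ∃ a : F, y ∈ Pc F a ∧ a.1.hi k = c0.1.lo k := by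
  have hQ := BF.pos _ c0.2
  have hyL : y ∈ La := BF.sub _ c0.2 hy
  have hy' := Bx.mem_set.1 hy
  obtain ⟨a, ha, ε, hε, hw⟩ := cover_dir BF hLa hyL
    (fun j => if j = k then -1 else ctr c0.1 j - y j)
  have hw' := Bx.mem_set.1 hw
  have ha' := Bx.mem_set.1 ha
  have hne : c0 ≠ a := by
    rintro rfl
    have h1 := (hw' k).1
    simp only [Pi.add_apply, Pi.smul_apply, smul_eq_mul, if_true, hk] at h1
    linarith
  obtain ⟨j, hj | hj⟩ := opp_of_pair BF hne hy ha
  · -- `a.lo j = y j = c0.hi j`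
    exfalso
    by_cases hjk : j = k
    · subst hjk
      have := hQ j
      rw [hj.2, ← hk] at this
      exact lt_irrefl _ this
    · have h1 := (hw' j).1
      simp only [Pi.add_apply, Pi.smul_apply, smul_eq_mul, if_neg hjk] at h1
      have h2 : ctr c0.1 j < y j := by
        rw [← hj.2]; unfold ctr; have := hQ j; linarith
      rw [hj.1] at h1
      nlinarith
  · by_cases hjk : j = k
    · subst hjk
      exact ⟨a, ha, by rw [hj.2, hk]⟩
    · exfalso
      have h1 := (hw' j).2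
      simp only [Pi.add_apply, Pi.smul_apply, smul_eq_mul, if_neg hjk] at h1
      have h2 : y j < ctr c0.1 j := by
        rw [← hj.1]; unfold ctr; have := hQ j; linarith
      rw [hj.2] at h1
      nlinarith

/-- a brick on the other side of the upper wall `k` -/
theorem exists_above (BF : BoxFoam La F δ κ0) (hLa : IsOpen La) (c0 : F) {y : κ → ℝ}
    (hy : y ∈ Pc F c0) (k : κ) (hk : y k = c0.1.hi k) :
    ∃ a : F, y ∈ Pc F a ∧ a.1.lo k = c0.1.hi k := by
  have hQ := BF.pos _ c0.2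
  have hyL : y ∈ La := BF.sub _ c0.2 hy
  obtain ⟨a, ha, ε, hε, hw⟩ := cover_dir BF hLa hyL
    (fun j => if j = k then 1 else ctr c0.1 j - y j)
  have hw' := Bx.mem_set.1 hw
  have hne : c0 ≠ a := by
    rintro rfl
    have h1 := (hw' k).2
    simp only [Pi.add_apply, Pi.smul_apply, smul_eq_mul, if_true, hk] at h1
    linarith
  obtain ⟨j, hj | hj⟩ := opp_of_pair BF hne hy ha
  · by_cases hjk : j = k
    · subst hjk
      exact ⟨a, ha, by rw [hj.1, hk]⟩
    · exfalso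
      have h1 := (hw' j).1
      simp only [Pi.add_apply, Pi.smul_apply, smul_eq_mul, if_neg hjk] at h1
      have h2 : ctr c0.1 j < y j := by
        rw [← hj.2]; unfold ctr; have := hQ j; linarith
      rw [hj.1] at h1
      nlinarith
  · exfalso
    by_cases hjk : j = k
    · subst hjk
      have := hQ j
      rw [hj.1, ← hk] at this
      exact lt_irrefl _ this
    · have h1 := (hw' j).2
      simp only [Pi.add_apply, Pi.smul_apply, smul_eq_mul, if_neg hjk] at h1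
      have h2 : y j < ctr c0.1 j := by
        rw [← hj.1]; unfold ctr; have := hQ j; linarith
      rw [hj.2] at h1
      nlinarith

/-- **the gap of the coordinates gives a margin of the position** -/
theorem margin_lo (BF : BoxFoam La F δ κ0) (hLa : IsOpen La) (hδ : 0 < δ) (hR : 0 < R)
    (hcmp : Cmp F R) (c0 : F) {m : ℝ} {e : κ → ℝ} (he : e ∈ Pc F c0)
    (hg : ∀ a : F, 0 < sc (Pc F) (bc (F := F)) e a → m ≤ sc (Pc F) (bc (F := F)) e a) (k : κ)
    (hk : c0.1.lo k < e k) : m * c0.1.sz ≤ Cs (Fintype.card κ) δ R * (e k - c0.1.lo k) := by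
  have FF := foam BF hLa
  have hQ := BF.pos _ c0.2
  have hsz := Bx.sz_pos hQ
  have he' := Bx.mem_set.1 he
  set y : κ → ℝ := Function.update e k (c0.1.lo k) with hy
  have hyk : y k = c0.1.lo k := by simp [hy]
  have hyj : ∀ j, j ≠ k → y j = e j := fun j hj => by simp [hy, hj]
  have hyP : y ∈ Pc F c0 := by
    refine Bx.mem_set.2 fun j => ?_
    by_cases hj : j = k
    · subst hj; rw [hyk]; exact ⟨le_rfl, (hQ j).le⟩
    · rw [hyj j hj]; exact he' j
  obtain ⟨a, ha, hak⟩ := exists_below BF hLa c0 hyP k hyk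
  have hyL : y ∈ La := BF.sub _ c0.2 hyP
  have heL : e ∈ La := BF.sub _ c0.2 he
  have hea : e ∉ Pc F a := by
    intro h
    have := (Bx.mem_set.1 h k).2
    rw [hak] at this
    linarith
  have h0 : sc (Pc F) (bc (F := F)) y a = 0 := (FF.sc_eq_zero hyL).2 ha
  have h1 : 0 < sc (Pc F) (bc (F := F)) e a :=
    lt_of_le_of_ne (FF.sc_nonneg heL a) fun h => hea ((FF.sc_eq_zero heL).1 h.symm)
  have h2 := hg a h1
  have h3 := lip_cell BF hLa hδ hR hcmp c0 e he y hyP a
  rw [h0, sub_zero, abs_of_pos h1] at h3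
  have h4 : ‖e - y‖ ≤ e k - c0.1.lo k := by
    rw [pi_norm_le_iff_of_nonneg (by linarith)]
    intro j
    rw [Pi.sub_apply, Real.norm_eq_abs]
    by_cases hj : j = k
    · subst hj; rw [hyk, abs_of_pos (by linarith)]
    · rw [hyj j hj, sub_self, abs_zero]; linarith
  have hC := Cs_nonneg (n := Fintype.card κ) hδ hR
  have h5 : Cs (Fintype.card κ) δ R / c0.1.sz * ‖e - y‖ ≤
      Cs (Fintype.card κ) δ R / c0.1.sz * (e k - c0.1.lo k) :=
    mul_le_mul_of_nonneg_left h4 (by positivity)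
  have h6 : m ≤ Cs (Fintype.card κ) δ R / c0.1.sz * (e k - c0.1.lo k) := by linarith
  calc m * c0.1.sz ≤ (Cs (Fintype.card κ) δ R / c0.1.sz * (e k - c0.1.lo k)) * c0.1.sz :=
        mul_le_mul_of_nonneg_right h6 hsz.le
    _ = Cs (Fintype.card κ) δ R * (e k - c0.1.lo k) := by field_simp

theorem margin_hi (BF : BoxFoam La F δ κ0) (hLa : IsOpen La) (hδ : 0 < δ) (hR : 0 < R)
    (hcmp : Cmp F R) (c0 : F) {m : ℝ} {e : κ → ℝ} (he : e ∈ Pc F c0)
    (hg : ∀ a : F, 0 < sc (Pc F) (bc (F := F)) e a → m ≤ sc (Pc F) (bc (F := F)) e a) (k : κ)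
    (hk : e k < c0.1.hi k) : m * c0.1.sz ≤ Cs (Fintype.card κ) δ R * (c0.1.hi k - e k) := by
  have FF := foam BF hLa
  have hQ := BF.pos _ c0.2
  have hsz := Bx.sz_pos hQ
  have he' := Bx.mem_set.1 he
  set y : κ → ℝ := Function.update e k (c0.1.hi k) with hy
  have hyk : y k = c0.1.hi k := by simp [hy]
  have hyj : ∀ j, j ≠ k → y j = e j := fun j hj => by simp [hy, hj]
  have hyP : y ∈ Pc F c0 := by
    refine Bx.mem_set.2 fun j => ?_
    by_cases hj : j = k
    · subst hj; rw [hyk]; exact ⟨(hQ j).le, le_rfl⟩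
    · rw [hyj j hj]; exact he' j
  obtain ⟨a, ha, hak⟩ := exists_above BF hLa c0 hyP k hyk
  have hyL : y ∈ La := BF.sub _ c0.2 hyP
  have heL : e ∈ La := BF.sub _ c0.2 he
  have hea : e ∉ Pc F a := by
    intro h
    have := (Bx.mem_set.1 h k).1
    rw [hak] at this
    linarith
  have h0 : sc (Pc F) (bc (F := F)) y a = 0 := (FF.sc_eq_zero hyL).2 ha
  have h1 : 0 < sc (Pc F) (bc (F := F)) e a :=
    lt_of_le_of_ne (FF.sc_nonneg heL a) fun h => hea ((FF.sc_eq_zero heL).1 h.symm)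
  have h2 := hg a h1
  have h3 := lip_cell BF hLa hδ hR hcmp c0 e he y hyP a
  rw [h0, sub_zero, abs_of_pos h1] at h3
  have h4 : ‖e - y‖ ≤ c0.1.hi k - e k := by
    rw [pi_norm_le_iff_of_nonneg (by linarith)]
    intro j
    rw [Pi.sub_apply, Real.norm_eq_abs]
    by_cases hj : j = k
    · subst hj; rw [hyk, abs_sub_comm, abs_of_pos (by linarith)]
    · rw [hyj j hj, sub_self, abs_zero]; linarith
  have hC := Cs_nonneg (n := Fintype.card κ) hδ hR
  have h5 : Cs (Fintype.card κ) δ R / c0.1.sz * ‖e - y‖ ≤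
      Cs (Fintype.card κ) δ R / c0.1.sz * (c0.1.hi k - e k) :=
    mul_le_mul_of_nonneg_left h4 (by positivity)
  have h6 : m ≤ Cs (Fintype.card κ) δ R / c0.1.sz * (c0.1.hi k - e k) := by linarith
  calc m * c0.1.sz ≤ (Cs (Fintype.card κ) δ R / c0.1.sz * (c0.1.hi k - e k)) * c0.1.sz :=
        mul_le_mul_of_nonneg_right h6 hsz.le
    _ = Cs (Fintype.card κ) δ R * (c0.1.hi k - e k) := by field_simp

/-- the margin in normalised coordinates -/
theorem margin_nc (BF : BoxFoam La F δ κ0) (hLa : IsOpen La) (hδ : 0 < δ) (hR : 0 < R)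
    (hcmp : Cmp F R) (c0 : F) {m : ℝ} {e : κ → ℝ} (he : e ∈ Pc F c0) (hm : 0 < m)
    (hg : ∀ a : F, 0 < sc (Pc F) (bc (F := F)) e a → m ≤ sc (Pc F) (bc (F := F)) e a) (k : κ)
    (hk : |nc c0.1 e k| < 1) :
    |nc c0.1 e k| + min 1 (2 * m / Cs (Fintype.card κ) δ R) ≤ 1 := by
  have hQ := BF.pos _ c0.2
  have hsz := Bx.sz_pos hQ
  have hs := Bx.side_pos hQ k
  have hC := Cs_nonneg (n := Fintype.card κ) hδ hR
  set C := Cs (Fintype.card κ) δ R with hCdef
  have hlo := ctr_sub_lo c0.1 k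
  have hhi := ctr_add_hi c0.1 k
  have e1 : nc c0.1 e k = 2 * (e k - ctr c0.1 k) / c0.1.side k := rfl
  have habs : |nc c0.1 e k| = 2 * |e k - ctr c0.1 k| / c0.1.side k := by
    rw [e1, abs_div, abs_mul, abs_of_pos hs, abs_of_pos (by norm_num : (0:ℝ) < 2)]
  have hk' : |e k - ctr c0.1 k| < c0.1.side k / 2 := by
    rw [habs, div_lt_one hs] at hk; linarith
  have h1 := abs_lt.1 hk'
  have M1 := margin_lo BF hLa hδ hR hcmp c0 he hg k (by linarith)
  have M2 := margin_hi BF hLa hδ hR hcmp c0 he hg k (by linarith)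
  have hCpos : 0 < C := by
    rcases hC.eq_or_lt with h2 | h2
    · rw [← hCdef, ← h2, zero_mul] at M1
      have := mul_pos hm hsz
      linarith
    · exact h2
  have key : m * c0.1.sz ≤ C * (c0.1.side k / 2 - |e k - ctr c0.1 k|) := by
    rcases abs_cases (e k - ctr c0.1 k) with h3 | h3
    · rw [h3.1]
      refine M2.trans (le_of_eq ?_)
      rw [← hhi]; ring
    · rw [h3.1]
      refine M1.trans (le_of_eq ?_)
      rw [← hlo]; ring
  have h4 := c0.1.side_le_sz k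
  have h5 : 2 * m / C ≤ 1 - |nc c0.1 e k| := by
    rw [habs, div_le_iff₀ hCpos]
    have h6 : m * c0.1.side k ≤ C * (c0.1.side k / 2 - |e k - ctr c0.1 k|) :=
      (mul_le_mul_of_nonneg_left h4 hm.le).trans key
    have h7 : (1 - 2 * |e k - ctr c0.1 k| / c0.1.side k) * C =
        2 * (C * (c0.1.side k / 2 - |e k - ctr c0.1 k|)) / c0.1.side k := by
      field_simp
    rw [h7, le_div_iff₀ hs]
    linarith
  have := min_le_right 1 (2 * m / C)
  linarith

end margin

/-! ### the radial push along an edge -/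

/-- the point of parameter `t` of the segment -/
def sg (y0 y1 : κ → ℝ) (t : ℝ) : κ → ℝ := fun k => (1 - t) * y0 k + t * y1 k

omit [Fintype κ] [Nonempty κ] in
theorem sg_eq (y0 y1 : κ → ℝ) (t : ℝ) : y0 + t • (y1 - y0) = sg y0 y1 t := by
  funext k
  simp only [sg, Pi.add_apply, Pi.smul_apply, Pi.sub_apply, smul_eq_mul]; ring

/-- **data of an edge of the mesh on the boundary of the core box of the brick `c0`** -/
structure EdgeC (F : Set (Bx κ)) (c0 : F) (lam mg m : ℝ) (y0 y1 : κ → ℝ) : Prop where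
  B : EdgeB c0.1 lam mg y0 y1
  K : EdgeK (Pc F) c0 m (sc (Pc F) (bc (F := F)) (rp c0.1 y0)) (sc (Pc F) (bc (F := F)) (rp c0.1 y1))
  line : ∀ t ∈ Icc (0 : ℝ) 1, ∀ a : F, sc (Pc F) (bc (F := F)) (rp c0.1 (sg y0 y1 t)) a =
    (1 - t) * sc (Pc F) (bc (F := F)) (rp c0.1 y0) a + t * sc (Pc F) (bc (F := F)) (rp c0.1 y1) a

/-- **RADIAL.** -/
theorem radial (BF : BoxFoam La F δ κ0) (hLa : IsOpen La) (hδ : 0 < δ) (hR : 0 < R)
    (hcmp : Cmp F R) (c0 : F) {lam mg m : ℝ} {y0 y1 : κ → ℝ} (h : EdgeC F c0 lam mg m y0 y1)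
    {Psi : (κ → ℝ) → κ → ℝ}
    (hPsi : ∀ y ∈ Pc F c0, 3 / 4 * lam ≤ mu c0.1 y → Psi y = rp c0.1 y) {θ ε : ℝ} (hθ : 0 < θ)
    (hθ1 : θ < 1 / 2) (hε0 : 0 ≤ ε) (e1 : 2 * (2 * κ0 / c0.1.sz * ε) < θ * mg)
    (e2 : 2 * κ0 / c0.1.sz * ε ≤ 1 - lam)
    (e3 : 2 * (Cs (Fintype.card κ) δ R / c0.1.sz * ((1 + κ0) / (3 / 4 * lam) * ε)) < θ * m)
    (a : F) :
    NearAffW (fun y => sc (Pc F) (bc (F := F)) (Psi y) a) y0 (y1 - y0) ε
      (Cs (Fintype.card κ) δ R / c0.1.sz * ((1 + κ0) / (3 / 4 * lam)))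
      (Cs (Fintype.card κ) δ R / c0.1.sz * (2 * κ0 * ε / (3 / 4 * lam)))
      (sc (Pc F) (bc (F := F)) (rp c0.1 y1) a - sc (Pc F) (bc (F := F)) (rp c0.1 y0) a) θ
      {y | y ∈ Pc F c0 ∧ 3 / 4 * lam ≤ mu c0.1 y} := by
  have FF := foam BF hLa
  have hQ := BF.pos _ c0.2
  have hsz := Bx.sz_pos hQ
  have hasp := BF.asp _ c0.2
  have hκ := κ0_nonneg hQ hasp
  have hC := Cs_nonneg (n := Fintype.card κ) hδ hR
  set C := Cs (Fintype.card κ) δ R with hCdef
  have hlam := h.B.lam0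
  have hr : 0 < 3 / 4 * lam := by linarith
  have hmg := h.B.mg0
  have hmgl := h.B.mgl
  have hη : 0 ≤ 2 * κ0 / c0.1.sz * ε := by positivity
  have hη4 : 2 * κ0 / c0.1.sz * ε ≤ lam / 4 := by nlinarith
  -- points near the edge
  have near : ∀ t ∈ Icc (0 : ℝ) 1, ∀ z : κ → ℝ, ‖z‖ ≤ ε →
      |mu c0.1 (sg y0 y1 t + z) - lam| ≤ 2 * κ0 / c0.1.sz * ε ∧
      sg y0 y1 t + z ∈ Pc F c0 ∧ 3 / 4 * lam ≤ mu c0.1 (sg y0 y1 t + z) := by
    intro t ht z hz
    have h1 : mu c0.1 (sg y0 y1 t) = lam := h.B.on t ht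
    have h2 := mu_lip hQ hasp (sg y0 y1 t + z) (sg y0 y1 t)
    rw [h1, add_sub_cancel_left] at h2
    have h3 : |mu c0.1 (sg y0 y1 t + z) - lam| ≤ 2 * κ0 / c0.1.sz * ε :=
      h2.trans (mul_le_mul_of_nonneg_left hz (by positivity))
    have h4 := abs_le.1 h3
    exact ⟨h3, (mem_set_iff hQ).2 (by linarith), by linarith⟩
  have hrp : ∀ y, 3 / 4 * lam ≤ mu c0.1 y → rp c0.1 y ∈ Pc F c0 := fun y hy =>
    rp_mem hQ (hr.trans_le hy)
  refine ⟨by positivity, by positivity, hε0, hθ.le, hθ1, ?_, ?_, ?_, ?_⟩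
  · -- sub
    intro t ht y hy
    rw [sg_eq] at hy
    rw [mem_closedBall, dist_eq_norm] at hy
    have h1 := near t ht (y - sg y0 y1 t) hy
    rw [add_sub_cancel] at h1
    exact h1.2
  · -- lip
    rintro y ⟨hy1, hy2⟩ y' ⟨hy1', hy2'⟩
    rw [hPsi y hy1 hy2, hPsi y' hy1' hy2']
    have h1 := lip_cell BF hLa hδ hR hcmp c0 _ (hrp y hy2) _ (hrp y' hy2') a
    have h2 := rp_lip hQ hasp hr hy2 hy2'
    refine h1.trans ?_
    rw [mul_assoc]
    exact mul_le_mul_of_nonneg_left h2 (by positivity)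
  · -- line
    intro t ht
    have h1 := near t ht 0 (by simpa using hε0)
    rw [add_zero] at h1
    have h0 := near 0 ⟨le_rfl, zero_le_one⟩ 0 (by simpa using hε0)
    rw [add_zero] at h0
    have e0 : sg y0 y1 0 = y0 := by funext k; simp [sg]
    rw [e0] at h0
    rw [sg_eq, hPsi _ h1.2.1 h1.2.2, hPsi _ h0.2.1 h0.2.2, h.line t ht a]
    ring
  · -- aff
    intro t ht z hz τ hτ0 hτ1
    have ht01 : t ∈ Icc (0 : ℝ) 1 := ⟨by linarith [ht.1], by linarith [ht.2]⟩
    have hτ01 : t + τ ∈ Icc (0 : ℝ) 1 := ⟨by linarith [ht.1], by linarith⟩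
    have ep : y0 + t • (y1 - y0) + z = sg y0 y1 t + z := by rw [sg_eq]
    have ep' : y0 + t • (y1 - y0) + z + τ • (y1 - y0) = sg y0 y1 (t + τ) + z := by
      rw [← sg_eq, add_smul]; abel
    set p : κ → ℝ := sg y0 y1 t + z with hp
    set p' : κ → ℝ := sg y0 y1 (t + τ) + z with hp'
    obtain ⟨n1, n2, n3⟩ := near t ht01 z hz
    obtain ⟨n1', n2', n3'⟩ := near (t + τ) hτ01 z hz
    rw [← hp] at n1 n2 n3
    rw [← hp'] at n1' n2' n3'
    rw [ep', ep, hPsi p n2 n3, hPsi p' n2' n3']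
    have hmu : mu c0.1 p' = mu c0.1 p :=
      h.B.mu_eq hQ hasp hθ ht.1 ht.2 (by linarith [ht.1]) hτ1 e1 hz
    have hmup : 0 < mu c0.1 p := hr.trans_le n3
    have hpp : p' - p = τ • (y1 - y0) := by
      rw [hp, hp', ← sg_eq, ← sg_eq, add_smul]; abel
    have hq' := rp_sub hQ hmu
    rw [hpp] at hq'
    -- the coordinates of the ends
    have hmu0 : mu c0.1 y0 = lam := by
      have := h.B.on 0 ⟨le_rfl, zero_le_one⟩
      have e : (fun k => (1 - (0:ℝ)) * y0 k + 0 * y1 k) = y0 := by funext k; ring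
      rwa [e] at this
    have hmu1 : mu c0.1 y1 = lam := by
      have := h.B.on 1 ⟨zero_le_one, le_rfl⟩
      have e : (fun k => (1 - (1:ℝ)) * y0 k + 1 * y1 k) = y1 := by funext k; ring
      rwa [e] at this
    have m0 : rp c0.1 y0 ∈ Pc F c0 := hrp y0 (by rw [hmu0]; linarith)
    have m1 : rp c0.1 y1 ∈ Pc F c0 := hrp y1 (by rw [hmu1]; linarith)
    have hdir : T (bc (F := F)) (sc (Pc F) (bc (F := F)) (rp c0.1 y1)) -
        T (bc (F := F)) (sc (Pc F) (bc (F := F)) (rp c0.1 y0)) = (1 / lam) • (y1 - y0) := by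
      rw [FF.T_sc (FF.sub c0 m1), FF.T_sc (FF.sub c0 m0), rp_sub hQ (y := y0) (y' := y1)
        (by rw [hmu0, hmu1]), hmu0, add_sub_cancel_left]
    -- closeness of the coordinates
    have hmut : mu c0.1 (sg y0 y1 t) = lam := h.B.on t ht01
    have hclose : ∀ a : F, |sc (Pc F) (bc (F := F)) (rp c0.1 p) a -
        ((1 - t) * sc (Pc F) (bc (F := F)) (rp c0.1 y0) a +
          t * sc (Pc F) (bc (F := F)) (rp c0.1 y1) a)| ≤
        C / c0.1.sz * ((1 + κ0) / (3 / 4 * lam) * ε) := by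
      intro a
      rw [← h.line t ht01 a]
      have h1 := lip_cell BF hLa hδ hR hcmp c0 _ (hrp p n3) _
        (hrp (sg y0 y1 t) (by rw [hmut]; linarith)) a
      have h2 := rp_lip hQ hasp hr n3 (y' := sg y0 y1 t) (by rw [hmut]; linarith)
      have h3 : p - sg y0 y1 t = z := by rw [hp, add_sub_cancel_left]
      rw [h3] at h2
      refine h1.trans (mul_le_mul_of_nonneg_left (h2.trans ?_) (by positivity))
      exact mul_le_mul_of_nonneg_left hz (by positivity)
    obtain ⟨s1, s2⟩ := h.K.sc_shift FF ht.1 hθ e3 hτ0 hτ1 (hrp p n3) hclose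
    rw [hdir] at s1 s2
    have key := lip_cell BF hLa hδ hR hcmp c0 _ (hrp p' n3') _ s1 a
    rw [s2 a] at key
    have hd : rp c0.1 p' - (rp c0.1 p + τ • (1 / lam) • (y1 - y0)) =
        (τ * (1 / mu c0.1 p - 1 / lam)) • (y1 - y0) := by
      rw [hq', smul_smul, smul_smul, mul_sub, sub_smul, mul_comm (1 / mu c0.1 p) τ]
      abel
    rw [hd, norm_smul, Real.norm_eq_abs, abs_mul, abs_of_nonneg hτ0] at key
    have hn : ‖y1 - y0‖ ≤ lam * c0.1.sz := by
      have h1 := norm_sub_ctr_le hQ y0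
      have h2 := norm_sub_ctr_le hQ y1
      rw [hmu0] at h1
      rw [hmu1] at h2
      have h3 : y1 - y0 = (y1 - ctr c0.1) - (y0 - ctr c0.1) := by abel
      rw [h3]
      refine (norm_sub_le _ _).trans ?_
      linarith
    have hdiff : |1 / mu c0.1 p - 1 / lam| ≤ 2 * κ0 / c0.1.sz * ε / (3 / 4 * lam * lam) := by
      have h1 : 1 / mu c0.1 p - 1 / lam = (lam - mu c0.1 p) / (mu c0.1 p * lam) := by
        field_simp
      rw [h1, abs_div, abs_of_pos (mul_pos hmup hlam), abs_sub_comm]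
      refine div_le_div₀ hη n1 (by positivity) ?_
      exact mul_le_mul_of_nonneg_right n3 hlam.le
    have hfin : C / c0.1.sz * (τ * |1 / mu c0.1 p - 1 / lam| * ‖y1 - y0‖) ≤
        C / c0.1.sz * (2 * κ0 * ε / (3 / 4 * lam)) * τ := by
      have h1 : τ * |1 / mu c0.1 p - 1 / lam| * ‖y1 - y0‖ ≤
          τ * (2 * κ0 / c0.1.sz * ε / (3 / 4 * lam * lam)) * (lam * c0.1.sz) :=
        mul_le_mul (mul_le_mul_of_nonneg_left hdiff hτ0) hn (norm_nonneg _) (by positivity)
      have h2 : τ * (2 * κ0 / c0.1.sz * ε / (3 / 4 * lam * lam)) * (lam * c0.1.sz) =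
          2 * κ0 * ε / (3 / 4 * lam) * τ := by
        field_simp
      rw [h2] at h1
      have h3 := mul_le_mul_of_nonneg_left h1 (show 0 ≤ C / c0.1.sz by positivity)
      linarith
    have hexp : sc (Pc F) (bc (F := F)) (rp c0.1 p') a - (sc (Pc F) (bc (F := F)) (rp c0.1 p) a +
        τ * (sc (Pc F) (bc (F := F)) (rp c0.1 y1) a - sc (Pc F) (bc (F := F)) (rp c0.1 y0) a)) =
        sc (Pc F) (bc (F := F)) (rp c0.1 p') a - sc (Pc F) (bc (F := F)) (rp c0.1 p) a -
        (sc (Pc F) (bc (F := F)) (rp c0.1 y1) a - sc (Pc F) (bc (F := F)) (rp c0.1 y0) a) * τ := by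
      ring
    rw [hexp] at key
    exact key.trans hfin

end Crest.Agent.R096.Wd_120
end

-- ▼ part R096/Wd4_120

/-!
Row 96, exact cores (helper120), part 4: words on the edges of an exact core, from `ec_words` (124)
and RADIAL.
-/

set_option autoImplicit false
set_option linter.unusedSectionVars false

open Set Filter Topology Metric MeasureTheory

namespace Crest.Agent.R096.Wd_120

open Crest.Agent.R096.Bsp_628 Crest.Agent.R096.Bxs_627 Crest.Agent.R096.Brk1_582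
open Crest.Agent.R096.Brk3_582 Crest.Agent.R096.Brk5_582 Crest.Agent.R096.Core_124
open Crest.Agent.R96.Push_899 Crest.Agent.R096.Msh_715 Crest.Agent.R096.Ls_222
open Crest.Agent.R96.Sg1_199

/-! ### sides of exact levels at the ends of the edge -/

section side

variable {v : ℝ → ℝ} {a b y : ℝ}



end side

/-! ### the concentric two-stage push is the radial projection -/

section push

variable {Q : Bx (Fin 3)} (hQ : Q.Pos)
include hQ

theorem gg_cb {l1 l2 : ℝ} (h1 : 0 ≤ l1) (h2 : 0 ≤ l2) (h12 : l1 < l2) (y : Fin 3 → ℝ) (i : Fin 3) :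
    gg (cb Q hQ l2 h2) (cb Q hQ l1 h1) y i = (|nc Q y i| - l1) / (l2 - l1) := by
  have hs := Bx.side_pos hQ i
  have hd : 0 < l2 - l1 := by linarith
  unfold gg
  rw [cb_hi, cb_hi, cb_lo, cb_lo]
  have e0 : nc Q y i = 2 * (y i - ctr Q i) / Q.side i := rfl
  have a1 : (y i - (ctr Q i + l1 * Q.side i / 2)) / (ctr Q i + l2 * Q.side i / 2 -
      (ctr Q i + l1 * Q.side i / 2)) = (nc Q y i - l1) / (l2 - l1) := by
    rw [e0, show ctr Q i + l2 * Q.side i / 2 - (ctr Q i + l1 * Q.side i / 2) =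
      (l2 - l1) * Q.side i / 2 by ring]
    field_simp
    ring
  have a2 : (ctr Q i - l1 * Q.side i / 2 - y i) / (ctr Q i - l1 * Q.side i / 2 -
      (ctr Q i - l2 * Q.side i / 2)) = (-nc Q y i - l1) / (l2 - l1) := by
    rw [e0, show ctr Q i - l1 * Q.side i / 2 - (ctr Q i - l2 * Q.side i / 2) =
      (l2 - l1) * Q.side i / 2 by ring]
    field_simp
    ring
  rw [a1, a2]
  rcases le_total 0 (nc Q y i) with h | h
  · rw [abs_of_nonneg h, max_eq_left]
    exact div_le_div_of_nonneg_right (by linarith) hd.le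
  · rw [abs_of_nonpos h, max_eq_right]
    exact div_le_div_of_nonneg_right (by linarith) hd.le

theorem tt_cb {l1 l2 : ℝ} (h1 : 0 ≤ l1) (h2 : 0 ≤ l2) (h12 : l1 < l2) (y : Fin 3 → ℝ) :
    tt (cb Q hQ l2 h2) (cb Q hQ l1 h1) y = (mu Q y - l1) / (l2 - l1) := by
  have hd : 0 < l2 - l1 := by linarith
  apply le_antisymm
  · rw [tt_le_iff]
    intro i
    rw [gg_cb hQ h1 h2 h12]
    refine div_le_div_of_nonneg_right ?_ hd.le
    have := norm_le_pi_norm (nc Q y) i
    rw [Real.norm_eq_abs] at this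
    unfold mu
    linarith
  · obtain ⟨i, hi⟩ : ∃ i, mu Q y = |nc Q y i| := by
      obtain ⟨i, -, hi⟩ := Finset.exists_max_image (Finset.univ : Finset (Fin 3))
        (fun i => |nc Q y i|) Finset.univ_nonempty
      refine ⟨i, le_antisymm ?_ ?_⟩
      · unfold mu
        rw [pi_norm_le_iff_of_nonneg (abs_nonneg _)]
        intro j
        rw [Real.norm_eq_abs]
        exact hi j (Finset.mem_univ j)
      · have := norm_le_pi_norm (nc Q y) i
        rwa [Real.norm_eq_abs] at this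
    rw [hi, ← gg_cb hQ h1 h2 h12]
    exact gg_le_tt _ _ _ _

theorem psh_cb {l1 l2 : ℝ} (h1 : 0 ≤ l1) (h2 : 0 ≤ l2) (h12 : l1 < l2) {y : Fin 3 → ℝ}
    (hy : 0 < mu Q y) :
    psh (cb Q hQ l2 h2) (cb Q hQ l1 h1) y =
      fun k => ctr Q k + l2 / mu Q y * (y k - ctr Q k) := by
  have hd : 0 < l2 - l1 := by linarith
  funext i
  have hs := (Bx.side_pos hQ i).ne'
  unfold psh
  rw [tt_cb hQ h1 h2 h12, ww_eq]
  unfold cl
  have w1 : (cb Q hQ l1 h1).W i = l1 * Q.side i := by rw [cb, hb_W, qb_W]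
  have w2 : (cb Q hQ l2 h2).W i = l2 * Q.side i := by rw [cb, hb_W, qb_W]
  rw [w1, w2, cb_lo, cb_lo]
  have e1 : l1 * Q.side i + (mu Q y - l1) / (l2 - l1) * (l2 * Q.side i - l1 * Q.side i) =
      mu Q y * Q.side i := by field_simp; ring
  have e2 : ctr Q i - l1 * Q.side i / 2 - (mu Q y - l1) / (l2 - l1) *
      (ctr Q i - l1 * Q.side i / 2 - (ctr Q i - l2 * Q.side i / 2)) =
      ctr Q i - mu Q y * Q.side i / 2 := by field_simp; ring
  rw [e1, e2]
  field_simp
  ring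

theorem cb_one (h : (0:ℝ) ≤ 1) : cb Q hQ 1 h = qb Q hQ := by
  have e1 : (cb Q hQ 1 h).lo = (qb Q hQ).lo := by
    funext k
    rw [cb_lo, one_mul]; exact Bxs_627.ctr_lo Q k
  have e2 : (cb Q hQ 1 h).hi = (qb Q hQ).hi := by
    funext k
    rw [cb_hi, one_mul]; exact Bxs_627.ctr_hi Q k
  revert e1 e2
  cases cb Q hQ 1 h
  cases qb Q hQ
  rintro h1 h2
  simp only at h1 h2
  subst h1 h2
  rfl

/-- **`pus` is the radial projection outside the hole** -/
theorem pus_eq_rp {lam : ℝ} (hl : 0 < lam) (hl1 : lam < 1) {y : Fin 3 → ℝ} (hy : 0 < mu Q y) :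
    pus Q hQ lam hl y = rp Q y := by
  have out : ∀ y : Fin 3 → ℝ, 0 < mu Q y → psh (qb Q hQ) (cb Q hQ lam hl.le) y = rp Q y := by
    intro y hy
    rw [← cb_one hQ zero_le_one, psh_cb hQ hl.le zero_le_one hl1 hy]
    funext k
    unfold rp
    ring
  unfold pus
  by_cases hC : y ∈ (cb Q hQ lam hl.le).S
  · rw [psi_in hC, psh_cb hQ (half_pos hl).le hl.le (by linarith) hy]
    have hmu : mu Q (fun k => ctr Q k + lam / mu Q y * (y k - ctr Q k)) = lam := by
      have e : nc Q (fun k => ctr Q k + lam / mu Q y * (y k - ctr Q k)) =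
          (lam / mu Q y) • nc Q y := by
        funext k
        simp only [nc, Pi.smul_apply, smul_eq_mul]
        ring
      unfold mu at hy ⊢
      rw [show nc Q (fun k => ctr Q k + lam / ‖nc Q y‖ * (y k - ctr Q k)) =
        (lam / ‖nc Q y‖) • nc Q y from e, norm_smul, Real.norm_eq_abs,
        abs_of_pos (div_pos hl hy), div_mul_cancel₀ _ hy.ne']
    rw [out _ (by rw [hmu]; exact hl)]
    funext k
    unfold rp
    rw [hmu]
    field_simp
    ring
  · have hN := inner_cb hQ hl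
    have h2 : y ∉ (cb Q hQ lam hl.le).I := fun h => hC fun i => ⟨(h i).1.le, (h i).2.le⟩
    rw [psi_out hN.nest h2]
    exact out y hy

end push

end Crest.Agent.R096.Wd_120
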