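import Crest.Agent.R096.Mdd4_360
import Crest.Agent.R096.Bxc1_635
import Crest.Agent.R096.Wd4_120
import Crest.Agent.R96.Push9_899
import Crest.Agent.R096.Mfa2_880
import Crest.Agent.R096.Wd16_120
import Crest.Agent.R096.Wd17_120
import Crest.Agent.R096.Pmc4_112

-- ▼ part R096/Fnn1_635
section

/-!
Row 96 (S0127), NO0 for `p ≥ 3` (helper635): 360's `Fine` / `Cores` (Fns2-4, Mdd4) for the foam `fN`
(= `Np_962.ΦN`; outer stage of ratio `1/4`, concentric hole of ratio `lam c / 2`).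

* `hcore_fN` : 124's `HCore` for `fN` (the core of the push is the box of ratio `1/4`);
* `lam_le_tt` : off the open box of ratio `3/4 lam`: `lam ≤ tt`;
* `fineS_nrT` : 360's `fineS_nr` with any threshold `θ`;
* **`cf_mdN`** : `Mbf_337.Cores` and `Mbf_337.Fine` for all meshes of an `MD`.
-/

set_option autoImplicit false
set_option linter.style.longLine false
set_option linter.unusedSectionVars false

open MeasureTheory Set Filter Topology Metric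

namespace Crest.Agent.R096.Fnn_635

open Crest.Agent.R096.Bsp_628 Crest.Agent.R096.Brk1_582 Crest.Agent.R096.Brk2_582
open Crest.Agent.R096.Brk3_582
open Crest.Agent.R096.Brk5_582
open Crest.Agent.R096.Msh_715
open Crest.Agent.R96.Push_899
open Crest.Agent.R096.SkC1_961 (E3 Hom3 IsPush FoamD)
open Crest.Agent.R096.EaX_766 (cbx)
open Crest.Agent.R096.Bxs_627 (ctr cb CoriE qb zz qb_W zz_lo zz_hi)
open Crest.Agent.R096.Core_124
open Crest.Agent.R096.Mal_874 Crest.Agent.R096.Msh_810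
open Crest.Agent.R096.Fns_360 Crest.Agent.R096.Mdd_360
open Crest.Agent.R096.Bxc1_635

noncomputable section

variable {δ κ0 R c0 : ℝ} {La Om : Set E3}

/-- `HCore` for `fN` -/
theorem hcore_fN {F : Set (Bx (Fin 3))} (bf : BoxFoam La F δ κ0) (cmp : Cmp F R) (hκ : 1 ≤ κ0)
    (hc : 0 < c0) (hc2 : c0 * (8 * κ0) ≤ 1) (lam : F → ℝ) (hl : ∀ c, 0 < lam c)
    (hl4 : ∀ c, lam c ≤ 1 / 4) (c : F) :
    HCore (fN bf cmp hκ hc hc2 lam hl hl4) c ∅ 0 (side (qb c.1 (bf.pos _ c.2)))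
      (coreBF (qb c.1 (bf.pos _ c.2)) (ctr c.1)) (1 / 4) (zz c.1 (1 / 4)) where
  shape := by
    have hQ := bf.pos _ c.2
    have hW : ∀ i, 0 < (qb c.1 hQ).W i := fun i => Bx.side_pos hQ i
    have hs := shapeBF hκ hW (fun i j => (c.1.side_le_sz i).trans (bf.asp _ c.2 j)) (ctr_mid hQ)
    have hc8 : c0 ≤ 1 / (8 * κ0) := by rw [le_div_iff₀ (by linarith)]; exact hc2
    have hsd := side_pos hW
    exact ⟨hc, hc8.trans (by rw [div_le_one (by linarith)]; linarith), hsd, le_rfl, hW,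
      fun i => (mul_le_mul_of_nonneg_right hc8 hsd.le).trans (hs.lo1 i), hs.lo2,
      fun i => (mul_le_mul_of_nonneg_right hc8 hsd.le).trans (hs.hi1 i), hs.hi2,
      fun i => (mul_le_mul_of_nonneg_right hc8 (hW i).le).trans (hs.wd i),
      fun i hi => absurd hi (Finset.notMem_empty i)⟩
  inner := (hole_cb (bf.pos _ c.2) (hl c) ((hl4 c).trans (by norm_num))).inner
    fun i => Bx.side_pos (bf.pos _ c.2) i
  pu := rfl
  l0 := by norm_num
  l1 := by norm_num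
  lo k := by
    have hW : ∀ i, 0 < (qb c.1 (bf.pos _ c.2)).W i := fun i => Bx.side_pos (bf.pos _ c.2) i
    rw [coreBF_lo hW, qb_W, zz_lo]
    ring
  hi k := by
    have hW : ∀ i, 0 < (qb c.1 (bf.pos _ c.2)).W i := fun i => Bx.side_pos (bf.pos _ c.2) i
    rw [coreBF_hi hW, qb_W, zz_hi]
    ring

/-- off the open box of ratio `3/4 lam`, `tt ≥ lam` -/
theorem lam_le_tt {Q : Bx (Fin 3)} (hQ : Q.Pos) {lam : ℝ} (hl : 0 < lam) (hl4 : lam ≤ 1 / 4) {y : E3}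
    (hy : y ∉ interior (cbx Q (3 / 4 * lam))) :
    lam ≤ tt (coreBF (qb Q hQ) (ctr Q)) (cb Q hQ (lam / 2) (half_pos hl).le) y := by
  by_contra hcon
  rw [not_le, tt_lt_iff] at hcon
  apply hy
  rw [mem_interior_iff_mem_nhds]
  have hW : ∀ i, 0 < (qb Q hQ).W i := fun i => Bx.side_pos hQ i
  have hn : Nest (cb Q hQ (lam / 2) (half_pos hl).le) (coreBF (qb Q hQ) (ctr Q)) :=
    ((hole_cb hQ hl (hl4.trans (by norm_num))).inner hW).nest
  have h1 : ∀ k, |y k - ctr Q k| < 3 / 4 * lam * Q.side k / 2 := by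
    intro k
    have h2 := (gg_lt_iff hn y k lam).1 (hcon k)
    have hs := Bx.side_pos hQ k
    unfold cl ch at h2
    rw [Bxs_627.cb_lo, Bxs_627.cb_hi, coreBF_lo hW, coreBF_hi hW, qb_W] at h2
    have h3 : 0 < lam * Q.side k := by positivity
    have h4 : 0 < lam * (lam * Q.side k) := by positivity
    rw [abs_lt]
    constructor <;> nlinarith [h2.1, h2.2]
  have h4 : ∀ᶠ y' in 𝓝 y, ∀ k, |y' k - ctr Q k| < 3 / 4 * lam * Q.side k / 2 := by
    rw [eventually_all]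
    intro k
    have hc : ContinuousAt (fun y' : E3 => |y' k - ctr Q k|) y :=
      (((continuous_apply k).continuousAt).sub continuousAt_const).abs
    exact hc.eventually (gt_mem_nhds (h1 k))
  filter_upwards [h4] with y' hy'
  exact fun k => (hy' k).le

/-- the constant of the inner tiles, threshold `θ` -/
def KIT (δ κ0 R c0 θ : ℝ) : ℝ := KF δ R * Kpu (κ0 / c0) c0 θ


/-- **inner tiles, in 124's language**: `f` maps `S` into the brick, `tt ≥ θ` -/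
theorem fineS_nrT {Φ : FoamD δ κ0 R c0 La} (hLa : IsOpen La) (hδ : 0 < δ) (hR : 0 < R) {c : Φ.F}
    {P : Finset (Fin 3)} {κ ρ : ℝ} {C : Box (Fin 3)} {lam : ℝ} {z : E3}
    (H : HCore Φ c P κ ρ C lam z) {f : E3 → E3} {S : Set E3} {θ η ε : ℝ} (hθ : 0 < θ)
    (hθ1 : θ ≤ 1) (hS : ∀ x ∈ S, f x ∈ c.1.set ∧ θ ≤ tt C (Φ.B c) (f x))
    (hη : ∀ x ∈ S, ∀ y ∈ S, ‖f y - f x‖ ≤ η * c.1.sz) (hε : KIT δ κ0 R c0 θ * η ≤ ε) :
    FineS Φ f ε S := by
  have hc0 := H.shape.c0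
  refine fineS_brick Φ hLa hδ hR (c := c) (L := Kpu (κ0 / c0) c0 θ) (η := η)
    (fun x hx => ⟨(hS x hx).1, fun h => ?_⟩) (Kpu_nonneg _ _ _) (fun x hx y hy => ?_) hη (by
      rw [← mul_assoc]; exact hε)
  · have h1 := (tt_le_zero_iff H.inner.nest (f x)).2 h
    have h2 := (hS x hx).2
    linarith
  · rw [H.pu]
    refine psi_lip_off H.shape H.inner (fun i j => ?_) hθ hθ1 (hS x hx).2 (hS y hy).2
    have h5 : (bbox Φ c).W i ≤ κ0 * (bbox Φ c).W j := (H.side_le i).trans (H.side_ge j)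
    have h6 := H.shape.wd j
    have h8 := H.shape.W0 j
    have hk := H.k1
    rw [div_mul_eq_mul_div, le_div_iff₀ hc0]
    nlinarith





section mesh

variable {J : Type*} (M : MD E3 3 J) {k : J → ℕ} (hk : M.Sc k) (a : Fin 3 → ℝ) {v : J → E3}
  (hv : M.Adm v)

/-- **the inner tiles of the aligned mesh are fine**, threshold `θ` -/
theorem fineS_innerMT (hLa : IsOpen La) (hδ : 0 < δ) (hR : 0 < R) {Φ : FoamD δ κ0 R c0 La}
    {f : E3 → E3} (X : RD M) {j : J} {c : Φ.F} {P' : Finset (Fin 3)} {κ ρ : ℝ} {C : Box (Fin 3)}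
    {lam : ℝ} {z : E3} (H : HCore Φ c P' κ ρ C lam z) (A : E3 → E3) {κw uA η ε θ : ℝ}
    (hθ : 0 < θ) (hθ1 : θ ≤ 1)
    (hN : ∀ x ∈ (M.Bk v j).N, x ∉ interior (M.Bk v j).Kc →
      (f x ∈ c.1.set ∧ θ ≤ tt C (Φ.B c) (f x)) ∧ ‖f x - A x‖ ≤ κw * c.1.sz)
    (huA0 : 0 ≤ uA) (huA : ∀ x y, ‖A y - A x‖ ≤ uA * dist ((M.Q j).ψ x) ((M.Q j).ψ y))
    (hη : uA * (X.R j / 2 ^ (M.Q j).kc) ≤ η * c.1.sz) (hε : KIT δ κ0 R c0 θ * (η + 2 * κw) ≤ ε)
    (i : M.IIx hk a hv j) (hi : i ≠ M.core hk a hv j) :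
    FineS Φ f ε (P ((M.mesh hk a hv).H (Sum.inr ⟨j, i⟩))) := by
  have hoff := fun x hx => inner_off M hk a hv i hi (x := x) hx
  refine fineS_nrT hLa hδ hR H hθ hθ1 (S := P ((M.mesh hk a hv).H (Sum.inr ⟨j, i⟩)))
    (fun x hx => (hN x (hoff x hx).1 (hoff x hx).2).1) (η := η + 2 * κw) (fun x hx y hy => ?_) hε
  have h1 := (hN x (hoff x hx).1 (hoff x hx).2).2
  have h2 := (hN y (hoff y hy).1 (hoff y hy).2).2
  have h3 : ‖A y - A x‖ ≤ η * c.1.sz := by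
    refine (huA x y).trans (le_trans ?_ hη)
    exact mul_le_mul_of_nonneg_left (inner_size_all M hk a hv X i hi hx hy) huA0
  have e : f y - f x = (f y - A y) + (A y - A x) - (f x - A x) := by abel
  rw [e]
  refine (norm_sub_le _ _).trans ?_
  have h4 := norm_add_le (f y - A y) (A y - A x)
  have e2 : (η + 2 * κw) * c.1.sz = κw * c.1.sz + η * c.1.sz + κw * c.1.sz := by ring
  change _ ≤ (η + 2 * κw) * c.1.sz
  rw [e2]
  linarith

end mesh

section univ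

variable {F : Set (Bx (Fin 3))} (M : MD E3 3 F) {k : F → ℕ}
  (hk : M.Sc k) (a : Fin 3 → ℝ) {v : F → E3} (hv : M.Adm v)




end univ

end

end Crest.Agent.R096.Fnn_635
end

-- ▼ part R096/Wdn1_124
section

/-!
# Row 96 (S0127), helper124.  Two concentric homothetic stages are the radial projection (the push of
`fN` of helper635, NO0 `p ≥ 3`).
-/

set_option autoImplicit false
set_option linter.unusedSectionVars false

open Set Filter Topology Metric MeasureTheory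

namespace Crest.Agent.R096.Wdn_124

open Crest.Agent.R096.Bsp_628 Crest.Agent.R096.Bxs_627 Crest.Agent.R096.Wd_120
open Crest.Agent.R96.Push_899

variable {Q : Bx (Fin 3)} (hQ : Q.Pos)


theorem psh_out {l2 : ℝ} (h2 : 0 ≤ l2) (h21 : l2 < 1) {y : Fin 3 → ℝ} (hy : 0 < mu Q y) :
    psh (qb Q hQ) (cb Q hQ l2 h2) y = rp Q y := by
  rw [← cb_one hQ zero_le_one, psh_cb hQ h2 zero_le_one h21 hy]
  funext k
  unfold rp
  ring

/-- **two concentric homothetic stages are the radial projection from the centre** -/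
theorem psi_cb_eq_rp {l1 l2 : ℝ} (h1 : 0 ≤ l1) (h2 : 0 < l2) (h12 : l1 < l2) (h21 : l2 < 1)
    {y : Fin 3 → ℝ} (hy : 0 < mu Q y) :
    psi (qb Q hQ) (cb Q hQ l2 h2.le) (cb Q hQ l1 h1) y = rp Q y := by
  by_cases hC : y ∈ (cb Q hQ l2 h2.le).S
  · rw [psi_in hC, psh_cb hQ h1 h2.le h12 hy]
    have hmu : mu Q (fun k => ctr Q k + l2 / mu Q y * (y k - ctr Q k)) = l2 := by
      have e : nc Q (fun k => ctr Q k + l2 / mu Q y * (y k - ctr Q k)) =
          (l2 / mu Q y) • nc Q y := by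
        funext k
        simp only [nc, Pi.smul_apply, smul_eq_mul]
        ring
      unfold mu at hy ⊢
      rw [show nc Q (fun k => ctr Q k + l2 / ‖nc Q y‖ * (y k - ctr Q k)) =
        (l2 / ‖nc Q y‖) • nc Q y from e, norm_smul, Real.norm_eq_abs,
        abs_of_pos (div_pos h2 hy), div_mul_cancel₀ _ hy.ne']
    rw [psh_out hQ h2.le h21 (by rw [hmu]; exact h2)]
    funext k
    unfold rp
    rw [hmu]
    field_simp
    ring
  · have hN : Nest (cb Q hQ l1 h1) (cb Q hQ l2 h2.le) := by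
      refine ⟨fun i => ?_, fun i => ?_⟩
      · rw [cb_lo, cb_lo]
        have := mul_lt_mul_of_pos_right h12 (Bx.side_pos hQ i)
        linarith
      · rw [cb_hi, cb_hi]
        have := mul_lt_mul_of_pos_right h12 (Bx.side_pos hQ i)
        linarith
    have h3 : y ∉ (cb Q hQ l2 h2.le).I := fun h => hC fun i => ⟨(h i).1.le, (h i).2.le⟩
    rw [psi_out hN h3]
    exact psh_out hQ h2.le h21 hy

/-- 899's `coreBF` about the centre is the concentric box of ratio `1/4` -/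
theorem coreBF_ctr : coreBF (qb Q hQ) (ctr Q) = cb Q hQ (1 / 4) (by norm_num) := by
  have e1 : (coreBF (qb Q hQ) (ctr Q)).hi = (cb Q hQ (1 / 4) (by norm_num)).hi := by
    funext k
    rw [cb_hi]
    simp only [coreBF, coreN, mkBox, Finset.notMem_empty, if_false, qb_W]
  have e2 : (coreBF (qb Q hQ) (ctr Q)).lo = (cb Q hQ (1 / 4) (by norm_num)).lo := by
    funext k
    rw [cb_lo]
    simp only [coreBF, coreN, mkBox, Finset.notMem_empty, if_false, qb_W]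
    have := Bx.side_pos hQ k
    rw [min_eq_left (by linarith)]
  revert e1 e2
  cases coreBF (qb Q hQ) (ctr Q)
  cases cb Q hQ (1 / 4) (by norm_num)
  rintro h1 h2
  simp only at h1 h2
  subst h1 h2
  rfl

/-- **the push of `fN`** (outer stage `coreBF`, hole of ratio `lam / 2`) is radial -/
theorem psi_coreBF_eq_rp {l1 : ℝ} (h1 : 0 ≤ l1) (h12 : l1 < 1 / 4) {y : Fin 3 → ℝ}
    (hy : 0 < mu Q y) :
    psi (qb Q hQ) (coreBF (qb Q hQ) (ctr Q)) (cb Q hQ l1 h1) y = rp Q y := by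
  rw [coreBF_ctr hQ]
  exact psi_cb_eq_rp hQ h1 (by norm_num) h12 (by norm_num) hy

end Crest.Agent.R096.Wdn_124
end

-- ▼ part R096/Fnn2_635

/-!
Row 96 (S0127), NO0 for `p ≥ 3` (helper635): **112's `Mok` for the foam `fN`** (all bricks exact) on
874's meshes `M.mesh`, `M : MD E3 3 J`, `J ≃ F`; and in the format of 880's `mkX` / 360's `decoX`.
-/

set_option autoImplicit false
set_option linter.style.longLine false
set_option linter.unusedSectionVars false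
set_option linter.unusedVariables false

open MeasureTheory Set Filter Topology Metric
open scoped ENNReal

namespace Crest.Agent.R096.Fnn_635

open Crest.Agent.R096.Bsp_628 Crest.Agent.R096.Brk1_582 Crest.Agent.R096.Brk2_582
open Crest.Agent.R096.Brk3_582
open Crest.Agent.R096.Brk5_582
open Crest.Agent.R096.Msh_715
open Crest.Agent.R96.Push_899
open Crest.Agent.R096.SkC1_961 (E3 Hom3 IsPush FoamD th)
open Crest.Agent.R096.EaX_766 (cbx)
open Crest.Agent.R096.Bxs_627 (ctr cb CoriE qb zz qb_W zz_lo zz_hi)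
open Crest.Agent.R096.Core_124
open Crest.Agent.R096.Mal_874 Crest.Agent.R096.Msh_810
open Crest.Agent.R096.Fns_360 Crest.Agent.R096.Mdd_360
open Crest.Agent.R096.Bxc1_635
open Crest.Agent.R096.Wd_120 (mu rp CoreAt coreAt_mesh words_blk_good words_mok)
open Crest.Agent.R096.Mbf_337 (sb Words)
open Crest.Agent.R096.Exa_365 (GoodW)
open Crest.Agent.R096.Ls_222 (Edg ea ev eIn)
open Crest.Agent.R096.Mfa_880 (Deco)
open Crest.Agent.R096.Pmc_112 (Mok)

noncomputable section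

variable {δ κ0 R c0 : ℝ} {La Om : Set E3} {F : Set (Bx (Fin 3))}

/-- **the push of `fN` is radial off the `3/4` core** (124) -/
theorem push_fN (bf : BoxFoam La F δ κ0) (cmp : Cmp F R) (hκ0 : 1 ≤ κ0) (hc : 0 < c0)
    (hc2 : c0 * (8 * κ0) ≤ 1) (lam : F → ℝ) (hl : ∀ c, 0 < lam c) (hl4 : ∀ c, lam c ≤ 1 / 4)
    (c : F) : ∀ y ∈ Pc (fN bf cmp hκ0 hc hc2 lam hl hl4).F c, 3 / 4 * lam c ≤ mu c.1 y →
      (fN bf cmp hκ0 hc hc2 lam hl hl4).pu c y = rp c.1 y := by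
  intro y _ hy
  have h1 := hl c
  have h2 := hl4 c
  exact Wdn_124.psi_coreBF_eq_rp (bf.pos _ c.2) (half_pos h1).le (by linarith)
    (lt_of_lt_of_le (by positivity) hy)

section gen

variable {J : Type} (b : J ≃ F) (M : MD E3 3 J) {k : J → ℕ} (hk : M.Sc k) (a : Fin 3 → ℝ)
  {v : J → E3} (hv : M.Adm v)

/-- the core tiles -/
def ctB (c : F) : M.OIx hk a hv ⊕ Σ j, M.IIx hk a hv j :=
  Sum.inr ⟨b.symm c, M.core hk a hv (b.symm c)⟩

theorem ctB_inj : Function.Injective (ctB b M hk a hv) := by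
  intro c c' h
  have h1 := Sum.inr.inj h
  rw [Sigma.mk.injEq] at h1
  exact b.symm.injective h1.1

theorem P_ctB {A : F → E3 ≃ᵃ[ℝ] E3} {lam : F → ℝ}
    (hK : ∀ j, (M.Q j).Kc = A (b j) ⁻¹' cbx (b j).1 (lam (b j))) (c : F) :
    P ((M.mesh hk a hv).H (ctB b M hk a hv c)) =
      trA (A c) (v (b.symm c)) ⁻¹' cbx c.1 (lam c) := by
  have h1 := hK (b.symm c)
  rw [b.apply_symm_apply] at h1
  exact P_core_tr M hk a hv h1

/-- **`Mbf_337.Fine` on the aligned mesh, all bricks exact**, `fN`, `J ≃ F`. -/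
theorem fine_B (hLa : IsOpen La) (hδ : 0 < δ) (hR : 0 < R) (bf : BoxFoam La F δ κ0) (cmp : Cmp F R)
    (hκ0 : 1 ≤ κ0) (hc : 0 < c0) (hc2 : c0 * (8 * κ0) ≤ 1) (lam : F → ℝ) (hl : ∀ c, 0 < lam c)
    (hl4 : ∀ c, lam c ≤ 1 / 4) {lam0 : ℝ} (h00 : 0 < lam0) (hl0 : ∀ c, lam0 ≤ lam c)
    {f : E3 → E3} {κ1 κ2 : ℝ} (hκ1 : 0 ≤ κ1) (hκ : κ1 * κ0 ≤ 1 / 8)
    {A : F → E3 ≃ᵃ[ℝ] E3} (hK : ∀ j, (M.Q j).Kc = A (b j) ⁻¹' cbx (b j).1 (lam (b j)))
    (hcor : ∀ c, CoriE (M.φ ⁻¹' M.D0.Om) f (trA (A c) (v (b.symm c))) c.1 (lam c) κ1 κ2) (X : RD M)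
    {ρ : (Fin 3 → ℝ) → ℝ} {ε : ℝ} (hρ : ∀ u, M.D0.ρ u ≤ ρ u)
    (hF : ∀ x, M.φ x ∈ M.D0.Om → FineS (fN bf cmp hκ0 hc hc2 lam hl hl4) f ε
      (M.φ ⁻¹' closedBall (M.φ x) (ρ (M.φ x)) ∩ ((M.φ ⁻¹' M.D0.Om) ∩ offO f (O34 lam))))
    {κw η uA : J → ℝ} (hN : ∀ j, ∀ x ∈ (M.Bk v j).N, f x ∈ (b j).1.set ∧
      ‖f x - trA (A (b j)) (v j) x‖ ≤ κw j * (b j).1.sz)
    (huA0 : ∀ j, 0 ≤ uA j)
    (huA : ∀ j, ∀ x y, ‖A (b j) y - A (b j) x‖ ≤ uA j * dist ((M.Q j).ψ x) ((M.Q j).ψ y))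
    (hη : ∀ j, uA j * (X.R j / 2 ^ (M.Q j).kc) ≤ η j * (b j).1.sz)
    (hε : ∀ j, KIT δ κ0 R c0 lam0 * (η j + 2 * κw j) ≤ ε) :
    Mbf_337.Fine (fN bf cmp hκ0 hc hc2 lam hl hl4) (M.mesh hk a hv) f ε
      (fun c => {ctB b M hk a hv c}) := by
  refine mbf_fine fun t ht => ?_
  rcases t with p | ⟨j, i⟩
  · refine (fineS_outer M hk a hv hρ hF p).mono fun x hx => ⟨hx, ?_⟩
    exact tile_off bf lam hl hκ1 hκ hcor (fun c => P_ctB b M hk a hv hK c)
      (fun c h => ht c h) hx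
  · have hi : i ≠ M.core hk a hv j := by
      rintro rfl
      refine ht (b j) ?_
      rw [mem_singleton_iff]
      unfold ctB
      rw [b.symm_apply_apply]
    refine fineS_innerMT M hk a hv hLa hδ hR (Φ := fN bf cmp hκ0 hc hc2 lam hl hl4) X
      (hcore_fN bf cmp hκ0 hc hc2 lam hl hl4 (b j)) (fun x => trA (A (b j)) (v j) x) (κw := κw j)
      (η := η j) h00 ((hl0 (b j)).trans ((hl4 (b j)).trans (by norm_num))) (fun x hx hx' => ?_)
      (huA0 j) (fun x y => ?_) (hη j) (hε j) i hi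
    · have h1 := hN j x hx
      have hxO : x ∈ M.φ ⁻¹' M.D0.Om := M.Vsub j (MD.N_mem hv j hx)
      have hcj := hcor (b j)
      rw [b.symm_apply_apply] at hcj
      have hK' : (M.Bk v j).Kc = trA (A (b j)) (v j) ⁻¹' cbx (b j).1 (lam (b j)) := by
        rw [← M.P_core hk a hv j]
        exact P_core_tr M hk a hv (hK j)
      refine ⟨⟨h1.1, (hl0 (b j)).trans (lam_le_tt (bf.pos _ (b j).2) (hl (b j)) (hl4 (b j)) ?_)⟩,
        h1.2⟩
      refine off_core (bf.pos _ (b j).2) (bf.asp _ (b j).2) (hl (b j)) hκ1 hκ hcj hxO ?_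
      rw [← hK']
      exact hx'
    · have h1 := huA j (x - v j) (y - v j)
      rw [trA_apply, trA_apply]
      refine h1.trans (le_of_eq ?_)
      rw [map_sub, map_sub, dist_sub_right]

/-- **`Cores` and `Fine` for every admissible mesh**, `fN`, `J ≃ F` (360's `cf_md`). -/
theorem cf_B {f : E3 → E3} (hLa : IsOpen La) (hδ : 0 < δ) (hR : 0 < R) (bf : BoxFoam La F δ κ0)
    (cmp : Cmp F R) (hκ0 : 1 ≤ κ0) (hc : 0 < c0) (hc2 : c0 * (8 * κ0) ≤ 1) (lam : F → ℝ)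
    (hl : ∀ c, 0 < lam c) (hl4 : ∀ c, lam c ≤ 1 / 4) {lam0 : ℝ} (h00 : 0 < lam0)
    (hl0 : ∀ c, lam0 ≤ lam c) {κ1 κ2 τ η ε : ℝ} (hκ1 : 0 ≤ κ1) (hτ : 0 < τ) (hτ2 : τ ≤ κ2)
    (h2 : κ2 ≤ 1 / 4) (hκ8 : (κ1 + τ) * κ0 ≤ 1 / 8) (hκ12 : (κ1 + τ) * κ0 ≤ κ2 - τ)
    {A : F → E3 ≃ᵃ[ℝ] E3} (hcor : ∀ c, CoriE Om f (A c) c.1 (lam c) κ1 κ2)
    (hφ : M.φ = ContinuousLinearEquiv.refl ℝ E3) (hOmM : M.φ ⁻¹' M.D0.Om = Om)
    (hK : ∀ j, (M.Q j).Kc = A (b j) ⁻¹' cbx (b j).1 (lam (b j)))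
    (hroom : ∀ j, cthickening (M.r j) (M.Q j).N ⊆
      A (b j) ⁻¹' cbx (b j).1 ((1 + 2 * κ2) * lam (b j)))
    (hsm : ∀ j (v : E3), ‖v‖ ≤ M.r j → ‖(A (b j)).linear v‖ ≤ τ * (lam (b j) * (b j).1.sz) ∧
        ∀ k, |(A (b j)).linear v k| ≤ τ * (lam (b j) * (b j).1.side k)) (X : RD M)
    {uA : J → ℝ} (huA0 : ∀ j, 0 ≤ uA j)
    (huA : ∀ j, ∀ x y, ‖A (b j) y - A (b j) x‖ ≤ uA j * dist ((M.Q j).ψ x) ((M.Q j).ψ y))
    (hη : ∀ j, uA j * (X.R j / 2 ^ (M.Q j).kc) ≤ η * (b j).1.sz)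
    (hε : KIT δ κ0 R c0 lam0 * (η + 2 * (κ1 + τ)) ≤ ε)
    (hF : ∀ x ∈ Om, FineS (fN bf cmp hκ0 hc hc2 lam hl hl4) f ε
      (closedBall x (M.D0.ρ x) ∩ (Om ∩ offO f (O34 lam)))) :
    Mbf_337.Cores (fN bf cmp hκ0 hc hc2 lam hl hl4) (M.mesh hk a hv) f (κ1 + τ) (κ2 - τ) univ
      (fun c => {ctB b M hk a hv c}) (fun c => {ctB b M hk a hv c})
      (fun c => {ctB b M hk a hv c}) (ctB b M hk a hv) (fun c => trA (A c) (v (b.symm c))) lam
      (fun c => zz c.1 (lam c)) (fun _ x => x) (fun _ _ => 0) ∧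
    Mbf_337.Fine (fN bf cmp hκ0 hc hc2 lam hl hl4) (M.mesh hk a hv) f ε
      (fun c => {ctB b M hk a hv c}) := by
  have hv' : ∀ j, ‖v j‖ ≤ M.r j := by
    intro j
    have h1 := hv j
    rw [hφ] at h1
    exact h1
  have hcor' : ∀ c, CoriE (M.φ ⁻¹' M.D0.Om) f (trA (A c) (v (b.symm c))) c.1 (lam c) (κ1 + τ)
      (κ2 - τ) := by
    intro c
    rw [hOmM]
    have h1 := hsm (b.symm c) (v (b.symm c)) (hv' (b.symm c))
    rw [b.apply_symm_apply] at h1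
    exact cor_tr (hcor c) h1
  have hlκ : ∀ c, (1 / 2 + κ2) * lam c + κ1 * κ0 * lam c < 1 / 2 := by
    intro c
    have h1 := hl c
    have h3 := hl4 c
    have h4 : κ1 * κ0 ≤ 1 / 8 := by nlinarith
    nlinarith
  refine ⟨coresN bf cmp hκ0 hc hc2 lam hl hl4 (by linarith) (by linarith) (by linarith) hκ12
    (ctB_inj b M hk a hv) hcor' fun c => P_ctB b M hk a hv hK c, ?_⟩
  refine fine_B b M hk a hv hLa hδ hR bf cmp hκ0 hc hc2 lam hl hl4 h00 hl0 (by linarith) hκ8 hK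
    hcor' X (ρ := M.D0.ρ) (fun _ => le_rfl) ?_ (κw := fun _ => κ1 + τ) (η := fun _ => η) ?_ huA0
    huA hη (fun _ => hε)
  · intro x hx
    have hxO : x ∈ Om := by
      rw [← hOmM]
      exact hx
    have h1 := hF x hxO
    rw [hOmM]
    rw [hφ]
    exact h1
  · intro j x hx
    have hxN : x - v j ∈ (M.Q j).N := ((M.Q j).mem_N_tr (v j) x).1 hx
    have hxt : x ∈ cthickening (M.r j) (M.Q j).N := by
      refine mem_cthickening_of_dist_le x (x - v j) _ _ hxN ?_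
      rw [dist_eq_norm, sub_sub_cancel]
      exact hv' j
    have hxA := hroom j hxt
    obtain ⟨hxO, h5⟩ := img_open (bf.pos _ (b j).2) (bf.asp _ (b j).2) (hl (b j)) hκ1
      (hlκ (b j)) (hcor (b j)) hxA
    refine ⟨Bx.mem_set.2 fun i => ⟨(h5 i).1.le, (h5 i).2.le⟩, ?_⟩
    have h6 := (hcor (b j) x (Or.inr fun i => (hxA i).trans (le_of_eq (by ring)))).2
    have h7 := (hsm j (v j) (hv' j)).1
    have e : f x - trA (A (b j)) (v j) x = (f x - A (b j) x) + (A (b j)).linear (v j) := by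
      rw [← trA_sub (A (b j)) (v j) x]; abel
    rw [e]
    refine (norm_add_le _ _).trans ?_
    have hs := Bx.sz_pos (bf.pos _ (b j).2)
    have h8 : lam (b j) * (b j).1.sz ≤ (b j).1.sz := by nlinarith [hl4 (b j)]
    have h9 : (κ1 + τ) * (lam (b j) * (b j).1.sz) ≤ (κ1 + τ) * (b j).1.sz :=
      mul_le_mul_of_nonneg_left h8 (by linarith)
    linarith

end gen




end

end Crest.Agent.R096.Fnn_635
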