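import Crest.Agent.R096.Bxs9_627
import Crest.Agent.R096.Mbf_337

/-!
Row 96 (S0127), helper627.  BOXES, part 10: `Exact` and `Cores` (all bricks exact) of the black box
`Mbf_337` from the core statement `CoriE`.
-/

set_option autoImplicit false
set_option linter.unusedSectionVars false
set_option linter.style.longLine false
set_option linter.unusedVariables false

open MeasureTheory Set Filter Topology Metric
open scoped ENNReal NNReal

namespace Crest.Agent.R096.Bxs_627

open Crest.AnalysisR.VecCalc3 Crest.AnalysisR.Sobolev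
open Crest.Agent.R096.Bsp_628 Crest.Agent.R96.Push_899 Crest.Agent.R96.En10_199
open Crest.Agent.R096.Brk5_582 Crest.Agent.R096.Msh_715 Crest.Agent.R096.EaX_766

noncomputable section

variable {La : Set E3} {F : Set (Bx (Fin 3))} {δ κ0 R c0 : ℝ}

lemma mem_cbx_iff {Q : Bx (Fin 3)} {lam : ℝ} {y : E3} :
    y ∈ cbx Q lam ↔ ∀ k, zz Q lam k + lam * Q.lo k ≤ y k ∧ y k ≤ zz Q lam k + lam * Q.hi k := by
  refine forall_congr' fun k => ?_
  rw [zz_lo, zz_hi, abs_le]
  constructor <;> rintro ⟨h1, h2⟩ <;> constructor <;> linarith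



end

end Crest.Agent.R096.Bxs_627
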