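import Crest.Agent.R096.Brk5_582
import Crest.Agent.R096.Core3_124
import Crest.Agent.R96.Push20_899
import Crest.Agent.R096.Fns2_360
import Crest.Agent.R096.Mal15_874

-- ▼ part R096/Core4_124
section

/-!
# Row 96 (S0127), helper124.  EXACT-CORE words, part 4: straight segments in label space.

`T_update`: moving one label `a` between two consecutive other labels moves `T b u` along a straight
line.  `MSeg`: a segment `[A0, A1]` of the foam on which only the label `a` varies, and crosses no other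
label.  `MSeg.point`: the labels along the segment.  `MSeg.near`: the same translation from every
nearby point `p` (labels within `ρ`) changes the labels in exactly the same way.
-/

set_option autoImplicit false
set_option linter.unusedSectionVars false
set_option linter.style.haveILetI false
open Set Filter Topology MeasureTheory

namespace Crest.Agent.R096.Core_124

open Crest.Agent.R096.Brk1_582 Crest.Agent.R096.Brk2_582

section labels

variable {E : Type*} [NormedAddCommGroup E] [NormedSpace ℝ E] [CompleteSpace E] {I : Type*}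

open Classical in
/-- direction of the motion of the label `a` above the set `S` of smaller labels -/
noncomputable def dirT (b : Set I → E) (u : I → ℝ) (a : I) (m : ℝ) : E :=
  b {c | c ≠ a ∧ u c ≤ m} - b (insert a {c | c ≠ a ∧ u c ≤ m})

open Classical in
theorem T_update_aux {b : Set I → E} {u : I → ℝ} (hS : {c | u c < 1}.Finite) {a : I} {m m' : ℝ}
    (hm : 0 ≤ m) (hm' : m' ≤ 1) (hg : ∀ c, c ≠ a → u c ≤ m ∨ m' ≤ u c) :
    ∃ X : E, ∀ s ∈ Icc m m', T b (Function.update u a s) = X +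
      (s - m) • b {c | c ≠ a ∧ u c ≤ m} + (m' - s) • b (insert a {c | c ≠ a ∧ u c ≤ m}) := by
  refine ⟨(∫ τ in (0:ℝ)..m, b {c | c ≠ a ∧ u c ≤ τ}) +
    ∫ τ in m'..1, b (insert a {c | c ≠ a ∧ u c ≤ τ}), fun s hs => ?_⟩
  have hfin : {c | Function.update u a s c < 1}.Finite := by
    refine (hS.insert a).subset fun c hc => ?_
    by_cases h : c = a
    · exact Or.inl h
    · right
      have : Function.update u a s c < 1 := hc
      rwa [Function.update_of_ne h] at this
  have hi1 := integr (b := b) hfin hm (hs.1.trans (hs.2.trans hm'))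
  have hi2 := integr (b := b) hfin hs.1 (hs.2.trans hm')
  have hi3 := integr (b := b) hfin hs.2 hm'
  have hi4 := integr (b := b) hfin hm' le_rfl
  have e0 : T b (Function.update u a s) =
      (((∫ τ in (0:ℝ)..m, b {c | Function.update u a s c ≤ τ}) +
        ∫ τ in m..s, b {c | Function.update u a s c ≤ τ}) +
        ∫ τ in s..m', b {c | Function.update u a s c ≤ τ}) +
        ∫ τ in m'..1, b {c | Function.update u a s c ≤ τ} := by
    rw [intervalIntegral.integral_add_adjacent_intervals hi1 hi2,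
      intervalIntegral.integral_add_adjacent_intervals (hi1.trans hi2) hi3,
      intervalIntegral.integral_add_adjacent_intervals ((hi1.trans hi2).trans hi3) hi4, T]
  have e1 : (∫ τ in (0:ℝ)..m, b {c | Function.update u a s c ≤ τ}) =
      ∫ τ in (0:ℝ)..m, b {c | c ≠ a ∧ u c ≤ τ} := by
    refine intervalIntegral.integral_congr_Ioo_of_le hm fun τ hτ => ?_
    have : {c | Function.update u a s c ≤ τ} = {c | c ≠ a ∧ u c ≤ τ} := by
      ext c
      by_cases h : c = a
      · subst h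
        simp only [mem_ofPred_eq, Function.update_self, ne_eq, not_true_eq_false, false_and,
          iff_false, not_le]
        exact hτ.2.trans_le hs.1
      · simp [h]
    simp only [this]
  have e2 : (∫ τ in m..s, b {c | Function.update u a s c ≤ τ}) =
      (s - m) • b {c | c ≠ a ∧ u c ≤ m} := by
    rw [intervalIntegral.integral_congr_Ioo_of_le (g := fun _ => b {c | c ≠ a ∧ u c ≤ m}) hs.1 ?_]
    · simp
    · intro τ hτ
      have : {c | Function.update u a s c ≤ τ} = {c | c ≠ a ∧ u c ≤ m} := by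
        ext c
        by_cases h : c = a
        · subst h
          simp only [mem_ofPred_eq, Function.update_self, ne_eq, not_true_eq_false, false_and,
            iff_false, not_le]
          exact hτ.2
        · simp only [mem_ofPred_eq, Function.update_of_ne h, ne_eq, h, not_false_eq_true, true_and]
          constructor
          · intro h1
            rcases hg c h with h2 | h2
            · exact h2
            · exact absurd (h2.trans h1) (not_le.2 (hτ.2.trans_le hs.2))
          · intro h1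
            exact h1.trans hτ.1.le
      simp only [this]
  have e3 : (∫ τ in s..m', b {c | Function.update u a s c ≤ τ}) =
      (m' - s) • b (insert a {c | c ≠ a ∧ u c ≤ m}) := by
    rw [intervalIntegral.integral_congr_Ioo_of_le
      (g := fun _ => b (insert a {c | c ≠ a ∧ u c ≤ m})) hs.2 ?_]
    · simp
    · intro τ hτ
      have : {c | Function.update u a s c ≤ τ} = insert a {c | c ≠ a ∧ u c ≤ m} := by
        ext c
        by_cases h : c = a
        · subst h
          simp only [mem_ofPred_eq, Function.update_self, mem_insert_iff, true_or, iff_true]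
          exact hτ.1.le
        · simp only [mem_ofPred_eq, Function.update_of_ne h, mem_insert_iff, h, ne_eq,
            not_false_eq_true, true_and, false_or]
          constructor
          · intro h1
            rcases hg c h with h2 | h2
            · exact h2
            · exact absurd (h2.trans h1) (not_le.2 hτ.2)
          · intro h1
            exact h1.trans (hs.1.trans hτ.1.le)
      simp only [this]
  have e4 : (∫ τ in m'..1, b {c | Function.update u a s c ≤ τ}) =
      ∫ τ in m'..1, b (insert a {c | c ≠ a ∧ u c ≤ τ}) := by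
    refine intervalIntegral.integral_congr_Ioo_of_le hm' fun τ hτ => ?_
    have : {c | Function.update u a s c ≤ τ} = insert a {c | c ≠ a ∧ u c ≤ τ} := by
      ext c
      by_cases h : c = a
      · subst h
        simp only [mem_ofPred_eq, Function.update_self, mem_insert_iff, true_or, iff_true]
        exact hs.2.trans hτ.1.le
      · simp [h]
    simp only [this]
  rw [e0, e1, e2, e3, e4]
  abel

open Classical in
/-- **moving one label between two consecutive other labels** -/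
theorem T_update {b : Set I → E} {u : I → ℝ} (hS : {c | u c < 1}.Finite) {a : I} {m m' : ℝ}
    (hm : 0 ≤ m) (hm' : m' ≤ 1) (hg : ∀ c, c ≠ a → u c ≤ m ∨ m' ≤ u c) {s s' : ℝ}
    (hs : s ∈ Icc m m') (hs' : s' ∈ Icc m m') :
    T b (Function.update u a s') = T b (Function.update u a s) + (s' - s) • dirT b u a m := by
  obtain ⟨X, hX⟩ := T_update_aux (b := b) hS hm hm' hg
  rw [hX s hs, hX s' hs', dirT]
  module

theorem dirT_congr {b : Set I → E} {u v : I → ℝ} {a : I} {m n : ℝ}
    (h : ∀ c, c ≠ a → (u c ≤ m ↔ v c ≤ n)) : dirT b u a m = dirT b v a n := by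
  have : {c | c ≠ a ∧ u c ≤ m} = {c | c ≠ a ∧ v c ≤ n} := by
    ext c
    simp only [mem_ofPred_eq]
    constructor
    · rintro ⟨h1, h2⟩; exact ⟨h1, (h c h1).1 h2⟩
    · rintro ⟨h1, h2⟩; exact ⟨h1, (h c h1).2 h2⟩
  rw [dirT, dirT, this]

variable {La : Set E} {P : I → Set E} {b : Set I → E} {N : ℕ}

open Classical in
/-- the translate of a point of the foam which moves the label `a` from `sc p a` to `s` -/
theorem sc_move (F : Foam La P b N) {p : E} (hp : p ∈ La) {a c : I} (hca : c ≠ a)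
    (hc : sc P b p c = 0) {m m' : ℝ} (hm : 0 ≤ m) (hm' : m' ≤ 1)
    (hg : ∀ c, c ≠ a → sc P b p c ≤ m ∨ m' ≤ sc P b p c) (hpa : sc P b p a ∈ Icc m m')
    (hpa1 : sc P b p a < 1) {s : ℝ} (hs : s ∈ Icc m m') (hs1 : s < 1) :
    p + (s - sc P b p a) • dirT b (sc P b p) a m ∈ La ∧
      sc P b (p + (s - sc P b p a) • dirT b (sc P b p) a m) =
        Function.update (sc P b p) a s := by
  have hK := F.sc_mem_K hp
  have hK' := update_mem_K (P := P) hK hpa1 ⟨c, hca, hc⟩ (hm.trans hs.1) hs1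
  have h1 := T_update (b := b) (F.K_finite hK) hm hm' hg hpa hs
  rw [Function.update_eq_self, F.T_sc hp] at h1
  rw [← h1]
  exact ⟨F.T_mem_La hK', F.sc_T hK'⟩

/-- a segment of the foam on which only the label `a` varies and crosses no other label -/
structure MSeg (P : I → Set E) (b : Set I → E) (La : Set E) (A0 A1 : E) (a c : I) : Prop where
  m0 : A0 ∈ La
  m1 : A1 ∈ La
  lab : ∀ c', c' ≠ a → sc P b A1 c' = sc P b A0 c'
  ne : sc P b A0 a ≠ sc P b A1 a
  gap : ∀ c', c' ≠ a → sc P b A0 c' ≤ min (sc P b A0 a) (sc P b A1 a) ∨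
    max (sc P b A0 a) (sc P b A1 a) ≤ sc P b A0 c'
  zero : sc P b A0 c = 0
  nea : c ≠ a

namespace MSeg

variable {A0 A1 : E} {a c : I}

open Classical in
theorem dir (h : MSeg P b La A0 A1 a c) (F : Foam La P b N) :
    A1 - A0 = (sc P b A1 a - sc P b A0 a) •
      dirT b (sc P b A0) a (min (sc P b A0 a) (sc P b A1 a)) := by
  have hK := F.sc_mem_K h.m0
  have e : Function.update (sc P b A0) a (sc P b A1 a) = sc P b A1 := by
    funext c'
    by_cases hc : c' = a
    · subst hc; simp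
    · rw [Function.update_of_ne hc, h.lab c' hc]
  have h1 := T_update (b := b) (F.K_finite hK) (a := a)
    (m := min (sc P b A0 a) (sc P b A1 a)) (m' := max (sc P b A0 a) (sc P b A1 a))
    (le_min (F.sc_nonneg h.m0 a) (F.sc_nonneg h.m1 a))
    (max_le (F.sc_le_one h.m0 a) (F.sc_le_one h.m1 a)) h.gap
    (s := sc P b A0 a) (s' := sc P b A1 a) ⟨min_le_left _ _, le_max_left _ _⟩
    ⟨min_le_right _ _, le_max_right _ _⟩
  rw [e, Function.update_eq_self, F.T_sc h.m0, F.T_sc h.m1] at h1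
  rw [← sub_eq_iff_eq_add'.2 h1]

theorem symm (h : MSeg P b La A0 A1 a c) : MSeg P b La A1 A0 a c where
  m0 := h.m1
  m1 := h.m0
  lab := fun c' hc' => (h.lab c' hc').symm
  ne := h.ne.symm
  gap := fun c' hc' => by
    rw [h.lab c' hc', min_comm, max_comm]
    exact h.gap c' hc'
  zero := by rw [h.lab c h.nea, h.zero]
  nea := h.nea

open Classical in
/-- **the labels along the segment** -/
theorem point (h : MSeg P b La A0 A1 a c) (F : Foam La P b N) {t : ℝ} (ht : t ∈ Icc (0:ℝ) 1) :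
    A0 + t • (A1 - A0) ∈ La ∧ sc P b (A0 + t • (A1 - A0)) =
      Function.update (sc P b A0) a (sc P b A0 a + t * (sc P b A1 a - sc P b A0 a)) := by
  set α := sc P b A0 a with hα
  set β := sc P b A1 a - α with hβ
  have h0 : α ∈ Icc (0:ℝ) 1 := ⟨F.sc_nonneg h.m0 a, F.sc_le_one h.m0 a⟩
  have h1 : sc P b A1 a ∈ Icc (0:ℝ) 1 := ⟨F.sc_nonneg h.m1 a, F.sc_le_one h.m1 a⟩
  have hK := F.sc_mem_K h.m0
  have hK1 := F.sc_mem_K h.m1
  have hval : α + t * β ∈ Icc (min α (sc P b A1 a)) (max α (sc P b A1 a)) := by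
    have e : α + t * β = (1 - t) * α + t * sc P b A1 a := by rw [hβ]; ring
    rw [e]
    obtain ⟨t0, t1⟩ := ht
    constructor
    · have a1 := min_le_left α (sc P b A1 a)
      have a2 := min_le_right α (sc P b A1 a)
      nlinarith [mul_le_mul_of_nonneg_left a1 (sub_nonneg.2 t1), mul_le_mul_of_nonneg_left a2 t0]
    · have a1 := le_max_left α (sc P b A1 a)
      have a2 := le_max_right α (sc P b A1 a)
      nlinarith [mul_le_mul_of_nonneg_left a1 (sub_nonneg.2 t1), mul_le_mul_of_nonneg_left a2 t0]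
  have hT := T_update (b := b) (F.K_finite hK) (a := a)
    (m := min α (sc P b A1 a)) (m' := max α (sc P b A1 a))
    (le_min h0.1 h1.1) (max_le h0.2 h1.2) h.gap
    (s := α) (s' := α + t * β) ⟨min_le_left _ _, le_max_left _ _⟩ hval
  have hT' : T b (Function.update (sc P b A0) a (α + t * β)) = A0 + t • (A1 - A0) := by
    rw [hT, h.dir F, hα, Function.update_eq_self, F.T_sc h.m0, smul_smul, ← hα]
    congr 2
    ring
  have hKt : Function.update (sc P b A0) a (α + t * β) ∈ K P := by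
    by_cases hlt : α + t * β < 1
    · have hpos : 0 ≤ α + t * β := (le_min h0.1 h1.1).trans hval.1
      by_cases hα1 : α < 1
      · exact update_mem_K hK hα1 ⟨c, h.nea, h.zero⟩ hpos hlt
      · have hA1 : sc P b A1 a < 1 := by
          refine lt_of_le_of_ne h1.2 fun h' => h.ne ?_
          rw [h']
          exact le_antisymm h0.2 (not_lt.1 hα1)
        have := update_mem_K hK1 hA1 ⟨c, h.nea, by rw [h.lab c h.nea]; exact h.zero⟩ hpos hlt
        have e : Function.update (sc P b A1) a (α + t * β) =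
            Function.update (sc P b A0) a (α + t * β) := by
          funext c'
          by_cases hc : c' = a
          · subst hc; simp
          · rw [Function.update_of_ne hc, Function.update_of_ne hc, h.lab c' hc]
        rwa [e] at this
    · have h1' : α + t * β = 1 :=
        le_antisymm (hval.2.trans (max_le h0.2 h1.2)) (not_lt.1 hlt)
      -- one of the ends is `1` and we are there
      by_cases hα1 : α = 1
      · rw [h1', ← hα1, hα, Function.update_eq_self]
        exact hK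
      · have hα' : α < 1 := lt_of_le_of_ne h0.2 hα1
        have ht1 : t = 1 := by
          by_contra hne
          have ht' : t < 1 := lt_of_le_of_ne ht.2 hne
          have e : α + t * β = (1 - t) * α + t * sc P b A1 a := by rw [hβ]; ring
          rw [e] at h1'
          nlinarith [mul_lt_mul_of_pos_left hα' (sub_pos.2 ht'), mul_le_mul_of_nonneg_left h1.2 ht.1]
        have e : Function.update (sc P b A0) a (α + t * β) = sc P b A1 := by
          funext c'
          by_cases hc : c' = a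
          · subst hc; rw [Function.update_self, ht1, hβ]; ring
          · rw [Function.update_of_ne hc, h.lab c' hc]
        rw [e]; exact hK1
  rw [← hT']
  exact ⟨F.T_mem_La hKt, F.sc_T hKt⟩

open Classical in
/-- **the same translation from a nearby point** -/
theorem near (h : MSeg P b La A0 A1 a c) (F : Foam La P b N) {ρ θ t σ : ℝ} {p : E} (hp : p ∈ La)
    (hpc : sc P b p c = 0) (hθ : 0 < θ) (ht : t ∈ Icc θ (1 - θ)) (hσ : t + σ ∈ Icc θ (1 - θ))
    (hρ : 2 * ρ ≤ |sc P b A1 a - sc P b A0 a| * θ)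
    (hV : ∀ c', |sc P b p c' - sc P b (A0 + t • (A1 - A0)) c'| ≤ ρ) :
    p + σ • (A1 - A0) ∈ La ∧ sc P b (p + σ • (A1 - A0)) =
      Function.update (sc P b p) a (sc P b p a + σ * (sc P b A1 a - sc P b A0 a)) := by
  set α := sc P b A0 a with hα
  set α1 := sc P b A1 a with hα1
  have h0 : α ∈ Icc (0:ℝ) 1 := ⟨F.sc_nonneg h.m0 a, F.sc_le_one h.m0 a⟩
  have h1 : α1 ∈ Icc (0:ℝ) 1 := ⟨F.sc_nonneg h.m1 a, F.sc_le_one h.m1 a⟩
  have hρ0 : 0 ≤ ρ := (abs_nonneg _).trans (hV a)
  have ht01 : t ∈ Icc (0:ℝ) 1 := ⟨hθ.le.trans ht.1, by linarith [ht.2]⟩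
  obtain ⟨-, hsc⟩ := h.point F ht01
  rw [hsc] at hV
  have hab : 0 < |α1 - α| := abs_pos.2 (sub_ne_zero.2 h.ne.symm)
  have hθ1 : θ ≤ 1 / 2 := by linarith [ht.1, ht.2]
  set m := min α α1 with hm
  set m' := max α α1 with hm'
  have hmm : m' - m = |α1 - α| := by
    rw [hm, hm', max_sub_min_eq_abs]
  -- values between
  have hval : ∀ τ ∈ Icc θ (1 - θ), m + |α1 - α| * θ ≤ α + τ * (α1 - α) ∧
      α + τ * (α1 - α) ≤ m' - |α1 - α| * θ := by
    intro τ hτ
    rcases le_total α α1 with hle | hle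
    · rw [hm, hm', min_eq_left hle, max_eq_right hle, abs_of_nonneg (sub_nonneg.2 hle)]
      constructor <;> nlinarith [hτ.1, hτ.2]
    · rw [hm, hm', min_eq_right hle, max_eq_left hle, abs_of_nonpos (sub_nonpos.2 hle)]
      constructor <;> nlinarith [hτ.1, hτ.2]
  have hVa : |sc P b p a - (α + t * (α1 - α))| ≤ ρ := by
    have := hV a
    rwa [Function.update_self] at this
  have hVc : ∀ c', c' ≠ a → |sc P b p c' - sc P b A0 c'| ≤ ρ := fun c' hc' => by
    have := hV c'
    rwa [Function.update_of_ne hc'] at this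
  have hg : ∀ c', c' ≠ a → sc P b p c' ≤ m + ρ ∨ m' - ρ ≤ sc P b p c' := by
    intro c' hc'
    have h2 := abs_le.1 (hVc c' hc')
    rcases h.gap c' hc' with h3 | h3
    · left; linarith [h2.2]
    · right; linarith [h2.1]
  obtain ⟨a1, a2⟩ := hval t ht
  obtain ⟨b1, b2⟩ := hval (t + σ) hσ
  have hVa' := abs_le.1 hVa
  have hpos : 0 < |α1 - α| * θ := mul_pos hab hθ
  have hm0 : 0 ≤ m := le_min h0.1 h1.1
  have hm1 : m' ≤ 1 := max_le h0.2 h1.2
  have hs : sc P b p a + σ * (α1 - α) ∈ Icc (m + ρ) (m' - ρ) := by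
    constructor <;> linarith
  have hpa : sc P b p a ∈ Icc (m + ρ) (m' - ρ) := by
    constructor <;> linarith
  have key := sc_move F hp h.nea hpc (m := m + ρ) (m' := m' - ρ) (by linarith) (by linarith) hg hpa
    ?_ hs ?_
  · have hdir : dirT b (sc P b p) a (m + ρ) = dirT b (sc P b A0) a m := by
      refine dirT_congr fun c' hc' => ?_
      have h2 := abs_le.1 (hVc c' hc')
      constructor
      · intro h4
        rcases h.gap c' hc' with h3 | h3
        · exact h3
        · exfalso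
          have : |α1 - α| ≤ 2 * ρ := by rw [← hmm]; linarith [h2.1]
          nlinarith
      · intro h4; linarith [h2.2]
    have e : (sc P b p a + σ * (α1 - α) - sc P b p a) • dirT b (sc P b p) a (m + ρ) =
        σ • (A1 - A0) := by
      rw [hdir, h.dir F, smul_smul]
      congr 1
      ring
    rw [e] at key
    exact key
  · -- `sc p a < 1`
    rcases hρ0.eq_or_lt with h5 | h5
    · rw [← h5] at hVa'
      linarith
    · linarith [hpa.2]
  · rcases hρ0.eq_or_lt with h5 | h5
    · rw [← h5] at hVa'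
      linarith
    · linarith [hs.2]



end MSeg

end labels

end Crest.Agent.R096.Core_124
end

-- ▼ part R096/Core5_124
section

/-!
# Row 96 (S0127), helper124.  EXACT-CORE words, part 5: (RADIAL).

For a brick `c` whose push is `psi Q C B` with `C = z + lam * Q` homothetic to `Q`, and for a segment
`[A0, A1]` of `∂Q` along which only one label varies (`MSeg`), the level functions `Φ.lev c'` are
`NearAffW` along `z + lam • [A0, A1] ⊆ ∂C`.
-/

set_option autoImplicit false
set_option linter.unusedSectionVars false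
set_option linter.style.haveILetI false
set_option linter.unusedVariables false
open Set Filter Topology MeasureTheory Metric

namespace Crest.Agent.R096.Core_124

open Crest.Agent.R096.Bsp_628 Crest.Agent.R096.Brk1_582 Crest.Agent.R096.Brk2_582
open Crest.Agent.R096.Brk3_582 Crest.Agent.R096.Brk5_582
open Crest.Agent.R96.Push_899 Crest.Agent.R096.SkC1_961

section box

variable {ι : Type*} [Fintype ι] [Nonempty ι] [DecidableEq ι]





end box

/-- the push of the brick `c` is `psi Q C B` with `C = z + lam * Q` -/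
structure HCore {δ κ0 R c0 : ℝ} {La : Set E3} (Φ : FoamD δ κ0 R c0 La) (c : Φ.F)
    (P : Finset (Fin 3)) (κ ρ : ℝ) (C : Box (Fin 3)) (lam : ℝ) (z : E3) : Prop where
  shape : Shape P c0 κ ρ (bbox Φ c) C
  inner : Inner C (Φ.B c)
  pu : Φ.pu c = psi (bbox Φ c) C (Φ.B c)
  l0 : 0 < lam
  l1 : lam ≤ 1
  lo : ∀ k, C.lo k = z k + lam * c.1.lo k
  hi : ∀ k, C.hi k = z k + lam * c.1.hi k

namespace HCore

variable {δ κ0 R c0 : ℝ} {La : Set E3} {Φ : FoamD δ κ0 R c0 La} {c : Φ.F} {P : Finset (Fin 3)}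
  {κ ρ : ℝ} {C : Box (Fin 3)} {lam : ℝ} {z : E3} (H : HCore Φ c P κ ρ C lam z)
include H



theorem szpos : 0 < c.1.sz := Bx.sz_pos (Φ.bf.pos _ c.2)

theorem side_ge (k : Fin 3) : c.1.sz ≤ κ0 * c.1.side k := Φ.bf.asp _ c.2 k

theorem side_le (k : Fin 3) : c.1.side k ≤ c.1.sz := Bx.side_le_sz _ k

theorem k1 : 1 ≤ κ0 := by
  have h1 := H.side_ge 0
  have h2 := H.side_le 0
  have h3 := H.szpos
  have h4 : 0 < c.1.side 0 := Bx.side_pos (Φ.bf.pos _ c.2) 0
  by_contra hne
  nlinarith





/-- points near the core boundary -/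
def Nr (H : HCore Φ c P κ ρ C lam z) : Set E3 := {y | y ∈ c.1.set ∧ 1 / 2 ≤ tt C (Φ.B c) y}






end HCore

end Crest.Agent.R096.Core_124
end

-- ▼ part R096/Fns3_360
section

/-!
Row 96 (S0127), helper360.  FINE-SUP, part 3: the inner tiles (inside the block of an exact core).

* `psi_lip_off` : the two-stage push is Lipschitz off `{tt C B < θ}` (no convexity);
* `psh_lip_off` : the one-stage push is Lipschitz off the hole;
* **`fineS_brick`** : a set whose image lies in the brick `c`, off the hole, with small oscillation of `f`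
  is fine;
* `hcore_fD` : 124's `HCore` for `fD`;
* **`fineS_inner`** : the tiles of the block, `f` close to the exact map `A`.
-/

set_option autoImplicit false
set_option linter.style.longLine false
set_option linter.unusedSectionVars false

open MeasureTheory Set Filter Topology Metric

namespace Crest.Agent.R096.Fns_360

open Crest.Agent.R096.Bsp_628 Crest.Agent.R096.Brk1_582 Crest.Agent.R096.Brk2_582
open Crest.Agent.R096.Brk3_582
open Crest.Agent.R096.Brk5_582
open Crest.Agent.R096.Msh_715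
open Crest.Agent.R96.Push_899
open Crest.Agent.R096.SkC1_961 (E3 Hom3 IsPush FoamD)
open Crest.Agent.R096.EaX_766 (cbx)
open Crest.Agent.R096.Bxs_627 (ctr cb CoriE fD)
open Crest.Agent.R096.Core_124

noncomputable section

theorem sum_le3 (y y' : E3) : ∑ j, |y' j - y j| ≤ 3 * ‖y' - y‖ := by
  have : ∀ j ∈ (Finset.univ : Finset (Fin 3)), |y' j - y j| ≤ ‖y' - y‖ := fun j _ => by
    have := norm_le_pi_norm (y' - y) j
    rwa [Pi.sub_apply, Real.norm_eq_abs] at this
  refine (Finset.sum_le_sum this).trans ?_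
  simp

/-- the Lipschitz constant of a push -/
def Kpu (α c0 θ : ℝ) : ℝ := 3 * max (2 / c0 ^ 2) (9 * (1 / θ) * α)

theorem Kpu_nonneg (α c0 θ : ℝ) : 0 ≤ Kpu α c0 θ :=
  mul_nonneg (by norm_num) (le_trans (by positivity) (le_max_left _ _))

/-- **the two-stage push is Lipschitz off a neighbourhood of the hole** -/
theorem psi_lip_off {P : Finset (Fin 3)} {c₀ κ ρ : ℝ} {Q C B : Box (Fin 3)} (hQ : Shape P c₀ κ ρ Q C)
    (hC : Inner C B) {α θ : ℝ} (hα : ∀ i j, Q.W i ≤ α * C.W j) (hθ : 0 < θ) (hθ1 : θ ≤ 1)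
    {y y' : E3} (hy : θ ≤ tt C B y) (hy' : θ ≤ tt C B y') :
    ‖psi Q C B y' - psi Q C B y‖ ≤ Kpu α c₀ θ * ‖y' - y‖ := by
  have hα0 : 0 ≤ α := by
    have h1 := hα 0 0
    have h2 := hQ.W0 0
    have h3 := hC.W0 0
    by_contra hneg
    nlinarith
  have hc0 := hQ.c0
  set K := max (2 / c₀ ^ 2) (9 * (1 / θ) * α) with hK
  have hK1 : 2 / c₀ ^ 2 ≤ K := le_max_left _ _
  have hK2 : 9 * (1 / θ) * α ≤ K := le_max_right _ _
  have hK0 : 0 ≤ K := le_trans (by positivity) hK1
  have toN : ∀ z z' : E3, (∀ i, |psi Q C B z' i - psi Q C B z i| ≤ K * ∑ j, |z' j - z j|) →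
      ‖psi Q C B z' - psi Q C B z‖ ≤ 3 * K * ‖z' - z‖ := by
    intro z z' h
    refine (pi_norm_le_iff_of_nonneg (by positivity)).2 fun i => ?_
    rw [Pi.sub_apply, Real.norm_eq_abs]
    refine (h i).trans ?_
    calc K * ∑ j, |z' j - z j| ≤ K * (3 * ‖z' - z‖) :=
          mul_le_mul_of_nonneg_left (sum_le3 z z') hK0
      _ = 3 * K * ‖z' - z‖ := by ring
  have hout : ∀ z z' : E3, z ∉ C.I → z' ∉ C.I →
      ‖psi Q C B z' - psi Q C B z‖ ≤ 3 * K * ‖z' - z‖ := by
    intro z z' h1 h2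
    refine toN z z' fun i => (psi_incr_out hQ hC h1 h2 i).trans ?_
    exact mul_le_mul_of_nonneg_right hK1 (Finset.sum_nonneg fun _ _ => abs_nonneg _)
  have hin : ∀ z z' : E3, z ∈ C.S → z' ∈ C.S → θ ≤ tt C B z → θ ≤ tt C B z' →
      ‖psi Q C B z' - psi Q C B z‖ ≤ 3 * K * ‖z' - z‖ := by
    intro z z' h1 h2 h3 h4
    have h1t : tt C B z' ≤ 1 := (tt_le_one_iff hC.nest _).2 h2
    refine toN z z' fun i => ?_
    have h5 := psi_incr_in hQ hC h1 h2 ⟨by linarith, Or.inl (by linarith)⟩
      ⟨by linarith, Or.inl (by linarith)⟩ (M := 1 / θ) (fun i => by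
        have h6 := hC.W_le_ww i (t := tt C B z') (by linarith) h1t
        have h7 := hC.W0 i
        rw [div_mul_eq_mul_div, one_mul, le_div_iff₀ hθ]
        nlinarith) (a := fun _ => α) (fun i j => hα i j) i
    refine h5.trans ?_
    rw [← Finset.mul_sum, ← mul_assoc]
    exact mul_le_mul_of_nonneg_right hK2 (Finset.sum_nonneg fun _ _ => abs_nonneg _)
  have hmix : ∀ z z' : E3, z ∈ C.S → z' ∉ C.S → θ ≤ tt C B z → θ ≤ tt C B z' →
      ‖psi Q C B z' - psi Q C B z‖ ≤ 3 * K * ‖z' - z‖ := by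
    intro z z' h1 h2 h3 h4
    have hzI : z' ∉ C.I := fun h => h2 fun i => ⟨(h i).1.le, (h i).2.le⟩
    have ht1 : tt C B z ≤ 1 := (tt_le_one_iff hC.nest _).2 h1
    have ht2 : 1 ≤ tt C B z' := not_lt.1 (mt (tt_lt_one_iff hC.nest _).1 hzI)
    have hcont : Continuous fun s : ℝ => tt C B (z + s • (z' - z)) :=
      (continuous_tt C B).comp (by fun_prop)
    obtain ⟨s, hs, hs1⟩ : (1:ℝ) ∈ (fun s : ℝ => tt C B (z + s • (z' - z))) '' Icc 0 1 := by
      refine intermediate_value_Icc zero_le_one hcont.continuousOn ?_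
      constructor
      · simpa using ht1
      · simpa using ht2
    set x := z + s • (z' - z) with hx
    have hs1' : tt C B x = 1 := hs1
    have hxS : x ∈ C.S := (tt_le_one_iff hC.nest _).1 hs1'.le
    have hxI : x ∉ C.I := fun h => by
      have := (tt_lt_one_iff hC.nest _).2 h
      linarith
    have e1 : ‖x - z‖ = s * ‖z' - z‖ := by
      rw [hx, show z + s • (z' - z) - z = s • (z' - z) by module, norm_smul,
        Real.norm_of_nonneg hs.1]
    have e2 : ‖z' - x‖ = (1 - s) * ‖z' - z‖ := by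
      rw [hx, show z' - (z + s • (z' - z)) = (1 - s) • (z' - z) by module, norm_smul,
        Real.norm_of_nonneg (sub_nonneg.2 hs.2)]
    have b1 := hin z x h1 hxS h3 (by rw [hs1']; exact hθ1)
    have b2 := hout x z' hxI hzI
    calc ‖psi Q C B z' - psi Q C B z‖ ≤ ‖psi Q C B z' - psi Q C B x‖ +
        ‖psi Q C B x - psi Q C B z‖ := norm_sub_le_norm_sub_add_norm_sub _ _ _
      _ ≤ 3 * K * ‖z' - x‖ + 3 * K * ‖x - z‖ := add_le_add b2 b1
      _ = 3 * K * ‖z' - z‖ := by rw [e1, e2]; ring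
  change ‖psi Q C B y' - psi Q C B y‖ ≤ 3 * K * ‖y' - y‖
  by_cases h1 : y ∈ C.S <;> by_cases h2 : y' ∈ C.S
  · exact hin y y' h1 h2 hy hy'
  · exact hmix y y' h1 h2 hy hy'
  · rw [norm_sub_rev, norm_sub_rev y' y]
    exact hmix y' y h2 h1 hy' hy
  · exact hout y y' (fun h => h1 fun i => ⟨(h i).1.le, (h i).2.le⟩)
      (fun h => h2 fun i => ⟨(h i).1.le, (h i).2.le⟩)


variable {δ κ0 R c0 : ℝ} {La Om : Set E3}

/-- the constant of `fineS_brick` -/
def KF (δ R : ℝ) : ℝ := max R (Cs (Fintype.card (Fin 3)) δ R)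

/-- **a set which is mapped into one brick, off the hole, with small oscillation** -/
theorem fineS_brick (Φ : FoamD δ κ0 R c0 La) (hLa : IsOpen La) (hδ : 0 < δ) (hR : 0 < R) {c : Φ.F}
    {f : E3 → E3} {S : Set E3} {L η ε : ℝ} (hS : ∀ x ∈ S, f x ∈ c.1.set ∧ f x ∉ (Φ.B c).S)
    (hL0 : 0 ≤ L)
    (hL : ∀ x ∈ S, ∀ y ∈ S, ‖Φ.pu c (f y) - Φ.pu c (f x)‖ ≤ L * ‖f y - f x‖)
    (hη : ∀ x ∈ S, ∀ y ∈ S, ‖f y - f x‖ ≤ η * c.1.sz) (hε : KF δ R * (L * η) ≤ ε) :
    FineS Φ f ε S := by
  have hsz : 0 < c.1.sz := Bx.sz_pos (Φ.bf.pos _ c.2)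
  have hC := Cs_nonneg (n := Fintype.card (Fin 3)) hδ hR
  have e : ∀ x ∈ S, Φ.Psi (f x) = Φ.pu c (f x) := fun x hx =>
    Vb_965.Psi_eqD Φ hLa (hS x hx).1
  have hm : ∀ x ∈ S, Φ.Psi (f x) ∈ Pc Φ.F c := fun x hx =>
    Nr_527.Psi_mem Φ hLa (hS x hx).1 (hS x hx).2
  have hd : ∀ x ∈ S, ∀ y ∈ S, ‖Φ.Psi (f y) - Φ.Psi (f x)‖ ≤ L * η * c.1.sz := by
    intro x hx y hy
    rw [e x hx, e y hy]
    calc _ ≤ L * ‖f y - f x‖ := hL x hx y hy
      _ ≤ L * (η * c.1.sz) := mul_le_mul_of_nonneg_left (hη x hx y hy) hL0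
      _ = _ := by ring
  have hLη : ∀ x ∈ S, 0 ≤ L * η := by
    intro x hx
    have h1 := hη x hx x hx
    rw [sub_self, norm_zero] at h1
    have h2 : 0 ≤ η := by
      by_contra hneg
      nlinarith
    positivity
  constructor
  · intro x hx y hy c' hc'
    have h1 : c.1.sz ≤ R * c'.1.sz := Φ.cmp c c' ⟨_, hm x hx, hc'⟩
    have h2 := hLη x hx
    have h3 : 0 < c'.1.sz := Bx.sz_pos (Φ.bf.pos _ c'.2)
    calc _ ≤ L * η * c.1.sz := hd x hx y hy
      _ ≤ L * η * (R * c'.1.sz) := mul_le_mul_of_nonneg_left h1 h2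
      _ = R * (L * η) * c'.1.sz := by ring
      _ ≤ KF δ R * (L * η) * c'.1.sz := by
        apply mul_le_mul_of_nonneg_right _ h3.le
        exact mul_le_mul_of_nonneg_right (le_max_left _ _) h2
      _ ≤ ε * c'.1.sz := mul_le_mul_of_nonneg_right hε h3.le
  · intro x hx y hy c'
    have h2 := hLη x hx
    have h1 := lip_cell Φ.bf hLa hδ hR Φ.cmp c _ (hm y hy) _ (hm x hx) c'
    refine h1.trans ?_
    calc _ ≤ Cs (Fintype.card (Fin 3)) δ R / c.1.sz * (L * η * c.1.sz) :=
          mul_le_mul_of_nonneg_left (hd x hx y hy) (by positivity)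
      _ = Cs (Fintype.card (Fin 3)) δ R * (L * η) := by field_simp
      _ ≤ KF δ R * (L * η) := mul_le_mul_of_nonneg_right (le_max_right _ _) h2
      _ ≤ ε := hε

/-- the constant of the inner tiles -/
def KI (δ κ0 R c0 : ℝ) : ℝ := KF δ R * Kpu (κ0 / c0) c0 (1 / 2)

/-- **inner tiles, in 124's language**: `f` maps `S` into the brick, `tt ≥ 1/2` -/
theorem fineS_nr {Φ : FoamD δ κ0 R c0 La} (hLa : IsOpen La) (hδ : 0 < δ) (hR : 0 < R) {c : Φ.F}
    {P : Finset (Fin 3)} {κ ρ : ℝ} {C : Box (Fin 3)} {lam : ℝ} {z : E3}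
    (H : HCore Φ c P κ ρ C lam z) {f : E3 → E3} {S : Set E3} {η ε : ℝ} (hS : ∀ x ∈ S, f x ∈ H.Nr)
    (hη : ∀ x ∈ S, ∀ y ∈ S, ‖f y - f x‖ ≤ η * c.1.sz) (hε : KI δ κ0 R c0 * η ≤ ε) :
    FineS Φ f ε S := by
  have hc0 := H.shape.c0
  refine fineS_brick Φ hLa hδ hR (c := c) (L := Kpu (κ0 / c0) c0 (1 / 2)) (η := η)
    (fun x hx => ⟨(hS x hx).1, fun h => ?_⟩) (Kpu_nonneg _ _ _) (fun x hx y hy => ?_) hη (by
      rw [← mul_assoc]; exact hε)
  · have h1 := (tt_le_zero_iff H.inner.nest (f x)).2 h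
    have h2 := (hS x hx).2
    linarith
  · rw [H.pu]
    refine psi_lip_off H.shape H.inner (fun i j => ?_) (by norm_num) (by norm_num) (hS x hx).2
      (hS y hy).2
    have h5 : (bbox Φ c).W i ≤ κ0 * (bbox Φ c).W j := (H.side_le i).trans (H.side_ge j)
    have h6 := H.shape.wd j
    have h8 := H.shape.W0 j
    have hk := H.k1
    rw [div_mul_eq_mul_div, le_div_iff₀ hc0]
    nlinarith


/-- off the open 3/4 core, `tt ≥ 1/2` -/
theorem half_le_tt {Q : Bx (Fin 3)} (hQ : Q.Pos) {lam : ℝ} (hl : 0 < lam) {y : E3}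
    (hy : y ∉ interior (cbx Q (3 / 4 * lam))) :
    1 / 2 ≤ tt (cb Q hQ lam hl.le) (cb Q hQ (lam / 2) (half_pos hl).le) y := by
  by_contra hcon
  rw [not_le, tt_lt_iff] at hcon
  apply hy
  rw [mem_interior_iff_mem_nhds]
  have hn : Nest (cb Q hQ (lam / 2) (half_pos hl).le) (cb Q hQ lam hl.le) :=
    (Bxs_627.inner_cb hQ hl).nest
  have h1 : ∀ k, |y k - ctr Q k| < 3 / 4 * lam * Q.side k / 2 := by
    intro k
    have h2 := (gg_lt_iff hn y k (1 / 2)).1 (hcon k)
    unfold cl ch at h2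
    rw [Bxs_627.cb_lo, Bxs_627.cb_lo, Bxs_627.cb_hi, Bxs_627.cb_hi] at h2
    rw [abs_lt]
    constructor <;> linarith [h2.1, h2.2]
  have h4 : ∀ᶠ y' in 𝓝 y, ∀ k, |y' k - ctr Q k| < 3 / 4 * lam * Q.side k / 2 := by
    rw [eventually_all]
    intro k
    have hc : ContinuousAt (fun y' : E3 => |y' k - ctr Q k|) y :=
      (((continuous_apply k).continuousAt).sub continuousAt_const).abs
    exact hc.eventually (gt_mem_nhds (h1 k))
  filter_upwards [h4] with y' hy'
  exact fun k => (hy' k).le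


end

end Crest.Agent.R096.Fns_360
end

-- ▼ part R096/Fns4_360

/-!
Row 96 (S0127), helper360.  FINE-SUP, part 4: `Fine` and `Cores` on 874's aligned mesh `MD.mesh`.

* `trA A v` = `A (· - v)`; **`CoriE.tr`** : the core statement for the translated core;
* `inner_size_all` : size of every inner tile except the core;
* **`fineS_outer`**, **`fineS_innerM`** : the tiles of the mesh are fine;
* **`fine_MD`**, **`cores_MD`** : all bricks exact.
-/

set_option autoImplicit false
set_option linter.style.longLine false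
set_option linter.unusedSectionVars false

open MeasureTheory Set Filter Topology Metric

namespace Crest.Agent.R096.Fns_360

open Crest.Agent.R096.Bsp_628 Crest.Agent.R096.Brk1_582 Crest.Agent.R096.Brk2_582
open Crest.Agent.R096.Brk3_582
open Crest.Agent.R096.Brk5_582
open Crest.Agent.R096.Msh_715
open Crest.Agent.R96.Push_899
open Crest.Agent.R096.SkC1_961 (E3 Hom3 IsPush FoamD)
open Crest.Agent.R096.EaX_766 (cbx)
open Crest.Agent.R096.Bxs_627 (ctr cb CoriE fD)
open Crest.Agent.R096.Core_124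
open Crest.Agent.R096.Mal_874 Crest.Agent.R096.Msh_810

noncomputable section

/-! ### translation of a core -/

/-- the exact map of the core translated by `v` -/
def trA (A : E3 ≃ᵃ[ℝ] E3) (v : E3) : E3 ≃ᵃ[ℝ] E3 := (AffineEquiv.constVAdd ℝ E3 (-v)).trans A

theorem trA_apply (A : E3 ≃ᵃ[ℝ] E3) (v x : E3) : trA A v x = A (x - v) := by
  change A ((AffineEquiv.constVAdd ℝ E3 (-v)) x) = _
  rw [AffineEquiv.constVAdd_apply, vadd_eq_add]
  congr 1
  abel

theorem trA_sub (A : E3 ≃ᵃ[ℝ] E3) (v x : E3) : A x - trA A v x = A.linear v := by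
  rw [trA_apply]
  have := A.toAffineMap.linearMap_vsub x (x - v)
  rw [vsub_eq_sub, vsub_eq_sub, sub_sub_cancel] at this
  exact this.symm

theorem trA_linear (A : E3 ≃ᵃ[ℝ] E3) (v : E3) : (trA A v).linear = A.linear := by
  ext x : 1
  have h1 := (trA A v).toAffineMap.linearMap_vsub x 0
  have h2 := A.toAffineMap.linearMap_vsub (x - v) (0 - v)
  rw [vsub_eq_sub, vsub_eq_sub, sub_zero] at h1
  rw [vsub_eq_sub, vsub_eq_sub, sub_sub_sub_cancel_right, sub_zero] at h2
  have h3 : (trA A v).toAffineMap x - (trA A v).toAffineMap 0 =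
      A.toAffineMap (x - v) - A.toAffineMap (0 - v) := by
    change trA A v x - trA A v 0 = A (x - v) - A (0 - v)
    rw [trA_apply, trA_apply]
  change (trA A v).toAffineMap.linear x = A.toAffineMap.linear x
  rw [h1, h2, h3]

/-- **the core statement for the translated core** -/
theorem CoriE.tr {Om : Set E3} {f : E3 → E3} {A : E3 ≃ᵃ[ℝ] E3} {Q : Bx (Fin 3)}
    {lam κ1 κ2 κ1' κ2' : ℝ} (h : CoriE Om f A Q lam κ1 κ2) {v : E3}
    (hv2 : ∀ k, |A.linear v k| ≤ (κ2 - κ2') * (lam * Q.side k))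
    (hv1 : ‖A.linear v‖ ≤ (κ1' - κ1) * (lam * Q.sz)) : CoriE Om f (trA A v) Q lam κ1' κ2' := by
  have key : ∀ x, x ∈ Om ∧ ‖f x - A x‖ ≤ κ1 * (lam * Q.sz) →
      x ∈ Om ∧ ‖f x - trA A v x‖ ≤ κ1' * (lam * Q.sz) := by
    rintro x ⟨h1, h2⟩
    refine ⟨h1, ?_⟩
    have e : f x - trA A v x = (f x - A x) + A.linear v := by
      rw [← trA_sub A v x]; abel
    rw [e]
    refine (norm_add_le _ _).trans ?_
    linarith
  rintro x (h1 | h1)
  · exact key x (h x (Or.inl h1))
  · refine key x (h x (Or.inr fun k => ?_))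
    have e : A x k - ctr Q k = (trA A v x k - ctr Q k) + A.linear v k := by
      have := congrFun (trA_sub A v x) k
      rw [Pi.sub_apply] at this
      rw [← this]; ring
    rw [e]
    refine (abs_add_le _ _).trans ?_
    have := h1 k
    have := hv2 k
    linarith

/-! ### the tiles of the aligned mesh -/

section mesh

variable {J : Type*} (M : MD E3 3 J) {k : J → ℕ} (hk : M.Sc k) (a : Fin 3 → ℝ) {v : J → E3}
  (hv : M.Adm v)

/-- size of the inner tiles -/
theorem inner_size_all (X : RD M) {j : J} (i : M.IIx hk a hv j) (hi : i ≠ M.core hk a hv j) {x y : E3}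
    (hx : x ∈ P ((M.mesh hk a hv).H (Sum.inr ⟨j, i⟩)))
    (hy : y ∈ P ((M.mesh hk a hv).H (Sum.inr ⟨j, i⟩))) :
    dist ((M.Q j).ψ x) ((M.Q j).ψ y) ≤ X.R j / 2 ^ (M.Q j).kc := by
  have hp : (0 : ℝ) < 2 ^ (M.Q j).kc := by positivity
  have hR := X.R1 j
  rcases hi1 : i.1 with τ | s
  · refine (M.inner_size hk a hv hi1 hx hy).trans ?_
    exact div_le_div_of_nonneg_right hR hp.le
  · have hs : s ≠ (M.Q j).S.core := by
      rintro rfl
      exact hi (Subtype.ext hi1)
    have hx' : x ∈ P ((M.S hk (v := v) j).H i.1) := hx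
    have hy' : y ∈ P ((M.S hk (v := v) j).H i.1) := hy
    rw [hi1] at hx' hy'
    have hx2 : x ∈ P (iH (M.Bk v j).ψ (M.Bk v j).a' (M.Bk v j).kc ((M.Bk v j).S.GG s)) := hx'
    have hy2 : y ∈ P (iH (M.Bk v j).ψ (M.Bk v j).a' (M.Bk v j).kc ((M.Bk v j).S.GG s)) := hy'
    have h1 := X.hR j s hs _ (mem_P_iH.1 hx2) _ (mem_P_iH.1 hy2)
    rw [dist_pi_le_iff (by positivity)]
    intro l
    have h2 := h1 l
    change |ps (M.Bk v j).a' (M.Q j).kc ((M.Q j).ψ y) l - ps (M.Bk v j).a' (M.Q j).kc ((M.Q j).ψ x) l| ≤ _ at h2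
    have e : ps (M.Bk v j).a' (M.Q j).kc ((M.Q j).ψ y) l -
        ps (M.Bk v j).a' (M.Q j).kc ((M.Q j).ψ x) l =
        2 ^ (M.Q j).kc * ((M.Q j).ψ y l - (M.Q j).ψ x l) := by
      unfold ps; ring
    rw [e, abs_mul, abs_of_pos hp] at h2
    rw [Real.dist_eq, abs_sub_comm, le_div_iff₀ hp, mul_comm]
    exact h2

variable {δ κ0 R c0 : ℝ} {La : Set E3}

/-- **the outer tiles of the aligned mesh are fine** -/
theorem fineS_outer {Φ : FoamD δ κ0 R c0 La} {f : E3 → E3} {ε : ℝ} {Y : Set E3}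
    {ρ : (Fin 3 → ℝ) → ℝ} (hρ : ∀ u, M.D0.ρ u ≤ ρ u)
    (hF : ∀ x, M.φ x ∈ M.D0.Om → FineS Φ f ε (M.φ ⁻¹' closedBall (M.φ x) (ρ (M.φ x)) ∩ Y))
    (p : M.OIx hk a hv) : FineS Φ f ε (P ((M.mesh hk a hv).H (Sum.inl p)) ∩ Y) := by
  obtain ⟨x, hx⟩ := (M.mesh hk a hv).ne (Sum.inl p)
  have hx' := I_sub_P _ hx
  refine (hF x ((M.mesh hk a hv).sub _ hx')).mono (inter_subset_inter_left _ fun y hy => ?_)
  have h1 := M.outer_size hk a hv p hx' hy
  have hC := M.hC
  rw [mem_preimage, mem_closedBall, dist_comm]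
  refine h1.trans (le_trans ?_ (hρ _))
  exact div_le_self (M.D0.nonneg _) (by linarith)

/-- an inner tile which is not the core lies in the block and off the open core -/
theorem inner_off {j : J} (i : M.IIx hk a hv j) (hi : i ≠ M.core hk a hv j) {x : E3}
    (hx : x ∈ P ((M.mesh hk a hv).H (Sum.inr ⟨j, i⟩))) :
    x ∈ (M.Bk v j).N ∧ x ∉ interior (M.Bk v j).Kc := by
  refine ⟨i.2 hx, ?_⟩
  rw [← M.P_core hk a hv j, Nr_527.interior_P' ((M.mesh hk a hv).ne _)]
  have hne : (Sum.inr ⟨j, i⟩ : M.OIx hk a hv ⊕ Σ j, M.IIx hk a hv j) ≠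
      Sum.inr ⟨j, M.core hk a hv j⟩ := by
    intro h
    have h1 := Sum.inr.inj h
    rw [Sigma.mk.injEq] at h1
    exact hi (eq_of_heq h1.2)
  exact fun h => Set.disjoint_left.1 (disjoint_P_I ((M.mesh hk a hv).ne _)
    ((M.mesh hk a hv).dis _ _ hne)) hx h

/-- **the inner tiles of the aligned mesh are fine** (124's language; every exact brick) -/
theorem fineS_innerM (hLa : IsOpen La) (hδ : 0 < δ) (hR : 0 < R) {Φ : FoamD δ κ0 R c0 La}
    {f : E3 → E3} (X : RD M) {j : J} {c : Φ.F} {P' : Finset (Fin 3)} {κ ρ : ℝ} {C : Box (Fin 3)}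
    {lam : ℝ} {z : E3} (H : HCore Φ c P' κ ρ C lam z) (A : E3 → E3) {κw uA η ε : ℝ}
    (hN : ∀ x ∈ (M.Bk v j).N, x ∉ interior (M.Bk v j).Kc → f x ∈ H.Nr ∧ ‖f x - A x‖ ≤ κw * c.1.sz)
    (huA0 : 0 ≤ uA) (huA : ∀ x y, ‖A y - A x‖ ≤ uA * dist ((M.Q j).ψ x) ((M.Q j).ψ y))
    (hη : uA * (X.R j / 2 ^ (M.Q j).kc) ≤ η * c.1.sz) (hε : KI δ κ0 R c0 * (η + 2 * κw) ≤ ε)
    (i : M.IIx hk a hv j) (hi : i ≠ M.core hk a hv j) :
    FineS Φ f ε (P ((M.mesh hk a hv).H (Sum.inr ⟨j, i⟩))) := by
  have hoff := fun x hx => inner_off M hk a hv i hi (x := x) hx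
  refine fineS_nr hLa hδ hR H (S := P ((M.mesh hk a hv).H (Sum.inr ⟨j, i⟩)))
    (fun x hx => (hN x (hoff x hx).1 (hoff x hx).2).1) (η := η + 2 * κw) (fun x hx y hy => ?_) hε
  have h1 := (hN x (hoff x hx).1 (hoff x hx).2).2
  have h2 := (hN y (hoff y hy).1 (hoff y hy).2).2
  have h3 : ‖A y - A x‖ ≤ η * c.1.sz := by
    refine (huA x y).trans (le_trans ?_ hη)
    exact mul_le_mul_of_nonneg_left (inner_size_all M hk a hv X i hi hx hy) huA0
  have e : f y - f x = (f y - A y) + (A y - A x) - (f x - A x) := by abel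
  rw [e]
  refine (norm_sub_le _ _).trans ?_
  have h4 := norm_add_le (f y - A y) (A y - A x)
  have e2 : (η + 2 * κw) * c.1.sz = κw * c.1.sz + η * c.1.sz + κw * c.1.sz := by ring
  change _ ≤ (η + 2 * κw) * c.1.sz
  rw [e2]
  linarith

/-- the core tile is the translated exact core -/
theorem P_core_tr {j : J} {A : E3 ≃ᵃ[ℝ] E3} {Q : Bx (Fin 3)} {lam : ℝ}
    (hK : (M.Q j).Kc = A ⁻¹' cbx Q lam) :
    P ((M.mesh hk a hv).H (Sum.inr ⟨j, M.core hk a hv j⟩)) = trA A (v j) ⁻¹' cbx Q lam := by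
  rw [M.P_core hk a hv j]
  ext x
  rw [(M.Q j).mem_Kc_tr, hK, mem_preimage, mem_preimage, trA_apply]

end mesh

/-! ### all bricks exact -/

section univ

variable {δ κ0 R c0 : ℝ} {La : Set E3} {F : Set (Bx (Fin 3))} (M : MD E3 3 F) {k : F → ℕ}
  (hk : M.Sc k) (a : Fin 3 → ℝ) {v : F → E3} (hv : M.Adm v)





end univ

end

end Crest.Agent.R096.Fns_360
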