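import Crest.Agent.R096.Mal16_874
import Crest.Agent.R96.Wm1_72

-- ▼ part R096/Mou1_324
section

/-!
# Row 96 (S0127), instance of `MF` (helper324): potential tiles of good tiles

`sim_pt` : 874's `sim_tile` with a prescribed integer vector.
`Tq φ a0 κ z S = {y | 2^κ (φ y - a0) - z ∈ S}` : potential tile; **`Good.pot`** : every good tile is a shifted
potential tile `Tq φ a0 κ z S` with `S` in the finite list `shapes 𝒩 d (bnd 𝒩 d R)`, `S ⊆ [-R, R + 1]^n`, and its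
configuration in the rigid frame `frT φ a0 κ z` is in the list `simL 𝒩 d R`.
-/

set_option autoImplicit false

open Set Filter Topology Metric

namespace Crest.Agent.R096.Mou_324

open Msh_715 Cut_874 Msh_810 Mal_874

variable {n : ℕ} {E : Type*} [NormedAddCommGroup E] [NormedSpace ℝ E]
variable {Om : Set E} {ι : Type*}

/-- **configurations, with a prescribed integer vector** -/
theorem sim_pt {T : Tiling Om ι} {χ : E ≃ᵃ[ℝ] (Fin n → ℝ)} {s : ℝ} (hs : 0 < s)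
    {𝒩 : Finset (Fin n → ℝ)} {d : ℕ} (hd : 0 < d) (h𝒩 : ∀ ν ∈ 𝒩, ∀ m, ∃ c : ℤ, ν m = c / d)
    {R : ℝ} {i : ι}
    (hgood : ∀ l, (P (T.H l) ∩ P (T.H i)).Nonempty → ∀ h ∈ T.H l, ∃ ν, ∃ t : ℤ, GF χ s 𝒩 d h ν t)
    (hR : ∀ x ∈ P (T.H i), ∀ y ∈ P (T.H i), ∀ m, |χ y m - χ x m| ≤ R) {x0 : E}
    (hx0' : x0 ∈ P (T.H i)) {z0 : Fin n → ℤ} (hz0 : ∀ m, z0 m = ⌊χ x0 m⌋) :
    (fun K => (χ.trans (trz z0)) '' K) '' cfg T i ∈ simL 𝒩 d R := by
  obtain rfl : z0 = fun m => ⌊χ x0 m⌋ := funext hz0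
  rintro _ ⟨_, ⟨x, hx, rfl⟩, rfl⟩
  obtain ⟨S, hS, e⟩ := cc_shape' (x := x) hs hd h𝒩 (R := R) (le_bnd (R := R))
    (fun l hl h hh => hgood l ⟨x, hl, hx⟩ h hh) (i₀ := i) hx (hR x hx)
  refine ⟨S, hS, fun m => ⌊χ x m⌋ - ⌊χ x0 m⌋, ?_, ?_⟩
  · intro m
    have h1 := Int.floor_le (χ x m)
    have h2 := Int.lt_floor_add_one (χ x m)
    have h3 := Int.floor_le (χ x0 m)
    have h4 := Int.lt_floor_add_one (χ x0 m)
    have h5 := abs_le.1 (hR x0 hx0' x hx m)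
    have h6 := le_abs_self R
    push_cast
    rw [abs_le]
    constructor <;> linarith
  · ext u
    simp only [Set.mem_image, Set.mem_ofPred_eq]
    constructor
    · rintro ⟨y, hy, rfl⟩
      rw [e] at hy
      have h1 : (fun m => (χ.trans (trz fun m => ⌊χ x0 m⌋)) y m - ((⌊χ x m⌋ - ⌊χ x0 m⌋ : ℤ) : ℝ)) =
          fun m => χ y m - (⌊χ x m⌋ : ℝ) := by
        funext m
        rw [AffineEquiv.trans_apply, trz_apply]
        push_cast
        ring
      rw [h1]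
      exact hy
    · intro hu
      refine ⟨(χ.trans (trz fun m => ⌊χ x0 m⌋)).symm u, ?_, by simp⟩
      rw [e]
      simp only [Set.mem_ofPred_eq]
      have h1 : (fun m => χ ((χ.trans (trz fun m => ⌊χ x0 m⌋)).symm u) m - (⌊χ x m⌋ : ℝ)) =
          fun m => u m - ((⌊χ x m⌋ - ⌊χ x0 m⌋ : ℤ) : ℝ) := by
        funext m
        have h2 : (χ.trans (trz fun m => ⌊χ x0 m⌋)) ((χ.trans (trz fun m => ⌊χ x0 m⌋)).symm u) m
            = u m := by simp
        rw [AffineEquiv.trans_apply, trz_apply] at h2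
        push_cast
        linarith
      rw [h1]
      exact hu

/-! ### potential tiles -/

/-- the potential tile `(z, S)` in the frame `φ`, base point `a0`, scale `κ` -/
def Tq (φ : E ≃L[ℝ] (Fin n → ℝ)) (a0 : Fin n → ℝ) (κ : ℕ) (z : Fin n → ℤ) (S : Set (Fin n → ℝ)) : Set E :=
  {y | (fun m => chi φ a0 κ y m - (z m : ℝ)) ∈ S}

/-- the rigid frame of the potential tile -/
noncomputable def frT (φ : E ≃L[ℝ] (Fin n → ℝ)) (a0 : Fin n → ℝ) (κ : ℕ) (z : Fin n → ℤ) :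
    E ≃ᵃ[ℝ] (Fin n → ℝ) := (chi φ a0 κ).trans (trz z)

theorem frT_apply (φ : E ≃L[ℝ] (Fin n → ℝ)) (a0 : Fin n → ℝ) (κ : ℕ) (z : Fin n → ℤ) (y : E) :
    frT φ a0 κ z y = fun m => chi φ a0 κ y m - (z m : ℝ) := by
  unfold frT
  rw [AffineEquiv.trans_apply, trz_apply]

theorem mem_Tq {φ : E ≃L[ℝ] (Fin n → ℝ)} {a0 : Fin n → ℝ} {κ : ℕ} {z : Fin n → ℤ}
    {S : Set (Fin n → ℝ)} {y : E} : y ∈ Tq φ a0 κ z S ↔ frT φ a0 κ z y ∈ S := by
  rw [frT_apply]
  rfl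

theorem chi_shift (φ : E ≃L[ℝ] (Fin n → ℝ)) (a0 : Fin n → ℝ) (κ : ℕ) (b y : E) (m : Fin n) :
    chi φ (a0 + φ b) κ y m = chi φ a0 κ (y - b) m := by
  rw [chi_apply, chi_apply, map_sub, Pi.add_apply, Pi.sub_apply]
  ring

/-- the frames move with the shift -/
theorem frT_shift (φ : E ≃L[ℝ] (Fin n → ℝ)) (a0 : Fin n → ℝ) (κ : ℕ) (z : Fin n → ℤ) (b y : E) :
    frT φ (a0 + φ b) κ z y = frT φ a0 κ z (y - b) := by
  rw [frT_apply, frT_apply]
  funext m
  rw [chi_shift]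

/-- the potential tiles move with the shift -/
theorem Tq_shift (φ : E ≃L[ℝ] (Fin n → ℝ)) (a0 : Fin n → ℝ) (κ : ℕ) (z : Fin n → ℤ)
    (S : Set (Fin n → ℝ)) (b : E) : Tq φ (a0 + φ b) κ z S = (fun y => y + b) '' Tq φ a0 κ z S := by
  ext y
  rw [mem_Tq, frT_shift]
  constructor
  · intro h
    exact ⟨y - b, mem_Tq.2 h, sub_add_cancel y b⟩
  · rintro ⟨y', h, rfl⟩
    show frT φ a0 κ z (y' + b - b) ∈ S
    rw [add_sub_cancel_right]
    exact mem_Tq.1 h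

/-- linear part of the frame -/
theorem frT_linear (φ : E ≃L[ℝ] (Fin n → ℝ)) (a0 : Fin n → ℝ) (κ : ℕ) (z : Fin n → ℤ) (y : E) :
    (frT φ a0 κ z).linear y = fun m => 2 ^ κ * φ y m := by
  have h : (frT φ a0 κ z).linear y = frT φ a0 κ z (y + 0) - frT φ a0 κ z 0 := by
    have := (frT φ a0 κ z).map_vadd 0 y
    rw [vadd_eq_add, vadd_eq_add] at this
    rw [this, add_sub_cancel_right]
  rw [h, add_zero, frT_apply, frT_apply]
  funext m
  simp only [Pi.sub_apply, chi_apply, map_zero, Pi.zero_apply]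
  ring

/-- norm of the linear part of the frame -/
theorem frT_norm (φ : E ≃L[ℝ] (Fin n → ℝ)) (a0 : Fin n → ℝ) (κ : ℕ) (z : Fin n → ℤ) (y : E) :
    ‖(frT φ a0 κ z).linear y‖ ≤ 2 ^ κ * ‖(φ : E →L[ℝ] (Fin n → ℝ))‖ * ‖y‖ := by
  rw [frT_linear]
  have e : (fun m => 2 ^ κ * φ y m) = (2 : ℝ) ^ κ • φ y := rfl
  rw [e, norm_smul, Real.norm_eq_abs, abs_of_pos (by positivity : (0 : ℝ) < 2 ^ κ), mul_assoc]
  exact mul_le_mul_of_nonneg_left ((φ : E →L[ℝ] (Fin n → ℝ)).le_opNorm y) (by positivity)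

/-- `S` lies in the box `[-R, R + 1]^n` -/
def BS (R : ℝ) (S : Set (Fin n → ℝ)) : Prop := ∀ u ∈ S, ∀ m, -R ≤ u m ∧ u m ≤ R + 1

/-- **every good tile is a shifted potential tile, with a rigid frame** -/
theorem good_pot {T : Tiling Om ι} {t : ι} {φ : E ≃L[ℝ] (Fin n → ℝ)} {a a0 : Fin n → ℝ} {b : E}
    (hab : a = a0 + φ b) {k : ℕ} {𝒩 : Finset (Fin n → ℝ)} {d : ℕ} {R : ℝ}
    (h : Good T t (chi φ a k) k 𝒩 d R) (hd : 0 < d) (h𝒩 : ∀ ν ∈ 𝒩, ∀ m, ∃ c : ℤ, ν m = c / d) :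
    ∃ (z : Fin n → ℤ) (S : Set (Fin n → ℝ)), S ∈ shapes 𝒩 d (bnd 𝒩 d R) ∧ BS R S ∧
      P (T.H t) = (fun y => y + b) '' Tq φ a0 k z S ∧
      (fun K => (frT φ a k z) '' K) '' cfg T t ∈ simL 𝒩 d R := by
  obtain ⟨x, hx⟩ := T.ne t
  have hxP := I_sub_P _ hx
  obtain ⟨S, hS, e⟩ := h.cc hd h𝒩 hxP
  rw [T.cc_eq_tile hx] at e
  refine ⟨fun m => ⌊chi φ a k x m⌋, S, hS, ?_, ?_, ?_⟩
  · intro u hu m
    have hy : (frT φ a k (fun m => ⌊chi φ a k x m⌋)).symm u ∈ P (T.H t) := by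
      rw [e]
      show (fun m => chi φ a k
        ((frT φ a k (fun m => ⌊chi φ a k x m⌋)).symm u) m -
          (⌊chi φ a k x m⌋ : ℝ)) ∈ S
      rw [← frT_apply φ a k (fun m => ⌊chi φ a k x m⌋), AffineEquiv.apply_symm_apply]
      exact hu
    have h1 := abs_le.1 (h.sz x hxP _ hy m)
    have h2 : u m = chi φ a k
        ((frT φ a k (fun m => ⌊chi φ a k x m⌋)).symm u) m -
          (⌊chi φ a k x m⌋ : ℝ) := by
      have h3 := congrFun (frT_apply φ a k (fun m => ⌊chi φ a k x m⌋)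
        ((frT φ a k (fun m => ⌊chi φ a k x m⌋)).symm u)) m
      rw [AffineEquiv.apply_symm_apply] at h3
      exact h3
    have h4 := Int.floor_le (chi φ a k x m)
    have h5 := Int.lt_floor_add_one (chi φ a k x m)
    rw [h2]
    constructor <;> linarith [h1.1, h1.2]
  · rw [e, ← Tq_shift, ← hab]
    rfl
  · exact sim_pt (s := 2 ^ k) (by positivity) hd h𝒩 h.gf h.sz hxP fun m => rfl

end Crest.Agent.R096.Mou_324
end

-- ▼ part R096/Mou2_324

/-!
# Row 96 (S0127), instance of `MF` (helper324): the outer tiles and the wall tiles of 874's mesh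

`plain_pot` : an outer tile away from the walls is a shifted cube `Tw φ 0 s z` (72's potential tiles);
`wall_pot_out`, `wall_pot_in` : the tiles at the wall of the block `j` (outer pieces and cubes near the wall, inner
cubes which touch the wall) are shifted potential tiles `Tq φ 0 (k j) z S`, near the wall at the offset `w j`.
-/

set_option autoImplicit false

open Set Filter Topology Metric

namespace Crest.Agent.R096.Mou_324

open Msh_715 Cut_874 Msh_810 Mal_874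
open Crest.Agent.R96.Wm_72 (Tw Aw Tw_tr mem_Aw)

variable {n : ℕ} {E : Type*} [NormedAddCommGroup E] [NormedSpace ℝ E]

variable {J : Type*}

/-- `Q` is near the wall of the block `j` placed at the offset `w` -/
def NearW (M : MD E n J) (j : J) (w : E) (c : ℝ) (κ : ℕ) (Q : Set E) : Prop :=
  ∃ y, y - w ∈ frontier (M.Q j).N ∧ ∀ x ∈ Q, dist (M.φ x) (M.φ y) ≤ c / 2 ^ κ

variable (M : MD E n J) [NeZero n] {k : J → ℕ} (hk : M.Sc k) (a : Fin n → ℝ) {v : J → E}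
  (hv : M.Adm v)

omit [NeZero n] in
theorem symm_shift : a = 0 + M.φ (M.φ.symm a) := by
  rw [zero_add, ContinuousLinearEquiv.apply_symm_apply]

/-- the list of shapes of the wall `j` -/
abbrev ShW {M : MD E n J} (X : RD M) (j : J) : Set (Set (Fin n → ℝ)) :=
  shapes (NR (X.A j) (X.d j)) (X.d j) (bnd (NR (X.A j) (X.d j)) (X.d j) (X.c j))

theorem top_isM {D : Dat n} (τ : Top D) : IsM D ⟨τ.1.1.k, τ.1.1.z, Finset.univ⟩ := by
  obtain ⟨⟨⟨k', z', J'⟩, hτ⟩, hJ⟩ := τ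
  simp only at hJ
  subst hJ
  exact hτ

/-- **outer tiles away from the walls** -/
theorem plain_pot (p : M.OIx hk a hv)
    (h1 : P ((M.mesh hk a hv).H (Sum.inl p)) = P ((M.ad hk a hv).T0.H p.1.par))
    (hG : Good (M.mesh hk a hv) (Sum.inl p) (chi M.φ a (p.1.par.1.1.k + 1)) (p.1.par.1.1.k + 1)
        (N0 n) 1 2) :
    ∃ (s : ℕ) (z : Fin n → ℤ), s = p.1.par.1.1.k ∧ z = p.1.par.1.1.z ∧
      P ((M.mesh hk a hv).H (Sum.inl p)) = (fun y => y + M.φ.symm a) '' Tw M.φ 0 s z ∧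
      IsM (outD M.D0 k M.W a) ⟨s, z, Finset.univ⟩ ∧
      (fun K => (frT M.φ a (s + 1) (fun m => 2 * z m)) '' K) '' cfg (M.mesh hk a hv) (Sum.inl p) ∈
        simL (N0 n) 1 2 := by
  refine ⟨_, _, rfl, rfl, ?_, ?_, ?_⟩
  · rw [h1, ← Tw_tr, ← symm_shift]
    exact P_Hc M.φ a _ _
  · exact top_isM _
  · set s := p.1.par.1.1.k with hs
    set z := p.1.par.1.1.z with hz
    have hx0 : M.φ.symm (fun m => a m + z m / 2 ^ s) ∈ P ((M.mesh hk a hv).H (Sum.inl p)) := by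
      rw [h1]
      have e : P ((M.ad hk a hv).T0.H p.1.par) = M.φ ⁻¹' (Cu a s z) := P_Hc M.φ a _ _
      rw [e, mem_preimage, ContinuousLinearEquiv.apply_symm_apply, mem_Cu]
      intro i
      have hp : (2 : ℝ) ^ s ≠ 0 := by positivity
      have e2 : ps a s (fun m => a m + z m / 2 ^ s) i = z i := by
        unfold ps
        field_simp
        ring
      rw [e2]
      exact ⟨le_rfl, by linarith⟩
    refine sim_pt (s := 2 ^ (s + 1)) (by positivity) one_pos (N0_rat one_pos) hG.gf hG.sz hx0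
      fun m => ?_
    have e : chi M.φ a (s + 1) (M.φ.symm (fun m => a m + z m / 2 ^ s)) m = ((2 * z m : ℤ) : ℝ) := by
      rw [chi_apply, ContinuousLinearEquiv.apply_symm_apply]
      push_cast
      have hp : (2 : ℝ) ^ s ≠ 0 := by positivity
      rw [pow_succ]
      field_simp
      ring
    rw [e, Int.floor_intCast]

omit [NeZero n] in
/-- the wall, translated back -/
theorem near_back {j : J} {w b y : E} (hvj : v j = b + w) (hy : y ∈ frontier (M.Bk v j).N) :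
    y - b - w ∈ frontier (M.Q j).N := by
  have h := ((M.Q j).frontier_N_tr (v j)).1 hy
  rw [hvj] at h
  have e : y - b - w = y - (b + w) := by abel
  rw [e]
  exact h

/-- **good tiles in the wall class** -/
theorem wall_pot (X : RD M) {t : M.OIx hk a hv ⊕ Σ j, M.IIx hk a hv j} {j : J} {w : E}
    (hvj : v j = M.φ.symm a + w)
    (hG : Good (M.mesh hk a hv) t (chi M.φ a (k j)) (k j) (NR (X.A j) (X.d j)) (X.d j) (X.c j))
    (hn : ∃ y ∈ frontier (M.Bk v j).N, ∀ x ∈ P ((M.mesh hk a hv).H t),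
      dist (M.φ x) (M.φ y) ≤ (2 + X.c j) / 2 ^ k j) :
    ∃ (z : Fin n → ℤ) (S : Set (Fin n → ℝ)), S ∈ ShW X j ∧ BS (X.c j) S ∧
      P ((M.mesh hk a hv).H t) = (fun y => y + M.φ.symm a) '' Tq M.φ 0 (k j) z S ∧
      NearW M j w (2 + X.c j) (k j) (Tq M.φ 0 (k j) z S) ∧
      (fun K => (frT M.φ a (k j) z) '' K) '' cfg (M.mesh hk a hv) t ∈
        simL (NR (X.A j) (X.d j)) (X.d j) (X.c j) := by
  obtain ⟨z, S, hS, hB, hP, hsim⟩ := good_pot (symm_shift M a) hG (X.dpos j) (NR_rat (X.A j) (X.dpos j))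
  refine ⟨z, S, hS, hB, hP, ?_, hsim⟩
  obtain ⟨y, hy, hyd⟩ := hn
  refine ⟨y - M.φ.symm a, near_back M hvj hy, fun x hx => ?_⟩
  have h1 := hyd (x + M.φ.symm a) (by rw [hP]; exact mem_image_of_mem _ hx)
  have e : dist (M.φ x) (M.φ (y - M.φ.symm a)) = dist (M.φ (x + M.φ.symm a)) (M.φ y) := by
    rw [dist_eq_norm, dist_eq_norm, ← map_sub, ← map_sub]
    congr 2
    abel
  rw [e]
  exact h1

/-- **OUTER HALF**: every outer tile is a shifted plain cube or a shifted wall tile -/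
theorem outer_pot (X : RD M) (RPx : RP X a v k) {w : J → E} (hvw : ∀ j, v j = M.φ.symm a + w j)
    (p : M.OIx hk a hv) :
    (∃ (s : ℕ) (z : Fin n → ℤ),
      P ((M.mesh hk a hv).H (Sum.inl p)) = (fun y => y + M.φ.symm a) '' Tw M.φ 0 s z ∧
      IsM (outD M.D0 k M.W a) ⟨s, z, Finset.univ⟩ ∧
      (∀ j, Disjoint (P ((M.mesh hk a hv).H (Sum.inl p))) (M.Bk v j).N) ∧
      (fun K => (frT M.φ a (s + 1) (fun m => 2 * z m)) '' K) '' cfg (M.mesh hk a hv) (Sum.inl p) ∈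
        simL (N0 n) 1 2) ∨
    ∃ (j : J) (z : Fin n → ℤ) (S : Set (Fin n → ℝ)), S ∈ ShW X j ∧ BS (X.c j) S ∧
      P ((M.mesh hk a hv).H (Sum.inl p)) = (fun y => y + M.φ.symm a) '' Tq M.φ 0 (k j) z S ∧
      NearW M j (w j) (2 + X.c j) (k j) (Tq M.φ 0 (k j) z S) ∧
      (fun K => (frT M.φ a (k j) z) '' K) '' cfg (M.mesh hk a hv) (Sum.inl p) ∈
        simL (NR (X.A j) (X.d j)) (X.d j) (X.c j) := by
  rcases M.outer_good hk a hv X RPx p with ⟨h1, h2, h3⟩ | ⟨j, h1, ⟨y, hy, hyd⟩, h3⟩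
  · left
    obtain ⟨s, z, -, -, h4, h5, h6⟩ := plain_pot M hk a hv p h1 h3
    exact ⟨s, z, h4, h5, h2, h6⟩
  · right
    obtain ⟨z, S, h4, h5, h6, h7, h8⟩ := wall_pot M hk a hv X (hvw j) h3
      ⟨y, hy, fun x hx => (hyd x hx).trans (by
        have := X.c1 j
        exact div_le_div_of_nonneg_right (by linarith) (by positivity))⟩
    exact ⟨j, z, S, h4, h5, h6, h7, h8⟩


end Crest.Agent.R096.Mou_324
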