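import Crest.Agent.R096.Mfe2_161
import Crest.Agent.R096.Mfa1_880
import Crest.Agent.R096.Mou2_324
import Crest.Agent.R096.Cnt2_324

-- ▼ part R096/Mfe3_161
section

/-!
# Row 96 (helper161), MF-EDGE, part 3: the edges of 880's `PT` for free

`PTn` = `Mfa_880.PT` without potential edges (rigid frames `frr t`, countable families `𝒦 k` of
potential cells; `kk 𝓗 W o` from 324's `HS`); `PTn.toPT`, `PTn.Is → PT.Is`.
-/

set_option autoImplicit false
set_option linter.unusedSectionVars false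

open MeasureTheory Set Filter Metric
open scoped Topology ENNReal

namespace Crest.Agent.R096.Mfe_161

open Crest.Agent.R096.Msh_715
open Crest.Agent.R096.Cnt_324 (HS Cod pol cell_code')
open Crest.Agent.R096.SkC1_961 (E3 Cfg)
open Crest.Agent.R096.Ls_222 (Edg ea ev eIn mem_eIn sgm_edg ev_ne)
open Crest.Agent.R96.Sg1_199 (li sgm)
open Crest.Agent.R96.Pm_199 (Dec sh MF)
open Crest.Agent.R096.Mfa_880 (PT)

noncomputable section

variable {J : Type}

/-- the potential cells for the total shifts of the type `o` -/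
def kk (𝓗 : Set ((E3 →L[ℝ] ℝ) × ℝ)) (W : J → Set E3) : Option J → Set (Set E3)
  | none => pols 𝓗
  | some j => {Q | ∃ K ∈ pols 𝓗, ∃ u ∈ W j, Q = Mfe_161.shf (-u) K}

theorem kk_countable {𝓗 : Set ((E3 →L[ℝ] ℝ) × ℝ)} (h : 𝓗.Countable) {W : J → Set E3}
    (hW : ∀ j, (W j).Countable) (o : Option J) : (kk 𝓗 W o).Countable := by
  rcases o with _ | j
  · exact pols_countable h
  · have h1 : kk 𝓗 W (some j) = ⋃ K ∈ pols 𝓗, ⋃ u ∈ W j, {Mfe_161.shf (-u) K} := by
      ext Q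
      simp only [kk, mem_ofPred_eq, mem_iUnion, mem_singleton_iff, exists_prop]
    rw [h1]
    exact (pols_countable h).biUnion fun K _ => (hW j).biUnion fun u _ => countable_singleton _

theorem kk_mem {𝓗 : Set ((E3 →L[ℝ] ℝ) × ℝ)} {W : J → Set E3} {a : E3} {w : J → E3}
    (hw : ∀ j, w j ∈ W j) {Om : Set E3} {ι : Type*} {T : Tiling Om ι} (h : HS T a 𝓗)
    (o : Option J) {z : E3} (hz : z ∈ Om) : Mfe_161.shf (-(sh o a w)) (T.cc z) ∈ kk 𝓗 W o := by
  obtain ⟨K, hK, hc⟩ := cell_hs h hz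
  rcases o with _ | j
  · show Mfe_161.shf (-a) (T.cc z) ∈ pols 𝓗
    rw [hc, shf_neg]
    exact hK
  · refine ⟨K, hK, w j, hw j, ?_⟩
    show Mfe_161.shf (-(a + w j)) (T.cc z) = _
    rw [hc, Mfe_161.shf_shf, show -(a + w j) + a = -(w j) by abel]

theorem kk_mem' {𝓗 : Set ((E3 →L[ℝ] ℝ) × ℝ)} {W : J → Set E3} {a : E3} {w : J → E3}
    (hw : ∀ j, w j ∈ W j) {Om : Set E3} {ι : Type*} {T : Tiling Om ι} (h : HS T a 𝓗)
    (o : Option J) (e : Edg T) : Mfe_161.shf (-(sh o a w)) e.1 ∈ kk 𝓗 W o := by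
  obtain ⟨x, hx, -, he⟩ := e.2
  rw [he]
  exact kk_mem hw h o hx

/-- **potential tiles without edges** -/
structure PTn (J : Type) where
  κ : Type
  τ : Type
  cκ : Countable κ
  cτ : Countable τ
  cl : τ → κ
  bl : κ → Option J
  Til : τ → Set E3
  Ac : τ → Set E3
  Acm : ∀ t, MeasurableSet (Ac t)
  β : τ → ℝ
  Sh : κ → Set (Set (Set E3))
  shf : ∀ k, (Sh k).Finite
  frr : τ → E3 ≃ᵃ[ℝ] E3
  frn : ∀ t, ∀ y : E3, ‖(frr t).linear y‖ ≤ β t * ‖y‖
  /-- potential cells -/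
  𝒦 : κ → Set (Set E3)
  c𝒦 : ∀ k, (𝒦 k).Countable

namespace PTn

/-- the tile `i` of `T` is the potential tile `t` at the shifts `a, w` -/
structure Is (Q : PTn J) (a : E3) (w : J → E3) {Om : Set E3} {ι : Type} (T : Tiling Om ι) (i : ι)
    (t : Q.τ) : Prop where
  act : sh (Q.bl (Q.cl t)) a w ∈ Q.Ac t
  tile : P (T.H i) = (fun y => y + sh (Q.bl (Q.cl t)) a w) '' Q.Til t
  cell : ∀ e ∈ eIn T i, Mfe_161.shf (-(sh (Q.bl (Q.cl t)) a w)) e.1 ∈ Q.𝒦 (Q.cl t)
  shp : (fun K => Q.frr t '' Mfe_161.shf (-(sh (Q.bl (Q.cl t)) a w)) K) '' Cfg T i ∈ Q.Sh (Q.cl t)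

variable (Q : PTn J)

/-- potential segments -/
def Sg : Type := Σ k, {K : Set E3 // K ∈ Q.𝒦 k ∧ ∃ p : E3 × E3, p.2 ≠ 0 ∧ K = sgm p.1 p.2}

instance : Countable Q.Sg := by
  have := Q.cκ
  have : ∀ k, Countable {K : Set E3 // K ∈ Q.𝒦 k ∧ ∃ p : E3 × E3, p.2 ≠ 0 ∧ K = sgm p.1 p.2} := by
    intro k
    have h1 : {K : Set E3 | K ∈ Q.𝒦 k ∧ ∃ p : E3 × E3, p.2 ≠ 0 ∧ K = sgm p.1 p.2}.Countable :=
      (Q.c𝒦 k).mono fun K hK => hK.1
    exact h1.to_subtype
  unfold Sg
  infer_instance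

/-- parametrisation of a potential segment -/
def Sg.p {Q : PTn J} (K : Q.Sg) : E3 × E3 := K.2.2.2.choose

theorem Sg.p_ne {Q : PTn J} (K : Q.Sg) : K.p.2 ≠ 0 := K.2.2.2.choose_spec.1

theorem Sg.p_eq {Q : PTn J} (K : Q.Sg) : K.2.1 = sgm K.p.1 K.p.2 := K.2.2.2.choose_spec.2

/-- the cells of the finite configurations of the list of a class -/
def shs (k : Q.κ) : Set (Set E3) := ⋃₀ {c | c ∈ Q.Sh k ∧ c.Finite}

theorem shs_finite (k : Q.κ) : (Q.shs k).Finite :=
  Set.Finite.sUnion ((Q.shf k).subset fun _ hc => hc.1) fun _ hc => hc.2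

/-- the potential edges of the potential tile `t` -/
def EdS (t : Q.τ) : Set Q.Sg :=
  {j | j.1 = Q.cl t ∧ j.2.1 ⊆ Q.Til t ∧ Q.frr t '' j.2.1 ∈ Q.shs (Q.cl t)}

theorem EdS_injOn (t : Q.τ) : InjOn (fun j : Q.Sg => Q.frr t '' j.2.1) (Q.EdS t) := by
  rintro ⟨k, K⟩ hj ⟨k', K'⟩ hj' e
  have e1 : K.1 = K'.1 := (Q.frr t).injective.image_injective e
  have e2 : k = k' := hj.1.trans hj'.1.symm
  subst e2
  rw [Subtype.ext e1]

theorem EdS_finite (t : Q.τ) : (Q.EdS t).Finite := by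
  refine Set.Finite.of_finite_image ?_ (Q.EdS_injOn t)
  refine (Q.shs_finite (Q.cl t)).subset ?_
  rintro _ ⟨j, hj, rfl⟩
  exact hj.2.2

/-- **the structure with edges** -/
def toPT : PT J where
  κ := Q.κ
  τ := Q.τ
  η := Q.Sg
  cκ := Q.cκ
  cτ := Q.cτ
  cη := inferInstance
  cl := Q.cl
  bl := Q.bl
  Til := Q.Til
  Ac := Q.Ac
  Acm := Q.Acm
  x j := j.p.1
  v j := j.p.2
  Ed t := (Q.EdS_finite t).toFinset
  sub t j hj := by
    rw [Set.Finite.mem_toFinset] at hj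
    refine ⟨j.p_ne, ?_⟩
    rw [← j.p_eq]
    exact hj.2.1
  β := Q.β
  Sh := Q.Sh
  shf := Q.shf

/-- the number of potential edges of a potential tile -/
theorem card_Ed_le (t : Q.τ) : (Q.toPT.Ed t).card ≤ (Q.shs (Q.cl t)).ncard := by
  rw [← Set.ncard_coe_finset]
  show ((Q.EdS_finite t).toFinset : Set Q.Sg).ncard ≤ _
  rw [Set.Finite.coe_toFinset]
  exact Set.ncard_le_ncard_of_injOn (fun j : Q.Sg => Q.frr t '' j.2.1)
    (fun j hj => hj.2.2) (Q.EdS_injOn t) (Q.shs_finite _)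


theorem shf_affine (B : E3 ≃ᵃ[ℝ] E3) (s : E3) (K : Set E3) :
    ((AffineEquiv.constVAdd ℝ E3 (-s)).trans B) '' K = B '' Mfe_161.shf (-s) K := by
  unfold Mfe_161.shf
  rw [image_image]
  refine image_congr fun y _ => ?_
  show B (-s + y) = B (y + -s)
  rw [add_comm]

/-- **edges for free** -/
theorem Is.toPT {Q : PTn J} {a : E3} {w : J → E3} {Om : Set E3} {ι : Type} {T : Tiling Om ι}
    {i : ι} {t : Q.τ} (h : Q.Is a w T i t) : Q.toPT.Is a w T i t where
  act := h.act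
  tile := h.tile
  tedge e he := by
    have hsub := mem_eIn.1 he
    have hK := h.cell e he
    set s := sh (Q.bl (Q.cl t)) a w with hs
    have hp : ∃ p : E3 × E3, p.2 ≠ 0 ∧ Mfe_161.shf (-s) e.1 = sgm p.1 p.2 := by
      refine ⟨(ea e + -s, ev e), ev_ne e, ?_⟩
      rw [← sgm_edg e, shf_sgm]
    let j : Q.Sg := ⟨Q.cl t, ⟨Mfe_161.shf (-s) e.1, hK, hp⟩⟩
    refine subset_iUnion₂_of_subset j ?_ ?_
    · show j ∈ (Q.EdS_finite t).toFinset
      rw [Set.Finite.mem_toFinset]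
      refine ⟨rfl, ?_, ?_⟩
      · show Mfe_161.shf (-s) e.1 ⊆ Q.Til t
        have h1 := h.tile
        change _ = Mfe_161.shf s _ at h1
        rw [h1] at hsub
        have h2 := image_mono (f := fun y => y + -s) hsub
        change Mfe_161.shf _ _ ⊆ Mfe_161.shf _ (Mfe_161.shf _ _) at h2
        rwa [shf_neg] at h2
      · refine mem_sUnion.2 ⟨_, ⟨h.shp, ?_⟩, ?_⟩
        · refine Set.Finite.image _ ?_
          refine (T.finite_cells (T.cpt i) (T.sub i)).subset ?_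
          rintro _ ⟨x, hx, rfl⟩
          exact ⟨⟨x, (T.sub i) hx, rfl⟩, x, T.self_mem_cc x, hx⟩
        · obtain ⟨x, hx, -, hex⟩ := e.2
          refine ⟨e.1, ⟨x, mem_eIn.1 he ?_, hex⟩, rfl⟩
          rw [hex]
          exact T.self_mem_cc x
    · show e.1 ⊆ sgm (j.p.1 + s) j.p.2
      rw [← shf_sgm, ← j.p_eq]
      show e.1 ⊆ Mfe_161.shf s (Mfe_161.shf (-s) e.1)
      rw [shf_neg']
  frm := by
    refine ⟨(AffineEquiv.constVAdd ℝ E3 (-(sh (Q.bl (Q.cl t)) a w))).trans (Q.frr t), ?_, ?_⟩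
    · intro y
      have e : ((AffineEquiv.constVAdd ℝ E3 (-(sh (Q.bl (Q.cl t)) a w))).trans
          (Q.frr t)).linear y = (Q.frr t).linear y := rfl
      rw [e]
      exact Q.frn t y
    · have h1 := h.shp
      have e : (fun K => ((AffineEquiv.constVAdd ℝ E3 (-(sh (Q.bl (Q.cl t)) a w))).trans
          (Q.frr t)) '' K) = fun K => Q.frr t ''
            Mfe_161.shf (-(sh (Q.bl (Q.cl t)) a w)) K := by
        funext K
        exact shf_affine _ _ _
      show (fun K => ((AffineEquiv.constVAdd ℝ E3 (-(sh (Q.bl (Q.cl t)) a w))).trans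
          (Q.frr t)) '' K) '' Cfg T i ∈ Q.Sh (Q.cl t)
      rw [e]
      exact h1

theorem Is.cov {Q : PTn J} {a : E3} {w : J → E3} {Om : Set E3} {ι : Type} {T : Tiling Om ι}
    {i : ι} {t : Q.τ} (h : Q.Is a w T i t) : Q.toPT.Cov a w T i := ⟨t, h.toPT⟩

end PTn

end

end Crest.Agent.R096.Mfe_161
private theorem rz_08f28bc5f5 : type_of% @_root_.Crest.Agent.R096.Mfe_161.kk.eq_1 := @_root_.Crest.Agent.R096.Mfe_161.kk.eq_1 -- L32
end

-- ▼ part R096/Mou3_324

/-!
# Row 96 (S0127), instance of `MF` (helper324): the OUTER HALF in 880's / 161's format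

`QP` : the outer cubes away from the walls (class `()`), potential tiles `Tw φ 0 s z`; active only if the tile misses
the open set `O`;  `QW` : the outer tiles at the walls (classes `J`), potential tiles `(j, z, S)`;
`QO = QP.toPT.sum QW.toPT`; **`cov_outer`** : every outer tile of 874's `MD.mesh` is covered.
-/

set_option autoImplicit false
set_option linter.unusedSectionVars false

open MeasureTheory Set Filter Topology Metric
open scoped ENNReal

namespace Crest.Agent.R096.Mou_324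

open Msh_715 Cut_874 Msh_810 Mal_874
open Crest.Agent.R096.SkC1_961 (E3 Cfg)
open Crest.Agent.R96.Wm_72 (Tw Aw Tw_tr mem_Aw measurableSet_Aw)
open Crest.Agent.R096.Ls_222 (Edg ea eIn mem_eIn)
open Crest.Agent.R96.Pm_199 (sh)
open Crest.Agent.R096.Mfe_161 (PTn shf kk kk_mem' kk_countable)
open Crest.Agent.R096.Mfa_880 (PT)
open Crest.Agent.R096.Cnt_324 (HS Hfam countable_Hfam hs_mesh)

/-! ### sets of shifts -/

section gen

variable {n : ℕ} {E : Type*} [NormedAddCommGroup E] [NormedSpace ℝ E]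

theorem shp_closed (C1 C2 : Set ((Fin n → ℝ) × ℝ)) : IsClosed (shp C1 C2) := by
  have hc : ∀ ν : Fin n → ℝ, Continuous fun u => dt ν u := by
    intro ν
    unfold dt
    fun_prop
  have e : shp C1 C2 = (⋂ p ∈ C1, {u | dt p.1 u ≤ p.2}) ∩ ⋂ p ∈ C2, {u | dt p.1 u = p.2} := by
    ext u
    simp only [shp, mem_ofPred_eq, mem_inter_iff, mem_iInter]
  rw [e]
  exact (isClosed_biInter fun p _ => isClosed_le (hc _) continuous_const).inter
    (isClosed_biInter fun p _ => isClosed_eq (hc _) continuous_const)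

theorem shapes_closed {𝒩 : Finset (Fin n → ℝ)} {d : ℕ} {B : ℝ} {S : Set (Fin n → ℝ)}
    (h : S ∈ shapes 𝒩 d B) : IsClosed S := by
  obtain ⟨C1, -, C2, -, rfl⟩ := h
  exact shp_closed C1 C2

theorem BS_compact {R : ℝ} {S : Set (Fin n → ℝ)} (h : IsClosed S) (hB : BS R S) : IsCompact S := by
  refine (isCompact_Icc (a := fun _ : Fin n => -R) (b := fun _ => R + 1)).of_isClosed_subset h ?_
  intro u hu
  exact ⟨fun m => (hB u hu m).1, fun m => (hB u hu m).2⟩

theorem Tq_eq (φ : E ≃L[ℝ] (Fin n → ℝ)) (a0 : Fin n → ℝ) (κ : ℕ) (z : Fin n → ℤ)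
    (S : Set (Fin n → ℝ)) : Tq φ a0 κ z S = (fun y => φ y) ⁻¹'
      ((fun u : Fin n → ℝ => fun m => (2 : ℝ) ^ κ * (u m - a0 m) - z m) ⁻¹' S) := by
  ext y
  rw [mem_Tq, frT_apply, mem_preimage, mem_preimage]
  have e : (fun m => chi φ a0 κ y m - (z m : ℝ)) =
      fun m => (2 : ℝ) ^ κ * (φ y m - a0 m) - z m := by
    funext m
    rw [chi_apply]
  rw [e]

theorem Tq_compact {φ : E ≃L[ℝ] (Fin n → ℝ)} {a0 : Fin n → ℝ} {κ : ℕ} {z : Fin n → ℤ}
    {S : Set (Fin n → ℝ)} (hS : IsCompact S) : IsCompact (Tq φ a0 κ z S) := by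
  rw [Tq_eq]
  refine φ.toHomeomorph.isCompact_preimage.2 ?_
  have hp : (2 : ℝ) ^ κ ≠ 0 := by positivity
  have e : ((fun u : Fin n → ℝ => fun m => (2 : ℝ) ^ κ * (u m - a0 m) - z m) ⁻¹' S) =
      (fun u : Fin n → ℝ => fun m => (u m + z m) / 2 ^ κ + a0 m) '' S := by
    ext u
    simp only [mem_preimage, mem_image]
    constructor
    · intro h
      refine ⟨_, h, ?_⟩
      funext m
      field_simp
      ring
    · rintro ⟨u', h, rfl⟩
      have e2 : (fun m => (2 : ℝ) ^ κ * ((u' m + z m) / 2 ^ κ + a0 m - a0 m) - z m) = u' := by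
        funext m
        field_simp
        ring
      rw [e2]
      exact h
  rw [e]
  exact hS.image (by fun_prop)

/-- the shifts which move `K` off `O` -/
def Off (K O : Set E) : Set E := {b | ∀ y ∈ K, y + b ∉ O}

/-- the shifts which move `K` into `U` -/
def Ins (K U : Set E) : Set E := {b | ∀ y ∈ K, y + b ∈ U}

theorem isClosed_Off {K O : Set E} (hO : IsOpen O) : IsClosed (Off K O) := by
  have e : Off K O = ⋂ y ∈ K, (fun b => y + b) ⁻¹' Oᶜ := by
    ext b
    simp only [Off, mem_ofPred_eq, mem_iInter, mem_preimage, mem_compl_iff]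
  rw [e]
  exact isClosed_biInter fun y _ => hO.isClosed_compl.preimage (by fun_prop)

theorem isOpen_Ins {K U : Set E} (hK : IsCompact K) (hU : IsOpen U) : IsOpen (Ins K U) := by
  rw [isOpen_iff_mem_nhds]
  intro b hb
  refine hK.eventually_forall_of_forall_eventually fun y hy => ?_
  have h1 : Continuous fun p : E × E => p.2 + p.1 := by fun_prop
  exact (hU.preimage h1).mem_nhds (hb y hy)

end gen

/-! ### the potential tiles -/

section three

variable {J : Type} (M : MD E3 3 J) (k : J → ℕ) {W : J → Set E3}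

/-- points of the block `j` for all admissible shifts (an open set), all blocks -/
def Nm : Set E3 := ⋃ j, interior {x | ∀ s, ‖M.φ s‖ ≤ M.r j → x - s ∈ (M.Q j).N}

theorem isOpen_Nm : IsOpen (Nm M) := isOpen_iUnion fun _ => isOpen_interior



/-- the shapes of the outer tiles at the wall `j` -/
abbrev SJ {M : MD E3 3 J} (X : RD M) (j : J) : Type :=
  {S : Set (Fin 3 → ℝ) // S ∈ ShW X j ∧ BS (X.c j) S}

instance {M : MD E3 3 J} (X : RD M) (j : J) : Finite (SJ X j) :=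
  ((shapes_finite _ _ _).subset fun _ hS => hS.1).to_subtype

variable {M}

/-- names of the potential outer tiles at the walls: block, offset, integer position, shape -/
abbrev TW (W : J → Set E3) (X : RD M) : Type := Σ j, W j × (Fin 3 → ℤ) × SJ X j

/-- potential outer tile at the wall -/
def tW (X : RD M) (t : TW W X) : Set E3 := Tq M.φ 0 (k t.1) t.2.2.1 t.2.2.2.1

theorem tW_compact (X : RD M) (t : TW W X) : IsCompact (tW k X t) :=
  Tq_compact (BS_compact (shapes_closed t.2.2.2.2.1) t.2.2.2.2.2)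

/-- the shifts for which it is used -/
def acW (W : J → Set E3) (X : RD M) (r : ℝ) (t : TW W X) : Set E3 :=
  {b | ‖b‖ ≤ r ∧ ‖M.φ (b + t.2.1)‖ ≤ M.r t.1 ∧
    NearW M t.1 (t.2.1 : E3) (2 + X.c t.1) (k t.1) (tW k X t)} ∩ Ins (tW k X t) (M.φ ⁻¹' M.D0.Om)

theorem acW_meas (X : RD M) (r : ℝ) (t : TW W X) : MeasurableSet (acW k W X r t) := by
  unfold acW
  refine MeasurableSet.inter ?_ (isOpen_Ins (tW_compact k X t) ?_).measurableSet
  · have e : {b : E3 | ‖b‖ ≤ r ∧ ‖M.φ (b + t.2.1)‖ ≤ M.r t.1 ∧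
        NearW M t.1 (t.2.1 : E3) (2 + X.c t.1) (k t.1) (tW k X t)} = {b | ‖b‖ ≤ r} ∩
        ({b | ‖M.φ (b + t.2.1)‖ ≤ M.r t.1} ∩
          {_b | NearW M t.1 (t.2.1 : E3) (2 + X.c t.1) (k t.1) (tW k X t)}) := by
      ext b
      simp only [mem_inter_iff, mem_ofPred_eq]
    rw [e]
    refine (isClosed_le continuous_norm continuous_const).measurableSet.inter ?_
    refine (isClosed_le ?_ continuous_const).measurableSet.inter (MeasurableSet.const _)
    exact (M.φ.continuous.comp (continuous_id.add continuous_const)).norm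
  · exact (isOpen_lt continuous_const M.D0.continuous_ρ).preimage M.φ.continuous

/-- **the outer tiles at the walls** -/
noncomputable def QW [Countable J] (Wc : ∀ j, (W j).Countable) (X : RD M) (r : ℝ) : PTn J where
  κ := J
  τ := TW W X
  cκ := inferInstance
  cτ := by
    have := fun j => (Wc j).to_subtype
    infer_instance
  cl t := t.1
  bl _ := none
  Til t := tW k X t
  Ac t := acW k W X r t
  Acm t := acW_meas k X r t
  β t := 2 ^ k t.1 * ‖(M.φ : E3 →L[ℝ] (Fin 3 → ℝ))‖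
  Sh j := simL (NR (X.A j) (X.d j)) (X.d j) (X.c j)
  shf _ := simL_finite _ _ _
  frr t := frT M.φ 0 (k t.1) t.2.2.1
  frn _ _ := frT_norm _ _ _ _ _
  𝒦 _ := kk (Hfam M (⋃ j, W j)) W none
  c𝒦 _ := kk_countable (countable_Hfam M (countable_iUnion Wc)) Wc _


theorem fr_image (φ : E3 ≃L[ℝ] (Fin 3 → ℝ)) (b : E3) (κ : ℕ) (z : Fin 3 → ℤ) (K : Set E3) :
    frT φ 0 κ z '' (shf (-b) K) = frT φ (φ b) κ z '' K := by
  unfold shf
  rw [image_image]
  refine image_congr fun y _ => ?_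
  have h := frT_shift φ 0 κ z b y
  rw [zero_add] at h
  rw [h, sub_eq_add_neg]


end three

end Crest.Agent.R096.Mou_324
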