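import Mathlib
import Crest.Agent.R096.Mfa1_880
import Crest.Agent.R096.Mfa3_880
import Crest.Agent.R096.Mfa6_880
import Crest.Agent.R096.Mfi5_290
import Crest.Agent.R096.Uni1_663

-- ▼ part R096/Mfa5_880
section

set_option autoImplicit false
set_option linter.style.longLine false

open MeasureTheory Set Filter Metric
open scoped Topology ENNReal

namespace Crest.Agent.R096.Mfa_880

open Crest.Agent.R096.Msh_715
open Crest.Agent.R096.SkC1_961 (E3 Cfg)
open Crest.Agent.R096.Ls_222 (Edg ea ev eIn)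
open Crest.Agent.R96.Sg1_199 (li sgm)
open Crest.Agent.R96.Sg3_199 (EnF)
open Crest.Agent.R96.Sg8_199 (EnA)
open Crest.Agent.R96.Pm_199

noncomputable section

section Rec

variable {Om : Set E3} {F J : Type} (M : Fam Om F J) (Q : PT J)
  (G : ∀ a w (h : M.Ok a w), (M.md a w h).ι → Q.τ → Prop)
  (cov : ∀ a w (h : M.Ok a w) i, (M.md a w h).Ord i →
    ∃ t, Q.Is a w (M.md a w h).T i t ∧ G a w h i t)

/-- the potential tile of a tile -/
def potG (a : E3) (w : J → E3) (h : M.Ok a w) (i : (M.md a w h).ι) : Option Q.τ := by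
  classical
  exact if hi : (M.md a w h).Ord i then some (cov a w h i hi).choose else none

/-- the frame of a tile -/
def frG (a : E3) (w : J → E3) (h : M.Ok a w) (i : (M.md a w h).ι) : E3 ≃ᵃ[ℝ] E3 := by
  classical
  exact if hi : (M.md a w h).Ord i then (cov a w h i hi).choose_spec.1.frm.choose
      else AffineEquiv.refl ℝ E3

variable {M Q G}

theorem potG_spec {a : E3} {w : J → E3} {h : M.Ok a w} {i : (M.md a w h).ι}
    (hi : (M.md a w h).Ord i) : ∃ t, potG M Q G cov a w h i = some t ∧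
      Q.Is a w (M.md a w h).T i t ∧ G a w h i t ∧
      (∀ y : E3, ‖(frG M Q G cov a w h i).linear y‖ ≤ Q.β t * ‖y‖) ∧
      (fun K => frG M Q G cov a w h i '' K) '' Cfg (M.md a w h).T i ∈ Q.Sh (Q.cl t) := by
  refine ⟨(cov a w h i hi).choose, ?_, (cov a w h i hi).choose_spec.1,
    (cov a w h i hi).choose_spec.2, ?_⟩
  · unfold potG
    rw [dif_pos hi]
  · have e : frG M Q G cov a w h i = (cov a w h i hi).choose_spec.1.frm.choose := by
      unfold frG
      rw [dif_pos hi]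
    rw [e]
    exact (cov a w h i hi).choose_spec.1.frm.choose_spec

end Rec

/-- **`MF` from a typed covering by potential tiles** -/
def toMFG {Om : Set E3} {F J : Type} (M : Fam Om F J) (Q : PT J)
    (G : ∀ a w (h : M.Ok a w), (M.md a w h).ι → Q.τ → Prop)
    (cov : ∀ a w (h : M.Ok a w) i, (M.md a w h).Ord i →
      ∃ t, Q.Is a w (M.md a w h).T i t ∧ G a w h i t)
    {η₀ : Type} (cη₀ : Countable η₀) (eb₀ : η₀ → Option J) (x₀ v₀ : η₀ → E3)
    (edge₀ : ∀ a w (h : M.Ok a w), ∀ e : Edg (M.md a w h).T,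
      ∃ j : η₀, e.1 = sgm (x₀ j + sh (eb₀ j) a w) (v₀ j)) : MF Om F J where
  A := M.A
  Am := M.Am
  A0 := M.A0
  A1 := M.A1
  W := M.W
  Wc := M.Wc
  Bx := M.Bx
  cJ := M.cJ
  md a w h := (M.md a w h).wf (frG M Q G cov a w h)
  κ := Option Q.κ
  τ := Option Q.τ
  η := η₀ ⊕ Q.η
  cκ := by have := Q.cκ; infer_instance
  cτ := by have := Q.cτ; infer_instance
  cη := by have := Q.cη; infer_instance
  cl := Option.map Q.cl
  bl k := k.elim none Q.bl
  Til t := t.elim ∅ Q.Til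
  Ac t := t.elim ∅ Q.Ac
  Acm t := by
    rcases t with _ | t
    · exact MeasurableSet.empty
    · exact Q.Acm t
  eb := Sum.elim eb₀ fun _ => none
  x := Sum.elim x₀ Q.x
  v := Sum.elim v₀ Q.v
  Ed t := t.elim ∅ fun t => (Q.Ed t).map ⟨Sum.inr, Sum.inr_injective⟩
  sub t j hj := by
    rcases t with _ | t
    · exact absurd hj (Finset.notMem_empty _)
    · obtain ⟨j', hj', rfl⟩ := Finset.mem_map.1 hj
      exact Q.sub t j' hj'
  β t := t.elim 0 Q.β
  Sh k := k.elim ∅ Q.Sh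
  shf k := by
    rcases k with _ | k
    · exact finite_empty
    · exact Q.shf k
  edge a w h e := by
    obtain ⟨j, hj⟩ := edge₀ a w h e
    exact ⟨Sum.inl j, hj⟩
  pot a w h := potG M Q G cov a w h
  inj a w h i hi i' hi' hii := by
    obtain ⟨t, h1, h2, -⟩ := potG_spec cov (h := h) (i := i) hi
    obtain ⟨t', h1', h2', -⟩ := potG_spec cov (h := h) (i := i') hi'
    rw [h1, h1'] at hii
    obtain rfl := Option.some_injective _ hii
    exact tile_inj (M.md a w h).T (h2.tile.trans h2'.tile.symm)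
  act a w h i hi := by
    obtain ⟨t, h1, h2, -⟩ := potG_spec cov (h := h) (i := i) hi
    rw [h1]
    exact h2.act
  tile a w h i hi := by
    obtain ⟨t, h1, h2, -⟩ := potG_spec cov (h := h) (i := i) hi
    rw [h1]
    exact h2.tile
  tedge a w h i hi e he := by
    obtain ⟨t, h1, h2, -⟩ := potG_spec cov (h := h) (i := i) hi
    rw [h1, Ls_222.sgm_edg]
    refine (h2.tedge e he).trans ?_
    refine iUnion₂_subset fun j hj => ?_
    refine subset_iUnion₂_of_subset (Sum.inr j) ?_ subset_rfl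
    exact Finset.mem_map.2 ⟨j, hj, rfl⟩
  frn a w h i hi y := by
    obtain ⟨t, h1, -, -, h2, -⟩ := potG_spec cov (h := h) (i := i) hi
    rw [h1]
    exact h2 y
  shp a w h i hi := by
    obtain ⟨t, h1, -, -, -, h2⟩ := potG_spec cov (h := h) (i := i) hi
    rw [h1]
    exact h2

section Rec2

variable {Om : Set E3} {F J : Type} (M : Fam Om F J) (Q : PT J)
  (G : ∀ a w (h : M.Ok a w), (M.md a w h).ι → Q.τ → Prop)
  (cov : ∀ a w (h : M.Ok a w) i, (M.md a w h).Ord i →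
    ∃ t, Q.Is a w (M.md a w h).T i t ∧ G a w h i t)
  {η₀ : Type} (cη₀ : Countable η₀) (eb₀ : η₀ → Option J) (x₀ v₀ : η₀ → E3)
  (edge₀ : ∀ a w (h : M.Ok a w), ∀ e : Edg (M.md a w h).T,
    ∃ j : η₀, e.1 = sgm (x₀ j + sh (eb₀ j) a w) (v₀ j))

/-- the chosen potential tile satisfies the relation -/
theorem potG_some {a : E3} {w : J → E3} {h : M.Ok a w} {i : (M.md a w h).ι}
    (hi : (M.md a w h).Ord i) :
    ∃ t, (toMFG M Q G cov cη₀ eb₀ x₀ v₀ edge₀).pot a w h i = some t ∧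
      Q.Is a w (M.md a w h).T i t ∧ G a w h i t := by
  obtain ⟨t, h1, h2, h3, -⟩ := potG_spec cov (h := h) (i := i) hi
  exact ⟨t, h1, h2, h3⟩

/-- the dummy class has no energy -/
theorem EnCG_none (Ge : E3 → E3 → ℝ≥0∞) (p : ℝ) (s : E3) :
    (toMFG M Q G cov cη₀ eb₀ x₀ v₀ edge₀).EnC Ge p none s = 0 := by
  unfold MF.EnC EnA
  rw [ENNReal.tsum_eq_zero]
  rintro ⟨t, ht⟩
  rcases t with _ | t
  · exact indicator_of_notMem (notMem_empty s) _
  · exact absurd ht (by simp [toMFG])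

/-- the energy of the class `some k` -/
theorem EnCG_some (Ge : E3 → E3 → ℝ≥0∞) (p : ℝ) (k : Q.κ) (s : E3) :
    (toMFG M Q G cov cη₀ eb₀ x₀ v₀ edge₀).EnC Ge p (some k) s = Q.EnC Ge p k s := by
  refine EnA_equiv (τ₁ := {t // Q.cl t = k})
    (τ₂ := {t // (toMFG M Q G cov cη₀ eb₀ x₀ v₀ edge₀).cl t = some k})
    { toFun := fun t => ⟨some t.1, congrArg some t.2⟩
      invFun := fun t => match t with
        | ⟨some t, h⟩ => ⟨t, Option.some_injective _ h⟩
        | ⟨none, h⟩ => absurd h (by simp [toMFG])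
      left_inv := fun t => rfl
      right_inv := by
        rintro ⟨_ | t, h⟩
        · exact absurd h (by simp [toMFG])
        · rfl } (fun t => rfl) (fun t => rfl) (fun t => rfl)
    (fun t => ?_)
  exact Finset.sum_map _ _ _

end Rec2

end

end Crest.Agent.R096.Mfa_880
end

-- ▼ part R096/Mfa4_880

set_option autoImplicit false
set_option linter.style.longLine false

open MeasureTheory Set Filter Metric
open scoped Topology ENNReal

namespace Crest.Agent.R096.Mfa_880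

open Crest.Agent.R096.Msh_715 Crest.Agent.R096.Msh_810 Crest.Agent.R096.Cut_874
  Crest.Agent.R096.Mal_874
open Crest.Agent.R096.SkC1_961 (E3 Cfg)
open Crest.Agent.R096.Ls_222 (Edg ea eIn mem_eIn)
open Crest.Agent.R96.Sg1_199 (li sgm)
open Crest.Agent.R96.Pm_199
open Crest.Agent.R096.Cnt_324 (Hfam Eix Cod ex countable_Hfam)

noncomputable section

/-! ### all potential tiles -/

section All

variable {J : Type} (M : MD E3 3 J) (D : RD M) (k : J → ℕ) {W : J → Set E3}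
  (Wc : ∀ j, (W j).Countable) (k0 : J → ℕ) (hk0 : ∀ j, (M.Q j).kc ≤ k0 j) (r : ℝ)
  (Bx : J → Set E3)

/-- **the potential tiles of the block `j`** with universal edges (no lists, no scales at the walls) -/
def QU (j : J) : PT J := Uni_663.toPTU (Mfi_290.QI M D j (k0 j) (hk0 j))

/-- the inner cubes at the wall of the block `j` -/
def QUw (j : J) : PT J := Uni_663.toPTU (Mfi_290.QW M D k W Wc j)

variable [Countable J]

/-- **all potential tiles of the aligned mesh** -/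
def Qall : PT J :=
  ((QPB M k Wc r Bx).toPT.sum (Mou_324.QW k Wc D r).toPT).sum
    ((PT.sigma (QU M D k0 hk0)).sum (PT.sigma (QUw M D k Wc)))

/-- outer classes (`none`), classes of the block `j` (`some j`) -/
def okc (o : Option J) (c : (Qall M D k Wc k0 hk0 r Bx).κ) : Prop :=
  match o, c with
  | none, Sum.inl _ => True
  | some j, Sum.inr (Sum.inl c) => c.1 = j
  | some j, Sum.inr (Sum.inr c) => c.1 = j
  | _, _ => False

/-- the block of a tile -/
def blk {k : J → ℕ} (hk : M.Sc k) {a : Fin 3 → ℝ} {v : J → E3} (hv : M.Adm v)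
    (i : M.OIx hk a hv ⊕ Σ j, M.IIx hk a hv j) : Option J :=
  match i with
  | Sum.inl _ => none
  | Sum.inr q => some q.1

variable {M D k k0 r Bx}

/-- **all ordinary tiles of the aligned mesh are potential tiles, outer tiles of outer classes, inner
tiles of classes of their block** -/
theorem cov_all (hk : M.Sc k) (hkk : ∀ j, k0 j ≤ k j) (H : RW D k W) {a : E3} {w : J → E3}
    (hv : M.Adm fun j => a + w j) (hB : ∀ j, a + w j ∈ Bx j) (ha : ‖a‖ ≤ r) (hw : ∀ j, w j ∈ W j)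
    (i : M.OIx hk (M.φ a) hv ⊕ Σ j, M.IIx hk (M.φ a) hv j)
    (hi : ∀ j, i ≠ Sum.inr ⟨j, M.core hk (M.φ a) hv j⟩) :
    ∃ t, (Qall M D k Wc k0 hk0 r Bx).Is a w (M.mesh hk (M.φ a) hv) i t ∧
      okc M D k Wc k0 hk0 r Bx (blk M hk hv i) ((Qall M D k Wc k0 hk0 r Bx).cl t) := by
  rcases i with p | ⟨j, i⟩
  · rcases cov_outerB M k Wc D hk hB hv ha hw (H.rp a hw) p with ⟨t, ht⟩ | ⟨t, ht⟩
    · exact ⟨Sum.inl (Sum.inl t), ht.inl.inl, trivial⟩
    · exact ⟨Sum.inl (Sum.inr t), ht.inr.inl, trivial⟩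
  · have hcore : i ≠ M.core hk (M.φ a) hv j := by
      rintro rfl
      exact hi j rfl
    by_cases h : (P ((M.mesh hk (M.φ a) hv).H (Sum.inr ⟨j, i⟩)) ∩
        frontier (M.Bk (fun j => a + w j) j).N).Nonempty
    · have h1 := Mfi_290.cov_QW M hk a (fun j => (⟨w j, hw j⟩ : W j)) hv D (H.rp a hw) Wc h
      obtain ⟨t, ht⟩ := Uni_663.cov_toPT _ h1
      exact ⟨Sum.inr (Sum.inr ⟨j, t⟩), (ht.sg (Q := QUw M D k Wc)).inr.inr, rfl⟩
    · have h1 : (Mfi_290.QI M D j (k0 j) (hk0 j)).Cov a w (M.mesh hk (M.φ a) hv)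
          (Sum.inr ⟨j, i⟩) :=
        ⟨_, Mfi_290.is_QI M hk a (fun j => (⟨w j, hw j⟩ : W j)) hv D (H.rp a hw) (hk0 j) (hkk j)
          hcore h⟩
      obtain ⟨t, ht⟩ := Uni_663.cov_toPT _ h1
      exact ⟨Sum.inr (Sum.inl ⟨j, t⟩), (ht.sg (Q := QU M D k0 hk0)).inl.inr, rfl⟩

end All

/-! ### the family of meshes with general sets of admissible shifts -/

/-- 880's `famMD` with sets `Bx j` of admissible total shifts -/
def famB {F : Type} {X : Set F} (M : MD E3 3 X) {k : X → ℕ} (hk : M.Sc k) [Countable X]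
    (hOm : (M.φ ⁻¹' M.D0.Om).Nonempty) (A : Set E3) (Am : MeasurableSet A) (A0 : volume A ≠ 0)
    (A1 : volume A ≠ ∞) (W : X → Set E3) (Wc : ∀ j, (W j).Countable) (Bx : X → Set E3)
    (hBx : ∀ j, Bx j ⊆ BxM M j) (deco : E3 → (X → E3) → Deco F) :
    Fam (M.φ ⁻¹' M.D0.Om) F X where
  A := A
  Am := Am
  A0 := A0
  A1 := A1
  W := W
  Wc := Wc
  Bx := Bx
  cJ := inferInstance
  md a w h := (deco a w).mkX X (M.mesh hk (M.φ a) (adm_of M fun j => hBx j (h.2 j).2))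
    (tile_ne M hk hOm (M.φ a) (adm_of M fun j => hBx j (h.2 j).2)).some
    fun c => Sum.inr ⟨c, M.core hk (M.φ a) (adm_of M fun j => hBx j (h.2 j).2) c⟩

/-! ### the record -/

/-- **all data of the instance** (exact cores on `X`, no tiny cores) -/
structure Ins (F : Type) (X : Set F) where
  /-- 874's mesh data and rational data -/
  M : MD E3 3 X
  D : RD M
  /-- scales at the walls -/
  k : X → ℕ
  hk : M.Sc k
  /-- lists of relative shifts -/
  W : X → Set E3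
  Wc : ∀ j, (W j).Countable
  /-- coarse scales of the blocks -/
  k0 : X → ℕ
  hk0 : ∀ j, (M.Q j).kc ≤ k0 j
  hkk : ∀ j, k0 j ≤ k j
  H : RW D k W
  /-- admissible total shifts of the blocks (`BxM M` in the simplest case) -/
  Bx : X → Set E3
  hBx : ∀ j, Bx j ⊆ BxM M j
  /-- common shifts -/
  r : ℝ
  A : Set E3
  Am : MeasurableSet A
  A0 : volume A ≠ 0
  A1 : volume A ≠ ∞
  hAr : ∀ a ∈ A, ‖a‖ ≤ r
  cX : Countable X
  hOm : (M.φ ⁻¹' M.D0.Om).Nonempty
  /-- decoration of the cores (depends on the shifts) -/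
  deco : E3 → (X → E3) → Deco F

namespace Ins

variable {F : Type} {X : Set F} (I : Ins F X)

/-- the domain -/
abbrev Om : Set E3 := I.M.φ ⁻¹' I.M.D0.Om

/-- **THE INSTANCE OF `MF` FOR THE ALIGNED MESH** -/
def mf : MF I.Om F X :=
  letI := I.cX
  toMFG (famB I.M I.hk I.hOm I.A I.Am I.A0 I.A1 I.W I.Wc I.Bx I.hBx I.deco)
    (Qall I.M I.D I.k I.Wc I.k0 I.hk0 I.r I.Bx)
    (fun a w h i t => okc I.M I.D I.k I.Wc I.k0 I.hk0 I.r I.Bx
      (blk I.M I.hk (a := I.M.φ a) (adm_of I.M fun j => I.hBx j (h.2 j).2) i)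
      ((Qall I.M I.D I.k I.Wc I.k0 I.hk0 I.r I.Bx).cl t))
    (fun a w h i hi => cov_all I.Wc I.hk0 I.hk I.hkk I.H (adm_of I.M fun j => I.hBx j (h.2 j).2)
      (fun j => (h.2 j).2) (I.hAr a h.1) (fun j => (h.2 j).1) i (Deco.ord.1 hi))
    (η₀ := Eix (Hfam I.M (⋃ j, I.W j)))
    (by
      have h1 : (⋃ j, I.W j).Countable := countable_iUnion I.Wc
      have : Countable (Hfam I.M (⋃ j, I.W j)) := (countable_Hfam I.M h1).to_subtype
      infer_instance)
    (fun _ => none) ex Cnt_324.ev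
    (fun a w h e => edge_famMD I.M I.hk (adm_of I.M fun j => I.hBx j (h.2 j).2)
      (fun j => (h.2 j).1) e)



variable {I} in
theorem adm {a : E3} {w : X → E3} (h : I.mf.Ok a w) : I.M.Adm fun j => a + w j :=
  fun j => I.hBx j (h.2 j).2



/-- the inequalities of the meshes belong to one countable family (for 348's `MF.patch`) -/
theorem mf_hs {a : E3} {w : X → E3} (h : I.mf.Ok a w) :
    Cnt_324.HS (I.mf.md a w h).T a (Hfam I.M (⋃ j, I.W j)) :=
  hs_famMD I.M I.hk (adm h) fun j => (h.2 j).1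

theorem countable_hs : (Hfam I.M (⋃ j, I.W j)).Countable := by
  have := I.cX
  exact countable_Hfam I.M (countable_iUnion I.Wc)

/-- the core tile -/
abbrev core {a : E3} {w : X → E3} (h : I.mf.Ok a w) (c : X) : (I.mf.md a w h).ι :=
  Sum.inr ⟨c, I.M.core I.hk (I.M.φ a) (adm h) c⟩

theorem mf_ct {a : E3} {w : X → E3} (h : I.mf.Ok a w) {c : F} (hc : c ∈ X) :
    (I.mf.md a w h).ct c = I.core h ⟨c, hc⟩ :=
  Deco.mkX_ct (D := I.deco a w) (T := I.M.mesh I.hk (I.M.φ a) (adm h))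
    (i0 := (tile_ne I.M I.hk I.hOm (I.M.φ a) (adm h)).some)
    (ct := fun c => Sum.inr ⟨c, I.M.core I.hk (I.M.φ a) (adm h) c⟩) hc

theorem P_ct {a : E3} {w : X → E3} (h : I.mf.Ok a w) {c : F} (hc : c ∈ X) :
    P ((I.mf.md a w h).T.H ((I.mf.md a w h).ct c)) =
      (I.M.Bk (fun j => a + w j) ⟨c, hc⟩).Kc := by
  rw [mf_ct I h hc]
  exact I.M.P_core I.hk (I.M.φ a) (adm h) ⟨c, hc⟩

theorem mf_J0 {a : E3} {w : X → E3} (h : I.mf.Ok a w) {c : F} (hc : c ∈ X) :
    (I.mf.md a w h).J0 c = {(I.mf.md a w h).ct c} :=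
  Deco.mkX_J0 (D := I.deco a w) (T := I.M.mesh I.hk (I.M.φ a) (adm h))
    (i0 := (tile_ne I.M I.hk I.hOm (I.M.φ a) (adm h)).some)
    (ct := fun c => Sum.inr ⟨c, I.M.core I.hk (I.M.φ a) (adm h) c⟩) hc


theorem mf_V {a : E3} {w : X → E3} (h : I.mf.Ok a w) {c : F} (hc : c ∈ X) :
    (I.mf.md a w h).V c = {(I.mf.md a w h).ct c} := I.mf_J0 h hc

theorem mf_J0' {a : E3} {w : X → E3} (h : I.mf.Ok a w) {c : F} (hc : c ∉ X) :
    (I.mf.md a w h).J0 c = ∅ :=
  Deco.mkX_J0' (D := I.deco a w) (T := I.M.mesh I.hk (I.M.φ a) (adm h))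
    (i0 := (tile_ne I.M I.hk I.hOm (I.M.φ a) (adm h)).some)
    (ct := fun c => Sum.inr ⟨c, I.M.core I.hk (I.M.φ a) (adm h) c⟩) hc


theorem mf_V' {a : E3} {w : X → E3} (h : I.mf.Ok a w) {c : F} (hc : c ∉ X) :
    (I.mf.md a w h).V c = ∅ := I.mf_J0' h hc

theorem ord_iff {a : E3} {w : X → E3} (h : I.mf.Ok a w) {i : (I.mf.md a w h).ι} :
    (I.mf.md a w h).Ord i ↔ ∀ c, i ≠ I.core h c :=
  Deco.ord (D := I.deco a w) (T := I.M.mesh I.hk (I.M.φ a) (adm h))
    (i0 := (tile_ne I.M I.hk I.hOm (I.M.φ a) (adm h)).some)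
    (ct := fun c => Sum.inr ⟨c, I.M.core I.hk (I.M.φ a) (adm h) c⟩)

/-! ### names of the classes -/

/-- the class of the outer cubes away from the walls (all scales) -/
def kO : I.mf.κ := some (Sum.inl (Sum.inl ()))

/-- the class of the outer tiles at the wall `j` -/
def kOw (j : X) : I.mf.κ := some (Sum.inl (Sum.inr j))

/-- the classes of the tiles of the block `j`: one coarse tile, or the cubes of one scale -/
def kI (j : X) (c : Mfi_290.Pt (I.M.Q j) ⊕ ℕ) : I.mf.κ := some (Sum.inr (Sum.inl ⟨j, c⟩))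

/-- the class of the inner cubes at the wall `j` -/
def kIw (j : X) : I.mf.κ := some (Sum.inr (Sum.inr ⟨j, ()⟩))

/-- the dummy class (no tiles) -/
def kN : I.mf.κ := none

/-- **cases of the classes** -/
theorem cases {Pr : I.mf.κ → Prop} (h0 : Pr I.kN) (h1 : Pr I.kO) (h2 : ∀ j, Pr (I.kOw j))
    (h3 : ∀ j c, Pr (I.kI j c)) (h4 : ∀ j, Pr (I.kIw j)) (κ : I.mf.κ) : Pr κ := by
  rcases κ with _ | (⟨⟩ | j) | (⟨j, c⟩ | ⟨j, ⟨⟩⟩)
  · exact h0
  · exact h1
  · exact h2 j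
  · exact h3 j c
  · exact h4 j

/-- functions of the classes -/
def rec' {α : Type*} (f0 f1 : α) (f2 : X → α) (f3 : (j : X) → Mfi_290.Pt (I.M.Q j) ⊕ ℕ → α)
    (f4 : X → α) : I.mf.κ → α
  | none => f0
  | some (Sum.inl (Sum.inl _)) => f1
  | some (Sum.inl (Sum.inr j)) => f2 j
  | some (Sum.inr (Sum.inl ⟨j, c⟩)) => f3 j c
  | some (Sum.inr (Sum.inr ⟨j, _⟩)) => f4 j

theorem bl_kN : I.mf.bl I.kN = none := rfl
theorem bl_kO : I.mf.bl I.kO = none := rfl
theorem bl_kOw (j : X) : I.mf.bl (I.kOw j) = none := rfl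
theorem bl_kI (j : X) (c : Mfi_290.Pt (I.M.Q j) ⊕ ℕ) : I.mf.bl (I.kI j c) = some j := rfl
theorem bl_kIw (j : X) : I.mf.bl (I.kIw j) = none := rfl

theorem Sh_kN : I.mf.Sh I.kN = ∅ := rfl

/-! ### the classes of the tiles -/


theorem okc_some {j : X} {o : (letI := I.cX; (Qall I.M I.D I.k I.Wc I.k0 I.hk0 I.r I.Bx).κ)}
    (h : letI := I.cX; okc I.M I.D I.k I.Wc I.k0 I.hk0 I.r I.Bx (some j) o) :
    (∃ c, (some o : I.mf.κ) = I.kI j c) ∨ (some o : I.mf.κ) = I.kIw j := by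
  rcases o with o | (⟨j', c⟩ | ⟨j', ⟨⟩⟩)
  · exact h.elim
  · obtain rfl : j' = j := h
    exact Or.inl ⟨c, rfl⟩
  · obtain rfl : j' = j := h
    exact Or.inr rfl


/-- **the classes of the inner tiles** -/
theorem cl_inner {a : E3} {w : X → E3} (h : I.mf.Ok a w) {j : X}
    {i : I.M.IIx I.hk (I.M.φ a) (adm h) j} (hij : i ≠ I.M.core I.hk (I.M.φ a) (adm h) j) :
    (∃ c, I.mf.cl (I.mf.pot a w h (Sum.inr ⟨j, i⟩)) = I.kI j c) ∨
      I.mf.cl (I.mf.pot a w h (Sum.inr ⟨j, i⟩)) = I.kIw j := by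
  have := I.cX
  have hi : (I.mf.md a w h).Ord (Sum.inr ⟨j, i⟩) := (I.ord_iff h).2 fun c hc => by
    obtain ⟨rfl, h2⟩ := Sigma.mk.inj_iff.1 (Sum.inr_injective hc)
    exact hij (eq_of_heq h2)
  obtain ⟨t, h1, -, h2⟩ := potG_some (famB I.M I.hk I.hOm I.A I.Am I.A0 I.A1 I.W I.Wc I.Bx I.hBx
    I.deco) _ _ _ _ _ _ _ _ (h := h) (i := Sum.inr ⟨j, i⟩) hi
  have h3 : I.mf.cl (I.mf.pot a w h (Sum.inr ⟨j, i⟩)) =
      some ((Qall I.M I.D I.k I.Wc I.k0 I.hk0 I.r I.Bx).cl t) :=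
    congrArg I.mf.cl h1
  rw [h3]
  exact I.okc_some h2

/-! ### the energies of the classes -/

/-- the outer cubes away from the walls -/
def qO : PT X := letI := I.cX; (QPB I.M I.k I.Wc I.r I.Bx).toPT
/-- the outer tiles at the walls -/
def qOw : PT X := letI := I.cX; (Mou_324.QW I.k I.Wc I.D I.r).toPT
/-- the tiles of the block `j` -/
def qI (j : X) : PT X := QU I.M I.D I.k0 I.hk0 j
/-- the inner cubes at the wall `j` -/
def qIw (j : X) : PT X := QUw I.M I.D I.k I.Wc j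

variable (G : E3 → E3 → ℝ≥0∞) (p : ℝ) (s : E3)

theorem EnC_kN : I.mf.EnC G p I.kN s = 0 := by
  have := I.cX
  exact EnCG_none _ _ _ _ _ _ _ _ _ G p s

theorem EnC_kO : I.mf.EnC G p I.kO s = I.qO.EnC G p () s := by
  have := I.cX
  refine (EnCG_some _ _ _ _ _ _ _ _ _ G p _ s).trans ?_
  exact (PT.EnC_inl _ _ G p _ s).trans (PT.EnC_inl _ _ G p _ s)

theorem EnC_kOw (j : X) : I.mf.EnC G p (I.kOw j) s = I.qOw.EnC G p j s := by
  have := I.cX
  refine (EnCG_some _ _ _ _ _ _ _ _ _ G p _ s).trans ?_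
  exact (PT.EnC_inl _ _ G p _ s).trans (PT.EnC_inr _ _ G p _ s)

theorem EnC_kI (j : X) (c : Mfi_290.Pt (I.M.Q j) ⊕ ℕ) :
    I.mf.EnC G p (I.kI j c) s = (I.qI j).EnC G p c s := by
  have := I.cX
  refine (EnCG_some _ _ _ _ _ _ _ _ _ G p _ s).trans ?_
  refine (PT.EnC_inr _ _ G p _ s).trans ((PT.EnC_inl _ _ G p _ s).trans ?_)
  exact PT.EnC_mk (QU I.M I.D I.k0 I.hk0) G p j c s

theorem EnC_kIw (j : X) : I.mf.EnC G p (I.kIw j) s = (I.qIw j).EnC G p () s := by
  have := I.cX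
  refine (EnCG_some _ _ _ _ _ _ _ _ _ G p _ s).trans ?_
  refine (PT.EnC_inr _ _ G p _ s).trans ((PT.EnC_inr _ _ G p _ s).trans ?_)
  exact PT.EnC_mk (QUw I.M I.D I.k I.Wc) G p j () s

/-- **sum over all classes** -/
theorem tsum_class (f : I.mf.κ → ℝ≥0∞) : ∑' κ, f κ = f I.kN + (f I.kO + ∑' j, f (I.kOw j)) +
    (∑' j, ∑' c, f (I.kI j c) + ∑' j, f (I.kIw j)) := by
  have h1 : ∀ {α β : Type} (g : α ⊕ β → ℝ≥0∞), ∑' i, g i = (∑' i, g (Sum.inl i)) +
      ∑' i, g (Sum.inr i) := fun g =>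
    Summable.tsum_sum (f := g) ENNReal.summable ENNReal.summable
  have h2 : ∀ {α : Type} (g : Option α → ℝ≥0∞), ∑' i, g i = g none + ∑' i, g (some i) := by
    intro α g
    rw [← (Equiv.optionEquivSumPUnit.{0} α).symm.tsum_eq g, h1, add_comm]
    congr 1
    simp
  have h3 : ∀ g : Unit → ℝ≥0∞, ∑' b, g b = g () := fun g => tsum_eq_single () fun b hb =>
    absurd rfl hb
  refine (h2 f).trans ?_
  rw [add_assoc]
  congr 1
  refine (h1 _).trans ?_
  congr 1
  · refine (h1 _).trans ?_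
    congr 1
    exact h3 fun b => f (some (Sum.inl (Sum.inl b)))
  · refine (h1 _).trans ?_
    congr 1
    · exact ENNReal.tsum_sigma' _
    · refine (ENNReal.tsum_sigma' _).trans (tsum_congr fun j => ?_)
      exact h3 fun b => f (some (Sum.inr (Sum.inr ⟨j, b⟩)))

end Ins

end

end Crest.Agent.R096.Mfa_880
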