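import Crest.Agent.R096.Mfa6_880
import Crest.Agent.R096.Bmd1_798
import Crest.Agent.R096.Mfa4_880
import Crest.Agent.R096.Bls2_168

-- ▼ part R096/Mou6_324
section

/-!
# Row 96 (S0127), instance of `MF` (helper324): the covering of the outer tiles BY NATURE (168 #11491)

`Is_of_plain`, `Is_of_wall` : from the potential forms of Mou2 to 880's `Is`;
**`cov_Qr`** : a tile of 798's `Qr` is a potential tile of `QPB`; **`cov_not_Qr`** : the other outer tiles are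
potential tiles of `QW` (class `j`, scale `k j`).
-/

set_option autoImplicit false
set_option linter.unusedSectionVars false

open MeasureTheory Set Filter Topology Metric
open scoped ENNReal

namespace Crest.Agent.R096.Mou_324

open Msh_715 Cut_874 Msh_810 Mal_874
open Crest.Agent.R096.SkC1_961 (E3 Cfg)
open Crest.Agent.R96.Wm_72 (Tw Aw Tw_tr mem_Aw measurableSet_Aw)
open Crest.Agent.R96.Pm_199 (sh)
open Crest.Agent.R096.Mfe_161 (PTn shf kk kk_mem' kk_countable)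
open Crest.Agent.R096.Mfa_880 (PT)
open Crest.Agent.R096.Cnt_324 (HS Hfam countable_Hfam hs_mesh)
open Crest.Agent.R096.Bmd_798 (QrP Qr pot_of_Qr pot_of_not_Qr)

section three

variable {J : Type} (M : MD E3 3 J) (k : J → ℕ) {W : J → Set E3} [Countable J]
  (Wc : ∀ j, (W j).Countable) (X : RD M) {r : ℝ} (hk : M.Sc k) {Bx : J → Set E3} {a : E3}
  {w : J → E3} (hB : ∀ j, a + w j ∈ Bx j) (hv : M.Adm fun j => a + w j) (ha : ‖a‖ ≤ r)
  (hw : ∀ j, w j ∈ W j)

include hw in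
theorem hs_aw : HS (M.mesh hk (M.φ a) hv) a (Hfam M (⋃ j, W j)) := by
  have ea : M.φ.symm (M.φ a) = a := M.φ.symm_apply_apply a
  have h := hs_mesh (W := ⋃ j, W j) hk (M.φ a) hv
    (fun j => ⟨w j, mem_iUnion.2 ⟨j, hw j⟩, by rw [ea]⟩)
  rw [ea] at h
  exact h

include hB ha hw in
/-- from the potential form of a plain cube to 880's `Is` -/
theorem Is_of_plain {i : M.OIx hk (M.φ a) hv ⊕ Σ j, M.IIx hk (M.φ a) hv j} {s : ℕ}
    {z : Fin 3 → ℤ}
    (h1 : P ((M.mesh hk (M.φ a) hv).H i) = (fun y => y + M.φ.symm (M.φ a)) '' Tw M.φ 0 s z)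
    (h2 : IsM (outD M.D0 k M.W (M.φ a)) ⟨s, z, Finset.univ⟩)
    (h3 : ∀ j, Disjoint (P ((M.mesh hk (M.φ a) hv).H i)) (M.Bk (fun j => a + w j) j).N)
    (h4 : (fun K => (frT M.φ (M.φ a) (s + 1) (fun m => 2 * z m)) '' K) ''
      cfg (M.mesh hk (M.φ a) hv) i ∈ simL (N0 3) 1 2) :
    (Mfa_880.QPB M k Wc r Bx).toPT.Is a w (M.mesh hk (M.φ a) hv) i (s, z) := by
  have ea : M.φ.symm (M.φ a) = a := M.φ.symm_apply_apply a
  rw [ea] at h1
  refine Mfe_161.PTn.Is.toPT (Q := Mfa_880.QPB M k Wc r Bx) (t := (s, z)) ⟨?_, h1, ?_, ?_⟩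
  · refine ⟨mem_Aw (D' := outD M.D0 k M.W (M.φ a)) rfl rfl (by rw [zero_add]; rfl) ha h2, ?_⟩
    intro y hy hn
    obtain ⟨j, hj⟩ := Mfa_880.NmB_sub M hB hn
    refine disjoint_left.1 (h3 j) ?_ hj
    rw [h1]
    exact mem_image_of_mem _ hy
  · intro e _
    exact kk_mem' hw (hs_aw M k hk hv hw) none e
  · have e : (fun K => frT M.φ (M.φ a) (s + 1) (fun m => 2 * z m) '' K) =
        fun K => (Mfa_880.QPB M k Wc r Bx).frr (s, z) '' shf (-a) K := by
      funext K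
      exact (fr_image M.φ a (s + 1) _ K).symm
    rw [e] at h4
    exact h4

include ha in
/-- from the potential form of a tile at the wall to 880's `Is` -/
theorem Is_of_wall {i : M.OIx hk (M.φ a) hv ⊕ Σ j, M.IIx hk (M.φ a) hv j} {j : J}
    {z : Fin 3 → ℤ} {S : Set (Fin 3 → ℝ)} (h1 : S ∈ ShW X j) (h2 : BS (X.c j) S)
    (h3 : P ((M.mesh hk (M.φ a) hv).H i) =
      (fun y => y + M.φ.symm (M.φ a)) '' Tq M.φ 0 (k j) z S)
    (h4 : NearW M j (w j) (2 + X.c j) (k j) (Tq M.φ 0 (k j) z S))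
    (h5 : (fun K => (frT M.φ (M.φ a) (k j) z) '' K) '' cfg (M.mesh hk (M.φ a) hv) i ∈
      simL (NR (X.A j) (X.d j)) (X.d j) (X.c j)) :
    (QW k Wc X r).toPT.Is a w (M.mesh hk (M.φ a) hv) i ⟨j, ⟨w j, hw j⟩, z, S, h1, h2⟩ := by
  have ea : M.φ.symm (M.φ a) = a := M.φ.symm_apply_apply a
  rw [ea] at h3
  refine Mfe_161.PTn.Is.toPT (Q := QW k Wc X r) (t := ⟨j, ⟨w j, hw j⟩, z, S, h1, h2⟩)
    ⟨?_, h3, ?_, ?_⟩
  · refine ⟨⟨ha, hv j, h4⟩, ?_⟩
    intro y hy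
    have h6 := (M.mesh hk (M.φ a) hv).sub i
    exact h6 (by rw [h3]; exact mem_image_of_mem _ hy)
  · intro e _
    exact kk_mem' hw (hs_aw M k hk hv hw) none e
  · have e : (fun K => frT M.φ (M.φ a) (k j) z '' K) =
        fun K => (QW k Wc X r).frr ⟨j, ⟨w j, hw j⟩, z, S, h1, h2⟩ '' shf (-a) K := by
      funext K
      exact (fr_image M.φ a (k j) _ K).symm
    rw [e] at h5
    exact h5

include hB ha hw in
/-- **a tile of `Qr` is a potential tile of the plain class** (scale and position of the parent) -/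
theorem cov_Qr {p : M.OIx hk (M.φ a) hv} (h : QrP M hk (M.φ a) hv p) :
    (Mfa_880.QPB M k Wc r Bx).toPT.Is a w (M.mesh hk (M.φ a) hv) (Sum.inl p)
      (p.1.par.1.1.k, p.1.par.1.1.z) := by
  obtain ⟨h1, h2, h3, h4⟩ := pot_of_Qr h
  exact Is_of_plain M k Wc hk hB hv ha hw h1 h2 h3 h4


end three

end Crest.Agent.R096.Mou_324
end

-- ▼ part R096/Mfs1_168

/-!
# Row 96 (S0127), helper168: the instance of `MF` with classes BY THE NATURE of the tiles
(962 #11558 (M2), 168 #11491)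

`Ins.mfs` : as 880's `Ins.mf` (same data, same energies of the classes), but the class of an outer tile
is `kO` iff it is in `Qr` (798), else `kOw j` with 874's `Good` at the wall `j`; the class of an inner
tile is `kIw j` iff it meets the wall, else some `kI j c`.
-/

set_option autoImplicit false
set_option linter.unusedSectionVars false
set_option linter.style.longLine false

open MeasureTheory Set Filter Metric
open scoped Topology ENNReal

namespace Crest.Agent.R096.Mfs_168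

open Crest.Agent.R096.Msh_715 Crest.Agent.R096.Msh_810 Crest.Agent.R096.Cut_874
  Crest.Agent.R096.Mal_874
open Crest.Agent.R096.SkC1_961 (E3 Cfg)
open Crest.Agent.R096.Ls_222 (Edg ea eIn mem_eIn)
open Crest.Agent.R96.Sg1_199 (li sgm)
open Crest.Agent.R96.Pm_199
open Crest.Agent.R096.Cnt_324 (Hfam Eix Cod ex countable_Hfam)
open Crest.Agent.R096.Mfa_880
open Crest.Agent.R096.Bmd_798 (TI QrP Qr good_of_not_Qr)
open Crest.Agent.R096.Mou_324 (cov_Qr Is_of_wall wall_pot)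

noncomputable section

section All

variable {J : Type} (M : MD E3 3 J) (D : RD M) (k : J → ℕ) {W : J → Set E3}
  (Wc : ∀ j, (W j).Countable) (k0 : J → ℕ) (hk0 : ∀ j, (M.Q j).kc ≤ k0 j) (r : ℝ)
  (Bx : J → Set E3) [Countable J]

/-- **the class `c` is the natural class of the tile `i`** -/
def natc (hk : M.Sc k) {a : Fin 3 → ℝ} {v : J → E3} (hv : M.Adm v) (i : TI M hk a hv)
    (c : (Qall M D k Wc k0 hk0 r Bx).κ) : Prop :=
  match i, c with
  | Sum.inl p, Sum.inl (Sum.inl _) => QrP M hk a hv p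
  | Sum.inl p, Sum.inl (Sum.inr j) => ¬ QrP M hk a hv p ∧ p.1.par.1.1.k = k j ∧
      Good (M.mesh hk a hv) (Sum.inl p) (chi M.φ a (k j)) (k j) (NR (D.A j) (D.d j)) (D.d j) (D.c j)
  | Sum.inr q, Sum.inr (Sum.inl c) => c.1 = q.1 ∧
      Disjoint (Msh_715.P ((M.mesh hk a hv).H (Sum.inr q))) (frontier (M.Bk v q.1).N)
  | Sum.inr q, Sum.inr (Sum.inr c) => c.1 = q.1 ∧
      (Msh_715.P ((M.mesh hk a hv).H (Sum.inr q)) ∩ frontier (M.Bk v q.1).N).Nonempty
  | _, _ => False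

variable {M D k k0 r Bx}

/-- **all ordinary tiles of the aligned mesh are potential tiles of their natural class** -/
theorem cov_nat (hk : M.Sc k) (hkk : ∀ j, k0 j ≤ k j) (H : RW D k W) {a : E3} {w : J → E3}
    (hv : M.Adm fun j => a + w j) (hB : ∀ j, a + w j ∈ Bx j) (ha : ‖a‖ ≤ r) (hw : ∀ j, w j ∈ W j)
    (i : M.OIx hk (M.φ a) hv ⊕ Σ j, M.IIx hk (M.φ a) hv j)
    (hi : ∀ j, i ≠ Sum.inr ⟨j, M.core hk (M.φ a) hv j⟩) :
    ∃ t, (Qall M D k Wc k0 hk0 r Bx).Is a w (M.mesh hk (M.φ a) hv) i t ∧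
      natc M D k Wc k0 hk0 r Bx hk hv i ((Qall M D k Wc k0 hk0 r Bx).cl t) := by
  rcases i with p | ⟨j, i⟩
  · by_cases hp : QrP M hk (M.φ a) hv p
    · exact ⟨Sum.inl (Sum.inl _), (cov_Qr M k Wc hk hB hv ha hw hp).inl.inl, hp⟩
    · have ea : M.φ.symm (M.φ a) = a := M.φ.symm_apply_apply a
      obtain ⟨j, h1, ⟨y, hy, hyd⟩, h3⟩ := good_of_not_Qr D (H.rp a hw) hp
      obtain ⟨z, S, h4, h5, h6, h7, h8⟩ := wall_pot M hk (M.φ a) hv D (w := w j)
        (by rw [ea] : (fun j => a + w j) j = M.φ.symm (M.φ a) + w j) h3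
        ⟨y, hy, fun x hx => (hyd x hx).trans (by
          have := D.c1 j
          exact div_le_div_of_nonneg_right (by linarith) (by positivity))⟩
      exact ⟨Sum.inl (Sum.inr _), (Is_of_wall M k Wc D hk hv ha hw h4 h5 h6 h7 h8).inr.inl,
        hp, h1, h3⟩
  · have hcore : i ≠ M.core hk (M.φ a) hv j := by
      rintro rfl
      exact hi j rfl
    by_cases h : (P ((M.mesh hk (M.φ a) hv).H (Sum.inr ⟨j, i⟩)) ∩
        frontier (M.Bk (fun j => a + w j) j).N).Nonempty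
    · have h1 := Mfi_290.cov_QW M hk a (fun j => (⟨w j, hw j⟩ : W j)) hv D (H.rp a hw) Wc h
      obtain ⟨t, ht⟩ := Uni_663.cov_toPT _ h1
      exact ⟨Sum.inr (Sum.inr ⟨j, t⟩), (ht.sg (Q := QUw M D k Wc)).inr.inr, rfl, h⟩
    · have h1 : (Mfi_290.QI M D j (k0 j) (hk0 j)).Cov a w (M.mesh hk (M.φ a) hv)
          (Sum.inr ⟨j, i⟩) :=
        ⟨_, Mfi_290.is_QI M hk a (fun j => (⟨w j, hw j⟩ : W j)) hv D (H.rp a hw) (hk0 j) (hkk j)
          hcore h⟩
      obtain ⟨t, ht⟩ := Uni_663.cov_toPT _ h1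
      exact ⟨Sum.inr (Sum.inl ⟨j, t⟩), (ht.sg (Q := QU M D k0 hk0)).inl.inr, rfl,
        Set.disjoint_iff_inter_eq_empty.2 (Set.not_nonempty_iff_eq_empty.1 h)⟩

end All

/-! ### the record -/

section ins

variable {F : Type} {X : Set F} (I : Ins F X)

/-- **THE INSTANCE OF `MF` WITH CLASSES BY NATURE** (all fields except `pot` and the frames are those
of `I.mf`) -/
def mfs : MF I.Om F X :=
  letI := I.cX
  toMFG (famB I.M I.hk I.hOm I.A I.Am I.A0 I.A1 I.W I.Wc I.Bx I.hBx I.deco)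
    (Qall I.M I.D I.k I.Wc I.k0 I.hk0 I.r I.Bx)
    (fun a w h i t => natc I.M I.D I.k I.Wc I.k0 I.hk0 I.r I.Bx I.hk (a := I.M.φ a)
      (adm_of I.M fun j => I.hBx j (h.2 j).2) i ((Qall I.M I.D I.k I.Wc I.k0 I.hk0 I.r I.Bx).cl t))
    (fun a w h i hi => cov_nat I.Wc I.hk0 I.hk I.hkk I.H (adm_of I.M fun j => I.hBx j (h.2 j).2)
      (fun j => (h.2 j).2) (I.hAr a h.1) (fun j => (h.2 j).1) i (Deco.ord.1 hi))
    (η₀ := Eix (Hfam I.M (⋃ j, I.W j)))
    (by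
      have h1 : (⋃ j, I.W j).Countable := countable_iUnion I.Wc
      have : Countable (Hfam I.M (⋃ j, I.W j)) := (countable_Hfam I.M h1).to_subtype
      infer_instance)
    (fun _ => none) ex Cnt_324.ev
    (fun a w h e => edge_famMD I.M I.hk (adm_of I.M fun j => I.hBx j (h.2 j).2)
      (fun j => (h.2 j).1) e)

theorem mfs_Sh (c : I.mf.κ) : (mfs I).Sh c = I.mf.Sh c := rfl




theorem mfs_ct {a : E3} {w : X → E3} (h : I.mf.Ok a w) {c : F} (hc : c ∈ X) :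
    ((mfs I).md a w h).ct c = I.core h ⟨c, hc⟩ := I.mf_ct h hc



theorem mfs_V {a : E3} {w : X → E3} (h : I.mf.Ok a w) {c : F} (hc : c ∈ X) :
    ((mfs I).md a w h).V c = {((mfs I).md a w h).ct c} := I.mf_V h hc




theorem mfs_ord {a : E3} {w : X → E3} (h : I.mf.Ok a w) {i : (I.mf.md a w h).ι} :
    ((mfs I).md a w h).Ord i ↔ ∀ c, i ≠ I.core h c := I.ord_iff h

/-! ### the classes of the tiles -/

/-- the class of an ordinary tile is its natural class -/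
theorem cl_nat {a : E3} {w : X → E3} (h : I.mf.Ok a w) {i : (I.mf.md a w h).ι}
    (hi : ((mfs I).md a w h).Ord i) :
    letI := I.cX
    ∃ c : (Qall I.M I.D I.k I.Wc I.k0 I.hk0 I.r I.Bx).κ,
      (mfs I).cl ((mfs I).pot a w h i) = (some c : I.mf.κ) ∧
      natc I.M I.D I.k I.Wc I.k0 I.hk0 I.r I.Bx I.hk (a := I.M.φ a) (Ins.adm h) i c := by
  have := I.cX
  obtain ⟨t, h1, -, h2, -⟩ := potG_spec
    (M := famB I.M I.hk I.hOm I.A I.Am I.A0 I.A1 I.W I.Wc I.Bx I.hBx I.deco)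
    (Q := Qall I.M I.D I.k I.Wc I.k0 I.hk0 I.r I.Bx)
    (G := fun a w h i t => natc I.M I.D I.k I.Wc I.k0 I.hk0 I.r I.Bx I.hk (a := I.M.φ a)
      (adm_of I.M fun j => I.hBx j (h.2 j).2) i ((Qall I.M I.D I.k I.Wc I.k0 I.hk0 I.r I.Bx).cl t))
    (fun a w h i hi => cov_nat I.Wc I.hk0 I.hk I.hkk I.H (adm_of I.M fun j => I.hBx j (h.2 j).2)
      (fun j => (h.2 j).2) (I.hAr a h.1) (fun j => (h.2 j).1) i (Deco.ord.1 hi))
    (h := h) (i := i) hi
  exact ⟨(Qall I.M I.D I.k I.Wc I.k0 I.hk0 I.r I.Bx).cl t, congrArg (mfs I).cl h1, h2⟩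

/-- **the class of a tile of `Qr` is `kO`** -/
theorem cl_Qr {a : E3} {w : X → E3} (h : I.mf.Ok a w) {p : I.M.OIx I.hk (I.M.φ a) (Ins.adm h)}
    (hp : QrP I.M I.hk (I.M.φ a) (Ins.adm h) p) :
    (mfs I).cl ((mfs I).pot a w h (Sum.inl p)) = I.kO := by
  have := I.cX
  obtain ⟨c, h1, h2⟩ := cl_nat I h (i := Sum.inl p) ((I.ord_iff h).2 fun c hc => by cases hc)
  rw [h1]
  rcases c with (⟨⟩ | j) | (c | c)
  · rfl
  · exact absurd hp h2.1
  · exact h2.elim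
  · exact h2.elim

/-- **the class of an outer tile which is not in `Qr` is a class of a wall** -/
theorem cl_not_Qr {a : E3} {w : X → E3} (h : I.mf.Ok a w) {p : I.M.OIx I.hk (I.M.φ a) (Ins.adm h)}
    (hp : ¬ QrP I.M I.hk (I.M.φ a) (Ins.adm h) p) :
    ∃ j, (mfs I).cl ((mfs I).pot a w h (Sum.inl p)) = I.kOw j ∧ p.1.par.1.1.k = I.k j ∧
      Good (I.M.mesh I.hk (I.M.φ a) (Ins.adm h)) (Sum.inl p) (chi I.M.φ (I.M.φ a) (I.k j)) (I.k j)
        (NR (I.D.A j) (I.D.d j)) (I.D.d j) (I.D.c j) := by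
  have := I.cX
  obtain ⟨c, h1, h2⟩ := cl_nat I h (i := Sum.inl p) ((I.ord_iff h).2 fun c hc => by cases hc)
  rw [h1]
  rcases c with (⟨⟩ | j) | (c | c)
  · exact absurd h2 hp
  · exact ⟨j, rfl, h2.2⟩
  · exact h2.elim
  · exact h2.elim

theorem ord_inner {a : E3} {w : X → E3} (h : I.mf.Ok a w) {j : X}
    {i : I.M.IIx I.hk (I.M.φ a) (Ins.adm h) j} (hij : i ≠ I.M.core I.hk (I.M.φ a) (Ins.adm h) j) :
    (I.mf.md a w h).Ord (Sum.inr ⟨j, i⟩) := (I.ord_iff h).2 fun c hc => by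
  obtain ⟨rfl, h2⟩ := Sigma.mk.inj_iff.1 (Sum.inr_injective hc)
  exact hij (eq_of_heq h2)

/-- **the class of an inner tile off the wall** -/
theorem cl_in {a : E3} {w : X → E3} (h : I.mf.Ok a w) {j : X}
    {i : I.M.IIx I.hk (I.M.φ a) (Ins.adm h) j} (hij : i ≠ I.M.core I.hk (I.M.φ a) (Ins.adm h) j)
    (hd : Disjoint (P ((I.M.mesh I.hk (I.M.φ a) (Ins.adm h)).H (Sum.inr ⟨j, i⟩)))
      (frontier (I.M.Bk (fun j => a + w j) j).N)) :
    ∃ c, (mfs I).cl ((mfs I).pot a w h (Sum.inr ⟨j, i⟩)) = I.kI j c := by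
  have := I.cX
  obtain ⟨c, h1, h2⟩ := cl_nat I h (i := Sum.inr ⟨j, i⟩) (ord_inner I h hij)
  rw [h1]
  rcases c with o | (⟨j', c⟩ | ⟨j', ⟨⟩⟩)
  · exact h2.elim
  · obtain ⟨rfl : j' = j, -⟩ := h2
    exact ⟨c, rfl⟩
  · exact absurd hd (Set.not_disjoint_iff_nonempty_inter.2 h2.2)

/-- **the class of an inner tile at the wall** -/
theorem cl_inw {a : E3} {w : X → E3} (h : I.mf.Ok a w) {j : X}
    {i : I.M.IIx I.hk (I.M.φ a) (Ins.adm h) j} (hij : i ≠ I.M.core I.hk (I.M.φ a) (Ins.adm h) j)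
    (hd : (P ((I.M.mesh I.hk (I.M.φ a) (Ins.adm h)).H (Sum.inr ⟨j, i⟩)) ∩
      frontier (I.M.Bk (fun j => a + w j) j).N).Nonempty) :
    (mfs I).cl ((mfs I).pot a w h (Sum.inr ⟨j, i⟩)) = I.kIw j := by
  have := I.cX
  obtain ⟨c, h1, h2⟩ := cl_nat I h (i := Sum.inr ⟨j, i⟩) (ord_inner I h hij)
  rw [h1]
  rcases c with o | (⟨j', c⟩ | ⟨j', ⟨⟩⟩)
  · exact h2.elim
  · exact absurd h2.2 (Set.not_disjoint_iff_nonempty_inter.2 hd)
  · obtain ⟨rfl : j' = j, -⟩ := h2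
    rfl

/-- **the ordinary tiles which are not in `Qr` are not in the class `kO`** -/
theorem cl_ne_kO {a : E3} {w : X → E3} (h : I.mf.Ok a w) {i : (I.mf.md a w h).ι}
    (hi : ((mfs I).md a w h).Ord i)
    (hQ : i ∉ Qr I.M I.hk (I.M.φ a) (Ins.adm h)) :
    (mfs I).cl ((mfs I).pot a w h i) ≠ I.kO := by
  rcases i with p | ⟨j, i⟩
  · obtain ⟨j, h1, -⟩ := cl_not_Qr I h (p := p) fun hp => hQ ⟨p, rfl, hp⟩
    rw [h1]
    intro h2
    have h3 := Option.some_injective _ h2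
    exact absurd (Sum.inl_injective h3) (by simp)
  · have hij : i ≠ I.M.core I.hk (I.M.φ a) (Ins.adm h) j := by
      rintro rfl
      exact (mfs_ord I h).1 hi j rfl
    by_cases hd : (P ((I.M.mesh I.hk (I.M.φ a) (Ins.adm h)).H (Sum.inr ⟨j, i⟩)) ∩
        frontier (I.M.Bk (fun j => a + w j) j).N).Nonempty
    · rw [cl_inw I h hij hd]
      intro h2
      have h3 := Option.some_injective _ h2
      cases h3
    · obtain ⟨c, hc⟩ := cl_in I h hij
        (Set.disjoint_iff_inter_eq_empty.2 (Set.not_nonempty_iff_eq_empty.1 hd))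
      rw [hc]
      intro h2
      have h3 := Option.some_injective _ h2
      cases h3

end ins

end

end Crest.Agent.R096.Mfs_168
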