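import Mathlib
import Crest.Agent.R096.Sq2_477
import Crest.Agent.R096.Sk0_962
import Crest.Agent.R096.Sk4b_663
import Crest.Agent.R096.SkC1_961

-- ▼ part R096/Sq3_477
section

/-!
# Row 96, P4-SQUEEZE (helper477), part 3: derivative of the squeeze, the shell
-/

set_option autoImplicit false
set_option linter.unusedSectionVars false

open Set Function MeasureTheory Filter Topology Metric
open scoped ENNReal

namespace Crest.Agent.R096.Sq_477

open Crest.Agent.R096.Pl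
open Crest.Agent.R096.Str_696 (LocPL)

noncomputable section

variable {n : ℕ}

/-! ### more on `sq`, `W` -/

theorem sq_of_abs_le {ρ τ w : ℝ} (h1 : ρ ≤ 1) (h : (1 - ρ) * |τ| ≤ w) : sq ρ τ w = ρ * τ := by
  have hw : 0 ≤ w := le_trans (mul_nonneg (by linarith) (abs_nonneg τ)) h
  rcases le_total 0 τ with h2 | h2
  · rw [sq_nonneg h1 h2 hw, max_eq_left]
    rw [abs_of_nonneg h2] at h; nlinarith
  · rw [sq_nonpos h1 h2 hw, min_eq_left]
    rw [abs_of_nonpos h2] at h; nlinarith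

theorem sq_of_le_pos {ρ τ w : ℝ} (h1 : ρ ≤ 1) (hw : 0 ≤ w) (hτ : 0 ≤ τ) (h : w ≤ (1 - ρ) * τ) :
    sq ρ τ w = τ - w := by
  rw [sq_nonneg h1 hτ hw, max_eq_right]
  nlinarith

theorem sq_of_le_neg {ρ τ w : ℝ} (h1 : ρ ≤ 1) (hw : 0 ≤ w) (hτ : τ ≤ 0) (h : w ≤ (1 - ρ) * (-τ)) :
    sq ρ τ w = τ + w := by
  rw [sq_nonpos h1 hτ hw, min_eq_right]
  nlinarith

theorem abs_sq_sub_le (ρ τ w w' : ℝ) : |sq ρ τ w - sq ρ τ w'| ≤ |w - w'| := by
  unfold sq
  have h1 : |min (ρ * τ) (τ + w) - min (ρ * τ) (τ + w')| ≤ |w - w'| := by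
    refine (abs_min_sub_min_le_max _ _ _ _).trans ?_
    rw [sub_self, abs_zero]
    refine max_le (abs_nonneg _) (le_of_eq ?_)
    congr 1; ring
  have h2 : |(τ - w) - (τ - w')| ≤ |w - w'| := by
    rw [← abs_neg]; apply le_of_eq; congr 1; ring
  exact (abs_max_sub_max_le_max _ _ _ _).trans (max_le h1 h2)

theorem abs_W_sub_le {η : ℝ} (hη : 0 < η) (x y : Fin n → ℝ) :
    |W η x - W η y| ≤ 2 / η * ‖x - y‖ := by
  unfold W
  have h1 : |2 / η * (1 - η - ‖x‖) - 2 / η * (1 - η - ‖y‖)| ≤ 2 / η * ‖x - y‖ := by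
    have : 2 / η * (1 - η - ‖x‖) - 2 / η * (1 - η - ‖y‖) = - (2 / η * (‖x‖ - ‖y‖)) := by ring
    rw [this, abs_neg, abs_mul, abs_of_pos (show (0 : ℝ) < 2 / η by positivity)]
    exact mul_le_mul_of_nonneg_left (abs_norm_sub_norm_le x y) (by positivity)
  have h0 : 0 ≤ 2 / η * ‖x - y‖ := by positivity
  refine (abs_min_sub_min_le_max _ _ _ _).trans ?_
  rw [sub_self, abs_zero]
  refine max_le h0 ((abs_max_sub_max_le_max _ _ _ _).trans ?_)
  rw [sub_self, abs_zero]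
  exact max_le h0 h1

/-! ### the derivative of `chi` -/

theorem chi_apply_self (η ρ c : ℝ) (j : Fin n) (x : Fin n → ℝ) :
    chi η ρ c j x j = c + sq ρ (x j - c) (W η x) := by simp [chi]

theorem chi_apply_ne (η ρ c : ℝ) (j : Fin n) (x : Fin n → ℝ) {k : Fin n} (hk : k ≠ j) :
    chi η ρ c j x k = x k := by simp [chi, hk]

theorem fderiv_chi_ne {η ρ c : ℝ} {j : Fin n} {x : Fin n → ℝ}
    (h : DifferentiableAt ℝ (chi η ρ c j) x) (v : Fin n → ℝ) {k : Fin n} (hk : k ≠ j) :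
    fderiv ℝ (chi η ρ c j) x v k = v k := by
  have h1 := hasFDerivAt_pi'.1 h.hasFDerivAt k
  have h2 : HasFDerivAt (fun y : Fin n → ℝ => chi η ρ c j y k)
      (ContinuousLinearMap.proj (R := ℝ) (φ := fun _ : Fin n => ℝ) k) x := by
    have h3 : (fun y : Fin n → ℝ => chi η ρ c j y k) = fun y => y k := by
      ext y; exact chi_apply_ne η ρ c j y hk
    rw [h3]
    exact (ContinuousLinearMap.proj (R := ℝ) (φ := fun _ : Fin n => ℝ) k).hasFDerivAt
  have h4 := congrArg (fun L => L v) (h1.unique h2)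
  simpa using h4

/-- the derivative of the moved coordinate along a coordinate line -/
theorem hasDerivAt_line {η ρ c : ℝ} {j : Fin n} {x : Fin n → ℝ}
    (h : DifferentiableAt ℝ (chi η ρ c j) x) (i : Fin n) :
    HasDerivAt (fun t : ℝ => chi η ρ c j (x + t • Pi.single i (1 : ℝ)) j)
      (fderiv ℝ (chi η ρ c j) x (Pi.single i 1) j) 0 := by
  have h0 : HasDerivAt (fun t : ℝ => x + t • (Pi.single i (1 : ℝ) : Fin n → ℝ))
      (Pi.single i (1 : ℝ)) 0 := by
    have := ((hasDerivAt_id (0 : ℝ)).smul_const (Pi.single i (1 : ℝ) : Fin n → ℝ)).const_add x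
    simpa using this
  have h1 : HasFDerivAt (chi η ρ c j) (fderiv ℝ (chi η ρ c j) x)
      (x + (0 : ℝ) • (Pi.single i (1 : ℝ) : Fin n → ℝ)) := by
    rw [zero_smul, add_zero]; exact h.hasFDerivAt
  have h2 := h1.comp_hasDerivAt (0 : ℝ) h0
  exact (hasDerivAt_pi.1 h2) j

theorem abs_fderiv_chi_le {η ρ c : ℝ} (hη : 0 < η) {j : Fin n} {x : Fin n → ℝ}
    (h : DifferentiableAt ℝ (chi η ρ c j) x) {i : Fin n} (hi : i ≠ j) :
    |fderiv ℝ (chi η ρ c j) x (Pi.single i 1) j| ≤ 2 / η := by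
  have h1 := hasDerivAt_line h i
  have h2 := h1.le_of_lip' (C := 2 / η) (by positivity) (Eventually.of_forall fun t => by
    simp only [chi_apply_self]
    have e1 : (x + t • (Pi.single i (1 : ℝ) : Fin n → ℝ)) j = x j := by
      simp [Pi.single_apply, hi.symm]
    have e2 : (x + (0 : ℝ) • (Pi.single i (1 : ℝ) : Fin n → ℝ)) = x := by simp
    rw [e1, e2, add_sub_add_left_eq_sub, Real.norm_eq_abs, sub_zero]
    refine (abs_sq_sub_le _ _ _ _).trans ((abs_W_sub_le hη _ _).trans ?_)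
    rw [add_sub_cancel_left, norm_smul, Pi.norm_single, norm_one, mul_one])
  simpa using h2

theorem norm_add_single (x : Fin n → ℝ) (j : Fin n) (t : ℝ) :
    x + t • (Pi.single j (1 : ℝ) : Fin n → ℝ) = update x j (x j + t) := by
  ext k
  by_cases hk : k = j
  · subst hk; simp
  · simp [hk]

theorem fderiv_chi_out {η ρ c : ℝ} (hη : 0 < η) {j : Fin n} {x : Fin n → ℝ} (hx : 1 - η < ‖x‖) :
    HasFDerivAt (chi η ρ c j) (ContinuousLinearMap.id ℝ (Fin n → ℝ)) x := by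
  have h1 : chi η ρ c j =ᶠ[𝓝 x] id := by
    filter_upwards [continuous_norm.continuousAt.eventually_const_lt hx] with y hy
    exact chi_off hη j hy.le
  exact (hasFDerivAt_id x).congr_of_eventuallyEq h1

/-- one-sided computation of a derivative -/
theorem deriv_of_right {f : ℝ → ℝ} {d m : ℝ} (h : HasDerivAt f d 0)
    (h' : ∀ᶠ t in 𝓝[>] (0 : ℝ), f t = f 0 + m * t) : d = m := by
  have h1 : HasDerivWithinAt f d (Ioi 0) 0 := h.hasDerivWithinAt
  have h2 : HasDerivWithinAt (fun t => f 0 + m * t) m (Ioi 0) 0 := by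
    have := ((hasDerivAt_id (0 : ℝ)).const_mul m).const_add (f 0)
    simpa using this.hasDerivWithinAt
  have h3 : HasDerivWithinAt f m (Ioi 0) 0 := by
    refine h2.congr_of_eventuallyEq h' ?_
    simp
  exact (uniqueDiffWithinAt_Ioi 0).eq_deriv _ h1 h3

/-- one-sided computation of a derivative -/
theorem deriv_of_left {f : ℝ → ℝ} {d m : ℝ} (h : HasDerivAt f d 0)
    (h' : ∀ᶠ t in 𝓝[<] (0 : ℝ), f t = f 0 + m * t) : d = m := by
  have h1 : HasDerivWithinAt f d (Iio 0) 0 := h.hasDerivWithinAt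
  have h2 : HasDerivWithinAt (fun t => f 0 + m * t) m (Iio 0) 0 := by
    have := ((hasDerivAt_id (0 : ℝ)).const_mul m).const_add (f 0)
    simpa using this.hasDerivWithinAt
  have h3 : HasDerivWithinAt f m (Iio 0) 0 := by
    refine h2.congr_of_eventuallyEq h' ?_
    simp
  exact (uniqueDiffWithinAt_Iio 0).eq_deriv _ h1 h3

/-- eventually along a line we stay in the shell region -/
theorem eventually_lt {η ρ c : ℝ} {j : Fin n} {x : Fin n → ℝ}
    (hx : W η x < (1 - ρ) * |x j - c|) :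
    ∀ᶠ y in 𝓝 x, W η y < (1 - ρ) * |y j - c| := by
  have h1 : ContinuousAt (fun y : Fin n → ℝ => W η y) x := (continuous_W η).continuousAt
  have h2 : ContinuousAt (fun y : Fin n → ℝ => (1 - ρ) * |y j - c|) x :=
    (continuous_const.mul ((continuous_apply j).sub continuous_const).abs).continuousAt
  exact h1.eventually_lt h2 hx

theorem tendsto_line (x : Fin n → ℝ) (j : Fin n) :
    Tendsto (fun t : ℝ => x + t • (Pi.single j (1 : ℝ) : Fin n → ℝ)) (𝓝 0) (𝓝 x) := by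
  have : Continuous (fun t : ℝ => x + t • (Pi.single j (1 : ℝ) : Fin n → ℝ)) := by fun_prop
  simpa using this.tendsto 0

/-- the moved coordinate in the shell region -/
theorem chi_shell {η ρ c : ℝ} (hρ' : ρ ≤ 1) {j : Fin n} {y : Fin n → ℝ}
    (hy : W η y < (1 - ρ) * |y j - c|) :
    (c ≤ y j → chi η ρ c j y j = y j - W η y) ∧ (y j ≤ c → chi η ρ c j y j = y j + W η y) := by
  constructor
  · intro h
    rw [chi_apply_self, sq_of_le_pos hρ' (W_nonneg _ _) (by linarith)]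
    · ring
    · rw [abs_of_nonneg (by linarith)] at hy; exact hy.le
  · intro h
    rw [chi_apply_self, sq_of_le_neg hρ' (W_nonneg _ _) (by linarith)]
    · ring
    · rw [abs_of_nonpos (by linarith)] at hy; linarith

theorem ne_of_shell {η ρ c : ℝ} (_hρ' : ρ ≤ 1) {j : Fin n} {y : Fin n → ℝ}
    (hy : W η y < (1 - ρ) * |y j - c|) : y j ≠ c := by
  intro h
  rw [h, sub_self, abs_zero, mul_zero] at hy
  exact absurd hy (not_lt.2 (W_nonneg _ _))

/-- in the lateral part of the shell the moved coordinate has slope one -/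
theorem fderiv_chi_lat {η ρ c : ℝ} (hρ' : ρ ≤ 1) {j : Fin n} {x : Fin n → ℝ}
    (h : DifferentiableAt ℝ (chi η ρ c j) x) (hx : W η x < (1 - ρ) * |x j - c|)
    (hlat : |x j| < ‖x‖) : fderiv ℝ (chi η ρ c j) x (Pi.single j 1) j = 1 := by
  have hne := ne_of_shell hρ' hx
  have hT := tendsto_line x j
  have e1 : ∀ᶠ t in 𝓝 (0 : ℝ), W η (x + t • (Pi.single j (1 : ℝ) : Fin n → ℝ)) = W η x := by
    have h1 : ∀ᶠ t in 𝓝 (0 : ℝ), |x j + t| < ‖x‖ := by
      have : ContinuousAt (fun t : ℝ => |x j + t|) 0 := by fun_prop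
      exact this.eventually_lt_const (by simpa using hlat)
    filter_upwards [h1] with t ht
    have h2 : ‖update x j 0‖ = ‖x‖ := by
      have h3 := norm_update x j (x j)
      rw [update_eq_self] at h3
      rcases max_choice ‖update x j 0‖ |x j| with h4 | h4
      · rw [h3, h4]
      · rw [h4] at h3; exact absurd h3 hlat.ne'
    have h5 : ‖update x j (x j + t)‖ = ‖x‖ := by
      rw [norm_update, h2, max_eq_left ht.le]
    rw [norm_add_single]
    unfold W
    rw [h5]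
  apply deriv_of_right (hasDerivAt_line h j)
  refine eventually_nhdsWithin_of_eventually_nhds ?_
  have e2 := hT.eventually (eventually_lt hx)
  rcases lt_or_gt_of_ne hne with h1 | h1
  · have e3 : ∀ᶠ t in 𝓝 (0 : ℝ), x j + t < c := by
      have : ContinuousAt (fun t : ℝ => x j + t) 0 := by fun_prop
      exact this.eventually_lt_const (by simpa using h1)
    filter_upwards [e1, e2, e3] with t t1 t2 t3
    have t4 : (x + t • (Pi.single j (1 : ℝ) : Fin n → ℝ)) j = x j + t := by simp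
    rw [(chi_shell hρ' t2).2 (by rw [t4]; exact t3.le), t1, t4]
    have t5 : (x + (0 : ℝ) • (Pi.single j (1 : ℝ) : Fin n → ℝ)) = x := by simp
    rw [t5, (chi_shell hρ' hx).2 h1.le]
    ring
  · have e3 : ∀ᶠ t in 𝓝 (0 : ℝ), c < x j + t := by
      have : ContinuousAt (fun t : ℝ => x j + t) 0 := by fun_prop
      exact this.eventually_const_lt (by simpa using h1)
    filter_upwards [e1, e2, e3] with t t1 t2 t3
    have t4 : (x + t • (Pi.single j (1 : ℝ) : Fin n → ℝ)) j = x j + t := by simp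
    rw [(chi_shell hρ' t2).1 (by rw [t4]; exact t3.le), t1, t4]
    have t5 : (x + (0 : ℝ) • (Pi.single j (1 : ℝ) : Fin n → ℝ)) = x := by simp
    rw [t5, (chi_shell hρ' hx).1 h1.le]
    ring

/-- in the top part of the shell the moved coordinate has slope `1 + 2 / η` -/
theorem fderiv_chi_top {η ρ c : ℝ} (hη : 0 < η) (hη' : η ≤ 1 / 8) (hc : |c| ≤ 1 / 2)
    (hρ' : ρ ≤ 1) {j : Fin n} {x : Fin n → ℝ}
    (h : DifferentiableAt ℝ (chi η ρ c j) x) (hx : W η x < (1 - ρ) * |x j - c|)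
    (htop : |x j| = ‖x‖) (h1 : 1 - 2 * η < ‖x‖) (h2 : ‖x‖ < 1 - η) :
    fderiv ℝ (chi η ρ c j) x (Pi.single j 1) j = 1 + 2 / η := by
  have hc' := abs_le.1 hc
  have hT := tendsto_line x j
  have e2 := hT.eventually (eventually_lt hx)
  have hn : ∀ᶠ t in 𝓝 (0 : ℝ), ‖x + t • (Pi.single j (1 : ℝ) : Fin n → ℝ)‖ < 1 - η :=
    (hT.norm).eventually_lt_const h2
  have hn' : ∀ᶠ t in 𝓝 (0 : ℝ), 1 - 2 * η < ‖x + t • (Pi.single j (1 : ℝ) : Fin n → ℝ)‖ :=
    (hT.norm).eventually_const_lt h1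
  have t5 : (x + (0 : ℝ) • (Pi.single j (1 : ℝ) : Fin n → ℝ)) = x := by simp
  have hW0 : W η x = 2 / η * (1 - η - ‖x‖) := W_eq_mid hη h1.le h2.le
  rcases le_total 0 (x j) with h0 | h0
  · have hxj : x j = ‖x‖ := by rwa [abs_of_nonneg h0] at htop
    have hcx : c < x j := by rw [hxj]; linarith
    apply deriv_of_right (hasDerivAt_line h j)
    have e4 : ∀ᶠ t in 𝓝[>] (0 : ℝ), 0 < t := self_mem_nhdsWithin
    filter_upwards [e4, eventually_nhdsWithin_of_eventually_nhds e2,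
      eventually_nhdsWithin_of_eventually_nhds hn, eventually_nhdsWithin_of_eventually_nhds hn']
      with t t1 t2 t3 t3'
    have t4 : (x + t • (Pi.single j (1 : ℝ) : Fin n → ℝ)) j = x j + t := by simp
    have t6 : ‖x + t • (Pi.single j (1 : ℝ) : Fin n → ℝ)‖ = x j + t := by
      rw [norm_add_single, norm_update, abs_of_nonneg (by linarith), max_eq_right]
      have := norm_update x j (x j)
      rw [update_eq_self] at this
      have h9 : ‖update x j 0‖ ≤ ‖x‖ := by rw [this]; exact le_max_left _ _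
      linarith
    rw [(chi_shell hρ' t2).1 (by rw [t4]; linarith), W_eq_mid hη t3'.le t3.le, t6, t4, t5,
      (chi_shell hρ' hx).1 hcx.le, hW0, ← hxj]
    ring
  · have hxj : -x j = ‖x‖ := by rwa [abs_of_nonpos h0] at htop
    have hcx : x j < c := by linarith
    apply deriv_of_left (hasDerivAt_line h j)
    have e4 : ∀ᶠ t in 𝓝[<] (0 : ℝ), t < 0 := self_mem_nhdsWithin
    filter_upwards [e4, eventually_nhdsWithin_of_eventually_nhds e2,
      eventually_nhdsWithin_of_eventually_nhds hn, eventually_nhdsWithin_of_eventually_nhds hn']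
      with t t1 t2 t3 t3'
    have t4 : (x + t • (Pi.single j (1 : ℝ) : Fin n → ℝ)) j = x j + t := by simp
    have t6 : ‖x + t • (Pi.single j (1 : ℝ) : Fin n → ℝ)‖ = -(x j + t) := by
      rw [norm_add_single, norm_update, abs_of_nonpos (by linarith), max_eq_right]
      have := norm_update x j (x j)
      rw [update_eq_self] at this
      have h9 : ‖update x j 0‖ ≤ ‖x‖ := by rw [this]; exact le_max_left _ _
      linarith
    rw [(chi_shell hρ' t2).2 (by rw [t4]; linarith), W_eq_mid hη t3'.le t3.le, t6, t4, t5,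
      (chi_shell hρ' hx).2 hcx.le, hW0, ← hxj]
    ring

/-- the shell region -/
def SS (η ρ c : ℝ) (j : Fin n) : Set (Fin n → ℝ) :=
  {x | ‖x‖ < 1 ∧ W η x < (1 - ρ) * |x j - c|}

theorem SS_norm {η ρ c : ℝ} (hη : 0 < η) (hρ : 0 < ρ) (hc : |c| ≤ 1 / 2) {j : Fin n}
    {x : Fin n → ℝ} (hx : x ∈ SS η ρ c j) : 1 - 2 * η < ‖x‖ := by
  by_contra h
  push Not at h
  obtain ⟨h1, h2⟩ := hx
  rw [W_eq_two hη h] at h2
  have h3 : |x j - c| ≤ 3 / 2 := by
    have a1 := (norm_le_pi_norm x j).trans h1.le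
    rw [Real.norm_eq_abs] at a1
    calc |x j - c| ≤ |x j| + |c| := abs_sub _ _
      _ ≤ 1 + 1 / 2 := by linarith
      _ = 3 / 2 := by norm_num
  have h4 : (1 - ρ) * |x j - c| ≤ 1 * (3 / 2) := by
    have := abs_nonneg (x j - c)
    nlinarith
  linarith

end

end Crest.Agent.R096.Sq_477
end

-- ▼ part R096/Sq4_477
section

/-!
# Row 96, P4-SQUEEZE (helper477), part 4: integrals over the shell
-/

set_option autoImplicit false
set_option linter.unusedSectionVars false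

open Set Function MeasureTheory Filter Topology Metric
open scoped ENNReal

namespace Crest.Agent.R096.Sq_477

open Crest.Agent.R096.Pl
open Crest.Agent.R096.Str_696 (LocPL)

noncomputable section

variable {n : ℕ}

theorem measurable_W (η : ℝ) : Measurable (W (n := n) η) := (continuous_W η).measurable

theorem measurableSet_SS (η ρ c : ℝ) (j : Fin n) : MeasurableSet (SS η ρ c j) := by
  unfold SS
  refine (measurableSet_lt measurable_norm measurable_const).inter ?_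
  exact measurableSet_lt (measurable_W η)
    ((continuous_const.mul ((continuous_apply j).sub continuous_const).abs).measurable)

/-- the outer shell -/
def Sh (η : ℝ) : Set (Fin n → ℝ) := {x | 1 - 2 * η < ‖x‖ ∧ ‖x‖ < 1}


theorem chi_mem_ball {η ρ c : ℝ} (hη : 0 < η) (hη' : η ≤ 1 / 8) (hρ : 0 < ρ) (hρ' : ρ ≤ 1)
    (hc : |c| ≤ 1 / 2) (j : Fin n) {x : Fin n → ℝ} (hx : ‖x‖ < 1) : ‖chi η ρ c j x‖ < 1 := by
  rcases lt_or_ge ‖x‖ (1 - η) with h | h
  · exact (chi_norm hη hη' hρ hρ' hc j h).trans (by linarith)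
  · rwa [chi_off hη j h]

theorem exists_coord {x : Fin n → ℝ} (hx : 0 < ‖x‖) : ∃ k, |x k| = ‖x‖ := by
  by_contra h
  push Not at h
  have h1 : ∀ k, |x k| < ‖x‖ := fun k => lt_of_le_of_ne (norm_le_pi_norm x k) (h k)
  rcases isEmpty_or_nonempty (Fin n) with h0 | h0
  · have : x = 0 := Subsingleton.elim _ _
    rw [this, norm_zero] at hx; exact lt_irrefl _ hx
  · have : ‖x‖ < ‖x‖ := (pi_norm_lt_iff hx).2 (fun k => by rw [Real.norm_eq_abs]; exact h1 k)
    exact lt_irrefl _ this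

theorem det_lat {η ρ c : ℝ} (hη : 0 < η) (hρ' : ρ ≤ 1)
    {j : Fin n} {x : Fin n → ℝ}
    (h : DifferentiableAt ℝ (chi η ρ c j) x) (hx : W η x < (1 - ρ) * |x j - c|)
    (hlat : |x j| < ‖x‖ ∨ 1 - η < ‖x‖) : (fderiv ℝ (chi η ρ c j) x).det = 1 := by
  rw [det_coord _ j (fun v k hk => fderiv_chi_ne h v hk)]
  rcases hlat with h1 | h1
  · exact fderiv_chi_lat hρ' h hx h1
  · rw [(fderiv_chi_out hη h1).fderiv]
    simp

theorem shell_lintegral {η ρ c : ℝ} (hη : 0 < η) (hη' : η ≤ 1 / 8) (hρ : 0 < ρ) (hρ' : ρ ≤ 1)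
    (hc : |c| ≤ 1 / 2) (j : Fin n) (F : (Fin n → ℝ) → ℝ≥0∞) :
    ∫⁻ x in SS η ρ c j, F (chi η ρ c j x) ≤
      (∫⁻ x in Sh η, F x) + ENNReal.ofReal (η / 2) * ∫⁻ x in ball 0 1, F x := by
  set χ := chi (n := n) η ρ c j with hχ
  have hinj : Injective χ := (chi_bijective hη hη' hρ hρ' hc j).1
  let Lat : Set (Fin n → ℝ) := {x | |x j| < ‖x‖ ∨ 1 - η < ‖x‖}
  have hLat : MeasurableSet Lat :=
    (measurableSet_lt ((continuous_apply j).abs.measurable) measurable_norm).union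
      (measurableSet_lt measurable_const measurable_norm)
  let A : Set (Fin n → ℝ) := {x | x ∈ SS η ρ c j ∧ DifferentiableAt ℝ χ x ∧ ‖x‖ ≠ 1 - η}
  have hA : MeasurableSet A := by
    refine (measurableSet_SS η ρ c j).inter ((measurableSet_of_differentiableAt ℝ χ).inter ?_)
    exact (measurableSet_eq_fun measurable_norm measurable_const).compl
  have hAS : SS η ρ c j ≤ᵐ[volume] A := by
    have h1 := ae_differentiableAt_of_plMap (μ := (volume : Measure (Fin n → ℝ)))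
      (plMap_chi (n := n) η ρ c j)
    have h2 : ∀ᵐ x : Fin n → ℝ, x ∉ sphere (0 : Fin n → ℝ) (1 - η) := by
      rw [← measure_eq_zero_iff_ae_notMem]
      exact Measure.addHaar_sphere_of_ne_zero volume 0 (by linarith : (1 - η) ≠ 0)
    filter_upwards [h1, h2] with x hx1 hx2 hx3
    exact ⟨hx3, hx1, fun h => hx2 (mem_sphere_zero_iff_norm.2 h)⟩
  have e1 : ∫⁻ x in SS η ρ c j, F (χ x) ≤ ∫⁻ x in A, F (χ x) :=
    lintegral_mono_set' hAS
  refine e1.trans ?_
  rw [← lintegral_inter_add_sdiff (fun x => F (χ x)) A hLat]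
  refine add_le_add ?_ ?_
  · -- lateral part
    have h1 : ∫⁻ x in A ∩ Lat, F (χ x) =
        ∫⁻ x in A ∩ Lat, ENNReal.ofReal |(fderiv ℝ χ x).det| * F (χ x) := by
      apply setLIntegral_congr_fun (hA.inter hLat)
      intro x hx
      simp only
      rw [det_lat hη hρ' hx.1.2.1 hx.1.1.2 hx.2]
      simp
    rw [h1, ← lintegral_image_eq_lintegral_abs_det_fderiv_mul volume (hA.inter hLat)
      (fun x hx => hx.1.2.1.hasFDerivAt.hasFDerivWithinAt) hinj.injOn]
    apply lintegral_mono_set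
    rintro _ ⟨x, ⟨hxA, hxL⟩, rfl⟩
    have hx2 := SS_norm hη hρ hc hxA.1
    refine ⟨?_, chi_mem_ball hη hη' hρ hρ' hc j hxA.1.1⟩
    rcases hxL with h3 | h3
    · obtain ⟨k, hk⟩ := exists_coord (x := x) (by linarith)
      have hkj : k ≠ j := by
        rintro rfl
        rw [hk] at h3; exact lt_irrefl _ h3
      have h4 := norm_le_pi_norm (χ x) k
      rw [hχ, chi_apply_ne η ρ c j x hkj, Real.norm_eq_abs, hk] at h4
      exact hx2.trans_le h4
    · rw [hχ, chi_off hη j h3.le]; exact hx2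
  · -- top part
    have h0 : ∀ x ∈ A \ Lat, 1 ≤ η / 2 * |(fderiv ℝ χ x).det| := by
      rintro x ⟨hxA, hxL⟩
      have h5 : ¬ (|x j| < ‖x‖ ∨ 1 - η < ‖x‖) := hxL
      push Not at h5
      have h6 : |x j| = ‖x‖ := le_antisymm (norm_le_pi_norm x j) h5.1
      have h7 : ‖x‖ < 1 - η := lt_of_le_of_ne h5.2 hxA.2.2
      have h8 := fderiv_chi_top hη hη' hc hρ' hxA.2.1 hxA.1.2 h6 (SS_norm hη hρ hc hxA.1) h7
      rw [det_coord _ j (fun v k hk => fderiv_chi_ne hxA.2.1 v hk), h8,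
        abs_of_pos (by positivity)]
      have : η / 2 * (1 + 2 / η) = η / 2 + 1 := by field_simp
      rw [this]; linarith
    calc ∫⁻ x in A \ Lat, F (χ x)
        ≤ ∫⁻ x in A \ Lat, ENNReal.ofReal (η / 2) *
            (ENNReal.ofReal |(fderiv ℝ χ x).det| * F (χ x)) := by
          apply setLIntegral_mono' (hA.diff hLat)
          intro x hx
          rw [← mul_assoc, ← ENNReal.ofReal_mul (by positivity)]
          calc F (χ x) = 1 * F (χ x) := (one_mul _).symm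
            _ ≤ _ := by
              gcongr
              rw [ENNReal.one_le_ofReal]
              exact h0 x hx
      _ = ENNReal.ofReal (η / 2) * ∫⁻ x in A \ Lat,
            (ENNReal.ofReal |(fderiv ℝ χ x).det| * F (χ x)) := by
          rw [lintegral_const_mul' _ _ ENNReal.ofReal_ne_top]
      _ = ENNReal.ofReal (η / 2) * ∫⁻ x in χ '' (A \ Lat), F x := by
          rw [lintegral_image_eq_lintegral_abs_det_fderiv_mul volume (hA.diff hLat)
            (fun x hx => hx.1.2.1.hasFDerivAt.hasFDerivWithinAt) hinj.injOn]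
      _ ≤ ENNReal.ofReal (η / 2) * ∫⁻ x in ball 0 1, F x := by
          gcongr
          rintro _ ⟨x, hx, rfl⟩
          rw [mem_ball_zero_iff]
          exact chi_mem_ball hη hη' hρ hρ' hc j hx.1.1.1


/-- bounds of the derivative of `chi` in the shell, almost everywhere -/
theorem abs_det_le {η ρ c : ℝ} (hη : 0 < η) (hη' : η ≤ 1 / 8) (hρ : 0 < ρ) (hρ' : ρ ≤ 1)
    (hc : |c| ≤ 1 / 2) {j : Fin n} {x : Fin n → ℝ} (hx : x ∈ SS η ρ c j)
    (h : DifferentiableAt ℝ (chi η ρ c j) x) (hne : ‖x‖ ≠ 1 - η) :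
    fderiv ℝ (chi η ρ c j) x (Pi.single j 1) j = (fderiv ℝ (chi η ρ c j) x).det ∧
    1 ≤ (fderiv ℝ (chi η ρ c j) x).det ∧ (fderiv ℝ (chi η ρ c j) x).det ≤ 3 / η := by
  have h0 : fderiv ℝ (chi η ρ c j) x (Pi.single j 1) j = (fderiv ℝ (chi η ρ c j) x).det :=
    (det_coord _ j (fun v k hk => fderiv_chi_ne h v hk)).symm
  refine ⟨h0, ?_⟩
  have h3 : 1 + 2 / η ≤ 3 / η := by
    rw [add_div' _ _ _ hη.ne', div_le_div_iff_of_pos_right hη]; linarith
  have h4 : 0 < 2 / η := by positivity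
  by_cases h1 : |x j| < ‖x‖ ∨ 1 - η < ‖x‖
  · rw [det_lat hη hρ' h hx.2 h1]
    constructor <;> linarith
  · push Not at h1
    have h6 : |x j| = ‖x‖ := le_antisymm (norm_le_pi_norm x j) h1.1
    have h7 : ‖x‖ < 1 - η := lt_of_le_of_ne h1.2 hne
    rw [← h0, fderiv_chi_top hη hη' hc hρ' h hx.2 h6 (SS_norm hη hρ hc hx) h7]
    constructor <;> linarith

end

end Crest.Agent.R096.Sq_477
end

-- ▼ part R096/Sq5_477
section

/-!
# Row 96, P4-SQUEEZE (helper477), part 5: the limit onto the slice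
-/

set_option autoImplicit false
set_option linter.unusedSectionVars false

open Set Function MeasureTheory Filter Topology Metric
open scoped ENNReal

namespace Crest.Agent.R096.Sq_477

open Crest.Agent.R096.Pl
open Crest.Agent.R096.Str_696 (LocPL)

noncomputable section

/-- a locally PL map is PL on compact sets -/
theorem plOn_of_locPL {E F : Type*} [NormedAddCommGroup E] [NormedSpace ℝ E]
    [NormedAddCommGroup F] [NormedSpace ℝ F] {g : E → F} {Ω K : Set E} (hg : LocPL g Ω)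
    (hK : IsCompact K) (hKΩ : K ⊆ Ω) : Cx_609.PLOn K g := by
  classical
  have h : ∀ x : E, ∃ r : ℝ, 0 < r ∧ (x ∈ K → ∃ S : Finset (E →ᵃ[ℝ] F),
      ContinuousOn g (ball x r) ∧ ∀ y ∈ ball x r, ∃ a ∈ S, g y = a y) := by
    intro x
    by_cases hx : x ∈ K
    · obtain ⟨r, hr, S, h1, h2⟩ := hg x (hKΩ hx)
      exact ⟨r, hr, fun _ => ⟨S, h1, h2⟩⟩
    · exact ⟨1, one_pos, fun h => absurd h hx⟩
  choose r hr h using h
  obtain ⟨t, ht, hcov⟩ := hK.elim_nhds_subcover (fun x => ball x (r x))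
    (fun x _ => ball_mem_nhds x (hr x))
  have h' : ∀ x : E, ∃ S : Finset (E →ᵃ[ℝ] F), x ∈ K →
      ContinuousOn g (ball x (r x)) ∧ ∀ y ∈ ball x (r x), ∃ a ∈ S, g y = a y := by
    intro x
    by_cases hx : x ∈ K
    · obtain ⟨S, hS⟩ := h x hx
      exact ⟨S, fun _ => hS⟩
    · exact ⟨∅, fun h => absurd h hx⟩
  choose S hS using h'
  refine ⟨?_, t.biUnion S, Finset.finite_toSet _, ?_⟩
  · intro y hy
    obtain ⟨x, hx, hyx⟩ := mem_iUnion₂.1 (hcov hy)
    exact (((hS x (ht x hx)).1.continuousAt (isOpen_ball.mem_nhds hyx))).continuousWithinAt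
  · intro y hy
    obtain ⟨x, hx, hyx⟩ := mem_iUnion₂.1 (hcov hy)
    obtain ⟨a, ha, e⟩ := (hS x (ht x hx)).2 y hyx
    exact ⟨a, by simpa using ⟨x, hx, ha⟩, e⟩

variable {n : ℕ}

/-- put the `j`-th coordinate equal to `c` -/
def prj (c : ℝ) (j : Fin n) (x : Fin n → ℝ) : Fin n → ℝ := update x j c

theorem hasFDerivAt_prj (c : ℝ) (j : Fin n) (x : Fin n → ℝ) :
    HasFDerivAt (prj c j) (ContinuousLinearMap.id ℝ (Fin n → ℝ) -
      (ContinuousLinearMap.proj (R := ℝ) (φ := fun _ : Fin n => ℝ) j).smulRight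
        (Pi.single j (1 : ℝ))) x := by
  have h : prj c j = fun y : Fin n → ℝ =>
      y - (y j) • (Pi.single j (1 : ℝ) : Fin n → ℝ) + c • (Pi.single j (1 : ℝ) : Fin n → ℝ) := by
    ext y k
    unfold prj
    by_cases hk : k = j
    · subst hk; simp
    · simp [hk]
  rw [h]
  refine HasFDerivAt.add_const _ ((hasFDerivAt_id x).sub ?_)
  exact ((ContinuousLinearMap.proj (R := ℝ) (φ := fun _ : Fin n => ℝ) j).hasFDerivAt).smul_const _


/-- scale the `j`-th coordinate towards `c` -/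
def lin (ρ c : ℝ) (j : Fin n) (x : Fin n → ℝ) : Fin n → ℝ := update x j (c + ρ * (x j - c))

theorem lin_lin {ρ ρ' : ℝ} (h : ρ * ρ' = 1) (c : ℝ) (j : Fin n) (x : Fin n → ℝ) :
    lin ρ c j (lin ρ' c j x) = x := by
  unfold lin
  rw [update_idem, update_self]
  have : c + ρ * (c + ρ' * (x j - c) - c) = x j := by
    have : ρ * (c + ρ' * (x j - c) - c) = (ρ * ρ') * (x j - c) := by ring
    rw [this, h]; ring
  rw [this, update_eq_self]

theorem lin_eq (ρ c : ℝ) (j : Fin n) (x : Fin n → ℝ) :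
    lin ρ c j x = x + ((ρ - 1) * (x j - c)) • (Pi.single j (1 : ℝ) : Fin n → ℝ) := by
  ext k
  unfold lin
  by_cases hk : k = j
  · subst hk; simp; ring
  · simp [hk]

theorem plMap_lin (ρ c : ℝ) (j : Fin n) : PLMap (lin (n := n) ρ c j) := by
  have : lin (n := n) ρ c j = fun x => x + ((ρ - 1) * (x j - c)) • (Pi.single j (1 : ℝ) : Fin n → ℝ) := by
    ext1 x; exact lin_eq ρ c j x
  rw [this]
  exact PLMap.add PLMap.id ((PLMap.const_mul _ ((plMap_coord j).sub_const c)).smul_const _)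

theorem norm_lin_lt {ρ c η : ℝ} (hρ : 0 < ρ) (hρ' : ρ ≤ 1) (hc : |c| ≤ 1 / 2) (hη' : η ≤ 1 / 8)
    (j : Fin n) {x : Fin n → ℝ} (hx : ‖x‖ < 1 - η) : ‖lin ρ c j x‖ < 1 - η := by
  rw [pi_norm_lt_iff (by linarith)]
  intro k
  by_cases hk : k = j
  · subst hk
    unfold lin
    rw [update_self, Real.norm_eq_abs]
    have h1 := (norm_le_pi_norm x k).trans_lt hx
    rw [Real.norm_eq_abs, abs_lt] at h1
    rw [abs_le] at hc
    rw [abs_lt]
    constructor <;> nlinarith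
  · unfold lin
    rw [update_of_ne hk]
    exact (norm_le_pi_norm x k).trans_lt hx

variable {F : Type*} [NormedAddCommGroup F] [NormedSpace ℝ F] [FiniteDimensional ℝ F]

/-- the trace from one side of a convex set on the slice, as a cylinder -/
def Tr (σ c : ℝ) (j : Fin n) (C : Set (Fin n → ℝ)) : Set (Fin n → ℝ) :=
  prj c j ⁻¹' closure (C ∩ {x | 0 < σ * (x j - c)})

theorem convex_Tr (σ c : ℝ) (j : Fin n) {C : Set (Fin n → ℝ)} (hC : Convex ℝ C) :
    Convex ℝ (Tr σ c j C) := by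
  have h1 : Convex ℝ {x : Fin n → ℝ | 0 < σ * (x j - c)} := by
    intro x hx y hy a b ha hb hab
    simp only [mem_ofPred_eq, Pi.add_apply, Pi.smul_apply, smul_eq_mul] at hx hy ⊢
    have : σ * (a * x j + b * y j - c) = a * (σ * (x j - c)) + b * (σ * (y j - c)) := by
      have : c = (a + b) * c := by rw [hab, one_mul]
      nth_rewrite 1 [this]; ring
    rw [this]
    rcases eq_or_lt_of_le ha with h | h
    · rw [← h, zero_add] at hab
      rw [← h, hab]; linarith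
    · have := mul_pos h hx
      have := mul_nonneg hb hy.le
      linarith
  have h2 := (hC.inter h1).closure
  intro x hx y hy a b ha hb hab
  have h3 : prj c j (a • x + b • y) = a • prj c j x + b • prj c j y := by
    ext k
    unfold prj
    by_cases hk : k = j
    · subst hk
      simp only [update_self, Pi.add_apply, Pi.smul_apply, smul_eq_mul]
      rw [← add_mul, hab, one_mul]
    · simp [hk]
  rw [Tr, mem_preimage, h3]
  exact h2 hx hy ha hb hab

/-- the key geometric lemma: near a generic point of the slice the map is affine on each side -/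
theorem slice_key {g : (Fin n → ℝ) → F} {η c : ℝ} (hc : |c| ≤ 1 / 2)
    (hη' : η ≤ 1 / 8) (j : Fin n) {𝒞 : Set (Set (Fin n → ℝ))} (hfin : 𝒞.Finite)
    (hC : ∀ C ∈ 𝒞, Convex ℝ C ∧ IsClosed C ∧ ∃ a : (Fin n → ℝ) →ᵃ[ℝ] F, EqOn g a C)
    (hcov : closedBall (0 : Fin n → ℝ) (1 - η) ⊆ ⋃₀ 𝒞) {x : Fin n → ℝ} (hx : ‖x‖ < 1 - η)
    (hxj : x j ≠ c) (hgen : ∀ C ∈ 𝒞, x ∉ frontier (Tr (x j - c) c j C)) :
    ∃ a : (Fin n → ℝ) →ᵃ[ℝ] F, (∀ᶠ ρ in 𝓝[>] (0 : ℝ), g =ᶠ[𝓝 (lin ρ c j x)] a) ∧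
      (fun y => g (prj c j y)) =ᶠ[𝓝 x] fun y => a (prj c j y) := by
  set σ := x j - c with hσ
  have hσ0 : σ ≠ 0 := sub_ne_zero.2 hxj
  have hσσ : 0 < σ * σ := mul_self_pos.2 hσ0
  set z := prj c j x with hz
  have hlim : Tendsto (fun ρ : ℝ => lin ρ c j x) (𝓝[>] 0) (𝓝 z) := by
    have h1 : Continuous (fun ρ : ℝ => lin ρ c j x) := by
      have : (fun ρ : ℝ => lin ρ c j x) =
          fun ρ => x + ((ρ - 1) * (x j - c)) • (Pi.single j (1 : ℝ) : Fin n → ℝ) := by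
        ext1 ρ; exact lin_eq ρ c j x
      rw [this]; fun_prop
    have h2 := h1.tendsto 0
    have h3 : lin 0 c j x = z := by
      unfold lin; rw [zero_mul, add_zero]; rfl
    rw [h3] at h2
    exact h2.mono_left nhdsWithin_le_nhds
  have hlinj : ∀ ρ : ℝ, (lin ρ c j x) j = c + ρ * σ := by
    intro ρ; unfold lin; rw [update_self]
  -- a piece seen from the slice
  obtain ⟨C, hC𝒞, hxC⟩ : ∃ C ∈ 𝒞, x ∈ Tr σ c j C := by
    by_contra hcon
    push Not at hcon
    have h1 : ∀ᶠ y in 𝓝 z, ∀ C ∈ 𝒞, y ∉ C ∩ {x | 0 < σ * (x j - c)} := by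
      rw [eventually_all_finite hfin]
      intro C hC'
      have h2 : z ∉ closure (C ∩ {x | 0 < σ * (x j - c)}) := hcon C hC'
      filter_upwards [(isClosed_closure.isOpen_compl.mem_nhds h2)] with y hy hy'
      exact hy (subset_closure hy')
    have h2 := hlim.eventually h1
    have h3 : ∀ᶠ ρ in 𝓝[>] (0 : ℝ), 0 < ρ := self_mem_nhdsWithin
    have h4 : ∀ᶠ ρ in 𝓝[>] (0 : ℝ), ρ < 1 := by
      exact eventually_nhdsWithin_of_eventually_nhds (gt_mem_nhds one_pos)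
    obtain ⟨ρ, h5, h6, h7⟩ := (h2.and (h3.and h4)).exists
    have h8 : lin ρ c j x ∈ closedBall (0 : Fin n → ℝ) (1 - η) := by
      rw [mem_closedBall_zero_iff]
      exact (norm_lin_lt h6 h7.le hc hη' j hx).le
    obtain ⟨C, hC', h9⟩ := hcov h8
    refine h5 C hC' ⟨h9, ?_⟩
    show 0 < σ * ((lin ρ c j x) j - c)
    rw [hlinj]
    have : σ * (c + ρ * σ - c) = ρ * (σ * σ) := by ring
    rw [this]; exact mul_pos h6 hσσ
  obtain ⟨hconv, hcl, a, ha⟩ := hC C hC𝒞
  have hxU : x ∈ interior (Tr σ c j C) := by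
    by_contra h1
    exact hgen C hC𝒞 ⟨subset_closure hxC, h1⟩
  have hTC : ∀ y ∈ Tr σ c j C, prj c j y ∈ C := fun y hy =>
    closure_minimal inter_subset_left hcl hy
  refine ⟨a, ?_, ?_⟩
  · -- `z` is interior as well
    have hzU : z ∈ interior (Tr σ c j C) := by
      rw [mem_interior_iff_mem_nhds] at hxU ⊢
      have h1 : Continuous (fun y : Fin n → ℝ => y + σ • (Pi.single j (1 : ℝ) : Fin n → ℝ)) := by
        fun_prop
      have h2 : z + σ • (Pi.single j (1 : ℝ) : Fin n → ℝ) = x := by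
        ext k
        by_cases hk : k = j
        · subst hk; simp [hz, prj, hσ]
        · simp [hz, prj, hk]
      have h3 : Tendsto (fun y : Fin n → ℝ => y + σ • (Pi.single j (1 : ℝ) : Fin n → ℝ)) (𝓝 z)
          (𝓝 x) := by
        have := h1.tendsto z
        rwa [h2] at this
      filter_upwards [h3 hxU] with y hy
      have h4 : prj c j (y + σ • (Pi.single j (1 : ℝ) : Fin n → ℝ)) = prj c j y := by
        ext k
        by_cases hk : k = j
        · subst hk; simp [prj]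
        · simp [prj, hk]
      have h5 : prj c j (y + σ • (Pi.single j (1 : ℝ) : Fin n → ℝ)) ∈
        closure (C ∩ {x | 0 < σ * (x j - c)}) := hy
      rw [h4] at h5
      exact h5
    obtain ⟨p, hpC, hpj⟩ : (C ∩ {x | 0 < σ * (x j - c)}).Nonempty := by
      rw [← closure_nonempty_iff]
      exact ⟨_, hxC⟩
    have hpj' : p j - c ≠ 0 := by
      intro h
      simp only [mem_ofPred_eq, h, mul_zero, lt_irrefl] at hpj
    let S : (Fin n → ℝ) → ℝ := fun q => (q j - c) / (p j - c)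
    have hS : Continuous S := by
      show Continuous fun q : Fin n → ℝ => (q j - c) / (p j - c)
      exact ((continuous_apply j).sub continuous_const).div_const _
    let Θ : (Fin n → ℝ) → (Fin n → ℝ) := fun q => (1 - S q)⁻¹ • (q - S q • p)
    have hΘ : ∀ q, S q ≠ 1 → ContinuousAt Θ q := by
      intro q hq
      have h1 : 1 - S q ≠ 0 := fun h => hq (by linarith)
      exact ((continuousAt_const.sub hS.continuousAt).inv₀ h1).smul
        (continuousAt_id.sub (hS.continuousAt.smul continuousAt_const))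
    have hSz : S z = 0 := by
      show (z j - c) / (p j - c) = 0
      have : z j = c := by simp [hz, prj]
      rw [this, sub_self, zero_div]
    have hΘz : Θ z = z := by
      show (1 - S z)⁻¹ • (z - S z • p) = z
      rw [hSz]; simp
    have e1 : ∀ᶠ ρ in 𝓝[>] (0 : ℝ), Θ (lin ρ c j x) ∈ interior (Tr σ c j C) := by
      have h1 : ContinuousAt Θ z := hΘ z (by rw [hSz]; norm_num)
      have h2 : ∀ᶠ y in 𝓝 z, Θ y ∈ interior (Tr σ c j C) :=
        h1.eventually (by rw [hΘz]; exact isOpen_interior.mem_nhds hzU)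
      exact hlim.eventually h2
    have e2 : ∀ᶠ ρ in 𝓝[>] (0 : ℝ), S (lin ρ c j x) < 1 := by
      have h1 : ∀ᶠ y in 𝓝 z, S y < 1 := hS.continuousAt.eventually_lt_const (by
        rw [hSz]; norm_num)
      exact hlim.eventually h1
    have e3 : ∀ᶠ ρ in 𝓝[>] (0 : ℝ), 0 < S (lin ρ c j x) := by
      filter_upwards [self_mem_nhdsWithin] with ρ (hρ : 0 < ρ)
      show 0 < ((lin ρ c j x) j - c) / (p j - c)
      rw [hlinj]
      have h1 : 0 < σ * (p j - c) := hpj
      have h2 : (c + ρ * σ - c) / (p j - c) = ρ * (σ * (p j - c)) / ((p j - c) * (p j - c)) := by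
        field_simp; ring
      rw [h2]
      exact div_pos (mul_pos hρ h1) (mul_self_pos.2 hpj')
    filter_upwards [e1, e2, e3] with ρ r1 r2 r3
    have r4 := (hΘ (lin ρ c j x) r2.ne).eventually (isOpen_interior.mem_nhds r1)
    have r5 := hS.continuousAt.eventually_lt_const r2
    have r6 := hS.continuousAt.eventually_const_lt r3
    filter_upwards [r4, r5, r6] with q q1 q2 q3
    apply ha
    have q4 : 1 - S q ≠ 0 := by linarith
    have q5 : (Θ q) j = c := by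
      show ((1 - S q)⁻¹ • (q - S q • p)) j = c
      simp only [Pi.smul_apply, Pi.sub_apply, smul_eq_mul]
      have q6 : q j = c + S q * (p j - c) := by
        show q j = c + (q j - c) / (p j - c) * (p j - c)
        field_simp; ring
      rw [inv_mul_eq_iff_eq_mul₀ q4]
      nth_rewrite 1 [q6]; ring
    have q7 : Θ q ∈ C := by
      have := hTC _ (interior_subset q1)
      unfold prj at this
      rw [← q5, update_eq_self] at this
      exact this
    have q8 : q = (1 - S q) • Θ q + S q • p := by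
      show q = (1 - S q) • ((1 - S q)⁻¹ • (q - S q • p)) + S q • p
      rw [smul_inv_smul₀ q4]; simp
    rw [q8]
    exact hconv q7 hpC (by linarith) q3.le (by ring)
  · filter_upwards [mem_interior_iff_mem_nhds.1 hxU] with y hy
    exact ha (hTC y hy)

end

end Crest.Agent.R096.Sq_477
end

-- ▼ part R096/Sq6_477
section

/-!
# Row 96, P4-SQUEEZE (helper477), part 6: the inner region and the theorem
-/

set_option autoImplicit false
set_option linter.unusedSectionVars false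

open Set Function MeasureTheory Filter Topology Metric
open scoped ENNReal

namespace Crest.Agent.R096.Sq_477

open Crest.Agent.R096.Pl
open Crest.Agent.R096.Str_696 (LocPL)

noncomputable section

variable {n : ℕ}

/-- the inner region -/
def RR (η ρ c : ℝ) (j : Fin n) : Set (Fin n → ℝ) :=
  {x | (1 - ρ) * |x j - c| < W η x}

theorem measurableSet_RR (η ρ c : ℝ) (j : Fin n) : MeasurableSet (RR η ρ c j) := by
  unfold RR
  exact measurableSet_lt
    ((continuous_const.mul ((continuous_apply j).sub continuous_const).abs).measurable)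
    (measurable_W η)

theorem RR_norm {η ρ c : ℝ} (hη : 0 < η) (hρ' : ρ ≤ 1) {j : Fin n} {x : Fin n → ℝ}
    (hx : x ∈ RR η ρ c j) : ‖x‖ < 1 - η := by
  by_contra h
  push Not at h
  have h1 : (1 - ρ) * |x j - c| < W η x := hx
  rw [W_eq_zero hη h] at h1
  exact absurd h1 (not_lt.2 (mul_nonneg (by linarith) (abs_nonneg _)))

theorem chi_eq_lin {η ρ c : ℝ} (hρ' : ρ ≤ 1) {j : Fin n} {x : Fin n → ℝ}
    (hx : x ∈ RR η ρ c j) : chi η ρ c j x = lin ρ c j x := by
  unfold chi lin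
  rw [sq_of_abs_le hρ' (le_of_lt hx)]

theorem chi_eventuallyEq_lin {η ρ c : ℝ} (hρ' : ρ ≤ 1) {j : Fin n} {x : Fin n → ℝ}
    (hx : x ∈ RR η ρ c j) : chi η ρ c j =ᶠ[𝓝 x] lin ρ c j := by
  have h1 : ContinuousAt (fun y : Fin n → ℝ => W η y) x := (continuous_W η).continuousAt
  have h2 : ContinuousAt (fun y : Fin n → ℝ => (1 - ρ) * |y j - c|) x :=
    (continuous_const.mul ((continuous_apply j).sub continuous_const).abs).continuousAt
  filter_upwards [h2.eventually_lt h1 hx] with y hy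
  exact chi_eq_lin hρ' hy

theorem hasFDerivAt_lin (ρ c : ℝ) (j : Fin n) (x : Fin n → ℝ) :
    HasFDerivAt (lin ρ c j) (ContinuousLinearMap.id ℝ (Fin n → ℝ) +
      ((ρ - 1) • (ContinuousLinearMap.proj (R := ℝ) (φ := fun _ : Fin n => ℝ) j)).smulRight
        (Pi.single j (1 : ℝ))) x := by
  have h : lin ρ c j = fun y : Fin n → ℝ =>
      y + ((ρ - 1) * (y j - c)) • (Pi.single j (1 : ℝ) : Fin n → ℝ) := by
    ext1 y; exact lin_eq ρ c j y
  rw [h]
  refine (hasFDerivAt_id x).add (HasFDerivAt.smul_const ?_ _)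
  exact ((((ContinuousLinearMap.proj (R := ℝ) (φ := fun _ : Fin n => ℝ) j).hasFDerivAt).sub_const
    c).const_mul (ρ - 1))

theorem line_apply (x : Fin n → ℝ) (j : Fin n) (t : ℝ) :
    (x + t • (Pi.single j (1 : ℝ) : Fin n → ℝ)) j = x j + t := by simp

theorem line_zero (x : Fin n → ℝ) (j : Fin n) :
    (x + (0 : ℝ) • (Pi.single j (1 : ℝ) : Fin n → ℝ)) = x := by simp

/-- `W` decreases away from `c`, upwards -/
theorem W_up {η c : ℝ} (hη : 0 < η) (hη' : η ≤ 1 / 8) (hc : |c| ≤ 1 / 2) {j : Fin n}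
    {x : Fin n → ℝ} {s t : ℝ} (h1 : c ≤ x j + s) (hst : s ≤ t) :
    W η (x + t • (Pi.single j (1 : ℝ) : Fin n → ℝ)) ≤
      W η (x + s • (Pi.single j (1 : ℝ) : Fin n → ℝ)) := by
  have hc' := abs_le.1 hc
  rw [norm_add_single, norm_add_single]
  apply W_line hη hη'
  by_cases h6 : |x j + s| ≤ 1 / 2
  · exact Or.inr h6
  · left
    have h7 : 0 < x j + s := by
      by_contra h8
      push Not at h8
      exact h6 (abs_le.2 ⟨by linarith, by linarith⟩)
    rw [abs_of_pos h7, abs_of_pos (by linarith)]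
    linarith

/-- `W` decreases away from `c`, downwards -/
theorem W_dn {η c : ℝ} (hη : 0 < η) (hη' : η ≤ 1 / 8) (hc : |c| ≤ 1 / 2) {j : Fin n}
    {x : Fin n → ℝ} {s t : ℝ} (h1 : x j + s ≤ c) (hst : t ≤ s) :
    W η (x + t • (Pi.single j (1 : ℝ) : Fin n → ℝ)) ≤
      W η (x + s • (Pi.single j (1 : ℝ) : Fin n → ℝ)) := by
  have hc' := abs_le.1 hc
  rw [norm_add_single, norm_add_single]
  apply W_line hη hη'
  by_cases h6 : |x j + s| ≤ 1 / 2
  · exact Or.inr h6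
  · left
    have h7 : x j + s < 0 := by
      by_contra h8
      push Not at h8
      exact h6 (abs_le.2 ⟨by linarith, by linarith⟩)
    rw [abs_of_neg h7, abs_of_neg (by linarith)]
    linarith

/-- comparison of one-sided slopes -/
theorem le_deriv_right {f : ℝ → ℝ} {d m : ℝ} (h : HasDerivAt f d 0)
    (h' : ∀ t, 0 < t → f 0 + m * t ≤ f t) : m ≤ d := by
  have h1 : Tendsto (slope f 0) (𝓝[>] (0 : ℝ)) (𝓝 d) :=
    (hasDerivAt_iff_tendsto_slope.1 h).mono_left
      (nhdsWithin_mono _ (fun t (ht : 0 < t) => ht.ne'))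
  refine ge_of_tendsto h1 ?_
  filter_upwards [self_mem_nhdsWithin] with t ht
  have ht' : 0 < t := ht
  rw [slope_def_field, sub_zero, le_div_iff₀ ht']
  have := h' t ht'
  linarith

theorem le_deriv_left {f : ℝ → ℝ} {d m : ℝ} (h : HasDerivAt f d 0)
    (h' : ∀ t, t < 0 → f t ≤ f 0 + m * t) : m ≤ d := by
  have h1 : Tendsto (slope f 0) (𝓝[<] (0 : ℝ)) (𝓝 d) :=
    (hasDerivAt_iff_tendsto_slope.1 h).mono_left
      (nhdsWithin_mono _ (fun t (ht : t < 0) => ht.ne))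
  refine ge_of_tendsto h1 ?_
  filter_upwards [self_mem_nhdsWithin] with t ht
  have ht' : t < 0 := ht
  rw [slope_def_field, sub_zero, le_div_iff_of_neg ht']
  have := h' t ht'
  linarith

/-- at a point of differentiability one is either in the shell or in the inner region -/
theorem mem_SS_or_RR {η ρ c : ℝ} (hη : 0 < η) (hη' : η ≤ 1 / 8) (hρ' : ρ < 1)
    (hc : |c| ≤ 1 / 2) {j : Fin n} {x : Fin n → ℝ} (hx : ‖x‖ < 1)
    (h : DifferentiableAt ℝ (chi η ρ c j) x) (hxj : x j ≠ c) :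
    x ∈ SS η ρ c j ∨ x ∈ RR η ρ c j := by
  by_contra hcon
  push Not at hcon
  have heq : W η x = (1 - ρ) * |x j - c| := by
    apply le_antisymm
    · have h2 : ¬ ((1 - ρ) * |x j - c| < W η x) := hcon.2
      exact not_lt.1 h2
    · by_contra h1
      push Not at h1
      exact hcon.1 ⟨hx, h1⟩
  have hd := hasDerivAt_line h j
  have hr : 0 < 1 - ρ := by linarith
  have h0 : chi η ρ c j x j = c + ρ * (x j - c) := by
    rw [chi_apply_self, sq_of_abs_le hρ'.le heq.ge]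
  rcases lt_or_gt_of_ne hxj with h1 | h1
  · -- below `c`
    have hab : |x j - c| = -(x j - c) := abs_of_neg (by linarith)
    rw [hab] at heq
    have e1 : fderiv ℝ (chi η ρ c j) x (Pi.single j 1) j = ρ := by
      apply deriv_of_right hd
      have e4 : ∀ᶠ t in 𝓝[>] (0 : ℝ), 0 < t := self_mem_nhdsWithin
      have e5 : ∀ᶠ t in 𝓝[>] (0 : ℝ), t < c - x j :=
        eventually_nhdsWithin_of_eventually_nhds (gt_mem_nhds (by linarith))
      filter_upwards [e4, e5] with t t1 t2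
      have hW := W_dn hη hη' hc (j := j) (x := x) (s := t) (t := 0) (by linarith) t1.le
      rw [line_zero] at hW
      have h8 : (1 - ρ) * |(x + t • (Pi.single j (1 : ℝ) : Fin n → ℝ)) j - c| ≤
          W η (x + t • (Pi.single j (1 : ℝ) : Fin n → ℝ)) := by
        rw [line_apply]
        refine le_trans ?_ hW
        rw [heq, abs_of_neg (by linarith)]
        exact mul_le_mul_of_nonneg_left (by linarith) hr.le
      rw [line_zero, h0, chi_apply_self, sq_of_abs_le hρ'.le h8, line_apply]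
      ring
    have e2 : 1 ≤ fderiv ℝ (chi η ρ c j) x (Pi.single j 1) j := by
      apply le_deriv_left hd
      intro t ht
      have hW := W_dn hη hη' hc (j := j) (x := x) (s := 0) (t := t) (by linarith) ht.le
      rw [line_zero] at hW
      have h9 : chi η ρ c j (x + t • (Pi.single j (1 : ℝ) : Fin n → ℝ)) j =
          x j + t + W η (x + t • (Pi.single j (1 : ℝ) : Fin n → ℝ)) := by
        rw [chi_apply_self, line_apply, sq_of_le_neg hρ'.le (W_nonneg _ _) (by linarith)]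
        · ring
        · refine hW.trans ?_
          rw [heq]
          exact mul_le_mul_of_nonneg_left (by linarith) hr.le
      have h10 : chi η ρ c j x j = x j + W η x := by
        rw [chi_apply_self, sq_of_le_neg hρ'.le (W_nonneg _ _) (by linarith)]
        · ring
        · exact heq.le
      rw [line_zero, h9, h10]
      linarith
    linarith
  · -- above `c`
    have hab : |x j - c| = x j - c := abs_of_pos (by linarith)
    rw [hab] at heq
    have e1 : fderiv ℝ (chi η ρ c j) x (Pi.single j 1) j = ρ := by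
      apply deriv_of_left hd
      have e4 : ∀ᶠ t in 𝓝[<] (0 : ℝ), t < 0 := self_mem_nhdsWithin
      have e5 : ∀ᶠ t in 𝓝[<] (0 : ℝ), c - x j < t :=
        eventually_nhdsWithin_of_eventually_nhds (lt_mem_nhds (by linarith))
      filter_upwards [e4, e5] with t t1 t2
      have hW := W_up hη hη' hc (j := j) (x := x) (s := t) (t := 0) (by linarith) t1.le
      rw [line_zero] at hW
      have h8 : (1 - ρ) * |(x + t • (Pi.single j (1 : ℝ) : Fin n → ℝ)) j - c| ≤
          W η (x + t • (Pi.single j (1 : ℝ) : Fin n → ℝ)) := by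
        rw [line_apply]
        refine le_trans ?_ hW
        rw [heq, abs_of_pos (by linarith)]
        exact mul_le_mul_of_nonneg_left (by linarith) hr.le
      rw [line_zero, h0, chi_apply_self, sq_of_abs_le hρ'.le h8, line_apply]
      ring
    have e2 : 1 ≤ fderiv ℝ (chi η ρ c j) x (Pi.single j 1) j := by
      apply le_deriv_right hd
      intro t ht
      have hW := W_up hη hη' hc (j := j) (x := x) (s := 0) (t := t) (by linarith) ht.le
      rw [line_zero] at hW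
      have h9 : chi η ρ c j (x + t • (Pi.single j (1 : ℝ) : Fin n → ℝ)) j =
          x j + t - W η (x + t • (Pi.single j (1 : ℝ) : Fin n → ℝ)) := by
        rw [chi_apply_self, line_apply, sq_of_le_pos hρ'.le (W_nonneg _ _) (by linarith)]
        · ring
        · refine hW.trans ?_
          rw [heq]
          exact mul_le_mul_of_nonneg_left (by linarith) hr.le
      have h10 : chi η ρ c j x j = x j - W η x := by
        rw [chi_apply_self, sq_of_le_pos hρ'.le (W_nonneg _ _) (by linarith)]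
        · ring
        · exact heq.le
      rw [line_zero, h9, h10]
      linarith
    linarith

end

end Crest.Agent.R096.Sq_477
end

-- ▼ part R096/Sq7_477
section

/-!
# Row 96, P4-SQUEEZE (helper477), part 7: chain rule a.e.
-/

set_option autoImplicit false
set_option linter.unusedSectionVars false

open Set Function MeasureTheory Filter Topology Metric
open scoped ENNReal

namespace Crest.Agent.R096.Sq_477

open Crest.Agent.R096.Pl
open Crest.Agent.R096.Str_696 (LocPL)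

noncomputable section

variable {n : ℕ}

variable {F : Type*} [NormedAddCommGroup F] [NormedSpace ℝ F] [FiniteDimensional ℝ F]

/-- partial derivatives -/
def Dp (g : (Fin n → ℝ) → F) (i : Fin n) (x : Fin n → ℝ) : F := fderiv ℝ g x (Pi.single i 1)

theorem measurable_Dp (g : (Fin n → ℝ) → F) (i : Fin n) (a : F) (p : ℝ) :
    Measurable fun x => ‖Dp g i x - a‖ₑ ^ p := by
  haveI : CompleteSpace F := FiniteDimensional.complete ℝ F
  have h1 : Measurable (fderiv ℝ g) := measurable_fderiv ℝ g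
  have h2 : Continuous fun L : (Fin n → ℝ) →L[ℝ] F => ‖L (Pi.single i 1) - a‖ₑ := by fun_prop
  exact (h2.measurable.comp h1).pow_const p

/-- almost everywhere chain rule -/
theorem ae_chain {g : (Fin n → ℝ) → F} (hg : LocPL g (ball (0 : Fin n → ℝ) 1)) {η ρ c : ℝ}
    (hη : 0 < η) (hη' : η ≤ 1 / 8) (hρ : 0 < ρ) (hρ' : ρ ≤ 1) (hc : |c| ≤ 1 / 2) (j : Fin n) :
    ∀ᵐ x : Fin n → ℝ, ‖x‖ < 1 → DifferentiableAt ℝ (chi η ρ c j) x ∧
      DifferentiableAt ℝ g (chi η ρ c j x) ∧ x j ≠ c ∧ ‖x‖ ≠ 1 - η := by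
  have h1 := ae_differentiableAt_of_plMap (μ := (volume : Measure (Fin n → ℝ)))
    (plMap_chi (n := n) η ρ c j)
  have h2 : ∀ᵐ x : Fin n → ℝ, x ∉ sphere (0 : Fin n → ℝ) (1 - η) := by
    rw [← measure_eq_zero_iff_ae_notMem]
    exact Measure.addHaar_sphere_of_ne_zero volume 0 (by linarith : (1 - η) ≠ 0)
  have h3 : ∀ᵐ x : Fin n → ℝ, x j ≠ c := by
    have h := Measure.pi_hyperplane (fun _ : Fin n => (volume : Measure ℝ)) j c
    rw [← volume_pi] at h
    rw [ae_iff]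
    simpa using h
  have h4 := ae_differentiableAt_of_locPL (μ := (volume : Measure (Fin n → ℝ))) hg
  obtain ⟨H, hH, hHc⟩ := exists_chi hη hη' hρ hρ' hc j
  have h5 : ∀ᵐ x : Fin n → ℝ, chi η ρ c j x ∈ ball (0 : Fin n → ℝ) 1 →
      DifferentiableAt ℝ g (chi η ρ c j x) := by
    rw [ae_iff] at h4 ⊢
    refine measure_mono_null ?_ (null_image_of_plMap hH.2 h4)
    intro x hx
    refine ⟨chi η ρ c j x, hx, ?_⟩
    rw [← hHc]; exact H.symm_apply_apply x
  filter_upwards [h1, h2, h3, h5] with x x1 x2 x3 x4 x5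
  exact ⟨x1, x4 (mem_ball_zero_iff.2 (chi_mem_ball hη hη' hρ hρ' hc j x5)), x3,
    fun h => x2 (mem_sphere_zero_iff_norm.2 h)⟩

theorem Dp_comp {g : (Fin n → ℝ) → F} {η ρ c : ℝ} {j : Fin n} {x : Fin n → ℝ}
    (h1 : DifferentiableAt ℝ (chi η ρ c j) x) (h2 : DifferentiableAt ℝ g (chi η ρ c j x))
    {i : Fin n} (hi : i ≠ j) :
    Dp (fun y => g (chi η ρ c j y)) i x = Dp g i (chi η ρ c j x) +
      (fderiv ℝ (chi η ρ c j) x (Pi.single i 1) j) • Dp g j (chi η ρ c j x) := by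
  have h3 := (h2.hasFDerivAt.comp x h1.hasFDerivAt).fderiv
  unfold Dp
  have h4 : (fun y => g (chi η ρ c j y)) = g ∘ chi η ρ c j := rfl
  rw [h4, h3]
  simp only [ContinuousLinearMap.comp_apply]
  have h5 : fderiv ℝ (chi η ρ c j) x (Pi.single i 1) = Pi.single i 1 +
      (fderiv ℝ (chi η ρ c j) x (Pi.single i 1) j) • (Pi.single j (1 : ℝ) : Fin n → ℝ) := by
    ext k
    by_cases hk : k = j
    · subst hk; simp [Pi.single_apply, hi.symm]
    · rw [fderiv_chi_ne h1 _ hk]; simp [hk]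
  nth_rewrite 1 [h5]
  rw [map_add, map_smul]

theorem Dp_comp_self {g : (Fin n → ℝ) → F} {η ρ c : ℝ} {j : Fin n} {x : Fin n → ℝ}
    (h1 : DifferentiableAt ℝ (chi η ρ c j) x) (h2 : DifferentiableAt ℝ g (chi η ρ c j x)) :
    Dp (fun y => g (chi η ρ c j y)) j x =
      (fderiv ℝ (chi η ρ c j) x (Pi.single j 1) j) • Dp g j (chi η ρ c j x) := by
  have h3 := (h2.hasFDerivAt.comp x h1.hasFDerivAt).fderiv
  unfold Dp
  have h4 : (fun y => g (chi η ρ c j y)) = g ∘ chi η ρ c j := rfl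
  rw [h4, h3]
  simp only [ContinuousLinearMap.comp_apply]
  have h5 : fderiv ℝ (chi η ρ c j) x (Pi.single j 1) =
      (fderiv ℝ (chi η ρ c j) x (Pi.single j 1) j) • (Pi.single j (1 : ℝ) : Fin n → ℝ) := by
    ext k
    by_cases hk : k = j
    · subst hk; simp
    · rw [fderiv_chi_ne h1 _ hk]; simp [hk]
  nth_rewrite 1 [h5]
  rw [map_smul]

end

end Crest.Agent.R096.Sq_477
end

-- ▼ part R096/Sq8_477
section

/-!
# Row 96, P4-SQUEEZE (helper477), part 8: the derivative of `g ∘ lin ρ` as `ρ → 0`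
-/

set_option autoImplicit false
set_option linter.unusedSectionVars false

open Set Function MeasureTheory Filter Topology Metric
open scoped ENNReal

namespace Crest.Agent.R096.Sq_477

open Crest.Agent.R096.Pl
open Crest.Agent.R096.Str_696 (LocPL)

noncomputable section

variable {n : ℕ}

variable {F : Type*} [NormedAddCommGroup F] [NormedSpace ℝ F] [FiniteDimensional ℝ F]

/-- the trace set depends only on the sign of `σ` -/
theorem Tr_sign {σ c : ℝ} (hσ : σ ≠ 0) (j : Fin n) (C : Set (Fin n → ℝ)) :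
    Tr σ c j C = Tr 1 c j C ∨ Tr σ c j C = Tr (-1) c j C := by
  unfold Tr
  rcases lt_or_gt_of_ne hσ with h | h
  · right
    have : {x : Fin n → ℝ | 0 < σ * (x j - c)} = {x | 0 < -1 * (x j - c)} := by
      ext x
      simp only [mem_ofPred_eq]
      constructor
      · intro hx
        by_contra h1
        have h2 : 0 ≤ x j - c := by linarith
        nlinarith [mul_nonneg (neg_nonneg.2 h.le) h2]
      · intro hx
        have h2 : 0 < -(x j - c) := by linarith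
        have h3 := mul_pos (neg_pos.2 h) h2
        linarith [h3]
    rw [this]
  · left
    have : {x : Fin n → ℝ | 0 < σ * (x j - c)} = {x | 0 < 1 * (x j - c)} := by
      ext x
      simp only [mem_ofPred_eq, one_mul]
      exact mul_pos_iff_of_pos_left h
    rw [this]

/-- finitely many closed convex pieces on the cube `‖x‖ ≤ 1 - η` -/
theorem exists_cover {g : (Fin n → ℝ) → F} (hg : LocPL g (ball (0 : Fin n → ℝ) 1)) {η : ℝ}
    (hη : 0 < η) : ∃ 𝒞 : Set (Set (Fin n → ℝ)), 𝒞.Finite ∧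
      (∀ C ∈ 𝒞, Convex ℝ C ∧ IsClosed C ∧ ∃ a : (Fin n → ℝ) →ᵃ[ℝ] F, EqOn g a C) ∧
      ⋃₀ 𝒞 = closedBall (0 : Fin n → ℝ) (1 - η) := by
  have h1 : Cx_609.PLOn (closedBall (0 : Fin n → ℝ) (1 - η)) g :=
    plOn_of_locPL hg (isCompact_closedBall _ _) (closedBall_subset_ball (by linarith))
  exact h1.closed_pieces (convex_closedBall _ _).finConv isClosed_closedBall

/-- near almost every point the map is affine, with finitely many affine maps -/
theorem exists_bound {g : (Fin n → ℝ) → F} (hg : LocPL g (ball (0 : Fin n → ℝ) 1)) {η : ℝ}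
    (hη : 0 < η) : ∃ M : ℝ, 0 ≤ M ∧ ∀ᵐ x : Fin n → ℝ, ‖x‖ < 1 - η → ∀ i, ‖Dp g i x‖ ≤ M := by
  obtain ⟨𝒞, hfin, hC, hcov⟩ := exists_cover hg hη
  choose! hc1 hc2 a ha using hC
  have hb : BddAbove ((fun C => ∑ i, ‖(a C).linear (Pi.single i 1)‖) '' 𝒞) :=
    (hfin.image _).bddAbove
  obtain ⟨M, hM⟩ := hb
  refine ⟨max M 0, le_max_right _ _, ?_⟩
  have h3 : ∀ᵐ x : Fin n → ℝ, ∀ C ∈ 𝒞, x ∉ frontier C := by
    rw [ae_ball_iff hfin.countable]
    intro C hC
    exact measure_eq_zero_iff_ae_notMem.1 ((hc1 C hC).addHaar_frontier volume)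
  filter_upwards [h3] with x hx hxn i
  have h4 : x ∈ ⋃₀ 𝒞 := by rw [hcov]; exact mem_closedBall_zero_iff.2 hxn.le
  obtain ⟨C, hC𝒞, hxC⟩ := h4
  have h5 : x ∈ interior C := by
    by_contra h6
    exact hx C hC𝒞 ⟨subset_closure hxC, h6⟩
  have h6 : g =ᶠ[𝓝 x] a C := by
    filter_upwards [mem_interior_iff_mem_nhds.1 h5] with y hy using ha C hC𝒞 hy
  have h7 : Dp g i x = (a C).linear (Pi.single i 1) := by
    unfold Dp
    rw [h6.fderiv_eq, (hasFDerivAt_affine (a C) x).fderiv]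
    rfl
  rw [h7]
  refine le_trans ?_ ((hM (mem_image_of_mem _ hC𝒞)).trans (le_max_left _ _))
  exact Finset.single_le_sum (f := fun i => ‖(a C).linear (Pi.single i 1)‖)
    (fun _ _ => norm_nonneg _) (Finset.mem_univ i)

theorem Dp_eq_of_eventuallyEq {g : (Fin n → ℝ) → F} {a : (Fin n → ℝ) →ᵃ[ℝ] F} {x : Fin n → ℝ}
    (h : g =ᶠ[𝓝 x] a) (i : Fin n) : Dp g i x = a.linear (Pi.single i 1) := by
  unfold Dp
  rw [h.fderiv_eq, (hasFDerivAt_affine a x).fderiv]
  rfl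

theorem Dp_prj_of_eventuallyEq {g : (Fin n → ℝ) → F} {a : (Fin n → ℝ) →ᵃ[ℝ] F} {c : ℝ}
    {j : Fin n} {x : Fin n → ℝ}
    (h : (fun y => g (prj c j y)) =ᶠ[𝓝 x] fun y => a (prj c j y)) {i : Fin n} (hi : i ≠ j) :
    Dp (fun y => g (prj c j y)) i x = a.linear (Pi.single i 1) := by
  unfold Dp
  rw [h.fderiv_eq]
  have h1 : (fun y => a (prj c j y)) = a ∘ prj c j := rfl
  rw [h1, ((hasFDerivAt_affine a _).comp x (hasFDerivAt_prj c j x)).fderiv]
  simp [hi.symm]

/-- a.e. convergence of the derivative to the one of the slice -/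
theorem slice_ae {g : (Fin n → ℝ) → F} (hg : LocPL g (ball (0 : Fin n → ℝ) 1)) {η c : ℝ}
    (hη : 0 < η) (hη' : η ≤ 1 / 8) (hc : |c| ≤ 1 / 2) (j : Fin n) :
    ∀ᵐ x : Fin n → ℝ, ‖x‖ < 1 - η → ∀ i, i ≠ j →
      ∀ᶠ ρ in 𝓝[>] (0 : ℝ), Dp g i (lin ρ c j x) = Dp (fun y => g (prj c j y)) i x := by
  obtain ⟨𝒞, hfin, hC, hcov⟩ := exists_cover hg hη
  have h1 : ∀ σ : ℝ, ∀ᵐ x : Fin n → ℝ, ∀ C ∈ 𝒞, x ∉ frontier (Tr σ c j C) := by
    intro σ
    rw [ae_ball_iff hfin.countable]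
    intro C hC'
    exact measure_eq_zero_iff_ae_notMem.1 ((convex_Tr σ c j (hC C hC').1).addHaar_frontier volume)
  have h3 : ∀ᵐ x : Fin n → ℝ, x j ≠ c := by
    have h := Measure.pi_hyperplane (fun _ : Fin n => (volume : Measure ℝ)) j c
    rw [← volume_pi] at h
    rw [ae_iff]
    simpa using h
  filter_upwards [h1 1, h1 (-1), h3] with x x1 x2 x3 hx i hi
  obtain ⟨a, e1, e2⟩ := slice_key hc hη' j hfin hC (hcov.symm.subset) hx x3 (by
    intro C hC'
    rcases Tr_sign (sub_ne_zero.2 x3) j C with h | h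
    · rw [h]; exact x1 C hC'
    · rw [h]; exact x2 C hC')
  filter_upwards [e1] with ρ hρ
  rw [Dp_eq_of_eventuallyEq hρ, Dp_prj_of_eventuallyEq e2 hi]

/-- the bound along `lin ρ` -/
theorem bound_lin {g : (Fin n → ℝ) → F} {η c M : ℝ}
    (hη' : η ≤ 1 / 8) (hc : |c| ≤ 1 / 2)
    (hM : ∀ᵐ x : Fin n → ℝ, ‖x‖ < 1 - η → ∀ i, ‖Dp g i x‖ ≤ M) {ρ : ℝ} (hρ : 0 < ρ)
    (hρ' : ρ ≤ 1) (j : Fin n) :
    ∀ᵐ x : Fin n → ℝ, ‖x‖ < 1 - η → ∀ i, ‖Dp g i (lin ρ c j x)‖ ≤ M := by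
  rw [ae_iff] at hM ⊢
  refine measure_mono_null ?_ (null_image_of_plMap (plMap_lin (n := n) ρ⁻¹ c j) hM)
  intro x hx
  simp only [mem_ofPred_eq, not_forall] at hx
  obtain ⟨hx1, i, hx2⟩ := hx
  refine ⟨lin ρ c j x, ?_, lin_lin (inv_mul_cancel₀ hρ.ne') c j x⟩
  simp only [mem_ofPred_eq, not_forall]
  exact ⟨norm_lin_lt hρ hρ' hc hη' j hx1, i, hx2⟩

theorem measurable_Dp_lin (g : (Fin n → ℝ) → F) (i : Fin n) (a : F) (p ρ c : ℝ) (j : Fin n) :
    Measurable fun x => ‖Dp g i (lin ρ c j x) - a‖ₑ ^ p :=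
  (measurable_Dp g i a p).comp (plMap_lin ρ c j).1.measurable

/-- the `L^p` limit onto the slice -/
theorem slice_lim {g : (Fin n → ℝ) → F} (hg : LocPL g (ball (0 : Fin n → ℝ) 1)) {η c : ℝ}
    (hη : 0 < η) (hη' : η ≤ 1 / 8) (hc : |c| ≤ 1 / 2) (j : Fin n) {i : Fin n} (hi : i ≠ j)
    (a : F) {p : ℝ} (hp : 0 ≤ p) {ε : ℝ≥0∞} (hε : 0 < ε) :
    ∀ᶠ ρ in 𝓝[>] (0 : ℝ), ∫⁻ x in ball (0 : Fin n → ℝ) (1 - η),
      (‖Dp g i (lin ρ c j x) - a‖ₑ ^ p - ‖Dp (fun y => g (prj c j y)) i x - a‖ₑ ^ p) ≤ ε := by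
  obtain ⟨M, hM0, hM⟩ := exists_bound hg hη
  have hlim : Tendsto (fun ρ : ℝ => ∫⁻ x in ball (0 : Fin n → ℝ) (1 - η),
      (‖Dp g i (lin ρ c j x) - a‖ₑ ^ p - ‖Dp (fun y => g (prj c j y)) i x - a‖ₑ ^ p))
      (𝓝[>] 0) (𝓝 (∫⁻ x in ball (0 : Fin n → ℝ) (1 - η), 0)) := by
    apply tendsto_lintegral_filter_of_dominated_convergence
      (fun _ => (ENNReal.ofReal (M + ‖a‖)) ^ p)
    · exact Eventually.of_forall fun ρ =>
        (measurable_Dp_lin g i a p ρ c j).sub (measurable_Dp (fun y => g (prj c j y)) i a p)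
    · have h1 : ∀ᶠ ρ in 𝓝[>] (0 : ℝ), 0 < ρ := self_mem_nhdsWithin
      have h2 : ∀ᶠ ρ in 𝓝[>] (0 : ℝ), ρ < 1 :=
        eventually_nhdsWithin_of_eventually_nhds (gt_mem_nhds one_pos)
      filter_upwards [h1, h2] with ρ r1 r2
      rw [ae_restrict_iff' measurableSet_ball]
      filter_upwards [bound_lin hη' hc hM r1 r2.le j] with x hx hxb
      refine tsub_le_self.trans ?_
      refine ENNReal.rpow_le_rpow ?_ hp
      rw [← ofReal_norm]
      apply ENNReal.ofReal_le_ofReal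
      exact (norm_sub_le _ _).trans (add_le_add (hx (mem_ball_zero_iff.1 hxb) i) le_rfl)
    · rw [setLIntegral_const]
      exact ENNReal.mul_ne_top (ENNReal.rpow_ne_top_of_nonneg hp ENNReal.ofReal_ne_top)
        measure_ball_lt_top.ne
    · rw [ae_restrict_iff' measurableSet_ball]
      filter_upwards [slice_ae hg hη hη' hc j] with x hx hxb
      have h1 := hx (mem_ball_zero_iff.1 hxb) i hi
      refine tendsto_const_nhds.congr' ?_
      filter_upwards [h1] with ρ hρ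
      rw [hρ, tsub_self]
  rw [lintegral_zero] at hlim
  exact hlim.eventually (ge_mem_nhds hε)

end

end Crest.Agent.R096.Sq_477
end

-- ▼ part R096/Sq9_477
section

/-!
# Row 96, P4-SQUEEZE (helper477), part 9: the SLICE SQUEEZE
-/

set_option autoImplicit false
set_option linter.unusedSectionVars false

open Set Function MeasureTheory Filter Topology Metric
open scoped ENNReal

namespace Crest.Agent.R096.Sq_477

open Crest.Agent.R096.Pl
open Crest.Agent.R096.Str_696 (LocPL)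

noncomputable section

variable {n : ℕ}

variable {F : Type*} [NormedAddCommGroup F] [NormedSpace ℝ F] [FiniteDimensional ℝ F]

/-- `(u + v + w)^p ≤ 3^p (u^p + v^p + w^p)` -/
theorem rpow_add3_le {p : ℝ} (hp : 0 ≤ p) (u v w : ℝ≥0∞) :
    (u + v + w) ^ p ≤ 3 ^ p * (u ^ p + v ^ p + w ^ p) := by
  have h1 : u + v + w ≤ 3 * max (max u v) w := by
    have a1 : u ≤ max (max u v) w := (le_max_left _ _).trans (le_max_left _ _)
    have a2 : v ≤ max (max u v) w := (le_max_right _ _).trans (le_max_left _ _)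
    have a3 : w ≤ max (max u v) w := le_max_right _ _
    calc u + v + w ≤ max (max u v) w + max (max u v) w + max (max u v) w :=
          add_le_add (add_le_add a1 a2) a3
      _ = 3 * max (max u v) w := by ring
  refine (ENNReal.rpow_le_rpow h1 hp).trans ?_
  rw [ENNReal.mul_rpow_of_nonneg _ _ hp]
  gcongr
  rcases le_total (max u v) w with h | h
  · rw [max_eq_right h]; exact le_add_self
  · rw [max_eq_left h]
    rcases le_total u v with h' | h'
    · rw [max_eq_right h']; exact (le_add_self).trans le_self_add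
    · rw [max_eq_left h']; exact (le_self_add).trans le_self_add

/-- pointwise formula in the region `RR`, directions `i ≠ j` -/
theorem Dp_comp_RR {g : (Fin n → ℝ) → F} {η ρ c : ℝ} (hρ' : ρ ≤ 1) {j : Fin n} {x : Fin n → ℝ}
    (h1 : DifferentiableAt ℝ (chi η ρ c j) x) (h2 : DifferentiableAt ℝ g (chi η ρ c j x))
    (hx : x ∈ RR η ρ c j) {i : Fin n} (hi : i ≠ j) :
    Dp (fun y => g (chi η ρ c j y)) i x = Dp g i (lin ρ c j x) := by
  have h3 := Dp_comp h1 h2 hi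
  have h4 : fderiv ℝ (chi η ρ c j) x (Pi.single i 1) j = 0 := by
    rw [(chi_eventuallyEq_lin hρ' hx).fderiv_eq, (hasFDerivAt_lin ρ c j x).fderiv]
    simp [hi.symm]
  rw [h3, h4, zero_smul, add_zero, chi_eq_lin hρ' hx]

/-- pointwise formula in the region `RR`, direction `j` -/
theorem Dp_comp_RR_self {g : (Fin n → ℝ) → F} {η ρ c : ℝ} (hρ' : ρ ≤ 1) {j : Fin n}
    {x : Fin n → ℝ}
    (h1 : DifferentiableAt ℝ (chi η ρ c j) x) (h2 : DifferentiableAt ℝ g (chi η ρ c j x))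
    (hx : x ∈ RR η ρ c j) :
    Dp (fun y => g (chi η ρ c j y)) j x = ρ • Dp g j (lin ρ c j x) := by
  have h3 := Dp_comp_self h1 h2
  have h4 : fderiv ℝ (chi η ρ c j) x (Pi.single j 1) j = ρ := by
    rw [(chi_eventuallyEq_lin hρ' hx).fderiv_eq, (hasFDerivAt_lin ρ c j x).fderiv]
    simp
  rw [h3, h4, chi_eq_lin hρ' hx]

/-- pointwise bound in the shell, directions `i ≠ j` -/
theorem Dp_comp_SS {g : (Fin n → ℝ) → F} {η ρ c : ℝ} (hη : 0 < η) {j : Fin n} {x : Fin n → ℝ}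
    (h1 : DifferentiableAt ℝ (chi η ρ c j) x) (h2 : DifferentiableAt ℝ g (chi η ρ c j x))
    {i : Fin n} (hi : i ≠ j) (a : F) {p : ℝ} (hp : 0 ≤ p) :
    ‖Dp (fun y => g (chi η ρ c j y)) i x - a‖ₑ ^ p ≤
      3 ^ p * (‖Dp g i (chi η ρ c j x)‖ₑ ^ p +
        ENNReal.ofReal (2 / η) ^ p * ‖Dp g j (chi η ρ c j x)‖ₑ ^ p + ‖a‖ₑ ^ p) := by
  have h3 : ‖Dp (fun y => g (chi η ρ c j y)) i x - a‖ₑ ≤ ‖Dp g i (chi η ρ c j x)‖ₑ +
      ENNReal.ofReal (2 / η) * ‖Dp g j (chi η ρ c j x)‖ₑ + ‖a‖ₑ := by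
    rw [Dp_comp h1 h2 hi]
    refine (enorm_sub_le).trans ?_
    refine add_le_add ((enorm_add_le _ _).trans (add_le_add le_rfl ?_)) le_rfl
    rw [enorm_smul]
    gcongr
    rw [← ofReal_norm]
    exact ENNReal.ofReal_le_ofReal (abs_fderiv_chi_le hη h1 hi)
  refine (ENNReal.rpow_le_rpow h3 hp).trans ?_
  refine (rpow_add3_le hp _ _ _).trans ?_
  rw [ENNReal.mul_rpow_of_nonneg _ _ hp]

/-- pointwise bound in the shell, direction `j` -/
theorem Dp_comp_SS_self {g : (Fin n → ℝ) → F} {η ρ c : ℝ} (hη : 0 < η) (hη' : η ≤ 1 / 8)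
    (hρ : 0 < ρ) (hρ' : ρ ≤ 1) (hc : |c| ≤ 1 / 2) {j : Fin n} {x : Fin n → ℝ}
    (h1 : DifferentiableAt ℝ (chi η ρ c j) x) (h2 : DifferentiableAt ℝ g (chi η ρ c j x))
    (hx : x ∈ SS η ρ c j) (hne : ‖x‖ ≠ 1 - η) {p : ℝ} (hp : 0 ≤ p) :
    ‖Dp (fun y => g (chi η ρ c j y)) j x‖ₑ ^ p ≤
      ENNReal.ofReal (3 / η) ^ p * ‖Dp g j (chi η ρ c j x)‖ₑ ^ p := by
  obtain ⟨d1, d2, d3⟩ := abs_det_le hη hη' hρ hρ' hc hx h1 hne
  rw [Dp_comp_self h1 h2, enorm_smul, ENNReal.mul_rpow_of_nonneg _ _ hp]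
  gcongr
  rw [← ofReal_norm, Real.norm_eq_abs, d1, abs_of_nonneg (by linarith)]
  exact ENNReal.ofReal_le_ofReal d3

theorem measurable_chi (η ρ c : ℝ) (j : Fin n) : Measurable (chi (n := n) η ρ c j) :=
  (plMap_chi η ρ c j).1.measurable

theorem measurable_Dp_chi (g : (Fin n → ℝ) → F) (k : Fin n) (p η ρ c : ℝ) (j : Fin n) :
    Measurable fun x => ‖Dp g k (chi η ρ c j x)‖ₑ ^ p := by
  have h1 : Measurable fun x => ‖Dp g k x‖ₑ ^ p := by
    have := measurable_Dp g k 0 p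
    simpa only [sub_zero] using this
  exact h1.comp (measurable_chi (n := n) η ρ c j)

/-- the shell integral of a power of the norm of the derivative -/
theorem shell_pow {g : (Fin n → ℝ) → F} {η ρ c : ℝ} (hη : 0 < η) (hη' : η ≤ 1 / 8) (hρ : 0 < ρ)
    (hρ' : ρ ≤ 1) (hc : |c| ≤ 1 / 2) (j i : Fin n) (p : ℝ) :
    ∫⁻ x in SS η ρ c j, ‖Dp g i (chi η ρ c j x)‖ₑ ^ p ≤
      (∫⁻ x in Sh η, ‖Dp g i x‖ₑ ^ p) +
        ENNReal.ofReal (η / 2) * ∫⁻ x in ball 0 1, ‖Dp g i x‖ₑ ^ p :=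
  shell_lintegral hη hη' hρ hρ' hc j fun x => ‖Dp g i x‖ₑ ^ p

theorem Sh_subset (η : ℝ) : Sh (n := n) η ⊆ ball 0 1 := fun _ hx => mem_ball_zero_iff.2 hx.2

theorem SS_subset_Sh {η ρ c : ℝ} (hη : 0 < η) (hρ : 0 < ρ) (hc : |c| ≤ 1 / 2) (j : Fin n) :
    SS η ρ c j ⊆ Sh (n := n) η := fun _ hx => ⟨SS_norm hη hρ hc hx, hx.1⟩

theorem shell_pow' {g : (Fin n → ℝ) → F} {η ρ c : ℝ} (hη : 0 < η) (hη' : η ≤ 1 / 8) (hρ : 0 < ρ)
    (hρ' : ρ ≤ 1) (hc : |c| ≤ 1 / 2) (j i : Fin n) (p : ℝ) :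
    ∫⁻ x in SS η ρ c j, ‖Dp g i (chi η ρ c j x)‖ₑ ^ p ≤
      2 * ∫⁻ x in ball 0 1, ‖Dp g i x‖ₑ ^ p := by
  refine (shell_pow hη hη' hρ hρ' hc j i p).trans ?_
  rw [two_mul]
  refine add_le_add (lintegral_mono_set (Sh_subset η)) ?_
  refine mul_le_of_le_one_left zero_le ?_
  rw [ENNReal.ofReal_le_one]; linarith

/-- the total shell term -/
def shellTerm (g : (Fin n → ℝ) → F) (η p : ℝ) (j i : Fin n) (a : F) : ℝ≥0∞ :=
  3 ^ p * (((∫⁻ x in Sh η, ‖Dp g i x‖ₑ ^ p) +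
    ENNReal.ofReal (η / 2) * ∫⁻ x in ball 0 1, ‖Dp g i x‖ₑ ^ p) +
    ENNReal.ofReal (2 / η) ^ p * (2 * ∫⁻ x in ball 0 1, ‖Dp g j x‖ₑ ^ p) +
    ‖a‖ₑ ^ p * volume (Sh (n := n) η))

theorem shell_total {g : (Fin n → ℝ) → F} (hg : LocPL g (ball (0 : Fin n → ℝ) 1)) {η ρ c : ℝ}
    (hη : 0 < η) (hη' : η ≤ 1 / 8) (hρ : 0 < ρ)
    (hρ' : ρ ≤ 1) (hc : |c| ≤ 1 / 2) {j i : Fin n} (hi : i ≠ j) {p : ℝ} (hp : 0 ≤ p) (a : F) :
    ∫⁻ x in SS η ρ c j, ‖Dp (fun y => g (chi η ρ c j y)) i x - a‖ₑ ^ p ≤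
      shellTerm g η p j i a := by
  have h0 : ∫⁻ x in SS η ρ c j, ‖Dp (fun y => g (chi η ρ c j y)) i x - a‖ₑ ^ p ≤
      ∫⁻ x in SS η ρ c j, 3 ^ p * (‖Dp g i (chi η ρ c j x)‖ₑ ^ p +
        ENNReal.ofReal (2 / η) ^ p * ‖Dp g j (chi η ρ c j x)‖ₑ ^ p + ‖a‖ₑ ^ p) := by
    apply lintegral_mono_ae
    rw [ae_restrict_iff' (measurableSet_SS η ρ c j)]
    filter_upwards [ae_chain hg hη hη' hρ hρ' hc j] with x hx hxS
    obtain ⟨h1, h2, -, -⟩ := hx hxS.1
    exact Dp_comp_SS hη h1 h2 hi a hp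
  refine h0.trans ?_
  have m1 : ∀ k, Measurable fun x => ‖Dp g k (chi η ρ c j x)‖ₑ ^ p :=
    fun k => measurable_Dp_chi g k p η ρ c j
  have m2 : Measurable fun x => ENNReal.ofReal (2 / η) ^ p * ‖Dp g j (chi η ρ c j x)‖ₑ ^ p :=
    (m1 j).const_mul _
  have m3 : Measurable fun x => ‖Dp g i (chi η ρ c j x)‖ₑ ^ p +
      ENNReal.ofReal (2 / η) ^ p * ‖Dp g j (chi η ρ c j x)‖ₑ ^ p + ‖a‖ₑ ^ p :=
    ((m1 i).add m2).add_const _
  rw [lintegral_const_mul _ m3, shellTerm]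
  gcongr
  rw [lintegral_add_right _ measurable_const, lintegral_add_left (m1 i),
    lintegral_const_mul _ (m1 j), setLIntegral_const]
  gcongr
  · exact shell_pow hη hη' hρ hρ' hc j i p
  · exact shell_pow' hη hη' hρ hρ' hc j j p
  · exact SS_subset_Sh hη hρ hc j

theorem shell_total_self {g : (Fin n → ℝ) → F} (hg : LocPL g (ball (0 : Fin n → ℝ) 1)) {η ρ c : ℝ}
    (hη : 0 < η) (hη' : η ≤ 1 / 8) (hρ : 0 < ρ)
    (hρ' : ρ ≤ 1) (hc : |c| ≤ 1 / 2) (j : Fin n) {p : ℝ} (hp : 0 ≤ p) :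
    ∫⁻ x in SS η ρ c j, ‖Dp (fun y => g (chi η ρ c j y)) j x‖ₑ ^ p ≤
      ENNReal.ofReal (3 / η) ^ p * (2 * ∫⁻ x in ball 0 1, ‖Dp g j x‖ₑ ^ p) := by
  have h0 : ∫⁻ x in SS η ρ c j, ‖Dp (fun y => g (chi η ρ c j y)) j x‖ₑ ^ p ≤
      ∫⁻ x in SS η ρ c j, ENNReal.ofReal (3 / η) ^ p * ‖Dp g j (chi η ρ c j x)‖ₑ ^ p := by
    apply lintegral_mono_ae
    rw [ae_restrict_iff' (measurableSet_SS η ρ c j)]
    filter_upwards [ae_chain hg hη hη' hρ hρ' hc j] with x hx hxS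
    obtain ⟨h1, h2, -, h4⟩ := hx hxS.1
    exact Dp_comp_SS_self hη hη' hρ hρ' hc h1 h2 hxS h4 hp
  refine h0.trans ?_
  rw [lintegral_const_mul _ (measurable_Dp_chi g j p η ρ c j)]
  gcongr
  exact shell_pow' hη hη' hρ hρ' hc j j p

/-- a.e. point of the ball is in the shell or in the squeezed region -/
theorem ae_mem {g : (Fin n → ℝ) → F} (hg : LocPL g (ball (0 : Fin n → ℝ) 1)) {η ρ c : ℝ}
    (hη : 0 < η) (hη' : η ≤ 1 / 8) (hρ : 0 < ρ) (hρ' : ρ < 1) (hc : |c| ≤ 1 / 2) (j : Fin n) :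
    ∀ᵐ x : Fin n → ℝ, x ∈ ball (0 : Fin n → ℝ) 1 → x ∈ SS η ρ c j ∨ x ∈ RR η ρ c j := by
  filter_upwards [ae_chain hg hη hη' hρ hρ'.le hc j] with x hx hxb
  obtain ⟨h1, -, h3, -⟩ := hx (mem_ball_zero_iff.1 hxb)
  exact mem_SS_or_RR hη hη' hρ' hc (mem_ball_zero_iff.1 hxb) h1 h3

theorem split_ball {g : (Fin n → ℝ) → F} (hg : LocPL g (ball (0 : Fin n → ℝ) 1)) {η ρ c : ℝ}
    (hη : 0 < η) (hη' : η ≤ 1 / 8) (hρ : 0 < ρ) (hρ' : ρ < 1) (hc : |c| ≤ 1 / 2) (j : Fin n)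
    {B : Set (Fin n → ℝ)} (hB : B ⊆ ball 0 1) (H : (Fin n → ℝ) → ℝ≥0∞) :
    ∫⁻ x in B, H x ≤ (∫⁻ x in B ∩ RR η ρ c j, H x) + ∫⁻ x in SS η ρ c j, H x := by
  have h1 : ∫⁻ x in B, H x = ∫⁻ x in B ∩ (RR η ρ c j ∪ SS η ρ c j), H x := by
    apply setLIntegral_congr
    have h2 := ae_mem hg hη hη' hρ hρ' hc j
    filter_upwards [h2] with x hx
    apply propext
    constructor
    · intro hxB; exact ⟨hxB, (hx (hB hxB)).symm⟩
    · intro hxB; exact hxB.1
  rw [h1, inter_union_distrib_left]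
  refine (lintegral_union_le _ _ _).trans ?_
  exact add_le_add le_rfl (lintegral_mono_set inter_subset_right)

end

end Crest.Agent.R096.Sq_477
end

-- ▼ part R096/Sq10_477
section

/-!
# Row 96, P4-SQUEEZE (helper477), part 10: the SLICE SQUEEZE in `Fin n → ℝ`
-/

set_option autoImplicit false
set_option linter.unusedSectionVars false

open Set Function MeasureTheory Filter Topology Metric
open scoped ENNReal

namespace Crest.Agent.R096.Sq_477

open Crest.Agent.R096.Pl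
open Crest.Agent.R096.Str_696 (LocPL)

noncomputable section

variable {n : ℕ}

variable {F : Type*} [NormedAddCommGroup F] [NormedSpace ℝ F] [FiniteDimensional ℝ F]

theorem RR_subset_ball {η ρ c : ℝ} (hη : 0 < η) (hρ' : ρ ≤ 1) (j : Fin n) :
    RR η ρ c j ⊆ ball (0 : Fin n → ℝ) (1 - η) := fun _ hx =>
  mem_ball_zero_iff.2 (RR_norm hη hρ' hx)

/-- the squeezed region: directions different from `j` -/
theorem RR_total {g : (Fin n → ℝ) → F} (hg : LocPL g (ball (0 : Fin n → ℝ) 1)) {η ρ c : ℝ}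
    (hη : 0 < η) (hη' : η ≤ 1 / 8) (hρ : 0 < ρ) (hρ' : ρ ≤ 1) (hc : |c| ≤ 1 / 2)
    {j i : Fin n} (hi : i ≠ j) (a : F) (p : ℝ) {B : Set (Fin n → ℝ)} (hB : MeasurableSet B) :
    ∫⁻ x in B ∩ RR η ρ c j, ‖Dp (fun y => g (chi η ρ c j y)) i x - a‖ₑ ^ p ≤
      (∫⁻ x in B ∩ ball 0 (1 - η), ‖Dp (fun y => g (prj c j y)) i x - a‖ₑ ^ p) +
      ∫⁻ x in ball 0 (1 - η), (‖Dp g i (lin ρ c j x) - a‖ₑ ^ p -
        ‖Dp (fun y => g (prj c j y)) i x - a‖ₑ ^ p) := by
  have hRm := measurableSet_RR (n := n) η ρ c j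
  have hBR : B ∩ RR η ρ c j ⊆ B ∩ ball 0 (1 - η) :=
    inter_subset_inter_right _ (RR_subset_ball hη hρ' j)
  calc ∫⁻ x in B ∩ RR η ρ c j, ‖Dp (fun y => g (chi η ρ c j y)) i x - a‖ₑ ^ p
      = ∫⁻ x in B ∩ RR η ρ c j, ‖Dp g i (lin ρ c j x) - a‖ₑ ^ p := by
        apply lintegral_congr_ae
        rw [EventuallyEq, ae_restrict_iff' (hB.inter hRm)]
        filter_upwards [ae_chain hg hη hη' hρ hρ' hc j] with x hx hxB
        have hxn : ‖x‖ < 1 := (RR_norm hη hρ' hxB.2).trans (by linarith)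
        obtain ⟨h1, h2, -, -⟩ := hx hxn
        rw [Dp_comp_RR hρ' h1 h2 hxB.2 hi]
    _ ≤ ∫⁻ x in B ∩ RR η ρ c j, (‖Dp (fun y => g (prj c j y)) i x - a‖ₑ ^ p +
          (‖Dp g i (lin ρ c j x) - a‖ₑ ^ p - ‖Dp (fun y => g (prj c j y)) i x - a‖ₑ ^ p)) :=
        lintegral_mono fun x => le_add_tsub
    _ = (∫⁻ x in B ∩ RR η ρ c j, ‖Dp (fun y => g (prj c j y)) i x - a‖ₑ ^ p) +
          ∫⁻ x in B ∩ RR η ρ c j,
          (‖Dp g i (lin ρ c j x) - a‖ₑ ^ p - ‖Dp (fun y => g (prj c j y)) i x - a‖ₑ ^ p) :=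
        lintegral_add_left (measurable_Dp (fun y => g (prj c j y)) i a p) _
    _ ≤ _ := add_le_add (lintegral_mono_set hBR)
        (lintegral_mono_set (hBR.trans inter_subset_right))

/-- the squeezed region: direction `j` -/
theorem RR_total_self {g : (Fin n → ℝ) → F} (hg : LocPL g (ball (0 : Fin n → ℝ) 1)) {η c : ℝ}
    (hη : 0 < η) (hη' : η ≤ 1 / 8) (hc : |c| ≤ 1 / 2)
    (j : Fin n) {p : ℝ} (hp : 0 < p) {ε : ℝ≥0∞} (hε : 0 < ε) :
    ∀ᶠ ρ in 𝓝[>] (0 : ℝ),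
    ∫⁻ x in ball 0 1 ∩ RR η ρ c j, ‖Dp (fun y => g (chi η ρ c j y)) j x‖ₑ ^ p ≤ ε := by
  obtain ⟨M, hM0, hM⟩ := exists_bound hg hη
  have h1 : ∀ᶠ ρ in 𝓝[>] (0 : ℝ), 0 < ρ := self_mem_nhdsWithin
  have h2 : ∀ᶠ ρ in 𝓝[>] (0 : ℝ), ρ < 1 :=
    eventually_nhdsWithin_of_eventually_nhds (gt_mem_nhds one_pos)
  have hV : volume (ball (0 : Fin n → ℝ) (1 - η)) ≠ ∞ := measure_ball_lt_top.ne
  have h3 : Tendsto (fun ρ : ℝ => ENNReal.ofReal (ρ * M) ^ p *
      volume (ball (0 : Fin n → ℝ) (1 - η))) (𝓝[>] 0) (𝓝 0) := by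
    have h4 : Tendsto (fun ρ : ℝ => ENNReal.ofReal (ρ * M)) (𝓝[>] 0) (𝓝 0) := by
      have h5 : Tendsto (fun ρ : ℝ => ENNReal.ofReal (ρ * M)) (𝓝 0) (𝓝 (ENNReal.ofReal (0 * M))) :=
        ((ENNReal.continuous_ofReal.comp (continuous_id.mul continuous_const)).tendsto 0)
      rw [zero_mul, ENNReal.ofReal_zero] at h5
      exact h5.mono_left nhdsWithin_le_nhds
    have h6 := ENNReal.Tendsto.mul_const (b := volume (ball (0 : Fin n → ℝ) (1 - η)))
      (((ENNReal.continuous_rpow_const (y := p)).tendsto 0).comp h4) (Or.inr hV)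
    rw [ENNReal.zero_rpow_of_pos hp, zero_mul] at h6
    exact h6
  filter_upwards [h1, h2, h3.eventually (ge_mem_nhds hε)] with ρ r1 r2 r3
  refine le_trans ?_ r3
  have hRm := measurableSet_RR (n := n) η ρ c j
  calc ∫⁻ x in ball 0 1 ∩ RR η ρ c j, ‖Dp (fun y => g (chi η ρ c j y)) j x‖ₑ ^ p
      ≤ ∫⁻ _x in ball 0 1 ∩ RR η ρ c j, ENNReal.ofReal (ρ * M) ^ p := by
        apply lintegral_mono_ae
        rw [ae_restrict_iff' (measurableSet_ball.inter hRm)]
        filter_upwards [ae_chain hg hη hη' r1 r2.le hc j, bound_lin hη' hc hM r1 r2.le j]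
          with x hx hxM hxB
        obtain ⟨h1, h2, -, -⟩ := hx (mem_ball_zero_iff.1 hxB.1)
        rw [Dp_comp_RR_self r2.le h1 h2 hxB.2]
        refine ENNReal.rpow_le_rpow ?_ hp.le
        rw [← ofReal_norm, norm_smul, Real.norm_eq_abs, abs_of_pos r1]
        exact ENNReal.ofReal_le_ofReal
          (mul_le_mul_of_nonneg_left (hxM (RR_norm hη r2.le hxB.2) j) r1.le)
    _ = ENNReal.ofReal (ρ * M) ^ p * volume (ball 0 1 ∩ RR η ρ c j) := by
        rw [setLIntegral_const]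
    _ ≤ _ := by
        gcongr
        exact inter_subset_right.trans (RR_subset_ball hη r2.le j)

/-- **SLICE SQUEEZE**.  For `ρ → 0` the derivative of `g ∘ χ_ρ` in the directions `i ≠ j` is that
of `g` on the slice `x_j = c`, up to the shell, and the derivative in the direction `j` is
controlled by that of `g`. -/
theorem squeeze {g : (Fin n → ℝ) → F} (hg : LocPL g (ball (0 : Fin n → ℝ) 1)) {η c : ℝ}
    (hη : 0 < η) (hη' : η ≤ 1 / 8) (hc : |c| ≤ 1 / 2) (j : Fin n) {p : ℝ} (hp : 0 < p)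
    (a : Fin n → F) {ε : ℝ≥0∞} (hε : 0 < ε) :
    ∀ᶠ ρ in 𝓝[>] (0 : ℝ), 0 < ρ ∧ ρ < 1 ∧
      (∀ i, i ≠ j → ∀ B ⊆ ball (0 : Fin n → ℝ) 1, MeasurableSet B →
        ∫⁻ x in B, ‖Dp (fun y => g (chi η ρ c j y)) i x - a i‖ₑ ^ p ≤
          (∫⁻ x in B ∩ ball 0 (1 - η), ‖Dp (fun y => g (prj c j y)) i x - a i‖ₑ ^ p) +
          shellTerm g η p j i (a i) + ε) ∧
      (∫⁻ x in ball 0 1, ‖Dp (fun y => g (chi η ρ c j y)) j x‖ₑ ^ p ≤
          ENNReal.ofReal (3 / η) ^ p * (2 * ∫⁻ x in ball 0 1, ‖Dp g j x‖ₑ ^ p) + ε) := by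
  have h1 : ∀ᶠ ρ in 𝓝[>] (0 : ℝ), 0 < ρ := self_mem_nhdsWithin
  have h2 : ∀ᶠ ρ in 𝓝[>] (0 : ℝ), ρ < 1 :=
    eventually_nhdsWithin_of_eventually_nhds (gt_mem_nhds one_pos)
  have h3 : ∀ᶠ ρ in 𝓝[>] (0 : ℝ), ∀ i, i ≠ j → ∫⁻ x in ball (0 : Fin n → ℝ) (1 - η),
      (‖Dp g i (lin ρ c j x) - a i‖ₑ ^ p -
        ‖Dp (fun y => g (prj c j y)) i x - a i‖ₑ ^ p) ≤ ε := by
    rw [eventually_all]
    intro i
    by_cases hi : i = j
    · exact Eventually.of_forall fun _ h => absurd hi h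
    · filter_upwards [slice_lim hg hη hη' hc j hi (a i) hp.le hε] with ρ hρ _ using hρ
  filter_upwards [h1, h2, h3, RR_total_self hg hη hη' hc j hp hε] with ρ r1 r2 r3 r4
  refine ⟨r1, r2, ?_, ?_⟩
  · intro i hi B hB hBm
    refine (split_ball hg hη hη' r1 r2 hc j hB _).trans ?_
    refine (add_le_add (RR_total hg hη hη' r1 r2.le hc hi (a i) p hBm)
      (shell_total hg hη hη' r1 r2.le hc hi hp.le (a i))).trans ?_
    rw [add_assoc, add_assoc]
    refine add_le_add le_rfl ?_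
    rw [add_comm]
    exact add_le_add le_rfl (r3 i hi)
  · refine (split_ball hg hη hη' r1 r2 hc j subset_rfl _).trans ?_
    rw [add_comm]
    exact add_le_add (shell_total_self hg hη hη' r1 r2.le hc j hp.le) r4

end

end Crest.Agent.R096.Sq_477
end

-- ▼ part R096/Sq11_477
section

/-!
# Row 96, P4-SQUEEZE (helper477), part 11: the SLICE SQUEEZE in `R3`
-/

set_option autoImplicit false
set_option linter.unusedSectionVars false

open Set Function MeasureTheory Filter Topology Metric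
open scoped ENNReal Gradient
open Crest.AnalysisR.VecCalc3 Crest.AnalysisR.Sobolev

namespace Crest.Agent.R096.Sq_477

open Crest.Agent.R096.Pl
open Crest.Agent.R096.Str_696 (LocPL)
open Crest.Agent.R096.Sk_962 (Gr Q0 dg)

noncomputable section

/-- composition of a locally PL map with a PL map -/
theorem locPL_comp {E F G : Type*} [NormedAddCommGroup E] [NormedSpace ℝ E]
    [NormedAddCommGroup F] [NormedSpace ℝ F] [NormedAddCommGroup G] [NormedSpace ℝ G]
    {g : F → G} {Ω : Set F} (hg : LocPL g Ω) {H : E → F} (hH : PLMap H) {D : Set E}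
    (hD : MapsTo H D Ω) : LocPL (fun x => g (H x)) D := by
  classical
  intro x hx
  obtain ⟨r, hr, S, hc, hS⟩ := hg (H x) (hD hx)
  obtain ⟨hHc, A, hA, hsel⟩ := hH
  obtain ⟨r', hr', hb⟩ := Metric.mem_nhds_iff.1 (hHc.continuousAt.preimage_mem_nhds
    (ball_mem_nhds (H x) hr))
  refine ⟨r', hr', (hA.toFinset ×ˢ S).image (fun q => q.2.comp q.1), ?_, ?_⟩
  · exact hc.comp hHc.continuousOn hb
  · intro y hy
    obtain ⟨b, hbA, hby⟩ := hsel y
    obtain ⟨a, haS, hay⟩ := hS (H y) (hb hy)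
    refine ⟨a.comp b, ?_, ?_⟩
    · rw [Finset.mem_image]
      exact ⟨(b, a), Finset.mem_product.2 ⟨hA.mem_toFinset.2 hbA, haS⟩, rfl⟩
    · show g (H y) = a (b y)
      rw [hay, hby]

/-- the coordinates of `R3` -/
def e3 : R3 ≃L[ℝ] (Fin 3 → ℝ) := PiLp.continuousLinearEquiv 2 ℝ (fun _ : Fin 3 => ℝ)

theorem e3_apply (x : R3) (i : Fin 3) : e3 x i = x i := rfl

theorem e3_symm_apply (x : Fin 3 → ℝ) (i : Fin 3) : (e3.symm x) i = x i := rfl

theorem e3_symm_single (i : Fin 3) :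
    e3.symm (Pi.single i (1 : ℝ)) = EuclideanSpace.single i (1 : ℝ) := by
  ext k
  rw [e3_symm_apply]
  simp [Pi.single_apply]

/-- the `i`-th column of the derivative -/
def Dc (g : R3 → R3) (i : Fin 3) (x : R3) : R3 := fderiv ℝ g x (EuclideanSpace.single i (1 : ℝ))

theorem Dp_e3 (g : R3 → R3) (i : Fin 3) (x : R3) :
    Dp (fun y => g (e3.symm y)) i (e3 x) = Dc g i x := by
  unfold Dp Dc
  have h1 : (fun y => g (e3.symm y)) = g ∘ e3.symm := rfl
  rw [h1, ContinuousLinearEquiv.comp_right_fderiv]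
  show fderiv ℝ g (e3.symm (e3 x)) (e3.symm (Pi.single i 1)) = _
  rw [e3_symm_single, ContinuousLinearEquiv.symm_apply_apply]

theorem mem_ball_e3 {x : R3} {r : ℝ} (hr : 0 < r) :
    e3 x ∈ ball (0 : Fin 3 → ℝ) r ↔ ∀ i, |x i| < r := by
  rw [mem_ball_zero_iff, pi_norm_lt_iff hr]
  rfl

/-- the open cube of half side `r` -/
def Qr (r : ℝ) : Set R3 := {x | ∀ i, |x i| < r}

theorem Qr_eq {r : ℝ} (hr : 0 < r) : Qr r = e3 ⁻¹' ball (0 : Fin 3 → ℝ) r := by
  ext x; exact (mem_ball_e3 hr).symm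

theorem Qr_one : Qr 1 = Q0 := rfl

theorem lint_e3 (H : (Fin 3 → ℝ) → ℝ≥0∞) (S : Set (Fin 3 → ℝ)) :
    ∫⁻ x in e3 ⁻¹' S, H (e3 x) = ∫⁻ y in S, H y := by
  have h := PiLp.volume_preserving_ofLp (Fin 3)
  have h1 : MeasurableEmbedding (@WithLp.ofLp 2 (Fin 3 → ℝ)) :=
    (MeasurableEquiv.toLp 2 (Fin 3 → ℝ)).symm.measurableEmbedding
  exact h.setLIntegral_comp_preimage_emb h1 H S

/-- rows against columns -/
theorem row_le_col {g : R3 → R3} {x : R3} (hd : DifferentiableAt ℝ g x) (s : Fin 3 → ℝ)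
    (j : Fin 3) :
    ‖Gr g j x - dg s j‖ₑ ≤ ‖Dc g 0 x - dg s 0‖ₑ + ‖Dc g 1 x - dg s 1‖ₑ + ‖Dc g 2 x - dg s 2‖ₑ := by
  have h1 : DifferentiableAt ℝ (fun y => g y j) x := by
    have := (EuclideanSpace.proj (𝕜 := ℝ) (ι := Fin 3) j).differentiableAt (x := g x)
    exact this.comp x hd
  have h2 : ∀ w, fderiv ℝ (fun y => g y j) x w = fderiv ℝ g x w j := by
    intro w
    have h3 : HasFDerivAt (fun y => g y j)
        ((EuclideanSpace.proj (𝕜 := ℝ) (ι := Fin 3) j).comp (fderiv ℝ g x)) x :=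
      (EuclideanSpace.proj (𝕜 := ℝ) (ι := Fin 3) j).hasFDerivAt.comp x hd.hasFDerivAt
    rw [h3.fderiv]
    rfl
  have h4 : ∀ i, (Gr g j x) i = (Dc g i x) j := by
    intro i
    unfold Dc
    rw [← h2]
    unfold Gr gradient
    have h5 : inner ℝ ((InnerProductSpace.toDual ℝ R3).symm (fderiv ℝ (fun y => g y j) x))
      (EuclideanSpace.single i (1 : ℝ)) = fderiv ℝ (fun y => g y j) x
        (EuclideanSpace.single i (1 : ℝ)) := InnerProductSpace.toDual_symm_apply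
    rw [← h5, EuclideanSpace.inner_single_right]
    simp
  have h6 : ∀ i, |(Gr g j x - dg s j) i| ≤ ‖Dc g i x - dg s i‖ := by
    intro i
    have h7 : (Gr g j x - dg s j) i = (Dc g i x - dg s i) j := by
      show (Gr g j x) i - (dg s j) i = (Dc g i x) j - (dg s i) j
      rw [h4]
      congr 1
      unfold dg
      by_cases hij : i = j
      · subst hij; rfl
      · simp [hij, Ne.symm hij]
    rw [h7]
    exact PiLp.norm_apply_le (Dc g i x - dg s i) j
  have h8 : ‖Gr g j x - dg s j‖ ≤ ∑ i, |(Gr g j x - dg s j) i| := by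
    rw [EuclideanSpace.norm_eq]
    apply Real.sqrt_le_iff.2
    refine ⟨Finset.sum_nonneg fun _ _ => abs_nonneg _, ?_⟩
    simp only [Fin.sum_univ_three, Real.norm_eq_abs]
    have a0 := abs_nonneg ((Gr g j x - dg s j) 0)
    have a1 := abs_nonneg ((Gr g j x - dg s j) 1)
    have a2 := abs_nonneg ((Gr g j x - dg s j) 2)
    nlinarith [mul_nonneg a0 a1, mul_nonneg a0 a2, mul_nonneg a1 a2]
  have h9 : ‖Gr g j x - dg s j‖ ≤ ‖Dc g 0 x - dg s 0‖ + ‖Dc g 1 x - dg s 1‖ +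
      ‖Dc g 2 x - dg s 2‖ := by
    refine h8.trans ?_
    rw [Fin.sum_univ_three]
    exact add_le_add (add_le_add (h6 0) (h6 1)) (h6 2)
  rw [← ofReal_norm, ← ofReal_norm, ← ofReal_norm, ← ofReal_norm,
    ← ENNReal.ofReal_add (norm_nonneg _) (norm_nonneg _),
    ← ENNReal.ofReal_add (by positivity) (norm_nonneg _)]
  exact ENNReal.ofReal_le_ofReal h9

theorem rows_le_cols {g : R3 → R3} {x : R3} (hd : DifferentiableAt ℝ g x) (s : Fin 3 → ℝ)
    {p : ℝ} (hp : 0 ≤ p) :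
    ∑ j, ‖Gr g j x - dg s j‖ₑ ^ p ≤ 3 * 3 ^ p * ∑ i, ‖Dc g i x - dg s i‖ₑ ^ p := by
  have h1 : ∀ j, ‖Gr g j x - dg s j‖ₑ ^ p ≤ 3 ^ p * ∑ i, ‖Dc g i x - dg s i‖ₑ ^ p := by
    intro j
    refine (ENNReal.rpow_le_rpow (row_le_col hd s j) hp).trans ?_
    rw [Fin.sum_univ_three]
    exact rpow_add3_le hp _ _ _
  calc ∑ j, ‖Gr g j x - dg s j‖ₑ ^ p ≤ ∑ _j : Fin 3, 3 ^ p * ∑ i, ‖Dc g i x - dg s i‖ₑ ^ p :=
        Finset.sum_le_sum fun j _ => h1 j
    _ = 3 * 3 ^ p * ∑ i, ‖Dc g i x - dg s i‖ₑ ^ p := by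
        rw [Finset.sum_const, Finset.card_univ, Fintype.card_fin, nsmul_eq_mul]
        push_cast; ring

end

end Crest.Agent.R096.Sq_477
end

-- ▼ part R096/Sq12_477
section

/-!
# Row 96, P4-SQUEEZE (helper477), part 12: the SLICE SQUEEZE in `R3`, final form
-/

set_option autoImplicit false
set_option linter.unusedSectionVars false

open Set Function MeasureTheory Filter Topology Metric
open scoped ENNReal Gradient
open Crest.AnalysisR.VecCalc3 Crest.AnalysisR.Sobolev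

namespace Crest.Agent.R096.Sq_477

open Crest.Agent.R096.Pl
open Crest.Agent.R096.Str_696 (LocPL)
open Crest.Agent.R096.Sk_962 (Gr Q0 dg)

noncomputable section

/-- the projection onto the slice `x₃ = c` -/
def prj3 (c : ℝ) (x : R3) : R3 := e3.symm (prj c 2 (e3 x))

/-- the shell `1 - 2η < |x| < 1` (maximum norm) -/
def Sh3 (η : ℝ) : Set R3 := Q0 ∩ {x | ∃ i, 1 - 2 * η < |x i|}

theorem Sh3_eq {η : ℝ} (hη : η < 1 / 2) : Sh3 η = e3 ⁻¹' Sh η := by
  ext x
  constructor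
  · rintro ⟨h1, i, h2⟩
    refine ⟨lt_of_lt_of_le h2 ?_, ?_⟩
    · exact norm_le_pi_norm (e3 x) i
    · have : e3 x ∈ ball (0 : Fin 3 → ℝ) 1 := (mem_ball_e3 one_pos).2 h1
      exact mem_ball_zero_iff.1 this
  · rintro ⟨h1, h2⟩
    have h3 : e3 x ∈ ball (0 : Fin 3 → ℝ) 1 := mem_ball_zero_iff.2 h2
    refine ⟨(mem_ball_e3 one_pos).1 h3, ?_⟩
    obtain ⟨i, hi⟩ := exists_coord (x := e3 x) (by linarith)
    refine ⟨i, ?_⟩
    show 1 - 2 * η < |e3 x i|
    rw [hi]; exact h1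

/-- the shell term in `R3` -/
def shellTerm3 (g : R3 → R3) (η p : ℝ) (i : Fin 3) (s : Fin 3 → ℝ) : ℝ≥0∞ :=
  3 ^ p * (((∫⁻ x in Sh3 η, ‖Dc g i x‖ₑ ^ p) +
    ENNReal.ofReal (η / 2) * ∫⁻ x in Q0, ‖Dc g i x‖ₑ ^ p) +
    ENNReal.ofReal (2 / η) ^ p * (2 * ∫⁻ x in Q0, ‖Dc g 2 x‖ₑ ^ p) +
    ‖dg s i‖ₑ ^ p * volume (Sh3 η))

theorem vol_Sh3 {η : ℝ} (hη : η < 1 / 2) : volume (Sh3 η) = volume (Sh (n := 3) η) := by
  have h := lint_e3 (fun _ => 1) (Sh (n := 3) η)
  rw [← Sh3_eq hη] at h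
  simpa using h

theorem lint_Dc (g : R3 → R3) (i : Fin 3) (p : ℝ) (a : R3) (S : Set (Fin 3 → ℝ)) :
    ∫⁻ x in e3 ⁻¹' S, ‖Dc g i x - a‖ₑ ^ p =
      ∫⁻ y in S, ‖Dp (fun z => g (e3.symm z)) i y - a‖ₑ ^ p := by
  rw [← lint_e3]
  simp only [Dp_e3]

theorem lint_Dc' (g : R3 → R3) (i : Fin 3) (p : ℝ) (S : Set (Fin 3 → ℝ)) :
    ∫⁻ x in e3 ⁻¹' S, ‖Dc g i x‖ₑ ^ p =
      ∫⁻ y in S, ‖Dp (fun z => g (e3.symm z)) i y‖ₑ ^ p := by
  have := lint_Dc g i p 0 S
  simpa only [sub_zero] using this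

theorem Q0_eq : Q0 = e3 ⁻¹' ball (0 : Fin 3 → ℝ) 1 := by rw [← Qr_one, Qr_eq one_pos]

theorem shellTerm3_eq {g : R3 → R3} {η p : ℝ} (hη : η < 1 / 2) (i : Fin 3) (s : Fin 3 → ℝ) :
    shellTerm3 g η p i s = shellTerm (fun z => g (e3.symm z)) η p 2 i (dg s i) := by
  unfold shellTerm3 shellTerm
  rw [vol_Sh3 hη, Sh3_eq hη, Q0_eq, lint_Dc', lint_Dc', lint_Dc']

/-- `g ∘ χ` in `R3` -/
def sqz (g : R3 → R3) (η ρ c : ℝ) (x : R3) : R3 := g (e3.symm (chi η ρ c 2 (e3 x)))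

theorem Dc_sqz (g : R3 → R3) (η ρ c : ℝ) (i : Fin 3) (x : R3) :
    Dc (sqz g η ρ c) i x = Dp (fun y => g (e3.symm (chi η ρ c 2 y))) i (e3 x) := by
  rw [← Dp_e3]
  rfl

theorem plMap_e3 : PLMap (e3 : R3 → Fin 3 → ℝ) :=
  PLMap.of_affine (e3 : R3 →ₗ[ℝ] (Fin 3 → ℝ)).toAffineMap

theorem plMap_e3_symm : PLMap (e3.symm : (Fin 3 → ℝ) → R3) :=
  PLMap.of_affine (e3.symm : (Fin 3 → ℝ) →ₗ[ℝ] R3).toAffineMap

theorem locPL_e3 {g : R3 → R3} (hg : LocPL g Q0) :
    LocPL (fun z => g (e3.symm z)) (ball (0 : Fin 3 → ℝ) 1) := by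
  apply locPL_comp hg plMap_e3_symm
  intro x hx
  rw [Q0_eq, mem_preimage, ContinuousLinearEquiv.apply_symm_apply]
  exact hx

theorem sqz_mem {η ρ c : ℝ} (hη : 0 < η) (hη' : η ≤ 1 / 8) (hρ : 0 < ρ) (hρ' : ρ ≤ 1)
    (hc : |c| ≤ 1 / 2) {x : R3} (hx : x ∈ Q0) : e3.symm (chi η ρ c 2 (e3 x)) ∈ Q0 := by
  rw [Q0_eq] at hx ⊢
  rw [mem_preimage, ContinuousLinearEquiv.apply_symm_apply]
  exact mem_ball_zero_iff.2 (chi_mem_ball hη hη' hρ hρ' hc 2 (mem_ball_zero_iff.1 hx))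

theorem locPL_sqz {g : R3 → R3} (hg : LocPL g Q0) {η ρ c : ℝ} (hη : 0 < η) (hη' : η ≤ 1 / 8)
    (hρ : 0 < ρ) (hρ' : ρ ≤ 1) (hc : |c| ≤ 1 / 2) : LocPL (sqz g η ρ c) Q0 := by
  have h1 : PLMap (fun x : R3 => e3.symm (chi η ρ c 2 (e3 x))) :=
    plMap_e3_symm.comp ((plMap_chi η ρ c 2).comp plMap_e3)
  exact locPL_comp hg h1 fun x hx => sqz_mem hη hη' hρ hρ' hc hx

theorem homeo_sqz {g : R3 → R3} {V : Set R3} (hg : IsHomeomorphOn g Q0 V) {η ρ c : ℝ}
    (hη : 0 < η) (hη' : η ≤ 1 / 8) (hρ : 0 < ρ) (hρ' : ρ ≤ 1) (hc : |c| ≤ 1 / 2) :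
    IsHomeomorphOn (sqz g η ρ c) Q0 V := by
  obtain ⟨finv, h1, h2, h3, h4, h5, h6⟩ := hg
  obtain ⟨H, hH, hHc⟩ := exists_chi hη hη' hρ hρ' hc (2 : Fin 3)
  have hmem : ∀ y ∈ Q0, e3.symm (H.symm (e3 y)) ∈ Q0 := by
    intro y hy
    by_contra hcon
    have h7 : 1 ≤ ‖H.symm (e3 y)‖ := by
      by_contra h8
      push Not at h8
      apply hcon
      rw [Q0_eq, mem_preimage, ContinuousLinearEquiv.apply_symm_apply]
      exact mem_ball_zero_iff.2 h8
    have h9 : H (H.symm (e3 y)) = H.symm (e3 y) := by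
      have := chi_off (ρ := ρ) (c := c) hη (2 : Fin 3) (x := H.symm (e3 y)) (by linarith)
      rw [hHc]; exact this
    rw [H.apply_symm_apply] at h9
    rw [← h9, ContinuousLinearEquiv.symm_apply_apply] at hcon
    exact hcon hy
  have hcont1 : Continuous fun x : R3 => e3.symm (chi η ρ c 2 (e3 x)) :=
    e3.symm.continuous.comp ((plMap_chi η ρ c 2).1.comp e3.continuous)
  have hcont2 : Continuous fun x : R3 => e3.symm (H.symm (e3 x)) :=
    e3.symm.continuous.comp (H.symm.continuous.comp e3.continuous)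
  refine ⟨fun y => e3.symm (H.symm (e3 (finv y))), ?_, ?_, ?_, ?_, ?_, ?_⟩
  · intro x hx
    exact h1 (sqz_mem hη hη' hρ hρ' hc hx)
  · intro y hy
    exact hmem _ (h2 hy)
  · intro x hx
    show e3.symm (H.symm (e3 (finv (g (e3.symm (chi η ρ c 2 (e3 x))))))) = x
    rw [h3 _ (sqz_mem hη hη' hρ hρ' hc hx), ContinuousLinearEquiv.apply_symm_apply, ← hHc,
      H.symm_apply_apply, ContinuousLinearEquiv.symm_apply_apply]
  · intro y hy
    show g (e3.symm (chi η ρ c 2 (e3 (e3.symm (H.symm (e3 (finv y))))))) = y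
    rw [ContinuousLinearEquiv.apply_symm_apply, ← hHc, H.apply_symm_apply,
      ContinuousLinearEquiv.symm_apply_apply, h4 y hy]
  · exact h5.comp hcont1.continuousOn fun x hx => sqz_mem hη hη' hρ hρ' hc hx
  · exact hcont2.comp_continuousOn h6

theorem sqz_off {g : R3 → R3} {η ρ c : ℝ} (hη : 0 < η) {x : R3} (hx : ∃ i, 1 - η ≤ |x i|) :
    sqz g η ρ c x = g x := by
  obtain ⟨i, hi⟩ := hx
  unfold sqz
  rw [chi_off hη (2 : Fin 3) (hi.trans (norm_le_pi_norm (e3 x) i)),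
    ContinuousLinearEquiv.symm_apply_apply]

theorem prj_e3 (g : R3 → R3) (c : ℝ) :
    (fun y => g (prj3 c (e3.symm y))) = fun y => g (e3.symm (prj c 2 y)) := by
  ext1 y
  unfold prj3
  rw [ContinuousLinearEquiv.apply_symm_apply]

/-- **THE SLICE SQUEEZE IN `R3`.**  `g` a locally PL homeomorphism of the open cube `Q0`; the
squeezed map `g ∘ χ_ρ` is a locally PL homeomorphism of `Q0` onto the same image, equal to `g`
where `max |x i| ≥ 1 - η`, and its distance to `diag (s₁, s₂, 0)` is controlled by that of the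
restriction of `g` to the slice `x₃ = c` (for `max |x i| < 1 - η`), and by the shell terms. -/
theorem squeeze_R3 {g : R3 → R3} {V : Set R3} (hh : IsHomeomorphOn g Q0 V) (hg : LocPL g Q0)
    {η c : ℝ} (hη : 0 < η) (hη' : η ≤ 1 / 8) (hc : |c| ≤ 1 / 2) {p : ℝ} (hp : 0 < p)
    {s : Fin 3 → ℝ} (hs : s 2 = 0) {ε : ℝ≥0∞} (hε : 0 < ε) :
    ∃ g' : R3 → R3, IsHomeomorphOn g' Q0 V ∧ LocPL g' Q0 ∧
      (∀ x, (∃ i, 1 - η ≤ |x i|) → g' x = g x) ∧
      ∫⁻ x in Q0, ∑ j, ‖Gr g' j x - dg s j‖ₑ ^ p ≤ 3 * 3 ^ p *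
        (((∫⁻ x in Qr (1 - η), ‖Dc (fun y => g (prj3 c y)) 0 x - dg s 0‖ₑ ^ p) +
            shellTerm3 g η p 0 s) +
         ((∫⁻ x in Qr (1 - η), ‖Dc (fun y => g (prj3 c y)) 1 x - dg s 1‖ₑ ^ p) +
            shellTerm3 g η p 1 s) +
         ENNReal.ofReal (3 / η) ^ p * (2 * ∫⁻ x in Q0, ‖Dc g 2 x‖ₑ ^ p)) + ε := by
  set C : ℝ≥0∞ := 3 * 3 ^ p with hC
  have hCtop : C ≠ ⊤ := ENNReal.mul_ne_top (by norm_num)
    (ENNReal.rpow_ne_top_of_nonneg hp.le (by norm_num))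
  have hC0 : C ≠ 0 := by
    have : (3 : ℝ≥0∞) ^ p ≠ 0 := by
      rw [Ne, ENNReal.rpow_eq_zero_iff]; norm_num
    exact mul_ne_zero (by norm_num) this
  -- the error
  obtain ⟨ε', hε', hε3⟩ : ∃ ε' : ℝ≥0∞, 0 < ε' ∧ C * (ε' + ε' + ε') ≤ ε := by
    refine ⟨min 1 (ε / (C * 3)), ?_, ?_⟩
    · apply lt_min one_pos
      exact ENNReal.div_pos hε.ne' (ENNReal.mul_ne_top hCtop (by norm_num))
    · have h1 : min 1 (ε / (C * 3)) ≤ ε / (C * 3) := min_le_right _ _
      calc C * (min 1 (ε / (C * 3)) + min 1 (ε / (C * 3)) + min 1 (ε / (C * 3)))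
          ≤ C * (ε / (C * 3) + ε / (C * 3) + ε / (C * 3)) := by gcongr
        _ = (ε / (C * 3)) * (C * 3) := by ring
        _ ≤ ε := (ENNReal.div_mul_cancel (mul_ne_zero hC0 (by norm_num))
            (ENNReal.mul_ne_top hCtop (by norm_num))).le
  have h0 := squeeze (locPL_e3 hg) hη hη' hc (2 : Fin 3) hp (fun i => dg s i) hε'
  obtain ⟨ρ, hρ, hρ', h1, h2⟩ := h0.exists
  refine ⟨sqz g η ρ c, homeo_sqz hh hη hη' hρ hρ'.le hc, locPL_sqz hg hη hη' hρ hρ'.le hc,
    fun x hx => sqz_off hη hx, ?_⟩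
  have hη2 : η < 1 / 2 := by linarith
  have hηp : 0 < 1 - η := by linarith
  -- the columns
  have hcol : ∀ i : Fin 3, i ≠ 2 → ∫⁻ x in Q0, ‖Dc (sqz g η ρ c) i x - dg s i‖ₑ ^ p ≤
      (∫⁻ x in Qr (1 - η), ‖Dc (fun y => g (prj3 c y)) i x - dg s i‖ₑ ^ p) +
            shellTerm3 g η p i s + ε' := by
    intro i hi
    have h3 := h1 i hi (ball 0 1) subset_rfl measurableSet_ball
    have h4 : ball (0 : Fin 3 → ℝ) 1 ∩ ball 0 (1 - η) = ball 0 (1 - η) :=
      inter_eq_right.2 (ball_subset_ball (by linarith))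
    rw [h4] at h3
    have h5 : ∫⁻ x in Q0, ‖Dc (sqz g η ρ c) i x - dg s i‖ₑ ^ p =
        ∫⁻ x in ball 0 1, ‖Dp (fun y => g (e3.symm (chi η ρ c 2 y))) i x - dg s i‖ₑ ^ p := by
      rw [Q0_eq, lint_Dc]
      rfl
    have h6 : ∫⁻ x in Qr (1 - η), ‖Dc (fun y => g (prj3 c y)) i x - dg s i‖ₑ ^ p =
        ∫⁻ x in ball 0 (1 - η), ‖Dp (fun y => g (e3.symm (prj c 2 y))) i x - dg s i‖ₑ ^ p := by
      rw [Qr_eq hηp, lint_Dc, prj_e3]
    rw [h5, h6, shellTerm3_eq hη2]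
    exact h3
  have hcol2 : ∫⁻ x in Q0, ‖Dc (sqz g η ρ c) 2 x - dg s 2‖ₑ ^ p ≤
      ENNReal.ofReal (3 / η) ^ p * (2 * ∫⁻ x in Q0, ‖Dc g 2 x‖ₑ ^ p) + ε' := by
    have h5 : ∫⁻ x in Q0, ‖Dc (sqz g η ρ c) 2 x - dg s 2‖ₑ ^ p =
        ∫⁻ x in ball 0 1, ‖Dp (fun y => g (e3.symm (chi η ρ c 2 y))) 2 x‖ₑ ^ p := by
      have h7 : dg s 2 = 0 := by
        unfold dg; rw [hs]; simp
      rw [h7]
      simp only [sub_zero]
      rw [Q0_eq, lint_Dc']
      rfl
    rw [h5, Q0_eq, lint_Dc']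
    exact h2
  have hdiff : ∀ᵐ x ∂(volume.restrict Q0), DifferentiableAt ℝ (sqz g η ρ c) x := by
    have hQm : MeasurableSet Q0 := by
      rw [Q0_eq]; exact measurableSet_ball.preimage e3.continuous.measurable
    rw [ae_restrict_iff' hQm]
    exact ae_differentiableAt_of_locPL (locPL_sqz hg hη hη' hρ hρ'.le hc)
  have hm : ∀ i, Measurable fun x => ‖Dc (sqz g η ρ c) i x - dg s i‖ₑ ^ p := by
    intro i
    have h7 := (measurable_Dp (fun y => g (e3.symm (chi η ρ c 2 y))) i (dg s i) p).comp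
      e3.continuous.measurable
    have h8 : (fun x => ‖Dc (sqz g η ρ c) i x - dg s i‖ₑ ^ p) = (fun x =>
      ‖Dp (fun y => g (e3.symm (chi η ρ c 2 y))) i x - dg s i‖ₑ ^ p) ∘ e3 := by
      ext1 x
      rw [Dc_sqz]; rfl
    rw [h8]; exact h7
  calc ∫⁻ x in Q0, ∑ j, ‖Gr (sqz g η ρ c) j x - dg s j‖ₑ ^ p
      ≤ ∫⁻ x in Q0, C * ∑ i, ‖Dc (sqz g η ρ c) i x - dg s i‖ₑ ^ p := by
        apply lintegral_mono_ae
        filter_upwards [hdiff] with x hx
        exact rows_le_cols hx s hp.le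
    _ = C * ((∫⁻ x in Q0, ‖Dc (sqz g η ρ c) 0 x - dg s 0‖ₑ ^ p) +
          (∫⁻ x in Q0, ‖Dc (sqz g η ρ c) 1 x - dg s 1‖ₑ ^ p) +
          ∫⁻ x in Q0, ‖Dc (sqz g η ρ c) 2 x - dg s 2‖ₑ ^ p) := by
        have hsum : ∀ x, ∑ i, ‖Dc (sqz g η ρ c) i x - dg s i‖ₑ ^ p =
            ‖Dc (sqz g η ρ c) 0 x - dg s 0‖ₑ ^ p + ‖Dc (sqz g η ρ c) 1 x - dg s 1‖ₑ ^ p +
            ‖Dc (sqz g η ρ c) 2 x - dg s 2‖ₑ ^ p := fun x => Fin.sum_univ_three _
        simp only [hsum]
        have m01 : Measurable fun x => ‖Dc (sqz g η ρ c) 0 x - dg s 0‖ₑ ^ p +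
            ‖Dc (sqz g η ρ c) 1 x - dg s 1‖ₑ ^ p := (hm 0).add (hm 1)
        have m012 : Measurable fun x => ‖Dc (sqz g η ρ c) 0 x - dg s 0‖ₑ ^ p +
            ‖Dc (sqz g η ρ c) 1 x - dg s 1‖ₑ ^ p + ‖Dc (sqz g η ρ c) 2 x - dg s 2‖ₑ ^ p :=
          m01.add (hm 2)
        rw [lintegral_const_mul _ m012, lintegral_add_left m01, lintegral_add_left (hm 0)]
    _ ≤ C * (((∫⁻ x in Qr (1 - η), ‖Dc (fun y => g (prj3 c y)) 0 x - dg s 0‖ₑ ^ p) +
            shellTerm3 g η p 0 s + ε') +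
         ((∫⁻ x in Qr (1 - η), ‖Dc (fun y => g (prj3 c y)) 1 x - dg s 1‖ₑ ^ p) +
            shellTerm3 g η p 1 s + ε') +
         (ENNReal.ofReal (3 / η) ^ p * (2 * ∫⁻ x in Q0, ‖Dc g 2 x‖ₑ ^ p) + ε')) := by
        gcongr
        · exact hcol 0 (by decide)
        · exact hcol 1 (by decide)
    _ = C * (((∫⁻ x in Qr (1 - η), ‖Dc (fun y => g (prj3 c y)) 0 x - dg s 0‖ₑ ^ p) +
            shellTerm3 g η p 0 s) +
         ((∫⁻ x in Qr (1 - η), ‖Dc (fun y => g (prj3 c y)) 1 x - dg s 1‖ₑ ^ p) +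
            shellTerm3 g η p 1 s) +
         ENNReal.ofReal (3 / η) ^ p * (2 * ∫⁻ x in Q0, ‖Dc g 2 x‖ₑ ^ p)) +
          C * (ε' + ε' + ε') := by ring
    _ ≤ _ := add_le_add le_rfl hε3

end

end Crest.Agent.R096.Sq_477
end

-- ▼ part R096/Na1_477
section

/-!
# Row 96, NO0-ASM (helper477), part 1: slices and layers
-/

set_option autoImplicit false
set_option linter.unusedSectionVars false

open Set Function MeasureTheory Filter Topology Metric
open scoped ENNReal Gradient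
open Crest.AnalysisR.VecCalc3 Crest.AnalysisR.Sobolev

namespace Crest.Agent.R096.Sq_477

open Crest.Agent.R096.Pl
open Crest.Agent.R096.Str_696 (LocPL)
open Crest.Agent.R096.Sk_962 (Gr Q0 Qc0 dg SH)
open Crest.Agent.R096.Sk4_663 (Zd NO0)

noncomputable section

section slice

variable {n : ℕ} {F : Type*} [NormedAddCommGroup F] [NormedSpace ℝ F] [FiniteDimensional ℝ F]

/-- the restriction of `g` to the slice `x_j = c` as a function of the other coordinates -/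
def sl (g : (Fin (n + 1) → ℝ) → F) (c : ℝ) (j : Fin (n + 1)) (y : Fin n → ℝ) : F :=
  g (j.insertNth (α := fun _ => ℝ) c y)

theorem prj_eq_insert (c : ℝ) (j : Fin (n + 1)) (x : Fin (n + 1) → ℝ) :
    prj c j x = j.insertNth (α := fun _ => ℝ) c (j.removeNth x) := by
  rw [Fin.insertNth_removeNth]; rfl

theorem sl_removeNth (g : (Fin (n + 1) → ℝ) → F) (c : ℝ) (j : Fin (n + 1))
    (x : Fin (n + 1) → ℝ) : sl g c j (j.removeNth x) = g (prj c j x) := by
  unfold sl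
  rw [prj_eq_insert]

/-- the linear map `removeNth` -/
def rmv (j : Fin (n + 1)) : (Fin (n + 1) → ℝ) →L[ℝ] (Fin n → ℝ) :=
  ContinuousLinearMap.pi fun k => ContinuousLinearMap.proj (R := ℝ) (φ := fun _ => ℝ) (j.succAbove k)

theorem rmv_apply (j : Fin (n + 1)) (x : Fin (n + 1) → ℝ) : rmv j x = j.removeNth x := rfl

/-- the linear map `insertNth 0` -/
def ins (j : Fin (n + 1)) : (Fin n → ℝ) →L[ℝ] (Fin (n + 1) → ℝ) :=
  LinearMap.toContinuousLinearMap
    { toFun := fun y => j.insertNth (α := fun _ => ℝ) 0 y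
      map_add' := by
        intro y z
        ext k
        refine j.succAboveCases ?_ (fun i => ?_) k
        · simp
        · simp
      map_smul' := by
        intro t y
        ext k
        refine j.succAboveCases ?_ (fun i => ?_) k
        · simp
        · simp }

theorem ins_apply (j : Fin (n + 1)) (y : Fin n → ℝ) :
    ins j y = j.insertNth (α := fun _ => ℝ) 0 y := rfl

theorem insert_eq (j : Fin (n + 1)) (c : ℝ) (y : Fin n → ℝ) :
    (j.insertNth c y : Fin (n + 1) → ℝ) = ins j y + c • Pi.single j (1 : ℝ) := by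
  ext k
  rw [ins_apply]
  refine j.succAboveCases ?_ (fun i => ?_) k
  · simp
  · simp [Fin.succAbove_ne j i]

theorem rmv_single (j : Fin (n + 1)) (i : Fin n) :
    rmv j (Pi.single (j.succAbove i) (1 : ℝ)) = Pi.single i 1 := by
  ext k
  rw [rmv_apply]
  show (Pi.single (j.succAbove i) (1 : ℝ) : Fin (n + 1) → ℝ) (j.succAbove k) = _
  by_cases h : k = i
  · subst h; simp
  · have : j.succAbove k ≠ j.succAbove i := fun h' => h (Fin.succAbove_right_injective h')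
    simp [h, this]


/-- the derivative of `g ∘ prj` is the derivative on the slice -/
theorem Dp_prj_eq (g : (Fin (n + 1) → ℝ) → F) (c : ℝ) (j : Fin (n + 1)) (i : Fin n)
    (x : Fin (n + 1) → ℝ) :
    Dp (fun y => g (prj c j y)) (j.succAbove i) x = Dp (sl g c j) i (j.removeNth x) := by
  have e1 : (fun y => g (prj c j y)) = (sl g c j) ∘ rmv j := by
    ext1 y
    exact (sl_removeNth g c j y).symm
  by_cases hd : DifferentiableAt ℝ (sl g c j) (j.removeNth x)
  · unfold Dp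
    rw [e1]
    have h1 : HasFDerivAt (sl g c j) (fderiv ℝ (sl g c j) (rmv j x)) (rmv j x) :=
      hd.hasFDerivAt
    rw [(h1.comp x (rmv j).hasFDerivAt).fderiv]
    show fderiv ℝ (sl g c j) (rmv j x) (rmv j (Pi.single (j.succAbove i) 1)) = _
    rw [rmv_single]; rfl
  · have hd' : ¬ DifferentiableAt ℝ (fun y => g (prj c j y)) x := by
      intro h
      apply hd
      have e2 : sl g c j = (fun y => g (prj c j y)) ∘ (fun y => ins j y + x j • Pi.single j (1:ℝ)) := by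
        ext1 y
        have : (ins j y + x j • Pi.single j (1:ℝ) : Fin (n + 1) → ℝ) =
          j.insertNth (α := fun _ => ℝ) (x j) y := (insert_eq j (x j) y).symm
        show sl g c j y = g (prj c j (ins j y + x j • Pi.single j (1:ℝ)))
        rw [this, ← sl_removeNth g c j]
        simp
      have e3 : (ins j (j.removeNth x) + x j • Pi.single j (1:ℝ) : Fin (n + 1) → ℝ) = x := by
        rw [← insert_eq]; simp
      rw [e2]
      have h4 : DifferentiableAt ℝ (fun y => ins j y + x j • (Pi.single j (1:ℝ) : Fin (n+1) → ℝ))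
          (j.removeNth x) := by fun_prop
      apply DifferentiableAt.comp _ _ h4
      rw [e3]; exact h
    unfold Dp
    rw [fderiv_zero_of_not_differentiableAt hd, fderiv_zero_of_not_differentiableAt hd']
    rfl

theorem norm_insert (j : Fin (n + 1)) (x : Fin (n + 1) → ℝ) {r : ℝ} (hr : 0 < r) :
    ‖x‖ < r ↔ |x j| < r ∧ ‖j.removeNth x‖ < r := by
  rw [pi_norm_lt_iff hr, pi_norm_lt_iff hr, Fin.forall_iff_succAbove j]
  rfl

/-- Fubini for functions which do not depend on the coordinate `j` -/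
theorem lint_slice (j : Fin (n + 1)) {H : (Fin n → ℝ) → ℝ≥0∞} (hH : Measurable H) {r : ℝ}
    (hr : 0 < r) :
    ∫⁻ x in ball (0 : Fin (n + 1) → ℝ) r, H (j.removeNth x) =
      ENNReal.ofReal (2 * r) * ∫⁻ y in ball (0 : Fin n → ℝ) r, H y := by
  have hmp := volume_preserving_piFinSuccAbove (fun _ : Fin (n + 1) => ℝ) j
  have h1 : ball (0 : Fin (n + 1) → ℝ) r =
      (MeasurableEquiv.piFinSuccAbove (fun _ => ℝ) j) ⁻¹' (ball (0 : ℝ) r ×ˢ ball (0 : Fin n → ℝ) r) := by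
    ext x
    rw [mem_preimage, mem_ball_zero_iff, norm_insert j x hr, mem_prod, mem_ball_zero_iff,
      mem_ball_zero_iff]
    rfl
  have h2 : ∫⁻ x in ball (0 : Fin (n + 1) → ℝ) r, H (j.removeNth x) =
      ∫⁻ q in ball (0 : ℝ) r ×ˢ ball (0 : Fin n → ℝ) r, H q.2 := by
    rw [h1]
    exact hmp.setLIntegral_comp_preimage_emb
      (MeasurableEquiv.piFinSuccAbove (fun _ => ℝ) j).measurableEmbedding (fun q => H q.2) _
  rw [h2, Measure.volume_eq_prod, ← Measure.prod_restrict, lintegral_prod _ (by fun_prop)]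
  simp only [lintegral_const, MeasurableSet.univ, Measure.restrict_apply, univ_inter]
  rw [Real.volume_ball, mul_comm]

end slice

/-- the slice of `g : R3 → R3` -/
def sl3 (g : R3 → R3) (c : ℝ) (y : Fin 2 → ℝ) : R3 :=
  sl (fun z => g (e3.symm z)) c 2 y

/-- the slice term as an integral over a square -/
theorem lint_Dc_prj (g : R3 → R3) (c : ℝ) (i : Fin 2) (p : ℝ) (a : R3) {r : ℝ} (hr : 0 < r) :
    ∫⁻ x in Qr r, ‖Dc (fun y => g (prj3 c y)) ((2 : Fin 3).succAbove i) x - a‖ₑ ^ p =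
      ENNReal.ofReal (2 * r) * ∫⁻ y in ball (0 : Fin 2 → ℝ) r, ‖Dp (sl3 g c) i y - a‖ₑ ^ p := by
  rw [Qr_eq hr, lint_Dc, prj_e3]
  have h1 : ∀ y, Dp (fun z => g (e3.symm (prj c 2 z))) ((2 : Fin 3).succAbove i) y =
      Dp (sl3 g c) i ((2 : Fin 3).removeNth y) := fun y =>
    Dp_prj_eq (fun z => g (e3.symm z)) c 2 i y
  simp only [h1]
  exact lint_slice (2 : Fin 3) (measurable_Dp (sl3 g c) i a p) hr

/-- **NOL**: the output of the machine on the cube, with layers.  `E` small multiple of `e`. -/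
def NOL (p : ℝ) : Prop :=
  ∀ s : Fin 3 → ℝ, (∀ i, 0 ≤ s i) → s 2 = 0 → ∀ e : ℝ, 0 < e →
    ∃ η : ℝ, 0 < η ∧ η ≤ 1 / 8 ∧ ∃ d : ℝ, 0 < d ∧
    ∀ (U W : Set R3) (f : R3 → R3) (G : Fin 3 → R3 → R3),
      IsOpen U → Bornology.IsBounded U → IsConnected U →
      IsOpen W → Bornology.IsBounded W → IsConnected W → Qc0 ⊆ U →
      SH p U W f G →
      ∫⁻ x in Q0, ∑ j : Fin 3, ‖G j x - dg s j‖ₑ ^ p ≤ ENNReal.ofReal d →
      volume (Q0 \ Zd G) ≤ ENNReal.ofReal d →
      ∃ g : R3 → R3, IsHomeomorphOn g Q0 (f '' Q0) ∧ LocPL g Q0 ∧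
        (∀ z ∈ frontier Q0, Tendsto (fun x => g x - f x) (𝓝[Q0] z) (𝓝 0)) ∧
        -- the shell terms
        (∀ i : Fin 3, i ≠ 2 → (∫⁻ x in Sh3 η, ‖Dc g i x‖ₑ ^ p) +
          ENNReal.ofReal (η / 2) * (∫⁻ x in Q0, ‖Dc g i x‖ₑ ^ p) +
          ‖dg s i‖ₑ ^ p * volume (Sh3 η) ≤ ENNReal.ofReal e) ∧
        -- the long direction
        ENNReal.ofReal (3 / η) ^ p * (∫⁻ x in Q0, ‖Dc g 2 x‖ₑ ^ p) ≤ ENNReal.ofReal e ∧
        -- the layers
        ∃ (N : ℕ) (z : Fin N → ℝ), 0 < N ∧ (∀ k, |z k| ≤ 1 / 2) ∧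
          ∑ k, ∑ i : Fin 2, (∫⁻ y in ball (0 : Fin 2 → ℝ) (1 - η),
            ‖Dp (sl3 g (z k)) i y - dg s ((2 : Fin 3).succAbove i)‖ₑ ^ p) ≤
            N * ENNReal.ofReal e

theorem no0_of_nol {p : ℝ} (hp : 0 < p) (h : NOL p) : NO0 p := by
  intro s hs hs2 e he
  -- the constant
  set C : ℝ≥0∞ := 3 * 3 ^ p with hC
  have hCtop : C ≠ ⊤ := ENNReal.mul_ne_top (by norm_num)
    (ENNReal.rpow_ne_top_of_nonneg hp.le (by norm_num))
  obtain ⟨e', he', hee⟩ : ∃ e' : ℝ, 0 < e' ∧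
      C * ((2 + 4 * 3 ^ p) + (2 + 4 * 3 ^ p) + 2) * ENNReal.ofReal e' + ENNReal.ofReal (e / 2) ≤
        ENNReal.ofReal e := by
    set K : ℝ≥0∞ := C * ((2 + 4 * 3 ^ p) + (2 + 4 * 3 ^ p) + 2) with hK
    have h3p : (3 : ℝ≥0∞) ^ p ≠ ⊤ := ENNReal.rpow_ne_top_of_nonneg hp.le (by norm_num)
    have h4 : (2 + 4 * 3 ^ p : ℝ≥0∞) ≠ ⊤ :=
      ENNReal.add_ne_top.2 ⟨by norm_num, ENNReal.mul_ne_top (by norm_num) h3p⟩
    have hKtop : K ≠ ⊤ := ENNReal.mul_ne_top hCtop
      (ENNReal.add_ne_top.2 ⟨ENNReal.add_ne_top.2 ⟨h4, h4⟩, by norm_num⟩)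
    refine ⟨e / 2 / (K.toReal + 1), by positivity, ?_⟩
    have h5 : K * ENNReal.ofReal (e / 2 / (K.toReal + 1)) ≤ ENNReal.ofReal (e / 2) := by
      rw [← ENNReal.ofReal_toReal hKtop, ← ENNReal.ofReal_mul ENNReal.toReal_nonneg]
      apply ENNReal.ofReal_le_ofReal
      rw [ENNReal.toReal_ofReal ENNReal.toReal_nonneg]
      have h6 : 0 ≤ K.toReal := ENNReal.toReal_nonneg
      rw [mul_div_assoc']
      rw [div_le_iff₀ (by linarith)]
      nlinarith
    calc K * ENNReal.ofReal (e / 2 / (K.toReal + 1)) + ENNReal.ofReal (e / 2)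
        ≤ ENNReal.ofReal (e / 2) + ENNReal.ofReal (e / 2) := add_le_add h5 le_rfl
      _ = ENNReal.ofReal e := by
        rw [← ENNReal.ofReal_add (by positivity) (by positivity)]; congr 1; ring
  obtain ⟨η, hη, hη', d, hd, H⟩ := h s hs hs2 e' he'
  refine ⟨d, hd, ?_⟩
  intro U W f G hU1 hU2 hU3 hW1 hW2 hW3 hQ hSH hG hvol
  obtain ⟨g, g1, g2, g3, g4, g5, N, z, hN, hz, hsum⟩ :=
    H U W f G hU1 hU2 hU3 hW1 hW2 hW3 hQ hSH hG hvol
  -- choose the layer
  obtain ⟨k, hk⟩ : ∃ k, ∑ i : Fin 2, (∫⁻ y in ball (0 : Fin 2 → ℝ) (1 - η),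
            ‖Dp (sl3 g (z k)) i y - dg s ((2 : Fin 3).succAbove i)‖ₑ ^ p) ≤
            ENNReal.ofReal e' := by
    by_contra hcon
    push Not at hcon
    have : Nonempty (Fin N) := ⟨⟨0, hN⟩⟩
    have h6 : ∑ _k : Fin N, ENNReal.ofReal e' < ∑ k, ∑ i : Fin 2,
        (∫⁻ y in ball (0 : Fin 2 → ℝ) (1 - η),
            ‖Dp (sl3 g (z k)) i y - dg s ((2 : Fin 3).succAbove i)‖ₑ ^ p) :=
      ENNReal.sum_lt_sum_of_nonempty Finset.univ_nonempty fun k _ => hcon k
    rw [Finset.sum_const, Finset.card_univ, Fintype.card_fin, nsmul_eq_mul] at h6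
    exact absurd hsum (not_le.2 h6)
  obtain ⟨g', q1, q2, q3, q4⟩ := squeeze_R3 g1 g2 hη hη' (hz k) hp hs2
    (ε := ENNReal.ofReal (e / 2)) (by rw [ENNReal.ofReal_pos]; positivity)
  refine ⟨g', q1, q2, ?_, ?_⟩
  · intro x hx
    refine (g3 x hx).congr' ?_
    have hxf : ∃ i, 1 - η < |x i| := by
      by_contra hcon
      push Not at hcon
      have h7 : x ∈ interior Q0 := by
        have hop : IsOpen Q0 := by
          rw [Q0_eq]; exact isOpen_ball.preimage e3.continuous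
        rw [hop.interior_eq]
        intro i
        have := hcon i
        linarith
      exact hx.2 h7
    obtain ⟨i, hi⟩ := hxf
    have h8 : ∀ᶠ y in 𝓝 x, 1 - η < |y i| := by
      have h9 : Continuous fun y : R3 => |y i| := by fun_prop
      exact h9.continuousAt.eventually_const_lt hi
    filter_upwards [nhdsWithin_le_nhds h8] with y hy
    rw [q3 y ⟨i, hy.le⟩]
  · refine q4.trans (le_trans ?_ hee)
    refine add_le_add ?_ le_rfl
    rw [mul_assoc C]
    refine mul_le_mul_right ?_ C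
    have hηp : (0 : ℝ) < 1 - η := by linarith
    have hsl : ∀ i : Fin 2, (∫⁻ x in Qr (1 - η),
        ‖Dc (fun y => g (prj3 (z k) y)) ((2 : Fin 3).succAbove i) x -
          dg s ((2 : Fin 3).succAbove i)‖ₑ ^ p) ≤ 2 * ENNReal.ofReal e' := by
      intro i
      rw [lint_Dc_prj g (z k) i p _ hηp]
      have h10 : ENNReal.ofReal (2 * (1 - η)) ≤ 2 := by
        rw [← ENNReal.ofReal_ofNat]
        exact ENNReal.ofReal_le_ofReal (by linarith)
      refine mul_le_mul' h10 (le_trans ?_ hk)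
      exact Finset.single_le_sum (f := fun i : Fin 2 => ∫⁻ y in ball (0 : Fin 2 → ℝ) (1 - η),
            ‖Dp (sl3 g (z k)) i y - dg s ((2 : Fin 3).succAbove i)‖ₑ ^ p)
        (fun _ _ => zero_le) (Finset.mem_univ i)
    have hs0 := hsl 0
    have hs1 := hsl 1
    have e0 : (2 : Fin 3).succAbove (0 : Fin 2) = 0 := by decide
    have e1 : (2 : Fin 3).succAbove (1 : Fin 2) = 1 := by decide
    rw [e0] at hs0
    rw [e1] at hs1
    have hη3 : ENNReal.ofReal (2 / η) ≤ ENNReal.ofReal (3 / η) :=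
      ENNReal.ofReal_le_ofReal (by gcongr; norm_num)
    have hsh : ∀ i : Fin 3, i ≠ 2 → shellTerm3 g η p i s ≤ 3 ^ p * (3 * ENNReal.ofReal e') := by
      intro i hi
      unfold shellTerm3
      refine mul_le_mul_right ?_ _
      have h11 := g4 i hi
      have h12 : ENNReal.ofReal (2 / η) ^ p * (2 * ∫⁻ x in Q0, ‖Dc g 2 x‖ₑ ^ p) ≤
          2 * ENNReal.ofReal e' := by
        calc ENNReal.ofReal (2 / η) ^ p * (2 * ∫⁻ x in Q0, ‖Dc g 2 x‖ₑ ^ p)
            ≤ ENNReal.ofReal (3 / η) ^ p * (2 * ∫⁻ x in Q0, ‖Dc g 2 x‖ₑ ^ p) :=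
              mul_le_mul_left (ENNReal.rpow_le_rpow hη3 hp.le) _
          _ = 2 * (ENNReal.ofReal (3 / η) ^ p * ∫⁻ x in Q0, ‖Dc g 2 x‖ₑ ^ p) := by ring
          _ ≤ 2 * ENNReal.ofReal e' := mul_le_mul_right g5 _
      calc _ = ((∫⁻ x in Sh3 η, ‖Dc g i x‖ₑ ^ p) +
          ENNReal.ofReal (η / 2) * (∫⁻ x in Q0, ‖Dc g i x‖ₑ ^ p) +
          ‖dg s i‖ₑ ^ p * volume (Sh3 η)) +
          ENNReal.ofReal (2 / η) ^ p * (2 * ∫⁻ x in Q0, ‖Dc g 2 x‖ₑ ^ p) := by ring
        _ ≤ ENNReal.ofReal e' + 2 * ENNReal.ofReal e' := add_le_add h11 h12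
        _ = 3 * ENNReal.ofReal e' := by ring
    have h13 : ENNReal.ofReal (3 / η) ^ p * (2 * ∫⁻ x in Q0, ‖Dc g 2 x‖ₑ ^ p) ≤
        2 * ENNReal.ofReal e' := by
      calc _ = 2 * (ENNReal.ofReal (3 / η) ^ p * ∫⁻ x in Q0, ‖Dc g 2 x‖ₑ ^ p) := by ring
        _ ≤ 2 * ENNReal.ofReal e' := mul_le_mul_right g5 _
    have h14 : (3 : ℝ≥0∞) ^ p * (3 * ENNReal.ofReal e') ≤ 4 * 3 ^ p * ENNReal.ofReal e' := by
      calc (3 : ℝ≥0∞) ^ p * (3 * ENNReal.ofReal e') ≤ 3 ^ p * (4 * ENNReal.ofReal e') := by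
            gcongr; norm_num
        _ = 4 * 3 ^ p * ENNReal.ofReal e' := by ring
    calc _ ≤ ((2 * ENNReal.ofReal e' + 4 * 3 ^ p * ENNReal.ofReal e') +
          (2 * ENNReal.ofReal e' + 4 * 3 ^ p * ENNReal.ofReal e') + 2 * ENNReal.ofReal e') :=
          add_le_add (add_le_add (add_le_add hs0 ((hsh 0 (by decide)).trans h14))
            (add_le_add hs1 ((hsh 1 (by decide)).trans h14))) h13
      _ = ((2 + 4 * 3 ^ p) + (2 + 4 * 3 ^ p) + 2) * ENNReal.ofReal e' := by ring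

end

end Crest.Agent.R096.Sq_477
end

-- ▼ part R096/No1_276

/-!
# Row 96, NO0 (helper276), part 1: from the output on the stretched cube to `NOL`

`QL L = {|x_0|, |x_1| < 1, |L x_2| < 1}` in `E3 = Fin 3 → ℝ`.  `NOS p` = output of the machine on `QL L`
(isotropic mesh, energies of the full derivative), `nol_of_nos : NOS p → NOL p`.
-/

set_option autoImplicit false
set_option linter.unusedSectionVars false

open Set Function MeasureTheory Filter Topology Metric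
open scoped ENNReal Gradient
open Crest.AnalysisR.VecCalc3 Crest.AnalysisR.Sobolev

namespace Crest.Agent.R096.No_276

open Crest.Agent.R096.Pl
open Crest.Agent.R096.Str_696 (LocPL)
open Crest.Agent.R096.Sk_962 (Gr Q0 Qc0 dg SH)
open Crest.Agent.R096.Sk4_663 (Zd NO0)
open Crest.Agent.R096.Sq_477
open Crest.Agent.R096.SkC1_961 (E3 Hom3)

noncomputable section

/-- the stretch `diag(1,1,L)` -/
def RL (L : ℝ) (hL : L ≠ 0) : E3 ≃L[ℝ] E3 :=
  ContinuousLinearEquiv.piCongrRight fun i =>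
    ContinuousLinearEquiv.unitsEquivAut ℝ (if i = 2 then Units.mk0 L hL else 1)

theorem RL_apply (L : ℝ) (hL : L ≠ 0) (x : E3) (i : Fin 3) :
    RL L hL x i = x i * (if i = 2 then L else 1) := by
  show ContinuousLinearEquiv.unitsEquivAut ℝ (if i = 2 then Units.mk0 L hL else 1) (x i) = _
  rw [ContinuousLinearEquiv.unitsEquivAut_apply]
  split_ifs <;> simp

theorem RL_symm_apply (L : ℝ) (hL : L ≠ 0) (x : E3) (i : Fin 3) :
    (RL L hL).symm x i = x i * (if i = 2 then L⁻¹ else 1) := by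
  have h := RL_apply L hL ((RL L hL).symm x) i
  rw [ContinuousLinearEquiv.apply_symm_apply] at h
  rw [h]
  split_ifs
  · field_simp
  · simp

theorem map_RL {L : ℝ} (hL : 0 < L) :
    Measure.map (RL L hL.ne') (volume : Measure E3) = ENNReal.ofReal (1 / L) • volume := by
  have hdet : (Matrix.diagonal (fun i : Fin 3 => if i = 2 then L else 1)).det = L := by
    rw [Matrix.det_diagonal]
    simp
  have h := Real.smul_map_diagonal_volume_pi (D := fun i : Fin 3 => if i = 2 then L else 1)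
    (by rw [hdet]; exact hL.ne')
  rw [hdet, abs_of_pos hL] at h
  have h2 : (Matrix.toLin' (Matrix.diagonal (fun i : Fin 3 => if i = 2 then L else 1)) : E3 → E3) =
      RL L hL.ne' := by
    funext x
    ext i
    rw [RL_apply]
    simp [Matrix.mulVec_diagonal, mul_comm]
  rw [h2] at h
  calc Measure.map (RL L hL.ne') (volume : Measure E3)
      = (ENNReal.ofReal (1 / L) * ENNReal.ofReal L) • Measure.map (RL L hL.ne') volume := by
        rw [← ENNReal.ofReal_mul (by positivity)]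
        rw [one_div, inv_mul_cancel₀ hL.ne', ENNReal.ofReal_one, one_smul]
    _ = ENNReal.ofReal (1 / L) • volume := by rw [mul_smul, h]

theorem lint_RL {L : ℝ} (hL : 0 < L) (H : E3 → ℝ≥0∞) (S : Set E3) :
    ∫⁻ x in (RL L hL.ne') ⁻¹' S, H (RL L hL.ne' x) = ENNReal.ofReal (1 / L) * ∫⁻ y in S, H y := by
  have he : MeasurableEmbedding (RL L hL.ne') :=
    (RL L hL.ne').toHomeomorph.measurableEmbedding
  have h1 : ∫⁻ x in (RL L hL.ne') ⁻¹' S, H (RL L hL.ne' x) =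
      ∫⁻ y in S, H y ∂(Measure.map (RL L hL.ne') volume) := by
    rw [he.restrict_map, he.lintegral_map]
  rw [h1, map_RL hL, Measure.restrict_smul, lintegral_smul_measure, smul_eq_mul]

/-- the stretched cube -/
def QL (L : ℝ) : Set E3 := {x | |x 0| < 1 ∧ |x 1| < 1 ∧ |L * x 2| < 1}

theorem QL_eq {L : ℝ} (hL : L ≠ 0) : QL L = (RL L hL) ⁻¹' ball 0 1 := by
  ext x
  rw [mem_preimage, mem_ball_zero_iff, pi_norm_lt_iff one_pos]
  constructor
  · rintro ⟨h0, h1, h2⟩ i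
    rw [RL_apply]
    fin_cases i
    · simpa using h0
    · simpa using h1
    · simpa [mul_comm] using h2
  · intro h
    refine ⟨?_, ?_, ?_⟩
    · have := h 0; rw [RL_apply] at this; simpa using this
    · have := h 1; rw [RL_apply] at this; simpa using this
    · have := h 2; rw [RL_apply] at this; simpa [mul_comm] using this

/-- the shell in the stretched cube -/
def ShL (L η : ℝ) : Set E3 := QL L ∩ {x | 1 - 2 * η < |x 0| ∨ 1 - 2 * η < |x 1| ∨ 1 - 2 * η < |L * x 2|}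

theorem ShL_eq {L : ℝ} (hL : L ≠ 0) (η : ℝ) :
    (RL L hL) '' ShL L η = e3.symm ⁻¹' (Sh3 η) := by
  ext y
  constructor
  · rintro ⟨x, ⟨hx1, hx2⟩, rfl⟩
    refine ⟨?_, ?_⟩
    · rw [QL_eq hL] at hx1
      rw [Q0_eq, mem_preimage, ContinuousLinearEquiv.apply_symm_apply]
      exact hx1
    · rcases hx2 with h | h | h
      · refine ⟨0, ?_⟩
        rw [e3_symm_apply, RL_apply]; simpa using h
      · refine ⟨1, ?_⟩
        rw [e3_symm_apply, RL_apply]; simpa using h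
      · refine ⟨2, ?_⟩
        rw [e3_symm_apply, RL_apply]; simpa [mul_comm] using h
  · rintro ⟨h1, i, h2⟩
    refine ⟨(RL L hL).symm y, ⟨?_, ?_⟩, ContinuousLinearEquiv.apply_symm_apply _ _⟩
    · rw [QL_eq hL, mem_preimage, ContinuousLinearEquiv.apply_symm_apply]
      rw [Q0_eq, mem_preimage, ContinuousLinearEquiv.apply_symm_apply] at h1
      exact h1
    · rw [e3_symm_apply] at h2
      show 1 - 2 * η < |(RL L hL).symm y 0| ∨ 1 - 2 * η < |(RL L hL).symm y 1| ∨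
        1 - 2 * η < |L * (RL L hL).symm y 2|
      rw [RL_symm_apply, RL_symm_apply, RL_symm_apply]
      fin_cases i
      · left; simpa using h2
      · right; left; simpa using h2
      · right; right
        have : L * (y 2 * if (2 : Fin 3) = 2 then L⁻¹ else 1) = y 2 := by
          rw [if_pos rfl]; field_simp
        rw [this]; exact h2

/-- **NOS**: the output of the machine on the stretched cube (`e` = accuracy of the layers, `K` after
`e`; then `η`, `L` and the accuracy `e₂` of the shell are arbitrary). -/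
def NOS (p : ℝ) : Prop :=
  ∀ s : Fin 3 → ℝ, (∀ i, 0 ≤ s i) → s 2 = 0 → ∀ e : ℝ, 0 < e → ∃ K : ℝ, 0 < K ∧
    ∀ (η : ℝ) (L : ℕ) (e₂ : ℝ), 0 < η → η ≤ 1 / 8 → 1 ≤ L → 0 < e₂ → ∃ d : ℝ, 0 < d ∧
    ∀ (U W : Set R3) (f : R3 → R3) (G : Fin 3 → R3 → R3),
      IsOpen U → Bornology.IsBounded U → IsConnected U →
      IsOpen W → Bornology.IsBounded W → IsConnected W → Qc0 ⊆ U →
      SH p U W f G →
      ∫⁻ x in Q0, ∑ j : Fin 3, ‖G j x - dg s j‖ₑ ^ p ≤ ENNReal.ofReal d →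
      volume (Q0 \ Zd G) ≤ ENNReal.ofReal d →
      ∃ g : E3 → E3, Hom3 g (QL L) (e3 '' (f '' Q0)) ∧ LocPL g (QL L) ∧
        (∀ z ∈ frontier Q0, ∀ ε > 0, ∀ᶠ x in 𝓝[Q0] z, ∀ y ∈ QL L,
          y 0 = x 0 → y 1 = x 1 → L * y 2 = x 2 → ‖g y - e3 (f x)‖ ≤ ε) ∧
        (∫⁻ x in QL L, ‖fderiv ℝ g x‖ₑ ^ p) ≤ ENNReal.ofReal (K / L) ∧
        (∫⁻ x in ShL L η, ‖fderiv ℝ g x‖ₑ ^ p) ≤ ENNReal.ofReal ((K * η + e₂) / L) ∧
        ∃ (N : ℕ) (z : Fin N → ℝ), 0 < N ∧ (∀ k, |L * z k| ≤ 1 / 2) ∧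
          ∑ k, ∑ i : Fin 2, (∫⁻ y in ball (0 : Fin 2 → ℝ) (1 - η),
            ‖Dp (sl g (z k) 2) i y - Pi.single ((2 : Fin 3).succAbove i)
              (s ((2 : Fin 3).succAbove i))‖ₑ ^ p) ≤ N * ENNReal.ofReal e

/-! ### the passage to `R3` -/

/-- the map on `Q0` -/
def out (L : ℝ) (hL : L ≠ 0) (g : E3 → E3) (x : R3) : R3 := e3.symm (g ((RL L hL).symm (e3 x)))

theorem Dc_out {L : ℝ} (hL : L ≠ 0) (g : E3 → E3) (i : Fin 3) (x : R3) :
    Dc (out L hL g) i x = e3.symm (fderiv ℝ g ((RL L hL).symm (e3 x))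
      ((RL L hL).symm (Pi.single i 1))) := by
  unfold Dc
  have h1 : out L hL g = e3.symm ∘ (g ∘ (e3.trans (RL L hL).symm)) := rfl
  rw [h1, ContinuousLinearEquiv.comp_fderiv, ContinuousLinearEquiv.comp_right_fderiv]
  have h2 : e3 (EuclideanSpace.single i (1 : ℝ)) = Pi.single i 1 := by
    rw [← e3_symm_single, ContinuousLinearEquiv.apply_symm_apply]
  show e3.symm (fderiv ℝ g ((RL L hL).symm (e3 x)) ((RL L hL).symm
    (e3 (EuclideanSpace.single i (1 : ℝ))))) = _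
  rw [h2]

/-- the norm constant -/
def cE : ℝ := ‖(e3.symm : E3 →L[ℝ] R3)‖ + 1

theorem one_le_cE : 1 ≤ cE := by
  unfold cE; linarith [norm_nonneg (e3.symm : E3 →L[ℝ] R3)]

theorem cE_pos : 0 < cE := lt_of_lt_of_le one_pos one_le_cE

theorem enorm_e3_symm (v : E3) : ‖e3.symm v‖ₑ ≤ ENNReal.ofReal cE * ‖v‖ₑ := by
  rw [← ofReal_norm, ← ofReal_norm, ← ENNReal.ofReal_mul cE_pos.le]
  apply ENNReal.ofReal_le_ofReal
  have h := (e3.symm : E3 →L[ℝ] R3).le_opNorm v
  have h2 : ‖(e3.symm : E3 →L[ℝ] R3)‖ * ‖v‖ ≤ cE * ‖v‖ := by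
    apply mul_le_mul_of_nonneg_right _ (norm_nonneg v)
    unfold cE; linarith
  exact h.trans h2

theorem RL_symm_single {L : ℝ} (hL : L ≠ 0) (i : Fin 3) :
    (RL L hL).symm (Pi.single i 1) = (if i = 2 then L⁻¹ else 1) • (Pi.single i (1 : ℝ) : E3) := by
  ext k
  rw [RL_symm_apply]
  by_cases h : k = i
  · subst h
    simp
  · simp [h]

theorem enorm_Dc_out {L : ℝ} (hL : 0 < L) (g : E3 → E3) (i : Fin 3) (x : R3) :
    ‖Dc (out L hL.ne' g) i x‖ₑ ≤ ENNReal.ofReal (cE * (if i = 2 then L⁻¹ else 1)) *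
      ‖fderiv ℝ g ((RL L hL.ne').symm (e3 x))‖ₑ := by
  rw [Dc_out]
  refine (enorm_e3_symm _).trans ?_
  rw [RL_symm_single hL.ne', map_smul, enorm_smul]
  have h1 : ‖fderiv ℝ g ((RL L hL.ne').symm (e3 x)) (Pi.single i (1 : ℝ))‖ₑ ≤
      ‖fderiv ℝ g ((RL L hL.ne').symm (e3 x))‖ₑ := by
    have h2 := (fderiv ℝ g ((RL L hL.ne').symm (e3 x))).le_opENorm (Pi.single i (1 : ℝ))
    refine h2.trans ?_
    have h3 : ‖(Pi.single i (1 : ℝ) : E3)‖ₑ = 1 := by
      rw [← ofReal_norm, Pi.norm_single]; simp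
    rw [h3, mul_one]
  have h4 : ‖(if i = 2 then L⁻¹ else 1 : ℝ)‖ₑ = ENNReal.ofReal (if i = 2 then L⁻¹ else 1) := by
    rw [Real.enorm_eq_ofReal]
    split_ifs <;> positivity
  rw [h4, ENNReal.ofReal_mul cE_pos.le, mul_assoc]
  gcongr

theorem lint_out {L p : ℝ} (hL : 0 < L) (hp : 0 < p) (g : E3 → E3) (i : Fin 3) (S : Set E3) :
    ∫⁻ x in e3 ⁻¹' S, ‖Dc (out L hL.ne' g) i x‖ₑ ^ p ≤
      ENNReal.ofReal ((cE * (if i = 2 then L⁻¹ else 1)) ^ p) *
        (ENNReal.ofReal L * ∫⁻ y in (RL L hL.ne') ⁻¹' S, ‖fderiv ℝ g y‖ₑ ^ p) := by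
  have hc0 : 0 ≤ cE * (if i = 2 then L⁻¹ else 1) := by
    have := cE_pos
    split_ifs <;> positivity
  calc ∫⁻ x in e3 ⁻¹' S, ‖Dc (out L hL.ne' g) i x‖ₑ ^ p
      ≤ ∫⁻ x in e3 ⁻¹' S, ENNReal.ofReal ((cE * (if i = 2 then L⁻¹ else 1)) ^ p) *
        ‖fderiv ℝ g ((RL L hL.ne').symm (e3 x))‖ₑ ^ p := by
        refine lintegral_mono fun x => ?_
        calc _ ≤ (ENNReal.ofReal (cE * (if i = 2 then L⁻¹ else 1)) *
              ‖fderiv ℝ g ((RL L hL.ne').symm (e3 x))‖ₑ) ^ p :=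
              ENNReal.rpow_le_rpow (enorm_Dc_out hL g i x) hp.le
          _ = _ := by
            rw [ENNReal.mul_rpow_of_nonneg _ _ hp.le, ENNReal.ofReal_rpow_of_nonneg hc0 hp.le]
    _ = ENNReal.ofReal ((cE * (if i = 2 then L⁻¹ else 1)) ^ p) *
        ∫⁻ x in e3 ⁻¹' S, ‖fderiv ℝ g ((RL L hL.ne').symm (e3 x))‖ₑ ^ p := by
        rw [lintegral_const_mul' _ _ ENNReal.ofReal_ne_top]
    _ = ENNReal.ofReal ((cE * (if i = 2 then L⁻¹ else 1)) ^ p) *
        (ENNReal.ofReal L * ∫⁻ y in (RL L hL.ne') ⁻¹' S, ‖fderiv ℝ g y‖ₑ ^ p) := by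
        congr 1
        rw [lint_e3 (fun y => ‖fderiv ℝ g ((RL L hL.ne').symm y)‖ₑ ^ p) S]
        have h := lint_RL hL (fun y => ‖fderiv ℝ g ((RL L hL.ne').symm y)‖ₑ ^ p) S
        simp only [ContinuousLinearEquiv.symm_apply_apply] at h
        rw [h, ← mul_assoc, ← ENNReal.ofReal_mul hL.le, one_div, mul_inv_cancel₀ hL.ne',
          ENNReal.ofReal_one, one_mul]

theorem sl3_out {L : ℝ} (hL : L ≠ 0) (g : E3 → E3) (c : ℝ) (y : Fin 2 → ℝ) :
    sl3 (out L hL g) (L * c) y = e3.symm (sl g c 2 y) := by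
  unfold sl3 out sl
  show e3.symm (g ((RL L hL).symm (e3 (e3.symm (Fin.insertNth 2 (L * c) y))))) = _
  rw [ContinuousLinearEquiv.apply_symm_apply]
  congr 2
  ext k
  rw [RL_symm_apply]
  refine (2 : Fin 3).succAboveCases ?_ (fun i => ?_) k
  · rw [Fin.insertNth_apply_same, Fin.insertNth_apply_same, if_pos rfl]
    field_simp
  · rw [Fin.insertNth_apply_succAbove, Fin.insertNth_apply_succAbove,
      if_neg (Fin.succAbove_ne _ _), mul_one]

theorem Dp_sl3_out {L : ℝ} (hL : L ≠ 0) (g : E3 → E3) (c : ℝ) (i : Fin 2) (y : Fin 2 → ℝ) :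
    Dp (sl3 (out L hL g) (L * c)) i y = e3.symm (Dp (sl g c 2) i y) := by
  have h1 : sl3 (out L hL g) (L * c) = e3.symm ∘ sl g c 2 := by
    funext y; exact sl3_out hL g c y
  unfold Dp
  rw [h1, ContinuousLinearEquiv.comp_fderiv]
  rfl

theorem dg_eq (s : Fin 3 → ℝ) (i : Fin 3) : dg s i = e3.symm (Pi.single i (s i)) := by
  ext k
  rw [e3_symm_apply]
  unfold dg
  simp [Pi.single_apply]

theorem lint_layer {L p : ℝ} (hL : L ≠ 0) (hp : 0 < p) (g : E3 → E3) (s : Fin 3 → ℝ) (c : ℝ)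
    (i : Fin 2) (S : Set (Fin 2 → ℝ)) :
    ∫⁻ y in S, ‖Dp (sl3 (out L hL g) (L * c)) i y - dg s ((2 : Fin 3).succAbove i)‖ₑ ^ p ≤
      ENNReal.ofReal (cE ^ p) * ∫⁻ y in S, ‖Dp (sl g c 2) i y - Pi.single ((2 : Fin 3).succAbove i)
              (s ((2 : Fin 3).succAbove i))‖ₑ ^ p := by
  rw [← lintegral_const_mul' _ _ ENNReal.ofReal_ne_top]
  refine lintegral_mono fun y => ?_
  rw [Dp_sl3_out, dg_eq, ← map_sub, ← ENNReal.ofReal_rpow_of_nonneg cE_pos.le hp.le,
    ← ENNReal.mul_rpow_of_nonneg _ _ hp.le]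
  exact ENNReal.rpow_le_rpow (enorm_e3_symm _) hp.le

theorem vol_shell {η : ℝ} (hη : 0 < η) (hη' : η ≤ 1 / 8) :
    volume (Sh3 η) ≤ ENNReal.ofReal (48 * η) := by
  have h1 : Sh3 η ⊆ e3 ⁻¹' (ball 0 1 \ ball 0 (1 - 2 * η)) := by
    rintro x ⟨hx, i, hi⟩
    rw [preimage_sdiff, ← Q0_eq]
    refine ⟨hx, fun h => ?_⟩
    have := (mem_ball_e3 (by linarith)).1 h i
    linarith
  have h2 := lint_e3 (fun _ => 1) (ball 0 1 \ ball 0 (1 - 2 * η))
  simp only [lintegral_const, Measure.restrict_apply, MeasurableSet.univ, univ_inter, one_mul] at h2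
  refine (measure_mono h1).trans ?_
  rw [h2, measure_sdiff (ball_subset_ball (by linarith)) measurableSet_ball.nullMeasurableSet
    measure_ball_lt_top.ne, Real.volume_pi_ball _ one_pos, Real.volume_pi_ball _ (by linarith),
    ← ENNReal.ofReal_sub _ (pow_nonneg (by linarith) _)]
  apply ENNReal.ofReal_le_ofReal
  simp only [Fintype.card_fin]
  nlinarith [mul_pos hη hη, mul_pos hη (mul_pos hη hη)]

theorem nol_of_nos {p : ℝ} (hp : 0 < p) (h : NOS p) : NOL p := by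
  intro s hs hs2 e he
  set c : ℝ := cE ^ p with hc
  have hc0 : 0 < c := Real.rpow_pos_of_pos cE_pos p
  set e' : ℝ := e / (2 * c) with he'
  have he'0 : 0 < e' := by positivity
  have hce' : c * e' = e / 2 := by rw [he']; field_simp
  obtain ⟨K, hK, H⟩ := h s hs hs2 e' he'0
  set Sg : ℝ := ∑ i, (s i) ^ p with hSg
  have hSg0 : 0 ≤ Sg := Finset.sum_nonneg fun i _ => Real.rpow_nonneg (hs i) p
  set A : ℝ := 2 * (c * K) + 48 * Sg + 1 with hA
  have hcK : 0 < c * K := mul_pos hc0 hK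
  have hA0 : 0 < A := by positivity
  set η : ℝ := min (1 / 8) (e / (2 * A)) with hη
  have hη0 : 0 < η := lt_min (by norm_num) (by positivity)
  have hη1 : η ≤ 1 / 8 := min_le_left _ _
  have hηA : A * η ≤ e / 2 := by
    have : η ≤ e / (2 * A) := min_le_right _ _
    calc A * η ≤ A * (e / (2 * A)) := mul_le_mul_of_nonneg_left this hA0.le
      _ = e / 2 := by field_simp
  -- L
  obtain ⟨L, hL⟩ := exists_nat_gt (max 1 (3 / η * (c * K / e) ^ (1 / p)))
  have hL1 : (1 : ℝ) < L := lt_of_le_of_lt (le_max_left _ _) hL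
  have hL2 : 3 / η * (c * K / e) ^ (1 / p) < L := lt_of_le_of_lt (le_max_right _ _) hL
  have hL0 : (0 : ℝ) < L := by linarith
  have hLn : 1 ≤ L := by exact_mod_cast hL1.le
  obtain ⟨d, hd, H'⟩ := H η L e' hη0 hη1 hLn he'0
  refine ⟨η, hη0, hη1, d, hd, ?_⟩
  intro U W f G hU1 hU2 hU3 hW1 hW2 hW3 hQ hSH hG hvol
  obtain ⟨g, ⟨gi, g1, g2, g3, g4, g5, g6⟩, gPL, gb, gE, gS, N, z, hN, hz, hsum⟩ :=
    H' U W f G hU1 hU2 hU3 hW1 hW2 hW3 hQ hSH hG hvol
  have hQL : QL L = (RL L hL0.ne') ⁻¹' ball 0 1 := QL_eq hL0.ne'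
  have hmem : ∀ x, x ∈ Q0 ↔ (RL L hL0.ne').symm (e3 x) ∈ QL L := by
    intro x
    rw [hQL, mem_preimage, ContinuousLinearEquiv.apply_symm_apply, Q0_eq]; rfl
  refine ⟨out L hL0.ne' g, ?_, ?_, ?_, ?_, ?_, N, fun k => L * z k, hN, hz, ?_⟩
  · -- homeo
    refine ⟨fun y => e3.symm (RL L hL0.ne' (gi (e3 y))), ?_, ?_, ?_, ?_, ?_, ?_⟩
    · intro x hx
      obtain ⟨y, hy, hyx⟩ := g1 ((hmem x).1 hx)
      have : out L hL0.ne' g x = y := by
        unfold out
        rw [← hyx, ContinuousLinearEquiv.symm_apply_apply]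
      rw [this]; exact hy
    · intro y hy
      have h1 := g2 (mem_image_of_mem e3 hy)
      rw [hmem, ContinuousLinearEquiv.apply_symm_apply, ContinuousLinearEquiv.symm_apply_apply]
      exact h1
    · intro x hx
      show e3.symm (RL L hL0.ne' (gi (e3 (out L hL0.ne' g x)))) = x
      unfold out
      rw [ContinuousLinearEquiv.apply_symm_apply, g3 _ ((hmem x).1 hx),
        ContinuousLinearEquiv.apply_symm_apply, ContinuousLinearEquiv.symm_apply_apply]
    · intro y hy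
      show out L hL0.ne' g (e3.symm (RL L hL0.ne' (gi (e3 y)))) = y
      unfold out
      rw [ContinuousLinearEquiv.apply_symm_apply, ContinuousLinearEquiv.symm_apply_apply,
        g4 _ (mem_image_of_mem e3 hy), ContinuousLinearEquiv.symm_apply_apply]
    · show ContinuousOn (fun x => e3.symm (g ((RL L hL0.ne').symm (e3 x)))) Q0
      refine e3.symm.continuous.comp_continuousOn (g5.comp ?_ fun x hx => (hmem x).1 hx)
      exact ((RL L hL0.ne').symm.continuous.comp e3.continuous).continuousOn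
    · refine e3.symm.continuous.comp_continuousOn ((RL L hL0.ne').continuous.comp_continuousOn
        (g6.comp e3.continuous.continuousOn fun y hy => mem_image_of_mem e3 hy))
  · -- PL
    have h1 : PLMap (fun x : R3 => (RL L hL0.ne').symm (e3 x)) :=
      PLMap.of_affine ((e3.trans (RL L hL0.ne').symm : R3 ≃L[ℝ] E3) : R3 →ₗ[ℝ] E3).toAffineMap
    have h2 : LocPL (fun x : R3 => g ((RL L hL0.ne').symm (e3 x))) Q0 :=
      locPL_comp gPL h1 fun x hx => (hmem x).1 hx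
    have h3 : LocPL (fun z : E3 => e3.symm z) univ := by
      intro x _
      refine ⟨1, one_pos, {(e3.symm : E3 →ₗ[ℝ] R3).toAffineMap}, e3.symm.continuous.continuousOn, ?_⟩
      intro y _
      exact ⟨_, Finset.mem_singleton_self _, rfl⟩
    intro x hx
    obtain ⟨r, hr, S, hc1, hS⟩ := h2 x hx
    classical
    refine ⟨r, hr, S.image (fun a => (e3.symm : E3 →ₗ[ℝ] R3).toAffineMap.comp a),
      e3.symm.continuous.comp_continuousOn hc1, ?_⟩
    intro y hy
    obtain ⟨a, ha, hay⟩ := hS y hy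
    refine ⟨_, Finset.mem_image_of_mem _ ha, ?_⟩
    show e3.symm (g ((RL L hL0.ne').symm (e3 y))) = e3.symm (a y)
    exact congrArg e3.symm hay
  · -- boundary values
    intro w hw
    rw [Metric.tendsto_nhds]
    intro ε hε
    filter_upwards [gb w hw (ε / (2 * cE)) (by have := cE_pos; positivity), self_mem_nhdsWithin]
      with x hx hxQ
    have h1 := hx ((RL L hL0.ne').symm (e3 x)) ((hmem x).1 hxQ)
      (by rw [RL_symm_apply]; simp [e3_apply]) (by rw [RL_symm_apply]; simp [e3_apply])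
      (by rw [RL_symm_apply, if_pos rfl, e3_apply]; field_simp)
    rw [dist_zero_right]
    have h2 : out L hL0.ne' g x - f x = e3.symm (g ((RL L hL0.ne').symm (e3 x)) - e3 (f x)) := by
      rw [map_sub, ContinuousLinearEquiv.symm_apply_apply]; rfl
    rw [h2]
    have h3 := (e3.symm : E3 →L[ℝ] R3).le_opNorm (g ((RL L hL0.ne').symm (e3 x)) - e3 (f x))
    have h4 : ‖(e3.symm : E3 →L[ℝ] R3)‖ ≤ cE := by unfold cE; linarith
    calc _ ≤ ‖(e3.symm : E3 →L[ℝ] R3)‖ * ‖g ((RL L hL0.ne').symm (e3 x)) - e3 (f x)‖ := h3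
      _ ≤ cE * (ε / (2 * cE)) := mul_le_mul h4 h1 (norm_nonneg _) cE_pos.le
      _ = ε / 2 := by have := cE_pos; field_simp
      _ < ε := by linarith
  · -- shell terms
    intro i hi
    have hi1 : (if i = 2 then (L : ℝ)⁻¹ else 1) = 1 := if_neg hi
    have q1 : ∫⁻ x in Sh3 η, ‖Dc (out L hL0.ne' g) i x‖ₑ ^ p ≤ ENNReal.ofReal (c * (K * η + e')) := by
      have h1 := lint_out hL0 hp g i (e3.symm ⁻¹' (Sh3 η))
      have h2 : e3 ⁻¹' (e3.symm ⁻¹' (Sh3 η)) = Sh3 η := by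
        ext x; simp only [mem_preimage, ContinuousLinearEquiv.symm_apply_apply]
      have h3 : (RL L hL0.ne') ⁻¹' (e3.symm ⁻¹' (Sh3 η)) = ShL L η := by
        rw [← ShL_eq hL0.ne' η]
        exact preimage_image_eq _ (RL L hL0.ne').injective
      rw [h2, h3, hi1, mul_one] at h1
      refine h1.trans ?_
      calc ENNReal.ofReal (cE ^ p) * (ENNReal.ofReal L * ∫⁻ y in ShL L η, ‖fderiv ℝ g y‖ₑ ^ p)
          ≤ ENNReal.ofReal (cE ^ p) * (ENNReal.ofReal L * ENNReal.ofReal ((K * η + e') / L)) := by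
            gcongr
        _ = ENNReal.ofReal (c * (K * η + e')) := by
            rw [← ENNReal.ofReal_mul hL0.le, ← ENNReal.ofReal_mul hc0.le]
            congr 1
            field_simp
    have q2 : ∫⁻ x in Q0, ‖Dc (out L hL0.ne' g) i x‖ₑ ^ p ≤ ENNReal.ofReal (c * K) := by
      have h1 := lint_out hL0 hp g i (ball 0 1)
      rw [← Q0_eq, ← hQL, hi1, mul_one] at h1
      refine h1.trans ?_
      calc ENNReal.ofReal (cE ^ p) * (ENNReal.ofReal L * ∫⁻ y in QL L, ‖fderiv ℝ g y‖ₑ ^ p)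
          ≤ ENNReal.ofReal (cE ^ p) * (ENNReal.ofReal L * ENNReal.ofReal (K / L)) := by
            gcongr
        _ = ENNReal.ofReal (c * K) := by
            rw [← ENNReal.ofReal_mul hL0.le, ← ENNReal.ofReal_mul hc0.le]
            congr 1
            field_simp
    have q3 : ‖dg s i‖ₑ ^ p ≤ ENNReal.ofReal Sg := by
      have h1 : ‖dg s i‖ = s i := by
        unfold dg
        rw [EuclideanSpace.norm_single, Real.norm_eq_abs, abs_of_nonneg (hs i)]
      rw [← ofReal_norm, h1, ENNReal.ofReal_rpow_of_nonneg (hs i) hp.le]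
      apply ENNReal.ofReal_le_ofReal
      exact Finset.single_le_sum (f := fun i => (s i) ^ p)
        (fun j _ => Real.rpow_nonneg (hs j) p) (Finset.mem_univ i)
    calc _ ≤ ENNReal.ofReal (c * (K * η + e')) + ENNReal.ofReal (η / 2) * ENNReal.ofReal (c * K) +
          ENNReal.ofReal Sg * ENNReal.ofReal (48 * η) := by
          gcongr
          exact vol_shell hη0 hη1
      _ = ENNReal.ofReal (c * (K * η + e') + η / 2 * (c * K) + Sg * (48 * η)) := by
          rw [← ENNReal.ofReal_mul (by positivity), ← ENNReal.ofReal_mul hSg0,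
            ← ENNReal.ofReal_add (by positivity) (by positivity),
            ← ENNReal.ofReal_add (by positivity) (by positivity)]
      _ ≤ ENNReal.ofReal e := by
          apply ENNReal.ofReal_le_ofReal
          have h1 : c * (K * η + e') + η / 2 * (c * K) + Sg * (48 * η) =
            (3 / 2 * (c * K) + 48 * Sg) * η + c * e' := by ring
          rw [h1, hce']
          have h2 : (3 / 2 * (c * K) + 48 * Sg) * η ≤ A * η := by
            apply mul_le_mul_of_nonneg_right _ hη0.le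
            rw [hA]; linarith
          linarith
  · -- the long direction
    have h1 := lint_out hL0 hp g 2 (ball 0 1)
    rw [← Q0_eq, ← hQL, if_pos rfl] at h1
    have hb : 0 ≤ (3 / η) ^ p := by positivity
    have hLp : (0 : ℝ) ≤ (cE * (L : ℝ)⁻¹) ^ p := by have := cE_pos; positivity
    calc ENNReal.ofReal (3 / η) ^ p * (∫⁻ x in Q0, ‖Dc (out L hL0.ne' g) 2 x‖ₑ ^ p)
        ≤ ENNReal.ofReal ((3 / η) ^ p) * (ENNReal.ofReal ((cE * (L : ℝ)⁻¹) ^ p) *
          (ENNReal.ofReal L * ENNReal.ofReal (K / L))) := by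
          rw [ENNReal.ofReal_rpow_of_nonneg (by positivity) hp.le]
          gcongr
          exact h1.trans (by gcongr)
      _ = ENNReal.ofReal ((3 / η) ^ p * ((cE * (L : ℝ)⁻¹) ^ p * K)) := by
          rw [← ENNReal.ofReal_mul hL0.le, ← ENNReal.ofReal_mul hLp, ← ENNReal.ofReal_mul hb]
          congr 3
          field_simp
      _ ≤ ENNReal.ofReal e := by
          apply ENNReal.ofReal_le_ofReal
          rw [Real.mul_rpow cE_pos.le (by positivity), ← hc]
          have h2 : (3 / η) ^ p * (c * (L : ℝ)⁻¹ ^ p * K) = (3 / η * (L : ℝ)⁻¹) ^ p * (c * K) := by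
            rw [Real.mul_rpow (by positivity) (by positivity)]; ring
          rw [h2]
          have h3 : 3 / η * (L : ℝ)⁻¹ ≤ ((c * K / e) ^ (1 / p))⁻¹ := by
            have h4 : 0 < (c * K / e) ^ (1 / p) := Real.rpow_pos_of_pos (by positivity) _
            rw [← div_eq_mul_inv, div_le_iff₀ hL0, inv_mul_eq_div, le_div_iff₀ h4]
            exact hL2.le
          have h5 : (3 / η * (L : ℝ)⁻¹) ^ p ≤ (((c * K / e) ^ (1 / p))⁻¹) ^ p :=
            Real.rpow_le_rpow (by positivity) h3 hp.le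
          have h6 : (((c * K / e) ^ (1 / p))⁻¹) ^ p = e / (c * K) := by
            rw [Real.inv_rpow (Real.rpow_nonneg (by positivity) _), ← Real.rpow_mul (by positivity),
              one_div_mul_cancel hp.ne', Real.rpow_one, inv_div]
          calc _ ≤ e / (c * K) * (c * K) := by
                rw [h6] at h5
                exact mul_le_mul_of_nonneg_right h5 hcK.le
            _ = e := by field_simp
  · -- layers
    calc ∑ k, ∑ i : Fin 2, (∫⁻ y in ball (0 : Fin 2 → ℝ) (1 - η),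
            ‖Dp (sl3 (out L hL0.ne' g) (L * z k)) i y - dg s ((2 : Fin 3).succAbove i)‖ₑ ^ p)
        ≤ ∑ k, ∑ i : Fin 2, (ENNReal.ofReal c * ∫⁻ y in ball (0 : Fin 2 → ℝ) (1 - η),
            ‖Dp (sl g (z k) 2) i y - Pi.single ((2 : Fin 3).succAbove i)
              (s ((2 : Fin 3).succAbove i))‖ₑ ^ p) := by
          refine Finset.sum_le_sum fun k _ => Finset.sum_le_sum fun i _ => ?_
          exact lint_layer hL0.ne' hp g s (z k) i _
      _ = ENNReal.ofReal c * ∑ k, ∑ i : Fin 2, (∫⁻ y in ball (0 : Fin 2 → ℝ) (1 - η),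
            ‖Dp (sl g (z k) 2) i y - Pi.single ((2 : Fin 3).succAbove i)
              (s ((2 : Fin 3).succAbove i))‖ₑ ^ p) := by
          simp only [Finset.mul_sum]
      _ ≤ ENNReal.ofReal c * (N * ENNReal.ofReal e') := by gcongr
      _ = N * ENNReal.ofReal (c * e') := by rw [ENNReal.ofReal_mul hc0.le]; ring
      _ ≤ N * ENNReal.ofReal e := by
          gcongr
          rw [hce']; linarith

end

end Crest.Agent.R096.No_276
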