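import Crest.Agent.R096.Bmd2_798
import Crest.Agent.R096.No1_276
import Mathlib
import Crest.Agent.R096.Bmd1_798
import Crest.Agent.R096.SkC1_961
import Crest.Agent.R096.Np5_962
import Crest.Agent.R096.Fns4_360
import Crest.Agent.R096.Gno5_324
import Crest.Agent.R096.Np4_962
import Crest.Agent.R096.Fnn2_635
import Crest.Agent.R096.Mdd10_360
import Crest.Agent.R096.Mfs2_168
import Crest.Agent.R096.Pgn2_112
import Crest.Agent.R096.Np7_962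

-- ▼ part R096/Bmd3_798
section

/-!
Row 96 (S0127), helper798.  NO0-PRE3, [GEO-N]: the block of squares and the geometric fields of 962's
`MeshN` for the capped mesh of core blocks on `QL L`.

* `scQ_cap` : all outer tiles of the capped mesh have scale `≥ K0`
* `BB` : the bulk box, `geo_at` : block of squares at one shift
* **`exists_geoN`** : scales `k0`, `K1`, finite set `S` of bulk blocks; all geometric fields of `MeshN`
-/

set_option autoImplicit false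
set_option linter.style.longLine false
set_option linter.unusedSectionVars false

open MeasureTheory Set Filter Topology Metric
open scoped ENNReal

namespace Crest.Agent.R096.Bmd_798

open Crest.Agent.R096.Msh_715 Crest.Agent.R096.Cut_874 Crest.Agent.R096.Msh_810
  Crest.Agent.R096.Mal_874
open Crest.Agent.R096.Gno_324 (cap capD capD_Om capD_ρ capD_C)

section cap

variable {n : ℕ} {E : Type*} [NormedAddCommGroup E] [NormedSpace ℝ E] [NeZero n] {J : Type*}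
  {M : MD E n J} {K0 : ℕ} {hc : 0 < M.D0.C / 2 ^ K0}
  {k : J → ℕ} {hk : (cap M (M.D0.C / 2 ^ K0) hc).Sc k} {a : Fin n → ℝ} {v : J → E}
  {hv : (cap M (M.D0.C / 2 ^ K0) hc).Adm v}

/-- the outer tiles of the capped mesh have scale at least `K0` -/
theorem scQ_cap (p : (cap M (M.D0.C / 2 ^ K0) hc).OIx hk a hv) : K0 ≤ p.1.par.1.1.k := by
  obtain ⟨x, hx⟩ := ((cap M (M.D0.C / 2 ^ K0) hc).ad hk a hv).T0.ne p.1.par
  have h1 : p.1.par ∈ (tiling (cap M (M.D0.C / 2 ^ K0) hc).φ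
      (outD (cap M (M.D0.C / 2 ^ K0) hc).D0 k (cap M (M.D0.C / 2 ^ K0) hc).W a)).at_ x :=
    I_sub_P _ hx
  have h2 := p.1.par.1.2.lower (mem_at.1 h1)
  have h3 := outD_le_ρ0 (D0 := (cap M (M.D0.C / 2 ^ K0) hc).D0) (k := k)
    (W := (cap M (M.D0.C / 2 ^ K0) hc).W) (a := a) ((cap M (M.D0.C / 2 ^ K0) hc).φ x)
  have h4 : (outD (cap M (M.D0.C / 2 ^ K0) hc).D0 k (cap M (M.D0.C / 2 ^ K0) hc).W a).ρ
      ((cap M (M.D0.C / 2 ^ K0) hc).φ x) ≤ M.D0.C / 2 ^ K0 := h3.trans (min_le_right _ _)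
  have hC := M.D0.C_pos
  have h5 : M.D0.C ≤ 2 ^ p.1.par.1.1.k * (M.D0.C / 2 ^ K0) :=
    h2.trans (mul_le_mul_of_nonneg_left h4 (by positivity))
  by_contra hcon
  push Not at hcon
  have h6 : (2 : ℝ) ^ (p.1.par.1.1.k + 1) ≤ 2 ^ K0 := pow_le_pow_right₀ (by norm_num) hcon
  have h7 : (0 : ℝ) < 2 ^ K0 := by positivity
  rw [← mul_div_assoc, le_div_iff₀ h7] at h5
  rw [pow_succ] at h6
  have h8 : (0 : ℝ) < 2 ^ p.1.par.1.1.k := by positivity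
  nlinarith

end cap

noncomputable section

open Crest.Agent.R096.SkC1_961 (E3)
open Crest.Agent.R096.No0_477 Crest.Agent.R096.Gno_324
open Crest.Agent.R096.No_276 (QL)

/-! ### the bulk box -/

/-- the bulk box -/
def BB (L : ℕ) (η : ℝ) : Set E3 :=
  {x | (∀ j : Fin 2, |x j.castSucc| ≤ 1 - η / 2) ∧ |(L : ℝ) * x 2| ≤ 3 / 4}

theorem isCompact_BB {L : ℕ} (hL : 1 ≤ L) (η : ℝ) : IsCompact (BB L η) := by
  have hL0 : (1 : ℝ) ≤ L := by exact_mod_cast hL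
  refine Metric.isCompact_of_isClosed_isBounded ?_ ?_
  · have h1 : BB L η = (⋂ j : Fin 2, {x : E3 | |x j.castSucc| ≤ 1 - η / 2}) ∩
        {x : E3 | |(L : ℝ) * x 2| ≤ 3 / 4} := by
      ext x; simp [BB]
    rw [h1]
    refine IsClosed.inter (isClosed_iInter fun j => ?_) ?_
    · exact isClosed_le (by fun_prop) (by fun_prop)
    · exact isClosed_le (by fun_prop) (by fun_prop)
  · refine Metric.isBounded_closedBall (x := (0 : E3)) (r := 1 + |η|) |>.subset fun x hx => ?_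
    rw [mem_closedBall_zero_iff, pi_norm_le_iff_of_nonneg (by positivity)]
    have hη := abs_nonneg η
    have hη2 := neg_abs_le η
    intro i
    rw [Real.norm_eq_abs]
    have h0 := hx.1 0
    have h1 := hx.1 1
    have h2 := hx.2
    fin_cases i
    · show |x 0| ≤ _
      change |x 0| ≤ _ at h0
      linarith
    · show |x 1| ≤ _
      change |x 1| ≤ _ at h1
      linarith
    · show |x 2| ≤ _
      rw [abs_mul, abs_of_pos (by linarith : (0 : ℝ) < L)] at h2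
      have := abs_nonneg (x 2)
      nlinarith

theorem BB_sub {L : ℕ} {η : ℝ} (hη : 0 < η) : BB L η ⊆ QL L := by
  rintro x ⟨h1, h2⟩
  have h3 := h1 0
  have h4 := h1 1
  change |x 0| ≤ _ at h3
  change |x 1| ≤ _ at h4
  exact ⟨by linarith, by linarith, by linarith⟩

open Crest.Agent.R096.Ps_273 (BaseOn Blk)

/-- **[GEO-N]: the geometric fields of `MeshN`** for the capped mesh of core blocks -/
theorem exists_geoN {J : Type} (M : MD E3 3 J) (hφ : ∀ x, M.φ x = x) {L : ℕ} (hL : 1 ≤ L)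
    (hOm : M.D0.Om = QL L) {η : ℝ} (hη0 : 0 < η) (hη : η ≤ 1 / 8) {e5 : ℝ} (he5 : 0 < e5)
    (hvol : ∀ S : Finset J, ∑ j ∈ S, volume (M.Q j).N ≤ ENNReal.ofReal (e5 / L)) :
    ∃ (β : ℝ) (_ : 0 < β), cthickening β (BB L η) ⊆ M.D0.Om ∧
      {j | (M.V j ∩ cthickening β (BB L η)).Nonempty}.Finite ∧
    ∃ k0 : J → ℕ, (∀ k : J → ℕ, (∀ j, k0 j ≤ k j) → M.Sc k) ∧
    ∃ K1 : ℕ, ∀ K0, K1 ≤ K0 → ∀ hc : 0 < M.D0.C / 2 ^ K0, ∀ k : J → ℕ,
      (∀ j, k0 j ≤ k j ∨ (M.V j ∩ cthickening β (BB L η)).Nonempty) → (∀ j, K0 ≤ k j) →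
      (∀ j, (M.V j ∩ cthickening β (BB L η)).Nonempty → k j = K0) →
      ∃ hk : (cap M (M.D0.C / 2 ^ K0) hc).Sc k,
      (∀ (a : Fin 3 → ℝ), ∀ x ∈ cthickening (β / 2) (BB L η),
        K (outD (cap M (M.D0.C / 2 ^ K0) hc).D0 k (cap M (M.D0.C / 2 ^ K0) hc).W a) x = K0) ∧
      ∀ (r : ℝ) (_ : r ≠ 0) (_ : r = ((2 : ℝ) ^ K0)⁻¹),
      4 * r ≤ η ∧ 4 * L * r ≤ 1 ∧ 4 * r ≤ β ∧
      ∀ (a : Fin 3 → ℝ), ∃ (o : Fin 2 → ℤ) (Mm : ℕ) (Zs : Finset ℤ),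
        (∀ j : Fin 2, a j.castSucc + r * o j ≤ -(1 - η) ∧ -1 < a j.castSucc + r * o j) ∧
        (∀ j : Fin 2, 1 - η ≤ a j.castSucc + r * (o j + Mm) ∧ a j.castSucc + r * (o j + Mm) < 1) ∧
        0 < Mm ∧ Zs.Nonempty ∧ (∀ m, m ∈ Zs ↔ |(L : ℝ) * (a 2 + r * m)| ≤ 1 / 2) ∧
        2 / L ≤ ((Zs.card : ℝ) * Mm ^ 2) * r ^ 3 ∧ ((Zs.card : ℝ) * Mm ^ 2) * r ^ 3 ≤ 5 / L ∧
        (∀ m ∈ Zs, ∀ w : Fin 2 → ℕ, (∀ j, w j < Mm) → cub (vx a r o m w) r ⊆ BB L η) ∧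
        Blk (outD (cap M (M.D0.C / 2 ^ K0) hc).D0 k (cap M (M.D0.C / 2 ^ K0) hc).W a) K0 o Mm Zs ∧
        ∀ (v : J → E3) (hv : (cap M (M.D0.C / 2 ^ K0) hc).Adm v)
          (h : (cap M (M.D0.C / 2 ^ K0) hc).φ ⁻¹' (cap M (M.D0.C / 2 ^ K0) hc).D0.Om = QL L),
          ((({q : ℤ × (Fin 2 → ℕ) | q ∈ Fc Mm Zs ∧
            ¬ Ug (reOm ((cap M (M.D0.C / 2 ^ K0) hc).mesh hk a hv) h)
              (Qr (cap M (M.D0.C / 2 ^ K0) hc) hk a hv)ᶜ a r o q.1 q.2}).ncard : ℕ) : ℝ) ≤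
            e5 * ((Zs.card : ℝ) * Mm ^ 2) ∧
          (∀ i ∈ Qr (cap M (M.D0.C / 2 ^ K0) hc) hk a hv, (∃ q ∈ Fc Mm Zs,
            (P ((reOm ((cap M (M.D0.C / 2 ^ K0) hc).mesh hk a hv) h).H i) ∩
              cub (vx a r o q.1 q.2) r).Nonempty) →
            (tau (cap M (M.D0.C / 2 ^ K0) hc) hk a hv i).1.1.k = K0) := by
  classical
  have hL0 : (0 : ℝ) < L := by exact_mod_cast hL
  obtain ⟨β, hβ, hβO, hfin, k0, hk0, K1, hK1⟩ := exists_bulk M (isCompact_BB hL η)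
    (by rw [hOm]; exact BB_sub hη0)
  set S : Finset J := hfin.toFinset with hS
  obtain ⟨ρ, hρ, hth⟩ := thick_sum S (fun j => (M.Q j).N) (fun j _ => (M.Q j).isCompact_N)
    (ε := e5 / L) (by positivity)
  obtain ⟨K2, hK2⟩ : ∃ K2 : ℕ, (1 : ℝ) / 2 ^ K2 ≤ min (min (η / 4) (1 / (4 * L))) (min (β / 4) (ρ / 5)) := by
    have h4 : 0 < min (min (η / 4) (1 / (4 * (L : ℝ)))) (min (β / 4) (ρ / 5)) :=
      lt_min (lt_min (by linarith) (by positivity)) (lt_min (by linarith) (by linarith))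
    obtain ⟨m, hm⟩ := exists_nat_gt (1 / min (min (η / 4) (1 / (4 * (L : ℝ)))) (min (β / 4) (ρ / 5)))
    refine ⟨m, ?_⟩
    rw [div_le_iff₀ (by positivity)]
    rw [div_lt_iff₀ h4] at hm
    have h5 : (m : ℝ) ≤ 2 ^ m := by exact_mod_cast Nat.lt_two_pow_self.le
    nlinarith
  refine ⟨β, hβ, hβO, hfin, k0, hk0, max K1 K2, fun K0 hK0 hc k hk1 hk2 hk3 => ?_⟩
  obtain ⟨hk, hK⟩ := hK1 K0 ((le_max_left _ _).trans hK0) hc k hk1 hk2 hk3
  refine ⟨hk, hK, fun r hr hrK => ?_⟩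
  have hr1 : r = 1 / 2 ^ K0 := by rw [hrK, one_div]
  have hr0 : 0 < r := by rw [hr1]; positivity
  have hsm : r ≤ min (min (η / 4) (1 / (4 * L))) (min (β / 4) (ρ / 5)) := by
    rw [hr1]
    refine le_trans ?_ hK2
    exact one_div_le_one_div_of_le (by positivity)
      (pow_le_pow_right₀ (by norm_num) ((le_max_right _ _).trans hK0))
  have hrη : r ≤ η / 4 := hsm.trans ((min_le_left _ _).trans (min_le_left _ _))
  have hrL' : r ≤ 1 / (4 * L) := hsm.trans ((min_le_left _ _).trans (min_le_right _ _))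
  have hrβ : r ≤ β / 4 := hsm.trans ((min_le_right _ _).trans (min_le_left _ _))
  have hrρ : r ≤ ρ / 5 := hsm.trans ((min_le_right _ _).trans (min_le_right _ _))
  have hrL : 4 * L * r ≤ 1 := by
    rw [le_div_iff₀ (by positivity)] at hrL'
    linarith
  refine ⟨by linarith, hrL, by linarith, fun a => ?_⟩
  obtain ⟨o, Mm, Zs, hM, lo, hi, zne, zs, hcub, N1, N2⟩ :=
    exists_block hL hη hr0 (by linarith) hrL a
  have hcB : ∀ m ∈ Zs, ∀ w : Fin 2 → ℕ, (∀ j, w j < Mm) → cub (vx a r o m w) r ⊆ BB L η := by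
    intro m hm w hw x hx
    obtain ⟨h1, h2⟩ := hcub m hm w hw x hx
    refine ⟨fun j => (h1 j).trans (by linarith), h2.trans ?_⟩
    have : (L : ℝ) * r ≤ 1 / 4 := by linarith
    linarith
  have hBO : BB L η ⊆ (cap M (M.D0.C / 2 ^ K0) hc).D0.Om := by
    show BB L η ⊆ (capD M.D0 _ hc).Om
    rw [capD_Om, hOm]
    exact BB_sub hη0
  have hKB : ∀ x ∈ BB L η, K (outD (cap M (M.D0.C / 2 ^ K0) hc).D0 k
      (cap M (M.D0.C / 2 ^ K0) hc).W a) x = K0 := fun x hx =>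
    hK a x (self_subset_cthickening _ hx)
  have hKev : ∀ x ∈ BB L η, ∀ᶠ y in 𝓝 x, K (outD (cap M (M.D0.C / 2 ^ K0) hc).D0 k
      (cap M (M.D0.C / 2 ^ K0) hc).W a) y = K0 := by
    intro x hx
    filter_upwards [ball_mem_nhds x (show (0 : ℝ) < β / 2 by linarith)] with y hy
    exact hK a y (mem_cthickening_of_dist_le y x _ _ hx (mem_ball.1 hy).le)
  refine ⟨o, Mm, Zs, fun j => ⟨(lo j).1, (lo j).2.2⟩, fun j => ⟨(hi j).1, (hi j).2.2⟩, hM, zne, zs,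
    N1, N2, hcB, blk_of hrK hcB hBO hKB, fun v hv h => ⟨?_, ?_⟩⟩
  · have h1 := bad_Qr_reOm (M := cap M (M.D0.C / 2 ^ K0) hc) (hk := hk) (a := a) (hv := hv) hφ h hr1
      hcB hBO hKev S (fun j hj y hy x hx => ?_) hL (N0 := (Zs.card : ℝ) * Mm ^ 2) (ε := e5) N1
      he5.le ?_
    · rw [← Set.ncard_coe_finset] at h1
      simpa only [Finset.coe_filter] using h1
    · have hj' : ¬ (M.V j ∩ cthickening β (BB L η)).Nonempty := fun h' =>
        hj (hfin.mem_toFinset.2 h')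
      by_contra hcon
      push Not at hcon
      refine hj' ⟨y, ?_, ?_⟩
      · have h2 := MD.N_mem hv j hy
        have h3 : (cap M (M.D0.C / 2 ^ K0) hc).φ y = y := hφ y
        rw [h3] at h2
        exact h2
      · refine mem_cthickening_of_dist_le y x _ _ hx ?_
        rw [dist_comm]; linarith
    · refine (hth (5 * r) (by linarith)).trans ?_
      calc _ ≤ ENNReal.ofReal (e5 / L) + ENNReal.ofReal (e5 / L) := by
            gcongr; exact hvol S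
        _ = ENNReal.ofReal (2 * e5 / L) := by
            rw [← ENNReal.ofReal_add (by positivity) (by positivity)]
            congr 1; ring
  · rintro i ⟨p, rfl, hp⟩ ⟨q, hq, x, hx1, hx2⟩
    have hq3 : q.1 ∈ Zs ∧ ∀ j, q.2 j < Mm := by
      unfold Fc at hq
      rw [Finset.mem_product, Fintype.mem_piFinset] at hq
      exact ⟨hq.1, fun j => Finset.mem_range.1 (hq.2 j)⟩
    exact par_k (M := cap M (M.D0.C / 2 ^ K0) hc) hφ (hKev x (hcB q.1 hq3.1 q.2 hq3.2 hx2)) hx1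

end

end Crest.Agent.R096.Bmd_798
end

-- ▼ part R096/Bme1_922
section

set_option autoImplicit false
set_option linter.unusedSectionVars false

open Set Metric Filter Topology

namespace Crest.Agent.R096.Bme_922

open Crest.Agent.R096.Msh_715 Crest.Agent.R096.Cut_874 Crest.Agent.R096.Msh_810
  Crest.Agent.R096.Mal_874 Crest.Agent.R096.Bmd_798
open Crest.Agent.R096.SkC1_961 (E3 Cfg)

noncomputable section

variable {J : Type} (M : MD E3 3 J) {k : J → ℕ} (hk : M.Sc k) (a : Fin 3 → ℝ) {v : J → E3}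
  (hv : M.Adm v)

/-- linear part of a frame -/
theorem lin_chi (φ : E3 ≃L[ℝ] (Fin 3 → ℝ)) (k : ℕ) (z : Fin 3 → ℤ) (y : E3) :
    ((chi φ a k).trans (trz z)).linear y = (2 : ℝ) ^ k • φ y := by
  have h := ((chi φ a k).trans (trz z)).toAffineMap.linearMap_vsub y 0
  have h1 : ((chi φ a k).trans (trz z)).linear (y -ᵥ 0) =
    ((chi φ a k).trans (trz z)) y -ᵥ ((chi φ a k).trans (trz z)) 0 := h
  rw [vsub_eq_sub, sub_zero, vsub_eq_sub] at h1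
  rw [h1]
  funext m
  rw [Pi.sub_apply, AffineEquiv.trans_apply, AffineEquiv.trans_apply, trz_apply, trz_apply]
  simp only [chi_apply, map_zero, Pi.zero_apply, Pi.smul_apply, smul_eq_mul]
  ring

/-- the universal list of configurations of the ordinary outer tiles -/
def S0 : Set (Set (Set E3)) := simL (N0 3) 1 2

theorem S0_finite : S0.Finite := simL_finite _ _ _

/-- **(d)**, good tiles -/
theorem frame_of_good {Om : Set E3} {ι : Type} {T : Tiling Om ι} {i : ι}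
    {φ : E3 ≃L[ℝ] (Fin 3 → ℝ)} (hφ : ∀ x, ‖φ x‖ ≤ ‖x‖) {s : ℕ}
    (hG : Good T i (chi φ a (s + 1)) (s + 1) (N0 3) 1 2) :
    ∃ B : E3 ≃ᵃ[ℝ] E3, (∀ y, ‖B.linear y‖ ≤ 2 * 2 ^ s * ‖y‖) ∧
      (fun K => B '' K) '' Cfg T i ∈ S0 := by
  obtain ⟨z, hz⟩ := hG.sim one_pos (N0_rat one_pos)
  refine ⟨(chi φ a (s + 1)).trans (trz z), fun y => ?_, hz⟩
  rw [lin_chi, norm_smul, Real.norm_eq_abs, abs_of_pos (by positivity), pow_succ]
  have h1 := hφ y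
  have h2 : (0 : ℝ) < 2 ^ s := by positivity
  nlinarith

/-- **(d) of [B1]**: frame of scale `2 * 2 ^ k` (`k` = scale of the parent cube), configuration in
the finite universal list `S0` -/
theorem frame_of_Qr (hφ : ∀ x, ‖M.φ x‖ ≤ ‖x‖) {i : TI M hk a hv} (hi : i ∈ Qr M hk a hv) :
    ∃ B : E3 ≃ᵃ[ℝ] E3, (∀ y, ‖B.linear y‖ ≤ 2 * 2 ^ (tau M hk a hv i).1.1.k * ‖y‖) ∧
      (fun K => B '' K) '' Cfg (M.mesh hk a hv) i ∈ S0 := by
  obtain ⟨p, rfl, h⟩ := hi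
  exact frame_of_good a hφ (good_of_Qr h).2.2


end

end Crest.Agent.R096.Bme_922
end

-- ▼ part R096/Bmd4_798
section

/-!
Row 96 (S0127), helper798.  NO0-PRE3, (M1) of 962 #11558: **assembly of `MeshN`** for 874's mesh of core
blocks (`T := reOm M.mesh`, `Q := Qr`, `τ := tau`).
-/

set_option autoImplicit false
set_option linter.style.longLine false
set_option linter.unusedSectionVars false
set_option linter.unusedVariables false

open MeasureTheory Set Filter Topology Metric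
open scoped ENNReal

noncomputable section

namespace Crest.Agent.R096.Bmd_798

open Crest.Agent.R096.Msh_715 hiding P I
open Crest.Agent.R096.SkC1_961 (E3 Cfg FoamD Hom3 NN)
open Crest.Agent.R096.Ls_222
open Crest.Agent.R096.Mbf_337
open Crest.Agent.R96.Pm_199 (le Dec)
open Crest.Agent.R096.Msh_810 Crest.Agent.R96.En2_199 Crest.Agent.R96.En4_199
  Crest.Agent.R96.En9_199 Crest.Agent.R96.En11_199
open Crest.Agent.R096.Ps_273
open Crest.Agent.R096.No0_477 (cub fr Fc vx)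
open Crest.Agent.R096.SkN1_477 (usq)
open Crest.Agent.R096.No_276 (QL)
open Crest.Agent.R096.Gno_324 (Ug)
open Crest.Agent.R096.Ea_713 (lin)
open Crest.Agent.R096.Log2_582 (IsLog)
open Crest.Agent.R096.Mal_874 (MD reOm outD)
open Crest.Agent.R096.Np_962
open Crest.Agent.R096.Pmc_112 (Gd')

variable {δ κ0 R c0 : ℝ} {La : Set E3}

theorem norm_lin_le {B : E3 ≃ᵃ[ℝ] E3} {C : ℝ} (hC : 0 ≤ C) (h : ∀ y, ‖B.linear y‖ ≤ C * ‖y‖) :
    ‖lin B‖ ≤ C :=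
  ContinuousLinearMap.opNorm_le_bound _ hC h

/-- the frames of `MeshN`: universal frames on `Qr`, the given ones off `Qr` -/
theorem exists_frN {J : Type} (M : MD E3 3 J) {k : J → ℕ} (hk : M.Sc k) (a : Fin 3 → ℝ) {v : J → E3}
    (hv : M.Adm v) (hφ : ∀ x, M.φ x = x) (fr : TI M hk a hv → E3 ≃ᵃ[ℝ] E3) :
    ∃ B : TI M hk a hv → E3 ≃ᵃ[ℝ] E3,
      (∀ i ∈ Qr M hk a hv, ‖lin (B i)‖ ≤ 2 * 2 ^ (tau M hk a hv i).1.1.k ∧
        (fun K => B i '' K) '' Cfg (M.mesh hk a hv) i ∈ Bme_922.S0) ∧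
      ∀ i, i ∉ Qr M hk a hv → B i = fr i := by
  classical
  have h1 : ∀ i, ∃ B : E3 ≃ᵃ[ℝ] E3, (i ∈ Qr M hk a hv → ‖lin B‖ ≤ 2 * 2 ^ (tau M hk a hv i).1.1.k ∧
      (fun K => B '' K) '' Cfg (M.mesh hk a hv) i ∈ Bme_922.S0) ∧ (i ∉ Qr M hk a hv → B = fr i) := by
    intro i
    by_cases hi : i ∈ Qr M hk a hv
    · obtain ⟨B, hB1, hB2⟩ := Bme_922.frame_of_Qr M hk a hv (fun x => by rw [hφ]) hi
      exact ⟨B, fun _ => ⟨norm_lin_le (by positivity) hB1, hB2⟩, fun h => absurd hi h⟩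
    · exact ⟨fr i, fun h => absurd h hi, fun _ => rfl⟩
  choose B hB1 hB2 using h1
  exact ⟨B, fun i hi => hB1 i hi, fun i hi => hB2 i hi⟩

/-- **ASSEMBLY OF `MeshN`** -/
theorem meshN_of {Φ : FoamD δ κ0 R c0 La} {J : Type} {M : MD E3 3 J} {k : J → ℕ} {hk : M.Sc k}
    {a : Fin 3 → ℝ} {v : J → E3} {hv : M.Adm v} (hφ : ∀ x, M.φ x = x) {L : ℕ}
    (hO : M.φ ⁻¹' M.D0.Om = QL L)
    {p : ℝ} {q : ℕ} {al : Fin 3 → ℝ} {h : ℝ} {s : Fin 3 → ℝ} {η : ℝ} {f1 : E3 → E3}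
    {g : Φ.F → Fin 3 → E3 → ℝ} {W : Φ.F → ℝ} {κ' μ κ1 κ2 κ3 : ℝ} {Cs : Set (Set E3) → ℝ}
    {HH R' : Set E3} {e1 e2 e3 e4 : ℝ≥0∞} {e5 : ℝ} {Ku : ℝ≥0∞} {K0 : ℕ} {r : ℝ} {hr : r ≠ 0}
    {o : Fin 2 → ℤ} {Mm : ℕ} {Zs : Finset ℤ}
    {J0 Jt V : Φ.F → Set (TI M hk a hv)} {ct : Φ.F → TI M hk a hv} {A : Φ.F → E3 ≃ᵃ[ℝ] E3}
    {lam : Φ.F → ℝ} {z : Φ.F → E3} {θ : Φ.F → E3 → E3} {φ : Φ.F → E3 → ℝ} {Mg : Φ.F → ℕ}
    {D' : E3 → E3 →L[ℝ] E3} {cw : TI M hk a hv → ℝ≥0∞} (fr : TI M hk a hv → E3 ≃ᵃ[ℝ] E3)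
    (b : Φ.F → J) (hb : Function.Injective b)
    (hct : ∀ c, ct c = Sum.inr ⟨b c, M.core hk a hv (b c)⟩)
    -- the block of squares (`exists_geoN`)
    (rK : r = ((2:ℝ) ^ K0)⁻¹)
    (lo : ∀ j : Fin 2, a j.castSucc + r * o j ≤ -(1 - η) ∧ -1 < a j.castSucc + r * o j)
    (hi : ∀ j : Fin 2, 1 - η ≤ a j.castSucc + r * (o j + Mm) ∧ a j.castSucc + r * (o j + Mm) < 1)
    (hM0 : 0 < Mm) (zne : Zs.Nonempty) (zs : ∀ m ∈ Zs, |(L : ℝ) * (a 2 + r * m)| ≤ 1 / 2)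
    (N1 : 2 / L ≤ ((Zs.card : ℝ) * Mm ^ 2) * r ^ 3) (N2 : ((Zs.card : ℝ) * Mm ^ 2) * r ^ 3 ≤ 5 / L)
    (blk : Blk (outD M.D0 k M.W a) K0 o Mm Zs)
    (junk : ((({q : ℤ × (Fin 2 → ℕ) | q ∈ Fc Mm Zs ∧
      ¬ Ug (reOm (M.mesh hk a hv) hO) (Qr M hk a hv)ᶜ a r o q.1 q.2}).ncard : ℕ) : ℝ) ≤
      e5 * ((Zs.card : ℝ) * Mm ^ 2))
    (scl : ∀ i ∈ Qr M hk a hv, (∃ q ∈ Fc Mm Zs,
      (Msh_715.P ((reOm (M.mesh hk a hv) hO).H i) ∩ cub (vx a r o q.1 q.2) r).Nonempty) →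
      (tau M hk a hv i).1.1.k = K0)
    (scQ : ∀ p : M.OIx hk a hv, K0 ≤ p.1.par.1.1.k)
    -- ends (458)
    (ends : ∀ j : Fin 2, ∑ m ∈ Zs, ∑ t ∈ Finset.range (Mm + 1),
      |(f1 (vx a r o m (fun i => if i = j then Mm else t)) -
        f1 (vx a r o m (fun i => if i = j then 0 else t))) j.castSucc - s j.castSucc * (Mm * r)| ≤
        e5 * ((Zs.card : ℝ) * Mm))
    -- PREMACH-N (120, 112)
    (cores : Cores Φ (M.mesh hk a hv) f1 κ1 κ2 univ J0 Jt V ct A lam z θ φ)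
    (fine : Fine Φ (M.mesh hk a hv) f1 κ1 J0)
    (fin : ∀ e : Edg (M.mesh hk a hv), le (Gd' D') e ≠ ⊤)
    (cmp : ∀ e : Edg (M.mesh hk a hv), le (GV (fun c => ENNReal.ofReal (W c)) g) e ≤
      ENNReal.ofReal (8 * Cl δ R) * le (Gd' D') e)
    (choice : ChoiceN Φ (M.mesh hk a hv) f1 κ' μ κ3 W univ ct A lam z Mg
      (fun e => ENNReal.ofReal (1 + κ') * le (GV (fun c => ENNReal.ofReal (W c)) g) e))
    -- the outer tiles (849)
    (cov : QL L ⊆ HH ∪ R')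
    (HR : ∀ p : M.OIx hk a hv, Msh_715.P ((M.mesh hk a hv).H (Sum.inl p)) ⊆ HH ∨
      Msh_715.P ((M.mesh hk a hv).H (Sum.inl p)) ⊆ R')
    -- counting (168)
    (cnt : ∀ i, ENNReal.ofReal (cntA (reOm (M.mesh hk a hv) hO) r hr a o Mm Zs i) ≤
      cw i * volume (Msh_715.P ((M.mesh hk a hv).H i)))
    (cwQ : ∀ i ∈ Qr M hk a hv, cw i ≤ Ku) (cwc : ∀ c, cw (ct c) ≤ Ku)
    (wfin : ∀ i, i ∉ Qr M hk a hv → (∀ c, i ≠ ct c) → cw i ≠ ⊤)
    -- levels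
    (W0 : ∀ c : Φ.F, IsLog q al h c.1 → W c = h / 2) (gm : ∀ c l, Measurable (g c l))
    -- numbers
    (ed : ∀ l, Ed (outD M.D0 k M.W a) l p
      (Xs (fun c => ENNReal.ofReal (W c)) g (fun l => ENNReal.ofReal (s l)) l) ≤ e1)
    (ed1 : ∀ l, Ed (outD M.D0 k M.W a) l 1
      (Xs (fun c => ENNReal.ofReal (W c)) g (fun l => ENNReal.ofReal (s l)) l) ≤ e1)
    (sR : S (outD M.D0 k M.W a) p (R'.indicator (GGw (fun c => ENNReal.ofReal (W c)) g)) ≤ e2)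
    (vR : volume R' ≤ e2)
    (nonQ : ∑' i : {i // i ∉ Qr M hk a hv ∧ ∀ c, i ≠ ct c},
      (ENNReal.ofReal (Cs ((fun K => fr i.1 '' K) '' Cfg (M.mesh hk a hv) i.1) * ‖lin (fr i.1)‖) *
        ∑ e ∈ eIn (M.mesh hk a hv) i.1, le (GV (fun c => ENNReal.ofReal (W c)) g) e) ^ p *
        ((1 + cw i.1) * volume (Msh_715.P ((M.mesh hk a hv).H i.1))) ≤ e3)
    (cs : ∑' c : Φ.F, ENNReal.ofReal ((1 / lam c * ‖lin (A c)‖) ^ p) *
      volume (Msh_715.P ((M.mesh hk a hv).H (ct c))) ≤ e4) :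
    ∃ B : TI M hk a hv → E3 ≃ᵃ[ℝ] E3,
      MeshN p q al h s L η Φ f1 g W κ' μ κ1 κ2 κ3 Cs Bme_922.S0 HH R' e1 e2 e3 e4 e5 Ku
        (outD M.D0 k M.W a) K0 r hr o Mm Zs (reOm (M.mesh hk a hv) hO) (Qr M hk a hv)
        (tau M hk a hv) J0 Jt V ct A lam z θ φ Mg B cw := by
  obtain ⟨B, hB1, hB2⟩ := exists_frN M hk a hv hφ fr
  refine ⟨B, ?_⟩
  have hbase := baseOn (hk := hk) (a := a) (hv := hv) hφ hO
  have hcores : Cores Φ (reOm (M.mesh hk a hv) hO) f1 κ1 κ2 univ J0 Jt V ct A lam z θ φ := by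
    revert cores
    generalize QL L = Om' at hO ⊢
    subst hO
    exact fun h => h
  have hfine : Fine Φ (reOm (M.mesh hk a hv) hO) f1 κ1 J0 := by
    generalize QL L = Om' at hO ⊢
    subst hO
    exact fine
  have hfin : ∀ e : Edg (reOm (M.mesh hk a hv) hO),
      le (GV (fun c => ENNReal.ofReal (W c)) g) e ≠ ⊤ := by
    generalize QL L = Om' at hO ⊢
    subst hO
    intro e
    exact ((cmp e).trans_lt (ENNReal.mul_lt_top ENNReal.ofReal_lt_top (fin e).lt_top)).ne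
  have hchoice : ChoiceN Φ (reOm (M.mesh hk a hv) hO) f1 κ' μ κ3 W univ ct A lam z Mg
      (fun e => ENNReal.ofReal (1 + κ') * le (GV (fun c => ENNReal.ofReal (W c)) g) e) := by
    generalize QL L = Om' at hO ⊢
    subst hO
    exact choice
  have hshQ : ∀ i ∈ Qr M hk a hv,
      (fun K => B i '' K) '' Cfg (reOm (M.mesh hk a hv) hO) i ∈ Bme_922.S0 := by
    generalize QL L = Om' at hO ⊢
    subst hO
    exact fun i hi => (hB1 i hi).2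
  have hnonQ : ∑' i : {i // i ∉ Qr M hk a hv ∧ ∀ c, i ≠ ct c},
      (ENNReal.ofReal (Cs ((fun K => B i.1 '' K) '' Cfg (reOm (M.mesh hk a hv) hO) i.1) *
        ‖lin (B i.1)‖) *
        ∑ e ∈ eIn (reOm (M.mesh hk a hv) hO) i.1, le (GV (fun c => ENNReal.ofReal (W c)) g) e) ^ p *
        ((1 + cw i.1) * volume (Msh_715.P ((M.mesh hk a hv).H i.1))) ≤ e3 := by
    generalize QL L = Om' at hO ⊢
    subst hO
    refine le_trans (le_of_eq (tsum_congr fun i => ?_)) nonQ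
    rw [hB2 i.1 i.2.1]
    rfl
  exact
    { rK := rK
      lo := lo
      hi := hi
      M0 := hM0
      zne := zne
      zs := zs
      N1 := N1
      N2 := N2
      blk := blk
      junk := junk
      ends := ends
      base := hbase
      scl := scl
      scQ := by
        rintro i ⟨p, rfl, -⟩
        exact scQ p
      Vct := fun c => (cores.one c (mem_univ c)).2.2
      inj := by
        intro c c' hcc
        rw [hct, hct] at hcc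
        exact hb (Sigma.mk.inj_iff.1 (Sum.inr_injective hcc)).1
      dis := by
        intro i hi c
        rw [hct]
        exact Qr_inner hi ⟨b c, M.core hk a hv (b c)⟩
      cores := hcores
      fine := hfine
      cov := cov
      HR := by
        rintro i ⟨p, rfl, -⟩
        exact HR p
      frQ := fun i hi => (hB1 i hi).1
      shQ := hshQ
      cnt := cnt
      cwQ := cwQ
      cwc := cwc
      W0 := W0
      fin := hfin
      gm := gm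
      choice := hchoice
      ed := ed
      ed1 := ed1
      sR := sR
      vR := vR
      nonQ := hnonQ
      wfin := wfin
      cs := cs }

end Crest.Agent.R096.Bmd_798
end
end

-- ▼ part R096/Szn1_849
section

/-!
Row 96 (S0127), helper849.  NO0, `p ≥ 3`, mesh part, leaf [X1] of 962 #11402: **SIZE**: outer Whitney data
whose balls are fine and lie in `HH` or in `R'`; the outer tiles of the capped aligned mesh.
-/

set_option autoImplicit false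
set_option linter.style.longLine false
set_option linter.unusedSectionVars false

open MeasureTheory Set Filter Topology Metric

namespace Crest.Agent.R096.Szn_849

open Crest.Agent.R096.Bsp_628 Crest.Agent.R096.Brk1_582 Crest.Agent.R096.Brk2_582
open Crest.Agent.R096.Brk3_582
open Crest.Agent.R096.Brk5_582
open Crest.Agent.R096.Msh_715
open Crest.Agent.R96.Push_899
open Crest.Agent.R096.SkC1_961 (E3 Hom3 IsPush FoamD)
open Crest.Agent.R096.Mal_874 Crest.Agent.R096.Msh_810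
open Crest.Agent.R096.Fns_360 Crest.Agent.R096.Gno_324

noncomputable section

variable {δ κ0 R c0 : ℝ} {La Om : Set E3}

/-- **[X1] SIZE** -/
theorem exists_size (Φ : FoamD δ κ0 R c0 La) (hOm : IsOpen Om) (hLa : IsOpen La) (hδ : 0 < δ)
    (hR : 0 < R) {f : E3 → E3} (hfm : MapsTo f Om La) (hfc : ContinuousOn f Om) {O : Φ.F → Set E3}
    (hO : ∀ c, IsOpen (O c)) (hB : ∀ c, (Φ.B c).S ⊆ O c) {ε : ℝ} (hε : 0 < ε) {HH R' : Set E3}
    (hHH : IsOpen HH) (hR' : IsOpen R') (hcov : Om ⊆ HH ∪ R') {C : ℝ} (hC : 1 < C) (a : E3) :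
    ∃ D : Dat 3, D.C = C ∧ D.a = a ∧ D.Om = Om ∧ ∀ u ∈ Om, closedBall u (D.ρ u) ⊆ Om ∧
      FineS Φ f ε (closedBall u (D.ρ u) ∩ (Om ∩ offO f O)) ∧
      (closedBall u (D.ρ u) ⊆ HH ∨ closedBall u (D.ρ u) ⊆ R') := by
  obtain ⟨ρ, h1, h2, h3, h4, h5⟩ := exists_rho hOm
    (fun s => FineS Φ f ε (s ∩ (Om ∩ offO f O)) ∧ (s ⊆ HH ∨ s ⊆ R'))
    (fun s t hst h => ⟨h.1.mono (inter_subset_inter_left _ hst),
      h.2.imp hst.trans hst.trans⟩) (by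
      intro x hx
      obtain ⟨r, hr, hF⟩ := fineS_loc Φ hLa hδ hR hfm hfc (offO_closed hOm hfc hO)
        (fun _ _ hx c hc => hx c (hB c hc)) hε hx
      have h6 : ∃ r1 > 0, closedBall x r1 ⊆ HH ∨ closedBall x r1 ⊆ R' := by
        rcases hcov hx with h | h
        · obtain ⟨r1, hr1, h7⟩ := Metric.nhds_basis_closedBall.mem_iff.1 (hHH.mem_nhds h)
          exact ⟨r1, hr1, Or.inl h7⟩
        · obtain ⟨r1, hr1, h7⟩ := Metric.nhds_basis_closedBall.mem_iff.1 (hR'.mem_nhds h)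
          exact ⟨r1, hr1, Or.inr h7⟩
      obtain ⟨r1, hr1, h7⟩ := h6
      refine ⟨min r r1, lt_min hr hr1, hF.mono (inter_subset_inter_left _
        (closedBall_subset_closedBall (min_le_left _ _))), ?_⟩
      exact h7.imp (closedBall_subset_closedBall (min_le_right _ _)).trans
        (closedBall_subset_closedBall (min_le_right _ _)).trans)
  refine ⟨⟨ρ, C, a, h1, h2, h3, hC⟩, rfl, rfl, ?_, fun u hu => ?_⟩
  · ext x; exact h4 x
  · obtain ⟨h6, h7, h8⟩ := h5 u hu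
    exact ⟨h6, h7, h8⟩

section mesh

variable {J : Type*} (M : MD E3 3 J) {c : ℝ} (hc : 0 < c) {k : J → ℕ} (hk : (cap M c hc).Sc k)
  (a : Fin 3 → ℝ) {v : J → E3} (hv : (cap M c hc).Adm v)

/-- an outer tile of the capped mesh lies in the ball of each of its points -/
theorem outer_ball (hφ : ∀ x, M.φ x = x) (p : (cap M c hc).OIx hk a hv) {x : E3}
    (hx : x ∈ P (((cap M c hc).mesh hk a hv).H (Sum.inl p))) :
    x ∈ M.D0.Om ∧ P (((cap M c hc).mesh hk a hv).H (Sum.inl p)) ⊆ closedBall x (M.D0.ρ x) := by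
  have hxO : x ∈ M.D0.Om := by
    have h1 := ((cap M c hc).mesh hk a hv).sub _ hx
    have h2 : (cap M c hc).φ x ∈ (cap M c hc).D0.Om := h1
    have h3 : (cap M c hc).D0.Om = M.D0.Om := capD_Om M.D0 c hc
    rw [h3] at h2
    have h4 : (cap M c hc).φ x = x := hφ x
    rwa [h4] at h2
  refine ⟨hxO, fun y hy => ?_⟩
  have h1 := (cap M c hc).outer_size hk a hv p hx hy
  have h4 : (cap M c hc).φ x = x := hφ x
  have h5 : (cap M c hc).φ y = y := hφ y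
  rw [h4, h5] at h1
  have hC := (cap M c hc).hC
  rw [mem_closedBall, dist_comm]
  refine h1.trans ?_
  refine (div_le_self ((cap M c hc).D0.nonneg _) (by linarith)).trans ?_
  exact min_le_left _ _

/-- **outer tiles: `P_i ⊆ HH` or `P_i ⊆ R'`** -/
theorem outer_HR (hφ : ∀ x, M.φ x = x) {HH R' : Set E3}
    (h : ∀ u ∈ M.D0.Om, closedBall u (M.D0.ρ u) ⊆ HH ∨ closedBall u (M.D0.ρ u) ⊆ R')
    (p : (cap M c hc).OIx hk a hv) :
    P (((cap M c hc).mesh hk a hv).H (Sum.inl p)) ⊆ HH ∨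
      P (((cap M c hc).mesh hk a hv).H (Sum.inl p)) ⊆ R' := by
  obtain ⟨x, hx⟩ := ((cap M c hc).mesh hk a hv).ne (Sum.inl p)
  obtain ⟨h1, h2⟩ := outer_ball M hc hk a hv hφ p (I_sub_P _ hx)
  exact (h x h1).imp h2.trans h2.trans



/-- the domain of the capped mesh -/
theorem cap_Om (hφ : ∀ x, M.φ x = x) : (cap M c hc).φ ⁻¹' (cap M c hc).D0.Om = M.D0.Om := by
  have h3 : (cap M c hc).D0.Om = M.D0.Om := capD_Om M.D0 c hc
  rw [h3]
  ext y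
  have h4 : (cap M c hc).φ y = y := hφ y
  rw [mem_preimage, h4]

end mesh

end

end Crest.Agent.R096.Szn_849
end

-- ▼ part R096/Szn2_849
section

/-!
Row 96 (S0127), helper849.  NO0, `p ≥ 3`, mesh part, leaf (M8) [OUT] of 962 #11558: the outer Whitney data
of `Front3`, the covering by `HH` and `R'`, `Cores` and `Fine` on the capped meshes over `QL L`.
-/

set_option autoImplicit false
set_option linter.style.longLine false
set_option linter.unusedSectionVars false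

open MeasureTheory Set Filter Topology Metric
open scoped NNReal ENNReal

namespace Crest.Agent.R096.Szn_849

open Crest.Agent.R096.Bsp_628 Crest.Agent.R096.Brk1_582 Crest.Agent.R096.Brk2_582
open Crest.Agent.R096.Brk3_582
open Crest.Agent.R096.Brk5_582
open Crest.Agent.R096.Msh_715
open Crest.Agent.R096.Dic6_582 (dF kF one_le_kF)
open Crest.Agent.R096.EaX_766 (cbx lin RatA ExIn)
open Crest.Agent.R096.Bxs_627 (ctr cb CoriE zz)
open Crest.Agent.R096.SkC1_961 (E3 Hom3 IsPush FoamD)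
open Crest.Agent.R096.Mal_874 Crest.Agent.R096.Msh_810
open Crest.Agent.R096.Fns_360 Crest.Agent.R096.Gno_324 Crest.Agent.R096.Np_962
open Crest.Agent.R096.No_276 (QL)
open Crest.Agent.R096.Bxc1_635 (fN)
open Crest.Agent.R096.Mdd_360 Crest.Agent.R096.Fnn_635

noncomputable section

/-! ### renaming the domain -/

section reOm

variable {δ κ0 R c0 : ℝ} {La : Set E3} {Om Om' : Set E3} {ι : Type}

theorem cores_reOm {Φ : FoamD δ κ0 R c0 La} {T : Tiling Om ι} (h : Om = Om') {f : E3 → E3}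
    {κ1 κ2 : ℝ} {X : Set Φ.F} {J0 J V : Φ.F → Set ι} {ct : Φ.F → ι} {A : Φ.F → E3 ≃ᵃ[ℝ] E3}
    {lam : Φ.F → ℝ} {z : Φ.F → E3} {θ : Φ.F → E3 → E3} {φ : Φ.F → E3 → ℝ}
    (H : Mbf_337.Cores Φ T f κ1 κ2 X J0 J V ct A lam z θ φ) :
    Mbf_337.Cores Φ (reOm T h) f κ1 κ2 X J0 J V ct A lam z θ φ := by
  subst h
  exact H


end reOm

/-! ### the front -/

section front

variable {p : ℝ} {q : ℕ} {s : Fin 3 → ℝ} {εf εf' : ℝ≥0∞} {Om La : Set E3} {f : E3 → E3}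
  {Mf ρ0 h : ℝ} {al : Fin 3 → ℝ} {κ1f κ2f lam0 : ℝ} {F : Set (Bx (Fin 3))}
  {bf : BoxFoam La F (dF q) (kF q)} {cmp : Cmp F 6} {lam : F → ℝ} {hl : ∀ c, 0 < lam c}
  {hl4 : ∀ c, lam c ≤ 1 / 4} {A : F → E3 ≃ᵃ[ℝ] E3} {f1 : E3 → E3} {D1 : E3 → E3 →L[ℝ] E3}
  {X HH : Set E3} {g : F → Fin 3 → E3 → ℝ}

/-- **cov** -/
theorem cov_front (H : Front3 p q s εf εf' Om La f Mf ρ0 h al κ1f κ2f lam0 (ΦN bf cmp lam hl hl4)
    lam A f1 D1 X HH g) {R' : Set E3} (hXR : X ⊆ R') : Om ⊆ HH ∪ R' := by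
  intro x hx
  by_cases hX : x ∈ X
  · exact Or.inr (hXR hX)
  · exact Or.inl (H.c.HHX ⟨hx, hX⟩)


/-- **the outer Whitney data of the front** -/
theorem dat_front (hOm : IsOpen Om) (hLa : IsOpen La)
    (H : Front3 p q s εf εf' Om La f Mf ρ0 h al κ1f κ2f lam0 (ΦN bf cmp lam hl hl4)
    lam A f1 D1 X HH g) {R' : Set E3} (hR' : IsOpen R') (hXR : X ⊆ R') {ε : ℝ} (hε : 0 < ε)
    {C : ℝ} (hC : 1 < C) (a : E3) :
    ∃ D : Dat 3, D.C = C ∧ D.a = a ∧ D.Om = Om ∧ ∀ u ∈ Om, closedBall u (D.ρ u) ⊆ Om ∧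
      FineS (ΦN bf cmp lam hl hl4) f1 ε (closedBall u (D.ρ u) ∩ (Om ∩ offO f1 (O34 lam))) ∧
      (closedBall u (D.ρ u) ⊆ HH ∨ closedBall u (D.ρ u) ⊆ R') := by
  obtain ⟨-, hfL, -, -, -, hfc, -⟩ := id H.c.homeo
  exact exists_size (ΦN bf cmp lam hl hl4) hOm hLa (Dic6_582.dF_pos H.c.q1) (by norm_num) hfL hfc
    (O := O34 lam) (fun c => isOpen_interior) (fun c => hole_sub (bf.pos _ c.2) (hl c)) hε
    H.c.HHo hR' (cov_front H hXR) hC a

end front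

/-! ### the capped mesh -/

section cap

variable {J : Type} (M : MD E3 3 J) {c : ℝ} (hc : 0 < c)



theorem cap_pre {Om : Set E3} (h : M.φ ⁻¹' M.D0.Om = Om) :
    (cap M c hc).φ ⁻¹' (cap M c hc).D0.Om = Om := by
  have h3 : (cap M c hc).D0.Om = M.D0.Om := capD_Om M.D0 c hc
  rw [h3]
  exact h

end cap

section cf

variable {La Om : Set E3} {δ κ0 R c0 : ℝ} {F : Set (Bx (Fin 3))}


end cf

/-! ### the tiles of `Qr` -/

section HR

variable {J : Type} (M : MD E3 3 J) {c : ℝ} (hc : 0 < c) {k : J → ℕ} (hk : (cap M c hc).Sc k)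
  (a : Fin 3 → ℝ) {v : J → E3} (hv : (cap M c hc).Adm v)


end HR

end

end Crest.Agent.R096.Szn_849
end

-- ▼ part R096/Bmd5_798

/-!
Row 96 (S0127), helper798.  NO0-PRE3, composition of `ExMeshN` (962 #11679): **the literal Props**
`PreGenN` ((M3) of 962 #11558, with `nonQ`) and `ExBlkN p` ((M4): block data of all bricks).
Definitions only.
-/

set_option autoImplicit false
set_option linter.style.longLine false
set_option linter.unusedSectionVars false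
set_option linter.unusedVariables false

open MeasureTheory Set Filter Topology Metric
open scoped NNReal ENNReal

noncomputable section

namespace Crest.Agent.R096.Bmd_798

open Crest.Agent.R096.Msh_715 hiding P I
open Crest.Agent.R096.SkC1_961 (E3 Cfg FoamD Hom3 NN)
open Crest.Agent.R096.Ls_222
open Crest.Agent.R096.Mbf_337
open Crest.Agent.R96.Pm_199 (le Dec)
open Crest.Agent.R096.Msh_810 Crest.Agent.R96.En2_199 Crest.Agent.R96.En4_199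
  Crest.Agent.R96.En9_199 Crest.Agent.R96.En11_199
open Crest.Agent.R096.Ps_273
open Crest.Agent.R096.Ea_713 (lin)
open Crest.Agent.R096.Er_594 (SH3)
open Crest.Agent.R096.Der_764 (OmH)
open Crest.Agent.R96.Sob4_199 (VWD)
open Crest.Agent.R96.Acl_392 (WD)
open Crest.Agent.R96.En10_199 (P3)
open Crest.Agent.R096.Bsp_628 Crest.Agent.R096.Brk5_582
open Crest.Agent.R096.Dic6_582 (dF kF)
open Crest.Agent.R096.Bxs_627 (zz)
open Crest.Agent.R096.EaX_766 (cbx)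
open Crest.Agent.R096.Fns_360 (trA FineS offO O34)
open Crest.Agent.R096.Mal_874 (MD RD outD)
open Crest.Agent.R096.Gno_324 (cap)
open Crest.Agent.R096.Mfa_880 (QU BxM)
open Crest.Agent.R096.Wd_120 (CoreAt)
open Crest.Agent.R096.Pgn_112 (WordsOk)
open Crest.Agent.R096.Bls_168 (cwR Bulk)
open Crest.Agent.R096.Np_962
open Crest.Agent.R096.Pmc_112 (Gd')

/-- the index type of the blocks: the subtype `univ` -/
abbrev UX (F : Type) : Type := ↥(Set.univ : Set F)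

/-- the core tile of the brick `c` (blocks indexed by `univ`) -/
abbrev ctu {F : Type} (M : MD E3 3 (UX F)) {k : UX F → ℕ} (hk : M.Sc k)
    (a : Fin 3 → ℝ) {v : UX F → E3} (hv : M.Adm v) (c : F) : TI M hk a hv :=
  Sum.inr ⟨⟨c, mem_univ c⟩, M.core hk a hv ⟨c, mem_univ c⟩⟩

/-- the translated maps -/
abbrev Av {F : Type} (A : F → E3 ≃ᵃ[ℝ] E3) (v : UX F → E3) (c : F) : E3 ≃ᵃ[ℝ] E3 :=
  trA (A c) (v ⟨c, mem_univ c⟩)

/-- **the input of (M3)**: blocks `M.Q j`, rational data `Y`, good sets `Gd j`; (B1) `cf` (for every cap),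
(B2) `words`, (B3) `en`. -/
structure GenN {δ κ0 Rc c0 : ℝ} {La : Set E3} (Φ : FoamD δ κ0 Rc c0 La) (Om : Set E3) (f : E3 → E3)
    (D' : E3 → E3 →L[ℝ] E3) (p κp κ1 κ2 : ℝ) (A : Φ.F → E3 ≃ᵃ[ℝ] E3) (lam : Φ.F → ℝ)
    (z : Φ.F → E3) (Mc : Φ.F → ℕ) (B0 : ℕ) (R0 : ℝ) (M : MD E3 3 (UX Φ.F)) (Y : RD M)
    (k0 : UX Φ.F → ℕ) (hk0 : ∀ j, (M.Q j).kc ≤ k0 j) (κr : UX Φ.F → ℕ)
    (Gd : UX Φ.F → Set E3) (B : UX Φ.F → ℝ≥0∞) : Prop where
  φ : M.φ = ContinuousLinearEquiv.refl ℝ E3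
  hOm : M.φ ⁻¹' M.D0.Om = Om
  ψ1 : ∀ j x, ‖(M.Q j).ψ x‖ ≤ ‖x‖
  bB : ∀ j, Y.B j ≤ B0
  bR : ∀ j, Y.R j ≤ R0
  h0 : ∀ j m, ∃ c : ℤ, 2 ^ κr j * (Y.d j : ℝ) * (M.Q j).a' m = c
  Gds : ∀ j, Gd j ⊆ BxM M j
  Gdm : ∀ j, MeasurableSet (Gd j)
  Gd0 : ∀ j, volume (Gd j) ≠ 0
  /-- (B1) -/
  cf : ∀ (c : ℝ) (hc : 0 < c) (k : UX Φ.F → ℕ) (hk : (cap M c hc).Sc k) (a : Fin 3 → ℝ)
    (v : UX Φ.F → E3) (hv : (cap M c hc).Adm v), (∀ j, v j ∈ Gd j) →
    Cores Φ ((cap M c hc).mesh hk a hv) f κ1 κ2 univ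
      (fun b => {ctu (cap M c hc) hk a hv b}) (fun b => {ctu (cap M c hc) hk a hv b})
      (fun b => {ctu (cap M c hc) hk a hv b}) (ctu (cap M c hc) hk a hv) (Av A v) lam z
      (fun _ x => x) (fun _ _ => 0) ∧
    Fine Φ ((cap M c hc).mesh hk a hv) f κ1 (fun b => {ctu (cap M c hc) hk a hv b})
  /-- (B2) -/
  words : ∀ v : UX Φ.F → E3, (∀ j, v j ∈ Gd j) → ∀ Om' : Set E3, Om' = Om →
    ∀ D0 : Dec Om' Φ.F,
    Cores Φ D0.T f κ1 κ2 univ D0.J0 D0.J D0.V D0.ct D0.A D0.lam D0.z D0.θ D0.φ →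
    (∀ c : UX Φ.F, D0.lam c = lam c ∧ D0.z c = z c ∧ D0.A c = trA (A c) (v c) ∧
      D0.M c = Mc c ∧ CoreAt D0.T (D0.ct c) ((M.Q c).tr (v c))) →
    WordsOk Φ f κp (κp / 64) univ D0
  /-- (B3) -/
  en : ∀ j, ∀ s ∈ Gd j, ∑' c, (QU M Y k0 hk0 j).EnC (Gd' D') p c s ≤ B j

/-- **(M3) of 962 #11558, literal Prop**: `premachN` for 168's `mfs` of the capped mesh, selection,
walls, `nonQ` (645, 168).  `KG` = factor of the block energies (all shapes with bounds `B0, R0`). -/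
def PreGenN : Prop :=
  ∀ (p : ℝ), 1 ≤ p → ∀ (B0 : ℕ) (R0 : ℝ) (δ Rc : ℝ), 0 < δ → 0 < Rc →
  ∀ Cs : Set (Set E3) → ℝ, (∀ 𝒦, 0 < Cs 𝒦) → ∃ KG : ℝ≥0∞, KG ≠ ⊤ ∧
  ∀ (κ0 c0 : ℝ) (La Om : Set E3) (Φ : FoamD δ κ0 Rc c0 La) (f : E3 → E3)
    (Df D' : E3 → E3 →L[ℝ] E3),
  IsOpen Om → Om.Nonempty → Bornology.IsBounded Om → IsOpen La → Hom3 f Om La → SH3 p Om La f Df →
  (∀ v, Measurable fun y => D' y v) →
  (∀ l, VWD (OmH Φ f Om) volume (fun x => P3 (Φ.Psi (f x)))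
    (fun x => P3 (D' x (Pi.single l 1))) (Pi.single l (1:ℝ))) →
  ∀ (g : Φ.F → Fin 3 → E3 → ℝ), (∀ c l, Measurable (g c l)) →
  (∀ c l, WD (OmH Φ f Om) volume (fun x => Φ.lev c (f x)) (g c l) (Pi.single l 1)) →
  ∀ (W : Φ.F → ℝ) (κp κ1 κ2 κ3 : ℝ), (∀ c, 0 < W c) → (∀ c, ∃ k N : ℕ, W c * 2 ^ k = N) →
  (∀ c, c.1.sz ≤ κ3 * W c) → (∀ c, W c ≤ κ3 * c.1.sz) → (∀ c, W c ≤ c.1.sz) →
  0 < κp → κp ≤ 1 → 8 ≤ κ3 → 0 ≤ κ2 → κ1 * κ0 < κ2 →
  (∀ c l, ∀ x, x ∉ OmH Φ f Om → g c l x = 0) →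
  ∫⁻ x in Om, GGw (fun c => ENNReal.ofReal (W c)) g x ^ p ≠ ⊤ →
  ∀ (A : Φ.F → E3 ≃ᵃ[ℝ] E3) (lam : Φ.F → ℝ) (z : Φ.F → E3) (Mc : Φ.F → ℕ)
    (M : MD E3 3 (UX Φ.F)) (Y : RD M) (k0 : UX Φ.F → ℕ)
    (hk0 : ∀ j, (M.Q j).kc ≤ k0 j) (κr : UX Φ.F → ℕ)
    (Gd : UX Φ.F → Set E3) (B : UX Φ.F → ℝ≥0∞),
  GenN Φ Om f D' p κp κ1 κ2 A lam z Mc B0 R0 M Y k0 hk0 κr Gd B →
  ∀ ε : ℝ≥0∞, ε ≠ 0 →
  ∃ kw : UX Φ.F → ℕ, ∀ (c : ℝ) (hc : 0 < c) (k : UX Φ.F → ℕ)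
    (hk : (cap M c hc).Sc k), (∀ j, kw j ≤ k j) →
  ∃ A' : Set E3, MeasurableSet A' ∧ volume (box 3 \ A') ≤ 1 / 4 ∧
  ∀ a ∈ A', ∃ (v : UX Φ.F → E3) (hv : (cap M c hc).Adm v), (∀ j, v j ∈ Gd j) ∧
  ∃ fr : TI (cap M c hc) hk a hv → E3 ≃ᵃ[ℝ] E3,
    (∀ e : Edg ((cap M c hc).mesh hk a hv), le (Gd' D') e ≠ ⊤) ∧
    (∀ e : Edg ((cap M c hc).mesh hk a hv), le (GV (fun c => ENNReal.ofReal (W c)) g) e ≤
      ENNReal.ofReal (8 * Cl δ Rc) * le (Gd' D') e) ∧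
    ChoiceN Φ ((cap M c hc).mesh hk a hv) f κp (κp / 64) κ3 W univ (ctu (cap M c hc) hk a hv)
      (Av A v) lam z Mc
      (fun e => ENNReal.ofReal (1 + κp) * le (GV (fun c => ENNReal.ofReal (W c)) g) e) ∧
    ∀ (K0 : ℕ) (r : ℝ) (hr : r ≠ 0) (o : Fin 2 → ℤ) (Mm : ℕ) (Zs : Finset ℤ) (Bb : Set E3),
      Bulk (cap M c hc) k a v K0 r o Mm Zs Bb →
      ∑' i : {i // i ∉ Qr (cap M c hc) hk a hv ∧ ∀ b, i ≠ ctu (cap M c hc) hk a hv b},
        (ENNReal.ofReal (Cs ((fun K => fr i.1 '' K) '' Cfg ((cap M c hc).mesh hk a hv) i.1) *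
          ‖lin (fr i.1)‖) *
          ∑ e ∈ eIn ((cap M c hc).mesh hk a hv) i.1,
            le (GV (fun c => ENNReal.ofReal (W c)) g) e) ^ p *
          ((1 + cwR ((cap M c hc).mesh hk a hv) r hr a o Mm Zs i.1) *
            volume (Msh_715.P (((cap M c hc).mesh hk a hv).H i.1))) ≤
        KG * ∑' j, B j + ε

/-- **(M4) of 962 #11558, literal Prop**: the block data of all bricks of `Front3`, for every outer
Whitney data `D0` (fine for the closeness `κ1` of the machine).  `w0` = pre-translation of the blocks. -/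
def ExBlkN (p : ℝ) : Prop :=
  ∀ q : ℕ, 1 ≤ q → ∃ (B0 : ℕ) (R0 : ℝ) (KB : ℝ≥0∞), KB ≠ ⊤ ∧
  ∀ κp : ℝ, 0 < κp → κp ≤ 1 → ∀ lam0 : ℝ, 0 < lam0 → ∀ κ1 : ℝ, 0 < κ1 → κ1 * kF q ≤ 1 / 32 →
  ∃ κ1f : ℝ, 0 < κ1f ∧ κ1f * kF q ≤ 1 / 2 ∧
  ∀ (s : Fin 3 → ℝ) (εf εf' : ℝ≥0∞) (Om La : Set E3) (f : E3 → E3),
    IsOpen Om → Bornology.IsBounded Om → IsOpen La → Bornology.IsBounded La →
  ∀ (Mf ρ0 h : ℝ) (al : Fin 3 → ℝ) (F : Set (Bx (Fin 3))) (bf : BoxFoam La F (dF q) (kF q))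
    (cmp : Cmp F 6) (lam : F → ℝ) (hl : ∀ c, 0 < lam c) (hl4 : ∀ c, lam c ≤ 1 / 4)
    (A : F → E3 ≃ᵃ[ℝ] E3) (f1 : E3 → E3) (D1 : E3 → E3 →L[ℝ] E3) (X HH : Set E3)
    (g : F → Fin 3 → E3 → ℝ),
    Front3 p q s εf εf' Om La f Mf ρ0 h al κ1f (1 / 8) lam0 (ΦN bf cmp lam hl hl4) lam A f1 D1 X
      HH g →
  ∀ D0 : Dat 3, D0.C = 6 → D0.Om = Om →
    (∀ u ∈ Om, closedBall u (D0.ρ u) ⊆ Om ∧ FineS (ΦN bf cmp lam hl hl4) f1 κ1
      (closedBall u (D0.ρ u) ∩ (Om ∩ offO f1 (O34 lam)))) →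
  ∃ (D' : E3 → E3 →L[ℝ] E3) (w0 : F → E3) (Mc : F → ℕ) (M : MD E3 3 (UX F)) (Y : RD M)
    (k0 : UX F → ℕ) (hk0 : ∀ j, (M.Q j).kc ≤ k0 j) (κr : UX F → ℕ)
    (Gd : UX F → Set E3) (B : UX F → ℝ≥0∞),
    (∀ v, Measurable fun y => D' y v) ∧
    (∀ l, VWD (OmH (ΦN bf cmp lam hl hl4) f1 Om) volume
      (fun x => P3 ((ΦN bf cmp lam hl hl4).Psi (f1 x)))
      (fun x => P3 (D' x (Pi.single l 1))) (Pi.single l (1:ℝ))) ∧
    M.D0 = D0 ∧
    (∀ j, (M.Q j).N ⊆ A j.1 ⁻¹' cbx j.1.1 ((1 + 2 * (1 / 8)) * lam j.1)) ∧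
    GenN (ΦN bf cmp lam hl hl4) Om f1 D' p κp κ1 (1 / 16) (fun c => trA (A c) (w0 c)) lam
      (fun c => zz c.1 (lam c)) Mc B0 R0 M Y k0 hk0 κr Gd B ∧
    ∑' j, B j ≤ KB * εf' * volume Om

end Crest.Agent.R096.Bmd_798
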