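import Crest.Agent.R096.Bsp4_628
import Crest.Agent.R096.Bxs1_627
import Crest.Agent.R96.Intr12_538
import Crest.Agent.R96.Intr11_538

-- ▼ part R096/Fil1_313
section

set_option autoImplicit false
set_option linter.unusedSectionVars false
set_option linter.style.longLine false
set_option maxSynthPendingDepth 3

open MeasureTheory Set Filter Metric
open scoped ENNReal NNReal Topology

namespace Crest.Agent.R096.Fil_313

open Crest.Agent.R096.Bsp_628

noncomputable section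

abbrev E3 : Type := Fin 3 → ℝ

/-- the box homothetic to the brick `C`: ratio `lam`, translation vector `w` -/
def bxc (C : Bx (Fin 3)) (lam : ℝ) (w : E3) : Set E3 :=
  {y | ∀ k, w k + lam * C.lo k ≤ y k ∧ y k ≤ w k + lam * C.hi k}

theorem bxc_eq (C : Bx (Fin 3)) (lam : ℝ) (w : E3) :
    bxc C lam w = Icc (fun k => w k + lam * C.lo k) (fun k => w k + lam * C.hi k) := by
  ext y
  simp only [bxc, mem_ofPred_eq, mem_Icc, Pi.le_def]
  constructor
  · intro h; exact ⟨fun k => (h k).1, fun k => (h k).2⟩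
  · intro h k; exact ⟨h.1 k, h.2 k⟩

theorem volume_set {C : Bx (Fin 3)} (hC : C.Pos) :
    volume C.set = ENNReal.ofReal (∏ k, C.side k) := by
  rw [Bx.set, Real.volume_Icc_pi, ENNReal.ofReal_prod_of_nonneg]
  · rfl
  · intro k _
    exact (Bx.side_pos hC k).le

theorem volume_bxc {C : Bx (Fin 3)} (hC : C.Pos) {lam : ℝ} (hl : 0 ≤ lam) (w : E3) :
    volume (bxc C lam w) = ENNReal.ofReal (lam ^ 3 * ∏ k, C.side k) := by
  rw [bxc_eq, Real.volume_Icc_pi]
  have h1 : ∀ k, (w k + lam * C.hi k) - (w k + lam * C.lo k) = lam * C.side k := by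
    intro k; unfold Bx.side; ring
  simp only [h1]
  rw [← ENNReal.ofReal_prod_of_nonneg]
  · rw [Finset.prod_mul_distrib]
    simp
  · intro k _
    exact mul_nonneg hl (Bx.side_pos hC k).le

theorem isClosed_bxc (C : Bx (Fin 3)) (lam : ℝ) (w : E3) : IsClosed (bxc C lam w) := by
  rw [bxc_eq]; exact isClosed_Icc

theorem volume_diff_le {C : Bx (Fin 3)} (hC : C.Pos) {lam : ℝ} (hl : 0 ≤ lam) (hl1 : lam ≤ 1)
    {w : E3} (hw : bxc C lam w ⊆ C.set) :
    volume (C.set \ bxc C lam w) ≤ ENNReal.ofReal (3 * (1 - lam)) * volume C.set := by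
  have hP : 0 ≤ ∏ k, C.side k := Finset.prod_nonneg fun k _ => (Bx.side_pos hC k).le
  rw [measure_diff hw (isClosed_bxc C lam w).measurableSet.nullMeasurableSet
    (by rw [volume_bxc hC hl]; exact ENNReal.ofReal_ne_top), volume_bxc hC hl, volume_set hC,
    ← ENNReal.ofReal_sub _ (by positivity), ← ENNReal.ofReal_mul (by linarith)]
  apply ENNReal.ofReal_le_ofReal
  have h1 : 1 - lam ^ 3 ≤ 3 * (1 - lam) := by nlinarith [sq_nonneg lam, sq_nonneg (1 - lam)]
  nlinarith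

/-- volume of preimages under an affine equivalence -/
theorem exists_scale (A : E3 ≃ᵃ[ℝ] E3) :
    ∃ D : ℝ≥0∞, D ≠ ∞ ∧ D ≠ 0 ∧ ∀ Y : Set E3, volume (A ⁻¹' Y) = D * volume Y := by
  have hdet : LinearMap.det (A.linear : E3 →ₗ[ℝ] E3) ≠ 0 := by
    have := A.linear.isUnit_det'
    exact this.ne_zero
  refine ⟨ENNReal.ofReal |(LinearMap.det (A.linear : E3 →ₗ[ℝ] E3))⁻¹|, ENNReal.ofReal_ne_top, ?_, ?_⟩
  · rw [ne_eq, ENNReal.ofReal_eq_zero, not_le]
    exact abs_pos.2 (inv_ne_zero hdet)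
  · intro Y
    have h1 : A ⁻¹' Y = (A.linear : E3 →ₗ[ℝ] E3) ⁻¹' ((fun y => y + A 0) ⁻¹' Y) := by
      ext x
      simp only [mem_preimage]
      have h2 : A x = A.linear x + A 0 := by
        have := A.map_vadd 0 x
        simpa using this
      rw [h2]
      rfl
    rw [h1, Measure.addHaar_preimage_linearMap _ hdet, measure_preimage_add_right]

theorem aedisjoint_set {C C' : Bx (Fin 3)} (h : ∃ k, C.hi k ≤ C'.lo k ∨ C'.hi k ≤ C.lo k) :
    volume (C.set ∩ C'.set) = 0 := by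
  obtain ⟨k, hk⟩ := h
  have h1 : ∃ a : ℝ, C.set ∩ C'.set ⊆ {x : E3 | x k = a} := by
    rcases hk with hk | hk
    · refine ⟨C.hi k, ?_⟩
      rintro x ⟨hx, hx'⟩
      have := (Bx.mem_set.1 hx k).2
      have := (Bx.mem_set.1 hx' k).1
      show x k = C.hi k
      linarith
    · refine ⟨C.lo k, ?_⟩
      rintro x ⟨hx, hx'⟩
      have := (Bx.mem_set.1 hx k).1
      have := (Bx.mem_set.1 hx' k).2
      show x k = C.lo k
      linarith
  obtain ⟨a, ha⟩ := h1
  refine measure_mono_null ha ?_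
  have h2 : {x : E3 | x k = a} = Set.pi univ (fun j => if j = k then {a} else univ) := by
    ext x
    simp only [mem_ofPred_eq, mem_univ_pi]
    constructor
    · intro h j
      by_cases hj : j = k
      · subst hj; simp [h]
      · simp [hj]
    · intro h
      have := h k
      simpa using this
  rw [h2, volume_pi_pi]
  apply Finset.prod_eq_zero (Finset.mem_univ k)
  simp

/-- distance of two points of a brick in the sup norm -/
theorem norm_sub_le_sz {B : Bx (Fin 3)} {x y : E3} (hx : x ∈ B.set) (hy : y ∈ B.set) (hB : B.Pos) :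
    ‖x - y‖ ≤ B.sz := by
  rw [← dist_eq_norm]
  exact dist_le_sz hx hy hB

/-- **FILL, in `Fin 3 → ℝ`.** -/
theorem fill {A : E3 ≃ᵃ[ℝ] E3} {K : ℝ} (hK : 0 ≤ K)
    (hA : ∀ y y', ‖A.symm y - A.symm y'‖ ≤ K * ‖y - y'‖) {z : E3} {s σ t lam : ℝ} (hs : 0 < s)
    (hσ : 0 ≤ σ) (ht : 0 ≤ t) (hl : 0 ≤ lam) (hl1 : lam ≤ 1) {F : Set (Bx (Fin 3))}
    (hF : F.Countable) (hpos : ∀ C ∈ F, C.Pos)
    (hdis : ∀ C ∈ F, ∀ C' ∈ F, C ≠ C' → ∃ k, C.hi k ≤ C'.lo k ∨ C'.hi k ≤ C.lo k)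
    (hcov : ∀ x ∈ closedBall z s, ∃ C ∈ F, A x ∈ C.set)
    (hsz : ∀ C ∈ F, ∀ x ∈ closedBall z s, A x ∈ C.set → C.sz ≤ t) {w : Bx (Fin 3) → E3}
    (hw : ∀ C ∈ F, bxc C lam (w C) ⊆ C.set) {T : Bx (Fin 3) → Set E3}
    (hT : ∀ C ∈ F, C.set ⊆ A '' closedBall z ((1 - 2 * σ) * s) → A ⁻¹' bxc C lam (w C) ⊆ T C) :
    volume (closedBall z s \ ⋃ C ∈ {C ∈ F | C.set ⊆ A '' closedBall z ((1 - 2 * σ) * s)}, T C) ≤
      ENNReal.ofReal ((6 * σ + 3 * K * t / s + 3 * (1 - lam)) * (2 * s) ^ 3) := by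
  set r : ℝ := (1 - 2 * σ) * s - K * t with hr
  set X : Set (Bx (Fin 3)) := {C ∈ F | C.set ⊆ A '' closedBall z ((1 - 2 * σ) * s)} with hX
  have hXF : X ⊆ F := fun C hC => hC.1
  have hXc : X.Countable := hF.mono hXF
  -- covering
  have hsub : closedBall z s \ ⋃ C ∈ X, T C ⊆
      (closedBall z s \ closedBall z r) ∪ ⋃ C ∈ X, A ⁻¹' (C.set \ bxc C lam (w C)) := by
    rintro x ⟨hx, hxT⟩
    obtain ⟨C, hC, hxC⟩ := hcov x hx
    by_cases hCX : C.set ⊆ A '' closedBall z ((1 - 2 * σ) * s)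
    · right
      refine mem_biUnion (show C ∈ X from ⟨hC, hCX⟩) ?_
      refine ⟨hxC, fun hxb => hxT ?_⟩
      exact mem_biUnion (show C ∈ X from ⟨hC, hCX⟩) (hT C hC hCX hxb)
    · left
      refine ⟨hx, fun hxr => hCX ?_⟩
      intro y hy
      refine ⟨A.symm y, ?_, A.apply_symm_apply y⟩
      have h1 : ‖y - A x‖ ≤ t := (norm_sub_le_sz hy hxC (hpos C hC)).trans (hsz C hC x hx hxC)
      have h2 := hA y (A x)
      rw [A.symm_apply_apply] at h2
      have h3 : ‖x - z‖ ≤ r := by simpa [dist_eq_norm] using hxr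
      rw [mem_closedBall, dist_eq_norm]
      calc ‖A.symm y - z‖ = ‖(A.symm y - x) + (x - z)‖ := by congr 1; abel
        _ ≤ ‖A.symm y - x‖ + ‖x - z‖ := norm_add_le _ _
        _ ≤ K * t + r := add_le_add (h2.trans (by gcongr)) h3
        _ = (1 - 2 * σ) * s := by rw [hr]; ring
  -- volumes of cubes
  have hvol : ∀ ρ : ℝ, 0 ≤ ρ → volume (closedBall z ρ) = ENNReal.ofReal ((2 * ρ) ^ 3) := by
    intro ρ hρ
    rw [Real.volume_pi_closedBall z hρ]
    simp
  have hv1 : volume (closedBall z s \ closedBall z r) ≤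
      ENNReal.ofReal ((6 * σ + 3 * K * t / s) * (2 * s) ^ 3) := by
    by_cases hr0 : 0 ≤ r
    · have hrs : r ≤ s := by
        have : 0 ≤ K * t := mul_nonneg hK ht
        nlinarith
      rw [measure_diff (closedBall_subset_closedBall hrs)
        measurableSet_closedBall.nullMeasurableSet (by rw [hvol r hr0]; exact ENNReal.ofReal_ne_top),
        hvol s hs.le, hvol r hr0, ← ENNReal.ofReal_sub _ (by positivity)]
      apply ENNReal.ofReal_le_ofReal
      have h1 : (2 * s) ^ 3 - (2 * r) ^ 3 ≤ 3 * (2 * s) ^ 2 * (2 * s - 2 * r) := by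
        have h2 : (2 * s) ^ 3 - (2 * r) ^ 3 = (2 * s - 2 * r) * ((2 * s) ^ 2 + 2 * s * (2 * r) + (2 * r) ^ 2) := by
          ring
        rw [h2]
        have h3 : (2 * s) ^ 2 + 2 * s * (2 * r) + (2 * r) ^ 2 ≤ 3 * (2 * s) ^ 2 := by nlinarith
        nlinarith
      refine h1.trans (le_of_eq ?_)
      rw [hr]
      field_simp
      ring
    · push Not at hr0
      refine (measure_mono diff_subset).trans ?_
      rw [hvol s hs.le]
      apply ENNReal.ofReal_le_ofReal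
      have h1 : 1 ≤ 6 * σ + 3 * K * t / s := by
        have h2 : s < 2 * σ * s + K * t := by rw [hr] at hr0; nlinarith
        have h3 : 6 * σ + 3 * K * t / s = 3 * (2 * σ * s + K * t) / s := by
          field_simp
          ring
        rw [h3, le_div_iff₀ hs]
        nlinarith
      nlinarith [show (0:ℝ) ≤ (2 * s) ^ 3 by positivity]
  -- volume of the layers
  obtain ⟨D, hD, hD0, hDv⟩ := exists_scale A
  have hv2 : volume (⋃ C ∈ X, A ⁻¹' (C.set \ bxc C lam (w C))) ≤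
      ENNReal.ofReal (3 * (1 - lam) * (2 * s) ^ 3) := by
    calc volume (⋃ C ∈ X, A ⁻¹' (C.set \ bxc C lam (w C)))
        ≤ ∑' C : X, volume (A ⁻¹' (C.1.set \ bxc C.1 lam (w C.1))) := measure_biUnion_le _ hXc _
      _ ≤ ∑' C : X, ENNReal.ofReal (3 * (1 - lam)) * volume (A ⁻¹' C.1.set) := by
          apply ENNReal.tsum_le_tsum
          intro C
          rw [hDv, hDv, mul_left_comm]
          gcongr
          exact volume_diff_le (hpos _ C.2.1) hl hl1 (hw _ C.2.1)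
      _ = ENNReal.ofReal (3 * (1 - lam)) * ∑' C : X, volume (A ⁻¹' C.1.set) := ENNReal.tsum_mul_left
      _ = ENNReal.ofReal (3 * (1 - lam)) * volume (⋃ C ∈ X, A ⁻¹' C.set) := by
          congr 1
          rw [measure_biUnion₀ hXc]
          · intro C hC C' hC' hne
            show volume (A ⁻¹' C.set ∩ A ⁻¹' C'.set) = 0
            rw [← preimage_inter, hDv, aedisjoint_set (hdis C hC.1 C' hC'.1 hne), mul_zero]
          · intro C hC
            have hcont : Continuous A := A.continuous_of_finiteDimensional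
            exact ((isClosed_Icc (a := C.lo) (b := C.hi)).preimage hcont).measurableSet.nullMeasurableSet
      _ ≤ ENNReal.ofReal (3 * (1 - lam)) * volume (closedBall z s) := by
          gcongr
          refine iUnion₂_subset fun C hC => ?_
          intro x hx
          obtain ⟨x', hx', he⟩ := hC.2 hx
          have : x' = x := A.injective he
          subst this
          refine closedBall_subset_closedBall ?_ hx'
          nlinarith
      _ = ENNReal.ofReal (3 * (1 - lam) * (2 * s) ^ 3) := by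
          rw [hvol s hs.le, ← ENNReal.ofReal_mul (by linarith)]
  calc volume (closedBall z s \ ⋃ C ∈ X, T C)
      ≤ volume (closedBall z s \ closedBall z r) +
        volume (⋃ C ∈ X, A ⁻¹' (C.set \ bxc C lam (w C))) :=
        (measure_mono hsub).trans (measure_union_le _ _)
    _ ≤ ENNReal.ofReal ((6 * σ + 3 * K * t / s) * (2 * s) ^ 3) +
        ENNReal.ofReal (3 * (1 - lam) * (2 * s) ^ 3) := add_le_add hv1 hv2
    _ = ENNReal.ofReal ((6 * σ + 3 * K * t / s + 3 * (1 - lam)) * (2 * s) ^ 3) := by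
        rw [← ENNReal.ofReal_add (by positivity) (by
          have : 0 ≤ 1 - lam := by linarith
          positivity)]
        congr 1
        ring


end

end Crest.Agent.R096.Fil_313
end

-- ▼ part R096/Fil2_313

set_option autoImplicit false
set_option linter.unusedSectionVars false
set_option linter.style.longLine false
set_option maxSynthPendingDepth 3

open MeasureTheory Set Filter Metric
open scoped ENNReal NNReal Topology

namespace Crest.Agent.R096.Fil_313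

open Crest.AnalysisR.VecCalc3
open Crest.Agent.R096.Bsp_628 Crest.Agent.R96.En10_199
open Crest.Agent.R96.Intr_538 Crest.Agent.R96.Coarse_538

noncomputable section

theorem cel_preimage (z : R3) {s : ℝ} (hs : 0 < s) :
    P3 ⁻¹' cel Cb z s = closedBall (P3.symm z) s := by
  ext x
  rw [mem_preimage, mem_cel hs, mem_closedBall, dist_pi_le_iff hs.le]
  rfl

theorem inj_of_low {L : R3 →L[ℝ] R3} {κ : ℝ} (hκ : 0 < κ) (hL : ∀ v, κ * ‖v‖ ≤ ‖L v‖) :
    Function.Injective L.toLinearMap := by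
  rw [← LinearMap.ker_eq_bot, LinearMap.ker_eq_bot']
  intro v hv
  have h1 := hL v
  have h2 : L v = 0 := hv
  rw [h2, norm_zero] at h1
  have h3 : ‖v‖ ≤ 0 := by
    by_contra h
    push Not at h
    nlinarith
  exact norm_le_zero_iff.1 h3

/-- the linear equivalence of `L` -/
def linE (L : R3 →L[ℝ] R3) {κ : ℝ} (hκ : 0 < κ) (hL : ∀ v, κ * ‖v‖ ≤ ‖L v‖) : R3 ≃ₗ[ℝ] R3 :=
  LinearEquiv.ofInjectiveEndo L.toLinearMap (inj_of_low hκ hL)

@[simp] theorem linE_apply (L : R3 →L[ℝ] R3) {κ : ℝ} (hκ : 0 < κ) (hL : ∀ v, κ * ‖v‖ ≤ ‖L v‖)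
    (v : R3) : linE L hκ hL v = L v := rfl

/-- `x ↦ b + L (x - z)` as an affine equivalence of `R3` -/
def affR (L : R3 →L[ℝ] R3) {κ : ℝ} (hκ : 0 < κ) (hL : ∀ v, κ * ‖v‖ ≤ ‖L v‖) (z b : R3) :
    R3 ≃ᵃ[ℝ] R3 :=
  AffineEquiv.mk' (fun x => b + L (x - z)) (linE L hκ hL) z (by
    intro x
    simp only [linE_apply, vsub_eq_sub, vadd_eq_add, sub_self, map_zero, add_zero]
    rw [add_comm])

@[simp] theorem affR_apply (L : R3 →L[ℝ] R3) {κ : ℝ} (hκ : 0 < κ) (hL : ∀ v, κ * ‖v‖ ≤ ‖L v‖)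
    (z b x : R3) : affR L hκ hL z b x = b + L (x - z) := rfl

theorem affR_symm_lip (L : R3 →L[ℝ] R3) {κ : ℝ} (hκ : 0 < κ) (hL : ∀ v, κ * ‖v‖ ≤ ‖L v‖)
    (z b y y' : R3) :
    ‖(affR L hκ hL z b).symm y - (affR L hκ hL z b).symm y'‖ ≤ κ⁻¹ * ‖y - y'‖ := by
  set x := (affR L hκ hL z b).symm y with hx
  set x' := (affR L hκ hL z b).symm y' with hx'
  have h1 : y = b + L (x - z) := by
    rw [← affR_apply L hκ hL z b x, hx, AffineEquiv.apply_symm_apply]
  have h2 : y' = b + L (x' - z) := by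
    rw [← affR_apply L hκ hL z b x', hx', AffineEquiv.apply_symm_apply]
  have h3 : y - y' = L (x - x') := by
    rw [h1, h2, map_sub, map_sub, map_sub]
    abel
  rw [h3, le_inv_mul_iff₀ hκ]
  exact hL _

/-- the affine equivalence of `E3` -/
def aff3 (L : R3 →L[ℝ] R3) {κ : ℝ} (hκ : 0 < κ) (hL : ∀ v, κ * ‖v‖ ≤ ‖L v‖) (z b : R3) :
    E3 ≃ᵃ[ℝ] E3 := Bxs_627.a3 (affR L hκ hL z b)

theorem aff3_apply (L : R3 →L[ℝ] R3) {κ : ℝ} (hκ : 0 < κ) (hL : ∀ v, κ * ‖v‖ ≤ ‖L v‖)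
    (z b : R3) (x : E3) : aff3 L hκ hL z b x = P3.symm (b + L (P3 x - z)) := rfl

theorem aff3_symm_apply (L : R3 →L[ℝ] R3) {κ : ℝ} (hκ : 0 < κ) (hL : ∀ v, κ * ‖v‖ ≤ ‖L v‖)
    (z b : R3) (y : E3) :
    (aff3 L hκ hL z b).symm y = P3.symm ((affR L hκ hL z b).symm (P3 y)) := rfl

theorem aff3_symm_lip (L : R3 →L[ℝ] R3) {κ : ℝ} (hκ : 0 < κ) (hL : ∀ v, κ * ‖v‖ ≤ ‖L v‖)
    (z b : R3) (y y' : E3) :
    ‖(aff3 L hκ hL z b).symm y - (aff3 L hκ hL z b).symm y'‖ ≤ 2 * κ⁻¹ * ‖y - y'‖ := by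
  rw [aff3_symm_apply, aff3_symm_apply, ← map_sub]
  refine (Bxs_627.norm_P3_symm_le _).trans ?_
  refine (affR_symm_lip L hκ hL z b _ _).trans ?_
  rw [← map_sub]
  have h1 := Bxs_627.norm_P3_le (y - y')
  have h2 : 0 < κ⁻¹ := inv_pos.2 hκ
  nlinarith

/-- `A '' (cube)` is the parallelepiped -/
theorem aff3_image (L : R3 →L[ℝ] R3) {κ : ℝ} (hκ : 0 < κ) (hL : ∀ v, κ * ‖v‖ ≤ ‖L v‖)
    (z b : R3) {r : ℝ} (hr : 0 < r) :
    aff3 L hκ hL z b '' closedBall (P3.symm z) r = P3 ⁻¹' par Cb L b r := by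
  ext y
  rw [← cel_preimage z hr]
  constructor
  · rintro ⟨x, ⟨u, hu, hx⟩, rfl⟩
    refine ⟨u, hu, ?_⟩
    rw [aff3_apply, ContinuousLinearEquiv.apply_symm_apply]
    have h2 : P3 x = z + r • u := hx.symm
    show b + r • L u = b + L (P3 x - z)
    rw [h2, add_sub_cancel_left, map_smul]
  · rintro ⟨u, hu, hy⟩
    refine ⟨P3.symm (z + r • u), ?_, ?_⟩
    · show P3 (P3.symm (z + r • u)) ∈ cel Cb z r
      rw [ContinuousLinearEquiv.apply_symm_apply]
      exact ⟨u, hu, rfl⟩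
    · rw [aff3_apply, ContinuousLinearEquiv.apply_symm_apply, add_sub_cancel_left, map_smul]
      have h2 : b + r • L u = P3 y := hy
      rw [h2, ContinuousLinearEquiv.symm_apply_apply]

/-- **FILL, in `R3`.** -/
theorem fill3 {L : R3 →L[ℝ] R3} {κ : ℝ} (hκ : 0 < κ) (hL : ∀ v, κ * ‖v‖ ≤ ‖L v‖) {z b : R3}
    {s σ t lam : ℝ} (hs : 0 < s) (hσ : 0 ≤ σ) (hσ1 : 2 * σ < 1) (ht : 0 ≤ t) (hl : 0 ≤ lam)
    (hl1 : lam ≤ 1) {F : Set (Bx (Fin 3))} (hF : F.Countable) (hpos : ∀ C ∈ F, C.Pos)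
    (hdis : ∀ C ∈ F, ∀ C' ∈ F, C ≠ C' → ∃ k, C.hi k ≤ C'.lo k ∨ C'.hi k ≤ C.lo k)
    (hcov : ∀ y ∈ par Cb L b s, ∃ C ∈ F, P3.symm y ∈ C.set)
    (hsz : ∀ C ∈ F, ∀ y ∈ par Cb L b s, P3.symm y ∈ C.set → C.sz ≤ t) {w : Bx (Fin 3) → E3}
    (hw : ∀ C ∈ F, bxc C lam (w C) ⊆ C.set) {T : Bx (Fin 3) → Set R3}
    (hT : ∀ C ∈ F, C.set ⊆ P3 ⁻¹' par Cb L b ((1 - 2 * σ) * s) →
      {x : R3 | P3.symm (b + L (x - z)) ∈ bxc C lam (w C)} ⊆ T C) :
    volume (cel Cb z s \ ⋃ C ∈ {C ∈ F | C.set ⊆ P3 ⁻¹' par Cb L b ((1 - 2 * σ) * s)}, T C) ≤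
      ENNReal.ofReal ((6 * σ + 6 * κ⁻¹ * t / s + 3 * (1 - lam)) * (2 * s) ^ 3) := by
  have hr : 0 < (1 - 2 * σ) * s := mul_pos (by linarith) hs
  have hi := aff3_image L hκ hL z b hr
  have hκ' : 0 < κ⁻¹ := inv_pos.2 hκ
  have hmem : ∀ x ∈ closedBall (P3.symm z) s, P3 (aff3 L hκ hL z b x) ∈ par Cb L b s := by
    intro x hx
    have : aff3 L hκ hL z b x ∈ P3 ⁻¹' par Cb L b s := by
      rw [← aff3_image L hκ hL z b hs]
      exact ⟨x, hx, rfl⟩
    exact this
  have h := fill (A := aff3 L hκ hL z b) (K := 2 * κ⁻¹) (by positivity)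
    (aff3_symm_lip L hκ hL z b) (z := P3.symm z) (s := s) (σ := σ) (t := t) (lam := lam) hs hσ ht
    hl hl1 hF hpos hdis
    (by
      intro x hx
      obtain ⟨C, hC, h1⟩ := hcov _ (hmem x hx)
      rw [ContinuousLinearEquiv.symm_apply_apply] at h1
      exact ⟨C, hC, h1⟩)
    (by
      intro C hC x hx hxC
      refine hsz C hC _ (hmem x hx) ?_
      rwa [ContinuousLinearEquiv.symm_apply_apply])
    hw (T := fun C => P3 ⁻¹' T C)
    (by
      intro C hC hsub
      rw [hi] at hsub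
      intro x hx
      exact hT C hC hsub hx)
  rw [hi] at h
  have h2 : volume (cel Cb z s \ ⋃ C ∈ {C ∈ F | C.set ⊆ P3 ⁻¹' par Cb L b ((1 - 2 * σ) * s)}, T C) =
      volume (closedBall (P3.symm z) s \
        ⋃ C ∈ {C ∈ F | C.set ⊆ P3 ⁻¹' par Cb L b ((1 - 2 * σ) * s)}, P3 ⁻¹' T C) := by
    rw [← P3_mp.measure_preimage_equiv (f := P3.toHomeomorph.toMeasurableEquiv)]
    congr 1
    rw [← cel_preimage z hs]
    ext x
    simp only [mem_preimage, mem_diff, mem_iUnion]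
    rfl
  rw [h2]
  refine h.trans (le_of_eq ?_)
  congr 2
  ring

/-! ### the sum over the cells of a grid -/

theorem aedisjoint_cel {s : ℝ} (hs : 0 < s) (a : R3) {k l : Fin 3 → ℤ} (hkl : k ≠ l) :
    volume (cel Cb (vt (2 * s) a k) s ∩ cel Cb (vt (2 * s) a l) s) = 0 := by
  obtain ⟨i, hi⟩ := Function.ne_iff.1 hkl
  have h1 : ∃ c : ℝ, cel Cb (vt (2 * s) a k) s ∩ cel Cb (vt (2 * s) a l) s ⊆ {x : R3 | x i = c} := by
    rcases lt_or_gt_of_ne hi with h | h
    · refine ⟨a i + 2 * s * k i + s, ?_⟩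
      rintro x ⟨hx, hx'⟩
      have h2 := (mem_cel hs).1 hx i
      have h3 := (mem_cel hs).1 hx' i
      rw [vt_apply, abs_le] at h2 h3
      have h4 : (k i : ℝ) + 1 ≤ l i := by exact_mod_cast h
      show x i = _
      nlinarith
    · refine ⟨a i + 2 * s * l i + s, ?_⟩
      rintro x ⟨hx, hx'⟩
      have h2 := (mem_cel hs).1 hx i
      have h3 := (mem_cel hs).1 hx' i
      rw [vt_apply, abs_le] at h2 h3
      have h4 : (l i : ℝ) + 1 ≤ k i := by exact_mod_cast h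
      show x i = _
      nlinarith
  obtain ⟨c, hc⟩ := h1
  refine measure_mono_null hc ?_
  have h5 : volume (P3.toHomeomorph.toMeasurableEquiv ⁻¹' {x : R3 | x i = c}) = 0 := by
    have h6 : P3.toHomeomorph.toMeasurableEquiv ⁻¹' {x : R3 | x i = c} =
        Set.pi univ (fun j => if j = i then {c} else univ) := by
      ext x
      simp only [mem_univ_pi]
      constructor
      · intro h j
        by_cases hj : j = i
        · subst hj
          have h7 : x j = c := h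
          simp [h7]
        · simp [hj]
      · intro h
        have h7 := h i
        simp only [if_true, mem_singleton_iff] at h7
        exact h7
    rw [h6, volume_pi_pi]
    apply Finset.prod_eq_zero (Finset.mem_univ i)
    simp
  rwa [P3_mp.measure_preimage_equiv (f := P3.toHomeomorph.toMeasurableEquiv)] at h5

theorem volume_cel (z : R3) {s : ℝ} (hs : 0 < s) :
    volume (cel Cb z s) = ENNReal.ofReal ((2 * s) ^ 3) := by
  rw [← P3_mp.measure_preimage_equiv (f := P3.toHomeomorph.toMeasurableEquiv)]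
  have h1 : P3.toHomeomorph.toMeasurableEquiv ⁻¹' cel Cb z s = closedBall (P3.symm z) s :=
    cel_preimage z hs
  rw [h1, Real.volume_pi_closedBall _ hs.le]
  simp

theorem isClosed_cel (z : R3) (s : ℝ) : IsClosed (cel Cb z s) :=
  (isCompact_cel ref_Cb.cpt z s).isClosed

/-- **SUM over the cells.** -/
theorem fill_sum {Om : Set R3} {s : ℝ} (hs : 0 < s) (a : R3) (Q : Finset (Fin 3 → ℤ))
    (hQ : ∀ k ∈ Q, cel Cb (vt (2 * s) a k) s ⊆ Om) (K : (Fin 3 → ℤ) → Set R3) {c : ℝ} (hc : 0 ≤ c)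
    (h : ∀ k ∈ Q, volume (cel Cb (vt (2 * s) a k) s \ K k) ≤ ENNReal.ofReal (c * (2 * s) ^ 3)) :
    volume ((⋃ k ∈ Q, cel Cb (vt (2 * s) a k) s) \ ⋃ k ∈ Q, K k) ≤
      ENNReal.ofReal c * volume Om := by
  have h1 : (⋃ k ∈ Q, cel Cb (vt (2 * s) a k) s) \ ⋃ k ∈ Q, K k ⊆
      ⋃ k ∈ Q, (cel Cb (vt (2 * s) a k) s \ K k) := by
    rintro x ⟨hx, hx'⟩
    simp only [mem_iUnion] at hx hx' ⊢
    obtain ⟨k, hk, hxk⟩ := hx
    exact ⟨k, hk, hxk, fun hK => hx' ⟨k, hk, hK⟩⟩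
  calc volume ((⋃ k ∈ Q, cel Cb (vt (2 * s) a k) s) \ ⋃ k ∈ Q, K k)
      ≤ volume (⋃ k ∈ Q, (cel Cb (vt (2 * s) a k) s \ K k)) := measure_mono h1
    _ ≤ ∑ k ∈ Q, volume (cel Cb (vt (2 * s) a k) s \ K k) := measure_biUnion_finset_le _ _
    _ ≤ ∑ k ∈ Q, ENNReal.ofReal c * volume (cel Cb (vt (2 * s) a k) s) := by
        apply Finset.sum_le_sum
        intro k hk
        rw [volume_cel _ hs, ← ENNReal.ofReal_mul hc]
        exact h k hk
    _ = ENNReal.ofReal c * volume (⋃ k ∈ Q, cel Cb (vt (2 * s) a k) s) := by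
        rw [← Finset.mul_sum, measure_biUnion_finset₀]
        · intro k _ l _ hkl
          exact aedisjoint_cel hs a hkl
        · intro k _
          exact (isClosed_cel _ _).measurableSet.nullMeasurableSet
    _ ≤ ENNReal.ofReal c * volume Om := by
        gcongr
        exact iUnion₂_subset hQ

end

end Crest.Agent.R096.Fil_313
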