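import Crest.Agent.R096.Br6_695

-- ▼ part R096/Br7_695
section

/-!
Row 96 (S0127), helper695.  **`BFk p` for `p ≤ 2`**: energies of the composition `EA0 p → PreIN p → BFk p`.
-/

set_option autoImplicit false
set_option linter.unusedSectionVars false
set_option linter.style.longLine false

open MeasureTheory Set Filter Metric Module
open scoped ENNReal NNReal Topology

namespace Crest.Agent.R096.Br_695

open Crest.AnalysisR.VecCalc3 Crest.AnalysisR.Sobolev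
open Crest.Agent.R96.Lu_538 Crest.Agent.R96.Intr_538
open Crest.Agent.R096.Sk_962 (SH Gr)
open Crest.Agent.R096.Sk4_663 (Zd BFs lintegral_of_memLp)
open Crest.Agent.R096.Bsp_628
open Crest.Agent.R096.Bxs_627 hiding E3
open Crest.Agent.R96.En10_199
open Crest.Agent.R096.SkC1_961 (E3 Hom3)
open Crest.Agent.R096.Er_594
open Crest.Agent.R096.EaX_766 (cbx lin Kor)
open Crest.Agent.R096.ThC6_766 (Scale exists_scale)
open Crest.Agent.R096.Brk5_582 (Cmp)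

noncomputable section

/-- energy on the cores, sum form -/
theorem core_energy2 {p : ℝ} (hp : 1 ≤ p) {ι : Type*} [Countable ι] {Om : Set E3}
    {D : E3 → E3 →L[ℝ] E3} (hD : AEStronglyMeasurable D (volume.restrict Om)) {g : E3 → E3}
    {K : ι → Set E3} (hKO : ∀ i, K i ⊆ Om) (hKm : ∀ i, MeasurableSet (K i))
    (hd : Pairwise (Function.onFun Disjoint K)) {l : ι → E3 →L[ℝ] E3} {N : ℝ} (hN0 : 0 ≤ N)
    (hN : ∀ i, ‖l i‖ ≤ N) {lam : ℝ} (hl0 : 0 < lam) (hl1 : lam ≤ 1) {q h V : ℝ} (hq : 0 ≤ q)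
    (hh : 0 ≤ h) (hV0 : 0 ≤ V)
    (h1 : ∑' i, ∫⁻ x in K i, ‖fderiv ℝ g x - lam⁻¹ • l i‖ₑ ^ p ≤ ENNReal.ofReal q)
    (h2 : ∑' i, ∫⁻ x in K i, ‖D x - l i‖ₑ ^ p ≤ ENNReal.ofReal h)
    (hV : volume Om ≤ ENNReal.ofReal V) :
    ∫⁻ x in ⋃ i, K i, ‖fderiv ℝ g x - D x‖ₑ ^ p ≤
      ENNReal.ofReal (2 ^ (p - 1) * (2 ^ (p - 1) * (q + (lam⁻¹ - 1) ^ p * N ^ p * V) + h)) := by
  have hp0 : 0 ≤ p := by linarith
  set a : ℝ≥0∞ := ENNReal.ofReal (2 ^ (p - 1)) with ha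
  have ha' : (2:ℝ≥0∞) ^ (p - 1) = a := by
    rw [ha, ← ENNReal.ofReal_rpow_of_pos (by norm_num)]; norm_num
  have ht : a ≠ ∞ := ENNReal.ofReal_ne_top
  have hl2 : 0 ≤ lam⁻¹ - 1 := by
    have := (one_le_inv₀ hl0).2 hl1
    linarith
  set b : ι → ℝ≥0∞ := fun i => ENNReal.ofReal ((lam⁻¹ - 1) ^ p) * ‖l i‖ₑ ^ p with hb
  have hpt : ∀ i x, ‖fderiv ℝ g x - D x‖ₑ ^ p ≤
      a * (a * (‖fderiv ℝ g x - lam⁻¹ • l i‖ₑ ^ p + b i) + ‖D x - l i‖ₑ ^ p) := by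
    intro i x
    have e1 : fderiv ℝ g x - D x = ((fderiv ℝ g x - lam⁻¹ • l i) + (lam⁻¹ - 1) • l i) +
        (-(D x - l i)) := by
      module
    have e2 : ‖(lam⁻¹ - 1) • l i‖ₑ ^ p = b i := by
      rw [enorm_smul, ENNReal.mul_rpow_of_nonneg _ _ hp0, hb]
      congr 1
      rw [Real.enorm_eq_ofReal hl2, ENNReal.ofReal_rpow_of_nonneg hl2 hp0]
    have e3 : ‖((fderiv ℝ g x - lam⁻¹ • l i) + (lam⁻¹ - 1) • l i) + (-(D x - l i))‖ₑ ≤
        ‖(fderiv ℝ g x - lam⁻¹ • l i) + (lam⁻¹ - 1) • l i‖ₑ + ‖-(D x - l i)‖ₑ := by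
      exact enorm_add_le' _ _
    have e4 : ‖(fderiv ℝ g x - lam⁻¹ • l i) + (lam⁻¹ - 1) • l i‖ₑ ≤
        ‖fderiv ℝ g x - lam⁻¹ • l i‖ₑ + ‖(lam⁻¹ - 1) • l i‖ₑ := by
      exact enorm_add_le' _ _
    rw [e1]
    calc _ ≤ (‖(fderiv ℝ g x - lam⁻¹ • l i) + (lam⁻¹ - 1) • l i‖ₑ + ‖-(D x - l i)‖ₑ) ^ p :=
          ENNReal.rpow_le_rpow e3 hp0
      _ ≤ a * (‖(fderiv ℝ g x - lam⁻¹ • l i) + (lam⁻¹ - 1) • l i‖ₑ ^ p +
            ‖-(D x - l i)‖ₑ ^ p) := by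
          rw [← ha']; exact ENNReal.rpow_add_le_mul_rpow_add_rpow _ _ hp
      _ ≤ a * (a * (‖fderiv ℝ g x - lam⁻¹ • l i‖ₑ ^ p + b i) + ‖D x - l i‖ₑ ^ p) := by
          rw [enorm_neg]
          gcongr
          calc _ ≤ (‖fderiv ℝ g x - lam⁻¹ • l i‖ₑ + ‖(lam⁻¹ - 1) • l i‖ₑ) ^ p :=
                ENNReal.rpow_le_rpow e4 hp0
            _ ≤ a * (‖fderiv ℝ g x - lam⁻¹ • l i‖ₑ ^ p + ‖(lam⁻¹ - 1) • l i‖ₑ ^ p) := by
                rw [← ha']; exact ENNReal.rpow_add_le_mul_rpow_add_rpow _ _ hp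
            _ = _ := by rw [e2]
  have hNp : ∀ i, ‖l i‖ₑ ^ p ≤ ENNReal.ofReal (N ^ p) := by
    intro i
    rw [← ofReal_norm, ENNReal.ofReal_rpow_of_nonneg (norm_nonneg _) hp0]
    exact ENNReal.ofReal_le_ofReal (Real.rpow_le_rpow (norm_nonneg _) (hN i) hp0)
  have hi : ∀ i, ∫⁻ x in K i, ‖fderiv ℝ g x - D x‖ₑ ^ p ≤
      a * (a * ((∫⁻ x in K i, ‖fderiv ℝ g x - lam⁻¹ • l i‖ₑ ^ p) +
        ENNReal.ofReal ((lam⁻¹ - 1) ^ p * N ^ p) * volume (K i)) +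
        ∫⁻ x in K i, ‖D x - l i‖ₑ ^ p) := by
    intro i
    have hm : AEMeasurable (fun x => ‖D x - l i‖ₑ ^ p) (volume.restrict (K i)) := by
      have h3 : AEStronglyMeasurable D (volume.restrict (K i)) :=
        hD.mono_measure (Measure.restrict_mono (hKO i) le_rfl)
      exact ((h3.sub aestronglyMeasurable_const).enorm).pow_const p
    calc ∫⁻ x in K i, ‖fderiv ℝ g x - D x‖ₑ ^ p
        ≤ ∫⁻ x in K i, a * (a * (‖fderiv ℝ g x - lam⁻¹ • l i‖ₑ ^ p + b i) +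
            ‖D x - l i‖ₑ ^ p) := lintegral_mono (hpt i)
      _ = a * (a * ((∫⁻ x in K i, ‖fderiv ℝ g x - lam⁻¹ • l i‖ₑ ^ p) + b i * volume (K i)) +
            ∫⁻ x in K i, ‖D x - l i‖ₑ ^ p) := by
          rw [lintegral_const_mul' _ _ ht, lintegral_add_right' _ hm,
            lintegral_const_mul' _ _ ht, lintegral_add_right _ measurable_const,
            setLIntegral_const]
      _ ≤ _ := by
          gcongr
          simp only [hb]
          rw [ENNReal.ofReal_mul (by positivity)]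
          gcongr
          exact hNp i
  have hvol : ∑' i, volume (K i) ≤ ENNReal.ofReal V := by
    rw [← measure_iUnion hd hKm]
    exact (measure_mono (iUnion_subset hKO)).trans hV
  calc ∫⁻ x in ⋃ i, K i, ‖fderiv ℝ g x - D x‖ₑ ^ p
      ≤ ∑' i, ∫⁻ x in K i, ‖fderiv ℝ g x - D x‖ₑ ^ p := lintegral_iUnion_le _ _
    _ ≤ ∑' i, a * (a * ((∫⁻ x in K i, ‖fderiv ℝ g x - lam⁻¹ • l i‖ₑ ^ p) +
        ENNReal.ofReal ((lam⁻¹ - 1) ^ p * N ^ p) * volume (K i)) +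
        ∫⁻ x in K i, ‖D x - l i‖ₑ ^ p) := ENNReal.tsum_le_tsum hi
    _ = a * (a * ((∑' i, ∫⁻ x in K i, ‖fderiv ℝ g x - lam⁻¹ • l i‖ₑ ^ p) +
        ENNReal.ofReal ((lam⁻¹ - 1) ^ p * N ^ p) * ∑' i, volume (K i)) +
        ∑' i, ∫⁻ x in K i, ‖D x - l i‖ₑ ^ p) := by
        rw [ENNReal.tsum_mul_left, ENNReal.tsum_add, ENNReal.tsum_mul_left, ENNReal.tsum_add,
          ENNReal.tsum_mul_left]
    _ ≤ a * (a * (ENNReal.ofReal q +
        ENNReal.ofReal ((lam⁻¹ - 1) ^ p * N ^ p) * ENNReal.ofReal V) +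
        ENNReal.ofReal h) := by gcongr
    _ = _ := by
        have h3 : 0 ≤ (lam⁻¹ - 1) ^ p * N ^ p := by positivity
        rw [ha, ← ENNReal.ofReal_mul h3, ← ENNReal.ofReal_add hq (by positivity),
          ← ENNReal.ofReal_mul (by positivity),
          ← ENNReal.ofReal_add (by positivity) hh, ← ENNReal.ofReal_mul (by positivity)]



end

end Crest.Agent.R096.Br_695
end

-- ▼ part R096/Br8_695
section

/-!
Row 96 (S0127), helper695.  **`BFk p` for `p ≤ 2`**: the final energies.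
-/

set_option autoImplicit false
set_option linter.unusedSectionVars false
set_option linter.style.longLine false

open MeasureTheory Set Filter Metric Module
open scoped ENNReal NNReal Topology

namespace Crest.Agent.R096.Br_695

open Crest.AnalysisR.VecCalc3 Crest.AnalysisR.Sobolev
open Crest.Agent.R96.Lu_538 Crest.Agent.R96.Intr_538
open Crest.Agent.R096.Sk_962 (SH Gr)
open Crest.Agent.R096.Sk4_663 (Zd BFs lintegral_of_memLp)
open Crest.Agent.R096.Bsp_628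
open Crest.Agent.R096.Bxs_627 hiding E3
open Crest.Agent.R96.En10_199
open Crest.Agent.R096.SkC1_961 (E3 Hom3)
open Crest.Agent.R096.Er_594
open Crest.Agent.R096.EaX_766 (cbx lin Kor)
open Crest.Agent.R096.ThC6_766 (Scale exists_scale)
open Crest.Agent.R096.Brk5_582 (Cmp)
open Crest.Agent.R096.Str_696 (LocPL)

noncomputable section

/-- **the final energies** of the range `p ≤ 2` -/
theorem fin_bfk {p : ℝ} (hp : 1 ≤ p) {Om La : Set R3} (hO : IsOpen Om)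
    {f : R3 → R3} {G G₂ : Fin 3 → R3 → R3} (hS : SH p Om La f G)
    {F : Set (Bx (Fin 3))} (hFc : Countable F) {X : Set F} {A : F → E3 ≃ᵃ[ℝ] E3} {lam : ℝ}
    (hl0 : 0 < lam) (hl1 : lam ≤ 1) {N : ℝ} (hN0 : 0 ≤ N) (hN : ∀ c ∈ X, ‖lin (A c)‖ ≤ N)
    (hKO : ∀ c ∈ X, Kor F A (fun _ => lam) c ⊆ P3 ⁻¹' Om)
    (hdisj : ∀ c ∈ X, ∀ c' ∈ X, c ≠ c' →
      Disjoint (Kor F A (fun _ => lam) c) (Kor F A (fun _ => lam) c'))
    {NQ Ly : F → Set E3} {er : F → ℝ≥0∞} {C Cp CA : ℝ≥0} {e1 e m V s2 s3 h e2 e3 : ℝ}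
    {g : E3 → E3} (hV0 : 0 ≤ V) (hV : volume Om ≤ ENNReal.ofReal V) (he1 : 0 ≤ e1) (hm : 0 ≤ m)
    (hh : 0 ≤ h) (hs2 : 0 ≤ s2) (hs3 : 0 ≤ s3) (he2 : 0 ≤ e2) (he3 : 0 ≤ e3)
    (g2 : LocPL g (P3 ⁻¹' Om))
    (g4 : (∫⁻ x in P3 ⁻¹' Om \ ⋃ c ∈ X, Kor F A (fun _ => lam) c, ‖fderiv ℝ g x‖ₑ ^ p) ≤
      C * (∫⁻ x in P3 ⁻¹' Om \ ⋃ c ∈ X, NQ c, (1 + ‖D3 G₂ x‖ₑ ^ p)) +
      C * (∑' c : X, (1 + ‖lin (A c)‖ₑ ^ p) * volume (NQ c \ Kor F A (fun _ => lam) c)) +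
      CA * (∑' c : X, ∫⁻ x in Ly c, (1 + ‖D3 G₂ x‖ₑ ^ p)) +
      C * (∑' c : X, er c) +
      ENNReal.ofReal e1 *
        (∑' c : X, (1 + ‖lin (A c)‖ₑ ^ p) * volume (Kor F A (fun _ => lam) c)) +
      ENNReal.ofReal e3)
    (g5 : ∀ c ∈ X, (∫⁻ x in Kor F A (fun _ => lam) c, ‖fderiv ℝ g x - lam⁻¹ • lin (A c)‖ₑ ^ p) ≤
      ENNReal.ofReal e1 * (‖lin (A c)‖ₑ ^ p * volume (Kor F A (fun _ => lam) c)) +
      C * ((1 + ‖lin (A c)‖ₑ ^ p) * volume (NQ c \ Kor F A (fun _ => lam) c)) + C * er c +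
      CA * (∫⁻ x in Ly c, (1 + ‖D3 G₂ x‖ₑ ^ p)))
    (hvolN : ∀ c ∈ X, volume (NQ c \ Kor F A (fun _ => lam) c) ≤
      ENNReal.ofReal m * volume (Kor F A (fun _ => lam) c))
    (hLy : CA * (∑' c : X, ∫⁻ x in Ly c, (1 + ‖D3 G₂ x‖ₑ ^ p)) ≤ ENNReal.ofReal s2)
    (her : ∑' c : X, er c ≤ ENNReal.ofReal s3)
    (hout : (∫⁻ x in P3 ⁻¹' Om \ ⋃ c ∈ X, NQ c, (1 + ‖D3 G₂ x‖ₑ ^ p)) ≤
      2 ^ p * (Cp * ∫⁻ x in Om \ P3.symm ⁻¹' ⋃ c ∈ X, Kor F A (fun _ => lam) c,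
        (1 + En p G x)) + ENNReal.ofReal e2)
    (hen : ∑' c : X, ∫⁻ x in Kor F A (fun _ => lam) c, ‖D3 G x - lin (A c)‖ₑ ^ p ≤
      ENNReal.ofReal h)
    (hn1 : 3 * (2 ^ (p - 1) * (2 ^ (p - 1) * ((e1 * (N ^ p * V) + C * ((1 + N ^ p) * (m * V)) +
      C * s3 + s2) + (lam⁻¹ - 1) ^ p * N ^ p * V) + h)) ≤ e)
    (hn2 : 3 * (C * e2 + C * ((1 + N ^ p) * (m * V)) + s2 + C * s3 + e1 * ((1 + N ^ p) * V) +
      e3) ≤ e) :
    (∫⁻ x in P3.symm ⁻¹' ⋃ c ∈ X, Kor F A (fun _ => lam) c,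
      ∑ j : Fin 3, ‖Gr (r3 g) j x - G j x‖ₑ ^ p) ≤ ENNReal.ofReal e ∧
    (∫⁻ x in Om \ P3.symm ⁻¹' ⋃ c ∈ X, Kor F A (fun _ => lam) c, En p (Gr (r3 g)) x) ≤
      ((3 * C * 2 ^ p * Cp : ℝ≥0) : ℝ≥0∞) *
        (∫⁻ x in Om \ P3.symm ⁻¹' ⋃ c ∈ X, Kor F A (fun _ => lam) c, (1 + En p G x)) +
      ENNReal.ofReal e := by
  classical
  have hp0 : 0 ≤ p := by linarith
  have hNp : 0 ≤ N ^ p := by positivity
  have hC0 : 0 ≤ (C : ℝ) := C.2
  set K3 : F → Set E3 := Kor F A (fun _ => lam) with hK3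
  set U : Set E3 := ⋃ c ∈ X, K3 c with hU
  have hUi : U = ⋃ c : X, K3 c := by rw [hU, biUnion_eq_iUnion]
  set K : Set R3 := P3.symm ⁻¹' U with hK
  have hKp : P3 ⁻¹' K = U := symm_pre U
  have hKOm : K ⊆ Om := by
    intro y hy
    have h1 : P3.symm y ∈ P3 ⁻¹' Om := by
      obtain ⟨c, hc, hyc⟩ := mem_iUnion₂.1 hy
      exact hKO c hc hyc
    have h2 : P3 (P3.symm y) ∈ Om := h1
    rwa [P3.apply_symm_apply] at h2
  have hd' : Pairwise (Function.onFun Disjoint fun c : X => K3 c) := fun c c' hne =>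
    hdisj _ c.2 _ c'.2 (fun h => hne (Subtype.ext h))
  have hKm : ∀ c : X, MeasurableSet (K3 c) := fun c => (isClosed_Kor _).measurableSet
  have hV3 : volume (P3 ⁻¹' Om) ≤ ENNReal.ofReal V := by rw [vol_P3]; exact hV
  have hvolK : ∑' c : X, volume (K3 c) ≤ ENNReal.ofReal V := by
    rw [← measure_iUnion hd' hKm]
    exact (measure_mono (iUnion_subset fun c => hKO _ c.2)).trans hV3
  have hS3 := sh3_of hp hO hS
  have hlp : ∀ c : X, ‖lin (A c)‖ₑ ^ p ≤ ENNReal.ofReal (N ^ p) := by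
    intro c
    rw [← ofReal_norm, ENNReal.ofReal_rpow_of_nonneg (norm_nonneg _) hp0]
    exact ENNReal.ofReal_le_ofReal (Real.rpow_le_rpow (norm_nonneg _) (hN _ c.2) hp0)
  have hlp1 : ∀ c : X, 1 + ‖lin (A c)‖ₑ ^ p ≤ ENNReal.ofReal (1 + N ^ p) := by
    intro c
    rw [ENNReal.ofReal_add (by norm_num) hNp, ENNReal.ofReal_one]
    gcongr
    exact hlp c
  have hS1 : ∑' c : X, (1 + ‖lin (A c)‖ₑ ^ p) * volume (NQ c \ K3 c) ≤
      ENNReal.ofReal ((1 + N ^ p) * (m * V)) := by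
    calc ∑' c : X, (1 + ‖lin (A c)‖ₑ ^ p) * volume (NQ c \ K3 c)
        ≤ ∑' c : X, ENNReal.ofReal (1 + N ^ p) * (ENNReal.ofReal m * volume (K3 c)) :=
          ENNReal.tsum_le_tsum fun c => mul_le_mul' (hlp1 c) (hvolN _ c.2)
      _ = ENNReal.ofReal (1 + N ^ p) * (ENNReal.ofReal m * ∑' c : X, volume (K3 c)) := by
          rw [ENNReal.tsum_mul_left, ENNReal.tsum_mul_left]
      _ ≤ ENNReal.ofReal (1 + N ^ p) * (ENNReal.ofReal m * ENNReal.ofReal V) := by gcongr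
      _ = _ := by rw [← ENNReal.ofReal_mul hm, ← ENNReal.ofReal_mul (by positivity)]
  have hS3' : ∑' c : X, (1 + ‖lin (A c)‖ₑ ^ p) * volume (K3 c) ≤
      ENNReal.ofReal ((1 + N ^ p) * V) := by
    calc ∑' c : X, (1 + ‖lin (A c)‖ₑ ^ p) * volume (K3 c)
        ≤ ∑' c : X, ENNReal.ofReal (1 + N ^ p) * volume (K3 c) :=
          ENNReal.tsum_le_tsum fun c => mul_le_mul' (hlp1 c) le_rfl
      _ = ENNReal.ofReal (1 + N ^ p) * ∑' c : X, volume (K3 c) := ENNReal.tsum_mul_left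
      _ ≤ ENNReal.ofReal (1 + N ^ p) * ENNReal.ofReal V := by gcongr
      _ = _ := (ENNReal.ofReal_mul (by positivity)).symm
  have hS4 : ∑' c : X, ‖lin (A c)‖ₑ ^ p * volume (K3 c) ≤ ENNReal.ofReal (N ^ p * V) := by
    calc ∑' c : X, ‖lin (A c)‖ₑ ^ p * volume (K3 c)
        ≤ ∑' c : X, ENNReal.ofReal (N ^ p) * volume (K3 c) :=
          ENNReal.tsum_le_tsum fun c => mul_le_mul' (hlp c) le_rfl
      _ = ENNReal.ofReal (N ^ p) * ∑' c : X, volume (K3 c) := ENNReal.tsum_mul_left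
      _ ≤ ENNReal.ofReal (N ^ p) * ENNReal.ofReal V := by gcongr
      _ = _ := (ENNReal.ofReal_mul (by positivity)).symm
  have hCr : (C : ℝ≥0∞) = ENNReal.ofReal (C : ℝ) := by rw [ENNReal.ofReal_coe_nnreal]
  constructor
  · refine (energy_sub_le hO g2 hKOm hp0 G).trans ?_
    rw [hKp, hUi]
    have hq : ∑' c : X, ∫⁻ x in K3 c, ‖fderiv ℝ g x - lam⁻¹ • lin (A c)‖ₑ ^ p ≤
        ENNReal.ofReal (e1 * (N ^ p * V) + C * ((1 + N ^ p) * (m * V)) + C * s3 + s2) := by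
      calc ∑' c : X, ∫⁻ x in K3 c, ‖fderiv ℝ g x - lam⁻¹ • lin (A c)‖ₑ ^ p
          ≤ ∑' c : X, (ENNReal.ofReal e1 * (‖lin (A c)‖ₑ ^ p * volume (K3 c)) +
              C * ((1 + ‖lin (A c)‖ₑ ^ p) * volume (NQ c \ K3 c)) + C * er c +
              CA * (∫⁻ x in Ly c, (1 + ‖D3 G₂ x‖ₑ ^ p))) :=
            ENNReal.tsum_le_tsum fun c => g5 _ c.2
        _ = ENNReal.ofReal e1 * (∑' c : X, ‖lin (A c)‖ₑ ^ p * volume (K3 c)) +
              C * (∑' c : X, (1 + ‖lin (A c)‖ₑ ^ p) * volume (NQ c \ K3 c)) +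
              C * (∑' c : X, er c) +
              CA * (∑' c : X, ∫⁻ x in Ly c, (1 + ‖D3 G₂ x‖ₑ ^ p)) := by
            rw [ENNReal.tsum_add, ENNReal.tsum_add, ENNReal.tsum_add, ENNReal.tsum_mul_left,
              ENNReal.tsum_mul_left, ENNReal.tsum_mul_left, ENNReal.tsum_mul_left]
        _ ≤ ENNReal.ofReal e1 * ENNReal.ofReal (N ^ p * V) +
              C * ENNReal.ofReal ((1 + N ^ p) * (m * V)) +
              C * ENNReal.ofReal s3 + ENNReal.ofReal s2 := by gcongr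
        _ = _ := by
            rw [hCr, ← ENNReal.ofReal_mul he1, ← ENNReal.ofReal_mul hC0,
              ← ENNReal.ofReal_mul hC0, ← ENNReal.ofReal_add (by positivity) (by positivity),
              ← ENNReal.ofReal_add (by positivity) (by positivity),
              ← ENNReal.ofReal_add (by positivity) hs2]
    have h1 := core_energy2 hp hS3.aesm (K := fun c : X => K3 c) (fun c => hKO _ c.2) hKm hd'
      (l := fun c : X => lin (A c)) hN0 (fun c => hN _ c.2) hl0 hl1 (g := g) (by positivity) hh hV0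
      hq hen hV3
    have h3 : (3:ℝ≥0∞) = ENNReal.ofReal 3 := by norm_num
    refine (mul_le_mul' le_rfl h1).trans ?_
    rw [h3, ← ENNReal.ofReal_mul (by norm_num)]
    exact ENNReal.ofReal_le_ofReal hn1
  · have hpre : P3 ⁻¹' (Om \ K) = P3 ⁻¹' Om \ U := by
      rw [preimage_sdiff, hKp]
    have h0 := energy_g_le hO g2 (R := Om \ K) sdiff_subset hp0
    rw [hpre] at h0
    calc ∫⁻ x in Om \ K, En p (Gr (r3 g)) x ≤ 3 * ∫⁻ x in P3 ⁻¹' Om \ U, ‖fderiv ℝ g x‖ₑ ^ p := h0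
      _ ≤ 3 * (C * (2 ^ p * (Cp * ∫⁻ x in Om \ K, (1 + En p G x)) + ENNReal.ofReal e2) +
            C * ENNReal.ofReal ((1 + N ^ p) * (m * V)) + ENNReal.ofReal s2 +
            C * ENNReal.ofReal s3 + ENNReal.ofReal e1 * ENNReal.ofReal ((1 + N ^ p) * V) +
            ENNReal.ofReal e3) := by
          refine mul_le_mul' le_rfl (g4.trans ?_)
          gcongr
      _ = ((3 * C * 2 ^ p * Cp : ℝ≥0) : ℝ≥0∞) * (∫⁻ x in Om \ K, (1 + En p G x)) +
            3 * (C * ENNReal.ofReal e2 + C * ENNReal.ofReal ((1 + N ^ p) * (m * V)) +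
              ENNReal.ofReal s2 + C * ENNReal.ofReal s3 +
              ENNReal.ofReal e1 * ENNReal.ofReal ((1 + N ^ p) * V) + ENNReal.ofReal e3) := by
          push_cast
          rw [ENNReal.coe_rpow_of_nonneg _ hp0]
          push_cast
          ring
      _ ≤ _ := by
          gcongr
          rw [hCr, ← ENNReal.ofReal_mul he1, ← ENNReal.ofReal_mul hC0, ← ENNReal.ofReal_mul hC0,
            ← ENNReal.ofReal_mul hC0, ← ENNReal.ofReal_add (by positivity) (by positivity),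
            ← ENNReal.ofReal_add (by positivity) (by positivity),
            ← ENNReal.ofReal_add (by positivity) (by positivity),
            ← ENNReal.ofReal_add (by positivity) (by positivity),
            ← ENNReal.ofReal_add (by positivity) he3,
            show (3:ℝ≥0∞) = ENNReal.ofReal 3 by norm_num, ← ENNReal.ofReal_mul (by norm_num)]
          exact ENNReal.ofReal_le_ofReal hn2

end

end Crest.Agent.R096.Br_695
end

-- ▼ part R096/Br9_695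

/-!
Row 96 (S0127), helper695.  **`BFk p` for `p ≤ 2`**: numbers.
-/

set_option autoImplicit false
set_option linter.unusedSectionVars false
set_option linter.style.longLine false

open MeasureTheory Set Filter Metric Module
open scoped ENNReal NNReal Topology

namespace Crest.Agent.R096.Br_695

noncomputable section

/-- the small number `q` of the energies -/
theorem numA {p e V N C C2 : ℝ} (he : 0 < e) (hV : 0 ≤ V) (hN : 0 ≤ N) (hC : 0 ≤ C)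
    (hC2 : 0 ≤ C2) :
    ∃ q : ℝ, 0 < q ∧ q ≤ 1 ∧
      3 * (2 ^ (p - 1) * (2 ^ (p - 1) * ((q * (N ^ p * V) + C * ((1 + N ^ p) * (q * V)) +
        C * q + q) + q * N ^ p * V) + q)) ≤ e ∧
      3 * (C * (C2 * q) + C * ((1 + N ^ p) * (q * V)) + q + C * q + q * ((1 + N ^ p) * V) + q) ≤
        e / 2 := by
  have hNp : 0 ≤ N ^ p := by positivity
  set a : ℝ := 2 ^ (p - 1) with ha
  have ha0 : 0 < a := by positivity
  set B1 : ℝ := 3 * (a * (a * ((N ^ p * V + C * ((1 + N ^ p) * V) + C + 1) + N ^ p * V) + 1))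
    with hB1
  set B2 : ℝ := 3 * (C * C2 + C * ((1 + N ^ p) * V) + 1 + C + (1 + N ^ p) * V + 1) with hB2
  have h1 : 0 ≤ B1 := by positivity
  have h2 : 0 ≤ B2 := by positivity
  set q : ℝ := min 1 (e / (2 * (B1 + B2 + 1))) with hq
  have hq0 : 0 < q := by positivity
  have hq1 : q ≤ e / (2 * (B1 + B2 + 1)) := min_le_right _ _
  rw [le_div_iff₀ (by positivity)] at hq1
  refine ⟨q, hq0, min_le_left _ _, ?_, ?_⟩
  · have e1 : 3 * (a * (a * ((q * (N ^ p * V) + C * ((1 + N ^ p) * (q * V)) +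
        C * q + q) + q * N ^ p * V) + q)) = B1 * q := by rw [hB1]; ring
    rw [e1]
    nlinarith [mul_nonneg hq0.le h1, mul_nonneg hq0.le h2]
  · have e1 : 3 * (C * (C2 * q) + C * ((1 + N ^ p) * (q * V)) + q + C * q +
        q * ((1 + N ^ p) * V) + q) = B2 * q := by rw [hB2]; ring
    rw [e1]
    nlinarith [mul_nonneg hq0.le h1, mul_nonneg hq0.le h2]

/-- the ratio `lam` -/
theorem numB {p q r T R : ℝ} (hp : 1 ≤ p) (hq : 0 < q) (hr : 0 < r) (hT : 0 ≤ T) (hR : 0 ≤ R) :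
    ∃ lam : ℝ, 1 / 2 ≤ lam ∧ lam < 1 ∧ 100 * (1 - lam) ≤ q ∧ T * (1 - lam) ≤ q / 2 ∧
      R * (1 - lam) ≤ r ∧ (lam⁻¹ - 1) ^ p ≤ q := by
  set x : ℝ := min (1 / 2) (min (q / 100) (min (q / (2 * (T + 1))) (r / (R + 1)))) with hx
  have hx0 : 0 < x := by positivity
  have x1 : x ≤ 1 / 2 := min_le_left _ _
  have x2 : x ≤ q / 100 := (min_le_right _ _).trans (min_le_left _ _)
  have x3 : x ≤ q / (2 * (T + 1)) :=
    (min_le_right _ _).trans ((min_le_right _ _).trans (min_le_left _ _))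
  have x4 : x ≤ r / (R + 1) :=
    (min_le_right _ _).trans ((min_le_right _ _).trans (min_le_right _ _))
  refine ⟨1 - x, by linarith, by linarith, ?_, ?_, ?_, ?_⟩
  · linarith
  · rw [le_div_iff₀ (by positivity)] at x3
    nlinarith
  · rw [le_div_iff₀ (by positivity)] at x4
    nlinarith
  · have h1 : (1 - x)⁻¹ ≤ 1 + 2 * x := by
      rw [inv_le_comm₀ (by linarith) (by positivity), inv_le_iff_one_le_mul₀ (by positivity)]
      nlinarith
    have h0 : 0 ≤ (1 - x)⁻¹ - 1 := by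
      have := (one_le_inv₀ (by linarith : 0 < 1 - x)).2 (by linarith)
      linarith
    have h2 : (1 - x)⁻¹ - 1 ≤ 2 * x := by linarith
    calc ((1 - x)⁻¹ - 1) ^ p ≤ (2 * x) ^ p := Real.rpow_le_rpow h0 h2 (by linarith)
      _ ≤ (2 * x) ^ (1 : ℝ) :=
          Real.rpow_le_rpow_of_exponent_ge (by positivity) (by linarith) hp
      _ = 2 * x := Real.rpow_one _
      _ ≤ q := by linarith

/-- a large power of `2` -/
theorem numM (M0 : ℕ) (T : ℝ) : ∃ μ : ℕ, M0 ≤ 2 ^ μ ∧ T ≤ (2 ^ μ : ℕ) := by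
  obtain ⟨n, hn⟩ := exists_nat_ge T
  refine ⟨M0 + n, ?_, ?_⟩
  · exact (Nat.le_add_right _ _).trans (Nat.lt_two_pow_self).le
  · refine hn.trans ?_
    exact_mod_cast (Nat.le_add_left _ _).trans (Nat.lt_two_pow_self (n := M0 + n)).le

/-- the wall scale -/
theorem numk {x : ℝ} (hx : 0 < x) (hx1 : x ≤ 1 / 8) :
    ∃ k : ℕ, 3 ≤ k ∧ x / 2 ≤ 1 / 2 ^ k ∧ 1 / 2 ^ k ≤ x := by
  have h1 : 1 ≤ x⁻¹ := (one_le_inv₀ hx).2 (by linarith)
  obtain ⟨n, hn1, hn2⟩ := exists_nat_pow_near h1 (by norm_num : (1:ℝ) < 2)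
  have hp : (0:ℝ) < 2 ^ (n + 1) := by positivity
  have h2 : 1 / 2 ^ (n + 1) ≤ x := by
    rw [div_le_iff₀ hp]
    have := mul_lt_mul_of_pos_left hn2 hx
    rw [mul_inv_cancel₀ hx.ne'] at this
    exact this.le
  refine ⟨n + 1, ?_, ?_, h2⟩
  · by_contra hc
    have h3 : (2:ℝ) ^ (n + 1) ≤ 2 ^ 2 := pow_le_pow_right₀ (by norm_num) (by omega)
    rw [div_le_iff₀ hp] at h2
    nlinarith
  · rw [le_div_iff₀ hp]
    have h3 : x * 2 ^ n ≤ 1 := by
      have := mul_le_mul_of_nonneg_left hn1 hx.le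
      rwa [mul_inv_cancel₀ hx.ne'] at this
    rw [pow_succ]
    linarith

end

end Crest.Agent.R096.Br_695
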