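import Crest.Agent.R096.Bxs3_627

/-!
Row 96 (S0127), helper627.  BOXES, part 5: the core statement of a brick from the abstract estimates in
the form of PREP3 (766): small cores with an arbitrary ratio, full size cores.
-/

set_option autoImplicit false
set_option linter.unusedSectionVars false
set_option linter.style.longLine false
set_option linter.unusedVariables false

open MeasureTheory Set Filter Topology Metric

namespace Crest.Agent.R096.Bxs_627

open Crest.AnalysisR.VecCalc3 Crest.AnalysisR.Sobolev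
open Crest.Agent.R096.Bsp_628 Crest.Agent.R96.Push_899 Crest.Agent.R96.En10_199

noncomputable section

/-- `Cori`: the core statement of the brick `c` (input of `cl_nbd_miss`). -/
def Cori (Om : Set R3) (f : R3 → R3) (A : R3 → R3) (Q : Bx (Fin 3)) (lam κ1 κ2 : ℝ) : Prop :=
  ∀ x : E3, (x ∈ P3 ⁻¹' Om ∧ ∀ k, |m3 f x k - ctr Q k| ≤ lam * Q.side k / 2) ∨
      (∀ k, |m3 A x k - ctr Q k| ≤ (1 / 2 + κ2) * (lam * Q.side k)) →
      x ∈ P3 ⁻¹' Om ∧ ‖m3 f x - m3 A x‖ ≤ κ1 * (lam * Q.sz)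

lemma near_of_coord {Q : Bx (Fin 3)} (hQ : Q.Pos) {u : R3} {b : ℝ} (hb : 0 ≤ b)
    (hu : ∀ k, |P3.symm u k - ctr Q k| ≤ b * Q.side k) : ‖u - P3 (ctr Q)‖ ≤ 2 * (b * Q.sz) := by
  have hs := Bx.sz_pos hQ
  have e1 : ‖P3.symm u - ctr Q‖ ≤ b * Q.sz := by
    rw [pi_norm_le_iff_of_nonneg (by positivity)]
    intro k
    rw [Pi.sub_apply, Real.norm_eq_abs]
    exact (hu k).trans (mul_le_mul_of_nonneg_left (Q.side_le_sz k) hb)
  have e2 := norm_P3_le (P3.symm u - ctr Q)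
  rw [map_sub, ContinuousLinearEquiv.apply_symm_apply] at e2
  linarith

/-- **small core**, ratio `lam`; the estimates are known over Euclidean balls of radius
`2 * lam * sz` round the centre. -/
theorem small_core' {Om : Set R3} {f A : R3 → R3} {Q : Bx (Fin 3)} (hQ : Q.Pos)
    {lam κ₁ κ1 κ2 : ℝ} (hl : 0 < lam) (h0 : 0 ≤ κ2) (h2 : κ2 ≤ 1 / 4)
    (hm : ∀ x ∈ Om, ‖f x - P3 (ctr Q)‖ ≤ 2 * (lam * Q.sz) → ‖f x - A x‖ ≤ κ₁ * Q.sz)
    (hn : ∀ x, ‖A x - P3 (ctr Q)‖ ≤ 2 * (lam * Q.sz) → x ∈ Om ∧ ‖f x - A x‖ ≤ κ₁ * Q.sz)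
    (hκ : κ₁ ≤ κ1 * lam) : Cori Om f A Q lam κ1 κ2 := by
  have hs := Bx.sz_pos hQ
  have fin : ∀ x : R3, x ∈ Om ∧ ‖f x - A x‖ ≤ κ₁ * Q.sz →
      x ∈ Om ∧ ‖P3.symm (f x) - P3.symm (A x)‖ ≤ κ1 * (lam * Q.sz) := by
    rintro x ⟨hx, h3⟩
    refine ⟨hx, ?_⟩
    have h4 := norm_P3_symm_le (f x - A x)
    rw [map_sub] at h4
    refine h4.trans (h3.trans ?_)
    calc κ₁ * Q.sz ≤ κ1 * lam * Q.sz := mul_le_mul_of_nonneg_right hκ hs.le
      _ = κ1 * (lam * Q.sz) := by ring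
  rintro x (⟨hx, h3⟩ | h3)
  · have h4 := near_of_coord hQ (u := f (P3 x)) (b := lam / 2) (by positivity) (fun k => by
      have := h3 k
      have e : m3 f x k = P3.symm (f (P3 x)) k := rfl
      rw [e] at this
      linarith)
    exact fin _ ⟨hx, hm _ hx (h4.trans (by nlinarith))⟩
  · have h4 := near_of_coord hQ (u := A (P3 x)) (b := (1 / 2 + κ2) * lam) (by positivity) (fun k => by
      have := h3 k
      have e : m3 A x k = P3.symm (A (P3 x)) k := rfl
      rw [e] at this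
      linarith)
    refine fin _ (hn _ (h4.trans ?_))
    have h5 : (1 / 2 + κ2) * lam ≤ 1 * lam := mul_le_mul_of_nonneg_right (by linarith) hl.le
    nlinarith



end

end Crest.Agent.R096.Bxs_627
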