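import Mathlib
import Crest.Prelude.Def_SobolevMap
import Crest.Agent.R096.Osc1_802

-- ▼ part R096/Osc2_802
section

/-!
P6-OSC part 2 (helper802): mollification of a continuous function with weak gradient,
with the L^p bound of the gradient minus a constant vector on a compact set.
-/

set_option autoImplicit false
open MeasureTheory Set Metric
open scoped ENNReal NNReal ContDiff Convolution
open Crest.AnalysisR.VecCalc3 Crest.AnalysisR.Sobolev

namespace Crest.Agent.R096.Osc_802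

/-- Jensen for a weight of total mass 1, p > 1. -/
lemma lintegral_rpow_le {α : Type*} [MeasurableSpace α] (μ : Measure α) {k h : α → ℝ≥0∞}
    (hk : Measurable k) (hh : AEMeasurable h μ) (hk1 : ∫⁻ y, k y ∂μ = 1) {p : ℝ} (hp : 1 < p) :
    (∫⁻ y, k y * h y ∂μ) ^ p ≤ ∫⁻ y, k y * h y ^ p ∂μ := by
  have hp0 : 0 < p := by linarith
  have hh' : AEMeasurable h (μ.withDensity k) := hh.mono_ac (withDensity_absolutelyContinuous μ k)
  have e1 : ∫⁻ y, k y * h y ∂μ = ∫⁻ y, h y ∂(μ.withDensity k) := by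
    rw [lintegral_withDensity_eq_lintegral_mul₀ hk.aemeasurable hh]; rfl
  have e2 : ∫⁻ y, k y * h y ^ p ∂μ = ∫⁻ y, h y ^ p ∂(μ.withDensity k) := by
    rw [lintegral_withDensity_eq_lintegral_mul₀ hk.aemeasurable (hh.pow_const p)]; rfl
  have hq : p.HolderConjugate (p / (p - 1)) := Real.HolderConjugate.conjExponent hp
  have h1 := ENNReal.lintegral_mul_le_Lp_mul_Lq (μ.withDensity k) hq
    (f := h) (g := fun _ => 1) hh' aemeasurable_const
  have hu : (μ.withDensity k) univ = 1 := by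
    rw [withDensity_apply _ MeasurableSet.univ, Measure.restrict_univ, hk1]
  simp only [Pi.mul_apply, mul_one, ENNReal.one_rpow, lintegral_const, hu] at h1
  rw [e1, e2]
  calc (∫⁻ y, h y ∂(μ.withDensity k)) ^ p
      ≤ ((∫⁻ y, h y ^ p ∂(μ.withDensity k)) ^ (1 / p)) ^ p := by gcongr
    _ = _ := by rw [← ENNReal.rpow_mul, one_div_mul_cancel hp0.ne', ENNReal.rpow_one]

lemma innerSL_ext {T : R3 →L[ℝ] ℝ} {b : R3} (h : ∀ i, T (EuclideanSpace.single i 1) = b i) :
    T = innerSL ℝ b := by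
  apply ContinuousLinearMap.coe_injective
  apply (EuclideanSpace.basisFun (Fin 3) ℝ).toBasis.ext
  intro i
  have := h i
  simp [this, EuclideanSpace.inner_single_right]

theorem exists_mollify {Ω : Set R3} {v : R3 → ℝ} {G : R3 → R3}
    (hv : ContinuousOn v Ω) (hG : HasWeakGradOn Ω v G) {K L : Set R3}
    (hKm : MeasurableSet K) (hL : IsCompact L) (hLΩ : L ⊆ Ω) (hΩ : IsOpen Ω) {δ : ℝ} (hδ : 0 < δ)
    (hKL : cthickening δ K ⊆ L) {η : ℝ} (hη : 0 < η) (a : R3) {p : ℝ} (hp : 1 < p) :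
    ∃ w : R3 → ℝ, ContDiff ℝ ∞ w ∧ (∀ x ∈ K, |w x - v x| ≤ η) ∧
      ∫⁻ x in K, ‖fderiv ℝ w x - innerSL ℝ a‖ₑ ^ p ≤ ∫⁻ x in L, ‖G x - a‖ₑ ^ p := by
  classical
  obtain ⟨hvi, hGi, hweak⟩ := hG
  have hKL' : K ⊆ L := (self_subset_cthickening K).trans hKL
  -- radius
  obtain ⟨ε, hε, hεδ, hεv⟩ : ∃ ε > 0, ε ≤ δ ∧ ∀ x ∈ K, ∀ y ∈ ball x ε, |v y - v x| ≤ η := by
    have huc := hL.uniformContinuousOn_of_continuous (hv.mono hLΩ)
    rw [Metric.uniformContinuousOn_iff] at huc
    obtain ⟨ε, hε, h⟩ := huc η hη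
    refine ⟨min ε δ, lt_min hε hδ, min_le_right _ _, fun x hx y hy => ?_⟩
    have hyL : y ∈ L := hKL (mem_cthickening_of_dist_le y x δ K hx
      ((mem_ball.1 hy).le.trans (min_le_right _ _)))
    have := h y hyL x (hKL' hx) (lt_of_lt_of_le (mem_ball.1 hy) (min_le_left _ _))
    rw [Real.dist_eq] at this
    exact this.le
  let φ : ContDiffBump (0 : R3) := ⟨ε / 2, ε, by positivity, by linarith⟩
  let ρ : R3 → ℝ := φ.normed volume
  have hρc : ContDiff ℝ ∞ ρ := φ.contDiff_normed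
  have hρs : HasCompactSupport ρ := φ.hasCompactSupport_normed
  have hρ0 : ∀ x, 0 ≤ ρ x := φ.nonneg_normed
  have hρ1 : ∫ x, ρ x = 1 := φ.integral_normed
  have hρint : Integrable ρ := φ.integrable_normed
  have hρsupp : ∀ z, ε ≤ ‖z‖ → ρ z = 0 := by
    intro z hz
    have : z ∉ Function.support (φ.normed (volume : Measure R3)) := by
      rw [φ.support_normed_eq]; simpa using hz
    simpa using this
  have hρts : tsupport ρ ⊆ closedBall 0 ε := (φ.tsupport_normed_eq).subset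
  have hdρsupp : ∀ z, ε < ‖z‖ → fderiv ℝ ρ z = 0 := by
    intro z hz
    have : z ∉ tsupport ρ := fun h => by
      have := hρts h; simp at this; linarith
    exact image_eq_zero_of_notMem_tsupport (fun h => this (tsupport_fderiv_subset ℝ h))
  have hfar : ∀ x ∈ K, ∀ t, t ∉ L → ε < ‖x - t‖ := by
    intro x hx t ht
    by_contra hcon
    push Not at hcon
    exact ht (hKL (mem_cthickening_of_dist_le t x δ K hx (by
      rw [dist_comm, dist_eq_norm]; exact hcon.trans hεδ)))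
  have hnear : ∀ x ∈ K, ∀ y ∈ closedBall x ε, y ∈ L := by
    intro x hx y hy
    by_contra hcon
    have := hfar x hx y hcon
    rw [mem_closedBall, dist_comm, dist_eq_norm] at hy
    linarith
  -- truncated functions
  let v0 : R3 → ℝ := L.indicator v
  let G0 : R3 → R3 := L.indicator G
  have hLm : MeasurableSet L := hL.measurableSet
  have hv0 : Integrable v0 := by
    rw [integrable_indicator_iff hLm]
    exact (hv.mono hLΩ).integrableOn_compact hL
  have hG0 : Integrable G0 := by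
    rw [integrable_indicator_iff hLm]
    exact hGi.integrableOn_compact_subset hLΩ hL
  let w : R3 → ℝ := v0 ⋆[ContinuousLinearMap.lsmul ℝ ℝ, volume] ρ
  have hw : ContDiff ℝ ∞ w := hρs.contDiff_convolution_right _ hv0.locallyIntegrable hρc
  have hwval : ∀ x, w x = (ρ ⋆[ContinuousLinearMap.lsmul ℝ ℝ, volume] v0) x := by
    intro x
    simp only [w]
    rw [convolution_eq_swap, convolution_def]
    refine integral_congr_ae (ae_of_all _ fun t => ?_)
    simp [mul_comm]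
  -- gradient of w
  have hgrad : ∀ x ∈ K, fderiv ℝ w x = innerSL ℝ (∫ y, ρ (x - y) • G0 y) := by
    intro x hx
    have h1 := hρs.hasFDerivAt_convolution_right (ContinuousLinearMap.lsmul ℝ ℝ)
      (μ := (volume : Measure R3)) hv0.locallyIntegrable (hρc.of_le (by norm_cast)) x
    rw [h1.fderiv]
    apply innerSL_ext
    intro i
    rw [convolution_precompR_apply _ hv0.locallyIntegrable (hρs.fderiv ℝ)
      (hρc.continuous_fderiv (by simp)), convolution_def]
    have hint : Integrable fun y => ρ (x - y) • G0 y := by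
      obtain ⟨C, hC⟩ := hρs.exists_bound_of_continuous hρc.continuous
      exact hG0.bdd_smul C (hρc.continuous.comp (by fun_prop :
        Continuous fun y : R3 => x - y)).aestronglyMeasurable
        (ae_of_all _ fun y => hC (x - y))
    have e0 : (∫ y, ρ (x - y) • G0 y) i = ∫ y, ρ (x - y) * G0 y i := by
      have := (EuclideanSpace.proj (𝕜 := ℝ) i : R3 →L[ℝ] ℝ).integral_comp_comm hint
      simpa using this.symm
    rw [e0]
    -- test function
    let ψ : R3 → ℝ := fun y => ρ (x - y)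
    have hψc : ContDiff ℝ ∞ ψ := hρc.comp (by fun_prop)
    have hψs : HasCompactSupport ψ := by
      have : ψ = ρ ∘ (Homeomorph.subLeft x) := rfl
      rw [this]; exact hρs.comp_homeomorph _
    have hψt : tsupport ψ ⊆ closedBall x ε := by
      refine closure_minimal ?_ isClosed_closedBall
      intro y hy
      by_contra hcon
      rw [mem_closedBall, dist_comm, dist_eq_norm, not_le] at hcon
      exact hy (hρsupp _ hcon.le)
    have hψΩ : tsupport ψ ⊆ Ω := hψt.trans (fun y hy => hLΩ (hnear x hx y hy))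
    have hkey := hweak ψ hψc hψs hψΩ i
    have hpd : ∀ y, pderiv ψ i y = - fderiv ℝ ρ (x - y) (EuclideanSpace.single i 1) := by
      intro y
      have h2 : HasFDerivAt ψ ((fderiv ℝ ρ (x - y)).comp (-ContinuousLinearMap.id ℝ R3)) y := by
        have h3 : HasFDerivAt (fun y : R3 => x - y) (-ContinuousLinearMap.id ℝ R3) y :=
          (hasFDerivAt_id y).const_sub x
        exact ((hρc.differentiable (by simp)).differentiableAt.hasFDerivAt).comp y h3
      unfold pderiv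
      rw [h2.fderiv]; simp
    have hL1 : ∫ y, v0 y * fderiv ℝ ρ (x - y) (EuclideanSpace.single i 1)
        = ∫ y in Ω, v y * fderiv ℝ ρ (x - y) (EuclideanSpace.single i 1) := by
      rw [← integral_indicator hΩ.measurableSet]
      congr 1; ext y
      by_cases hy : y ∈ L
      · simp [v0, indicator_of_mem hy, indicator_of_mem (hLΩ hy)]
      · have := hdρsupp _ (hfar x hx y hy)
        by_cases hyΩ : y ∈ Ω
        · simp [v0, indicator_of_notMem hy, indicator_of_mem hyΩ, this]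
        · simp [v0, indicator_of_notMem hy, indicator_of_notMem hyΩ]
    have hL2 : ∫ y, ρ (x - y) * G0 y i = ∫ y in Ω, G y i * ψ y := by
      rw [← integral_indicator hΩ.measurableSet]
      congr 1; ext y
      by_cases hy : y ∈ L
      · simp [G0, ψ, indicator_of_mem hy, indicator_of_mem (hLΩ hy), mul_comm]
      · have := hρsupp _ (hfar x hx y hy).le
        by_cases hyΩ : y ∈ Ω
        · simp [G0, ψ, indicator_of_notMem hy, indicator_of_mem hyΩ, this]
        · simp [G0, ψ, indicator_of_notMem hy, indicator_of_notMem hyΩ]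
    simp only [ContinuousLinearMap.lsmul_apply, smul_eq_mul]
    rw [hL1, hL2]
    have h4 : ∫ y in Ω, v y * pderiv ψ i y
        = - ∫ y in Ω, v y * fderiv ℝ ρ (x - y) (EuclideanSpace.single i 1) := by
      rw [← integral_neg]
      congr 1; ext y; rw [hpd]; ring
    rw [h4] at hkey
    linarith
  have hρx1 : ∀ x, ∫ y, ρ (x - y) = 1 := by
    intro x; rw [integral_sub_left_eq_self (fun y => ρ y) volume x]; exact hρ1
  have hρxint : ∀ x : R3, Integrable fun y => ρ (x - y) := fun x => hρint.comp_sub_left x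
  refine ⟨w, hw, ?_, ?_⟩
  · intro x hx
    rw [hwval x]
    have hx0 : v0 x = v x := indicator_of_mem (hKL' hx) _
    have := φ.dist_normed_convolution_le (μ := (volume : Measure R3)) (g := v0) (x₀ := x) (ε := η)
      hv0.aestronglyMeasurable (by
        intro y hy
        have hyL : y ∈ L := hnear x hx y (ball_subset_closedBall hy)
        simp only [v0, indicator_of_mem hyL, indicator_of_mem (hKL' hx)]
        rw [Real.dist_eq]
        exact hεv x hx y hy)
    rw [Real.dist_eq, hx0] at this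
    exact this
  · -- L^p bound
    let H : R3 → ℝ≥0∞ := L.indicator fun y => ‖G y - a‖ₑ
    have hHm : AEMeasurable H := by
      have : AEStronglyMeasurable G (volume.restrict L) :=
        (hGi.integrableOn_compact_subset hLΩ hL).aestronglyMeasurable
      exact (aemeasurable_indicator_iff hLm).2 (this.sub aestronglyMeasurable_const).enorm
    have hkm : ∀ x : R3, Measurable fun y => ENNReal.ofReal (ρ (x - y)) := fun x =>
      (hρc.continuous.measurable.comp (measurable_const_sub x)).ennreal_ofReal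
    have hk1 : ∀ x : R3, ∫⁻ y, ENNReal.ofReal (ρ (x - y)) = 1 := by
      intro x
      rw [← ofReal_integral_eq_lintegral_ofReal (hρxint x) (ae_of_all _ fun y => hρ0 _), hρx1,
        ENNReal.ofReal_one]
    have hpt : ∀ x ∈ K, ‖fderiv ℝ w x - innerSL ℝ a‖ₑ ≤
        ∫⁻ y, ENNReal.ofReal (ρ (x - y)) * H y := by
      intro x hx
      have hint : Integrable fun y => ρ (x - y) • G0 y := by
        obtain ⟨C, hC⟩ := hρs.exists_bound_of_continuous hρc.continuous
        exact hG0.bdd_smul C (hρc.continuous.comp (by fun_prop :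
          Continuous fun y : R3 => x - y)).aestronglyMeasurable
          (ae_of_all _ fun y => hC (x - y))
      have e1 : (∫ y, ρ (x - y) • G0 y) - a = ∫ y, ρ (x - y) • (G0 y - a) := by
        simp_rw [smul_sub]
        rw [integral_sub hint ((hρxint x).smul_const a), integral_smul_const, hρx1, one_smul]
      rw [hgrad x hx, ← map_sub, e1]
      have e2 : ‖innerSL ℝ (∫ y, ρ (x - y) • (G0 y - a))‖ₑ = ‖∫ y, ρ (x - y) • (G0 y - a)‖ₑ := by
        rw [← ofReal_norm, ← ofReal_norm, innerSL_apply_norm]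
      rw [e2]
      refine (enorm_integral_le_lintegral_enorm _).trans (le_of_eq ?_)
      refine lintegral_congr fun y => ?_
      rw [enorm_smul, Real.enorm_of_nonneg (hρ0 _)]
      by_cases hy : y ∈ L
      · simp [G0, H, indicator_of_mem hy]
      · simp [H, indicator_of_notMem hy, hρsupp _ (hfar x hx y hy).le]
    have hρx2 : ∀ y : R3, ∫⁻ x, ENNReal.ofReal (ρ (x - y)) = 1 := by
      intro y
      rw [lintegral_sub_right_eq_self (fun x => ENNReal.ofReal (ρ x)) y,
        ← ofReal_integral_eq_lintegral_ofReal hρint (ae_of_all _ fun y => hρ0 _), hρ1,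
        ENNReal.ofReal_one]
    calc ∫⁻ x in K, ‖fderiv ℝ w x - innerSL ℝ a‖ₑ ^ p
        ≤ ∫⁻ x in K, (∫⁻ y, ENNReal.ofReal (ρ (x - y)) * H y ^ p) := by
          refine setLIntegral_mono' hKm fun x hx => ?_
          exact (ENNReal.rpow_le_rpow (hpt x hx) (by linarith)).trans
            (lintegral_rpow_le volume (hkm x) hHm (hk1 x) hp)
      _ ≤ ∫⁻ x, ∫⁻ y, ENNReal.ofReal (ρ (x - y)) * H y ^ p := setLIntegral_le_lintegral _ _
      _ = ∫⁻ y, ∫⁻ x, ENNReal.ofReal (ρ (x - y)) * H y ^ p := by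
          rw [lintegral_lintegral_swap]
          refine AEMeasurable.mul ?_ ?_
          · exact ((hρc.continuous.comp (by fun_prop :
              Continuous fun q : R3 × R3 => q.1 - q.2)).measurable.ennreal_ofReal).aemeasurable
          · exact (hHm.pow_const p).comp_snd
      _ = ∫⁻ y, H y ^ p := by
          refine lintegral_congr fun y => ?_
          have hm : Measurable fun x => ENNReal.ofReal (ρ (x - y)) :=
            (hρc.continuous.measurable.comp (measurable_sub_const y)).ennreal_ofReal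
          rw [lintegral_mul_const _ hm, hρx2, one_mul]
      _ = ∫⁻ x in L, ‖G x - a‖ₑ ^ p := by
          rw [← lintegral_indicator hLm]
          refine lintegral_congr fun y => ?_
          by_cases hy : y ∈ L
          · simp [H, indicator_of_mem hy]
          · simp [H, indicator_of_notMem hy, ENNReal.zero_rpow_of_pos (by linarith : 0 < p)]

end Crest.Agent.R096.Osc_802
end

-- ▼ part R096/Osc3_802
section

/-!
P6-OSC part 3 (helper802): slices by coordinate planes, good planes.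
-/

set_option autoImplicit false
open MeasureTheory Set Metric
open scoped ENNReal NNReal ContDiff
open Crest.AnalysisR.VecCalc3 Crest.AnalysisR.Sobolev

namespace Crest.Agent.R096.Osc_802

/-- closed cube of half side `R`. -/
def cube (c : R3) (R : ℝ) : Set R3 := {y | ∀ i, |y i - c i| ≤ R}

/-- closed box. -/
def box (a b : R3) : Set R3 := {y | ∀ i, a i ≤ y i ∧ y i ≤ b i}

/-- the point of ℝ³ with i-th coordinate `t` and the other coordinates `w`. -/
noncomputable def ins (i : Fin 3) (t : ℝ) (w : Fin 2 → ℝ) : R3 := WithLp.toLp 2 (i.insertNth t w)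

/-- the other coordinates. -/
def sl (c : R3) (i : Fin 3) : Fin 2 → ℝ := fun k => c (i.succAbove k)

lemma ins_apply_same (i : Fin 3) (t : ℝ) (w : Fin 2 → ℝ) : ins i t w i = t := by
  simp [ins]

lemma ins_apply_succAbove (i : Fin 3) (t : ℝ) (w : Fin 2 → ℝ) (k : Fin 2) :
    ins i t w (i.succAbove k) = w k := by
  simp [ins]

lemma ins_sl (z : R3) (i : Fin 3) : ins i (z i) (sl z i) = z := by
  ext j
  refine Fin.succAboveCases i ?_ ?_ j
  · rw [ins_apply_same]
  · intro k; rw [ins_apply_succAbove]; rfl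

lemma measurable_cube (c : R3) (R : ℝ) : MeasurableSet (cube c R) := by
  have : cube c R = ⋂ i, {y : R3 | |y i - c i| ≤ R} := by ext; simp [cube]
  rw [this]
  exact MeasurableSet.iInter fun i => (isClosed_le (by fun_prop) continuous_const).measurableSet

lemma isClosed_cube (c : R3) (R : ℝ) : IsClosed (cube c R) := by
  have : cube c R = ⋂ i, {y : R3 | |y i - c i| ≤ R} := by ext; simp [cube]
  rw [this]
  exact isClosed_iInter fun i => (isClosed_le (by fun_prop) continuous_const)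

lemma cube_subset_closedBall {c : R3} {R : ℝ} (hR : 0 ≤ R) : cube c R ⊆ closedBall c (2 * R) := by
  intro y hy
  rw [mem_closedBall, EuclideanSpace.dist_eq]
  refine Real.sqrt_le_iff.2 ⟨by positivity, ?_⟩
  have : ∀ i, dist (y i) (c i) ^ 2 ≤ R ^ 2 := fun i => by
    rw [Real.dist_eq]; exact pow_le_pow_left₀ (abs_nonneg _) (hy i) 2
  calc ∑ i, dist (y i) (c i) ^ 2 ≤ ∑ i : Fin 3, R ^ 2 := Finset.sum_le_sum fun i _ => this i
    _ ≤ (2 * R) ^ 2 := by simp; nlinarith [sq_nonneg R]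

lemma isCompact_cube (c : R3) {R : ℝ} (hR : 0 ≤ R) : IsCompact (cube c R) :=
  (isCompact_closedBall c (2 * R)).of_isClosed_subset (isClosed_cube c R)
    (cube_subset_closedBall hR)

lemma abs_coord_le (z : R3) (i : Fin 3) : |z i| ≤ ‖z‖ := by
  rw [← Real.norm_eq_abs]; exact PiLp.norm_apply_le z i

lemma closedBall_subset_cube (c : R3) (R : ℝ) : closedBall c R ⊆ cube c R := by
  intro y hy i
  have := abs_coord_le (y - c) i
  rw [mem_closedBall, dist_eq_norm] at hy
  simpa using this.trans hy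

lemma cthickening_cube {c : R3} {R δ : ℝ} (hR : 0 ≤ R) (hδ : 0 ≤ δ) :
    cthickening δ (cube c R) ⊆ cube c (R + δ) := by
  rw [(isCompact_cube c hR).cthickening_eq_biUnion_closedBall hδ]
  intro y hy
  simp only [mem_iUnion] at hy
  obtain ⟨x, hx, hy⟩ := hy
  intro i
  have h1 := closedBall_subset_cube x δ hy i
  have h2 := hx i
  calc |y i - c i| = |(x i - c i) + (y i - x i)| := by congr 1; ring
    _ ≤ |x i - c i| + |y i - x i| := abs_add_le _ _
    _ ≤ R + δ := add_le_add h2 h1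

lemma ins_mem_cube {c : R3} {R : ℝ} {i : Fin 3} {t : ℝ} {w : Fin 2 → ℝ} (hR : 0 ≤ R)
    (ht : |t - c i| ≤ R) (hw : w ∈ closedBall (sl c i) R) : ins i t w ∈ cube c R := by
  intro j
  refine Fin.succAboveCases i ?_ ?_ j
  · rw [ins_apply_same]; exact ht
  · intro k
    rw [ins_apply_succAbove]
    have := (dist_pi_le_iff hR).1 (mem_closedBall.1 hw) k
    rwa [Real.dist_eq] at this

lemma sl_mem {c : R3} {R : ℝ} (hR : 0 ≤ R) {z : R3} (hz : z ∈ cube c R) (i : Fin 3) :
    sl z i ∈ closedBall (sl c i) R := by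
  rw [mem_closedBall, dist_pi_le_iff hR]
  intro k
  rw [Real.dist_eq]
  exact hz _

lemma continuous_ins (i : Fin 3) : Continuous fun q : ℝ × (Fin 2 → ℝ) => ins i q.1 q.2 := by
  unfold ins
  refine (PiLp.continuous_toLp 2 _).comp ?_
  refine continuous_pi fun j => ?_
  refine Fin.succAboveCases i ?_ ?_ j
  · simpa using! continuous_fst
  · intro k; simpa using! (continuous_apply k).comp continuous_snd

/-- Fubini along the i-th coordinate. -/
lemma lintegral_ins (i : Fin 3) {F : R3 → ℝ≥0∞} (hF : Measurable F) :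
    ∫⁻ x, F x = ∫⁻ t : ℝ, ∫⁻ w : Fin 2 → ℝ, F (ins i t w) := by
  have h1 := (EuclideanSpace.volume_preserving_symm_measurableEquiv_toLp (Fin 3)).symm
  have h2 := (volume_preserving_piFinSuccAbove (fun _ : Fin 3 => ℝ) i).symm
  have e1 : ∫⁻ x : R3, F x = ∫⁻ y : Fin 3 → ℝ, F (WithLp.toLp 2 y) :=
    (h1.lintegral_comp hF).symm
  have hF' : Measurable fun y : Fin 3 → ℝ => F (WithLp.toLp 2 y) :=
    hF.comp (MeasurableEquiv.toLp 2 (Fin 3 → ℝ)).measurable
  have e2 : ∫⁻ y : Fin 3 → ℝ, F (WithLp.toLp 2 y)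
      = ∫⁻ q : ℝ × (Fin 2 → ℝ), F (ins i q.1 q.2) := by
    rw [← h2.lintegral_comp hF']
    rfl
  rw [e1, e2]
  have hm : Measurable fun q : ℝ × (Fin 2 → ℝ) => F (ins i q.1 q.2) :=
    hF.comp (continuous_ins i).measurable
  rw [Measure.volume_eq_prod, lintegral_prod _ hm.aemeasurable]

/-- good planes exist in every interval. -/
lemma exists_good_plane (i : Fin 3) {F : R3 → ℝ≥0∞} (hF : Measurable F) {c : R3} {R s t : ℝ}
    (hR : 0 ≤ R) (hst : s < t) (hs : c i - R ≤ s) (ht : t ≤ c i + R) :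
    ∃ τ ∈ Ioo s t, ∫⁻ w in closedBall (sl c i) R, F (ins i τ w) ≤
      ENNReal.ofReal (t - s)⁻¹ * ∫⁻ x in cube c R, F x := by
  have hvol : (volume : Measure ℝ) (Ioo s t) = ENNReal.ofReal (t - s) := Real.volume_Ioo
  have hpos : 0 < t - s := by linarith
  have hm2 : Measurable fun q : ℝ × (Fin 2 → ℝ) => F (ins i q.1 q.2) :=
    hF.comp (continuous_ins i).measurable
  have hm : Measurable fun τ : ℝ => ∫⁻ w in closedBall (sl c i) R, F (ins i τ w) :=
    hm2.lintegral_prod_right'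
  obtain ⟨τ, hτ, h⟩ := exists_le_setLAverage (μ := (volume : Measure ℝ)) (s := Ioo s t)
    (f := fun τ => ∫⁻ w in closedBall (sl c i) R, F (ins i τ w))
    (by rw [hvol]; simpa using hpos) (by rw [hvol]; exact ENNReal.ofReal_ne_top)
    hm.aemeasurable
  refine ⟨τ, hτ, h.trans ?_⟩
  rw [setLAverage_eq, hvol, ENNReal.div_eq_inv_mul, ← ENNReal.ofReal_inv_of_pos hpos]
  gcongr
  have hFm : Measurable ((cube c R).indicator F) := hF.indicator (measurable_cube c R)
  rw [← lintegral_indicator (measurable_cube c R), lintegral_ins i hFm,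
    ← lintegral_indicator measurableSet_Ioo]
  refine lintegral_mono fun r => ?_
  by_cases hr : r ∈ Ioo s t
  · rw [indicator_of_mem hr, ← lintegral_indicator measurableSet_closedBall]
    refine lintegral_mono fun w => ?_
    by_cases hw : w ∈ closedBall (sl c i) R
    · have : ins i r w ∈ cube c R := ins_mem_cube hR (by
        rw [abs_le]; constructor <;> linarith [hr.1, hr.2]) hw
      simp only [indicator_of_mem hw, indicator_of_mem this]; exact le_rfl
    · simp [indicator_of_notMem hw]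
  · simp [indicator_of_notMem hr]

/-- linear part of `ins`. -/
noncomputable def insL (i : Fin 3) : (Fin 2 → ℝ) →L[ℝ] R3 :=
  LinearMap.toContinuousLinearMap
    { toFun := fun w => ins i 0 w
      map_add' := by
        intro w w'; ext j
        refine Fin.succAboveCases i ?_ ?_ j
        · simp [ins_apply_same]
        · intro k; simp [ins_apply_succAbove]
      map_smul' := by
        intro r w; ext j
        refine Fin.succAboveCases i ?_ ?_ j
        · simp [ins_apply_same]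
        · intro k; simp [ins_apply_succAbove] }

lemma insL_apply (i : Fin 3) (w : Fin 2 → ℝ) : insL i w = ins i 0 w := rfl

lemma norm_insL_le (i : Fin 3) : ‖insL i‖ ≤ 2 := by
  refine ContinuousLinearMap.opNorm_le_bound _ (by norm_num) fun w => ?_
  rw [insL_apply, EuclideanSpace.norm_eq]
  refine Real.sqrt_le_iff.2 ⟨by positivity, ?_⟩
  rw [Fin.sum_univ_succAbove _ i]
  simp only [ins_apply_same, ins_apply_succAbove, norm_zero]
  have : ∀ k : Fin 2, ‖w k‖ ^ 2 ≤ ‖w‖ ^ 2 := fun k =>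
    pow_le_pow_left₀ (norm_nonneg _) (norm_le_pi_norm w k) 2
  calc (0 : ℝ) ^ 2 + ∑ k : Fin 2, ‖w k‖ ^ 2 ≤ 0 ^ 2 + ∑ k : Fin 2, ‖w‖ ^ 2 := by
        gcongr with k; exact norm_le_pi_norm w k
    _ ≤ (2 * ‖w‖) ^ 2 := by simp; nlinarith [sq_nonneg ‖w‖]

lemma ins_eq (i : Fin 3) (t : ℝ) (w : Fin 2 → ℝ) :
    ins i t w = ins i t 0 + insL i w := by
  rw [insL_apply]
  ext j
  refine Fin.succAboveCases i ?_ ?_ j
  · simp [ins_apply_same]
  · intro k; simp [ins_apply_succAbove]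

/-- **good planes**: oscillation of a C^1 function on coordinate planes. -/
theorem exists_plane {u : R3 → ℝ} (hu : ContDiff ℝ 1 u) {p : ℝ} (hp : 2 < p) {c : R3} {R I : ℝ}
    (hR : 0 < R) (hI : 0 ≤ I) (huI : ∫⁻ x in cube c R, ‖fderiv ℝ u x‖ₑ ^ p ≤ ENNReal.ofReal I)
    (i : Fin 3) {s t : ℝ} (hst : s < t) (hs : c i - R ≤ s) (ht : t ≤ c i + R) :
    ∃ τ ∈ Ioo s t, ∀ z ∈ cube c R, ∀ z' ∈ cube c R, z i = τ → z' i = τ →
      |u z - u z'| ≤ 2 * Cp p * R ^ (1 - 2 / p) * (I / (t - s)) ^ (1 / p) := by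
  have hp0 : 0 < p := by linarith
  have hpos : 0 < t - s := by linarith
  have hF : Measurable fun x => ‖fderiv ℝ u x‖ₑ ^ p :=
    ((hu.continuous_fderiv one_ne_zero).enorm.measurable).pow_const p
  obtain ⟨τ, hτ, h⟩ := exists_good_plane i hF hR.le hst hs ht
  refine ⟨τ, hτ, fun z hz z' hz' hzi hzi' => ?_⟩
  let g : (Fin 2 → ℝ) → ℝ := fun w => u (ins i τ w)
  have hins : (fun w => ins i τ w) = fun w => ins i τ 0 + insL i w := by
    ext1 w; exact ins_eq i τ w
  have hinsD : ∀ w, HasFDerivAt (fun w => ins i τ w) (insL i) w := by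
    intro w; rw [hins]; exact (insL i).hasFDerivAt.const_add _
  have hg : ContDiff ℝ 1 g := by
    have h1 : ContDiff ℝ 1 (fun w => ins i τ w) := by
      rw [hins]; exact contDiff_const.add (insL i).contDiff
    exact hu.comp h1
  have hgd : ∀ w, fderiv ℝ g w = (fderiv ℝ u (ins i τ w)).comp (insL i) := fun w =>
    (((hu.differentiable one_ne_zero).differentiableAt.hasFDerivAt).comp w (hinsD w)).fderiv
  have hgn : ∀ w, ‖fderiv ℝ g w‖ₑ ≤ 2 * ‖fderiv ℝ u (ins i τ w)‖ₑ := by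
    intro w
    have h2 : ‖fderiv ℝ g w‖ ≤ 2 * ‖fderiv ℝ u (ins i τ w)‖ := by
      rw [hgd]
      calc _ ≤ ‖fderiv ℝ u (ins i τ w)‖ * ‖insL i‖ := ContinuousLinearMap.opNorm_comp_le _ _
        _ ≤ ‖fderiv ℝ u (ins i τ w)‖ * 2 := by gcongr; exact norm_insL_le i
        _ = _ := mul_comm _ _
    calc ‖fderiv ℝ g w‖ₑ = ENNReal.ofReal ‖fderiv ℝ g w‖ := (ofReal_norm _).symm
      _ ≤ ENNReal.ofReal (2 * ‖fderiv ℝ u (ins i τ w)‖) := ENNReal.ofReal_le_ofReal h2
      _ = _ := by rw [ENNReal.ofReal_mul (by norm_num), ofReal_norm]; simp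
  have hgI : ∫⁻ w in closedBall (sl c i) R, ‖fderiv ℝ g w‖ₑ ^ p ≤
      ENNReal.ofReal (2 ^ p * (I / (t - s))) := by
    calc ∫⁻ w in closedBall (sl c i) R, ‖fderiv ℝ g w‖ₑ ^ p
        ≤ ∫⁻ w in closedBall (sl c i) R, (2 : ℝ≥0∞) ^ p * ‖fderiv ℝ u (ins i τ w)‖ₑ ^ p := by
          refine lintegral_mono fun w => ?_
          rw [← ENNReal.mul_rpow_of_nonneg _ _ hp0.le]
          exact ENNReal.rpow_le_rpow (hgn w) hp0.le
      _ = (2 : ℝ≥0∞) ^ p * ∫⁻ w in closedBall (sl c i) R, ‖fderiv ℝ u (ins i τ w)‖ₑ ^ p := by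
          rw [lintegral_const_mul' _ _ (ENNReal.rpow_ne_top_of_nonneg hp0.le (by simp))]
      _ ≤ (2 : ℝ≥0∞) ^ p * (ENNReal.ofReal (t - s)⁻¹ * ENNReal.ofReal I) := by
          gcongr; exact h.trans (by gcongr)
      _ = _ := by
          rw [show (2 : ℝ≥0∞) = ENNReal.ofReal 2 by simp, ENNReal.ofReal_rpow_of_pos (by norm_num),
            ← ENNReal.ofReal_mul (by positivity), ← ENNReal.ofReal_mul (by positivity)]
          congr 1; rw [div_eq_inv_mul]
  have hfin := morrey_square hg hp hR (by positivity) (sl_mem hR.le hz i) (sl_mem hR.le hz' i) hgI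
  have e1 : g (sl z i) = u z := by simp only [g]; rw [← hzi, ins_sl]
  have e2 : g (sl z' i) = u z' := by simp only [g]; rw [← hzi', ins_sl]
  rw [e1, e2] at hfin
  refine hfin.trans (le_of_eq ?_)
  have hq : 0 ≤ I / (t - s) := by positivity
  rw [Real.mul_rpow (by positivity) hq, ← Real.rpow_mul (by norm_num), mul_one_div_cancel hp0.ne',
    Real.rpow_one]
  ring

end Crest.Agent.R096.Osc_802
end

-- ▼ part R096/Osc4_802
section

/-!
P6-OSC part 4 (helper802): box-monotone functions (coordinates of homeomorphisms), the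
oscillation estimate relative to an affine function, for p > 2.
-/

set_option autoImplicit false
open MeasureTheory Set Metric
open scoped ENNReal NNReal ContDiff RealInnerProductSpace
open Crest.AnalysisR.VecCalc3 Crest.AnalysisR.Sobolev

namespace Crest.Agent.R096.Osc_802

/-- `v` is monotone in the sense of Lebesgue on boxes inside `Ω`: on every closed box, every value
is between two values on the boundary. -/
def BoxMono (v : R3 → ℝ) (Ω : Set R3) : Prop :=
  ∀ a b : R3, box a b ⊆ Ω → ∀ y ∈ box a b,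
    (∃ z ∈ box a b, (∃ i, z i = a i ∨ z i = b i) ∧ v y ≤ v z) ∧
    (∃ z ∈ box a b, (∃ i, z i = a i ∨ z i = b i) ∧ v z ≤ v y)

lemma isCompact_box (a b : R3) : IsCompact (box a b) := by
  have hc : IsClosed (box a b) := by
    have : box a b = ⋂ i, {y : R3 | a i ≤ y i ∧ y i ≤ b i} := by ext; simp [box]
    rw [this]
    refine isClosed_iInter fun i => ?_
    have : {y : R3 | a i ≤ y i ∧ y i ≤ b i} = {y : R3 | a i ≤ y i} ∩ {y : R3 | y i ≤ b i} := rfl
    rw [this]
    exact (isClosed_le continuous_const (by fun_prop)).inter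
      (isClosed_le (by fun_prop) continuous_const)
  refine (isCompact_cube a (R := ∑ i, |b i - a i|) (by positivity)).of_isClosed_subset hc ?_
  intro y hy i
  have h1 : |y i - a i| ≤ |b i - a i| := by
    rw [abs_of_nonneg (by linarith [(hy i).1]), abs_of_nonneg (by linarith [(hy i).1, (hy i).2])]
    linarith [(hy i).2]
  exact h1.trans (Finset.single_le_sum (f := fun i => |b i - a i|) (fun j _ => abs_nonneg _)
    (Finset.mem_univ i))

lemma isOpen_openBox (a b : R3) : IsOpen {y : R3 | ∀ i, a i < y i ∧ y i < b i} := by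
  have : {y : R3 | ∀ i, a i < y i ∧ y i < b i} = ⋂ i, {y : R3 | a i < y i ∧ y i < b i} := by
    ext; simp
  rw [this]
  refine isOpen_iInter_of_finite fun i => ?_
  have : {y : R3 | a i < y i ∧ y i < b i} = {y : R3 | a i < y i} ∩ {y : R3 | y i < b i} := rfl
  rw [this]
  exact (isOpen_lt continuous_const (by fun_prop)).inter
    (isOpen_lt (by fun_prop) continuous_const)

/-- image of an open subset under a homeomorphism between open sets is open. -/
lemma isOpen_image {f : R3 → R3} {Ω Λ : Set R3} (hf : IsHomeomorphOn f Ω Λ) (hΛ : IsOpen Λ)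
    {U : Set R3} (hU : IsOpen U) (hUΩ : U ⊆ Ω) : IsOpen (f '' U) := by
  obtain ⟨g, hfm, hgm, hgf, hfg, hfc, hgc⟩ := hf
  have : f '' U = Λ ∩ g ⁻¹' U := by
    ext y; constructor
    · rintro ⟨x, hx, rfl⟩
      exact ⟨hfm (hUΩ hx), by rw [mem_preimage, hgf x (hUΩ hx)]; exact hx⟩
    · rintro ⟨hy, hyU⟩
      exact ⟨g y, hyU, hfg y hy⟩
  rw [this]
  exact hgc.isOpen_inter_preimage hΛ hU

/-- linear functionals of homeomorphisms are box-monotone. -/
theorem boxMono_of_homeo {f : R3 → R3} {Ω Λ : Set R3} (hf : IsHomeomorphOn f Ω Λ)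
    (hΛ : IsOpen Λ) {ℓ : R3 →L[ℝ] ℝ} (hℓ : ℓ ≠ 0) : BoxMono (fun x => ℓ (f x)) Ω := by
  have hfc : ContinuousOn f Ω := by obtain ⟨g, _, _, _, _, h, _⟩ := hf; exact h
  have hopen : IsOpenMap ℓ := ℓ.isOpenMap_of_ne_zero hℓ
  intro a b hab y hy
  have hcomp := isCompact_box a b
  have hcont : ContinuousOn (fun x => ℓ (f x)) (box a b) :=
    ℓ.continuous.comp_continuousOn (hfc.mono hab)
  -- an extremum in the open box contradicts openness
  have key : ∀ z ∈ box a b, ¬ (∃ i, z i = a i ∨ z i = b i) →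
      ∃ ε > 0, Ioo (ℓ (f z) - ε) (ℓ (f z) + ε) ⊆ (fun x => ℓ (f x)) '' box a b := by
    intro z hz hzb
    push Not at hzb
    have hzo : z ∈ {y : R3 | ∀ i, a i < y i ∧ y i < b i} := fun i =>
      ⟨lt_of_le_of_ne (hz i).1 (fun h => (hzb i).1 h.symm),
        lt_of_le_of_ne (hz i).2 (fun h => (hzb i).2 h)⟩
    have hsub : {y : R3 | ∀ i, a i < y i ∧ y i < b i} ⊆ box a b := fun x hx i =>
      ⟨(hx i).1.le, (hx i).2.le⟩
    have ho := hopen _ (isOpen_image hf hΛ (isOpen_openBox a b) (hsub.trans hab))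
    rw [Metric.isOpen_iff] at ho
    obtain ⟨ε, hε, h⟩ := ho (ℓ (f z)) ⟨f z, ⟨z, hzo, rfl⟩, rfl⟩
    refine ⟨ε, hε, ?_⟩
    rw [← Real.ball_eq_Ioo]
    refine h.trans ?_
    rintro _ ⟨_, ⟨x, hx, rfl⟩, rfl⟩
    exact ⟨x, hsub hx, rfl⟩
  constructor
  · obtain ⟨z, hz, hmax⟩ := hcomp.exists_isMaxOn ⟨y, hy⟩ hcont
    refine ⟨z, hz, ?_, hmax hy⟩
    by_contra hcon
    obtain ⟨ε, hε, h⟩ := key z hz hcon
    obtain ⟨x, hx, hxe⟩ := h (⟨by linarith, by linarith⟩ :
      ℓ (f z) + ε / 2 ∈ Ioo (ℓ (f z) - ε) (ℓ (f z) + ε))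
    have : ℓ (f x) ≤ ℓ (f z) := hmax hx
    simp only at hxe
    linarith
  · obtain ⟨z, hz, hmin⟩ := hcomp.exists_isMinOn ⟨y, hy⟩ hcont
    refine ⟨z, hz, ?_, hmin hy⟩
    by_contra hcon
    obtain ⟨ε, hε, h⟩ := key z hz hcon
    obtain ⟨x, hx, hxe⟩ := h (⟨by linarith, by linarith⟩ :
      ℓ (f z) - ε / 2 ∈ Ioo (ℓ (f z) - ε) (ℓ (f z) + ε))
    have : ℓ (f z) ≤ ℓ (f x) := hmin hx
    simp only at hxe
    linarith

lemma boxMono_coord {f : R3 → R3} {Ω Λ : Set R3} (hf : IsHomeomorphOn f Ω Λ)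
    (hΛ : IsOpen Λ) (j : Fin 3) : BoxMono (fun x => f x j) Ω := by
  have : (EuclideanSpace.proj j : R3 →L[ℝ] ℝ) ≠ 0 := by
    intro h
    have := congrArg (fun T : R3 →L[ℝ] ℝ => T (EuclideanSpace.single j 1)) h
    simp at this
  exact boxMono_of_homeo hf hΛ this

/-- core estimate on good planes (one mollified function). -/
lemma osc_core {v u : R3 → ℝ} {Ω : Set R3} (hm : BoxMono v Ω) {c : R3} {R θ D η : ℝ}
    (hR : 0 < R) (hθ : 0 < θ) (hθ1 : θ ≤ 1) (hKΩ : cube c (3 / 2 * R) ⊆ Ω) (a : R3)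
    (hη : ∀ x ∈ cube c (3 / 2 * R), |v x - ⟪a, x⟫ - u x| ≤ η)
    (hD : ∀ i : Fin 3, ∀ s t : ℝ, t = s + θ * R / 2 → c i - 3 / 2 * R ≤ s → t ≤ c i + 3 / 2 * R →
      ∃ τ ∈ Ioo s t, ∀ z ∈ cube c (3 / 2 * R), ∀ z' ∈ cube c (3 / 2 * R), z i = τ → z' i = τ →
        |u z - u z'| ≤ D) :
    ∀ y ∈ cube c R, ∀ y' ∈ cube c R,
      |(v y - ⟪a, y⟫) - (v y' - ⟪a, y'⟫)| ≤ 6 * D + 2 * (θ * R * ‖a‖) + 2 * η := by
  have hθR : 0 < θ * R := by positivity
  have hθR2 : θ * R ≤ R := by nlinarith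
  -- reference planes
  obtain ⟨t0, ht0, h0⟩ := hD 0 (c 0) (c 0 + θ * R / 2) rfl (by linarith) (by linarith)
  obtain ⟨t1, ht1, h1⟩ := hD 1 (c 1) (c 1 + θ * R / 2) rfl (by linarith) (by linarith)
  -- points
  let P : ℝ → ℝ → ℝ → R3 := fun x y z => WithLp.toLp 2 ![x, y, z]
  have hP0 : ∀ x y z, P x y z 0 = x := fun _ _ _ => rfl
  have hP1 : ∀ x y z, P x y z 1 = y := fun _ _ _ => rfl
  have hP2 : ∀ x y z, P x y z 2 = z := fun _ _ _ => rfl
  have hPm : ∀ x y z, |x - c 0| ≤ 3 / 2 * R → |y - c 1| ≤ 3 / 2 * R → |z - c 2| ≤ 3 / 2 * R →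
      P x y z ∈ cube c (3 / 2 * R) := by
    intro x y z hx hy hz i
    fin_cases i
    · exact hx
    · exact hy
    · exact hz
  have ha0 : |t0 - c 0| ≤ 3 / 2 * R := by rw [abs_le]; constructor <;> linarith [ht0.1, ht0.2]
  have ha1 : |t1 - c 1| ≤ 3 / 2 * R := by rw [abs_le]; constructor <;> linarith [ht1.1, ht1.2]
  have hcc : ∀ i, |c i - c i| ≤ 3 / 2 * R := fun i => by simp; positivity
  set z0 := P t0 (c 1) (c 2) with hz0
  have hz0m : z0 ∈ cube c (3 / 2 * R) := hPm _ _ _ ha0 (hcc 1) (hcc 2)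
  have hD0 : 0 ≤ D := (abs_nonneg _).trans (h0 z0 hz0m z0 hz0m rfl rfl)
  -- comparison of a good plane with the reference point
  have hcomp : ∀ i : Fin 3, ∀ τ : ℝ, (∀ z ∈ cube c (3 / 2 * R), ∀ z' ∈ cube c (3 / 2 * R),
      z i = τ → z' i = τ → |u z - u z'| ≤ D) → ∀ z ∈ cube c (3 / 2 * R), z i = τ →
      |u z - u z0| ≤ 3 * D := by
    intro i τ hτ z hz hzi
    have hzb : ∀ j, |z j - c j| ≤ 3 / 2 * R := hz
    fin_cases i
    · -- direction 0 : z → (τ, t1, c2) → (t0, t1, c2) → z0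
      simp only [Fin.zero_eta] at hτ hzi
      have hq : P τ t1 (c 2) ∈ cube c (3 / 2 * R) := hPm _ _ _ (by rw [← hzi]; exact hzb 0) ha1 (hcc 2)
      have hq' : P t0 t1 (c 2) ∈ cube c (3 / 2 * R) := hPm _ _ _ ha0 ha1 (hcc 2)
      have e1 := hτ z hz _ hq hzi (hP0 _ _ _)
      have e2 := h1 _ hq _ hq' (hP1 _ _ _) (hP1 _ _ _)
      have e3 := h0 _ hq' _ hz0m (hP0 _ _ _) (hP0 _ _ _)
      rw [abs_le] at *
      constructor <;> linarith [e1.1, e1.2, e2.1, e2.2, e3.1, e3.2]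
    · simp only [Fin.mk_one] at hτ hzi
      have hq : P t0 τ (c 2) ∈ cube c (3 / 2 * R) := hPm _ _ _ ha0 (by rw [← hzi]; exact hzb 1) (hcc 2)
      have e1 := hτ z hz _ hq hzi (hP1 _ _ _)
      have e3 := h0 _ hq _ hz0m (hP0 _ _ _) (hP0 _ _ _)
      rw [abs_le] at *
      constructor <;> linarith [e1.1, e1.2, e3.1, e3.2]
    · have hzi' : z 2 = τ := hzi
      have hτ' : ∀ z ∈ cube c (3 / 2 * R), ∀ z' ∈ cube c (3 / 2 * R),
        z 2 = τ → z' 2 = τ → |u z - u z'| ≤ D := hτ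
      have hq : P t0 (c 1) τ ∈ cube c (3 / 2 * R) :=
        hPm _ _ _ ha0 (hcc 1) (by rw [← hzi']; exact hzb 2)
      have e1 := hτ' z hz _ hq hzi' (hP2 _ _ _)
      have e3 := h0 _ hq _ hz0m (hP0 _ _ _) (hP0 _ _ _)
      rw [abs_le] at *
      constructor <;> linarith [e1.1, e1.2, e3.1, e3.2]
  -- one point
  have hpt : ∀ y ∈ cube c R, |(v y - ⟪a, y⟫) - u z0| ≤ 3 * D + θ * R * ‖a‖ + η := by
    intro y hy
    have hy' : ∀ i, c i - R ≤ y i ∧ y i ≤ c i + R := fun i => by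
      have := abs_le.1 (hy i); constructor <;> linarith [this.1, this.2]
    have hlo : ∀ i : Fin 3, ∃ τ ∈ Ioo (y i - θ * R / 2) (y i),
        ∀ z ∈ cube c (3 / 2 * R), ∀ z' ∈ cube c (3 / 2 * R), z i = τ → z' i = τ →
        |u z - u z'| ≤ D := fun i => hD i _ _ (by ring) (by linarith [(hy' i).1]) (by
          linarith [(hy' i).2])
    have hhi : ∀ i : Fin 3, ∃ τ ∈ Ioo (y i) (y i + θ * R / 2),
        ∀ z ∈ cube c (3 / 2 * R), ∀ z' ∈ cube c (3 / 2 * R), z i = τ → z' i = τ →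
        |u z - u z'| ≤ D := fun i => hD i _ _ rfl (by linarith [(hy' i).1]) (by
          linarith [(hy' i).2])
    choose lo hlo1 hlo2 using hlo
    choose hi hhi1 hhi2 using hhi
    have hboxK : box (WithLp.toLp 2 lo) (WithLp.toLp 2 hi) ⊆ cube c (3 / 2 * R) := by
      intro z hz i
      have := hz i
      simp only at this
      rw [abs_le]
      constructor <;> linarith [(hlo1 i).1, (hhi1 i).2, (hy' i).1, (hy' i).2, this.1, this.2]
    have hyb : y ∈ box (WithLp.toLp 2 lo) (WithLp.toLp 2 hi) := fun i =>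
      ⟨(hlo1 i).2.le, (hhi1 i).1.le⟩
    -- every boundary point of the box
    have hbd : ∀ z ∈ box (WithLp.toLp 2 lo) (WithLp.toLp 2 hi),
        (∃ i, z i = (WithLp.toLp 2 lo : R3) i ∨ z i = (WithLp.toLp 2 hi : R3) i) →
        |(v z - ⟪a, y⟫) - u z0| ≤ 3 * D + θ * R * ‖a‖ + η := by
      intro z hz hzb
      have hzK := hboxK hz
      have h3 : |u z - u z0| ≤ 3 * D := by
        obtain ⟨i, hi' | hi'⟩ := hzb
        · exact hcomp i (lo i) (hlo2 i) z hzK hi'
        · exact hcomp i (hi i) (hhi2 i) z hzK hi'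
      have h4 := hη z hzK
      have h5 : |⟪a, z⟫ - ⟪a, y⟫| ≤ θ * R * ‖a‖ := by
        rw [← inner_sub_right]
        refine (abs_real_inner_le_norm _ _).trans ?_
        rw [mul_comm]
        gcongr
        rw [EuclideanSpace.norm_eq]
        refine Real.sqrt_le_iff.2 ⟨hθR.le, ?_⟩
        have : ∀ i, ‖(z - y) i‖ ^ 2 ≤ (θ * R / 2) ^ 2 := by
          intro i
          refine pow_le_pow_left₀ (norm_nonneg _) ?_ 2
          have h6 := hz i
          simp only at h6
          rw [Real.norm_eq_abs, PiLp.sub_apply, abs_le]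
          constructor <;> linarith [(hlo1 i).1, (hhi1 i).2, h6.1, h6.2]
        calc ∑ i, ‖(z - y) i‖ ^ 2 ≤ ∑ i : Fin 3, (θ * R / 2) ^ 2 :=
              Finset.sum_le_sum fun i _ => this i
          _ ≤ (θ * R) ^ 2 := by simp; nlinarith [sq_nonneg (θ * R)]
      rw [abs_le] at *
      constructor <;> linarith [h3.1, h3.2, h4.1, h4.2, h5.1, h5.2]
    obtain ⟨⟨z, hz, hzb, hvz⟩, ⟨z', hz', hzb', hvz'⟩⟩ := hm _ _ (hboxK.trans hKΩ) y hyb
    have e1 := hbd z hz hzb
    have e2 := hbd z' hz' hzb'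
    rw [abs_le] at *
    constructor <;> linarith [e1.1, e1.2, e2.1, e2.2]
  intro y hy y' hy'
  have e1 := hpt y hy
  have e2 := hpt y' hy'
  rw [abs_le] at *
  constructor <;> linarith [e1.1, e1.2, e2.1, e2.2]

end Crest.Agent.R096.Osc_802
end

-- ▼ part R096/Osc5_802
section

/-!
P6-OSC part 5 (helper802): oscillation estimate for box-monotone continuous functions with weak
gradient, p > 2 (absolute constant `36 * Cp p`), relative to affine functions; L^p Lebesgue points;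
differentiability almost everywhere.
-/

set_option autoImplicit false
open MeasureTheory Set Metric Filter Topology TopologicalSpace
open scoped ENNReal NNReal ContDiff RealInnerProductSpace
open Crest.AnalysisR.VecCalc3 Crest.AnalysisR.Sobolev

namespace Crest.Agent.R096.Osc_802

/-- **oscillation relative to an affine function** (p > 2). -/
theorem osc_affine {Ω : Set R3} (hΩ : IsOpen Ω) {v : R3 → ℝ} {G : R3 → R3}
    (hv : ContinuousOn v Ω) (hG : HasWeakGradOn Ω v G) (hm : BoxMono v Ω) {p : ℝ} (hp : 2 < p)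
    {c : R3} {R : ℝ} (hR : 0 < R) (hQ : cube c (2 * R) ⊆ Ω) (a : R3) {θ : ℝ} (hθ : 0 < θ)
    (hθ1 : θ ≤ 1) {I : ℝ} (hI : 0 ≤ I)
    (hGI : ∫⁻ x in cube c (2 * R), ‖G x - a‖ₑ ^ p ≤ ENNReal.ofReal I) :
    ∀ y ∈ cube c R, ∀ y' ∈ cube c R, |(v y - ⟪a, y⟫) - (v y' - ⟪a, y'⟫)| ≤
      36 * Cp p * θ ^ (-(1 / p)) * R ^ (1 - 3 / p) * I ^ (1 / p) + 2 * (θ * R * ‖a‖) := by
  have hp0 : 0 < p := by linarith
  have h2p : 0 < 1 - 2 / p := by
    have : 2 / p < 1 := by rw [div_lt_one hp0]; exact hp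
    linarith
  have h1p : 0 < 1 / p := by positivity
  have h1p1 : 1 / p ≤ 1 := by rw [div_le_one hp0]; linarith
  set D := 2 * Cp p * (3 / 2 * R) ^ (1 - 2 / p) * (I / (θ * R / 2)) ^ (1 / p) with hD
  have hCp := Cp_pos hp
  have hKL : cthickening (R / 2) (cube c (3 / 2 * R)) ⊆ cube c (2 * R) := by
    refine (cthickening_cube (by positivity) (by positivity)).trans (subset_of_eq ?_)
    congr 1; ring
  have hKΩ : cube c (3 / 2 * R) ⊆ Ω := ((self_subset_cthickening _).trans hKL).trans hQ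
  have key : ∀ η > 0, ∀ y ∈ cube c R, ∀ y' ∈ cube c R,
      |(v y - ⟪a, y⟫) - (v y' - ⟪a, y'⟫)| ≤ 6 * D + 2 * (θ * R * ‖a‖) + 2 * η := by
    intro η hη
    obtain ⟨w, hw, hwv, hwI⟩ := exists_mollify hv hG (measurable_cube c (3 / 2 * R))
      (isCompact_cube c (by positivity)) hQ hΩ (by positivity) hKL hη a (p := p) (by linarith)
    let u : R3 → ℝ := fun x => w x - innerSL ℝ a x
    have hu : ContDiff ℝ 1 u := (hw.of_le (by norm_cast)).sub (innerSL ℝ a).contDiff
    have hud : ∀ x, fderiv ℝ u x = fderiv ℝ w x - innerSL ℝ a := by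
      intro x
      have h1 : HasFDerivAt w (fderiv ℝ w x) x :=
        (hw.differentiable (by simp)).differentiableAt.hasFDerivAt
      exact (h1.sub (innerSL ℝ a).hasFDerivAt).fderiv
    have huI : ∫⁻ x in cube c (3 / 2 * R), ‖fderiv ℝ u x‖ₑ ^ p ≤ ENNReal.ofReal I := by
      simp_rw [hud]; exact hwI.trans hGI
    refine osc_core (u := u) hm hR hθ hθ1 hKΩ a ?_ ?_
    · intro x hx
      have := hwv x hx
      simp only [u, innerSL_apply_apply]
      rw [abs_sub_comm] at this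
      convert this using 2; ring
    · intro i s t hst hs ht
      have hts : t - s = θ * R / 2 := by rw [hst]; ring
      have hlt : s < t := by
        have : 0 < θ * R / 2 := by positivity
        linarith
      have := exists_plane hu hp (c := c) (R := 3 / 2 * R) (by positivity) hI huI i hlt hs ht
      rw [hts] at this
      exact this
  have h6D : 6 * D ≤ 36 * Cp p * θ ^ (-(1 / p)) * R ^ (1 - 3 / p) * I ^ (1 / p) := by
    have e1 : (3 / 2 * R) ^ (1 - 2 / p) ≤ 3 / 2 * R ^ (1 - 2 / p) := by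
      rw [Real.mul_rpow (by norm_num) hR.le]
      gcongr
      calc (3 / 2 : ℝ) ^ (1 - 2 / p) ≤ (3 / 2 : ℝ) ^ (1 : ℝ) :=
            Real.rpow_le_rpow_of_exponent_le (by norm_num) (by
              have : 0 < 2 / p := by positivity
              linarith)
        _ = 3 / 2 := Real.rpow_one _
    have e2 : (I / (θ * R / 2)) ^ (1 / p) ≤ 2 * (I ^ (1 / p) * θ ^ (-(1 / p)) * R ^ (-(1 / p))) := by
      have : I / (θ * R / 2) = 2 * (I * θ⁻¹ * R⁻¹) := by field_simp
      rw [this, Real.mul_rpow (by norm_num) (by positivity), Real.mul_rpow (by positivity)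
        (by positivity), Real.mul_rpow hI (by positivity), Real.inv_rpow hθ.le, Real.inv_rpow hR.le,
        Real.rpow_neg hθ.le, Real.rpow_neg hR.le]
      gcongr
      calc (2 : ℝ) ^ (1 / p) ≤ (2 : ℝ) ^ (1 : ℝ) :=
            Real.rpow_le_rpow_of_exponent_le (by norm_num) h1p1
        _ = 2 := Real.rpow_one _
    have e3 : R ^ (1 - 2 / p) * R ^ (-(1 / p)) = R ^ (1 - 3 / p) := by
      rw [← Real.rpow_add hR]; congr 1; ring
    calc 6 * D = 12 * Cp p * ((3 / 2 * R) ^ (1 - 2 / p) * (I / (θ * R / 2)) ^ (1 / p)) := by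
          rw [hD]; ring
      _ ≤ 12 * Cp p * ((3 / 2 * R ^ (1 - 2 / p)) *
            (2 * (I ^ (1 / p) * θ ^ (-(1 / p)) * R ^ (-(1 / p))))) := by gcongr
      _ = 36 * Cp p * θ ^ (-(1 / p)) * (R ^ (1 - 2 / p) * R ^ (-(1 / p))) * I ^ (1 / p) := by ring
      _ = _ := by rw [e3]
  intro y hy y' hy'
  refine le_of_forall_pos_le_add fun ε hε => ?_
  have := key (ε / 2) (by positivity) y hy y' hy'
  linarith


/-- L^p Lebesgue points. -/
theorem ae_lebesgue {F : R3 → R3} {p : ℝ} (hp : 1 ≤ p) (hF : MemLp F (ENNReal.ofReal p) volume) :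
    ∀ᵐ x, Tendsto (fun r : ℝ => (∫⁻ y in closedBall x r, ‖F y - F x‖ₑ ^ p) /
      volume (closedBall x r)) (𝓝[>] 0) (𝓝 0) := by
  have hp0 : 0 < p := by linarith
  have hpe : (ENNReal.ofReal p).toReal = p := ENNReal.toReal_ofReal hp0.le
  have hloc : ∀ q : R3, LocallyIntegrable (fun y => ‖F y - q‖ ^ p) volume := by
    intro q
    rw [locallyIntegrable_iff]
    intro K hK
    have : IsFiniteMeasure ((volume : Measure R3).restrict K) :=
      ⟨by simpa using hK.measure_lt_top⟩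
    have h1 : MemLp (fun y => F y - q) (ENNReal.ofReal p) (volume.restrict K) :=
      (hF.restrict K).sub (memLp_const q)
    have h2 := h1.integrable_norm_rpow (by simpa using hp0) ENNReal.ofReal_ne_top
    rw [hpe] at h2
    exact h2
  have hae : ∀ᵐ x, ∀ n : ℕ, Tendsto (fun r : ℝ =>
      (∫⁻ y in closedBall x r, ‖‖F y - denseSeq R3 n‖ ^ p - ‖F x - denseSeq R3 n‖ ^ p‖ₑ) /
        volume (closedBall x r)) (𝓝[>] 0) (𝓝 0) := by
    rw [ae_all_iff]
    intro n
    filter_upwards [(Besicovitch.vitaliFamily (volume : Measure R3)).ae_tendsto_lintegral_enorm_sub_div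
      (hloc (denseSeq R3 n))] with x hx
    exact hx.comp (Besicovitch.tendsto_filterAt volume x)
  filter_upwards [hae] with x hx
  rw [ENNReal.tendsto_nhds_zero]
  intro ε hε
  -- choose a dense point
  obtain ⟨ε', hε', hεε⟩ : ∃ ε' : ℝ≥0∞, 0 < ε' ∧ (2 : ℝ≥0∞) ^ (p - 1) * (ε' + 2 * ε') ≤ ε := by
    have h2 : (2 : ℝ≥0∞) ^ (p - 1) * 3 ≠ 0 := by
      refine mul_ne_zero ?_ (by norm_num)
      exact (ENNReal.rpow_pos (by simp) (by simp)).ne'
    have h2' : (2 : ℝ≥0∞) ^ (p - 1) * 3 ≠ ⊤ :=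
      ENNReal.mul_ne_top (ENNReal.rpow_ne_top_of_nonneg (by linarith) (by simp)) (by simp)
    refine ⟨ε / ((2 : ℝ≥0∞) ^ (p - 1) * 3), ENNReal.div_pos hε.ne' h2', ?_⟩
    have : ∀ t : ℝ≥0∞, (2 : ℝ≥0∞) ^ (p - 1) * (t + 2 * t) = (2 : ℝ≥0∞) ^ (p - 1) * 3 * t := by
      intro t; ring
    rw [this]
    exact ENNReal.mul_div_le
  obtain ⟨n, hn⟩ : ∃ n, ‖F x - denseSeq R3 n‖ₑ ^ p ≤ ε' := by
    have hcont : Tendsto (fun q : R3 => ‖F x - q‖ₑ ^ p) (𝓝 (F x)) (𝓝 0) := by
      have : Continuous fun q : R3 => ‖F x - q‖ₑ ^ p :=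
        (ENNReal.continuous_rpow_const).comp (by fun_prop)
      have h := this.tendsto (F x)
      simpa [ENNReal.zero_rpow_of_pos hp0] using h
    have hev := hcont.eventually (ge_mem_nhds hε')
    obtain ⟨q, ⟨n, hqn⟩, hq⟩ := Dense.inter_nhds_nonempty (denseRange_denseSeq R3) hev
    refine ⟨n, ?_⟩
    rw [hqn]
    exact hq
  have hgx : ∀ y, ‖F y - denseSeq R3 n‖ₑ ^ p = ENNReal.ofReal (‖F y - denseSeq R3 n‖ ^ p) := by
    intro y
    rw [← ofReal_norm, ENNReal.ofReal_rpow_of_nonneg (norm_nonneg _) hp0.le]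
  have hev := (ENNReal.tendsto_nhds_zero.1 (hx n)) ε' hε'
  filter_upwards [hev, self_mem_nhdsWithin] with r hr hr0
  have hr0' : (0 : ℝ) < r := hr0
  have hV0 : (volume : Measure R3) (closedBall x r) ≠ 0 := (measure_closedBall_pos _ _ hr0').ne'
  have hVt : (volume : Measure R3) (closedBall x r) ≠ ⊤ := measure_closedBall_lt_top.ne
  have hr1 : ∫⁻ y in closedBall x r, ‖‖F y - denseSeq R3 n‖ ^ p - ‖F x - denseSeq R3 n‖ ^ p‖ₑ ≤
      ε' * volume (closedBall x r) := by
    rwa [ENNReal.div_le_iff hV0 hVt] at hr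
  rw [ENNReal.div_le_iff hV0 hVt]
  calc ∫⁻ y in closedBall x r, ‖F y - F x‖ₑ ^ p
      ≤ ∫⁻ y in closedBall x r, (2 : ℝ≥0∞) ^ (p - 1) *
          (‖‖F y - denseSeq R3 n‖ ^ p - ‖F x - denseSeq R3 n‖ ^ p‖ₑ + 2 * ε') := by
        refine lintegral_mono fun y => ?_
        have h1 : ‖F y - F x‖ₑ ≤ ‖F y - denseSeq R3 n‖ₑ + ‖F x - denseSeq R3 n‖ₑ := by
          calc ‖F y - F x‖ₑ = ‖(F y - denseSeq R3 n) - (F x - denseSeq R3 n)‖ₑ := by
                congr 1; abel
            _ ≤ _ := enorm_sub_le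
        have h2 : ‖F y - denseSeq R3 n‖ₑ ^ p ≤
            ‖‖F y - denseSeq R3 n‖ ^ p - ‖F x - denseSeq R3 n‖ ^ p‖ₑ + ε' := by
          calc ‖F y - denseSeq R3 n‖ₑ ^ p
              = ‖(‖F y - denseSeq R3 n‖ ^ p - ‖F x - denseSeq R3 n‖ ^ p) +
                  ‖F x - denseSeq R3 n‖ ^ p‖ₑ := by
                rw [hgx, sub_add_cancel, Real.enorm_of_nonneg (by positivity)]
            _ ≤ ‖‖F y - denseSeq R3 n‖ ^ p - ‖F x - denseSeq R3 n‖ ^ p‖ₑ +
                  ‖‖F x - denseSeq R3 n‖ ^ p‖ₑ := enorm_add_le _ _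
            _ ≤ _ := by
                gcongr
                rw [Real.enorm_of_nonneg (by positivity), ← hgx]; exact hn
        calc ‖F y - F x‖ₑ ^ p
            ≤ (‖F y - denseSeq R3 n‖ₑ + ‖F x - denseSeq R3 n‖ₑ) ^ p := by gcongr
          _ ≤ (2 : ℝ≥0∞) ^ (p - 1) *
                (‖F y - denseSeq R3 n‖ₑ ^ p + ‖F x - denseSeq R3 n‖ₑ ^ p) :=
              ENNReal.rpow_add_le_mul_rpow_add_rpow _ _ hp
          _ ≤ (2 : ℝ≥0∞) ^ (p - 1) *
                ((‖‖F y - denseSeq R3 n‖ ^ p - ‖F x - denseSeq R3 n‖ ^ p‖ₑ + ε') + ε') := by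
              gcongr
          _ = _ := by ring
    _ = (2 : ℝ≥0∞) ^ (p - 1) *
          ((∫⁻ y in closedBall x r, ‖‖F y - denseSeq R3 n‖ ^ p - ‖F x - denseSeq R3 n‖ ^ p‖ₑ) +
            2 * ε' * volume (closedBall x r)) := by
        rw [lintegral_const_mul' _ _ (ENNReal.rpow_ne_top_of_nonneg (by linarith) (by simp)),
          lintegral_add_right _ measurable_const, lintegral_const,
          Measure.restrict_apply MeasurableSet.univ, univ_inter]
    _ ≤ (2 : ℝ≥0∞) ^ (p - 1) * (ε' * volume (closedBall x r) + 2 * ε' * volume (closedBall x r)) := by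
        gcongr
    _ = (2 : ℝ≥0∞) ^ (p - 1) * (ε' + 2 * ε') * volume (closedBall x r) := by ring
    _ ≤ ε * volume (closedBall x r) := by gcongr

end Crest.Agent.R096.Osc_802
end

-- ▼ part R096/Osc6_802

/-!
P6-OSC part 6 (helper802): at L^p Lebesgue points of the weak gradient (p > 2) a box-monotone
continuous Sobolev function is differentiable with the weak gradient as derivative, uniformly on
cubes; vector versions for homeomorphisms.
-/

set_option autoImplicit false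
open MeasureTheory Set Metric Filter Topology TopologicalSpace
open scoped ENNReal NNReal ContDiff RealInnerProductSpace
open Crest.AnalysisR.VecCalc3 Crest.AnalysisR.Sobolev

namespace Crest.Agent.R096.Osc_802

/-- L^p Lebesgue point condition. -/
def LebPt (p : ℝ) (F : R3 → R3) (x : R3) : Prop :=
  Tendsto (fun r : ℝ => (∫⁻ y in closedBall x r, ‖F y - F x‖ₑ ^ p) /
      volume (closedBall x r)) (𝓝[>] 0) (𝓝 0)

theorem ae_lebPt {F : R3 → R3} {p : ℝ} (hp : 1 ≤ p) (hF : MemLp F (ENNReal.ofReal p) volume) :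
    ∀ᵐ x, LebPt p F x := ae_lebesgue hp hF

lemma volume_closedBall_le (x : R3) {r : ℝ} (hr : 0 ≤ r) :
    (volume (closedBall x r) : ℝ≥0∞) =
      ENNReal.ofReal (r ^ 3 * (volume : Measure R3).real (closedBall 0 1)) := by
  rw [Measure.addHaar_closedBall' _ _ hr, Measure.real]
  rw [ENNReal.ofReal_mul (by positivity), ENNReal.ofReal_toReal]
  · simp only [finrank_euclideanSpace, Fintype.card_fin]
  · exact measure_closedBall_lt_top.ne

/-- **(O4), one function**: affine approximation on all small cubes round a Lebesgue point. -/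
theorem affine_at_lebPt {Ω : Set R3} (hΩ : IsOpen Ω) {v : R3 → ℝ} {G : R3 → R3}
    (hv : ContinuousOn v Ω) (hG : HasWeakGradOn Ω v G) (hm : BoxMono v Ω) {p : ℝ} (hp : 2 < p)
    {x : R3} (hx : x ∈ Ω) (hL : LebPt p (Ω.indicator G) x) {ε : ℝ} (hε : 0 < ε) :
    ∃ r₀ > 0, ∀ r : ℝ, 0 < r → r < r₀ → cube x (2 * r) ⊆ Ω ∧
      ∀ y ∈ cube x r, ∀ y' ∈ cube x r,
        |(v y - ⟪G x, y⟫) - (v y' - ⟪G x, y'⟫)| ≤ ε * r := by
  have hp0 : 0 < p := by linarith
  have h1p : 0 < 1 / p := by positivity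
  set V := (volume : Measure R3).real (closedBall 0 1) with hV
  have hV0 : 0 < V := by
    rw [hV, Measure.real]
    exact ENNReal.toReal_pos (measure_closedBall_pos _ _ one_pos).ne' measure_closedBall_lt_top.ne
  have hCp := Cp_pos hp
  -- θ
  obtain ⟨θ, hθ, hθ1, hθa⟩ : ∃ θ : ℝ, 0 < θ ∧ θ ≤ 1 ∧ 2 * θ * ‖G x‖ ≤ ε / 2 := by
    refine ⟨min 1 (ε / (4 * (‖G x‖ + 1))), by positivity, min_le_left _ _, ?_⟩
    have h1 : min 1 (ε / (4 * (‖G x‖ + 1))) ≤ ε / (4 * (‖G x‖ + 1)) := min_le_right _ _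
    calc 2 * min 1 (ε / (4 * (‖G x‖ + 1))) * ‖G x‖
        ≤ 2 * (ε / (4 * (‖G x‖ + 1))) * (‖G x‖ + 1) := by
          gcongr; linarith
      _ = ε / 2 := by field_simp; ring
  -- δ
  obtain ⟨δ, hδ, hδε⟩ : ∃ δ : ℝ, 0 < δ ∧
      36 * Cp p * θ ^ (-(1 / p)) * (64 * V * δ) ^ (1 / p) ≤ ε / 2 := by
    set A := 36 * Cp p * θ ^ (-(1 / p)) with hA
    have hA0 : 0 < A := by positivity
    refine ⟨(ε / (2 * A)) ^ p / (64 * V), by positivity, ?_⟩
    have : 64 * V * ((ε / (2 * A)) ^ p / (64 * V)) = (ε / (2 * A)) ^ p := by field_simp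
    rw [this, ← Real.rpow_mul (by positivity), mul_one_div_cancel hp0.ne', Real.rpow_one]
    apply le_of_eq; field_simp
  -- radius
  obtain ⟨r₁, hr₁, hr₁Ω⟩ := Metric.isOpen_iff.1 hΩ x hx
  have hev := ENNReal.tendsto_nhds_zero.1 hL (ENNReal.ofReal δ) (by simpa using hδ)
  rw [eventually_nhdsWithin_iff, Metric.eventually_nhds_iff] at hev
  obtain ⟨r₂, hr₂, hev⟩ := hev
  refine ⟨min (r₁ / 5) (r₂ / 5), by positivity, fun r hr hrr => ?_⟩
  have hrr1 : r < r₁ / 5 := hrr.trans_le (min_le_left _ _)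
  have hrr2 : r < r₂ / 5 := hrr.trans_le (min_le_right _ _)
  have hcb : cube x (2 * r) ⊆ closedBall x (4 * r) := by
    have := cube_subset_closedBall (c := x) (R := 2 * r) (by positivity)
    rwa [show 2 * (2 * r) = 4 * r by ring] at this
  have hQ : cube x (2 * r) ⊆ Ω :=
    hcb.trans ((closedBall_subset_ball (by linarith)).trans hr₁Ω)
  refine ⟨hQ, ?_⟩
  have hvol0 : (volume : Measure R3) (closedBall x (4 * r)) ≠ 0 :=
    (measure_closedBall_pos _ _ (by positivity)).ne'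
  have hvolt : (volume : Measure R3) (closedBall x (4 * r)) ≠ ⊤ := measure_closedBall_lt_top.ne
  have h1 := hev (y := 4 * r) (by rw [Real.dist_eq, sub_zero, abs_of_pos (by positivity)]; linarith)
    (show (0 : ℝ) < 4 * r by positivity)
  rw [ENNReal.div_le_iff hvol0 hvolt] at h1
  have hGI : ∫⁻ y in cube x (2 * r), ‖G y - G x‖ₑ ^ p ≤ ENNReal.ofReal (64 * V * δ * r ^ 3) := by
    calc ∫⁻ y in cube x (2 * r), ‖G y - G x‖ₑ ^ p
        = ∫⁻ y in cube x (2 * r), ‖Ω.indicator G y - Ω.indicator G x‖ₑ ^ p := by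
          refine setLIntegral_congr_fun (measurable_cube x _) fun y hy => ?_
          simp only [indicator_of_mem hx, indicator_of_mem (hQ hy)]
      _ ≤ ∫⁻ y in closedBall x (4 * r), ‖Ω.indicator G y - Ω.indicator G x‖ₑ ^ p :=
          lintegral_mono_set hcb
      _ ≤ ENNReal.ofReal δ * volume (closedBall x (4 * r)) := h1
      _ = ENNReal.ofReal (64 * V * δ * r ^ 3) := by
          rw [volume_closedBall_le x (by positivity), ← ENNReal.ofReal_mul hδ.le]
          congr 1; rw [← hV]; ring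
  intro y hy y' hy'
  have h2 := osc_affine hΩ hv hG hm hp hr hQ (G x) hθ hθ1 (by positivity) hGI y hy y' hy'
  refine h2.trans ?_
  have e1 : (64 * V * δ * r ^ 3) ^ (1 / p) = (64 * V * δ) ^ (1 / p) * r ^ (3 / p) := by
    rw [Real.mul_rpow (by positivity) (by positivity)]
    congr 1
    rw [← Real.rpow_natCast, ← Real.rpow_mul hr.le]
    congr 1; push_cast; ring
  have e2 : r ^ (1 - 3 / p) * r ^ (3 / p) = r := by
    rw [← Real.rpow_add hr]; simp
  calc 36 * Cp p * θ ^ (-(1 / p)) * r ^ (1 - 3 / p) * (64 * V * δ * r ^ 3) ^ (1 / p) +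
        2 * (θ * r * ‖G x‖)
      = (36 * Cp p * θ ^ (-(1 / p)) * (64 * V * δ) ^ (1 / p)) * (r ^ (1 - 3 / p) * r ^ (3 / p)) +
        (2 * θ * ‖G x‖) * r := by rw [e1]; ring
    _ ≤ ε / 2 * r + ε / 2 * r := by rw [e2]; gcongr
    _ = ε * r := by ring

lemma mem_cube_self (x : R3) {r : ℝ} (hr : 0 ≤ r) : x ∈ cube x r := by
  intro i; simpa using hr

lemma mem_cube_norm (x y : R3) : y ∈ cube x ‖y - x‖ := by
  intro i
  have := PiLp.norm_apply_le (y - x) i
  simpa [Real.norm_eq_abs] using this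

/-- differentiability at Lebesgue points. -/
theorem hasFDerivAt_of_lebPt {Ω : Set R3} (hΩ : IsOpen Ω) {v : R3 → ℝ} {G : R3 → R3}
    (hv : ContinuousOn v Ω) (hG : HasWeakGradOn Ω v G) (hm : BoxMono v Ω) {p : ℝ} (hp : 2 < p)
    {x : R3} (hx : x ∈ Ω) (hL : LebPt p (Ω.indicator G) x) :
    HasFDerivAt v (innerSL ℝ (G x)) x := by
  rw [hasFDerivAt_iff_isLittleO_nhds_zero, Asymptotics.isLittleO_iff]
  intro ε hε
  obtain ⟨r₀, hr₀, h⟩ := affine_at_lebPt hΩ hv hG hm hp hx hL hε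
  filter_upwards [Metric.ball_mem_nhds (0 : R3) hr₀] with z hz
  rcases eq_or_ne z 0 with rfl | hz0
  · simp
  have hzn : 0 < ‖z‖ := norm_pos_iff.2 hz0
  have hz' : ‖z‖ < r₀ := by simpa using hz
  obtain ⟨-, h1⟩ := h ‖z‖ hzn hz'
  have hy : x + z ∈ cube x ‖z‖ := by simpa using mem_cube_norm x (x + z)
  have h2 := h1 (x + z) hy x (mem_cube_self x hzn.le)
  rw [inner_add_right] at h2
  rw [Real.norm_eq_abs]
  refine le_trans (le_of_eq ?_) h2
  rw [innerSL_apply_apply]
  congr 1; ring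

/-- **(O4), a.e. differentiability** (p > 2). -/
theorem ae_diff {Ω : Set R3} (hΩ : IsOpen Ω) {v : R3 → ℝ} {G : R3 → R3}
    (hv : ContinuousOn v Ω) (hG : HasWeakGradOn Ω v G) (hm : BoxMono v Ω) {p : ℝ} (hp : 2 < p)
    (hGp : MemLp G (ENNReal.ofReal p) (volume.restrict Ω)) :
    ∀ᵐ x, x ∈ Ω → LebPt p (Ω.indicator G) x ∧ HasFDerivAt v (innerSL ℝ (G x)) x := by
  have h := (memLp_indicator_iff_restrict hΩ.measurableSet).2 hGp
  filter_upwards [ae_lebPt (by linarith) h] with x hx hxΩ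
  exact ⟨hx, hasFDerivAt_of_lebPt hΩ hv hG hm hp hxΩ hx⟩

/-! ### vector versions -/

lemma norm_le_sum3 (w : R3) : ‖w‖ ≤ ∑ j, |w j| := by
  have : w = ∑ j, w j • EuclideanSpace.single j (1 : ℝ) := by
    ext k
    simp [Finset.sum_apply, Pi.single_apply]
  calc ‖w‖ = ‖∑ j, w j • EuclideanSpace.single j (1 : ℝ)‖ := by rw [← this]
    _ ≤ ∑ j, ‖w j • EuclideanSpace.single j (1 : ℝ)‖ := norm_sum_le _ _
    _ = ∑ j, |w j| := by simp [norm_smul]

/-- the linear map with rows `A j`. -/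
noncomputable def rowMap (A : Fin 3 → R3) : R3 →L[ℝ] R3 :=
  (EuclideanSpace.equiv (Fin 3) ℝ).symm.toContinuousLinearMap ∘L
    ContinuousLinearMap.pi fun j => innerSL ℝ (A j)

@[simp] lemma rowMap_apply (A : Fin 3 → R3) (y : R3) (j : Fin 3) : rowMap A y j = ⟪A j, y⟫ := rfl

/-- **(O3) for homeomorphisms, relative to an affine map.** -/
theorem homeo_osc_affine {Ω Λ : Set R3} (hΩ : IsOpen Ω) (hΛ : IsOpen Λ) {f : R3 → R3}
    (hf : IsHomeomorphOn f Ω Λ) {G : Fin 3 → R3 → R3}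
    (hG : ∀ j, HasWeakGradOn Ω (fun x => f x j) (G j)) {p : ℝ} (hp : 2 < p)
    {c : R3} {R : ℝ} (hR : 0 < R) (hQ : cube c (2 * R) ⊆ Ω) (A : Fin 3 → R3) {θ : ℝ} (hθ : 0 < θ)
    (hθ1 : θ ≤ 1) {I : ℝ} (hI : 0 ≤ I)
    (hGI : ∫⁻ x in cube c (2 * R), ∑ j, ‖G j x - A j‖ₑ ^ p ≤ ENNReal.ofReal I) :
    ∀ y ∈ cube c R, ∀ y' ∈ cube c R, ‖f y - f y' - rowMap A (y - y')‖ ≤
      108 * Cp p * θ ^ (-(1 / p)) * R ^ (1 - 3 / p) * I ^ (1 / p) +
        2 * (θ * R * ∑ j, ‖A j‖) := by
  intro y hy y' hy'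
  have hfc : ContinuousOn f Ω := by obtain ⟨g, _, _, _, _, h, _⟩ := hf; exact h
  have key : ∀ j, |(f y - f y' - rowMap A (y - y')) j| ≤
      36 * Cp p * θ ^ (-(1 / p)) * R ^ (1 - 3 / p) * I ^ (1 / p) + 2 * (θ * R * ‖A j‖) := by
    intro j
    have hvc : ContinuousOn (fun x => f x j) Ω :=
      (EuclideanSpace.proj (𝕜 := ℝ) j).continuous.comp_continuousOn hfc
    have h1 := osc_affine hΩ hvc (hG j) (boxMono_coord hf hΛ j) hp hR hQ (A j) hθ hθ1 hI
      (le_trans (lintegral_mono fun x =>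
        Finset.single_le_sum (f := fun j => ‖G j x - A j‖ₑ ^ p) (fun _ _ => zero_le)
          (Finset.mem_univ j)) hGI) y hy y' hy'
    refine le_trans (le_of_eq ?_) h1
    simp only [PiLp.sub_apply, rowMap_apply, inner_sub_right]
    congr 1; ring
  calc ‖f y - f y' - rowMap A (y - y')‖ ≤ ∑ j, |(f y - f y' - rowMap A (y - y')) j| :=
        norm_le_sum3 _
    _ ≤ ∑ j : Fin 3, (36 * Cp p * θ ^ (-(1 / p)) * R ^ (1 - 3 / p) * I ^ (1 / p) +
          2 * (θ * R * ‖A j‖)) := Finset.sum_le_sum fun j _ => key j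
    _ = _ := by
        rw [Finset.sum_add_distrib, Finset.sum_const, Finset.card_univ, Fintype.card_fin,
          ← Finset.mul_sum, ← Finset.mul_sum]
        simp only [nsmul_eq_mul]
        push_cast; ring

/-- **(O3) for homeomorphisms.** -/
theorem homeo_osc_le {Ω Λ : Set R3} (hΩ : IsOpen Ω) (hΛ : IsOpen Λ) {f : R3 → R3}
    (hf : IsHomeomorphOn f Ω Λ) {G : Fin 3 → R3 → R3}
    (hG : ∀ j, HasWeakGradOn Ω (fun x => f x j) (G j)) {p : ℝ} (hp : 2 < p)
    {c : R3} {R : ℝ} (hR : 0 < R) (hQ : cube c (2 * R) ⊆ Ω) {I : ℝ} (hI : 0 ≤ I)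
    (hGI : ∫⁻ x in cube c (2 * R), ∑ j, ‖G j x‖ₑ ^ p ≤ ENNReal.ofReal I) :
    ∀ y ∈ cube c R, ∀ y' ∈ cube c R, ‖f y - f y'‖ ≤
      108 * Cp p * R ^ (1 - 3 / p) * I ^ (1 / p) := by
  intro y hy y' hy'
  have h := homeo_osc_affine hΩ hΛ hf hG hp hR hQ (fun _ => 0) one_pos le_rfl hI (by simpa using hGI)
    y hy y' hy'
  have e : rowMap (fun _ => (0 : R3)) (y - y') = 0 := by ext j; simp
  rw [e] at h
  simpa using h

/-- **(O4) for homeomorphisms**: a.e. differentiability and affine approximation on cubes. -/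
theorem homeo_ae_diff {Ω Λ : Set R3} (hΩ : IsOpen Ω) (hΛ : IsOpen Λ) {f : R3 → R3}
    (hf : IsHomeomorphOn f Ω Λ) {G : Fin 3 → R3 → R3}
    (hG : ∀ j, HasWeakGradOn Ω (fun x => f x j) (G j)) {p : ℝ} (hp : 2 < p)
    (hGp : ∀ j, MemLp (G j) (ENNReal.ofReal p) (volume.restrict Ω)) :
    ∀ᵐ x, x ∈ Ω → (∀ j, LebPt p (Ω.indicator (G j)) x) ∧
      HasFDerivAt f (rowMap fun j => G j x) x := by
  have hfc : ContinuousOn f Ω := by obtain ⟨g, _, _, _, _, h, _⟩ := hf; exact h
  have h : ∀ j, ∀ᵐ x, x ∈ Ω → LebPt p (Ω.indicator (G j)) x ∧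
      HasFDerivAt (fun x => f x j) (innerSL ℝ (G j x)) x := fun j =>
    ae_diff hΩ ((EuclideanSpace.proj (𝕜 := ℝ) j).continuous.comp_continuousOn hfc) (hG j)
      (boxMono_coord hf hΛ j) hp (hGp j)
  filter_upwards [ae_all_iff.2 h] with x hx hxΩ
  refine ⟨fun j => (hx j hxΩ).1, ?_⟩
  rw [← hasFDerivWithinAt_univ, hasFDerivWithinAt_euclidean]
  intro j
  rw [hasFDerivWithinAt_univ]
  have : (EuclideanSpace.proj j : R3 →L[ℝ] ℝ) ∘L (rowMap fun j => G j x) =
      innerSL ℝ (G j x) := by ext y; simp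
  rw [this]
  exact (hx j hxΩ).2

theorem homeo_affine_at_lebPt {Ω Λ : Set R3} (hΩ : IsOpen Ω) (hΛ : IsOpen Λ) {f : R3 → R3}
    (hf : IsHomeomorphOn f Ω Λ) {G : Fin 3 → R3 → R3}
    (hG : ∀ j, HasWeakGradOn Ω (fun x => f x j) (G j)) {p : ℝ} (hp : 2 < p)
    {x : R3} (hx : x ∈ Ω) (hL : ∀ j, LebPt p (Ω.indicator (G j)) x) {ε : ℝ} (hε : 0 < ε) :
    ∃ r₀ > 0, ∀ r : ℝ, 0 < r → r < r₀ → cube x (2 * r) ⊆ Ω ∧
      ∀ y ∈ cube x r, ∀ y' ∈ cube x r,
        ‖f y - f y' - rowMap (fun j => G j x) (y - y')‖ ≤ ε * r := by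
  have hfc : ContinuousOn f Ω := by obtain ⟨g, _, _, _, _, h, _⟩ := hf; exact h
  have h : ∀ j, ∃ r₀ > 0, ∀ r : ℝ, 0 < r → r < r₀ → cube x (2 * r) ⊆ Ω ∧
      ∀ y ∈ cube x r, ∀ y' ∈ cube x r,
        |(f y j - ⟪G j x, y⟫) - (f y' j - ⟪G j x, y'⟫)| ≤ ε / 3 * r := fun j =>
    affine_at_lebPt hΩ ((EuclideanSpace.proj (𝕜 := ℝ) j).continuous.comp_continuousOn hfc) (hG j)
      (boxMono_coord hf hΛ j) hp hx (hL j) (by positivity)
  choose r₀ hr₀ h using h
  refine ⟨min (r₀ 0) (min (r₀ 1) (r₀ 2)), lt_min (hr₀ 0) (lt_min (hr₀ 1) (hr₀ 2)),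
    fun r hr hrr => ?_⟩
  have hrj : ∀ j, r < r₀ j := by
    intro j
    have h0 := hrr.trans_le (min_le_left _ _)
    have h1 := hrr.trans_le ((min_le_right _ _).trans (min_le_left _ _))
    have h2 := hrr.trans_le ((min_le_right _ _).trans (min_le_right _ _))
    fin_cases j <;> assumption
  refine ⟨(h 0 r hr (hrj 0)).1, fun y hy y' hy' => ?_⟩
  calc ‖f y - f y' - rowMap (fun j => G j x) (y - y')‖
      ≤ ∑ j, |(f y - f y' - rowMap (fun j => G j x) (y - y')) j| := norm_le_sum3 _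
    _ ≤ ∑ j : Fin 3, ε / 3 * r := by
        refine Finset.sum_le_sum fun j _ => ?_
        refine le_trans (le_of_eq ?_) ((h j r hr (hrj j)).2 y hy y' hy')
        simp only [PiLp.sub_apply, rowMap_apply, inner_sub_right]
        congr 1; ring
    _ = ε * r := by simp; ring

end Crest.Agent.R096.Osc_802
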