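import Crest.Agent.R096.Mal10_874

-- ▼ part R096/Mal11_874
section

/-!
# Row 96, library (MESH-AL), part 11: integer polytopes in a frame, the tiling of a core block
-/

set_option autoImplicit false

open Set Filter Topology Metric

namespace Crest.Agent.R096.Mal_874

open Msh_715 Cut_874 Msh_810

variable {n : ℕ} {E : Type*} [NormedAddCommGroup E] [NormedSpace ℝ E]

/-! ### integer polytopes in a frame -/

/-- inequality with integer data in the frame `ψ`, shift `a'`, scale `k` -/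
noncomputable def iq (ψ : E ≃L[ℝ] (Fin n → ℝ)) (a' : Fin n → ℝ) (k : ℕ) (p : (Fin n → ℤ) × ℤ) :
    (E →L[ℝ] ℝ) × ℝ :=
  (∑ m, (p.1 m : ℝ) • co ψ m, dt (rv p.1) a' + p.2 / 2 ^ k)

/-- the inequalities of an integer polytope -/
noncomputable def iH (ψ : E ≃L[ℝ] (Fin n → ℝ)) (a' : Fin n → ℝ) (k : ℕ)
    (S : Finset ((Fin n → ℤ) × ℤ)) : Finset ((E →L[ℝ] ℝ) × ℝ) := by
  classical
  exact S.image (iq ψ a' k)

section

variable {ψ : E ≃L[ℝ] (Fin n → ℝ)} {a' : Fin n → ℝ} {k : ℕ}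

theorem iq_eq (p : (Fin n → ℤ) × ℤ) (y : E) :
    2 ^ k * ((iq ψ a' k p).1 y - (iq ψ a' k p).2) = dt (rv p.1) (ps a' k (ψ y)) - p.2 := by
  have hk : (2 : ℝ) ^ k ≠ 0 := by positivity
  have e1 : (iq ψ a' k p).1 y = dt (rv p.1) (ψ y) := by
    show (∑ m, (p.1 m : ℝ) • co ψ m) y = _
    rw [sum_apply]
    rfl
  have e2 : (iq ψ a' k p).2 = dt (rv p.1) a' + p.2 / 2 ^ k := rfl
  have e3 : dt (rv p.1) (ps a' k (ψ y)) = 2 ^ k * (dt (rv p.1) (ψ y) - dt (rv p.1) a') := by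
    rw [← dt_sub]
    unfold dt ps
    rw [Finset.mul_sum]
    exact Finset.sum_congr rfl fun m _ => by ring
  rw [e1, e2, e3]
  field_simp
  ring

theorem iq_le (p : (Fin n → ℤ) × ℤ) (y : E) :
    (iq ψ a' k p).1 y ≤ (iq ψ a' k p).2 ↔ dt (rv p.1) (ps a' k (ψ y)) ≤ p.2 := by
  have h := iq_eq (ψ := ψ) (a' := a') (k := k) p y
  have hk : (0 : ℝ) < 2 ^ k := by positivity
  constructor
  · intro h1
    nlinarith
  · intro h1
    by_contra h2
    push Not at h2
    nlinarith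

theorem iq_lt (p : (Fin n → ℤ) × ℤ) (y : E) :
    (iq ψ a' k p).1 y < (iq ψ a' k p).2 ↔ dt (rv p.1) (ps a' k (ψ y)) < p.2 := by
  have h := iq_eq (ψ := ψ) (a' := a') (k := k) p y
  have hk : (0 : ℝ) < 2 ^ k := by positivity
  constructor
  · intro h1
    nlinarith
  · intro h1
    by_contra h2
    push Not at h2
    nlinarith

theorem iq_eq' (p : (Fin n → ℤ) × ℤ) (y : E) :
    (iq ψ a' k p).1 y = (iq ψ a' k p).2 ↔ dt (rv p.1) (ps a' k (ψ y)) = p.2 := by
  have h := iq_eq (ψ := ψ) (a' := a') (k := k) p y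
  have hk : (0 : ℝ) < 2 ^ k := by positivity
  constructor
  · intro h1
    rw [h1, sub_self, mul_zero] at h
    linarith
  · intro h1
    rw [h1, sub_self] at h
    rcases mul_eq_zero.1 h with h2 | h2
    · exact absurd h2 hk.ne'
    · linarith

theorem forall_iH {S : Finset ((Fin n → ℤ) × ℤ)} {Q : (E →L[ℝ] ℝ) × ℝ → Prop} :
    (∀ h ∈ iH ψ a' k S, Q h) ↔ ∀ p ∈ S, Q (iq ψ a' k p) := by
  classical
  unfold iH
  simp only [Finset.mem_image, forall_exists_index, and_imp, forall_apply_eq_imp_iff₂]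

theorem mem_P_iH {S : Finset ((Fin n → ℤ) × ℤ)} {y : E} :
    y ∈ P (iH ψ a' k S) ↔ ps a' k (ψ y) ∈ ZP S := by
  change (∀ h ∈ iH ψ a' k S, h.1 y ≤ h.2) ↔ _
  rw [forall_iH (Q := fun h => h.1 y ≤ h.2)]
  exact forall₂_congr fun p _ => iq_le p y

theorem mem_I_iH {S : Finset ((Fin n → ℤ) × ℤ)} {y : E} :
    y ∈ I (iH ψ a' k S) ↔ ps a' k (ψ y) ∈ ZI S := by
  change (∀ h ∈ iH ψ a' k S, h.1 y < h.2) ↔ _
  rw [forall_iH (Q := fun h => h.1 y < h.2)]
  exact forall₂_congr fun p _ => iq_lt p y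

end

/-- scaled coordinates are onto -/
theorem exists_ps (ψ : E ≃L[ℝ] (Fin n → ℝ)) (a' : Fin n → ℝ) (k : ℕ) (u : Fin n → ℝ) :
    ∃ y : E, ps a' k (ψ y) = u := by
  have hk : (2 : ℝ) ^ k ≠ 0 := by positivity
  refine ⟨ψ.symm fun i => a' i + u i / 2 ^ k, ?_⟩
  funext i
  unfold ps
  rw [ContinuousLinearEquiv.apply_symm_apply]
  field_simp
  ring

/-! ### boxes with integer corners -/

/-- the cubes of an integer box -/
def bx (α β : Fin n → ℤ) : Set (Fin n → ℤ) := {z | ∀ l, α l ≤ z l ∧ z l < β l}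

theorem bx_finite (α β : Fin n → ℤ) : (bx α β).Finite := by
  refine (Set.finite_Icc α β).subset ?_
  intro z hz
  exact ⟨fun l => (hz l).1, fun l => (hz l).2.le⟩

theorem mem_pc_bx {a : Fin n → ℝ} {k : ℕ} {α β : Fin n → ℤ} (h : ∀ l, α l < β l) {x : Fin n → ℝ} :
    x ∈ pc a k (bx α β) ↔ ∀ l, (α l : ℝ) ≤ ps a k x l ∧ ps a k x l ≤ β l := by
  rw [mem_pc]
  constructor
  · rintro ⟨z, hz, hx⟩ l
    rw [mem_Cu] at hx
    obtain ⟨h1, h2⟩ := hz l
    obtain ⟨h3, h4⟩ := hx l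
    have h1' : (α l : ℝ) ≤ z l := by exact_mod_cast h1
    have h2' : (z l : ℝ) + 1 ≤ β l := by exact_mod_cast h2
    constructor <;> linarith
  · intro hx
    refine ⟨fun l => min ⌊ps a k x l⌋ (β l - 1), fun l => ?_, ?_⟩
    · obtain ⟨h1, h2⟩ := hx l
      have h3 : α l ≤ ⌊ps a k x l⌋ := Int.le_floor.2 h1
      have h4 := h l
      constructor
      · exact le_min h3 (by omega)
      · exact lt_of_le_of_lt (min_le_right _ _) (by omega)
    · rw [mem_Cu]
      intro l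
      obtain ⟨h1, h2⟩ := hx l
      rcases le_total ⌊ps a k x l⌋ (β l - 1) with h3 | h3
      · rw [min_eq_left h3]
        exact ⟨Int.floor_le _, (Int.lt_floor_add_one _).le⟩
      · rw [min_eq_right h3]
        have h4 : ((β l - 1 : ℤ) : ℝ) ≤ ⌊ps a k x l⌋ := by exact_mod_cast h3
        push_cast at h4 ⊢
        exact ⟨h4.trans (Int.floor_le _), by linarith⟩

/-- the frontier of an integer box -/
theorem of_mem_frontier_bx {a : Fin n → ℝ} {k : ℕ} {α β : Fin n → ℤ} (h : ∀ l, α l < β l)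
    {x : Fin n → ℝ} (hx : x ∈ frontier (pc a k (bx α β))) :
    ∃ l, ps a k x l = α l ∨ ps a k x l = β l := by
  by_contra hcon
  push Not at hcon
  have h1 : x ∈ pc a k (bx α β) := (pc_compact (bx_finite α β)).isClosed.frontier_subset hx
  rw [mem_pc_bx h] at h1
  apply hx.2
  have h2 : IsOpen {y : Fin n → ℝ | ∀ l, (α l : ℝ) < ps a k y l ∧ ps a k y l < β l} := by
    have : {y : Fin n → ℝ | ∀ l, (α l : ℝ) < ps a k y l ∧ ps a k y l < β l} =
        ⋂ l, {y | (α l : ℝ) < ps a k y l ∧ ps a k y l < β l} := by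
      ext y; simp
    rw [this]
    refine isOpen_iInter_of_finite fun l => ?_
    exact (isOpen_lt continuous_const (continuous_ps a k l)).inter
      (isOpen_lt (continuous_ps a k l) continuous_const)
  refine mem_interior.2 ⟨_, ?_, h2, ?_⟩
  · intro y hy
    rw [mem_pc_bx h]
    exact fun l => ⟨(hy l).1.le, (hy l).2.le⟩
  · intro l
    obtain ⟨h3, h4⟩ := h1 l
    obtain ⟨h5, h6⟩ := hcon l
    exact ⟨lt_of_le_of_ne h3 (Ne.symm h5), lt_of_le_of_ne h4 h6⟩

/-- a point of an integer box with an extreme coordinate is in the frontier -/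
theorem mem_frontier_bx {a : Fin n → ℝ} {k : ℕ} {α β : Fin n → ℤ} (h : ∀ l, α l < β l)
    {x : Fin n → ℝ} (hx : x ∈ pc a k (bx α β)) {l : Fin n}
    (hl : ps a k x l = α l ∨ ps a k x l = β l) : x ∈ frontier (pc a k (bx α β)) := by
  refine ⟨subset_closure hx, fun hi => ?_⟩
  have hk : (0 : ℝ) < 2 ^ k := by positivity
  obtain ⟨ε, hε, hb⟩ := Metric.isOpen_iff.1 isOpen_interior x hi
  have key : ∀ s : ℝ, |s| < ε → x + s • (Pi.single l (1 : ℝ) : Fin n → ℝ) ∈ pc a k (bx α β) := by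
    intro s hs
    refine interior_subset (hb ?_)
    rw [mem_ball, dist_eq_norm]
    have e : x + s • (Pi.single l (1 : ℝ) : Fin n → ℝ) - x = s • Pi.single l (1 : ℝ) := by abel
    rw [e, norm_smul, Real.norm_eq_abs]
    have h1 : ‖(Pi.single l (1 : ℝ) : Fin n → ℝ)‖ ≤ 1 := by
      rw [pi_norm_le_iff_of_nonneg zero_le_one]
      intro m
      by_cases h : m = l
      · subst h; simp
      · simp [Pi.single_eq_of_ne h]
    nlinarith [abs_nonneg s]
  have e : ∀ s : ℝ, ps a k (x + s • (Pi.single l (1 : ℝ) : Fin n → ℝ)) l = ps a k x l + 2 ^ k * s := by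
    intro s
    unfold ps
    simp only [Pi.add_apply, Pi.smul_apply, Pi.single_eq_same, smul_eq_mul, mul_one]
    ring
  rcases hl with hl | hl
  · have h1 := ((mem_pc_bx h).1 (key (-(ε / 2)) (by rw [abs_neg, abs_of_pos (by linarith)]; linarith))
      l).1
    rw [e, hl] at h1
    nlinarith
  · have h1 := ((mem_pc_bx h).1 (key (ε / 2) (by rw [abs_of_pos (by linarith)]; linarith)) l).2
    rw [e, hl] at h1
    nlinarith

/-- distance in one scaled coordinate -/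
theorem ps_dist {a : Fin n → ℝ} {k : ℕ} {x y : Fin n → ℝ} (l : Fin n) :
    |ps a k x l - ps a k y l| ≤ 2 ^ k * dist x y := by
  have hk : (0 : ℝ) < 2 ^ k := by positivity
  have h2 : dist (x l) (y l) ≤ dist x y := dist_le_pi_dist _ _ l
  rw [Real.dist_eq] at h2
  unfold ps
  rw [← mul_sub, abs_mul, abs_of_pos hk]
  refine mul_le_mul_of_nonneg_left ?_ hk.le
  have e : x l - a l - (y l - a l) = x l - y l := by ring
  rw [e]
  exact h2

/-- distance to the frontier of an integer box from inside -/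
theorem le_infDist_bx {a : Fin n → ℝ} {k : ℕ} {α β : Fin n → ℤ} (h : ∀ l, α l < β l)
    (hne : (frontier (pc a k (bx α β))).Nonempty) {x : Fin n → ℝ} {r : ℝ}
    (hx : ∀ l, (α l : ℝ) + r ≤ ps a k x l ∧ ps a k x l ≤ β l - r) :
    r / 2 ^ k ≤ infDist x (frontier (pc a k (bx α β))) := by
  have hk : (0 : ℝ) < 2 ^ k := by positivity
  rw [le_infDist hne]
  intro y hy
  obtain ⟨l, hl⟩ := of_mem_frontier_bx h hy
  have h1 := ps_dist (a := a) (k := k) (x := x) (y := y) l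
  rw [div_le_iff₀' hk]
  obtain ⟨h2, h3⟩ := hx l
  rcases hl with hl | hl
  · rw [hl] at h1
    have := le_abs_self (ps a k x l - α l)
    linarith
  · rw [hl] at h1
    have := neg_abs_le (ps a k x l - β l)
    linarith

/-! ### the shell replaces the tiles of the enlarged box -/

namespace PS

variable (S : PS n) (ψ : E ≃L[ℝ] (Fin n → ℝ)) (a' : Fin n → ℝ) (k : ℕ)

/-- lower corner of the enlarged box -/
def lo' : Fin n → ℤ := fun l => S.lo l - S.t

/-- upper corner of the enlarged box -/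
def hi' : Fin n → ℤ := fun l => S.hi l + S.t

theorem lt' (l : Fin n) : S.lo' l < S.hi' l := by
  have := S.lt l
  have := S.t0
  unfold lo' hi'
  omega

/-- the enlarged box in `E` -/
def bp : Set E := blk ψ a' k (bx S.lo' S.hi')

theorem mem_bp {y : E} : y ∈ S.bp ψ a' k ↔ ps a' k (ψ y) ∈ S.Bp := by
  unfold bp blk
  rw [mem_preimage, mem_pc_bx S.lt']
  unfold Bp lo' hi'
  rw [mem_ofPred_eq]
  push_cast
  rfl

theorem isCompact_bp : IsCompact (S.bp ψ a' k) := blk_compact (bx_finite _ _)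

variable {Om : Set E} {ι : Type*}

theorem repl {T : Tiling Om ι} (hU : IsUn T (S.bp ψ a' k)) :
    Repl T {i | P (T.H i) ⊆ S.bp ψ a' k} (fun i : S.Ix => iH ψ a' k (S.GG i)) where
  cpt i := by
    refine (S.isCompact_bp ψ a' k).of_isClosed_subset (isClosed_P _) ?_
    intro y hy
    rw [mem_bp]
    exact S.sub_Bp i (mem_P_iH.1 hy)
  ne i := by
    obtain ⟨u, hu⟩ := S.ne i
    obtain ⟨y, hy⟩ := exists_ps ψ a' k u
    refine ⟨y, mem_I_iH.2 ?_⟩
    rw [hy]
    exact hu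
  dis i j h := by
    rw [Set.disjoint_left]
    intro y hy hy'
    exact Set.disjoint_left.1 (S.dis h) (mem_I_iH.1 hy) (mem_I_iH.1 hy')
  lf x _ := ⟨1, one_pos, Set.toFinite _⟩
  eq := by
    rw [hU.eq]
    ext y
    rw [mem_bp, ← S.iUnion_ZP]
    simp only [Set.mem_iUnion]
    exact exists_congr fun i => mem_P_iH

end PS

/-! ### the size function of a block -/

/-- size function of a block: `C 2^-kc` deep inside, `C 2^-k` at the wall `W` -/
noncomputable def blkE (W : Set (Fin n → ℝ)) (C : ℝ) (hC : 1 < C) (kc k : ℕ) (a : Fin n → ℝ)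
    (h : C ≤ 2 ^ kc) (hk : kc ≤ k) : Dat n where
  ρ x := max (C / 2 ^ k) (min (C / 2 ^ kc) (infDist x W))
  C := C
  a := a
  lip x y := by
    have h1 := infDist_le_infDist_add_dist (s := W) (x := x) (y := y)
    have h0 := dist_nonneg (x := x) (y := y)
    refine max_le ((le_max_left _ _).trans (by linarith)) ?_
    rcases le_total (C / 2 ^ kc) (infDist y W) with h2 | h2
    · have h3 : C / 2 ^ kc ≤ max (C / 2 ^ k) (min (C / 2 ^ kc) (infDist y W)) := by
        rw [min_eq_left h2]; exact le_max_right _ _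
      exact (min_le_left _ _).trans (by linarith)
    · have h3 : infDist y W ≤ max (C / 2 ^ k) (min (C / 2 ^ kc) (infDist y W)) := by
        rw [min_eq_right h2]; exact le_max_right _ _
      exact (min_le_right _ _).trans (by linarith)
  nonneg x := (le_max_left _ _).trans' (by positivity)
  le_one x := by
    have h2 : (2 : ℝ) ^ kc ≤ 2 ^ k := pow_le_pow_right₀ (by norm_num) hk
    refine max_le ?_ ((min_le_left _ _).trans ?_)
    · rw [div_le_one (by positivity)]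
      exact h.trans h2
    · rw [div_le_one (by positivity)]
      exact h
  hC := hC

section

variable {W : Set (Fin n → ℝ)} {C : ℝ} {hC : 1 < C} {kc k : ℕ} {a : Fin n → ℝ} {h : C ≤ 2 ^ kc}
  {hk : kc ≤ k}

theorem blkE_ρ (x : Fin n → ℝ) :
    (blkE W C hC kc k a h hk).ρ x = max (C / 2 ^ k) (min (C / 2 ^ kc) (infDist x W)) := rfl

theorem blkE_C : (blkE W C hC kc k a h hk).C = C := rfl


theorem blkE_pos (x : Fin n → ℝ) : 0 < (blkE W C hC kc k a h hk).ρ x := by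
  rw [blkE_ρ]
  have h2 : 0 < C := by linarith
  exact lt_of_lt_of_le (by positivity) (le_max_left _ _)

theorem blkE_Om : (blkE W C hC kc k a h hk).Om = univ :=
  Set.eq_univ_of_forall fun x => blkE_pos x

theorem blkE_le {κ : ℕ} (hκ : κ ≤ kc) (x : Fin n → ℝ) :
    2 ^ κ * (blkE W C hC kc k a h hk).ρ x ≤ (blkE W C hC kc k a h hk).C := by
  rw [blkE_ρ, blkE_C]
  have h2 : 0 < C := by linarith
  have h3 : (2 : ℝ) ^ κ ≤ 2 ^ kc := pow_le_pow_right₀ (by norm_num) hκ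
  have h4 : (2 : ℝ) ^ kc ≤ 2 ^ k := pow_le_pow_right₀ (by norm_num) hk
  have h5 : max (C / 2 ^ k) (min (C / 2 ^ kc) (infDist x W)) ≤ C / 2 ^ kc :=
    max_le (div_le_div_of_nonneg_left h2.le (by positivity) h4) (min_le_left _ _)
  calc (2 : ℝ) ^ κ * max (C / 2 ^ k) (min (C / 2 ^ kc) (infDist x W)) ≤ 2 ^ κ * (C / 2 ^ kc) :=
        mul_le_mul_of_nonneg_left h5 (by positivity)
    _ ≤ 2 ^ kc * (C / 2 ^ kc) := mul_le_mul_of_nonneg_right h3 (by positivity)
    _ = C := by field_simp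

theorem blkE_kc_le (x : Fin n → ℝ) : kc ≤ K (blkE W C hC kc k a h hk) x :=
  le_K_of (blkE_pos x) (blkE_le le_rfl x)

theorem blkE_K_le (x : Fin n → ℝ) : K (blkE W C hC kc k a h hk) x ≤ k :=
  K_le_of fun y _ => by
    rw [blkE_ρ, blkE_C]
    have h2 : 0 < C := by linarith
    calc C = 2 ^ k * (C / 2 ^ k) := by field_simp
      _ ≤ _ := mul_le_mul_of_nonneg_left (le_max_left _ _) (by positivity)

/-- deep inside the scale is exactly `kc` -/
theorem blkE_K_deep {x : Fin n → ℝ} (hx : (C + 1) / 2 ^ kc ≤ infDist x W) :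
    K (blkE W C hC kc k a h hk) x = kc := by
  have h2 : 0 < C := by linarith
  have hp : (0 : ℝ) < 2 ^ kc := by positivity
  refine le_antisymm (K_le_of ?_) (blkE_kc_le x)
  intro y hy
  rw [blkE_ρ, blkE_C]
  have h3 := infDist_le_infDist_add_dist (s := W) (x := x) (y := y)
  have h4 : (C + 1) / 2 ^ kc = C / 2 ^ kc + (2 ^ kc)⁻¹ := by
    rw [add_div, one_div]
  have h5 : C / 2 ^ kc ≤ max (C / 2 ^ k) (min (C / 2 ^ kc) (infDist y W)) := by
    refine (le_min le_rfl ?_).trans (le_max_right _ _)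
    linarith
  calc C = 2 ^ kc * (C / 2 ^ kc) := by field_simp
    _ ≤ _ := mul_le_mul_of_nonneg_left h5 (by positivity)

/-- at the wall the scale is exactly `k` -/
theorem blkE_K_wall {x : Fin n → ℝ} (hx : infDist x W < 2 * C / 2 ^ k) :
    K (blkE W C hC kc k a h hk) x = k := by
  have h2 : 0 < C := by linarith
  refine le_antisymm (blkE_K_le x) ?_
  by_contra hcon
  push Not at hcon
  have h3 := K_lower (blkE_pos (W := W) (hC := hC) (a := a) (h := h) (hk := hk) x)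
  rw [blkE_ρ, blkE_C] at h3
  set κ := K (blkE W C hC kc k a h hk) x with hκ
  have h4 : (2 : ℝ) * 2 ^ κ ≤ 2 ^ k := by
    rw [← pow_succ']
    exact pow_le_pow_right₀ (by norm_num) hcon
  have h5 : max (C / 2 ^ k) (min (C / 2 ^ kc) (infDist x W)) < 2 * C / 2 ^ k := by
    refine max_lt ?_ (lt_of_le_of_lt (min_le_right _ _) hx)
    rw [div_lt_div_iff_of_pos_right (by positivity)]
    linarith
  have h6 : (2 : ℝ) ^ κ * max (C / 2 ^ k) (min (C / 2 ^ kc) (infDist x W)) < C := by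
    calc (2 : ℝ) ^ κ * max (C / 2 ^ k) (min (C / 2 ^ kc) (infDist x W)) <
          2 ^ κ * (2 * C / 2 ^ k) := mul_lt_mul_of_pos_left h5 (by positivity)
      _ = C * (2 * 2 ^ κ) / 2 ^ k := by ring
      _ ≤ C * 2 ^ k / 2 ^ k := by gcongr
      _ = C := by field_simp
  linarith

end

/-- **two blocks which differ only in the wall scale have the same coarse scales** -/
theorem blkE_K_min {W : Set (Fin n → ℝ)} {C : ℝ} {hC : 1 < C} {kc k k0 : ℕ} {a : Fin n → ℝ}
    {h : C ≤ 2 ^ kc} {hk : kc ≤ k} {hk0 : kc ≤ k0} (hkk : k0 ≤ k) (x : Fin n → ℝ) :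
    K (blkE W C hC kc k0 a h hk0) x = min (K (blkE W C hC kc k a h hk) x) k0 := by
  have hC0 : 0 < C := by linarith
  -- below `k0` the two conditions agree
  have key : ∀ κ, κ < k0 → (K (blkE W C hC kc k0 a h hk0) x ≤ κ ↔
      K (blkE W C hC kc k a h hk) x ≤ κ) := by
    intro κ hκ
    rw [K_le_iff (blkE_pos x), K_le_iff (blkE_pos x)]
    have hadm : ∀ y, (C ≤ 2 ^ κ * max (C / 2 ^ k0) (min (C / 2 ^ kc) (infDist y W)) ↔
        C ≤ 2 ^ κ * max (C / 2 ^ k) (min (C / 2 ^ kc) (infDist y W))) := by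
      intro y
      have small : ∀ k', κ < k' → (2 : ℝ) ^ κ * (C / 2 ^ k') < C := by
        intro k' hk'
        have h1 : (2 : ℝ) ^ κ < 2 ^ k' := pow_lt_pow_right₀ (by norm_num) hk'
        have h2 : (0 : ℝ) < 2 ^ k' := by positivity
        rw [← mul_div_assoc, div_lt_iff₀ h2, mul_comm C]
        exact mul_lt_mul_of_pos_right h1 hC0
      have gen : ∀ k', κ < k' → (C ≤ 2 ^ κ * max (C / 2 ^ k') (min (C / 2 ^ kc) (infDist y W)) ↔
          C ≤ 2 ^ κ * min (C / 2 ^ kc) (infDist y W)) := by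
        intro k' hk'
        have h1 := small k' hk'
        rcases le_total (C / 2 ^ k') (min (C / 2 ^ kc) (infDist y W)) with h2 | h2
        · rw [max_eq_right h2]
        · rw [max_eq_left h2]
          constructor
          · intro h3
            linarith
          · intro h3
            have : (2 : ℝ) ^ κ * min (C / 2 ^ kc) (infDist y W) ≤ 2 ^ κ * (C / 2 ^ k') :=
              mul_le_mul_of_nonneg_left h2 (by positivity)
            linarith
      rw [gen k0 hκ, gen k (lt_of_lt_of_le hκ hkk)]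
    constructor
    · intro h1 z hz y hy
      exact (hadm y).1 (h1 z hz y hy)
    · intro h1 z hz y hy
      exact (hadm y).2 (h1 z hz y hy)
  have h1 := blkE_K_le (W := W) (hC := hC) (a := a) (h := h) (hk := hk0) x
  apply le_antisymm
  · refine le_min ?_ h1
    by_contra hcon
    push Not at hcon
    have h2 := (key _ (lt_of_lt_of_le hcon h1)).2 le_rfl
    omega
  · rcases h1.lt_or_eq with h2 | h2
    · exact (min_le_left _ _).trans ((key _ h2).1 le_rfl)
    · rw [h2]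
      exact min_le_right _ _

end Crest.Agent.R096.Mal_874
end

-- ▼ part R096/Mal12_874
section

/-!
# Row 96, library (MESH-AL), part 12: the tiling of a core block
-/

set_option autoImplicit false

open Set Filter Topology Metric

namespace Crest.Agent.R096.Mal_874

open Msh_715 Cut_874 Msh_810

variable {n : ℕ} {E : Type*} [NormedAddCommGroup E] [NormedSpace ℝ E]

/-! ### integer vectors -/

/-- the integer vectors with entries of absolute value at most `B` -/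
noncomputable def NB (n : ℕ) (B : ℕ) : Finset (Fin n → ℝ) := by
  classical
  exact (Fintype.piFinset fun _ : Fin n => Finset.Icc (-(B : ℤ)) B).image rv

theorem rv_mem_NB {B : ℕ} {ν : Fin n → ℤ} (h : ∀ l, |ν l| ≤ B) : rv ν ∈ NB n B := by
  classical
  unfold NB
  refine Finset.mem_image_of_mem _ ?_
  rw [Fintype.mem_piFinset]
  intro l
  rw [Finset.mem_Icc]
  exact abs_le.1 (h l)

theorem NB_rat (B : ℕ) {d : ℕ} (hd : 0 < d) : ∀ ν ∈ NB n B, ∀ m, ∃ c : ℤ, ν m = c / d := by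
  classical
  intro ν hν m
  unfold NB at hν
  obtain ⟨μ, -, rfl⟩ := Finset.mem_image.1 hν
  have hd' : (d : ℝ) ≠ 0 := by exact_mod_cast hd.ne'
  refine ⟨μ m * d, ?_⟩
  unfold rv
  push_cast
  field_simp

theorem rv_ez (l : Fin n) : rv (ez l) = (Pi.single l (1 : ℝ) : Fin n → ℝ) := by
  funext m
  unfold rv ez
  by_cases h : m = l
  · subst h; simp
  · simp [Pi.single_eq_of_ne h]

theorem N0_sub_NB {B : ℕ} (hB : 1 ≤ B) : N0 n ⊆ NB n B := by
  classical
  intro ν hν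
  have hB' : (1 : ℤ) ≤ B := by exact_mod_cast hB
  have key : ∀ l m : Fin n, |ez l m| ≤ (B : ℤ) := by
    intro l m
    unfold ez
    by_cases h : m = l
    · subst h; simpa using hB'
    · rw [Pi.single_eq_of_ne h, abs_zero]; omega
  unfold N0 at hν
  rcases Finset.mem_union.1 hν with h | h
  · obtain ⟨l, -, rfl⟩ := Finset.mem_image.1 h
    rw [← rv_ez]
    exact rv_mem_NB (key l)
  · obtain ⟨l, -, rfl⟩ := Finset.mem_image.1 h
    have e : (fun m => -(Pi.single l (1 : ℝ) : Fin n → ℝ) m) = rv (-ez l) := by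
      rw [← rv_ez]
      funext m
      simp [rv]
    rw [e]
    refine rv_mem_NB fun m => ?_
    rw [Pi.neg_apply, abs_neg]
    exact key l m

theorem chi_eq_ps (ψ : E ≃L[ℝ] (Fin n → ℝ)) (a' : Fin n → ℝ) (k : ℕ) (y : E) :
    (chi ψ a' k y : Fin n → ℝ) = ps a' k (ψ y) := by
  funext m
  rw [chi_apply]
  rfl

/-- integer inequalities are in good form -/
theorem gf_iq {ψ : E ≃L[ℝ] (Fin n → ℝ)} {a' : Fin n → ℝ} {k : ℕ} {B : ℕ} {p : (Fin n → ℤ) × ℤ}
    (hp : ∀ l, |p.1 l| ≤ B) :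
    ∃ ν, ∃ t : ℤ, GF (chi ψ a' k) (2 ^ k) (NB n B) 1 (iq ψ a' k p) ν t := by
  refine ⟨rv p.1, p.2, rv_mem_NB hp, fun y => ?_⟩
  rw [iq_eq, chi_eq_ps]
  simp

/-! ### core blocks -/

/-- data of a core block: frame, scale of the cells at the core, prism shell, margin -/
structure CB (E : Type*) [NormedAddCommGroup E] [NormedSpace ℝ E] (n : ℕ) where
  ψ : E ≃L[ℝ] (Fin n → ℝ)
  a' : Fin n → ℝ
  kc : ℕ
  S : PS n
  w : ℤ
  hkc : 3 ≤ kc
  hw : S.t + 10 ≤ w

namespace CB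

variable (Q : CB E n)

/-- lower corner of the block -/
def al : Fin n → ℤ := fun l => Q.S.lo l - Q.w

/-- upper corner of the block -/
def be : Fin n → ℤ := fun l => Q.S.hi l + Q.w

theorem w_real : (Q.S.t : ℝ) + 10 ≤ Q.w := by exact_mod_cast Q.hw

theorem al_lt (l : Fin n) : Q.al l < Q.be l := by
  have h1 := Q.S.lt l
  have h2 := Q.S.t0
  have h3 := Q.hw
  unfold al be
  omega

/-- the block -/
def N : Set E := blk Q.ψ Q.a' Q.kc (bx Q.al Q.be)

/-- the wall of the block in the coordinates of the frame -/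
def W : Set (Fin n → ℝ) := frontier (pc Q.a' Q.kc (bx Q.al Q.be))

theorem mem_N {y : E} : y ∈ Q.N ↔
    ∀ l, (Q.S.lo l - Q.w : ℝ) ≤ ps Q.a' Q.kc (Q.ψ y) l ∧
      ps Q.a' Q.kc (Q.ψ y) l ≤ Q.S.hi l + Q.w := by
  unfold N blk
  rw [mem_preimage, mem_pc_bx Q.al_lt]
  unfold al be
  push_cast
  rfl

theorem frontier_N : frontier Q.N = Q.ψ ⁻¹' Q.W :=
  (Q.ψ.toHomeomorph.preimage_frontier _).symm

theorem isCompact_N : IsCompact Q.N := blk_compact (bx_finite _ _)

theorem frontier_sub : frontier Q.N ⊆ Q.N := Q.isCompact_N.isClosed.frontier_subset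

theorem W_ne [NeZero n] : Q.W.Nonempty := by
  have hk : (2 : ℝ) ^ Q.kc ≠ 0 := by positivity
  have e : ∀ l, ps Q.a' Q.kc (fun l => Q.a' l + Q.al l / 2 ^ Q.kc) l = Q.al l := by
    intro l
    unfold ps
    field_simp
    ring
  refine ⟨_, mem_frontier_bx Q.al_lt (x := fun l => Q.a' l + Q.al l / 2 ^ Q.kc) ?_ (l := 0)
    (Or.inl (e 0))⟩
  rw [mem_pc_bx Q.al_lt]
  intro l
  rw [e l]
  have h : (Q.al l : ℝ) < Q.be l := by exact_mod_cast Q.al_lt l
  exact ⟨le_rfl, h.le⟩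

theorem six_le : (6 : ℝ) ≤ 2 ^ Q.kc := by
  have h : (2 : ℝ) ^ 3 ≤ 2 ^ Q.kc := pow_le_pow_right₀ (by norm_num) Q.hkc
  linarith

/-- size function of the block -/
noncomputable def D (k : ℕ) (hk : Q.kc ≤ k) : Dat n :=
  blkE Q.W 6 (by norm_num) Q.kc k Q.a' Q.six_le hk

variable (k : ℕ) (hk : Q.kc ≤ k)

theorem D_Om : (Q.D k hk).Om = univ := blkE_Om

/-- the graded cubes -/
noncomputable def T0 : Tiling (Q.ψ ⁻¹' (Q.D k hk).Om) (Top (Q.D k hk)) := tiling Q.ψ (Q.D k hk)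

theorem un_bp : IsUn (Q.T0 k hk) (Q.S.bp Q.ψ Q.a' Q.kc) :=
  isUn_tiling (D := Q.D k hk) (by rw [D_Om]; exact subset_univ _)
    (fun x => blkE_le (le_refl Q.kc) x)

theorem un_N0 : IsUn (Q.T0 k hk) Q.N :=
  isUn_tiling (D := Q.D k hk) (by rw [D_Om]; exact subset_univ _)
    (fun x => blkE_le (le_refl Q.kc) x)

/-- **the tiling of the block**: graded cubes, prism shell, core -/
noncomputable def T : Tiling (Q.ψ ⁻¹' (Q.D k hk).Om)
    ({i // i ∉ {i | P ((Q.T0 k hk).H i) ⊆ Q.S.bp Q.ψ Q.a' Q.kc}} ⊕ Q.S.Ix) :=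
  patch (Q.T0 k hk) _ _ (Q.S.repl Q.ψ Q.a' Q.kc (Q.un_bp k hk))

theorem T_inl (i : {i // i ∉ {i | P ((Q.T0 k hk).H i) ⊆ Q.S.bp Q.ψ Q.a' Q.kc}}) :
    (Q.T k hk).H (Sum.inl i) = (Q.T0 k hk).H i.1 := rfl

theorem T_inr (i : Q.S.Ix) : (Q.T k hk).H (Sum.inr i) = iH Q.ψ Q.a' Q.kc (Q.S.GG i) := rfl

theorem P_inr_sub (i : Q.S.Ix) : P ((Q.T k hk).H (Sum.inr i)) ⊆ Q.S.bp Q.ψ Q.a' Q.kc := by
  intro y hy
  rw [T_inr, mem_P_iH] at hy
  rw [PS.mem_bp]
  exact Q.S.sub_Bp i hy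

theorem bp_sub_N : Q.S.bp Q.ψ Q.a' Q.kc ⊆ Q.N := by
  intro y hy
  rw [PS.mem_bp] at hy
  rw [mem_N]
  intro l
  have h := hy l
  have hw := Q.w_real
  constructor <;> linarith [h.1, h.2]

theorem un_N : IsUn (Q.T k hk) Q.N :=
  IsUn.patch (Q.un_N0 k hk) fun i _ => (Q.P_inr_sub k hk i).trans Q.bp_sub_N

/-- the core as a set -/
def Kc : Set E := {y | ps Q.a' Q.kc (Q.ψ y) ∈ Q.S.B0}

/-- the tile of the core -/
noncomputable def cix : {i // i ∉ {i | P ((Q.T0 k hk).H i) ⊆ Q.S.bp Q.ψ Q.a' Q.kc}} ⊕ Q.S.Ix :=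
  Sum.inr Q.S.core

/-- **the core is one tile** -/
theorem P_core : P ((Q.T k hk).H (Q.cix k hk)) = Q.Kc := by
  ext y
  unfold cix
  rw [T_inr, mem_P_iH, Q.S.ZP_core]
  rfl

/-! #### scales -/

/-- `y` is at most `r` cells away from the enlarged box -/
def near (r : ℝ) (y : E) : Prop := ∀ l, (Q.S.lo l - Q.S.t - r : ℝ) ≤ ps Q.a' Q.kc (Q.ψ y) l ∧
  ps Q.a' Q.kc (Q.ψ y) l ≤ Q.S.hi l + Q.S.t + r

theorem near_of_bp {y : E} (hy : y ∈ Q.S.bp Q.ψ Q.a' Q.kc) : Q.near 0 y := by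
  rw [PS.mem_bp] at hy
  intro l
  have h := hy l
  constructor <;> linarith [h.1, h.2]

theorem near_infDist [NeZero n] {y : E} (hy : Q.near 2 y) : (6 + 1) / 2 ^ Q.kc ≤ infDist (Q.ψ y) Q.W := by
  have hp : (0 : ℝ) < 2 ^ Q.kc := by positivity
  have hw := Q.w_real
  refine le_trans ?_ (le_infDist_bx (r := Q.w - Q.S.t - 2) Q.al_lt Q.W_ne ?_)
  · rw [div_le_div_iff_of_pos_right hp]
    linarith
  · intro l
    have h := hy l
    unfold al be
    push_cast
    constructor <;> linarith [h.1, h.2]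

theorem near_K [NeZero n] {y : E} (hy : Q.near 1 y) : ∀ᶠ x in 𝓝 (Q.ψ y), K (Q.D k hk) x = Q.kc := by
  have h1 : IsOpen {x : Fin n → ℝ | ∀ l, (Q.S.lo l - Q.S.t - 2 : ℝ) < ps Q.a' Q.kc x l ∧
      ps Q.a' Q.kc x l < Q.S.hi l + Q.S.t + 2} := by
    have : {x : Fin n → ℝ | ∀ l, (Q.S.lo l - Q.S.t - 2 : ℝ) < ps Q.a' Q.kc x l ∧
        ps Q.a' Q.kc x l < Q.S.hi l + Q.S.t + 2} =
        ⋂ l, {x | (Q.S.lo l - Q.S.t - 2 : ℝ) < ps Q.a' Q.kc x l ∧
          ps Q.a' Q.kc x l < Q.S.hi l + Q.S.t + 2} := by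
      ext y; simp
    rw [this]
    refine isOpen_iInter_of_finite fun l => ?_
    exact (isOpen_lt continuous_const (continuous_ps _ _ l)).inter
      (isOpen_lt (continuous_ps _ _ l) continuous_const)
  have h2 : Q.ψ y ∈ {x : Fin n → ℝ | ∀ l, (Q.S.lo l - Q.S.t - 2 : ℝ) < ps Q.a' Q.kc x l ∧
      ps Q.a' Q.kc x l < Q.S.hi l + Q.S.t + 2} := by
    intro l
    have h := hy l
    constructor <;> linarith [h.1, h.2]
  filter_upwards [h1.mem_nhds h2] with x hx
  have hx' : Q.near 2 (Q.ψ.symm x) := by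
    intro l
    rw [ContinuousLinearEquiv.apply_symm_apply]
    have h := hx l
    exact ⟨h.1.le, h.2.le⟩
  have h3 := Q.near_infDist hx'
  rw [ContinuousLinearEquiv.apply_symm_apply] at h3
  exact blkE_K_deep h3

theorem tile_T0 {τ : Top (Q.D k hk)} {y : E} :
    y ∈ P ((Q.T0 k hk).H τ) ↔ Q.ψ y ∈ Cu Q.a' τ.1.1.k τ.1.1.z := by
  have h := P_Hc Q.ψ Q.a' τ.1.1.k τ.1.1.z
  change y ∈ P (Hc Q.ψ Q.a' τ.1.1.k τ.1.1.z) ↔ _
  rw [h]
  rfl

theorem kc_le {τ : Top (Q.D k hk)} : Q.kc ≤ τ.1.1.k := by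
  obtain ⟨x, hx, hx0, hxK⟩ := τ.1.2
  rw [← hxK]
  exact blkE_kc_le x

theorem le_k {τ : Top (Q.D k hk)} : τ.1.1.k ≤ k := by
  obtain ⟨x, hx, hx0, hxK⟩ := τ.1.2
  rw [← hxK]
  exact blkE_K_le x

/-- size of the cubes in scaled coordinates -/
theorem tile_size {τ : Top (Q.D k hk)} {x y : E} (hx : x ∈ P ((Q.T0 k hk).H τ))
    (hy : y ∈ P ((Q.T0 k hk).H τ)) (l : Fin n) :
    |ps Q.a' Q.kc (Q.ψ x) l - ps Q.a' Q.kc (Q.ψ y) l| ≤ 1 := by
  have h1 := size_tile (φ := Q.ψ) (k := Q.kc) ((Q.tile_T0 k hk).1 hy) ((Q.tile_T0 k hk).1 hx) l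
  rw [chi_eq_ps, chi_eq_ps] at h1
  refine h1.trans ?_
  rw [div_le_one (by positivity)]
  exact pow_le_pow_right₀ (by norm_num) (Q.kc_le k hk)

theorem near_tile {r : ℝ} {τ : Top (Q.D k hk)} {x y : E} (hx : x ∈ P ((Q.T0 k hk).H τ))
    (hy : y ∈ P ((Q.T0 k hk).H τ)) (h : Q.near r x) : Q.near (r + 1) y := by
  intro l
  have h1 := abs_le.1 (Q.tile_size k hk hx hy l)
  have h2 := h l
  constructor <;> linarith [h1.1, h1.2, h2.1, h2.2]

/-- the scale of a cube at a point near the enlarged box -/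
theorem near_k [NeZero n] {τ : Top (Q.D k hk)} {y : E} (hy : y ∈ P ((Q.T0 k hk).H τ))
    (h : Q.near 1 y) : τ.1.1.k = Q.kc :=
  tile_k_eq (φ := Q.ψ) (D := Q.D k hk) (x := y) hy (Q.near_K k hk h)

/-- the scale of a cube at a point near the wall -/
theorem wall_k {τ : Top (Q.D k hk)} {y : E} (hy : y ∈ P ((Q.T0 k hk).H τ))
    (h : infDist (Q.ψ y) Q.W < 12 / 2 ^ k) : τ.1.1.k = k := by
  refine tile_k_eq (φ := Q.ψ) (D := Q.D k hk) (x := y) hy ?_
  have h1 : IsOpen {x : Fin n → ℝ | infDist x Q.W < 12 / 2 ^ k} :=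
    isOpen_lt (continuous_infDist_pt _) continuous_const
  filter_upwards [h1.mem_nhds h] with x hx
  refine blkE_K_wall (lt_of_lt_of_eq (show infDist x Q.W < 12 / 2 ^ k from hx) ?_)
  norm_num

/-! #### configurations -/

/-- a cube which does not meet the enlarged box has the configuration of the graded mesh -/
theorem cfg_far {i : {i // i ∉ {i | P ((Q.T0 k hk).H i) ⊆ Q.S.bp Q.ψ Q.a' Q.kc}}}
    (h : Disjoint (P ((Q.T0 k hk).H i.1)) (Q.S.bp Q.ψ Q.a' Q.kc)) :
    cfg (Q.T k hk) (Sum.inl i) = cfg (Q.T0 k hk) i.1 :=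
  cfg_congr rfl fun x hx =>
    (patch_off (R := Q.S.repl Q.ψ Q.a' Q.kc (Q.un_bp k hk)) fun _ hj hA =>
      Set.disjoint_left.1 h hx (hA hj)).1

/-- all inequalities at the tiles which meet the enlarged box are in good form -/
theorem near_good [NeZero n] {B : ℕ} (hB1 : 1 ≤ B) (hB : ∀ i, ∀ p ∈ Q.S.GG i, ∀ l, |p.1 l| ≤ B)
    {t s} (ht : (P ((Q.T k hk).H t) ∩ Q.S.bp Q.ψ Q.a' Q.kc).Nonempty)
    (hs : (P ((Q.T k hk).H s) ∩ P ((Q.T k hk).H t)).Nonempty) :
    ∀ h ∈ (Q.T k hk).H s, ∃ ν, ∃ c : ℤ, GF (chi Q.ψ Q.a' Q.kc) (2 ^ Q.kc) (NB n B) 1 h ν c := by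
  rcases s with s | s
  · obtain ⟨y, hy1, hy2⟩ := hs
    have hy : Q.near 1 y := by
      rcases t with t | t
      · obtain ⟨x, hx1, hx2⟩ := ht
        have := Q.near_tile k hk hx1 hy2 (Q.near_of_bp hx2)
        rwa [zero_add] at this
      · have := Q.near_of_bp (Q.P_inr_sub k hk t hy2)
        intro l
        have h := this l
        constructor <;> linarith [h.1, h.2]
    have hk' : s.1.1.1.k = Q.kc := Q.near_k k hk hy1 hy
    exact gf_cube one_pos (fr_self Q.ψ Q.a' _ (N0_sub_NB hB1) 1) hk'.le _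
  · rw [T_inr]
    rw [forall_iH (Q := fun h => ∃ ν, ∃ c : ℤ,
      GF (chi Q.ψ Q.a' Q.kc) (2 ^ Q.kc) (NB n B) 1 h ν c)]
    exact fun p hp => gf_iq (hB s p hp)

/-- **the tiles at the enlarged box (except the core) are in the universal list** -/
theorem near_sim [NeZero n] {B : ℕ} (hB1 : 1 ≤ B) (hB : ∀ i, ∀ p ∈ Q.S.GG i, ∀ l, |p.1 l| ≤ B)
    {R : ℝ} (hR1 : 1 ≤ R) (hR : ∀ i, i ≠ Q.S.core → ∀ u ∈ ZP (Q.S.GG i), ∀ v ∈ ZP (Q.S.GG i), ∀ l,
      |v l - u l| ≤ R) {t} (ht : (P ((Q.T k hk).H t) ∩ Q.S.bp Q.ψ Q.a' Q.kc).Nonempty)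
    (hc : t ≠ Q.cix k hk) :
    ∃ z : Fin n → ℤ, (fun K => ((chi Q.ψ Q.a' Q.kc).trans (trz z)) '' K) '' cfg (Q.T k hk) t ∈
      simL (NB n B) 1 R := by
  refine sim_tile (s := 2 ^ Q.kc) (by positivity) one_pos (NB_rat B one_pos)
    (fun s hs => Q.near_good k hk hB1 hB ht hs) ?_
  intro x hx y hy m
  rw [chi_eq_ps, chi_eq_ps]
  rcases t with t | t
  · exact (Q.tile_size k hk hy hx m).trans hR1
  · rw [T_inr, mem_P_iH] at hx hy
    exact hR t (fun h => hc (by rw [h]; rfl)) _ hx _ hy m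

/-- a tile which meets the wall is a cube of scale `k`, and so are its neighbours -/
theorem wall_tile [NeZero n] {t s} (ht : (P ((Q.T k hk).H t) ∩ frontier Q.N).Nonempty)
    (hs : (P ((Q.T k hk).H s) ∩ P ((Q.T k hk).H t)).Nonempty) :
    ∃ τ, s = Sum.inl τ ∧ τ.1.1.1.k = k := by
  have hp : (0 : ℝ) < 1 / 2 ^ k := by positivity
  have hpc : (0 : ℝ) < 1 / 2 ^ Q.kc := by positivity
  have hkk : (1 : ℝ) / 2 ^ k ≤ 1 / 2 ^ Q.kc :=
    one_div_le_one_div_of_le (by positivity) (pow_le_pow_right₀ (by norm_num) hk)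
  have hbp : ∀ y ∈ Q.S.bp Q.ψ Q.a' Q.kc, 7 * (1 / 2 ^ Q.kc) ≤ infDist (Q.ψ y) Q.W := by
    intro y hy
    have h1 := Q.near_infDist (y := y) (fun l => by
      have h := Q.near_of_bp hy l
      constructor <;> linarith [h.1, h.2])
    have e : ((6 : ℝ) + 1) / 2 ^ Q.kc = 7 * (1 / 2 ^ Q.kc) := by ring
    rw [← e]
    exact h1
  have e12 : (12 : ℝ) / 2 ^ k = 12 * (1 / 2 ^ k) := by ring
  -- the tile `t`
  obtain ⟨x, hx1, hx2⟩ := ht
  rw [frontier_N] at hx2
  have hx0 : infDist (Q.ψ x) Q.W = 0 := infDist_zero_of_mem hx2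
  rcases t with t | t
  swap
  · have := hbp x (Q.P_inr_sub k hk t hx1)
    linarith
  have htk : t.1.1.1.k = k := Q.wall_k k hk hx1 (by rw [hx0, e12]; linarith)
  obtain ⟨y, hy1, hy2⟩ := hs
  have hxy : infDist (Q.ψ y) Q.W ≤ 1 / 2 ^ k := by
    have h1 := infDist_le_infDist_add_dist (s := Q.W) (x := Q.ψ y) (y := Q.ψ x)
    have h2 := dist_le_of_mem_Cu ((Q.tile_T0 k hk).1 hy2) ((Q.tile_T0 k hk).1 hx1)
    rw [htk] at h2
    have hp' : (0 : ℝ) < 2 ^ k := by positivity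
    have h3 : dist (Q.ψ y) (Q.ψ x) ≤ 1 / 2 ^ k := by
      rw [le_div_iff₀' hp']
      exact h2
    linarith
  rcases s with s | s
  · exact ⟨s, rfl, Q.wall_k k hk hy1 (by rw [e12]; linarith)⟩
  · have := hbp y (Q.P_inr_sub k hk s hy1)
    linarith

/-- **same coarse cubes**: a cube of the mesh `k` of scale at most `k0 ≤ k` is a cube of the mesh
`k0` -/
theorem same_coarse {k0 : ℕ} (hk0 : Q.kc ≤ k0) (hkk : k0 ≤ k) (τ : Top (Q.D k hk))
    (h : τ.1.1.k ≤ k0) : ∃ τ' : Top (Q.D k0 hk0), τ'.1.1 = τ.1.1 := by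
  obtain ⟨⟨i, x, hx, hx0, hxK⟩, hJ⟩ := τ
  refine ⟨⟨⟨i, x, hx, blkE_pos x, ?_⟩, hJ⟩, rfl⟩
  have h1 := blkE_K_min (W := Q.W) (hC := by norm_num) (a := Q.a') (h := Q.six_le) (hk := hk)
    (hk0 := hk0) hkk x
  have h2 : K (Q.D k hk) x = i.k := hxK
  have h3 : K (Q.D k0 hk0) x = min (K (Q.D k hk) x) k0 := h1
  have h4 : i.k ≤ k0 := h
  rw [h2, min_eq_left h4] at h3
  exact h3

end CB

end Crest.Agent.R096.Mal_874
end

-- ▼ part R096/Mal13_874

/-!
# Row 96, library (MESH-AL), part 13: the aligned mesh of a locally finite family of core blocks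
-/

set_option autoImplicit false

open Set Filter Topology Metric

namespace Crest.Agent.R096.Mal_874

open Msh_715 Cut_874 Msh_810

variable {n : ℕ} {E : Type*} [NormedAddCommGroup E] [NormedSpace ℝ E]

/-! ### translation of a block -/

namespace CB

/-- the translated block -/
def tr (Q : CB E n) (v : E) : CB E n where
  ψ := Q.ψ
  a' := Q.a' + Q.ψ v
  kc := Q.kc
  S := Q.S
  w := Q.w
  hkc := Q.hkc
  hw := Q.hw

theorem ps_tr (Q : CB E n) (v y : E) :
    ps (Q.tr v).a' (Q.tr v).kc ((Q.tr v).ψ y) = ps Q.a' Q.kc (Q.ψ (y - v)) := by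
  funext l
  show ps (Q.a' + Q.ψ v) Q.kc (Q.ψ y) l = ps Q.a' Q.kc (Q.ψ (y - v)) l
  unfold ps
  rw [map_sub]
  simp only [Pi.add_apply, Pi.sub_apply]
  ring

theorem mem_N_tr (Q : CB E n) (v y : E) : y ∈ (Q.tr v).N ↔ y - v ∈ Q.N := by
  rw [mem_N, mem_N, ps_tr]
  rfl

theorem mem_Kc_tr (Q : CB E n) (v y : E) : y ∈ (Q.tr v).Kc ↔ y - v ∈ Q.Kc := by
  unfold Kc
  rw [mem_ofPred_eq, mem_ofPred_eq, ps_tr]
  rfl

theorem N_tr (Q : CB E n) (v : E) : (Q.tr v).N = (Homeomorph.subRight v) ⁻¹' Q.N := by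
  ext y
  exact Q.mem_N_tr v y

theorem frontier_N_tr (Q : CB E n) (v : E) {y : E} :
    y ∈ frontier (Q.tr v).N ↔ y - v ∈ frontier Q.N := by
  rw [N_tr, ← (Homeomorph.subRight v).preimage_frontier]
  rfl

end CB

/-! ### separation of locally finite compact sets -/

/-- a compact set has positive distance from the union of a locally finite family of closed sets -/
theorem exists_sep {X : Type*} [PseudoMetricSpace X] {J : Type*} {A : Set X} (hA : IsCompact A)
    {B : J → Set X} (hB : ∀ l, IsClosed (B l)) (hd : ∀ l, Disjoint A (B l))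
    (hlf : ∀ x ∈ A, ∃ r > 0, {l | (B l ∩ ball x r).Nonempty}.Finite) :
    ∃ m > 0, ∀ x ∈ A, ∀ l, Disjoint (ball x m) (B l) := by
  have h1 : ∀ x ∈ A, ∃ r > 0, ∀ l, Disjoint (ball x r) (B l) := by
    intro x hx
    obtain ⟨r, hr, hf⟩ := hlf x hx
    have h2 : ∀ᶠ y in 𝓝 x, ∀ l ∈ {l | (B l ∩ ball x r).Nonempty}, y ∉ B l := by
      rw [eventually_all_finite hf]
      intro l _
      exact (hB l).isOpen_compl.mem_nhds (Set.disjoint_left.1 (hd l) hx)
    obtain ⟨s, hs, hb⟩ := Metric.eventually_nhds_iff_ball.1 h2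
    refine ⟨min r s, lt_min hr hs, fun l => ?_⟩
    rw [Set.disjoint_left]
    intro y hy hyl
    have hyr : y ∈ ball x r := ball_subset_ball (min_le_left _ _) hy
    exact hb y (ball_subset_ball (min_le_right _ _) hy) l ⟨y, hyl, hyr⟩ hyl
  choose! r hr hr2 using h1
  obtain ⟨t, ht, hc⟩ := hA.elim_nhds_subcover (fun x => ball x (r x / 2))
    (fun x hx => ball_mem_nhds x (by have := hr x hx; linarith))
  by_cases hte : t.Nonempty
  · obtain ⟨x0, hx0, hmin⟩ := t.exists_min_image (fun x => r x) hte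
    refine ⟨r x0 / 2, by have := hr x0 (ht x0 hx0); linarith, fun x hx l => ?_⟩
    have hx' := hc hx
    simp only [Set.mem_iUnion] at hx'
    obtain ⟨z, hz, hxz⟩ := hx'
    refine (hr2 z (ht z hz) l).mono_left ?_
    intro y hy
    rw [mem_ball] at hy hxz ⊢
    have h3 := hmin z hz
    have h4 := dist_triangle y x z
    linarith
  · refine ⟨1, one_pos, fun x hx => ?_⟩
    rw [Finset.not_nonempty_iff_eq_empty] at hte
    have := hc hx
    rw [hte] at this
    simp at this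

/-! ### mesh data -/

/-- outer frame, outer Whitney data, core blocks, room for translations -/
structure MD (E : Type*) [NormedAddCommGroup E] [NormedSpace ℝ E] (n : ℕ) (J : Type*) where
  φ : E ≃L[ℝ] (Fin n → ℝ)
  D0 : Dat n
  hC : 6 ≤ D0.C
  Q : J → CB E n
  r : J → ℝ
  r_pos : ∀ j, 0 < r j
  Vdis : ∀ j l, j ≠ l →
    Disjoint (cthickening (r j) (φ '' (Q j).N)) (cthickening (r l) (φ '' (Q l).N))
  Vsub : ∀ j, cthickening (r j) (φ '' (Q j).N) ⊆ D0.Om
  Vlf : ∀ x ∈ D0.Om, ∃ s > 0, {j | (cthickening (r j) (φ '' (Q j).N) ∩ ball x s).Nonempty}.Finite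

namespace MD

variable {J : Type*} (M : MD E n J)

/-- the room of the block `j` (in outer coordinates) -/
def V (j : J) : Set (Fin n → ℝ) := cthickening (M.r j) (M.φ '' (M.Q j).N)

/-- the zone of the wall `j` (in outer coordinates) -/
def W (j : J) : Set (Fin n → ℝ) := cthickening (M.r j) (M.φ '' frontier (M.Q j).N)

theorem isCompact_V (j : J) : IsCompact (M.V j) :=
  (((M.Q j).isCompact_N.image M.φ.continuous).cthickening (r := M.r j))

theorem W_sub_V (j : J) : M.W j ⊆ M.V j :=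
  cthickening_subset_of_subset _ (image_mono (M.Q j).frontier_sub)

theorem isCompact_W (j : J) : IsCompact (M.W j) :=
  (M.isCompact_V j).of_isClosed_subset isClosed_cthickening (M.W_sub_V j)

theorem W_ne [NeZero n] (j : J) : (M.W j).Nonempty := by
  obtain ⟨x, hx⟩ := (M.Q j).W_ne
  refine ⟨M.φ ((M.Q j).ψ.symm x), self_subset_cthickening _ (mem_image_of_mem _ ?_)⟩
  rw [CB.frontier_N, mem_preimage, ContinuousLinearEquiv.apply_symm_apply]
  exact hx

/-- admissible translations of the blocks -/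
def Adm (v : J → E) : Prop := ∀ j, ‖M.φ (v j)‖ ≤ M.r j

variable {M}

theorem wall_mem {v : J → E} (hv : M.Adm v) (j : J) {x : E}
    (hx : x ∈ frontier ((M.Q j).tr (v j)).N) : M.φ x ∈ M.W j := by
  rw [CB.frontier_N_tr] at hx
  refine mem_cthickening_of_dist_le _ _ _ _ (mem_image_of_mem M.φ hx) ?_
  rw [dist_eq_norm, ← map_sub, sub_sub_cancel]
  exact hv j

theorem N_mem {v : J → E} (hv : M.Adm v) (j : J) {x : E} (hx : x ∈ ((M.Q j).tr (v j)).N) :
    M.φ x ∈ M.V j := by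
  rw [CB.mem_N_tr] at hx
  refine mem_cthickening_of_dist_le _ _ _ _ (mem_image_of_mem M.φ hx) ?_
  rw [dist_eq_norm, ← map_sub, sub_sub_cancel]
  exact hv j

variable (M)

/-- the scales at the walls are admissible -/
structure Sc (k : J → ℕ) : Prop where
  kc : ∀ j, (M.Q j).kc ≤ k j
  rho : ∀ j x, infDist x (M.W j) ≤ 6 / 2 ^ k j → M.D0.C / 2 ^ k j ≤ M.D0.ρ x
  sep : ∀ j l, j ≠ l → ∀ x, infDist x (M.W j) ≤ 6 / 2 ^ k j →
    M.D0.C / 2 ^ k j ≤ infDist x (M.W l) ∧ 5 / 2 ^ k l ≤ infDist x (M.W l)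

/-- **all large scales are admissible** -/
theorem exists_thr [NeZero n] : ∃ k0 : J → ℕ, ∀ k : J → ℕ, (∀ j, k0 j ≤ k j) → M.Sc k := by
  have hC := M.hC
  have hC0 : 0 < M.D0.C := by linarith
  -- distance between the walls
  have h1 : ∀ j, ∃ m > 0, ∀ x ∈ M.W j, ∀ l : {l // l ≠ j}, Disjoint (ball x m) (M.W l) := by
    intro j
    refine exists_sep (M.isCompact_W j) (fun l => isClosed_cthickening) (fun l => ?_) ?_
    · exact (M.Vdis j l (fun e => l.2 e.symm)).mono (M.W_sub_V j) (M.W_sub_V l)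
    · intro x hx
      obtain ⟨s, hs, hf⟩ := M.Vlf x (M.Vsub j (M.W_sub_V j hx))
      refine ⟨s, hs, ?_⟩
      refine Set.Finite.of_finite_image (f := Subtype.val) (hf.subset ?_)
        Subtype.val_injective.injOn
      rintro _ ⟨l, ⟨y, hy1, hy2⟩, rfl⟩
      exact ⟨y, M.W_sub_V _ hy1, hy2⟩
  choose m hm hm2 using h1
  -- lower bound of the size function
  have h2 : ∀ j, ∃ c > 0, ∀ x ∈ M.W j, c ≤ M.D0.ρ x := by
    intro j
    obtain ⟨x0, hx0, hmin⟩ := (M.isCompact_W j).exists_isMinOn (M.W_ne j)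
      M.D0.continuous_ρ.continuousOn
    exact ⟨M.D0.ρ x0, M.Vsub j (M.W_sub_V j hx0), fun x hx => hmin hx⟩
  choose c hc hc2 using h2
  have h3 : ∀ j, ∃ k : ℕ, (M.D0.C + 12) / 2 ^ k ≤ min (c j) (m j) := by
    intro j
    have h4 : 0 < min (c j) (m j) := lt_min (hc j) (hm j)
    obtain ⟨k, hk⟩ := exists_nat_gt ((M.D0.C + 12) / min (c j) (m j))
    refine ⟨k, ?_⟩
    rw [div_le_iff₀ (by positivity)]
    rw [div_lt_iff₀ h4] at hk
    have h5 : (k : ℝ) ≤ 2 ^ k := by exact_mod_cast Nat.lt_two_pow_self.le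
    nlinarith
  choose k1 hk1 using h3
  refine ⟨fun j => max (k1 j) (M.Q j).kc, fun k hk => ?_⟩
  have hsmall : ∀ j, (M.D0.C + 12) / 2 ^ k j ≤ min (c j) (m j) := by
    intro j
    refine le_trans ?_ (hk1 j)
    have h5 : (2 : ℝ) ^ k1 j ≤ 2 ^ k j :=
      pow_le_pow_right₀ (by norm_num) ((le_max_left _ _).trans (hk j))
    exact div_le_div_of_nonneg_left (by linarith) (by positivity) h5
  have hnear : ∀ j x, infDist x (M.W j) ≤ 6 / 2 ^ k j → ∃ y ∈ M.W j, dist x y ≤ 6 / 2 ^ k j := by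
    intro j x hx
    obtain ⟨y, hy, e⟩ := (M.isCompact_W j).exists_infDist_eq_dist (M.W_ne j) x
    exact ⟨y, hy, e ▸ hx⟩
  -- distance of the walls
  have hww : ∀ j l, j ≠ l → ∀ x ∈ M.W j, ∀ y ∈ M.W l, m j ≤ dist x y := by
    intro j l hjl x hx y hy
    by_contra hcon
    push Not at hcon
    refine Set.disjoint_left.1 (hm2 j x hx ⟨l, fun e => hjl e.symm⟩) ?_ hy
    rw [mem_ball, dist_comm]
    exact hcon
  refine ⟨fun j => (le_max_right _ _).trans (hk j), ?_, ?_⟩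
  · intro j x hx
    obtain ⟨y, hy, hxy⟩ := hnear j x hx
    have h5 := (hsmall j).trans (min_le_left _ _)
    have h6 := hc2 j y hy
    have h7 := M.D0.lip y x
    rw [dist_comm] at h7
    have e : (M.D0.C + 12) / 2 ^ k j = M.D0.C / 2 ^ k j + 2 * (6 / 2 ^ k j) := by ring
    have h8 : (0 : ℝ) < 6 / 2 ^ k j := by positivity
    linarith
  · intro j l hjl x hx
    obtain ⟨y, hy, hxy⟩ := hnear j x hx
    have hdist : ∀ z ∈ M.W l, m j - 6 / 2 ^ k j ≤ dist x z ∧ m l - 6 / 2 ^ k j ≤ dist x z := by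
      intro z hz
      have h5 := hww j l hjl y hy z hz
      have h6 := hww l j (fun e => hjl e.symm) z hz y hy
      rw [dist_comm] at h6
      have h7 := dist_triangle y x z
      rw [dist_comm y x] at h7
      constructor <;> linarith
    have h5 := (hsmall j).trans (min_le_right _ _)
    have h6 := (hsmall l).trans (min_le_right _ _)
    have e : (M.D0.C + 12) / 2 ^ k j = M.D0.C / 2 ^ k j + 2 * (6 / 2 ^ k j) := by ring
    have el : (M.D0.C + 12) / 2 ^ k l = M.D0.C / 2 ^ k l + 2 * (5 / 2 ^ k l) + 2 * (1 / 2 ^ k l) := by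
      ring
    have h8 : (0 : ℝ) < 6 / 2 ^ k j := by positivity
    have h9 : (0 : ℝ) < 5 / 2 ^ k l := by positivity
    have h10 : (0 : ℝ) < M.D0.C / 2 ^ k l := by positivity
    have h11 : (0 : ℝ) < M.D0.C / 2 ^ k j := by positivity
    have h12 : (0 : ℝ) < 1 / 2 ^ k l := by positivity
    constructor
    · rw [le_infDist (M.W_ne l)]
      intro z hz
      have := (hdist z hz).1
      linarith
    · rw [le_infDist (M.W_ne l)]
      intro z hz
      obtain ⟨h13, h14⟩ := hdist z hz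
      -- one of the two scales is the finer one
      rcases le_total (k j) (k l) with h15 | h15
      · have h16 : (5 : ℝ) / 2 ^ k l ≤ 5 / 2 ^ k j :=
          div_le_div_of_nonneg_left (by norm_num) (by positivity)
            (pow_le_pow_right₀ (by norm_num) h15)
        have h17 : (5 : ℝ) / 2 ^ k j ≤ M.D0.C / 2 ^ k j :=
          div_le_div_of_nonneg_right (by linarith) (by positivity)
        linarith
      · have h16 : (6 : ℝ) / 2 ^ k j ≤ 6 / 2 ^ k l :=
          div_le_div_of_nonneg_left (by norm_num) (by positivity)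
            (pow_le_pow_right₀ (by norm_num) h15)
        have e6 : (6 : ℝ) / 2 ^ k l = 5 / 2 ^ k l + 1 / 2 ^ k l := by ring
        linarith

end MD

end Crest.Agent.R096.Mal_874
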