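import Crest.Agent.R096.Bsp7_628
import Crest.Agent.R096.Log3_582

-- ▼ part R096/Bsp8_628
section

/-!
# Row 96, FOAM-EX (helper628), part 8: box foams with dyadic corners

`Dy o u M C`: for some `k` the corners of `C` lie in `o + u 2^(-k) ℤ^n` and `C.sz ≤ M u 2^(-k)`, so all
sides are integers between `1` and `M` in the unit `u 2^(-k)`.  The greedy cuts can be rounded to this
grid (`M ≥ 4 / dl`).
-/

set_option autoImplicit false
set_option linter.unusedSectionVars false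

open Set

namespace Crest.Agent.R096.Bsp_628

variable {κ : Type*} [Fintype κ] [Nonempty κ] [DecidableEq κ]

/-- corners on a dyadic grid comparable with the size -/
def Dy (o : κ → ℝ) (u M : ℝ) (C : Bx κ) : Prop :=
  ∃ k : ℤ, C.sz ≤ M * (u * (2 : ℝ) ^ (-k)) ∧
    ∀ i, ∃ m n : ℤ, C.lo i = o i + m * (u * (2 : ℝ) ^ (-k)) ∧
      C.hi i = o i + n * (u * (2 : ℝ) ^ (-k))

theorem grid_mono {u : ℝ} {k k' : ℤ} (hk : k ≤ k') (m : ℤ) :
    ∃ m' : ℤ, (m : ℝ) * (u * (2 : ℝ) ^ (-k)) = m' * (u * (2 : ℝ) ^ (-k')) := by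
  obtain ⟨j, rfl⟩ := Int.le.dest hk
  refine ⟨m * 2 ^ j, ?_⟩
  have h1 : (2 : ℝ) ^ (-k) = 2 ^ j * (2 : ℝ) ^ (-(k + j)) := by
    rw [← zpow_natCast, ← zpow_add₀ (by norm_num : (2 : ℝ) ≠ 0)]
    congr 1
    ring
  rw [h1]
  push_cast
  ring

/-- the finest admissible level -/
theorem exists_level {o : κ → ℝ} {u M : ℝ} (hu : 0 < u) (hM : 0 < M) {B : Bx κ} (hs : 0 < B.sz)
    (h : Dy o u M B) : ∃ k : ℤ, B.sz ≤ M * (u * (2 : ℝ) ^ (-k)) ∧
      M * (u * (2 : ℝ) ^ (-k)) ≤ 2 * B.sz ∧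
      ∀ i, ∃ m n : ℤ, B.lo i = o i + m * (u * (2 : ℝ) ^ (-k)) ∧
        B.hi i = o i + n * (u * (2 : ℝ) ^ (-k)) := by
  classical
  obtain ⟨k0, h0, h1⟩ := h
  have hex : ∃ n : ℕ, M * (u * (2 : ℝ) ^ (-(k0 + n))) < B.sz := by
    obtain ⟨n, hn⟩ := exists_pow_lt_of_lt_one (show 0 < B.sz / (M * (u * (2 : ℝ) ^ (-k0))) by
      positivity) (show (1 / 2 : ℝ) < 1 by norm_num)
    refine ⟨n, ?_⟩
    rw [lt_div_iff₀ (by positivity)] at hn
    have h2 : (2 : ℝ) ^ (-(k0 + n)) = (1 / 2) ^ n * (2 : ℝ) ^ (-k0) := by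
      rw [neg_add, zpow_add₀ (by norm_num), mul_comm, zpow_neg _ (n : ℤ), zpow_natCast, one_div,
        inv_pow]
    rw [h2]
    calc M * (u * ((1 / 2) ^ n * (2 : ℝ) ^ (-k0))) = (1 / 2) ^ n * (M * (u * (2 : ℝ) ^ (-k0))) := by
          ring
      _ < B.sz := hn
  have hn0 : Nat.find hex ≠ 0 := by
    intro h2
    have h3 := Nat.find_spec hex
    rw [h2] at h3
    simp only [Nat.cast_zero, add_zero] at h3
    linarith
  obtain ⟨n, hn⟩ := Nat.exists_eq_succ_of_ne_zero hn0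
  have h2 := Nat.find_spec hex
  rw [hn] at h2
  have h3 := Nat.find_min hex (m := n) (by omega)
  push Not at h3
  refine ⟨k0 + n, h3, ?_, fun i => ?_⟩
  · have h4 : (2 : ℝ) ^ (-(k0 + (n : ℤ))) = 2 * (2 : ℝ) ^ (-(k0 + ((n.succ : ℕ) : ℤ))) := by
      have h5 : -(k0 + (n : ℤ)) = 1 + -(k0 + ((n.succ : ℕ) : ℤ)) := by push_cast; ring
      rw [h5, zpow_add₀ (by norm_num), zpow_one]
    rw [h4]
    calc M * (u * (2 * (2 : ℝ) ^ (-(k0 + ((n.succ : ℕ) : ℤ)))))
        = 2 * (M * (u * (2 : ℝ) ^ (-(k0 + ((n.succ : ℕ) : ℤ))))) := by ring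
      _ ≤ 2 * B.sz := by linarith
  · obtain ⟨m, m', e1, e2⟩ := h1 i
    obtain ⟨a, ha⟩ := grid_mono (u := u) (show k0 ≤ k0 + n by omega) m
    obtain ⟨b, hb⟩ := grid_mono (u := u) (show k0 ≤ k0 + n by omega) m'
    exact ⟨a, b, by rw [e1, ha], by rw [e2, hb]⟩

/-- pigeonhole on a grid: a grid position in the middle third, away from finitely many walls -/
theorem exists_position_grid (N : ℕ) {W : Finset ℝ} (hW : W.card ≤ 2 * N) {a t : ℝ} (ht : 0 < t)
    (o : ℝ) {w0 : ℝ} (hw0 : 0 < w0) (hw1 : w0 ≤ 1 / (12 * ((N : ℝ) + 1)) * t / 2) :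
    ∃ c, (∃ m : ℤ, c = o + m * w0) ∧ a + t / 3 < c ∧ c < a + 2 * (t / 3) ∧
      ∀ w ∈ W, 1 / (12 * ((N : ℝ) + 1)) / 2 * t ≤ |c - w| := by
  classical
  set d : ℝ := t / (6 * ((N : ℝ) + 1)) with hd
  have hN : (0 : ℝ) < (N : ℝ) + 1 := by positivity
  have hd0 : 0 < d := by positivity
  have hd6 : d * (6 * ((N : ℝ) + 1)) = t := by rw [hd]; field_simp
  have hδ : 1 / (12 * ((N : ℝ) + 1)) * t = d / 2 := by rw [hd]; field_simp; ring
  let c : Fin (2 * N + 1) → ℝ := fun j => a + t / 3 + ((j : ℝ) + 1) * d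
  have key : ∃ j, ∀ w ∈ W, d / 2 ≤ |c j - w| := by
    by_contra hcon
    push Not at hcon
    have h1 : ∀ j : Fin (2 * N + 1), ∃ w : W, |c j - w| < d / 2 := by
      intro j
      obtain ⟨w, hw, hw'⟩ := hcon j
      exact ⟨⟨w, hw⟩, hw'⟩
    choose f hf using h1
    obtain ⟨j, j', hne, hjj⟩ := Fintype.exists_ne_map_eq_of_card_lt f (by
      rw [Fintype.card_fin, Fintype.card_coe]; omega)
    have h2 := hf j
    have h3 := hf j'
    rw [hjj] at h2
    have h4 : |c j - c j'| < d := by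
      have h5 : c j - c j' = (c j - f j') - (c j' - f j') := by ring
      rw [h5]
      calc |(c j - f j') - (c j' - f j')| ≤ |c j - f j'| + |c j' - f j'| := abs_sub _ _
        _ < d / 2 + d / 2 := by linarith
        _ = d := by ring
    have h6 : c j - c j' = (((j : ℕ) : ℝ) - ((j' : ℕ) : ℝ)) * d := by simp only [c]; ring
    rw [h6, abs_mul, abs_of_pos hd0] at h4
    have h7 : |((j : ℕ) : ℝ) - ((j' : ℕ) : ℝ)| < 1 := by
      by_contra h8
      push Not at h8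
      nlinarith
    have h8 : |((j : ℕ) : ℤ) - ((j' : ℕ) : ℤ)| < 1 := by exact_mod_cast h7
    rw [Int.abs_lt_one_iff] at h8
    apply hne
    ext
    omega
  obtain ⟨j, hj⟩ := key
  have hj2 : ((j : ℕ) : ℝ) ≤ 2 * N := by
    have := j.2
    have h2 : (j : ℕ) ≤ 2 * N := by omega
    exact_mod_cast h2
  have hj0 : (0 : ℝ) ≤ ((j : ℕ) : ℝ) := Nat.cast_nonneg _
  have hw2 : w0 ≤ d / 4 := by rw [hδ] at hw1; linarith
  have h9 := abs_sub_round ((c j - o) / w0)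
  have h10 : |c j - (o + round ((c j - o) / w0) * w0)| ≤ w0 / 2 := by
    have h11 : c j - (o + round ((c j - o) / w0) * w0) =
        ((c j - o) / w0 - round ((c j - o) / w0)) * w0 := by
      field_simp
      ring
    rw [h11, abs_mul, abs_of_pos hw0]
    nlinarith
  refine ⟨o + round ((c j - o) / w0) * w0, ⟨_, rfl⟩, ?_, ?_, fun w hw => ?_⟩
  · have h12 := (abs_le.1 h10).2
    have h13 : 1 * d ≤ (((j : ℕ) : ℝ) + 1) * d := mul_le_mul_of_nonneg_right (by linarith) hd0.le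
    simp only [c] at h12 ⊢
    linarith
  · have h12 := (abs_le.1 h10).1
    have h13 : (((j : ℕ) : ℝ) + 1) * d ≤ (2 * (N : ℝ) + 1) * d :=
      mul_le_mul_of_nonneg_right (by linarith) hd0.le
    have h14 : (2 * (N : ℝ) + 2) * d = t / 3 := by linarith
    simp only [c] at h12 ⊢
    nlinarith
  · have h12 := hj w hw
    have h13 : |c j - w| ≤ |c j - (o + round ((c j - o) / w0) * w0)| +
        |o + round ((c j - o) / w0) * w0 - w| := abs_sub_le _ _ _
    have h14 : 1 / (12 * ((N : ℝ) + 1)) / 2 * t = d / 4 := by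
      have : 1 / (12 * ((N : ℝ) + 1)) / 2 * t = (1 / (12 * ((N : ℝ) + 1)) * t) / 2 := by ring
      rw [this, hδ]; ring
    rw [h14]
    linarith

theorem child_dy {o : κ → ℝ} {u M : ℝ} {B : Bx κ} {k : ℤ} (hkM : B.sz ≤ M * (u * (2 : ℝ) ^ (-k)))
    (hk : ∀ i, ∃ m n : ℤ, B.lo i = o i + m * (u * (2 : ℝ) ^ (-k)) ∧
        B.hi i = o i + n * (u * (2 : ℝ) ^ (-k))) {c : ℝ} {m : ℤ}
    (hc : c = o (ax B) + m * (u * (2 : ℝ) ^ (-k))) (h1 : B.lo (ax B) < c) (h2 : c < B.hi (ax B))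
    (b : Bool) : Dy o u M (child B (ax B) c b) := by
  refine ⟨k, (child_le h1.le h2.le b).sz_le.trans hkM, fun i => ?_⟩
  obtain ⟨m1, m2, e1, e2⟩ := hk i
  by_cases hi : i = ax B
  · subst hi
    cases b
    · exact ⟨m1, m, by rw [child_false_lo, e1], by rw [child_false_hi, Function.update_self, hc]⟩
    · exact ⟨m, m2, by rw [child_true_lo, Function.update_self, hc], by rw [child_true_hi, e2]⟩
  · exact ⟨m1, m2, by rw [child_lo_of_ne b hi, e1], by rw [child_hi_of_ne b hi, e2]⟩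

/-- **one greedy step with a cut on the dyadic grid** -/
theorem exists_step_dy {κ0 δ : ℝ} {rho : (κ → ℝ) → ℝ} (h3 : 3 ≤ κ0) (hδ : 0 < δ)
    (hδ' : δ ≤ dl κ κ0 / 2) {o : κ → ℝ} {u M : ℝ} (hu : 0 < u) (hM : 4 / dl κ κ0 ≤ M)
    {P : Finset (Bx κ)} (h : St κ0 δ rho P) (hdy : ∀ B ∈ P, Dy o u M B)
    (hex : ∃ U ∈ P, ¬ Done rho U) :
    ∃ P' : Finset (Bx κ), Stp rho P P' ∧ St κ0 δ rho P' ∧ ∀ B ∈ P', Dy o u M B := by
  classical
  have hκ : 0 < κ0 := by linarith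
  obtain ⟨B, hB, hBmax⟩ : ∃ B ∈ P.filter (fun U => ¬ Done rho U),
      ∀ U ∈ P.filter (fun U => ¬ Done rho U), U.sz ≤ B.sz := by
    obtain ⟨U, hU, hU'⟩ := hex
    exact Finset.exists_max_image _ _ ⟨U, Finset.mem_filter.2 ⟨hU, hU'⟩⟩
  rw [Finset.mem_filter] at hB
  obtain ⟨hBP, hBD⟩ := hB
  have hmax : ∀ U ∈ P, ¬ Done rho U → U.sz ≤ B.sz :=
    fun U hU hU' => hBmax U (Finset.mem_filter.2 ⟨hU, hU'⟩)
  have hBp := h.pos B hBP
  have hs : 0 < B.sz := Bx.sz_pos hBp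
  have hs' : B.sz = B.hi (ax B) - B.lo (ax B) := rfl
  -- touching boxes
  set T : Finset (Bx κ) := P.filter (fun C => Touch B C) with hT
  have hTc : T.card ≤ Nb κ κ0 := by
    refine touch_card hκ hs (B := B) ?_ ?_ ?_
    · intro C hC
      exact (Finset.mem_filter.1 hC).2
    · intro C hC i
      exact h.cmp B hBP hBD C (Finset.mem_filter.1 hC).1 i
    · intro C hC C' hC' hne
      have h1 := (Finset.mem_filter.1 hC).1
      have h2 := (Finset.mem_filter.1 hC').1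
      exact h.inv.disj (by exact_mod_cast h1) (by exact_mod_cast h2) (h.pos C h1) (h.pos C' h2) hne
  set W : Finset ℝ := T.image (fun C => C.lo (ax B)) ∪ T.image (fun C => C.hi (ax B)) with hW
  have hWc : W.card ≤ 2 * Nb κ κ0 := by
    refine (Finset.card_union_le _ _).trans ?_
    have h1 := Finset.card_image_le (s := T) (f := fun C : Bx κ => C.lo (ax B))
    have h2 := Finset.card_image_le (s := T) (f := fun C : Bx κ => C.hi (ax B))
    omega
  have hdl := dl_pos (κ := κ) κ0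
  have hM0 : 0 < M := (div_pos (by norm_num) hdl).trans_le hM
  obtain ⟨k, hkM, hk1, hk2⟩ := exists_level hu hM0 hs (hdy B hBP)
  have hw0 : 0 < u * (2 : ℝ) ^ (-k) := by positivity
  have hw1 : u * (2 : ℝ) ^ (-k) ≤ dl κ κ0 * B.sz / 2 := by
    have h4 : 4 ≤ M * dl κ κ0 := by
      rwa [div_le_iff₀ hdl] at hM
    nlinarith
  obtain ⟨c, ⟨m, hcm⟩, hc1, hc2, hc3⟩ := exists_position_grid (Nb κ κ0) hWc (a := B.lo (ax B)) hs
    (o (ax B)) hw0 hw1
  have hlt1 : B.lo (ax B) < c := by linarith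
  have hlt2 : c < B.hi (ax B) := by linarith
  have hcw : ∀ C ∈ (↑P : Set (Bx κ)), Touch B C →
      δ * B.sz ≤ |c - C.lo (ax B)| ∧ δ * B.sz ≤ |c - C.hi (ax B)| := by
    intro C hC hBC
    have hCT : C ∈ T := Finset.mem_filter.2 ⟨by exact_mod_cast hC, hBC⟩
    have h4 : δ * B.sz ≤ dl κ κ0 / 2 * B.sz := mul_le_mul_of_nonneg_right hδ' hs.le
    constructor
    · exact h4.trans (hc3 _ (Finset.mem_union_left _ (Finset.mem_image_of_mem _ hCT)))
    · exact h4.trans (hc3 _ (Finset.mem_union_right _ (Finset.mem_image_of_mem _ hCT)))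
  have hcut := h.inv.cut hδ (fun X hX => h.pos X (by exact_mod_cast hX)) (by exact_mod_cast hBP)
    (ax B) hcw hlt1 hlt2
  set P' : Finset (Bx κ) := insert (child B (ax B) c false)
    (insert (child B (ax B) c true) (P.erase B)) with hP'
  have hmem : ∀ X, X ∈ P' ↔ (X ∈ P ∧ X ≠ B) ∨ X = child B (ax B) c false ∨
      X = child B (ax B) c true := by
    intro X
    rw [hP', Finset.mem_insert, Finset.mem_insert, Finset.mem_erase]
    tauto
  refine ⟨P', ⟨B, hBP, hBD, hmax, c, hc1, hc2, hmem⟩, ⟨?_, ?_, ?_⟩, ?_⟩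
  · intro X hX
    rcases (hmem X).1 hX with hX | hX | hX
    · exact h.pos X hX.1
    · rw [hX]; exact child_pos hBp hlt1 hlt2 false
    · rw [hX]; exact child_pos hBp hlt1 hlt2 true
  · have hset : (↑P' : Set (Bx κ)) = {X | X ∈ (↑P : Set (Bx κ)) ∧ X ≠ B} ∪
        {child B (ax B) c false, child B (ax B) c true} := by
      ext X
      rw [Finset.mem_coe, hmem]
      simp
      tauto
    rw [hset]
    exact hcut
  · intro U hU hUD X hX i
    -- size of U at most size of B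
    have hUB : U.sz ≤ B.sz := by
      rcases (hmem U).1 hU with hU1 | hU1 | hU1
      · exact hmax U hU1.1 hUD
      · rw [hU1]; exact (child_le hlt1.le hlt2.le false).sz_le
      · rw [hU1]; exact (child_le hlt1.le hlt2.le true).sz_le
    refine hUB.trans ?_
    have hBB := h.cmp B hBP hBD B hBP
    rcases (hmem X).1 hX with hX1 | hX1 | hX1
    · exact h.cmp B hBP hBD X hX1.1 i
    · rw [hX1]; exact side_child_of h3 hBB hBp hc1 hc2 false i
    · rw [hX1]; exact side_child_of h3 hBB hBp hc1 hc2 true i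
  · intro X hX
    rcases (hmem X).1 hX with hX1 | hX1 | hX1
    · exact hdy X hX1.1
    · rw [hX1]; exact child_dy hkM hk2 hcm hlt1 hlt2 false
    · rw [hX1]; exact child_dy hkM hk2 hcm hlt1 hlt2 true

/-- the infinite greedy process -/
theorem exists_seq_dy {κ0 δ : ℝ} {rho : (κ → ℝ) → ℝ} (h3 : 3 ≤ κ0) (hδ : 0 < δ)
    (hδ' : δ ≤ dl κ κ0 / 2) {o : κ → ℝ} {u M : ℝ} (hu : 0 < u) (hM : 4 / dl κ κ0 ≤ M)
    {P0 : Finset (Bx κ)} (h0 : St κ0 δ rho P0) (hdy : ∀ B ∈ P0, Dy o u M B) :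
    ∃ s : ℕ → Finset (Bx κ), s 0 = P0 ∧ (∀ n, St κ0 δ rho (s n)) ∧
      (∀ n, Nxt rho (s n) (s (n + 1))) ∧ ∀ n, ∀ B ∈ s n, Dy o u M B := by
  classical
  have h1 : ∀ P : {P : Finset (Bx κ) // St κ0 δ rho P ∧ ∀ B ∈ P, Dy o u M B},
      ∃ P' : {P : Finset (Bx κ) // St κ0 δ rho P ∧ ∀ B ∈ P, Dy o u M B}, Nxt rho P.1 P'.1 := by
    rintro ⟨P, hP, hPd⟩
    by_cases hall : ∀ U ∈ P, Done rho U
    · exact ⟨⟨P, hP, hPd⟩, Or.inl ⟨hall, rfl⟩⟩
    · push Not at hall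
      obtain ⟨P', hs, hst, hsd⟩ := exists_step_dy h3 hδ hδ' hu hM hP hPd hall
      exact ⟨⟨P', hst, hsd⟩, Or.inr hs⟩
  choose f hf using h1
  let s : ℕ → {P : Finset (Bx κ) // St κ0 δ rho P ∧ ∀ B ∈ P, Dy o u M B} :=
    fun n => f^[n] ⟨P0, h0, hdy⟩
  refine ⟨fun n => (s n).1, rfl, fun n => (s n).2.1, fun n => ?_, fun n => (s n).2.2⟩
  have h2 : s (n + 1) = f (s n) := by
    simp only [s, Function.iterate_succ_apply']
  show Nxt rho (s n).1 (s (n + 1)).1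
  rw [h2]
  exact hf (s n)

/-- **FOAM-EX with dyadic corners.** -/
theorem exists_foam_dy {κ0 : ℝ} (h3 : 3 ≤ κ0) {o : κ → ℝ} {u M : ℝ} (hu : 0 < u)
    (hM : 4 / dl κ κ0 ≤ M) {P0 : Finset (Bx κ)} {δ0 : ℝ} (hδ0 : 0 < δ0)
    (hpos : ∀ B ∈ P0, B.Pos) (hside : ∀ B ∈ P0, ∀ C ∈ P0, ∀ i, B.sz ≤ κ0 * C.side i)
    (hinv : INV δ0 (↑P0 : Set (Bx κ))) {La : Set (κ → ℝ)} {rho : (κ → ℝ) → ℝ} {L : NNReal}
    (hL : LipschitzWith L rho) (hLa : ∀ x, 0 < rho x ↔ x ∈ La)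
    (hcov : ∀ x ∈ La, ∃ B ∈ P0, x ∈ B.set) (hdy0 : ∀ B ∈ P0, Dy o u M B) :
    ∃ F : Set (Bx κ), BoxFoam La F (min (dl κ κ0 / 2) δ0) κ0 ∧
      (∀ C ∈ F, ∀ x ∈ C.set, C.sz ≤ rho x) ∧
      (∀ C ∈ F, C ∈ P0 ∨ ∀ x ∈ C.set, rho x ≤ 3 * (1 + L) * C.sz) ∧
      (∀ C ∈ P0, (∀ x ∈ C.set, C.sz ≤ rho x) → C ∈ F) ∧
      (∀ C ∈ F, ∃ B ∈ P0, C.Le B) ∧ ∀ C ∈ F, Dy o u M C := by
  classical
  set δ : ℝ := min (dl κ κ0 / 2) δ0 with hδdef
  have hδ : 0 < δ := lt_min (half_pos (dl_pos κ0)) hδ0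
  have h0 : St κ0 δ rho P0 :=
    { pos := hpos
      inv := hinv.mono subset_rfl (min_le_right _ _) (fun B hB => hpos B (by exact_mod_cast hB))
      cmp := fun U hU _ B hB i => hside U hU B hB i }
  obtain ⟨s, hs0, hst, hnx, hdy⟩ := exists_seq_dy h3 hδ (min_le_left _ _) hu hM h0 hdy0
  have hlip : ∀ x y, rho x ≤ rho y + L * dist x y := by
    intro x y
    have h1 := hL.dist_le_mul x y
    rw [Real.dist_eq] at h1
    have := (abs_le.1 h1).2
    linarith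
  have hL0 : (0 : ℝ) ≤ L := L.2
  set F : Set (Bx κ) := {C | (∃ n, C ∈ s n) ∧ Done rho C} with hF
  -- births
  have hbig : ∀ C ∈ F, C ∈ P0 ∨ ∀ x ∈ C.set, rho x ≤ 3 * (1 + L) * C.sz := by
    rintro C ⟨⟨n, hn⟩, hD⟩
    rcases seq_birth hst hnx h3 hn with h1 | ⟨B, hBp, hBD, hCB, h4, h5⟩
    · left; rw [← hs0]; exact h1
    · right
      intro x hx
      unfold Done at hBD
      push Not at hBD
      obtain ⟨y, hy, hy'⟩ := hBD
      have h6 := hlip x y
      have h7 := dist_le_sz (hCB.subset hx) hy hBp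
      have h8 : (L : ℝ) * dist x y ≤ L * B.sz := mul_le_mul_of_nonneg_left h7 hL0
      have h9 : (L : ℝ) * B.sz ≤ L * (3 * C.sz) := mul_le_mul_of_nonneg_left h4 hL0
      linarith
  have hasp : ∀ C ∈ F, ∀ i, C.sz ≤ κ0 * C.side i := by
    rintro C ⟨⟨n, hn⟩, hD⟩ i
    rcases seq_birth hst hnx h3 hn with h1 | ⟨B, hBp, hBD, hCB, h4, h5⟩
    · rw [hs0] at h1
      exact hside C h1 C h1 i
    · exact hCB.sz_le.trans (h5 i)
  have hposF : ∀ C ∈ F, C.Pos := by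
    rintro C ⟨⟨n, hn⟩, hD⟩
    exact (hst n).pos C hn
  have hsubF : ∀ C ∈ F, C.set ⊆ La := by
    intro C hC x hx
    rw [← hLa]
    exact (Bx.sz_pos (hposF C hC)).trans_le (hC.2 x hx)
  refine ⟨F, ⟨?_, hposF, hsubF, ?_, ?_, ?_, hasp⟩, fun C hC => hC.2, hbig, ?_, ?_, ?_⟩
  · -- countable
    have h1 : F ⊆ ⋃ n, (↑(s n) : Set (Bx κ)) := by
      rintro C ⟨⟨n, hn⟩, -⟩
      exact Set.mem_iUnion.2 ⟨n, by exact_mod_cast hn⟩
    exact (Set.countable_iUnion fun n => (s n).countable_toSet).mono h1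
  · -- cover
    intro x hx
    have hrx : 0 < rho x := (hLa x).2 hx
    obtain ⟨n, hn⟩ := seq_small hst hnx h3 (ε := rho x / (1 + L)) (by positivity)
    obtain ⟨B, hB, hxB⟩ := seq_cover hst hnx (x := x) (by rw [hs0]; exact hcov x hx) n
    refine ⟨B, ⟨⟨n, hB⟩, ?_⟩, hxB⟩
    by_contra hBD
    have h1 := hn B hB hBD
    rw [lt_div_iff₀ (by positivity)] at h1
    unfold Done at hBD
    push Not at hBD
    obtain ⟨y, hy, hy'⟩ := hBD
    have h6 := hlip x y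
    have h7 := dist_le_sz hxB hy ((hst n).pos B hB)
    have h8 : (L : ℝ) * dist x y ≤ L * B.sz := mul_le_mul_of_nonneg_left h7 hL0
    linarith
  · -- locally finite
    intro x hx
    have hrx : 0 < rho x := (hLa x).2 hx
    set r : ℝ := rho x / (2 * (1 + L)) with hr
    have hr0 : 0 < r := by positivity
    set r1 : ℝ := rho x / (6 * (1 + L)) with hr1
    have hr10 : 0 < r1 := by positivity
    obtain ⟨n, hn⟩ := seq_small hst hnx h3 hr10
    refine ⟨r, hr0, ?_⟩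
    refine ((P0.finite_toSet).union ((s n).finite_toSet)).subset ?_
    rintro C ⟨hC, y, hyC, hyB⟩
    rcases hbig C hC with h1 | h1
    · left; exact_mod_cast h1
    · right
      rw [Metric.mem_ball] at hyB
      have h2 := hlip x y
      rw [dist_comm] at hyB
      have h3' : (L : ℝ) * dist x y ≤ L * r := mul_le_mul_of_nonneg_left hyB.le hL0
      have h4 : (L : ℝ) * r ≤ rho x / 2 := by
        have h5 : (2 * (1 + L)) * r = rho x := by rw [hr]; field_simp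
        nlinarith
      have h5 := h1 y hyC
      have h6 : rho x / 2 ≤ 3 * (1 + L) * C.sz := by linarith
      have h7 : r1 ≤ C.sz := by
        rw [hr1, div_le_iff₀ (by positivity)]
        nlinarith
      obtain ⟨⟨m, hm⟩, hD⟩ := hC
      rcases le_total n m with hnm | hmn
      · rcases seq_refine hst hnx h3 hnm hm with h8 | ⟨U, hU, hUD, hCU⟩
        · exact_mod_cast h8
        · exfalso
          have h9 := hn U hU hUD
          have h10 := hCU.sz_le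
          linarith
      · have h8 := seq_done hst hnx hmn hm hD
        exact_mod_cast h8
  · -- the invariant
    intro A hA hne hm
    have h1 : ∃ n, ∀ C ∈ A, C ∈ s n := by
      have h2 : ∀ A' : Finset (Bx κ), (∀ C ∈ A', C ∈ F) → ∃ n, ∀ C ∈ A', C ∈ s n := by
        intro A'
        induction A' using Finset.induction_on with
        | empty => exact fun _ => ⟨0, by simp⟩
        | insert C A' _ ih =>
          intro hA'
          obtain ⟨n, hn⟩ := ih fun C' hC' => hA' C' (Finset.mem_insert_of_mem hC')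
          obtain ⟨⟨m, hm'⟩, hD⟩ := hA' C (Finset.mem_insert_self _ _)
          refine ⟨max n m, fun C' hC' => ?_⟩
          rw [Finset.mem_insert] at hC'
          rcases hC' with rfl | hC'
          · exact seq_done hst hnx (le_max_right _ _) hm' hD
          · exact seq_done hst hnx (le_max_left _ _) (hn C' hC')
              (hA' C' (Finset.mem_insert_of_mem hC')).2
      exact h2 A fun C hC => hA (by exact_mod_cast hC)
    obtain ⟨n, hn⟩ := h1
    exact (hst n).inv A (fun C hC => by exact_mod_cast hn C (by exact_mod_cast hC)) hne hm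
  · -- start boxes which are small enough
    intro C hC hD
    exact ⟨⟨0, by rw [hs0]; exact hC⟩, hD⟩
  · rintro C ⟨⟨n, hn⟩, -⟩
    have := seq_root hst hnx h3 hn
    rwa [hs0] at this
  · rintro C ⟨⟨n, hn⟩, -⟩
    exact hdy n C hn

end Crest.Agent.R096.Bsp_628
end

-- ▼ part R096/Bsp9_628

/-!
# Row 96, FOAM-EX (helper628), part 9: dyadic versions of the existence theorems

`exists_foam_logs_dy`, `exists_log_foam_dy` (582's form), `exists_foam_bounded_dy`; **`Dy.star`**: one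
brick and all bricks touching it are boxes with bounded integer corners in one grid.
-/

set_option autoImplicit false
set_option linter.unusedSectionVars false

open Set

namespace Crest.Agent.R096.Bsp_628

open Crest.Agent.R096.Brk1_582 Crest.Agent.R096.Brk3_582 Crest.Agent.R096.Brk5_582
open Crest.Agent.R096.Log1_582 Crest.Agent.R096.Log2_582 Crest.Agent.R096.Log3_582

theorem logA_dy {q : ℕ} (hq : 1 ≤ q) {a : Fin 3 → ℝ} {h : ℝ} (hh : 0 < h) {M : ℝ}
    (hM : 4 * (q : ℝ) ≤ M) (k j m : ℤ) : Dy a h M (logA a h q k j m) := by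
  have hq' : (1 : ℝ) ≤ q := by exact_mod_cast hq
  have h2 : h * (2 : ℝ) ^ (-(1 : ℤ)) = h / 2 := by rw [zpow_neg, zpow_one]; ring
  refine ⟨1, ?_, fun i => ?_⟩
  · rw [h2]
    have h1 := (logB_side q hq k j m (ax (logA a h q k j m))).2
    have h3 : (logA a h q k j m).sz ≤ h * (2 * q) := by
      change (logA a h q k j m).side _ ≤ _
      rw [logA, aff_side]
      exact mul_le_mul_of_nonneg_left h1 hh.le
    nlinarith
  · rw [h2]
    have key : ∃ s t : ℤ, (logB q k j m).lo i = s / 2 ∧ (logB q k j m).hi i = t / 2 := by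
      unfold logB
      split_ifs with hk
      · fin_cases i
        · exact ⟨1 + 2 * (q * (j + 2 * m)), 1 + 2 * (q * (j + 2 * m + 2)), by
            constructor <;> (simp; ring)⟩
        · exact ⟨2 * j, 2 * (j + 1), by constructor <;> simp⟩
        · exact ⟨2 * k, 2 * (k + 1), by constructor <;> simp⟩
      · fin_cases i
        · exact ⟨2 * j, 2 * (j + 1), by constructor <;> simp⟩
        · exact ⟨1 + 2 * (q * (j + 2 * m)), 1 + 2 * (q * (j + 2 * m + 2)), by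
            constructor <;> (simp; ring)⟩
        · exact ⟨2 * k, 2 * (k + 1), by constructor <;> simp⟩
    obtain ⟨s, t, hs, ht⟩ := key
    refine ⟨s, t, ?_, ?_⟩
    · change a i + h * (logB q k j m).lo i = _
      rw [hs]; ring
    · change a i + h * (logB q k j m).hi i = _
      rw [ht]; ring

/-- **graded foam which contains the crossing logs** (scale `h`, length `2 q h`, offset `a`) -/
theorem exists_foam_logs_dy {q : ℕ} (hq : 1 ≤ q) (a : Fin 3 → ℝ) {h : ℝ} (hh : 0 < h)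
    {M : ℝ} (hM1 : 4 / dl (Fin 3) (max 3 (2 * q)) ≤ M) (hM2 : 4 * (q : ℝ) ≤ M)
    {La : Set (Fin 3 → ℝ)} (hb : Bornology.IsBounded La) {rho : (Fin 3 → ℝ) → ℝ} {L : NNReal}
    (hL : LipschitzWith L rho) (hLa : ∀ x, 0 < rho x ↔ x ∈ La) :
    ∃ F : Set (Bx (Fin 3)),
      BoxFoam La F (min (dl (Fin 3) (max 3 (2 * q)) / 2) (1 / (4 * q))) (max 3 (2 * q)) ∧
      (∀ C ∈ F, ∀ x ∈ C.set, C.sz ≤ rho x) ∧
      (∀ C ∈ F, (∃ k j m, C = logA a h q k j m) ∨ ∀ x ∈ C.set, rho x ≤ 3 * (1 + L) * C.sz) ∧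
      (∀ k j m, (∀ x ∈ (logA a h q k j m).set, (logA a h q k j m).sz ≤ rho x) →
        logA a h q k j m ∈ F) ∧
      (∀ C ∈ F, ∃ k j m, C.Le (logA a h q k j m)) ∧ ∀ C ∈ F, Dy a h M C := by
  classical
  have hq' : (1 : ℝ) ≤ q := by exact_mod_cast hq
  have hL0 : ∀ i : Fin 3, 0 < (fun _ : Fin 3 => h) i := fun _ => hh
  -- bounds in the normalised coordinates
  obtain ⟨R0, hR0⟩ := hb.subset_closedBall (0 : Fin 3 → ℝ)
  obtain ⟨R, hR⟩ : ∃ R : ℝ, ∀ x ∈ La, ∀ i,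
      |dmap (fun i => -(a i / h)) (fun _ => h⁻¹) x i| ≤ R := by
    refine ⟨‖a‖ / h + |R0| / h, fun x hx i => ?_⟩
    have h1 := hR0 hx
    rw [Metric.mem_closedBall, dist_zero_right] at h1
    have h2 : |x i| ≤ |R0| := by
      have := norm_le_pi_norm x i
      rw [Real.norm_eq_abs] at this
      exact this.trans (h1.trans (le_abs_self _))
    have h3 : |a i| ≤ ‖a‖ := by
      have := norm_le_pi_norm a i
      rwa [Real.norm_eq_abs] at this
    simp only [dmap]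
    calc |-(a i / h) + h⁻¹ * x i| ≤ |-(a i / h)| + |h⁻¹ * x i| := abs_add_le _ _
      _ = |a i| / h + |x i| / h := by
          rw [abs_neg, abs_div, abs_mul, abs_inv, abs_of_pos hh]; ring
      _ ≤ ‖a‖ / h + |R0| / h := by gcongr
  set N : ℤ := ⌈|R|⌉ + 3 with hN
  have hNR : |R| + 3 ≤ (N : ℝ) := by
    rw [hN]; push_cast; linarith [Int.le_ceil |R|]
  set P0 : Finset (Bx (Fin 3)) := (Finset.Icc (-N) N ×ˢ Finset.Icc (-N) N ×ˢ Finset.Icc (-N) N).image
    (fun t => logA a h q t.1 t.2.1 t.2.2) with hP0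
  -- logs which meet `La` are in `P0`
  have hin : ∀ k j m x, x ∈ La → x ∈ (logA a h q k j m).set → logA a h q k j m ∈ P0 := by
    intro k j m x hx hxC
    have h1 : dmap (fun i => -(a i / h)) (fun _ => h⁻¹) x ∈ (logB q k j m).set := by
      rw [← mem_aff (a := a) (L := fun _ => h) hL0]
      have := dmap_inv' (a := a) (L := fun _ => h) hL0 x
      rw [this]
      exact hxC
    obtain ⟨h2, h3, h4⟩ := logB_index hq h1 (hR x hx)
    have h5 := le_abs_self R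
    have hk : |k| ≤ N := by
      have : |(k : ℝ)| ≤ (N : ℝ) := by linarith
      exact_mod_cast this
    have hj : |j| ≤ N := by
      have : |(j : ℝ)| ≤ (N : ℝ) := by linarith
      exact_mod_cast this
    have hm : |m| ≤ N := by
      have : |(m : ℝ)| ≤ (N : ℝ) := by linarith
      exact_mod_cast this
    rw [hP0, Finset.mem_image]
    refine ⟨(k, j, m), ?_, rfl⟩
    rw [Finset.mem_product, Finset.mem_product, Finset.mem_Icc, Finset.mem_Icc, Finset.mem_Icc]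
    exact ⟨abs_le.1 hk, abs_le.1 hj, abs_le.1 hm⟩
  have hmemP : ∀ B ∈ P0, ∃ k j m, B = logA a h q k j m := by
    intro B hB
    rw [hP0, Finset.mem_image] at hB
    obtain ⟨t, -, rfl⟩ := hB
    exact ⟨_, _, _, rfl⟩
  have hside : ∀ k j m i, h ≤ (logA a h q k j m).side i ∧ (logA a h q k j m).side i ≤ 2 * q * h := by
    intro k j m i
    have h1 := logB_side q hq k j m i
    rw [logA, aff_side]
    constructor
    · nlinarith [h1.1]
    · nlinarith [h1.2]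
  have hposA : ∀ k j m, (logA a h q k j m).Pos := fun k j m =>
    aff_pos hL0 (logB_pos q hq k j m)
  have hinv : INV (1 / (4 * (q : ℝ))) (↑P0 : Set (Bx (Fin 3))) := by
    have h1 : INVa (h * (1 / 2)) (Bx.aff a (fun _ => h) '' Logs q) :=
      (logs_inv q hq).aff (by norm_num) hh (fun _ => le_rfl)
    have h2 : INVa (h * (1 / 2)) (↑P0 : Set (Bx (Fin 3))) := by
      refine h1.mono fun B hB => ?_
      obtain ⟨k, j, m, rfl⟩ := hmemP B (by exact_mod_cast hB)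
      exact ⟨logB q k j m, ⟨k, j, m, rfl⟩, rfl⟩
    have h3 := h2.toINV (S := 2 * q * h) (by positivity) (by positivity) (fun B hB => by
      obtain ⟨k, j, m, rfl⟩ := hmemP B (by exact_mod_cast hB)
      exact (hside k j m _).2)
    have h4 : h * (1 / 2) / (2 * q * h) = 1 / (4 * (q : ℝ)) := by field_simp; ring
    rw [h4] at h3
    exact h3
  have hcov : ∀ x ∈ La, ∃ B ∈ P0, x ∈ B.set := by
    intro x hx
    obtain ⟨k, j, m, hy⟩ := logs_cover q hq (dmap (fun i => -(a i / h)) (fun _ => h⁻¹) x)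
    have h1 : x ∈ (logA a h q k j m).set := by
      rw [← mem_aff (a := a) (L := fun _ => h) hL0] at hy
      have := dmap_inv' (a := a) (L := fun _ => h) hL0 x
      rw [this] at hy
      exact hy
    exact ⟨_, hin k j m x hx h1, h1⟩
  obtain ⟨F, f1, f2, f3, f4, f5, f6⟩ := exists_foam_dy (κ0 := max 3 (2 * (q : ℝ))) (le_max_left _ _)
    (o := a) hh hM1
    (P0 := P0) (δ0 := 1 / (4 * (q : ℝ))) (by positivity)
    (fun B hB => by
      obtain ⟨k, j, m, rfl⟩ := hmemP B hB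
      exact hposA k j m)
    (fun B hB C hC i => by
      obtain ⟨k, j, m, rfl⟩ := hmemP B hB
      obtain ⟨k', j', m', rfl⟩ := hmemP C hC
      have h1 := (hside k j m (ax (logA a h q k j m))).2
      have h2 := (hside k' j' m' i).1
      have h3 : (2 * (q : ℝ)) ≤ max 3 (2 * (q : ℝ)) := le_max_right _ _
      calc (logA a h q k j m).sz ≤ 2 * q * h := h1
        _ ≤ max 3 (2 * (q : ℝ)) * h := mul_le_mul_of_nonneg_right h3 hh.le
        _ ≤ max 3 (2 * (q : ℝ)) * (logA a h q k' j' m').side i :=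
            mul_le_mul_of_nonneg_left h2 (by positivity))
    hinv hL hLa hcov (fun B hB => by
      obtain ⟨k, j, m, rfl⟩ := hmemP B hB
      exact logA_dy hq hh hM2 k j m)
  refine ⟨F, f1, f2, ?_, ?_, ?_, f6⟩
  · intro C hC
    rcases f3 C hC with h1 | h1
    · exact Or.inl (hmemP C h1)
    · exact Or.inr h1
  · intro k j m hD
    refine f4 _ ?_ hD
    have h1 : (logA a h q k j m).lo ∈ (logA a h q k j m).set :=
      Bx.mem_set.2 fun i => ⟨le_rfl, (hposA k j m i).le⟩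
    have h2 := hD _ h1
    exact hin k j m _ ((hLa _).1 ((Bx.sz_pos (hposA k j m)).trans_le h2)) h1
  · intro C hC
    obtain ⟨B, hB, hCB⟩ := f5 C hC
    obtain ⟨k, j, m, rfl⟩ := hmemP B hB
    exact ⟨k, j, m, hCB⟩

/-- **the graded dyadic foam which consists of the crossing logs near `K₀`** -/
theorem exists_log_foam_dy {q : ℕ} (hq : 1 ≤ q) {La : Set (Fin 3 → ℝ)} (hLo : IsOpen La)
    (hb : Bornology.IsBounded La) {rho : (Fin 3 → ℝ) → ℝ} {L : NNReal}
    (hL : LipschitzWith L rho) (hLa : ∀ x, 0 < rho x ↔ x ∈ La) {K₀ : Set (Fin 3 → ℝ)}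
    (hK : IsCompact K₀) (hKL : K₀ ⊆ La) {M : ℝ} (hM : 0 ≤ M)
    {M' : ℝ} (hM1 : 4 / dl (Fin 3) (max 3 (2 * q)) ≤ M') (hM2 : 4 * (q : ℝ) ≤ M') :
    ∃ h₀ > 0, ∀ h, 0 < h → h < h₀ → Nr K₀ (M * h) ⊆ La ∧ ∀ a : Fin 3 → ℝ,
    ∃ F : Set (Bx (Fin 3)),
      BoxFoam La F (min (dl (Fin 3) (max 3 (2 * q)) / 2) (1 / (4 * q))) (max 3 (2 * q)) ∧
      (∀ C ∈ F, ∀ x ∈ C.set, C.sz ≤ rho x) ∧
      Cmp F (3 * (1 + L)) ∧
      (∀ C ∈ F, C.sz ≤ 2 * q * h) ∧
      (∀ C ∈ F, IsLog q a h C ∨ ∀ x ∈ C.set, rho x ≤ 3 * (1 + L) * C.sz) ∧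
      LogsNear F q a h K₀ (M * h) ∧
      (∀ C ∈ F, Dy a h M' C) := by
  have hq' : (1 : ℝ) ≤ q := by exact_mod_cast hq
  obtain ⟨r1, hr1, hr1L⟩ := hK.exists_cthickening_subset_open hLo hKL
  have hKc : IsCompact (Metric.cthickening r1 K₀) := hK.cthickening
  obtain ⟨ρ0, hρ0, hρ⟩ : ∃ ρ0 > 0, ∀ x ∈ Metric.cthickening r1 K₀, ρ0 ≤ rho x := by
    rcases (Metric.cthickening r1 K₀).eq_empty_or_nonempty with h0 | h0
    · exact ⟨1, one_pos, fun x hx => absurd hx (by rw [h0]; exact notMem_empty x)⟩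
    · obtain ⟨x0, hx0, hmin⟩ := hKc.exists_isMinOn h0 hL.continuous.continuousOn
      exact ⟨rho x0, (hLa x0).2 (hr1L hx0), fun x hx => hmin hx⟩
  have hNr : ∀ s ≤ r1, Nr K₀ s ⊆ Metric.cthickening r1 K₀ := by
    rintro s hs y ⟨y₀, h0, h1⟩
    exact Metric.mem_cthickening_of_dist_le y y₀ r1 K₀ h0 (by rw [dist_eq_norm]; linarith)
  refine ⟨min (r1 / (M + 2 * q)) (ρ0 / (2 * q)), lt_min (by positivity) (by positivity), ?_⟩
  intro h hh hlt
  have hlt1 : (M + 2 * q) * h < r1 := by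
    have := hlt.trans_le (min_le_left _ _)
    rw [lt_div_iff₀ (by positivity)] at this
    linarith
  have hlt2 : 2 * q * h < ρ0 := by
    have := hlt.trans_le (min_le_right _ _)
    rw [lt_div_iff₀ (by positivity)] at this
    linarith
  have hqh : 0 < 2 * q * h := by positivity
  refine ⟨(hNr (M * h) (by nlinarith)).trans hr1L, fun a => ?_⟩
  obtain ⟨F, BF, f1, f2, f3, f4, f5⟩ := exists_foam_logs_dy hq a hh hM1 hM2 hb hL hLa
  have f2' : ∀ C ∈ F, IsLog q a h C ∨ ∀ x ∈ C.set, rho x ≤ 3 * (1 + L) * C.sz := f2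
  have f4' : ∀ C ∈ F, C.sz ≤ 2 * q * h := by
    intro C hC
    obtain ⟨k, j, m, hle⟩ := f4 C hC
    refine (Bx.Le.sz_le hle).trans (le_of_eq ?_)
    exact isLog_sz hq hh ⟨k, j, m, rfl⟩
  refine ⟨F, BF, f1, ?_, f4', f2', ?_, f5⟩
  · -- comparability
    rintro c c' ⟨x, hx, hx'⟩
    have hL1 : (1 : ℝ) ≤ 3 * (1 + L) := by
      have := L.2
      have h0 : (0 : ℝ) ≤ L := L.coe_nonneg
      linarith
    have hs' : 0 < c'.1.sz := Bx.sz_pos (BF.pos _ c'.2)
    rcases f2' _ c'.2 with h1 | h1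
    · have h2 := f4' _ c.2
      rw [← isLog_sz hq hh h1] at h2
      nlinarith
    · exact (f1 _ c.2 x hx).trans (h1 x hx')
  · rintro B hB ⟨y, hyB, hyr⟩
    obtain ⟨k, j, m, rfl⟩ := hB
    refine f3 k j m fun x hx => ?_
    have hsz := isLog_sz hq hh (B := logA a h q k j m) ⟨k, j, m, rfl⟩
    have h1 := isLog_norm hq hh (B := logA a h q k j m) ⟨k, j, m, rfl⟩ hx hyB
    have h2 : x ∈ Nr K₀ (M * h + 2 * q * h) := Nr_add hyr h1
    have h3 := hρ x (hNr _ (by nlinarith) h2)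
    rw [hsz]
    linarith


/-- **dyadic FOAM-EX for a bounded open set** (no start pattern); `o`, `u` arbitrary -/
theorem exists_foam_bounded_dy {κ : Type*} [Fintype κ] [Nonempty κ] [DecidableEq κ]
    (o : κ → ℝ) {u M : ℝ} (hu : 0 < u) (hM : 4 / dl κ 3 ≤ M) (hM2 : 2 ≤ M)
    {La : Set (κ → ℝ)} {rho : (κ → ℝ) → ℝ} {L : NNReal}
    (hL : LipschitzWith L rho) (hLa : ∀ x, 0 < rho x ↔ x ∈ La) (hb : Bornology.IsBounded La) :
    ∃ F : Set (Bx κ), BoxFoam La F (min (dl κ 3 / 2) (1 / 3)) 3 ∧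
      (∀ C ∈ F, ∀ x ∈ C.set, C.sz ≤ rho x) ∧
      (∀ C ∈ F, ∀ x ∈ C.set, min (rho x) u ≤ 3 * (1 + L) * C.sz) ∧
      (∀ C ∈ F, Dy o u M C) := by
  classical
  obtain ⟨R, hR⟩ := hb.subset_closedBall (0 : κ → ℝ)
  obtain ⟨n, hn⟩ := pow_unbounded_of_one_lt ((max R 0 + ‖o‖) / u) (show (1 : ℝ) < 2 by norm_num)
  set S : ℝ := u * 2 ^ n with hS
  have hS0 : 0 < S := by positivity
  have hS1 : u ≤ S := by
    have : (1 : ℝ) ≤ 2 ^ n := one_le_pow₀ (by norm_num)
    nlinarith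
  have hSR : max R 0 + ‖o‖ ≤ S := by
    rw [div_lt_iff₀ hu] at hn
    rw [hS]; linarith
  have hSk : u * (2 : ℝ) ^ (-(-(n : ℤ))) = S := by rw [neg_neg, zpow_natCast]
  let Q : Bx κ := ⟨fun i => o i - S, fun i => o i + S⟩
  have hQ : Q.Pos := fun i => by simp only [Q]; linarith
  have hside : ∀ i, Q.side i = 2 * S := fun i => by simp only [Q, Bx.side]; ring
  have hsz : Q.sz = 2 * S := hside _
  have hsq : ∀ i, Q.sz ≤ 3 * Q.side i := by
    intro i; rw [hsz, hside]; linarith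
  have hdy : Dy o u M Q := by
    refine ⟨-(n : ℤ), ?_, fun i => ⟨-1, 1, ?_, ?_⟩⟩
    · rw [hSk, hsz]; nlinarith
    · rw [hSk]; simp only [Q]; push_cast; ring
    · rw [hSk]; simp only [Q]; push_cast; ring
  obtain ⟨F, h1, h2, h3, h4, h5, h6⟩ := exists_foam_dy (κ0 := 3) le_rfl (o := o) hu hM
    (P0 := {Q}) (δ0 := 1 / 3)
    (by norm_num) (by simpa using hQ) (by
      intro B hB C hC i
      rw [Finset.mem_singleton] at hB hC
      subst hB; subst hC
      exact hsq i) (inv_single hQ (by norm_num) hsq) hL hLa (by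
      intro x hx
      refine ⟨Q, Finset.mem_singleton_self _, Bx.mem_set.2 fun i => ?_⟩
      have h6 := hR hx
      rw [Metric.mem_closedBall, dist_zero_right] at h6
      have h7 := norm_le_pi_norm x i
      have h7' := norm_le_pi_norm o i
      rw [Real.norm_eq_abs] at h7 h7'
      have h8 : |x i| ≤ max R 0 := h7.trans (h6.trans (le_max_left _ _))
      have h9 := abs_le.1 h8
      have h10 := abs_le.1 h7'
      simp only [Q]
      constructor <;> linarith [h9.1, h9.2, h10.1, h10.2]) (by simpa using hdy)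
  refine ⟨F, h1, h2, fun C hC x hx => ?_, h6⟩
  rcases h3 C hC with h6 | h6
  · rw [Finset.mem_singleton] at h6
    subst h6
    rw [hsz]
    have h7 : (0 : ℝ) ≤ L := L.2
    refine (min_le_right _ _).trans ?_
    nlinarith
  · exact (min_le_left _ _).trans (h6 x hx)

/-- the finest admissible level -/
theorem exists_max_level {A s : ℝ} (hA : 0 < A) (hs : 0 < s) {k0 : ℤ}
    (h0 : s ≤ A * (2 : ℝ) ^ (-k0)) : ∃ k : ℤ, k0 ≤ k ∧ s ≤ A * (2 : ℝ) ^ (-k) ∧
      ∀ k' : ℤ, s ≤ A * (2 : ℝ) ^ (-k') → k' ≤ k := by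
  classical
  have hex : ∃ n : ℕ, A * (2 : ℝ) ^ (-(k0 + n)) < s := by
    obtain ⟨n, hn⟩ := exists_pow_lt_of_lt_one (show 0 < s / (A * (2 : ℝ) ^ (-k0)) by
      positivity) (show (1 / 2 : ℝ) < 1 by norm_num)
    refine ⟨n, ?_⟩
    rw [lt_div_iff₀ (by positivity)] at hn
    have h2 : (2 : ℝ) ^ (-(k0 + n)) = (1 / 2) ^ n * (2 : ℝ) ^ (-k0) := by
      rw [neg_add, zpow_add₀ (by norm_num), mul_comm, zpow_neg _ (n : ℤ), zpow_natCast, one_div,
        inv_pow]
    rw [h2]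
    calc A * ((1 / 2) ^ n * (2 : ℝ) ^ (-k0)) = (1 / 2) ^ n * (A * (2 : ℝ) ^ (-k0)) := by ring
      _ < s := hn
  have hn0 : Nat.find hex ≠ 0 := by
    intro h2
    have h3 := Nat.find_spec hex
    rw [h2] at h3
    simp only [Nat.cast_zero, add_zero] at h3
    linarith
  obtain ⟨n, hn⟩ := Nat.exists_eq_succ_of_ne_zero hn0
  have h2 := Nat.find_spec hex
  rw [hn] at h2
  have h3 := Nat.find_min hex (m := n) (by omega)
  push Not at h3
  refine ⟨k0 + n, by omega, h3, fun k' hk' => ?_⟩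
  by_contra hlt
  push Not at hlt
  have h4 : (2 : ℝ) ^ (-k') ≤ (2 : ℝ) ^ (-(k0 + ((n.succ : ℕ) : ℤ))) :=
    zpow_le_zpow_right₀ (by norm_num) (by push_cast; omega)
  have h5 : A * (2 : ℝ) ^ (-k') ≤ A * (2 : ℝ) ^ (-(k0 + ((n.succ : ℕ) : ℤ))) :=
    mul_le_mul_of_nonneg_left h4 hA.le
  linarith

/-- **one grid for a brick and its neighbours**: bounded integer corners -/
theorem Dy.star {κ : Type*} [Fintype κ] [Nonempty κ] {La : Set (κ → ℝ)} {F : Set (Bx κ)}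
    {δ κ0 : ℝ} (BF : BoxFoam La F δ κ0) {R : ℝ} (hR : 1 ≤ R) (hcmp : Cmp F R) {o : κ → ℝ}
    {u M : ℝ} (hu : 0 < u) (hM : 0 < M) (hdy : ∀ C ∈ F, Dy o u M C) (c : F) :
    ∃ (k : ℤ) (z : κ → ℤ), c.1.sz ≤ R * M * (u * (2 : ℝ) ^ (-k)) ∧
      (∀ i, c.1.lo i = o i + z i * (u * (2 : ℝ) ^ (-k))) ∧
      ∀ c' : F, (Pc F c ∩ Pc F c').Nonempty → ∀ i, ∃ m n : ℤ,
        |(m : ℝ)| ≤ 2 * R ^ 2 * M ∧ |(n : ℝ)| ≤ 2 * R ^ 2 * M ∧
        c'.1.lo i = o i + ((z i : ℝ) + m) * (u * (2 : ℝ) ^ (-k)) ∧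
        c'.1.hi i = o i + ((z i : ℝ) + n) * (u * (2 : ℝ) ^ (-k)) := by
  classical
  have hs : 0 < c.1.sz := Bx.sz_pos (BF.pos _ c.2)
  have hgen : ∀ c' : F, (Pc F c ∩ Pc F c').Nonempty → ∃ k' : ℤ,
      c.1.sz ≤ R * M * u * (2 : ℝ) ^ (-k') ∧ ∀ i, ∃ m n : ℤ,
        c'.1.lo i = o i + m * (u * (2 : ℝ) ^ (-k')) ∧
        c'.1.hi i = o i + n * (u * (2 : ℝ) ^ (-k')) := by
    intro c' hc'
    obtain ⟨k', h1, h2⟩ := hdy _ c'.2
    refine ⟨k', ?_, h2⟩
    have h3 := hcmp c c' hc'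
    have h4 : R * c'.1.sz ≤ R * (M * (u * (2 : ℝ) ^ (-k'))) :=
      mul_le_mul_of_nonneg_left h1 (by linarith)
    calc c.1.sz ≤ R * c'.1.sz := h3
      _ ≤ R * (M * (u * (2 : ℝ) ^ (-k'))) := h4
      _ = R * M * u * (2 : ℝ) ^ (-k') := by ring
  have hcc : (Pc F c ∩ Pc F c).Nonempty :=
    ⟨c.1.lo, Bx.mem_set.2 fun i => ⟨le_rfl, (BF.pos _ c.2 i).le⟩,
      Bx.mem_set.2 fun i => ⟨le_rfl, (BF.pos _ c.2 i).le⟩⟩
  obtain ⟨k0, h0, h0'⟩ := hgen c hcc
  obtain ⟨k, hk0, hk1, hk2⟩ := exists_max_level (by positivity : 0 < R * M * u) hs h0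
  set w : ℝ := u * (2 : ℝ) ^ (-k) with hw
  have hw0 : 0 < w := by positivity
  have hall : ∀ c' : F, (Pc F c ∩ Pc F c').Nonempty → ∀ i, ∃ m n : ℤ,
      c'.1.lo i = o i + m * w ∧ c'.1.hi i = o i + n * w := by
    intro c' hc' i
    obtain ⟨k', h1, h2⟩ := hgen c' hc'
    obtain ⟨m, n, e1, e2⟩ := h2 i
    obtain ⟨m', hm'⟩ := grid_mono (u := u) (hk2 k' h1) m
    obtain ⟨n', hn'⟩ := grid_mono (u := u) (hk2 k' h1) n
    exact ⟨m', n', by rw [e1, hm'], by rw [e2, hn']⟩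
  have hz : ∀ i, ∃ z : ℤ, c.1.lo i = o i + z * w := fun i => by
    obtain ⟨m, n, e1, -⟩ := hall c hcc i
    exact ⟨m, e1⟩
  choose z hz using hz
  have hcs : c.1.sz ≤ R * M * w := by rw [hw]; linarith
  refine ⟨k, z, hcs, hz, fun c' hc' i => ?_⟩
  obtain ⟨m, n, e1, e2⟩ := hall c' hc' i
  have hcmp' : c'.1.sz ≤ R * c.1.sz := by
    refine hcmp c' c ?_
    rwa [inter_comm]
  have hR2 : R * M * w ≤ R ^ 2 * M * w := by
    have : R * M * w * 1 ≤ R * M * w * R := mul_le_mul_of_nonneg_left hR (by positivity)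
    calc R * M * w = R * M * w * 1 := by ring
      _ ≤ R * M * w * R := this
      _ = R ^ 2 * M * w := by ring
  have hc's : c'.1.sz ≤ R ^ 2 * M * w := by
    have : R * c.1.sz ≤ R * (R * M * w) := mul_le_mul_of_nonneg_left hcs (by linarith)
    calc c'.1.sz ≤ R * (R * M * w) := hcmp'.trans this
      _ = R ^ 2 * M * w := by ring
  obtain ⟨x, hx, hx'⟩ := hc'
  have a1 := Bx.mem_set.1 hx i
  have a2 := Bx.mem_set.1 hx' i
  have s1 : c.1.hi i - c.1.lo i ≤ c.1.sz := c.1.side_le_sz i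
  have s2 : c'.1.hi i - c'.1.lo i ≤ c'.1.sz := c'.1.side_le_sz i
  have hzi := hz i
  refine ⟨m - z i, n - z i, ?_, ?_, ?_, ?_⟩
  · have h5 : ((m - z i : ℤ) : ℝ) * w = c'.1.lo i - c.1.lo i := by
      rw [e1, hzi]; push_cast; ring
    have h6 : |((m - z i : ℤ) : ℝ)| * w ≤ 2 * R ^ 2 * M * w := by
      rw [← abs_of_pos hw0, ← abs_mul, abs_of_pos hw0, h5, abs_le]
      constructor <;> linarith [a1.1, a1.2, a2.1, a2.2]
    exact le_of_mul_le_mul_right h6 hw0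
  · have h5 : ((n - z i : ℤ) : ℝ) * w = c'.1.hi i - c.1.lo i := by
      rw [e2, hzi]; push_cast; ring
    have h6 : |((n - z i : ℤ) : ℝ)| * w ≤ 2 * R ^ 2 * M * w := by
      rw [← abs_of_pos hw0, ← abs_mul, abs_of_pos hw0, h5, abs_le]
      constructor <;> linarith [a1.1, a1.2, a2.1, a2.2]
    exact le_of_mul_le_mul_right h6 hw0
  · rw [e1]; push_cast; ring
  · rw [e2]; push_cast; ring

end Crest.Agent.R096.Bsp_628
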