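import Crest.Agent.R096.Bxs3_627
import Crest.Agent.R096.Toph3_766
import Crest.Agent.R096.Bsp9_628
import Crest.Agent.R096.Brk5_582
import Crest.Agent.R096.Acr1_733
import Crest.Agent.R096.Bxs6_627
import Crest.Agent.R096.EaX1_766

-- ▼ part R096/Bxs4_627
section

/-!
Row 96 (S0127), helper627.  BOXES, part 4: **the cores of all bricks of a foam**, `p ≥ 3`.
-/

set_option autoImplicit false
set_option linter.unusedSectionVars false
set_option linter.style.longLine false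
set_option linter.unusedVariables false

open MeasureTheory Set Filter Topology Metric

namespace Crest.Agent.R096.Bxs_627

open Crest.AnalysisR.VecCalc3 Crest.AnalysisR.Sobolev
open Crest.Agent.R096.Bsp_628 Crest.Agent.R96.Push_899 Crest.Agent.R96.En10_199
open Crest.Agent.R096.Osc_802 Crest.Agent.R096.Sel_766 Crest.Agent.R096.Toph_766
open Crest.Agent.R96.Lu_538 Crest.Agent.R096.ThC6_766 Crest.Agent.R096.ThCi2_766
open Crest.Agent.R096.VolC2_766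

noncomputable section

/-- the bricks which meet `O` -/
def BdB (F : Set (Bx (Fin 3))) (O : Set R3) : Set F := {c | ∃ y ∈ O, P3.symm y ∈ c.1.set}

/-- `Cor`: the core statement of the brick `c` (input of `cl_nbd_miss`). -/
def Cor (Om : Set R3) (f : R3 → R3) (A : R3 ≃ᵃ[ℝ] R3) (Q : Bx (Fin 3)) (lam κ1 κ2 : ℝ) : Prop :=
  ∀ x : E3, (x ∈ P3 ⁻¹' Om ∧ ∀ k, |m3 f x k - ctr Q k| ≤ lam * Q.side k / 2) ∨
      (∀ k, |a3 A x k - ctr Q k| ≤ (1 / 2 + κ2) * (lam * Q.side k)) →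
      x ∈ P3 ⁻¹' Om ∧ ‖m3 f x - a3 A x‖ ≤ κ1 * (lam * Q.sz)

/-- **BOXES.** -/
theorem boxes {Ω Λ : Set R3} (hΩ : IsOpen Ω) (hΛ : IsOpen Λ) (hΛc : (Λᶜ).Nonempty) {f : R3 → R3}
    (hf : IsHomeomorphOn f Ω Λ) {G : Fin 3 → R3 → R3} {p : ℝ} {w : R3 → ℝ} (hw : Scale Λ w) :
    ∃ η : ℝ, 0 < η ∧ η < 1 ∧ ∀ {μ κ δ : R3 → ℝ}, (∀ x ∈ Ω, 0 < μ x) → ∀ {κ₁ : ℝ}, 0 ≤ κ₁ →
      κ₁ ≤ 1 / 32 → (∀ x ∈ Ω, κ x * 4 ≤ κ₁ * μ x) →
      (∀ y ∈ Λ, (volume : Measure R3).real ((Λ \ f '' EE Ω f G p μ κ δ) ∩ ball y (w y)) ≤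
          η * (volume : Measure R3).real (ball y (w y))) →
      ∀ {σ : R3 → ℝ}, Scale Λ σ →
      ∀ {W : Set R3}, W = {y | y ∈ Λ ∧ σ y / 2 < infDist y (f '' EE Ω f G p μ κ δ)} →
      ∀ {F : Set (Bx (Fin 3))} {δf κ0 : ℝ}, BoxFoam (P3 ⁻¹' Λ) F δf κ0 → 1 ≤ κ0 →
      ∀ {lamb κ1 κ2 : ℝ}, 1 / 2 ≤ lamb → lamb < 1 → 0 ≤ κ2 → κ2 ≤ 1 / 4 →
        (1 / 2 + κ2) * lamb + 2 * κ₁ * κ0 ≤ 1 / 2 → 64 * κ₁ ≤ κ1 →
        (∀ c ∈ F, rad κ0 c ≤ w (P3 (ctr c)) / 8) →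
        (∀ c ∈ F, ∀ y, ‖P3 (ctr c) - y‖ ≤ w (P3 (ctr c)) / 16 → σ y ≤ rad κ0 c) →
        (∀ c ∈ F, ∀ x ∈ Ω, ‖f x - P3 (ctr c)‖ ≤ w (P3 (ctr c)) / 4 → 8 * c.sz < μ x * δ x) →
        ∃ (Th : R3 ≃ₜ R3) (ξ yc : F → R3) (hξ : ∀ c, ξ c ∈ EE Ω f G p μ κ δ) (hm : ∀ c, 0 < μ (ξ c)),
          (∀ y, y ∉ Λ → Th y = y) ∧ (∀ y, Th y ∈ Λ ↔ y ∈ Λ) ∧ (∀ y, ‖Th y - y‖ ≤ 5 / 4 * w y) ∧
          (∀ y y', ‖Th y - Th y'‖ ≤ 25 / 2 * ‖y - y'‖) ∧
          (∀ y, y ∉ OO η w W → (∀ c ∈ BdB F (OO η w W), 2 * rad κ0 c.1 ≤ ‖y - P3 (ctr c.1)‖) →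
            Th y = y) ∧
          -- bad bricks
          (∀ c ∈ BdB F (OO η w W), ‖yc c - f (ξ c)‖ ≤ rad κ0 c.1 ∧
            (∀ y, ‖y - yc c‖ ≤ rad κ0 c.1 / 16 → Th y = P3 (ctr c.1) + (y - yc c)) ∧
            (∀ y, ‖Th y - P3 (ctr c.1)‖ ≤ rad κ0 c.1 / 16 → y = yc c + (Th y - P3 (ctr c.1))) ∧
            GoodAt Ω f G p κ (ξ c) (4 * rad κ0 c.1 / μ (ξ c)) ∧
            Cor Ω (Th ∘ f) (affE f G (ξ c) (P3 (ctr c.1) - yc c) (hm c) (hξ c).2.1) c.1
              (ls κ0) κ1 κ2) ∧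
          -- good bricks
          (∀ c ∉ BdB F (OO η w W), yc c = P3 (ctr c.1) ∧ (∀ y, P3.symm y ∈ c.1.set → Th y = y) ∧
            ‖P3 (ctr c.1) - f (ξ c)‖ < σ (P3 (ctr c.1)) ∧
            GoodAt Ω f G p κ (ξ c) (8 * c.1.sz / μ (ξ c)) ∧
            Cor Ω (Th ∘ f) (affE f G (ξ c) (P3 (ctr c.1) - yc c) (hm c) (hξ c).2.1) c.1
              lamb κ1 κ2) := by
  obtain ⟨η, hη, hη1, hmain⟩ := toph hΩ hΛ hΛc hf (G := G) (p := p) hw
  refine ⟨η, hη, hη1, ?_⟩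
  intro μ κ δ hμ κ₁ hκ₁0 hκ₁ hκ hden σ hσ W hW F δf κ0 BF hκ0 lamb κ1 κ2 hl hl1 hk0 hk1 h3 h64 hS1 hS2 hS3
  obtain ⟨Phi, th, -, -, -, -, -, hexO, hP⟩ := hmain hμ hκ₁ hκ hden hσ hW rfl
  set O := OO η w W with hO
  have hpos : ∀ c : F, c.1.Pos := fun c => BF.pos _ c.2
  have hsz : ∀ c : F, 0 < c.1.sz := fun c => Bx.sz_pos (hpos c)
  have hctrΛ : ∀ c : F, P3 (ctr c.1) ∈ Λ := fun c => BF.sub _ c.2 (ctr_mem (hpos c))
  have hrad : ∀ c : F, 0 < rad κ0 c.1 := fun c => by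
    have := hsz c
    unfold rad; positivity
  have hrad2 : ∀ c : F, rad κ0 c.1 ≤ c.1.sz / 8 := fun c => by
    unfold rad
    apply div_le_div_of_nonneg_left (hsz c).le (by norm_num)
    linarith
  set ι := {c : F // c ∈ BdB F O} with hι
  obtain ⟨yc, ξ, Th, hξE, -, hycn, -, -, hT1, hT2, hT3, hT4, hT5, hT6, hT7, hgood, -, hmiss, hnbd⟩ :=
    hP (ι := ι) (fun i => P3 (ctr i.1.1)) (fun i => rad κ0 i.1.1) (fun i => hctrΛ i.1)
      (fun i => hrad i.1) (fun i => hS1 _ i.1.2)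
      (fun i j hij => holes_disj BF (by linarith) i.1 j.1 (fun h => hij (Subtype.ext h)))
      (fun q hq => by
        obtain ⟨r, hr, hf⟩ := holes_fin BF hκ0 (q := q) (by
          rw [mem_preimage, mem_preimage, ContinuousLinearEquiv.apply_symm_apply]; exact hq)
        refine ⟨r, hr, ?_⟩
        exact Set.Finite.of_finite_image (f := Subtype.val) (hf.subset (by
          rintro _ ⟨c, hc, rfl⟩
          exact hc)) Subtype.val_injective.injOn)
      (fun i => hS2 _ i.1.2)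
      (fun i x hx hxf => by
        have h4 := hS3 _ i.1.2 x hx hxf
        have h5 := hrad2 i.1
        have h6 := hsz i.1
        linarith)
  -- `Th = id` on the good bricks
  have hgoodB : ∀ c : F, c ∉ BdB F O → ∀ y, P3.symm y ∈ c.1.set → Th y = y := by
    intro c hc y hy
    refine hT7 y (fun hyO => hc ⟨y, hyO, hy⟩) fun i => ?_
    by_contra hcon
    push Not at hcon
    -- `y` would be in the interior of the brick `i`
    have hne : i.1.1 ≠ c.1 := fun h => hc (by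
      have : i.1 = c := Subtype.ext h
      rw [← this]; exact i.2)
    obtain ⟨k, hk⟩ := BF.inv.disj i.1.2 c.2 (hpos i.1) (hpos c) hne
    have h4 := norm_P3_symm_le (y - P3 (ctr i.1.1))
    rw [map_sub, ContinuousLinearEquiv.symm_apply_apply] at h4
    have h5 := norm_le_pi_norm (P3.symm y - ctr i.1.1) k
    rw [Pi.sub_apply, Real.norm_eq_abs] at h5
    have h6 : 2 * rad κ0 i.1.1 ≤ i.1.1.side k / 4 := by
      have h7 := BF.asp _ i.1.2 k
      unfold rad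
      rw [show 2 * (i.1.1.sz / (8 * κ0)) = i.1.1.sz / (4 * κ0) by field_simp; ring,
        div_le_div_iff₀ (by positivity) (by norm_num)]
      nlinarith [hsz i.1]
    have h8 := abs_le.1 (h5.trans (h4.trans (hcon.le.trans h6)))
    have h9 := ctr_lo i.1.1 k
    have h10 := ctr_hi i.1.1 k
    have h11 := Bx.side_pos (hpos i.1) k
    have h12 := Bx.mem_set.1 hy k
    rcases hk with hk | hk
    · linarith [h8.1, h8.2, h12.1, h12.2]
    · linarith [h8.1, h8.2, h12.1, h12.2]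
  -- good bricks
  have hgex : ∀ c : F, c ∉ BdB F O → ∃ ζ ∈ EE Ω f G p μ κ δ, ‖P3 (ctr c.1) - f ζ‖ < σ (P3 (ctr c.1)) := by
    intro c hc
    refine hexO _ (hctrΛ c) fun h => hc ⟨_, h, ?_⟩
    rw [ContinuousLinearEquiv.symm_apply_apply]
    exact ctr_mem (hpos c)
  choose! ζ hζE hζn using hgex
  classical
  set ξ' : F → R3 := fun c => if h : c ∈ BdB F O then ξ ⟨c, h⟩ else ζ c with hξ'
  set yc' : F → R3 := fun c => if h : c ∈ BdB F O then yc ⟨c, h⟩ else P3 (ctr c.1) with hyc'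
  have hξ'1 : ∀ c (h : c ∈ BdB F O), ξ' c = ξ ⟨c, h⟩ := fun c h => by simp only [hξ', dif_pos h]
  have hξ'2 : ∀ c, c ∉ BdB F O → ξ' c = ζ c := fun c h => by simp only [hξ', dif_neg h]
  have hyc'1 : ∀ c (h : c ∈ BdB F O), yc' c = yc ⟨c, h⟩ := fun c h => by simp only [hyc', dif_pos h]
  have hyc'2 : ∀ c, c ∉ BdB F O → yc' c = P3 (ctr c.1) := fun c h => by simp only [hyc', dif_neg h]
  have hE : ∀ c, ξ' c ∈ EE Ω f G p μ κ δ := by
    intro c
    by_cases h : c ∈ BdB F O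
    · rw [hξ'1 c h]; exact hξE _
    · rw [hξ'2 c h]; exact hζE c h
  have hM : ∀ c, 0 < μ (ξ' c) := fun c => hμ _ (hE c).1
  refine ⟨Th, ξ', yc', hE, hM, hT1, hT2, hT3, hT4, ?_, ?_, ?_⟩
  · intro y hy hyc
    exact hT7 y hy fun i => hyc i.1 i.2
  · intro c hc
    have e1 := hξ'1 c hc
    have e2 := hyc'1 c hc
    refine ⟨by rw [e1, e2]; exact hycn ⟨c, hc⟩, by rw [e2]; exact hT5 ⟨c, hc⟩,
      by rw [e2]; exact hT6 ⟨c, hc⟩, by rw [e1]; exact hgood ⟨c, hc⟩, ?_⟩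
    refine small_core (hpos c) hκ0 hk1 ?_ ?_ h64
    · intro x hx hxT
      have h4 := (hmiss ⟨c, hc⟩ x hx hxT).2
      rw [affE_apply, e1, e2]
      exact h4
    · intro x hxA
      rw [affE_apply, e1, e2] at hxA
      obtain ⟨h4, -, h5⟩ := hnbd ⟨c, hc⟩ x hxA
      refine ⟨h4, ?_⟩
      rw [affE_apply, e1, e2]
      exact h5
  · intro c hc
    have e2 := hyc'2 c hc
    have e1 := hξ'2 c hc
    have hσc : σ (P3 (ctr c.1)) ≤ rad κ0 c.1 := hS2 _ c.2 _ (by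
      rw [sub_self, norm_zero]
      have := hw.nonneg (P3 (ctr c.1))
      positivity)
    have hn : ‖P3 (ctr c.1) - f (ξ' c)‖ < σ (P3 (ctr c.1)) := by rw [e1]; exact hζn c hc
    have hr := hrad2 c
    have hs := hsz c
    have hnear : ‖P3 (ctr c.1) - f (ξ' c)‖ ≤ 2 * c.1.sz := by linarith
    have hδc : 4 * (2 * c.1.sz) < μ (ξ' c) * δ (ξ' c) := by
      have h5 := hS3 _ c.2 (ξ' c) (hE c).1 (by
        rw [norm_sub_rev]
        have h6 := hS1 _ c.2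
        have h7 := hw.nonneg (P3 (ctr c.1))
        linarith)
      linarith
    have h4κ : 4 * κ₁ ≤ κ1 := by linarith
    have hcore := core_at hΩ hΛ hf (y := P3 (ctr c.1)) (R := 2 * c.1.sz) (by positivity) (hE c) (hM c)
      hκ₁ (hκ _ (hE c).1) hnear hδc
    refine ⟨e2, hgoodB c hc, hn, ?_, ?_⟩
    · have h5 := hcore.1
      rwa [show 4 * (2 * c.1.sz) = 8 * c.1.sz by ring] at h5
    · have h5 := full_core hΩ hΛ hf (hpos c) hκ0 (BF.asp _ c.2) (hE c) (hM c) hκ₁0 hκ₁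
        (hκ _ (hE c).1) hnear hδc hl hl1.le hk1 h3 h4κ (hgoodB c hc) hk0
      have e3 : P3 (ctr c.1) - yc' c = 0 := by rw [e2, sub_self]
      rw [e3]
      exact h5

end

end Crest.Agent.R096.Bxs_627
end

-- ▼ part R096/Prep1_766
section

/-!
Row 96 (S0127), helper766.  **PREP3**: the whole input of the machine for `p ≥ 3`: a box foam of the
target (dyadic, bounded geometry), a Lipschitz homeomorphism `Th` of the target, an exact core in every
brick, good bricks and small energy over the bad bricks.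
-/

set_option autoImplicit false
set_option linter.unusedSectionVars false
set_option linter.style.longLine false
set_option linter.style.haveILetI false
set_option linter.unusedVariables false

namespace Crest.Agent.R096.Prep_766

open MeasureTheory Set Filter Topology Metric
open scoped ENNReal NNReal
open Crest.AnalysisR.VecCalc3 Crest.AnalysisR.Sobolev
open Crest.Agent.R096.Bsp_628 Crest.Agent.R096.Brk5_582 Crest.Agent.R096.Brk3_582
open Crest.Agent.R096.Osc_802 Crest.Agent.R096.LusN_766 Crest.Agent.R096.VolC_766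
open Crest.Agent.R096.VolC2_766 Crest.Agent.R096.VolC3_766 Crest.Agent.R96.Lu_538
open Crest.Agent.R096.ThC6_766 Crest.Agent.R096.ThCi2_766 Crest.Agent.R096.ThCi3_766
open Crest.Agent.R096.Sel_766 Crest.Agent.R096.Toph_766 Crest.Agent.R096.Bxs_627
open Crest.Agent.R096.Sk_962 (SH)
open Crest.Agent.R96.En10_199

/-- positive continuous functions are locally bounded below. -/
lemma low_of_cont {L : Set R3} (hL : IsOpen L) {h : R3 → ℝ} (hc : ContinuousOn h L)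
    (hp : ∀ x ∈ L, 0 < h x) :
    ∀ x ∈ L, ∃ r : ℝ, 0 < r ∧ ∃ m : ℝ, 0 < m ∧ ∀ y ∈ ball x r, m ≤ h y := by
  intro x hx
  have h1 : ContinuousAt h x := hc.continuousAt (hL.mem_nhds hx)
  have h2 : ∀ᶠ y in 𝓝 x, h x / 2 < h y :=
    h1.eventually (lt_mem_nhds (by have := hp x hx; linarith))
  obtain ⟨r, hr, hb⟩ := Metric.eventually_nhds_iff_ball.1 h2
  exact ⟨r, hr, h x / 2, by have := hp x hx; positivity, fun y hy => (hb y hy).le⟩

/-- the bricks close to `O`. -/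
def BadE (F : Set (Bx (Fin 3))) (O : Set R3) : Set F :=
  {c | ∃ y ∈ O, ‖y - P3 (ctr c.1)‖ ≤ 16 * c.1.sz}

/-- the region of the bricks close to `O`. -/
def BadR (F : Set (Bx (Fin 3))) (O : Set R3) : Set R3 :=
  ⋃ c ∈ BadE F O, closedBall (P3 (ctr c.1)) (4 * c.1.sz)

lemma norm_sub_ctr {C : Bx (Fin 3)} (hC : C.Pos) {y : R3} (hy : P3.symm y ∈ C.set) :
    ‖y - P3 (ctr C)‖ ≤ C.sz := by
  have hs := Bx.sz_pos hC
  have h1 : ‖P3.symm y - ctr C‖ ≤ C.sz / 2 := by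
    rw [pi_norm_le_iff_of_nonneg (by positivity)]
    intro k
    rw [Pi.sub_apply, Real.norm_eq_abs, abs_le]
    have h2 := Bx.mem_set.1 hy k
    have h3 := ctr_lo C k
    have h4 := ctr_hi C k
    have h5 := C.side_le_sz k
    constructor <;> linarith
  have h2 := norm_P3_le (P3.symm y - ctr C)
  rw [map_sub, ContinuousLinearEquiv.apply_symm_apply] at h2
  linarith

lemma bdB_subset_badE {La : Set (Fin 3 → ℝ)} {F : Set (Bx (Fin 3))} {δ κ0 : ℝ}
    (BF : BoxFoam La F δ κ0) (O : Set R3) : BdB F O ⊆ BadE F O := by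
  rintro c ⟨y, hy, hyc⟩
  have h1 := norm_sub_ctr (BF.pos _ c.2) hyc
  have h2 := Bx.sz_pos (BF.pos _ c.2)
  exact ⟨y, hy, by linarith⟩

/-- **energy over the bad bricks.** -/
theorem bad_energy {Ω Λ : Set R3} {f : R3 → R3} {G : Fin 3 → R3 → R3} {p : ℝ} {K : Set R3}
    {e : ℝ≥0∞} (hKe : ∫⁻ x in Ω \ f ⁻¹' K, (1 + ∑ j, ‖G j x‖ₑ ^ p) < e / 2) {τ : ℝ≥0∞}
    (hτ : ∀ A : Set R3, volume A < τ →
      ∫⁻ x in Ω ∩ f ⁻¹' A ∩ {x | (Gmat G x).det ≠ 0}, (1 + ∑ j, ‖G j x‖ₑ ^ p) < e / 2)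
    {d0 : ℝ} (hd0 : 0 < d0) (hd0Λ : cthickening d0 K ⊆ Λ) {w σ : R3 → ℝ} (hw : Scale Λ w)
    (hwd : ∀ x ∈ Λ, w x ≤ d0 / 2)
    {s0 : ℝ} (hs0 : 0 < s0) (hs0d : s0 ≤ d0 / 200) (hs01 : s0 ≤ 1 / 4)
    {F : Set (Bx (Fin 3))} {δf : ℝ} (BF : BoxFoam (P3 ⁻¹' Λ) F δf 3)
    (hsz : ∀ c ∈ F, c.sz ≤ s0)
    (hszK : ∀ c ∈ F, P3 (ctr c) ∈ cthickening d0 K → s0 ≤ 15 / 4 * c.sz)
    (hσ : Scale Λ σ) (hσl : ∀ (y : R3) (m : ℝ), 0 ≤ m → m ≤ 1 → ball y (8 * m) ⊆ Λ →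
        (∀ i : F, ‖P3 (ctr i.1) - y‖ ≤ w (P3 (ctr i.1)) / 16 + 8 * m → m ≤ rad 3 i.1) → m ≤ σ y)
    {E W : Set R3} (hW : W = {y | y ∈ Λ ∧ σ y / 2 < infDist y E}) {η : ℝ} (hη : 0 < η)
    (hvol : ENNReal.ofReal (5 ^ 3 / (min (η / 6 ^ 3) ((1 / 360 / 28) ^ 3) / 2)) * volume (Λ \ E) < τ) :
    ∫⁻ x in Ω ∩ f ⁻¹' (BadR F (OO η w W)) ∩ {x | (Gmat G x).det ≠ 0}, (1 + ∑ j, ‖G j x‖ₑ ^ p) < e := by
  set O := OO η w W with hO
  set η' : ℝ := min (η / 6 ^ 3) ((1 / 360 / 28) ^ 3) / 2 with hη'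
  have hη'0 : 0 < η' := by
    rw [hη']
    have : 0 < min (η / 6 ^ 3) ((1 / 360 / 28 : ℝ) ^ 3) := lt_min (by positivity) (by positivity)
    linarith
  have hfr : Module.finrank ℝ R3 = 3 := by simp
  have hvM : volume (BadR F O ∩ K) < τ := by
    refine lt_of_le_of_lt (vitali_le (V := R3) (A := Λ \ E) (η := η') (R₀ := 7) hη'0 ?_) (by
      rw [hfr]; exact hvol)
    rintro y ⟨hyB, hyK⟩
    obtain ⟨c, hc⟩ := mem_iUnion.1 hyB
    obtain ⟨⟨z, hzO, hz⟩, hyc⟩ := mem_iUnion.1 hc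
    rw [mem_closedBall, dist_eq_norm] at hyc
    have hc0 := Bx.sz_pos (BF.pos _ c.2)
    have hcs := hsz _ c.2
    have hctrK : ∀ z : R3, ‖z - y‖ ≤ d0 → z ∈ cthickening d0 K := fun z hz =>
      mem_cthickening_of_dist_le z y d0 K hyK (by rwa [dist_eq_norm])
    have key := bad_density (V := R3) hw hσ hW hη (c := 1 / 360) (by norm_num) (by norm_num)
      (q := P3 (ctr c.1)) (s := 4 * c.1.sz) (by positivity) (by linarith) ?_ (z := z) (by linarith) hzO y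
      (by linarith)
    · obtain ⟨ρ, h1, h2, h3⟩ := key
      rw [hfr] at h3
      exact ⟨ρ, h1, h2, h3⟩
    · intro x hx
      have hxy : ‖x - y‖ ≤ 24 * s0 := by
        have h1 : x - y = (x - P3 (ctr c.1)) - (y - P3 (ctr c.1)) := by abel
        rw [h1]
        refine (norm_sub_le _ _).trans ?_
        linarith
      have hm : 1 / 360 * (4 * c.1.sz) ≤ s0 / 90 := by linarith
      refine hm.trans (hσl x (s0 / 90) (by positivity) (by linarith) ?_ ?_)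
      · intro z' hz'
        rw [mem_ball, dist_eq_norm] at hz'
        refine hd0Λ (hctrK _ ?_)
        have := norm_add_le (z' - x) (x - y)
        rw [sub_add_sub_cancel] at this
        linarith
      · intro i hi
        have hwi : w (P3 (ctr i.1)) ≤ d0 / 2 := hwd _ (BF.sub _ i.2 (ctr_mem (BF.pos _ i.2)))
        have h2 := hszK _ i.2 (hctrK _ (by
          have := norm_add_le (P3 (ctr i.1) - x) (x - y)
          rw [sub_add_sub_cancel] at this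
          linarith))
        unfold rad
        linarith
  have h1 := hτ _ hvM
  calc ∫⁻ x in Ω ∩ f ⁻¹' (BadR F O) ∩ {x | (Gmat G x).det ≠ 0}, (1 + ∑ j, ‖G j x‖ₑ ^ p)
      ≤ ∫⁻ x in (Ω \ f ⁻¹' K) ∪ (Ω ∩ f ⁻¹' (BadR F O ∩ K) ∩ {x | (Gmat G x).det ≠ 0}),
          (1 + ∑ j, ‖G j x‖ₑ ^ p) := by
        apply lintegral_mono_set
        rintro x ⟨⟨hx1, hx2⟩, hx3⟩
        by_cases hxK : f x ∈ K
        · exact Or.inr ⟨⟨hx1, hx2, hxK⟩, hx3⟩
        · exact Or.inl ⟨hx1, hxK⟩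
    _ ≤ (∫⁻ x in Ω \ f ⁻¹' K, (1 + ∑ j, ‖G j x‖ₑ ^ p)) +
        ∫⁻ x in Ω ∩ f ⁻¹' (BadR F O ∩ K) ∩ {x | (Gmat G x).det ≠ 0}, (1 + ∑ j, ‖G j x‖ₑ ^ p) :=
        lintegral_union_le _ _ _
    _ < e / 2 + e / 2 := ENNReal.add_lt_add hKe h1
    _ = e := ENNReal.add_halves e

end Crest.Agent.R096.Prep_766
end

-- ▼ part R096/Prep2_766
section

/-!
Row 96 (S0127), helper766.  **PREP3**, the theorem.
-/

set_option autoImplicit false
set_option linter.unusedSectionVars false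
set_option linter.style.longLine false
set_option linter.style.haveILetI false
set_option linter.unusedVariables false

namespace Crest.Agent.R096.Prep_766

open MeasureTheory Set Filter Topology Metric
open scoped ENNReal NNReal
open Crest.AnalysisR.VecCalc3 Crest.AnalysisR.Sobolev
open Crest.Agent.R096.Bsp_628 Crest.Agent.R096.Brk5_582 Crest.Agent.R096.Brk3_582
open Crest.Agent.R096.Osc_802 Crest.Agent.R096.LusN_766 Crest.Agent.R096.VolC_766
open Crest.Agent.R096.VolC2_766 Crest.Agent.R096.VolC3_766 Crest.Agent.R96.Lu_538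
open Crest.Agent.R096.ThC6_766 Crest.Agent.R096.ThCi2_766 Crest.Agent.R096.ThCi3_766
open Crest.Agent.R096.Sel_766 Crest.Agent.R096.Toph_766 Crest.Agent.R096.Bxs_627
open Crest.Agent.R096.Sk_962 (SH)
open Crest.Agent.R96.En10_199

/-- **Output of PREP3**: `f2 = Th ∘ f`, `G'` its weak gradients; `F` the foam; the sets and functions of
the selection `μ κ δ σ w O`; the centres `ξ c` of the cores; `yc c` the point moved to the centre. -/
structure Pre3 (p : ℝ) (Ω Λ : Set R3) (f : R3 → R3) (G : Fin 3 → R3 → R3) (lamb κ1 κ2 : ℝ)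
    (F : Set (Bx (Fin 3))) (Th : R3 ≃ₜ R3) (G' : Fin 3 → R3 → R3) (μ κ δ : R3 → ℝ) (O : Set R3)
    (ξ yc : F → R3) (hξ : ∀ c, ξ c ∈ EE Ω f G p μ κ δ) (hm : ∀ c, 0 < μ (ξ c)) : Prop where
  foam : BoxFoam (P3 ⁻¹' Λ) F (min (dl (Fin 3) 3 / 2) (1 / 3)) 3
  cmp : Cmp F 4
  /-- comparability of bricks at small distance (for `Bxs_627.th_id_nbhd`) -/
  gr : Gr F (1 / 180) (15 / 2)
  /-- off `Λ` -/
  id_off : ∀ y, y ∉ Λ → Th y = y
  mem : ∀ y, Th y ∈ Λ ↔ y ∈ Λ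
  lip : ∀ y y', ‖Th y - Th y'‖ ≤ 25 / 2 * ‖y - y'‖
  sh : SH p Ω Λ (fun x => Th (f x)) G'
  col : ∀ᵐ x, x ∈ Ω → ∀ i, ‖Crest.Agent.R96.Str_520.col G' i x‖ ≤ 25 / 2 * ‖Crest.Agent.R96.Str_520.col G i x‖
  trans : ∀ (U : Set R3) (t : R3), IsOpen U → U ⊆ Ω → (∀ x ∈ U, Th (f x) = f x + t) →
    ∀ᵐ x, x ∈ U → ∀ j, G' j x = G j x
  scμ : Scale Ω μ
  scδ : Scale Ω δ
  openO : IsOpen O
  subO : O ⊆ Λ
  id_good : ∀ y, y ∉ O → (∀ c ∈ BdB F O, 2 * rad 3 c.1 ≤ ‖y - P3 (ctr c.1)‖) → Th y = y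
  /-- bad bricks -/
  bad : ∀ c ∈ BdB F O, ‖yc c - f (ξ c)‖ ≤ rad 3 c.1 ∧
    (∀ y, ‖y - yc c‖ ≤ rad 3 c.1 / 16 → Th y = P3 (ctr c.1) + (y - yc c)) ∧
    (∀ y, ‖Th y - P3 (ctr c.1)‖ ≤ rad 3 c.1 / 16 → y = yc c + (Th y - P3 (ctr c.1))) ∧
    GoodAt Ω f G p κ (ξ c) (4 * rad 3 c.1 / μ (ξ c)) ∧
    Cor Ω (Th ∘ f) (affE f G (ξ c) (P3 (ctr c.1) - yc c) (hm c) (hξ c).2.1) c.1 (ls 3) κ1 κ2
  /-- good bricks -/
  good : ∀ c ∉ BdB F O, yc c = P3 (ctr c.1) ∧ (∀ y, P3.symm y ∈ c.1.set → Th y = y) ∧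
    ‖P3 (ctr c.1) - f (ξ c)‖ ≤ rad 3 c.1 ∧
    GoodAt Ω f G p κ (ξ c) (8 * c.1.sz / μ (ξ c)) ∧
    8 * c.1.sz < μ (ξ c) * δ (ξ c) ∧
    Cor Ω (Th ∘ f) (affE f G (ξ c) (P3 (ctr c.1) - yc c) (hm c) (hξ c).2.1) c.1 lamb κ1 κ2

set_option maxHeartbeats 1000000 in
/-- **PREP3.** -/
theorem prep3 {p : ℝ} (hp : 3 ≤ p) {Ω Λ : Set R3} (hΩ : IsOpen Ω) (hΩb : Bornology.IsBounded Ω)
    (hΛ : IsOpen Λ) (hΛb : Bornology.IsBounded Λ) {f : R3 → R3} {G : Fin 3 → R3 → R3}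
    (h : SH p Ω Λ f G) {dsp : R3 → ℝ} (hdc : ContinuousOn dsp Λ) (hdp : ∀ y ∈ Λ, 0 < dsp y)
    {lamb κ1 κ2 : ℝ} (hl : 1 / 2 ≤ lamb) (hl1 : lamb < 1) (hκ1 : 0 < κ1) (hκ2 : 0 ≤ κ2)
    (hκ2' : κ2 ≤ 1 / 4) (hlκ : (1 / 2 + κ2) * lamb < 1 / 2) {κf : ℝ → ℝ} (hκm : Measurable κf)
    (hκp : ∀ m, 0 < m → 0 < κf m) {e : ℝ≥0∞} (he : 0 < e) (o : Fin 3 → ℝ) {u M : ℝ} (hu : 0 < u)
    (hM : 4 / dl (Fin 3) 3 ≤ M) (hM2 : 2 ≤ M) :
    ∃ (F : Set (Bx (Fin 3))) (Th : R3 ≃ₜ R3) (G' : Fin 3 → R3 → R3) (μ κ δ : R3 → ℝ) (O : Set R3)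
      (ξ yc : F → R3) (hξ : ∀ c, ξ c ∈ EE Ω f G p μ κ δ) (hm : ∀ c, 0 < μ (ξ c)),
      Pre3 p Ω Λ f G lamb κ1 κ2 F Th G' μ κ δ O ξ yc hξ hm ∧
      (∀ x ∈ Ω, κ x ≤ κf (μ x)) ∧
      (∀ C ∈ F, Dy o u M C) ∧ (∀ C ∈ F, ∀ z ∈ C.set, C.sz ≤ dsp (P3 z)) ∧
      (∀ y ∈ Λ, ‖Th y - y‖ ≤ dsp y) ∧
      ∫⁻ x in Ω ∩ f ⁻¹' (BadR F O) ∩ {x | (Gmat G x).det ≠ 0}, (1 + ∑ j, ‖G j x‖ₑ ^ p) < e := by
  classical
  have hp0 : 0 < p := by linarith
  have hΛc : (Λᶜ).Nonempty := by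
    by_contra hcon
    rw [not_nonempty_iff_eq_empty, compl_empty_iff] at hcon
    rw [hcon] at hΛb
    exact NormedSpace.unbounded_univ ℝ R3 hΛb
  obtain ⟨K, hKΛ, hK, hKe⟩ := Acr_733.SH.energy_compact hΩ hΛ hΩb h hp0 (ENNReal.half_pos he.ne')
  obtain ⟨τ, hτ, hτe⟩ := Acr_733.SH.ac_rank3 hΩ hΛ hΩb h (by linarith) (ENNReal.half_pos he.ne')
  obtain ⟨d0, hd0, hd0Λ⟩ := hK.exists_cthickening_subset_open hΛ hKΛ
  obtain ⟨w, hw, hwh⟩ := exists_scale hΛ (h := fun y => min (dsp y / 2) (d0 / 2))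
    (low_of_cont hΛ (by fun_prop) (fun y hy => lt_min (by have := hdp y hy; positivity) (by positivity)))
  obtain ⟨η, hη, hη1, hbox⟩ := boxes hΩ hΛ hΛc h.homeo (G := G) (p := p) hw
  set η' : ℝ := min (η / 6 ^ 3) ((1 / 360 / 28) ^ 3) / 2 with hη'
  have hη'0 : 0 < η' := by
    rw [hη']
    have : 0 < min (η / 6 ^ 3) ((1 / 360 / 28 : ℝ) ^ 3) := lt_min (by positivity) (by positivity)
    linarith
  set cc : ℝ≥0∞ := ENNReal.ofReal (5 ^ 3 / η') with hcc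
  have hcc0 : cc ≠ 0 := by rw [hcc, ENNReal.ofReal_ne_zero_iff]; positivity
  have hcct : cc ≠ ∞ := ENNReal.ofReal_ne_top
  set ε : ℝ≥0∞ := τ / cc with hε
  have hε0 : 0 < ε := ENNReal.div_pos hτ.ne' hcct
  obtain ⟨μ, hμ, -, -, hmain⟩ := sel_vol hΩ hΛ hΛb.measure_lt_top.ne h.homeo h.wg hp h.memG
    (ρ := 0) (Measure.AbsolutelyContinuous.zero volume) hε0 hw hη (h₁ := fun _ => 1)
    (fun x _ => ⟨1, one_pos, 1, one_pos, fun _ _ => le_rfl⟩)
  set κ₁ : ℝ := min (min (1 / 32) (κ1 / 64)) ((1 / 2 - (1 / 2 + κ2) * lamb) / 6) with hκ₁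
  have hκ₁0 : 0 < κ₁ := lt_min (lt_min (by norm_num) (by positivity)) (by linarith)
  have hκ₁a : κ₁ ≤ 1 / 32 := (min_le_left _ _).trans (min_le_left _ _)
  have hκ₁b : κ₁ ≤ κ1 / 64 := (min_le_left _ _).trans (min_le_right _ _)
  have hκ₁c : κ₁ ≤ (1 / 2 - (1 / 2 + κ2) * lamb) / 6 := min_le_right _ _
  set κ : R3 → ℝ := fun x => min (κf (μ x)) (κ₁ * μ x / 4) with hκdef
  have hμc := hμ.cont
  obtain ⟨δ, hδ, -, -, hvol, hden⟩ := hmain κ
    ((hκm.comp hμc.measurable).min (by fun_prop))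
    (fun x hx => by
      have := hμ.pos x hx
      exact lt_min (hκp _ this) (by positivity))
    (fun _ => 1) (fun x _ => ⟨1, one_pos, 1, one_pos, fun _ _ => le_rfl⟩)
  have hκ4 : ∀ x ∈ Ω, κ x * 4 ≤ κ₁ * μ x := by
    intro x hx
    have : κ x ≤ κ₁ * μ x / 4 := min_le_right _ _
    linarith
  have hμc := hμ.cont
  have hδc := hδ.cont
  obtain ⟨s₁, hs₁, hs₁h⟩ := exists_s1 hΩ hΛ h.homeo hw (h := fun x => μ x * δ x / 16)
    (by fun_prop) (fun x hx => by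
      have h1 := hμ.pos x hx
      have h2 := hδ.pos x hx
      positivity)
  have hs₁c := hs₁.cont
  -- the constant size near `K`
  obtain ⟨s0, hs0, hs0d, hs0u, hs01, hs0K⟩ : ∃ s0 : ℝ, 0 < s0 ∧ s0 ≤ d0 / 200 ∧ s0 ≤ u ∧ s0 ≤ 1 / 4 ∧
      ∀ q ∈ cthickening d0 K, s0 ≤ s₁ q := by
    have hKc : IsCompact (cthickening d0 K) := hK.cthickening
    obtain ⟨m, hm0, hm⟩ : ∃ m : ℝ, 0 < m ∧ ∀ q ∈ cthickening d0 K, m ≤ s₁ q := by
      rcases (cthickening d0 K).eq_empty_or_nonempty with hem | hne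
      · exact ⟨1, one_pos, fun q hq => by rw [hem] at hq; exact absurd hq (notMem_empty q)⟩
      · obtain ⟨q0, hq0, hmin⟩ := hKc.exists_isMinOn hne hs₁c.continuousOn
        exact ⟨s₁ q0, hs₁.pos _ (hd0Λ hq0), fun q hq => hmin hq⟩
    refine ⟨min (min m (d0 / 200)) (min u (1 / 4)), ?_, ?_, ?_, ?_, ?_⟩
    · exact lt_min (lt_min hm0 (by positivity)) (lt_min hu (by norm_num))
    · exact (min_le_left _ _).trans (min_le_right _ _)
    · exact (min_le_right _ _).trans (min_le_left _ _)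
    · exact (min_le_right _ _).trans (min_le_right _ _)
    · intro q hq
      exact ((min_le_left _ _).trans (min_le_left _ _)).trans (hm q hq)
  -- the foam
  set rho : (Fin 3 → ℝ) → ℝ := fun z => min s0 (s₁ (P3 z)) with hrho
  have hlip : LipschitzWith (1 / 4) rho := by
    have h1 : LipschitzWith (1 / 4) fun z : Fin 3 → ℝ => s₁ (P3 z) := by
      apply LipschitzWith.of_le_add_mul
      intro z z'
      have h1 := hs₁.lip (P3 z) (P3 z')
      have h2 := norm_P3_le (z - z')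
      rw [map_sub] at h2
      rw [dist_eq_norm]
      push_cast
      linarith
    exact h1.const_min s0
  have hLa : ∀ z, 0 < rho z ↔ z ∈ P3 ⁻¹' Λ := by
    intro z
    rw [mem_preimage]
    constructor
    · intro hz
      by_contra hcon
      have h1 : rho z ≤ s₁ (P3 z) := min_le_right _ _
      rw [hs₁.off _ hcon] at h1
      linarith
    · intro hz
      exact lt_min hs0 (hs₁.pos _ hz)
  have hbd : Bornology.IsBounded (P3 ⁻¹' Λ) := by
    have h1 : P3 ⁻¹' Λ = P3.symm '' Λ := by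
      ext z
      rw [mem_preimage, mem_image]
      constructor
      · intro hz; exact ⟨_, hz, P3.symm_apply_apply z⟩
      · rintro ⟨y, hy, rfl⟩; rwa [P3.apply_symm_apply]
    rw [h1]
    exact P3.symm.lipschitz.isBounded_image hΛb
  obtain ⟨F, BF, f1, f2, f3⟩ := exists_foam_bounded_dy o hu hM hM2 hlip hLa hbd
  have f2' : ∀ C ∈ F, ∀ z ∈ C.set, rho z ≤ 15 / 4 * C.sz := by
    intro C hC z hz
    have h1 := f2 C hC z hz
    have h2 : rho z ≤ u := (min_le_left _ _).trans hs0u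
    rw [min_eq_left h2] at h1
    push_cast at h1
    linarith
  have hcmp : Cmp F 4 := by
    have h1 := cmp_of_scale (F := F) f1 f2'
    intro c c' hcc'
    have h2 := h1 c c' hcc'
    have h3 := Bx.sz_pos (BF.pos _ c'.2)
    linarith
  have hgr : Gr F (1 / 180) (15 / 2) := by
    have h1 := Gr.of_rho (F := F) BF.pos (rho := rho) (L := 1 / 4) (K := 15 / 4) (τ := 1 / 180)
      (fun x y => by
        have h1 := hlip.dist_le_mul x y
        rw [Real.dist_eq, dist_eq_norm] at h1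
        have h2 := (abs_le.1 h1).2
        push_cast at h2
        linarith) (by norm_num) f1 f2' (by norm_num) (by norm_num)
    rwa [show (2 : ℝ) * (15 / 4) = 15 / 2 by norm_num] at h1
  have hsz0 : ∀ c ∈ F, c.sz ≤ s0 := fun c hc =>
    (f1 c hc _ (ctr_mem (BF.pos _ hc))).trans (min_le_left _ _)
  have hsz1 : ∀ c ∈ F, ∀ z ∈ c.set, c.sz ≤ s₁ (P3 z) := fun c hc z hz =>
    (f1 c hc z hz).trans (min_le_right _ _)
  have hctr : ∀ c ∈ F, P3 (ctr c) ∈ Λ := fun c hc => BF.sub _ hc (ctr_mem (BF.pos _ hc))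
  have hsz2 : ∀ c ∈ F, c.sz ≤ w (P3 (ctr c)) / 8 := fun c hc =>
    (hsz1 c hc _ (ctr_mem (BF.pos _ hc))).trans (hs₁h _ (hctr c hc)).1
  have hrad0 : ∀ c ∈ F, 0 < rad 3 c := fun c hc => by
    have := Bx.sz_pos (BF.pos _ hc)
    unfold rad; positivity
  have hrad1 : ∀ c ∈ F, rad 3 c ≤ c.sz / 8 := fun c hc => by
    have := Bx.sz_pos (BF.pos _ hc)
    unfold rad; linarith
  obtain ⟨σ, hσ, hσ1, hσ2⟩ := exists_sigma hΛ hw (P := fun c : F => P3 (ctr c.1))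
    (R := fun c : F => rad 3 c.1) (fun c => hrad0 _ c.2) (fun q hq =>
      holes_fin BF (by norm_num) (q := q) (by
        rw [mem_preimage, mem_preimage, ContinuousLinearEquiv.apply_symm_apply]; exact hq))
  obtain ⟨Th, ξ, yc, hξ, hm, hT1, hT2, hT3, hT4, hT5, hbad, hgood⟩ := hbox
    (μ := μ) (κ := κ) (δ := δ) (fun x hx => hμ.pos x hx) hκ₁0.le hκ₁a hκ4 hden hσ rfl BF
    (by norm_num) hl hl1 hκ2 hκ2' (κ1 := κ1) (by linarith) (by linarith)
    (fun c hc => by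
      have h1 := hrad1 c hc
      have h2 := hsz2 c hc
      have h3 := Bx.sz_pos (BF.pos _ hc)
      linarith)
    (fun c hc => hσ1 ⟨c, hc⟩)
    (fun c hc x hx hxf => by
      have h1 := hsz1 c hc _ (ctr_mem (BF.pos _ hc))
      have h2 := (hs₁h _ (hctr c hc)).2 x hx (by
        have := hw.nonneg (P3 (ctr c))
        linarith)
      have h3 := hμ.pos x hx
      have h4 := hδ.pos x hx
      have h5 : 0 < μ x * δ x := by positivity
      linarith)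
  have hlipT : LipschitzWith (25 / 2) Th := by
    apply LipschitzWith.of_dist_le_mul
    intro y y'
    rw [dist_eq_norm, dist_eq_norm]
    have := hT4 y y'
    push_cast
    exact this
  obtain ⟨G', hSH, hcol, htr⟩ := sh_comp hΩ hΩb.measure_lt_top.ne h hT2 hlipT
  set W : Set R3 := {y | y ∈ Λ ∧ σ y / 2 < infDist y (f '' EE Ω f G p μ κ δ)} with hW
  refine ⟨F, Th, G', μ, κ, δ, OO η w W, ξ, yc, hξ, hm, ?_, ?_, f3, ?_, ?_, ?_⟩
  · refine ⟨BF, hcmp, hgr, hT1, hT2, hT4, hSH, ?_, htr, hμ, hδ, isOpen_OO hw η W, OO_subset hw η W,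
      hT5, hbad, ?_⟩
    · filter_upwards [hcol] with x hx hxΩ i
      have := hx hxΩ i
      push_cast at this
      exact this
    · intro c hc
      obtain ⟨g1, g2, g3, g4, g5⟩ := hgood c hc
      have hσc : σ (P3 (ctr c.1)) ≤ rad 3 c.1 := hσ1 c _ (by
        rw [sub_self, norm_zero]
        have := hw.nonneg (P3 (ctr c.1))
        positivity)
      refine ⟨g1, g2, (g3.trans_le hσc).le, g4, ?_, g5⟩
      have h1 := hsz1 c.1 c.2 _ (ctr_mem (BF.pos _ c.2))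
      have hξΩ := (hξ c).1
      have h2 := (hs₁h _ (hctr c.1 c.2)).2 (ξ c) hξΩ (by
        rw [norm_sub_rev]
        have h3 := hrad1 c.1 c.2
        have h4 := hsz2 c.1 c.2
        have h5 := Bx.sz_pos (BF.pos _ c.2)
        linarith)
      have h3 := hμ.pos _ hξΩ
      have h4 := hδ.pos _ hξΩ
      have h5 : 0 < μ (ξ c) * δ (ξ c) := by positivity
      linarith
  · intro x hx
    exact min_le_left _ _
  · intro C hC z hz
    have h1 := hsz1 C hC z hz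
    have hzΛ : P3 z ∈ Λ := BF.sub _ hC hz
    have h2 := (hs₁h _ hzΛ).1
    have h3 := hwh _ hzΛ
    have h4 : min (dsp (P3 z) / 2) (d0 / 2) ≤ dsp (P3 z) / 2 := min_le_left _ _
    have h5 := hdp _ hzΛ
    have h6 := hw.nonneg (P3 z)
    linarith
  · intro y hy
    have h1 := hT3 y
    have h3 := hwh _ hy
    have h4 : min (dsp y / 2) (d0 / 2) ≤ dsp y / 2 := min_le_left _ _
    have h5 := hdp _ hy
    linarith
  · refine bad_energy hKe hτe hd0 hd0Λ hw (fun x hx => (hwh x hx).trans (min_le_right _ _)) hs0 hs0d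
      hs01 BF hsz0 ?_ hσ hσ2 rfl hη ?_
    · intro c hc hcK
      have h1 := f2' c hc _ (ctr_mem (BF.pos _ hc))
      have h2 : s0 ≤ rho (ctr c) := le_min le_rfl (hs0K _ hcK)
      linarith
    · calc cc * volume (Λ \ f '' EE Ω f G p μ κ δ) < cc * ε := by
            exact (ENNReal.mul_lt_mul_iff_right hcc0 hcct).2 hvol
        _ = τ := ENNReal.mul_div_cancel hcc0 hcct

end Crest.Agent.R096.Prep_766
end

-- ▼ part R096/Rg3a_766
section

/-!
Row 96 (S0127), helper766.  Range `p ≥ 3`, part a: rational affine maps close to a given one.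
-/

set_option autoImplicit false
set_option linter.unusedSectionVars false
set_option linter.style.longLine false
set_option linter.style.haveILetI false
set_option linter.unusedVariables false

namespace Crest.Agent.R096.Rg3_766

open MeasureTheory Set Filter Topology Metric
open scoped ENNReal NNReal
open Crest.Agent.R096.SkC1_961 (E3 Hom3)
open Crest.Agent.R096.EaX_766

noncomputable section

lemma exists_rat_near' (x : ℝ) {ε : ℝ} (hε : 0 < ε) : ∃ q : ℚ, |(q : ℝ) - x| ≤ ε := by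
  obtain ⟨q, hq⟩ := exists_rat_near x hε
  exact ⟨q, by rw [abs_sub_comm]; exact hq.le⟩

/-- the linear map with matrix `a`. -/
def matL (a : Fin 3 → Fin 3 → ℝ) : E3 →L[ℝ] E3 :=
  ContinuousLinearMap.pi fun k => ∑ j, a k j • ContinuousLinearMap.proj (R := ℝ) (φ := fun _ : Fin 3 => ℝ) j

lemma matL_apply (a : Fin 3 → Fin 3 → ℝ) (v : E3) (k : Fin 3) : matL a v k = ∑ j, a k j * v j := by
  simp [matL]

lemma norm_matL_sub_le {a : Fin 3 → Fin 3 → ℝ} {B : E3 →L[ℝ] E3} {ε : ℝ} (hε : 0 ≤ ε)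
    (h : ∀ k j, |a k j - B (Pi.single j 1) k| ≤ ε) : ‖matL a - B‖ ≤ 3 * ε := by
  refine ContinuousLinearMap.opNorm_le_bound _ (by positivity) fun v => ?_
  rw [pi_norm_le_iff_of_nonneg (by positivity)]
  intro k
  have h1 : v = ∑ i, v i • (Pi.single i (1 : ℝ) : E3) := by
    funext k
    simp [Finset.sum_apply, Pi.single_apply]
  have h2 : B v k = ∑ j, B (Pi.single j 1) k * v j := by
    conv_lhs => rw [h1]
    rw [map_sum, Finset.sum_apply]
    refine Finset.sum_congr rfl fun j _ => ?_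
    rw [map_smul, Pi.smul_apply, smul_eq_mul, mul_comm]
  have h3 : (matL a - B) v k = ∑ j, (a k j - B (Pi.single j 1) k) * v j := by
    have : (matL a - B) v k = matL a v k - B v k := rfl
    rw [this, matL_apply, h2, ← Finset.sum_sub_distrib]
    exact Finset.sum_congr rfl fun j _ => by ring
  rw [h3, Real.norm_eq_abs]
  calc |∑ j, (a k j - B (Pi.single j 1) k) * v j| ≤ ∑ j, |(a k j - B (Pi.single j 1) k) * v j| :=
        Finset.abs_sum_le_sum_abs _ _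
    _ ≤ ∑ _j : Fin 3, ε * ‖v‖ := by
        refine Finset.sum_le_sum fun j _ => ?_
        rw [abs_mul]
        have h4 : |v j| ≤ ‖v‖ := by
          rw [← Real.norm_eq_abs]; exact norm_le_pi_norm v j
        exact mul_le_mul (h k j) h4 (abs_nonneg _) hε
    _ = 3 * ε * ‖v‖ := by simp; ring

/-- **rational approximation** of an affine isomorphism. -/
theorem exists_ratA (o : E3) {u : ℝ} (hu : 0 < u) {B : E3 →L[ℝ] E3} {m : ℝ} (hm : 0 < m)
    (hB : ∀ v, m * ‖v‖ ≤ ‖B v‖) (x0 y0 : E3) {ε : ℝ} (hε : 0 < ε) (hεm : ε ≤ m / 2) :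
    ∃ A : E3 ≃ᵃ[ℝ] E3, RatA o u A ∧ ‖lin A - B‖ ≤ ε ∧ ‖A x0 - y0‖ ≤ ε ∧
      (∀ x x', A x - A x' = lin A (x - x')) ∧ (∀ v, m / 2 * ‖v‖ ≤ ‖lin A v‖) ∧
      ‖lin A.symm‖ ≤ 2 / m ∧ (∀ v, lin A.symm (lin A v) = v) ∧ (∀ v, lin A (lin A.symm v) = v) := by
  have h1 : ∀ k j, ∃ q : ℚ, |(q : ℝ) - B (Pi.single j 1) k / u| ≤ ε / (3 * u) := fun k j =>
    exists_rat_near' _ (by positivity)
  choose L hL using h1
  set a : Fin 3 → Fin 3 → ℝ := fun k j => u * L k j with ha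
  have h2 : ∀ k j, |a k j - B (Pi.single j 1) k| ≤ ε / 3 := by
    intro k j
    have h3 : a k j - B (Pi.single j 1) k = u * ((L k j : ℝ) - B (Pi.single j 1) k / u) := by
      rw [ha]; field_simp
    rw [h3, abs_mul, abs_of_pos hu]
    calc u * |(L k j : ℝ) - B (Pi.single j 1) k / u| ≤ u * (ε / (3 * u)) := by
          gcongr; exact hL k j
      _ = ε / 3 := by field_simp
  have h3 : ‖matL a - B‖ ≤ ε := by
    have := norm_matL_sub_le (by positivity) h2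
    linarith
  have hlow : ∀ v, m / 2 * ‖v‖ ≤ ‖matL a v‖ := by
    intro v
    have h4 : ‖(matL a - B) v‖ ≤ ε * ‖v‖ := (matL a - B).le_of_opNorm_le h3 v
    have h5 : B v = matL a v - (matL a - B) v := by
      have : (matL a - B) v = matL a v - B v := rfl
      rw [this]; abel
    have h6 : ‖B v‖ ≤ ‖matL a v‖ + ‖(matL a - B) v‖ := by
      conv_lhs => rw [h5]
      exact norm_sub_le _ _
    have h7 := hB v
    have h8 : ε * ‖v‖ ≤ m / 2 * ‖v‖ := by gcongr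
    linarith
  have hinj : Function.Injective (matL a : E3 →ₗ[ℝ] E3) := by
    rw [injective_iff_map_eq_zero]
    intro v hv
    have h4 := hlow v
    have h5 : matL a v = 0 := hv
    rw [h5, norm_zero] at h4
    have h6 : ‖v‖ ≤ 0 := by
      by_contra hcon
      have := mul_pos (half_pos hm) (not_le.1 hcon)
      linarith
    exact norm_le_zero_iff.1 h6
  set E : E3 ≃ₗ[ℝ] E3 := LinearEquiv.ofInjectiveEndo (matL a : E3 →ₗ[ℝ] E3) hinj with hE
  have hEa : ∀ v, E v = matL a v := fun v => rfl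
  have h4 : ∀ k, ∃ q : ℚ, |(q : ℝ) - ((y0 - matL a x0) k - o k) / u| ≤ ε / u := fun k =>
    exists_rat_near' _ (by positivity)
  choose v hv using h4
  set f : E3 → E3 := fun x => fun k => o k + u * (∑ j, (L k j : ℝ) * x j + v k) with hf
  have hfm : ∀ x, f x = matL a x + fun k => o k + u * v k := by
    intro x
    funext k
    rw [hf, Pi.add_apply, matL_apply]
    simp only [ha, mul_add, Finset.mul_sum]
    have : ∑ j, u * ((L k j : ℝ) * x j) = ∑ j, u * (L k j : ℝ) * x j :=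
      Finset.sum_congr rfl fun j _ => by ring
    rw [this]; ring
  set A : E3 ≃ᵃ[ℝ] E3 := AffineEquiv.mk' f E 0 (by
    intro x
    rw [hEa, hfm, hfm 0, vsub_eq_sub, vadd_eq_add, sub_zero, map_zero, zero_add]) with hA
  have hAf : ∀ x, A x = f x := fun x => rfl
  have hlin : lin A = matL a := by
    ext1 x
    rfl
  have hsub : ∀ x x', A x - A x' = lin A (x - x') := by
    intro x x'
    rw [hAf, hAf, hfm, hfm, hlin, map_sub]
    abel
  have hs1 : ∀ v, lin A.symm (lin A v) = v := fun v => E.symm_apply_apply v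
  have hs2 : ∀ v, lin A (lin A.symm v) = v := fun v => E.apply_symm_apply v
  refine ⟨A, ⟨L, v, fun x k => rfl⟩, by rw [hlin]; exact h3, ?_, hsub, by rw [hlin]; exact hlow, ?_,
    hs1, hs2⟩
  · rw [hAf, hfm, pi_norm_le_iff_of_nonneg hε.le]
    intro k
    have h5 : (matL a x0 + (fun k => o k + u * (v k : ℝ)) - y0) k =
        u * ((v k : ℝ) - ((y0 - matL a x0) k - o k) / u) := by
      simp only [Pi.add_apply, Pi.sub_apply]
      field_simp
      ring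
    rw [h5, Real.norm_eq_abs, abs_mul, abs_of_pos hu]
    calc u * |(v k : ℝ) - ((y0 - matL a x0) k - o k) / u| ≤ u * (ε / u) := by gcongr; exact hv k
      _ = ε := by field_simp
  · refine ContinuousLinearMap.opNorm_le_bound _ (by positivity) fun w => ?_
    have h5 := hlow (lin A.symm w)
    rw [← hlin, hs2] at h5
    rw [div_mul_eq_mul_div, le_div_iff₀ hm]
    linarith

/-- bound of the determinant. -/
theorem abs_det_le (B : E3 →L[ℝ] E3) : |B.det| ≤ ‖B‖ ^ 3 := by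
  have h1 : volume (B '' ball (0 : E3) 1) = ENNReal.ofReal |B.det| * volume (ball (0 : E3) 1) :=
    Measure.addHaar_image_continuousLinearMap _ _ _
  have h2 : B '' ball (0 : E3) 1 ⊆ closedBall (0 : E3) ‖B‖ := by
    rintro _ ⟨x, hx, rfl⟩
    rw [mem_ball_zero_iff] at hx
    rw [mem_closedBall_zero_iff]
    calc ‖B x‖ ≤ ‖B‖ * ‖x‖ := B.le_opNorm x
      _ ≤ ‖B‖ * 1 := by gcongr
      _ = ‖B‖ := mul_one _
  have h3 := measure_mono (μ := (volume : Measure E3)) h2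
  rw [h1, Measure.addHaar_closedBall _ _ (norm_nonneg _)] at h3
  have h4 : (volume : Measure E3) (ball (0 : E3) 1) ≠ 0 := (measure_ball_pos _ _ one_pos).ne'
  have h5 : (volume : Measure E3) (ball (0 : E3) 1) ≠ ∞ := measure_ball_lt_top.ne
  have h6 := (ENNReal.mul_le_mul_iff_left h4 h5).1 h3
  have h7 : Module.finrank ℝ E3 = 3 := by simp [E3]
  rw [h7] at h6
  exact (ENNReal.ofReal_le_ofReal_iff (by positivity)).1 h6

/-- `lin A` has non-zero determinant; volumes of preimages. -/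
theorem vol_preimage (A : E3 ≃ᵃ[ℝ] E3) (S : Set E3) :
    ENNReal.ofReal |(lin A).det| * volume (A ⁻¹' S) = volume S := by
  have h1 : A '' (A ⁻¹' S) = S := by
    rw [image_preimage_eq _ A.surjective]
  have h2 : ∀ x, A x = A 0 + lin A x := by
    intro x
    have h3 := A.toAffineMap.linearMap_vsub x 0
    have h4 : A x - A 0 = lin A x := by
      have h5 : lin A x = (A : E3 →ᵃ[ℝ] E3).linear (x - 0) := by rw [sub_zero]; rfl
      rw [h5]
      exact h3.symm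
    rw [← h4]; abel
  have h3 : (A '' (A ⁻¹' S)) = (fun y => A 0 + y) '' (lin A '' (A ⁻¹' S)) := by
    rw [image_image]
    exact image_congr fun x _ => h2 x
  rw [← Measure.addHaar_image_continuousLinearMap (volume : Measure E3) (lin A) (A ⁻¹' S)]
  have h4 : volume ((fun y => A 0 + y) '' (lin A '' (A ⁻¹' S))) = volume (lin A '' (A ⁻¹' S)) := by
    rw [image_add_left]
    exact measure_preimage_add _ _ _
  rw [← h4, ← h3, h1]

end

end Crest.Agent.R096.Rg3_766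
end

-- ▼ part R096/Rg3b_766
section

/-!
Row 96 (S0127), helper766.  Range `p ≥ 3`, part b: `ExIn` of a brick from the closeness to a real
affine map.
-/

set_option autoImplicit false
set_option linter.unusedSectionVars false
set_option linter.style.longLine false
set_option linter.style.haveILetI false
set_option linter.unusedVariables false

namespace Crest.Agent.R096.Rg3_766

open MeasureTheory Set Filter Topology Metric
open scoped ENNReal NNReal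
open Crest.Agent.R096.SkC1_961 (E3 Hom3)
open Crest.Agent.R096.EaX_766 Crest.Agent.R096.Bsp_628
open Crest.Agent.R096.Bxs_627 (ctr)

noncomputable section

lemma add_rpow_le (a b : ℝ≥0∞) {p : ℝ} (hp : 0 ≤ p) : (a + b) ^ p ≤ 2 ^ p * (a ^ p + b ^ p) := by
  have h1 : a + b ≤ 2 * max a b := by
    rw [two_mul]
    exact add_le_add (le_max_left _ _) (le_max_right _ _)
  calc (a + b) ^ p ≤ (2 * max a b) ^ p := ENNReal.rpow_le_rpow h1 hp
    _ = 2 ^ p * (max a b) ^ p := ENNReal.mul_rpow_of_nonneg _ _ hp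
    _ ≤ 2 ^ p * (a ^ p + b ^ p) := by
        gcongr
        rcases le_total a b with h | h
        · rw [max_eq_right h]; exact le_add_self
        · rw [max_eq_left h]; exact le_self_add

lemma cbx_mono {Q : Bx (Fin 3)} (hQ : Q.Pos) {a b : ℝ} (h : a ≤ b) : cbx Q a ⊆ cbx Q b := by
  intro y hy k
  have h1 := Bx.side_pos hQ k
  refine (hy k).trans ?_
  have : a * Q.side k ≤ b * Q.side k := by gcongr
  linarith

lemma norm_sub_of_cbx {Q : Bx (Fin 3)} (hQ : Q.Pos) {a : ℝ} (ha : 0 ≤ a) {y : E3} (hy : y ∈ cbx Q a) :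
    ‖y - ctr Q‖ ≤ a * Q.sz / 2 := by
  have hs := Bx.sz_pos hQ
  rw [pi_norm_le_iff_of_nonneg (by positivity)]
  intro k
  rw [Pi.sub_apply, Real.norm_eq_abs]
  refine (hy k).trans ?_
  have h1 := Q.side_le_sz k
  have : a * Q.side k ≤ a * Q.sz := by gcongr
  linarith

lemma cbx_near {Q : Bx (Fin 3)} {κ0 : ℝ} (asp : ∀ i, Q.sz ≤ κ0 * Q.side i) {a η : ℝ} (hη : 0 ≤ η)
    {y y' : E3} (hy : y ∈ cbx Q a) (h : ‖y' - y‖ ≤ η * Q.sz) : y' ∈ cbx Q (a + 2 * κ0 * η) := by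
  intro k
  have h1 := norm_le_pi_norm (y' - y) k
  rw [Pi.sub_apply, Real.norm_eq_abs] at h1
  have h2 := hy k
  have h3 : |y' k - ctr Q k| ≤ |y' k - y k| + |y k - ctr Q k| := abs_sub_le _ _ _
  have h4 : η * Q.sz ≤ η * (κ0 * Q.side k) := mul_le_mul_of_nonneg_left (asp k) hη
  have h5 : (a + 2 * κ0 * η) * Q.side k / 2 = a * Q.side k / 2 + η * (κ0 * Q.side k) := by ring
  rw [h5]
  linarith

lemma vol_cbx_le {Q : Bx (Fin 3)} (hQ : Q.Pos) {a : ℝ} (ha : 0 ≤ a) (ha2 : a ≤ 2) :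
    volume (cbx Q a) ≤ ENNReal.ofReal (8 * Q.sz ^ 3) := by
  have hs := Bx.sz_pos hQ
  have h1 : cbx Q a ⊆ closedBall (ctr Q) Q.sz := by
    intro y hy
    rw [mem_closedBall, dist_eq_norm]
    have := norm_sub_of_cbx hQ ha hy
    have h2 : a * Q.sz ≤ 2 * Q.sz := by gcongr
    linarith
  refine (measure_mono h1).trans (le_of_eq ?_)
  rw [Real.volume_pi_closedBall _ hs.le, Fintype.card_fin]
  congr 1
  ring

/-- **`ExIn` from the closeness to a real affine map.** -/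
theorem exIn_of {p : ℝ} (hp : 1 ≤ p) {Om : Set E3} {f : E3 → E3} {D : E3 → E3 →L[ℝ] E3} (o : E3)
    {u : ℝ} (hu : 0 < u) {Q : Bx (Fin 3)} (hQ : Q.Pos) (asp : ∀ i, Q.sz ≤ 3 * Q.side i)
    {B : E3 →L[ℝ] E3} {m : ℝ} (hm : 0 < m) (hm1 : m ≤ 1) (hB : ∀ v, m * ‖v‖ ≤ ‖B v‖)
    (hBn : ‖B‖ ≤ 1 / m) {x0 y0 : E3} (hy0 : ‖y0 - ctr Q‖ ≤ Q.sz) {a κ₁ θ lam κ1 κ2 : ℝ}
    (hκ₁ : 0 < κ₁) (hκ₁' : κ₁ ≤ 1 / 8) (ha0 : 0 ≤ a) (ha2 : a ≤ 2) (hlam : 0 < lam) (hκ2 : 0 ≤ κ2)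
    (hgap : (1 + 2 * κ2) * lam + 6 * κ₁ ≤ a) (hκ1 : 2 * κ₁ ≤ κ1 * lam)
    (H : ∀ x, (x ∈ Om ∧ f x ∈ cbx Q a) ∨ (y0 + B (x - x0) ∈ cbx Q a) →
      x ∈ Om ∧ ‖f x - (y0 + B (x - x0))‖ ≤ κ₁ * Q.sz)
    (hθ0 : 0 ≤ θ) (hθ : 2 * ((4 / m) ^ p * (8 / m ^ 3 * θ)) ≤ κ1 * (lam * Q.sz) ^ 3)
    (HL : ∫⁻ x in {x | y0 + B (x - x0) ∈ cbx Q a}, ‖D x - B‖ₑ ^ p ≤ ENNReal.ofReal θ)
    {ε0 : ℝ} (hε0 : 0 < ε0) :
    ∃ A : E3 ≃ᵃ[ℝ] E3, ExIn p Om f D o u κ1 κ2 Q A lam ∧ ‖lin A - B‖ ≤ ε0 ∧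
      (∀ v, m / 2 * ‖v‖ ≤ ‖lin A v‖) ∧
      (∀ b, b ≤ a → ∀ x ∈ Om, f x ∈ cbx Q b → A x ∈ cbx Q (b + 12 * κ₁)) := by
  have hs := Bx.sz_pos hQ
  have hp0 : 0 ≤ p := by linarith
  have hlam1 : lam ≤ a := by nlinarith
  have hκ1p : 0 < κ1 := by
    by_contra hcon
    push Not at hcon
    nlinarith
  set ε : ℝ := min (min (min ε0 (m / 2)) (min 1 Q.sz))
    (min (κ₁ * Q.sz / (1 + 6 * Q.sz / m)) (κ1 * lam ^ 3 / (16 * (4 / m) ^ p))) with hε
  have h4p : (0 : ℝ) < (4 / m) ^ p := Real.rpow_pos_of_pos (by positivity) p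
  have hε0' : 0 < ε := by
    rw [hε]
    refine lt_min (lt_min (lt_min hε0 (by positivity)) (lt_min one_pos hs)) (lt_min ?_ ?_)
    · positivity
    · positivity
  have e1 : ε ≤ ε0 := ((min_le_left _ _).trans (min_le_left _ _)).trans (min_le_left _ _)
  have e2 : ε ≤ m / 2 := ((min_le_left _ _).trans (min_le_left _ _)).trans (min_le_right _ _)
  have e3 : ε ≤ 1 := ((min_le_left _ _).trans (min_le_right _ _)).trans (min_le_left _ _)
  have e4 : ε ≤ Q.sz := ((min_le_left _ _).trans (min_le_right _ _)).trans (min_le_right _ _)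
  have e5 : ε * (1 + 6 * Q.sz / m) ≤ κ₁ * Q.sz := by
    rw [← le_div_iff₀ (by positivity)]
    exact (min_le_right _ _).trans (min_le_left _ _)
  have e6 : ε * (16 * (4 / m) ^ p) ≤ κ1 * lam ^ 3 := by
    rw [← le_div_iff₀ (by positivity)]
    exact (min_le_right _ _).trans (min_le_right _ _)
  obtain ⟨A, hrat, hAB, hA0, hAs, hAl, hAi, hAi1, hAi2⟩ := exists_ratA o hu hm hB x0 y0 hε0' e2
  -- closeness of `A` to the real map
  have hclose : ∀ x, ‖x - x0‖ ≤ 6 * Q.sz / m → ‖A x - (y0 + B (x - x0))‖ ≤ κ₁ * Q.sz := by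
    intro x hx
    have h1 : A x - (y0 + B (x - x0)) = (A x0 - y0) + (lin A - B) (x - x0) := by
      have h2 := hAs x x0
      have h3 : (lin A - B) (x - x0) = lin A (x - x0) - B (x - x0) := rfl
      rw [h3, ← h2]; abel
    rw [h1]
    calc ‖(A x0 - y0) + (lin A - B) (x - x0)‖ ≤ ‖A x0 - y0‖ + ‖(lin A - B) (x - x0)‖ := norm_add_le _ _
      _ ≤ ε + ε * (6 * Q.sz / m) := by
          gcongr
          exact ((lin A - B).le_of_opNorm_le hAB _).trans (by gcongr)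
      _ = ε * (1 + 6 * Q.sz / m) := by ring
      _ ≤ κ₁ * Q.sz := e5
  have hfar1 : ∀ x, ‖y0 + B (x - x0) - ctr Q‖ ≤ 2 * Q.sz → ‖x - x0‖ ≤ 6 * Q.sz / m := by
    intro x hx
    have h1 := hB (x - x0)
    have h2 : B (x - x0) = (y0 + B (x - x0) - ctr Q) - (y0 - ctr Q) := by abel
    have h3 : ‖B (x - x0)‖ ≤ 2 * Q.sz + Q.sz := by
      rw [h2]
      exact (norm_sub_le _ _).trans (add_le_add hx hy0)
    rw [le_div_iff₀ hm]
    linarith
  have hfar2 : ∀ x, ‖A x - ctr Q‖ ≤ Q.sz → ‖x - x0‖ ≤ 6 * Q.sz / m := by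
    intro x hx
    have h1 := hAl (x - x0)
    have h2 : lin A (x - x0) = (A x - ctr Q) - (y0 - ctr Q) - (A x0 - y0) := by
      rw [← hAs x x0]; abel
    have h3 : ‖lin A (x - x0)‖ ≤ Q.sz + Q.sz + Q.sz := by
      rw [h2]
      refine (norm_sub_le _ _).trans (add_le_add ((norm_sub_le _ _).trans (add_le_add hx hy0)) ?_)
      exact hA0.trans e4
    rw [le_div_iff₀ hm]
    linarith
  have hin : ∀ x, y0 + B (x - x0) ∈ cbx Q a → ‖x - x0‖ ≤ 6 * Q.sz / m := fun x hx => hfar1 x (by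
    have := norm_sub_of_cbx hQ ha0 hx
    have h2 : a * Q.sz ≤ 2 * Q.sz := by gcongr
    linarith)
  -- `A x` in the enlarged box
  have hA2 : ∀ x, A x ∈ cbx Q ((1 + 2 * κ2) * lam) → y0 + B (x - x0) ∈ cbx Q a := by
    intro x hx
    have h0 : (1 + 2 * κ2) * lam ≤ 2 := by linarith
    have h0' : 0 ≤ (1 + 2 * κ2) * lam := by positivity
    have h1 : ‖x - x0‖ ≤ 6 * Q.sz / m := hfar2 x (by
      have := norm_sub_of_cbx hQ h0' hx
      have h2 : (1 + 2 * κ2) * lam * Q.sz ≤ 2 * Q.sz := by gcongr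
      linarith)
    have h2 := hclose x h1
    rw [norm_sub_rev] at h2
    have h3 := cbx_near asp hκ₁.le hx h2
    exact cbx_mono hQ (by linarith) h3
  have hmain : ∀ x, (x ∈ Om ∧ f x ∈ cbx Q a) ∨ (y0 + B (x - x0) ∈ cbx Q a) →
      x ∈ Om ∧ ‖f x - A x‖ ≤ 2 * κ₁ * Q.sz := by
    intro x hx
    obtain ⟨h1, h2⟩ := H x hx
    refine ⟨h1, ?_⟩
    have h3 : ‖x - x0‖ ≤ 6 * Q.sz / m := by
      rcases hx with ⟨-, hx⟩ | hx
      · refine hfar1 x ?_
        have h4 := norm_sub_of_cbx hQ ha0 hx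
        have h5 : y0 + B (x - x0) - ctr Q = (f x - ctr Q) - (f x - (y0 + B (x - x0))) := by abel
        rw [h5]
        refine (norm_sub_le _ _).trans ?_
        have h6 : a * Q.sz ≤ 2 * Q.sz := by gcongr
        have h7 : κ₁ * Q.sz ≤ 1 / 8 * Q.sz := by gcongr
        linarith
      · exact hin x hx
    have h4 := hclose x h3
    have h5 : f x - A x = (f x - (y0 + B (x - x0))) - (A x - (y0 + B (x - x0))) := by abel
    rw [h5]
    refine (norm_sub_le _ _).trans ?_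
    linarith
  refine ⟨A, ⟨hrat, ?_, ?_⟩, hAB.trans e1, hAl, ?_⟩
  · intro x hx
    have h1 := hmain x (hx.imp (fun h => ⟨h.1, cbx_mono hQ hlam1 h.2⟩) (hA2 x))
    refine ⟨h1.1, h1.2.trans ?_⟩
    calc 2 * κ₁ * Q.sz ≤ κ1 * lam * Q.sz := by gcongr
      _ = κ1 * (lam * Q.sz) := by ring
  · set S : Set E3 := A ⁻¹' cbx Q ((1 + 2 * κ2) * lam) with hS
    have hSsub : S ⊆ {x | y0 + B (x - x0) ∈ cbx Q a} := fun x hx => hA2 x hx
    have hpt : ∀ x, ‖(D x).comp (lin A.symm) - ContinuousLinearMap.id ℝ E3‖ₑ ^ p ≤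
        ENNReal.ofReal ((4 / m) ^ p) * (‖D x - B‖ₑ ^ p + ENNReal.ofReal ε) := by
      intro x
      have h1 : (D x).comp (lin A.symm) - ContinuousLinearMap.id ℝ E3 =
          (D x - lin A).comp (lin A.symm) := by
        ext1 v
        simp only [sub_apply, ContinuousLinearMap.comp_apply,
          ContinuousLinearMap.id_apply, hAi2]
      have h2 : ‖(D x).comp (lin A.symm) - ContinuousLinearMap.id ℝ E3‖ ≤
          2 / m * (‖D x - B‖ + ε) := by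
        rw [h1]
        calc ‖(D x - lin A).comp (lin A.symm)‖ ≤ ‖D x - lin A‖ * ‖lin A.symm‖ :=
              ContinuousLinearMap.opNorm_comp_le _ _
          _ ≤ (‖D x - B‖ + ε) * (2 / m) := by
              gcongr
              have h3 : D x - lin A = (D x - B) - (lin A - B) := by abel
              rw [h3]
              exact (norm_sub_le _ _).trans (by gcongr)
          _ = 2 / m * (‖D x - B‖ + ε) := by ring
      have h3 : ‖(D x).comp (lin A.symm) - ContinuousLinearMap.id ℝ E3‖ₑ ≤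
          ENNReal.ofReal (2 / m) * (‖D x - B‖ₑ + ENNReal.ofReal ε) := by
        rw [← ofReal_norm, ← ofReal_norm, ← ENNReal.ofReal_add (norm_nonneg _) hε0'.le,
          ← ENNReal.ofReal_mul (by positivity)]
        exact ENNReal.ofReal_le_ofReal h2
      have h5 : ENNReal.ofReal ε ^ p ≤ ENNReal.ofReal ε := by
        conv_rhs => rw [← ENNReal.rpow_one (ENNReal.ofReal ε)]
        exact ENNReal.rpow_le_rpow_of_exponent_ge (ENNReal.ofReal_le_one.2 e3) hp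
      have h6 : ENNReal.ofReal (2 / m) ^ p * 2 ^ p = ENNReal.ofReal ((4 / m) ^ p) := by
        have h7 : (2 : ℝ≥0∞) = ENNReal.ofReal 2 := by norm_num
        rw [h7, ← ENNReal.mul_rpow_of_nonneg _ _ hp0, ← ENNReal.ofReal_mul (by positivity),
          ENNReal.ofReal_rpow_of_nonneg (by positivity) hp0]
        congr 2
        ring
      calc ‖(D x).comp (lin A.symm) - ContinuousLinearMap.id ℝ E3‖ₑ ^ p
          ≤ (ENNReal.ofReal (2 / m) * (‖D x - B‖ₑ + ENNReal.ofReal ε)) ^ p :=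
            ENNReal.rpow_le_rpow h3 hp0
        _ = ENNReal.ofReal (2 / m) ^ p * (‖D x - B‖ₑ + ENNReal.ofReal ε) ^ p :=
            ENNReal.mul_rpow_of_nonneg _ _ hp0
        _ ≤ ENNReal.ofReal (2 / m) ^ p * (2 ^ p * (‖D x - B‖ₑ ^ p + ENNReal.ofReal ε ^ p)) := by
            gcongr
            exact add_rpow_le _ _ hp0
        _ = ENNReal.ofReal ((4 / m) ^ p) * (‖D x - B‖ₑ ^ p + ENNReal.ofReal ε ^ p) := by
            rw [← mul_assoc, h6]
        _ ≤ ENNReal.ofReal ((4 / m) ^ p) * (‖D x - B‖ₑ ^ p + ENNReal.ofReal ε) := by gcongr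
    have hdet : |(lin A).det| ≤ 8 / m ^ 3 := by
      refine (abs_det_le _).trans ?_
      have h1 : ‖lin A‖ ≤ 2 / m := by
        have h2 : lin A = B + (lin A - B) := by abel
        rw [h2]
        refine (norm_add_le _ _).trans ?_
        have h3 : ε ≤ 1 / m := by
          refine e3.trans ?_
          rw [le_div_iff₀ hm]; linarith
        have h4 : (2 : ℝ) / m = 1 / m + 1 / m := by ring
        rw [h4]
        exact add_le_add hBn (hAB.trans h3)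
      calc ‖lin A‖ ^ 3 ≤ (2 / m) ^ 3 := by gcongr
        _ = 8 / m ^ 3 := by rw [div_pow]; norm_num
    have hvolS : ENNReal.ofReal |(lin A).det| * volume S ≤ ENNReal.ofReal (8 * Q.sz ^ 3) := by
      rw [hS, vol_preimage]
      exact vol_cbx_le hQ (by positivity) (by linarith)
    calc ENNReal.ofReal |(lin A).det| * ∫⁻ x in S,
          ‖(D x).comp (lin A.symm) - ContinuousLinearMap.id ℝ E3‖ₑ ^ p
        ≤ ENNReal.ofReal |(lin A).det| * ∫⁻ x in S,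
          ENNReal.ofReal ((4 / m) ^ p) * (‖D x - B‖ₑ ^ p + ENNReal.ofReal ε) := by
          gcongr with x
          exact hpt x
      _ = ENNReal.ofReal |(lin A).det| * (ENNReal.ofReal ((4 / m) ^ p) *
          ((∫⁻ x in S, ‖D x - B‖ₑ ^ p) + ENNReal.ofReal ε * volume S)) := by
          rw [lintegral_const_mul' _ _ ENNReal.ofReal_ne_top, lintegral_add_right' _ aemeasurable_const,
            lintegral_const, Measure.restrict_apply_univ]
      _ = ENNReal.ofReal ((4 / m) ^ p) * (ENNReal.ofReal |(lin A).det| * (∫⁻ x in S, ‖D x - B‖ₑ ^ p) +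
          ENNReal.ofReal ε * (ENNReal.ofReal |(lin A).det| * volume S)) := by ring
      _ ≤ ENNReal.ofReal ((4 / m) ^ p) * (ENNReal.ofReal (8 / m ^ 3) * ENNReal.ofReal θ +
          ENNReal.ofReal ε * ENNReal.ofReal (8 * Q.sz ^ 3)) := by
          gcongr
          exact (lintegral_mono_set hSsub).trans HL
      _ = ENNReal.ofReal ((4 / m) ^ p * (8 / m ^ 3 * θ + ε * (8 * Q.sz ^ 3))) := by
          rw [ENNReal.ofReal_mul h4p.le, ENNReal.ofReal_add (by positivity) (by positivity),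
            ENNReal.ofReal_mul (show 0 ≤ 8 / m ^ 3 by positivity), ENNReal.ofReal_mul hε0'.le]
      _ ≤ ENNReal.ofReal (κ1 * (lam * Q.sz) ^ 3) := by
          apply ENNReal.ofReal_le_ofReal
          have h1 : (4 / m) ^ p * (ε * (8 * Q.sz ^ 3)) = ε * (16 * (4 / m) ^ p) * Q.sz ^ 3 / 2 := by ring
          have h2 : ε * (16 * (4 / m) ^ p) * Q.sz ^ 3 ≤ κ1 * lam ^ 3 * Q.sz ^ 3 := by gcongr
          have h3 : κ1 * lam ^ 3 * Q.sz ^ 3 = κ1 * (lam * Q.sz) ^ 3 := by ring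
          have h4 : (4 / m) ^ p * (8 / m ^ 3 * θ + ε * (8 * Q.sz ^ 3)) =
            (4 / m) ^ p * (8 / m ^ 3 * θ) + (4 / m) ^ p * (ε * (8 * Q.sz ^ 3)) := by ring
          rw [h4, h1]
          linarith
  · intro b hb x hx hxb
    have h1 := (hmain x (Or.inl ⟨hx, cbx_mono hQ hb hxb⟩)).2
    rw [norm_sub_rev] at h1
    have h2 := cbx_near asp (by positivity) hxb h1
    refine cbx_mono hQ (le_of_eq ?_) h2
    ring

end

end Crest.Agent.R096.Rg3_766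
end

-- ▼ part R096/Rg3c_766
section

/-!
Row 96 (S0127), helper766.  Range `p ≥ 3`, part c: from PREP3 to `ExIn` for ALL bricks.
-/

set_option autoImplicit false
set_option linter.unusedSectionVars false
set_option linter.style.longLine false
set_option linter.style.haveILetI false
set_option linter.unusedVariables false

namespace Crest.Agent.R096.Rg3_766

open MeasureTheory Set Filter Topology Metric
open scoped ENNReal NNReal
open Crest.AnalysisR.VecCalc3 Crest.AnalysisR.Sobolev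
open Crest.Agent.R096.SkC1_961 (E3 Hom3)
open Crest.Agent.R096.EaX_766 Crest.Agent.R096.Bsp_628 Crest.Agent.R096.Prep_766
open Crest.Agent.R096.Bxs_627 hiding E3
open Crest.Agent.R096.Er_594
open Crest.Agent.R096.Osc_802 Crest.Agent.R096.VolC2_766 Crest.Agent.R96.Lu_538
open Crest.Agent.R096.ThC6_766 Crest.Agent.R096.Sel_766 Crest.Agent.R096.Toph_766
open Crest.Agent.R96.En10_199

noncomputable section

/-! ### the real affine map in `E3` -/

/-- the linear part at `ξ` -/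
def BB (G : Fin 3 → R3 → R3) (ξ : R3) : E3 →L[ℝ] E3 := ofRows fun j => G j ξ

lemma BB_apply (G : Fin 3 → R3 → R3) (ξ : R3) (v : E3) :
    BB G ξ v = P3.symm (Gmat G ξ (P3 v)) := rfl

/-- the real affine map, on `E3`. -/
def AR (f : R3 → R3) (G : Fin 3 → R3 → R3) (ξ t : R3) (x : E3) : E3 :=
  P3.symm (f ξ + t) + BB G ξ (x - P3.symm ξ)

lemma AR_eq (f : R3 → R3) (G : Fin 3 → R3 → R3) (ξ t : R3) (x : E3) :
    AR f G ξ t x = P3.symm (Aff f G ξ t (P3 x)) := by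
  rw [AR, BB_apply, Aff, map_sub, P3.apply_symm_apply, ← map_add]
  congr 1
  abel

lemma BB_low {G : Fin 3 → R3 → R3} {ξ : R3} {m : ℝ} (hm : 0 ≤ m) (hA : Gmat G ξ ∈ LM m) (v : E3) :
    m / 2 * ‖v‖ ≤ ‖BB G ξ v‖ := by
  have h1 := (hA (P3 v)).1
  have h2 := Er_594.norm_le_P3_symm (Gmat G ξ (P3 v))
  rw [← BB_apply] at h2
  have h3 := Er_594.norm_le_P3 v
  have h4 : m * ‖v‖ ≤ m * ‖P3 v‖ := by gcongr
  linarith

lemma BB_norm {G : Fin 3 → R3 → R3} {ξ : R3} {m : ℝ} (hm : 0 < m) (hA : Gmat G ξ ∈ LM m) :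
    ‖BB G ξ‖ ≤ 1 / (m / 2) := by
  refine ContinuousLinearMap.opNorm_le_bound _ (by positivity) fun v => ?_
  have h1 := (hA (P3 v)).2
  have h2 := Er_594.norm_P3_symm_le (Gmat G ξ (P3 v))
  rw [← BB_apply] at h2
  have h3 := Er_594.norm_P3_le v
  rw [one_div_div, div_mul_eq_mul_div, le_div_iff₀ hm]
  nlinarith

/-- the point is in the cube. -/
lemma mem_cube_of_AR {f : R3 → R3} {G : Fin 3 → R3 → R3} {ξ t : R3} {m : ℝ} (hm : 0 < m)
    (hA : Gmat G ξ ∈ LM m) {x : E3} {c : E3} {a b : ℝ} (h1 : ‖AR f G ξ t x - c‖ ≤ a)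
    (h2 : ‖P3.symm (f ξ + t) - c‖ ≤ b) : P3 x ∈ cube ξ (2 * (a + b) / m) := by
  apply mem_cube_of_norm
  have h3 := (hA (P3 x - ξ)).1
  have h4 : BB G ξ (x - P3.symm ξ) = (AR f G ξ t x - c) - (P3.symm (f ξ + t) - c) := by
    rw [AR]; abel
  have h5 : ‖BB G ξ (x - P3.symm ξ)‖ ≤ a + b := by
    rw [h4]
    exact (norm_sub_le _ _).trans (add_le_add h1 h2)
  have h6 : Gmat G ξ (P3 x - ξ) = P3 (BB G ξ (x - P3.symm ξ)) := by
    have h8 : P3 (x - P3.symm ξ) = P3 x - ξ := by rw [map_sub, P3.apply_symm_apply]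
    rw [BB_apply, P3.apply_symm_apply, h8]
  have h7 := Er_594.norm_P3_le (BB G ξ (x - P3.symm ξ))
  rw [← h6] at h7
  rw [le_div_iff₀ hm]
  linarith

/-- `L^p` closeness of the transported gradient over the region. -/
theorem lp_of_good {Ω : Set R3} {f : R3 → R3} {G G' : Fin 3 → R3 → R3} {p : ℝ} (hp : 1 ≤ p)
    {κ : R3 → ℝ} {ξ : R3} {r θ : ℝ} (hg : GoodAt Ω f G p κ ξ r) {S : Set E3}
    (hS : S ⊆ P3 ⁻¹' cube ξ r) {U : Set R3} (hU : IsOpen U) (hSU : S ⊆ P3 ⁻¹' U)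
    (hGG : ∀ᵐ x, x ∈ U → ∀ j, G' j x = G j x) (hθ : 2 ^ p * (κ ξ * r ^ 3) ≤ θ) :
    ∫⁻ x in S, ‖D3 G' x - BB G ξ‖ₑ ^ p ≤ ENNReal.ofReal θ := by
  have hp0 : 0 ≤ p := by linarith
  have h2p : (2 : ℝ≥0∞) ^ p = ENNReal.ofReal (2 ^ p) := by
    rw [← ENNReal.ofReal_rpow_of_nonneg (by norm_num) hp0]; norm_num
  have h2t : (2 : ℝ≥0∞) ^ p ≠ ∞ := by rw [h2p]; exact ENNReal.ofReal_ne_top
  have hae : ∀ᵐ x ∂((volume : Measure E3).restrict (P3 ⁻¹' U)), ∀ j, G' j (P3 x) = G j (P3 x) := by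
    have h1 : ∀ᵐ y ∂((volume : Measure R3).restrict U), ∀ j, G' j y = G j y := by
      rw [ae_restrict_iff' hU.measurableSet]
      exact hGG
    exact ae_P3.1 h1
  have hae' : ∀ᵐ x ∂((volume : Measure E3).restrict S), ∀ j, G' j (P3 x) = G j (P3 x) :=
    ae_restrict_of_ae_restrict_of_subset hSU hae
  calc ∫⁻ x in S, ‖D3 G' x - BB G ξ‖ₑ ^ p
      ≤ ∫⁻ x in S, 2 ^ p * ∑ j, ‖G j (P3 x) - G j ξ‖ₑ ^ p := by
        apply lintegral_mono_ae
        filter_upwards [hae'] with x hx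
        have h1 := le_sum_row (D3 G' x - BB G ξ) hp0
        refine h1.trans (le_of_eq ?_)
        congr 1
        refine Finset.sum_congr rfl fun j _ => ?_
        rw [row_sub, row_D3, BB, row_ofRows, hx j]
    _ = 2 ^ p * ∫⁻ x in S, ∑ j, ‖G j (P3 x) - G j ξ‖ₑ ^ p := lintegral_const_mul' _ _ h2t
    _ ≤ 2 ^ p * ∫⁻ x in P3 ⁻¹' cube ξ r, ∑ j, ‖G j (P3 x) - G j ξ‖ₑ ^ p := by
        gcongr
    _ = 2 ^ p * ∫⁻ y in cube ξ r, ∑ j, ‖G j y - G j ξ‖ₑ ^ p := by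
        rw [lint_P3 (cube ξ r) (fun y => ∑ j, ‖G j y - G j ξ‖ₑ ^ p)]
    _ ≤ 2 ^ p * ENNReal.ofReal (κ ξ * r ^ 3) := by
        gcongr
        exact hg.int
    _ = ENNReal.ofReal (2 ^ p * (κ ξ * r ^ 3)) := by
        rw [h2p, ← ENNReal.ofReal_mul (show (0 : ℝ) ≤ 2 ^ p by positivity)]
    _ ≤ ENNReal.ofReal θ := ENNReal.ofReal_le_ofReal hθ

/-- the function `κf`. -/
def kf (p κ1 κc m : ℝ) : ℝ :=
  min (κ1 * (1 / 3072) ^ 3 / (2 * 64 * 512 * 16 ^ p) * m ^ (p + 6)) (κc * m / 4)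

lemma measurable_kf (p κ1 κc : ℝ) : Measurable (kf p κ1 κc) := by
  unfold kf
  fun_prop

lemma kf_pos {p κ1 κc m : ℝ} (h1 : 0 < κ1) (h2 : 0 < κc) (hm : 0 < m) : 0 < kf p κ1 κc m := by
  unfold kf
  have h3 : (0 : ℝ) < 16 ^ p := Real.rpow_pos_of_pos (by norm_num) p
  have h4 : 0 < m ^ (p + 6) := Real.rpow_pos_of_pos hm _
  exact lt_min (by positivity) (by positivity)

/-- the number `θ` of `exIn_of` -/
lemma theta_ok {p κ1 κc m k lam s : ℝ} (hp : 0 ≤ p) (hκ1 : 0 < κ1) (hm : 0 < m) (hk0 : 0 ≤ k)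
    (hk : k ≤ kf p κ1 κc m) (hs : 0 ≤ s) (hlam : 1 / 3072 ≤ lam) :
    2 * ((4 / (m / 2)) ^ p * (8 / (m / 2) ^ 3 * (2 ^ p * (k * (8 * s / m) ^ 3)))) ≤
      κ1 * (lam * s) ^ 3 := by
  have h16 : (0 : ℝ) < 16 ^ p := Real.rpow_pos_of_pos (by norm_num) p
  have h1 : (4 / (m / 2)) ^ p * 2 ^ p = 16 ^ p / m ^ p := by
    rw [← Real.mul_rpow (by positivity) (by norm_num), ← Real.div_rpow (by norm_num) hm.le]
    congr 1
    field_simp
    norm_num
  have hmp : m ^ (p + 6) = m ^ p * m ^ 6 := by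
    rw [Real.rpow_add hm]
    congr 1
    exact_mod_cast Real.rpow_natCast m 6
  have hmp0 : 0 < m ^ p := Real.rpow_pos_of_pos hm p
  have h2 : 2 * ((4 / (m / 2)) ^ p * (8 / (m / 2) ^ 3 * (2 ^ p * (k * (8 * s / m) ^ 3)))) =
      (2 * 64 * 512 * 16 ^ p) / m ^ (p + 6) * k * s ^ 3 := by
    calc 2 * ((4 / (m / 2)) ^ p * (8 / (m / 2) ^ 3 * (2 ^ p * (k * (8 * s / m) ^ 3))))
        = ((4 / (m / 2)) ^ p * 2 ^ p) * (2 * (8 / (m / 2) ^ 3 * (k * (8 * s / m) ^ 3))) := by ring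
      _ = (16 ^ p / m ^ p) * (2 * (8 / (m / 2) ^ 3 * (k * (8 * s / m) ^ 3))) := by rw [h1]
      _ = (2 * 64 * 512 * 16 ^ p) / m ^ (p + 6) * k * s ^ 3 := by
          rw [hmp]
          field_simp
          ring
  have h3 : k ≤ κ1 * (1 / 3072) ^ 3 / (2 * 64 * 512 * 16 ^ p) * m ^ (p + 6) := hk.trans (min_le_left _ _)
  have hmp6 : 0 < m ^ (p + 6) := Real.rpow_pos_of_pos hm _
  rw [h2]
  calc (2 * 64 * 512 * 16 ^ p) / m ^ (p + 6) * k * s ^ 3
      ≤ (2 * 64 * 512 * 16 ^ p) / m ^ (p + 6) *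
        (κ1 * (1 / 3072) ^ 3 / (2 * 64 * 512 * 16 ^ p) * m ^ (p + 6)) * s ^ 3 := by gcongr
    _ = κ1 * ((1 / 3072) * s) ^ 3 := by field_simp
    _ ≤ κ1 * (lam * s) ^ 3 := by gcongr

end

end Crest.Agent.R096.Rg3_766
end

-- ▼ part R096/Rg3d_766

/-!
Row 96 (S0127), helper766.  Range `p ≥ 3`, part d: `ExIn` for ALL bricks of PREP3.
-/

set_option autoImplicit false
set_option linter.unusedSectionVars false
set_option linter.style.longLine false
set_option linter.style.haveILetI false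
set_option linter.unusedVariables false

namespace Crest.Agent.R096.Rg3_766

open MeasureTheory Set Filter Topology Metric
open scoped ENNReal NNReal
open Crest.AnalysisR.VecCalc3 Crest.AnalysisR.Sobolev
open Crest.Agent.R096.SkC1_961 (E3 Hom3)
open Crest.Agent.R096.EaX_766 Crest.Agent.R096.Bsp_628 Crest.Agent.R096.Prep_766
open Crest.Agent.R096.Bxs_627 hiding E3
open Crest.Agent.R096.Er_594
open Crest.Agent.R096.Osc_802 Crest.Agent.R096.VolC2_766 Crest.Agent.R96.Lu_538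
open Crest.Agent.R096.ThC6_766 Crest.Agent.R096.Sel_766 Crest.Agent.R096.Toph_766
open Crest.Agent.R96.En10_199

noncomputable section

theorem exIn_core {p : ℝ} (hp : 1 ≤ p) {Ω : Set R3} {f : R3 → R3} {G G' : Fin 3 → R3 → R3}
    {f2 : E3 → E3} {κ : R3 → ℝ} (o : E3) {u : ℝ} (hu : 0 < u) {Q : Bx (Fin 3)} (hQ : Q.Pos)
    (asp : ∀ i, Q.sz ≤ 3 * Q.side i) {ξ t : R3} {m κ1 κc : ℝ} (hm : 0 < m) (hm1 : m ≤ 1)
    (hA : Gmat G ξ ∈ LM m) (hk : κ ξ ≤ kf p κ1 κc m) (hy0 : ‖P3.symm (f ξ + t) - ctr Q‖ ≤ Q.sz / 24)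
    {r a κ₁ lam κ2 : ℝ} (hr0 : 0 < r) (hr : r ≤ 8 * Q.sz / m)
    (hr' : 2 * (a * Q.sz / 2 + Q.sz / 24) / m ≤ r) (hg : GoodAt Ω f G p κ ξ r)
    (hκ₁ : 0 < κ₁) (hκ₁' : κ₁ ≤ 1 / 8) (ha0 : 0 ≤ a) (ha2 : a ≤ 2) (hlam : 1 / 3072 ≤ lam)
    (hκ2 : 0 ≤ κ2) (hgap : (1 + 2 * κ2) * lam + 6 * κ₁ ≤ a) (hκ1 : 2 * κ₁ ≤ κ1 * lam)
    (H : ∀ x, (x ∈ P3 ⁻¹' Ω ∧ f2 x ∈ cbx Q a) ∨ (AR f G ξ t x ∈ cbx Q a) →
      x ∈ P3 ⁻¹' Ω ∧ ‖f2 x - AR f G ξ t x‖ ≤ κ₁ * Q.sz)
    {U : Set R3} (hU : IsOpen U) (hSU : {x | AR f G ξ t x ∈ cbx Q a} ⊆ P3 ⁻¹' U)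
    (hGG : ∀ᵐ x, x ∈ U → ∀ j, G' j x = G j x) {ε0 : ℝ} (hε0 : 0 < ε0) :
    ∃ A : E3 ≃ᵃ[ℝ] E3, ExIn p (P3 ⁻¹' Ω) f2 (D3 G') o u κ1 κ2 Q A lam ∧ ‖lin A - BB G ξ‖ ≤ ε0 ∧
      (∀ b, b ≤ a → ∀ x ∈ P3 ⁻¹' Ω, f2 x ∈ cbx Q b → A x ∈ cbx Q (b + 12 * κ₁)) := by
  have hs := Bx.sz_pos hQ
  have hlam0 : 0 < lam := by linarith
  have hκ1p : 0 < κ1 := by
    by_contra hcon
    push Not at hcon
    nlinarith
  have hκξ : 0 ≤ κ ξ := by
    have h1 := hg.aff ξ (mem_cube_self ξ hr0.le) ξ (mem_cube_self ξ hr0.le)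
    have h2 : 0 ≤ κ ξ * r := (norm_nonneg _).trans h1
    by_contra hcon
    push Not at hcon
    nlinarith
  set θ : ℝ := 2 ^ p * (κ ξ * (8 * Q.sz / m) ^ 3) with hθ
  have h2p : (0 : ℝ) < 2 ^ p := Real.rpow_pos_of_pos (by norm_num) p
  obtain ⟨A, h1, h2, -, h4⟩ := exIn_of (f := f2) (D := D3 G') hp o hu hQ asp (B := BB G ξ)
    (m := m / 2) (by positivity) (by linarith) (BB_low hm.le hA) (BB_norm hm hA)
    (x0 := P3.symm ξ) (y0 := P3.symm (f ξ + t)) (by linarith) hκ₁ hκ₁' ha0 ha2 hlam0 hκ2 hgap hκ1 H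
    (θ := θ) (by positivity) (theta_ok (by linarith) hκ1p hm hκξ hk hs.le hlam)
    (by
      refine lp_of_good hp hg (fun x hx => ?_) hU hSU hGG ?_
      · have h3 := mem_cube_of_AR (f := f) (t := t) hm hA (x := x) (c := ctr Q)
          (norm_sub_of_cbx hQ ha0 hx) hy0
        intro i
        exact (h3 i).trans hr'
      · rw [hθ]
        gcongr) hε0
  exact ⟨A, h1, h2, h4⟩

variable {p : ℝ} {Ω Λ : Set R3} {f : R3 → R3} {G : Fin 3 → R3 → R3} {κ1' : ℝ}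
  {F : Set (Bx (Fin 3))} {Th : R3 ≃ₜ R3} {G' : Fin 3 → R3 → R3} {μ κ δ : R3 → ℝ} {O : Set R3}
  {ξ yc : F → R3} {hξ : ∀ c, ξ c ∈ EE Ω f G p μ κ δ} {hm : ∀ c, 0 < μ (ξ c)}


lemma ctr_norm' (y : R3) (Q : Bx (Fin 3)) : ‖y - P3 (ctr Q)‖ ≤ 2 * ‖P3.symm y - ctr Q‖ := by
  have := Er_594.norm_le_P3_symm (y - P3 (ctr Q))
  rwa [map_sub, P3.symm_apply_apply] at this

lemma cor_to_H {A : R3 ≃ᵃ[ℝ] R3} {f2 : R3 → R3} {Q : Bx (Fin 3)} {ξ t : R3} {lam κ : ℝ}
    (hAA : ∀ x, A x = Aff f G ξ t x) (h : Cor Ω f2 A Q lam κ 0) :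
    ∀ x, (x ∈ P3 ⁻¹' Ω ∧ e3 f2 x ∈ cbx Q lam) ∨ (AR f G ξ t x ∈ cbx Q lam) →
      x ∈ P3 ⁻¹' Ω ∧ ‖e3 f2 x - AR f G ξ t x‖ ≤ κ * lam * Q.sz := by
  intro x hx
  have e1 : a3 A x = AR f G ξ t x := by rw [a3_apply, hAA, AR_eq]
  have h1 := h x (hx.imp (fun h2 => ⟨h2.1, h2.2⟩) (fun h2 k => by
    rw [e1]
    refine (h2 k).trans (le_of_eq ?_)
    ring))
  rw [e1] at h1
  refine ⟨h1.1, h1.2.trans (le_of_eq ?_)⟩
  ring

/-- bricks with a hole -/
theorem exIn_bad (hp : 1 ≤ p) (hΩ : IsOpen Ω)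
    (P : Pre3 p Ω Λ f G (1 / 2) κ1' 0 F Th G' μ κ δ O ξ yc hξ hm) (hf : ContinuousOn f Ω)
    {κ1 κc : ℝ} (hκ0 : 0 < κ1') (hκ4 : κ1' ≤ κ1 / 4) (hκ24 : κ1' ≤ 1 / 24)
    (hk : ∀ x ∈ Ω, κ x ≤ kf p κ1 κc (μ x)) (o : E3) {u : ℝ} (hu : 0 < u) {c : F}
    (hc : c ∈ BdB F O) {ε0 : ℝ} (hε0 : 0 < ε0) :
    ∃ A : E3 ≃ᵃ[ℝ] E3, ExIn p (P3 ⁻¹' Ω) (e3 fun x => Th (f x)) (D3 G') o u κ1 (1 / 720) c.1 A
      (1 / 3072) ∧ ‖lin A - BB G (ξ c)‖ ≤ ε0 := by
  obtain ⟨b1, b2, b3, b4, b5⟩ := P.bad c hc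
  have hpos := P.foam.pos _ c.2
  have hs := Bx.sz_pos hpos
  have hrad : rad 3 c.1 = c.1.sz / 24 := by unfold rad; norm_num
  have hls : ls 3 = 1 / 1536 := by unfold ls; norm_num
  set t : R3 := P3 (ctr c.1) - yc c with ht
  have H := cor_to_H (f := f) (G := G) (ξ := ξ c) (t := t) (fun x => affE_apply _ _ _ _ _ _ _) b5
  rw [hls] at H
  have hμc := P.scμ
  set U : Set R3 := Ω ∩ f ⁻¹' ball (yc c) (rad 3 c.1 / 16) with hU
  have hUo : IsOpen U := hf.isOpen_inter_preimage hΩ isOpen_ball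
  obtain ⟨A, h1, h2, -⟩ := exIn_core (f2 := e3 fun x => Th (f x)) (G' := G') hp o hu hpos
    (P.foam.asp _ c.2) (ξ := ξ c) (t := t) (hm c) (hμc.le_one _) (hξ c).2.1 (hk _ (hξ c).1) (by
      have h3 := Er_594.norm_P3_symm_le (f (ξ c) - yc c)
      have h4 : P3.symm (f (ξ c) + t) - ctr c.1 = P3.symm (f (ξ c) - yc c) := by
        rw [ht, map_add, map_sub, map_sub, P3.symm_apply_apply]; abel
      rw [h4]
      rw [norm_sub_rev] at h3
      linarith)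
    (r := 4 * rad 3 c.1 / μ (ξ c)) (a := 1 / 1536) (κ₁ := κ1' * (1 / 1536)) (lam := 1 / 3072)
    (κ2 := 1 / 720) (by have := hm c; rw [hrad]; positivity)
    (by
      have := hm c
      rw [hrad]
      apply div_le_div_of_nonneg_right _ this.le
      linarith)
    (by
      have := hm c
      rw [hrad]
      apply div_le_div_of_nonneg_right _ this.le
      linarith) b4 (by positivity) (by linarith) (by norm_num) (by norm_num) le_rfl (by norm_num)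
    (by linarith) (by linarith) H hUo (by
      intro x hx
      obtain ⟨h3, h4⟩ := H x (Or.inr hx)
      refine ⟨h3, ?_⟩
      rw [mem_preimage, mem_ball, dist_eq_norm]
      have h5 := norm_sub_of_cbx hpos (by norm_num) hx
      have h6 : ‖P3.symm (Th (f (P3 x))) - ctr c.1‖ ≤ κ1' * (1 / 1536) * c.1.sz +
          1 / 1536 * c.1.sz / 2 := by
        have h7 : P3.symm (Th (f (P3 x))) - ctr c.1 =
          (e3 (fun x => Th (f x)) x - AR f G (ξ c) t x) + (AR f G (ξ c) t x - ctr c.1) := by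
          rw [sub_add_sub_cancel]; rfl
        rw [h7]
        exact (norm_add_le _ _).trans (add_le_add h4 h5)
      have h8 := ctr_norm' (Th (f (P3 x))) c.1
      have h9 : κ1' * (1 / 1536) * c.1.sz ≤ 1 / 24 * (1 / 1536) * c.1.sz := by gcongr
      have h10 : ‖Th (f (P3 x)) - P3 (ctr c.1)‖ < rad 3 c.1 / 16 := by
        rw [hrad]; linarith
      have h11 := b3 (f (P3 x)) h10.le
      have h12 : f (P3 x) - yc c = Th (f (P3 x)) - P3 (ctr c.1) := by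
        conv_lhs => rw [h11]
        abel
      rw [h12]
      exact h10)
    (P.trans U t hUo inter_subset_left (fun x hx => by
      have h3 : ‖f x - yc c‖ ≤ rad 3 c.1 / 16 := by
        have := hx.2
        rw [mem_preimage, mem_ball, dist_eq_norm] at this
        exact this.le
      rw [b2 _ h3, ht]
      abel)) hε0
  exact ⟨A, h1, h2⟩

/-- the open brick, in `R3` -/
lemma isOpen_box (Q : Bx (Fin 3)) (t : ℝ) :
    IsOpen {y : R3 | ∀ k, |P3.symm y k - ctr Q k| < Q.side k / 2 + t} := by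
  have : {y : R3 | ∀ k, |P3.symm y k - ctr Q k| < Q.side k / 2 + t} =
      ⋂ k : Fin 3, {y : R3 | |P3.symm y k - ctr Q k| < Q.side k / 2 + t} := by
    ext y; simp
  rw [this]
  refine isOpen_iInter_of_finite fun k => isOpen_lt ?_ continuous_const
  have h1 : Continuous fun y : R3 => P3.symm y k := (continuous_apply k).comp P3.symm.continuous
  exact (h1.sub continuous_const).abs

/-- bricks without a hole, near `O` -/
theorem exIn_mid (hp : 1 ≤ p) (hΩ : IsOpen Ω)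
    (P : Pre3 p Ω Λ f G (1 / 2) κ1' 0 F Th G' μ κ δ O ξ yc hξ hm) (hf : ContinuousOn f Ω)
    {κ1 κc : ℝ} (hκ0 : 0 < κ1') (hκ4 : κ1' ≤ κ1 / 4) (hκ24 : κ1' ≤ 1 / 24)
    (hk : ∀ x ∈ Ω, κ x ≤ kf p κ1 κc (μ x)) (o : E3) {u : ℝ} (hu : 0 < u) {c : F}
    (hc : c ∉ BdB F O) {ε0 : ℝ} (hε0 : 0 < ε0) :
    ∃ A : E3 ≃ᵃ[ℝ] E3, ExIn p (P3 ⁻¹' Ω) (e3 fun x => Th (f x)) (D3 G') o u κ1 (1 / 720) c.1 A
      (1 / 4) ∧ ‖lin A - BB G (ξ c)‖ ≤ ε0 := by
  obtain ⟨g1, g2, g3, g4, -, g5⟩ := P.good c hc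
  have hpos := P.foam.pos _ c.2
  have hs := Bx.sz_pos hpos
  have hrad : rad 3 c.1 = c.1.sz / 24 := by unfold rad; norm_num
  set t : R3 := P3 (ctr c.1) - yc c with ht
  have ht0 : t = 0 := by rw [ht, g1, sub_self]
  have H := cor_to_H (f := f) (G := G) (ξ := ξ c) (t := t) (fun x => affE_apply _ _ _ _ _ _ _) g5
  have hμc := P.scμ
  set V : Set R3 := {y : R3 | ∀ k, |P3.symm y k - ctr c.1 k| < c.1.side k / 2 + 0} with hV
  set U : Set R3 := Ω ∩ f ⁻¹' V with hU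
  have hUo : IsOpen U := hf.isOpen_inter_preimage hΩ (isOpen_box _ _)
  have hVQ : ∀ y ∈ V, P3.symm y ∈ c.1.set := by
    intro y hy
    rw [Bx.mem_set]
    intro k
    have h1 := abs_lt.1 (hy k)
    have h2 := ctr_lo c.1 k
    have h3 := ctr_hi c.1 k
    constructor <;> linarith [h1.1, h1.2]
  obtain ⟨A, h1, h2, -⟩ := exIn_core (f2 := e3 fun x => Th (f x)) (G' := G') hp o hu hpos
    (P.foam.asp _ c.2) (ξ := ξ c) (t := t) (hm c) (hμc.le_one _) (hξ c).2.1 (hk _ (hξ c).1) (by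
      have h4 : P3.symm (f (ξ c) + t) - ctr c.1 = P3.symm (f (ξ c) - P3 (ctr c.1)) := by
        rw [ht0, add_zero, map_sub, P3.symm_apply_apply]
      have h3 := Er_594.norm_P3_symm_le (f (ξ c) - P3 (ctr c.1))
      rw [h4]
      rw [norm_sub_rev (f (ξ c))] at h3
      linarith)
    (r := 8 * c.1.sz / μ (ξ c)) (a := 1 / 2) (κ₁ := κ1' * (1 / 2)) (lam := 1 / 4)
    (κ2 := 1 / 720) (by have := hm c; positivity) le_rfl
    (by
      have := hm c
      apply div_le_div_of_nonneg_right _ this.le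
      linarith) g4 (by positivity) (by linarith) (by norm_num) (by norm_num) (by norm_num)
    (by norm_num) (by linarith) (by linarith) H hUo (by
      intro x hx
      obtain ⟨h3, h4⟩ := H x (Or.inr hx)
      have h4' : ‖P3.symm (Th (f (P3 x))) - AR f G (ξ c) t x‖ ≤ κ1' * (1 / 2) * c.1.sz := h4
      have h7 : ∀ k, |P3.symm (Th (f (P3 x))) k - ctr c.1 k| < c.1.side k / 2 + 0 := by
        intro k
        have h8 := norm_le_pi_norm (P3.symm (Th (f (P3 x))) - AR f G (ξ c) t x) k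
        rw [Pi.sub_apply, Real.norm_eq_abs] at h8
        have h9 := hx k
        have h10 := P.foam.asp _ c.2 k
        have h11 := abs_sub_le (P3.symm (Th (f (P3 x))) k) (AR f G (ξ c) t x k) (ctr c.1 k)
        have h12 : κ1' * (1 / 2) * c.1.sz ≤ 1 / 24 * (1 / 2) * (3 * c.1.side k) := by gcongr
        have h13 := Bx.side_pos hpos k
        linarith
      have h8 : Th (f (P3 x)) ∈ V := h7
      have h9 : f (P3 x) = Th (f (P3 x)) := by
        have := g2 _ (hVQ _ h8)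
        exact (Th.injective this).symm
      refine ⟨h3, ?_⟩
      rw [mem_preimage, h9]
      exact h8)
    (P.trans U t hUo inter_subset_left (fun x hx => by
      rw [g2 _ (hVQ _ hx.2), ht0, add_zero])) hε0
  exact ⟨A, h1, h2⟩

/-- good bricks -/
theorem exIn_good (hp : 1 ≤ p) (hΩ : IsOpen Ω) (hΛ : IsOpen Λ)
    (P : Pre3 p Ω Λ f G (1 / 2) κ1' 0 F Th G' μ κ δ O ξ yc hξ hm) (hf : IsHomeomorphOn f Ω Λ)
    {κ1 κc lamb : ℝ} (hκ1 : 0 < κ1) (hκc0 : 0 < κc) (hκc : κc ≤ 1 / 4320) (hκc' : κc ≤ κ1 / 8)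
    (hl : 1 / 2 ≤ lamb) (hl1 : lamb ≤ 1)
    (hk : ∀ x ∈ Ω, κ x ≤ kf p κ1 κc (μ x)) (o : E3) {u : ℝ} (hu : 0 < u) {c : F}
    (hc : c ∉ BadE F O) {ε0 : ℝ} (hε0 : 0 < ε0) :
    ∃ A : E3 ≃ᵃ[ℝ] E3, ExIn p (P3 ⁻¹' Ω) (e3 fun x => Th (f x)) (D3 G') o u κ1 (1 / 720) c.1 A
      lamb ∧ ‖lin A - BB G (ξ c)‖ ≤ ε0 ∧
      (∀ x ∈ P3 ⁻¹' Ω, e3 (fun x => Th (f x)) x ∈ cbx c.1 1 → A x ∈ cbx c.1 (1 + 24 * κc)) ∧
      (∀ y : R3, P3.symm y ∈ nb c.1 (1 / 180 * c.1.sz) → Th y = y) := by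
  have hcB : c ∉ BdB F O := fun h => hc (bdB_subset_badE P.foam O h)
  obtain ⟨g1, g2, g3, g4, g6, g5⟩ := P.good c hcB
  have hpos := P.foam.pos _ c.2
  have hs := Bx.sz_pos hpos
  have hrad : rad 3 c.1 = c.1.sz / 24 := by unfold rad; norm_num
  set t : R3 := P3 (ctr c.1) - yc c with ht
  have ht0 : t = 0 := by rw [ht, g1, sub_self]
  have hμc := P.scμ
  have hfc : ContinuousOn f Ω := by
    obtain ⟨g, -, -, -, -, h5, -⟩ := hf
    exact h5
  -- `Th = id` on the neighbourhood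
  have hTh : ∀ y : R3, P3.symm y ∈ nb c.1 (1 / 180 * c.1.sz) → Th y = y := by
    refine th_id_nbhd P.foam (by norm_num) (R' := 15 / 2) (by norm_num) (by norm_num) (by norm_num)
      P.gr (O := O) (Bd := BdB F O) hcB ?_ P.id_good
    intro y hy hyO
    apply hc
    refine ⟨y, hyO, ?_⟩
    have h1 : ‖P3.symm y - ctr c.1‖ ≤ c.1.sz := by
      rw [pi_norm_le_iff_of_nonneg hs.le]
      intro k
      rw [Pi.sub_apply, Real.norm_eq_abs]
      have h2 := hy k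
      have h3 := c.1.side_le_sz k
      linarith
    have h2 := ctr_norm' y c.1
    linarith
  have hκμ : ∀ x ∈ Ω, κ x * 4 ≤ κc * μ x := by
    intro x hx
    have h1 : kf p κ1 κc (μ x) ≤ κc * μ x / 4 := min_le_right _ _
    have h2 := hk x hx
    linarith
  obtain ⟨-, c1, c2, c3⟩ := core_at hΩ hΛ hf (y := P3 (ctr c.1)) (R := 2 * c.1.sz) (by positivity)
    (hξ c) (hm c) (κ₁ := κc) (by linarith) (hκμ _ (hξ c).1) (by linarith) (by linarith)
  have hAff : ∀ x : E3, AR f G (ξ c) t x =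
      P3.symm (f (ξ c) + Gmat G (ξ c) (P3 x - ξ c)) := by
    intro x; rw [AR_eq, Aff, ht0, add_zero]
  have hclose : ∀ x : E3, P3 x ∈ cube (ξ c) (4 * (2 * c.1.sz) / μ (ξ c)) →
      P3 x ∈ Ω ∧ ‖P3.symm (f (P3 x)) - AR f G (ξ c) t x‖ ≤ 2 * κc * c.1.sz := by
    intro x hx
    obtain ⟨h1, h2⟩ := c3 _ hx
    refine ⟨h1, ?_⟩
    rw [hAff, ← map_sub]
    refine (Er_594.norm_P3_symm_le _).trans (h2.trans (le_of_eq ?_))
    ring
  set a : ℝ := 1 + 1 / 180 with ha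
  have H : ∀ x, (x ∈ P3 ⁻¹' Ω ∧ e3 (fun x => Th (f x)) x ∈ cbx c.1 a) ∨ (AR f G (ξ c) t x ∈ cbx c.1 a) →
      (x ∈ P3 ⁻¹' Ω ∧ ‖e3 (fun x => Th (f x)) x - AR f G (ξ c) t x‖ ≤ 2 * κc * c.1.sz) ∧
        Th (f (P3 x)) = f (P3 x) ∧ ∀ k, |P3.symm (f (P3 x)) k - ctr c.1 k| <
          c.1.side k / 2 + 1 / 180 * c.1.sz := by
    intro x hx
    have hnb : ∀ z : E3, z ∈ cbx c.1 a → ∀ k, |z k - ctr c.1 k| + 2 * κc * c.1.sz <
        c.1.side k / 2 + 1 / 180 * c.1.sz := by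
      intro z hz k
      have h1 := hz k
      have h2 := c.1.side_le_sz k
      have h3 : 2 * κc * c.1.sz ≤ 2 * (1 / 4320) * c.1.sz := by gcongr
      rw [ha] at h1
      linarith
    rcases hx with ⟨hxΩ, hx⟩ | hx
    · have h1 : Th (Th (f (P3 x))) = Th (f (P3 x)) := by
        apply hTh
        intro k
        have h2 := hnb _ hx k
        have h3 : 0 ≤ 2 * κc * c.1.sz := by positivity
        have h4 : e3 (fun x => Th (f x)) x k = P3.symm (Th (f (P3 x))) k := rfl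
        rw [h4] at h2
        linarith
      have h2 : Th (f (P3 x)) = f (P3 x) := Th.injective h1
      have h3 : P3.symm (f (P3 x)) ∈ cbx c.1 a := by
        have h4 : e3 (fun x => Th (f x)) x = P3.symm (Th (f (P3 x))) := rfl
        rw [h4, h2] at hx
        exact hx
      have h4 := norm_sub_of_cbx hpos (by norm_num) h3
      have h5 := ctr_norm' (f (P3 x)) c.1
      have h6 := c1 (P3 x) hxΩ (by rw [ha] at h4; linarith)
      have h7 := hclose x h6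
      refine ⟨⟨h7.1, ?_⟩, h2, fun k => ?_⟩
      · have h8 : e3 (fun x => Th (f x)) x = P3.symm (Th (f (P3 x))) := rfl
        rw [h8, h2]
        exact h7.2
      · have h8 := hnb _ h3 k
        have h9 : 0 ≤ 2 * κc * c.1.sz := by positivity
        linarith
    · have h4 := norm_sub_of_cbx hpos (by norm_num) hx
      have h5 := ctr_norm' (f (ξ c) + Gmat G (ξ c) (P3 x - ξ c)) c.1
      rw [← hAff] at h5
      have h6 := c2 (P3 x) (by rw [ha] at h4; linarith)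
      have h7 := hclose x h6
      have h8 : ∀ k, |P3.symm (f (P3 x)) k - ctr c.1 k| < c.1.side k / 2 + 1 / 180 * c.1.sz := by
        intro k
        have h9 := norm_le_pi_norm (P3.symm (f (P3 x)) - AR f G (ξ c) t x) k
        rw [Pi.sub_apply, Real.norm_eq_abs] at h9
        have h10 := hnb _ hx k
        have h11 := abs_sub_le (P3.symm (f (P3 x)) k) (AR f G (ξ c) t x k) (ctr c.1 k)
        have h12 := h7.2
        linarith
      have h2 : Th (f (P3 x)) = f (P3 x) := hTh _ fun k => (h8 k).le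
      refine ⟨⟨h7.1, ?_⟩, h2, h8⟩
      have h9 : e3 (fun x => Th (f x)) x = P3.symm (Th (f (P3 x))) := rfl
      rw [h9, h2]
      exact h7.2
  set V : Set R3 := {y : R3 | ∀ k, |P3.symm y k - ctr c.1 k| < c.1.side k / 2 + 1 / 180 * c.1.sz} with hV
  set U : Set R3 := Ω ∩ f ⁻¹' V with hU
  have hUo : IsOpen U := hfc.isOpen_inter_preimage hΩ (isOpen_box _ _)
  obtain ⟨A, h1, h2, h3⟩ := exIn_core (f2 := e3 fun x => Th (f x)) (G' := G') hp o hu hpos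
    (P.foam.asp _ c.2) (ξ := ξ c) (t := t) (hm c) (hμc.le_one _) (hξ c).2.1 (hk _ (hξ c).1) (by
      have h4 : P3.symm (f (ξ c) + t) - ctr c.1 = P3.symm (f (ξ c) - P3 (ctr c.1)) := by
        rw [ht0, add_zero, map_sub, P3.symm_apply_apply]
      have h3 := Er_594.norm_P3_symm_le (f (ξ c) - P3 (ctr c.1))
      rw [h4]
      rw [norm_sub_rev (f (ξ c))] at h3
      linarith)
    (r := 8 * c.1.sz / μ (ξ c)) (a := a) (κ₁ := 2 * κc) (lam := lamb)
    (κ2 := 1 / 720) (by have := hm c; positivity) le_rfl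
    (by
      have := hm c
      rw [ha]
      apply div_le_div_of_nonneg_right _ this.le
      linarith) g4 (by positivity) (by linarith) (by norm_num) (by norm_num) (by linarith)
    (by norm_num) (by rw [ha]; linarith) (by nlinarith) (fun x hx => (H x hx).1) hUo
    (fun x hx => ⟨(H x (Or.inr hx)).1.1, (H x (Or.inr hx)).2.2⟩)
    (P.trans U t hUo inter_subset_left (fun x hx => by
      rw [hTh _ fun k => (hx.2 k).le, ht0, add_zero])) hε0
  refine ⟨A, h1, h2, fun x hx hxc => ?_, hTh⟩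
  have h4 := h3 1 (by norm_num [ha]) x hx hxc
  refine cbx_mono hpos (le_of_eq ?_) h4
  ring

end

end Crest.Agent.R096.Rg3_766
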