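import Crest.Agent.R096.Acr1_733
import Crest.Agent.R096.Sk4b_663
import Crest.Agent.R096.Rg3d_766
import Crest.Agent.R096.Br2_695

-- ▼ part R096/Dz1_466
section

/-!
Row 96 (S0127), helper466 (leaf [G] of 962's PRE3).  `p > 2`: the points where `det G = 0` stay
points with `det = 0` after composition with a Lipschitz map of the target.
-/

set_option autoImplicit false
set_option linter.unusedSectionVars false
set_option linter.style.longLine false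

namespace Crest.Agent.R096.Dz_466

open MeasureTheory Set Filter Topology Metric
open scoped ENNReal NNReal RealInnerProductSpace
open Crest.AnalysisR.VecCalc3 Crest.AnalysisR.Sobolev
open Crest.Agent.R096.Osc_802 Crest.Agent.R096.LusN_766 Crest.Agent.R096.VolC_766
open Crest.Agent.R096.VolC2_766 Crest.Agent.R96.Lu_538
open Crest.Agent.R096.Sk_962
open Crest.Agent.R096.Sk4_663 (Zd)

/-- difference quotients in the direction `v` -/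
theorem tendsto_quot {E F : Type*} [NormedAddCommGroup E] [NormedSpace ℝ E]
    [NormedAddCommGroup F] [NormedSpace ℝ F] {g : E → F} {L : E →L[ℝ] F} {x : E}
    (hL : HasFDerivAt g L x) (v : E) :
    Tendsto (fun t : ℝ => ‖t⁻¹ • (g (x + t • v) - g x)‖) (𝓝[≠] 0) (𝓝 ‖L v‖) := by
  have h1 : HasDerivAt (fun t : ℝ => g (x + t • v)) (L v) 0 := by
    have h2 : HasDerivAt (fun t : ℝ => x + t • v) v 0 := by
      simpa using ((hasDerivAt_id (0:ℝ)).smul_const v).const_add x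
    have h3 : HasFDerivAt g L (x + (0:ℝ) • v) := by simpa using hL
    exact h3.comp_hasDerivAt (0:ℝ) h2
  have h4 := h1.tendsto_slope_zero
  simp only [zero_add, zero_smul, add_zero] at h4
  exact h4.norm

/-- derivative of a composition with a Lipschitz (not necessarily differentiable) map -/
theorem norm_comp_le {E F F' : Type*} [NormedAddCommGroup E] [NormedSpace ℝ E]
    [NormedAddCommGroup F] [NormedSpace ℝ F] [NormedAddCommGroup F'] [NormedSpace ℝ F']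
    {f : E → F} {S : F → F'} {Λ : Set F} {K : ℝ≥0} (hS : LipschitzOnWith K S Λ) {x : E}
    (hm : ∀ᶠ y in 𝓝 x, f y ∈ Λ) {A : E →L[ℝ] F} {B : E →L[ℝ] F'} (hA : HasFDerivAt f A x)
    (hB : HasFDerivAt (fun y => S (f y)) B x) (v : E) : ‖B v‖ ≤ K * ‖A v‖ := by
  have h1 := tendsto_quot hA v
  have h2 := tendsto_quot hB v
  have h3 : Tendsto (fun t : ℝ => x + t • v) (𝓝[≠] 0) (𝓝 x) := by
    have : Tendsto (fun t : ℝ => x + t • v) (𝓝 0) (𝓝 (x + (0:ℝ) • v)) := by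
      apply Continuous.tendsto; fun_prop
    rw [zero_smul, add_zero] at this
    exact this.mono_left nhdsWithin_le_nhds
  refine le_of_tendsto_of_tendsto h2 (h1.const_mul (K : ℝ)) ?_
  filter_upwards [h3.eventually hm] with t ht
  have h4 := hS.dist_le_mul _ ht _ hm.self_of_nhds
  rw [dist_eq_norm, dist_eq_norm] at h4
  rw [norm_smul, norm_smul]
  calc ‖t⁻¹‖ * ‖S (f (x + t • v)) - S (f x)‖ ≤ ‖t⁻¹‖ * (K * ‖f (x + t • v) - f x‖) :=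
        mul_le_mul_of_nonneg_left h4 (norm_nonneg _)
    _ = K * (‖t⁻¹‖ * ‖f (x + t • v) - f x‖) := by ring


/-- `‖Gmat G' x v‖ ≤ K ‖Gmat G x v‖` for a.e. `x`, all `v` -/
theorem gmat_comp_le {p : ℝ} (hp : 2 < p) {Ω Λ Λ' : Set R3} (hΩ : IsOpen Ω) (hΛ : IsOpen Λ)
    (hΛ' : IsOpen Λ') {f : R3 → R3} {G G' : Fin 3 → R3 → R3} (h : SH p Ω Λ f G) {S : R3 → R3}
    {K : ℝ≥0} (hS : LipschitzOnWith K S Λ) (h' : SH p Ω Λ' (fun x => S (f x)) G') :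
    ∀ᵐ x, x ∈ Ω → ∀ v, ‖Gmat G' x v‖ ≤ K * ‖Gmat G x v‖ := by
  have hm : MapsTo f Ω Λ := by
    obtain ⟨g, hfm, -⟩ := h.homeo
    exact hfm
  filter_upwards [homeo_ae_diff hΩ hΛ h.homeo h.wg hp h.memG,
    homeo_ae_diff hΩ hΛ' h'.homeo h'.wg hp h'.memG] with x h1 h2 hx v
  have h3 := (h1 hx).2
  have h4 := (h2 hx).2
  rw [rowMap_eq_Gmat] at h3 h4
  exact norm_comp_le hS (by filter_upwards [hΩ.mem_nhds hx] with y hy using hm hy) h3 h4 v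




end Crest.Agent.R096.Dz_466
end

-- ▼ part R096/Rg3e_766
section

/-!
Row 96 (S0127), helper766.  Range `p > 2`, part e: measure theory of ONE exact core (`ExIn`).
-/

set_option autoImplicit false
set_option linter.unusedSectionVars false
set_option linter.style.longLine false
set_option linter.style.haveILetI false
set_option linter.unusedVariables false

namespace Crest.Agent.R096.Rg3_766

open MeasureTheory Set Filter Topology Metric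
open scoped ENNReal NNReal
open Crest.Agent.R096.SkC1_961 (E3 Hom3)
open Crest.Agent.R096.EaX_766 Crest.Agent.R096.Bsp_628
open Crest.Agent.R096.Bxs_627 (ctr)

noncomputable section

/-- volume of the brick -/
def vQ (Q : Bx (Fin 3)) : ℝ := ∏ k, Q.side k

lemma vQ_pos {Q : Bx (Fin 3)} (hQ : Q.Pos) : 0 < vQ Q :=
  Finset.prod_pos fun k _ => Bx.side_pos hQ k

lemma sz_le_vQ {Q : Bx (Fin 3)} (hQ : Q.Pos) (asp : ∀ i, Q.sz ≤ 3 * Q.side i) :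
    Q.sz ^ 3 ≤ 27 * vQ Q := by
  have hs := Bx.sz_pos hQ
  unfold vQ
  rw [Fin.prod_univ_three]
  have h0 := Bx.side_pos hQ 0
  have h1 := Bx.side_pos hQ 1
  have h2 := Bx.side_pos hQ 2
  calc Q.sz ^ 3 = Q.sz * Q.sz * Q.sz := by ring
    _ ≤ (3 * Q.side 0) * (3 * Q.side 1) * (3 * Q.side 2) := by
        gcongr
        · exact asp 0
        · exact asp 1
        · exact asp 2
    _ = 27 * (Q.side 0 * Q.side 1 * Q.side 2) := by ring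

lemma vol_cbx {Q : Bx (Fin 3)} (hQ : Q.Pos) {a : ℝ} (ha : 0 ≤ a) :
    volume (cbx Q a) = ENNReal.ofReal (a ^ 3 * vQ Q) := by
  have h1 : cbx Q a = Icc (fun k => ctr Q k - a * Q.side k / 2) (fun k => ctr Q k + a * Q.side k / 2) := by
    ext y
    simp only [cbx, mem_ofPred_eq, mem_Icc, Pi.le_def, abs_le]
    constructor
    · intro h
      exact ⟨fun k => by linarith [(h k).1], fun k => by linarith [(h k).2]⟩
    · rintro ⟨h2, h3⟩ k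
      exact ⟨by linarith [h2 k], by linarith [h3 k]⟩
  rw [h1, Real.volume_Icc_pi]
  rw [← ENNReal.ofReal_prod_of_nonneg (fun k _ => by
    have := Bx.side_pos hQ k
    have h2 : 0 ≤ a * Q.side k := by positivity
    linarith)]
  congr 1
  unfold vQ
  rw [Fin.prod_univ_three, Fin.prod_univ_three]
  ring

lemma det_ne (A : E3 ≃ᵃ[ℝ] E3) : (lin A).det ≠ 0 := by
  intro h
  have h1 := vol_preimage A univ
  rw [h] at h1
  simp at h1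

/-- the volume of the whole preimage of the brick -/
def wA (Q : Bx (Fin 3)) (A : E3 ≃ᵃ[ℝ] E3) : ℝ := vQ Q / |(lin A).det|

lemma wA_pos {Q : Bx (Fin 3)} (hQ : Q.Pos) (A : E3 ≃ᵃ[ℝ] E3) : 0 < wA Q A :=
  div_pos (vQ_pos hQ) (abs_pos.2 (det_ne A))

lemma vol_pre {Q : Bx (Fin 3)} (hQ : Q.Pos) (A : E3 ≃ᵃ[ℝ] E3) {a : ℝ} (ha : 0 ≤ a) :
    volume (A ⁻¹' cbx Q a) = ENNReal.ofReal (a ^ 3 * wA Q A) := by
  have hd : 0 < |(lin A).det| := abs_pos.2 (det_ne A)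
  have h1 := vol_preimage A (cbx Q a)
  rw [vol_cbx hQ ha] at h1
  have h2 : ENNReal.ofReal |(lin A).det| ≠ 0 := by
    rw [ENNReal.ofReal_ne_zero_iff]; exact hd
  have h3 : ENNReal.ofReal |(lin A).det| * ENNReal.ofReal (a ^ 3 * wA Q A) =
      ENNReal.ofReal (a ^ 3 * vQ Q) := by
    rw [← ENNReal.ofReal_mul hd.le]
    congr 1
    unfold wA
    field_simp
  rw [← h3] at h1
  exact (ENNReal.mul_right_inj h2 ENNReal.ofReal_ne_top).1 h1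

lemma measurable_pre (A : E3 ≃ᵃ[ℝ] E3) (Q : Bx (Fin 3)) (a : ℝ) :
    MeasurableSet (A ⁻¹' cbx Q a) := by
  have hc : Continuous A := A.continuous_of_finiteDimensional
  have h1 : IsClosed (cbx Q a) := by
    have : cbx Q a = ⋂ k : Fin 3, {y : E3 | |y k - ctr Q k| ≤ a * Q.side k / 2} := by
      ext y; simp [cbx]
    rw [this]
    exact isClosed_iInter fun k => isClosed_le (by fun_prop) continuous_const
  exact (h1.preimage hc).measurableSet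

variable {p : ℝ} {Om : Set E3} {f : E3 → E3} {D : E3 → E3 →L[ℝ] E3} {o : E3} {u κ1 κ2 : ℝ}
  {Q : Bx (Fin 3)} {A : E3 ≃ᵃ[ℝ] E3} {lam : ℝ}

lemma exIn_mono (h : ExIn p Om f D o u κ1 κ2 Q A lam) {κ1' : ℝ} (hκ : κ1 ≤ κ1') (hQ : Q.Pos)
    (hl : 0 < lam) : ExIn p Om f D o u κ1' κ2 Q A lam := by
  have hs := Bx.sz_pos hQ
  refine ⟨h.rat, fun x hx => ⟨(h.cor x hx).1, (h.cor x hx).2.trans (by gcongr)⟩,
    h.lp.trans (ENNReal.ofReal_le_ofReal (by gcongr))⟩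

lemma lin_symm_comp (A : E3 ≃ᵃ[ℝ] E3) (v : E3) : lin A.symm (lin A v) = v :=
  A.linear.symm_apply_apply v

/-- **`L^p` closeness to `lin A` on the enlarged core.** -/
theorem exIn_lp (h : ExIn p Om f D o u κ1 κ2 Q A lam) (hp : 0 ≤ p) (hQ : Q.Pos)
    (asp : ∀ i, Q.sz ≤ 3 * Q.side i) (hl : 0 < lam) (hκ1 : 0 ≤ κ1) :
    ∫⁻ x in A ⁻¹' cbx Q ((1 + 2 * κ2) * lam), ‖D x - lin A‖ₑ ^ p ≤
      ENNReal.ofReal (27 * κ1) * (‖lin A‖ₑ ^ p * volume (A ⁻¹' cbx Q lam)) := by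
  have hs := Bx.sz_pos hQ
  have hd : 0 < |(lin A).det| := abs_pos.2 (det_ne A)
  have hpt : ∀ x, ‖D x - lin A‖ₑ ^ p ≤
      ‖lin A‖ₑ ^ p * ‖(D x).comp (lin A.symm) - ContinuousLinearMap.id ℝ E3‖ₑ ^ p := by
    intro x
    have h1 : D x - lin A = ((D x).comp (lin A.symm) - ContinuousLinearMap.id ℝ E3).comp (lin A) := by
      ext1 v
      simp only [sub_apply, ContinuousLinearMap.comp_apply,
        ContinuousLinearMap.id_apply, lin_symm_comp]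
    have h2 : ‖D x - lin A‖ ≤ ‖lin A‖ * ‖(D x).comp (lin A.symm) - ContinuousLinearMap.id ℝ E3‖ := by
      conv_lhs => rw [h1]
      rw [mul_comm]
      exact ContinuousLinearMap.opNorm_comp_le _ _
    rw [← ENNReal.mul_rpow_of_nonneg _ _ hp]
    apply ENNReal.rpow_le_rpow _ hp
    rw [← ofReal_norm, ← ofReal_norm, ← ofReal_norm, ← ENNReal.ofReal_mul (norm_nonneg _)]
    exact ENNReal.ofReal_le_ofReal h2
  have htop : ‖lin A‖ₑ ^ p ≠ ∞ := ENNReal.rpow_ne_top_of_nonneg hp enorm_ne_top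
  set I : ℝ≥0∞ := ∫⁻ x in A ⁻¹' cbx Q ((1 + 2 * κ2) * lam),
    ‖(D x).comp (lin A.symm) - ContinuousLinearMap.id ℝ E3‖ₑ ^ p with hI
  have hI1 : ENNReal.ofReal |(lin A).det| * I ≤ ENNReal.ofReal (κ1 * (lam * Q.sz) ^ 3) := h.lp
  have hI2 : I ≤ ENNReal.ofReal (27 * κ1) * volume (A ⁻¹' cbx Q lam) := by
    have h2 : ENNReal.ofReal |(lin A).det| ≠ 0 := by
      rw [ENNReal.ofReal_ne_zero_iff]; exact hd
    rw [← ENNReal.mul_le_mul_iff_right h2 ENNReal.ofReal_ne_top]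
    refine hI1.trans ?_
    rw [vol_pre hQ A hl.le, ← ENNReal.ofReal_mul (by positivity), ← ENNReal.ofReal_mul hd.le]
    apply ENNReal.ofReal_le_ofReal
    have h3 := sz_le_vQ hQ asp
    have h4 : |(lin A).det| * (27 * κ1 * (lam ^ 3 * wA Q A)) = κ1 * lam ^ 3 * (27 * vQ Q) := by
      unfold wA
      field_simp
    rw [h4]
    calc κ1 * (lam * Q.sz) ^ 3 = κ1 * lam ^ 3 * Q.sz ^ 3 := by ring
      _ ≤ κ1 * lam ^ 3 * (27 * vQ Q) := by gcongr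
  calc ∫⁻ x in A ⁻¹' cbx Q ((1 + 2 * κ2) * lam), ‖D x - lin A‖ₑ ^ p
      ≤ ∫⁻ x in A ⁻¹' cbx Q ((1 + 2 * κ2) * lam),
        ‖lin A‖ₑ ^ p * ‖(D x).comp (lin A.symm) - ContinuousLinearMap.id ℝ E3‖ₑ ^ p :=
        lintegral_mono fun x => hpt x
    _ = ‖lin A‖ₑ ^ p * I := lintegral_const_mul' _ _ htop
    _ ≤ ‖lin A‖ₑ ^ p * (ENNReal.ofReal (27 * κ1) * volume (A ⁻¹' cbx Q lam)) := by gcongr
    _ = ENNReal.ofReal (27 * κ1) * (‖lin A‖ₑ ^ p * volume (A ⁻¹' cbx Q lam)) := by ring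

lemma enorm_le_add (a b : E3 →L[ℝ] E3) : ‖a‖ₑ ≤ ‖b - a‖ₑ + ‖b‖ₑ := by
  rw [← ofReal_norm, ← ofReal_norm, ← ofReal_norm, ← ENNReal.ofReal_add (norm_nonneg _) (norm_nonneg _)]
  apply ENNReal.ofReal_le_ofReal
  have h2 : a = b - (b - a) := by abel
  calc ‖a‖ = ‖b - (b - a)‖ := by rw [← h2]
    _ ≤ ‖b‖ + ‖b - a‖ := norm_sub_le _ _
    _ = ‖b - a‖ + ‖b‖ := add_comm _ _

lemma le_two_mul_of_half {X a : ℝ≥0∞} (hX : X ≠ ∞) (h : X ≤ a + 2⁻¹ * X) : X ≤ 2 * a := by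
  have h1 : X = 2⁻¹ * X + 2⁻¹ * X := by
    rw [← add_mul, ENNReal.inv_two_add_inv_two, one_mul]
  have h2 : 2⁻¹ * X ≠ ∞ := ENNReal.mul_ne_top (by simp) hX
  have h3 : 2⁻¹ * X ≤ a := by
    have h4 : 2⁻¹ * X + 2⁻¹ * X ≤ a + 2⁻¹ * X := by rw [← h1]; exact h
    exact (ENNReal.add_le_add_iff_right h2).1 h4
  calc X = 2⁻¹ * X + 2⁻¹ * X := h1
    _ ≤ a + a := add_le_add h3 h3
    _ = 2 * a := (two_mul a).symm

/-- **energy of the affine map on the core ≤ energy of `f`.** -/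
theorem exIn_energy (h : ExIn p Om f D o u κ1 κ2 Q A lam)
    (hDm : AEStronglyMeasurable D (volume.restrict Om)) (hp : 0 ≤ p) (hQ : Q.Pos)
    (asp : ∀ i, Q.sz ≤ 3 * Q.side i) (hl : 0 < lam) (hκ1 : 0 ≤ κ1) (hκ2 : 0 ≤ κ2)
    (hκ : 2 ^ p * (27 * κ1) ≤ 1 / 2) :
    ‖lin A‖ₑ ^ p * volume (A ⁻¹' cbx Q lam) ≤
      2 ^ (p + 1) * ∫⁻ x in A ⁻¹' cbx Q lam, ‖D x‖ₑ ^ p := by
  set X : ℝ≥0∞ := ‖lin A‖ₑ ^ p * volume (A ⁻¹' cbx Q lam) with hX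
  have htop : ‖lin A‖ₑ ^ p ≠ ∞ := ENNReal.rpow_ne_top_of_nonneg hp enorm_ne_top
  have h2t : (2 : ℝ≥0∞) ^ p ≠ ∞ := ENNReal.rpow_ne_top_of_nonneg hp (by norm_num)
  have hXt : X ≠ ∞ := ENNReal.mul_ne_top htop (by rw [vol_pre hQ A hl.le]; exact ENNReal.ofReal_ne_top)
  have hsub : A ⁻¹' cbx Q lam ⊆ A ⁻¹' cbx Q ((1 + 2 * κ2) * lam) := by
    apply preimage_mono
    apply cbx_mono hQ
    nlinarith
  have hKO : A ⁻¹' cbx Q lam ⊆ Om := fun x hx => (h.cor x (Or.inr (hsub hx))).1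
  have hDK : AEStronglyMeasurable D (volume.restrict (A ⁻¹' cbx Q lam)) := hDm.mono_set hKO
  have hmm : AEMeasurable (fun x => ‖D x - lin A‖ₑ ^ p) (volume.restrict (A ⁻¹' cbx Q lam)) :=
    ((hDK.sub aestronglyMeasurable_const).enorm).pow_const p
  have h1 : X ≤ 2 ^ p * (∫⁻ x in A ⁻¹' cbx Q lam, ‖D x‖ₑ ^ p) + 2⁻¹ * X := by
    calc X = ∫⁻ x in A ⁻¹' cbx Q lam, ‖lin A‖ₑ ^ p := by
          rw [lintegral_const, Measure.restrict_apply_univ]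
      _ ≤ ∫⁻ x in A ⁻¹' cbx Q lam, 2 ^ p * (‖D x - lin A‖ₑ ^ p + ‖D x‖ₑ ^ p) := by
          refine lintegral_mono fun x => ?_
          refine (ENNReal.rpow_le_rpow ?_ hp).trans (add_rpow_le _ _ hp)
          exact enorm_le_add _ _
      _ = 2 ^ p * ∫⁻ x in A ⁻¹' cbx Q lam, (‖D x - lin A‖ₑ ^ p + ‖D x‖ₑ ^ p) :=
          lintegral_const_mul' _ _ h2t
      _ ≤ 2 ^ p * ((∫⁻ x in A ⁻¹' cbx Q lam, ‖D x - lin A‖ₑ ^ p) +
            ∫⁻ x in A ⁻¹' cbx Q lam, ‖D x‖ₑ ^ p) := by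
          rw [lintegral_add_left' hmm]
      _ ≤ 2 ^ p * (ENNReal.ofReal (27 * κ1) * X + ∫⁻ x in A ⁻¹' cbx Q lam, ‖D x‖ₑ ^ p) := by
          gcongr
          exact (lintegral_mono_set hsub).trans (exIn_lp h hp hQ asp hl hκ1)
      _ = 2 ^ p * (∫⁻ x in A ⁻¹' cbx Q lam, ‖D x‖ₑ ^ p) + 2 ^ p * ENNReal.ofReal (27 * κ1) * X := by
          ring
      _ ≤ 2 ^ p * (∫⁻ x in A ⁻¹' cbx Q lam, ‖D x‖ₑ ^ p) + 2⁻¹ * X := by
          gcongr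
          have h2p : (2 : ℝ≥0∞) ^ p = ENNReal.ofReal (2 ^ p) := by
            rw [← ENNReal.ofReal_rpow_of_nonneg (by norm_num) hp]; norm_num
          rw [h2p, ← ENNReal.ofReal_mul (by positivity)]
          refine (ENNReal.ofReal_le_ofReal hκ).trans (le_of_eq ?_)
          rw [one_div, ENNReal.ofReal_inv_of_pos (by norm_num)]
          norm_num
  refine (le_two_mul_of_half hXt h1).trans (le_of_eq ?_)
  rw [← mul_assoc, ENNReal.rpow_add _ _ (by norm_num) (by norm_num), ENNReal.rpow_one, mul_comm (2 : ℝ≥0∞)]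

end

end Crest.Agent.R096.Rg3_766
end

-- ▼ part R096/Rg3f_766
section

/-!
Row 96 (S0127), helper766.  Range `p > 2`, part f: accounting over all cores.
-/

set_option autoImplicit false
set_option linter.unusedSectionVars false
set_option linter.style.longLine false
set_option linter.style.haveILetI false
set_option linter.unusedVariables false

namespace Crest.Agent.R096.Rg3_766

open MeasureTheory Set Filter Topology Metric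
open scoped ENNReal NNReal
open Crest.Agent.R096.SkC1_961 (E3 Hom3)

noncomputable section

lemma two_rpow_ne_top {p : ℝ} (hp : 0 ≤ p) : (2 : ℝ≥0∞) ^ p ≠ ∞ :=
  ENNReal.rpow_ne_top_of_nonneg hp (by norm_num)

lemma one_le_two_rpow {p : ℝ} (hp : 0 ≤ p) : (1 : ℝ≥0∞) ≤ 2 ^ p := by
  calc (1 : ℝ≥0∞) = 1 ^ p := (ENNReal.one_rpow p).symm
    _ ≤ 2 ^ p := ENNReal.rpow_le_rpow (by norm_num) hp

lemma enorm_add_le3 (a b : E3 →L[ℝ] E3) : ‖a + b‖ₑ ≤ ‖a‖ₑ + ‖b‖ₑ := by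
  rw [← ofReal_norm, ← ofReal_norm, ← ofReal_norm,
    ← ENNReal.ofReal_add (norm_nonneg _) (norm_nonneg _)]
  exact ENNReal.ofReal_le_ofReal (norm_add_le _ _)

lemma enorm_neg3 (a : E3 →L[ℝ] E3) : ‖-a‖ₑ = ‖a‖ₑ := by
  rw [← ofReal_norm, ← ofReal_norm, norm_neg]

/-- `∫ ‖h‖^p` from `∫ ‖h - M‖^p` -/
lemma lint_h_le {p : ℝ} (hp : 0 ≤ p) (S : Set E3) (h : E3 → E3 →L[ℝ] E3) (M : E3 →L[ℝ] E3) :
    ∫⁻ x in S, ‖h x‖ₑ ^ p ≤ 2 ^ p * ((∫⁻ x in S, ‖h x - M‖ₑ ^ p) + ‖M‖ₑ ^ p * volume S) := by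
  calc ∫⁻ x in S, ‖h x‖ₑ ^ p ≤ ∫⁻ x in S, 2 ^ p * (‖h x - M‖ₑ ^ p + ‖M‖ₑ ^ p) := by
        refine lintegral_mono fun x => ?_
        refine (ENNReal.rpow_le_rpow ?_ hp).trans (add_rpow_le _ _ hp)
        have h1 : h x = (h x - M) + M := by abel
        conv_lhs => rw [h1]
        exact enorm_add_le3 _ _
    _ = 2 ^ p * ∫⁻ x in S, (‖h x - M‖ₑ ^ p + ‖M‖ₑ ^ p) :=
        lintegral_const_mul' _ _ (two_rpow_ne_top hp)
    _ = 2 ^ p * ((∫⁻ x in S, ‖h x - M‖ₑ ^ p) + ‖M‖ₑ ^ p * volume S) := by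
        rw [lintegral_add_right _ measurable_const, lintegral_const, Measure.restrict_apply_univ]

lemma lint_sub_le {p : ℝ} (hp : 0 ≤ p) (S : Set E3) (h D : E3 → E3 →L[ℝ] E3) (M : E3 →L[ℝ] E3)
    (hD : AEStronglyMeasurable D (volume.restrict S)) :
    ∫⁻ x in S, ‖h x - D x‖ₑ ^ p ≤
      2 ^ p * ((∫⁻ x in S, ‖h x - M‖ₑ ^ p) + ∫⁻ x in S, ‖M - D x‖ₑ ^ p) := by
  have hm : AEMeasurable (fun x => ‖M - D x‖ₑ ^ p) (volume.restrict S) :=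
    ((aestronglyMeasurable_const.sub hD).enorm).pow_const p
  calc ∫⁻ x in S, ‖h x - D x‖ₑ ^ p ≤ ∫⁻ x in S, 2 ^ p * (‖h x - M‖ₑ ^ p + ‖M - D x‖ₑ ^ p) := by
        refine lintegral_mono fun x => ?_
        refine (ENNReal.rpow_le_rpow ?_ hp).trans (add_rpow_le _ _ hp)
        have h1 : h x - D x = (h x - M) + (M - D x) := by abel
        rw [h1]
        exact enorm_add_le3 _ _
    _ = 2 ^ p * ∫⁻ x in S, (‖h x - M‖ₑ ^ p + ‖M - D x‖ₑ ^ p) :=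
        lintegral_const_mul' _ _ (two_rpow_ne_top hp)
    _ = 2 ^ p * ((∫⁻ x in S, ‖h x - M‖ₑ ^ p) + ∫⁻ x in S, ‖M - D x‖ₑ ^ p) := by
        rw [lintegral_add_right' _ hm]

lemma smul_enorm_rpow {p : ℝ} (hp : 0 ≤ p) {a : ℝ} (ha : 0 ≤ a) (L : E3 →L[ℝ] E3) :
    ‖a • L‖ₑ ^ p = ENNReal.ofReal a ^ p * ‖L‖ₑ ^ p := by
  rw [enorm_smul, ENNReal.mul_rpow_of_nonneg _ _ hp, Real.enorm_eq_ofReal ha]

/-- one bad core -/
lemma bad_core {p : ℝ} (hp : 0 ≤ p) {S : Set E3} {h : E3 → E3 →L[ℝ] E3} {L : E3 →L[ℝ] E3} {lam ρ : ℝ}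
    (hρ1 : ρ ≤ 1) (hl : 1 / 3072 ≤ lam)
    (hc : (∫⁻ x in S, ‖h x - lam⁻¹ • L‖ₑ ^ p) ≤ ENNReal.ofReal ρ * (‖L‖ₑ ^ p * volume S)) :
    ∫⁻ x in S, ‖h x‖ₑ ^ p ≤ 2 ^ p * (1 + 3072 ^ p) * (‖L‖ₑ ^ p * volume S) := by
  have hl0 : 0 < lam := by linarith
  have h1 : ENNReal.ofReal lam⁻¹ ^ p ≤ 3072 ^ p := by
    apply ENNReal.rpow_le_rpow _ hp
    have : lam⁻¹ ≤ 3072 := by
      rw [inv_le_comm₀ hl0 (by norm_num)]
      linarith
    refine (ENNReal.ofReal_le_ofReal this).trans (by norm_num)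
  have h2 : ENNReal.ofReal ρ ≤ 1 := by
    rw [← ENNReal.ofReal_one]; exact ENNReal.ofReal_le_ofReal hρ1
  calc ∫⁻ x in S, ‖h x‖ₑ ^ p
      ≤ 2 ^ p * ((∫⁻ x in S, ‖h x - lam⁻¹ • L‖ₑ ^ p) + ‖lam⁻¹ • L‖ₑ ^ p * volume S) :=
        lint_h_le hp S h _
    _ ≤ 2 ^ p * (1 * (‖L‖ₑ ^ p * volume S) + (3072 ^ p * ‖L‖ₑ ^ p) * volume S) := by
        rw [smul_enorm_rpow hp (inv_nonneg.2 hl0.le)]
        gcongr
        exact hc.trans (by gcongr)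
    _ = 2 ^ p * (1 + 3072 ^ p) * (‖L‖ₑ ^ p * volume S) := by ring

/-- one good core -/
lemma good_core {p : ℝ} (hp : 1 ≤ p) {S : Set E3} {h D : E3 → E3 →L[ℝ] E3} {L : E3 →L[ℝ] E3}
    {lam ρ : ℝ} (hD : AEStronglyMeasurable D (volume.restrict S)) (hρ0 : 0 ≤ ρ)
    (hρ1 : ρ ≤ 1) (hl : 0 < lam) (hl1 : lam ≤ 1) (hl2 : lam⁻¹ - 1 ≤ ρ)
    (hc : (∫⁻ x in S, ‖h x - lam⁻¹ • L‖ₑ ^ p) ≤ ENNReal.ofReal ρ * (‖L‖ₑ ^ p * volume S))
    (hDL : (∫⁻ x in S, ‖D x - L‖ₑ ^ p) ≤ ENNReal.ofReal ρ * (‖L‖ₑ ^ p * volume S)) :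
    ∫⁻ x in S, ‖h x - D x‖ₑ ^ p ≤
      2 ^ p * (1 + 2 * 2 ^ p) * ENNReal.ofReal ρ * (‖L‖ₑ ^ p * volume S) := by
  have hp0 : 0 ≤ p := by linarith
  have h0 : 0 ≤ lam⁻¹ - 1 := by
    have := (one_le_inv₀ hl).2 hl1
    linarith
  have h3 : ENNReal.ofReal (lam⁻¹ - 1) ^ p ≤ ENNReal.ofReal ρ := by
    refine (ENNReal.rpow_le_rpow (ENNReal.ofReal_le_ofReal hl2) hp0).trans ?_
    have h4 : ENNReal.ofReal ρ ≤ 1 := by
      rw [← ENNReal.ofReal_one]; exact ENNReal.ofReal_le_ofReal hρ1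
    calc ENNReal.ofReal ρ ^ p ≤ ENNReal.ofReal ρ ^ (1 : ℝ) :=
          ENNReal.rpow_le_rpow_of_exponent_ge h4 hp
      _ = ENNReal.ofReal ρ := ENNReal.rpow_one _
  have hMD : ∫⁻ x in S, ‖lam⁻¹ • L - D x‖ₑ ^ p ≤
      2 * 2 ^ p * ENNReal.ofReal ρ * (‖L‖ₑ ^ p * volume S) := by
    calc ∫⁻ x in S, ‖lam⁻¹ • L - D x‖ₑ ^ p
        ≤ ∫⁻ x in S, 2 ^ p * (‖D x - L‖ₑ ^ p + ‖(lam⁻¹ - 1) • L‖ₑ ^ p) := by
          refine lintegral_mono fun x => ?_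
          refine (ENNReal.rpow_le_rpow ?_ hp0).trans (add_rpow_le _ _ hp0)
          have h1 : lam⁻¹ • L - D x = -(D x - L) + (lam⁻¹ - 1) • L := by
            ext v k
            simp
            ring
          rw [h1]
          refine (enorm_add_le3 _ _).trans ?_
          rw [enorm_neg3]
      _ = 2 ^ p * ∫⁻ x in S, (‖D x - L‖ₑ ^ p + ‖(lam⁻¹ - 1) • L‖ₑ ^ p) :=
          lintegral_const_mul' _ _ (two_rpow_ne_top hp0)
      _ = 2 ^ p * ((∫⁻ x in S, ‖D x - L‖ₑ ^ p) + ENNReal.ofReal (lam⁻¹ - 1) ^ p * ‖L‖ₑ ^ p * volume S) := by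
          rw [lintegral_add_right _ measurable_const, lintegral_const, Measure.restrict_apply_univ,
            smul_enorm_rpow hp0 h0]
      _ ≤ 2 ^ p * (ENNReal.ofReal ρ * (‖L‖ₑ ^ p * volume S) +
            ENNReal.ofReal ρ * ‖L‖ₑ ^ p * volume S) := by gcongr
      _ = 2 * 2 ^ p * ENNReal.ofReal ρ * (‖L‖ₑ ^ p * volume S) := by ring
  calc ∫⁻ x in S, ‖h x - D x‖ₑ ^ p
      ≤ 2 ^ p * ((∫⁻ x in S, ‖h x - lam⁻¹ • L‖ₑ ^ p) + ∫⁻ x in S, ‖lam⁻¹ • L - D x‖ₑ ^ p) :=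
        lint_sub_le hp0 S h D _ hD
    _ ≤ 2 ^ p * (ENNReal.ofReal ρ * (‖L‖ₑ ^ p * volume S) +
          2 * 2 ^ p * ENNReal.ofReal ρ * (‖L‖ₑ ^ p * volume S)) := by gcongr
    _ = 2 ^ p * (1 + 2 * 2 ^ p) * ENNReal.ofReal ρ * (‖L‖ₑ ^ p * volume S) := by ring

/-- one shell -/
lemma shell_le {p : ℝ} (hp : 0 ≤ p) {T S K : Set E3} (hTS : T ⊆ S) {D : E3 → E3 →L[ℝ] E3}
    {L : E3 →L[ℝ] E3} {ρ : ℝ}
    (hDL : (∫⁻ x in S, ‖D x - L‖ₑ ^ p) ≤ ENNReal.ofReal ρ * (‖L‖ₑ ^ p * volume K))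
    (hT : volume T ≤ ENNReal.ofReal ρ * volume K) :
    ∫⁻ x in T, (1 + ‖D x‖ₑ ^ p) ≤
      2 * 2 ^ p * ENNReal.ofReal ρ * ((1 + ‖L‖ₑ ^ p) * volume K) := by
  have h1 := lint_h_le hp T D L
  have h2 : (∫⁻ x in T, ‖D x - L‖ₑ ^ p) ≤ ENNReal.ofReal ρ * (‖L‖ₑ ^ p * volume K) :=
    (lintegral_mono_set hTS).trans hDL
  have h3 : (1 : ℝ≥0∞) ≤ 2 * 2 ^ p := by
    calc (1 : ℝ≥0∞) ≤ 2 * 1 := by norm_num
      _ ≤ 2 * 2 ^ p := by gcongr; exact one_le_two_rpow hp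
  calc ∫⁻ x in T, (1 + ‖D x‖ₑ ^ p) = volume T + ∫⁻ x in T, ‖D x‖ₑ ^ p := by
        rw [lintegral_add_left measurable_const, lintegral_const, Measure.restrict_apply_univ, one_mul]
    _ ≤ ENNReal.ofReal ρ * volume K + 2 ^ p * (ENNReal.ofReal ρ * (‖L‖ₑ ^ p * volume K) +
          ‖L‖ₑ ^ p * (ENNReal.ofReal ρ * volume K)) := by
        gcongr
        exact h1.trans (by gcongr)
    _ = ENNReal.ofReal ρ * (1 * volume K) + 2 * 2 ^ p * ENNReal.ofReal ρ * (‖L‖ₑ ^ p * volume K) := by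
        ring
    _ ≤ ENNReal.ofReal ρ * ((2 * 2 ^ p) * volume K) +
          2 * 2 ^ p * ENNReal.ofReal ρ * (‖L‖ₑ ^ p * volume K) := by gcongr
    _ = 2 * 2 ^ p * ENNReal.ofReal ρ * ((1 + ‖L‖ₑ ^ p) * volume K) := by ring

/-! ### all cores -/

/-- **accounting.** -/
theorem acct {ι : Type*} [Countable ι] {p : ℝ} (hp : 1 ≤ p) {Om : Set E3} (hOm : MeasurableSet Om)
    {K : ι → Set E3} (hK : ∀ i, MeasurableSet (K i)) (hd : ∀ i j, i ≠ j → Disjoint (K i) (K j))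
    (hs : ∀ i, K i ⊆ Om)
    {L : ι → E3 →L[ℝ] E3} {lam : ι → ℝ} {good : Set ι} {D D0 h : E3 → E3 →L[ℝ] E3}
    (hDm : AEStronglyMeasurable D (volume.restrict Om))
    (hmass : ∀ i, ‖L i‖ₑ ^ p * volume (K i) ≤ 2 ^ (p + 1) * ∫⁻ x in K i, ‖D x‖ₑ ^ p)
    (hDD : ∀ᵐ x, x ∈ Om → ‖D x‖ₑ ^ p ≤ 25 ^ p * ‖D0 x‖ₑ ^ p)
    {ρ : ℝ} (hρ : 0 ≤ ρ) (hρ1 : ρ ≤ 1)
    (hcore : ∀ i, (∫⁻ x in K i, ‖h x - (lam i)⁻¹ • L i‖ₑ ^ p) ≤
      ENNReal.ofReal ρ * (‖L i‖ₑ ^ p * volume (K i)))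
    (hlam : ∀ i, 1 / 3072 ≤ lam i ∧ lam i ≤ 1)
    (hg1 : ∀ i ∈ good, (∫⁻ x in K i, ‖D x - L i‖ₑ ^ p) ≤
      ENNReal.ofReal ρ * (‖L i‖ₑ ^ p * volume (K i)))
    (hg2 : ∀ i ∈ good, (lam i)⁻¹ - 1 ≤ ρ)
    (hg3 : ∀ i ∈ good, ∀ᵐ x, x ∈ K i → D x = D0 x)
    {CE e1 : ℝ≥0∞} (hEA : (∫⁻ x in Om \ ⋃ i, K i, ‖h x‖ₑ ^ p) ≤
      CE * (∫⁻ x in Om \ ⋃ i, K i, (1 + ‖D x‖ₑ ^ p)) +
        ENNReal.ofReal ρ * (∑' i, (1 + ‖L i‖ₑ ^ p) * volume (K i)) + e1)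
    {T : ι → Set E3} (hT : ∀ i ∈ good, (∫⁻ x in T i, (1 + ‖D0 x‖ₑ ^ p)) ≤
      2 * 2 ^ p * ENNReal.ofReal ρ * ((1 + ‖L i‖ₑ ^ p) * volume (K i)))
    {Z Z0 : Set E3} {e2 : ℝ≥0∞} (hZ : (∫⁻ x in Z, (1 + ‖D0 x‖ₑ ^ p)) ≤ e2)
    (hcov : ∀ x ∈ Om, x ∉ Z0 → (∀ i ∈ good, x ∉ K i) → x ∈ Z ∨ ∃ i ∈ good, x ∈ T i)
    {B : ℝ≥0∞} (hB : 2 ^ (p + 1) * 25 ^ p * (∫⁻ x in Om, (1 + ‖D0 x‖ₑ ^ p)) ≤ B) :
    (∫⁻ x in ⋃ i ∈ good, K i, ‖h x - D0 x‖ₑ ^ p) ≤ 2 ^ p * (1 + 2 * 2 ^ p) * ENNReal.ofReal ρ * B ∧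
    (∫⁻ x in Om \ ⋃ i ∈ good, K i, ‖h x‖ₑ ^ p) ≤
      (CE * 25 ^ p + 2 ^ p * (1 + 3072 ^ p) * (2 ^ (p + 1) * 25 ^ p)) *
        (∫⁻ x in Om \ ⋃ i ∈ good, K i, (1 + ‖D0 x‖ₑ ^ p)) + (ENNReal.ofReal ρ * B + e1) ∧
    (∫⁻ x in (Om \ Z0) \ ⋃ i ∈ good, K i, (1 + ‖D0 x‖ₑ ^ p)) ≤
      e2 + 2 * 2 ^ p * ENNReal.ofReal ρ * B := by
  classical
  have hp0 : 0 ≤ p := by linarith
  have h25t : (25 : ℝ≥0∞) ^ p ≠ ∞ := ENNReal.rpow_ne_top_of_nonneg hp0 (by norm_num)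
  have h25 : (1 : ℝ≥0∞) ≤ 25 ^ p := by
    calc (1 : ℝ≥0∞) ≤ 2 ^ p := one_le_two_rpow hp0
      _ ≤ 25 ^ p := ENNReal.rpow_le_rpow (by norm_num) hp0
  have h2p1 : (1 : ℝ≥0∞) ≤ 2 ^ (p + 1) := one_le_two_rpow (by linarith)
  -- comparison of the energies of `D` and `D0`
  have hcmp : ∀ S : Set E3, S ⊆ Om → ∫⁻ x in S, (1 + ‖D x‖ₑ ^ p) ≤ 25 ^ p * ∫⁻ x in S, (1 + ‖D0 x‖ₑ ^ p) := by
    intro S hS
    rw [← lintegral_const_mul' _ _ h25t]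
    apply lintegral_mono_ae
    have hS' : ∀ᵐ x ∂(volume.restrict S), x ∈ Om :=
      ae_restrict_of_ae_restrict_of_subset hS (ae_restrict_mem hOm)
    filter_upwards [hS', ae_restrict_of_ae hDD] with x hx hx'
    rw [mul_add, mul_one]
    exact add_le_add h25 (hx' hx)
  -- mass of one core
  have hm1 : ∀ i, (1 + ‖L i‖ₑ ^ p) * volume (K i) ≤
      2 ^ (p + 1) * 25 ^ p * ∫⁻ x in K i, (1 + ‖D0 x‖ₑ ^ p) := by
    intro i
    calc (1 + ‖L i‖ₑ ^ p) * volume (K i) = volume (K i) + ‖L i‖ₑ ^ p * volume (K i) := by ring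
      _ ≤ 2 ^ (p + 1) * volume (K i) + 2 ^ (p + 1) * ∫⁻ x in K i, ‖D x‖ₑ ^ p := by
          refine add_le_add ?_ (hmass i)
          calc volume (K i) = 1 * volume (K i) := (one_mul _).symm
              _ ≤ 2 ^ (p + 1) * volume (K i) := by gcongr
      _ = 2 ^ (p + 1) * ∫⁻ x in K i, (1 + ‖D x‖ₑ ^ p) := by
          rw [lintegral_add_left measurable_const, lintegral_const, Measure.restrict_apply_univ,
            one_mul, mul_add]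
      _ ≤ 2 ^ (p + 1) * (25 ^ p * ∫⁻ x in K i, (1 + ‖D0 x‖ₑ ^ p)) := by
          gcongr
          exact hcmp _ (hs i)
      _ = _ := by ring
  have hpd : ∀ I : Set ι, I.PairwiseDisjoint K := fun I i _ j _ hij => hd i j hij
  have hsum : ∀ I : Set ι, ∑' i : I, (1 + ‖L i‖ₑ ^ p) * volume (K i) ≤
      2 ^ (p + 1) * 25 ^ p * ∫⁻ x in ⋃ i ∈ I, K i, (1 + ‖D0 x‖ₑ ^ p) := by
    intro I
    rw [lintegral_biUnion I.to_countable (fun i _ => hK i) (hpd I), ← ENNReal.tsum_mul_left]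
    exact ENNReal.tsum_le_tsum fun i => hm1 i
  have hsumB : ∀ I : Set ι, ∑' i : I, (1 + ‖L i‖ₑ ^ p) * volume (K i) ≤ B := by
    intro I
    refine (hsum I).trans (le_trans ?_ hB)
    gcongr
    exact iUnion₂_subset fun i _ => hs i
  have hsumBu : ∑' i, (1 + ‖L i‖ₑ ^ p) * volume (K i) ≤ B := by
    have := hsumB univ
    rwa [tsum_univ (fun i => (1 + ‖L i‖ₑ ^ p) * volume (K i))] at this
  refine ⟨?_, ?_, ?_⟩
  · -- good cores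
    rw [lintegral_biUnion good.to_countable (fun i _ => hK i) (hpd good)]
    calc ∑' i : good, ∫⁻ x in K i, ‖h x - D0 x‖ₑ ^ p
        ≤ ∑' i : good, 2 ^ p * (1 + 2 * 2 ^ p) * ENNReal.ofReal ρ *
            ((1 + ‖L i‖ₑ ^ p) * volume (K i)) := by
          refine ENNReal.tsum_le_tsum fun i => ?_
          have e1 : ∫⁻ x in K i, ‖h x - D0 x‖ₑ ^ p = ∫⁻ x in K i, ‖h x - D x‖ₑ ^ p := by
            apply lintegral_congr_ae
            have := hg3 i i.2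
            filter_upwards [ae_restrict_of_ae this, ae_restrict_mem (hK i)] with x hx hx'
            rw [hx hx']
          rw [e1]
          have hl := hlam i
          refine (good_core hp (hDm.mono_set (hs i)) hρ hρ1 (by linarith [hl.1]) hl.2 (hg2 i i.2)
            (hcore i) (hg1 i i.2)).trans ?_
          gcongr
          exact le_add_self
      _ = 2 ^ p * (1 + 2 * 2 ^ p) * ENNReal.ofReal ρ * ∑' i : good, (1 + ‖L i‖ₑ ^ p) * volume (K i) :=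
          ENNReal.tsum_mul_left
      _ ≤ 2 ^ p * (1 + 2 * 2 ^ p) * ENNReal.ofReal ρ * B := by
          gcongr
          exact hsumB good
  · -- off the good cores
    have hsub : Om \ ⋃ i ∈ good, K i ⊆ (Om \ ⋃ i, K i) ∪ ⋃ i ∈ goodᶜ, K i := by
      rintro x ⟨hx, hxg⟩
      by_cases hx2 : x ∈ ⋃ i, K i
      · obtain ⟨i, hi⟩ := mem_iUnion.1 hx2
        refine Or.inr (mem_iUnion₂.2 ⟨i, ?_, hi⟩)
        intro hig
        exact hxg (mem_iUnion₂.2 ⟨i, hig, hi⟩)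
      · exact Or.inl ⟨hx, hx2⟩
    have hsub1 : Om \ ⋃ i, K i ⊆ Om \ ⋃ i ∈ good, K i := by
      apply sdiff_subset_sdiff_right
      exact iUnion₂_subset fun i _ => subset_iUnion K i
    have hsub2 : ⋃ i ∈ goodᶜ, K i ⊆ Om \ ⋃ i ∈ good, K i := by
      refine iUnion₂_subset fun i hi x hx => ⟨hs i hx, ?_⟩
      intro hx2
      obtain ⟨j, hj, hxj⟩ := mem_iUnion₂.1 hx2
      have hij : i ≠ j := by rintro rfl; exact hi hj
      exact (disjoint_left.1 (hd i j hij)) hx hxj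
    have hbad : ∫⁻ x in ⋃ i ∈ goodᶜ, K i, ‖h x‖ₑ ^ p ≤
        2 ^ p * (1 + 3072 ^ p) * (2 ^ (p + 1) * 25 ^ p) *
          ∫⁻ x in Om \ ⋃ i ∈ good, K i, (1 + ‖D0 x‖ₑ ^ p) := by
      rw [lintegral_biUnion (goodᶜ).to_countable (fun i _ => hK i) (hpd goodᶜ)]
      calc ∑' i : (goodᶜ : Set ι), ∫⁻ x in K i, ‖h x‖ₑ ^ p
          ≤ ∑' i : (goodᶜ : Set ι), 2 ^ p * (1 + 3072 ^ p) * ((1 + ‖L i‖ₑ ^ p) * volume (K i)) := by
            refine ENNReal.tsum_le_tsum fun i => ?_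
            refine (bad_core hp0 hρ1 (hlam i).1 (hcore i)).trans ?_
            gcongr
            exact le_add_self
        _ = 2 ^ p * (1 + 3072 ^ p) * ∑' i : (goodᶜ : Set ι), (1 + ‖L i‖ₑ ^ p) * volume (K i) :=
            ENNReal.tsum_mul_left
        _ ≤ 2 ^ p * (1 + 3072 ^ p) * (2 ^ (p + 1) * 25 ^ p *
              ∫⁻ x in ⋃ i ∈ goodᶜ, K i, (1 + ‖D0 x‖ₑ ^ p)) := by
            gcongr
            exact hsum goodᶜ
        _ ≤ 2 ^ p * (1 + 3072 ^ p) * (2 ^ (p + 1) * 25 ^ p *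
              ∫⁻ x in Om \ ⋃ i ∈ good, K i, (1 + ‖D0 x‖ₑ ^ p)) := by
            gcongr
        _ = _ := by ring
    calc ∫⁻ x in Om \ ⋃ i ∈ good, K i, ‖h x‖ₑ ^ p
        ≤ ∫⁻ x in (Om \ ⋃ i, K i) ∪ ⋃ i ∈ goodᶜ, K i, ‖h x‖ₑ ^ p := lintegral_mono_set hsub
      _ ≤ (∫⁻ x in Om \ ⋃ i, K i, ‖h x‖ₑ ^ p) + ∫⁻ x in ⋃ i ∈ goodᶜ, K i, ‖h x‖ₑ ^ p :=
          lintegral_union_le _ _ _
      _ ≤ (CE * (25 ^ p * ∫⁻ x in Om \ ⋃ i ∈ good, K i, (1 + ‖D0 x‖ₑ ^ p)) +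
            ENNReal.ofReal ρ * B + e1) +
          2 ^ p * (1 + 3072 ^ p) * (2 ^ (p + 1) * 25 ^ p) *
            ∫⁻ x in Om \ ⋃ i ∈ good, K i, (1 + ‖D0 x‖ₑ ^ p) := by
          refine add_le_add ?_ hbad
          refine hEA.trans ?_
          gcongr
          exact (hcmp _ sdiff_subset).trans (by gcongr)
      _ = _ := by ring
  · -- the rest
    have hsub : (Om \ Z0) \ ⋃ i ∈ good, K i ⊆ Z ∪ ⋃ i ∈ good, T i := by
      rintro x ⟨⟨hx, hxZ⟩, hxK⟩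
      rcases hcov x hx hxZ (fun i hi hxi => hxK (mem_iUnion₂.2 ⟨i, hi, hxi⟩)) with h1 | ⟨i, hi, h1⟩
      · exact Or.inl h1
      · exact Or.inr (mem_iUnion₂.2 ⟨i, hi, h1⟩)
    calc ∫⁻ x in (Om \ Z0) \ ⋃ i ∈ good, K i, (1 + ‖D0 x‖ₑ ^ p)
        ≤ ∫⁻ x in Z ∪ ⋃ i ∈ good, T i, (1 + ‖D0 x‖ₑ ^ p) := lintegral_mono_set hsub
      _ ≤ (∫⁻ x in Z, (1 + ‖D0 x‖ₑ ^ p)) + ∫⁻ x in ⋃ i ∈ good, T i, (1 + ‖D0 x‖ₑ ^ p) :=
          lintegral_union_le _ _ _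
      _ ≤ e2 + ∑' i : good, ∫⁻ x in T i, (1 + ‖D0 x‖ₑ ^ p) := by
          gcongr
          rw [biUnion_eq_iUnion]
          exact lintegral_iUnion_le _ _
      _ ≤ e2 + ∑' i : good, 2 * 2 ^ p * ENNReal.ofReal ρ * ((1 + ‖L i‖ₑ ^ p) * volume (K i)) := by
          gcongr with i
          exact hT i i.2
      _ = e2 + 2 * 2 ^ p * ENNReal.ofReal ρ * ∑' i : good, (1 + ‖L i‖ₑ ^ p) * volume (K i) := by
          rw [ENNReal.tsum_mul_left]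
      _ ≤ e2 + 2 * 2 ^ p * ENNReal.ofReal ρ * B := by
          gcongr
          exact hsumB good

end

end Crest.Agent.R096.Rg3_766
end

-- ▼ part R096/Rg3g_766

/-!
Row 96 (S0127), helper766.  Range `p ≥ 3`, part g: the foam of PREP3 and the cores.
-/

set_option autoImplicit false
set_option linter.unusedSectionVars false
set_option linter.style.longLine false
set_option linter.style.haveILetI false
set_option linter.unusedVariables false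

namespace Crest.Agent.R096.Rg3_766

open MeasureTheory Set Filter Topology Metric
open scoped ENNReal NNReal
open Crest.AnalysisR.VecCalc3 Crest.AnalysisR.Sobolev
open Crest.Agent.R096.SkC1_961 (E3 Hom3)
open Crest.Agent.R096.EaX_766 Crest.Agent.R096.Bsp_628 Crest.Agent.R096.Prep_766
open Crest.Agent.R096.Bxs_627 hiding E3
open Crest.Agent.R096.Er_594
open Crest.Agent.R096.Osc_802 Crest.Agent.R096.VolC2_766 Crest.Agent.R96.Lu_538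
open Crest.Agent.R096.ThC6_766 Crest.Agent.R096.Sel_766 Crest.Agent.R096.Toph_766
open Crest.Agent.R96.En10_199
open Crest.Agent.R096.Sk_962 (SH)

noncomputable section

/-! ### one core -/

lemma core_in {p : ℝ} {Om : Set E3} {f : E3 → E3} {D : E3 → E3 →L[ℝ] E3} {o : E3} {u κ1 κ2 : ℝ}
    {Q : Bx (Fin 3)} {A : E3 ≃ᵃ[ℝ] E3} {lam : ℝ} (h : ExIn p Om f D o u κ1 κ2 Q A lam) (hQ : Q.Pos)
    (asp : ∀ i, Q.sz ≤ 3 * Q.side i) (hl : 0 < lam) (hκ1 : 0 ≤ κ1) (hκ2 : 0 ≤ κ2)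
    (hlk : lam * (1 + 6 * κ1) < 1) {x : E3} (hx : x ∈ A ⁻¹' cbx Q lam) :
    x ∈ Om ∧ ∀ k, |f x k - ctr Q k| < Q.side k / 2 := by
  have h1 : A x ∈ cbx Q ((1 + 2 * κ2) * lam) := by
    apply cbx_mono hQ _ hx
    nlinarith
  obtain ⟨h2, h3⟩ := h.cor x (Or.inr h1)
  refine ⟨h2, fun k => ?_⟩
  have h4 := norm_le_pi_norm (f x - A x) k
  rw [Pi.sub_apply, Real.norm_eq_abs] at h4
  have h5 : |A x k - ctr Q k| ≤ lam * Q.side k / 2 := hx k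
  have h6 := abs_sub_le (f x k) (A x k) (ctr Q k)
  have h7 := asp k
  have h8 := Bx.side_pos hQ k
  have h9 : κ1 * (lam * Q.sz) ≤ κ1 * (lam * (3 * Q.side k)) := by gcongr
  have h10 : lam * (1 + 6 * κ1) * Q.side k < 1 * Q.side k := by gcongr
  linarith

lemma cores_disj {La : Set E3} {F : Set (Bx (Fin 3))} {δ κ0 : ℝ} (BF : BoxFoam La F δ κ0)
    {f : E3 → E3} {c c' : F} (hne : c ≠ c') {x : E3}
    (h1 : ∀ k, |f x k - ctr c.1 k| < c.1.side k / 2)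
    (h2 : ∀ k, |f x k - ctr c'.1 k| < c'.1.side k / 2) : False := by
  obtain ⟨k, hk⟩ := BF.inv.disj c.2 c'.2 (BF.pos _ c.2) (BF.pos _ c'.2) (fun h => hne (Subtype.ext h))
  have h3 := abs_lt.1 (h1 k)
  have h4 := abs_lt.1 (h2 k)
  have h5 := ctr_lo c.1 k
  have h6 := ctr_hi c.1 k
  have h7 := ctr_lo c'.1 k
  have h8 := ctr_hi c'.1 k
  rcases hk with hk | hk <;> linarith [h3.1, h3.2, h4.1, h4.2]

lemma cbx_one {Q : Bx (Fin 3)} {y : E3} (hy : y ∈ Q.set) : y ∈ cbx Q 1 := by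
  intro k
  have h1 := Bx.mem_set.1 hy k
  have h2 := ctr_lo Q k
  have h3 := ctr_hi Q k
  rw [abs_le]
  constructor <;> linarith [h1.1, h1.2]

/-! ### volume of a shell -/

lemma shell_vol {Q : Bx (Fin 3)} (hQ : Q.Pos) (A : E3 ≃ᵃ[ℝ] E3) {a b ρ : ℝ} (ha : 0 ≤ a)
    (hab : a ≤ b) (hρ : 0 ≤ ρ) (h : b ^ 3 ≤ (1 + ρ) * a ^ 3) :
    volume (A ⁻¹' cbx Q b \ A ⁻¹' cbx Q a) ≤ ENNReal.ofReal ρ * volume (A ⁻¹' cbx Q a) := by
  have hw := wA_pos hQ A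
  have hb : 0 ≤ b := ha.trans hab
  rw [measure_sdiff (preimage_mono (cbx_mono hQ hab)) (measurable_pre A Q a).nullMeasurableSet
    (by rw [vol_pre hQ A ha]; exact ENNReal.ofReal_ne_top), vol_pre hQ A ha, vol_pre hQ A hb,
    ← ENNReal.ofReal_sub _ (by positivity), ← ENNReal.ofReal_mul hρ]
  apply ENNReal.ofReal_le_ofReal
  have h1 : b ^ 3 * wA Q A ≤ (1 + ρ) * a ^ 3 * wA Q A := by gcongr
  linarith

lemma numbers {ρ : ℝ} (hρ : 0 < ρ) (hρ1 : ρ ≤ 1) :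
    ∃ q : ℚ, (0 : ℝ) < q ∧ (q : ℝ) ≤ 1 / 1001 ∧ ((1 : ℝ) - q)⁻¹ - 1 ≤ ρ ∧
      ∀ k : ℝ, 0 ≤ k → k ≤ 1 / 20000 → k ≤ ρ / 1000 →
        (1 + 24 * k) ^ 3 ≤ (1 + ρ) * (1 - (q : ℝ)) ^ 3 ∧
        1 + 24 * k ≤ (1 + 2 * (1 / 720)) * (1 - (q : ℝ)) := by
  obtain ⟨q, hq0, hq1⟩ := exists_rat_btwn (show (0 : ℝ) < min (ρ / 8) (1 / 1001) from
    lt_min (by positivity) (by norm_num))
  have hq2 : (q : ℝ) ≤ ρ / 8 := hq1.le.trans (min_le_left _ _)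
  have hq3 : (q : ℝ) ≤ 1 / 1001 := hq1.le.trans (min_le_right _ _)
  refine ⟨q, hq0, hq3, ?_, ?_⟩
  · have h1 : (0 : ℝ) < 1 - q := by linarith
    rw [sub_le_iff_le_add, inv_le_comm₀ h1 (by linarith), inv_le_iff_one_le_mul₀ (by linarith)]
    nlinarith
  · intro k hk0 hk1 hk2
    constructor
    · have h1 : (1 + 24 * k) ^ 3 ≤ (1 + ρ / 40) ^ 3 := by
        gcongr
        linarith
      have h2 : (1 + ρ / 40) ^ 3 ≤ 1 + ρ / 4 := by nlinarith [sq_nonneg ρ]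
      have h3 : (1 - ρ / 8) ^ 3 ≤ (1 - (q : ℝ)) ^ 3 := by
        apply pow_le_pow_left₀ (by linarith)
        linarith
      have h4 : 1 - 3 * ρ / 8 ≤ (1 - ρ / 8) ^ 3 := by nlinarith [sq_nonneg ρ]
      have h5 : 1 + ρ / 4 ≤ (1 + ρ) * (1 - 3 * ρ / 8) := by nlinarith
      calc (1 + 24 * k) ^ 3 ≤ (1 + ρ) * (1 - 3 * ρ / 8) := by linarith
        _ ≤ (1 + ρ) * (1 - (q : ℝ)) ^ 3 := by gcongr; linarith
    · nlinarith

/-! ### the derivative of `Th ∘ f` -/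

lemma D3_le {G G' : Fin 3 → R3 → R3} {K : ℝ≥0} {x : E3}
    (h : ∀ v, ‖Gmat G' (P3 x) v‖ ≤ K * ‖Gmat G (P3 x) v‖) : ‖D3 G' x‖ ≤ 2 * K * ‖D3 G x‖ := by
  refine ContinuousLinearMap.opNorm_le_bound _ (by positivity) fun v => ?_
  have h1 : D3 G' x v = P3.symm (Gmat G' (P3 x) (P3 v)) := rfl
  have h2 : D3 G x v = P3.symm (Gmat G (P3 x) (P3 v)) := rfl
  calc ‖D3 G' x v‖ = ‖P3.symm (Gmat G' (P3 x) (P3 v))‖ := by rw [h1]
    _ ≤ ‖Gmat G' (P3 x) (P3 v)‖ := Er_594.norm_P3_symm_le _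
    _ ≤ K * ‖Gmat G (P3 x) (P3 v)‖ := h _
    _ ≤ K * (2 * ‖P3.symm (Gmat G (P3 x) (P3 v))‖) := by
        gcongr
        exact Er_594.norm_le_P3_symm _
    _ = 2 * K * ‖D3 G x v‖ := by rw [h2]; ring
    _ ≤ 2 * K * (‖D3 G x‖ * ‖v‖) := by
        gcongr
        exact (D3 G x).le_opNorm v
    _ = 2 * K * ‖D3 G x‖ * ‖v‖ := by ring

lemma ae_P3' {q : R3 → Prop} (h : ∀ᵐ y, q y) : ∀ᵐ x : E3, q (P3 x) := by
  have h1 : ∀ᵐ y ∂((volume : Measure R3).restrict univ), q y := by rwa [Measure.restrict_univ]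
  have h2 := ae_P3.1 h1
  rwa [preimage_univ, Measure.restrict_univ] at h2

lemma D_le {p : ℝ} (hp : 3 ≤ p) {Ω Λ : Set R3} (hΩ : IsOpen Ω) (hΛ : IsOpen Λ) {f : R3 → R3}
    {G G' : Fin 3 → R3 → R3} (h : SH p Ω Λ f G) {Th : R3 → R3}
    (hTh : ∀ y y', ‖Th y - Th y'‖ ≤ 25 / 2 * ‖y - y'‖) (h' : SH p Ω Λ (fun x => Th (f x)) G') :
    ∀ᵐ x : E3, x ∈ P3 ⁻¹' Ω → ‖D3 G' x‖ₑ ^ p ≤ 25 ^ p * ‖D3 G x‖ₑ ^ p := by
  have hL : LipschitzOnWith (25 / 2 : ℝ≥0) Th Λ := by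
    apply LipschitzOnWith.of_dist_le_mul
    intro y _ y' _
    rw [dist_eq_norm, dist_eq_norm]
    refine (hTh y y').trans (le_of_eq ?_)
    push_cast
    rfl
  have h1 := Dz_466.gmat_comp_le (by linarith) hΩ hΛ hΛ h hL h'
  filter_upwards [ae_P3' h1] with x hx hxΩ
  have h2 := D3_le (hx hxΩ)
  rw [← ENNReal.mul_rpow_of_nonneg _ _ (by linarith : (0 : ℝ) ≤ p)]
  apply ENNReal.rpow_le_rpow _ (by linarith)
  rw [← ofReal_norm, ← ofReal_norm]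
  refine (ENNReal.ofReal_le_ofReal h2).trans (le_of_eq ?_)
  rw [ENNReal.ofReal_mul (by positivity)]
  congr 1
  push_cast
  norm_num

/-! ### PREP3 -/

variable {Ω Λ : Set R3} {f : R3 → R3} {G G' : Fin 3 → R3 → R3} {p κ1' : ℝ}
  {F : Set (Bx (Fin 3))} {Th : R3 ≃ₜ R3} {μ κ δ : R3 → ℝ} {O : Set R3} {ξ yc : F → R3}
  {hξ : ∀ c, ξ c ∈ EE Ω f G p μ κ δ} {hm : ∀ c, 0 < μ (ξ c)}

/-- `D = D0` over good bricks -/
lemma eq_on_good (hΩ : IsOpen Ω)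
    (P : Pre3 p Ω Λ f G (1 / 2) κ1' 0 F Th G' μ κ δ O ξ yc hξ hm) (hf : ContinuousOn f Ω)
    {c : F} (hTh : ∀ y : R3, P3.symm y ∈ nb c.1 (1 / 180 * c.1.sz) → Th y = y) :
    ∀ᵐ x : E3, x ∈ P3 ⁻¹' Ω → e3 (fun x => Th (f x)) x ∈ cbx c.1 1 → D3 G' x = D3 G x := by
  have hpos := P.foam.pos _ c.2
  have hs := Bx.sz_pos hpos
  set V : Set R3 := {y : R3 | ∀ k, |P3.symm y k - ctr c.1 k| < c.1.side k / 2 + 1 / 180 * c.1.sz} with hV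
  set U : Set R3 := Ω ∩ f ⁻¹' V with hU
  have hUo : IsOpen U := hf.isOpen_inter_preimage hΩ (isOpen_box _ _)
  have hVn : ∀ y ∈ V, Th y = y := fun y hy => hTh y fun k => (hy k).le
  have h1 := P.trans U 0 hUo inter_subset_left (fun x hx => by rw [hVn _ hx.2, add_zero])
  filter_upwards [ae_P3' h1] with x hx hxΩ hxc
  have h2 : Th (f (P3 x)) ∈ V := by
    intro k
    have h3 : |P3.symm (Th (f (P3 x))) k - ctr c.1 k| ≤ 1 * c.1.side k / 2 := hxc k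
    have h4 : 0 < 1 / 180 * c.1.sz := by positivity
    linarith
  have h3 : f (P3 x) = Th (f (P3 x)) := (Th.injective (hVn _ h2)).symm
  have h4 : P3 x ∈ U := ⟨hxΩ, by rw [mem_preimage, h3]; exact h2⟩
  rw [D3_eq, D3_eq]
  congr 1
  funext j
  exact hx h4 j

/-- **cover**: off the bad region, `Th = id` and the brick is good -/
lemma cover (P : Pre3 p Ω Λ f G (1 / 2) κ1' 0 F Th G' μ κ δ O ξ yc hξ hm) {y : R3} (hy : y ∈ Λ)
    (hyB : y ∉ BadR F O) : Th y = y ∧ ∃ c : F, c ∉ BadE F O ∧ P3.symm y ∈ c.1.set := by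
  have hyP : P3.symm y ∈ P3 ⁻¹' Λ := by
    rw [mem_preimage, P3.apply_symm_apply]; exact hy
  obtain ⟨C, hC, hyC⟩ := P.foam.cov _ hyP
  have hbad : ∀ c ∈ BadE F O, 4 * c.1.sz < ‖y - P3 (ctr c.1)‖ := by
    intro c hc
    by_contra hcon
    push Not at hcon
    exact hyB (mem_iUnion₂.2 ⟨c, hc, by rw [mem_closedBall, dist_eq_norm]; exact hcon⟩)
  have hCB : (⟨C, hC⟩ : F) ∉ BadE F O := by
    intro h
    have h1 := hbad _ h
    have h2 := norm_sub_ctr (P.foam.pos _ hC) hyC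
    have h3 := Bx.sz_pos (P.foam.pos _ hC)
    have h4 : 4 * C.sz < ‖y - P3 (ctr C)‖ := h1
    linarith
  refine ⟨P.id_good y ?_ ?_, ⟨C, hC⟩, hCB, hyC⟩
  · intro hyO
    exact hCB (bdB_subset_badE P.foam O ⟨y, hyO, hyC⟩)
  · intro c hc
    have h1 := hbad c (bdB_subset_badE P.foam O hc)
    have h3 := Bx.sz_pos (P.foam.pos _ c.2)
    have h4 : rad 3 c.1 = c.1.sz / 24 := by unfold rad; norm_num
    rw [h4]
    linarith

end

end Crest.Agent.R096.Rg3_766
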