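import Crest.Agent.R096.Ins3_685
import Crest.Agent.R096.Acc2_365
import Crest.Agent.R096.Rg3g_766
import Crest.Agent.R096.Wd16_120
import Crest.Agent.R096.Wd17_120
import Crest.Agent.R096.Pin1_753
import Crest.Agent.R096.Tmap2_212
import Crest.Agent.R096.Br4_695
import Crest.Agent.R096.Ea0_961
import Crest.Agent.R096.Mal13_874
import Crest.Agent.R096.Br9_695
import Crest.Agent.R096.Fil3_313
import Crest.Agent.R096.Br3_695
import Crest.Agent.R096.Br6_695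

-- ▼ part R096/Ers1_685
section

/-!
Row 96 (S0127), p ≤ 2, helper685.  **[ERS]**: the sums of the accounting of (R3).

* `lint_D3_le` : `1 + ‖D3 G‖^p` against `1 + En p G`;
* `cross` : a segment from inside to outside meets the frontier;
* `N_diff`, `outside_le`, `layers_le` : block and layer at the rational position against the position `a`;
* `shell_le`, `shell_sum`, `er_sum` : volumes of the shells;
* `core_energy'` : energy on the cores with extra terms.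
-/

set_option autoImplicit false
set_option linter.style.longLine false
set_option linter.unusedSectionVars false
set_option linter.unusedVariables false

open MeasureTheory Set Filter Topology Metric
open scoped ENNReal NNReal

namespace Crest.Agent.R096.Ers_685

open Crest.AnalysisR.VecCalc3 Crest.AnalysisR.Sobolev
open Crest.Agent.R096.Bsp_628 Crest.Agent.R096.Brk1_582 Crest.Agent.R096.Brk3_582
open Crest.Agent.R096.Msh_715 Crest.Agent.R096.Mal_874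
open Crest.Agent.R096.SkC1_961 (E3 Hom3)
open Crest.Agent.R096.Er_594 (e3 D3 norm_P3_symm_le norm_P3_le norm_le_P3 norm_le_P3_symm vol_P3
  lint_P3 le_sum_row row_D3)
open Crest.Agent.R096.EaX_766 (cbx lin)
open Crest.Agent.R096.Br_695 (lin_apply det_le cbx_mono En)
open Crest.Agent.R96.Lu_538 (Gmat)
open Crest.Agent.R96.En10_199 (P3)
open Crest.Agent.R096.Tmap_212 (mp)

noncomputable section

/-! ### `E3` against `R3` -/

theorem lint_D3_le {p : ℝ} (hp : 0 < p) (G : Fin 3 → R3 → R3) (S : Set R3) :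
    ∫⁻ x in P3 ⁻¹' S, (1 + ‖D3 G x‖ₑ ^ p) ≤ 2 ^ p * ∫⁻ y in S, (1 + En p G y) := by
  have h2p : (2:ℝ≥0∞) ^ p ≠ ∞ := ENNReal.rpow_ne_top_of_nonneg hp.le (by norm_num)
  rw [lint_P3, ← lintegral_const_mul' _ _ h2p]
  apply lintegral_mono
  intro x
  change 1 + ‖D3 G x‖ₑ ^ p ≤ 2 ^ p * (1 + ∑ j, ‖G j (P3 x)‖ₑ ^ p)
  rw [mul_add]
  have h4 := le_sum_row (D3 G x) hp.le
  simp only [row_D3] at h4
  gcongr
  rw [mul_one]
  exact ENNReal.one_le_rpow (by norm_num) hp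

/-- a segment from inside to outside meets the frontier -/
theorem cross {E : Type*} [NormedAddCommGroup E] [NormedSpace ℝ E] {S : Set E} {x v : E}
    (hx : x ∈ S) (hy : x - v ∉ S) : ∃ t ∈ Icc (0:ℝ) 1, x - t • v ∈ frontier S := by
  by_contra hcon
  push Not at hcon
  have hseg : segment ℝ x (x - v) ⊆ interior S ∪ (closure S)ᶜ := by
    intro z hz
    rw [segment_eq_image'] at hz
    obtain ⟨t, ht, rfl⟩ := hz
    have h1 := hcon t ht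
    have e : x + t • (x - v - x) = x - t • v := by
      rw [sub_sub_cancel_left, smul_neg, ← sub_eq_add_neg]
    simp only [e]
    by_cases h2 : x - t • v ∈ closure S
    · left
      by_contra h3
      exact h1 ⟨h2, h3⟩
    · exact Or.inr h2
  have hx1 : x ∈ segment ℝ x (x - v) := left_mem_segment ℝ _ _
  have hy1 : x - v ∈ segment ℝ x (x - v) := right_mem_segment ℝ _ _
  have hxi : x ∈ interior S := by
    rcases hseg hx1 with h | h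
    · exact h
    · exact absurd (subset_closure hx) h
  have hyi : x - v ∈ (closure S)ᶜ := by
    rcases hseg hy1 with h | h
    · exact absurd (interior_subset h) hy
    · exact h
  obtain ⟨z, -, h1, h2⟩ := (convex_segment x (x - v)).isPreconnected _ _ isOpen_interior
    isClosed_closure.isOpen_compl hseg ⟨x, hx1, hxi⟩ ⟨x - v, hy1, hyi⟩
  exact h2 (interior_subset_closure h1)

/-- the block at two positions: in `R3` -/
theorem N_diff (Q : CB E3 3) (k0 : ℕ) (a : R3) (v : E3) (hv : ‖Q.ψ v‖ ≤ 40 / 2 ^ k0) {x : E3}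
    (hx : P3 x ∈ ((mp P3 Q).tr a).N) (hx' : x ∉ (Q.tr (P3.symm a + v)).N) :
    P3 x ∈ Pin_753.Ly ((mp P3 Q).tr a) k0 := by
  have h1 : P3 x - P3 v ∉ ((mp P3 Q).tr a).N := by
    intro h
    apply hx'
    rw [(mp P3 Q).mem_N_tr a, Tmap_212.mem_N_mp] at h
    rw [Q.mem_N_tr]
    have e : P3.symm (P3 x - P3 v - a) = x - (P3.symm a + v) := by
      rw [map_sub, map_sub, P3.symm_apply_apply, P3.symm_apply_apply]
      abel
    rwa [e] at h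
  obtain ⟨t, ht, h2⟩ := cross hx h1
  refine ⟨_, h2, ?_⟩
  have e : ((mp P3 Q).tr a).ψ (P3 x) - ((mp P3 Q).tr a).ψ (P3 x - t • P3 v) = t • Q.ψ v := by
    show Q.ψ (P3.symm (P3 x)) - Q.ψ (P3.symm (P3 x - t • P3 v)) = _
    rw [map_sub P3.symm, map_smul P3.symm, P3.symm_apply_apply, P3.symm_apply_apply, map_sub,
      map_smul]
    abel
  rw [e, norm_smul, Real.norm_eq_abs, abs_of_nonneg ht.1]
  calc t * ‖Q.ψ v‖ ≤ 1 * ‖Q.ψ v‖ := mul_le_mul_of_nonneg_right ht.2 (norm_nonneg _)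
    _ = ‖Q.ψ v‖ := one_mul _
    _ ≤ _ := hv

/-- **outside**: the blocks at the rational positions `P3.symm a + v i` against the blocks at `a` -/
theorem outside_le {p : ℝ} (hp : 0 < p) {Om : Set R3} {G : Fin 3 → R3 → R3} {ι : Type*}
    [Countable ι] (Q : ι → CB E3 3) (k0 : ι → ℕ) (a : R3) (v : ι → E3)
    (hv : ∀ i, ‖(Q i).ψ (v i)‖ ≤ 40 / 2 ^ k0 i) :
    ∫⁻ x in P3 ⁻¹' Om \ ⋃ i, ((Q i).tr (P3.symm a + v i)).N, (1 + ‖D3 G x‖ₑ ^ p) ≤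
      2 ^ p * (∫⁻ x in Om \ ⋃ i, ((mp P3 (Q i)).tr a).N, (1 + En p G x)) +
      2 ^ p * ∑' i, ∫⁻ x in Pin_753.Ly ((mp P3 (Q i)).tr a) (k0 i), (1 + En p G x) := by
  have hsub : P3 ⁻¹' Om \ ⋃ i, ((Q i).tr (P3.symm a + v i)).N ⊆
      P3 ⁻¹' ((Om \ ⋃ i, ((mp P3 (Q i)).tr a).N) ∪
        ⋃ i, Pin_753.Ly ((mp P3 (Q i)).tr a) (k0 i)) := by
    rintro x ⟨hx, hxn⟩
    by_cases h : P3 x ∈ ⋃ i, ((mp P3 (Q i)).tr a).N
    · obtain ⟨i, hi⟩ := mem_iUnion.1 h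
      refine Or.inr (mem_iUnion.2 ⟨i, N_diff (Q i) (k0 i) a (v i) (hv i) hi fun h' => ?_⟩)
      exact hxn (mem_iUnion.2 ⟨i, h'⟩)
    · exact Or.inl ⟨hx, h⟩
  calc ∫⁻ x in P3 ⁻¹' Om \ ⋃ i, ((Q i).tr (P3.symm a + v i)).N, (1 + ‖D3 G x‖ₑ ^ p)
      ≤ ∫⁻ x in P3 ⁻¹' ((Om \ ⋃ i, ((mp P3 (Q i)).tr a).N) ∪
        ⋃ i, Pin_753.Ly ((mp P3 (Q i)).tr a) (k0 i)), (1 + ‖D3 G x‖ₑ ^ p) := lintegral_mono_set hsub
    _ ≤ 2 ^ p * ∫⁻ x in (Om \ ⋃ i, ((mp P3 (Q i)).tr a).N) ∪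
        ⋃ i, Pin_753.Ly ((mp P3 (Q i)).tr a) (k0 i), (1 + En p G x) := lint_D3_le hp G _
    _ ≤ 2 ^ p * ((∫⁻ x in Om \ ⋃ i, ((mp P3 (Q i)).tr a).N, (1 + En p G x)) +
        ∑' i, ∫⁻ x in Pin_753.Ly ((mp P3 (Q i)).tr a) (k0 i), (1 + En p G x)) := by
        gcongr
        exact (lintegral_union_le _ _ _).trans (add_le_add le_rfl (lintegral_iUnion_le _ _))
    _ = _ := mul_add _ _ _

/-- **the layers**: `Ea0_961.Ly` at the rational positions against `Pin_753.Ly` at `a` -/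
theorem layers_le {p : ℝ} (hp : 0 < p) {G : Fin 3 → R3 → R3} {ι : Type*} (Q : ι → CB E3 3)
    (k0 : ι → ℕ) (a : R3) (v : ι → E3) (hv : ∀ i, ‖(Q i).ψ (v i)‖ ≤ 20 / 2 ^ k0 i) :
    ∑' i, ∫⁻ x in Ea0_961.Ly ((Q i).tr (P3.symm a + v i)) (k0 i), (1 + ‖D3 G x‖ₑ ^ p) ≤
      2 ^ p * ∑' i, ∫⁻ x in Pin_753.Ly ((mp P3 (Q i)).tr a) (k0 i), (1 + En p G x) := by
  rw [← ENNReal.tsum_mul_left]
  refine ENNReal.tsum_le_tsum fun i => ?_
  refine le_trans (lintegral_mono_set ?_) (lint_D3_le hp G _)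
  intro y hy
  have := Tmap_212.ly_sub (Q i) (k0 i) (v := P3.symm a) hy (by
    rw [add_sub_cancel_left]; exact hv i)
  rwa [P3.apply_symm_apply] at this

/-! ### shells -/

/-- the shell of a block is thin -/
theorem shell_le {c : Bx (Fin 3)} (hc : c.Pos) {A : E3 ≃ᵃ[ℝ] E3} {lam : ℝ} (h0 : 1 / 4 ≤ lam)
    (h1 : lam ≤ 1) {Q : CB E3 3} (core : Q.Kc = A ⁻¹' cbx c lam)
    (sub : ∀ x ∈ Q.N, A x ∈ cbx c ((1 + lam) / 2)) :
    volume (Q.N \ Q.Kc) ≤ ENNReal.ofReal (100 * (1 - lam)) * volume Q.Kc := by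
  have h2 : Q.N \ Q.Kc ⊆ A ⁻¹' cbx c ((1 + lam) / 2) \ A ⁻¹' cbx c lam := by
    rw [core]
    exact sdiff_subset_sdiff_left fun x hx => sub x hx
  refine (measure_mono h2).trans ?_
  rw [core]
  refine Rg3_766.shell_vol hc A (by linarith) (by linarith) (by linarith) ?_
  have hx : 0 ≤ 1 - lam := by linarith
  set e := 1 - lam with he
  have hl : lam = 1 - e := by rw [he]; ring
  have he1 : e ≤ 3 / 4 := by linarith
  rw [hl]
  have h3 : ((1 + (1 - e)) / 2) ^ 3 = (1 - e) ^ 3 + e / 2 * (((1 + (1 - e)) / 2) ^ 2 +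
      (1 + (1 - e)) / 2 * (1 - e) + (1 - e) ^ 2) := by ring
  rw [h3]
  have h4 : ((1 + (1 - e)) / 2) ^ 2 + (1 + (1 - e)) / 2 * (1 - e) + (1 - e) ^ 2 ≤ 3 := by
    nlinarith
  have h5 : (1 / 64 : ℝ) ≤ (1 - e) ^ 3 := by
    have : (1 / 4 : ℝ) ^ 3 ≤ (1 - e) ^ 3 := pow_le_pow_left₀ (by norm_num) (by linarith) 3
    linarith
  have h6 : e / 2 * (((1 + (1 - e)) / 2) ^ 2 + (1 + (1 - e)) / 2 * (1 - e) + (1 - e) ^ 2) ≤
      e / 2 * 3 := mul_le_mul_of_nonneg_left h4 (by linarith)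
  have h7 : 100 * e * (1 / 64) ≤ 100 * e * (1 - e) ^ 3 :=
    mul_le_mul_of_nonneg_left h5 (by linarith)
  nlinarith


/-- sum of the errors `er''` of `ins` -/
theorem er_sum {p : ℝ} (hp : 0 ≤ p) {ι : Type*} {nL : ι → ℝ} {C1 κ : ℝ} (hκ : 0 < κ)
    (hC1 : 0 ≤ C1) (hn0 : ∀ i, 0 ≤ nL i) (hn : ∀ i, nL i ≤ κ⁻¹) {S K : ι → Set E3} {q V e : ℝ}
    (hq : 0 ≤ q) (hV0 : 0 ≤ V) (he : 0 ≤ e) {er : ι → ℝ≥0∞}
    (hS : ∀ i, volume (S i) ≤ ENNReal.ofReal q * volume (K i))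
    (hV : ∑' i, volume (K i) ≤ ENNReal.ofReal V) (her : ∑' i, er i ≤ ENNReal.ofReal e) :
    ∑' i, 1000 * (ENNReal.ofReal (C1 * nL i ^ p) * volume (S i) + er i) ≤
      ENNReal.ofReal (1000 * (C1 * κ⁻¹ ^ p * q * V + e)) := by
  rw [ENNReal.tsum_mul_left, ENNReal.tsum_add]
  have h1 : ∑' i, ENNReal.ofReal (C1 * nL i ^ p) * volume (S i) ≤
      ENNReal.ofReal (C1 * κ⁻¹ ^ p * q * V) := by
    calc ∑' i, ENNReal.ofReal (C1 * nL i ^ p) * volume (S i)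
        ≤ ∑' i, ENNReal.ofReal (C1 * κ⁻¹ ^ p * q) * volume (K i) := by
          refine ENNReal.tsum_le_tsum fun i => ?_
          rw [ENNReal.ofReal_mul (by positivity : 0 ≤ C1 * κ⁻¹ ^ p), mul_assoc]
          refine mul_le_mul' (ENNReal.ofReal_le_ofReal ?_) (hS i)
          exact mul_le_mul_of_nonneg_left (Real.rpow_le_rpow (hn0 i) (hn i) hp) hC1
      _ = ENNReal.ofReal (C1 * κ⁻¹ ^ p * q) * ∑' i, volume (K i) := ENNReal.tsum_mul_left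
      _ ≤ ENNReal.ofReal (C1 * κ⁻¹ ^ p * q) * ENNReal.ofReal V := by gcongr
      _ = _ := (ENNReal.ofReal_mul (by positivity)).symm
  have h3 : (1000 : ℝ≥0∞) = ENNReal.ofReal 1000 := by simp
  rw [h3, ENNReal.ofReal_mul (by norm_num), ENNReal.ofReal_add (by positivity) he]
  gcongr

/-! ### the cores -/

/-- outside the cores `Ka` against outside the cores `Kb` -/
theorem core_swap {E ι : Type*} [MeasurableSpace E] [Countable ι] {μ : Measure E} {Om : Set E}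
    {Ka Kb : ι → Set E} (F : E → ℝ≥0∞) :
    ∫⁻ x in Om \ ⋃ i, Ka i, F x ∂μ ≤ (∫⁻ x in Om \ ⋃ i, Kb i, F x ∂μ) +
      ∫⁻ x in ⋃ i, (Kb i \ Ka i) ∩ Om, F x ∂μ := by
  refine le_trans (lintegral_mono_set ?_) (lintegral_union_le _ _ _)
  rintro x ⟨hx, hn⟩
  by_cases h : x ∈ ⋃ i, Kb i
  · obtain ⟨i, hi⟩ := mem_iUnion.1 h
    exact Or.inr (mem_iUnion.2 ⟨i, ⟨hi, fun h' => hn (mem_iUnion.2 ⟨i, h'⟩)⟩, hx⟩)
  · exact Or.inl ⟨hx, h⟩


/-- **`D` near the affine maps, over the cores**: from the good cubes -/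
theorem near_sum {p : ℝ} (hp : 1 ≤ p) {ι κ : Type*} [Countable ι] {G : Fin 3 → R3 → R3}
    {K : ι → Set E3} {B : κ → Set R3} (hK : ∀ i, MeasurableSet (K i))
    (hd : Pairwise (Function.onFun Disjoint K)) (hB : ∀ k, MeasurableSet (B k)) (kk : ι → κ)
    (Q : Finset κ) (hkQ : ∀ i, kk i ∈ Q) (hsub : ∀ i, K i ⊆ P3 ⁻¹' B (kk i))
    {L : κ → R3 →L[ℝ] R3} {l : ι → E3 →L[ℝ] E3} {kl e1 V : ℝ} (hkl : 0 ≤ kl) (hV0 : 0 ≤ V)
    (he1 : 0 ≤ e1)
    (hl : ∀ i v, ‖l i v - Ins_685.L3 (L (kk i)) v‖ ≤ kl * ‖v‖)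
    (hen : ∑ k ∈ Q, ∫⁻ x in B k, ‖Gmat G x - L k‖ₑ ^ p ≤ ENNReal.ofReal e1)
    (hV : ∑' i, volume (K i) ≤ ENNReal.ofReal V) :
    ∑' i, ∫⁻ x in K i, ‖D3 G x - l i‖ₑ ^ p ≤
      ENNReal.ofReal (2 ^ (p - 1) * (2 ^ p * e1 + kl ^ p * V)) := by
  have hp0 : 0 ≤ p := by linarith
  have h2p : (2:ℝ≥0∞) ^ p = ENNReal.ofReal (2 ^ p) := by
    rw [← ENNReal.ofReal_rpow_of_pos (by norm_num)]; norm_num
  have h2p1 : (2:ℝ≥0∞) ^ (p - 1) = ENNReal.ofReal (2 ^ (p - 1)) := by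
    rw [← ENNReal.ofReal_rpow_of_pos (by norm_num)]; norm_num
  have hpt : ∀ i x, ‖D3 G x - l i‖ₑ ^ p ≤
      2 ^ (p - 1) * (2 ^ p * ‖Gmat G (P3 x) - L (kk i)‖ₑ ^ p + ENNReal.ofReal (kl ^ p)) := by
    intro i x
    have e1 : D3 G x - l i = Ins_685.L3 (Gmat G (P3 x) - L (kk i)) +
        (-(l i - Ins_685.L3 (L (kk i)))) := by
      rw [Ins_685.D3_eq_L3]
      ext1 v
      simp only [sub_apply, add_apply, neg_apply, Ins_685.L3_apply, map_sub]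
      abel
    have h1 : ‖Ins_685.L3 (Gmat G (P3 x) - L (kk i))‖ₑ ≤ 2 * ‖Gmat G (P3 x) - L (kk i)‖ₑ := by
      rw [← ofReal_norm, ← ofReal_norm]
      refine (ENNReal.ofReal_le_ofReal (Ins_685.norm_L3 _)).trans (le_of_eq ?_)
      rw [ENNReal.ofReal_mul (by norm_num), ENNReal.ofReal_ofNat]
    have h2 : ‖-(l i - Ins_685.L3 (L (kk i)))‖ₑ ≤ ENNReal.ofReal kl := by
      rw [enorm_neg, ← ofReal_norm]
      apply ENNReal.ofReal_le_ofReal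
      refine ContinuousLinearMap.opNorm_le_bound _ hkl fun v => ?_
      exact hl i v
    calc ‖D3 G x - l i‖ₑ ^ p ≤ (‖Ins_685.L3 (Gmat G (P3 x) - L (kk i))‖ₑ +
          ‖-(l i - Ins_685.L3 (L (kk i)))‖ₑ) ^ p := by
          rw [e1]; exact ENNReal.rpow_le_rpow (Br_695.enorm_add_le' _ _) hp0
      _ ≤ 2 ^ (p - 1) * (‖Ins_685.L3 (Gmat G (P3 x) - L (kk i))‖ₑ ^ p +
          ‖-(l i - Ins_685.L3 (L (kk i)))‖ₑ ^ p) := ENNReal.rpow_add_le_mul_rpow_add_rpow _ _ hp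
      _ ≤ 2 ^ (p - 1) * ((2 * ‖Gmat G (P3 x) - L (kk i)‖ₑ) ^ p + (ENNReal.ofReal kl) ^ p) := by
          gcongr
      _ = _ := by
          rw [ENNReal.mul_rpow_of_nonneg _ _ hp0, ENNReal.ofReal_rpow_of_nonneg hkl hp0]
  have hcell : ∑' i, ∫⁻ x in K i, ‖Gmat G (P3 x) - L (kk i)‖ₑ ^ p ≤ ENNReal.ofReal e1 := by
    refine (Br_695.tsum_cells hK hd (fun k => P3.continuous.measurable (hB k)) kk Q hkQ hsub
      (fun k x => ‖Gmat G (P3 x) - L k‖ₑ ^ p)).trans ?_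
    refine le_trans (le_of_eq ?_) hen
    refine Finset.sum_congr rfl fun k _ => ?_
    rw [lint_P3]
  calc ∑' i, ∫⁻ x in K i, ‖D3 G x - l i‖ₑ ^ p
      ≤ ∑' i, 2 ^ (p - 1) * (2 ^ p * (∫⁻ x in K i, ‖Gmat G (P3 x) - L (kk i)‖ₑ ^ p) +
          ENNReal.ofReal (kl ^ p) * volume (K i)) := by
        refine ENNReal.tsum_le_tsum fun i => ?_
        refine (lintegral_mono (hpt i)).trans (le_of_eq ?_)
        rw [lintegral_const_mul' _ _ (by rw [h2p1]; exact ENNReal.ofReal_ne_top),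
          lintegral_add_right _ measurable_const,
          lintegral_const_mul' _ _ (by rw [h2p]; exact ENNReal.ofReal_ne_top), setLIntegral_const]
    _ = 2 ^ (p - 1) * (2 ^ p * (∑' i, ∫⁻ x in K i, ‖Gmat G (P3 x) - L (kk i)‖ₑ ^ p) +
          ENNReal.ofReal (kl ^ p) * ∑' i, volume (K i)) := by
        rw [ENNReal.tsum_mul_left, ENNReal.tsum_add, ENNReal.tsum_mul_left, ENNReal.tsum_mul_left]
    _ ≤ 2 ^ (p - 1) * (2 ^ p * ENNReal.ofReal e1 + ENNReal.ofReal (kl ^ p) * ENNReal.ofReal V) := by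
        gcongr
    _ = _ := by
        rw [h2p, h2p1, ← ENNReal.ofReal_mul (by positivity), ← ENNReal.ofReal_mul (by positivity),
          ← ENNReal.ofReal_add (by positivity) (by positivity), ← ENNReal.ofReal_mul (by positivity)]

end

end Crest.Agent.R096.Ers_685
end

-- ▼ part R096/Blk1_212
section

/-!
Row 96 (S0127), helper212.  **BLK-INST**: the core blocks of `Ea0_961.Blk` and `Pin_753.BlkP` from a
dyadic box foam.

* `exists_BDw` : 628's integer data of a brick with its unit `w = u0 * 2 ^ (-k)` (dyadic) and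
  `sz ≤ B * w`;
* `structure ShD` : the shell `S` and the scale `kc` of a brick, one unit `u0` for all bricks:
  `u0 / 2 ^ kc = w / M`; `exists_shD`;
* `mkQ`, `ShD.blk : Blk ..` for every frame `ψ`, position `a'`, and the affine map which they determine;
* `blk_tr` : `Blk` for the translated block and map.
-/

set_option autoImplicit false
set_option linter.unusedSectionVars false
set_option linter.style.longLine false

open Set Filter Metric Topology MeasureTheory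

namespace Crest.Agent.R096.Blk_212

open Crest.Agent.R096.Bsp_628 Crest.Agent.R096.Brk1_582 Crest.Agent.R096.Brk2_582
open Crest.Agent.R096.Brk3_582 Crest.Agent.R096.Brk5_582 Crest.Agent.R096.Grd_714
open Crest.Agent.R096.Fni_447 Crest.Agent.R096.Fbr_628

section unit

variable {La : Set (Fin 3 → ℝ)} {F : Set (Bx (Fin 3))} {δ κ0 : ℝ}

/-- the directions of the flags of a brick, with the dyadic unit (447's `dir_int`) -/
theorem dir_int_dy (BF : BoxFoam La F δ κ0) (hLa : IsOpen La) {R : ℝ} (hR : 1 ≤ R)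
    (hcmp : Cmp F R) {o : Fin 3 → ℝ} {u M : ℝ} (hu : 0 < u) (hM : 0 < M)
    (hdy : ∀ C ∈ F, Dy o u M C) (c : F) :
    ∃ w > 0, (∃ k : ℤ, w = u * (2 : ℝ) ^ (-k)) ∧ (∃ z : Fin 3 → ℤ, ∀ i, bc (F := F) {c} i = o i + z i * w) ∧
      c.1.sz ≤ 2 * R * M * w ∧
      ∀ f : Flg (Pc F) c, ∃ D : Matrix (Fin 3) (Fin 3) ℤ, D.det ≠ 0 ∧
        (∀ i j, |(D i j : ℝ)| ≤ 2 * R * M) ∧ ∀ i j, dir (bc (F := F)) f j i = w * D i j := by
  classical
  obtain ⟨k, z, hs, hz, hst⟩ := Dy.star BF hR hcmp hu hM hdy c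
  set W : ℝ := u * (2 : ℝ) ^ (-k) with hW
  have hW0 : 0 < W := by positivity
  have hg : ∀ c' : F, (Pc F c ∩ Pc F c').Nonempty → ∀ i, ∃ m n : ℤ,
      c'.1.lo i = o i + ((z i : ℝ) + m) * W ∧ c'.1.hi i = o i + ((z i : ℝ) + n) * W := by
    intro c' hc' i
    obtain ⟨m, n, _, _, h1, h2⟩ := hst c' hc' i
    exact ⟨m, n, h1, h2⟩
  have hcc : (fc (Pc F) ({c} : Set F)).Nonempty :=
    ⟨c.1.lo, by
      rw [mem_fc]
      rintro x rfl
      exact Bx.mem_set.2 fun i => ⟨le_rfl, (BF.pos _ x.2 i).le⟩⟩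
  refine ⟨W / 2, by positivity, ⟨k + 1, ?_⟩, ?_, ?_, ?_⟩
  · rw [hW, neg_add, zpow_add₀ (by norm_num : (2 : ℝ) ≠ 0)]
    norm_num
    ring
  · choose n hn using fun i => (bc_int BF hg (mem_singleton c) hcc i).1
    refine ⟨fun i => 2 * z i + n i, fun i => ?_⟩
    rw [hn i]
    push_cast
    ring
  · have : 2 * R * M * (W / 2) = R * M * W := by ring
    rw [this]
    exact hs
  · intro f
    have hd : ∀ j i, ∃ d : ℤ, dir (bc (F := F)) f j i = (W / 2) * d ∧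
        |dir (bc (F := F)) f j i| ≤ c.1.sz / 2 := by
      intro j i
      obtain ⟨⟨n0, hn0⟩, -⟩ := bc_int BF hg (mem_singleton c) hcc i
      have key : ∀ A : Set F, c ∈ A → (fc (Pc F) A).Nonempty →
          ∃ d : ℤ, bc A i - bc {c} i = (W / 2) * d ∧ |bc A i - bc {c} i| ≤ c.1.sz / 2 := by
        intro A hcA hA
        obtain ⟨⟨n, hn⟩, h2⟩ := bc_int BF hg hcA hA i
        refine ⟨n - n0, ?_, h2⟩
        rw [hn, hn0]
        push_cast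
        ring
      fin_cases j
      · exact key {c, f.a1} (by simp) f.ne1
      · exact key {c, f.a1, f.a2} (by simp) f.ne2
      · exact key {c, f.a1, f.a2, f.a3} (by simp) f.ne
    choose d hd1 hd2 using hd
    refine ⟨Matrix.of fun i j => d j i, ?_, ?_, ?_⟩
    · intro hdet
      have hFo := foam BF hLa
      have hli := li hFo f
      have h1 : LinearIndependent ℝ (fun j => (W / 2) • fun i => (d j i : ℝ)) := by
        have : (fun j => (W / 2) • fun i => (d j i : ℝ)) = dir (bc (F := F)) f := by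
          funext j i
          simp only [Pi.smul_apply, smul_eq_mul]
          exact (hd1 j i).symm
        rw [this]
        exact hli
      have h2 : LinearIndependent ℝ (fun j => fun i => (d j i : ℝ)) := by
        have h3 := h1.units_smul (fun _ => (Units.mk0 (W / 2) (by positivity))⁻¹)
        convert h3 using 1
        funext j i
        simp only [Pi.smul_apply', Pi.smul_apply, Units.smul_def, Units.val_inv_eq_inv_val,
          Units.val_mk0, smul_eq_mul]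
        field_simp
      have h3 : IsUnit (Matrix.of fun j i => (d j i : ℝ)) :=
        Matrix.linearIndependent_rows_iff_isUnit.1 h2
      have h4 : (Matrix.of fun j i => (d j i : ℝ)).det ≠ 0 := by
        have := (Matrix.isUnit_iff_isUnit_det _).1 h3
        exact this.ne_zero
      apply h4
      have h5 : (Matrix.of fun j i => (d j i : ℝ)) =
          ((Matrix.of fun i j => d j i).map (Int.castRingHom ℝ)).transpose := by
        ext j i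
        simp
      rw [h5, Matrix.det_transpose]
      have h6 := (Int.castRingHom ℝ).map_det (Matrix.of fun i j => d j i)
      rw [hdet] at h6
      simpa using h6.symm
    · intro i j
      have h1 := hd2 j i
      rw [hd1 j i, abs_mul, abs_of_pos (by positivity : 0 < W / 2)] at h1
      have h2 : W / 2 * |((d j i : ℤ) : ℝ)| ≤ W / 2 * (2 * R * M) := by
        refine h1.trans ?_
        have h3 : 0 ≤ R * M * W := by positivity
        nlinarith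
      exact le_of_mul_le_mul_left h2 (by positivity)
    · intro i j
      exact hd1 j i


/-- **628's integer data with a dyadic unit** -/
theorem exists_BDw (BF : BoxFoam La F δ κ0) (hLa : IsOpen La) {R : ℝ} (hR : 1 ≤ R)
    (hcmp : Cmp F R) {o : Fin 3 → ℝ} {u Md : ℝ} (hu : 0 < u) (hMd : 0 < Md)
    (hdy : ∀ C ∈ F, Dy o u Md C) {N : ℕ} (FF : Foam La (Pc F) (bc (F := F)) N) (hN : N ≤ 4)
    (h3 : Module.finrank ℝ (Fin 3 → ℝ) = 3) (c : F) :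
    ∃ D : BD FF h3 c o (2 * R * Md), (∃ k : ℤ, D.w = u * (2 : ℝ) ^ (-k)) ∧
      c.1.sz ≤ 2 * R * Md * D.w := by
  obtain ⟨w, hw, hk, ⟨z, hz⟩, hsz, hf0⟩ := dir_int_dy BF hLa hR hcmp hu hMd hdy c
  have hf : ∀ f : Flg (Pc F) c, ∃ D : Matrix (Fin 3) (Fin 3) ℤ, D.det ≠ 0 ∧
        (∀ i j, |(D i j : ℝ)| ≤ 2 * R * Md) ∧ (∀ i j, dir (bc (F := F)) f j i = w * D i j) ∧
        ∃ s > 0, ∃ ν : Fin 3 → Fin 3 → ℤ,
          (∀ k i, |(ν k i : ℝ)| ≤ 2 * (2 * R * Md) ^ 2) ∧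
          (∀ k x, s * cf FF h3 f k x = ∑ i, (ν k i : ℝ) * x i) := by
    intro f
    obtain ⟨D, h0, hB, hD⟩ := hf0 f
    obtain ⟨hpos, ν, hν, hcf⟩ := cf_int_of FF h3 f hw h0 hB hD
    exact ⟨D, h0, hB, hD, _, hpos, ν, hν, hcf⟩
  choose D hD0 hDB hD s hs0 ν hν hrep using hf
  have hh : ∀ l, ∃ h : ℤ, hs c l = h * w := by
    intro l
    obtain ⟨f, -, hfl⟩ := exists_fct_flag FF h3 hN BF hLa (c := c) (l := l)
      (u := hs c l • (Pi.single l 1 : Fin 3 → ℝ)) (ε := 1) (by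
        intro j
        rw [Pi.smul_apply, smul_eq_mul]
        by_cases hj : j = l
        · subst hj
          rw [Pi.single_eq_same, mul_one, abs_of_pos (hs_pos BF c j)]
        · rw [Pi.single_eq_of_ne hj, mul_zero, abs_zero]
          exact (hs_pos BF c j).le) (Or.inl rfl) (by simp)
    refine ⟨D f l 0, ?_⟩
    have h1 := dir_coord FF hfl 0
    rw [hD, one_mul] at h1
    rw [← h1]; ring
  choose h hh using hh
  refine ⟨⟨w, hw, z, hz, h, fun l => ?_, hh, fun f j l => ?_, s, hs0, ν, hrep, hν⟩, hk, hsz⟩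
  · have h1 := hs_pos BF c l
    rw [hh l] at h1
    have : (0 : ℝ) < h l := pos_of_mul_pos_left h1 hw.le
    exact_mod_cast this
  · rw [hD, abs_mul, abs_of_pos hw, mul_comm]
    exact mul_le_mul_of_nonneg_right (hDB f l j) hw.le

end unit

section shell

open Crest.Agent.R096.Mal_874 Crest.Agent.R096.Msh_810 Crest.Agent.R096.Msh_715
open Crest.Agent.R096.Mcc_715
open Crest.Agent.R096.SkC1_961 (E3 th)
open Crest.Agent.R096.EaX_766 (cbx)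
open Crest.Agent.R096.Bxs_627 (ctr zz)
open Crest.Agent.R096.Mdd_360
open Crest.Agent.R096.Wd_120 (GridS CoreAt coreAt_T gridS_shell uc)
open Crest.Agent.R096.Ea0_961 (Blk)

/-- **shell `S` and scale `kc` of the core block of the brick `c`**, unit `u0` of the foam:
one lattice unit of the shell is `u0 / 2 ^ kc` in the target. -/
structure ShD (F : Set (Bx (Fin 3))) (o : E3) (u0 B : ℝ) (Bs M : ℕ) (c : F) (S : PS 3) (kc : ℕ) :
    Prop where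
  kc3 : 3 ≤ kc
  t : S.t = 1
  szB : c.1.sz ≤ B * (M * (u0 / 2 ^ kc))
  wid : ∀ l, 2 * (M : ℤ) ≤ S.hi l - S.lo l
  hB : ∀ i, ∀ p ∈ S.GG i, ∀ l, |p.1 l| ≤ (Bs : ℤ)
  hR : ∀ i, i ≠ S.core → ∀ v ∈ ZP (S.GG i), ∀ w ∈ ZP (S.GG i), ∀ l, |w l - v l| ≤ (Bs : ℝ)
  lo : ∀ l, c.1.lo l = o l + u0 / 2 ^ kc * S.lo l
  hi : ∀ l, c.1.hi l = o l + u0 / 2 ^ kc * S.hi l
  grid : GridS F S (fun X l => o l + u0 / 2 ^ kc * X l) M

/-- **the shells of a dyadic box foam**, `M = 2 ^ μ`, one unit for all bricks -/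
theorem exists_shD {La : Set (Fin 3 → ℝ)} {F : Set (Bx (Fin 3))} {δ κ0 : ℝ}
    (BF : BoxFoam La F δ κ0) (hLa : IsOpen La) {R : ℝ} (hR : 1 ≤ R)
    (hcmp : Cmp F R) {o : Fin 3 → ℝ} {u Md : ℝ} (hu : 0 < u) (hMd : 0 < Md)
    (hdy : ∀ C ∈ F, Dy o u Md C) {Bs : ℕ} (hB1 : 1 ≤ Bs) (hB2 : 4 * (2 * R * Md) ^ 2 ≤ Bs)
    (hB3 : 8 * (2 * R * Md) ≤ Bs) (μ : ℕ) (c : F) (hsz : c.1.sz ≤ u / 4) :
    ∃ (S : PS 3) (kc : ℕ), ShD F o u (2 * R * Md) Bs (2 ^ μ) c S kc := by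
  have h3 : Module.finrank ℝ (Fin 3 → ℝ) = 3 := by simp
  have hN : Fintype.card (Fin 3) + 1 ≤ 4 := by simp
  have hQ : Quads (Pc F) (bc (F := F)) := quads_box BF (by simp)
  obtain ⟨D, ⟨k, hk⟩, hsB⟩ := exists_BDw BF hLa hR hcmp hu hMd hdy (foam BF hLa) hN h3 c
  have hM : 0 < 2 ^ μ := by positivity
  have hw := D.w0
  have hside : ∀ l, 2 * D.w ≤ c.1.side l := two_w_le D
  have h2w : 2 * D.w ≤ c.1.sz := (hside 0).trans (Bx.side_le_sz c.1 0)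
  have hk3 : 3 ≤ k := by
    by_contra hcon
    push Not at hcon
    have h1 : (2 : ℝ) ^ (-(2 : ℤ)) ≤ (2 : ℝ) ^ (-k) := zpow_le_zpow_right₀ (by norm_num) (by omega)
    have h2 : u * (2 : ℝ) ^ (-(2 : ℤ)) ≤ D.w := by
      rw [hk]
      exact mul_le_mul_of_nonneg_left h1 hu.le
    have h4 : (2 : ℝ) ^ (-(2 : ℤ)) = 1 / 4 := by norm_num
    rw [h4] at h2
    linarith
  obtain ⟨j, rfl⟩ := Int.eq_ofNat_of_zero_le (by omega : 0 ≤ k)
  have hj3 : 3 ≤ j := by exact_mod_cast hk3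
  have hwM : D.w / ((2 ^ μ : ℕ) : ℝ) = u / 2 ^ (j + μ) := by
    rw [hk, zpow_neg, zpow_natCast, pow_add]
    push_cast
    field_simp
  refine ⟨D.shell hN BF hLa hQ hM 1 one_pos, j + μ, ⟨by omega, rfl, ?_, ?_, ?_, ?_, ?_, ?_, ?_⟩⟩
  · rw [← hwM, mul_div_cancel₀ _ (by positivity)]
    exact hsB
  · intro l
    have h1 := D.h0 l
    have h2 : (0 : ℤ) < ((2 ^ μ : ℕ) : ℤ) := by exact_mod_cast hM
    change 2 * ((2 ^ μ : ℕ) : ℤ) ≤ D.hi (2 ^ μ) l - D.lo (2 ^ μ) l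
    unfold BD.hi BD.lo
    nlinarith
  · exact BD.shell_bnd D hN BF hLa hQ hB1 hB2
  · exact BD.shell_size D hN BF hLa hQ hB3 (by
      have h5 : (1 : ℝ) ≤ Bs := by exact_mod_cast hB1
      simpa using h5)
  · intro l
    rw [← hwM]
    exact D.lo_eq hM l
  · intro l
    rw [← hwM]
    exact D.hi_eq hM l
  · rw [← hwM]
    exact gridS_shell D hN BF hLa hQ hM one_pos

/-- the block of the shell `S` at scale `kc` with frame `ψ` and position `a'` -/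
def mkQ (S : PS 3) (kc : ℕ) (hkc : 3 ≤ kc) (ht : S.t = 1) (ψ : E3 ≃L[ℝ] (Fin 3 → ℝ))
    (a' : Fin 3 → ℝ) : CB E3 3 where
  ψ := ψ
  a' := a'
  kc := kc
  S := S
  w := 11
  hkc := hkc
  hw := by rw [ht]; norm_num



variable {F : Set (Bx (Fin 3))} {o : E3} {u0 B : ℝ} {Bs M : ℕ} {c : F} {S : PS 3} {kc : ℕ}
  (h : ShD F o u0 B Bs M c S kc)

include h

theorem ShD.side (hu : 0 < u0) (l : Fin 3) :
    u0 * ((S.hi l : ℝ) - S.lo l) = 2 ^ kc * c.1.side l := by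
  have hp : (2 : ℝ) ^ kc ≠ 0 := by positivity
  have e : c.1.side l = u0 / 2 ^ kc * ((S.hi l : ℝ) - S.lo l) := by
    change c.1.hi l - c.1.lo l = _
    rw [h.lo l, h.hi l]
    ring
  rw [e]
  field_simp

theorem ShD.side_ge (hu : 0 < u0) (l : Fin 3) : 2 * (M * (u0 / 2 ^ kc)) ≤ c.1.side l := by
  have h1 : (2 * (M : ℝ)) ≤ (S.hi l : ℝ) - S.lo l := by exact_mod_cast h.wid l
  have hp : (0 : ℝ) < 2 ^ kc := by positivity
  have e : c.1.side l = u0 / 2 ^ kc * ((S.hi l : ℝ) - S.lo l) := by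
    change c.1.hi l - c.1.lo l = _
    rw [h.lo l, h.hi l]
    ring
  rw [e]
  have h2 : 0 ≤ u0 / 2 ^ kc := by positivity
  nlinarith

theorem ShD.sz2 (hu : 0 < u0) : 2 * (M * (u0 / 2 ^ kc)) ≤ c.1.sz :=
  (h.side_ge hu 0).trans (Bx.side_le_sz c.1 0)

theorem ShD.Q_eq {lam : ℝ} (hl : 0 < lam) (hu : 0 < u0) (ψ : E3 ≃L[ℝ] (Fin 3 → ℝ))
    (a' : Fin 3 → ℝ) (A : E3 ≃ᵃ[ℝ] E3)
    (hA : ∀ y l, A y l = ctr c.1 l - lam * c.1.side l / 2 +
      lam * u0 * (ψ y l - a' l - S.lo l / 2 ^ kc)) :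
    mkQ S kc h.kc3 h.t ψ a' = mkCB c.1 A hl hu kc h.kc3 S 11 (by rw [h.t]; norm_num) := by
  have hlu : lam * u0 ≠ 0 := (mul_pos hl hu).ne'
  have e1 : ψ = psA A (lam * u0) hlu := by
    ext y l
    rw [psA_apply, lin_val, hA, hA, map_zero]
    simp only [Pi.zero_apply]
    field_simp
    ring
  have e2 : a' = fun l => (ctr c.1 l - lam * c.1.side l / 2 - A 0 l) / (lam * u0) -
      S.lo l / 2 ^ kc := by
    funext l
    rw [hA, map_zero]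
    simp only [Pi.zero_apply]
    field_simp
    ring
  unfold mkQ mkCB
  congr 1

/-- **`Ea0_961.Blk` for every frame and position** -/
theorem ShD.blk {lam κ κ2 κt Cc : ℝ} {Nn : ℕ} (hl : 0 < lam) (hu : 0 < u0) (hM : 0 < M)
    (hκ : 11 ≤ 2 * κ * M) (hκ2 : 2 * κ ≤ κ2) (hκl : (1 + 2 * κ) * lam ≤ (1 + lam) / 2)
    (hC1 : 1 ≤ Cc) (hCB : B ≤ Cc) (hpos : ∀ l, 0 ≤ c.1.side l)
    (ψ : E3 ≃L[ℝ] (Fin 3 → ℝ)) (a' : Fin 3 → ℝ)
    (hnet : ∃ (d : ℕ) (Bm : Fin 3 → Fin 3 → ℤ), 0 < d ∧ d ≤ Nn ∧ (∀ i j, |Bm i j| ≤ Nn) ∧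
      Rt (ContinuousLinearEquiv.refl ℝ E3) ψ Bm d ∧ ∃ κ : ℕ, ∀ m, ∃ z : ℤ, 2 ^ κ * (d : ℝ) * a' m = z)
    {A : E3 ≃ᵃ[ℝ] E3} (hA : ∀ y l, A y l = ctr c.1 l - lam * c.1.side l / 2 +
      lam * u0 * (ψ y l - a' l - S.lo l / 2 ^ kc)) {k0 : ℕ} (hk : kc ≤ k0)
    (thin : lam * u0 / 2 ^ k0 ≤ κt * (lam * c.1.sz) / M) :
    Blk F (lam * u0) Cc κ2 κt Bs M Nn c A lam (mkQ S kc h.kc3 h.t ψ a') k0 hk := by
  have hp : (0 : ℝ) < 2 ^ kc := by positivity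
  have hM' : (0 : ℝ) < M := by exact_mod_cast hM
  have hS := h.side hu
  have hs2 := h.sz2 hu
  have hlin : ∀ x : E3, A.linear x = (lam * u0) • ψ x := by
    intro x
    funext l
    rw [lin_val, hA, hA, map_zero]
    simp only [Pi.zero_apply, Pi.smul_apply, smul_eq_mul]
    ring
  have hκ0 : 0 < κ := by
    by_contra hcon
    push Not at hcon
    have : 2 * κ * M ≤ 0 := by nlinarith
    linarith
  have hmono : ∀ {r s : ℝ}, r ≤ s → cbx c.1 r ⊆ cbx c.1 s := fun {r s} hrs y hy l => by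
    have h1 := hy l
    have h2 := mul_le_mul_of_nonneg_right hrs (hpos l)
    exact h1.trans (by linarith)
  have hN : (mkQ S kc h.kc3 h.t ψ a').N ⊆ A ⁻¹' cbx c.1 ((1 + 2 * κ) * lam) := by
    rw [h.Q_eq hl hu ψ a' A hA]
    refine mkCB_N _ _ _ _ _ _ _ _ _ hS fun l => ?_
    have h1 := h.side_ge hu l
    have h2 : 2 * (M : ℝ) * u0 ≤ 2 ^ kc * c.1.side l := by
      have h3 := mul_le_mul_of_nonneg_left h1 hp.le
      have e : 2 ^ kc * (2 * (M * (u0 / 2 ^ kc))) = 2 * (M : ℝ) * u0 := by field_simp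
      rw [e] at h3
      exact h3
    push_cast
    have h4 := mul_le_mul_of_nonneg_left h2 hκ0.le
    have h5 := mul_le_mul_of_nonneg_right hκ hu.le
    linarith
  have hcell : lam * u0 / 2 ^ kc = lam * (u0 / 2 ^ kc) := by ring
  refine
    { lin_eq := hlin
      net := hnet
      core := by
        rw [h.Q_eq hl hu ψ a' A hA]
        exact mkCB_Kc _ _ _ _ _ _ _ _ _ hS
      hB := h.hB
      hR := h.hR
      sub := fun x hx => ⟨hmono (by nlinarith) (hN hx), hmono hκl (hN hx)⟩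
      cell := ?_
      cell' := ?_
      thin := thin
      grid := ?_ }
  · change lam * u0 / 2 ^ kc ≤ Cc * (lam * c.1.sz) / M
    rw [hcell, le_div_iff₀ hM']
    have h0 : 0 ≤ u0 / 2 ^ kc := by positivity
    have h1 : M * (u0 / 2 ^ kc) ≤ c.1.sz := by nlinarith
    have h2 : 0 ≤ c.1.sz := by nlinarith
    have h3 := mul_le_mul_of_nonneg_left h1 hl.le
    have h4 : lam * c.1.sz ≤ Cc * (lam * c.1.sz) := by nlinarith [mul_nonneg hl.le h2]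
    linarith
  · change lam * c.1.sz / M ≤ Cc * (lam * u0 / 2 ^ kc)
    rw [hcell, div_le_iff₀ hM']
    have h0 : 0 ≤ M * (u0 / 2 ^ kc) := by positivity
    have h1 := h.szB
    have h2 : B * (M * (u0 / 2 ^ kc)) ≤ Cc * (M * (u0 / 2 ^ kc)) := mul_le_mul_of_nonneg_right hCB h0
    have h3 := mul_le_mul_of_nonneg_left (h1.trans h2) hl.le
    linarith
  · intro x hx hn
    have hc := coreAt_T (mkQ S kc h.kc3 h.t ψ a') k0 hk
    have hth : ∀ y, th A lam (zz c.1 lam) y =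
        (fun (X : Fin 3 → ℝ) l => o l + u0 / 2 ^ kc * X l) (uc (mkQ S kc h.kc3 h.t ψ a') y) := by
      intro y
      funext l
      have e1 : uc (mkQ S kc h.kc3 h.t ψ a') y l = 2 ^ kc * (ψ y l - a' l) := rfl
      have e2 : zz c.1 lam l = (1 - lam) * ctr c.1 l := rfl
      change (A y l - zz c.1 lam l) / lam = o l + u0 / 2 ^ kc * uc (mkQ S kc h.kc3 h.t ψ a') y l
      rw [e1, e2, hA]
      have e3 : o l = c.1.lo l - u0 / 2 ^ kc * S.lo l := by rw [h.lo l]; ring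
      have e4 : c.1.lo l = ctr c.1 l - c.1.side l / 2 := by
        change c.1.lo l = (c.1.lo l + c.1.hi l) / 2 - (c.1.hi l - c.1.lo l) / 2
        ring
      rw [e3, e4]
      field_simp
      ring
    have h1 := hc.grid h.grid hth x (by rw [hc.tile]; exact hx) hn
    rw [hc.tile] at h1
    exact h1

end shell

end Crest.Agent.R096.Blk_212
end

-- ▼ part R096/Dst1_812
section

/-!
# Row 96 (helper812), p ≤ 2, R3: **[DIST]** (695 #11580 (2)): the distance of two core blocks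

* `dist_same` : two bricks of the foam, two affine maps which are `ρ`-close;
* `dist_cubes` : different cubes of the lattice;
* `dist_all` : the hypothesis `∀ i j, i ≠ j → .. c2 * s ≤ dist x y` of `Pin_753.PreIN`.
-/

set_option autoImplicit false
set_option linter.unusedSectionVars false
set_option linter.style.longLine false

open Set Filter Topology Metric

namespace Crest.Agent.R096.Dst_812

open Crest.AnalysisR.VecCalc3 Crest.AnalysisR.Sobolev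
open Crest.Agent.R096.Bsp_628 Crest.Agent.R096.Brk1_582
open Crest.Agent.R096.Mal_874
open Crest.Agent.R096.SkC1_961 (E3)
open Crest.Agent.R096.EaX_766 (cbx)
open Crest.Agent.R096.Bxs_627 (ctr)
open Crest.Agent.R096.Tmap_212 (mp)
open Crest.Agent.R96.Intr_538 (cel)
open Crest.Agent.R96.Coarse_538 (vt Cb mem_cel vt_apply)
open Crest.Agent.R96.En10_199 (P3)

/-- the walls of two shrunk boxes in the target -/
theorem dist_cbx {C C' : Bx (Fin 3)} {l w : ℝ}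
    (h : ∃ k, C.hi k ≤ C'.lo k ∨ C'.hi k ≤ C.lo k) {y y' : E3}
    (hy : y ∈ cbx C ((1 + l) / 2)) (hy' : y' ∈ cbx C' ((1 + l) / 2))
    (hw : ∀ k, w ≤ (1 - l) * C.side k) (hw' : ∀ k, w ≤ (1 - l) * C'.side k) :
    w / 2 ≤ ‖y - y'‖ := by
  obtain ⟨k, hk⟩ := h
  have h1 := abs_le.1 (hy k)
  have h2 := abs_le.1 (hy' k)
  have e1 : ctr C k = (C.lo k + C.hi k) / 2 := rfl
  have e2 : ctr C' k = (C'.lo k + C'.hi k) / 2 := rfl
  have e3 : C.side k = C.hi k - C.lo k := rfl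
  have e4 : C'.side k = C'.hi k - C'.lo k := rfl
  have h3 := hw k
  have h4 := hw' k
  have h5 := norm_le_pi_norm (y - y') k
  rw [Pi.sub_apply, Real.norm_eq_abs] at h5
  rw [e1, e3] at h1
  rw [e2, e4] at h2
  rw [e3] at h3
  rw [e4] at h4
  have h6 := le_abs_self (y k - y' k)
  have h7 := neg_abs_le (y k - y' k)
  rcases hk with hk | hk
  · linarith [h1.2, h2.1]
  · linarith [h1.1, h2.2]

/-- **same cube** (or any two maps which are `ρ`-close at the point `y`) -/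
theorem dist_same {La : Set E3} {F : Set (Bx (Fin 3))} {δ κ0 : ℝ} (BF : BoxFoam La F δ κ0)
    {c c' : Bx (Fin 3)} (hc : c ∈ F) (hc' : c' ∈ F) (hne : c ≠ c') {lam t B N ρ : ℝ}
    (hl1 : lam ≤ 1) (hB : 0 < B) (hN : 0 < N) (ht : ∀ k, t ≤ B * c.side k)
    (ht' : ∀ k, t ≤ B * c'.side k) (hρ : 2 * ρ ≤ (1 - lam) / 2 * (t / B)) {A A' : E3 ≃ᵃ[ℝ] E3}
    {x y : E3} (hA : ‖A x - A y‖ ≤ N * ‖x - y‖) (hAA : ‖A y - A' y‖ ≤ ρ)
    (hx : A x ∈ cbx c ((1 + lam) / 2)) (hy : A' y ∈ cbx c' ((1 + lam) / 2)) :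
    (1 - lam) * t / (4 * B * N) ≤ ‖x - y‖ := by
  have hsep := BF.inv.disj hc hc' (BF.pos _ hc) (BF.pos _ hc') hne
  have hlt : 0 ≤ 1 - lam := by linarith
  have h1 : ∀ k, (1 - lam) * (t / B) ≤ (1 - lam) * c.side k := fun k =>
    mul_le_mul_of_nonneg_left ((div_le_iff₀ hB).2 (by rw [mul_comm]; exact ht k)) hlt
  have h2 : ∀ k, (1 - lam) * (t / B) ≤ (1 - lam) * c'.side k := fun k =>
    mul_le_mul_of_nonneg_left ((div_le_iff₀ hB).2 (by rw [mul_comm]; exact ht' k)) hlt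
  have h3 := dist_cbx hsep hx hy h1 h2
  have h4 : ‖A x - A' y‖ ≤ ‖A x - A y‖ + ‖A y - A' y‖ := norm_sub_le_norm_sub_add_norm_sub _ _ _
  have h5 : (1 - lam) * (t / B) / 4 ≤ N * ‖x - y‖ := by linarith
  rw [div_le_iff₀ (by positivity)]
  have e1 : (1 - lam) * (t / B) / 4 = (1 - lam) * t / (4 * B) := by field_simp
  rw [e1, div_le_iff₀ (by positivity)] at h5
  linarith

/-- **different cubes** -/
theorem dist_cubes {s σ : ℝ} (hs : 0 < s) (hσ : 0 < σ) {a₀ : R3} {k l : Fin 3 → ℤ} (hne : k ≠ l)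
    {x y : R3} (hx : x ∈ cel Cb (vt (2 * s) a₀ k) σ) (hy : y ∈ cel Cb (vt (2 * s) a₀ l) σ) :
    2 * (s - σ) ≤ dist x y := by
  obtain ⟨i, hi⟩ := Function.ne_iff.1 hne
  have h1 := (mem_cel hσ).1 hx i
  have h2 := (mem_cel hσ).1 hy i
  have e1 : vt (2 * s) a₀ k i = a₀ i + 2 * s * k i := by simp [vt, Crest.Agent.R96.Coarse_538.ihom_apply]
  have e2 : vt (2 * s) a₀ l i = a₀ i + 2 * s * l i := by simp [vt, Crest.Agent.R96.Coarse_538.ihom_apply]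
  rw [e1] at h1
  rw [e2] at h2
  have h3 : (1 : ℝ) ≤ |(k i : ℝ) - l i| := by
    have : (1 : ℤ) ≤ |k i - l i| := Int.one_le_abs (sub_ne_zero.2 hi)
    exact_mod_cast this
  have h4 : 2 * s ≤ |2 * s * (k i : ℝ) - 2 * s * l i| := by
    rw [← mul_sub, abs_mul, abs_of_pos (by positivity : 0 < 2 * s)]
    nlinarith
  have h5 : |x i - y i| ≤ dist x y := by
    rw [dist_eq_norm]
    have := EuclideanSpace.norm_eq (x - y)
    have h := PiLp.norm_apply_le (x - y) i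
    rwa [PiLp.sub_apply, Real.norm_eq_abs] at h
  have h6 := abs_le.1 h1
  have h7 := abs_le.1 h2
  have h8 := abs_le.1 (le_refl |x i - y i|)
  rcases le_total 0 (2 * s * (k i : ℝ) - 2 * s * l i) with h | h
  · rw [abs_of_nonneg h] at h4
    linarith [h6.1, h6.2, h7.1, h7.2, h8.2]
  · rw [abs_of_nonpos h] at h4
    linarith [h6.1, h6.2, h7.1, h7.2, h8.1]

/-- **the distance clause of `Pin_753.PreIN`** -/
theorem dist_all {La : Set E3} {F : Set (Bx (Fin 3))} {δ κ0 : ℝ} (BF : BoxFoam La F δ κ0)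
    {J : Type*} {kk : J → Fin 3 → ℤ} {cc : J → F} (hinj : Function.Injective cc)
    {Q : J → CB E3 3} {A : J → E3 ≃ᵃ[ℝ] E3} {lam t B N ρ s τ c2 : ℝ} {a₀ : R3} (hl1 : lam ≤ 1)
    (hB : 0 < B) (hN : 0 < N) (hs : 0 < s) (hτ : τ < 1) (ht : ∀ j k, t ≤ B * (cc j).1.side k)
    (hρ : 2 * ρ ≤ (1 - lam) / 2 * (t / B)) (hA : ∀ j x y, ‖A j x - A j y‖ ≤ N * ‖x - y‖)
    (hAA : ∀ i j, kk i = kk j → ∀ y ∈ (Q j).N, ‖A i y - A j y‖ ≤ ρ)
    (hsub : ∀ j, ∀ x ∈ (Q j).N, A j x ∈ cbx (cc j).1 ((1 + lam) / 2))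
    (hcel : ∀ j, (mp P3 (Q j)).N ⊆ cel Cb (vt (2 * s) a₀ (kk j)) ((1 - τ) * s))
    (hc2 : c2 * s ≤ 2 * (τ * s)) (hc2' : c2 * s ≤ (1 - lam) * t / (4 * B * N)) :
    ∀ i j, i ≠ j → ∀ x ∈ (mp P3 (Q i)).N, ∀ y ∈ (mp P3 (Q j)).N, c2 * s ≤ dist x y := by
  intro i j hij x hx y hy
  by_cases hk : kk i = kk j
  · have hne : (cc i).1 ≠ (cc j).1 := fun h => hij (hinj (Subtype.ext h))
    have hx' : P3.symm x ∈ (Q i).N := Tmap_212.mem_N_mp P3 (Q i) |>.1 hx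
    have hy' : P3.symm y ∈ (Q j).N := Tmap_212.mem_N_mp P3 (Q j) |>.1 hy
    have h1 := dist_same BF (cc i).2 (cc j).2 hne hl1 hB hN (ht i) (ht j) hρ
      (hA i (P3.symm x) (P3.symm y)) (hAA i j hk _ hy') (hsub i _ hx') (hsub j _ hy')
    refine hc2'.trans (h1.trans ?_)
    rw [dist_eq_norm, pi_norm_le_iff_of_nonneg (norm_nonneg _)]
    intro m
    have h := PiLp.norm_apply_le (x - y) m
    rwa [PiLp.sub_apply] at h
  · have h1 := dist_cubes hs (mul_pos (sub_pos.2 hτ) hs) hk (hcel i hx) (hcel j hy)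
    refine hc2.trans (le_trans (le_of_eq ?_) h1)
    ring

end Crest.Agent.R096.Dst_812
end

-- ▼ part R096/Blu2_812
section

/-!
# Row 96 (helper812), p ≤ 2, R3, leaf [BLK], part 2: rational frames and rounded affine maps

* `exists_frame` : near `u⁻¹ • L` there is a frame with rational matrix, denominators and entries bounded by
  a number which depends only on `κ` and the precision;
* `exists_aff` : an affine map with given linear part `u • ψ`, near a given one, with the block position in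
  the lattice `2 ^ -k0`;
* `cnd_of` : the bounds of the frame by `κ`.
-/

set_option autoImplicit false
set_option linter.unusedSectionVars false
set_option linter.style.longLine false

open Set Filter Topology Metric MeasureTheory
open scoped ENNReal

namespace Crest.Agent.R096.Blu_812

open Crest.AnalysisR.VecCalc3
open Crest.Agent.R96.En10_199
open Crest.Agent.R096.SkC1_961 (E3 th)
open Crest.Agent.R096.Mal_874
open Crest.Agent.R096.Er_594 (norm_P3_symm_le norm_P3_le norm_le_P3 norm_le_P3_symm)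

/-- coordinates of a linear map of `E3` -/
theorem lin_sum (L : E3 →L[ℝ] E3) (v : E3) (i : Fin 3) :
    L v i = ∑ j, L (Pi.single j 1) i * v j := by
  have e : v = ∑ j, v j • (Pi.single j (1:ℝ) : E3) := by
    funext k
    simp [Finset.sum_apply, Pi.single_apply]
  conv_lhs => rw [e]
  rw [map_sum, Finset.sum_apply]
  refine Finset.sum_congr rfl fun j _ => ?_
  rw [map_smul, Pi.smul_apply, smul_eq_mul, mul_comm]

/-- **rational frames**: for every `κ`, precision `kl` there is a bound `Nn` such that every linear map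
`L` of `E3` with `κ ‖v‖ ≤ ‖L v‖ ≤ κ⁻¹ ‖v‖` and every unit `u ∈ [1/2, 1]` have a rational frame `ψ` with
`u • ψ` near `L` -/
theorem exists_frame {κ kl : ℝ} (hκ : 0 < κ) (hkl : 0 < kl) (hk : kl < κ) :
    ∃ Nn : ℕ, ∀ L : E3 →L[ℝ] E3, (∀ v, κ * ‖v‖ ≤ ‖L v‖) → (∀ v, ‖L v‖ ≤ κ⁻¹ * ‖v‖) →
      ∀ u : ℝ, 1 / 2 ≤ u → u ≤ 1 →
      ∃ (ψ : E3 ≃L[ℝ] (Fin 3 → ℝ)) (d : ℕ) (B : Fin 3 → Fin 3 → ℤ), 0 < d ∧ d ≤ Nn ∧
        (∀ i j, |B i j| ≤ Nn) ∧ Rt (ContinuousLinearEquiv.refl ℝ E3) ψ B d ∧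
        ∀ v, ‖u • ψ v - L v‖ ≤ kl * ‖v‖ := by
  obtain ⟨d, hd⟩ := exists_nat_gt (3 / kl)
  have hd0 : (0:ℝ) < d := (by positivity : (0:ℝ) < 3 / kl).trans hd
  obtain ⟨Nn, hNn⟩ := exists_nat_gt (2 * d * κ⁻¹ + 1 + d)
  refine ⟨Nn, fun L hL hL' u hu hu1 => ?_⟩
  have hu0 : 0 < u := by linarith
  have hκi : 0 < κ⁻¹ := inv_pos.2 hκ
  set B : Fin 3 → Fin 3 → ℤ := fun i j => round (d * (u⁻¹ * L (Pi.single j 1) i)) with hB
  have hent : ∀ i j, |L (Pi.single j 1) i| ≤ κ⁻¹ := fun i j => by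
    have h1 := hL' (Pi.single j 1)
    have h2 : ‖(Pi.single j 1 : E3)‖ = 1 := by
      rw [Pi.norm_single]; simp
    rw [h2, mul_one] at h1
    have h3 := norm_le_pi_norm (L (Pi.single j 1)) i
    rw [Real.norm_eq_abs] at h3
    exact h3.trans h1
  have hround : ∀ i j, |(B i j : ℝ) - d * (u⁻¹ * L (Pi.single j 1) i)| ≤ 1 / 2 := fun i j => by
    rw [abs_sub_comm]
    exact abs_sub_round _
  -- the linear map
  let f : E3 →ₗ[ℝ] (Fin 3 → ℝ) :=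
    { toFun := fun v m => ∑ l, ((B m l : ℝ) / d) * v l
      map_add' := fun x y => by
        funext m
        simp only [Pi.add_apply, mul_add, Finset.sum_add_distrib]
      map_smul' := fun r x => by
        funext m
        simp only [Pi.smul_apply, smul_eq_mul, RingHom.id_apply, Finset.mul_sum]
        refine Finset.sum_congr rfl fun l _ => by ring }
  have hf : ∀ v m, f v m = ∑ l, ((B m l : ℝ) / d) * v l := fun v m => rfl
  have hclose : ∀ v, ‖u • f v - L v‖ ≤ kl * ‖v‖ := by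
    intro v
    rw [pi_norm_le_iff_of_nonneg (by positivity)]
    intro i
    rw [Real.norm_eq_abs, Pi.sub_apply, Pi.smul_apply, smul_eq_mul, hf, lin_sum,
      Finset.mul_sum, ← Finset.sum_sub_distrib]
    refine (Finset.abs_sum_le_sum_abs _ _).trans ?_
    have h1 : ∀ l, |u * ((B i l : ℝ) / d * v l) - L (Pi.single l 1) i * v l| ≤
        1 / (2 * d) * ‖v‖ := by
      intro l
      have e : u * ((B i l : ℝ) / d * v l) - L (Pi.single l 1) i * v l =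
          u / d * (((B i l : ℝ) - d * (u⁻¹ * L (Pi.single l 1) i)) * v l) := by
        field_simp
      rw [e, abs_mul, abs_mul, abs_of_pos (by positivity : 0 < u / d)]
      have h2 := hround i l
      have h3 := norm_le_pi_norm v l
      rw [Real.norm_eq_abs] at h3
      have h4 : |(B i l : ℝ) - d * (u⁻¹ * L (Pi.single l 1) i)| * |v l| ≤ 1 / 2 * ‖v‖ :=
        mul_le_mul h2 h3 (abs_nonneg _) (by norm_num)
      have h5 : u / d ≤ 1 / d := div_le_div_of_nonneg_right hu1 hd0.le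
      calc u / d * (|(B i l : ℝ) - d * (u⁻¹ * L (Pi.single l 1) i)| * |v l|)
          ≤ 1 / d * (1 / 2 * ‖v‖) := mul_le_mul h5 h4 (by positivity) (by positivity)
        _ = 1 / (2 * d) * ‖v‖ := by field_simp
    calc ∑ l, |u * ((B i l : ℝ) / d * v l) - L (Pi.single l 1) i * v l|
        ≤ ∑ _l : Fin 3, 1 / (2 * d) * ‖v‖ := Finset.sum_le_sum fun l _ => h1 l
      _ = 3 / (2 * d) * ‖v‖ := by
          rw [Finset.sum_const, Finset.card_univ, Fintype.card_fin, nsmul_eq_mul]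
          push_cast
          ring
      _ ≤ kl * ‖v‖ := by
          refine mul_le_mul_of_nonneg_right ?_ (norm_nonneg _)
          rw [div_le_iff₀ (by positivity)]
          rw [div_lt_iff₀ hkl] at hd
          nlinarith
  -- injective
  have hinj : Function.Injective f := by
    rw [← LinearMap.ker_eq_bot, LinearMap.ker_eq_bot']
    intro v hv
    have h1 := hclose v
    rw [hv, smul_zero, zero_sub, norm_neg] at h1
    have h2 := hL v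
    by_contra hne
    have h3 : 0 < ‖v‖ := norm_pos_iff.2 hne
    nlinarith
  let e : E3 ≃ₗ[ℝ] (Fin 3 → ℝ) := LinearEquiv.ofInjectiveEndo (f : E3 →ₗ[ℝ] E3) hinj
  have he : ∀ v, e v = f v := fun v => rfl
  refine ⟨e.toContinuousLinearEquiv, d, B, by exact_mod_cast hd0, ?_, fun i j => ?_, ?_, ?_⟩
  · have h1 : (d : ℝ) ≤ Nn := by
      have : 0 ≤ 2 * d * κ⁻¹ := by positivity
      linarith
    exact_mod_cast h1
  · have h1 := hround i j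
    have h2 := hent i j
    have h3 : |(d:ℝ) * (u⁻¹ * L (Pi.single j 1) i)| ≤ 2 * d * κ⁻¹ := by
      rw [abs_mul, abs_mul, abs_of_pos hd0, abs_of_pos (inv_pos.2 hu0)]
      have h4 : u⁻¹ ≤ 2 := by
        rw [inv_le_comm₀ hu0 (by norm_num)]
        linarith
      calc (d:ℝ) * (u⁻¹ * |L (Pi.single j 1) i|) ≤ d * (2 * κ⁻¹) := by gcongr
        _ = 2 * d * κ⁻¹ := by ring
    have h5 : |(B i j : ℝ)| ≤ Nn := by
      have h6 := abs_sub_abs_le_abs_sub (B i j : ℝ) (d * (u⁻¹ * L (Pi.single j 1) i))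
      linarith
    exact_mod_cast h5
  · intro y m
    change (d:ℝ) * f y m = _
    rw [hf, Finset.mul_sum]
    refine Finset.sum_congr rfl fun l _ => ?_
    change (d:ℝ) * ((B m l : ℝ) / d * y l) = B m l * y l
    field_simp
  · intro v
    change ‖u • f v - L v‖ ≤ _
    exact hclose v

/-- the affine map with linear part `u • ψ` and value `p` at `0` -/
noncomputable def affU (ψ : E3 ≃L[ℝ] (Fin 3 → ℝ)) (u : ℝ) (hu : u ≠ 0) (p : E3) : E3 ≃ᵃ[ℝ] E3 :=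
  (ψ.toLinearEquiv.trans (LinearEquiv.smulOfNeZero ℝ E3 u hu)).toAffineEquiv.trans
    (AffineEquiv.constVAdd ℝ E3 p)

theorem affU_apply (ψ : E3 ≃L[ℝ] (Fin 3 → ℝ)) (u : ℝ) (hu : u ≠ 0) (p x : E3) :
    affU ψ u hu p x = p + u • ψ x := rfl

theorem affU_lin (ψ : E3 ≃L[ℝ] (Fin 3 → ℝ)) (u : ℝ) (hu : u ≠ 0) (p x : E3) :
    (affU ψ u hu p).linear x = u • ψ x := by
  have h := (affU ψ u hu p).toAffineMap.linearMap_vsub x 0
  rw [vsub_eq_sub, vsub_eq_sub, sub_zero] at h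
  have h2 : (affU ψ u hu p).linear x = affU ψ u hu p x - affU ψ u hu p 0 := h
  rw [h2, affU_apply, affU_apply, map_zero, smul_zero]
  abel

/-- **rounded affine maps**: linear part `u • ψ`, value at `z` near `b`, position of the block in the
lattice `2 ^ -k0` -/
theorem exists_aff (ψ : E3 ≃L[ℝ] (Fin 3 → ℝ)) {u : ℝ} (hu : 0 < u) (z b : E3) (k0 : ℕ)
    (g e : Fin 3 → ℝ) :
    ∃ A : E3 ≃ᵃ[ℝ] E3, (∀ x, A.linear x = u • ψ x) ∧ ‖A z - b‖ ≤ u / 2 ^ k0 ∧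
      ∀ l, ∃ n : ℤ, 2 ^ k0 * ((g l - A 0 l) / u - e l) = n := by
  have hp : (0:ℝ) < 2 ^ k0 := by positivity
  set p0 : E3 := b - u • ψ z with hp0
  set q : Fin 3 → ℤ := fun l => round (2 ^ k0 * ((g l - p0 l) / u - e l)) with hq
  set p : E3 := fun l => g l - u * (q l / 2 ^ k0 + e l) with hpdef
  have hA0 : ∀ l, affU ψ u hu.ne' p 0 l = p l := fun l => by
    rw [affU_apply, map_zero, smul_zero, add_zero]
  refine ⟨affU ψ u hu.ne' p, affU_lin ψ u hu.ne' p, ?_, fun l => ⟨q l, ?_⟩⟩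
  · rw [pi_norm_le_iff_of_nonneg (by positivity)]
    intro l
    have e1 : (affU ψ u hu.ne' p z - b) l = p l - p0 l := by
      rw [Pi.sub_apply, affU_apply, Pi.add_apply, hp0, Pi.sub_apply]
      ring
    rw [Real.norm_eq_abs, e1]
    have h1 : |2 ^ k0 * ((g l - p0 l) / u - e l) - q l| ≤ 1 / 2 := abs_sub_round _
    have e2 : p l - p0 l = u / 2 ^ k0 * (2 ^ k0 * ((g l - p0 l) / u - e l) - q l) := by
      rw [hpdef]
      field_simp
      ring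
    rw [e2, abs_mul, abs_of_pos (by positivity : 0 < u / 2 ^ k0)]
    have h2 : 0 < u / 2 ^ k0 := by positivity
    nlinarith
  · rw [hA0, hpdef]
    field_simp
    ring

/-- distance of the rounded map to a given affine map -/
theorem aff_near {A : E3 ≃ᵃ[ℝ] E3} {ψ : E3 ≃L[ℝ] (Fin 3 → ℝ)} {u kl r : ℝ} {z b : E3}
    {L : E3 →L[ℝ] E3} (hA : ∀ x, A.linear x = u • ψ x) (hL : ∀ v, ‖u • ψ v - L v‖ ≤ kl * ‖v‖)
    (hz : ‖A z - b‖ ≤ r) (x : E3) : ‖A x - (b + L (x - z))‖ ≤ kl * ‖x - z‖ + r := by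
  have h1 : A.linear (x - z) = A x - A z := by
    have h := A.toAffineMap.linearMap_vsub x z
    rw [vsub_eq_sub, vsub_eq_sub] at h
    exact h
  have e1 : A x - (b + L (x - z)) = (u • ψ (x - z) - L (x - z)) + (A z - b) := by
    rw [← hA, h1]; abel
  rw [e1]
  exact (norm_add_le _ _).trans (add_le_add (hL _) hz)

/-- bounds of the frame on `R3` (the clause `cnd` of `Pin_753.BlkP`) -/
theorem cnd_of {κ kl u : ℝ} (hκ : 0 < κ) (hκ1 : κ ≤ 1) (hkl : kl ≤ κ / 4) (hu : 1 / 2 ≤ u)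
    (hu1 : u ≤ 1) {L : R3 →L[ℝ] R3} (hL : ∀ v, κ * ‖v‖ ≤ ‖L v‖) (hL' : ‖L‖ ≤ κ⁻¹)
    {ψ : E3 ≃L[ℝ] (Fin 3 → ℝ)}
    (hψ : ∀ v : R3, ‖u • ψ (P3.symm v) - P3.symm (L v)‖ ≤ kl * ‖v‖) (v : R3) :
    κ / 4 * ‖v‖ ≤ ‖ψ (P3.symm v)‖ ∧ ‖ψ (P3.symm v)‖ ≤ 4 * κ⁻¹ * ‖v‖ := by
  have hu0 : 0 < u := by linarith
  have hκi : 1 ≤ κ⁻¹ := (one_le_inv₀ hκ).2 hκ1
  have h1 := hψ v
  have hv := norm_nonneg v
  have h2 : ‖u • ψ (P3.symm v)‖ = u * ‖ψ (P3.symm v)‖ := by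
    rw [norm_smul, Real.norm_eq_abs, abs_of_pos hu0]
  have h3 := norm_sub_norm_le (u • ψ (P3.symm v)) (P3.symm (L v))
  have h4 := norm_sub_norm_le (P3.symm (L v)) (u • ψ (P3.symm v))
  rw [norm_sub_rev] at h4
  have h5 := norm_le_P3_symm (L v)
  have h6 := norm_P3_symm_le (L v)
  have h7 := hL v
  have h8 := (L.le_opNorm v).trans (mul_le_mul_of_nonneg_right hL' hv)
  have h9 : kl * ‖v‖ ≤ κ / 4 * ‖v‖ := mul_le_mul_of_nonneg_right hkl hv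
  have h10 := norm_nonneg (ψ (P3.symm v))
  rw [h2] at h3 h4
  constructor
  · nlinarith
  · have h11 : κ / 4 * ‖v‖ ≤ κ⁻¹ * ‖v‖ := mul_le_mul_of_nonneg_right (by linarith) hv
    nlinarith

end Crest.Agent.R096.Blu_812
end

-- ▼ part R096/Blk2_212
section

/-!
Row 96 (S0127), helper212.  **BLK-INST, part 2**: the blocks of R3 (`EA0 p` + `PreIN p` ⟹ `BFk p`).

* `ShD.blkP` : `Pin_753.BlkP` for the block of a brick in a good cube;
* `exists_net` : frames from a finite net near `u⁻¹ L` (812's `exists_frame` in `R3`);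
* `ShD.exists_pos` : the position in the lattice `2 ^ -k0` and the affine map;
* `ShD.exists_tr` : the rational position after `PreIN`;
* `ShD.block` : all together, one brick.
-/

set_option autoImplicit false
set_option linter.unusedSectionVars false
set_option linter.style.longLine false

open Set Filter Metric Topology MeasureTheory
open scoped ENNReal NNReal

namespace Crest.Agent.R096.Blk_212

open Crest.AnalysisR.VecCalc3
open Crest.Agent.R096.Bsp_628 Crest.Agent.R096.Brk1_582 Crest.Agent.R096.Brk2_582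
open Crest.Agent.R096.Brk3_582 Crest.Agent.R096.Brk5_582 Crest.Agent.R096.Grd_714
open Crest.Agent.R096.Fni_447 Crest.Agent.R096.Fbr_628
open Crest.Agent.R096.Mal_874 Crest.Agent.R096.Msh_810 Crest.Agent.R096.Msh_715
open Crest.Agent.R096.Mcc_715
open Crest.Agent.R096.SkC1_961 (E3 th)
open Crest.Agent.R096.EaX_766 (cbx lin)
open Crest.Agent.R096.Bxs_627 (ctr zz)
open Crest.Agent.R096.Mdd_360
open Crest.Agent.R096.Ea0_961 (Blk)
open Crest.Agent.R096.Er_594 (norm_P3_symm_le norm_P3_le norm_le_P3 norm_le_P3_symm)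
open Crest.Agent.R096.Br_695 (lin_apply cbx_mono)
open Crest.Agent.R96.Intr_538 (cel par)
open Crest.Agent.R96.Coarse_538 (vt Cb)
open Crest.Agent.R96.En10_199 (P3)
open Crest.Agent.R096.Tmap_212 (mp mp_ψ rt_P3 mem_N_mp)
open Crest.Agent.R096.Pin_753 (Bk BlkP)
open Crest.Agent.R096.Ins_685 (L3 L3_apply low_L3 norm_L3 low_lin lin_close Bk3 lin_eq_linear)
open Crest.Agent.R096.Fil_313 (aff3 aff3_apply aff3_image cel_preimage)
open Crest.Agent.R096.Fns_360 (trA trA_apply trA_linear trA_sub)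

noncomputable section

/-- `BlkP` is monotone in the upper bound of the wall scale -/
theorem BlkP.mono_θ {κ s τ hh c1 θ0 θ0' θ1 : ℝ} {Bs Nn : ℕ} {z : R3} {Q : CB R3 3} {k0 : ℕ}
    (hs : 0 < s) (h : BlkP κ s τ hh c1 θ0 θ1 Bs Nn z Q k0) (hθ : θ0 ≤ θ0') :
    BlkP κ s τ hh c1 θ0' θ1 Bs Nn z Q k0 :=
  { h with hi := h.hi.trans (mul_le_mul_of_nonneg_right hθ hs.le) }

/-- **finite net of frames**: for every `u ∈ [1/2, 1]` and every `L` of condition `κ⁻¹` there is a frame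
`ψ` of the net with `u • ψ` near `L` -/
theorem exists_net {κ kl : ℝ} (hκ : 0 < κ) (hkl : 0 < kl) (hk : kl < κ / 2) :
    ∃ Nn : ℕ, ∀ L : R3 →L[ℝ] R3, (∀ v, κ * ‖v‖ ≤ ‖L v‖) → ‖L‖ ≤ κ⁻¹ →
      ∀ u : ℝ, 1 / 2 ≤ u → u ≤ 1 →
      ∃ (ψ : E3 ≃L[ℝ] (Fin 3 → ℝ)), (∃ (d : ℕ) (Bm : Fin 3 → Fin 3 → ℤ), 0 < d ∧ d ≤ Nn ∧
        (∀ i j, |Bm i j| ≤ Nn) ∧ Rt (ContinuousLinearEquiv.refl ℝ E3) ψ Bm d) ∧
        ∀ v, ‖u • ψ v - L3 L v‖ ≤ kl * ‖v‖ := by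
  obtain ⟨Nn, hN⟩ := Blu_812.exists_frame (κ := κ / 2) (kl := kl) (by linarith) hkl hk
  refine ⟨Nn, fun L low up u hu hu1 => ?_⟩
  obtain ⟨ψ, d, Bm, h1, h2, h3, h4, h5⟩ := hN (L3 L) (fun v => low_L3 low hκ v) (fun v => by
    refine ((L3 L).le_opNorm v).trans (mul_le_mul_of_nonneg_right ?_ (norm_nonneg _))
    refine (norm_L3 L).trans ?_
    have e : (κ / 2)⁻¹ = 2 * κ⁻¹ := by field_simp
    rw [e]
    linarith) u hu hu1
  exact ⟨ψ, ⟨d, Bm, h1, h2, h3, h4⟩, h5⟩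

section shell

variable {F : Set (Bx (Fin 3))} {o : E3} {u0 B : ℝ} {Bs M : ℕ} {c : F} {S : PS 3} {kc : ℕ}
  (h : ShD F o u0 B Bs M c S kc)

include h

/-- the neighbourhood of the block in the target -/
theorem ShD.N_sub {lam κ' : ℝ} (hl : 0 < lam) (hu : 0 < u0) (hκ : 11 ≤ 2 * κ' * M)
    (hκ0 : 0 ≤ κ') (ψ : E3 ≃L[ℝ] (Fin 3 → ℝ)) (a' : Fin 3 → ℝ)
    {A : E3 ≃ᵃ[ℝ] E3} (hA : ∀ y l, A y l = ctr c.1 l - lam * c.1.side l / 2 +
      lam * u0 * (ψ y l - a' l - S.lo l / 2 ^ kc)) :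
    (mkQ S kc h.kc3 h.t ψ a').N ⊆ A ⁻¹' cbx c.1 ((1 + 2 * κ') * lam) := by
  have hp : (0 : ℝ) < 2 ^ kc := by positivity
  rw [h.Q_eq hl hu ψ a' A hA]
  refine mkCB_N _ _ _ _ _ _ _ _ _ (h.side hu) fun l => ?_
  have h1 := h.side_ge hu l
  have h2 : 2 * (M : ℝ) * u0 ≤ 2 ^ kc * c.1.side l := by
    have h3 := mul_le_mul_of_nonneg_left h1 hp.le
    have e : 2 ^ kc * (2 * (M * (u0 / 2 ^ kc))) = 2 * (M : ℝ) * u0 := by field_simp
    rw [e] at h3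
    exact h3
  push_cast
  have h4 := mul_le_mul_of_nonneg_left h2 hκ0
  have h5 := mul_le_mul_of_nonneg_right hκ hu.le
  linarith

/-- the linear part -/
theorem ShD.lin_val' {lam : ℝ} (ψ : E3 ≃L[ℝ] (Fin 3 → ℝ)) (a' : Fin 3 → ℝ)
    {A : E3 ≃ᵃ[ℝ] E3} (hA : ∀ y l, A y l = ctr c.1 l - lam * c.1.side l / 2 +
      lam * u0 * (ψ y l - a' l - S.lo l / 2 ^ kc)) (x : E3) : lin A x = (lam * u0) • ψ x := by
  have h1 := lin_apply A x 0
  rw [sub_zero] at h1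
  rw [h1]
  funext l
  rw [Pi.sub_apply, hA, hA, map_zero]
  simp only [Pi.zero_apply, Pi.smul_apply, smul_eq_mul]
  ring

/-- **`Pin_753.BlkP` for the block of a brick in the good cube `(z, s)`** -/
theorem ShD.blkP {κ s τ hh c1 θ0 θ1 ka lam κ' : ℝ} {Nn : ℕ} {z b : R3} {L : R3 →L[ℝ] R3}
    (hκ : 0 < κ) (hκ1 : κ ≤ 1) (low : ∀ v, κ * ‖v‖ ≤ ‖L v‖) (up : ‖L‖ ≤ κ⁻¹)
    (hs : 0 < s) (hτ : 0 < τ) (hτ4 : τ ≤ 1 / 4)
    (hl : 0 < lam) (hu : 0 < u0) (hu1 : 1 / 2 ≤ lam * u0) (hu2 : lam * u0 ≤ 1)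
    (hM : 0 < M) (hκM : 11 ≤ 2 * κ' * M) (hκ' : 0 ≤ κ') (hB0 : 0 < B)
    (ψ : E3 ≃L[ℝ] (Fin 3 → ℝ)) (a' : Fin 3 → ℝ)
    (hnet : ∃ (d : ℕ) (Bm : Fin 3 → Fin 3 → ℤ), 0 < d ∧ d ≤ Nn ∧ (∀ i j, |Bm i j| ≤ Nn) ∧
      Rt (ContinuousLinearEquiv.refl ℝ E3) ψ Bm d)
    {k0 : ℕ} (hpos : ∀ m, ∃ n : ℤ, 2 ^ k0 * a' m = n)
    {A : E3 ≃ᵃ[ℝ] E3} (hA : ∀ y l, A y l = ctr c.1 l - lam * c.1.side l / 2 +
      lam * u0 * (ψ y l - a' l - S.lo l / 2 ^ kc))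
    (hcl : ∀ x ∈ closedBall (P3.symm z) s, ‖A x - P3.symm (Bk b L z (P3 x))‖ ≤ ka * s)
    (hka : ka ≤ κ * τ / 16)
    (hin : cbx c.1 ((1 + 2 * κ') * lam) ⊆ P3 ⁻¹' par Cb L b ((1 - 3 * τ) * s))
    (cL : c1 * s * (B * M * u0) ≤ c.1.sz) (cU : c.1.sz ≤ hh * s * (2 * M * u0))
    (lo : θ1 * s ≤ 1 / 2 ^ k0) (hi : 1 / 2 ^ k0 ≤ θ0 * s) :
    BlkP κ s τ hh c1 θ0 θ1 Bs Nn z (mp P3 (mkQ S kc h.kc3 h.t ψ a')) k0 := by
  have hp : (0 : ℝ) < 2 ^ kc := by positivity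
  have hM' : (0 : ℝ) < M := by exact_mod_cast hM
  have hkaκ : 2 * ka ≤ κ / 8 := by
    have : κ * τ ≤ κ * 1 := mul_le_mul_of_nonneg_left (by linarith) hκ.le
    linarith
  have hlin := h.lin_val' ψ a' hA
  have hl3 : ∀ v, ‖lin A v - L3 L v‖ ≤ 2 * ka * ‖v‖ := lin_close hs hκ low hcl
  obtain ⟨d, Bm, hd, hd', hBm, hR⟩ := hnet
  refine
    { cnd := ?_
      net := ⟨d, Bm, hd, hd', hBm, ?_, ?_⟩
      hB := h.hB
      hR := h.hR
      cellL := ?_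
      cellU := ?_
      lo := lo
      hi := hi
      sub := ?_ }
  · have h2ka : 0 ≤ 2 * ka := by
      by_contra hcon
      push Not at hcon
      have h1 := hl3 (P3.symm (EuclideanSpace.single 0 1))
      have h2 : 0 < ‖P3.symm (EuclideanSpace.single (0 : Fin 3) (1:ℝ))‖ := by
        rw [norm_pos_iff]
        intro h0
        have := P3.symm.injective (h0.trans (map_zero P3.symm).symm)
        have h3 : ‖(EuclideanSpace.single (0 : Fin 3) (1 : ℝ) : R3)‖ = 1 := by simp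
        rw [this, norm_zero] at h3
        exact zero_ne_one h3
      have h4 := norm_nonneg (lin A (P3.symm (EuclideanSpace.single 0 1)) -
        L3 L (P3.symm (EuclideanSpace.single 0 1)))
      nlinarith
    refine Blu_812.cnd_of (kl := 2 * ka) hκ hκ1 (by linarith) hu1 hu2 low up fun v => ?_
    have h1 := hl3 (P3.symm v)
    rw [hlin, L3_apply, P3.apply_symm_apply] at h1
    exact h1.trans (mul_le_mul_of_nonneg_left (norm_P3_symm_le v) h2ka)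
  · exact (rt_P3 (mkQ S kc h.kc3 h.t ψ a')).2 hR
  · intro m
    obtain ⟨n, hn⟩ := hpos m
    refine ⟨d * n, ?_⟩
    change 2 ^ k0 * (d : ℝ) * a' m = _
    push_cast
    rw [← hn]
    ring
  · change c1 * s ≤ 1 / 2 ^ kc
    have h1 := cL.trans h.szB
    have e : B * (M * (u0 / 2 ^ kc)) = 1 / 2 ^ kc * (B * M * u0) := by ring
    rw [e] at h1
    exact le_of_mul_le_mul_right h1 (by positivity)
  · change 1 / 2 ^ kc ≤ hh * s
    have h1 := (h.sz2 hu).trans cU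
    have e : 2 * (M * (u0 / 2 ^ kc)) = 1 / 2 ^ kc * (2 * M * u0) := by ring
    rw [e] at h1
    exact le_of_mul_le_mul_right h1 (by positivity)
  · intro y hy
    have r3 : 0 < (1 - 3 * τ) * s := mul_pos (by linarith) hs
    have hx0 := (mem_N_mp P3 (mkQ S kc h.kc3 h.t ψ a')).1 hy
    set x : E3 := P3.symm y with hx
    have hxy : P3 x = y := P3.apply_symm_apply y
    have h1 := hin (h.N_sub hl hu hκM hκ' ψ a' hA hx0)
    rw [← aff3_image L hκ low z b r3] at h1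
    obtain ⟨w, hw, hwx⟩ := h1
    have hws : w ∈ closedBall (P3.symm z) s :=
      closedBall_subset_closedBall (by nlinarith) hw
    have h2 := hcl w hws
    rw [Bk3 hκ low, hwx, ← lin_apply] at h2
    have h3 := low_lin hκ low hkaκ hl3 (w - x)
    have h4 : ‖w - x‖ ≤ τ / 4 * s := by
      have h5 : κ / 4 * ‖w - x‖ ≤ κ / 4 * (τ / 4 * s) := by
        have h6 : ka * s ≤ κ * τ / 16 * s := mul_le_mul_of_nonneg_right hka hs.le
        have e : κ / 4 * (τ / 4 * s) = κ * τ / 16 * s := by ring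
        linarith
      exact le_of_mul_le_mul_left h5 (by positivity)
    have h5 : x ∈ closedBall (P3.symm z) ((1 - τ) * s) := by
      rw [mem_closedBall, dist_eq_norm] at hw ⊢
      have e1 : x - P3.symm z = (w - P3.symm z) - (w - x) := by abel
      rw [e1]
      refine (norm_sub_le _ _).trans ?_
      have : 0 < τ * s := mul_pos hτ hs
      linarith
    rw [← cel_preimage z (mul_pos (by linarith) hs)] at h5
    have h6 : P3 x ∈ cel Cb z ((1 - τ) * s) := h5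
    rwa [hxy] at h6

/-- **position in the lattice and affine map** of the block of a brick in the good cube `(z, s)` -/
theorem ShD.exists_pos {s θ kl lam : ℝ} {z b : R3} {L : R3 →L[ℝ] R3}
    (hl : 0 < lam) (hu : 0 < u0) (hu2 : lam * u0 ≤ 1)
    (ψ : E3 ≃L[ℝ] (Fin 3 → ℝ)) (hkl : 0 ≤ kl) (hψ : ∀ v, ‖(lam * u0) • ψ v - L3 L v‖ ≤ kl * ‖v‖)
    {k0 : ℕ} (hi : 1 / 2 ^ k0 ≤ θ * s) :
    ∃ (a' : Fin 3 → ℝ) (A : E3 ≃ᵃ[ℝ] E3), (∀ m, ∃ n : ℤ, 2 ^ k0 * a' m = n) ∧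
      (∀ y l, A y l = ctr c.1 l - lam * c.1.side l / 2 +
        lam * u0 * (ψ y l - a' l - S.lo l / 2 ^ kc)) ∧
      ∀ x ∈ closedBall (P3.symm z) s, ‖A x - P3.symm (Bk b L z (P3 x))‖ ≤ (kl + θ) * s := by
  have hlu : 0 < lam * u0 := mul_pos hl hu
  obtain ⟨A, hA1, hA2, hA3⟩ := Blu_812.exists_aff ψ hlu (P3.symm z) (P3.symm b) k0
    (fun l => ctr c.1 l - lam * c.1.side l / 2) (fun l => S.lo l / 2 ^ kc)
  refine ⟨fun l => (ctr c.1 l - lam * c.1.side l / 2 - A 0 l) / (lam * u0) - S.lo l / 2 ^ kc,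
    A, hA3, fun y l => ?_, fun x hx => ?_⟩
  · have h1 : A.linear y = A y - A 0 := by
      have h := A.toAffineMap.linearMap_vsub y 0
      rw [vsub_eq_sub, vsub_eq_sub, sub_zero] at h
      exact h
    have h2 := congrFun (h1.symm.trans (hA1 y)) l
    rw [Pi.sub_apply, Pi.smul_apply, smul_eq_mul] at h2
    have h3 : A y l = A 0 l + lam * u0 * ψ y l := by linarith
    rw [h3]
    field_simp
    ring
  · have h1 := Blu_812.aff_near (L := L3 L) hA1 hψ hA2 x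
    have e1 : P3.symm (Bk b L z (P3 x)) = P3.symm b + L3 L (x - P3.symm z) := by
      unfold Bk
      rw [map_add, L3_apply, map_sub P3, P3.apply_symm_apply]
    rw [e1]
    refine h1.trans ?_
    rw [mem_closedBall, dist_eq_norm] at hx
    have h2 : kl * ‖x - P3.symm z‖ ≤ kl * s := mul_le_mul_of_nonneg_left hx hkl
    have h3 : lam * u0 / 2 ^ k0 ≤ θ * s := by
      refine le_trans ?_ hi
      exact div_le_div_of_nonneg_right hu2 (by positivity)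
    linarith

/-- **rational position after `PreIN`**: every translation `sh` of the block can be corrected by `v`,
`‖ψ v‖ ≤ 1 / (20 * 2 ^ k0)`, so that the block at `sh + v` is a block of `EA0` -/
theorem ShD.exists_tr {lam κ' κ2 κt Cc : ℝ} {Nn : ℕ} (hl : 0 < lam) (hu : 0 < u0) (hM : 0 < M)
    (hκ : 11 ≤ 2 * κ' * M) (hκ2 : 2 * κ' ≤ κ2) (hκl : (1 + 2 * κ') * lam ≤ (1 + lam) / 2)
    (hC1 : 1 ≤ Cc) (hCB : B ≤ Cc) (hcp : ∀ l, 0 ≤ c.1.side l)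
    (ψ : E3 ≃L[ℝ] (Fin 3 → ℝ)) (a' : Fin 3 → ℝ)
    (hnet : ∃ (d : ℕ) (Bm : Fin 3 → Fin 3 → ℤ), 0 < d ∧ d ≤ Nn ∧ (∀ i j, |Bm i j| ≤ Nn) ∧
      Rt (ContinuousLinearEquiv.refl ℝ E3) ψ Bm d)
    {A : E3 ≃ᵃ[ℝ] E3} (hA : ∀ y l, A y l = ctr c.1 l - lam * c.1.side l / 2 +
      lam * u0 * (ψ y l - a' l - S.lo l / 2 ^ kc)) {k0 : ℕ} (hk : kc ≤ k0)
    (thin : lam * u0 / 2 ^ k0 ≤ κt * (lam * c.1.sz) / M) (sh : E3) :
    ∃ v : E3, ‖(mkQ S kc h.kc3 h.t ψ a').ψ v‖ ≤ 1 / (20 * 2 ^ k0) ∧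
      Blk F (lam * u0) Cc κ2 κt Bs M Nn c (trA A (sh + v)) lam
        ((mkQ S kc h.kc3 h.t ψ a').tr (sh + v)) k0 hk := by
  obtain ⟨d, Bm, hd, hd', hBm, hR⟩ := hnet
  have hp : (0 : ℝ) < 2 ^ (k0 + 5) := by positivity
  set w : Fin 3 → ℝ := fun l => round (2 ^ (k0 + 5) * (a' l + ψ sh l)) / 2 ^ (k0 + 5) with hw
  set v : E3 := ψ.symm (w - a' - ψ sh) with hv
  have hψv : ψ v = w - a' - ψ sh := ψ.apply_symm_apply _
  have hpos : a' + ψ (sh + v) = w := by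
    rw [map_add, hψv]; abel
  refine ⟨v, ?_, ?_⟩
  · change ‖ψ v‖ ≤ _
    rw [hψv, pi_norm_le_iff_of_nonneg (by positivity)]
    intro l
    have h1 := abs_sub_round (2 ^ (k0 + 5) * (a' l + ψ sh l))
    have e1 : (w - a' - ψ sh) l = -((2 ^ (k0 + 5) * (a' l + ψ sh l) -
        round (2 ^ (k0 + 5) * (a' l + ψ sh l))) / 2 ^ (k0 + 5)) := by
      rw [Pi.sub_apply, Pi.sub_apply, hw]
      field_simp
      ring
    rw [e1, norm_neg, Real.norm_eq_abs, abs_div, abs_of_pos hp, div_le_div_iff₀ hp (by positivity)]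
    have e2 : (2 : ℝ) ^ (k0 + 5) = 32 * 2 ^ k0 := by rw [pow_add]; norm_num; ring
    have h2 : (0 : ℝ) < 2 ^ k0 := by positivity
    calc |2 ^ (k0 + 5) * (a' l + ψ sh l) - round (2 ^ (k0 + 5) * (a' l + ψ sh l))| * (20 * 2 ^ k0)
        ≤ 1 / 2 * (20 * 2 ^ k0) := mul_le_mul_of_nonneg_right h1 (by positivity)
      _ ≤ 1 * 2 ^ (k0 + 5) := by rw [e2]; linarith
  · have hQ : (mkQ S kc h.kc3 h.t ψ a').tr (sh + v) = mkQ S kc h.kc3 h.t ψ w := by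
      unfold CB.tr mkQ
      congr 1
    have h1 := h.blk (κ2 := κ2) (κt := κt) (Cc := Cc) (Nn := Nn) hl hu hM hκ hκ2 hκl hC1 hCB hcp ψ w
      ⟨d, Bm, hd, hd', hBm, hR, k0 + 5, fun m => ⟨d * round (2 ^ (k0 + 5) * (a' m + ψ sh m)), by
        rw [hw]
        push_cast
        field_simp⟩⟩
      (A := trA A (sh + v)) (fun y l => by
        rw [trA_apply, hA, ← hpos, map_sub, Pi.sub_apply, Pi.add_apply]
        ring) hk thin
    have key : ∀ (Q' : CB E3 3) (hq : mkQ S kc h.kc3 h.t ψ w = Q') (hk' : Q'.kc ≤ k0),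
        Blk F (lam * u0) Cc κ2 κt Bs M Nn c (trA A (sh + v)) lam Q' k0 hk' := by
      rintro Q' rfl hk'
      exact h1
    exact key _ hQ.symm hk

/-- **one brick of R3**: block, affine map, `BlkP` for `PreIN`, `Blk` for `EA0` at a rational position -/
theorem ShD.block {κ s τ hh c1 θ θ1 kl lam κ' κ2 κt Cc : ℝ} {Nn : ℕ} {z b : R3} {L : R3 →L[ℝ] R3}
    (hκ : 0 < κ) (hκ1 : κ ≤ 1) (low : ∀ v, κ * ‖v‖ ≤ ‖L v‖) (up : ‖L‖ ≤ κ⁻¹)
    (hs : 0 < s) (hτ : 0 < τ) (hτ4 : τ ≤ 1 / 4)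
    (hl : 0 < lam) (hu : 0 < u0) (hu1 : 1 / 2 ≤ lam * u0) (hu2 : lam * u0 ≤ 1)
    (hM : 0 < M) (hκM : 11 ≤ 2 * κ' * M) (hκ' : 0 ≤ κ') (hκ2 : 2 * κ' ≤ κ2)
    (hκl : (1 + 2 * κ') * lam ≤ (1 + lam) / 2) (hB0 : 0 < B) (hC1 : 1 ≤ Cc) (hCB : B ≤ Cc)
    (hcp : ∀ l, 0 ≤ c.1.side l) (hkl0 : 0 ≤ kl) (hkl : kl + θ ≤ κ * τ / 16)
    (hnet : ∃ ψ : E3 ≃L[ℝ] (Fin 3 → ℝ), (∃ (d : ℕ) (Bm : Fin 3 → Fin 3 → ℤ), 0 < d ∧ d ≤ Nn ∧
        (∀ i j, |Bm i j| ≤ Nn) ∧ Rt (ContinuousLinearEquiv.refl ℝ E3) ψ Bm d) ∧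
        ∀ v, ‖(lam * u0) • ψ v - L3 L v‖ ≤ kl * ‖v‖)
    (hin : cbx c.1 ((1 + 2 * κ') * lam) ⊆ P3 ⁻¹' par Cb L b ((1 - 3 * τ) * s))
    (cL : c1 * s * (B * M * u0) ≤ c.1.sz) (cU : c.1.sz ≤ hh * s * (2 * M * u0))
    {k0 : ℕ} (lo : θ1 * s ≤ 1 / 2 ^ k0) (hi : 1 / 2 ^ k0 ≤ θ * s) (hθc : θ ≤ c1)
    (hθt : θ ≤ κt * c1 * B) :
    ∃ (Q : CB E3 3) (A : E3 ≃ᵃ[ℝ] E3) (hk : Q.kc ≤ k0),
      Q.N ⊆ A ⁻¹' cbx c.1 ((1 + 2 * κ') * lam) ∧ Q.Kc = A ⁻¹' cbx c.1 lam ∧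
      (∀ x, A.linear x = (lam * u0) • Q.ψ x) ∧
      (∀ x ∈ closedBall (P3.symm z) s, ‖A x - P3.symm (Bk b L z (P3 x))‖ ≤ (kl + θ) * s) ∧
      BlkP κ s τ hh c1 θ θ1 Bs Nn z (mp P3 Q) k0 ∧
      ∀ sh : E3, ∃ v : E3, ‖Q.ψ v‖ ≤ 1 / (20 * 2 ^ k0) ∧
        Blk F (lam * u0) Cc κ2 κt Bs M Nn c (trA A (sh + v)) lam (Q.tr (sh + v)) k0 hk := by
  obtain ⟨ψ, hn, hψ⟩ := hnet
  obtain ⟨a', A, hpos, hA, hcl⟩ := h.exists_pos (b := b) (z := z) hl hu hu2 ψ hkl0 hψ hi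
  have hM' : (0 : ℝ) < M := by exact_mod_cast hM
  have hP := h.blkP hκ hκ1 low up hs hτ hτ4 hl hu hu1 hu2 hM hκM hκ' hB0 ψ a' hn hpos hA hcl hkl
    hin cL cU lo hi
  have hk : kc ≤ k0 := by
    have h1 : (1 : ℝ) / 2 ^ k0 ≤ 1 / 2 ^ kc :=
      (hi.trans (mul_le_mul_of_nonneg_right hθc hs.le)).trans hP.cellL
    rw [div_le_div_iff₀ (by positivity) (by positivity), one_mul, one_mul] at h1
    exact (pow_le_pow_iff_right₀ (by norm_num : (1 : ℝ) < 2)).1 h1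
  have thin : lam * u0 / 2 ^ k0 ≤ κt * (lam * c.1.sz) / M := by
    rw [le_div_iff₀ hM']
    have h1 : lam * u0 / 2 ^ k0 * M = lam * (u0 * M * (1 / 2 ^ k0)) := by ring
    have h2 : κt * (lam * c.1.sz) = lam * (κt * c.1.sz) := by ring
    rw [h1, h2]
    refine mul_le_mul_of_nonneg_left ?_ hl.le
    have hθ0 : 0 < θ := by
      by_contra hcon
      push Not at hcon
      have h3 : θ * s ≤ 0 := mul_nonpos_of_nonpos_of_nonneg hcon hs.le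
      have h4 : (0 : ℝ) < 1 / 2 ^ k0 := by positivity
      linarith
    have hc1 : 0 < c1 := hθ0.trans_le hθc
    have hκt : 0 < κt := by
      by_contra hcon
      push Not at hcon
      have h3 : κt * (c1 * B) ≤ 0 := mul_nonpos_of_nonpos_of_nonneg hcon (by positivity)
      linarith
    calc u0 * M * (1 / 2 ^ k0) ≤ u0 * M * (κt * c1 * B * s) := by
          refine mul_le_mul_of_nonneg_left ?_ (by positivity)
          exact hi.trans (mul_le_mul_of_nonneg_right hθt hs.le)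
      _ = κt * (c1 * s * (B * M * u0)) := by ring
      _ ≤ κt * c.1.sz := mul_le_mul_of_nonneg_left cL hκt.le
  refine ⟨mkQ S kc h.kc3 h.t ψ a', A, hk, h.N_sub hl hu hκM hκ' ψ a' hA, ?_, ?_, hcl, hP,
    fun sh => ?_⟩
  · rw [h.Q_eq hl hu ψ a' A hA]
    exact mkCB_Kc _ _ _ _ _ _ _ _ _ (h.side hu)
  · intro x
    rw [← lin_eq_linear]
    exact h.lin_val' ψ a' hA x
  · exact h.exists_tr hl hu hM hκM hκ2 hκl hC1 hCB hcp ψ a' hn hA hk thin sh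

end shell

end

end Crest.Agent.R096.Blk_212
end

-- ▼ part R096/Ksh1_29
section

/-!
Row 96 (S0127), helper29.  (5) of 695 #11580: two nearby positions of a core block: `Kc_diff`, `N_diff`,
and the rational position `exists_rat`.
-/

set_option autoImplicit false
set_option linter.style.longLine false
set_option linter.unusedSectionVars false

open MeasureTheory Set Filter Topology Metric
open scoped ENNReal NNReal

noncomputable section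

namespace Crest.Agent.R096.Ksh_29

open Crest.Agent.R096.Mal_874 Crest.Agent.R096.Msh_715 Crest.Agent.R096.Cut_874
  Crest.Agent.R096.Msh_810

/-! ### boxes of `Fin n → ℝ` -/

section Box

variable {n : ℕ}

/-- the part of a box which leaves a translated box has small volume -/
theorem box_diff {α β δ : Fin n → ℝ} {ρ w : ℝ} (hw : 0 < w) (hρ : 0 ≤ ρ)
    (hwl : ∀ l, w ≤ β l - α l) (hδ : ∀ l, |δ l| ≤ ρ) :
    volume (Icc α β \ {u | u - δ ∈ Icc α β}) ≤ ENNReal.ofReal (n * ρ / w) * volume (Icc α β) := by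
  classical
  -- the slabs
  set lo : Fin n → Fin n → ℝ := fun m => Function.update α m (if 0 ≤ δ m then α m else β m + δ m)
    with hlo
  set hi : Fin n → Fin n → ℝ := fun m => Function.update β m (if 0 ≤ δ m then α m + δ m else β m)
    with hhi
  have h1 : Icc α β \ {u | u - δ ∈ Icc α β} ⊆ ⋃ m, Icc (lo m) (hi m) := by
    rintro u ⟨hu, hu'⟩
    have h2 : ∃ m, u m - δ m < α m ∨ β m < u m - δ m := by
      by_contra hcon
      push Not at hcon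
      exact hu' ⟨fun m => (hcon m).1, fun m => (hcon m).2⟩
    obtain ⟨m, hm⟩ := h2
    refine mem_iUnion.2 ⟨m, ⟨fun l => ?_, fun l => ?_⟩⟩
    · by_cases hl : l = m
      · subst hl
        rw [hlo]; simp only [Function.update_self]
        split_ifs with h0
        · exact hu.1 l
        · have := hu.1 l
          rcases hm with hm | hm
          · linarith
          · linarith
      · rw [hlo]; simp only [Function.update_of_ne hl]; exact hu.1 l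
    · by_cases hl : l = m
      · subst hl
        rw [hhi]; simp only [Function.update_self]
        split_ifs with h0
        · have := hu.2 l
          rcases hm with hm | hm
          · linarith
          · linarith
        · exact hu.2 l
      · rw [hhi]; simp only [Function.update_of_ne hl]; exact hu.2 l
  have h3 : ∀ m, volume (Icc (lo m) (hi m)) ≤ ENNReal.ofReal (ρ / w) * volume (Icc α β) := by
    intro m
    rw [Real.volume_Icc_pi, Real.volume_Icc_pi, ← Finset.mul_prod_erase _ _ (Finset.mem_univ m),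
      ← Finset.mul_prod_erase Finset.univ (fun i => ENNReal.ofReal (β i - α i)) (Finset.mem_univ m),
      ← mul_assoc]
    have e1 : ∀ i ∈ Finset.univ.erase m, ENNReal.ofReal (hi m i - lo m i) =
        ENNReal.ofReal (β i - α i) := by
      intro i hi'
      have hne := Finset.ne_of_mem_erase hi'
      rw [hlo, hhi]; simp only [Function.update_of_ne hne]
    rw [Finset.prod_congr rfl e1]
    gcongr
    rw [← ENNReal.ofReal_mul (by positivity)]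
    apply ENNReal.ofReal_le_ofReal
    have h4 : hi m m - lo m m ≤ ρ := by
      rw [hlo, hhi]; simp only [Function.update_self]
      have := hδ m
      split_ifs with h0
      · have := le_abs_self (δ m); linarith
      · have := neg_abs_le (δ m); linarith
    have h5 : ρ / w * w ≤ ρ / w * (β m - α m) := mul_le_mul_of_nonneg_left (hwl m) (by positivity)
    rw [div_mul_cancel₀ _ hw.ne'] at h5
    linarith
  calc volume (Icc α β \ {u | u - δ ∈ Icc α β}) ≤ volume (⋃ m, Icc (lo m) (hi m)) := measure_mono h1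
    _ ≤ ∑ m : Fin n, volume (Icc (lo m) (hi m)) := measure_iUnion_fintype_le _ _
    _ ≤ ∑ _m : Fin n, ENNReal.ofReal (ρ / w) * volume (Icc α β) := Finset.sum_le_sum fun m _ => h3 m
    _ = ENNReal.ofReal (n * ρ / w) * volume (Icc α β) := by
        rw [Finset.sum_const, Finset.card_univ, Fintype.card_fin, nsmul_eq_mul, ← mul_assoc]
        congr 1
        rw [mul_div_assoc, ENNReal.ofReal_mul (by positivity), ENNReal.ofReal_natCast]

end Box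

/-! ### pull back to `E` -/

section Pull

variable {n : ℕ} {E : Type*} [NormedAddCommGroup E] [NormedSpace ℝ E] [FiniteDimensional ℝ E]
  [MeasurableSpace E] [BorelSpace E]

/-- the measure of a preimage under a linear equivalence -/
theorem exists_haar (μ : Measure E) [μ.IsAddHaarMeasure] (ψ : E ≃L[ℝ] (Fin n → ℝ)) :
    ∃ c : ℝ≥0∞, ∀ A : Set (Fin n → ℝ), MeasurableSet A → μ (ψ ⁻¹' A) = c * volume A := by
  have : (μ.map ψ).IsAddHaarMeasure := ψ.isAddHaarMeasure_map μ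
  refine ⟨Measure.addHaarScalarFactor (μ.map ψ) volume, fun A hA => ?_⟩
  have h := Measure.isAddLeftInvariant_eq_smul (μ.map ψ) volume
  have h2 := congrArg (fun ν : Measure (Fin n → ℝ) => ν A) h
  rw [← Measure.map_apply ψ.continuous.measurable hA]
  exact h2

end Pull


section CB

variable {n : ℕ} {E : Type*} [NormedAddCommGroup E] [NormedSpace ℝ E]

/-- corners of the core -/
def cl (Q : CB E n) : Fin n → ℝ := fun l => Q.a' l + Q.S.lo l / 2 ^ Q.kc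
def cu (Q : CB E n) : Fin n → ℝ := fun l => Q.a' l + Q.S.hi l / 2 ^ Q.kc

theorem Kc_eq (Q : CB E n) : Q.Kc = Q.ψ ⁻¹' Icc (cl Q) (cu Q) := by
  have hp : (0 : ℝ) < 2 ^ Q.kc := by positivity
  ext y
  rw [mem_preimage, mem_Icc, Pi.le_def, Pi.le_def, ← forall_and]
  refine forall_congr' fun l => ?_
  show ((Q.S.lo l : ℝ) ≤ ps Q.a' Q.kc (Q.ψ y) l ∧ ps Q.a' Q.kc (Q.ψ y) l ≤ Q.S.hi l) ↔ _
  unfold ps cl cu
  rw [← le_sub_iff_add_le', ← sub_le_iff_le_add', div_le_iff₀ hp, le_div_iff₀ hp]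
  constructor <;> rintro ⟨h1, h2⟩ <;> constructor <;> linarith




variable [FiniteDimensional ℝ E] [MeasurableSpace E] [BorelSpace E]

/-- **`Kc_diff`**, any dimension, any Haar measure -/
theorem Kc_diff_mu (μ : Measure E) [μ.IsAddHaarMeasure] (Q : CB E n) {v v' : E} {ρ w : ℝ}
    (hρ : ‖Q.ψ (v - v')‖ ≤ ρ) (hw : ∀ l, w ≤ (Q.S.hi l - Q.S.lo l) / 2 ^ Q.kc) (hw0 : 0 < w) :
    μ ((Q.tr v).Kc \ (Q.tr v').Kc) ≤ ENNReal.ofReal (n * ρ / w) * μ ((Q.tr v).Kc) := by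
  obtain ⟨c, hc⟩ := exists_haar μ Q.ψ
  set δ : Fin n → ℝ := Q.ψ (v' - v) with hδ
  have hρ0 : 0 ≤ ρ := (norm_nonneg _).trans hρ
  have hδl : ∀ l, |δ l| ≤ ρ := by
    intro l
    have h1 := norm_le_pi_norm δ l
    rw [Real.norm_eq_abs] at h1
    have h2 : ‖δ‖ = ‖Q.ψ (v - v')‖ := by rw [hδ, ← neg_sub v v', map_neg, norm_neg]
    linarith
  have hwl : ∀ l, w ≤ cu (Q.tr v) l - cl (Q.tr v) l := by
    intro l
    have h1 := hw l
    have h2 : cu (Q.tr v) l - cl (Q.tr v) l = (Q.S.hi l - Q.S.lo l) / 2 ^ Q.kc := by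
      show ((Q.tr v).a' l + Q.S.hi l / 2 ^ Q.kc) - ((Q.tr v).a' l + Q.S.lo l / 2 ^ Q.kc) = _
      ring
    rw [h2]; exact h1
  have e1 : (Q.tr v).Kc = Q.ψ ⁻¹' Icc (cl (Q.tr v)) (cu (Q.tr v)) := Kc_eq (Q.tr v)
  have e2 : (Q.tr v).Kc \ (Q.tr v').Kc = Q.ψ ⁻¹' (Icc (cl (Q.tr v)) (cu (Q.tr v)) \
      {u | u - δ ∈ Icc (cl (Q.tr v)) (cu (Q.tr v))}) := by
    ext y
    rw [Set.mem_sdiff, mem_preimage, Set.mem_sdiff, mem_ofPred_eq, e1, mem_preimage]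
    refine and_congr_right fun _ => not_congr ?_
    have e3 : Q.ψ y - δ = Q.ψ (y - (v' - v)) := by rw [map_sub]
    rw [e3]
    have e4 : y - (v' - v) ∈ Q.ψ ⁻¹' Icc (cl (Q.tr v)) (cu (Q.tr v)) ↔ y - (v' - v) ∈ (Q.tr v).Kc := by
      rw [e1]
    rw [mem_preimage] at e4
    rw [e4, CB.mem_Kc_tr, CB.mem_Kc_tr, show y - (v' - v) - v = y - v' by abel]
  have hm : MeasurableSet {u : Fin n → ℝ | u - δ ∈ Icc (cl (Q.tr v)) (cu (Q.tr v))} :=
    (measurable_id.sub_const δ) measurableSet_Icc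
  rw [e2, e1, hc _ (measurableSet_Icc.diff hm), hc _ measurableSet_Icc]
  calc c * volume (Icc (cl (Q.tr v)) (cu (Q.tr v)) \ {u | u - δ ∈ Icc (cl (Q.tr v)) (cu (Q.tr v))})
      ≤ c * (ENNReal.ofReal (n * ρ / w) * volume (Icc (cl (Q.tr v)) (cu (Q.tr v)))) := by
        gcongr; exact box_diff hw0 hρ0 hwl hδl
    _ = _ := by ring

end CB

/-- **`Kc_diff`** for `CB E3 3` and `CB R3 3` -/
theorem Kc_diff {E : Type*} [NormedAddCommGroup E] [NormedSpace ℝ E] [FiniteDimensional ℝ E]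
    [MeasureSpace E] [BorelSpace E] [(volume : Measure E).IsAddHaarMeasure] (Q : CB E 3) {v v' : E}
    {ρ w : ℝ} (hρ : ‖Q.ψ (v - v')‖ ≤ ρ) (hw : ∀ l, w ≤ (Q.S.hi l - Q.S.lo l) / 2 ^ Q.kc)
    (hw0 : 0 < w) :
    volume ((Q.tr v).Kc \ (Q.tr v').Kc) ≤ ENNReal.ofReal (3 * ρ / w) * volume ((Q.tr v).Kc) := by
  have := Kc_diff_mu (volume : Measure E) Q hρ hw hw0
  exact_mod_cast this

end Crest.Agent.R096.Ksh_29
end
end

-- ▼ part R096/Br10_695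
section

/-!
Row 96 (S0127), helper695.  **`BFk p` for `p ≤ 2`**: from the output of `PreIN p` to the input of `EA0 p`.
-/

set_option autoImplicit false
set_option linter.unusedSectionVars false
set_option linter.unusedVariables false
set_option linter.style.longLine false

open MeasureTheory Set Filter Metric Module
open scoped ENNReal NNReal Topology

namespace Crest.Agent.R096.Br_695

open Crest.AnalysisR.VecCalc3 Crest.AnalysisR.Sobolev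
open Crest.Agent.R96.Lu_538 Crest.Agent.R96.Intr_538
open Crest.Agent.R96.Coarse_538 hiding E3
open Crest.Agent.R096.Sk_962 (SH Gr)
open Crest.Agent.R096.Sk4_663 (Zd BFs lintegral_of_memLp)
open Crest.Agent.R096.Bsp_628
open Crest.Agent.R096.Bxs_627 hiding E3
open Crest.Agent.R96.En10_199
open Crest.Agent.R096.SkC1_961 (E3 Hom3)
open Crest.Agent.R096.Er_594
open Crest.Agent.R096.EaX_766 (cbx lin Kor)
open Crest.Agent.R096.Brk5_582 (Cmp)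
open Crest.Agent.R096.Msh_715 Crest.Agent.R096.Mal_874
open Crest.Agent.R096.Pin_753 (Bk InP BlkP)
open Crest.Agent.R096.Ea0_961 (InS Blk)
open Crest.Agent.R096.Tmap_212 (mp)
open Crest.Agent.R096.Fns_360 (trA trA_apply trA_linear trA_sub)
open Crest.Agent.R096.Ins_685 (L3 L3_apply lin_close lin_trA norm_lin_le low_lin)
open Crest.Agent.R096.Fil_313 (cel_preimage aff3 aff3_image)

noncomputable section

/-- **the nominal blocks** (output of `Blk3_212`) -/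
structure Fam (La : Set R3) (F : Set (Bx (Fin 3))) (κ κ' κt s t τ hh c1 θ θ1 ka lam B : ℝ)
    (Bs M Nn k0 : ℕ) (a₀ : R3) (Q₀ : Finset (Fin 3 → ℤ)) (b : (Fin 3 → ℤ) → R3)
    (L : (Fin 3 → ℤ) → R3 →L[ℝ] R3) (X₀ : Set F) (kk : F → Fin 3 → ℤ) (Q : F → CB E3 3)
    (A : F → E3 ≃ᵃ[ℝ] E3) (hk : ∀ c, (Q c).kc ≤ k0) : Prop where
  fin : X₀.Finite
  kkQ : ∀ c ∈ X₀, kk c ∈ Q₀
  ins : ∀ c ∈ X₀, c.1.set ⊆ P3 ⁻¹' par Cb (L (kk c)) (b (kk c)) ((1 - 4 * τ) * s)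
  two : ∀ c ∈ X₀, cbx c.1 2 ⊆ P3 ⁻¹' par Cb (L (kk c)) (b (kk c)) ((1 - 3 * τ) * s)
  all : ∀ k ∈ Q₀, ∀ c : F, c.1.set ⊆ P3 ⁻¹' par Cb (L k) (b k) ((1 - 4 * τ) * s) →
    c ∈ X₀ ∧ kk c = k
  szl : ∀ c ∈ X₀, t ≤ 6 * c.1.sz
  szu : ∀ c ∈ X₀, c.1.sz ≤ t
  N_sub : ∀ c ∈ X₀, (Q c).N ⊆ A c ⁻¹' cbx c.1 ((1 + 2 * κ') * lam)
  core : ∀ c ∈ X₀, (Q c).Kc = A c ⁻¹' cbx c.1 lam
  lin_eq : ∀ c ∈ X₀, ∀ x, (A c).linear x = lam • (Q c).ψ x
  close : ∀ c ∈ X₀, ∀ x ∈ closedBall (P3.symm (vt (2 * s) a₀ (kk c))) s,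
    ‖A c x - P3.symm (Bk (b (kk c)) (L (kk c)) (vt (2 * s) a₀ (kk c)) (P3 x))‖ ≤ ka * s
  blkP : ∀ c ∈ X₀, BlkP κ s τ hh c1 θ θ1 Bs Nn (vt (2 * s) a₀ (kk c)) (mp P3 (Q c)) k0
  blk : ∀ c ∈ X₀, ∀ sh : E3, ∃ v : E3, ‖(Q c).ψ v‖ ≤ 1 / (20 * 2 ^ k0) ∧
    Blk F lam B (1 / 4) κt Bs M Nn c (trA (A c) (sh + v)) lam ((Q c).tr (sh + v)) k0 (hk c)

section

variable {La : Set R3} {F : Set (Bx (Fin 3))} {κ κ' κt s t τ hh c1 θ θ1 ka lam B : ℝ}
    {Bs M Nn k0 : ℕ} {a₀ : R3} {Q₀ : Finset (Fin 3 → ℤ)} {b : (Fin 3 → ℤ) → R3}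
    {L : (Fin 3 → ℤ) → R3 →L[ℝ] R3} {X₀ : Set F} {kk : F → Fin 3 → ℤ} {Q : F → CB E3 3}
    {A : F → E3 ≃ᵃ[ℝ] E3} {hk : ∀ c, (Q c).kc ≤ k0}
    (H : Fam La F κ κ' κt s t τ hh c1 θ θ1 ka lam B Bs M Nn k0 a₀ Q₀ b L X₀ kk Q A hk)

include H

/-- norms in the frame of a block -/
theorem Fam.norm_le (hκ : 0 < κ) {c : F} (hc : c ∈ X₀) {w : E3} {q : ℝ} (hq : 0 < q)
    (hw : ‖(Q c).ψ w‖ ≤ 1 / (q * 2 ^ k0)) : ‖w‖ ≤ 4 * θ / (q * κ) * s := by
  have HB := H.blkP c hc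
  have h1 := (HB.cnd (P3 w)).1
  rw [Tmap_212.mp_ψ, P3.symm_apply_apply] at h1
  have h2 := norm_le_P3 w
  have h3 : (1 : ℝ) / (q * 2 ^ k0) = 1 / q * (1 / 2 ^ k0) := by field_simp
  rw [h3] at hw
  have h4 : 1 / q * (1 / 2 ^ k0) ≤ 1 / q * (θ * s) :=
    mul_le_mul_of_nonneg_left HB.hi (by positivity)
  have h5 : κ / 4 * ‖w‖ ≤ κ / 4 * ‖P3 w‖ := mul_le_mul_of_nonneg_left h2 (by positivity)
  have h6 : κ / 4 * ‖w‖ ≤ κ / 4 * (4 * θ / (q * κ) * s) := by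
    have : κ / 4 * (4 * θ / (q * κ) * s) = 1 / q * (θ * s) := by field_simp
    linarith
  exact le_of_mul_le_mul_left h6 (by positivity)

/-- the cores at a position are in the cubes -/
theorem Fam.K_sub (hκ : 0 < κ) (hs : 0 < s) (hτ : 0 < τ) (hτ4 : τ ≤ 1 / 4) {c : F} (hc : c ∈ X₀)
    {v : E3} (hv : ‖v‖ ≤ τ / 2 * s) :
    ((Q c).tr v).N ⊆ closedBall (P3.symm (vt (2 * s) a₀ (kk c))) ((1 - τ / 2) * s) := by
  intro y hy
  have h1 : y - v ∈ (Q c).N := ((Q c).mem_N_tr v y).1 hy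
  have h2 : y - v ∈ closedBall (P3.symm (vt (2 * s) a₀ (kk c))) ((1 - τ) * s) := by
    rw [← cel_preimage _ (mul_pos (by linarith) hs)]
    exact (H.blkP c hc).sub ((Tmap_212.mem_N_mp' P3 (Q c)).2 h1)
  rw [mem_closedBall, dist_eq_norm] at h2 ⊢
  have e1 : y - P3.symm (vt (2 * s) a₀ (kk c)) = (y - v - P3.symm (vt (2 * s) a₀ (kk c))) + v := by
    abel
  rw [e1]
  refine (norm_add_le _ _).trans ?_
  linarith

/-- the linear parts -/
theorem Fam.lin_near (hκ : 0 < κ) (hs : 0 < s)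
    (hLb : ∀ k ∈ Q₀, (∀ v, κ * ‖v‖ ≤ ‖L k v‖) ∧ ‖L k‖ ≤ κ⁻¹) {c : F} (hc : c ∈ X₀) (v : E3) :
    ‖lin (A c) v - L3 (L (kk c)) v‖ ≤ 2 * ka * ‖v‖ :=
  lin_close hs hκ (hLb _ (H.kkQ c hc)).1 (H.close c hc) v

theorem Fam.nrm (hκ : 0 < κ) (hs : 0 < s) (hka : 2 * ka ≤ κ / 8)
    (hLb : ∀ k ∈ Q₀, (∀ v, κ * ‖v‖ ≤ ‖L k v‖) ∧ ‖L k‖ ≤ κ⁻¹) {c : F} (hc : c ∈ X₀) :
    ‖lin (A c)‖ ≤ 3 * κ⁻¹ :=
  (norm_lin_le hκ (hLb _ (H.kkQ c hc)).1 hka (H.lin_near hκ hs hLb hc)).trans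
    (mul_le_mul_of_nonneg_left (hLb _ (H.kkQ c hc)).2 (by norm_num))

/-- **`InS` for a brick in a surviving cube** -/
theorem Fam.insS {p : ℝ} (hp0 : 0 ≤ p) (hp3 : p ≤ 3) {Om : Set R3} (hL : IsOpen La)
    {f₂ : R3 → R3} {G₂ : Fin 3 → R3 → R3} (hf₂ : IsHomeomorphOn f₂ Om La)
    (hpos : ∀ c ∈ F, c.Pos) (hκ : 0 < κ) (hκ1 : κ ≤ 1) (hs : 0 < s) (hτ : 0 < τ) (hτ4 : τ ≤ 1 / 4)
    (hLb : ∀ k ∈ Q₀, (∀ v, κ * ‖v‖ ≤ ‖L k v‖) ∧ ‖L k‖ ≤ κ⁻¹)
    (hcel : ∀ k ∈ Q₀, cel Cb (vt (2 * s) a₀ k) s ⊆ Om) {C1 κw kb κwE κ1 : ℝ} {a : R3}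
    (ha : ‖a‖ ≤ κw * s) {c : F} (hc : c ∈ X₀)
    (hcl : ∀ x ∈ cel Cb (vt (2 * s) a₀ (kk c)) ((1 - τ) * s),
      ‖f₂ x - Bk (b (kk c)) (L (kk c)) (vt (2 * s) a₀ (kk c)) x‖ ≤ C1 * hh * s)
    {er : ℝ≥0∞} (hIn : InP p f₂ (Gmat G₂) C1 κw s (b (kk c)) (L (kk c))
      (vt (2 * s) a₀ (kk c)) er ((mp P3 (Q c)).tr a) k0 (hk c))
    (hlam : 0 ≤ lam) (hlam1 : lam ≤ 1) (hM : 0 < M) (hB : 0 ≤ B) (hκw : 0 ≤ κw)
    (hhh : C1 * hh ≤ κ * τ) (hroom : κw + θ / κ ≤ τ) (hka0 : 0 ≤ ka)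
    (hkb : ka + 3 * κ⁻¹ * (κw + θ / (5 * κ)) ≤ kb) (hkb1 : kb ≤ κ * τ / 16)
    (hκwE : 0 ≤ κwE) (hκ10 : 0 ≤ κ1) {tb : ℝ} (ht : t = tb * s) (hlam2 : 1 / 2 ≤ lam)
    (m1 : (κw + kb) * M ≤ κwE * (tb / 12)) (m2 : 2 * κw + 2 * kb ≤ κ / 4 * κwE)
    (m3 : C1 * hh + kb ≤ κ1 * (tb / 12)) {v : E3} (hv : ‖(Q c).ψ v‖ ≤ 1 / (20 * 2 ^ k0)) :
    InS p (P3 ⁻¹' Om) (e3 f₂) (D3 G₂) B κ1 (1 / 4) κwE M c.1 (trA (A c) (P3.symm a + v)) lam
      (1000 * (ENNReal.ofReal (C1 * ‖L (kk c)‖ ^ p) * volume ((Q c).N \ (Q c).Kc) + er))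
      ((Q c).tr (P3.symm a + v)) k0 (hk c) := by
  have hk0 := H.kkQ c hc
  have hM' : (0:ℝ) < M := by exact_mod_cast hM
  have hsz : tb * s / 12 ≤ lam * c.1.sz := by
    have h1 : tb * s ≤ 6 * c.1.sz := by rw [← ht]; exact H.szl c hc
    have h2 : 0 ≤ c.1.sz := (Bx.sz_pos (hpos _ c.2)).le
    nlinarith
  refine Ins_685.ins hp0 hp3 hf₂ hL hκ hκ1 (hLb _ hk0).1 (hLb _ hk0).2 hs hτ hτ4
    ?_ hcl hhh (Q c) (hk c) (H.blkP c hc) ha hv hIn hκw hroom (H.close c hc) hka0 hkb hkb1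
    (hpos _ c.2) hlam (by norm_num) hB ?_ ?_ m2 ?_
  · refine Subset.trans ?_ (hcel _ hk0)
    intro x hx
    have e1 : 0 < (1 - τ) * s := mul_pos (by linarith) hs
    have hx' : P3.symm x ∈ closedBall (P3.symm (vt (2 * s) a₀ (kk c))) ((1 - τ) * s) := by
      rw [← cel_preimage _ e1]
      change P3 (P3.symm x) ∈ cel Cb (vt (2 * s) a₀ (kk c)) ((1 - τ) * s)
      rwa [P3.apply_symm_apply]
    have hx2 : P3.symm x ∈ closedBall (P3.symm (vt (2 * s) a₀ (kk c))) s :=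
      closedBall_subset_closedBall (by nlinarith) hx'
    rw [← cel_preimage _ hs] at hx2
    have : P3 (P3.symm x) ∈ cel Cb (vt (2 * s) a₀ (kk c)) s := hx2
    rwa [P3.apply_symm_apply] at this
  · refine (cbx_mono (hpos _ c.2) ?_).trans (H.two c hc)
    linarith
  · rw [le_div_iff₀ hM']
    calc (κw + kb) * s * M = (κw + kb) * M * s := by ring
      _ ≤ κwE * (tb / 12) * s := mul_le_mul_of_nonneg_right m1 hs.le
      _ = κwE * (tb * s / 12) := by ring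
      _ ≤ κwE * (lam * c.1.sz) := mul_le_mul_of_nonneg_left hsz hκwE
  · calc (C1 * hh + kb) * s ≤ κ1 * (tb / 12) * s := mul_le_mul_of_nonneg_right m3 hs.le
      _ = κ1 * (tb * s / 12) := by ring
      _ ≤ κ1 * (lam * c.1.sz) := mul_le_mul_of_nonneg_left hsz hκ10

/-- positions: the blocks stay disjoint -/
theorem Fam.disjN (hκ : 0 < κ) {c2 : ℝ}
    (hdist : ∀ c ∈ X₀, ∀ c' ∈ X₀, c ≠ c' → ∀ x ∈ (mp P3 (Q c)).N, ∀ y ∈ (mp P3 (Q c')).N,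
      c2 * s ≤ dist x y) (hs : 0 < s) (hθ : 4 * θ / (5 * κ) < c2) {v : F → E3} {a3 : E3}
    (hv : ∀ c ∈ X₀, ‖(Q c).ψ (v c)‖ ≤ 1 / (20 * 2 ^ k0)) {c c' : F} (hc : c ∈ X₀) (hc' : c' ∈ X₀)
    (hne : c ≠ c') : Disjoint ((Q c).tr (a3 + v c)).N ((Q c').tr (a3 + v c')).N := by
  rw [Set.disjoint_left]
  intro x hx hx'
  have h1 := ((Q c).mem_N_tr _ x).1 hx
  have h2 := ((Q c').mem_N_tr _ x).1 hx'
  have h3 := hdist c hc c' hc' hne _ ((Tmap_212.mem_N_mp' P3 (Q c)).2 h1) _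
    ((Tmap_212.mem_N_mp' P3 (Q c')).2 h2)
  rw [dist_eq_norm, ← map_sub] at h3
  have e1 : x - (a3 + v c) - (x - (a3 + v c')) = v c' - v c := by abel
  rw [e1] at h3
  have h4 := H.norm_le hκ hc (by norm_num : (0:ℝ) < 20) (hv c hc)
  have h5 := H.norm_le hκ hc' (by norm_num : (0:ℝ) < 20) (hv c' hc')
  have h6 := Crest.Agent.R096.Er_594.norm_P3_le (v c' - v c)
  have h7 := norm_sub_le (v c') (v c)
  have e2 : 4 * θ / (20 * κ) * s + 4 * θ / (20 * κ) * s = 2 * θ / (5 * κ) * s := by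
    field_simp; ring
  have e3 : 2 * (2 * θ / (5 * κ) * s) = 4 * θ / (5 * κ) * s := by field_simp; ring
  have h8 : 4 * θ / (5 * κ) * s < c2 * s := mul_lt_mul_of_pos_right hθ hs
  linarith

end

end

end Crest.Agent.R096.Br_695
end

-- ▼ part R096/Br11_695
section

/-!
Row 96 (S0127), helper695.  **`BFk p` for `p ≤ 2`**: sums after `PreIN p`.
-/

set_option autoImplicit false
set_option linter.unusedSectionVars false
set_option linter.unusedVariables false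
set_option linter.style.longLine false

open MeasureTheory Set Filter Metric Module
open scoped ENNReal NNReal Topology

namespace Crest.Agent.R096.Br_695

open Crest.AnalysisR.VecCalc3 Crest.AnalysisR.Sobolev
open Crest.Agent.R96.Lu_538 Crest.Agent.R96.Intr_538
open Crest.Agent.R96.Coarse_538 hiding E3
open Crest.Agent.R096.Sk_962 (SH Gr)
open Crest.Agent.R096.Sk4_663 (Zd BFs lintegral_of_memLp)
open Crest.Agent.R096.Bsp_628
open Crest.Agent.R096.Bxs_627 hiding E3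
open Crest.Agent.R96.En10_199
open Crest.Agent.R096.SkC1_961 (E3 Hom3)
open Crest.Agent.R096.Er_594
open Crest.Agent.R096.EaX_766 (cbx lin Kor)
open Crest.Agent.R096.Brk5_582 (Cmp)
open Crest.Agent.R096.Msh_715 Crest.Agent.R096.Mal_874
open Crest.Agent.R096.Pin_753 (Bk InP BlkP)
open Crest.Agent.R096.Ea0_961 (InS Blk)
open Crest.Agent.R096.Tmap_212 (mp)
open Crest.Agent.R096.Fns_360 (trA trA_apply trA_linear trA_sub)
open Crest.Agent.R096.Ins_685 (L3 L3_apply lin_close lin_trA norm_lin_le low_lin)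
open Crest.Agent.R096.Fil_313 (cel_preimage aff3 aff3_image)

noncomputable section

section

variable {La : Set R3} {F : Set (Bx (Fin 3))} {κ κ' κt s t τ hh c1 θ θ1 ka lam B : ℝ}
    {Bs M Nn k0 : ℕ} {a₀ : R3} {Q₀ : Finset (Fin 3 → ℤ)} {b : (Fin 3 → ℤ) → R3}
    {L : (Fin 3 → ℤ) → R3 →L[ℝ] R3} {X₀ : Set F} {kk : F → Fin 3 → ℤ} {Q : F → CB E3 3}
    {A : F → E3 ≃ᵃ[ℝ] E3} {hk : ∀ c, (Q c).kc ≤ k0}
    (H : Fam La F κ κ' κt s t τ hh c1 θ θ1 ka lam B Bs M Nn k0 a₀ Q₀ b L X₀ kk Q A hk)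

theorem measurable_Kc (Q : CB E3 3) : MeasurableSet Q.Kc := by
  rw [Crest.Agent.R096.Ksh_29.Kc_eq]
  exact Q.ψ.continuous.measurable measurableSet_Icc

include H

/-- the blocks at the positions are in `Om` -/
theorem Fam.N_Om {Om : Set R3} (hκ : 0 < κ) (hs : 0 < s) (hτ : 0 < τ) (hτ4 : τ ≤ 1 / 4)
    (hcel : ∀ k ∈ Q₀, cel Cb (vt (2 * s) a₀ k) s ⊆ Om) {c : F} (hc : c ∈ X₀) {v : E3}
    (hv : ‖v‖ ≤ τ / 2 * s) : ((Q c).tr v).N ⊆ P3 ⁻¹' cel Cb (vt (2 * s) a₀ (kk c)) s := by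
  refine (H.K_sub hκ hs hτ hτ4 hc hv).trans ?_
  rw [cel_preimage _ hs]
  exact closedBall_subset_closedBall (by nlinarith)

/-- norm of a position -/
theorem Fam.pos_le (hκ : 0 < κ) {κw : ℝ} {a : R3} (ha : ‖a‖ ≤ κw * s) (hs : 0 < s)
    (hn : κw + θ / (5 * κ) ≤ τ / 2) {c : F} (hc : c ∈ X₀) {v : E3}
    (hv : ‖(Q c).ψ v‖ ≤ 1 / (20 * 2 ^ k0)) : ‖P3.symm a + v‖ ≤ τ / 2 * s := by
  have h1 := H.norm_le hκ hc (by norm_num : (0:ℝ) < 20) hv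
  have h2 := Crest.Agent.R096.Er_594.norm_P3_symm_le a
  have e : 4 * θ / (20 * κ) * s = θ / (5 * κ) * s := by field_simp; ring
  calc ‖P3.symm a + v‖ ≤ ‖P3.symm a‖ + ‖v‖ := norm_add_le _ _
    _ ≤ κw * s + θ / (5 * κ) * s := add_le_add (h2.trans ha) (by rw [← e]; exact h1)
    _ = (κw + θ / (5 * κ)) * s := by ring
    _ ≤ τ / 2 * s := mul_le_mul_of_nonneg_right hn hs.le

/-- volumes of the cores at the positions -/
theorem Fam.sum_vol {Om : Set R3} (hFc : Countable F) (hκ : 0 < κ) (hs : 0 < s) (hτ : 0 < τ)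
    (hτ4 : τ ≤ 1 / 4) (hcel : ∀ k ∈ Q₀, cel Cb (vt (2 * s) a₀ k) s ⊆ Om) {c2 : ℝ}
    (hdist : ∀ c ∈ X₀, ∀ c' ∈ X₀, c ≠ c' → ∀ x ∈ (mp P3 (Q c)).N, ∀ y ∈ (mp P3 (Q c')).N,
      c2 * s ≤ dist x y) (hθ : 4 * θ / (5 * κ) < c2) {v : F → E3} {κw : ℝ} {a : R3}
    (ha : ‖a‖ ≤ κw * s) (hn : κw + θ / (5 * κ) ≤ τ / 2)
    (hv : ∀ c ∈ X₀, ‖(Q c).ψ (v c)‖ ≤ 1 / (20 * 2 ^ k0)) {X : Set F} (hX : X ⊆ X₀) :
    ∑' c : X, volume ((Q c).tr (P3.symm a + v c)).Kc ≤ volume Om := by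
  rw [← vol_P3, ← measure_iUnion]
  · refine measure_mono (iUnion_subset fun c => ?_)
    refine (Msb_432.Kc_sub_N _).trans ((H.N_Om hκ hs hτ hτ4 hcel (hX c.2)
      (H.pos_le hκ ha hs hn (hX c.2) (hv _ (hX c.2)))).trans ?_)
    exact preimage_mono (hcel _ (H.kkQ _ (hX c.2)))
  · intro c c' hne
    have h1 := H.disjN hκ hdist hs hθ (a3 := P3.symm a) hv (hX c.2) (hX c'.2)
      (fun h => hne (Subtype.ext h))
    exact h1.mono (Msb_432.Kc_sub_N _) (Msb_432.Kc_sub_N _)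
  · exact fun c => measurable_Kc _

/-- **energy near the affine maps** -/
theorem Fam.near {p : ℝ} (hp : 1 ≤ p) {G : Fin 3 → R3 → R3} {Om : Set R3} (hFc : Countable F)
    (hκ : 0 < κ) (hs : 0 < s) (hτ : 0 < τ)
    (hτ4 : τ ≤ 1 / 4) (hLb : ∀ k ∈ Q₀, (∀ v, κ * ‖v‖ ≤ ‖L k v‖) ∧ ‖L k‖ ≤ κ⁻¹)
    (hcel : ∀ k ∈ Q₀, cel Cb (vt (2 * s) a₀ k) s ⊆ Om) {c2 : ℝ}
    (hdist : ∀ c ∈ X₀, ∀ c' ∈ X₀, c ≠ c' → ∀ x ∈ (mp P3 (Q c)).N, ∀ y ∈ (mp P3 (Q c')).N,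
      c2 * s ≤ dist x y) (hθ : 4 * θ / (5 * κ) < c2) {v : F → E3} {κw : ℝ} {a : R3}
    (ha : ‖a‖ ≤ κw * s) (hn : κw + θ / (5 * κ) ≤ τ / 2)
    (hv : ∀ c ∈ X₀, ‖(Q c).ψ (v c)‖ ≤ 1 / (20 * 2 ^ k0)) {X : Set F} (hX : X ⊆ X₀)
    {e1 V : ℝ} (he1 : 0 ≤ e1) (hV0 : 0 ≤ V) (hV : volume Om ≤ ENNReal.ofReal V) (hka0 : 0 ≤ ka)
    (hen : (∑ k ∈ Q₀, ∫⁻ x in cel Cb (vt (2 * s) a₀ k) s, ‖Gmat G x - L k‖ₑ ^ p) ≤
      ENNReal.ofReal e1) :
    ∑' c : X, ∫⁻ x in ((Q c).tr (P3.symm a + v c)).Kc,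
      ‖D3 G x - lin (trA (A c) (P3.symm a + v c))‖ₑ ^ p ≤
      ENNReal.ofReal (2 ^ (p - 1) * (2 ^ p * e1 + (2 * ka) ^ p * V)) := by
  refine Ers_685.near_sum (ι := X) (κ := Fin 3 → ℤ) hp
    (K := fun c => ((Q c).tr (P3.symm a + v c)).Kc) (B := fun k => cel Cb (vt (2 * s) a₀ k) s)
    (fun c => measurable_Kc _) ?_
    (fun k => (Crest.Agent.R096.Fil_313.isClosed_cel _ _).measurableSet)
    (fun c => kk c) Q₀ (fun c => H.kkQ _ (hX c.2)) ?_ (L := L)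
    (l := fun c => lin (trA (A c) (P3.symm a + v c))) (by positivity) hV0 he1 ?_ hen ?_
  · intro c c' hne
    have h1 := H.disjN hκ hdist hs hθ (a3 := P3.symm a) hv (hX c.2) (hX c'.2)
      (fun h => hne (Subtype.ext h))
    exact h1.mono (Msb_432.Kc_sub_N _) (Msb_432.Kc_sub_N _)
  · intro c
    exact (Msb_432.Kc_sub_N _).trans (H.N_Om hκ hs hτ hτ4 hcel (hX c.2)
      (H.pos_le hκ ha hs hn (hX c.2) (hv _ (hX c.2))))
  · intro c w
    rw [lin_trA]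
    exact H.lin_near hκ hs hLb (hX c.2) w
  · exact (H.sum_vol hFc hκ hs hτ hτ4 hcel hdist hθ ha hn hv hX).trans hV

/-- **the cores at `a` and at the positions**: energy of the difference -/
theorem Fam.swap {p : ℝ} {G : Fin 3 → R3 → R3} {Om : Set R3} (hFc : Countable F)
    (hκ : 0 < κ) (hs : 0 < s) (hτ : 0 < τ) (hc1 : 0 < c1)
    (hτ4 : τ ≤ 1 / 4) (hcel : ∀ k ∈ Q₀, cel Cb (vt (2 * s) a₀ k) s ⊆ Om) {c2 : ℝ}
    (hdist : ∀ c ∈ X₀, ∀ c' ∈ X₀, c ≠ c' → ∀ x ∈ (mp P3 (Q c)).N, ∀ y ∈ (mp P3 (Q c')).N,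
      c2 * s ≤ dist x y) (hθ : 4 * θ / (5 * κ) < c2) {v : F → E3} {κw : ℝ} {a : R3}
    (ha : ‖a‖ ≤ κw * s) (hn : κw + θ / (5 * κ) ≤ τ / 2)
    (hv : ∀ c ∈ X₀, ‖(Q c).ψ (v c)‖ ≤ 1 / (20 * 2 ^ k0)) {X : Set F} (hX : X ⊆ X₀)
    {r V eac : ℝ} (hV0 : 0 ≤ V) (hV : volume Om ≤ ENNReal.ofReal V) (hr : θ * V ≤ c1 * r)
    (hac : ∀ T ⊆ Om, volume T ≤ ENNReal.ofReal r →
      ∫⁻ x in T, (1 + En p G x) ≤ ENNReal.ofReal eac) :
    ∫⁻ x in Om \ ⋃ c : X, ((mp P3 (Q c)).tr a).Kc, (1 + En p G x) ≤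
      (∫⁻ x in Om \ ⋃ c : X, P3.symm ⁻¹' ((Q c).tr (P3.symm a + v c)).Kc, (1 + En p G x)) +
        ENNReal.ofReal eac := by
  refine (Ers_685.core_swap (Kb := fun c : X => P3.symm ⁻¹' ((Q c).tr (P3.symm a + v c)).Kc)
    (fun x => 1 + En p G x)).trans (add_le_add le_rfl ?_)
  refine hac _ (iUnion_subset fun c => inter_subset_right) ?_
  have hb : ∀ c : X, P3.symm ⁻¹' ((Q c).tr (P3.symm a + v c)).Kc =
      ((mp P3 (Q c)).tr (a + P3 (v c))).Kc := by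
    intro c
    ext y
    rw [mem_preimage, CB.mem_Kc_tr, CB.mem_Kc_tr, Tmap_212.mem_Kc_mp]
    have : P3.symm y - (P3.symm a + v c) = P3.symm (y - (a + P3 (v c))) := by
      rw [map_sub P3.symm, map_add P3.symm, P3.symm_apply_apply]
    rw [this]
  have h1 : ∀ c : X, volume ((P3.symm ⁻¹' ((Q c).tr (P3.symm a + v c)).Kc \
      ((mp P3 (Q c)).tr a).Kc) ∩ Om) ≤
      ENNReal.ofReal (θ / c1) * volume ((Q c).tr (P3.symm a + v c)).Kc := by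
    intro c
    have HB := H.blkP c (hX c.2)
    have hp0 : (0:ℝ) < 2 ^ k0 := by positivity
    have hθ0 : 0 < θ := by
      by_contra hcon
      have h3 : θ * s ≤ 0 := mul_nonpos_of_nonpos_of_nonneg (not_lt.1 hcon) hs.le
      have h4 : (0 : ℝ) < 1 / 2 ^ k0 := by positivity
      linarith [HB.hi]
    have e1 : (mp P3 (Q c)).ψ (a + P3 (v c) - a) = (Q c).ψ (v c) := by
      rw [Tmap_212.mp_ψ, add_sub_cancel_left, P3.symm_apply_apply]
    have h2 := Crest.Agent.R096.Ksh_29.Kc_diff (mp P3 (Q c)) (v := a + P3 (v c)) (v' := a)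
      (ρ := 1 / (20 * 2 ^ k0)) (w := c1 * s) (by rw [e1]; exact hv _ (hX c.2)) (by
        intro l
        have h3 := (mp P3 (Q c)).S.lt l
        have h4 : (1:ℝ) ≤ ((mp P3 (Q c)).S.hi l : ℝ) - (mp P3 (Q c)).S.lo l := by
          have : (mp P3 (Q c)).S.lo l + 1 ≤ (mp P3 (Q c)).S.hi l := h3
          have h5 : ((mp P3 (Q c)).S.lo l : ℝ) + 1 ≤ (mp P3 (Q c)).S.hi l := by exact_mod_cast this
          linarith
        refine HB.cellL.trans ?_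
        exact div_le_div_of_nonneg_right h4 (by positivity)) (by positivity)
    have h6 : 3 * (1 / (20 * 2 ^ k0)) / (c1 * s) ≤ θ / c1 := by
      rw [div_le_div_iff₀ (by positivity) hc1]
      have h7 : 3 * (1 / (20 * (2:ℝ) ^ k0)) = 3 / 20 * (1 / 2 ^ k0) := by field_simp
      rw [h7]
      have h8 := HB.hi
      have h9 : (0:ℝ) < 1 / 2 ^ k0 := by positivity
      have h10 : 3 / 20 * (1 / 2 ^ k0) * c1 ≤ 1 * (θ * s) * c1 := by
        refine mul_le_mul_of_nonneg_right ?_ hc1.le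
        linarith
      linarith
    have h11 : volume ((mp P3 (Q c)).tr (a + P3 (v c))).Kc =
        volume ((Q c).tr (P3.symm a + v c)).Kc := by
      rw [← hb, ← vol_P3]
      congr 1
    calc _ ≤ volume (P3.symm ⁻¹' ((Q c).tr (P3.symm a + v c)).Kc \ ((mp P3 (Q c)).tr a).Kc) :=
          measure_mono inter_subset_left
      _ ≤ _ := by
          rw [hb c]
          refine h2.trans ?_
          rw [h11]
          exact mul_le_mul' (ENNReal.ofReal_le_ofReal h6) le_rfl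
  calc volume (⋃ c : X, (P3.symm ⁻¹' ((Q c).tr (P3.symm a + v c)).Kc \
      ((mp P3 (Q c)).tr a).Kc) ∩ Om)
      ≤ ∑' c : X, volume ((P3.symm ⁻¹' ((Q c).tr (P3.symm a + v c)).Kc \
      ((mp P3 (Q c)).tr a).Kc) ∩ Om) := measure_iUnion_le _
    _ ≤ ∑' c : X, ENNReal.ofReal (θ / c1) * volume ((Q c).tr (P3.symm a + v c)).Kc :=
        ENNReal.tsum_le_tsum h1
    _ = ENNReal.ofReal (θ / c1) * ∑' c : X, volume ((Q c).tr (P3.symm a + v c)).Kc :=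
        ENNReal.tsum_mul_left
    _ ≤ ENNReal.ofReal (θ / c1) * ENNReal.ofReal V := by
        gcongr
        exact (H.sum_vol hFc hκ hs hτ hτ4 hcel hdist hθ ha hn hv hX).trans hV
    _ = ENNReal.ofReal (θ / c1 * V) := by
        rw [← ENNReal.ofReal_mul' hV0]
    _ ≤ ENNReal.ofReal r := by
        apply ENNReal.ofReal_le_ofReal
        rw [div_mul_eq_mul_div, div_le_iff₀ hc1]
        linarith

end

end

end Crest.Agent.R096.Br_695
end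

-- ▼ part R096/Fil4_313
section

set_option autoImplicit false
set_option linter.unusedSectionVars false
set_option linter.style.longLine false
set_option maxSynthPendingDepth 3

open MeasureTheory Set Filter Metric
open scoped ENNReal NNReal Topology

namespace Crest.Agent.R096.Fil_313

open Crest.AnalysisR.VecCalc3 Crest.AnalysisR.Sobolev
open Crest.Agent.R096.Bsp_628 Crest.Agent.R96.En10_199
open Crest.Agent.R96.Intr_538 Crest.Agent.R96.Coarse_538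
open Crest.Agent.R096.Bxs_627 (Cori m3 ctr zz)

noncomputable section

/-- finitely many good cubes (centres `vt (2 s) a k`), real affine maps `b k + L k (x - z)`, near maps
`b' k + L' k (x - z)` -/
structure GD (Om : Set R3) (f : R3 → R3) (κ η σ s ρ κ' : ℝ) (a : R3) (Q : Finset (Fin 3 → ℤ))
    (b : (Fin 3 → ℤ) → R3) (L : (Fin 3 → ℤ) → R3 →L[ℝ] R3) (b' : (Fin 3 → ℤ) → R3)
    (L' : (Fin 3 → ℤ) → R3 →L[ℝ] R3) : Prop where
  nr : ∀ k ∈ Q, Nr Om f κ η σ s (vt (2 * s) a k) (b k) (L k)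
  nr2 : ∀ k ∈ Q, Nr2 κ σ s ρ (vt (2 * s) a k) (b k) (L k) (b' k) (L' k) κ'
  full : ∀ k ∈ Q, cel Cb (vt (2 * s) a k) s ⊆ Om

/-- the parallelepiped of the cube `k`, in `E3` -/
def PP (σ s : ℝ) (b : (Fin 3 → ℤ) → R3) (L : (Fin 3 → ℤ) → R3 →L[ℝ] R3) (k : Fin 3 → ℤ) : Set E3 :=
  P3 ⁻¹' par Cb (L k) (b k) ((1 - 2 * σ) * s)

/-- the exact bricks -/
def XX (F : Set (Bx (Fin 3))) (σ s : ℝ) (Q : Finset (Fin 3 → ℤ)) (b : (Fin 3 → ℤ) → R3)
    (L : (Fin 3 → ℤ) → R3 →L[ℝ] R3) : Set (Bx (Fin 3)) :=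
  {C | C ∈ F ∧ ∃ k ∈ Q, C.set ⊆ PP σ s b L k}

open Classical in
/-- the index of the cube of an exact brick -/
def kk (σ s : ℝ) (Q : Finset (Fin 3 → ℤ)) (b : (Fin 3 → ℤ) → R3)
    (L : (Fin 3 → ℤ) → R3 →L[ℝ] R3) (C : Bx (Fin 3)) : Fin 3 → ℤ :=
  if h : ∃ k ∈ Q, C.set ⊆ PP σ s b L k then h.choose else 0

/-- the exact core of the brick `C` -/
def KK (σ s : ℝ) (a : R3) (Q : Finset (Fin 3 → ℤ)) (b : (Fin 3 → ℤ) → R3)
    (L : (Fin 3 → ℤ) → R3 →L[ℝ] R3) (b' : (Fin 3 → ℤ) → R3) (L' : (Fin 3 → ℤ) → R3 →L[ℝ] R3)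
    (lam : ℝ) (C : Bx (Fin 3)) : Set R3 :=
  {x : R3 | P3.symm (b' (kk σ s Q b L C) + L' (kk σ s Q b L C) (x - vt (2 * s) a (kk σ s Q b L C))) ∈
    bxc C lam (zz C lam)}

theorem mem_bxc_zz {C : Bx (Fin 3)} {lam : ℝ} {y : E3} :
    y ∈ bxc C lam (zz C lam) ↔ ∀ k, |y k - ctr C k| ≤ lam * C.side k / 2 := by
  unfold bxc
  simp only [mem_ofPred_eq, Bxs_627.zz_lo, Bxs_627.zz_hi]
  constructor
  · intro h k
    rw [abs_le]
    have := h k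
    constructor <;> linarith [this.1, this.2]
  · intro h k
    have := abs_le.1 (h k)
    constructor <;> linarith [this.1, this.2]

theorem bxc_sub {C : Bx (Fin 3)} (hC : C.Pos) {lam : ℝ} (hl1 : lam ≤ 1) :
    bxc C lam (zz C lam) ⊆ C.set := by
  intro y hy
  rw [mem_bxc_zz] at hy
  rw [Bx.mem_set]
  intro k
  have h4 := abs_le.1 (hy k)
  have h5 := Bxs_627.ctr_lo C k
  have h6 := Bxs_627.ctr_hi C k
  have h7 := Bx.side_pos hC k
  constructor <;> nlinarith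


section

variable {Om La : Set R3} {f : R3 → R3} {κ η σ s ρ κ' : ℝ} {a : R3} {Q : Finset (Fin 3 → ℤ)}
  {b : (Fin 3 → ℤ) → R3} {L : (Fin 3 → ℤ) → R3 →L[ℝ] R3} {b' : (Fin 3 → ℤ) → R3}
  {L' : (Fin 3 → ℤ) → R3 →L[ℝ] R3} {F : Set (Bx (Fin 3))}














end

end

end Crest.Agent.R096.Fil_313
end

-- ▼ part R096/Blk3_212
section

/-!
Row 96 (S0127), helper212.  **[FAM]**: the blocks of R3 for all bricks of a dyadic foam which lie in the good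
parallelepipeds (695 #11696).
-/

set_option autoImplicit false
set_option linter.unusedSectionVars false
set_option linter.style.longLine false

open Set Filter Metric Topology MeasureTheory
open scoped ENNReal NNReal

namespace Crest.Agent.R096.Blk_212

open Crest.AnalysisR.VecCalc3
open Crest.Agent.R096.Bsp_628 Crest.Agent.R096.Brk1_582 Crest.Agent.R096.Brk2_582
open Crest.Agent.R096.Brk3_582 Crest.Agent.R096.Brk5_582 Crest.Agent.R096.Grd_714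
open Crest.Agent.R096.Fni_447 Crest.Agent.R096.Fbr_628
open Crest.Agent.R096.Mal_874 Crest.Agent.R096.Msh_810 Crest.Agent.R096.Msh_715
open Crest.Agent.R096.Mcc_715
open Crest.Agent.R096.SkC1_961 (E3 th)
open Crest.Agent.R096.EaX_766 (cbx lin)
open Crest.Agent.R096.Bxs_627 (ctr zz)
open Crest.Agent.R096.Ea0_961 (Blk cb0)
open Crest.Agent.R096.Br_695 (lin_apply cbx_mono cbx_two_sub)
open Crest.Agent.R96.Intr_538 (cel par isCompact_par)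
open Crest.Agent.R96.Coarse_538 (vt Cb)
open Crest.Agent.R96.En10_199 (P3)
open Crest.Agent.R096.Tmap_212 (mp mp_ψ rt_P3 mem_N_mp mem_N_mp')
open Crest.Agent.R096.Pin_753 (Bk BlkP)
open Crest.Agent.R096.Ins_685 (L3 L3_apply low_L3 norm_L3 low_lin lin_close Bk3 lin_eq_linear norm_lin_le)
open Crest.Agent.R096.Fil_313 (aff3 aff3_apply aff3_image cel_preimage foam_fin aff3_symm_lip)
open Crest.Agent.R096.Fns_360 (trA trA_apply trA_linear trA_sub)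

noncomputable section

theorem par_mono {κ : ℝ} {L : R3 →L[ℝ] R3} (hκ : 0 < κ) (low : ∀ v, κ * ‖v‖ ≤ ‖L v‖) (b : R3)
    {r r' : ℝ} (hr : 0 < r) (h : r ≤ r') : P3 ⁻¹' par Cb L b r ⊆ P3 ⁻¹' par Cb L b r' := by
  rw [← aff3_image L hκ low 0 b hr, ← aff3_image L hκ low 0 b (hr.trans_le h)]
  exact image_mono (closedBall_subset_closedBall h)

/-- a block of a brick in the good cube `(z, s)`: the conclusion of `ShD.block` -/
structure BlkC (F : Set (Bx (Fin 3))) (κ s τ hh c1 θ θ1 kl lam κ' κ2 κt Cc : ℝ) (Bs M Nn : ℕ) (z b : R3)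
    (L : R3 →L[ℝ] R3) (c : F) (Q : CB E3 3) (A : E3 ≃ᵃ[ℝ] E3) (k0 : ℕ) (hk : Q.kc ≤ k0) : Prop where
  sub : Q.N ⊆ A ⁻¹' cbx c.1 ((1 + 2 * κ') * lam)
  core : Q.Kc = A ⁻¹' cbx c.1 lam
  lin_eq : ∀ x, A.linear x = lam • Q.ψ x
  near : ∀ x ∈ closedBall (P3.symm z) s, ‖A x - P3.symm (Bk b L z (P3 x))‖ ≤ (kl + θ) * s
  blkP : BlkP κ s τ hh c1 θ θ1 Bs Nn z (mp P3 Q) k0
  tr : ∀ sh : E3, ∃ v : E3, ‖Q.ψ v‖ ≤ 1 / (20 * 2 ^ k0) ∧
    Blk F lam Cc κ2 κt Bs M Nn c (trA A (sh + v)) lam (Q.tr (sh + v)) k0 hk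

/-- **[FAM]** -/
theorem exists_fam {La : Set R3} {F : Set (Bx (Fin 3))} {δ Md : ℝ}
    (BF : BoxFoam (P3 ⁻¹' La) F δ 3) (hLa : IsOpen La) (hcmp : Cmp F 6) (hMd : 0 < Md)
    (hdy : ∀ C ∈ F, Dy 0 1 Md C) {Bs : ℕ} (hB1 : 1 ≤ Bs) (hB2 : 4 * (12 * Md) ^ 2 ≤ Bs)
    (hB3 : 8 * (12 * Md) ≤ Bs) (μ : ℕ)
    {κ s τ t hh c1 c2 θ θ1 kl lam κ' κ2 κt Cc : ℝ} {Nn : ℕ} {a₀ : R3}
    {Q₀ : Finset (Fin 3 → ℤ)} {b : (Fin 3 → ℤ) → R3} {L : (Fin 3 → ℤ) → R3 →L[ℝ] R3}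
    (hκ : 0 < κ) (hκ1 : κ ≤ 1) (hL : ∀ k ∈ Q₀, (∀ v, κ * ‖v‖ ≤ ‖L k v‖) ∧ ‖L k‖ ≤ κ⁻¹)
    (hLa' : ∀ k ∈ Q₀, par Cb (L k) (b k) s ⊆ La)
    (hpar : ∀ k ∈ Q₀, ∀ l ∈ Q₀, k ≠ l →
      Disjoint (par Cb (L k) (b k) ((1 - τ) * s)) (par Cb (L l) (b l) s))
    (hs : 0 < s) (hτ : 0 < τ) (hτ8 : τ ≤ 1 / 8)
    (hsz : ∀ C ∈ F, C.sz ≤ t)
    (hsz' : ∀ k ∈ Q₀, ∀ C ∈ F, ∀ x ∈ C.set, x ∈ P3 ⁻¹' par Cb (L k) (b k) s → t ≤ 6 * C.sz)
    (ht4 : t ≤ 1 / 4) (htτ : 2 * κ⁻¹ * t ≤ τ * s)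
    (hlam : 1 / 2 ≤ lam) (hlam1 : lam < 1) (hκM : 11 ≤ 2 * κ' * 2 ^ μ) (hκ' : 0 ≤ κ')
    (hκ2 : 2 * κ' ≤ κ2) (hκl : (1 + 2 * κ') * lam ≤ (1 + lam) / 2) (hC1 : 1 ≤ Cc)
    (hCB : 12 * Md ≤ Cc) (hkl0 : 0 ≤ kl) (hkl : kl + θ ≤ κ * τ / 16)
    (hnet : ∀ L : R3 →L[ℝ] R3, (∀ v, κ * ‖v‖ ≤ ‖L v‖) → ‖L‖ ≤ κ⁻¹ →
      ∀ u : ℝ, 1 / 2 ≤ u → u ≤ 1 →
      ∃ (ψ : E3 ≃L[ℝ] (Fin 3 → ℝ)), (∃ (d : ℕ) (Bm : Fin 3 → Fin 3 → ℤ), 0 < d ∧ d ≤ Nn ∧
        (∀ i j, |Bm i j| ≤ Nn) ∧ Rt (ContinuousLinearEquiv.refl ℝ E3) ψ Bm d) ∧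
        ∀ v, ‖u • ψ v - L3 L v‖ ≤ kl * ‖v‖)
    (cL : c1 * s * (12 * Md * 2 ^ μ) ≤ t / 6) (cU : t ≤ hh * s * (2 * 2 ^ μ))
    {k0 : ℕ} (h3k : 3 ≤ k0) (lo : θ1 * s ≤ 1 / 2 ^ k0) (hi : 1 / 2 ^ k0 ≤ θ * s) (hθc : θ ≤ c1)
    (hθt : θ ≤ κt * c1 * (12 * Md)) (hρ : (kl + θ) * s ≤ (1 - lam) * t / 144)
    (hc2 : c2 ≤ 2 * τ) (hc2' : c2 * s ≤ (1 - lam) * κ * t / 216) :
    ∃ (X₀ : Set F) (kk : F → Fin 3 → ℤ) (Q : F → CB E3 3) (A : F → E3 ≃ᵃ[ℝ] E3)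
      (hk : ∀ c, (Q c).kc ≤ k0), X₀.Finite ∧
      (∀ c ∈ X₀, kk c ∈ Q₀ ∧
        c.1.set ⊆ P3 ⁻¹' par Cb (L (kk c)) (b (kk c)) ((1 - 4 * τ) * s) ∧
        cbx c.1 2 ⊆ P3 ⁻¹' par Cb (L (kk c)) (b (kk c)) ((1 - 3 * τ) * s)) ∧
      (∀ k ∈ Q₀, ∀ c : F, c.1.set ⊆ P3 ⁻¹' par Cb (L k) (b k) ((1 - 4 * τ) * s) →
        c ∈ X₀ ∧ kk c = k) ∧
      (∀ c ∈ X₀, t ≤ 6 * c.1.sz ∧ c.1.sz ≤ t) ∧
      (∀ c ∈ X₀, BlkC F κ s τ hh c1 θ θ1 kl lam κ' κ2 κt Cc Bs (2 ^ μ) Nn (vt (2 * s) a₀ (kk c))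
        (b (kk c)) (L (kk c)) c (Q c) (A c) k0 (hk c)) ∧
      ∀ c ∈ X₀, ∀ c' ∈ X₀, c ≠ c' → ∀ x ∈ (mp P3 (Q c)).N, ∀ y ∈ (mp P3 (Q c')).N,
        c2 * s ≤ dist x y := by
  classical
  have r4 : 0 < (1 - 4 * τ) * s := mul_pos (by linarith) hs
  have r1 : 0 < (1 - τ) * s := mul_pos (by linarith) hs
  set X₀ : Set F := {c | ∃ k ∈ Q₀, c.1.set ⊆ P3 ⁻¹' par Cb (L k) (b k) ((1 - 4 * τ) * s)} with hX
  set kk : F → Fin 3 → ℤ := fun c =>
    if h : ∃ k ∈ Q₀, c.1.set ⊆ P3 ⁻¹' par Cb (L k) (b k) ((1 - 4 * τ) * s) then h.choose else 0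
    with hkk
  have hkks : ∀ c ∈ X₀, kk c ∈ Q₀ ∧
      c.1.set ⊆ P3 ⁻¹' par Cb (L (kk c)) (b (kk c)) ((1 - 4 * τ) * s) := by
    intro c hc
    have e : kk c = (show ∃ k ∈ Q₀, c.1.set ⊆ P3 ⁻¹' par Cb (L k) (b k) ((1 - 4 * τ) * s) from
      hc).choose := dif_pos hc
    rw [e]
    exact (show ∃ k ∈ Q₀, c.1.set ⊆ P3 ⁻¹' par Cb (L k) (b k) ((1 - 4 * τ) * s) from hc).choose_spec
  have hpos : ∀ c : F, c.1.Pos := fun c => BF.pos _ c.2
  have hlo : ∀ c : F, c.1.lo ∈ c.1.set := fun c => Bx.mem_set.2 fun i => ⟨le_rfl, (hpos c i).le⟩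
  have hkku : ∀ k ∈ Q₀, ∀ c : F, c.1.set ⊆ P3 ⁻¹' par Cb (L k) (b k) ((1 - 4 * τ) * s) →
      c ∈ X₀ ∧ kk c = k := by
    intro k hk c hc
    have hcX : c ∈ X₀ := ⟨k, hk, hc⟩
    refine ⟨hcX, ?_⟩
    by_contra hne
    obtain ⟨h1, h2⟩ := hkks c hcX
    have h3 := par_mono hκ (hL _ h1).1 (b (kk c)) r4 (by nlinarith : (1 - 4 * τ) * s ≤ (1 - τ) * s)
      (h2 (hlo c))
    have h4 := par_mono hκ (hL _ hk).1 (b k) r4 (by nlinarith : (1 - 4 * τ) * s ≤ s)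
      (hc (hlo c))
    exact Set.disjoint_left.1 (hpar _ h1 _ hk hne) h3 h4
  have hfin : X₀.Finite := by
    have hK : IsCompact (⋃ k ∈ Q₀, P3 ⁻¹' par Cb (L k) (b k) s) := by
      refine Q₀.isCompact_biUnion fun k _ => ?_
      rw [← ContinuousLinearEquiv.image_symm_eq_preimage]
      exact (isCompact_par Crest.Agent.R96.Coarse_538.ref_Cb.cpt _ _ _).image P3.symm.continuous
    have h1 := foam_fin BF hK (iUnion₂_subset fun k hk => preimage_mono (hLa' k hk))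
    refine Set.Finite.of_finite_image (f := Subtype.val) (h1.subset ?_) Subtype.val_injective.injOn
    rintro _ ⟨c, ⟨k, hk, hc⟩, rfl⟩
    exact ⟨c.2, c.1.lo, hlo c, mem_biUnion hk (par_mono hκ (hL _ hk).1 (b k) r4
      (by nlinarith : (1 - 4 * τ) * s ≤ s) (hc (hlo c)))⟩
  have hsize : ∀ c ∈ X₀, t ≤ 6 * c.1.sz ∧ c.1.sz ≤ t := by
    intro c hc
    obtain ⟨h1, h2⟩ := hkks c hc
    exact ⟨hsz' _ h1 _ c.2 _ (hlo c) (par_mono hκ (hL _ h1).1 _ r4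
      (by nlinarith : (1 - 4 * τ) * s ≤ s) (h2 (hlo c))), hsz _ c.2⟩
  have hbox : ∀ c ∈ X₀, cbx c.1 2 ⊆ P3 ⁻¹' par Cb (L (kk c)) (b (kk c)) ((1 - 3 * τ) * s) := by
    intro c hc
    obtain ⟨h1, h2⟩ := hkks c hc
    have low := (hL _ h1).1
    have r3 : 0 < (1 - 3 * τ) * s := mul_pos (by linarith) hs
    rw [← aff3_image _ hκ low (vt (2 * s) a₀ (kk c)) _ r3]
    rw [← aff3_image _ hκ low (vt (2 * s) a₀ (kk c)) _ r4] at h2
    exact cbx_two_sub (hpos c) h2 (hsz _ c.2) (by positivity)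
      (aff3_symm_lip _ hκ low _ _) (by linarith)
  -- the blocks
  have hblk : ∀ c : F, ∃ (Q : CB E3 3) (A : E3 ≃ᵃ[ℝ] E3) (hk : Q.kc ≤ k0), c ∈ X₀ →
      BlkC F κ s τ hh c1 θ θ1 kl lam κ' κ2 κt Cc Bs (2 ^ μ) Nn (vt (2 * s) a₀ (kk c))
        (b (kk c)) (L (kk c)) c Q A k0 hk := by
    intro c
    by_cases hc : c ∈ X₀
    · obtain ⟨h1, h2⟩ := hkks c hc
      obtain ⟨ht6, htc⟩ := hsize c hc
      have e12 : (2 : ℝ) * 6 * Md = 12 * Md := by ring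
      obtain ⟨S, kc, hS⟩ := exists_shD BF (P3.continuous.isOpen_preimage _ hLa)
        (by norm_num : (1:ℝ) ≤ 6) hcmp one_pos hMd hdy hB1
        (by rw [e12]; exact hB2) (by rw [e12]; exact hB3) μ c (htc.trans ht4)
      rw [e12] at hS
      have hM0 : 0 < 2 ^ μ := by positivity
      obtain ⟨Q, A, hk, g1, g2, g3, g4, g5, g6⟩ := hS.block (z := vt (2 * s) a₀ (kk c))
        (b := b (kk c)) (κ' := κ') (κ2 := κ2) (Cc := Cc) (θ1 := θ1) (κt := κt) (Nn := Nn) (c1 := c1)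
        (hh := hh) (kl := kl)
        hκ hκ1 (hL _ h1).1 (hL _ h1).2 hs hτ (by linarith) (by linarith : 0 < lam)
        one_pos (by linarith) (by linarith) hM0 (by exact_mod_cast hκM) hκ' hκ2 hκl (by positivity)
        hC1 hCB (fun l => (Bx.side_pos (hpos c) l).le) hkl0 hkl
        (hnet _ (hL _ h1).1 (hL _ h1).2 _ (by linarith) (by linarith))
        ((cbx_mono (hpos c) (by linarith : (1 + 2 * κ') * lam ≤ 2)).trans (hbox c hc))
        (by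
          push_cast
          have : c1 * s * (12 * Md * 2 ^ μ * 1) = c1 * s * (12 * Md * 2 ^ μ) := by ring
          linarith)
        (by
          push_cast
          have : hh * s * (2 * 2 ^ μ * 1) = hh * s * (2 * 2 ^ μ) := by ring
          linarith)
        lo hi hθc hθt
      simp only [mul_one] at g3 g6
      exact ⟨Q, A, hk, fun _ => ⟨g1, g2, g3, g4, g5, g6⟩⟩
    · exact ⟨cb0, AffineEquiv.refl ℝ E3, h3k, fun h => absurd h hc⟩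
  choose Q A hk hB using hblk
  refine ⟨X₀, kk, Q, A, hk, hfin, fun c hc => ⟨(hkks c hc).1, (hkks c hc).2, hbox c hc⟩, hkku,
    hsize, hB, ?_⟩
  have hN1 : ∀ c ∈ X₀, ∀ x ∈ (Q c).N, x ∈ closedBall (P3.symm (vt (2 * s) a₀ (kk c))) s := by
    intro c hc x hx
    have h1 := (hB c hc).blkP.sub ((mem_N_mp' P3 (Q c)).2 hx)
    have h2 : x ∈ P3 ⁻¹' cel Cb (vt (2 * s) a₀ (kk c)) ((1 - τ) * s) := h1
    rw [cel_preimage _ r1] at h2
    exact closedBall_subset_closedBall (by nlinarith) h2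
  intro c hc c' hc' hne
  have key := Dst_812.dist_all (BF := BF) (J := X₀) (kk := fun j => kk j.1) (cc := fun j => j.1)
    Subtype.val_injective (Q := fun j => Q j.1) (A := fun j => A j.1) (lam := lam) (t := t) (B := 18)
    (N := 3 * κ⁻¹) (ρ := 2 * ((kl + θ) * s)) (s := s) (τ := τ) (c2 := c2) (a₀ := a₀) hlam1.le
    (by norm_num) (by positivity) hs (by linarith) ?_ ?_ ?_ ?_ ?_ ?_ ?_ ?_
  · exact key ⟨c, hc⟩ ⟨c', hc'⟩ fun h => hne (congrArg Subtype.val h)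
  · intro j k
    have h1 := (hsize j.1 j.2).1
    have h2 := BF.asp _ j.1.2 k
    linarith
  · linarith
  · intro j x y
    obtain ⟨h1, -⟩ := hkks j.1 j.2
    have h2 := lin_close hs hκ (hL _ h1).1 (hB _ j.2).near
    have h3 : ‖lin (A j.1)‖ ≤ 3 * ‖L (kk j.1)‖ := norm_lin_le hκ (hL _ h1).1 (by
      have : κ * τ ≤ κ * 1 := mul_le_mul_of_nonneg_left (by linarith) hκ.le
      linarith) h2
    rw [← lin_apply]
    refine ((lin (A j.1)).le_opNorm _).trans (mul_le_mul_of_nonneg_right ?_ (norm_nonneg _))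
    exact h3.trans (mul_le_mul_of_nonneg_left (hL _ h1).2 (by norm_num))
  · intro i j hij y hy
    have hy' := hN1 j.1 j.2 y hy
    have h1 := (hB _ j.2).near y hy'
    have h2 := (hB _ i.2).near y (by
      have : kk i.1 = kk j.1 := hij
      rw [this]; exact hy')
    have e : kk i.1 = kk j.1 := hij
    rw [e] at h2
    have e1 : A i.1 y - A j.1 y =
        (A i.1 y - P3.symm (Bk (b (kk j.1)) (L (kk j.1)) (vt (2 * s) a₀ (kk j.1)) (P3 y))) -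
        (A j.1 y - P3.symm (Bk (b (kk j.1)) (L (kk j.1)) (vt (2 * s) a₀ (kk j.1)) (P3 y))) := by abel
    rw [e1]
    refine (norm_sub_le _ _).trans ?_
    linarith
  · intro j x hx
    exact cbx_mono (hpos j.1) hκl ((hB _ j.2).sub hx)
  · intro j
    exact (hB _ j.2).blkP.sub
  · have := mul_le_mul_of_nonneg_right hc2 hs.le
    linarith
  · refine hc2'.trans (le_of_eq ?_)
    field_simp
    ring

end

end Crest.Agent.R096.Blk_212
end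

-- ▼ part R096/Fil5_313
section

/-!
Row 96 (S0127), helper313 (for R3, `p ≤ 2`).  **[VOL]: volume of the complement of the exact cores, one
affine map per brick** (`Kor` of EA0), in the good cubes of `PreIN`.
-/

set_option autoImplicit false
set_option linter.style.longLine false
set_option linter.unusedSectionVars false

open MeasureTheory Set Filter Metric
open scoped ENNReal NNReal Topology

namespace Crest.Agent.R096.Fil_313

open Crest.AnalysisR.VecCalc3 Crest.AnalysisR.Sobolev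
open Crest.Agent.R096.Bsp_628 Crest.Agent.R96.En10_199
open Crest.Agent.R96.Intr_538 Crest.Agent.R96.Coarse_538
open Crest.Agent.R096.Bxs_627 (ctr zz)
open Crest.Agent.R096.EaX_766 (cbx Kor)
open Crest.Agent.R096.Br_695 (cbx_eq_bxc cbx_mono)

noncomputable section

variable {Om La : Set R3} {κ σ s : ℝ} {a : R3} {Q : Finset (Fin 3 → ℤ)}
  {b : (Fin 3 → ℤ) → R3} {L : (Fin 3 → ℤ) → R3 →L[ℝ] R3} {F : Set (Bx (Fin 3))}

/-- the bricks of the good cubes -/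
def XF (F : Set (Bx (Fin 3))) (σ s : ℝ) (Q : Finset (Fin 3 → ℤ)) (b : (Fin 3 → ℤ) → R3)
    (L : (Fin 3 → ℤ) → R3 →L[ℝ] R3) : Set F :=
  {c | ∃ k ∈ Q, c.1.set ⊆ PP σ s b L k}

/-- **[VOL]**, any sets `K c` which contain the smaller boxes of the real affine maps. -/
theorem cores_vol (hs : 0 < s) (hκ : 0 < κ) (hL : ∀ k ∈ Q, ∀ v, κ * ‖v‖ ≤ ‖L k v‖)
    (hQ : ∀ k ∈ Q, cel Cb (vt (2 * s) a k) s ⊆ Om) (hpar : ∀ k ∈ Q, par Cb (L k) (b k) s ⊆ La)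
    {δ κ0 : ℝ} (BF : BoxFoam (P3 ⁻¹' La) F δ κ0) (hσ : 0 ≤ σ) (hσ1 : 2 * σ < 1) {t : ℝ}
    (ht : 0 ≤ t)
    (hsz : ∀ k ∈ Q, ∀ C ∈ F, ∀ y ∈ par Cb (L k) (b k) s, P3.symm y ∈ C.set → C.sz ≤ t)
    {K : F → Set E3} {lam0 : ℝ} (hl0 : 0 ≤ lam0) (hl1 : lam0 ≤ 1)
    (hK : ∀ k ∈ Q, ∀ c : F, c.1.set ⊆ PP σ s b L k → ∀ x : E3,
      P3.symm (b k + L k (P3 x - vt (2 * s) a k)) ∈ cbx c.1 lam0 → x ∈ K c) :
    volume ((⋃ k ∈ Q, cel Cb (vt (2 * s) a k) s) \ P3.symm ⁻¹' ⋃ c ∈ XF F σ s Q b L, K c) ≤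
      ENNReal.ofReal (6 * σ + 6 * κ⁻¹ * t / s + 3 * (1 - lam0)) * volume Om := by
  classical
  have hκ' : 0 < κ⁻¹ := inv_pos.2 hκ
  set T : Bx (Fin 3) → Set R3 := fun C => {x | ∃ h : C ∈ F, P3.symm x ∈ K ⟨C, h⟩} with hT
  set W : Set R3 := P3.symm ⁻¹' ⋃ c ∈ XF F σ s Q b L, K c with hW
  rcases Q.eq_empty_or_nonempty with hQe | ⟨k0, hk0⟩
  · subst hQe
    simp
  have hcomb : (⋃ k ∈ Q, cel Cb (vt (2 * s) a k) s) \ W =
      (⋃ k ∈ Q, cel Cb (vt (2 * s) a k) s) \ ⋃ k ∈ Q, W := by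
    congr 1
    ext x
    simp only [mem_iUnion]
    exact ⟨fun h => ⟨k0, hk0, h⟩, fun ⟨_, _, h⟩ => h⟩
  rw [hcomb]
  refine fill_sum hs a Q hQ (fun _ => W) (by
    have : 0 ≤ 1 - lam0 := by linarith
    positivity) ?_
  intro k hk
  have h1 := fill3 hκ (hL k hk) (z := vt (2 * s) a k) (b := b k) hs hσ hσ1 ht hl0
    hl1 BF.countable BF.pos (fun C hC C' hC' hne => BF.inv.disj hC hC' (BF.pos _ hC) (BF.pos _ hC') hne)
    (fun y hy => BF.cov _ (by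
      show P3 (P3.symm y) ∈ La
      rw [ContinuousLinearEquiv.apply_symm_apply]
      exact hpar k hk hy))
    (hsz k hk) (w := fun C => zz C lam0)
    (fun C hC => bxc_sub (BF.pos C hC) hl1)
    (T := T) (by
      intro C hC hsub x hx
      refine ⟨hC, hK k hk ⟨C, hC⟩ hsub _ ?_⟩
      rw [ContinuousLinearEquiv.apply_symm_apply, cbx_eq_bxc]
      exact hx)
  refine le_trans (measure_mono ?_) h1
  intro x hx
  refine ⟨hx.1, fun hx' => hx.2 ?_⟩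
  simp only [mem_iUnion] at hx'
  obtain ⟨C, ⟨hC, hCk⟩, hxC⟩ := hx'
  obtain ⟨_, hxC⟩ := hxC
  rw [hW, mem_preimage, mem_iUnion₂]
  exact ⟨⟨C, hC⟩, ⟨k, hk, hCk⟩, hxC⟩

/-- points whose real affine image is in the parallelepiped -/
theorem mem_cel_of_par (hκ : 0 < κ) {L : R3 →L[ℝ] R3} (hL : ∀ v, κ * ‖v‖ ≤ ‖L v‖)
    {z b x : R3} {r : ℝ} (hr : 0 < r) (h : b + L (x - z) ∈ par Cb L b r) : x ∈ cel Cb z r := by
  obtain ⟨u, hu, he⟩ := h
  have he' : b + r • L u = b + L (x - z) := he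
  have h3 : L (r • u) = L (x - z) := by
    rw [map_smul]
    exact add_left_cancel he'
  have h4 : r • u = x - z := inj_of_low hκ hL h3
  rw [mem_cel hr]
  intro i
  have h5 : x i - z i = r * u i := by
    have := congrArg (fun v : R3 => v i) h4
    simpa using this.symm
  rw [h5, abs_mul, abs_of_pos hr]
  have h6 := hu i
  nlinarith

/-- the core of the near map contains the smaller box of the real map -/
theorem kor_of_near (hs : 0 < s) (hκ : 0 < κ) (hL : ∀ k ∈ Q, ∀ v, κ * ‖v‖ ≤ ‖L k v‖)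
    (hσ1 : 2 * σ < 1) {A : F → E3 ≃ᵃ[ℝ] E3} {lam : F → ℝ} {lam0 ρ : ℝ} (hl1 : lam0 ≤ 1)
    (hpos : ∀ C ∈ F, C.Pos)
    (near : ∀ k ∈ Q, ∀ c : F, c.1.set ⊆ PP σ s b L k → ∀ x : E3,
      P3 x ∈ cel Cb (vt (2 * s) a k) ((1 - 2 * σ) * s) →
      ‖A c x - P3.symm (b k + L k (P3 x - vt (2 * s) a k))‖ ≤ ρ * s)
    (hside : ∀ c ∈ XF F σ s Q b L, ∀ j, 2 * (ρ * s) ≤ (lam c - lam0) * c.1.side j) :
    ∀ k ∈ Q, ∀ c : F, c.1.set ⊆ PP σ s b L k → ∀ x : E3,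
      P3.symm (b k + L k (P3 x - vt (2 * s) a k)) ∈ cbx c.1 lam0 → x ∈ Kor F A lam c := by
  intro k hk c hc x hx
  have hr : 0 < (1 - 2 * σ) * s := mul_pos (by linarith) hs
  have h1 : P3.symm (b k + L k (P3 x - vt (2 * s) a k)) ∈ c.1.set := by
    rw [cbx_eq_bxc] at hx
    exact bxc_sub (hpos _ c.2) hl1 hx
  have h2 : b k + L k (P3 x - vt (2 * s) a k) ∈ par Cb (L k) (b k) ((1 - 2 * σ) * s) := by
    have h3 := hc h1
    have h5 : P3 (P3.symm (b k + L k (P3 x - vt (2 * s) a k))) = _ :=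
      ContinuousLinearEquiv.apply_symm_apply _ _
    rw [← h5]; exact h3
  have hxc := mem_cel_of_par hκ (hL k hk) hr h2
  have h3 := near k hk c hc x hxc
  show A c x ∈ cbx c.1 (lam c)
  intro j
  have h4 : |A c x j - P3.symm (b k + L k (P3 x - vt (2 * s) a k)) j| ≤ ρ * s :=
    (norm_le_pi_norm (A c x - P3.symm (b k + L k (P3 x - vt (2 * s) a k))) j).trans h3
  have h5 := hx j
  have h6 := hside c ⟨k, hk, hc⟩ j
  have h7 := abs_le.1 h4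
  have h8 := abs_le.1 h5
  rw [abs_le]
  constructor <;> linarith

/-- **[VOL]** for `Kor`, one affine map per brick. -/
theorem kor_vol (hs : 0 < s) (hκ : 0 < κ) (hL : ∀ k ∈ Q, ∀ v, κ * ‖v‖ ≤ ‖L k v‖)
    (hQ : ∀ k ∈ Q, cel Cb (vt (2 * s) a k) s ⊆ Om) (hpar : ∀ k ∈ Q, par Cb (L k) (b k) s ⊆ La)
    {δ κ0 : ℝ} (BF : BoxFoam (P3 ⁻¹' La) F δ κ0) (hσ : 0 ≤ σ) (hσ1 : 2 * σ < 1) {t : ℝ}
    (ht : 0 ≤ t)
    (hsz : ∀ k ∈ Q, ∀ C ∈ F, ∀ y ∈ par Cb (L k) (b k) s, P3.symm y ∈ C.set → C.sz ≤ t)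
    {A : F → E3 ≃ᵃ[ℝ] E3} {lam : F → ℝ} {lam0 ρ : ℝ} (hl0 : 0 ≤ lam0) (hl1 : lam0 ≤ 1)
    (near : ∀ k ∈ Q, ∀ c : F, c.1.set ⊆ PP σ s b L k → ∀ x : E3,
      P3 x ∈ cel Cb (vt (2 * s) a k) ((1 - 2 * σ) * s) →
      ‖A c x - P3.symm (b k + L k (P3 x - vt (2 * s) a k))‖ ≤ ρ * s)
    (hside : ∀ c ∈ XF F σ s Q b L, ∀ j, 2 * (ρ * s) ≤ (lam c - lam0) * c.1.side j) :
    volume ((⋃ k ∈ Q, cel Cb (vt (2 * s) a k) s) \
        P3.symm ⁻¹' ⋃ c ∈ XF F σ s Q b L, Kor F A lam c) ≤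
      ENNReal.ofReal (6 * σ + 6 * κ⁻¹ * t / s + 3 * (1 - lam0)) * volume Om :=
  cores_vol hs hκ hL hQ hpar BF hσ hσ1 ht hsz hl0 hl1
    (kor_of_near hs hκ hL hσ1 hl1 BF.pos near hside)

/-- the whole of `{det ≠ 0}`: good cubes `Q₀`, surviving cubes `Q` -/
theorem kor_vol_all (hs : 0 < s) (hκ : 0 < κ) (hL : ∀ k ∈ Q, ∀ v, κ * ‖v‖ ≤ ‖L k v‖)
    (hQ : ∀ k ∈ Q, cel Cb (vt (2 * s) a k) s ⊆ Om) (hpar : ∀ k ∈ Q, par Cb (L k) (b k) s ⊆ La)
    {δ κ0 : ℝ} (BF : BoxFoam (P3 ⁻¹' La) F δ κ0) (hσ : 0 ≤ σ) (hσ1 : 2 * σ < 1) {t : ℝ}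
    (ht : 0 ≤ t)
    (hsz : ∀ k ∈ Q, ∀ C ∈ F, ∀ y ∈ par Cb (L k) (b k) s, P3.symm y ∈ C.set → C.sz ≤ t)
    {A : F → E3 ≃ᵃ[ℝ] E3} {lam : F → ℝ} {lam0 ρ : ℝ} (hl0 : 0 ≤ lam0) (hl1 : lam0 ≤ 1)
    (near : ∀ k ∈ Q, ∀ c : F, c.1.set ⊆ PP σ s b L k → ∀ x : E3,
      P3 x ∈ cel Cb (vt (2 * s) a k) ((1 - 2 * σ) * s) →
      ‖A c x - P3.symm (b k + L k (P3 x - vt (2 * s) a k))‖ ≤ ρ * s)
    (hside : ∀ c ∈ XF F σ s Q b L, ∀ j, 2 * (ρ * s) ≤ (lam c - lam0) * c.1.side j)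
    {Q₀ : Finset (Fin 3 → ℤ)} {d : ℝ} (hd : ((Q₀ \ Q).card : ℝ) * (2 * s) ^ 3 ≤ d) {Z : Set R3}
    {ε : ℝ} (hε : 0 ≤ ε)
    (hZ : volume (Z \ ⋃ k ∈ Q₀, cel Cb (vt (2 * s) a k) s) ≤ ENNReal.ofReal ε) {V : ℝ}
    (hV0 : 0 ≤ V) (hV : volume Om ≤ ENNReal.ofReal V) :
    volume (Z \ P3.symm ⁻¹' ⋃ c ∈ XF F σ s Q b L, Kor F A lam c) ≤
      ENNReal.ofReal (ε + d + (6 * σ + 6 * κ⁻¹ * t / s + 3 * (1 - lam0)) * V) := by
  classical
  have hκ' : 0 < κ⁻¹ := inv_pos.2 hκ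
  have hd0 : 0 ≤ d := le_trans (by positivity) hd
  have hc0 : 0 ≤ 6 * σ + 6 * κ⁻¹ * t / s + 3 * (1 - lam0) := by
    have : 0 ≤ 1 - lam0 := by linarith
    positivity
  set W : Set R3 := P3.symm ⁻¹' ⋃ c ∈ XF F σ s Q b L, Kor F A lam c with hW
  set cl : (Fin 3 → ℤ) → Set R3 := fun k => cel Cb (vt (2 * s) a k) s with hcl
  have h1 := kor_vol hs hκ hL hQ hpar BF hσ hσ1 ht hsz hl0 hl1 near hside
  have h2 : volume (⋃ k ∈ Q₀ \ Q, cl k) ≤ ENNReal.ofReal d := by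
    calc volume (⋃ k ∈ Q₀ \ Q, cl k) ≤ ∑ k ∈ Q₀ \ Q, volume (cl k) :=
          measure_biUnion_finset_le _ _
      _ = ∑ k ∈ Q₀ \ Q, ENNReal.ofReal ((2 * s) ^ 3) :=
          Finset.sum_congr rfl fun k _ => volume_cel _ hs
      _ = ENNReal.ofReal (((Q₀ \ Q).card : ℝ) * (2 * s) ^ 3) := by
          rw [Finset.sum_const, nsmul_eq_mul, ENNReal.ofReal_mul (by positivity),
            ENNReal.ofReal_natCast]
      _ ≤ ENNReal.ofReal d := ENNReal.ofReal_le_ofReal hd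
  have hsub : Z \ W ⊆ (Z \ ⋃ k ∈ Q₀, cl k) ∪ ((⋃ k ∈ Q₀ \ Q, cl k) ∪ ((⋃ k ∈ Q, cl k) \ W)) := by
    rintro x ⟨hx, hxW⟩
    by_cases h : x ∈ ⋃ k ∈ Q₀, cl k
    · right
      obtain ⟨k, hk, hxk⟩ := mem_iUnion₂.1 h
      by_cases hkQ : k ∈ Q
      · exact Or.inr ⟨mem_iUnion₂.2 ⟨k, hkQ, hxk⟩, hxW⟩
      · exact Or.inl (mem_iUnion₂.2 ⟨k, Finset.mem_sdiff.2 ⟨hk, hkQ⟩, hxk⟩)
    · exact Or.inl ⟨hx, h⟩
  calc volume (Z \ W) ≤ volume (Z \ ⋃ k ∈ Q₀, cl k) +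
        (volume (⋃ k ∈ Q₀ \ Q, cl k) + volume ((⋃ k ∈ Q, cl k) \ W)) :=
        (measure_mono hsub).trans ((measure_union_le _ _).trans (by
          gcongr; exact measure_union_le _ _))
    _ ≤ ENNReal.ofReal ε + (ENNReal.ofReal d +
        ENNReal.ofReal (6 * σ + 6 * κ⁻¹ * t / s + 3 * (1 - lam0)) * ENNReal.ofReal V) := by
        gcongr
        exact h1.trans (by gcongr)
    _ ≤ _ := by
        rw [← ENNReal.ofReal_mul hc0, ← ENNReal.ofReal_add hd0 (by positivity),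
          ← ENNReal.ofReal_add hε (by positivity)]
        exact ENNReal.ofReal_le_ofReal (le_of_eq (by ring))

end

end Crest.Agent.R096.Fil_313
end

-- ▼ part R096/Dsp1_685
section

/-!
Row 96 (S0127), p ≤ 2, helper685.  **[DISP]** of (R3) (695 #11757): the displacement.
-/

set_option autoImplicit false
set_option linter.style.longLine false
set_option linter.unusedSectionVars false
set_option linter.unusedVariables false

open MeasureTheory Set Filter Topology Metric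
open scoped ENNReal NNReal

namespace Crest.Agent.R096.Dsp_685

open Crest.AnalysisR.VecCalc3 Crest.AnalysisR.Sobolev
open Crest.Agent.R096.Bsp_628 Crest.Agent.R096.Brk1_582 Crest.Agent.R096.Brk3_582
open Crest.Agent.R096.SkC1_961 (E3 Hom3)
open Crest.Agent.R096.Er_594
open Crest.Agent.R096.ThC6_766 (Scale)
open Crest.Agent.R096.Br_695 (scale_cont)
open Crest.Agent.R96.En10_199 (P3)

noncomputable section

/-- (a) the admissible distance of `f₂` from `f` -/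
theorem exists_eta2 {Om La : Set R3} (hL : IsOpen La) {f : R3 → R3} (hf : IsHomeomorphOn f Om La)
    {w : E3 → ℝ} (hw : Scale (P3 ⁻¹' La) w) {η : R3 → ℝ} (hη : ContinuousOn η Om)
    (hη0 : ∀ x ∈ Om, 0 < η x) :
    ContinuousOn (fun x => min (η x / 4) (w (P3.symm (f x)))) Om ∧
      ∀ x ∈ Om, 0 < min (η x / 4) (w (P3.symm (f x))) := by
  obtain ⟨fi, h1, h2, h3, h4, h5, h6⟩ := hf
  refine ⟨?_, fun x hx => lt_min (by have := hη0 x hx; positivity) (hw.pos _ ?_)⟩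
  · refine ContinuousOn.inf (hη.div_const 4) ?_
    exact (scale_cont hw).comp_continuousOn (P3.symm.continuous.comp_continuousOn h5)
  · show P3 (P3.symm (f x)) ∈ La
    rw [P3.apply_symm_apply]
    exact h1 hx

/-- (b) **the displacement of `g`** -/
theorem disp {Om La : Set R3} {f f₂ : R3 → R3} {g : E3 → E3} {δ κ0 : ℝ} {F : Set (Bx (Fin 3))}
    {w : E3 → ℝ} {η : R3 → ℝ} {C : ℝ≥0} (hw : Scale (P3 ⁻¹' La) w)
    (BF : BoxFoam (P3 ⁻¹' La) F δ κ0) (hsz : ∀ c ∈ F, ∀ x ∈ c.set, c.sz ≤ w x)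
    (hwη : ∀ x ∈ Om, 4 * (C * w (P3.symm (f x))) ≤ η x / 2) (hf2 : IsHomeomorphOn f₂ Om La)
    (hd : ∀ x ∈ Om, ‖f₂ x - f x‖ ≤ min (η x / 4) (w (P3.symm (f x))))
    (g3 : ∀ x ∈ P3 ⁻¹' Om, ∀ c : F, e3 f₂ x ∈ c.1.set → ‖g x - e3 f₂ x‖ ≤ C * c.1.sz) :
    ∀ x ∈ Om, ‖r3 g x - f x‖ ≤ η x := by
  obtain ⟨fi, h1, -, -, -, -, -⟩ := hf2
  intro x hx
  have hxp : P3.symm x ∈ P3 ⁻¹' Om := by
    change P3 (P3.symm x) ∈ Om
    rwa [P3.apply_symm_apply]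
  have hfx : e3 f₂ (P3.symm x) = P3.symm (f₂ x) := by
    simp only [e3, P3.apply_symm_apply]
  have hxL : e3 f₂ (P3.symm x) ∈ P3 ⁻¹' La := by
    rw [hfx]
    change P3 (P3.symm (f₂ x)) ∈ La
    rw [P3.apply_symm_apply]
    exact h1 hx
  obtain ⟨c, hc, hxc⟩ := BF.cov _ hxL
  have e1 := g3 _ hxp ⟨c, hc⟩ hxc
  have e2 := hsz c hc _ hxc
  have e3' := norm_r3_sub_le g f₂ x
  rw [hfx] at e1 e2
  have e4 := hd x hx
  have e5 : ‖f₂ x - f x‖ ≤ η x / 4 := e4.trans (min_le_left _ _)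
  have e6 : ‖f₂ x - f x‖ ≤ w (P3.symm (f x)) := e4.trans (min_le_right _ _)
  have e7 := hw.lip (P3.symm (f₂ x)) (P3.symm (f x))
  have e8 : ‖P3.symm (f₂ x) - P3.symm (f x)‖ ≤ ‖f₂ x - f x‖ := by
    rw [← map_sub]
    exact norm_P3_symm_le _
  have e9 : w (P3.symm (f₂ x)) ≤ 9 / 8 * w (P3.symm (f x)) := by linarith
  have e10 : (C : ℝ) * c.sz ≤ C * (9 / 8 * w (P3.symm (f x))) :=
    mul_le_mul_of_nonneg_left (e2.trans e9) C.2
  have e11 := hwη x hx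
  have e12 : 0 ≤ (C : ℝ) * w (P3.symm (f x)) := mul_nonneg C.2 (hw.nonneg _)
  have e13 : ‖g (P3.symm x) - e3 f₂ (P3.symm x)‖ ≤ C * (9 / 8 * w (P3.symm (f x))) := by
    rw [hfx]
    exact e1.trans e10
  have e14 : ‖r3 g x - f₂ x‖ ≤ 2 * ‖g (P3.symm x) - e3 f₂ (P3.symm x)‖ := e3'
  have e15 : r3 g x - f x = (r3 g x - f₂ x) + (f₂ x - f x) := by abel
  rw [e15]
  refine (norm_add_le _ _).trans ?_
  have hη : 0 ≤ η x / 2 := by linarith
  linarith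

end

end Crest.Agent.R096.Dsp_685
end

-- ▼ part R096/Br12_695

/-!
Row 96 (S0127), helper695.  **`BFk p` for `p ≤ 2`**: after `PreIN p`, the end.
-/

set_option autoImplicit false
set_option linter.unusedSectionVars false
set_option linter.unusedVariables false
set_option linter.style.longLine false

open MeasureTheory Set Filter Metric Module
open scoped ENNReal NNReal Topology

namespace Crest.Agent.R096.Br_695

open Crest.AnalysisR.VecCalc3 Crest.AnalysisR.Sobolev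
open Crest.Agent.R96.Lu_538 Crest.Agent.R96.Intr_538
open Crest.Agent.R96.Coarse_538 hiding E3
open Crest.Agent.R096.Sk_962 (SH Gr)
open Crest.Agent.R096.Sk4_663 (Zd BFs lintegral_of_memLp)
open Crest.Agent.R096.Bsp_628
open Crest.Agent.R096.Bxs_627 hiding E3
open Crest.Agent.R96.En10_199
open Crest.Agent.R096.SkC1_961 (E3 Hom3)
open Crest.Agent.R096.Er_594
open Crest.Agent.R096.EaX_766 (cbx lin Kor)
open Crest.Agent.R096.Brk5_582 (Cmp)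
open Crest.Agent.R096.Msh_715 Crest.Agent.R096.Mal_874
open Crest.Agent.R096.Pin_753 (Bk InP BlkP PreIN)
open Crest.Agent.R096.Ea0_961 (InS Blk EA0)
open Crest.Agent.R096.Tmap_212 (mp)
open Crest.Agent.R096.Fns_360 (trA trA_apply trA_linear trA_sub)
open Crest.Agent.R096.Ins_685 (L3 L3_apply lin_close lin_trA norm_lin_le low_lin)
open Crest.Agent.R096.Fil_313 (cel_preimage aff3 aff3_image)
open Crest.Agent.R096.ThC6_766 (Scale)
open Crest.Agent.R096.Str_696 (LocPL)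

noncomputable section

/-- the tail of `EA0 p` -/
def EA0t (p δ κ0 R c0 κ2 Cc : ℝ) (Bs : ℕ) (C : ℝ≥0) (e lam1 κ1 : ℝ) (M : ℕ) (κw : ℝ) (Nn : ℕ)
    (CA : ℝ≥0) (κt : ℝ) : Prop :=
  ∀ (Om La : Set E3) (f : E3 → E3) (D : E3 → E3 →L[ℝ] E3), IsOpen Om → Bornology.IsBounded Om →
    IsConnected Om → IsOpen La → Bornology.IsBounded La → IsConnected La → SH3 p Om La f D →
  ∀ (u : ℝ), 0 < u →
  ∀ (F : Set (Bx (Fin 3))), BoxFoam La F δ κ0 → Cmp F R →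
    (∀ c ∈ F, ∃ S : Set E3, IsCompact S ∧ Convex ℝ S ∧ S ⊆ La ∧
      ∀ c' ∈ F, (c'.set ∩ c.set).Nonempty → c'.set ⊆ interior S) →
  ∀ (X : Set F) (A : F → E3 ≃ᵃ[ℝ] E3) (lam : F → ℝ) (Q : F → CB E3 3) (k0 : F → ℕ)
    (hk : ∀ c, (Q c).kc ≤ k0 c) (er : F → ℝ≥0∞),
    (∀ c ∈ X, c0 ≤ lam c ∧ lam c ≤ lam1) →
    (∀ c ∈ X, Blk F u Cc κ2 κt Bs M Nn c (A c) (lam c) (Q c) (k0 c) (hk c)) →
    (∀ c ∈ X, InS p Om f D Cc κ1 κ2 κw M c.1 (A c) (lam c) (er c) (Q c) (k0 c) (hk c)) →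
  ∀ e' : ℝ≥0∞, 0 < e' →
  ∃ g : E3 → E3, Hom3 g Om La ∧ LocPL g Om ∧
    (∀ x ∈ Om, ∀ c : F, f x ∈ c.1.set → ‖g x - f x‖ ≤ C * c.1.sz) ∧
    (∫⁻ x in Om \ ⋃ c ∈ X, Kor F A lam c, ‖fderiv ℝ g x‖ₑ ^ p) ≤
      C * (∫⁻ x in Om \ ⋃ c ∈ X, (Q c).N, (1 + ‖D x‖ₑ ^ p)) +
      C * (∑' c : X, (1 + ‖lin (A c)‖ₑ ^ p) * volume ((Q c).N \ Kor F A lam c)) +
      CA * (∑' c : X, ∫⁻ x in Ea0_961.Ly (Q c) (k0 c), (1 + ‖D x‖ₑ ^ p)) +
      C * (∑' c : X, er c) +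
      ENNReal.ofReal e * (∑' c : X, (1 + ‖lin (A c)‖ₑ ^ p) * volume (Kor F A lam c)) + e' ∧
    ∀ c ∈ X, (∫⁻ x in Kor F A lam c, ‖fderiv ℝ g x - (lam c)⁻¹ • lin (A c)‖ₑ ^ p) ≤
      ENNReal.ofReal e * (‖lin (A c)‖ₑ ^ p * volume (Kor F A lam c)) +
      C * ((1 + ‖lin (A c)‖ₑ ^ p) * volume ((Q c).N \ Kor F A lam c)) + C * er c +
      CA * (∫⁻ x in Ea0_961.Ly (Q c) (k0 c), (1 + ‖D x‖ₑ ^ p))

section

variable {La : Set R3} {F : Set (Bx (Fin 3))} {κ κ' κt s t τ hh c1 θ θ1 ka lam B : ℝ}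
    {Bs M Nn k0 : ℕ} {a₀ : R3} {Q₀ : Finset (Fin 3 → ℤ)} {b : (Fin 3 → ℤ) → R3}
    {L : (Fin 3 → ℤ) → R3 →L[ℝ] R3} {X₀ : Set F} {kk : F → Fin 3 → ℤ} {Q : F → CB E3 3}
    {A : F → E3 ≃ᵃ[ℝ] E3} {hk : ∀ c, (Q c).kc ≤ k0}
    (H : Fam La F κ κ' κt s t τ hh c1 θ θ1 ka lam B Bs M Nn k0 a₀ Q₀ b L X₀ kk Q A hk)

/-- the bricks of the surviving cubes -/
def Xs (X₀ : Set F) (kk : F → Fin 3 → ℤ) (Qs : Finset (Fin 3 → ℤ)) : Set F :=
  {c | c ∈ X₀ ∧ kk c ∈ Qs}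

/-- index sets -/
def exs (X₀ : Set F) (kk : F → Fin 3 → ℤ) (Qs : Finset (Fin 3 → ℤ)) :
    Xs X₀ kk Qs ≃ {j : X₀ // kk j.1 ∈ Qs} where
  toFun c := ⟨⟨c.1, c.2.1⟩, c.2.2⟩
  invFun j := ⟨j.1.1, j.1.2, j.2⟩
  left_inv _ := rfl
  right_inv _ := rfl

theorem iUnion_xs (X₀ : Set F) (kk : F → Fin 3 → ℤ) (Qs : Finset (Fin 3 → ℤ)) {E : Type*}
    (S : F → Set E) : ⋃ j ∈ {j : X₀ | kk j.1 ∈ Qs}, S j.1 = ⋃ c : Xs X₀ kk Qs, S c := by
  ext x
  simp only [mem_iUnion]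
  constructor
  · rintro ⟨j, hj, hx⟩
    exact ⟨⟨j.1, j.2, hj⟩, hx⟩
  · rintro ⟨c, hx⟩
    exact ⟨⟨c.1, c.2.1⟩, c.2.2, hx⟩

include H

/-- volumes -/
theorem Fam.vol {Om : Set R3} (hO : IsOpen Om) (BF : BoxFoam (P3 ⁻¹' La) F δf 3) (hκ : 0 < κ)
    (hκ1 : κ ≤ 1)
    (hs : 0 < s) (hτ : 0 < τ) (hτ8 : τ ≤ 1 / 8) (ht0 : 0 < t)
    (hLb : ∀ k ∈ Q₀, (∀ v, κ * ‖v‖ ≤ ‖L k v‖) ∧ ‖L k‖ ≤ κ⁻¹)
    (hcel : ∀ k ∈ Q₀, cel Cb (vt (2 * s) a₀ k) s ⊆ Om) (hpar : ∀ k ∈ Q₀, par Cb (L k) (b k) s ⊆ La)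
    (hszt : ∀ C ∈ F, C.sz ≤ t) {Qs : Finset (Fin 3 → ℤ)} (hQs : Qs ⊆ Q₀) {v : F → E3} {κw : ℝ}
    {a : R3} (ha : ‖a‖ ≤ κw * s) (hv : ∀ c ∈ X₀, ‖(Q c).ψ (v c)‖ ≤ 1 / (20 * 2 ^ k0)) {kb : ℝ}
    (hka : ka ≤ κ / 16) (hkb : ka + 3 * κ⁻¹ * (κw + θ / (5 * κ)) ≤ kb)
    (hlam : 0 < lam) (hlam1 : lam < 1) (hkb2 : 2 * (kb * s) ≤ (1 - lam) * (t / 18))
    (hl2 : 1 / 2 ≤ lam)
    {d ε V : ℝ} (hd : ((Q₀ \ Qs).card : ℝ) * (2 * s) ^ 3 ≤ d) {Z : Set R3} (hε : 0 ≤ ε)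
    (hZ : volume (Z \ ⋃ k ∈ Q₀, cel Cb (vt (2 * s) a₀ k) s) ≤ ENNReal.ofReal ε)
    (hV0 : 0 ≤ V) (hV : volume Om ≤ ENNReal.ofReal V) :
    volume (Z \ P3.symm ⁻¹' ⋃ c ∈ Xs X₀ kk Qs,
      Kor F (fun c => trA (A c) (P3.symm a + v c)) (fun _ => lam) c) ≤
      ENNReal.ofReal (ε + d + (12 * τ + 6 * κ⁻¹ * t / s + 6 * (1 - lam)) * V) := by
  have hXF : Fil_313.XF F (2 * τ) s Qs b L = Xs X₀ kk Qs := by
    ext c
    have e1 : (1 - 2 * (2 * τ)) * s = (1 - 4 * τ) * s := by ring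
    constructor
    · rintro ⟨k, hk', hc⟩
      unfold Fil_313.PP at hc
      rw [e1] at hc
      obtain ⟨h1, h2⟩ := H.all k (hQs hk') c hc
      exact ⟨h1, by rw [h2]; exact hk'⟩
    · rintro ⟨h1, h2⟩
      refine ⟨kk c, h2, ?_⟩
      unfold Fil_313.PP
      rw [e1]
      exact H.ins c h1
  have hcard := Fil_313.kor_vol_all (Om := Om) (La := La) (κ := κ) (σ := 2 * τ) (s := s) (a := a₀)
    (Q := Qs) (b := b) (L := L) (F := F) hs hκ (fun k hk' => (hLb k (hQs hk')).1)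
    (fun k hk' => hcel k (hQs hk')) (fun k hk' => hpar k (hQs hk')) BF (by positivity) (by linarith)
    ht0.le (fun k _ C hC _ _ _ => hszt C hC)
    (A := fun c => trA (A c) (P3.symm a + v c)) (lam := fun _ => lam) (lam0 := 2 * lam - 1)
    (ρ := kb) (by linarith) (by linarith) ?_ ?_ hd hε hZ hV0 hV
  · rw [hXF] at hcard
    refine hcard.trans (ENNReal.ofReal_le_ofReal (le_of_eq ?_))
    ring
  · intro k hk' c hc x hx
    have hcX : c ∈ Fil_313.XF F (2 * τ) s Qs b L := ⟨k, hk', hc⟩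
    rw [hXF] at hcX
    have e1 : (1 - 2 * (2 * τ)) * s = (1 - 4 * τ) * s := by ring
    unfold Fil_313.PP at hc
    rw [e1] at hc
    have hkc : kk c = k := (H.all k (hQs hk') c hc).2
    have h1 := H.norm_le hκ hcX.1 (by norm_num : (0:ℝ) < 20) (hv c hcX.1)
    have h2 := Crest.Agent.R096.Er_594.norm_P3_symm_le a
    have e : 4 * θ / (20 * κ) * s = θ / (5 * κ) * s := by field_simp; ring
    have h3 : ‖P3.symm a + v c‖ ≤ (κw + θ / (5 * κ)) * s := by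
      calc ‖P3.symm a + v c‖ ≤ ‖P3.symm a‖ + ‖v c‖ := norm_add_le _ _
        _ ≤ κw * s + θ / (5 * κ) * s := add_le_add (h2.trans ha) (by rw [← e]; exact h1)
        _ = (κw + θ / (5 * κ)) * s := by ring
    have h4 := Ins_685.trA_close hκ (hLb _ (H.kkQ c hcX.1)).1 (hLb _ (H.kkQ c hcX.1)).2 hs
      (H.close c hcX.1) hka h3 x (by
        rw [hkc, ← cel_preimage _ hs]
        change P3 x ∈ cel Cb (vt (2 * s) a₀ k) s
        have h5 : P3.symm (P3 x) ∈ closedBall (P3.symm (vt (2 * s) a₀ k)) ((1 - 2 * (2 * τ)) * s) := by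
          rw [← cel_preimage _ (by rw [e1]; exact mul_pos (by linarith) hs)]
          change P3 (P3.symm (P3 x)) ∈ cel Cb (vt (2 * s) a₀ k) ((1 - 2 * (2 * τ)) * s)
          rwa [P3.apply_symm_apply]
        have h6 : P3.symm (P3 x) ∈ closedBall (P3.symm (vt (2 * s) a₀ k)) s :=
          closedBall_subset_closedBall (by nlinarith) h5
        rw [← cel_preimage _ hs] at h6
        have h7 : P3 (P3.symm (P3 x)) ∈ cel Cb (vt (2 * s) a₀ k) s := h6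
        rwa [P3.apply_symm_apply] at h7)
    rw [hkc] at h4
    exact h4.trans (mul_le_mul_of_nonneg_right hkb hs.le)
  · intro c hc j
    rw [hXF] at hc
    have h1 := H.szl c hc.1
    have h2 := BF.asp _ c.2 j
    have h3 : t / 18 ≤ c.1.side j := by linarith
    have e1 : lam - (2 * lam - 1) = 1 - lam := by ring
    rw [e1]
    exact hkb2.trans (mul_le_mul_of_nonneg_left h3 (by linarith))

end

end

end Crest.Agent.R096.Br_695
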