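import Crest.Agent.R096.Br4_695
import Crest.Agent.R096.Br2_695

-- ▼ part R096/Br5_695
section

/-!
Row 96 (S0127), helper695.  **PREP for `2 < p`**: foam, exact cores with rational affine maps in the
bricks inside the images of the good cubes, energies, volumes.
-/

set_option autoImplicit false
set_option linter.unusedSectionVars false
set_option linter.style.longLine false

open MeasureTheory Set Filter Metric Module
open scoped ENNReal NNReal Topology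

namespace Crest.Agent.R096.Br_695

open Crest.AnalysisR.VecCalc3 Crest.AnalysisR.Sobolev
open Crest.Agent.R96.Lu_538 Crest.Agent.R96.Intr_538
open Crest.Agent.R96.Coarse_538 hiding E3
open Crest.Agent.R096.Sk_962 (SH)
open Crest.Agent.R096.Bsp_628
open Crest.Agent.R096.Bxs_627 hiding E3
open Crest.Agent.R96.En10_199
open Crest.Agent.R096.SkC1_961 (E3 Hom3)
open Crest.Agent.R096.Er_594 (e3 D3 isCompact_pre hom3_of isOpen_pre lint_P3 vol_P3)
open Crest.Agent.R096.EaX_766 (cbx lin RatA ExIn Kor)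
open Crest.Agent.R096.Fil_313 (cel_preimage volume_cel aedisjoint_cel fill)
open Crest.Agent.R096.ThC6_766 (Scale)
open Crest.Agent.R096.Brk5_582 (Cmp)

noncomputable section

/-- the sum of the volumes of the cells -/
theorem sum_cel_le {Om : Set R3} {s : ℝ} (hs : 0 < s) (a : R3) (Q : Finset (Fin 3 → ℤ))
    (hQ : ∀ k ∈ Q, cel Cb (vt (2 * s) a k) s ⊆ Om) :
    ∑ k ∈ Q, volume (cel Cb (vt (2 * s) a k) s) ≤ volume Om := by
  rw [← measure_biUnion_finset₀]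
  · exact measure_mono (iUnion₂_subset hQ)
  · intro k _ l _ hkl
    exact aedisjoint_cel hs a hkl
  · intro k _
    exact (Crest.Agent.R096.Fil_313.isClosed_cel _ _).measurableSet.nullMeasurableSet

/-- sum of equal quantities over the cells -/
theorem sum_const_le {Om : Set R3} (hOt : volume Om ≠ ∞) {s : ℝ} (hs : 0 < s) (a : R3)
    (Q : Finset (Fin 3 → ℤ)) (hQ : ∀ k ∈ Q, cel Cb (vt (2 * s) a k) s ⊆ Om) {c : ℝ} (hc : 0 ≤ c) :
    ∑ _k ∈ Q, ENNReal.ofReal (c * (2 * s) ^ 3) ≤ ENNReal.ofReal (c * (volume Om).toReal) := by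
  calc ∑ _k ∈ Q, ENNReal.ofReal (c * (2 * s) ^ 3)
      = ENNReal.ofReal c * ∑ k ∈ Q, volume (cel Cb (vt (2 * s) a k) s) := by
        rw [Finset.mul_sum]
        refine Finset.sum_congr rfl fun k _ => ?_
        rw [volume_cel _ hs, ENNReal.ofReal_mul hc]
    _ ≤ ENNReal.ofReal c * volume Om := by gcongr; exact sum_cel_le hs a Q hQ
    _ = ENNReal.ofReal (c * (volume Om).toReal) := by
        rw [ENNReal.ofReal_mul hc, ENNReal.ofReal_toReal hOt]

/-- cells of a grid: a point well inside two cells -/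
theorem cell_unique {s σ : ℝ} (hs : 0 < s) (hσ : 0 < σ) (a : R3) {k l : Fin 3 → ℤ} {x : E3}
    (hk : x ∈ closedBall (P3.symm (vt (2 * s) a k)) ((1 - σ) * s))
    (hl : x ∈ closedBall (P3.symm (vt (2 * s) a l)) ((1 - σ) * s)) : k = l := by
  by_contra hne
  obtain ⟨i, hi⟩ := Function.ne_iff.1 hne
  have e1 : |x i - (vt (2 * s) a k) i| ≤ (1 - σ) * s := by
    have h1 := norm_le_pi_norm (x - P3.symm (vt (2 * s) a k)) i
    rw [Pi.sub_apply, Real.norm_eq_abs] at h1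
    rw [mem_closedBall, dist_eq_norm] at hk
    exact h1.trans hk
  have e2 : |x i - (vt (2 * s) a l) i| ≤ (1 - σ) * s := by
    have h1 := norm_le_pi_norm (x - P3.symm (vt (2 * s) a l)) i
    rw [Pi.sub_apply, Real.norm_eq_abs] at h1
    rw [mem_closedBall, dist_eq_norm] at hl
    exact h1.trans hl
  rw [vt_apply, abs_le] at e1 e2
  rcases lt_or_gt_of_ne hi with h | h
  · have h4 : (k i : ℝ) + 1 ≤ l i := by exact_mod_cast h
    nlinarith [e1.1, e1.2, e2.1, e2.2, mul_pos hσ hs]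
  · have h4 : (l i : ℝ) + 1 ≤ k i := by exact_mod_cast h
    nlinarith [e1.1, e1.2, e2.1, e2.2, mul_pos hσ hs]

/-- sum over disjoint sets, each inside one of finitely many sets -/
theorem tsum_cells {ι κ : Type*} [Countable ι] {μ : Measure E3} {K : ι → Set E3} {B : κ → Set E3}
    (hK : ∀ i, MeasurableSet (K i)) (hd : Pairwise (Function.onFun Disjoint K))
    (hB : ∀ k, MeasurableSet (B k))
    (kk : ι → κ) (Q : Finset κ) (hkQ : ∀ i, kk i ∈ Q) (hsub : ∀ i, K i ⊆ B (kk i))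
    (g : κ → E3 → ℝ≥0∞) :
    ∑' i, ∫⁻ x in K i, g (kk i) x ∂μ ≤ ∑ k ∈ Q, ∫⁻ x in B k, g k x ∂μ := by
  calc ∑' i, ∫⁻ x in K i, g (kk i) x ∂μ ≤ ∑' i, ∑ k ∈ Q, ∫⁻ x in K i ∩ B k, g k x ∂μ := by
        refine ENNReal.tsum_le_tsum fun i => ?_
        have h1 : K i ∩ B (kk i) = K i := inter_eq_left.2 (hsub i)
        calc ∫⁻ x in K i, g (kk i) x ∂μ = ∫⁻ x in K i ∩ B (kk i), g (kk i) x ∂μ := by rw [h1]
          _ ≤ _ := Finset.single_le_sum (f := fun k => ∫⁻ x in K i ∩ B k, g k x ∂μ)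
              (fun _ _ => zero_le) (hkQ i)
    _ = ∑ k ∈ Q, ∑' i, ∫⁻ x in K i ∩ B k, g k x ∂μ := by
        rw [Summable.tsum_finsetSum fun _ _ => ENNReal.summable]
    _ = ∑ k ∈ Q, ∫⁻ x in ⋃ i, K i ∩ B k, g k x ∂μ := by
        refine Finset.sum_congr rfl fun k _ => ?_
        rw [lintegral_iUnion (fun i => (hK i).inter (hB k))]
        intro i j hij
        exact (hd hij).mono inter_subset_left inter_subset_left
    _ ≤ ∑ k ∈ Q, ∫⁻ x in B k, g k x ∂μ := by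
        refine Finset.sum_le_sum fun k _ => lintegral_mono_set ?_
        exact iUnion_subset fun i => inter_subset_right

theorem scale_cont {L : Set E3} {w : E3 → ℝ} (h : Scale L w) : Continuous w := by
  have : LipschitzWith (1 / 8 : ℝ).toNNReal w := by
    apply LipschitzWith.of_le_add_mul
    intro x y
    rw [Real.coe_toNNReal _ (by norm_num), dist_eq_norm]
    have := h.lip x y
    linarith
  exact this.continuous

set_option maxHeartbeats 2000000 in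
/-- **PREP, `p > 2`** -/
theorem prep2 {p : ℝ} (hp : 2 < p) {Om La : Set R3} (hO : IsOpen Om)
    (hOb : Bornology.IsBounded Om) (hL : IsOpen La) (hLb : Bornology.IsBounded La) {f : R3 → R3}
    {G : Fin 3 → R3 → R3} (hS : SH p Om La f G) {ε : ℝ} (hε : 0 < ε) {w : E3 → ℝ}
    (hw : Scale (P3 ⁻¹' La) w) {M : ℝ} (hM : 4 / dl (Fin 3) 3 ≤ M) (hM2 : 2 ≤ M) :
    ∃ N : ℝ, 1 ≤ N ∧ ∀ h : ℝ, 0 < h → ∀ lam : ℚ, 1 / 4 ≤ (lam : ℝ) → (lam : ℝ) < 1 →
      ∀ κ1 : ℝ, 0 < κ1 →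
      ∃ (F : Set (Bx (Fin 3))) (X : Set F) (A : F → E3 ≃ᵃ[ℝ] E3),
        BoxFoam (P3 ⁻¹' La) F δf 3 ∧ Cmp F 6 ∧ (∀ C ∈ F, Dy 0 1 M C) ∧
        (∀ C ∈ F, ∀ x ∈ C.set, C.sz ≤ w x) ∧
        (∀ c ∈ X, ExIn p (P3 ⁻¹' Om) (e3 f) (D3 G) 0 1 κ1 (1 / 4) c.1 (A c) lam) ∧
        (∀ c ∈ X, ‖lin (A c)‖ ≤ N) ∧
        (∀ c ∈ X, Kor F A (fun _ => (lam : ℝ)) c ⊆ P3 ⁻¹' Om) ∧
        (∀ c ∈ X, ∀ c' ∈ X, c ≠ c' →
          Disjoint (Kor F A (fun _ => (lam : ℝ)) c) (Kor F A (fun _ => (lam : ℝ)) c')) ∧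
        (∑' c : X, ∫⁻ x in Kor F A (fun _ => (lam : ℝ)) c, ‖D3 G x - lin (A c)‖ₑ ^ p) ≤
          ENNReal.ofReal h ∧
        volume ((Om ∩ {x | (Gmat G x).det ≠ 0}) \
            P3.symm ⁻¹' (⋃ c ∈ X, Kor F A (fun _ => (lam : ℝ)) c)) ≤
          ENNReal.ofReal (ε + 3 * (1 - lam) * (volume Om).toReal) := by
  classical
  have hp0 : 0 < p := by linarith
  have hp1 : 1 ≤ p := by linarith
  obtain ⟨κ, hκ, hκ1, K, hK, hKc, K', hK', hK'c, H⟩ := sel hp hO hOb hL hS (half_pos hε)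
  set N : ℝ := 4 / κ with hN
  have hN1 : 1 ≤ N := by rw [hN, le_div_iff₀ hκ]; linarith
  refine ⟨N, hN1, fun h hh lam hl hl1 κ1 hκ1' => ?_⟩
  have hN0 : 0 < N := by linarith
  set V : ℝ := (volume Om).toReal with hV
  have hV0 : 0 ≤ V := ENNReal.toReal_nonneg
  have hVt : volume Om ≠ ∞ := hOb.measure_lt_top.ne
  obtain ⟨σ, hσ, hσ1, hσ2⟩ : ∃ σ : ℝ, 0 < σ ∧ 3 * σ ≤ 1 ∧ 12 * σ * V ≤ ε / 2 := by
    refine ⟨min (1 / 3) (ε / (24 * (V + 1))), by positivity, ?_, ?_⟩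
    · have := min_le_left (1 / 3 : ℝ) (ε / (24 * (V + 1))); linarith
    · have h1 := min_le_right (1 / 3 : ℝ) (ε / (24 * (V + 1)))
      have h2 : 0 < min (1 / 3 : ℝ) (ε / (24 * (V + 1))) := by positivity
      rw [le_div_iff₀ (by positivity)] at h1
      nlinarith
  set τ : ℝ := σ / N with hτ
  have hτ0 : 0 < τ := by positivity
  have hNτ : N * τ = σ := by rw [hτ]; field_simp
  obtain ⟨η', hη', hc1, hc2, hc3, hc4⟩ : ∃ η' : ℝ, 0 < η' ∧ N * η' < σ ∧ η' ≤ κ1 * (τ / 24) ∧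
      N ^ 3 * (N ^ p * η') ≤ κ1 * (τ / 24) ^ 3 ∧ η' * V ≤ h := by
    set q1 : ℝ := κ1 * (τ / 24) ^ 3 / (N ^ 3 * N ^ p) with hq1
    refine ⟨min (σ / (2 * N)) (min (κ1 * (τ / 24)) (min q1 (h / (V + 1)))), by positivity,
      ?_, ?_, ?_, ?_⟩
    · have h1 := min_le_left (σ / (2 * N)) (min (κ1 * (τ / 24)) (min q1 (h / (V + 1))))
      rw [le_div_iff₀ (by positivity)] at h1
      nlinarith
    · exact (min_le_right _ _).trans (min_le_left _ _)
    · have h1 : min (σ / (2 * N)) (min (κ1 * (τ / 24)) (min q1 (h / (V + 1)))) ≤ q1 :=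
        (min_le_right _ _).trans ((min_le_right _ _).trans (min_le_left _ _))
      calc _ ≤ N ^ 3 * (N ^ p * q1) := by gcongr
        _ = κ1 * (τ / 24) ^ 3 := by rw [hq1]; field_simp
    · have h1 : min (σ / (2 * N)) (min (κ1 * (τ / 24)) (min q1 (h / (V + 1)))) ≤ h / (V + 1) :=
        (min_le_right _ _).trans ((min_le_right _ _).trans (min_le_right _ _))
      have h2 : 0 < min (σ / (2 * N)) (min (κ1 * (τ / 24)) (min q1 (h / (V + 1)))) := by
        positivity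
      rw [le_div_iff₀ (by positivity)] at h1
      nlinarith
  set η : ℝ := η' / 4 ^ p with hη
  have hη0 : 0 < η := by positivity
  have hηη : 4 ^ p * η = η' := by rw [hη]; field_simp
  obtain ⟨s₀, hs₀, H'⟩ := H η σ hη0 hσ (by linarith)
  have hK'3 : IsCompact (P3 ⁻¹' K') := isCompact_pre hK'c
  obtain ⟨ρ0, hρ0, hρ⟩ : ∃ ρ0 : ℝ, 0 < ρ0 ∧ ∀ y ∈ P3 ⁻¹' K', ρ0 ≤ w y := by
    rcases (P3 ⁻¹' K').eq_empty_or_nonempty with h0 | h0
    · exact ⟨1, one_pos, fun x hx => absurd hx (by rw [h0]; exact notMem_empty x)⟩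
    · obtain ⟨x0, hx0, hmin⟩ := hK'3.exists_isMinOn h0 (scale_cont hw).continuousOn
      exact ⟨w x0, hw.pos x0 (hK' hx0), fun x hx => hmin hx⟩
  obtain ⟨s, hs, hss, hst1, hst2⟩ : ∃ s : ℝ, 0 < s ∧ s < s₀ ∧ τ * s ≤ 1 ∧ τ * s ≤ ρ0 / 2 := by
    refine ⟨min (s₀ / 2) (min (1 / τ) (ρ0 / 2 / τ)), by positivity, ?_, ?_, ?_⟩
    · exact (min_le_left _ _).trans_lt (by linarith)
    · have h1 : min (s₀ / 2) (min (1 / τ) (ρ0 / 2 / τ)) ≤ 1 / τ :=
        (min_le_right _ _).trans (min_le_left _ _)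
      rw [le_div_iff₀ hτ0] at h1
      linarith
    · have h1 : min (s₀ / 2) (min (1 / τ) (ρ0 / 2 / τ)) ≤ ρ0 / 2 / τ :=
        (min_le_right _ _).trans (min_le_right _ _)
      rw [le_div_iff₀ hτ0] at h1
      linarith
  have hσs : 0 < σ * s := mul_pos hσ hs
  have hrad1 : (1 - 2 * σ) * s ≤ (1 - σ) * s := by linarith
  have hrad2 : (1 - 3 * σ) * s ≤ (1 - 2 * σ) * s := by linarith
  have hrad3 : (1 - σ) * s ≤ s := by linarith
  set t : ℝ := τ * s with ht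
  have ht0 : 0 < t := by positivity
  obtain ⟨F, BF, hcmp, hdy, hsz, hsz'⟩ := exists_foam_t
    (Crest.Agent.R096.Er_594.isBounded_pre hLb) hw ht0 hst1 hM hM2
  obtain ⟨Q, b, L, hQK, hQK', hGB, hvol⟩ := H' s hs hss 0
  set zc : (Fin 3 → ℤ) → R3 := fun k => vt (2 * s) 0 k with hzc
  set z : (Fin 3 → ℤ) → E3 := fun k => P3.symm (zc k) with hz
  have hex : ∀ k, ∃ A : E3 ≃ᵃ[ℝ] E3, k ∈ Q →
      GR p (e3 f) (D3 G) N η' σ s ρ0 (z k) (P3 ⁻¹' K') A := by
    intro k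
    by_cases hk : k ∈ Q
    · obtain ⟨A, hA⟩ := gr_of_gb hp1 hκ hκ1 hη0 hs hσ (by linarith) (hGB k hk) (hQK' k hk) hρ0
      rw [hηη] at hA
      exact ⟨A, fun _ => hA⟩
    · exact ⟨AffineEquiv.refl ℝ E3, fun h => absurd h hk⟩
  choose A hA using hex
  set B : (Fin 3 → ℤ) → Set E3 := fun k => closedBall (z k) s with hB
  have hBO : ∀ k ∈ Q, B k ⊆ P3 ⁻¹' Om := by
    intro k hk
    rw [hB]
    change closedBall (P3.symm (zc k)) s ⊆ P3 ⁻¹' Om
    rw [← cel_preimage _ hs]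
    exact preimage_mono ((hQK k hk).trans hK)
  have hOm3 : IsOpen (P3 ⁻¹' Om) := isOpen_pre hO
  have hLa3 : IsOpen (P3 ⁻¹' La) := isOpen_pre hL
  have hom : Hom3 (e3 f) (P3 ⁻¹' Om) (P3 ⁻¹' La) := hom3_of hS.homeo
  -- the target near the cells
  have hwA : ∀ k ∈ Q, ∀ x ∈ B k, ρ0 / 2 ≤ w (A k x) := by
    intro k hk x hx
    obtain ⟨y, hy, hxy⟩ := (hA k hk).img x hx
    have h1 := hw.lip y (A k x)
    have h2 := hρ y hy
    rw [norm_sub_rev] at h1
    linarith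
  have hwt : ∀ k ∈ Q, ∀ x ∈ B k, min t (w (A k x)) = t := fun k hk x hx =>
    min_eq_left (hst2.trans (hwA k hk x hx))
  have hAL : ∀ k ∈ Q, ∀ x ∈ B k, A k x ∈ P3 ⁻¹' La := by
    intro k hk x hx
    by_contra hno
    have h1 := hw.off _ hno
    have h2 := hwA k hk x hx
    linarith
  -- the bricks
  set r : ℝ := (1 - 3 * σ) * s with hr
  set X : Set F := {c | ∃ k ∈ Q, c.1.set ⊆ A k '' closedBall (z k) r} with hX
  have hkk : ∀ c : F, ∃ k, c ∈ X → k ∈ Q ∧ c.1.set ⊆ A k '' closedBall (z k) r := by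
    intro c
    by_cases hc : c ∈ X
    · obtain ⟨k, hk, hk'⟩ := hc
      exact ⟨k, fun _ => ⟨hk, hk'⟩⟩
    · exact ⟨0, fun h => absurd h hc⟩
  choose kk hkk using hkk
  have hrs : r ≤ s := hrad2.trans (hrad1.trans hrad3)
  have hbig : ∀ k ∈ Q, ∀ c : F, c.1.set ⊆ A k '' closedBall (z k) r →
      c.1.sz ≤ t ∧ t ≤ 6 * c.1.sz := by
    intro k hk c hc
    obtain ⟨u, hu, hu'⟩ := hc (ctr_mem (BF.pos _ c.2))
    have hu2 : u ∈ B k := closedBall_subset_closedBall hrs hu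
    have h1 := hsz _ c.2 _ (ctr_mem (BF.pos _ c.2))
    have h2 := hsz' _ c.2 _ (ctr_mem (BF.pos _ c.2))
    rw [← hu', hwt k hk u hu2] at h1 h2
    exact ⟨h1, h2⟩
  have hin : ∀ k ∈ Q, ∀ c : F, c.1.set ⊆ A k '' closedBall (z k) r →
      cbx c.1 2 ⊆ A k '' closedBall (z k) ((1 - 2 * σ) * s) := by
    intro k hk c hc
    refine cbx_two_sub (BF.pos _ c.2) hc (hbig k hk c hc).1 hN0.le (hA k hk).inv ?_
    rw [hr, ht, ← mul_assoc, hNτ]
    linarith
  have hni : ∀ k ∈ Q, ∀ x ∈ P3 ⁻¹' Om, e3 f x ∈ A k '' closedBall (z k) ((1 - 2 * σ) * s) →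
      x ∈ closedBall (z k) ((1 - σ) * s) := fun k hk =>
    noint3 hLa3 hom hs hσ hσ1 hN0 (hA k hk).inv (hBO k hk) hc1 (hA k hk).c0
  -- uniqueness of the cube of a brick
  have huniq : ∀ k ∈ Q, ∀ k' ∈ Q, ∀ c : F, c.1.set ⊆ A k '' closedBall (z k) r →
      c.1.set ⊆ A k' '' closedBall (z k') r → k = k' := by
    intro k hk k' hk' c hc hc'
    obtain ⟨fi, h1, h2, h3, h4, h5, h6⟩ := hom
    have hctr := ctr_mem (BF.pos _ c.2)
    have hcL : ctr c.1 ∈ P3 ⁻¹' La := BF.sub _ c.2 hctr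
    have e1 : closedBall (z k) r ⊆ closedBall (z k) ((1 - 2 * σ) * s) :=
      closedBall_subset_closedBall hrad2
    have e2 : closedBall (z k') r ⊆ closedBall (z k') ((1 - 2 * σ) * s) :=
      closedBall_subset_closedBall hrad2
    have hx := h2 hcL
    have hy : e3 f (fi (ctr c.1)) = ctr c.1 := h4 _ hcL
    refine cell_unique hs hσ 0 (x := fi (ctr c.1)) ?_ ?_
    · refine hni k hk _ hx ?_
      rw [hy]
      exact image_mono e1 (hc hctr)
    · refine hni k' hk' _ hx ?_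
      rw [hy]
      exact image_mono e2 (hc' hctr)
  have hpos := BF.pos
  set A' : F → E3 ≃ᵃ[ℝ] E3 := fun c => A (kk c) with hA'
  set lamf : F → ℝ := fun _ => (lam : ℝ) with hlamf
  have hKs : ∀ c ∈ X, Kor F A' lamf c ⊆ closedBall (z (kk c)) ((1 - 2 * σ) * s) := by
    intro c hc
    obtain ⟨hk, hk'⟩ := hkk c hc
    exact Kor_sub (hpos _ c.2) (by simp only [hlamf]; linarith) (hin _ hk c hk')
  have hKB : ∀ c ∈ X, Kor F A' lamf c ⊆ B (kk c) := fun c hc =>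
    (hKs c hc).trans (closedBall_subset_closedBall (hrad1.trans hrad3))
  have hsep : ∀ C ∈ F, ∀ C' ∈ F, C ≠ C' → ∃ k, C.hi k ≤ C'.lo k ∨ C'.hi k ≤ C.lo k :=
    fun C hC C' hC' hne => BF.inv.disj hC hC' (hpos _ hC) (hpos _ hC') hne
  have hdisj : ∀ c ∈ X, ∀ c' ∈ X, c ≠ c' → Disjoint (Kor F A' lamf c) (Kor F A' lamf c') := by
    intro c hc c' hc' hne
    rw [Set.disjoint_left]
    intro x hx hx'
    have e1 : closedBall (z (kk c)) ((1 - 2 * σ) * s) ⊆ closedBall (z (kk c)) ((1 - σ) * s) :=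
      closedBall_subset_closedBall hrad1
    have e2 : closedBall (z (kk c')) ((1 - 2 * σ) * s) ⊆ closedBall (z (kk c')) ((1 - σ) * s) :=
      closedBall_subset_closedBall hrad1
    have hkeq : kk c = kk c' :=
      cell_unique hs hσ 0 (e1 (hKs c hc hx)) (e2 (hKs c' hc' hx'))
    have h1 : A' c x ∈ cbx c.1 lam := hx
    have h2 : A' c' x ∈ cbx c'.1 lam := hx'
    have h3 : A' c' = A' c := by simp only [hA', hkeq]
    rw [h3] at h2
    exact Set.disjoint_left.1 (cbx_disj (hpos _ c.2) (hpos _ c'.2) hl1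
      (hsep _ c.2 _ c'.2 (fun h => hne (Subtype.ext h)))) h1 h2
  refine ⟨F, X, A', BF, hcmp, hdy, ?_, ?_, ?_, ?_, hdisj, ?_, ?_⟩
  · intro C hC x hx
    exact (hsz C hC x hx).trans (min_le_right _ _)
  · intro c hc
    obtain ⟨hk, hk'⟩ := hkk c hc
    obtain ⟨hb1, hb2⟩ := hbig _ hk c hk'
    have hl0 : 0 < (lam : ℝ) := by linarith
    have h1 : τ / 24 * s ≤ lam * c.1.sz := by
      have : τ / 24 * s = 1 / 4 * (t / 6) := by rw [ht]; ring
      rw [this]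
      have h2 : t / 6 ≤ c.1.sz := by linarith
      exact mul_le_mul hl h2 (by positivity) hl0.le
    refine exIn_of hp1 hLa3 hom hs hσ hσ1 hN0 (hBO _ hk) hη' hc1 (hA _ hk) (hpos _ c.2) hl0
      (by linarith) (by norm_num) (hin _ hk c hk') ?_ ?_
    · calc η' * s ≤ κ1 * (τ / 24) * s := by gcongr
        _ = κ1 * (τ / 24 * s) := by ring
        _ ≤ κ1 * (lam * c.1.sz) := by gcongr
    · calc N ^ 3 * (N ^ p * (η' * s ^ 3)) = N ^ 3 * (N ^ p * η') * s ^ 3 := by ring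
        _ ≤ κ1 * (τ / 24) ^ 3 * s ^ 3 := by gcongr
        _ = κ1 * (τ / 24 * s) ^ 3 := by ring
        _ ≤ κ1 * (lam * c.1.sz) ^ 3 := by gcongr
  · intro c hc
    exact (hA _ (hkk c hc).1).nrm
  · intro c hc
    exact (hKB c hc).trans (hBO _ (hkk c hc).1)
  · -- energies
    have hFc : Countable F := BF.countable.to_subtype
    have h1 := tsum_cells (μ := (volume : Measure E3)) (ι := X) (κ := Fin 3 → ℤ)
      (K := fun c : X => Kor F A' lamf c) (B := B) (fun c => (isClosed_Kor _).measurableSet)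
      (fun c c' hne => hdisj _ c.2 _ c'.2 (fun h => hne (Subtype.ext h)))
      (fun k => measurableSet_closedBall) (fun c => kk c) Q (fun c => (hkk _ c.2).1)
      (fun c => hKB _ c.2) (fun k x => ‖D3 G x - lin (A k)‖ₑ ^ p)
    refine h1.trans ?_
    calc ∑ k ∈ Q, ∫⁻ x in B k, ‖D3 G x - lin (A k)‖ₑ ^ p
        ≤ ∑ _k ∈ Q, ENNReal.ofReal (η' / 8 * (2 * s) ^ 3) := by
          refine Finset.sum_le_sum fun k hk => (hA k hk).lp.trans ?_
          apply ENNReal.ofReal_le_ofReal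
          apply le_of_eq
          ring
      _ ≤ ENNReal.ofReal (η' / 8 * V) :=
          sum_const_le hVt hs 0 Q (fun k hk => (hQK k hk).trans hK) (by positivity)
      _ ≤ ENNReal.ofReal h := by
          apply ENNReal.ofReal_le_ofReal
          have : 0 ≤ η' * V := by positivity
          linarith
  · -- volumes
    set U : Set E3 := ⋃ c ∈ X, Kor F A' lamf c with hU
    set cst : ℝ := 6 * (3 / 2 * σ) + 3 * N * t / s + 3 * (1 - lam) with hcst
    have hcst' : cst = 12 * σ + 3 * (1 - lam) := by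
      have : 3 * N * t / s = 3 * (N * τ) := by rw [ht]; field_simp
      rw [hcst, this, hNτ]; ring
    have hcst0 : 0 ≤ cst := by rw [hcst']; linarith
    have hfill : ∀ k ∈ Q, volume (cel Cb (zc k) s \ P3.symm ⁻¹' U) ≤
        ENNReal.ofReal (cst * (2 * s) ^ 3) := by
      intro k hk
      have h1 := fill (A := A k) (K := N) hN0.le (hA k hk).inv (z := z k) (s := s)
        (σ := 3 / 2 * σ) (t := t) (lam := lam) hs (by positivity) ht0.le (by linarith) hl1.le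
        BF.countable hpos hsep (fun x hx => BF.cov _ (hAL k hk x hx))
        (fun C hC x hx hxC => by
          have h2 := hsz C hC _ hxC
          exact h2.trans (min_le_left _ _))
        (w := fun C => zz C lam) (fun C hC => by
          rw [← cbx_eq_bxc]; exact cbx_one_sub (hpos _ hC) hl1.le)
        (T := fun C => A k ⁻¹' cbx C lam) (fun C hC _ => by rw [cbx_eq_bxc])
      have h2 : P3 ⁻¹' (cel Cb (zc k) s \ P3.symm ⁻¹' U) ⊆ closedBall (z k) s \
          ⋃ C ∈ {C ∈ F | C.set ⊆ A k '' closedBall (z k) ((1 - 2 * (3 / 2 * σ)) * s)},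
            A k ⁻¹' cbx C lam := by
        rintro x ⟨hx1, hx2⟩
        have hx3 : x ∈ closedBall (z k) s := by
          have : x ∈ P3 ⁻¹' cel Cb (zc k) s := hx1
          rwa [cel_preimage _ hs] at this
        refine ⟨hx3, fun hx4 => hx2 ?_⟩
        obtain ⟨C, ⟨hC, hCs⟩, hxC⟩ := mem_iUnion₂.1 hx4
        have hr' : (1 - 2 * (3 / 2 * σ)) * s = r := by rw [hr]; ring
        rw [hr'] at hCs
        have hcX : (⟨C, hC⟩ : F) ∈ X := ⟨k, hk, hCs⟩
        have hke : kk ⟨C, hC⟩ = k :=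
          huniq _ (hkk _ hcX).1 _ hk ⟨C, hC⟩ (hkk _ hcX).2 hCs
        change P3.symm (P3 x) ∈ U
        rw [P3.symm_apply_apply]
        refine mem_iUnion₂.2 ⟨⟨C, hC⟩, hcX, ?_⟩
        change A (kk ⟨C, hC⟩) x ∈ cbx C lam
        rw [hke]
        exact hxC
      calc volume (cel Cb (zc k) s \ P3.symm ⁻¹' U)
          = volume (P3 ⁻¹' (cel Cb (zc k) s \ P3.symm ⁻¹' U)) := (vol_P3 _).symm
        _ ≤ _ := (measure_mono h2).trans h1
    have hsub : (Om ∩ {x | (Gmat G x).det ≠ 0}) \ P3.symm ⁻¹' U ⊆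
        ((Om ∩ {x | (Gmat G x).det ≠ 0}) \ ⋃ k ∈ Q, cel Cb (zc k) s) ∪
          ⋃ k ∈ Q, (cel Cb (zc k) s \ P3.symm ⁻¹' U) := by
      rintro x ⟨hx1, hx2⟩
      by_cases hxQ : x ∈ ⋃ k ∈ Q, cel Cb (zc k) s
      · right
        obtain ⟨k, hk, hxk⟩ := mem_iUnion₂.1 hxQ
        exact mem_iUnion₂.2 ⟨k, hk, hxk, hx2⟩
      · left; exact ⟨hx1, hxQ⟩
    calc _ ≤ volume ((Om ∩ {x | (Gmat G x).det ≠ 0}) \ ⋃ k ∈ Q, cel Cb (zc k) s) +
          volume (⋃ k ∈ Q, (cel Cb (zc k) s \ P3.symm ⁻¹' U)) :=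
          (measure_mono hsub).trans (measure_union_le _ _)
      _ ≤ ENNReal.ofReal (ε / 2) + ∑ _k ∈ Q, ENNReal.ofReal (cst * (2 * s) ^ 3) := by
          refine add_le_add hvol ?_
          exact (measure_biUnion_finset_le _ _).trans (Finset.sum_le_sum hfill)
      _ ≤ ENNReal.ofReal (ε / 2) + ENNReal.ofReal (cst * V) := by
          gcongr
          exact sum_const_le hVt hs 0 Q (fun k hk => (hQK k hk).trans hK) hcst0
      _ = ENNReal.ofReal (ε / 2 + cst * V) := by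
          rw [ENNReal.ofReal_add (by positivity) (by positivity)]
      _ ≤ ENNReal.ofReal (ε + 3 * (1 - lam) * V) := by
          apply ENNReal.ofReal_le_ofReal
          have e5 : cst * V = 12 * σ * V + 3 * (1 - lam) * V := by rw [hcst']; ring
          rw [e5]
          linarith

end

end Crest.Agent.R096.Br_695
end

-- ▼ part R096/Br6_695

/-!
Row 96 (S0127), helper695.  **`BFk p` for `2 < p < 3` from `EA p`.**
-/

set_option autoImplicit false
set_option linter.unusedSectionVars false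
set_option linter.style.longLine false

open MeasureTheory Set Filter Metric Module
open scoped ENNReal NNReal Topology

namespace Crest.Agent.R096.Br_695

open Crest.AnalysisR.VecCalc3 Crest.AnalysisR.Sobolev
open Crest.Agent.R96.Lu_538 Crest.Agent.R96.Intr_538
open Crest.Agent.R096.Sk_962 (SH Gr)
open Crest.Agent.R096.Sk4_663 (Zd BFs lintegral_of_memLp)
open Crest.Agent.R096.Bsp_628
open Crest.Agent.R096.Bxs_627 hiding E3
open Crest.Agent.R96.En10_199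
open Crest.Agent.R096.SkC1_961 (E3 Hom3)
open Crest.Agent.R096.Er_594
open Crest.Agent.R096.EaX_766 (cbx lin RatA ExIn Kor EA)
open Crest.Agent.R096.ThC6_766 (Scale exists_scale)
open Crest.Agent.R096.Brk5_582 (Cmp)

noncomputable section

/-- a scale function of the target, below the displacement -/
theorem exists_w {Om La : Set R3} (hL : IsOpen La) {f : R3 → R3} (hf : IsHomeomorphOn f Om La)
    {η : R3 → ℝ} (hη : ContinuousOn η Om) (hη0 : ∀ x ∈ Om, 0 < η x) {C : ℝ} (hC : 0 ≤ C) :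
    ∃ w : E3 → ℝ, Scale (P3 ⁻¹' La) w ∧ ∀ x ∈ Om, 4 * (C * w (P3.symm (f x))) ≤ η x := by
  obtain ⟨fi, h1, h2, h3, h4, h5, h6⟩ := hf
  have hc : ContinuousOn (fun y => η (fi y) / (2 * (C + 1))) La := by
    have : ContinuousOn (fun y => η (fi y)) La := hη.comp h6 (fun y hy => h2 hy)
    exact this.div_const _
  have hp : ∀ y ∈ La, 0 < η (fi y) / (2 * (C + 1)) := fun y hy => by
    have := hη0 _ (h2 hy)
    positivity
  obtain ⟨w, hw, hwh⟩ := exists_scale hL (h := fun y => η (fi y) / (2 * (C + 1))) (by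
    intro x hx
    have e1 : ContinuousAt (fun y => η (fi y) / (2 * (C + 1))) x :=
      hc.continuousAt (hL.mem_nhds hx)
    have e2 : ∀ᶠ y in 𝓝 x, (η (fi x) / (2 * (C + 1))) / 2 < η (fi y) / (2 * (C + 1)) :=
      e1.eventually (lt_mem_nhds (by have := hp x hx; linarith))
    obtain ⟨r, hr, hb⟩ := Metric.eventually_nhds_iff_ball.1 e2
    exact ⟨r, hr, _, by have := hp x hx; positivity, fun y hy => (hb y hy).le⟩)
  refine ⟨fun y => w (P3 y) / 2, ⟨?_, ?_, ?_, ?_, ?_⟩, ?_⟩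
  · intro x
    have := hw.nonneg (P3 x)
    positivity
  · intro x y
    have e1 := hw.lip (P3 x) (P3 y)
    have e2 := Crest.Agent.R096.Er_594.norm_P3_le (x - y)
    rw [map_sub] at e2
    change w (P3 x) / 2 ≤ w (P3 y) / 2 + ‖x - y‖ / 8
    linarith
  · intro x hx
    have := hw.pos (P3 x) hx
    positivity
  · intro x hx
    rw [hw.off (P3 x) hx]; simp
  · intro x
    have := hw.le_one (P3 x)
    change w (P3 x) / 2 ≤ 1
    linarith
  · intro x hx
    have e1 := hwh (f x) (h1 hx)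
    rw [h3 x hx, le_div_iff₀ (by positivity)] at e1
    change 4 * (C * (w (P3 (P3.symm (f x))) / 2)) ≤ η x
    rw [P3.apply_symm_apply]
    have e2 := hw.nonneg (f x)
    nlinarith

/-- absolute continuity of the energy -/
theorem exists_ac {p : ℝ} (hp : 1 ≤ p) {Om La : Set R3} (hOb : Bornology.IsBounded Om) {f : R3 → R3} {G : Fin 3 → R3 → R3} (hS : SH p Om La f G) {e : ℝ}
    (he : 0 < e) :
    ∃ r : ℝ, 0 < r ∧ ∀ T ⊆ Om, volume T ≤ ENNReal.ofReal r →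
      ∫⁻ x in T, (1 + En p G x) ≤ ENNReal.ofReal e := by
  have hfin : ∫⁻ x in Om, (1 + En p G x) ≠ ∞ := by
    rw [lintegral_add_left measurable_const]
    refine ENNReal.add_ne_top.2 ⟨?_, ?_⟩
    · rw [setLIntegral_const, one_mul]; exact hOb.measure_lt_top.ne
    · unfold En
      rw [lintegral_finsetSum' _ fun j _ => ((hS.memG j).1.aemeasurable.enorm).pow_const _]
      exact ENNReal.sum_ne_top.2 fun k _ => lintegral_of_memLp hp (hS.memG k)
  obtain ⟨δ, hδ, hδ'⟩ := exists_pos_setLIntegral_lt_of_measure_lt hfin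
    (ε := ENNReal.ofReal e) (by rw [ENNReal.ofReal_ne_zero_iff]; exact he)
  obtain ⟨r, hr0, hr⟩ := ENNReal.lt_iff_exists_nnreal_btwn.1 hδ
  refine ⟨r, by exact_mod_cast hr0, fun T hT hTv => ?_⟩
  have h1 : (volume.restrict Om) T < δ := by
    refine lt_of_le_of_lt (Measure.restrict_apply_le _ _) (lt_of_le_of_lt hTv ?_)
    rwa [ENNReal.ofReal_coe_nnreal]
  have h2 := hδ' T h1
  rw [Measure.restrict_restrict_of_subset hT] at h2
  exact h2.le

/-- numbers -/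
theorem exists_numbers {p e V N r : ℝ} (hp : 1 ≤ p) (he : 0 < e) (hV : 0 ≤ V) (hN : 1 ≤ N)
    (hr : 0 < r) :
    ∃ (e1 h : ℝ) (lam : ℚ), 0 < e1 ∧ 0 < h ∧ 1 / 4 ≤ (lam : ℝ) ∧ (lam : ℝ) < 1 ∧
      3 * (1 - lam) * V ≤ r / 2 ∧
      3 * (2 ^ (p - 1) * (2 ^ (p - 1) * ((e1 + ((lam : ℝ)⁻¹ - 1) ^ p) * N ^ p * V) + h)) ≤ e ∧
      3 * (e1 * ((1 + N ^ p) * V) + e / 6) ≤ e := by
  set a : ℝ := 2 ^ (p - 1) with ha
  have ha0 : 0 < a := by positivity
  have hNp : 0 < N ^ p := by positivity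
  set q : ℝ := e / (6 * a ^ 2 * N ^ p * (V + 1)) with hq
  have hq0 : 0 < q := by positivity
  set m : ℝ := min 1 (q / 2) with hm
  have hm0 : 0 < m := by positivity
  set e1 : ℝ := min (q / 2) (e / (6 * (1 + N ^ p) * (V + 1))) with he1
  have he10 : 0 < e1 := by positivity
  have hl0 : max (1 / 4) (max (1 - r / (6 * (V + 1))) (1 / (1 + m))) < 1 := by
    refine max_lt (by norm_num) (max_lt ?_ ?_)
    · have : 0 < r / (6 * (V + 1)) := by positivity
      linarith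
    · rw [div_lt_one (by positivity)]; linarith
  obtain ⟨lam, hlam1, hlam2⟩ := exists_rat_btwn hl0
  have h1 : 1 / 4 ≤ (lam : ℝ) := (le_max_left _ _).trans hlam1.le
  have h2 : 1 - r / (6 * (V + 1)) ≤ (lam : ℝ) :=
    (le_max_left _ _).trans ((le_max_right _ _).trans hlam1.le)
  have h3 : 1 / (1 + m) ≤ (lam : ℝ) :=
    (le_max_right _ _).trans ((le_max_right _ _).trans hlam1.le)
  have hlam0 : 0 < (lam : ℝ) := by linarith
  refine ⟨e1, e / (6 * a), lam, he10, by positivity, h1, hlam2, ?_, ?_, ?_⟩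
  · have h4 : 1 - (lam : ℝ) ≤ r / (6 * (V + 1)) := by linarith
    rw [le_div_iff₀ (by positivity)] at h4
    have h5 : 0 ≤ 1 - (lam : ℝ) := by linarith
    nlinarith
  · have h4 : (lam : ℝ)⁻¹ - 1 ≤ m := by
      have h5 : (lam : ℝ)⁻¹ ≤ 1 + m := by
        rw [inv_le_comm₀ hlam0 (by positivity), ← one_div]; exact h3
      linarith
    have h5 : 0 ≤ (lam : ℝ)⁻¹ - 1 := by
      have := (one_le_inv₀ hlam0).2 hlam2.le
      linarith
    have h6 : ((lam : ℝ)⁻¹ - 1) ^ p ≤ q / 2 := by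
      calc ((lam : ℝ)⁻¹ - 1) ^ p ≤ m ^ p := Real.rpow_le_rpow h5 h4 (by linarith)
        _ ≤ m ^ (1 : ℝ) := Real.rpow_le_rpow_of_exponent_ge hm0 (min_le_left _ _) hp
        _ = m := Real.rpow_one m
        _ ≤ q / 2 := min_le_right _ _
    have h7 : e1 + ((lam : ℝ)⁻¹ - 1) ^ p ≤ q := by
      have : e1 ≤ q / 2 := min_le_left _ _
      linarith
    have h8 : (e1 + ((lam : ℝ)⁻¹ - 1) ^ p) * N ^ p * V ≤ q * N ^ p * (V + 1) := by
      have h9 : 0 ≤ e1 + ((lam : ℝ)⁻¹ - 1) ^ p := by positivity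
      gcongr
      linarith
    have h9 : a * (q * N ^ p * (V + 1)) = e / (6 * a) := by
      rw [hq]; field_simp
    calc 3 * (a * (a * ((e1 + ((lam : ℝ)⁻¹ - 1) ^ p) * N ^ p * V) + e / (6 * a)))
        ≤ 3 * (a * (a * (q * N ^ p * (V + 1)) + e / (6 * a))) := by gcongr
      _ = e := by rw [h9]; field_simp; ring
  · have h4 : e1 ≤ e / (6 * (1 + N ^ p) * (V + 1)) := min_le_right _ _
    have h5 : e1 * ((1 + N ^ p) * V) ≤ e / 6 := by
      calc e1 * ((1 + N ^ p) * V) ≤ e / (6 * (1 + N ^ p) * (V + 1)) * ((1 + N ^ p) * (V + 1)) := by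
            gcongr
            linarith
        _ = e / 6 := by field_simp
    linarith

theorem enorm_add_le' {E : Type*} [SeminormedAddCommGroup E] (a b : E) :
    ‖a + b‖ₑ ≤ ‖a‖ₑ + ‖b‖ₑ := by
  rw [← ofReal_norm, ← ofReal_norm, ← ofReal_norm,
    ← ENNReal.ofReal_add (norm_nonneg _) (norm_nonneg _)]
  exact ENNReal.ofReal_le_ofReal (norm_add_le _ _)

/-- the closed stars of the bricks are in convex compact parts of the target -/
theorem star_of_scale {La : Set E3} {w : E3 → ℝ} (hw : Scale La w) {F : Set (Bx (Fin 3))} {δ κ0 : ℝ} (BF : BoxFoam La F δ κ0) (hcmp : Cmp F 6)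
    (hsz : ∀ C ∈ F, ∀ x ∈ C.set, C.sz ≤ w x) :
    ∀ c : F, ∃ S : Set E3, IsCompact S ∧ Convex ℝ S ∧ S ⊆ La ∧
      ∀ c' : F, (c'.1.set ∩ c.1.set).Nonempty → c'.1.set ⊆ interior S := by
  intro c
  have hx : ctr c.1 ∈ c.1.set := ctr_mem (BF.pos _ c.2)
  have hxL := BF.sub _ c.2 hx
  have hw0 := hw.pos _ hxL
  refine ⟨closedBall (ctr c.1) (15 / 2 * w (ctr c.1)), isCompact_closedBall _ _,
    convex_closedBall _ _, ?_, ?_⟩
  · intro y hy
    by_contra hno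
    have h1 := hw.lip (ctr c.1) y
    rw [hw.off y hno] at h1
    rw [mem_closedBall, dist_comm, dist_eq_norm] at hy
    linarith
  · rintro c' ⟨z, hz', hz⟩ y hy
    have h1 : dist y z ≤ c'.1.sz := dist_le_sz hy hz' (BF.pos _ c'.2)
    have h2 : dist z (ctr c.1) ≤ c.1.sz := dist_le_sz hz hx (BF.pos _ c.2)
    have h3 : c'.1.sz ≤ 6 * c.1.sz := hcmp c' c ⟨z, hz', hz⟩
    have h4 := hsz _ c.2 _ hx
    have h5 : y ∈ ball (ctr c.1) (15 / 2 * w (ctr c.1)) := by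
      rw [mem_ball]
      have := dist_triangle y z (ctr c.1)
      linarith
    exact (interior_maximal ball_subset_closedBall isOpen_ball) h5

/-- energy on the cores -/
theorem core_energy {p : ℝ} (hp : 1 ≤ p) {ι : Type*} [Countable ι] {Om : Set E3}
    {D : E3 → E3 →L[ℝ] E3} (hD : AEStronglyMeasurable D (volume.restrict Om)) {g : E3 → E3}
    {K : ι → Set E3} (hKO : ∀ i, K i ⊆ Om) (hKm : ∀ i, MeasurableSet (K i))
    (hd : Pairwise (Function.onFun Disjoint K)) {l : ι → E3 →L[ℝ] E3} {N : ℝ} (hN0 : 0 ≤ N)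
    (hN : ∀ i, ‖l i‖ ≤ N) {lam : ℝ} (hl0 : 0 < lam) (hl1 : lam ≤ 1) {e1 h V : ℝ} (he1 : 0 ≤ e1)
    (hh : 0 ≤ h) (hV0 : 0 ≤ V)
    (h1 : ∀ i, ∫⁻ x in K i, ‖fderiv ℝ g x - lam⁻¹ • l i‖ₑ ^ p ≤
      ENNReal.ofReal e1 * (‖l i‖ₑ ^ p * volume (K i)))
    (h2 : ∑' i, ∫⁻ x in K i, ‖D x - l i‖ₑ ^ p ≤ ENNReal.ofReal h)
    (hV : volume Om ≤ ENNReal.ofReal V) :
    ∫⁻ x in ⋃ i, K i, ‖fderiv ℝ g x - D x‖ₑ ^ p ≤
      ENNReal.ofReal (2 ^ (p - 1) * (2 ^ (p - 1) * ((e1 + (lam⁻¹ - 1) ^ p) * N ^ p * V) + h)) := by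
  have hp0 : 0 ≤ p := by linarith
  set a : ℝ≥0∞ := ENNReal.ofReal (2 ^ (p - 1)) with ha
  have ha' : (2:ℝ≥0∞) ^ (p - 1) = a := by
    rw [ha, ← ENNReal.ofReal_rpow_of_pos (by norm_num)]; norm_num
  have ht : a ≠ ∞ := ENNReal.ofReal_ne_top
  have hl2 : 0 ≤ lam⁻¹ - 1 := by
    have := (one_le_inv₀ hl0).2 hl1
    linarith
  set b : ι → ℝ≥0∞ := fun i => ENNReal.ofReal ((lam⁻¹ - 1) ^ p) * ‖l i‖ₑ ^ p with hb
  have hpt : ∀ i x, ‖fderiv ℝ g x - D x‖ₑ ^ p ≤
      a * (a * (‖fderiv ℝ g x - lam⁻¹ • l i‖ₑ ^ p + b i) + ‖D x - l i‖ₑ ^ p) := by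
    intro i x
    have e1 : fderiv ℝ g x - D x = ((fderiv ℝ g x - lam⁻¹ • l i) + (lam⁻¹ - 1) • l i) +
        (-(D x - l i)) := by
      module
    have e2 : ‖(lam⁻¹ - 1) • l i‖ₑ ^ p = b i := by
      rw [enorm_smul, ENNReal.mul_rpow_of_nonneg _ _ hp0, hb]
      congr 1
      rw [Real.enorm_eq_ofReal hl2, ENNReal.ofReal_rpow_of_nonneg hl2 hp0]
    have e3 : ‖((fderiv ℝ g x - lam⁻¹ • l i) + (lam⁻¹ - 1) • l i) + (-(D x - l i))‖ₑ ≤
        ‖(fderiv ℝ g x - lam⁻¹ • l i) + (lam⁻¹ - 1) • l i‖ₑ + ‖-(D x - l i)‖ₑ := by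
      exact enorm_add_le' _ _
    have e4 : ‖(fderiv ℝ g x - lam⁻¹ • l i) + (lam⁻¹ - 1) • l i‖ₑ ≤
        ‖fderiv ℝ g x - lam⁻¹ • l i‖ₑ + ‖(lam⁻¹ - 1) • l i‖ₑ := by
      exact enorm_add_le' _ _
    rw [e1]
    calc _ ≤ (‖(fderiv ℝ g x - lam⁻¹ • l i) + (lam⁻¹ - 1) • l i‖ₑ + ‖-(D x - l i)‖ₑ) ^ p :=
          ENNReal.rpow_le_rpow e3 hp0
      _ ≤ a * (‖(fderiv ℝ g x - lam⁻¹ • l i) + (lam⁻¹ - 1) • l i‖ₑ ^ p +
            ‖-(D x - l i)‖ₑ ^ p) := by
          rw [← ha']; exact ENNReal.rpow_add_le_mul_rpow_add_rpow _ _ hp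
      _ ≤ a * (a * (‖fderiv ℝ g x - lam⁻¹ • l i‖ₑ ^ p + b i) + ‖D x - l i‖ₑ ^ p) := by
          rw [enorm_neg]
          gcongr
          calc _ ≤ (‖fderiv ℝ g x - lam⁻¹ • l i‖ₑ + ‖(lam⁻¹ - 1) • l i‖ₑ) ^ p :=
                ENNReal.rpow_le_rpow e4 hp0
            _ ≤ a * (‖fderiv ℝ g x - lam⁻¹ • l i‖ₑ ^ p + ‖(lam⁻¹ - 1) • l i‖ₑ ^ p) := by
                rw [← ha']; exact ENNReal.rpow_add_le_mul_rpow_add_rpow _ _ hp
            _ = _ := by rw [e2]
  have hNp : ∀ i, ‖l i‖ₑ ^ p ≤ ENNReal.ofReal (N ^ p) := by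
    intro i
    rw [← ofReal_norm, ENNReal.ofReal_rpow_of_nonneg (norm_nonneg _) hp0]
    exact ENNReal.ofReal_le_ofReal (Real.rpow_le_rpow (norm_nonneg _) (hN i) hp0)
  have hi : ∀ i, ∫⁻ x in K i, ‖fderiv ℝ g x - D x‖ₑ ^ p ≤
      a * (a * (ENNReal.ofReal ((e1 + (lam⁻¹ - 1) ^ p) * N ^ p) * volume (K i)) +
        ∫⁻ x in K i, ‖D x - l i‖ₑ ^ p) := by
    intro i
    have hm : AEMeasurable (fun x => ‖D x - l i‖ₑ ^ p) (volume.restrict (K i)) := by
      have h3 : AEStronglyMeasurable D (volume.restrict (K i)) :=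
        hD.mono_measure (Measure.restrict_mono (hKO i) le_rfl)
      exact ((h3.sub aestronglyMeasurable_const).enorm).pow_const p
    calc ∫⁻ x in K i, ‖fderiv ℝ g x - D x‖ₑ ^ p
        ≤ ∫⁻ x in K i, a * (a * (‖fderiv ℝ g x - lam⁻¹ • l i‖ₑ ^ p + b i) +
            ‖D x - l i‖ₑ ^ p) := lintegral_mono (hpt i)
      _ = a * (a * ((∫⁻ x in K i, ‖fderiv ℝ g x - lam⁻¹ • l i‖ₑ ^ p) + b i * volume (K i)) +
            ∫⁻ x in K i, ‖D x - l i‖ₑ ^ p) := by
          rw [lintegral_const_mul' _ _ ht, lintegral_add_right' _ hm,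
            lintegral_const_mul' _ _ ht, lintegral_add_right _ measurable_const,
            setLIntegral_const]
      _ ≤ _ := by
          gcongr
          calc (∫⁻ x in K i, ‖fderiv ℝ g x - lam⁻¹ • l i‖ₑ ^ p) + b i * volume (K i)
              ≤ ENNReal.ofReal e1 * (ENNReal.ofReal (N ^ p) * volume (K i)) +
                ENNReal.ofReal ((lam⁻¹ - 1) ^ p) * ENNReal.ofReal (N ^ p) * volume (K i) := by
                refine add_le_add ((h1 i).trans ?_) ?_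
                · gcongr; exact hNp i
                · simp only [hb]
                  gcongr
                  exact hNp i
            _ = _ := by
                rw [ENNReal.ofReal_mul (by positivity), ENNReal.ofReal_add he1 (by positivity)]
                ring
  have hvol : ∑' i, volume (K i) ≤ ENNReal.ofReal V := by
    rw [← measure_iUnion hd hKm]
    exact (measure_mono (iUnion_subset hKO)).trans hV
  calc ∫⁻ x in ⋃ i, K i, ‖fderiv ℝ g x - D x‖ₑ ^ p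
      ≤ ∑' i, ∫⁻ x in K i, ‖fderiv ℝ g x - D x‖ₑ ^ p := lintegral_iUnion_le _ _
    _ ≤ ∑' i, a * (a * (ENNReal.ofReal ((e1 + (lam⁻¹ - 1) ^ p) * N ^ p) * volume (K i)) +
        ∫⁻ x in K i, ‖D x - l i‖ₑ ^ p) := ENNReal.tsum_le_tsum hi
    _ = a * (a * (ENNReal.ofReal ((e1 + (lam⁻¹ - 1) ^ p) * N ^ p) * ∑' i, volume (K i)) +
        ∑' i, ∫⁻ x in K i, ‖D x - l i‖ₑ ^ p) := by
        rw [ENNReal.tsum_mul_left, ENNReal.tsum_add, ENNReal.tsum_mul_left, ENNReal.tsum_mul_left]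
    _ ≤ a * (a * (ENNReal.ofReal ((e1 + (lam⁻¹ - 1) ^ p) * N ^ p) * ENNReal.ofReal V) +
        ENNReal.ofReal h) := by gcongr
    _ = _ := by
        have h3 : 0 ≤ (e1 + (lam⁻¹ - 1) ^ p) * N ^ p := by positivity
        rw [ha, ← ENNReal.ofReal_mul h3, ← ENNReal.ofReal_mul (by positivity),
          ← ENNReal.ofReal_add (by positivity) hh, ← ENNReal.ofReal_mul (by positivity)]

/-- the structural constant of the dyadic foam -/
def Mf : ℝ := max (4 / dl (Fin 3) 3) 2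

set_option maxHeartbeats 1000000 in
/-- **RANGE `2 < p < 3`.** -/
theorem bfk_of_ea {p : ℝ} (hp : 2 < p) (hp3 : p < 3) (hEA : EA p) : BFk p := by
  classical
  have hp1 : 1 ≤ p := by linarith
  have hp0 : 0 ≤ p := by linarith
  have hM : 4 / dl (Fin 3) 3 ≤ Mf := le_max_left _ _
  have hM2 : 2 ≤ Mf := le_max_right _ _
  obtain ⟨C, hC0, hC⟩ := hEA δf 3 6 (1 / 4) (1 / 4) Mf δf_pos (by norm_num) (by norm_num)
    (by norm_num) (by norm_num) (by norm_num) le_rfl (by linarith)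
  refine ⟨3 * C * 2 ^ p, ?_⟩
  intro Om La f G hO hOb hOc hL hLb hLc hS η hη hη0 e he
  set V : ℝ := (volume Om).toReal with hV
  have hV0 : 0 ≤ V := ENNReal.toReal_nonneg
  have hVt : volume Om ≠ ∞ := hOb.measure_lt_top.ne
  have hVe : ENNReal.ofReal V = volume Om := ENNReal.ofReal_toReal hVt
  have hV3 : volume (P3 ⁻¹' Om) = ENNReal.ofReal V := by rw [vol_P3, hVe]
  obtain ⟨w, hw, hwη⟩ := exists_w hL hS.homeo hη hη0 (C := C) C.2
  obtain ⟨r, hr, hac⟩ := exists_ac hp1 hOb hS he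
  obtain ⟨N, hN1, HP⟩ := prep2 hp hO hOb hL hLb hS (half_pos hr) hw hM hM2
  obtain ⟨e1, h, lam, he1, hh, hl1, hl2, hn1, hn2, hn3⟩ := exists_numbers hp1 he hV0 hN1 hr
  have hl0 : 0 < (lam : ℝ) := by linarith
  have hN0 : 0 ≤ N := by linarith
  obtain ⟨κ1, hκ1, hC1⟩ := hC e1 he1 lam hl2
  obtain ⟨F, X, A, BF, hcmp, hdy, hsz, hEx, hnrm, hKO, hdisj, hen, hvol⟩ := HP h hh lam hl1 hl2 κ1 hκ1
  have hS3 := sh3_of hp1 hO hS
  obtain ⟨g, g1, g2, g3, g4, g5⟩ := hC1 (P3 ⁻¹' Om) (P3 ⁻¹' La) (e3 f) (D3 G) (isOpen_pre hO)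
    (isBounded_pre hOb) (isConnected_pre hOc) (isOpen_pre hL) (isBounded_pre hLb)
    (isConnected_pre hLc) hS3 0 1 one_pos F BF hcmp hdy
    (star_of_scale hw BF hcmp hsz) X (Or.inl hp3) A (fun _ => (lam : ℝ))
    (fun c _ => ⟨hl1, le_rfl, lam, rfl⟩) hEx (ENNReal.ofReal (e / 6))
    (ENNReal.ofReal_pos.2 (by positivity))
  set K3 : F → Set E3 := Kor F A (fun _ => (lam : ℝ)) with hK3
  set U : Set E3 := ⋃ c ∈ X, K3 c with hU
  have hUi : U = ⋃ c : X, K3 c := by rw [hU, biUnion_eq_iUnion]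
  have hFc : Countable F := BF.countable.to_subtype
  set K : Set R3 := P3.symm ⁻¹' U with hK
  have hKp : P3 ⁻¹' K = U := symm_pre U
  have hKOm : K ⊆ Om := by
    intro y hy
    have h1 : P3.symm y ∈ P3 ⁻¹' Om := by
      obtain ⟨c, hc, hyc⟩ := mem_iUnion₂.1 hy
      exact hKO c hc hyc
    have h2 : P3 (P3.symm y) ∈ Om := h1
    rwa [P3.apply_symm_apply] at h2
  have hd' : Pairwise (Function.onFun Disjoint fun c : X => K3 c) := fun c c' hne =>
    hdisj _ c.2 _ c'.2 (fun h => hne (Subtype.ext h))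
  have hKm : ∀ c : X, MeasurableSet (K3 c) := fun c => (isClosed_Kor _).measurableSet
  have hvolK : ∑' c : X, volume (K3 c) ≤ ENNReal.ofReal V := by
    rw [← measure_iUnion hd' hKm, ← hV3]
    exact measure_mono (iUnion_subset fun c => hKO _ c.2)
  refine ⟨K, r3 g, homeo_of g1, locPL_r3 g2, ?_, ?_, ?_, ?_⟩
  · -- displacement
    intro y hy
    have hx : P3.symm y ∈ P3 ⁻¹' Om := by
      change P3 (P3.symm y) ∈ Om
      rwa [P3.apply_symm_apply]
    have hfx : e3 f (P3.symm y) = P3.symm (f y) := by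
      simp only [e3, P3.apply_symm_apply]
    have hxL : e3 f (P3.symm y) ∈ P3 ⁻¹' La := by
      obtain ⟨_, hm, _⟩ := hom3_of hS.homeo
      exact hm hx
    obtain ⟨c, hc, hxc⟩ := BF.cov _ hxL
    have h1 := g3 _ hx ⟨c, hc⟩ hxc
    have h2 := hsz c hc _ hxc
    have h3 := hwη y hy
    rw [← hfx] at h3
    have h4 := norm_r3_sub_le g f y
    have h5 : (C : ℝ) * c.sz ≤ C * w (e3 f (P3.symm y)) := mul_le_mul_of_nonneg_left h2 C.2
    have h6 : 0 ≤ (C : ℝ) * w (e3 f (P3.symm y)) := mul_nonneg C.2 (hw.nonneg _)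
    linarith
  · -- the cores
    refine (energy_sub_le hO g2 hKOm hp0 G).trans ?_
    rw [hKp, hUi]
    have h1 := core_energy hp1 hS3.aesm (K := fun c : X => K3 c) (fun c => hKO _ c.2) hKm hd'
      (l := fun c : X => lin (A c)) hN0 (fun c => hnrm _ c.2) hl0 hl2.le (g := g) he1.le hh.le hV0
      (fun c => g5 _ c.2) hen hV3.le
    have h3 : (3:ℝ≥0∞) = ENNReal.ofReal 3 := by norm_num
    refine (mul_le_mul' le_rfl h1).trans ?_
    rw [h3, ← ENNReal.ofReal_mul (by norm_num)]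
    exact ENNReal.ofReal_le_ofReal hn2
  · -- off the cores
    have hpre : P3 ⁻¹' (Om \ K) = P3 ⁻¹' Om \ U := by
      rw [preimage_sdiff, hKp]
    have h0 := energy_g_le hO g2 (R := Om \ K) sdiff_subset hp0
    rw [hpre] at h0
    have h2p : (2:ℝ≥0∞) ^ p ≠ ∞ := ENNReal.rpow_ne_top_of_nonneg hp0 (by norm_num)
    have h1 : ∫⁻ x in P3 ⁻¹' Om \ U, (1 + ‖D3 G x‖ₑ ^ p) ≤
        2 ^ p * ∫⁻ y in Om \ K, (1 + En p G y) := by
      rw [lint_P3, ← lintegral_const_mul' _ _ h2p, hpre]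
      apply lintegral_mono
      intro x
      change 1 + ‖D3 G x‖ₑ ^ p ≤ 2 ^ p * (1 + ∑ j, ‖G j (P3 x)‖ₑ ^ p)
      rw [mul_add]
      have h4 := le_sum_row (D3 G x) hp0
      simp only [row_D3] at h4
      gcongr
      rw [mul_one]
      exact ENNReal.one_le_rpow (by norm_num) (by linarith)
    have h2 : ∑' c : X, (1 + ‖lin (A c)‖ₑ ^ p) * volume (K3 c) ≤
        ENNReal.ofReal ((1 + N ^ p) * V) := by
      calc ∑' c : X, (1 + ‖lin (A c)‖ₑ ^ p) * volume (K3 c)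
          ≤ ∑' c : X, ENNReal.ofReal (1 + N ^ p) * volume (K3 c) := by
            refine ENNReal.tsum_le_tsum fun c => ?_
            gcongr
            rw [ENNReal.ofReal_add (by norm_num) (by positivity), ENNReal.ofReal_one]
            gcongr
            rw [← ofReal_norm, ENNReal.ofReal_rpow_of_nonneg (norm_nonneg _) hp0]
            exact ENNReal.ofReal_le_ofReal (Real.rpow_le_rpow (norm_nonneg _) (hnrm _ c.2) hp0)
        _ = ENNReal.ofReal (1 + N ^ p) * ∑' c : X, volume (K3 c) := ENNReal.tsum_mul_left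
        _ ≤ ENNReal.ofReal (1 + N ^ p) * ENNReal.ofReal V := by gcongr
        _ = _ := (ENNReal.ofReal_mul (by positivity)).symm
    have h3 : 3 * (ENNReal.ofReal e1 * ENNReal.ofReal ((1 + N ^ p) * V) + ENNReal.ofReal (e / 6)) ≤
        ENNReal.ofReal e := by
      rw [← ENNReal.ofReal_mul he1.le, ← ENNReal.ofReal_add (by positivity) (by positivity),
        show (3:ℝ≥0∞) = ENNReal.ofReal 3 by norm_num, ← ENNReal.ofReal_mul (by norm_num)]
      exact ENNReal.ofReal_le_ofReal hn3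
    calc ∫⁻ x in Om \ K, En p (Gr (r3 g)) x ≤ 3 * ∫⁻ x in P3 ⁻¹' Om \ U, ‖fderiv ℝ g x‖ₑ ^ p := h0
      _ ≤ 3 * (C * (∫⁻ x in P3 ⁻¹' Om \ U, (1 + ‖D3 G x‖ₑ ^ p)) +
            ENNReal.ofReal e1 * (∑' c : X, (1 + ‖lin (A c)‖ₑ ^ p) * volume (K3 c)) +
            ENNReal.ofReal (e / 6)) := by gcongr
      _ ≤ 3 * (C * (2 ^ p * ∫⁻ y in Om \ K, (1 + En p G y)) +
            ENNReal.ofReal e1 * ENNReal.ofReal ((1 + N ^ p) * V) + ENNReal.ofReal (e / 6)) := by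
          gcongr
      _ = ((3 * C * 2 ^ p : ℝ≥0) : ℝ≥0∞) * (∫⁻ y in Om \ K, (1 + En p G y)) +
            3 * (ENNReal.ofReal e1 * ENNReal.ofReal ((1 + N ^ p) * V) + ENNReal.ofReal (e / 6)) := by
          push_cast
          rw [ENNReal.coe_rpow_of_nonneg _ hp0]
          push_cast
          ring
      _ ≤ _ := by gcongr
  · -- the rest of `{det ≠ 0}`
    have hsub : (Om \ Zd G) \ K ⊆ (Om ∩ {x | (Gmat G x).det ≠ 0}) \ K := by
      rintro x ⟨⟨h1, h2⟩, h3⟩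
      exact ⟨⟨h1, h2⟩, h3⟩
    refine hac _ (fun x hx => hx.1.1) ((measure_mono hsub).trans (hvol.trans ?_))
    apply ENNReal.ofReal_le_ofReal
    linarith


end

end Crest.Agent.R096.Br_695
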