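import Crest.Agent.R096.Brk5_582

/-!
# Row 96, U1: formulas for `T`, transport along linear equivalences
-/

set_option autoImplicit false
set_option linter.unusedSectionVars false
set_option linter.style.haveILetI false
open Set Filter Topology

namespace Crest.Agent.R096.Brk6_582

open Crest.Agent.R096.Brk1_582 Crest.Agent.R096.Brk2_582

variable {E : Type*} [NormedAddCommGroup E] [NormedSpace ℝ E] [CompleteSpace E] {I : Type*}
variable {La : Set E} {P : I → Set E} {b : Set I → E} {N : ℕ}

section formulas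

variable (F : Foam La P b N)

include F

theorem chain_mem {k : ℕ} (A : Fin (k + 1) → Set I) (hA : Monotone A) (h0 : (A 0).Nonempty)
    (hlast : (fc P (A (Fin.last k))).Nonempty) (w : Fin (k + 1) → ℝ) (hw : ∀ i, 0 ≤ w i)
    (hsum : ∑ i, w i = 1) : ∑ i, w i • b (A i) ∈ fc P (A 0) := by
  have hne : ∀ i, (A i).Nonempty := fun i => h0.mono (hA (Fin.zero_le i))
  have hfc : ∀ i, (fc P (A i)).Nonempty := fun i => hlast.mono (fc_anti (hA (Fin.le_last i)))
  exact F.convex_fc.sum_mem (fun i _ => hw i) hsum fun i _ =>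
    fc_anti (hA (Fin.zero_le i)) (F.mem _ (hne i) (hfc i))

/-- **`T` on the order simplices** -/
theorem T_chain {k : ℕ} (A : Fin (k + 1) → Set I) (hA : Monotone A) (h0 : (A 0).Nonempty)
    (hlast : (fc P (A (Fin.last k))).Nonempty) (w : Fin (k + 1) → ℝ) (hw : ∀ i, 0 ≤ w i)
    (hsum : ∑ i, w i = 1) [∀ c i, Decidable (c ∈ A i)] (u : I → ℝ)
    (hu : ∀ c, u c = ∑ i, if c ∈ A i then 0 else w i) :
    T b u = ∑ i, w i • b (A i) := by
  have hy := F.fc_sub_La h0 (chain_mem F A hA h0 hlast w hw hsum)
  have h1 : sc P b (∑ i, w i • b (A i)) = u := by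
    funext c
    rw [hu c]
    exact sc_chain F A hA h0 hlast w hw hsum c
  rw [← h1]
  exact F.T_sc hy

/-- `T` with no active coordinate -/
theorem T_zero' {A : Set I} {u : I → ℝ} (h0 : ∀ c ∈ A, u c = 0) (h1 : ∀ c, c ∉ A → u c = 1) :
    T b u = b A := by
  rw [T_const]
  · congr 1
    ext c
    by_cases h : c ∈ A
    · simp [h, h0 c h]
    · simp [h, h1 c h]
  · intro c
    by_cases h : c ∈ A
    · exact Or.inl (h0 c h)
    · exact Or.inr (h1 c h).ge

/-- `T` on an edge: one active coordinate -/
theorem T_one {A : Set I} (hA : A.Nonempty) {c1 : I}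
    (hfc : (fc P (insert c1 A)).Nonempty) {u : I → ℝ} (h0 : ∀ c ∈ A, u c = 0)
    (h1 : u c1 ∈ Icc (0 : ℝ) 1) (hother : ∀ c, c ∉ A → c ≠ c1 → u c = 1) :
    T b u = u c1 • b A + (1 - u c1) • b (insert c1 A) := by
  classical
  by_cases hc1 : c1 ∈ A
  · have e : insert c1 A = A := insert_eq_of_mem hc1
    rw [e, T_zero' F h0 (fun c hc => hother c hc fun h => hc (h ▸ hc1)), ← add_smul]
    simp
  have := T_chain F (k := 1) ![A, insert c1 A] ?_ (by simpa using hA) (by simpa using hfc)
    ![u c1, 1 - u c1] ?_ (by simp) u ?_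
  · rw [this]
    simp
  · intro i j hij
    fin_cases i <;> fin_cases j
    · exact le_rfl
    · exact subset_insert _ _
    · exact absurd hij (by decide)
    · exact le_rfl
  · intro i
    fin_cases i
    · exact h1.1
    · exact sub_nonneg.2 h1.2
  · intro c
    rw [Fin.sum_univ_two]
    simp only [Matrix.cons_val_zero, Matrix.cons_val_one, mem_insert_iff]
    by_cases hc : c ∈ A
    · simp [hc, h0 c hc]
    · by_cases hcc : c = c1
      · subst hcc; simp [hc]
      · simp [hc, hcc, hother c hc hcc]

/-- **`T` on a quad**: two active coordinates `u c1 ≤ u c2` -/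
theorem T_two {A : Set I} (hA : A.Nonempty) {c1 c2 : I} (hc1 : c1 ∉ A) (hc2 : c2 ∉ A)
    (hne : c1 ≠ c2) (hfc : (fc P (insert c2 (insert c1 A))).Nonempty) {u : I → ℝ}
    (h0 : ∀ c ∈ A, u c = 0) (h1 : 0 ≤ u c1) (h12 : u c1 ≤ u c2) (h2 : u c2 ≤ 1)
    (hother : ∀ c, c ∉ A → c ≠ c1 → c ≠ c2 → u c = 1) :
    T b u = u c1 • b A + (u c2 - u c1) • b (insert c1 A) +
      (1 - u c2) • b (insert c2 (insert c1 A)) := by
  classical
  have := T_chain F (k := 2) ![A, insert c1 A, insert c2 (insert c1 A)] ?_ (by simpa using hA)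
    (by simpa using hfc) ![u c1, u c2 - u c1, 1 - u c2] ?_
    (by simp [Fin.sum_univ_succ]) u ?_
  · rw [this]
    simp [Fin.sum_univ_succ, add_assoc]
  · have m1 : A ⊆ insert c1 A := subset_insert _ _
    have m2 : insert c1 A ⊆ insert c2 (insert c1 A) := subset_insert _ _
    intro i j hij
    fin_cases i <;> fin_cases j
    · exact le_rfl
    · exact m1
    · exact m1.trans m2
    · exact absurd hij (by decide)
    · exact le_rfl
    · exact m2
    · exact absurd hij (by decide)
    · exact absurd hij (by decide)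
    · exact le_rfl
  · intro i
    fin_cases i
    · exact h1
    · exact sub_nonneg.2 h12
    · exact sub_nonneg.2 h2
  · intro c
    rw [Fin.sum_univ_three]
    simp only [Matrix.cons_val_zero, Matrix.cons_val_one, Matrix.cons_val, mem_insert_iff]
    by_cases hc : c ∈ A
    · simp [hc, h0 c hc]
    · by_cases hcc : c = c1
      · subst hcc; simp [hc]
      · by_cases hcc2 : c = c2
        · subst hcc2; simp [hc, hcc]
        · simp [hc, hcc, hcc2, hother c hc hcc hcc2]

end formulas

/-! ### transport along a continuous linear equivalence -/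

section transport

variable {E' : Type*} [NormedAddCommGroup E'] [NormedSpace ℝ E'] [CompleteSpace E']
variable (e : E ≃L[ℝ] E')








end transport

end Crest.Agent.R096.Brk6_582
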