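import Crest.Agent.R096.Brk6_582
import Crest.Agent.R096.Bsp6_628
import Crest.Agent.R096.Brk5_582

-- ▼ part R096/Log1_582
section

/-!
# Row 96, U1: the coordinates on the uncut unit squares of the crossing logs are axis-parallel
-/

set_option autoImplicit false
set_option linter.unusedSectionVars false
set_option linter.style.haveILetI false
open Set Filter Topology

namespace Crest.Agent.R096.Log1_582

open Crest.Agent.R096.Brk1_582 Crest.Agent.R096.Brk2_582 Crest.Agent.R096.Brk3_582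
open Crest.Agent.R096.Brk6_582 Crest.Agent.R096.Bsp_628

section rect

variable {E : Type*} [NormedAddCommGroup E] [NormedSpace ℝ E] [CompleteSpace E] {I : Type*}
variable {La : Set E} {P : I → Set E} {b : Set I → E} {N : ℕ}

open Classical in
/-- **coordinates on a rectangular quad**: barycentres `p`, `p + v`, `p + w`, `p + v + w` -/
theorem sc_rect (F : Foam La P b N) {A : Set I} (hA : A.Nonempty) {c1 c2 : I} (hc1 : c1 ∉ A)
    (hc2 : c2 ∉ A) (hne : c1 ≠ c2) (hfc : (fc P (insert c2 (insert c1 A))).Nonempty) {v w : E}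
    (h1 : b (insert c1 A) = b A + v) (h2 : b (insert c2 A) = b A + w)
    (h12 : b (insert c2 (insert c1 A)) = b A + v + w) {s t : ℝ} (hs : s ∈ Icc (0 : ℝ) 1)
    (ht : t ∈ Icc (0 : ℝ) 1) :
    sc P b (b A + (1 - s) • v + (1 - t) • w) =
      fun c => if c ∈ A then 0 else if c = c1 then s else if c = c2 then t else 1 := by
  set u : I → ℝ := fun c => if c ∈ A then 0 else if c = c1 then s else if c = c2 then t else 1
    with hu
  have u0 : ∀ c ∈ A, u c = 0 := fun c hc => by simp [hu, hc]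
  have u1 : u c1 = s := by simp [hu, hc1]
  have u2 : u c2 = t := by simp [hu, hc2, hne.symm]
  have u3 : ∀ c, c ∉ A → c ≠ c1 → c ≠ c2 → u c = 1 := fun c h h' h'' => by simp [hu, h, h', h'']
  have huK : u ∈ K P := by
    refine ⟨fun c => ?_, ?_, hfc.mono (fc_anti fun c hc => ?_)⟩
    · simp only [hu]
      split_ifs
      · simp
      · exact hs
      · exact ht
      · simp
    · obtain ⟨c, hc⟩ := hA
      exact ⟨c, u0 c hc⟩
    · by_contra h
      simp only [mem_insert_iff, not_or] at h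
      have h4 : u c < 1 := hc
      rw [u3 c h.2.2 h.2.1 h.1] at h4
      exact lt_irrefl _ h4
  refine F.sc_eq_of_T huK ?_
  rcases le_total s t with hst | hst
  · rw [T_two F hA hc1 hc2 hne hfc u0 (by rw [u1]; exact hs.1) (by rw [u1, u2]; exact hst)
      (by rw [u2]; exact ht.2) u3, u1, u2, h1, h12]
    module
  · have hfc' : (fc P (insert c1 (insert c2 A))).Nonempty := by rwa [insert_comm]
    rw [T_two F hA hc2 hc1 hne.symm hfc' u0 (by rw [u2]; exact ht.1) (by rw [u1, u2]; exact hst)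
      (by rw [u1]; exact hs.2) (fun c h h' h'' => u3 c h h'' h'), u1, u2, h2, insert_comm, h12]
    module

end rect

section box

variable {κ : Type*} [Fintype κ] [Nonempty κ] {F : Set (Bx κ)}

/-- the centre of a face which is known as a set -/
theorem bc_of_fc {A : Set F} (hA : A.Finite) (hne : A.Nonempty) {p r : κ → ℝ} (hpr : p ≤ r)
    (h : fc (Pc F) A = Icc p r) : bc A = fun k => (p k + r k) / 2 := by
  have h1 : Icc p r = Icc (loA A) (hiA A) := by
    rw [← h]
    ext x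
    rw [mem_fc_iff hA hne]
    exact ⟨fun h => ⟨fun k => (h k).1, fun k => (h k).2⟩, fun h k => ⟨h.1 k, h.2 k⟩⟩
  have h2 := (Icc_eq_Icc_iff hpr).1 h1
  funext k
  unfold bc
  rw [← h2.1, ← h2.2]

end box

section logs

variable {q : ℕ} {a : Fin 3 → ℝ} {h : ℝ}

/-- index of the log of the row `j` over `[i, i+1]` -/
def ix (q : ℕ) (i j : ℤ) : ℤ := (i - q * j) / (2 * q)

theorem ix_spec (hq : 1 ≤ q) {i j : ℤ} (h : ¬ (2 * (q : ℤ)) ∣ i - q * j) :
    (q : ℤ) * (j + 2 * ix q i j) + 1 ≤ i ∧ i + 1 ≤ q * (j + 2 * ix q i j + 2) := by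
  have hq0 : (0 : ℤ) < 2 * q := by omega
  set r : ℤ := (i - q * j) % (2 * q) with hr
  have h1 : i - q * j = 2 * q * ix q i j + r := by
    rw [hr, ix]; exact (Int.mul_ediv_add_emod _ _).symm
  have h2 : 0 ≤ r := Int.emod_nonneg _ hq0.ne'
  have h3 : r < 2 * q := Int.emod_lt_of_pos _ hq0
  have h4 : r ≠ 0 := by
    intro h0
    exact h (Int.dvd_of_emod_eq_zero h0)
  have h5 : 1 ≤ r := by omega
  refine ⟨?_, ?_⟩
  · nlinarith
  · nlinarith

/-- the x-log of the (even) slab `e` over the square `(i, j)` -/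
noncomputable def Lx (q : ℕ) (a : Fin 3 → ℝ) (h : ℝ) (e i j : ℤ) : Bx (Fin 3) :=
  logA a h q e j (ix q i j)

/-- the y-log of the (odd) slab `o` over the square `(i, j)` -/
noncomputable def Ly (q : ℕ) (a : Fin 3 → ℝ) (h : ℝ) (o i j : ℤ) : Bx (Fin 3) :=
  logA a h q o i (ix q j i)

/-- the square `(i, j)` and the eight around it are uncut -/
def GoodSq (q : ℕ) (i j : ℤ) : Prop :=
  ∀ τ : ℤ, τ = -1 ∨ τ = 0 ∨ τ = 1 →
    ¬ (2 * (q : ℤ)) ∣ i - q * (j + τ) ∧ ¬ (2 * (q : ℤ)) ∣ j - q * (i + τ)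

theorem mem_Lx {e i j : ℤ} (he : Even e) {x : Fin 3 → ℝ} :
    x ∈ (Lx q a h e i j).set ↔
      (a 0 + h * (1 / 2 + q * (j + 2 * ix q i j)) ≤ x 0 ∧
        x 0 ≤ a 0 + h * (1 / 2 + q * (j + 2 * ix q i j + 2))) ∧
      (a 1 + h * j ≤ x 1 ∧ x 1 ≤ a 1 + h * (j + 1)) ∧
      (a 2 + h * e ≤ x 2 ∧ x 2 ≤ a 2 + h * (e + 1)) := by
  rw [Bx.mem_set, Lx, logA, logB_even he]
  simp only [Bx.aff, dmap, Fin.forall_fin_succ, Fin.succ_zero_eq_one, Fin.succ_one_eq_two,
    Matrix.cons_val_zero, Matrix.cons_val_one, Matrix.cons_val, IsEmpty.forall_iff, and_true]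

theorem mem_Ly {o i j : ℤ} (ho : ¬ Even o) {x : Fin 3 → ℝ} :
    x ∈ (Ly q a h o i j).set ↔
      (a 0 + h * i ≤ x 0 ∧ x 0 ≤ a 0 + h * (i + 1)) ∧
      (a 1 + h * (1 / 2 + q * (i + 2 * ix q j i)) ≤ x 1 ∧
        x 1 ≤ a 1 + h * (1 / 2 + q * (i + 2 * ix q j i + 2))) ∧
      (a 2 + h * o ≤ x 2 ∧ x 2 ≤ a 2 + h * (o + 1)) := by
  rw [Bx.mem_set, Ly, logA, logB_odd ho]
  simp only [Bx.aff, dmap, Fin.forall_fin_succ, Fin.succ_zero_eq_one, Fin.succ_one_eq_two,
    Matrix.cons_val_zero, Matrix.cons_val_one, Matrix.cons_val, IsEmpty.forall_iff, and_true]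

theorem ix_real (hq : 1 ≤ q) {i j : ℤ} (h : ¬ (2 * (q : ℤ)) ∣ i - q * j) :
    (1 / 2 + (q : ℝ) * (j + 2 * ix q i j) ≤ i - 1 / 2) ∧
      ((i : ℝ) + 3 / 2 ≤ 1 / 2 + q * (j + 2 * ix q i j + 2)) := by
  obtain ⟨h1, h2⟩ := ix_spec hq h
  have g1 : (q : ℝ) * (j + 2 * ix q i j) + 1 ≤ i := by exact_mod_cast h1
  have g2 : (i : ℝ) + 1 ≤ q * (j + 2 * ix q i j + 2) := by exact_mod_cast h2
  exact ⟨by linarith, by linarith⟩

/-- the point of the wall `z` -/
noncomputable def pt (a : Fin 3 → ℝ) (h x y z : ℝ) : Fin 3 → ℝ := dmap a (fun _ => h) ![x, y, z]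

@[simp] theorem pt_zero (x y z : ℝ) : pt a h x y z 0 = a 0 + h * x := by simp [pt, dmap]
@[simp] theorem pt_one (x y z : ℝ) : pt a h x y z 1 = a 1 + h * y := by simp [pt, dmap]
@[simp] theorem pt_two (x y z : ℝ) : pt a h x y z 2 = a 2 + h * z := by simp [pt, dmap]

/-- horizontal vectors -/
noncomputable def hv (h u v : ℝ) : Fin 3 → ℝ := ![h * u, h * v, 0]

theorem pt_add (x y z u v : ℝ) : pt a h x y z + hv h u v = pt a h (x + u) (y + v) z := by
  funext k
  fin_cases k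
  · change a 0 + h * x + h * u = a 0 + h * (x + u); ring
  · change a 1 + h * y + h * v = a 1 + h * (y + v); ring
  · change a 2 + h * z + 0 = a 2 + h * z; ring

theorem smul_hv (c u v : ℝ) : c • hv h u v = hv h (c * u) (c * v) := by
  funext k
  fin_cases k
  · change c * (h * u) = h * (c * u); ring
  · change c * (h * v) = h * (c * v); ring
  · change c * 0 = 0; ring

theorem Lx_of (hq : 1 ≤ q) (hh : 0 < h) {e i j : ℤ} (he : Even e)
    (hg : ¬ (2 * (q : ℤ)) ∣ i - q * j) {x : Fin 3 → ℝ}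
    (h0 : a 0 + h * i ≤ x 0 ∧ x 0 ≤ a 0 + h * (i + 1))
    (h1 : a 1 + h * j ≤ x 1 ∧ x 1 ≤ a 1 + h * (j + 1))
    (h2 : a 2 + h * e ≤ x 2 ∧ x 2 ≤ a 2 + h * (e + 1)) : x ∈ (Lx q a h e i j).set := by
  obtain ⟨g1, g2⟩ := ix_real hq hg
  rw [mem_Lx he]
  refine ⟨⟨?_, ?_⟩, h1, h2⟩
  · have := mul_le_mul_of_nonneg_left g1 hh.le
    nlinarith
  · have := mul_le_mul_of_nonneg_left g2 hh.le
    nlinarith

theorem Ly_of (hq : 1 ≤ q) (hh : 0 < h) {o i j : ℤ} (ho : ¬ Even o)
    (hg : ¬ (2 * (q : ℤ)) ∣ j - q * i) {x : Fin 3 → ℝ}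
    (h0 : a 0 + h * i ≤ x 0 ∧ x 0 ≤ a 0 + h * (i + 1))
    (h1 : a 1 + h * j ≤ x 1 ∧ x 1 ≤ a 1 + h * (j + 1))
    (h2 : a 2 + h * o ≤ x 2 ∧ x 2 ≤ a 2 + h * (o + 1)) : x ∈ (Ly q a h o i j).set := by
  obtain ⟨g1, g2⟩ := ix_real hq hg
  rw [mem_Ly ho]
  refine ⟨h0, ⟨?_, ?_⟩, h2⟩
  · have := mul_le_mul_of_nonneg_left g1 hh.le
    nlinarith
  · have := mul_le_mul_of_nonneg_left g2 hh.le
    nlinarith

/-- adjacent slabs meet in a plane -/
theorem adj_z (hh : 0 < h) {e o : ℤ} (heo : o = e + 1 ∨ e = o + 1) {x : ℝ} :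
    ((a 2 + h * e ≤ x ∧ x ≤ a 2 + h * (e + 1)) ∧ (a 2 + h * o ≤ x ∧ x ≤ a 2 + h * (o + 1))) ↔
      x = a 2 + h * ((max e o : ℤ) : ℝ) := by
  rcases heo with rfl | rfl
  · have hmax : max e (e + 1) = e + 1 := by omega
    rw [hmax]
    push_cast
    constructor
    · rintro ⟨⟨a1, a2⟩, a3, a4⟩
      linarith
    · rintro rfl
      refine ⟨⟨?_, ?_⟩, ?_, ?_⟩ <;> nlinarith
  · have hmax : max (o + 1) o = o + 1 := by omega
    rw [hmax]
    push_cast
    constructor
    · rintro ⟨⟨a1, a2⟩, a3, a4⟩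
      linarith
    · rintro rfl
      refine ⟨⟨?_, ?_⟩, ?_, ?_⟩ <;> nlinarith

/-- **intersection of rows and columns** -/
theorem mem_cross (hq : 1 ≤ q) (hh : 0 < h) {e o i j : ℤ} (he : Even e) (ho : ¬ Even o)
    (heo : o = e + 1 ∨ e = o + 1) {J K : Finset ℤ} (hJ0 : (0 : ℤ) ∈ J) (hK0 : (0 : ℤ) ∈ K)
    (hJ : ∀ τ ∈ J, ¬ (2 * (q : ℤ)) ∣ i - q * (j + τ))
    (hK : ∀ σ ∈ K, ¬ (2 * (q : ℤ)) ∣ j - q * (i + σ)) {x : Fin 3 → ℝ} :
    ((∀ τ ∈ J, x ∈ (Lx q a h e i (j + τ)).set) ∧ (∀ σ ∈ K, x ∈ (Ly q a h o (i + σ) j).set)) ↔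
      (∀ σ ∈ K, a 0 + h * (i + σ) ≤ x 0 ∧ x 0 ≤ a 0 + h * (i + σ + 1)) ∧
      (∀ τ ∈ J, a 1 + h * (j + τ) ≤ x 1 ∧ x 1 ≤ a 1 + h * (j + τ + 1)) ∧
      x 2 = a 2 + h * ((max e o : ℤ) : ℝ) := by
  constructor
  · rintro ⟨h1, h2⟩
    refine ⟨fun σ hσ => ?_, fun τ hτ => ?_, ?_⟩
    · have h3 := ((mem_Ly ho).1 (h2 σ hσ)).1
      push_cast at h3
      exact h3
    · have h3 := ((mem_Lx he).1 (h1 τ hτ)).2.1
      push_cast at h3
      exact h3
    · rw [← adj_z hh heo]
      exact ⟨((mem_Lx he).1 (h1 0 hJ0)).2.2, ((mem_Ly ho).1 (h2 0 hK0)).2.2⟩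
  · rintro ⟨h1, h2, h3⟩
    rw [← adj_z hh heo] at h3
    have h10 := h1 0 hK0
    have h20 := h2 0 hJ0
    simp only [Int.cast_zero, add_zero] at h10 h20
    refine ⟨fun τ hτ => Lx_of hq hh he (hJ τ hτ) h10 ?_ h3.1,
      fun σ hσ => Ly_of hq hh ho (hK σ hσ) ?_ h20 h3.2⟩
    · have := h2 τ hτ
      push_cast
      exact this
    · have := h1 σ hσ
      push_cast
      exact this

theorem Lx_inj (hh : 0 < h) {e i j j' : ℤ} (he : Even e)
    (hE : Lx q a h e i j = Lx q a h e i j') : j = j' := by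
  have h1 := congrArg (fun B : Bx (Fin 3) => B.lo 1) hE
  simp only [Lx, logA, logB_even he, Bx.aff, dmap, Matrix.cons_val_one,
    Matrix.cons_val_zero] at h1
  have h2 : h * ((j : ℝ) - j') = 0 := by linarith
  rcases mul_eq_zero.1 h2 with h3 | h3
  · exact absurd h3 hh.ne'
  · exact_mod_cast sub_eq_zero.1 h3

theorem Ly_inj (hh : 0 < h) {o i i' j : ℤ} (ho : ¬ Even o)
    (hE : Ly q a h o i j = Ly q a h o i' j) : i = i' := by
  have h1 := congrArg (fun B : Bx (Fin 3) => B.lo 0) hE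
  simp only [Ly, logA, logB_odd ho, Bx.aff, dmap, Matrix.cons_val_zero] at h1
  have h2 : h * ((i : ℝ) - i') = 0 := by linarith
  rcases mul_eq_zero.1 h2 with h3 | h3
  · exact absurd h3 hh.ne'
  · exact_mod_cast sub_eq_zero.1 h3

theorem Lx_ne_Ly (hh : 0 < h) {e o i j i' j' : ℤ} (he : Even e) (ho : ¬ Even o) :
    Lx q a h e i j ≠ Ly q a h o i' j' := by
  intro hE
  have h1 := congrArg (fun B : Bx (Fin 3) => B.lo 2) hE
  simp only [Lx, Ly, logA, Bx.aff, dmap, logB_lo2] at h1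
  have h2 : h * ((e : ℝ) - o) = 0 := by linarith
  rcases mul_eq_zero.1 h2 with h3 | h3
  · exact absurd h3 hh.ne'
  · have h4 : e = o := by exact_mod_cast sub_eq_zero.1 h3
    exact ho (h4 ▸ he)

/-- the cells of the rows `j + τ`, `τ ∈ J`, and of the columns `i + σ`, `σ ∈ K` -/
def crs (F : Set (Bx (Fin 3))) (q : ℕ) (a : Fin 3 → ℝ) (h : ℝ) (e o i j : ℤ) (J K : Finset ℤ) :
    Set F :=
  {c | (∃ τ ∈ J, c.1 = Lx q a h e i (j + τ)) ∨ ∃ σ ∈ K, c.1 = Ly q a h o (i + σ) j}

theorem crs_finite (F : Set (Bx (Fin 3))) (q : ℕ) (a : Fin 3 → ℝ) (h : ℝ) (e o i j : ℤ)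
    (J K : Finset ℤ) : (crs F q a h e o i j J K).Finite := by
  classical
  refine Set.Finite.of_finite_image (f := Subtype.val) ?_ Subtype.val_injective.injOn
  refine ((J.image fun τ => Lx q a h e i (j + τ)) ∪
    (K.image fun σ => Ly q a h o (i + σ) j)).finite_toSet.subset ?_
  rintro _ ⟨c, hc, rfl⟩
  simp only [Finset.coe_union, Finset.coe_image, mem_union, mem_image, Finset.mem_coe]
  rcases hc with ⟨τ, hτ, h1⟩ | ⟨σ, hσ, h1⟩
  · exact Or.inl ⟨τ, hτ, h1.symm⟩
  · exact Or.inr ⟨σ, hσ, h1.symm⟩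

variable {F : Set (Bx (Fin 3))}

theorem mem_fc_crs {e o i j : ℤ} {J K : Finset ℤ}
    (hE : ∀ τ ∈ J, Lx q a h e i (j + τ) ∈ F) (hO : ∀ σ ∈ K, Ly q a h o (i + σ) j ∈ F)
    {x : Fin 3 → ℝ} : x ∈ fc (Pc F) (crs F q a h e o i j J K) ↔
      (∀ τ ∈ J, x ∈ (Lx q a h e i (j + τ)).set) ∧ (∀ σ ∈ K, x ∈ (Ly q a h o (i + σ) j).set) := by
  rw [mem_fc]
  constructor
  · intro h1
    exact ⟨fun τ hτ => h1 ⟨_, hE τ hτ⟩ (Or.inl ⟨τ, hτ, rfl⟩),
      fun σ hσ => h1 ⟨_, hO σ hσ⟩ (Or.inr ⟨σ, hσ, rfl⟩)⟩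
  · rintro ⟨h1, h2⟩ c (⟨τ, hτ, h3⟩ | ⟨σ, hσ, h3⟩)
    · change x ∈ c.1.set
      rw [h3]; exact h1 τ hτ
    · change x ∈ c.1.set
      rw [h3]; exact h2 σ hσ

/-- the face of rows and columns, and its centre -/
theorem fc_crs (hq : 1 ≤ q) (hh : 0 < h) {e o i j : ℤ} (he : Even e) (ho : ¬ Even o)
    (heo : o = e + 1 ∨ e = o + 1) {J K : Finset ℤ} (hJ0 : (0 : ℤ) ∈ J) (hK0 : (0 : ℤ) ∈ K)
    (hJ : ∀ τ ∈ J, ¬ (2 * (q : ℤ)) ∣ i - q * (j + τ))
    (hK : ∀ σ ∈ K, ¬ (2 * (q : ℤ)) ∣ j - q * (i + σ))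
    (hE : ∀ τ ∈ J, Lx q a h e i (j + τ) ∈ F) (hO : ∀ σ ∈ K, Ly q a h o (i + σ) j ∈ F)
    {l0 r0 l1 r1 : ℝ} (hl0 : l0 ≤ r0) (hl1 : l1 ≤ r1)
    (h0 : ∀ x : ℝ, (∀ σ ∈ K, (i : ℝ) + σ ≤ x ∧ x ≤ i + σ + 1) ↔ l0 ≤ x ∧ x ≤ r0)
    (h1 : ∀ x : ℝ, (∀ τ ∈ J, (j : ℝ) + τ ≤ x ∧ x ≤ j + τ + 1) ↔ l1 ≤ x ∧ x ≤ r1) :
    fc (Pc F) (crs F q a h e o i j J K) =
        Icc (pt a h l0 l1 ((max e o : ℤ) : ℝ)) (pt a h r0 r1 ((max e o : ℤ) : ℝ)) ∧
      bc (crs F q a h e o i j J K) =
        pt a h ((l0 + r0) / 2) ((l1 + r1) / 2) ((max e o : ℤ) : ℝ) := by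
  have hsc : ∀ (b l r x : ℝ), (b + h * l ≤ x ∧ x ≤ b + h * r) ↔ (l ≤ (x - b) / h ∧ (x - b) / h ≤ r) := by
    intro b l r x
    rw [le_div_iff₀ hh, div_le_iff₀ hh]
    constructor <;> rintro ⟨h3, h4⟩ <;> constructor <;> linarith
  have hfc : fc (Pc F) (crs F q a h e o i j J K) =
      Icc (pt a h l0 l1 ((max e o : ℤ) : ℝ)) (pt a h r0 r1 ((max e o : ℤ) : ℝ)) := by
    ext x
    rw [mem_fc_crs hE hO, mem_cross hq hh he ho heo hJ0 hK0 hJ hK, mem_Icc, Pi.le_def, Pi.le_def]
    simp only [Fin.forall_fin_succ, Fin.succ_zero_eq_one, Fin.succ_one_eq_two, pt_zero, pt_one,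
      pt_two, IsEmpty.forall_iff, and_true]
    simp only [hsc, h0, h1]
    rw [← hsc, ← hsc]
    constructor
    · rintro ⟨⟨b1, b2⟩, ⟨b3, b4⟩, b5⟩
      exact ⟨⟨b1, b3, b5.ge⟩, b2, b4, b5.le⟩
    · rintro ⟨⟨b1, b3, b5⟩, b2, b4, b6⟩
      exact ⟨⟨b1, b2⟩, ⟨b3, b4⟩, le_antisymm b6 b5⟩
  refine ⟨hfc, ?_⟩
  have hle : pt a h l0 l1 ((max e o : ℤ) : ℝ) ≤ pt a h r0 r1 ((max e o : ℤ) : ℝ) := by
    rw [Pi.le_def]
    simp only [Fin.forall_fin_succ, Fin.succ_zero_eq_one, Fin.succ_one_eq_two, pt_zero, pt_one,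
      pt_two, IsEmpty.forall_iff, and_true]
    refine ⟨?_, ?_, le_rfl⟩
    · have := mul_le_mul_of_nonneg_left hl0 hh.le
      linarith
    · have := mul_le_mul_of_nonneg_left hl1 hh.le
      linarith
  rw [bc_of_fc (crs_finite F q a h e o i j J K) ⟨⟨_, hE 0 hJ0⟩, Or.inl ⟨0, hJ0, rfl⟩⟩ hle hfc]
  funext k
  fin_cases k
  · simp only [Fin.zero_eta, pt_zero]; ring
  · simp only [Fin.mk_one, pt_one]; ring
  · simp only [Fin.reduceFinMk, pt_two]; ring

theorem sgn_Icc {σ : ℤ} (hσ : σ = 1 ∨ σ = -1) (i : ℤ) (x : ℝ) :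
    (∀ σ' ∈ ({σ, 0} : Finset ℤ), (i : ℝ) + σ' ≤ x ∧ x ≤ i + σ' + 1) ↔
      (i : ℝ) + (1 + σ) / 2 ≤ x ∧ x ≤ i + (1 + σ) / 2 := by
  simp only [Finset.mem_insert, Finset.mem_singleton, forall_eq_or_imp, forall_eq]
  rcases hσ with rfl | rfl
  · push_cast
    constructor
    · rintro ⟨⟨h1, h2⟩, h3, h4⟩
      constructor <;> linarith
    · rintro ⟨h1, h2⟩
      refine ⟨⟨?_, ?_⟩, ?_, ?_⟩ <;> linarith
  · push_cast
    constructor
    · rintro ⟨⟨h1, h2⟩, h3, h4⟩
      constructor <;> linarith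
    · rintro ⟨h1, h2⟩
      refine ⟨⟨?_, ?_⟩, ?_, ?_⟩ <;> linarith

theorem crs_insert_K {e o i j : ℤ} {J K : Finset ℤ} {σ : ℤ} {c1 : F}
    (h1 : c1.1 = Ly q a h o (i + σ) j) :
    insert c1 (crs F q a h e o i j J K) = crs F q a h e o i j J (insert σ K) := by
  ext c
  constructor
  · rintro (rfl | ⟨τ, hτ, h2⟩ | ⟨σ', hσ', h2⟩)
    · exact Or.inr ⟨σ, Finset.mem_insert_self _ _, h1⟩
    · exact Or.inl ⟨τ, hτ, h2⟩
    · exact Or.inr ⟨σ', Finset.mem_insert_of_mem hσ', h2⟩
  · rintro (⟨τ, hτ, h2⟩ | ⟨σ', hσ', h2⟩)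
    · exact Or.inr (Or.inl ⟨τ, hτ, h2⟩)
    · rcases Finset.mem_insert.1 hσ' with rfl | h3
      · exact Or.inl (Subtype.ext (h2.trans h1.symm))
      · exact Or.inr (Or.inr ⟨σ', h3, h2⟩)

theorem crs_insert_J {e o i j : ℤ} {J K : Finset ℤ} {τ : ℤ} {c2 : F}
    (h1 : c2.1 = Lx q a h e i (j + τ)) :
    insert c2 (crs F q a h e o i j J K) = crs F q a h e o i j (insert τ J) K := by
  ext c
  constructor
  · rintro (rfl | ⟨τ', hτ, h2⟩ | ⟨σ', hσ', h2⟩)
    · exact Or.inl ⟨τ, Finset.mem_insert_self _ _, h1⟩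
    · exact Or.inl ⟨τ', Finset.mem_insert_of_mem hτ, h2⟩
    · exact Or.inr ⟨σ', hσ', h2⟩
  · rintro (⟨τ', hτ, h2⟩ | ⟨σ', hσ', h2⟩)
    · rcases Finset.mem_insert.1 hτ with rfl | h3
      · exact Or.inl (Subtype.ext (h2.trans h1.symm))
      · exact Or.inr (Or.inl ⟨τ', h3, h2⟩)
    · exact Or.inr (Or.inr ⟨σ', hσ', h2⟩)

theorem mem_crs_zero {e o i j : ℤ} {c : F} : c ∈ crs F q a h e o i j {0} {0} ↔
    c.1 = Lx q a h e i j ∨ c.1 = Ly q a h o i j := by
  constructor
  · rintro (⟨τ, hτ, h2⟩ | ⟨σ', hσ', h2⟩)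
    · rw [Finset.mem_singleton] at hτ
      subst hτ
      left; simpa using h2
    · rw [Finset.mem_singleton] at hσ'
      subst hσ'
      right; simpa using h2
  · rintro (h1 | h1)
    · exact Or.inl ⟨0, Finset.mem_singleton_self _, by simpa using h1⟩
    · exact Or.inr ⟨0, Finset.mem_singleton_self _, by simpa using h1⟩

theorem one_Icc (i : ℤ) (x : ℝ) :
    (∀ σ' ∈ ({0} : Finset ℤ), (i : ℝ) + σ' ≤ x ∧ x ≤ i + σ' + 1) ↔ (i : ℝ) ≤ x ∧ x ≤ i + 1 := by
  simp

variable {La : Set (Fin 3 → ℝ)} {δ κ0 : ℝ}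

open Classical in
/-- the coordinates on a quadrant of a good square -/
theorem sc_quadrant (BF : BoxFoam La F δ κ0) (hLa : IsOpen La) (hq : 1 ≤ q) (hh : 0 < h)
    {e o i j : ℤ} (he : Even e) (ho : ¬ Even o) (heo : o = e + 1 ∨ e = o + 1)
    (hg : GoodSq q i j)
    (hE : ∀ τ : ℤ, τ = -1 ∨ τ = 0 ∨ τ = 1 → Lx q a h e i (j + τ) ∈ F)
    (hO : ∀ σ : ℤ, σ = -1 ∨ σ = 0 ∨ σ = 1 → Ly q a h o (i + σ) j ∈ F)
    {σ τ : ℤ} (hσ : σ = 1 ∨ σ = -1) (hτ : τ = 1 ∨ τ = -1) {ξ ζ : ℝ}
    (hξ : (σ : ℝ) * ξ ∈ Icc (0 : ℝ) (1 / 2)) (hζ : (τ : ℝ) * ζ ∈ Icc (0 : ℝ) (1 / 2)) (c : F) :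
    sc (Pc F) (bc (F := F)) (pt a h (i + 1 / 2 + ξ) (j + 1 / 2 + ζ) ((max e o : ℤ) : ℝ)) c =
      if c.1 = Lx q a h e i j ∨ c.1 = Ly q a h o i j then 0
      else if c.1 = Ly q a h o (i + σ) j then 1 - 2 * (σ * ξ)
      else if c.1 = Lx q a h e i (j + τ) then 1 - 2 * (τ * ζ)
      else 1 := by
  have Fm := foam BF hLa
  have hσ' : σ = -1 ∨ σ = 0 ∨ σ = 1 := hσ.symm.imp_right Or.inr
  have hτ' : τ = -1 ∨ τ = 0 ∨ τ = 1 := hτ.symm.imp_right Or.inr
  have h00 : (0 : ℤ) = -1 ∨ (0 : ℤ) = 0 ∨ (0 : ℤ) = 1 := Or.inr (Or.inl rfl)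
  have hσ0 : σ ≠ 0 := by rcases hσ with rfl | rfl <;> decide
  have hτ0 : τ ≠ 0 := by rcases hτ with rfl | rfl <;> decide
  set z : ℝ := ((max e o : ℤ) : ℝ) with hz
  set c1 : F := ⟨_, hO σ hσ'⟩ with hc1
  set c2 : F := ⟨_, hE τ hτ'⟩ with hc2
  set A : Set F := crs F q a h e o i j {0} {0} with hA
  have hmemA : ∀ c : F, c ∈ A ↔ c.1 = Lx q a h e i j ∨ c.1 = Ly q a h o i j :=
    fun c => mem_crs_zero
  have hA1 : insert c1 A = crs F q a h e o i j {0} {σ, 0} := crs_insert_K rfl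
  have hA2 : insert c2 A = crs F q a h e o i j {τ, 0} {0} := crs_insert_J rfl
  have hA12 : insert c2 (insert c1 A) = crs F q a h e o i j {τ, 0} {σ, 0} := by
    rw [hA1]; exact crs_insert_J rfl
  -- hypotheses for the four faces
  have m0 : ∀ τ' ∈ ({0} : Finset ℤ), τ' = -1 ∨ τ' = 0 ∨ τ' = 1 := by simp
  have mσ : ∀ σ' ∈ ({σ, 0} : Finset ℤ), σ' = -1 ∨ σ' = 0 ∨ σ' = 1 := by
    intro σ' h'
    simp only [Finset.mem_insert, Finset.mem_singleton] at h'
    rcases h' with rfl | rfl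
    · exact hσ'
    · exact h00
  have mτ : ∀ σ' ∈ ({τ, 0} : Finset ℤ), σ' = -1 ∨ σ' = 0 ∨ σ' = 1 := by
    intro σ' h'
    simp only [Finset.mem_insert, Finset.mem_singleton] at h'
    rcases h' with rfl | rfl
    · exact hτ'
    · exact h00
  have hi1 : (i : ℝ) ≤ i + 1 := by linarith
  have hj1 : (j : ℝ) ≤ j + 1 := by linarith
  obtain ⟨f0, b0⟩ := fc_crs (F := F) (a := a) hq hh he ho heo (J := {0}) (K := {0}) (by simp)
    (by simp) (fun t ht => (hg t (m0 t ht)).1) (fun t ht => (hg t (m0 t ht)).2)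
    (fun t ht => hE t (m0 t ht)) (fun t ht => hO t (m0 t ht)) hi1 hj1 (one_Icc i) (one_Icc j)
  obtain ⟨f1, b1⟩ := fc_crs (F := F) (a := a) hq hh he ho heo (J := {0}) (K := {σ, 0}) (by simp)
    (by simp) (fun t ht => (hg t (m0 t ht)).1) (fun t ht => (hg t (mσ t ht)).2)
    (fun t ht => hE t (m0 t ht)) (fun t ht => hO t (mσ t ht)) le_rfl hj1 (sgn_Icc hσ i)
    (one_Icc j)
  obtain ⟨f2, b2⟩ := fc_crs (F := F) (a := a) hq hh he ho heo (J := {τ, 0}) (K := {0}) (by simp)
    (by simp) (fun t ht => (hg t (mτ t ht)).1) (fun t ht => (hg t (m0 t ht)).2)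
    (fun t ht => hE t (mτ t ht)) (fun t ht => hO t (m0 t ht)) hi1 le_rfl (one_Icc i)
    (sgn_Icc hτ j)
  obtain ⟨f3, b3⟩ := fc_crs (F := F) (a := a) hq hh he ho heo (J := {τ, 0}) (K := {σ, 0})
    (by simp) (by simp) (fun t ht => (hg t (mτ t ht)).1) (fun t ht => (hg t (mσ t ht)).2)
    (fun t ht => hE t (mτ t ht)) (fun t ht => hO t (mσ t ht)) le_rfl le_rfl (sgn_Icc hσ i)
    (sgn_Icc hτ j)
  rw [← hA1] at f1 b1
  rw [← hA2] at f2 b2
  rw [← hA12] at f3 b3
  rw [← hA] at f0 b0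
  have hAne : A.Nonempty := ⟨⟨_, hE 0 h00⟩, (hmemA _).2 (Or.inl (by simp))⟩
  have hc1A : c1 ∉ A := by
    rw [hmemA]
    rintro (h1 | h1)
    · exact Lx_ne_Ly hh he ho h1.symm
    · have := Ly_inj hh ho h1
      omega
  have hc2A : c2 ∉ A := by
    rw [hmemA]
    rintro (h1 | h1)
    · have := Lx_inj hh he h1
      omega
    · exact Lx_ne_Ly hh he ho h1
  have hcne : c1 ≠ c2 := by
    intro h1
    exact Lx_ne_Ly hh he ho (congrArg Subtype.val h1).symm
  have hfne : (fc (Pc F) (insert c2 (insert c1 A))).Nonempty := by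
    rw [f3]
    exact nonempty_Icc.2 le_rfl
  have hσ2 : (σ : ℝ) * σ = 1 := by rcases hσ with rfl | rfl <;> norm_num
  have hτ2 : (τ : ℝ) * τ = 1 := by rcases hτ with rfl | rfl <;> norm_num
  have hres := sc_rect Fm hAne hc1A hc2A hcne hfne (v := hv h (σ / 2) 0)
    (w := hv h 0 (τ / 2)) (s := 1 - 2 * (σ * ξ)) (t := 1 - 2 * (τ * ζ))
    (by rw [b1, b0, pt_add]; congr 1 <;> ring) (by rw [b2, b0, pt_add]; congr 1 <;> ring)
    (by rw [b3, b0, pt_add, pt_add]; congr 1 <;> ring)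
    ⟨by linarith [hξ.2], by linarith [hξ.1]⟩ ⟨by linarith [hζ.2], by linarith [hζ.1]⟩
  have hy : bc A + (1 - (1 - 2 * ((σ : ℝ) * ξ))) • hv h (σ / 2) 0 +
      (1 - (1 - 2 * ((τ : ℝ) * ζ))) • hv h 0 (τ / 2) =
      pt a h (i + 1 / 2 + ξ) (j + 1 / 2 + ζ) z := by
    rw [b0, smul_hv, smul_hv, pt_add, pt_add]
    congr 1
    · linear_combination ξ * hσ2
    · linear_combination ζ * hτ2
  rw [hy] at hres
  rw [hres]
  simp only [hmemA, hc1, hc2, Subtype.ext_iff]

section ite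
variable {α : Type*} [DecidableEq α] {c P M P' M' : α} {A : Prop} [Decidable A] {p r : ℝ}

theorem ite1 (h1 : M ≠ P') :
    (if A then (0 : ℝ) else if c = P then p else if c = P' then r else 1) =
    (if A then 0 else if c = P then p else if c = M then 1 - 2 * 0 else if c = P' then r
      else if c = M' then 1 - 2 * 0 else 1) := by
  have e1 : (1 : ℝ) - 2 * 0 = 1 := by norm_num
  rw [e1]
  by_cases hM : c = M
  · have hP : c ≠ P' := hM ▸ h1
    rw [if_pos hM, if_neg hP]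
  · rw [if_neg hM]
    simp only [ite_self]

theorem ite2 (h1 : M ≠ M') (h2 : P' ≠ M') :
    (if A then (0 : ℝ) else if c = P then p else if c = M' then r else 1) =
    (if A then 0 else if c = P then p else if c = M then 1 - 2 * 0 else if c = P' then 1 - 2 * 0
      else if c = M' then r else 1) := by
  have e1 : (1 : ℝ) - 2 * 0 = 1 := by norm_num
  rw [e1]
  by_cases hM : c = M
  · have hP : c ≠ M' := hM ▸ h1
    rw [if_pos hM, if_neg hP]
  · rw [if_neg hM]
    by_cases hM' : c = P'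
    · have hP : c ≠ M' := hM' ▸ h2
      rw [if_pos hM', if_neg hP]
    · rw [if_neg hM']

theorem ite3 (h1 : P ≠ M) (h2 : P ≠ P') :
    (if A then (0 : ℝ) else if c = M then p else if c = P' then r else 1) =
    (if A then 0 else if c = P then 1 - 2 * 0 else if c = M then p else if c = P' then r
      else if c = M' then 1 - 2 * 0 else 1) := by
  have e1 : (1 : ℝ) - 2 * 0 = 1 := by norm_num
  rw [e1]
  by_cases hM : c = P
  · have hP : c ≠ M := hM ▸ h1
    have hP' : c ≠ P' := hM ▸ h2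
    rw [if_pos hM, if_neg hP, if_neg hP']
  · rw [if_neg hM]
    simp only [ite_self]

theorem ite4 (h1 : P ≠ M) (h2 : P ≠ M') (h3 : P' ≠ M') :
    (if A then (0 : ℝ) else if c = M then p else if c = M' then r else 1) =
    (if A then 0 else if c = P then 1 - 2 * 0 else if c = M then p else if c = P' then 1 - 2 * 0
      else if c = M' then r else 1) := by
  have e1 : (1 : ℝ) - 2 * 0 = 1 := by norm_num
  rw [e1]
  by_cases hM : c = P
  · have hP : c ≠ M := hM ▸ h1
    have hP' : c ≠ M' := hM ▸ h2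
    rw [if_pos hM, if_neg hP, if_neg hP']
  · rw [if_neg hM]
    by_cases hM' : c = P'
    · have hP : c ≠ M' := hM' ▸ h3
      rw [if_pos hM', if_neg hP]
    · rw [if_neg hM']

end ite

open Classical in
/-- **the coordinates on a good square**: `0` for the two logs of the square, one minus twice the
positive part of the distance from the centre line for the four logs beyond the sides, `1` else -/
theorem sc_square (BF : BoxFoam La F δ κ0) (hLa : IsOpen La) (hq : 1 ≤ q) (hh : 0 < h)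
    {e o i j : ℤ} (he : Even e) (ho : ¬ Even o) (heo : o = e + 1 ∨ e = o + 1)
    (hg : GoodSq q i j)
    (hE : ∀ τ : ℤ, τ = -1 ∨ τ = 0 ∨ τ = 1 → Lx q a h e i (j + τ) ∈ F)
    (hO : ∀ σ : ℤ, σ = -1 ∨ σ = 0 ∨ σ = 1 → Ly q a h o (i + σ) j ∈ F)
    {ξ ζ : ℝ} (hξ : |ξ| ≤ 1 / 2) (hζ : |ζ| ≤ 1 / 2) (c : F) :
    sc (Pc F) (bc (F := F)) (pt a h (i + 1 / 2 + ξ) (j + 1 / 2 + ζ) ((max e o : ℤ) : ℝ)) c =
      if c.1 = Lx q a h e i j ∨ c.1 = Ly q a h o i j then 0
      else if c.1 = Ly q a h o (i + 1) j then 1 - 2 * max ξ 0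
      else if c.1 = Ly q a h o (i - 1) j then 1 - 2 * max (-ξ) 0
      else if c.1 = Lx q a h e i (j + 1) then 1 - 2 * max ζ 0
      else if c.1 = Lx q a h e i (j - 1) then 1 - 2 * max (-ζ) 0
      else 1 := by
  have hξ' := abs_le.1 hξ
  have hζ' := abs_le.1 hζ
  have n1 : Ly q a h o (i + 1) j ≠ Ly q a h o (i - 1) j := fun h1 => by
    have := Ly_inj hh ho h1; omega
  have n2 : Lx q a h e i (j + 1) ≠ Lx q a h e i (j - 1) := fun h1 => by
    have := Lx_inj hh he h1; omega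
  have n3 : ∀ i' j', Ly q a h o i' j ≠ Lx q a h e i j' := fun _ _ => (Lx_ne_Ly hh he ho).symm
  rcases le_total 0 ξ with h1 | h1 <;> rcases le_total 0 ζ with h2 | h2
  · have := sc_quadrant BF hLa hq hh he ho heo hg hE hO (σ := 1) (τ := 1) (Or.inl rfl) (Or.inl rfl)
      (ξ := ξ) (ζ := ζ) (by push_cast; constructor <;> linarith)
      (by push_cast; constructor <;> linarith) c
    rw [this, max_eq_left h1, max_eq_left h2, max_eq_right (by linarith : -ξ ≤ 0),
      max_eq_right (by linarith : -ζ ≤ 0)]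
    push_cast
    rw [one_mul, one_mul]
    exact ite1 (n3 _ _)
  · have := sc_quadrant BF hLa hq hh he ho heo hg hE hO (σ := 1) (τ := -1) (Or.inl rfl)
      (Or.inr rfl) (ξ := ξ) (ζ := ζ) (by push_cast; constructor <;> linarith)
      (by push_cast; constructor <;> linarith) c
    rw [this, max_eq_left h1, max_eq_right h2, max_eq_right (by linarith : -ξ ≤ 0),
      max_eq_left (by linarith : 0 ≤ -ζ)]
    push_cast
    rw [← sub_eq_add_neg, one_mul, neg_one_mul]
    exact ite2 (n3 _ _) n2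
  · have := sc_quadrant BF hLa hq hh he ho heo hg hE hO (σ := -1) (τ := 1) (Or.inr rfl)
      (Or.inl rfl) (ξ := ξ) (ζ := ζ) (by push_cast; constructor <;> linarith)
      (by push_cast; constructor <;> linarith) c
    rw [this, max_eq_right h1, max_eq_left h2, max_eq_left (by linarith : 0 ≤ -ξ),
      max_eq_right (by linarith : -ζ ≤ 0)]
    push_cast
    rw [← sub_eq_add_neg, one_mul, neg_one_mul]
    exact ite3 n1 (n3 _ _)
  · have := sc_quadrant BF hLa hq hh he ho heo hg hE hO (σ := -1) (τ := -1) (Or.inr rfl)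
      (Or.inr rfl) (ξ := ξ) (ζ := ζ) (by push_cast; constructor <;> linarith)
      (by push_cast; constructor <;> linarith) c
    rw [this, max_eq_right h1, max_eq_right h2, max_eq_left (by linarith : 0 ≤ -ξ),
      max_eq_left (by linarith : 0 ≤ -ζ)]
    push_cast
    rw [← sub_eq_add_neg, ← sub_eq_add_neg, neg_one_mul, neg_one_mul]
    exact ite4 n1 (n3 _ _) n2

end logs

end Crest.Agent.R096.Log1_582
end

-- ▼ part R096/Brk7_582

/-!
# Row 96, U1: Lipschitz constants of the coordinates on a face (in terms of the subfaces only)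
-/

set_option autoImplicit false
set_option linter.unusedSectionVars false
set_option linter.style.haveILetI false
open Set Filter Topology

namespace Crest.Agent.R096.Brk7_582

open Crest.Agent.R096.Brk1_582 Crest.Agent.R096.Brk2_582 Crest.Agent.R096.Brk3_582
open Crest.Agent.R096.Brk4_582 Crest.Agent.R096.Brk5_582 Crest.Agent.R096.Bsp_628

variable {κ : Type*} [Fintype κ] [Nonempty κ] {La : Set (κ → ℝ)} {F : Set (Bx κ)} {δ κ0 : ℝ}

/-- **Lipschitz constants of the coordinates on the subfaces of a face** `A0` -/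
theorem lip_face (BF : BoxFoam La F δ κ0) (hLa : IsOpen La) {A0 : Set F} (hA0 : A0.Nonempty)
    {w S : ℝ} (hw : 0 < w) (hS0 : 0 ≤ S) (hS : ∀ k, hiA A0 k - loA A0 k ≤ S)
    (hwid : ∀ A : Set F, A.Finite → A0 ⊆ A → (fc (Pc F) A).Nonempty →
      ∀ k, loA A k ≠ hiA A k → w ≤ hiA A k - loA A k) :
    ∀ (m : ℕ) (A : Set F), A.Finite → A0 ⊆ A → (fc (Pc F) A).Nonempty →
      Fintype.card κ + 1 - A.ncard = m → ∀ y ∈ fc (Pc F) A, ∀ y' ∈ fc (Pc F) A, ∀ c : F,
        |sc (Pc F) (bc (F := F)) y c - sc (Pc F) (bc (F := F)) y' c| ≤ Lc w S m * ‖y - y'‖ := by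
  have FF := foam BF hLa
  obtain ⟨c0, hc00⟩ := hA0
  intro m
  induction m with
  | zero =>
    intro A hA hc0 hne hm y hy y' hy' c
    have hAne : A.Nonempty := ⟨c0, hc0 hc00⟩
    have h1 := deg_count BF hA hAne hne
    have h2 : {k | loA A k = hiA A k} = univ := by
      refine Set.eq_of_subset_of_ncard_le (subset_univ _) ?_
      rw [ncard_univ, Nat.card_eq_fintype_card]
      omega
    have h3 : y = y' := by
      funext k
      have hk : loA A k = hiA A k := by
        have : k ∈ {k | loA A k = hiA A k} := by rw [h2]; trivial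
        exact this
      have a1 := (mem_fc_iff hA hAne).1 hy k
      have a2 := (mem_fc_iff hA hAne).1 hy' k
      linarith
    subst h3
    simp [Lc]
  | succ m ih =>
    intro A hA hc0 hne hm y hy y' hy' c
    classical
    have hAne : A.Nonempty := ⟨c0, hc0 hc00⟩
    have hM0 : 0 ≤ max (2 * Lc w S m) (1 / w) := le_max_of_le_right (by positivity)
    have hAL : fc (Pc F) A ⊆ La := FF.fc_sub_La hAne
    by_cases hcA : c ∈ A
    · rw [(FF.sc_eq_zero (hAL hy)).2 (mem_fc.1 hy c hcA),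
        (FF.sc_eq_zero (hAL hy')).2 (mem_fc.1 hy' c hcA), sub_self, abs_zero]
      exact mul_nonneg (Lc_nonneg hw hS0 _) (norm_nonneg _)
    -- facets
    have facet : ∀ k, loA A k ≠ hiA A k → ∀ v, (v = loA A k ∨ v = hiA A k) →
        ∀ x ∈ fc (Pc F) A, x k = v → ∀ x' ∈ fc (Pc F) A, x' k = v →
        |sc (Pc F) (bc (F := F)) x c - sc (Pc F) (bc (F := F)) x' c| ≤ Lc w S m * ‖x - x'‖ := by
      intro k hk v hv x hx hxk x' hx' hxk'
      have hG : Convex ℝ (fc (Pc F) A ∩ {x | x k = v}) := by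
        refine FF.convex_fc.inter ?_
        intro p hp q hq a b ha hb hab
        have hp' : p k = v := hp
        have hq' : q k = v := hq
        change (a • p + b • q) k = v
        simp only [Pi.add_apply, Pi.smul_apply, smul_eq_mul, hp', hq']
        rw [← add_mul, hab, one_mul]
      set s : Set F := {c'' | c'' ∉ A ∧ (fc (Pc F) (insert c'' A)).Nonempty} with hs
      have hsfin : s.Finite := by
        refine (finite_touch FF c0).subset fun c'' hc'' => ?_
        obtain ⟨p, hp⟩ := hc''.2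
        exact ⟨p, mem_fc.1 hp c'' (mem_insert _ _), mem_fc.1 hp c0 (mem_insert_of_mem _ (hc0 hc00))⟩
      refine lip_of_cover hG hsfin (C := fun c'' => fc (Pc F) (insert c'' A)) ?_ ?_ ?_ x ⟨hx, hxk⟩
        x' ⟨hx', hxk'⟩ (f := fun x => sc (Pc F) (bc (F := F)) x c)
      · intro c'' _
        exact (FF.isCompact_fc ⟨c'', mem_insert _ _⟩).isClosed
      · rintro p ⟨hp, hpk⟩
        have hpL := hAL hp
        have hpk' : p k = v := hpk
        have hex : ∃ c'' ∈ act (Pc F) p, c'' ∉ A := by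
          by_contra hcon
          push Not at hcon
          have hact : act (Pc F) p = A := Subset.antisymm hcon (mem_fc'.1 hp)
          have g1 := lt_hiA BF hLa hpL (k := k) (by rw [hact]; exact hk) (by rw [hact]; exact hA)
            (by rw [hact]; exact hAne)
          have g2 := loA_lt BF hLa hpL (k := k) (by rw [hact]; exact hk) (by rw [hact]; exact hA)
            (by rw [hact]; exact hAne)
          rw [hact, hpk'] at g1 g2
          rcases hv with h | h
          · exact absurd g2 (by rw [h]; exact lt_irrefl _)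
          · exact absurd g1 (by rw [h]; exact lt_irrefl _)
        obtain ⟨c'', hc1, hc2⟩ := hex
        have hpi : p ∈ fc (Pc F) (insert c'' A) := by
          rw [mem_fc]
          rintro a (rfl | ha)
          · exact hc1
          · exact mem_fc.1 hp a ha
        exact mem_iUnion₂.2 ⟨c'', ⟨hc2, p, hpi⟩, hpi⟩
      · intro c'' hc'' p hp q hq
        exact ih (insert c'' A) (hA.insert _) (hc0.trans (subset_insert _ _)) hc''.2
          (by rw [ncard_insert_of_notMem hc''.1 hA]; omega) p hp q hq c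
    -- the relative boundary
    have bd : ∀ z ∈ fc (Pc F) A, ∀ z' ∈ fc (Pc F) A, ∀ k, loA A k ≠ hiA A k →
        (z k = loA A k ∨ z k = hiA A k) → ∀ j, loA A j ≠ hiA A j →
        (z' j = loA A j ∨ z' j = hiA A j) →
        |sc (Pc F) (bc (F := F)) z c - sc (Pc F) (bc (F := F)) z' c| ≤
          max (2 * Lc w S m) (1 / w) * ‖z - z'‖ := by
      intro z hz z' hz' k hk hzk j hj hzj
      have hzz := mem_fc_iff hA hAne |>.1 hz
      have hzz' := mem_fc_iff hA hAne |>.1 hz'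
      have hL0 := Lc_nonneg hw hS0 m
      by_cases hkj : k = j
      · subst hkj
        by_cases hzz2 : z k = z' k
        · refine (facet k hk (z k) hzk z hz rfl z' hz' hzz2.symm).trans ?_
          refine mul_le_mul_of_nonneg_right ?_ (norm_nonneg _)
          exact le_max_of_le_left (by linarith)
        · have h1 : w ≤ ‖z - z'‖ := by
            have h2 := hwid A hA hc0 hne k hk
            have h3 := norm_le_pi_norm (z - z') k
            rw [Pi.sub_apply, Real.norm_eq_abs] at h3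
            refine le_trans ?_ h3
            rcases hzk with h | h <;> rcases hzj with h' | h'
            · exact absurd (h.trans h'.symm) hzz2
            · rw [h, h', abs_sub_comm, abs_of_nonneg (by linarith)]; exact h2
            · rw [h, h', abs_of_nonneg (by linarith)]; exact h2
            · exact absurd (h.trans h'.symm) hzz2
          have h2 : |sc (Pc F) (bc (F := F)) z c - sc (Pc F) (bc (F := F)) z' c| ≤ 1 := by
            rw [abs_le]
            constructor <;> linarith [FF.sc_nonneg (hAL hz) c, FF.sc_le_one (hAL hz) c,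
              FF.sc_nonneg (hAL hz') c, FF.sc_le_one (hAL hz') c]
          refine h2.trans ?_
          calc (1 : ℝ) = 1 / w * w := by field_simp
            _ ≤ max (2 * Lc w S m) (1 / w) * ‖z - z'‖ :=
              mul_le_mul (le_max_right _ _) h1 hw.le hM0
      · set z2 : κ → ℝ := Function.update z j (z' j) with hz2
        have hz2A : z2 ∈ fc (Pc F) A := by
          rw [mem_fc_iff hA hAne]
          intro i
          by_cases hi : i = j
          · subst hi; simp only [hz2, Function.update_self]; exact hzz' i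
          · simp only [hz2, Function.update_of_ne hi]; exact hzz i
        have e1 := facet k hk (z k) hzk z hz rfl z2 hz2A
          (by simp only [hz2, Function.update_of_ne hkj])
        have e2 := facet j hj (z' j) hzj z2 hz2A (by simp [hz2]) z' hz' rfl
        have n1 : ‖z - z2‖ ≤ ‖z - z'‖ := by
          refine (pi_norm_le_iff_of_nonneg (norm_nonneg _)).2 fun i => ?_
          by_cases hi : i = j
          · subst hi
            simp only [Pi.sub_apply, hz2, Function.update_self]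
            exact norm_le_pi_norm (z - z') i
          · simp only [Pi.sub_apply, hz2, Function.update_of_ne hi, sub_self, norm_zero]
            exact norm_nonneg _
        have n2 : ‖z2 - z'‖ ≤ ‖z - z'‖ := by
          refine (pi_norm_le_iff_of_nonneg (norm_nonneg _)).2 fun i => ?_
          by_cases hi : i = j
          · subst hi
            simp only [Pi.sub_apply, hz2, Function.update_self, sub_self, norm_zero]
            exact norm_nonneg _
          · simp only [Pi.sub_apply, hz2, Function.update_of_ne hi]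
            exact norm_le_pi_norm (z - z') i
        calc |sc (Pc F) (bc (F := F)) z c - sc (Pc F) (bc (F := F)) z' c|
            ≤ _ := abs_sub_le _ (sc (Pc F) (bc (F := F)) z2 c) _
          _ ≤ Lc w S m * ‖z - z'‖ + Lc w S m * ‖z - z'‖ := by
            refine add_le_add (e1.trans ?_) (e2.trans ?_)
            · exact mul_le_mul_of_nonneg_left n1 hL0
            · exact mul_le_mul_of_nonneg_left n2 hL0
          _ = (2 * Lc w S m) * ‖z - z'‖ := by ring
          _ ≤ _ := mul_le_mul_of_nonneg_right (le_max_left _ _) (norm_nonneg _)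
    -- the gauge
    set bA : κ → ℝ := bc A with hbA
    have hlohi : ∀ k, loA A k ≤ hiA A k := fun k =>
      ((mem_fc_iff hA hAne).1 hy k).1.trans ((mem_fc_iff hA hAne).1 hy k).2
    let h : κ → ℝ := fun k => (hiA A k - loA A k) / 2
    have hh0 : ∀ k, 0 ≤ h k := fun k => by
      have := hlohi k
      simp only [h]; linarith
    have hhw : ∀ k, loA A k ≠ hiA A k → w / 2 ≤ h k := fun k hk => by
      have := hwid A hA hc0 hne k hk
      simp only [h]; linarith
    have hhS : ∀ k, h k ≤ S / 2 := fun k => by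
      have hA0' : A0.Finite := hA.subset hc0
      obtain ⟨d, hd, h1⟩ := (exists_loA hA0' ⟨c0, hc00⟩ k).1
      obtain ⟨d', hd', h2⟩ := (exists_hiA hA0' ⟨c0, hc00⟩ k).1
      have h1' := (exists_loA hA hAne k).2 d (hc0 hd)
      have h2' := (exists_hiA hA hAne k).2 d' (hc0 hd')
      have h3 := hS k
      simp only [h]; linarith
    let D : (κ → ℝ) → κ → ℝ := fun v k => v k / h k
    have hD : ∀ v, ‖D v‖ ≤ 2 / w * ‖v‖ := by
      intro v
      refine (pi_norm_le_iff_of_nonneg (by positivity)).2 fun k => ?_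
      by_cases hk : loA A k = hiA A k
      · have : h k = 0 := by simp only [h, hk]; ring
        simp only [D, this, div_zero, norm_zero]
        positivity
      · have h1 := hhw k hk
        have h2 : 0 < h k := by linarith
        simp only [D, norm_div, Real.norm_of_nonneg h2.le]
        rw [div_le_iff₀ h2]
        calc ‖v k‖ ≤ ‖v‖ := norm_le_pi_norm v k
          _ = 2 / w * ‖v‖ * (w / 2) := by field_simp
          _ ≤ 2 / w * ‖v‖ * h k := mul_le_mul_of_nonneg_left h1 (by positivity)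
    have hcoord : ∀ p ∈ fc (Pc F) A, ∀ k, |p k - bA k| ≤ h k := by
      intro p hp k
      have h1 := (mem_fc_iff hA hAne).1 hp k
      simp only [hbA, bc, h, abs_le]
      constructor <;> linarith
    have hμ1 : ∀ p ∈ fc (Pc F) A, ‖D (p - bA)‖ ≤ 1 := by
      intro p hp
      refine (pi_norm_le_iff_of_nonneg zero_le_one).2 fun k => ?_
      simp only [D, norm_div, Real.norm_of_nonneg (hh0 k), Pi.sub_apply, Real.norm_eq_abs]
      exact div_le_one_of_le₀ (hcoord p hp k) (hh0 k)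
    have hback : ∀ p ∈ fc (Pc F) A, ∀ k, |p k - bA k| ≤ ‖D (p - bA)‖ * h k := by
      intro p hp k
      rcases (hh0 k).eq_or_lt with h1 | h1
      · have := hcoord p hp k
        rw [← h1] at this ⊢
        simpa using this
      · have := norm_le_pi_norm (D (p - bA)) k
        simp only [D, norm_div, Real.norm_of_nonneg (hh0 k), Pi.sub_apply, Real.norm_eq_abs] at this
        rwa [div_le_iff₀ h1] at this
    have hdist : ∀ p ∈ fc (Pc F) A, ‖p - bA‖ ≤ ‖D (p - bA)‖ * (S / 2) := by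
      intro p hp
      refine (pi_norm_le_iff_of_nonneg (by positivity)).2 fun k => ?_
      rw [Pi.sub_apply, Real.norm_eq_abs]
      exact (hback p hp k).trans (mul_le_mul_of_nonneg_left (hhS k) (norm_nonneg _))
    -- exit points
    have hz : ∀ p ∈ fc (Pc F) A, ∃ z ∈ fc (Pc F) A, p = bA + ‖D (p - bA)‖ • (z - bA) ∧
        (0 < ‖D (p - bA)‖ → ∃ k, loA A k ≠ hiA A k ∧ (z k = loA A k ∨ z k = hiA A k)) := by
      intro p hp
      rcases (norm_nonneg (D (p - bA))).eq_or_lt with h0 | h0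
      · refine ⟨bA, FF.mem A hAne hne, ?_, fun h1 => absurd h1 (by rw [← h0]; exact lt_irrefl _)⟩
        have h1 := hdist p hp
        rw [← h0, zero_mul] at h1
        have h2 := norm_le_zero_iff.1 h1
        rw [← h0, zero_smul, add_zero]
        exact sub_eq_zero.1 h2
      · set μ := ‖D (p - bA)‖ with hμ
        refine ⟨bA + μ⁻¹ • (p - bA), ?_, ?_, fun _ => ?_⟩
        · rw [mem_fc_iff hA hAne]
          intro k
          have h1 : |μ⁻¹ * (p k - bA k)| ≤ h k := by
            rw [abs_mul, abs_of_pos (inv_pos.2 h0), inv_mul_le_iff₀ h0]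
            exact hback p hp k
          rw [abs_le] at h1
          simp only [Pi.add_apply, Pi.smul_apply, Pi.sub_apply, smul_eq_mul]
          simp only [h, hbA, bc] at h1 ⊢
          constructor <;> linarith [h1.1, h1.2]
        · rw [add_sub_cancel_left, smul_smul, mul_inv_cancel₀ h0.ne', one_smul]
          abel
        · obtain ⟨k, hk⟩ := Finite.exists_max (fun k => ‖D (p - bA) k‖)
          have h1 : ‖D (p - bA) k‖ = μ := by
            refine le_antisymm (norm_le_pi_norm _ k) ?_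
            exact (pi_norm_le_iff_of_nonneg (norm_nonneg _)).2 hk
          have h2 : h k ≠ 0 := by
            intro h3
            simp only [D, h3, div_zero, norm_zero] at h1
            exact h0.ne h1
          have h3 : loA A k ≠ hiA A k := fun h4 => h2 (by simp only [h, h4]; ring)
          refine ⟨k, h3, ?_⟩
          have h4 : 0 < h k := lt_of_le_of_ne (hh0 k) (Ne.symm h2)
          simp only [D, norm_div, Real.norm_of_nonneg (hh0 k), Pi.sub_apply, Real.norm_eq_abs] at h1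
          rw [div_eq_iff h2] at h1
          have h5 : |μ⁻¹ * (p k - bA k)| = h k := by
            rw [abs_mul, abs_of_pos (inv_pos.2 h0), h1, ← mul_assoc, inv_mul_cancel₀ h0.ne', one_mul]
          simp only [Pi.add_apply, Pi.smul_apply, Pi.sub_apply, smul_eq_mul]
          rcases (abs_eq h4.le).1 h5 with h6 | h6
          · right
            rw [h6]; simp only [h, hbA, bc]; ring
          · left
            rw [h6]; simp only [h, hbA, bc]; ring
    have key : ∀ p ∈ fc (Pc F) A, ∀ q ∈ fc (Pc F) A, ‖D (p - bA)‖ ≤ ‖D (q - bA)‖ →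
        |sc (Pc F) (bc (F := F)) p c - sc (Pc F) (bc (F := F)) q c| ≤ Lc w S (m + 1) * ‖p - q‖ := by
      intro p hp q hq hpq
      obtain ⟨zp, hzp, hp1, hp2⟩ := hz p hp
      obtain ⟨zq, hzq, hq1, hq2⟩ := hz q hq
      have sp : sc (Pc F) (bc (F := F)) p c = (1 - ‖D (p - bA)‖) +
          ‖D (p - bA)‖ * sc (Pc F) (bc (F := F)) zp c := by
        conv_lhs => rw [hp1]
        exact FF.sc_ray' hAne hzp (norm_nonneg _) (hμ1 p hp) hcA
      have sq : sc (Pc F) (bc (F := F)) q c = (1 - ‖D (q - bA)‖) +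
          ‖D (q - bA)‖ * sc (Pc F) (bc (F := F)) zq c := by
        conv_lhs => rw [hq1]
        exact FF.sc_ray' hAne hzq (norm_nonneg _) (hμ1 q hq) hcA
      set μp := ‖D (p - bA)‖ with hμp
      set μq := ‖D (q - bA)‖ with hμq
      set a := sc (Pc F) (bc (F := F)) zp c with ha
      set a' := sc (Pc F) (bc (F := F)) zq c with ha'
      have ha'0 : 0 ≤ a' := FF.sc_nonneg (hAL hzq) c
      have ha'1 : a' ≤ 1 := FF.sc_le_one (hAL hzq) c
      have hdμ : μq - μp ≤ 2 / w * ‖p - q‖ := by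
        have e : D (q - bA) - D (p - bA) = D (q - p) := by
          funext k
          simp only [D, Pi.sub_apply]
          ring
        calc μq - μp ≤ ‖D (q - bA) - D (p - bA)‖ := by
              exact norm_sub_norm_le _ _
          _ = ‖D (q - p)‖ := by rw [e]
          _ ≤ 2 / w * ‖q - p‖ := hD _
          _ = _ := by rw [norm_sub_rev]
      have hμp0 : 0 ≤ μp := norm_nonneg _
      have e1 : |((1 - μp) + μp * a) - ((1 - μq) + μq * a')| ≤ (μq - μp) + μp * |a - a'| := by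
        have e2 : ((1 - μp) + μp * a) - ((1 - μq) + μq * a') =
            (μq - μp) * (1 - a') + μp * (a - a') := by ring
        rw [e2]
        refine (abs_add_le _ _).trans ?_
        rw [abs_mul, abs_mul, abs_of_nonneg (sub_nonneg.2 hpq), abs_of_nonneg hμp0,
          abs_of_nonneg (sub_nonneg.2 ha'1)]
        have : (μq - μp) * (1 - a') ≤ (μq - μp) * 1 :=
          mul_le_mul_of_nonneg_left (by linarith) (sub_nonneg.2 hpq)
        linarith
      rw [sp, sq]
      refine e1.trans ?_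
      have e3 : μp * |a - a'| ≤ max (2 * Lc w S m) (1 / w) * (1 + S / w) * ‖p - q‖ := by
        rcases hμp0.eq_or_lt with h0 | h0
        · rw [← h0, zero_mul]; positivity
        · have h0q : 0 < μq := h0.trans_le hpq
          obtain ⟨k, hk, hzk⟩ := hp2 h0
          obtain ⟨j, hj, hzj⟩ := hq2 h0q
          have e4 := bd zp hzp zq hzq k hk hzk j hj hzj
          have e5 : μp * ‖zp - zq‖ ≤ (1 + S / w) * ‖p - q‖ := by
            have e6 : μp • (zp - zq) = (p - q) + (1 - μp / μq) • (q - bA) := by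
              have f1 : μp • (zp - bA) = p - bA := by
                conv_rhs => rw [hp1]
                abel
              have f2 : μq • (zq - bA) = q - bA := by
                conv_rhs => rw [hq1]
                abel
              have f3 : μp • (zq - bA) = (μp / μq) • (q - bA) := by
                rw [← f2, smul_smul, div_mul_cancel₀ _ h0q.ne']
              calc μp • (zp - zq) = μp • (zp - bA) - μp • (zq - bA) := by module
                _ = _ := by rw [f1, f3]; module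
            have e7 : 0 ≤ 1 - μp / μq := by
              rw [sub_nonneg, div_le_one h0q]; exact hpq
            calc μp * ‖zp - zq‖ = ‖μp • (zp - zq)‖ := by
                  rw [norm_smul, Real.norm_of_nonneg hμp0]
              _ ≤ ‖p - q‖ + (1 - μp / μq) * ‖q - bA‖ := by
                  rw [e6]
                  refine (norm_add_le _ _).trans ?_
                  rw [norm_smul, Real.norm_of_nonneg e7]
              _ ≤ ‖p - q‖ + (1 - μp / μq) * (μq * (S / 2)) := by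
                  have := mul_le_mul_of_nonneg_left (hdist q hq) e7
                  linarith
              _ = ‖p - q‖ + (μq - μp) * (S / 2) := by
                  field_simp
              _ ≤ ‖p - q‖ + (2 / w * ‖p - q‖) * (S / 2) := by
                  have := mul_le_mul_of_nonneg_right hdμ (show 0 ≤ S / 2 by positivity)
                  linarith
              _ = (1 + S / w) * ‖p - q‖ := by
                  field_simp
          calc μp * |a - a'| ≤ μp * (max (2 * Lc w S m) (1 / w) * ‖zp - zq‖) :=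
                mul_le_mul_of_nonneg_left e4 hμp0
            _ = max (2 * Lc w S m) (1 / w) * (μp * ‖zp - zq‖) := by ring
            _ ≤ max (2 * Lc w S m) (1 / w) * ((1 + S / w) * ‖p - q‖) :=
                mul_le_mul_of_nonneg_left e5 hM0
            _ = _ := by ring
      calc (μq - μp) + μp * |a - a'|
          ≤ 2 / w * ‖p - q‖ + max (2 * Lc w S m) (1 / w) * (1 + S / w) * ‖p - q‖ := add_le_add hdμ e3
        _ = Lc w S (m + 1) * ‖p - q‖ := by simp only [Lc]; ring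
    rcases le_total ‖D (y - bA)‖ ‖D (y' - bA)‖ with h1 | h1
    · exact key y hy y' hy' h1
    · rw [abs_sub_comm, norm_sub_rev]
      exact key y' hy' y hy h1

end Crest.Agent.R096.Brk7_582
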