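import Crest.Agent.R096.Brk5_582

/-!
# Row 96, U1: iterated stars of the cells of a graded foam lie in small closed balls of `La`,
these balls are locally finite in `La`
-/

set_option autoImplicit false
set_option linter.unusedSectionVars false
open Set Filter Topology Metric

namespace Crest.Agent.R096.Bsp_628

/-! ## metric part -/

section metric

variable {E : Type*} [PseudoMetricSpace E] {I : Type*}

/-- the `n`-th star of the cell `c`: the union of the cells reached by `n` steps -/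
def star (P : I → Set E) : ℕ → I → Set E
  | 0, c => P c
  | n + 1, c => ⋃ c' ∈ {c' | (P c' ∩ star P n c).Nonempty}, P c'


theorem mem_star_succ {P : I → Set E} {n : ℕ} {c : I} {x : E} :
    x ∈ star P (n + 1) c ↔ ∃ c', (P c' ∩ star P n c).Nonempty ∧ x ∈ P c' := by
  simp [star]

/-- **the `n`-th star lies in a ball of radius `((1+θ)^(n+1) - 1) rho x`** -/
theorem star_sub {P : I → Set E} {rho : E → ℝ} {θ : ℝ} (hθ : 0 ≤ θ)
    (hrho : ∀ x y, rho x ≤ rho y + dist x y)
    (hsz : ∀ c, ∀ x ∈ P c, ∀ y ∈ P c, dist x y ≤ θ * rho x) (c : I) {x : E} (hx : x ∈ P c) :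
    ∀ n, ∀ y ∈ star P n c, dist y x ≤ ((1 + θ) ^ (n + 1) - 1) * rho x ∧
      rho y ≤ (1 + θ) ^ (n + 1) * rho x := by
  have key : ∀ n, ∀ y : E, dist y x ≤ ((1 + θ) ^ (n + 1) - 1) * rho x →
      rho y ≤ (1 + θ) ^ (n + 1) * rho x := fun n y hy => by
    have := hrho y x
    linarith
  intro n
  induction n with
  | zero =>
    intro y hy
    have h1 : dist y x ≤ ((1 + θ) ^ (0 + 1) - 1) * rho x := by
      have := hsz c x hx y hy
      rw [dist_comm] at this
      simpa using this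
    exact ⟨h1, key 0 y h1⟩
  | succ n ih =>
    intro y hy
    obtain ⟨c', ⟨z, hz', hz⟩, hy'⟩ := mem_star_succ.1 hy
    obtain ⟨h1, h2⟩ := ih z hz
    have h3 := hsz c' z hz' y hy'
    have h4 : dist y x ≤ ((1 + θ) ^ (n + 1 + 1) - 1) * rho x := by
      calc dist y x ≤ dist y z + dist z x := dist_triangle _ _ _
        _ ≤ θ * rho z + ((1 + θ) ^ (n + 1) - 1) * rho x := by
            rw [dist_comm y z]; exact add_le_add h3 h1
        _ ≤ θ * ((1 + θ) ^ (n + 1) * rho x) + ((1 + θ) ^ (n + 1) - 1) * rho x := by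
            gcongr
        _ = ((1 + θ) ^ (n + 1 + 1) - 1) * rho x := by ring
    exact ⟨h4, key _ y h4⟩

theorem star_sub_closedBall {P : I → Set E} {rho : E → ℝ} {θ : ℝ} (hθ : 0 ≤ θ)
    (hrho : ∀ x y, rho x ≤ rho y + dist x y)
    (hsz : ∀ c, ∀ x ∈ P c, ∀ y ∈ P c, dist x y ≤ θ * rho x) (n : ℕ) (c : I) {x : E}
    (hx : x ∈ P c) : star P n c ⊆ closedBall x (((1 + θ) ^ (n + 1) - 1) * rho x) :=
  fun y hy => (star_sub hθ hrho hsz c hx n y hy).1



end metric

/-! ## box foams -/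

section box

open Crest.Agent.R096.Brk1_582 Crest.Agent.R096.Brk3_582 Crest.Agent.R096.Brk5_582

variable {κ : Type*} [Fintype κ] [Nonempty κ] {La : Set (κ → ℝ)} {F : Set (Bx κ)} {δ κ0 : ℝ}

/-- **iterated stars of a box foam** with `sz ≤ θ rho`: closed balls round any point of the cell -/
theorem BoxFoam.star_sub (hpos : ∀ C ∈ F, C.Pos) {rho : (κ → ℝ) → ℝ} {θ : ℝ} (hθ : 0 ≤ θ)
    (hrho : ∀ x y, rho x ≤ rho y + dist x y)
    (hs : ∀ C ∈ F, ∀ x ∈ C.set, C.sz ≤ θ * rho x) (n : ℕ) (c : F) {x : κ → ℝ}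
    (hx : x ∈ Pc F c) : star (Pc F) n c ⊆ closedBall x (((1 + θ) ^ (n + 1) - 1) * rho x) :=
  star_sub_closedBall hθ hrho (fun c x hx y hy => by
    rw [dist_eq_norm]
    exact (norm_sub_le_sz (hpos _ c.2) hx hy).trans (hs _ c.2 x hx)) n c hx


end box

end Crest.Agent.R096.Bsp_628
private theorem rz_0601f5d6dd : type_of% @_root_.Crest.Agent.R096.Bsp_628.star.eq_def := @_root_.Crest.Agent.R096.Bsp_628.star.eq_def -- L21
private theorem rz_c2cad6f89e : type_of% @_root_.Crest.Agent.R096.Bsp_628.star.eq_1 := @_root_.Crest.Agent.R096.Bsp_628.star.eq_1 -- L21
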