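import Crest.Agent.R096.Ho5_627
import Crest.Agent.R096.Toph1_766
import Crest.Agent.R096.Bxs2_627
import Crest.Agent.R96.Push12_899
import Crest.Agent.R096.Toph3_766
import Crest.Agent.R096.Bxs9_627
import Crest.Agent.R096.Toph2_766

-- ▼ part R96/HoL1_899
section

/-!
# Row 96, U2 PUSH (helper899): the hole-opening homeomorphism of 627 is locally almost as Lipschitz as
the collapse map `th`, off the holes.
-/

set_option autoImplicit false
set_option linter.unusedSectionVars false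
set_option linter.unusedVariables false
set_option linter.style.longLine false

open Set Filter Metric Topology

namespace Crest.Agent.R96.HoL_899

open Crest.Agent.R096.Ho_627 Crest.Agent.R096.ThC6_766 Crest.Agent.R096

variable {V : Type*} [NormedAddCommGroup V] [InnerProductSpace ℝ V] {ι : Type*}
variable {L : Set V} {C : ℝ} {e : V → ℝ} {th : V → V} {yc : ι → V} {R : ι → ℝ}

/-- the solutions off the holes -/
theorem fix_loc (h : Holes L C e th yc R) (hC1 : 1 ≤ C) {y y' q q' : V}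
    (hq : FF L th yc R y q = q) (hq' : FF L th yc R y' q' = q')
    (hy : ∀ c, R c / 4 ≤ ‖y - yc c‖) (hy' : ∀ c, R c / 4 ≤ ‖y' - yc c‖)
    (h2 : ∀ c, 2 * R c ≤ ‖q - th (yc c)‖) (h2' : ∀ c, 2 * R c ≤ ‖q' - th (yc c)‖)
    {κ : ℝ} (hκ : κ ≤ 1) (he : e y' ≤ κ) :
    ‖q - q'‖ ≤ C * (1 + κ) * ‖y - y'‖ := by
  have hκ0 : 0 ≤ κ := (h.sc.nonneg y').trans he
  have c1 : col yc (fun c => R c / 8) univ y = y := col_out fun c _ => by
    have := hy c
    linarith
  have c2 : col yc (fun c => R c / 8) univ y' = y' := col_out fun c _ => by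
    have := hy' c
    linarith
  obtain ⟨-, e1⟩ := sol_eq h hq
  obtain ⟨-, e2⟩ := sol_eq h hq'
  rw [c1, TT_none h2, add_zero] at e1
  rw [c2, TT_none h2', add_zero] at e2
  have hn := sol_near h hq'
  set Z := ZZ L th yc R with hZ
  set a : ℝ := del Z q with ha
  set b : ℝ := del Z q' with hb
  have ha0 : 0 ≤ a := del_nonneg Z q
  have hab : |a - b| ≤ ‖q - q'‖ / 32 := del_lip Z q q'
  have key : (1 + a) • (q - q') = (th y - th y') + a • (y - y') + (a - b) • (y' - q') := by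
    have e6 : q - q' = (th y - th y') + a • (y - y') + (a - b) • (y' - q') - a • (q - q') := by
      calc q - q' = (th y + a • (y - q)) - (th y' + b • (y' - q')) := by rw [← e1, ← e2]
        _ = _ := by module
    calc (1 + a) • (q - q') = (q - q') + a • (q - q') := by module
      _ = ((th y - th y') + a • (y - y') + (a - b) • (y' - q') - a • (q - q')) + a • (q - q') := by
          rw [← e6]
      _ = _ := by abel
  have n1 : (1 + a) * ‖q - q'‖ = ‖(1 + a) • (q - q')‖ := by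
    rw [norm_smul, Real.norm_eq_abs, abs_of_nonneg (by linarith)]
  have n2 : ‖th y - th y'‖ ≤ C * ‖y - y'‖ := h.lip y y'
  have n3 : ‖a • (y - y')‖ = a * ‖y - y'‖ := by
    rw [norm_smul, Real.norm_eq_abs, abs_of_nonneg ha0]
  have n4 : ‖(a - b) • (y' - q')‖ ≤ ‖q - q'‖ / 32 * (5 / 4 * κ) := by
    rw [norm_smul, Real.norm_eq_abs, norm_sub_rev]
    refine mul_le_mul hab (hn.trans ?_) (norm_nonneg _) (by positivity)
    linarith
  have n5 : (1 + a) * ‖q - q'‖ ≤ C * ‖y - y'‖ + a * ‖y - y'‖ + ‖q - q'‖ / 32 * (5 / 4 * κ) := by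
    rw [n1, key]
    refine norm_add₃_le.trans ?_
    rw [n3]
    linarith
  set X := ‖q - q'‖ with hX
  set Y := ‖y - y'‖ with hY
  have hX0 : 0 ≤ X := norm_nonneg _
  have hY0 : 0 ≤ Y := norm_nonneg _
  -- `(1 + a - 5 κ / 128) X ≤ (C + a) Y ≤ C (1 + a) Y`
  have n6 : (1 + a - 5 / 128 * κ) * X ≤ C * (1 + a) * Y := by
    have : a * Y ≤ C * a * Y := by nlinarith [mul_nonneg ha0 hY0]
    nlinarith
  have n7 : (1 + a) * X ≤ (1 + a) * (C * (1 + κ) * Y) := by
    have n8 : 1 + a ≤ (1 + κ) * (1 + a - 5 / 128 * κ) := by nlinarith [mul_nonneg hκ0 ha0]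
    calc (1 + a) * X ≤ ((1 + κ) * (1 + a - 5 / 128 * κ)) * X := mul_le_mul_of_nonneg_right n8 hX0
      _ = (1 + κ) * ((1 + a - 5 / 128 * κ) * X) := by ring
      _ ≤ (1 + κ) * (C * (1 + a) * Y) := mul_le_mul_of_nonneg_left n6 (by linarith)
      _ = _ := by ring
  exact le_of_mul_le_mul_left n7 (by linarith)



end Crest.Agent.R96.HoL_899
end

-- ▼ part R96/HoL3_899
section

/-!
# Row 96, U2 PUSH (helper899): clause (T4) of `pushNO_T` from the local clause of `toph_β`: holes = the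
centres of the bricks of a foam which is uniform near `K₀`.
-/

set_option autoImplicit false
set_option linter.unusedSectionVars false
set_option linter.unusedVariables false
set_option linter.style.longLine false

open Set Filter Topology Metric

namespace Crest.Agent.R96.HoL_899

open Crest.AnalysisR.VecCalc3 Crest.Agent.R96.En10_199 Crest.Agent.R096.Bxs_627
open Crest.Agent.R096.Bsp_628 Crest.Agent.R96.Push_899

theorem symm_sub_le (y z : R3) (i : Fin 3) : |P3.symm y i - P3.symm z i| ≤ ‖y - z‖ := by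
  have h1 := norm_P3_symm_le (y - z)
  rw [map_sub] at h1
  have h2 := norm_le_pi_norm (P3.symm y - P3.symm z) i
  rw [Pi.sub_apply, Real.norm_eq_abs] at h2
  exact h2.trans h1

/-- distance of the centre of a brick from a point which is not in the brick -/
theorem dist_ctr {La : Set (Fin 3 → ℝ)} {F : Set (Bx (Fin 3))} {δ κ0 : ℝ} (BF : BoxFoam La F δ κ0)
    (hκ : 1 ≤ κ0) {c : Bx (Fin 3)} (hc : c ∈ F) {y : R3} (hy : P3.symm y ∉ c.set) :
    4 * rad κ0 c ≤ ‖y - P3 (ctr c)‖ := by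
  by_contra hcon
  push Not at hcon
  apply hy
  rw [Bx.mem_set]
  intro i
  have h1 := symm_sub_le y (P3 (ctr c)) i
  rw [ContinuousLinearEquiv.symm_apply_apply] at h1
  have h2 := BF.asp c hc i
  have h3 : 4 * rad κ0 c ≤ c.side i / 2 := by
    unfold rad
    rw [show 4 * (c.sz / (8 * κ0)) = c.sz / (2 * κ0) by field_simp; ring,
      div_le_div_iff₀ (by positivity) (by norm_num)]
    nlinarith
  have h4 := abs_le.1 (h1.trans (hcon.le.trans h3))
  have h5 := ctr_lo c i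
  have h6 := ctr_hi c i
  constructor <;> linarith [h4.1, h4.2]

/-- **(T4)** -/
theorem t4 {Λ K₀ : Set R3} {F : Set (Bx (Fin 3))} {δ κ0 : ℝ} (BF : BoxFoam (P3 ⁻¹' Λ) F δ κ0)
    (hκ : 1 ≤ κ0) {k : Fin 3} {a : Fin 3 → ℝ} {s β : ℝ} (hs : 0 < s) (hsβ : s / 32 ≤ β)
    (hU : ∀ c (hc : c ∈ F), (∃ y, P3.symm y ∈ c.set ∧ ∃ y₀ ∈ K₀, ‖y - y₀‖ ≤ 2 * s) →
      Uni k a s (qb c (BF.pos c hc)))
    (hKs : ∀ y, (∃ y₀ ∈ K₀, ‖y - y₀‖ ≤ s) → y ∈ Λ)
    {w : R3 → ℝ} (hw : ∀ y, w y ≤ s / 32) {T : R3 → R3}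
    (hT : ∀ y ∈ Λ, (∀ c ∈ F, 2 * rad κ0 c + 2 * w y + w (P3 (ctr c)) < ‖y - P3 (ctr c)‖) →
      w y ≤ β → ∀ᶠ y' in 𝓝 y, ‖T y' - T y‖ ≤ (1 + 4 * β) * ‖y' - y‖) :
    ∀ y, (∃ y₀ ∈ K₀, ‖y - y₀‖ ≤ s) → (∃ N : ℤ, |y k - (a k + N * s)| ≤ s / 8) →
      ∀ᶠ y' in 𝓝 y, ‖T y' - T y‖ ≤ (1 + 4 * β) * ‖y' - y‖ := by
  rintro y ⟨y₀, hy₀, hyy⟩ ⟨N, hN⟩
  refine hT y (hKs y ⟨y₀, hy₀, hyy⟩) (fun c hc => ?_) ((hw y).trans hsβ)
  have w1 := hw y
  have w2 := hw (P3 (ctr c))
  by_cases hc2 : ∃ z, P3.symm z ∈ c.set ∧ ∃ y₀ ∈ K₀, ‖z - y₀‖ ≤ 2 * s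
  · -- uniform brick
    obtain ⟨⟨n, hn⟩, hhi, -, -⟩ := hU c hc hc2
    have e1 : c.lo k = a k + n * s := hn
    have e2 : c.hi k = c.lo k + s := hhi
    have h1 := symm_sub_le y (P3 (ctr c)) k
    rw [ContinuousLinearEquiv.symm_apply_apply] at h1
    have e3 : P3.symm y k = y k := rfl
    have e4 : ctr c k = a k + (n + 1 / 2) * s := by simp only [ctr]; rw [e2, e1]; ring
    rw [e3, e4] at h1
    have h2 : 3 * s / 8 ≤ |y k - (a k + (n + 1 / 2) * s)| := by
      have h3 := abs_le.1 hN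
      rcases le_or_gt N n with hNn | hNn
      · have h4 : (N : ℝ) ≤ n := by exact_mod_cast hNn
        have h5 : (N : ℝ) * s ≤ n * s := mul_le_mul_of_nonneg_right h4 hs.le
        rw [abs_sub_comm]
        refine le_trans ?_ (le_abs_self _)
        linarith [h3.2]
      · have h4 : (n : ℝ) + 1 ≤ N := by exact_mod_cast hNn
        have h5 : ((n : ℝ) + 1) * s ≤ N * s := mul_le_mul_of_nonneg_right h4 hs.le
        refine le_trans ?_ (le_abs_self _)
        linarith [h3.1]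
    have h3 : 2 * rad κ0 c ≤ s / 4 := by
      have h4 := BF.asp c hc k
      have e5 : c.side k = s := by simp only [Bx.side]; linarith
      rw [e5] at h4
      unfold rad
      rw [show 2 * (c.sz / (8 * κ0)) = c.sz / (4 * κ0) by field_simp; ring,
        div_le_div_iff₀ (by positivity) (by norm_num)]
      linarith
    linarith
  · push Not at hc2
    have h1 : P3.symm y ∉ c.set := fun h => by
      have := hc2 y h y₀ hy₀
      linarith
    have h2 := dist_ctr BF hκ hc h1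
    have h3 := hc2 (P3 (ctr c)) (by
      rw [ContinuousLinearEquiv.symm_apply_apply]; exact ctr_mem (BF.pos c hc)) y₀ hy₀
    have h4 : ‖P3 (ctr c) - y₀‖ ≤ ‖y - P3 (ctr c)‖ + ‖y - y₀‖ := by
      have : P3 (ctr c) - y₀ = -(y - P3 (ctr c)) + (y - y₀) := by abel
      rw [this]
      refine (norm_add_le _ _).trans ?_
      rw [norm_neg]
    linarith

end Crest.Agent.R96.HoL_899
end

-- ▼ part R096/Bxn1_627
section

/-!
Row 96 (S0127), helper627.  NO0, `p ≥ 3`, leaf [U3] of 962 #10559, part 1: selection before the size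
`s`, the collapse `th` for a lower bound `σ` of the radii, the hole opening for any family of holes.
-/

set_option autoImplicit false
set_option linter.unusedSectionVars false
set_option linter.style.longLine false
set_option linter.unusedVariables false

namespace Crest.Agent.R096.Bxs_627

open MeasureTheory Set Filter Topology Metric
open scoped ENNReal NNReal
open Crest.AnalysisR.VecCalc3 Crest.AnalysisR.Sobolev
open Crest.Agent.R096.Bsp_628 Crest.Agent.R096.Brk5_582 Crest.Agent.R096.Brk3_582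
open Crest.Agent.R096.Osc_802 Crest.Agent.R096.LusN_766 Crest.Agent.R096.VolC_766
open Crest.Agent.R096.VolC2_766 Crest.Agent.R096.VolC3_766 Crest.Agent.R96.Lu_538
open Crest.Agent.R096.ThC6_766 Crest.Agent.R096.ThCi2_766 Crest.Agent.R096.ThCi3_766
open Crest.Agent.R096.Sel_766 Crest.Agent.R096.Toph_766
open Crest.Agent.R096.Sk_962 (SH)
open Crest.Agent.R96.En10_199 Crest.Agent.R96.HoL_899

/-- **Output of the hole opening** (all clauses of `toph_β` and the Sobolev clauses), for a family of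
holes: centres `P i`, radii `R i`. -/
structure HolN (p : ℝ) (Ω Λ : Set R3) (f : R3 → R3) (G : Fin 3 → R3 → R3) (β κ₁ : ℝ)
    (w μ κ δ : R3 → ℝ) (th : R3 → R3) {ι : Type} (P : ι → R3) (R : ι → ℝ) (yc ξ : ι → R3)
    (Th : R3 ≃ₜ R3) (G' : Fin 3 → R3 → R3) : Prop where
  ee : ∀ i, ξ i ∈ EE Ω f G p μ κ δ
  ycΛ : ∀ i, yc i ∈ Λ
  near_good : ∀ i, ‖yc i - f (ξ i)‖ ≤ R i
  near_P : ∀ i, ‖P i - yc i‖ ≤ w (P i) / 16
  th_yc : ∀ i, th (yc i) = P i
  id_off : ∀ y, y ∉ Λ → Th y = y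
  mem : ∀ y, Th y ∈ Λ ↔ y ∈ Λ
  disp : ∀ y, ‖Th y - y‖ ≤ 5 / 4 * w y
  lip : ∀ y y', ‖Th y - Th y'‖ ≤ 25 / 2 * ‖y - y'‖
  trans : ∀ i y, ‖y - yc i‖ ≤ R i / 16 → Th y = P i + (y - yc i)
  trans' : ∀ i y, ‖Th y - P i‖ ≤ R i / 16 → y = yc i + (Th y - P i)
  loc : ∀ y ∈ Λ, (∀ i, 2 * R i + 2 * w y + w (P i) < ‖y - P i‖) → w y ≤ β →
    ∀ᶠ y' in 𝓝 y, ‖Th y' - Th y‖ ≤ (1 + 4 * β) * ‖y' - y‖
  good : ∀ i, GoodAt Ω f G p κ (ξ i) (4 * R i / μ (ξ i))
  on_cube : ∀ i, ∀ x ∈ cube (ξ i) (4 * R i / μ (ξ i)),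
    x ∈ Ω ∧ ‖f x - (f (ξ i) + Gmat G (ξ i) (x - ξ i))‖ ≤ κ₁ * R i
  miss : ∀ i x, x ∈ Ω → ‖Th (f x) - P i‖ ≤ R i / 16 → x ∈ cube (ξ i) (4 * R i / μ (ξ i)) ∧
    ‖Th (f x) - Aff f G (ξ i) (P i - yc i) x‖ ≤ κ₁ * R i
  nbd : ∀ i x, ‖Aff f G (ξ i) (P i - yc i) x - P i‖ ≤ R i / 32 →
    x ∈ Ω ∧ x ∈ cube (ξ i) (4 * R i / μ (ξ i)) ∧
    ‖Th (f x) - Aff f G (ξ i) (P i - yc i) x‖ ≤ κ₁ * R i
  sh : SH p Ω Λ (fun x => Th (f x)) G'
  col : ∀ᵐ x, x ∈ Ω → ∀ i, ‖Crest.Agent.R96.Str_520.col G' i x‖ ≤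
    25 / 2 * ‖Crest.Agent.R96.Str_520.col G i x‖
  tr : ∀ (U : Set R3) (t : R3), IsOpen U → U ⊆ Ω → (∀ x ∈ U, Th (f x) = f x + t) →
    ∀ᵐ x, x ∈ U → ∀ j, G' j x = G j x


end Crest.Agent.R096.Bxs_627
end

-- ▼ part R096/Tau1_764
section

/-!
Row 96 (S0127), helper764, PRE3 [U2] (962 #10559, 627 #10669): **hole opening with the τ clause**:
off the balls `B(P_c, 4 R_c)` the map `Th` is as close to `th` as we like, and locally almost as
Lipschitz as `th`.  Proof: the pull towards the identity in 627's implicit equation is at most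
(distance to the complement of `L`) / 32, which becomes small if everything is scaled by a small
factor.
-/

set_option autoImplicit false
set_option linter.unusedSectionVars false
set_option linter.unusedVariables false
set_option linter.style.longLine false

open Set Filter Metric Topology

namespace Crest.Agent.R096.Tau_764

open Crest.Agent.R096.Ho_627 Crest.Agent.R096.ThC6_766 Crest.Agent.R096
open Crest.Agent.R96.HoL_899

variable {V : Type*} [NormedAddCommGroup V] [InnerProductSpace ℝ V] {ι : Type*}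
variable {L : Set V} {C : ℝ} {e : V → ℝ} {th : V → V} {yc : ι → V} {R : ι → ℝ}

/-! ### the solutions off the balls -/

/-- off the balls `4 R` -/
theorem off_balls (h : Holes L C e th yc R) {y q : V} (hq : FF L th yc R y q = q)
    (hy : ∀ c, 4 * R c ≤ ‖th y - th (yc c)‖) :
    (∀ c, R c / 4 < ‖y - yc c‖) ∧ (∀ c, 2 * R c < ‖q - th (yc c)‖) ∧
      q = th y + del (ZZ L th yc R) q • (y - q) := by
  have h1 : ∀ c, 2 * R c ≤ ‖y - yc c‖ := by
    intro c
    have a1 := h.lip y (yc c)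
    have a2 : C * ‖y - yc c‖ ≤ 2 * ‖y - yc c‖ := mul_le_mul_of_nonneg_right h.C2 (norm_nonneg _)
    have a3 := hy c
    linarith
  have c1 : col yc (fun c => R c / 8) univ y = y := col_out fun c _ => by
    have := h1 c
    have := h.pos c
    linarith
  obtain ⟨-, e1⟩ := sol_eq h hq
  rw [c1] at e1
  have hn := sol_near h hq
  have h2 : ∀ c, 2 * R c < ‖q - th (yc c)‖ := by
    intro c
    by_contra hcon
    push Not at hcon
    have hR := h.pos c
    have hT : ‖TT th yc R q y‖ ≤ R c / 8 := by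
      by_cases hlt : ‖q - th (yc c)‖ < 2 * R c
      · refine (TT_le_act h hlt y).trans ?_
        have a1 := om_le_one (R c) ‖q - th (yc c)‖
        have a2 : om (R c) ‖q - th (yc c)‖ * R c ≤ 1 * R c := mul_le_mul_of_nonneg_right a1 hR.le
        linarith
      · rw [TT_none, norm_zero]
        · positivity
        · intro c'
          by_contra hcon'
          push Not at hcon'
          have := h.uniq hcon' hcon
          rw [this] at hcon'
          exact hlt hcon'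
    have hd : del (ZZ L th yc R) q ≤ R c / 16 := by
      have hp : th (yc c) ∈ ZZ L th yc R := Or.inr (mem_iUnion.2 ⟨c, by
        rw [mem_closedBall, dist_self]; positivity⟩)
      have := del_le_dist hp q
      linarith
    have hd0 := del_nonneg (ZZ L th yc R) q
    have h3 : ‖del (ZZ L th yc R) q • (y - q)‖ ≤ R c / 8 := by
      rw [norm_smul, Real.norm_eq_abs, abs_of_nonneg hd0, norm_sub_rev]
      have a1 := h.sc.le_one y
      have a2 : ‖q - y‖ ≤ 2 := by linarith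
      calc del (ZZ L th yc R) q * ‖q - y‖ ≤ R c / 16 * 2 :=
            mul_le_mul hd a2 (norm_nonneg _) (by positivity)
        _ = R c / 8 := by ring
    have h4 : th y - th (yc c) = (q - th (yc c)) - del (ZZ L th yc R) q • (y - q) -
        TT th yc R q y := by
      have : th y = q - del (ZZ L th yc R) q • (y - q) - TT th yc R q y := by
        rw [eq_sub_iff_add_eq, eq_sub_iff_add_eq]
        conv_rhs => rw [e1]
        abel
      rw [this]; abel
    have h5 := hy c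
    rw [h4] at h5
    have h6 := norm_sub_le (q - th (yc c) - del (ZZ L th yc R) q • (y - q)) (TT th yc R q y)
    have h7 := norm_sub_le (q - th (yc c)) (del (ZZ L th yc R) q • (y - q))
    linarith
  refine ⟨fun c => ?_, h2, ?_⟩
  · have := h1 c
    have := h.pos c
    linarith
  · rw [TT_none fun c => (h2 c).le, add_zero] at e1
    exact e1

/-- distance of the solution from `th y` -/
theorem tau_base (h : Holes L C e th yc R) {y q : V} (hq : FF L th yc R y q = q)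
    (hy : ∀ c, 4 * R c ≤ ‖th y - th (yc c)‖) {z0 : V} (hz0 : z0 ∉ L) {d : ℝ}
    (hd : ∀ q ∈ L, ‖q - z0‖ ≤ d) : ‖q - th y‖ ≤ d / 25 * e y := by
  obtain ⟨-, -, h3⟩ := off_balls h hq hy
  by_cases hqL : q ∈ L
  · have h4 : q - th y = del (ZZ L th yc R) q • (y - q) := by
      rw [sub_eq_iff_eq_add']
      exact h3
    have hd0 := del_nonneg (ZZ L th yc R) q
    have hd1 : del (ZZ L th yc R) q ≤ d / 32 := by
      have := del_le_dist (Z := ZZ L th yc R) (Or.inl hz0) q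
      have := hd q hqL
      linarith
    have hd2 : 0 ≤ d := (norm_nonneg _).trans (hd q hqL)
    have hn := sol_near h hq
    have he := h.sc.nonneg y
    rw [h4, norm_smul, Real.norm_eq_abs, abs_of_nonneg hd0, norm_sub_rev]
    calc del (ZZ L th yc R) q * ‖q - y‖ ≤ d / 32 * (5 / 4 * e y) :=
          mul_le_mul hd1 hn (norm_nonneg _) (by positivity)
      _ ≤ d / 25 * e y := by nlinarith [mul_nonneg hd2 he]
  · have h4 := sol_off h hq hqL
    have h5 : th y = q := by rw [h4]; exact h.off hqL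
    have h6 : e y = 0 := by rw [h4]; exact h.sc.off q hqL
    rw [h5, h6, sub_self, norm_zero, mul_zero]

/-! ### the homeomorphism with its equation -/

/-- 627's `hole_opening` together with the implicit equation. -/
theorem hole_opening_FF [FiniteDimensional ℝ V] (h : Holes L C e th yc R) :
    ∃ Th : V ≃ₜ V, (∀ y, y ∉ L → Th y = y) ∧ (∀ y, Th y ∈ L ↔ y ∈ L) ∧
      (∀ y, ‖Th y - y‖ ≤ 5 / 4 * e y) ∧
      (∀ y y', ‖Th y - Th y'‖ ≤ 25 / 2 * ‖y - y'‖) ∧
      (∀ c y, ‖y - yc c‖ ≤ R c / 16 → Th y = th (yc c) + (y - yc c)) ∧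
      (∀ c y, ‖Th y - th (yc c)‖ ≤ R c / 16 → y = yc c + (Th y - th (yc c))) ∧
      (∀ y, th y = y → (∀ c, R c / 4 ≤ ‖y - yc c‖) → (∀ c, 2 * R c ≤ ‖y - th (yc c)‖) →
        Th y = y) ∧
      ∀ y, FF L th yc R y (Th y) = Th y := by
  have hcomp : CompleteSpace V := FiniteDimensional.complete ℝ V
  have hprop : ProperSpace V := FiniteDimensional.proper_real V
  choose T hT using exists_fix h
  have hlip : ∀ y y', ‖T y - T y'‖ ≤ 25 / 2 * ‖y - y'‖ := fun y y' => fix_lip h (hT y) (hT y')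
  have hcont : Continuous T := by
    have : LipschitzWith (25 / 2 : ℝ).toNNReal T := by
      apply LipschitzWith.of_dist_le_mul
      intro y y'
      rw [dist_eq_norm, dist_eq_norm, Real.coe_toNNReal _ (by norm_num)]
      exact hlip y y'
    exact this.continuous
  have hnear : ∀ y, ‖T y - y‖ ≤ 5 / 4 * e y := fun y => sol_near h (hT y)
  have hnear2 : ∀ y, ‖T y - y‖ ≤ 2 := fun y => by
    have := hnear y
    have := h.sc.le_one y
    linarith
  have hinj : Function.Injective T := fun y y' hyy => sol_inj h (hT y) (by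
    rw [hyy]; exact hT y')
  have hsurj : Function.Surjective T := by
    intro q0
    obtain ⟨x, hx⟩ := R332.Full.exists_zero_of_inner_pos (fun x => T x - q0)
      (hcont.sub continuous_const) (‖q0‖ + 3) (by positivity) (by
      intro x hx
      have e1 : T x - q0 = x + ((T x - x) - q0) := by abel
      rw [e1, inner_add_left, real_inner_self_eq_norm_sq]
      have e2 : |inner ℝ ((T x - x) - q0) x| ≤ ‖(T x - x) - q0‖ * ‖x‖ := abs_real_inner_le_norm _ _
      have e3 : ‖(T x - x) - q0‖ ≤ 2 + ‖q0‖ := (norm_sub_le _ _).trans (by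
        have := hnear2 x
        linarith)
      have e4 : ‖(T x - x) - q0‖ * ‖x‖ ≤ (2 + ‖q0‖) * ‖x‖ :=
        mul_le_mul_of_nonneg_right e3 (norm_nonneg _)
      have e5 := (abs_le.1 e2).1
      have e6 := norm_nonneg q0
      nlinarith)
    exact ⟨x, sub_eq_zero.1 hx⟩
  have hclosed : IsClosedMap T := by
    have hp : IsProperMap T := by
      rw [isProperMap_iff_tendsto_cocompact]
      refine ⟨hcont, ?_⟩
      rw [← Metric.cobounded_eq_cocompact, ← tendsto_norm_atTop_iff_cobounded]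
      have e1 : Tendsto (fun y : V => ‖y‖ - 2) (Bornology.cobounded V) atTop :=
        tendsto_atTop_add_const_right _ (-2 : ℝ) tendsto_norm_cobounded_atTop
      refine tendsto_atTop_mono (fun y => ?_) e1
      have e2 := hnear2 y
      have e3 := norm_sub_norm_le y (y - T y)
      rw [sub_sub_cancel] at e3
      rw [norm_sub_rev] at e2
      linarith
    exact hp.isClosedMap
  let Eq : V ≃ V := Equiv.ofBijective T ⟨hinj, hsurj⟩
  have huniq : ∀ y q, FF L th yc R y q = q → T y = q := fun y q hq => fix_uniq h (hT y) hq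
  have hoff : ∀ y, y ∉ L → T y = y := fun y hy => huniq y y (free_sol (h.off hy) (fun c => by
      by_contra hcon
      have := h.pos c
      exact hy (h.bally (c := c) (by linarith))) (fun c => by
      by_contra hcon
      exact hy (h.ballp (not_le.1 hcon).le)))
  have hmem : ∀ y, T y ∈ L ↔ y ∈ L := by
    intro y
    constructor
    · intro hy
      by_contra hcon
      rw [hoff y hcon] at hy
      exact hcon hy
    · intro hy
      by_contra hcon
      have := hinj (hoff _ hcon)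
      rw [this] at hcon
      exact hcon hy
  refine ⟨Eq.toHomeomorphOfContinuousClosed hcont hclosed, hoff, hmem, hnear, hlip, ?_, ?_, ?_, hT⟩
  · intro c y hy
    exact huniq y _ (core_sol h hy)
  · intro c y hy
    exact sol_core h (hT y) hy
  · intro y h1 h2 h3
    exact huniq y y (free_sol h1 h2 h3)

/-- the local Lipschitz clause off the balls `4 R`, from the equation -/
theorem loc_base (h : Holes L C e th yc R) (hC1 : 1 ≤ C) {T : V → V} (hcont : Continuous T)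
    (hT : ∀ y, FF L th yc R y (T y) = T y) {κ : ℝ} (hκ : κ ≤ 1) {y : V} (hyL : y ∈ L)
    (he : ∀ y, e y ≤ κ) (hy : ∀ c, 4 * R c < ‖th y - th (yc c)‖) :
    ∀ᶠ y' in 𝓝 y, ‖T y' - T y‖ ≤ C * (1 + κ) * ‖y' - y‖ := by
  have hthc : Continuous th := by
    have : LipschitzWith (Real.toNNReal C) th := by
      apply LipschitzWith.of_dist_le_mul
      intro y y'
      rw [dist_eq_norm, dist_eq_norm, Real.coe_toNNReal _ (by linarith)]
      exact h.lip y y'
    exact this.continuous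
  obtain ⟨b1, b2, -⟩ := off_balls h (hT y) fun c => (hy c).le
  have hTL : T y ∈ L := by
    by_contra hcon
    have h4 := sol_off h (hT y) hcon
    rw [← h4] at hcon
    exact hcon hyL
  -- the images are off the balls `2 R`
  obtain ⟨r, hr, hfin⟩ := h.fin (T y) hTL
  have ev1 : ∀ᶠ y' in 𝓝 y, ∀ c, 2 * R c ≤ ‖T y' - th (yc c)‖ := by
    have e1 : ∀ᶠ y' in 𝓝 y, T y' ∈ ball (T y) r :=
      hcont.continuousAt.eventually (ball_mem_nhds _ hr)
    have e2 : ∀ᶠ y' in 𝓝 y,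
        ∀ c ∈ {c | (closedBall (th (yc c)) (2 * R c) ∩ ball (T y) r).Nonempty},
          2 * R c < ‖T y' - th (yc c)‖ := by
      rw [Filter.eventually_all_finite hfin]
      intro c _
      exact (hcont.continuousAt.sub continuousAt_const).norm.eventually (lt_mem_nhds (b2 c))
    filter_upwards [e1, e2] with y' h3 h4 c
    by_contra hcon
    push Not at hcon
    have h5 := h4 c ⟨T y', by rw [mem_closedBall, dist_eq_norm]; exact hcon.le, h3⟩
    linarith
  -- the points are off the balls `R / 4`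
  obtain ⟨r', hr', hfin'⟩ := h.fin (th y) (h.memL hyL)
  have ev2 : ∀ᶠ y' in 𝓝 y, ∀ c, R c / 4 ≤ ‖y' - yc c‖ := by
    have e1 : ∀ᶠ y' in 𝓝 y, th y' ∈ ball (th y) r' :=
      hthc.continuousAt.eventually (ball_mem_nhds _ hr')
    have e2 : ∀ᶠ y' in 𝓝 y,
        ∀ c ∈ {c | (closedBall (th (yc c)) (2 * R c) ∩ ball (th y) r').Nonempty},
          R c / 4 < ‖y' - yc c‖ := by
      rw [Filter.eventually_all_finite hfin']
      intro c _
      exact (continuousAt_id.sub continuousAt_const).norm.eventually (lt_mem_nhds (b1 c))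
    filter_upwards [e1, e2] with y' h3 h4 c
    by_contra hcon
    push Not at hcon
    have h5 := h4 c ⟨th y', by
      rw [mem_closedBall, dist_eq_norm]
      have h6 := h.lip y' (yc c)
      have h7 : C * ‖y' - yc c‖ ≤ 2 * ‖y' - yc c‖ := mul_le_mul_of_nonneg_right h.C2 (norm_nonneg _)
      have h8 := h.pos c
      linarith, h3⟩
    linarith
  filter_upwards [ev1, ev2] with y' h3 h4
  exact fix_loc h hC1 (hT y') (hT y) h4 (fun c => (b1 c).le) h3 (fun c => (b2 c).le) hκ (he y)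

/-! ### scaling -/

/-- scaled data -/
theorem Holes_scale (h : Holes L C e th yc R) {t : ℝ} (ht : 0 < t) (ht1 : t ≤ 1) :
    Holes {x | t⁻¹ • x ∈ L} C (fun x => t * e (t⁻¹ • x)) (fun x => t • th (t⁻¹ • x))
      (fun c => t • yc c) (fun c => t * R c) := by
  have hti : ∀ x : V, t⁻¹ • (t • x) = x := fun x => inv_smul_smul₀ ht.ne' x
  have hnt : ∀ x y : V, t * ‖t⁻¹ • x - t⁻¹ • y‖ = ‖x - y‖ := by
    intro x y
    rw [← smul_sub, norm_smul, Real.norm_eq_abs, abs_of_pos (inv_pos.2 ht), ← mul_assoc,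
      mul_inv_cancel₀ ht.ne', one_mul]
  refine
    { op := h.op.preimage (continuous_const_smul t⁻¹)
      sc :=
        { nonneg := fun x => mul_nonneg ht.le (h.sc.nonneg _)
          lip := fun x y => ?_
          pos := fun x hx => mul_pos ht (h.sc.pos _ hx)
          off := fun x hx => by
            show t * e (t⁻¹ • x) = 0
            rw [h.sc.off _ hx, mul_zero]
          le_one := fun x => ?_ }
      C2 := h.C2
      mono := fun x y => ?_
      lip := fun x y => ?_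
      near := fun x => ?_
      pos := fun c => mul_pos ht (h.pos c)
      small := fun c => ?_
      disj := fun c c' hne => ?_
      fin := fun p hp => ?_ }
  · have h1 := h.sc.lip (t⁻¹ • x) (t⁻¹ • y)
    have h2 := mul_le_mul_of_nonneg_left h1 ht.le
    have h3 := hnt x y
    calc t * e (t⁻¹ • x) ≤ t * (e (t⁻¹ • y) + ‖t⁻¹ • x - t⁻¹ • y‖ / 8) := h2
      _ = t * e (t⁻¹ • y) + (t * ‖t⁻¹ • x - t⁻¹ • y‖) / 8 := by ring
      _ = _ := by rw [h3]
  · have h1 := h.sc.le_one (t⁻¹ • x)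
    have h2 := h.sc.nonneg (t⁻¹ • x)
    show t * e (t⁻¹ • x) ≤ 1
    nlinarith
  · have h1 := h.mono (t⁻¹ • x) (t⁻¹ • y)
    have h2 : x - y = t • (t⁻¹ • x - t⁻¹ • y) := by
      rw [← smul_sub, smul_inv_smul₀ ht.ne']
    show 0 ≤ inner ℝ (t • th (t⁻¹ • x) - t • th (t⁻¹ • y)) (x - y)
    rw [h2, ← smul_sub, real_inner_smul_left, real_inner_smul_right]
    positivity
  · show ‖t • th (t⁻¹ • x) - t • th (t⁻¹ • y)‖ ≤ C * ‖x - y‖
    rw [← smul_sub, norm_smul, Real.norm_eq_abs, abs_of_pos ht, ← hnt x y]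
    have h1 := mul_le_mul_of_nonneg_left (h.lip (t⁻¹ • x) (t⁻¹ • y)) ht.le
    linarith
  · show ‖t • th (t⁻¹ • x) - x‖ ≤ t * e (t⁻¹ • x)
    have h2 : t • th (t⁻¹ • x) - x = t • (th (t⁻¹ • x) - t⁻¹ • x) := by
      rw [smul_sub, smul_inv_smul₀ ht.ne']
    rw [h2, norm_smul, Real.norm_eq_abs, abs_of_pos ht]
    exact mul_le_mul_of_nonneg_left (h.near _) ht.le
  · show t * R c ≤ t * e (t⁻¹ • (t • th (t⁻¹ • (t • yc c)))) / 8
    rw [hti, hti]
    have := mul_le_mul_of_nonneg_left (h.small c) ht.le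
    linarith
  · show 2 * (t * R c) + 2 * (t * R c') < ‖t • th (t⁻¹ • (t • yc c)) - t • th (t⁻¹ • (t • yc c'))‖
    rw [hti, hti, ← smul_sub, norm_smul, Real.norm_eq_abs, abs_of_pos ht]
    have := mul_lt_mul_of_pos_left (h.disj c c' hne) ht
    linarith
  · obtain ⟨r, hr, hfin⟩ := h.fin (t⁻¹ • p) hp
    refine ⟨t * r, by positivity, hfin.subset ?_⟩
    rintro c ⟨x, hx1, hx2⟩
    refine ⟨t⁻¹ • x, ?_, ?_⟩
    · have h1 : ‖x - t • th (t⁻¹ • (t • yc c))‖ ≤ 2 * (t * R c) := by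
        rw [mem_closedBall, dist_eq_norm] at hx1
        exact hx1
      rw [hti] at h1
      rw [mem_closedBall, dist_eq_norm]
      have h2 := hnt x (t • th (yc c))
      rw [hti] at h2
      rw [← h2] at h1
      have h3 : t * ‖t⁻¹ • x - th (yc c)‖ ≤ t * (2 * R c) := by linarith
      exact le_of_mul_le_mul_left h3 ht
    · rw [mem_ball, dist_eq_norm] at hx2 ⊢
      rw [← hnt x p] at hx2
      exact lt_of_mul_lt_mul_left hx2 ht.le

/-- **HOLE OPENING WITH THE τ CLAUSE.** -/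
theorem hole_opening_tau [FiniteDimensional ℝ V] (h : Holes L C e th yc R) (hC1 : 1 ≤ C) {z0 : V}
    (hz0 : z0 ∉ L) (hLb : Bornology.IsBounded L) {τ κ : ℝ} (hτ : 0 < τ) (hκ : 0 < κ) :
    ∃ Th : V ≃ₜ V, (∀ y, y ∉ L → Th y = y) ∧ (∀ y, Th y ∈ L ↔ y ∈ L) ∧
      (∀ y, ‖Th y - y‖ ≤ 5 / 4 * e y) ∧
      (∀ y y', ‖Th y - Th y'‖ ≤ 25 / 2 * ‖y - y'‖) ∧
      (∀ c y, ‖y - yc c‖ ≤ R c / 16 → Th y = th (yc c) + (y - yc c)) ∧
      (∀ c y, ‖Th y - th (yc c)‖ ≤ R c / 16 → y = yc c + (Th y - th (yc c))) ∧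
      (∀ y, th y = y → (∀ c, R c / 4 ≤ ‖y - yc c‖) → (∀ c, 2 * R c ≤ ‖y - th (yc c)‖) →
        Th y = y) ∧
      (∀ y, (∀ c, 4 * R c ≤ ‖th y - th (yc c)‖) →
        ‖Th y - th y‖ ≤ τ * e y ∧ ∀ c, 2 * R c < ‖Th y - th (yc c)‖) ∧
      (∀ y ∈ L, (∀ c, 4 * R c < ‖th y - th (yc c)‖) →
        ∀ᶠ y' in 𝓝 y, ‖Th y' - Th y‖ ≤ C * (1 + κ) * ‖y' - y‖) := by
  obtain ⟨ρ, hρ⟩ := hLb.subset_closedBall z0
  set d : ℝ := max ρ 1 with hd
  have hd0 : 0 < d := lt_of_lt_of_le one_pos (le_max_right _ _)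
  have hdL : ∀ q ∈ L, ‖q - z0‖ ≤ d := by
    intro q hq
    have := hρ hq
    rw [mem_closedBall, dist_eq_norm] at this
    exact this.trans (le_max_left _ _)
  set t : ℝ := min (min 1 κ) (25 * τ / d) with ht
  have ht0 : 0 < t := lt_min (lt_min one_pos hκ) (by positivity)
  have ht1 : t ≤ 1 := (min_le_left _ _).trans (min_le_left _ _)
  have htκ : t ≤ κ := (min_le_left _ _).trans (min_le_right _ _)
  have htτ : t * d / 25 ≤ τ := by
    have : t ≤ 25 * τ / d := min_le_right _ _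
    rw [le_div_iff₀ hd0] at this
    linarith
  have hS := Holes_scale h ht0 ht1
  have hti : ∀ x : V, t⁻¹ • (t • x) = x := fun x => inv_smul_smul₀ ht0.ne' x
  have hit : ∀ x : V, t • (t⁻¹ • x) = x := fun x => smul_inv_smul₀ ht0.ne' x
  have hnt : ∀ x y : V, ‖t • x - t • y‖ = t * ‖x - y‖ := by
    intro x y
    rw [← smul_sub, norm_smul, Real.norm_eq_abs, abs_of_pos ht0]
  obtain ⟨T, h1, h2, h3, h4, h5, h6, h7, h8⟩ := hole_opening_FF hS
  simp only [hti] at h5 h6 h7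
  have hmem : ∀ y : V, t • y ∈ {x : V | t⁻¹ • x ∈ L} ↔ y ∈ L := by
    intro y
    show t⁻¹ • (t • y) ∈ L ↔ _
    rw [hti]
  set Th : V ≃ₜ V := ((Homeomorph.smulOfNeZero t ht0.ne').trans T).trans
    (Homeomorph.smulOfNeZero t ht0.ne').symm with hTh
  have hThe : ∀ y, Th y = t⁻¹ • T (t • y) := fun y => rfl
  have hTt : ∀ y, t • Th y = T (t • y) := fun y => by rw [hThe, hit]
  refine ⟨Th, ?_, ?_, ?_, ?_, ?_, ?_, ?_, ?_, ?_⟩
  · intro y hy
    rw [hThe, h1 _ (by rwa [hmem]), hti]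
  · intro y
    have := h2 (t • y)
    rw [hmem] at this
    rw [hThe]
    exact this
  · intro y
    have h9 := h3 (t • y)
    rw [hti, ← hTt, hnt] at h9
    have : t * ‖Th y - y‖ ≤ t * (5 / 4 * e y) := by linarith
    exact le_of_mul_le_mul_left this ht0
  · intro y y'
    have h9 := h4 (t • y) (t • y')
    rw [← hTt, ← hTt, hnt, hnt] at h9
    have : t * ‖Th y - Th y'‖ ≤ t * (25 / 2 * ‖y - y'‖) := by linarith
    exact le_of_mul_le_mul_left this ht0
  · intro c y hy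
    have h9 := h5 c (t • y) (by
      rw [hnt]
      have := mul_le_mul_of_nonneg_left hy ht0.le
      linarith)
    rw [hThe, h9, ← smul_sub, ← smul_add, hti]
  · intro c y hy
    have h9 := h6 c (t • y) (by
      rw [← hTt, hnt]
      have := mul_le_mul_of_nonneg_left hy ht0.le
      linarith)
    rw [← hTt, ← smul_sub, ← smul_add] at h9
    have := congrArg (fun z => t⁻¹ • z) h9
    simpa only [hti] using this
  · intro y hy1 hy2 hy3
    have h9 := h7 (t • y) (by rw [hti, hy1]) (fun c => by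
      rw [hnt]
      have := mul_le_mul_of_nonneg_left (hy2 c) ht0.le
      linarith) (fun c => by
      rw [hnt]
      have := mul_le_mul_of_nonneg_left (hy3 c) ht0.le
      linarith)
    rw [hThe, h9, hti]
  · intro y hy
    have hy' : ∀ c, 4 * (t * R c) ≤ ‖(fun x => t • th (t⁻¹ • x)) (t • y) -
        (fun x => t • th (t⁻¹ • x)) (t • yc c)‖ := by
      intro c
      simp only [hti]
      rw [hnt]
      have := mul_le_mul_of_nonneg_left (hy c) ht0.le
      linarith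
    have h9 := tau_base hS (h8 (t • y)) hy' (z0 := t • z0) (by rwa [hmem]) (d := t * d) (by
      intro q hq
      have h10 := hdL _ hq
      have h11 : q - t • z0 = t • (t⁻¹ • q - z0) := by rw [smul_sub, hit]
      rw [h11, norm_smul, Real.norm_eq_abs, abs_of_pos ht0]
      exact mul_le_mul_of_nonneg_left h10 ht0.le)
    simp only [hti] at h9
    rw [← hTt, hnt] at h9
    have he := h.sc.nonneg y
    constructor
    · have h10 : t * ‖Th y - th y‖ ≤ t * (τ * e y) := by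
        calc t * ‖Th y - th y‖ ≤ t * d / 25 * (t * e y) := h9
          _ ≤ τ * (t * e y) := mul_le_mul_of_nonneg_right htτ (by positivity)
          _ = t * (τ * e y) := by ring
      exact le_of_mul_le_mul_left h10 ht0
    · intro c
      obtain ⟨-, h10, -⟩ := off_balls hS (h8 (t • y)) hy'
      have h11 := h10 c
      simp only [hti] at h11
      rw [← hTt, hnt] at h11
      have : t * (2 * R c) < t * ‖Th y - th (yc c)‖ := by linarith
      exact lt_of_mul_lt_mul_left this ht0.le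
  · intro y hyL hy
    have hy' : ∀ c, 4 * (t * R c) < ‖(fun x => t • th (t⁻¹ • x)) (t • y) -
        (fun x => t • th (t⁻¹ • x)) (t • yc c)‖ := by
      intro c
      simp only [hti]
      rw [hnt]
      have := mul_lt_mul_of_pos_left (hy c) ht0
      linarith
    have h9 := loc_base hS hC1 T.continuous h8 (κ := t) ht1 (y := t • y) (by rwa [hmem])
      (fun x => by
        have a1 := h.sc.le_one (t⁻¹ • x)
        have a2 := mul_le_mul_of_nonneg_left a1 ht0.le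
        linarith) hy'
    have hc : Tendsto (fun y : V => t • y) (𝓝 y) (𝓝 (t • y)) :=
      (continuous_const_smul t).continuousAt
    filter_upwards [hc.eventually h9] with y' h10
    rw [← hTt, ← hTt, hnt, hnt] at h10
    have h11 : t * ‖Th y' - Th y‖ ≤ t * (C * (1 + t) * ‖y' - y‖) := by linarith
    refine (le_of_mul_le_mul_left h11 ht0).trans ?_
    have : C * (1 + t) ≤ C * (1 + κ) := mul_le_mul_of_nonneg_left (by linarith) (by linarith)
    exact mul_le_mul_of_nonneg_right this (norm_nonneg _)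

/-- the same for holes given by their images -/
theorem hole_opening_image_tau [FiniteDimensional ℝ V] {ι : Type*} (hL : IsOpen L) (he : Scale L e)
    (hC1 : 1 ≤ C) (hC2 : C ≤ 2) (mono : ∀ y y', 0 ≤ inner ℝ (th y - th y') (y - y'))
    (lip : ∀ y y', ‖th y - th y'‖ ≤ C * ‖y - y'‖) (near : ∀ y, ‖th y - y‖ ≤ e y)
    {z0 : V} (hz0 : z0 ∉ L) (hLb : Bornology.IsBounded L) {τ κ : ℝ} (hτ : 0 < τ) (hκ : 0 < κ)
    {Q : V → Prop} (p : ι → V) (R : ι → ℝ) (hex : ∀ i, ∃ y, th y = p i ∧ Q y)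
    (pos : ∀ i, 0 < R i) (small : ∀ i, R i ≤ e (p i) / 8)
    (disj : ∀ i j, i ≠ j → 2 * R i + 2 * R j < ‖p i - p j‖)
    (fin : ∀ q ∈ L, ∃ r : ℝ, 0 < r ∧ {i | (closedBall (p i) (2 * R i) ∩ ball q r).Nonempty}.Finite) :
    ∃ (yc : ι → V) (Th : V ≃ₜ V), (∀ i, th (yc i) = p i ∧ Q (yc i)) ∧
      (∀ y, y ∉ L → Th y = y) ∧ (∀ y, Th y ∈ L ↔ y ∈ L) ∧
      (∀ y, ‖Th y - y‖ ≤ 5 / 4 * e y) ∧
      (∀ y y', ‖Th y - Th y'‖ ≤ 25 / 2 * ‖y - y'‖) ∧
      (∀ i y, ‖y - yc i‖ ≤ R i / 16 → Th y = p i + (y - yc i)) ∧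
      (∀ i y, ‖Th y - p i‖ ≤ R i / 16 → y = yc i + (Th y - p i)) ∧
      (∀ y, th y = y → (∀ i, R i / 4 ≤ ‖y - yc i‖) → (∀ i, 2 * R i ≤ ‖y - p i‖) → Th y = y) ∧
      (∀ y, (∀ i, 4 * R i ≤ ‖th y - p i‖) →
        ‖Th y - th y‖ ≤ τ * e y ∧ ∀ i, 2 * R i < ‖Th y - p i‖) ∧
      (∀ y ∈ L, (∀ i, 4 * R i < ‖th y - p i‖) →
        ∀ᶠ y' in 𝓝 y, ‖Th y' - Th y‖ ≤ C * (1 + κ) * ‖y' - y‖) := by
  choose yc hyc using hex
  have hp : ∀ i, th (yc i) = p i := fun i => (hyc i).1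
  have H : Holes L C e th yc R :=
    { op := hL, sc := he, C2 := hC2, mono := mono, lip := lip, near := near, pos := pos
      small := fun i => by rw [hp]; exact small i
      disj := fun i j hij => by rw [hp, hp]; exact disj i j hij
      fin := fun q hq => by
        obtain ⟨r, hr, hf⟩ := fin q hq
        refine ⟨r, hr, ?_⟩
        simp only [hp]
        exact hf }
  obtain ⟨Th, h1, h2, h3, h4, h5, h6, h7, h8, h9⟩ := hole_opening_tau H hC1 hz0 hLb hτ hκ
  simp only [hp] at h5 h6 h7 h8 h9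
  exact ⟨yc, Th, hyc, h1, h2, h3, h4, h5, h6, h7, h8, h9⟩

end Crest.Agent.R096.Tau_764
end

-- ▼ part R096/Tau2_764
section

/-!
Row 96 (S0127), helper764, PRE3 [U2] (962 #10559, 627 #10669): `toph_τ` = 899's `toph_β`
(R96/HoL2_899, itself 766's `toph`) for bounded `Λ`, with one more parameter `τ > 0` chosen after
the holes and two more clauses off the balls `B(P_i, 4 R_i)`:
`‖Th y - th y‖ ≤ τ * w y`, and `Th` is locally `(1 + 4 β)`-Lipschitz (no condition on `w y`).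
-/

set_option autoImplicit false
set_option linter.unusedSectionVars false
set_option linter.style.longLine false
set_option linter.style.haveILetI false
set_option linter.unusedVariables false

namespace Crest.Agent.R096.Tau_764

open MeasureTheory Set Filter Topology Metric
open scoped ENNReal NNReal RealInnerProductSpace
open Crest.AnalysisR.VecCalc3 Crest.AnalysisR.Sobolev
open Crest.Agent.R096 Crest.Agent.R096.Osc_802 Crest.Agent.R096.LusN_766 Crest.Agent.R096.VolC_766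
open Crest.Agent.R096.VolC2_766 Crest.Agent.R096.VolC3_766 Crest.Agent.R96.Lu_538
open Crest.Agent.R096.ThC6_766 Crest.Agent.R096.ThCi2_766 Crest.Agent.R096.ThCi3_766
open Crest.Agent.R096.Sel_766 Crest.Agent.R096.Toph_766

/-- **`toph_β` with the τ clause.** -/
theorem toph_τ {β : ℝ} (hβ : 0 < β) (hβ1 : β ≤ 1 / 2) {Ω Λ : Set R3} (hΩ : IsOpen Ω) (hΛ : IsOpen Λ)
    (hΛc : (Λᶜ).Nonempty) (hΛb : Bornology.IsBounded Λ) {f : R3 → R3}
    (hf : IsHomeomorphOn f Ω Λ) {G : Fin 3 → R3 → R3} {p : ℝ} {w : R3 → ℝ} (hw : Scale Λ w) :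
    ∃ η : ℝ, 0 < η ∧ η < 1 ∧ ∀ {μ κ δ : R3 → ℝ}, (∀ x ∈ Ω, 0 < μ x) → ∀ {κ₁ : ℝ}, κ₁ ≤ 1 / 32 →
      (∀ x ∈ Ω, κ x * 4 ≤ κ₁ * μ x) →
      (∀ y ∈ Λ, (volume : Measure R3).real ((Λ \ f '' EE Ω f G p μ κ δ) ∩ ball y (w y)) ≤
          η * (volume : Measure R3).real (ball y (w y))) →
      ∀ {σ : R3 → ℝ}, Scale Λ σ →
      ∀ {W D : Set R3}, W = {y | y ∈ Λ ∧ σ y / 2 < infDist y (f '' EE Ω f G p μ κ δ)} →
      D = {y | σ y ≤ infDist y (f '' EE Ω f G p μ κ δ)} →
      ∃ (Phi : R3 → ℝ) (th : R3 → R3), ThC3_766.CT (1 + 2 * β) Phi th ∧ (∀ y ∉ OO η w W, th y = y) ∧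
        (∀ y, ‖th y - y‖ ≤ w y / 16) ∧ (∀ y, th y ∈ Λ ↔ y ∈ Λ) ∧
        (∀ q ∈ Λ, ∃ y ∈ Λ, th y = q ∧ ‖q - y‖ ≤ w q / 16 ∧ y ∉ D) ∧
      (∀ q ∈ Λ, q ∉ OO η w W → ∃ ξ ∈ EE Ω f G p μ κ δ, ‖q - f ξ‖ < σ q) ∧
      ∀ {ι : Type} (P : ι → R3) (R : ι → ℝ), (∀ i, P i ∈ Λ) → (∀ i, 0 < R i) →
        (∀ i, R i ≤ w (P i) / 8) → (∀ i j, i ≠ j → 2 * R i + 2 * R j < ‖P i - P j‖) →
        (∀ q ∈ Λ, ∃ r : ℝ, 0 < r ∧ {i | (closedBall (P i) (2 * R i) ∩ ball q r).Nonempty}.Finite) →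
        (∀ i y, ‖P i - y‖ ≤ w (P i) / 16 → σ y ≤ R i) →
        (∀ i, ∀ x ∈ Ω, ‖f x - P i‖ ≤ w (P i) / 4 → 4 * R i < μ x * δ x) →
        ∀ {τ : ℝ}, 0 < τ →
        ∃ (yc ξ : ι → R3) (Th : R3 ≃ₜ R3), (∀ i, ξ i ∈ EE Ω f G p μ κ δ) ∧ (∀ i, yc i ∈ Λ) ∧
          (∀ i, ‖yc i - f (ξ i)‖ ≤ R i) ∧ (∀ i, ‖P i - yc i‖ ≤ w (P i) / 16) ∧
          (∀ i, th (yc i) = P i) ∧
          (∀ y, y ∉ Λ → Th y = y) ∧ (∀ y, Th y ∈ Λ ↔ y ∈ Λ) ∧
          (∀ y, ‖Th y - y‖ ≤ 5 / 4 * w y) ∧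
          (∀ y y', ‖Th y - Th y'‖ ≤ 25 / 2 * ‖y - y'‖) ∧
          (∀ i y, ‖y - yc i‖ ≤ R i / 16 → Th y = P i + (y - yc i)) ∧
          (∀ i y, ‖Th y - P i‖ ≤ R i / 16 → y = yc i + (Th y - P i)) ∧
          (∀ y, y ∉ OO η w W → (∀ i, 2 * R i ≤ ‖y - P i‖) → Th y = y) ∧
          (∀ y ∈ Λ, (∀ i, 2 * R i + 2 * w y + w (P i) < ‖y - P i‖) → w y ≤ β →
            ∀ᶠ y' in 𝓝 y, ‖Th y' - Th y‖ ≤ (1 + 4 * β) * ‖y' - y‖) ∧
          (∀ y, (∀ i, 4 * R i ≤ ‖th y - P i‖) →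
            ‖Th y - th y‖ ≤ τ * w y ∧ ∀ i, 2 * R i < ‖Th y - P i‖) ∧
          (∀ y ∈ Λ, (∀ i, 4 * R i < ‖th y - P i‖) →
            ∀ᶠ y' in 𝓝 y, ‖Th y' - Th y‖ ≤ (1 + 4 * β) * ‖y' - y‖) ∧
          (∀ i, GoodAt Ω f G p κ (ξ i) (4 * R i / μ (ξ i))) ∧
          (∀ i, ∀ x ∈ cube (ξ i) (4 * R i / μ (ξ i)),
            x ∈ Ω ∧ ‖f x - (f (ξ i) + Gmat G (ξ i) (x - ξ i))‖ ≤ κ₁ * R i) ∧
          (∀ i x, x ∈ Ω → ‖Th (f x) - P i‖ ≤ R i / 16 → x ∈ cube (ξ i) (4 * R i / μ (ξ i)) ∧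
            ‖Th (f x) - Aff f G (ξ i) (P i - yc i) x‖ ≤ κ₁ * R i) ∧
          (∀ i x, ‖Aff f G (ξ i) (P i - yc i) x - P i‖ ≤ R i / 32 →
            x ∈ Ω ∧ x ∈ cube (ξ i) (4 * R i / μ (ξ i)) ∧
            ‖Th (f x) - Aff f G (ξ i) (P i - yc i) x‖ ≤ κ₁ * R i) := by
  obtain ⟨η, hη, hη1, hmain⟩ := exists_thi (V := R3) (β := β) hβ hβ1
  refine ⟨η, hη, hη1, ?_⟩
  intro μ κ δ hμ κ₁ hκ₁ hκ hden σ hσ W D hWdef hDdef
  set F : Set R3 := f '' EE Ω f G p μ κ δ with hF
  have hFΛ : F ⊆ Λ := by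
    rintro _ ⟨x, hx, rfl⟩
    obtain ⟨g, hfm, -⟩ := hf
    exact hfm hx.1
  have hcd : Continuous fun y : R3 => infDist y F := continuous_infDist_pt F
  have hσc := hσ.cont
  have hW : IsOpen W := by
    rw [hWdef]
    exact hΛ.inter (isOpen_lt (by fun_prop) hcd)
  have hWL : W ⊆ Λ := by rw [hWdef]; exact fun y hy => hy.1
  have hD : IsClosed D := by
    rw [hDdef]
    exact isClosed_le hσc hcd
  have hDW : D ∩ Λ ⊆ W := by
    rintro y ⟨hy, hyΛ⟩
    rw [hDdef] at hy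
    rw [hWdef]
    have h1 := hσ.pos y hyΛ
    have h2 : σ y ≤ infDist y F := hy
    exact ⟨hyΛ, by linarith⟩
  have hWF : W ⊆ Λ \ F := by
    intro y hy
    rw [hWdef] at hy
    refine ⟨hy.1, fun h => ?_⟩
    have h1 := hy.2
    rw [infDist_zero_of_mem h] at h1
    have h2 := hσ.pos y hy.1
    linarith
  have hdW : ∀ y ∈ Λ, (volume : Measure R3).real (W ∩ ball y (w y)) ≤
      η * (volume : Measure R3).real (ball y (w y)) := by
    intro y hy
    refine le_trans ?_ (hden y hy)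
    exact measureReal_mono (inter_subset_inter_left _ hWF)
      ((measure_mono inter_subset_right).trans_lt measure_ball_lt_top).ne
  have hFne : Λ.Nonempty → F.Nonempty := by
    rintro ⟨y, hy⟩
    by_contra hcon
    rw [not_nonempty_iff_eq_empty] at hcon
    have h1 := hden y hy
    have hwy := hw.pos y hy
    have h2 : Λ ∩ ball y (w y) = ball y (w y) := by
      apply inter_eq_self_of_subset_right
      intro z hz
      apply hw.mem hy
      rw [mem_ball, dist_eq_norm] at hz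
      linarith
    rw [hcon, sdiff_empty, h2] at h1
    have h3 : 0 < (volume : Measure R3).real (ball y (w y)) := by
      rw [Measure.real, ENNReal.toReal_pos_iff]
      exact ⟨measure_ball_pos _ _ hwy, measure_ball_lt_top⟩
    nlinarith
  obtain ⟨Phi, th, hCT, hoff, hnear, hmem, -, hex⟩ := hmain hΛ hΛc hw hW hWL hdW hD hDW
  have hCT2 : ThC3_766.CT (1 + 2 * β) Phi th := hCT
  refine ⟨Phi, th, hCT2, hoff, hnear, hmem, hex, ?_, ?_⟩
  · intro q hq hqO
    have hqW : q ∉ W := fun h => hqO (subset_OO hw hη1 hW hWL h)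
    have h1 : infDist q F ≤ σ q / 2 := by
      by_contra hcon
      push Not at hcon
      exact hqW (by rw [hWdef]; exact ⟨hq, hcon⟩)
    have h2 := hσ.pos q hq
    obtain ⟨z, ⟨ξ, hξ, rfl⟩, hz⟩ := (infDist_lt_iff (hFne ⟨q, hq⟩)).1 (show infDist q F < σ q by linarith)
    rw [dist_eq_norm] at hz
    exact ⟨ξ, hξ, hz⟩
  intro ι P R hPΛ hR0 hRw hdisj hfin hσR hRδ τ hτ
  have hC : (0 : ℝ) < 1 + 2 * β := by linarith
  obtain ⟨z0, hz0⟩ := hΛc
  obtain ⟨yc, Th, hyc, hTh1, hTh2, hTh3, hTh4, hTh5, hTh6, hTh7, hTh8, hTh9⟩ :=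
    hole_opening_image_tau (V := R3) (L := Λ) (C := 1 + 2 * β) (e := w) (th := th) (z0 := z0)
      (τ := τ) (κ := β / 2)
      (Q := fun y => y ∈ Λ ∧ y ∉ D ∧ ∃ q ∈ Λ, th y = q ∧ ‖q - y‖ ≤ w q / 16) hΛ hw
      (by linarith) (by linarith)
      (fun y y' => hCT2.mono y y') (fun y y' => hCT2.lip hC y y')
      (fun y => (hnear y).trans (by have := hw.nonneg y; linarith)) hz0 hΛb hτ (by linarith) P R
      (fun i => by
        obtain ⟨y, hyΛ, h1, h2, h3⟩ := hex (P i) (hPΛ i)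
        exact ⟨y, h1, hyΛ, h3, P i, hPΛ i, h1, h2⟩) hR0 hRw hdisj hfin
  have hyn : ∀ i, ‖P i - yc i‖ ≤ w (P i) / 16 := by
    intro i
    obtain ⟨h1, -, -, q, -, h2, h3⟩ := hyc i
    rw [h1] at h2
    rwa [← h2] at h3
  have hξ : ∀ i, ∃ ξ ∈ EE Ω f G p μ κ δ, ‖yc i - f ξ‖ ≤ R i := by
    intro i
    obtain ⟨-, h2, h3, -⟩ := hyc i
    have h4 : infDist (yc i) F < σ (yc i) := by
      by_contra hcon
      push Not at hcon
      exact h3 (by rw [hDdef]; exact hcon)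
    obtain ⟨z, ⟨ξ, hξ, rfl⟩, hz⟩ := (infDist_lt_iff (hFne ⟨_, h2⟩)).1 h4
    rw [dist_eq_norm] at hz
    exact ⟨ξ, hξ, (hz.le.trans (hσR i (yc i) (hyn i)))⟩
  choose ξ hξE hξn using hξ
  have hcore : ∀ i, GoodAt Ω f G p κ (ξ i) (4 * R i / μ (ξ i)) ∧
    (∀ x ∈ Ω, ‖f x - yc i‖ ≤ R i → x ∈ cube (ξ i) (4 * R i / μ (ξ i))) ∧
    (∀ x, ‖f (ξ i) + Gmat G (ξ i) (x - ξ i) - yc i‖ ≤ 2 * R i → x ∈ cube (ξ i) (4 * R i / μ (ξ i))) ∧
    ∀ x ∈ cube (ξ i) (4 * R i / μ (ξ i)), x ∈ Ω ∧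
      ‖f x - (f (ξ i) + Gmat G (ξ i) (x - ξ i))‖ ≤ κ₁ * R i := by
    intro i
    have hξΩ := (hξE i).1
    refine core_at hΩ hΛ hf (hR0 i) (hξE i) (hμ _ hξΩ) hκ₁ (hκ _ hξΩ) (hξn i) (hRδ i _ hξΩ ?_)
    have h1 : f (ξ i) - P i = -(yc i - f (ξ i)) - (P i - yc i) := by abel
    have h2 : ‖f (ξ i) - P i‖ ≤ ‖yc i - f (ξ i)‖ + ‖P i - yc i‖ := by
      rw [h1]
      refine (norm_sub_le _ _).trans ?_
      rw [norm_neg]
    have h3 := hξn i
    have h4 := hyn i
    have h5 := hRw i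
    have h6 := hw.nonneg (P i)
    linarith
  refine ⟨yc, ξ, Th, hξE, fun i => (hyc i).2.1, hξn, hyn, fun i => (hyc i).1, hTh1, hTh2, hTh3, hTh4,
    hTh5, hTh6, ?_, ?_, hTh8, ?_, fun i => (hcore i).1, fun i => (hcore i).2.2.2, ?_, ?_⟩
  · intro y hy hyR
    have hthy := hoff y hy
    refine hTh7 y hthy (fun i => ?_) hyR
    have h1 := hCT2.lip hC y (yc i)
    rw [hthy, (hyc i).1] at h1
    have h2 := hyR i
    have h3 := hR0 i
    have h4 : (1 + 2 * β) * ‖y - yc i‖ ≤ 2 * ‖y - yc i‖ :=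
      mul_le_mul_of_nonneg_right (by linarith) (norm_nonneg _)
    linarith
  · intro y hyΛ hyP hwy
    have hwy0 := hw.pos y hyΛ
    have h1 := hTh9 y hyΛ (fun i => by
      have e1 := hyP i
      have e2 := hnear y
      have e3 : ‖y - P i‖ ≤ ‖th y - P i‖ + ‖th y - y‖ := by
        have : y - P i = (th y - P i) - (th y - y) := by abel
        rw [this]
        exact norm_sub_le _ _
      have e4 := hR0 i
      have e5 := hRw i
      linarith)
    filter_upwards [h1] with y' hy'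
    refine hy'.trans (mul_le_mul_of_nonneg_right ?_ (norm_nonneg _))
    nlinarith
  · intro y hyΛ hyP
    filter_upwards [hTh9 y hyΛ hyP] with y' hy'
    refine hy'.trans (mul_le_mul_of_nonneg_right ?_ (norm_nonneg _))
    nlinarith
  · intro i x hx hxT
    have h1 := hTh6 i (f x) hxT
    have h2 : ‖f x - yc i‖ ≤ R i := by
      have e1 : f x - yc i = Th (f x) - P i := by rw [h1]; simp only [add_sub_cancel_left]; rw [← h1]
      rw [e1]
      have := hR0 i
      linarith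
    have hxc := (hcore i).2.1 x hx h2
    refine ⟨hxc, ?_⟩
    have h3 := ((hcore i).2.2.2 x hxc).2
    have e1 : Th (f x) = f x + (P i - yc i) := by
      have : Th (f x) - P i = f x - yc i := by
        conv_rhs => rw [h1]
        rw [add_sub_cancel_left]
      have e2 : Th (f x) = (Th (f x) - P i) + P i := by abel
      rw [e2, this]
      abel
    have e2 : Th (f x) - Aff f G (ξ i) (P i - yc i) x = f x - (f (ξ i) + Gmat G (ξ i) (x - ξ i)) := by
      rw [e1, Aff]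
      abel
    rw [e2]
    exact h3
  · intro i x hxA
    have hRi := hR0 i
    have e0 : f (ξ i) + Gmat G (ξ i) (x - ξ i) - yc i = Aff f G (ξ i) (P i - yc i) x - P i := by
      rw [Aff]; abel
    have h1 : x ∈ cube (ξ i) (4 * R i / μ (ξ i)) := (hcore i).2.2.1 x (by
      rw [e0]; linarith)
    obtain ⟨hxΩ, h3⟩ := (hcore i).2.2.2 x h1
    have h4 : ‖f x - yc i‖ ≤ R i / 16 := by
      have e1 : f x - yc i = (f x - (f (ξ i) + Gmat G (ξ i) (x - ξ i))) +
          (Aff f G (ξ i) (P i - yc i) x - P i) := by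
        rw [← e0]; abel
      rw [e1]
      refine (norm_add_le _ _).trans ?_
      have : κ₁ * R i ≤ 1 / 32 * R i := by gcongr
      linarith
    have h5 := hTh5 i (f x) h4
    refine ⟨hxΩ, h1, ?_⟩
    have e2 : Th (f x) - Aff f G (ξ i) (P i - yc i) x = f x - (f (ξ i) + Gmat G (ξ i) (x - ξ i)) := by
      rw [h5, Aff]
      abel
    rw [e2]
    exact h3

end Crest.Agent.R096.Tau_764
end

-- ▼ part R096/Sgl1_733
section

/-!
Row 96 (S0127), helper733.  Leaf of helper627 (#10669): the scale `σ` below a given locally bounded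
function `r`, uniformly over the `w z / 16`-balls.
-/

set_option autoImplicit false
set_option linter.unusedSectionVars false
set_option linter.style.longLine false

namespace Crest.Agent.R096.Sgl_733

open Set Filter Topology Metric
open Crest.Agent.R096.ThC6_766 Crest.Agent.R096.Toph_766

variable {V : Type*} [NormedAddCommGroup V] [InnerProductSpace ℝ V]

/-- a locally bounded below function is bounded below on compact sets -/
lemma low_compact {L : Set V} {r : V → ℝ}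
    (hr : ∀ q ∈ L, ∃ ε : ℝ, 0 < ε ∧ ∃ m : ℝ, 0 < m ∧ ∀ z ∈ ball q ε, m ≤ r z)
    {K : Set V} (hK : IsCompact K) (hKL : K ⊆ L) : ∃ m : ℝ, 0 < m ∧ ∀ z ∈ K, m ≤ r z := by
  classical
  choose! ε hε m hm hmr using hr
  obtain ⟨t, htK, ht⟩ := hK.elim_nhds_subcover (fun q => ball q (ε q)) fun q hq =>
    ball_mem_nhds q (hε q (hKL hq))
  rcases t.eq_empty_or_nonempty with h0 | hne
  · refine ⟨1, one_pos, fun z hz => ?_⟩
    have := ht hz
    simp [h0] at this
  · obtain ⟨q0, hq0, hmin⟩ := t.exists_min_image m hne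
    refine ⟨m q0, hm q0 (hKL (htK q0 hq0)), fun z hz => ?_⟩
    obtain ⟨q, hq⟩ := mem_iUnion.1 (ht hz)
    obtain ⟨hqt, hqz⟩ := mem_iUnion.1 hq
    exact (hmin q hqt).trans (hmr q (hKL (htK q hqt)) z hqz)

/-- **the scale below `r`** (any inner product space with compact balls), with the lower bound. -/
theorem exists_sigma_low' [FiniteDimensional ℝ V] {L : Set V} (hL : IsOpen L) {w : V → ℝ}
    (hw : Scale L w) {r : V → ℝ}
    (hr : ∀ q ∈ L, ∃ ε : ℝ, 0 < ε ∧ ∃ m : ℝ, 0 < m ∧ ∀ z ∈ ball q ε, m ≤ r z) :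
    ∃ σ : V → ℝ, Scale L σ ∧ (∀ z ∈ L, ∀ y, ‖z - y‖ ≤ w z / 16 → σ y ≤ r z) ∧
      ∀ (y : V) (m : ℝ), 0 ≤ m → m ≤ 1 → ball y (8 * m) ⊆ L →
        (∀ z ∈ L, ‖z - y‖ ≤ w z / 16 + 8 * m → m ≤ r z) → m ≤ σ y := by
  classical
  have : ProperSpace V := FiniteDimensional.proper_real V
  have hpos : ∀ z ∈ L, 0 < r z := by
    intro z hz
    obtain ⟨ε, hε, m, hm, h⟩ := hr z hz
    exact hm.trans_le (h z (mem_ball_self hε))
  set h : V → ℝ := fun y => ⨅ k : Option V, (match k with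
    | none => 1
    | some z => if z ∈ L ∧ ‖z - y‖ ≤ w z / 16 then r z else 1) with hh
  have hbdd : ∀ y, BddBelow (range fun k : Option V => (match k with
    | none => 1
    | some z => if z ∈ L ∧ ‖z - y‖ ≤ w z / 16 then r z else 1 : ℝ)) := by
    intro y
    refine ⟨0, ?_⟩
    rintro _ ⟨k, rfl⟩
    rcases k with _ | z
    · simp
    · simp only
      split_ifs with hz
      · exact (hpos z hz.1).le
      · exact zero_le_one
  have hlow : ∀ y m, m ≤ 1 → (∀ z ∈ L, ‖z - y‖ ≤ w z / 16 → m ≤ r z) → m ≤ h y := by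
    intro y m hm1 hm
    refine le_ciInf fun k => ?_
    rcases k with _ | z
    · exact hm1
    · simp only
      split_ifs with hz
      · exact hm z hz.1 hz.2
      · exact hm1
  obtain ⟨σ, hσ, hσh, hσl⟩ := exists_scale' hL (h := h) (by
    intro x hx
    have hwx := hw.pos x hx
    have hKL : closedBall x (2 * w x) ⊆ L := fun z hz => hw.mem hx (by
      rw [mem_closedBall, dist_eq_norm] at hz; linarith)
    obtain ⟨m, hm, hmR⟩ := low_compact hr (isCompact_closedBall x (2 * w x)) hKL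
    refine ⟨w x, hwx, min 1 m, lt_min one_pos hm, fun y hy => ?_⟩
    rw [mem_ball, dist_eq_norm] at hy
    refine hlow y _ (min_le_left _ _) fun z _ hz => (min_le_right _ _).trans (hmR z ?_)
    rw [mem_closedBall, dist_eq_norm]
    have h1 : ‖z - x‖ ≤ ‖z - y‖ + ‖y - x‖ := by
      have := norm_add_le (z - y) (y - x)
      rwa [sub_add_sub_cancel] at this
    have h2 := hw.lip z x
    linarith)
  refine ⟨σ, hσ, fun z hzL y hy => ?_, fun y m hm hm1 hb hmR => ?_⟩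
  · by_cases hyL : y ∈ L
    · refine (hσh y hyL).trans ((ciInf_le (hbdd y) (some z)).trans ?_)
      simp only
      rw [if_pos ⟨hzL, hy⟩]
    · rw [hσ.off y hyL]; exact (hpos z hzL).le
  · refine hσl y m hm hm1 hb fun z hz => hlow z m hm1 fun u hu hi => hmR u hu ?_
    rw [mem_ball, dist_eq_norm] at hz
    have h1 : ‖u - y‖ ≤ ‖u - z‖ + ‖z - y‖ := by
      have := norm_add_le (u - z) (z - y)
      rwa [sub_add_sub_cancel] at this
    linarith

/-- **the leaf of helper627** -/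
theorem exists_sigma_low [FiniteDimensional ℝ V] {Λ : Set V} (hΛ : IsOpen Λ) {w : V → ℝ}
    (hw : Scale Λ w) {r : V → ℝ}
    (hr : ∀ q ∈ Λ, ∃ ε : ℝ, 0 < ε ∧ ∃ m : ℝ, 0 < m ∧ ∀ z ∈ ball q ε, m ≤ r z) :
    ∃ σ : V → ℝ, Scale Λ σ ∧ ∀ z ∈ Λ, ∀ y, ‖z - y‖ ≤ w z / 16 → σ y ≤ r z := by
  obtain ⟨σ, h1, h2, -⟩ := exists_sigma_low' hΛ hw hr
  exact ⟨σ, h1, h2⟩

end Crest.Agent.R096.Sgl_733
end

-- ▼ part R096/Bxn3_627

/-!
Row 96 (S0127), helper627.  NO0, `p ≥ 3`, leaf [U3] of 962 #10559, part 1': `prepN` with the `τ` clause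
(764's `toph_τ`), with the upper size `s₁` and any lower size `r`.
-/

set_option autoImplicit false
set_option linter.unusedSectionVars false
set_option linter.style.longLine false
set_option linter.unusedVariables false

namespace Crest.Agent.R096.Bxs_627

open MeasureTheory Set Filter Topology Metric
open scoped ENNReal NNReal
open Crest.AnalysisR.VecCalc3 Crest.AnalysisR.Sobolev
open Crest.Agent.R096.Bsp_628 Crest.Agent.R096.Brk5_582 Crest.Agent.R096.Brk3_582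
open Crest.Agent.R096.Osc_802 Crest.Agent.R096.LusN_766 Crest.Agent.R096.VolC_766
open Crest.Agent.R096.VolC2_766 Crest.Agent.R096.VolC3_766 Crest.Agent.R96.Lu_538
open Crest.Agent.R096.ThC6_766 Crest.Agent.R096.ThCi2_766 Crest.Agent.R096.ThCi3_766
open Crest.Agent.R096.Sel_766 Crest.Agent.R096.Toph_766
open Crest.Agent.R096.Sk_962 (SH)
open Crest.Agent.R96.En10_199 Crest.Agent.R96.HoL_899
open Crest.Agent.R096.Tau_764 (toph_τ)
open Crest.Agent.R096.Sgl_733 (exists_sigma_low)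

/-- `HolN` with the `τ` clauses of 764. -/
structure HolT (p : ℝ) (Ω Λ : Set R3) (f : R3 → R3) (G : Fin 3 → R3 → R3) (β κ₁ : ℝ)
    (w μ κ δ : R3 → ℝ) (th : R3 → R3) {ι : Type} (P : ι → R3) (R : ι → ℝ) (yc ξ : ι → R3)
    (Th : R3 ≃ₜ R3) (G' : Fin 3 → R3 → R3) (τ : ℝ) : Prop
    extends HolN p Ω Λ f G β κ₁ w μ κ δ th P R yc ξ Th G' where
  /-- off the holes `Th` is close to the collapse `th` -/
  tau : ∀ y, (∀ i, 4 * R i ≤ ‖th y - P i‖) → ‖Th y - th y‖ ≤ τ * w y ∧ ∀ i, 2 * R i < ‖Th y - P i‖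
  tloc : ∀ y ∈ Λ, (∀ i, 4 * R i < ‖th y - P i‖) →
    ∀ᶠ y' in 𝓝 y, ‖Th y' - Th y‖ ≤ (1 + 4 * β) * ‖y' - y‖

/-- **Selection and hole opening for NO0, `p ≥ 3`**: `w`; then `μ κ δ` and the upper size `s₁`; then any
lower size `r`; then the collapse `th`; then the holes. -/
theorem prepT {β : ℝ} (hβ : 0 < β) (hβ1 : β ≤ 1 / 2) {p : ℝ} (hp : 3 ≤ p) {Ω Λ : Set R3}
    (hΩ : IsOpen Ω) (hΩb : Bornology.IsBounded Ω) (hΛ : IsOpen Λ) (hΛb : Bornology.IsBounded Λ)
    {f : R3 → R3} {G : Fin 3 → R3 → R3} (h : SH p Ω Λ f G) {w : R3 → ℝ} (hw : Scale Λ w)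
    {κ₁ : ℝ} (hκ₁ : 0 < κ₁) (hκ₁' : κ₁ ≤ 1 / 32) {κf : ℝ → ℝ} (hκm : Measurable κf)
    (hκp : ∀ m, 0 < m → 0 < κf m) {hf : ℝ → ℝ} (hfc : ContinuousOn hf (Ioi 0))
    (hfp : ∀ m, 0 < m → 0 < hf m) :
    ∃ μ κ δ s₁ : R3 → ℝ, Scale Ω μ ∧ Scale Ω δ ∧ (∀ x ∈ Ω, κ x ≤ κf (μ x)) ∧ Scale Λ s₁ ∧
      (∀ q ∈ Λ, s₁ q ≤ w q / 8) ∧ (∀ q ∈ Λ, ∀ x ∈ Ω, ‖f x - q‖ ≤ w q → s₁ q ≤ hf (μ x)) ∧
      ∀ {r : R3 → ℝ}, (∀ q ∈ Λ, ∃ ε : ℝ, 0 < ε ∧ ∃ m : ℝ, 0 < m ∧ ∀ z ∈ ball q ε, m ≤ r z) →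
      ∃ (Phi : R3 → ℝ) (th : R3 → R3), ThC3_766.CT (1 + 2 * β) Phi th ∧
        (∀ y, ‖th y - y‖ ≤ w y / 16) ∧ (∀ y, th y ∈ Λ ↔ y ∈ Λ) ∧
        ∀ {ι : Type} (P : ι → R3) (R : ι → ℝ), (∀ i, P i ∈ Λ) → (∀ i, r (P i) ≤ R i) →
          (∀ i, R i ≤ s₁ (P i)) → (∀ i j, i ≠ j → 2 * R i + 2 * R j < ‖P i - P j‖) →
          (∀ q ∈ Λ, ∃ r : ℝ, 0 < r ∧ {i | (closedBall (P i) (2 * R i) ∩ ball q r).Nonempty}.Finite) →
          ∀ {τ : ℝ}, 0 < τ →
          ∃ (yc ξ : ι → R3) (Th : R3 ≃ₜ R3) (G' : Fin 3 → R3 → R3),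
            HolT p Ω Λ f G β κ₁ w μ κ δ th P R yc ξ Th G' τ := by
  have hΛc : (Λᶜ).Nonempty := by
    by_contra hcon
    rw [not_nonempty_iff_eq_empty, compl_empty_iff] at hcon
    rw [hcon] at hΛb
    exact NormedSpace.unbounded_univ ℝ R3 hΛb
  obtain ⟨η, hη, hη1, hbox⟩ := toph_τ hβ hβ1 hΩ hΛ hΛc hΛb h.homeo (G := G) (p := p) hw
  obtain ⟨μ, hμ, -, -, hmain⟩ := sel_vol hΩ hΛ hΛb.measure_lt_top.ne h.homeo h.wg hp h.memG
    (ρ := 0) (Measure.AbsolutelyContinuous.zero volume) (ε := 1) one_pos hw hη (h₁ := fun _ => 1)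
    (fun x _ => ⟨1, one_pos, 1, one_pos, fun _ _ => le_rfl⟩)
  set κ : R3 → ℝ := fun x => min (κf (μ x)) (κ₁ * μ x / 4) with hκdef
  have hμc := hμ.cont
  obtain ⟨δ, hδ, -, -, hvol, hden⟩ := hmain κ
    ((hκm.comp hμc.measurable).min (by fun_prop))
    (fun x hx => by
      have := hμ.pos x hx
      exact lt_min (hκp _ this) (by positivity))
    (fun _ => 1) (fun x _ => ⟨1, one_pos, 1, one_pos, fun _ _ => le_rfl⟩)
  have hκ4 : ∀ x ∈ Ω, κ x * 4 ≤ κ₁ * μ x := by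
    intro x hx
    have : κ x ≤ κ₁ * μ x / 4 := min_le_right _ _
    linarith
  have hδc := hδ.cont
  obtain ⟨s₁, hs₁, hs₁'⟩ := exists_s1 hΩ hΛ h.homeo hw
    (h := fun x => min (μ x * δ x / 8) (hf (μ x)))
    (ContinuousOn.inf (by fun_prop) (hfc.comp hμc.continuousOn fun x hx => hμ.pos x hx))
    (fun x hx => by
      have h1 := hμ.pos x hx
      have h2 := hδ.pos x hx
      exact lt_min (by positivity) (hfp _ h1))
  refine ⟨μ, κ, δ, s₁, hμ, hδ, fun x _ => min_le_left _ _, hs₁, fun q hq => (hs₁' q hq).1,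
    fun q hq x hx hxq => ((hs₁' q hq).2 x hx hxq).trans (min_le_right _ _), ?_⟩
  intro r hr
  have hrpos : ∀ q ∈ Λ, 0 < r q := by
    intro q hq
    obtain ⟨ε, hε, m, hm, h1⟩ := hr q hq
    exact hm.trans_le (h1 q (mem_ball_self hε))
  obtain ⟨σ, hσ, hσr⟩ := exists_sigma_low hΛ hw hr
  obtain ⟨Phi, th, hCT, -, hth, hmem, -, -, hP⟩ := hbox (μ := μ) (κ := κ) (δ := δ)
    (fun x hx => hμ.pos x hx) hκ₁' hκ4 hden hσ rfl rfl
  refine ⟨Phi, th, hCT, hth, hmem, ?_⟩
  intro ι P R h1 h2 h3 h4 h5 τ hτ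
  have hRpos : ∀ i, 0 < R i := fun i => (hrpos _ (h1 i)).trans_le (h2 i)
  obtain ⟨yc, ξ, Th, a1, a2, a3, a4, a5, a6, a7, a8, a9, a10, a11, -, a13, t1, t2, a14, a15, a16,
      a17⟩ :=
    hP P R h1 hRpos (fun i => (h3 i).trans (hs₁' _ (h1 i)).1) h4 h5
      (fun i y hy => (hσr _ (h1 i) y hy).trans (h2 i))
      (fun i x hx hxf => by
        have h6 := ((hs₁' _ (h1 i)).2 x hx (hxf.trans (by
          have := hw.nonneg (P i)
          linarith))).trans (min_le_left _ _)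
        have h7 := h3 i
        have h8 : 0 < μ x * δ x := mul_pos (hμ.pos x hx) (hδ.pos x hx)
        linarith) hτ
  have hlipT : LipschitzWith (25 / 2) Th := by
    apply LipschitzWith.of_dist_le_mul
    intro y y'
    rw [dist_eq_norm, dist_eq_norm]
    have := a9 y y'
    push_cast
    exact this
  obtain ⟨G', hSH, hcol, htr⟩ := sh_comp hΩ hΩb.measure_lt_top.ne h a7 hlipT
  refine ⟨yc, ξ, Th, G', ⟨a1, a2, a3, a4, a5, a6, a7, a8, a9, a10, a11, a13, a14, a15, a16, a17,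
    hSH, ?_, htr⟩, t1, t2⟩
  filter_upwards [hcol] with x hx hxΩ i
  have := hx hxΩ i
  push_cast at this
  exact this

end Crest.Agent.R096.Bxs_627
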