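import Crest.Agent.R096.Bxs5_627
import Crest.Agent.R96.Push13_899
import Crest.Agent.R096.Rg3d_766
import Crest.Agent.R096.Shc1_816
import Crest.Agent.R096.Bxs9_627
import Crest.Agent.R096.Bxn3_627

-- ▼ part R096/Bxn2_627
section

/-!
Row 96 (S0127), helper627.  NO0, `p ≥ 3`, leaf [U3] of 962 #10559, part 2: cores after a map `H` close to
an affine map; the map `H = S ∘ Γ⁻¹` (899's stretch in the stretched coordinates) near the centres.
-/

set_option autoImplicit false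
set_option linter.unusedSectionVars false
set_option linter.style.longLine false
set_option linter.unusedVariables false

open MeasureTheory Set Filter Topology Metric

namespace Crest.Agent.R096.Bxs_627

open Crest.AnalysisR.VecCalc3 Crest.AnalysisR.Sobolev
open Crest.Agent.R096.Bsp_628 Crest.Agent.R96.Push_899 Crest.Agent.R96.En10_199

noncomputable section

/-- **core after a map close to an affine map.**  `g = Th ∘ f₁` is close to `A` over the ball `B(P, r)`,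
`H` is close to `B` there. -/
theorem core_comp {Om : Set R3} {g A H B : R3 → R3} {Q : Bx (Fin 3)} (hQ : Q.Pos) {P : R3}
    {r κ' ε t lam κ1 κ2 : ℝ} (hκ' : κ' ≤ r / 2)
    (hm : ∀ x ∈ Om, ‖g x - P‖ ≤ r → ‖g x - A x‖ ≤ κ')
    (hn : ∀ x, ‖A x - P‖ ≤ r / 2 → x ∈ Om ∧ ‖g x - A x‖ ≤ κ')
    (hHB : ∀ y, ‖y - P‖ ≤ r → ‖H y - B y‖ ≤ ε)
    (hB : ∀ y y', ‖B y - B y'‖ ≤ ‖y - y'‖)
    (hBi : ∀ y, ‖B y - P3 (ctr Q)‖ ≤ t → ‖y - P‖ ≤ r / 2)
    (hHi : ∀ x ∈ Om, ‖H (g x) - P3 (ctr Q)‖ ≤ t → ‖g x - P‖ ≤ r)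
    (hl : 0 < lam) (h0 : 0 ≤ κ2) (h2 : κ2 ≤ 1 / 4) (ht : 2 * (lam * Q.sz) ≤ t)
    (hκ : ε + κ' ≤ κ1 * (lam * Q.sz)) : Cori Om (H ∘ g) (B ∘ A) Q lam κ1 κ2 := by
  have hs := Bx.sz_pos hQ
  have key : ∀ x ∈ Om, ‖g x - P‖ ≤ r → ‖g x - A x‖ ≤ κ' →
      ‖H (g x) - B (A x)‖ ≤ (ε + κ') / Q.sz * Q.sz := by
    intro x hx h1 h3
    rw [div_mul_cancel₀ _ hs.ne']
    have e : H (g x) - B (A x) = (H (g x) - B (g x)) + (B (g x) - B (A x)) := by abel
    rw [e]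
    exact (norm_add_le _ _).trans (add_le_add (hHB _ h1) ((hB _ _).trans h3))
  refine small_core' (κ₁ := (ε + κ') / Q.sz) hQ hl h0 h2 ?_ ?_ ?_
  · intro x hx h3
    have h4 := hHi x hx (h3.trans ht)
    exact key x hx h4 (hm x hx h4)
  · intro x h3
    have h4 := hBi (A x) (h3.trans ht)
    obtain ⟨h5, h6⟩ := hn x h4
    refine ⟨h5, key x h5 ?_ h6⟩
    have e : g x - P = (g x - A x) + (A x - P) := by abel
    rw [e]
    refine (norm_add_le _ _).trans ?_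
    linarith
  · rw [div_le_iff₀ hs]
    calc ε + κ' ≤ κ1 * (lam * Q.sz) := hκ
      _ = κ1 * lam * Q.sz := by ring

/-! ### the stretch on the sheets -/

/-- slope of the stretch function on the sheets -/
def msl (w ε : ℝ) : ℝ := ε + (1 - ε) / (2 * w)

/-- the stretch function on a sheet -/
theorem sg_on {a s w ε : ℝ} (hs : 0 < s) (hw : 0 < w) (hw1 : w < 1 / 2) {N : ℤ} {t : ℝ}
    (ht : |t - (a + s / 2 + N * s)| ≤ w * s) :
    sg a s w ε t = (a + s / 2 + N * s) + msl w ε * (t - (a + s / 2 + N * s)) := by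
  set x := (t - a) / s with hx
  have hxt : t = a + s * x := by rw [hx]; field_simp; ring
  have h1 : |x - (N + 1 / 2)| ≤ w := by
    have e : t - (a + s / 2 + N * s) = s * (x - (N + 1 / 2)) := by rw [hxt]; ring
    rw [e, abs_mul, abs_of_pos hs, mul_comm] at ht
    exact le_of_mul_le_mul_right ht hs
  have h2 := abs_le.1 h1
  have hfl : ⌊x⌋ = N := by
    rw [Int.floor_eq_iff]; constructor <;> linarith
  have hfr : Int.fract x = x - N := by
    have : Int.fract x = x - ⌊x⌋ := rfl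
    rw [this, hfl]
  have hcc : cc w (Int.fract x) = (x - N - 1 / 2) / (2 * w) + 1 / 2 := by
    rw [hfr]
    unfold cc
    have e1 : (x - N - 1 / 2) / (2 * w) ≤ 1 / 2 := by
      rw [div_le_iff₀ (by positivity)]; linarith
    have e2 : -(1 / 2) ≤ (x - N - 1 / 2) / (2 * w) := by
      rw [le_div_iff₀ (by positivity)]; linarith
    rw [min_eq_right (by linarith), max_eq_right (by linarith)]
  unfold sg GG
  rw [← hx, hfl, hcc, hxt]
  unfold msl
  field_simp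
  ring

end

end Crest.Agent.R096.Bxs_627
end

-- ▼ part R096/Bxn4_627
section

/-!
Row 96 (S0127), helper627.  NO0, `p ≥ 3`, leaf [U3], part 3: the map `H = S ∘ Γ⁻¹` near the centre of a
brick (`Γ` = diag(1, 1, G) in the direction `k`, `S` = stretch with cut-off `χ`): close to an affine
contraction, in the sup norm and for the derivatives; localisation.
-/

set_option autoImplicit false
set_option linter.unusedSectionVars false
set_option linter.style.longLine false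
set_option linter.unusedVariables false

open MeasureTheory Set Filter Topology Metric
open scoped NNReal

namespace Crest.Agent.R096.Bxs_627

open Crest.AnalysisR.VecCalc3 Crest.AnalysisR.Sobolev
open Crest.Agent.R096.Bsp_628 Crest.Agent.R96.Push_899 Crest.Agent.R96.En10_199

noncomputable section

/-! ### norms by coordinates -/

theorem norm_le_of_co {u v : R3} {c : ℝ} (hc : 0 ≤ c) (h : ∀ i, |v i| ≤ c * |u i|) :
    ‖v‖ ≤ c * ‖u‖ := by
  have h1 : ‖v‖ ^ 2 ≤ (c * ‖u‖) ^ 2 := by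
    rw [EuclideanSpace.norm_sq_eq, mul_pow, EuclideanSpace.norm_sq_eq, Finset.mul_sum]
    refine Finset.sum_le_sum fun i _ => ?_
    rw [Real.norm_eq_abs, Real.norm_eq_abs, ← mul_pow]
    exact pow_le_pow_left₀ (abs_nonneg _) (h i) 2
  exact le_of_sq_le_sq' h1 (by positivity)
where
  le_of_sq_le_sq' {a b : ℝ} (h : a ^ 2 ≤ b ^ 2) (hb : 0 ≤ b) : a ≤ b :=
    le_of_not_gt fun hab => by nlinarith

theorem norm_le_of_co1 {u v : R3} (h : ∀ i, |v i| ≤ |u i|) : ‖v‖ ≤ ‖u‖ := by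
  have := norm_le_of_co (u := u) (v := v) zero_le_one (fun i => by rw [one_mul]; exact h i)
  rwa [one_mul] at this

theorem abs_co_le (v : R3) (i : Fin 3) : |v i| ≤ ‖v‖ := by
  have := PiLp.norm_apply_le v i
  rwa [Real.norm_eq_abs] at this

/-! ### the diagonal map -/

/-- `diag (1, 1, g)` in the direction `k` -/
def dgf (k : Fin 3) (g : ℝ) (y : R3) : R3 := WithLp.toLp 2 (fun i => if i = k then g * y i else y i)

theorem dgf_k (k : Fin 3) (g : ℝ) (y : R3) : dgf k g y k = g * y k := by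
  change (if k = k then g * y k else y k) = _
  rw [if_pos rfl]

theorem dgf_ne {k : Fin 3} (g : ℝ) (y : R3) {i : Fin 3} (hi : i ≠ k) : dgf k g y i = y i := by
  change (if i = k then g * y i else y i) = _
  rw [if_neg hi]

/-- the linear equivalence `diag (1, 1, g)` -/
def dgL (k : Fin 3) (g : ℝ) (hg : g ≠ 0) : R3 ≃ₗ[ℝ] R3 where
  toFun := dgf k g
  map_add' x y := by
    ext i
    by_cases hi : i = k
    · subst hi
      rw [dgf_k, PiLp.add_apply, PiLp.add_apply, dgf_k, dgf_k]; ring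
    · rw [dgf_ne g _ hi, PiLp.add_apply, PiLp.add_apply, dgf_ne g _ hi, dgf_ne g _ hi]
  map_smul' c y := by
    ext i
    by_cases hi : i = k
    · subst hi
      rw [dgf_k, PiLp.smul_apply, RingHom.id_apply, PiLp.smul_apply, dgf_k, smul_eq_mul, smul_eq_mul]
      ring
    · rw [dgf_ne g _ hi, PiLp.smul_apply, RingHom.id_apply, PiLp.smul_apply, dgf_ne g _ hi]
  invFun := dgf k g⁻¹
  left_inv y := by
    ext i
    by_cases hi : i = k
    · subst hi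
      rw [dgf_k, dgf_k, ← mul_assoc, inv_mul_cancel₀ hg, one_mul]
    · rw [dgf_ne _ _ hi, dgf_ne _ _ hi]
  right_inv y := by
    ext i
    by_cases hi : i = k
    · subst hi
      rw [dgf_k, dgf_k, ← mul_assoc, mul_inv_cancel₀ hg, one_mul]
    · rw [dgf_ne _ _ hi, dgf_ne _ _ hi]

theorem dgL_apply (k : Fin 3) (g : ℝ) (hg : g ≠ 0) (y : R3) : dgL k g hg y = dgf k g y := rfl

theorem dgL_symm_apply (k : Fin 3) (g : ℝ) (hg : g ≠ 0) (y : R3) :
    (dgL k g hg).symm y = dgf k g⁻¹ y := rfl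

/-- `y ↦ q + diag (1, 1, g) (y - P)`, affine -/
def dgA (k : Fin 3) (g : ℝ) (hg : g ≠ 0) (P q : R3) : R3 ≃ᵃ[ℝ] R3 :=
  ((AffineEquiv.vaddConst ℝ P).symm.trans (dgL k g hg).toAffineEquiv).trans
    (AffineEquiv.vaddConst ℝ q)

theorem dgA_apply (k : Fin 3) (g : ℝ) (hg : g ≠ 0) (P q y : R3) :
    dgA k g hg P q y = dgf k g (y - P) + q := rfl

theorem dgA_sub (k : Fin 3) (g : ℝ) (hg : g ≠ 0) (P q y y' : R3) :
    dgA k g hg P q y - dgA k g hg P q y' = dgf k g (y - y') := by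
  rw [dgA_apply, dgA_apply, add_sub_add_right_eq_sub, ← dgL_apply k g hg, ← dgL_apply k g hg,
    ← map_sub, sub_sub_sub_cancel_right]
  rfl

theorem dgf_contr {k : Fin 3} {g : ℝ} (h0 : 0 ≤ g) (h1 : g ≤ 1) (v : R3) : ‖dgf k g v‖ ≤ ‖v‖ := by
  refine norm_le_of_co1 fun i => ?_
  by_cases hi : i = k
  · subst hi
    rw [dgf_k, abs_mul, abs_of_nonneg h0]
    exact mul_le_of_le_one_left (abs_nonneg _) h1
  · rw [dgf_ne _ _ hi]

theorem dgf_low {k : Fin 3} {g : ℝ} (h0 : 0 < g) (h1 : g ≤ 1) (v : R3) :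
    g * ‖v‖ ≤ ‖dgf k g v‖ := by
  have h2 : ‖v‖ ≤ g⁻¹ * ‖dgf k g v‖ := by
    refine norm_le_of_co (by positivity) fun i => ?_
    by_cases hi : i = k
    · subst hi
      rw [dgf_k, abs_mul, abs_of_pos h0, ← mul_assoc, inv_mul_cancel₀ h0.ne', one_mul]
    · rw [dgf_ne _ _ hi]
      exact le_mul_of_one_le_left (abs_nonneg _) ((one_le_inv₀ h0).2 h1)
  rw [inv_mul_eq_div, le_div_iff₀ h0] at h2
  linarith

/-! ### the stretch near a centre -/

/-- **`S` is a stretch in the direction `k` near `q`** (cut-off `χ`, slope `G` where `χ = 1`). -/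
structure NearS (k : Fin 3) (S : R3 → R3) (χ : R3 → ℝ) (G : ℝ) (q : R3) (r ρ : ℝ) : Prop where
  ne : ∀ y i, i ≠ k → S y i = y i
  mono : ∀ y y', (∀ i, i ≠ k → y i = y' i) → y k ≤ y' k → S y k ≤ S y' k
  eq : ∀ y, (∀ i, i ≠ k → |y i - q i| ≤ r) → |y k - q k| ≤ ρ →
    S y k = y k + χ y * ((G - 1) * (y k - q k))

/-- replace the coordinate `k` -/
def rpl (k : Fin 3) (y : R3) (t : ℝ) : R3 := WithLp.toLp 2 (fun i => if i = k then t else y i)

theorem rpl_k (k : Fin 3) (y : R3) (t : ℝ) : rpl k y t k = t := by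
  change (if k = k then t else y k) = _
  rw [if_pos rfl]

theorem rpl_ne {k : Fin 3} (y : R3) (t : ℝ) {i : Fin 3} (hi : i ≠ k) : rpl k y t i = y i := by
  change (if i = k then t else y i) = _
  rw [if_neg hi]

section near

variable {k : Fin 3} {S : R3 → R3} {χ : R3 → ℝ} {G L : ℝ} {q : R3} {r ρ : ℝ}

/-- localisation in the direction `k` -/
theorem NearS.loc (h : NearS k S χ G q r ρ) {y : R3} {t : ℝ} (hρ : 0 < ρ) (htr : t ≤ r)
    (ht : ∀ y' : R3, (∀ i, i ≠ k → |y' i - q i| ≤ t) → |y' k - q k| = ρ →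
      t < ρ * (1 + χ y' * (G - 1)))
    (hne : ∀ i, i ≠ k → |y i - q i| ≤ t) (hk : |S y k - q k| ≤ t) : |y k - q k| ≤ ρ := by
  have hk' := abs_le.1 hk
  rw [abs_le]
  constructor
  · by_contra hcon
    push Not at hcon
    set y' := rpl k y (q k - ρ) with hy'
    have h0 : ∀ i, i ≠ k → |y' i - q i| ≤ t := fun i hi => by
      rw [hy', rpl_ne y _ hi]; exact hne i hi
    have h3 : y' k = q k - ρ := rpl_k _ _ _
    have h3' : |y' k - q k| = ρ := by rw [h3, sub_sub_cancel_left, abs_neg, abs_of_pos hρ]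
    have h1 : S y k ≤ S y' k := h.mono y y' (fun i hi => (rpl_ne y _ hi).symm) (by
      rw [h3]; linarith)
    have h2 : S y' k = y' k + χ y' * ((G - 1) * (y' k - q k)) := h.eq y'
      (fun i hi => (h0 i hi).trans htr) h3'.le
    have h4 := ht y' h0 h3'
    rw [h3] at h2
    nlinarith
  · by_contra hcon
    push Not at hcon
    set y' := rpl k y (q k + ρ) with hy'
    have h0 : ∀ i, i ≠ k → |y' i - q i| ≤ t := fun i hi => by
      rw [hy', rpl_ne y _ hi]; exact hne i hi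
    have h3 : y' k = q k + ρ := rpl_k _ _ _
    have h3' : |y' k - q k| = ρ := by rw [h3, add_sub_cancel_left, abs_of_pos hρ]
    have h1 : S y' k ≤ S y k := h.mono y' y (fun i hi => (rpl_ne y _ hi)) (by
      rw [h3]; linarith)
    have h2 : S y' k = y' k + χ y' * ((G - 1) * (y' k - q k)) := h.eq y'
      (fun i hi => (h0 i hi).trans htr) h3'.le
    have h4 := ht y' h0 h3'
    rw [h3] at h2
    nlinarith

/-- the difference of `S ∘ Γ⁻¹` and of the affine map, on the ball: coordinate `k` -/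
theorem NearS.diff (h : NearS k S χ G q r ρ) (hG : 1 ≤ G) (hrρ : r ≤ G * ρ) (hg : (1 + χ q * (G - 1)) / G ≠ 0)
    {y : R3} (hy : ‖dgf k G y - dgf k G q‖ ≤ r) :
    (∀ i, i ≠ k → (S y - dgA k ((1 + χ q * (G - 1)) / G) hg (dgf k G q) q (dgf k G y)) i = 0) ∧
    (S y - dgA k ((1 + χ q * (G - 1)) / G) hg (dgf k G q) q (dgf k G y)) k =
      (χ y - χ q) * ((G - 1) * (y k - q k)) ∧ G * |y k - q k| ≤ ‖dgf k G y - dgf k G q‖ := by
  have hG0 : 0 < G := by linarith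
  have h0 : ∀ i, |(dgf k G y - dgf k G q) i| ≤ ‖dgf k G y - dgf k G q‖ := abs_co_le _
  have h1 : ∀ i, i ≠ k → |y i - q i| ≤ r := by
    intro i hi
    have := (h0 i).trans hy
    rwa [PiLp.sub_apply, dgf_ne _ _ hi, dgf_ne _ _ hi] at this
  have h2 : G * |y k - q k| ≤ ‖dgf k G y - dgf k G q‖ := by
    have := h0 k
    rwa [PiLp.sub_apply, dgf_k, dgf_k, ← mul_sub, abs_mul, abs_of_pos hG0] at this
  have h3 : |y k - q k| ≤ ρ := by
    have := (h2.trans hy).trans hrρ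
    exact le_of_mul_le_mul_left this hG0
  refine ⟨fun i hi => ?_, ?_, h2⟩
  · rw [dgA_apply, PiLp.sub_apply, PiLp.add_apply, dgf_ne _ _ hi, PiLp.sub_apply, dgf_ne _ _ hi,
      dgf_ne _ _ hi, h.ne y i hi]
    ring
  · rw [dgA_apply, PiLp.sub_apply, PiLp.add_apply, dgf_k, PiLp.sub_apply, dgf_k, dgf_k,
      h.eq y h1 h3]
    field_simp
    ring

/-- **`S ∘ Γ⁻¹` near the image of the centre `q`.** -/
theorem NearS.core (h : NearS k S χ G q r ρ) (hG : 1 ≤ G) (χ0 : ∀ y, 0 ≤ χ y) (χ1 : ∀ y, χ y ≤ 1)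
    (hL : ∀ y y', |χ y' - χ y| ≤ L * ‖y' - y‖) (hL0 : 0 ≤ L) (hr : 0 < r) (hrρ : r < G * ρ) {t : ℝ}
    (ht0 : 0 ≤ t) (h2 : 2 * G * t ≤ (1 + χ q * (G - 1)) * r) (hGL : G * L * (ρ + 2 * t) ≤ 1 / 2)
    (hg : (1 + χ q * (G - 1)) / G ≠ 0) :
    (∀ y, ‖y - dgf k G q‖ ≤ r →
      ‖S (dgf k G⁻¹ y) - dgA k ((1 + χ q * (G - 1)) / G) hg (dgf k G q) q y‖ ≤ L * r * r) ∧
    (∀ y y', ‖y - dgf k G q‖ ≤ r → ‖y' - dgf k G q‖ ≤ r →
      ‖(S (dgf k G⁻¹ y) - dgA k ((1 + χ q * (G - 1)) / G) hg (dgf k G q) q y) -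
        (S (dgf k G⁻¹ y') - dgA k ((1 + χ q * (G - 1)) / G) hg (dgf k G q) q y')‖ ≤
        2 * L * r * ‖y - y'‖) ∧
    (∀ y, ‖dgA k ((1 + χ q * (G - 1)) / G) hg (dgf k G q) q y - q‖ ≤ t → ‖y - dgf k G q‖ ≤ r / 2) ∧
    (∀ y, ‖S (dgf k G⁻¹ y) - q‖ ≤ t → ‖y - dgf k G q‖ ≤ r) := by
  have hG0 : 0 < G := by linarith
  set σ : ℝ := 1 + χ q * (G - 1) with hσ
  have hσ1 : 1 ≤ σ := by
    have := mul_nonneg (χ0 q) (sub_nonneg.2 hG)
    linarith
  have hσG : σ ≤ G := by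
    have := mul_le_mul_of_nonneg_right (χ1 q) (sub_nonneg.2 hG)
    linarith
  have hρ : 0 < ρ := by
    by_contra hcon
    push Not at hcon
    have : G * ρ ≤ 0 := mul_nonpos_of_nonneg_of_nonpos hG0.le hcon
    linarith
  have hgg : ∀ y, dgf k G (dgf k G⁻¹ y) = y := fun y => by
    have := (dgL k G hG0.ne').apply_symm_apply y
    rwa [dgL_apply, dgL_symm_apply] at this
  have hexp : ∀ y y', ‖y - y'‖ ≤ ‖dgf k G y - dgf k G y'‖ := by
    intro y y'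
    refine norm_le_of_co1 fun i => ?_
    by_cases hi : i = k
    · subst hi
      rw [PiLp.sub_apply, PiLp.sub_apply, dgf_k, dgf_k, ← mul_sub, abs_mul, abs_of_pos hG0]
      exact le_mul_of_one_le_left (abs_nonneg _) hG
    · rw [PiLp.sub_apply, PiLp.sub_apply, dgf_ne _ _ hi, dgf_ne _ _ hi]
  have hsingle : ∀ v : R3, (∀ i, i ≠ k → v i = 0) → ‖v‖ ≤ |v k| := by
    intro v hv
    have h1 : ‖v‖ ≤ ‖(EuclideanSpace.single k (v k) : R3)‖ := norm_le_of_co1 fun i => by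
      by_cases hi : i = k
      · subst hi; simp
      · rw [hv i hi]; simp
    refine h1.trans (le_of_eq ?_)
    simp
  have hr' : r ≤ G * ρ := hrρ.le
  have htr : t ≤ r / 2 := by
    have : 2 * G * t ≤ G * r := h2.trans (mul_le_mul_of_nonneg_right hσG hr.le)
    have h3 : G * (2 * t) ≤ G * r := by linarith
    have := le_of_mul_le_mul_left h3 hG0
    linarith
  refine ⟨?_, ?_, ?_, ?_⟩
  · intro y hy
    obtain ⟨z, rfl⟩ : ∃ z, y = dgf k G z := ⟨_, (hgg y).symm⟩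
    have e : dgf k G⁻¹ (dgf k G z) = z := by
      have := (dgL k G hG0.ne').symm_apply_apply z
      rwa [dgL_apply, dgL_symm_apply] at this
    rw [e]
    obtain ⟨h3, h4, h5⟩ := h.diff hG hr' hg hy
    refine (hsingle _ h3).trans ?_
    rw [h4, abs_mul, abs_mul, abs_of_nonneg (sub_nonneg.2 hG)]
    have h6 : |χ z - χ q| ≤ L * r := (hL q z).trans (mul_le_mul_of_nonneg_left
      ((hexp z q).trans hy) hL0)
    have h7 : (G - 1) * |z k - q k| ≤ r := by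
      have := abs_nonneg (z k - q k)
      nlinarith [h5.trans hy]
    exact mul_le_mul h6 h7 (mul_nonneg (sub_nonneg.2 hG) (abs_nonneg _)) (by positivity)
  · intro y y' hy hy'
    obtain ⟨z, rfl⟩ : ∃ z, y = dgf k G z := ⟨_, (hgg y).symm⟩
    obtain ⟨z', rfl⟩ : ∃ z, y' = dgf k G z := ⟨_, (hgg y').symm⟩
    have e : ∀ z, dgf k G⁻¹ (dgf k G z) = z := fun z => by
      have := (dgL k G hG0.ne').symm_apply_apply z
      rwa [dgL_apply, dgL_symm_apply] at this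
    rw [e, e]
    obtain ⟨h3, h4, h5⟩ := h.diff hG hr' hg hy
    obtain ⟨h3', h4', h5'⟩ := h.diff hG hr' hg hy'
    refine (hsingle _ (fun i hi => by rw [PiLp.sub_apply, h3 i hi, h3' i hi, sub_zero])).trans ?_
    rw [PiLp.sub_apply, h4, h4']
    have e2 : (χ z - χ q) * ((G - 1) * (z k - q k)) - (χ z' - χ q) * ((G - 1) * (z' k - q k)) =
        (χ z - χ z') * ((G - 1) * (z k - q k)) + (χ z' - χ q) * ((G - 1) * (z k - z' k)) := by ring
    rw [e2]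
    have h6 : |χ z - χ z'| ≤ L * ‖dgf k G z - dgf k G z'‖ := (hL z' z).trans
      (mul_le_mul_of_nonneg_left (hexp z z') hL0)
    have h7 : |(G - 1) * (z k - q k)| ≤ r := by
      rw [abs_mul, abs_of_nonneg (sub_nonneg.2 hG)]
      have := abs_nonneg (z k - q k)
      nlinarith [h5.trans hy]
    have h8 : |χ z' - χ q| ≤ L * r := (hL q z').trans (mul_le_mul_of_nonneg_left
      ((hexp z' q).trans hy') hL0)
    have h9 : |(G - 1) * (z k - z' k)| ≤ ‖dgf k G z - dgf k G z'‖ := by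
      rw [abs_mul, abs_of_nonneg (sub_nonneg.2 hG)]
      have h10 := abs_co_le (dgf k G z - dgf k G z') k
      rw [PiLp.sub_apply, dgf_k, dgf_k, ← mul_sub, abs_mul, abs_of_pos hG0] at h10
      have := abs_nonneg (z k - z' k)
      nlinarith
    refine (abs_add_le _ _).trans ?_
    have h11 := mul_le_mul h6 h7 (abs_nonneg _) (by positivity)
    have h12 := mul_le_mul h8 h9 (abs_nonneg _) (by positivity)
    rw [← abs_mul] at h11 h12
    linarith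
  · intro y hy
    have e : dgA k (σ / G) hg (dgf k G q) q y - q = dgf k (σ / G) (y - dgf k G q) := by
      rw [dgA_apply, add_sub_cancel_right]
    rw [e] at hy
    have h3 := (dgf_low (k := k) (g := σ / G) (by positivity) ((div_le_one hG0).2 hσG)
      (y - dgf k G q)).trans hy
    rw [div_mul_eq_mul_div, div_le_iff₀ hG0] at h3
    have h4 : σ * (2 * ‖y - dgf k G q‖) ≤ σ * r := by linarith
    have := le_of_mul_le_mul_left h4 (by linarith)
    linarith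
  · intro y hy
    obtain ⟨z, rfl⟩ : ∃ z, y = dgf k G z := ⟨_, (hgg y).symm⟩
    have e : ∀ z, dgf k G⁻¹ (dgf k G z) = z := fun z => by
      have := (dgL k G hG0.ne').symm_apply_apply z
      rwa [dgL_apply, dgL_symm_apply] at this
    rw [e] at hy
    have h0 : ∀ i, |S z i - q i| ≤ t := fun i => by
      have := (abs_co_le (S z - q) i).trans hy
      rwa [PiLp.sub_apply] at this
    have hne : ∀ i, i ≠ k → |z i - q i| ≤ t := fun i hi => by
      have := h0 i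
      rwa [h.ne z i hi] at this
    have hlow : ∀ y' : R3, ‖y' - q‖ ≤ ρ + 2 * t → σ / 2 ≤ 1 + χ y' * (G - 1) := by
      intro y' hy'
      have h3 := (abs_le.1 (hL q y')).1
      have h4 : L * ‖y' - q‖ ≤ L * (ρ + 2 * t) := mul_le_mul_of_nonneg_left hy' hL0
      have h5 : χ q - L * (ρ + 2 * t) ≤ χ y' := by linarith
      have h6 : (χ q - L * (ρ + 2 * t)) * (G - 1) ≤ χ y' * (G - 1) :=
        mul_le_mul_of_nonneg_right h5 (sub_nonneg.2 hG)
      have h7 : L * (ρ + 2 * t) * (G - 1) ≤ 1 / 2 := by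
        have : 0 ≤ L * (ρ + 2 * t) := by positivity
        nlinarith
      linarith
    have hk : |z k - q k| ≤ ρ := by
      refine h.loc hρ (by linarith) (fun y' h3 h4 => ?_) hne (h0 k)
      have h5 : ‖y' - q‖ ≤ ρ + 2 * t := by
        have h6 : ‖y' - q‖ ≤ ∑ i, |(y' - q) i| := by
          have h7 : ‖y' - q‖ ^ 2 ≤ (∑ i, |(y' - q) i|) ^ 2 := by
            rw [EuclideanSpace.norm_sq_eq, Fin.sum_univ_three, Fin.sum_univ_three]
            simp only [Real.norm_eq_abs]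
            nlinarith [abs_nonneg ((y' - q) 0), abs_nonneg ((y' - q) 1), abs_nonneg ((y' - q) 2),
              mul_nonneg (abs_nonneg ((y' - q) 0)) (abs_nonneg ((y' - q) 1)),
              mul_nonneg (abs_nonneg ((y' - q) 0)) (abs_nonneg ((y' - q) 2)),
              mul_nonneg (abs_nonneg ((y' - q) 1)) (abs_nonneg ((y' - q) 2))]
          have h8 : 0 ≤ ∑ i, |(y' - q) i| := Finset.sum_nonneg fun _ _ => abs_nonneg _
          exact le_of_not_gt fun hcon => by nlinarith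
        refine h6.trans ?_
        rw [← Finset.add_sum_erase _ _ (Finset.mem_univ k)]
        have h9 : ∑ i ∈ Finset.univ.erase k, |(y' - q) i| ≤ ∑ i ∈ Finset.univ.erase k, t :=
          Finset.sum_le_sum fun i hi => by
            rw [PiLp.sub_apply]; exact h3 i (Finset.ne_of_mem_erase hi)
        have h10 : ∑ i ∈ Finset.univ.erase k, t = 2 * t := by
          rw [Finset.sum_const, Finset.card_erase_of_mem (Finset.mem_univ k)]
          simp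
        have h11 : |(y' - q) k| = ρ := by rw [PiLp.sub_apply]; exact h4
        linarith
      have h6 := hlow y' h5
      have h7 : 2 * G * t < σ * (G * ρ) := lt_of_le_of_lt h2 (mul_lt_mul_of_pos_left hrρ (by linarith))
      have h8 : G * (2 * t) < G * (σ * ρ) := by linarith
      have h9 := lt_of_mul_lt_mul_left h8 hG0.le
      have h10 : ρ * (σ / 2) ≤ ρ * (1 + χ y' * (G - 1)) := mul_le_mul_of_nonneg_left h6 hρ.le
      linarith
    have heq := h.eq z (fun i hi => (hne i hi).trans (by linarith)) hk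
    have hzq : ‖z - q‖ ≤ t := by
      refine (norm_le_of_co1 fun i => ?_).trans hy
      rw [PiLp.sub_apply, PiLp.sub_apply]
      by_cases hi : i = k
      · subst hi
        have e3 : S z i - q i = (1 + χ z * (G - 1)) * (z i - q i) := by rw [heq]; ring
        rw [e3, abs_mul]
        have h4 : 0 ≤ χ z * (G - 1) := mul_nonneg (χ0 z) (sub_nonneg.2 hG)
        rw [abs_of_nonneg (by linarith : (0 : ℝ) ≤ 1 + χ z * (G - 1))]
        exact le_mul_of_one_le_left (abs_nonneg _) (by linarith)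
      · rw [h.ne z i hi]
    have h6 := hlow z (hzq.trans (by linarith))
    have hfin : ‖dgf k G z - dgf k G q‖ ≤ (2 * G / σ) * ‖S z - q‖ := by
      refine norm_le_of_co (by positivity) fun i => ?_
      rw [PiLp.sub_apply, PiLp.sub_apply]
      by_cases hi : i = k
      · subst hi
        have e3 : S z i - q i = (1 + χ z * (G - 1)) * (z i - q i) := by rw [heq]; ring
        rw [e3, dgf_k, dgf_k, ← mul_sub, abs_mul, abs_of_pos hG0, abs_mul,
          abs_of_nonneg (by linarith : (0 : ℝ) ≤ 1 + χ z * (G - 1)), div_mul_eq_mul_div,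
          le_div_iff₀ (by linarith)]
        have h8 := mul_le_mul_of_nonneg_left h6 (mul_nonneg hG0.le (abs_nonneg (z i - q i)))
        nlinarith
      · rw [dgf_ne _ _ hi, dgf_ne _ _ hi, h.ne z i hi]
        refine le_mul_of_one_le_left (abs_nonneg _) ?_
        rw [le_div_iff₀ (by linarith)]
        linarith
    refine hfin.trans ?_
    rw [div_mul_eq_mul_div, div_le_iff₀ (by linarith)]
    have h9 : 2 * G * ‖S z - q‖ ≤ 2 * G * t := mul_le_mul_of_nonneg_left hy (by positivity)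
    linarith

end near

end

end Crest.Agent.R096.Bxs_627
end

-- ▼ part R096/Bxn5_627
section

/-!
Row 96 (S0127), helper627.  NO0, `p ≥ 3`, leaf [U3], part 4: the stretch of 899 is a `NearS`; the
`L^p` closeness of the derivatives after `S ∘ Γ⁻¹`.
-/

set_option autoImplicit false
set_option linter.unusedSectionVars false
set_option linter.style.longLine false
set_option linter.unusedVariables false

open MeasureTheory Set Filter Topology Metric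
open scoped NNReal ENNReal

namespace Crest.Agent.R096.Bxs_627

open Crest.AnalysisR.VecCalc3 Crest.AnalysisR.Sobolev
open Crest.Agent.R096.Bsp_628 Crest.Agent.R96.Push_899 Crest.Agent.R96.En10_199
open Crest.Agent.R096.Osc_802 Crest.Agent.R096.VolC2_766 Crest.Agent.R96.Lu_538
open Crest.Agent.R096.Sel_766
open Crest.Agent.R096.EaX_766 (cbx)
open Crest.Agent.R096.Er_594 (D3)
open Crest.Agent.R96.Str_520 (col)

noncomputable section

/-! ### the stretch is a `NearS` -/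

theorem norm_le_single {k : Fin 3} {v : R3} (hv : ∀ i, i ≠ k → v i = 0) : ‖v‖ ≤ |v k| := by
  have h1 : ‖v‖ ≤ ‖(EuclideanSpace.single k (v k) : R3)‖ := norm_le_of_co1 fun i => by
    by_cases hi : i = k
    · subst hi; simp
    · rw [hv i hi]; simp
  refine h1.trans (le_of_eq ?_)
  simp

theorem norm_le_sum_co (v : R3) : ‖v‖ ≤ ∑ i, |v i| := by
  have h7 : ‖v‖ ^ 2 ≤ (∑ i, |v i|) ^ 2 := by
    rw [EuclideanSpace.norm_sq_eq, Fin.sum_univ_three, Fin.sum_univ_three]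
    simp only [Real.norm_eq_abs]
    nlinarith [abs_nonneg (v 0), abs_nonneg (v 1), abs_nonneg (v 2),
      mul_nonneg (abs_nonneg (v 0)) (abs_nonneg (v 1)),
      mul_nonneg (abs_nonneg (v 0)) (abs_nonneg (v 2)),
      mul_nonneg (abs_nonneg (v 1)) (abs_nonneg (v 2))]
  have h8 : 0 ≤ ∑ i, |v i| := Finset.sum_nonneg fun _ _ => abs_nonneg _
  exact le_of_not_gt fun hcon => by nlinarith

theorem St_mono {k : Fin 3} {χ : R3 → ℝ} {a s w ε L : ℝ} (hP : StP χ s w ε L) {y y' : R3}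
    (hne : ∀ i, i ≠ k → y i = y' i) (hk : y k ≤ y' k) :
    St k χ a s w ε y k ≤ St k χ a s w ε y' k := by
  rw [St_k, St_k]
  have h1 := (sg_sub (a := a) hP.hs hP.hw hP.hw1 hP.hε.le hP.hε1.le hk).1
  have h2 := abs_sg_sub_le (a := a) hP.hs hP.hw hP.hw1 hP.hε.le hP.hε1.le (y k)
  have h3 : ‖y' - y‖ ≤ y' k - y k := by
    have h4 : ‖y' - y‖ ≤ |(y' - y) k| := norm_le_single fun i hi => by
      rw [PiLp.sub_apply, hne i hi, sub_self]
    rwa [PiLp.sub_apply, abs_of_nonneg (sub_nonneg.2 hk)] at h4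
  have h5 : |χ y' - χ y| ≤ L * (y' k - y k) := (hP.hL y y').trans
    (mul_le_mul_of_nonneg_left h3 hP.hL0)
  have h6 : |(χ y' - χ y) * (sg a s w ε (y k) - y k)| ≤ L * (y' k - y k) * s := by
    rw [abs_mul]
    exact mul_le_mul h5 h2 (abs_nonneg _) (mul_nonneg hP.hL0 (sub_nonneg.2 hk))
  have h7 := (abs_le.1 h6).1
  have h8 : L * (y' k - y k) * s ≤ ε / 2 * (y' k - y k) := by
    have := mul_le_mul_of_nonneg_right hP.hLs (sub_nonneg.2 hk)
    linarith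
  have h9 := mul_le_mul_of_nonneg_left h1 (hP.χ0 y')
  have h10 : 0 ≤ (1 - χ y') * ((1 - ε) * (y' k - y k)) :=
    mul_nonneg (sub_nonneg.2 (hP.χ1 y')) (mul_nonneg (sub_nonneg.2 hP.hε1.le) (sub_nonneg.2 hk))
  have h11 : 0 ≤ ε / 2 * (y' k - y k) := mul_nonneg (by linarith [hP.hε]) (sub_nonneg.2 hk)
  have e1 : y' k + χ y' * (sg a s w ε (y' k) - y' k) - (y k + χ y * (sg a s w ε (y k) - y k)) =
      (1 - χ y') * (y' k - y k) + χ y' * (sg a s w ε (y' k) - sg a s w ε (y k)) +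
      (χ y' - χ y) * (sg a s w ε (y k) - y k) := by ring
  nlinarith

/-- **a uniform brick** -/
theorem nearS_uni {k : Fin 3} {χ : R3 → ℝ} {a s w ε L : ℝ} (hP : StP χ s w ε L) (hw : w < 1 / 2)
    {q : R3} {N : ℤ} (hq : q k = a + s / 2 + N * s) (r : ℝ) :
    NearS k (St k χ a s w ε) χ (msl w ε) q r (w * s) := by
  refine ⟨fun y i hi => St_ne y hi, fun y y' h1 h2 => St_mono hP h1 h2, fun y _ hy => ?_⟩
  rw [St_k, sg_on hP.hs hP.hw hw (N := N) (by rw [← hq]; exact hy), ← hq]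
  ring

/-- **a brick off the support of the cut-off** -/
theorem nearS_off {k : Fin 3} {χ : R3 → ℝ} {a s w ε L : ℝ} (hP : StP χ s w ε L) {q : R3} {r ρ : ℝ}
    (G : ℝ) (h0 : ∀ y : R3, (∀ i, i ≠ k → |y i - q i| ≤ r) → |y k - q k| ≤ ρ → χ y = 0) :
    NearS k (St k χ a s w ε) χ G q r ρ := by
  refine ⟨fun y i hi => St_ne y hi, fun y y' h1 h2 => St_mono hP h1 h2, fun y h1 h2 => ?_⟩
  rw [St_k, h0 y h1 h2]
  ring




/-! ### derivatives -/

/-- a linear map of `R3`, on `E3` -/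
def BE (B : R3 →L[ℝ] R3) : E3 →L[ℝ] E3 :=
  (P3.symm : R3 →L[ℝ] E3).comp (B.comp (P3 : E3 →L[ℝ] R3))

theorem BE_apply (B : R3 →L[ℝ] R3) (v : E3) : BE B v = P3.symm (B (P3 v)) := rfl

theorem opnorm_le_cols (L : E3 →L[ℝ] E3) : ‖L‖ ≤ ∑ i, ‖L (Pi.single i 1)‖ := by
  refine L.opNorm_le_bound (Finset.sum_nonneg fun _ _ => norm_nonneg _) fun v => ?_
  have h1 : v = ∑ i, v i • (Pi.single i (1:ℝ) : E3) := by
    funext k
    simp [Finset.sum_apply, Pi.single_apply]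
  conv_lhs => rw [h1]
  rw [map_sum, Finset.sum_mul]
  refine (norm_sum_le _ _).trans (Finset.sum_le_sum fun i _ => ?_)
  rw [map_smul, norm_smul, mul_comm]
  exact mul_le_mul_of_nonneg_left (norm_le_pi_norm v i) (norm_nonneg _)

theorem col_eq (G : Fin 3 → R3 → R3) (i : Fin 3) (x : R3) :
    col G i x = Gmat G x (EuclideanSpace.single i 1) := by
  ext j
  rw [Gmat_apply, Crest.Agent.R96.Str_520.col_apply, EuclideanSpace.inner_single_right]
  simp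

theorem D3_single (G : Fin 3 → R3 → R3) (x : E3) (i : Fin 3) :
    D3 G x (Pi.single i 1) = P3.symm (col G i (P3 x)) := by
  rw [col_eq]
  have h1 : P3 (Pi.single i 1) = EuclideanSpace.single i (1 : ℝ) := by
    rw [← P3_symm_single, P3.apply_symm_apply]
  rw [← h1]
  rfl

theorem BB_single (G : Fin 3 → R3 → R3) (ξ : R3) (i : Fin 3) :
    Crest.Agent.R096.Rg3_766.BB G ξ (Pi.single i 1) = P3.symm (col G i ξ) := by
  rw [col_eq, Crest.Agent.R096.Rg3_766.BB_apply]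
  have h1 : P3 (Pi.single i 1) = EuclideanSpace.single i (1 : ℝ) := by
    rw [← P3_symm_single, P3.apply_symm_apply]
  rw [h1]

theorem sum3_rpow (a : Fin 3 → ℝ≥0∞) {p : ℝ} (hp : 0 ≤ p) :
    (∑ j, a j) ^ p ≤ 3 ^ p * ∑ j, a j ^ p := by
  obtain ⟨j, -, hj⟩ := Finset.exists_max_image Finset.univ a ⟨0, Finset.mem_univ _⟩
  have h1 : ∑ i, a i ≤ 3 * a j := by
    calc ∑ i, a i ≤ ∑ _i : Fin 3, a j := Finset.sum_le_sum fun i _ => hj i (Finset.mem_univ _)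
      _ = 3 * a j := by
        rw [Finset.sum_const, Finset.card_univ, Fintype.card_fin, nsmul_eq_mul]; norm_num
  calc (∑ j, a j) ^ p ≤ (3 * a j) ^ p := ENNReal.rpow_le_rpow h1 hp
    _ = 3 ^ p * a j ^ p := ENNReal.mul_rpow_of_nonneg _ _ hp
    _ ≤ 3 ^ p * ∑ j, a j ^ p := by
        gcongr
        exact Finset.single_le_sum (f := fun j => a j ^ p) (fun _ _ => zero_le) (Finset.mem_univ j)

/-- pointwise estimate -/
theorem D3_pt {G₁ G2 : Fin 3 → R3 → R3} {ξ : R3} {μ ε : ℝ} (hμ : 0 < μ)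
    (hA : Gmat G₁ ξ ∈ LM μ) {B : R3 →L[ℝ] R3} (hB : ∀ v, ‖B v‖ ≤ ‖v‖) (hε0 : 0 ≤ ε) (hε1 : ε ≤ 1)
    {x : E3} (h : ∀ i, ‖col G2 i (P3 x) - B (col G₁ i (P3 x))‖ ≤ ε * ‖col G₁ i (P3 x)‖) :
    ‖D3 G2 x - (BE B).comp (Crest.Agent.R096.Rg3_766.BB G₁ ξ)‖ ≤
      3 * ε / μ + 6 * ∑ j, ‖G₁ j (P3 x) - G₁ j ξ‖ := by
  set Δ := ∑ j, ‖G₁ j (P3 x) - G₁ j ξ‖ with hΔ
  have hΔ0 : 0 ≤ Δ := Finset.sum_nonneg fun _ _ => norm_nonneg _
  have hc : ∀ i, ‖col G₁ i (P3 x) - col G₁ i ξ‖ ≤ Δ := by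
    intro i
    refine (norm_le_sum_co _).trans (Finset.sum_le_sum fun j _ => ?_)
    rw [PiLp.sub_apply, Crest.Agent.R96.Str_520.col_apply, Crest.Agent.R96.Str_520.col_apply]
    have := abs_co_le (G₁ j (P3 x) - G₁ j ξ) i
    rwa [PiLp.sub_apply] at this
  have hξ : ∀ i, ‖col G₁ i ξ‖ ≤ 1 / μ := by
    intro i
    have h1 := (hA (EuclideanSpace.single i 1)).2
    rw [← col_eq] at h1
    rw [le_div_iff₀ hμ, mul_comm]
    refine h1.trans (le_of_eq ?_)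
    simp
  have hi : ∀ i, ‖(D3 G2 x - (BE B).comp (Crest.Agent.R096.Rg3_766.BB G₁ ξ)) (Pi.single i 1)‖ ≤
      ε / μ + 2 * Δ := by
    intro i
    have e1 : (D3 G2 x - (BE B).comp (Crest.Agent.R096.Rg3_766.BB G₁ ξ)) (Pi.single i 1) =
        P3.symm (col G2 i (P3 x) - B (col G₁ i ξ)) := by
      rw [ContinuousLinearMap.sub_apply, ContinuousLinearMap.comp_apply, D3_single, BB_single,
        BE_apply, P3.apply_symm_apply, map_sub]
    rw [e1]
    refine (Crest.Agent.R096.Er_594.norm_P3_symm_le _).trans ?_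
    have e2 : col G2 i (P3 x) - B (col G₁ i ξ) =
        (col G2 i (P3 x) - B (col G₁ i (P3 x))) + B (col G₁ i (P3 x) - col G₁ i ξ) := by
      rw [map_sub]; abel
    rw [e2]
    refine (norm_add_le _ _).trans ?_
    have h1 := h i
    have h2 := (hB (col G₁ i (P3 x) - col G₁ i ξ)).trans (hc i)
    have h3 : ‖col G₁ i (P3 x)‖ ≤ 1 / μ + Δ := by
      have e3 : col G₁ i (P3 x) = col G₁ i ξ + (col G₁ i (P3 x) - col G₁ i ξ) := by abel
      rw [e3]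
      exact (norm_add_le _ _).trans (add_le_add (hξ i) (hc i))
    have h4 : ε * ‖col G₁ i (P3 x)‖ ≤ ε * (1 / μ + Δ) := mul_le_mul_of_nonneg_left h3 hε0
    have h5 : ε * Δ ≤ 1 * Δ := mul_le_mul_of_nonneg_right hε1 hΔ0
    have h6 : ε * (1 / μ + Δ) = ε / μ + ε * Δ := by ring
    linarith
  refine (opnorm_le_cols _).trans ?_
  rw [Fin.sum_univ_three]
  have h7 : 3 * ε / μ = 3 * (ε / μ) := by ring
  rw [h7]
  linarith [hi 0, hi 1, hi 2]

/-- **`L^p` closeness after `S ∘ Γ⁻¹`** -/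
theorem lp_S {Ω : Set R3} {f : R3 → R3} {G₁ G' G2 : Fin 3 → R3 → R3} {p : ℝ} (hp : 1 ≤ p)
    {κ : R3 → ℝ} {ξ : R3} {r μ ε θ : ℝ} (hμ : 0 < μ) (hA : Gmat G₁ ξ ∈ LM μ)
    (hg : GoodAt Ω f G₁ p κ ξ r) (hr : 0 < r) {S : Set E3} (hS : S ⊆ P3 ⁻¹' cube ξ r) {U : Set R3}
    (hU : IsOpen U) (hSU : S ⊆ P3 ⁻¹' U) {B : R3 →L[ℝ] R3} (hB : ∀ v, ‖B v‖ ≤ ‖v‖) (hε0 : 0 ≤ ε)
    (hε1 : ε ≤ 1) (hGG : ∀ᵐ x, x ∈ U → ∀ j, G' j x = G₁ j x)
    (hcl : ∀ᵐ x, x ∈ U → ∀ i, ‖col G2 i x - B (col G' i x)‖ ≤ ε * ‖col G' i x‖)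
    (hθ : 2 ^ p * ((3 * ε / μ) ^ p * (8 * r ^ 3) + 18 ^ p * (κ ξ * r ^ 3)) ≤ θ) :
    ∫⁻ x in S, ‖D3 G2 x - (BE B).comp (Crest.Agent.R096.Rg3_766.BB G₁ ξ)‖ₑ ^ p ≤
      ENNReal.ofReal θ := by
  have hp0 : 0 ≤ p := by linarith
  have hκ0 : 0 ≤ κ ξ := by
    have h1 := hg.aff ξ (mem_cube_self ξ hr.le) ξ (mem_cube_self ξ hr.le)
    have h2 : 0 ≤ κ ξ * r := (norm_nonneg _).trans h1
    by_contra hcon
    push Not at hcon
    nlinarith
  have hae : ∀ᵐ x ∂((volume : Measure E3).restrict (P3 ⁻¹' U)), ∀ i,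
      ‖col G2 i (P3 x) - B (col G₁ i (P3 x))‖ ≤ ε * ‖col G₁ i (P3 x)‖ := by
    have h1 : ∀ᵐ y ∂((volume : Measure R3).restrict U), ∀ i,
        ‖col G2 i y - B (col G₁ i y)‖ ≤ ε * ‖col G₁ i y‖ := by
      rw [ae_restrict_iff' hU.measurableSet]
      filter_upwards [hGG, hcl] with y h2 h3 hy i
      have e : col G₁ i y = col G' i y := by
        ext j
        rw [Crest.Agent.R96.Str_520.col_apply, Crest.Agent.R96.Str_520.col_apply, h2 hy j]
      rw [e]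
      exact h3 hy i
    exact Crest.Agent.R096.Er_594.ae_P3.1 h1
  have hae' : ∀ᵐ x ∂((volume : Measure E3).restrict S), ∀ i,
      ‖col G2 i (P3 x) - B (col G₁ i (P3 x))‖ ≤ ε * ‖col G₁ i (P3 x)‖ :=
    ae_restrict_of_ae_restrict_of_subset hSU hae
  have h2p : (2 : ℝ≥0∞) ^ p = ENNReal.ofReal (2 ^ p) := by
    rw [← ENNReal.ofReal_rpow_of_nonneg (by norm_num) hp0]; norm_num
  have h18p : (18 : ℝ≥0∞) ^ p = ENNReal.ofReal (18 ^ p) := by
    rw [← ENNReal.ofReal_rpow_of_nonneg (by norm_num) hp0]; norm_num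
  have h2t : (2 : ℝ≥0∞) ^ p ≠ ∞ := by rw [h2p]; exact ENNReal.ofReal_ne_top
  have h18t : (18 : ℝ≥0∞) ^ p ≠ ∞ := by rw [h18p]; exact ENNReal.ofReal_ne_top
  have hvol : volume S ≤ ENNReal.ofReal (8 * r ^ 3) := by
    have h1 : S ⊆ closedBall (P3.symm ξ) r := by
      intro x hx
      rw [mem_closedBall, dist_eq_norm, pi_norm_le_iff_of_nonneg hr.le]
      intro i
      exact hS hx i
    refine (measure_mono h1).trans (le_of_eq ?_)
    rw [Real.volume_pi_closedBall _ hr.le, Fintype.card_fin]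
    congr 1
    ring
  have hpt : ∀ x : E3, (∀ i, ‖col G2 i (P3 x) - B (col G₁ i (P3 x))‖ ≤ ε * ‖col G₁ i (P3 x)‖) →
      ‖D3 G2 x - (BE B).comp (Crest.Agent.R096.Rg3_766.BB G₁ ξ)‖ₑ ^ p ≤
        2 ^ p * (ENNReal.ofReal ((3 * ε / μ) ^ p) +
          18 ^ p * ∑ j, ‖G₁ j (P3 x) - G₁ j ξ‖ₑ ^ p) := by
    intro x hx
    have h1 := D3_pt hμ hA hB hε0 hε1 hx
    have h2 : ‖D3 G2 x - (BE B).comp (Crest.Agent.R096.Rg3_766.BB G₁ ξ)‖ₑ ≤
        ENNReal.ofReal (3 * ε / μ) + 6 * ∑ j, ‖G₁ j (P3 x) - G₁ j ξ‖ₑ := by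
      rw [← ofReal_norm]
      refine (ENNReal.ofReal_le_ofReal h1).trans ?_
      rw [ENNReal.ofReal_add (by positivity) (by positivity), ENNReal.ofReal_mul (by norm_num),
        ENNReal.ofReal_sum_of_nonneg (fun _ _ => norm_nonneg _)]
      simp only [ofReal_norm]
      norm_num
    calc _ ≤ (ENNReal.ofReal (3 * ε / μ) + 6 * ∑ j, ‖G₁ j (P3 x) - G₁ j ξ‖ₑ) ^ p :=
          ENNReal.rpow_le_rpow h2 hp0
      _ ≤ 2 ^ p * (ENNReal.ofReal (3 * ε / μ) ^ p + (6 * ∑ j, ‖G₁ j (P3 x) - G₁ j ξ‖ₑ) ^ p) :=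
          rpow_add_le hp0
      _ ≤ 2 ^ p * (ENNReal.ofReal ((3 * ε / μ) ^ p) +
          18 ^ p * ∑ j, ‖G₁ j (P3 x) - G₁ j ξ‖ₑ ^ p) := by
          rw [ENNReal.ofReal_rpow_of_nonneg (by positivity) hp0, ENNReal.mul_rpow_of_nonneg _ _ hp0]
          have h3 := sum3_rpow (fun j => ‖G₁ j (P3 x) - G₁ j ξ‖ₑ) hp0
          have h4 : 6 ^ p * (∑ j, ‖G₁ j (P3 x) - G₁ j ξ‖ₑ) ^ p ≤
              18 ^ p * ∑ j, ‖G₁ j (P3 x) - G₁ j ξ‖ₑ ^ p := by
            calc 6 ^ p * (∑ j, ‖G₁ j (P3 x) - G₁ j ξ‖ₑ) ^ p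
                ≤ 6 ^ p * (3 ^ p * ∑ j, ‖G₁ j (P3 x) - G₁ j ξ‖ₑ ^ p) := by gcongr
              _ = 18 ^ p * ∑ j, ‖G₁ j (P3 x) - G₁ j ξ‖ₑ ^ p := by
                rw [← mul_assoc, ← ENNReal.mul_rpow_of_nonneg _ _ hp0]
                norm_num
          exact mul_le_mul' le_rfl (add_le_add le_rfl h4)
  calc ∫⁻ x in S, ‖D3 G2 x - (BE B).comp (Crest.Agent.R096.Rg3_766.BB G₁ ξ)‖ₑ ^ p
      ≤ ∫⁻ x in S, 2 ^ p * (ENNReal.ofReal ((3 * ε / μ) ^ p) +
          18 ^ p * ∑ j, ‖G₁ j (P3 x) - G₁ j ξ‖ₑ ^ p) := by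
        apply lintegral_mono_ae
        filter_upwards [hae'] with x hx
        exact hpt x hx
    _ = 2 ^ p * (ENNReal.ofReal ((3 * ε / μ) ^ p) * volume S +
          18 ^ p * ∫⁻ x in S, ∑ j, ‖G₁ j (P3 x) - G₁ j ξ‖ₑ ^ p) := by
        rw [lintegral_const_mul' _ _ h2t, lintegral_add_left measurable_const, setLIntegral_const,
          lintegral_const_mul' _ _ h18t]
    _ ≤ 2 ^ p * (ENNReal.ofReal ((3 * ε / μ) ^ p) * ENNReal.ofReal (8 * r ^ 3) +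
          18 ^ p * ENNReal.ofReal (κ ξ * r ^ 3)) := by
        gcongr
        calc ∫⁻ x in S, ∑ j, ‖G₁ j (P3 x) - G₁ j ξ‖ₑ ^ p
            ≤ ∫⁻ x in P3 ⁻¹' cube ξ r, ∑ j, ‖G₁ j (P3 x) - G₁ j ξ‖ₑ ^ p := lintegral_mono_set hS
          _ = ∫⁻ y in cube ξ r, ∑ j, ‖G₁ j y - G₁ j ξ‖ₑ ^ p := by
              rw [Crest.Agent.R096.Er_594.lint_P3 (cube ξ r)
                (fun y => ∑ j, ‖G₁ j y - G₁ j ξ‖ₑ ^ p)]
          _ ≤ _ := hg.int
    _ = ENNReal.ofReal (2 ^ p * ((3 * ε / μ) ^ p * (8 * r ^ 3) + 18 ^ p * (κ ξ * r ^ 3))) := by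
        rw [h2p, h18p, ← ENNReal.ofReal_mul (by positivity), ← ENNReal.ofReal_mul (by positivity),
          ← ENNReal.ofReal_add (by positivity) (by positivity), ← ENNReal.ofReal_mul (by positivity)]
    _ ≤ ENNReal.ofReal θ := ENNReal.ofReal_le_ofReal hθ


end

end Crest.Agent.R096.Bxs_627
end

-- ▼ part R096/Bxn6_627

/-!
Row 96 (S0127), helper627.  NO0, `p ≥ 3`, leaf [U3], part 5: **`exIn_hol`**, the exact core of one brick
for `f2 = S ∘ Γ⁻¹ ∘ Th ∘ f₁` (899 #11058 (Q3)).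
-/

set_option autoImplicit false
set_option linter.unusedSectionVars false
set_option linter.style.longLine false
set_option linter.unusedVariables false

open MeasureTheory Set Filter Topology Metric
open scoped NNReal ENNReal

namespace Crest.Agent.R096.Bxs_627

open Crest.AnalysisR.VecCalc3 Crest.AnalysisR.Sobolev
open Crest.Agent.R096.Bsp_628 Crest.Agent.R96.Push_899 Crest.Agent.R96.En10_199
open Crest.Agent.R096.Osc_802 Crest.Agent.R096.VolC2_766 Crest.Agent.R96.Lu_538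
open Crest.Agent.R096.Sel_766 Crest.Agent.R096.ThC6_766 Crest.Agent.R096.Toph_766
open Crest.Agent.R096.EaX_766 (cbx lin ExIn RatA)
open Crest.Agent.R096.Er_594 (D3 e3)
open Crest.Agent.R96.Str_520 (col)
open Crest.Agent.R096.Rg3_766 (BB BB_low BB_norm BB_apply abs_det_le)

noncomputable section

/-- **the numbers**, any aspect ratio -/
theorem theta_ex2 (p : ℝ) (hp : 3 ≤ p) {κ1 γ0 l0 : ℝ} (hκ1 : 0 < κ1) (hγ : 0 < γ0) (hl0 : 0 < l0) :
    ∃ ca cb : ℝ, 0 < ca ∧ 0 < cb ∧ cb ≤ 1 ∧ ∀ (μ κ ε s lam : ℝ), 0 < μ → μ ≤ 1 → 0 ≤ κ →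
      κ ≤ ca * μ ^ (p + 6) → 0 ≤ ε → ε ≤ cb * μ ^ (4 : ℝ) → 0 ≤ s → l0 ≤ lam →
      (2 / μ) ^ 3 * ((2 / (γ0 * μ)) ^ p *
        (2 ^ p * ((3 * ε / μ) ^ p * (8 * (s / (2 * μ)) ^ 3) + 18 ^ p * (κ * (s / (2 * μ)) ^ 3)))) ≤
        κ1 * (lam * s) ^ 3 / 2 ^ (2 * p + 2) := by
  set C2 : ℝ := κ1 * l0 ^ 3 / 2 ^ (2 * p + 2) with hC2
  have hC2' : 0 < C2 := by positivity
  set C1 : ℝ := (2 / γ0) ^ p * 2 ^ p with hC1
  have hC1' : 0 < C1 := by positivity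
  refine ⟨C2 / (2 * C1 * 18 ^ p), min 1 (C2 / (2 * C1 * (8 * 3 ^ p))), by positivity,
    lt_min one_pos (by positivity), min_le_left _ _, ?_⟩
  intro μ κ ε s lam hμ hμ1 hκ0 hκ hε0 hε hs hlam
  have e1 : (2 / (γ0 * μ)) ^ p = (2 / γ0) ^ p / μ ^ p := by
    rw [← Real.div_rpow (by positivity) hμ.le, div_div]
  have e2 : (3 * ε / μ) ^ p = 3 ^ p * ε ^ p / μ ^ p := by
    rw [Real.div_rpow (by positivity) hμ.le, Real.mul_rpow (by norm_num) hε0]
  have hmp0 : 0 < μ ^ p := Real.rpow_pos_of_pos hμ p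
  have hmp : μ ^ (p + 6) = μ ^ p * μ ^ 6 := by
    rw [Real.rpow_add hμ]
    congr 1
    exact_mod_cast Real.rpow_natCast μ 6
  have key : (2 / μ) ^ 3 * ((2 / (γ0 * μ)) ^ p *
        (2 ^ p * ((3 * ε / μ) ^ p * (8 * (s / (2 * μ)) ^ 3) + 18 ^ p * (κ * (s / (2 * μ)) ^ 3)))) =
      (C1 * (8 * 3 ^ p) * (ε ^ p / (μ ^ p * μ ^ (p + 6))) + C1 * 18 ^ p * (κ / μ ^ (p + 6))) *
        s ^ 3 := by
    rw [e1, e2, hmp, hC1]
    field_simp
  rw [key]
  have h1 : C1 * 18 ^ p * (κ / μ ^ (p + 6)) ≤ C2 / 2 := by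
    have h2 : κ / μ ^ (p + 6) ≤ C2 / (2 * C1 * 18 ^ p) := by
      rw [div_le_iff₀ (Real.rpow_pos_of_pos hμ _)]
      exact hκ
    calc C1 * 18 ^ p * (κ / μ ^ (p + 6)) ≤ C1 * 18 ^ p * (C2 / (2 * C1 * 18 ^ p)) := by gcongr
      _ = C2 / 2 := by
        have : (0 : ℝ) < 18 ^ p := by positivity
        field_simp
  have h3 : C1 * (8 * 3 ^ p) * (ε ^ p / (μ ^ p * μ ^ (p + 6))) ≤ C2 / 2 := by
    set cb := min 1 (C2 / (2 * C1 * (8 * 3 ^ p))) with hcb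
    have hcb0 : 0 < cb := lt_min one_pos (by positivity)
    have hcb1 : cb ≤ 1 := min_le_left _ _
    have h4 : ε ^ p ≤ cb * (μ ^ p * μ ^ (p + 6)) := by
      calc ε ^ p ≤ (cb * μ ^ (4 : ℝ)) ^ p := Real.rpow_le_rpow hε0 hε (by linarith)
        _ = cb ^ p * (μ ^ (4 : ℝ)) ^ p := Real.mul_rpow hcb0.le (by positivity)
        _ ≤ cb * (μ ^ p * μ ^ (p + 6)) := by
          refine mul_le_mul ?_ ?_ (by positivity) hcb0.le
          · calc cb ^ p ≤ cb ^ (1 : ℝ) :=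
                  Real.rpow_le_rpow_of_exponent_ge hcb0 hcb1 (by linarith)
              _ = cb := Real.rpow_one _
          · rw [← Real.rpow_mul hμ.le, ← Real.rpow_add hμ]
            exact Real.rpow_le_rpow_of_exponent_ge hμ hμ1 (by linarith)
    have h5 : ε ^ p / (μ ^ p * μ ^ (p + 6)) ≤ cb := by
      rw [div_le_iff₀ (by positivity)]
      exact h4
    calc C1 * (8 * 3 ^ p) * (ε ^ p / (μ ^ p * μ ^ (p + 6)))
        ≤ C1 * (8 * 3 ^ p) * (C2 / (2 * C1 * (8 * 3 ^ p))) :=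
          mul_le_mul_of_nonneg_left (h5.trans (min_le_right _ _)) (by positivity)
      _ = C2 / 2 := by
        have : (0 : ℝ) < 3 ^ p := by positivity
        field_simp
  calc _ ≤ (C2 / 2 + C2 / 2) * s ^ 3 := by gcongr
    _ = κ1 * (l0 * s) ^ 3 / 2 ^ (2 * p + 2) := by rw [hC2]; ring
    _ ≤ κ1 * (lam * s) ^ 3 / 2 ^ (2 * p + 2) := by gcongr

/-- the diagonal map as a continuous linear map -/
def dgC (k : Fin 3) (g : ℝ) : R3 →L[ℝ] R3 :=
  LinearMap.toContinuousLinearMap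
    { toFun := dgf k g
      map_add' := fun x y => by
        ext i
        by_cases hi : i = k
        · subst hi
          rw [dgf_k, PiLp.add_apply, PiLp.add_apply, dgf_k, dgf_k]; ring
        · rw [dgf_ne g _ hi, PiLp.add_apply, PiLp.add_apply, dgf_ne g _ hi, dgf_ne g _ hi]
      map_smul' := fun c y => by
        ext i
        by_cases hi : i = k
        · subst hi
          rw [dgf_k, PiLp.smul_apply, RingHom.id_apply, PiLp.smul_apply, dgf_k, smul_eq_mul,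
            smul_eq_mul]
          ring
        · rw [dgf_ne g _ hi, PiLp.smul_apply, RingHom.id_apply, PiLp.smul_apply, dgf_ne g _ hi] }

theorem dgC_apply (k : Fin 3) (g : ℝ) (v : R3) : dgC k g v = dgf k g v := rfl

theorem BE_dg_low {k : Fin 3} {g : ℝ} (h0 : 0 < g) (h1 : g ≤ 1) (v : E3) :
    g * ‖v‖ ≤ ‖BE (dgC k g) v‖ := by
  have h2 : ‖v‖ ≤ g⁻¹ * ‖BE (dgC k g) v‖ := by
    rw [pi_norm_le_iff_of_nonneg (by positivity)]
    intro i
    have h3 := norm_le_pi_norm (BE (dgC k g) v) i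
    have h4 : ‖v i‖ ≤ g⁻¹ * ‖BE (dgC k g) v i‖ := by
      have e : BE (dgC k g) v i = dgf k g (P3 v) i := rfl
      rw [e]
      by_cases hi : i = k
      · subst hi
        rw [dgf_k, norm_mul, Real.norm_of_nonneg h0.le, ← mul_assoc, inv_mul_cancel₀ h0.ne', one_mul]
        exact le_of_eq rfl
      · rw [dgf_ne _ _ hi]
        exact le_mul_of_one_le_left (norm_nonneg _) ((one_le_inv₀ h0).2 h1)
    exact h4.trans (mul_le_mul_of_nonneg_left h3 (by positivity))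
  rw [inv_mul_eq_div, le_div_iff₀ h0] at h2
  linarith

theorem BE_dg_le {k : Fin 3} {g : ℝ} (h0 : 0 ≤ g) (h1 : g ≤ 1) (v : E3) :
    ‖BE (dgC k g) v‖ ≤ ‖v‖ := by
  rw [pi_norm_le_iff_of_nonneg (norm_nonneg _)]
  intro i
  have e : BE (dgC k g) v i = dgf k g (P3 v) i := rfl
  rw [e]
  by_cases hi : i = k
  · subst hi
    rw [dgf_k, norm_mul, Real.norm_of_nonneg h0]
    exact (mul_le_of_le_one_left (norm_nonneg _) h1).trans (norm_le_pi_norm v i)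
  · rw [dgf_ne _ _ hi]
    exact norm_le_pi_norm v i

/-- **`exIn_hol`: the exact core of one brick** for `f2 = S ∘ Γ⁻¹ ∘ Th ∘ f₁`, with the closeness to the
real affine map. -/
theorem exIn_hol' {p : ℝ} (hp : 3 ≤ p) {κ0 γ0 κ1 κ2 : ℝ} (hκ0 : 1 ≤ κ0) (hγ0 : 0 < γ0)
    (hκ1 : 0 < κ1) (hκ1' : κ1 ≤ 1 / 4) (hκ2' : κ2 < 1 / 4) :
    ∃ κ₁ ca cb : ℝ, 0 < κ₁ ∧ κ₁ ≤ 1 / 64 ∧ 0 < ca ∧ 0 < cb ∧
    ∀ {Ω Λ₁ : Set R3} {f₁ : R3 → R3} {G₁ : Fin 3 → R3 → R3} {β κ₁' : ℝ} {w μ κ δ : R3 → ℝ}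
      {th : R3 → R3} {ι : Type} {P : ι → R3} {R : ι → ℝ} {yc ξ : ι → R3} {Th : R3 ≃ₜ R3}
      {G' : Fin 3 → R3 → R3}, κ₁' ≤ κ₁ → IsOpen Ω → ContinuousOn f₁ Ω → Scale Ω μ →
      (∀ x ∈ Ω, κ x ≤ ca * μ x ^ (p + 6)) →
      HolN p Ω Λ₁ f₁ G₁ β κ₁' w μ κ δ th P R yc ξ Th G' →
    ∀ {k : Fin 3} {G L : ℝ} {S : R3 → R3} {χ : R3 → ℝ}, 1 ≤ G → (∀ y, 0 ≤ χ y) → (∀ y, χ y ≤ 1) →
      0 ≤ L → (∀ y y', |χ y' - χ y| ≤ L * ‖y' - y‖) →
    ∀ {G2 : Fin 3 → R3 → R3},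
      (∀ (U V : Set R3) (B : R3 →L[ℝ] R3) (ε : ℝ≥0), IsOpen U → U ⊆ Ω → IsOpen V →
        (∀ x ∈ U, Th (f₁ x) ∈ V) → LipschitzOnWith ε (fun y => S (dgf k G⁻¹ y) - B y) V →
        ∀ᵐ x, x ∈ U → ∀ i, ‖col G2 i x - B (col G' i x)‖ ≤ ε * ‖col G' i x‖) →
    ∀ (i : ι) {Q : Bx (Fin 3)} (hQ : Q.Pos) {γ ρ : ℝ}, 0 < R i → R i = Q.sz / (8 * κ0) →
      P i = dgf k G (P3 (ctr Q)) → γ0 ≤ γ → γ * G ≤ 1 + χ (P3 (ctr Q)) * (G - 1) →
      NearS k S χ G (P3 (ctr Q)) (R i / 16) ρ → R i / 16 < G * ρ →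
      G * L * (ρ + R i / 16) ≤ 1 / 2 → L * R i ≤ cb * μ (ξ i) ^ (4 : ℝ) →
    ∀ (o : E3) {u : ℝ}, 0 < u → ∀ {ε0 : ℝ}, 0 < ε0 →
    ∃ A : E3 ≃ᵃ[ℝ] E3,
      ExIn p (P3 ⁻¹' Ω) (e3 fun x => S (dgf k G⁻¹ (Th (f₁ x)))) (D3 G2) o u κ1 κ2 Q A
        (γ / (512 * κ0)) ∧
      ‖lin A - (BE (dgC k ((1 + χ (P3 (ctr Q)) * (G - 1)) / G))).comp (BB G₁ (ξ i))‖ ≤ ε0 ∧
      (∀ x, A x ∈ cbx Q ((1 + 2 * κ2) * (γ / (512 * κ0))) →
        P3 x ∈ Ω ∧ P3 x ∈ cube (ξ i) (4 * R i / μ (ξ i))) ∧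
      ∀ x, ‖A x - P3.symm (dgf k ((1 + χ (P3 (ctr Q)) * (G - 1)) / G)
        (Aff f₁ G₁ (ξ i) (P i - yc i) (P3 x) - P i) + P3 (ctr Q))‖ ≤ ε0 * (1 + ‖x‖) := by
  obtain ⟨ca, cb, hca, hcb, hcb1, hnum⟩ := theta_ex2 p hp (κ1 := κ1) (γ0 := γ0)
    (l0 := γ0 / (512 * κ0)) hκ1 hγ0 (by positivity)
  refine ⟨min (1 / 64) (κ1 * γ0 / 256), ca, min cb (κ1 * γ0), lt_min (by norm_num) (by positivity),
    min_le_left _ _, hca, lt_min hcb (by positivity), ?_⟩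
  intro Ω Λ₁ f₁ G₁ β κ₁' w μ κ δ th ι P R yc ξ Th G' hκ₁ hΩ hfc hμ hκ H k G L S χ hG χ0 χ1 hL0 hL
    G2 h816 i Q hQ γ ρ hRpos hR hP hγ hγG hS hrρ hGL hLR o u hu ε0 hε0
  have hp0 : 0 ≤ p := by linarith
  have hG0 : 0 < G := by linarith
  have hs := Bx.sz_pos hQ
  have hκ0' : 0 < κ0 := by linarith
  have hγp : 0 < γ := hγ0.trans_le hγ
  set q : R3 := P3 (ctr Q) with hq
  set σ : ℝ := 1 + χ q * (G - 1) with hσ
  have hσ1 : 1 ≤ σ := by
    have := mul_nonneg (χ0 q) (sub_nonneg.2 hG)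
    linarith
  have hσG : σ ≤ G := by
    have := mul_le_mul_of_nonneg_right (χ1 q) (sub_nonneg.2 hG)
    linarith
  set g : ℝ := σ / G with hgdef
  have hg0 : 0 < g := by positivity
  have hg1 : g ≤ 1 := (div_le_one hG0).2 hσG
  have hgγ : γ ≤ g := by rw [hgdef, le_div_iff₀ hG0]; exact hγG
  have hγ1 : γ ≤ 1 := hgγ.trans hg1
  have hg : g ≠ 0 := hg0.ne'
  set lam : ℝ := γ / (512 * κ0) with hlamdef
  have hlam : 0 < lam := by positivity
  have hlam1 : lam ≤ 1 := by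
    rw [hlamdef, div_le_one (by positivity)]; linarith
  have hszR : Q.sz = 8 * κ0 * R i := by
    rw [hR]; field_simp
  have hlR : lam * Q.sz = γ * R i / 64 := by
    rw [hszR, hlamdef]; field_simp; ring
  set t : ℝ := 2 * (lam * Q.sz) with ht
  have ht' : t = γ * R i / 32 := by rw [ht, hlR]; ring
  have ht0 : 0 ≤ t := by rw [ht']; positivity
  have htr : 2 * t ≤ R i / 16 := by
    rw [ht']
    have : γ * R i ≤ 1 * R i := mul_le_mul_of_nonneg_right hγ1 hRpos.le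
    linarith
  have h2 : 2 * G * t ≤ σ * (R i / 16) := by
    rw [ht']
    have := mul_le_mul_of_nonneg_right hγG hRpos.le
    calc 2 * G * (γ * R i / 32) = γ * G * R i / 16 := by ring
      _ ≤ σ * R i / 16 := by linarith
      _ = σ * (R i / 16) := by ring
  obtain ⟨c1, c2, c3, c4⟩ := hS.core hG χ0 χ1 hL hL0 (by positivity) hrρ ht0 h2
    ((mul_le_mul_of_nonneg_left (by linarith) (by positivity)).trans hGL) hg
  rw [← hP] at c1 c2 c3 c4
  have hμi : 0 < μ (ξ i) := hμ.pos _ (H.ee i).1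
  have hμ1 : μ (ξ i) ≤ 1 := hμ.le_one _
  have hAi : Gmat G₁ (ξ i) ∈ LM (μ (ξ i)) := (H.ee i).2.1
  have hμ4 : μ (ξ i) ^ (4 : ℝ) ≤ 1 := Real.rpow_le_one hμi.le hμ1 (by norm_num)
  have hμ4' : 0 ≤ μ (ξ i) ^ (4 : ℝ) := by positivity
  have hκ₁64 : κ₁' ≤ 1 / 64 := hκ₁.trans (min_le_left _ _)
  have hκ₁γ : κ₁' ≤ κ1 * γ0 / 256 := hκ₁.trans (min_le_right _ _)
  have hLR1 : L * R i ≤ κ1 * γ0 := hLR.trans (by
    calc min cb (κ1 * γ0) * μ (ξ i) ^ (4 : ℝ) ≤ (κ1 * γ0) * 1 :=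
          mul_le_mul (min_le_right _ _) hμ4 hμ4' (by positivity)
      _ = _ := mul_one _)
  have hLR2 : L * R i ≤ cb * μ (ξ i) ^ (4 : ℝ) := hLR.trans
    (mul_le_mul_of_nonneg_right (min_le_left _ _) hμ4')
  have hclose : L * (R i / 16) * (R i / 16) + κ₁' * R i ≤ κ1 / 2 * (lam * Q.sz) := by
    rw [hlR]
    have h3 : L * (R i / 16) * (R i / 16) ≤ κ1 * γ0 * R i / 256 := by
      calc L * (R i / 16) * (R i / 16) = L * R i * R i / 256 := by ring
        _ ≤ κ1 * γ0 * R i / 256 := by gcongr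
    have h4 : κ₁' * R i ≤ κ1 * γ0 / 256 * R i := mul_le_mul_of_nonneg_right hκ₁γ hRpos.le
    have h5 : κ1 * γ0 * R i ≤ κ1 * γ * R i := by gcongr
    linarith
  -- the real affine map
  set A₀ : R3 ≃ᵃ[ℝ] R3 := (affE f₁ G₁ (ξ i) (P i - yc i) hμi hAi).trans (dgA k g hg (P i) q)
    with hA₀
  have hC : Cori Ω (fun x => S (dgf k G⁻¹ (Th (f₁ x)))) A₀ Q lam (κ1 / 2) (1 / 4) := by
    have h3 := core_comp (Om := Ω) (g := fun x => Th (f₁ x))
      (A := fun x => Aff f₁ G₁ (ξ i) (P i - yc i) x) (H := fun y => S (dgf k G⁻¹ y))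
      (B := fun y => dgA k g hg (P i) q y) hQ (P := P i) (r := R i / 16) (κ' := κ₁' * R i)
      (ε := L * (R i / 16) * (R i / 16)) (t := t) (lam := lam) (κ1 := κ1 / 2) (κ2 := 1 / 4)
      (by
        have := mul_le_mul_of_nonneg_right hκ₁64 hRpos.le
        linarith)
      (fun x hx h3 => (H.miss i x hx h3).2)
      (fun x h3 => by
        obtain ⟨h4, -, h5⟩ := H.nbd i x (h3.trans (by linarith))
        exact ⟨h4, h5⟩)
      (fun y hy => c1 y hy)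
      (fun y y' => by rw [dgA_sub]; exact dgf_contr hg0.le hg1 _)
      (fun y hy => c3 y hy) (fun x _ hx => c4 _ hx) hlam (by norm_num) le_rfl (le_of_eq ht.symm)
      hclose
    exact h3
  have hCE : CoriE (P3 ⁻¹' Ω) (e3 fun x => S (dgf k G⁻¹ (Th (f₁ x)))) (a3 A₀) Q lam (κ1 / 2)
    (1 / 4) := hC
  -- its linear part
  have hlin : lin (a3 A₀) = (BE (dgC k g)).comp (BB G₁ (ξ i)) := by
    ext1 v
    rw [lin_sub_apply, ContinuousLinearMap.comp_apply, BE_apply, BB_apply, P3.apply_symm_apply,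
      a3_apply, a3_apply, ← map_sub, dgC_apply]
    have e1 : A₀ (P3 v) - A₀ (P3 0) = dgf k g (Aff f₁ G₁ (ξ i) (P i - yc i) (P3 v) -
        Aff f₁ G₁ (ξ i) (P i - yc i) (P3 0)) := dgA_sub k g hg (P i) q _ _
    rw [e1]
    congr 2
    rw [Aff, Aff, add_sub_add_right_eq_sub, add_sub_add_left_eq_sub, ← map_sub, map_zero,
      sub_sub_sub_cancel_right, sub_zero]
  have hlow : ∀ v, γ0 * μ (ξ i) / 2 * ‖v‖ ≤ ‖lin (a3 A₀) v‖ := by
    intro v
    rw [hlin, ContinuousLinearMap.comp_apply]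
    have h3 := BE_dg_low (k := k) hg0 hg1 (BB G₁ (ξ i) v)
    have h4 := BB_low hμi.le hAi v
    have h5 : γ0 ≤ g := hγ.trans hgγ
    calc γ0 * μ (ξ i) / 2 * ‖v‖ = γ0 * (μ (ξ i) / 2 * ‖v‖) := by ring
      _ ≤ g * ‖BB G₁ (ξ i) v‖ := mul_le_mul h5 h4 (by positivity) hg0.le
      _ ≤ _ := h3
  have hup : ‖lin (a3 A₀)‖ ≤ 2 / μ (ξ i) := by
    rw [hlin]
    have h3 : ‖BE (dgC k g)‖ ≤ 1 := ContinuousLinearMap.opNorm_le_bound _ zero_le_one fun v => by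
      rw [one_mul]; exact BE_dg_le hg0.le hg1 v
    have h4 := BB_norm hμi hAi
    refine (ContinuousLinearMap.opNorm_comp_le _ _).trans ?_
    calc ‖BE (dgC k g)‖ * ‖BB G₁ (ξ i)‖ ≤ 1 * (1 / (μ (ξ i) / 2)) :=
          mul_le_mul h3 h4 (norm_nonneg _) zero_le_one
      _ = 2 / μ (ξ i) := by rw [one_mul, one_div_div]
  have hsymm : ‖lin (a3 A₀).symm‖ ≤ 2 / (γ0 * μ (ξ i)) := by
    refine ContinuousLinearMap.opNorm_le_bound _ (by positivity) fun v => ?_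
    have h3 := hlow (lin (a3 A₀).symm v)
    have h4 : lin (a3 A₀) (lin (a3 A₀).symm v) = v := by
      have := congrArg (fun M : E3 →L[ℝ] E3 => M v) (lin_comp_symm (a3 A₀))
      simpa using this
    rw [h4] at h3
    rw [div_mul_eq_mul_div, le_div_iff₀ (by positivity)]
    linarith
  -- localisation of the region
  have hsub : ∀ x : E3, x ∈ a3 A₀ ⁻¹' cbx Q ((1 + 2 * (1 / 4)) * lam) →
      P3 x ∈ Ω ∧ P3 x ∈ cube (ξ i) (4 * R i / μ (ξ i)) ∧ ‖Th (f₁ (P3 x)) - P i‖ < R i / 16 := by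
    intro x hx
    have h3 : ‖a3 A₀ x - ctr Q‖ ≤ lam * Q.sz := by
      rw [pi_norm_le_iff_of_nonneg (by positivity)]
      intro j
      rw [Pi.sub_apply, Real.norm_eq_abs]
      have h4 : |a3 A₀ x j - ctr Q j| ≤ (1 + 2 * (1 / 4)) * lam * Q.side j / 2 := hx j
      have h5 := Q.side_le_sz j
      have h6 := Bx.side_pos hQ j
      have h7 : lam * Q.side j ≤ lam * Q.sz := mul_le_mul_of_nonneg_left h5 hlam.le
      have h8 : 0 < lam * Q.side j := by positivity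
      linarith
    have h9 : ‖A₀ (P3 x) - q‖ ≤ t := by
      have h3' : ‖P3.symm (A₀ (P3 x)) - ctr Q‖ ≤ lam * Q.sz := h3
      have h10 := norm_P3_le (P3.symm (A₀ (P3 x)) - ctr Q)
      rw [map_sub, P3.apply_symm_apply] at h10
      linarith
    have h11 := c3 _ h9
    have h12 : ‖Aff f₁ G₁ (ξ i) (P i - yc i) (P3 x) - P i‖ ≤ R i / 32 :=
      le_trans h11 (by linarith)
    obtain ⟨h13, h14, h15⟩ := H.nbd i (P3 x) h12
    refine ⟨h13, h14, ?_⟩
    have e : Th (f₁ (P3 x)) - P i = (Th (f₁ (P3 x)) - Aff f₁ G₁ (ξ i) (P i - yc i) (P3 x)) +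
      (Aff f₁ G₁ (ξ i) (P i - yc i) (P3 x) - P i) := by abel
    rw [e]
    refine (norm_add_le _ _).trans_lt ?_
    have := mul_le_mul_of_nonneg_right hκ₁64 hRpos.le
    linarith
  -- the `L^p` clause
  set U : Set R3 := Ω ∩ f₁ ⁻¹' ball (yc i) (R i / 16) with hU
  have hUo : IsOpen U := hfc.isOpen_inter_preimage hΩ isOpen_ball
  set ε : ℝ≥0 := ⟨2 * L * (R i / 16), by positivity⟩ with hε
  have hεr : (ε : ℝ) = L * R i / 8 := by rw [hε]; change 2 * L * (R i / 16) = _; ring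
  have hε0' : (0 : ℝ) ≤ ε := ε.2
  have hεcb : (ε : ℝ) ≤ cb * μ (ξ i) ^ (4 : ℝ) := by
    rw [hεr]
    have : 0 ≤ L * R i := by positivity
    linarith
  have hε1 : (ε : ℝ) ≤ 1 := hεcb.trans (by
    calc cb * μ (ξ i) ^ (4 : ℝ) ≤ 1 * 1 := mul_le_mul hcb1 hμ4 hμ4' zero_le_one
      _ = 1 := mul_one 1)
  have hUT : ∀ x ∈ U, Th (f₁ x) = f₁ x + (P i - yc i) := by
    intro x hx
    have h3 : ‖f₁ x - yc i‖ ≤ R i / 16 := by
      have := hx.2
      rw [mem_preimage, mem_ball, dist_eq_norm] at this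
      exact this.le
    rw [H.trans i _ h3]
    abel
  have hcl := h816 U (ball (P i) (R i / 16)) (dgC k g) ε hUo inter_subset_left isOpen_ball
    (fun x hx => by
      have h3 := hx.2
      rw [mem_preimage, mem_ball, dist_eq_norm] at h3
      rw [mem_ball, dist_eq_norm, hUT x hx]
      have e : f₁ x + (P i - yc i) - P i = f₁ x - yc i := by abel
      rw [e]
      exact h3)
    (by
      apply LipschitzOnWith.of_dist_le_mul
      intro y hy y' hy'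
      rw [dist_eq_norm, dist_eq_norm]
      rw [mem_ball, dist_eq_norm] at hy hy'
      have h3 := c2 y y' hy.le hy'.le
      have e : S (dgf k G⁻¹ y) - dgC k g y - (S (dgf k G⁻¹ y') - dgC k g y') =
          (S (dgf k G⁻¹ y) - dgA k g hg (P i) q y) - (S (dgf k G⁻¹ y') - dgA k g hg (P i) q y') := by
        have h4 : ∀ z, dgA k g hg (P i) q z = dgC k g z - dgC k g (P i) + q := by
          intro z
          rw [← map_sub]
          rfl
        rw [h4, h4]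
        abel
      rw [e]
      exact h3)
  set r : ℝ := 4 * R i / μ (ξ i) with hr
  have hr0 : 0 < r := by positivity
  have hκξ : 0 ≤ κ (ξ i) := by
    have h1 := (H.good i).aff (ξ i) (mem_cube_self _ hr0.le) (ξ i) (mem_cube_self _ hr0.le)
    have h2 : 0 ≤ κ (ξ i) * r := (norm_nonneg _).trans h1
    by_contra hcon
    push Not at hcon
    nlinarith
  have hLP := lp_S (G2 := G2) (by linarith : (1 : ℝ) ≤ p) hμi hAi (H.good i) hr0
    (S := a3 A₀ ⁻¹' cbx Q ((1 + 2 * (1 / 4)) * lam)) (fun x hx => (hsub x hx).2.1) hUo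
    (fun x hx => by
      obtain ⟨h3, -, h5⟩ := hsub x hx
      refine ⟨h3, ?_⟩
      rw [mem_preimage, mem_ball, dist_eq_norm]
      have h6 := H.trans' i _ h5.le
      have h7 : f₁ (P3 x) - yc i = Th (f₁ (P3 x)) - P i := by
        conv_lhs => rw [h6]
        abel
      rw [h7]
      exact h5)
    (B := dgC k g) (fun v => dgf_contr hg0.le hg1 v) hε0' hε1
    (H.tr U (P i - yc i) hUo inter_subset_left hUT) hcl le_rfl
  rw [← hlin] at hLP
  have hrs : r ≤ Q.sz / (2 * μ (ξ i)) := by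
    rw [hr, hR]
    rw [div_le_div_iff₀ hμi (by positivity)]
    have h3 : 4 * (Q.sz / (8 * κ0)) * (2 * μ (ξ i)) = Q.sz * μ (ξ i) / κ0 := by
      field_simp; ring
    rw [h3, div_le_iff₀ hκ0']
    have : 0 < Q.sz * μ (ξ i) := by positivity
    nlinarith
  have hnumi := hnum (μ (ξ i)) (κ (ξ i)) ε Q.sz lam hμi hμ1 hκξ (hκ _ (H.ee i).1) hε0' hεcb hs.le
    (by rw [hlamdef]; gcongr)
  have hfin : ENNReal.ofReal |(lin (a3 A₀)).det| * ‖lin (a3 A₀).symm‖ₑ ^ p *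
      ∫⁻ x in a3 A₀ ⁻¹' cbx Q ((1 + 2 * (1 / 4)) * lam), ‖D3 G2 x - lin (a3 A₀)‖ₑ ^ p ≤
        ENNReal.ofReal (κ1 * (lam * Q.sz) ^ 3 / 2 ^ (2 * p + 2)) := by
    have h3 : |(lin (a3 A₀)).det| ≤ (2 / μ (ξ i)) ^ 3 := (abs_det_le _).trans (by gcongr)
    have h4 : ‖lin (a3 A₀).symm‖ₑ ^ p ≤ ENNReal.ofReal ((2 / (γ0 * μ (ξ i))) ^ p) := by
      rw [← ENNReal.ofReal_rpow_of_nonneg (by positivity) hp0]
      apply ENNReal.rpow_le_rpow _ hp0
      rw [← ofReal_norm]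
      exact ENNReal.ofReal_le_ofReal hsymm
    calc _ ≤ ENNReal.ofReal ((2 / μ (ξ i)) ^ 3) * ENNReal.ofReal ((2 / (γ0 * μ (ξ i))) ^ p) *
          ENNReal.ofReal (2 ^ p * ((3 * (ε : ℝ) / μ (ξ i)) ^ p * (8 * r ^ 3) +
            18 ^ p * (κ (ξ i) * r ^ 3))) :=
          mul_le_mul' (mul_le_mul' (ENNReal.ofReal_le_ofReal h3) h4) hLP
      _ = ENNReal.ofReal ((2 / μ (ξ i)) ^ 3 * ((2 / (γ0 * μ (ξ i))) ^ p *
            (2 ^ p * ((3 * (ε : ℝ) / μ (ξ i)) ^ p * (8 * r ^ 3) + 18 ^ p * (κ (ξ i) * r ^ 3))))) := by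
          rw [← ENNReal.ofReal_mul (by positivity), ← ENNReal.ofReal_mul (by positivity), mul_assoc]
      _ ≤ _ := by
          apply ENNReal.ofReal_le_ofReal
          refine le_trans ?_ hnumi
          gcongr
  -- rational map
  obtain ⟨A, hA1, hA2⟩ := exists_exIn (by linarith) o hu hQ hlam hlam1 (by positivity)
    (by linarith : κ1 / 2 < κ1) hκ2' hCE hfin (ε := ε0 / 3) (by positivity)
  refine ⟨A, hA2, ?_, ?_, fun x => (hA1 x).trans (mul_le_mul_of_nonneg_right (by linarith)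
    (by positivity))⟩
  · rw [← hlin]
    have := lin_near (by positivity : (0 : ℝ) ≤ ε0 / 3) hA1
    linarith
  · intro x hx
    obtain ⟨h3, h4⟩ := hA2.cor x (Or.inr hx)
    refine ⟨h3, ?_⟩
    have h5 : ‖P3.symm (S (dgf k G⁻¹ (Th (f₁ (P3 x))))) - ctr Q‖ ≤ lam * Q.sz := by
      rw [pi_norm_le_iff_of_nonneg (by positivity)]
      intro j
      rw [Pi.sub_apply, Real.norm_eq_abs]
      have h6 : |A x j - ctr Q j| ≤ (1 + 2 * κ2) * lam * Q.side j / 2 := hx j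
      have h7 : |P3.symm (S (dgf k G⁻¹ (Th (f₁ (P3 x))))) j - A x j| ≤ κ1 * (lam * Q.sz) := by
        have h8 := (norm_le_pi_norm (e3 (fun x => S (dgf k G⁻¹ (Th (f₁ x)))) x - A x) j).trans h4
        rwa [Pi.sub_apply, Real.norm_eq_abs] at h8
      have h9 := abs_sub_le (P3.symm (S (dgf k G⁻¹ (Th (f₁ (P3 x))))) j) (A x j) (ctr Q j)
      have h10 := Q.side_le_sz j
      have h11 := Bx.side_pos hQ j
      have h12 : lam * Q.side j ≤ lam * Q.sz := mul_le_mul_of_nonneg_left h10 hlam.le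
      have h13 : 0 < lam * Q.side j := by positivity
      have h14 : κ1 * (lam * Q.sz) ≤ 1 / 4 * (lam * Q.sz) := by gcongr
      have h15 : (1 + 2 * κ2) * (lam * Q.side j) ≤ (3 / 2) * (lam * Q.side j) := by
        apply mul_le_mul_of_nonneg_right _ h13.le
        linarith
      linarith
    have h16 : ‖S (dgf k G⁻¹ (Th (f₁ (P3 x)))) - q‖ ≤ t := by
      have h17 := norm_P3_le (P3.symm (S (dgf k G⁻¹ (Th (f₁ (P3 x))))) - ctr Q)
      rw [map_sub, P3.apply_symm_apply] at h17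
      linarith
    exact (H.miss i (P3 x) h3 (c4 _ h16)).1


/-- **`exIn_hol3`: the exact core of one brick** with the clauses of 764's `blocks3`. -/
theorem exIn_hol3 {p : ℝ} (hp : 3 ≤ p) {κ0 γ0 κ1 κ2 : ℝ} (hκ0 : 1 ≤ κ0) (hγ0 : 0 < γ0)
    (hκ1 : 0 < κ1) (hκ1' : κ1 ≤ 1 / 4) (hκ2 : 0 ≤ κ2) (hκ2' : κ2 < 1 / 4) :
    ∃ κ₁ ca cb : ℝ, 0 < κ₁ ∧ κ₁ ≤ 1 / 64 ∧ 0 < ca ∧ 0 < cb ∧
    ∀ {Ω Λ₁ : Set R3} {f₁ : R3 → R3} {G₁ : Fin 3 → R3 → R3} {β κ₁' : ℝ} {w μ κ δ : R3 → ℝ}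
      {th : R3 → R3} {ι : Type} {P : ι → R3} {R : ι → ℝ} {yc ξ : ι → R3} {Th : R3 ≃ₜ R3}
      {G' : Fin 3 → R3 → R3}, κ₁' ≤ κ₁ → IsOpen Ω → ContinuousOn f₁ Ω → Scale Ω μ →
      (∀ x ∈ Ω, κ x ≤ ca * μ x ^ (p + 6)) →
      HolN p Ω Λ₁ f₁ G₁ β κ₁' w μ κ δ th P R yc ξ Th G' →
    ∀ {k : Fin 3} {G L : ℝ} {S : R3 → R3} {χ : R3 → ℝ}, 1 ≤ G → (∀ y, 0 ≤ χ y) → (∀ y, χ y ≤ 1) →
      0 ≤ L → (∀ y y', |χ y' - χ y| ≤ L * ‖y' - y‖) →
    ∀ {G2 : Fin 3 → R3 → R3},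
      (∀ (U V : Set R3) (B : R3 →L[ℝ] R3) (ε : ℝ≥0), IsOpen U → U ⊆ Ω → IsOpen V →
        (∀ x ∈ U, Th (f₁ x) ∈ V) → LipschitzOnWith ε (fun y => S (dgf k G⁻¹ y) - B y) V →
        ∀ᵐ x, x ∈ U → ∀ i, ‖col G2 i x - B (col G' i x)‖ ≤ ε * ‖col G' i x‖) →
    ∀ (i : ι) {Q : Bx (Fin 3)} (hQ : Q.Pos), (∀ j, Q.sz ≤ κ0 * Q.side j) →
    ∀ {γ ρ : ℝ}, 0 < R i → R i = Q.sz / (8 * κ0) →
      P i = dgf k G (P3 (ctr Q)) → γ0 ≤ γ → γ * G ≤ 1 + χ (P3 (ctr Q)) * (G - 1) →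
      NearS k S χ G (P3 (ctr Q)) (R i / 16) ρ → R i / 16 < G * ρ →
      G * L * (ρ + R i / 16) ≤ 1 / 2 → L * R i ≤ cb * μ (ξ i) ^ (4 : ℝ) →
    ∀ (o : E3) {u : ℝ}, 0 < u →
    ∃ A : E3 ≃ᵃ[ℝ] E3,
      ExIn p (P3 ⁻¹' Ω) (e3 fun x => S (dgf k G⁻¹ (Th (f₁ x)))) (D3 G2) o u κ1 κ2 Q A
        (γ / (512 * κ0)) ∧
      (∀ x, A x ∈ cbx Q ((1 + 2 * κ2) * (γ / (512 * κ0))) →
        P3 x ∈ Ω ∧ P3 x ∈ cube (ξ i) (4 * R i / μ (ξ i))) ∧
      (∀ x : E3, ‖Aff f₁ G₁ (ξ i) (P i - yc i) (P3 x) - P i‖ ≤ γ0 / (2048 * κ0 ^ 2) * Q.sz →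
        A x ∈ cbx Q ((1 + 2 * κ2) * (γ / (512 * κ0)))) ∧
      ‖lin A‖ ≤ 3 * ‖Gmat G₁ (ξ i)‖ := by
  obtain ⟨κ₁, ca, cb, h1, h2, h3, h4, h5⟩ := exIn_hol' hp hκ0 hγ0 hκ1 hκ1' hκ2'
  refine ⟨κ₁, ca, cb, h1, h2, h3, h4, ?_⟩
  intro Ω Λ₁ f₁ G₁ β κ₁' w μ κ δ th ι P R yc ξ Th G' a1 a2 a3 a4 a5 a6 k G L S χ a7 a8 a9 a10 a11
    G2 a12 i Q hQ asp γ ρ b1 b2 b3 b4 b5 b6 b7 b8 b9 o u hu
  have hμi : 0 < μ (ξ i) := a4.pos _ (a6.ee i).1
  have hAi : Gmat G₁ (ξ i) ∈ LM (μ (ξ i)) := (a6.ee i).2.1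
  have hκ0' : 0 < κ0 := by linarith
  have hs := Bx.sz_pos hQ
  have hG0 : 0 < G := by linarith
  set q : R3 := P3 (ctr Q) with hq
  set g : ℝ := (1 + χ q * (G - 1)) / G with hgdef
  have hg0 : 0 ≤ g := by
    have := mul_nonneg (a8 q) (sub_nonneg.2 a7)
    rw [hgdef]; positivity
  have hg1 : g ≤ 1 := by
    rw [hgdef, div_le_one hG0]
    have := mul_le_mul_of_nonneg_right (a9 q) (sub_nonneg.2 a7)
    linarith
  -- the region is bounded
  set c : R3 := Aff f₁ G₁ (ξ i) (P i - yc i) (ξ i) with hc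
  set M : ℝ := ‖ξ i‖ + (Q.sz + ‖P i - c‖) / μ (ξ i) with hM
  have hM0 : 0 ≤ M := by positivity
  have hbd : ∀ x : E3, ‖Aff f₁ G₁ (ξ i) (P i - yc i) (P3 x) - P i‖ ≤ Q.sz → ‖x‖ ≤ M := by
    intro x hx
    have e1 : Gmat G₁ (ξ i) (P3 x - ξ i) =
        (Aff f₁ G₁ (ξ i) (P i - yc i) (P3 x) - P i) + (P i - c) := by
      rw [hc, Aff, Aff, sub_self, map_zero]; abel
    have e2 := (hAi (P3 x - ξ i)).1
    rw [e1] at e2
    have e3 := e2.trans ((norm_add_le _ _).trans (add_le_add hx le_rfl))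
    have e4 : ‖P3 x - ξ i‖ ≤ (Q.sz + ‖P i - c‖) / μ (ξ i) := by
      rw [le_div_iff₀ hμi]; linarith
    have e5 : ‖P3 x‖ ≤ M := by
      have e6 : P3 x = ξ i + (P3 x - ξ i) := by abel
      rw [e6]
      exact (norm_add_le _ _).trans (add_le_add le_rfl e4)
    have e7 := norm_P3_symm_le (P3 x)
    rw [P3.symm_apply_apply] at e7
    exact e7.trans e5
  set θ : ℝ := γ0 / (2048 * κ0 ^ 2) with hθ
  have hθ0 : 0 < θ := by positivity
  set ε0 : ℝ := min (θ * Q.sz / (1 + M)) (μ (ξ i)) with hε0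
  have hε0' : 0 < ε0 := lt_min (by positivity) hμi
  obtain ⟨A, c1, c2, c3, c4⟩ := h5 a1 a2 a3 a4 a5 a6 a7 a8 a9 a10 a11 a12 i hQ b1 b2 b3 b4 b5 b6 b7
    b8 b9 o hu hε0'
  have hγg : γ ≤ g := by rw [hgdef, le_div_iff₀ hG0]; exact b5
  have hγ1 : γ ≤ 1 := hγg.trans hg1
  refine ⟨A, c1, c3, ?_, ?_⟩
  · intro x hx
    have hθ1 : θ ≤ 1 := by
      rw [hθ, div_le_one (by positivity)]
      have : 1 ≤ κ0 ^ 2 := one_le_pow₀ hκ0
      linarith
    have h6 := hbd x (hx.trans (by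
      calc θ * Q.sz ≤ 1 * Q.sz := mul_le_mul_of_nonneg_right hθ1 hs.le
        _ = Q.sz := one_mul _))
    have h7 : ‖A x - P3.symm (dgf k g (Aff f₁ G₁ (ξ i) (P i - yc i) (P3 x) - P i) + q)‖ ≤
        θ * Q.sz := by
      refine (c4 x).trans ?_
      calc ε0 * (1 + ‖x‖) ≤ θ * Q.sz / (1 + M) * (1 + M) :=
            mul_le_mul (min_le_left _ _) (by linarith) (by positivity) (by positivity)
        _ = θ * Q.sz := div_mul_cancel₀ _ (by positivity)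
    have h8 : ‖P3.symm (dgf k g (Aff f₁ G₁ (ξ i) (P i - yc i) (P3 x) - P i) + q) - ctr Q‖ ≤
        θ * Q.sz := by
      have e : P3.symm (dgf k g (Aff f₁ G₁ (ξ i) (P i - yc i) (P3 x) - P i) + q) - ctr Q =
          P3.symm (dgf k g (Aff f₁ G₁ (ξ i) (P i - yc i) (P3 x) - P i)) := by
        rw [map_add, hq, P3.symm_apply_apply, add_sub_cancel_right]
      rw [e]
      exact (norm_P3_symm_le _).trans ((dgf_contr hg0 hg1 _).trans hx)
    have h9 : ‖A x - ctr Q‖ ≤ 2 * (θ * Q.sz) := by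
      rw [← sub_add_sub_cancel (A x)
        (P3.symm (dgf k g (Aff f₁ G₁ (ξ i) (P i - yc i) (P3 x) - P i) + q)) (ctr Q)]
      refine (norm_add_le _ _).trans ?_
      linarith
    intro j
    have h10 := (norm_le_pi_norm (A x - ctr Q) j).trans h9
    rw [Pi.sub_apply, Real.norm_eq_abs] at h10
    refine h10.trans ?_
    have h11 := asp j
    have h12 := Bx.side_pos hQ j
    have h13 : 2 * (θ * Q.sz) ≤ 2 * (θ * (κ0 * Q.side j)) := by gcongr
    have h14 : 2 * (θ * (κ0 * Q.side j)) = γ0 / (512 * κ0) * Q.side j / 2 := by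
      rw [hθ]; field_simp; ring
    have h15 : γ0 / (512 * κ0) * Q.side j / 2 ≤ (1 + 2 * κ2) * (γ / (512 * κ0)) * Q.side j / 2 := by
      have h16 : γ0 / (512 * κ0) ≤ γ / (512 * κ0) := by gcongr
      have h17 : 0 ≤ γ / (512 * κ0) := by
        have := hγ0.trans_le b4
        positivity
      have h18 : γ / (512 * κ0) ≤ (1 + 2 * κ2) * (γ / (512 * κ0)) := by nlinarith
      have h19 := mul_le_mul_of_nonneg_right (h16.trans h18) h12.le
      linarith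
    linarith
  · have h6 : μ (ξ i) ≤ ‖Gmat G₁ (ξ i)‖ := by
      have e1 := (hAi (EuclideanSpace.single k (1 : ℝ))).1
      have e2 := (Gmat G₁ (ξ i)).le_opNorm (EuclideanSpace.single k (1 : ℝ))
      have e3 : ‖(EuclideanSpace.single k (1 : ℝ) : R3)‖ = 1 := by simp
      rw [e3, mul_one] at e1 e2
      exact e1.trans e2
    have h7 : ‖(BE (dgC k g)).comp (BB G₁ (ξ i))‖ ≤ 2 * ‖Gmat G₁ (ξ i)‖ := by
      refine ContinuousLinearMap.opNorm_le_bound _ (by positivity) fun v => ?_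
      rw [ContinuousLinearMap.comp_apply]
      refine (BE_dg_le hg0 hg1 _).trans ?_
      rw [BB_apply]
      refine (norm_P3_symm_le _).trans ?_
      refine ((Gmat G₁ (ξ i)).le_opNorm _).trans ?_
      have := norm_P3_le v
      calc ‖Gmat G₁ (ξ i)‖ * ‖P3 v‖ ≤ ‖Gmat G₁ (ξ i)‖ * (2 * ‖v‖) := by gcongr
        _ = 2 * ‖Gmat G₁ (ξ i)‖ * ‖v‖ := by ring
    have h8 : ‖lin A‖ ≤ ‖lin A - (BE (dgC k g)).comp (BB G₁ (ξ i))‖ +
        ‖(BE (dgC k g)).comp (BB G₁ (ξ i))‖ := by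
      have := norm_add_le (lin A - (BE (dgC k g)).comp (BB G₁ (ξ i)))
        ((BE (dgC k g)).comp (BB G₁ (ξ i)))
      rwa [sub_add_cancel] at this
    have h9 : ε0 ≤ μ (ξ i) := min_le_right _ _
    linarith

end

end Crest.Agent.R096.Bxs_627
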