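import Mathlib
import Crest.Agent.R096.Sk2b_855
import Crest.Agent.R096.Srg4_465
import Crest.Agent.R096.Ub4_113
import Crest.Agent.R096.Lm5_812
import Crest.Agent.R096.GpZ_702
import Crest.Agent.R096.Gau2_812
import Crest.Agent.R096.Sk3b_270

-- ▼ part R096/Gg1_113
section

/-!
# Grid combinatorics of a box in `ι → ℤ` (crossing edges of the boundary)

`inB a b x` : the lattice point `x` lies in the box `[a, b]`.
A lattice edge is a pair `(x, i)` (from `x` to `x + e i`), `Cr a b (x, i)`: exactly one of its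
ends lies in the box.  `sq x i j` = the four edges of the unit square `x, x+e i, x+e j, x+e i+e j`.

* `sq_card` : a square has 0 or 2 crossing edges;
* `cr_conn` : (at least two directions) any two crossing edges are joined by a chain of crossing
  edges, two consecutive ones in a common square;
* `box_conn` : the box is connected through its edges.
-/

namespace Crest.Agent.R096.Gg_113

variable {ι : Type*} [DecidableEq ι]

/-- unit vector -/
def e (i : ι) : ι → ℤ := Pi.single i 1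

@[simp] theorem e_same (i : ι) : (e i : ι → ℤ) i = 1 := by simp [e]

theorem e_ne {i j : ι} (h : j ≠ i) : (e i : ι → ℤ) j = 0 := by simp [e, h]

theorem e_ne_zero (i : ι) : (e i : ι → ℤ) ≠ 0 := by
  intro h
  have := congrFun h i
  simp at this

/-- the lattice box -/
def inB (a b x : ι → ℤ) : Prop := ∀ i, a i ≤ x i ∧ x i ≤ b i

/-- crossing edge -/
def Cr (a b : ι → ℤ) (k : (ι → ℤ) × ι) : Prop := ¬ (inB a b k.1 ↔ inB a b (k.1 + e k.2))

/-- the four edges of a unit square -/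
def sqe (x : ι → ℤ) (i j : ι) : Fin 4 → (ι → ℤ) × ι :=
  ![(x, i), (x, j), (x + e i, j), (x + e j, i)]

/-- the set of the four edges of a unit square -/
def sq (x : ι → ℤ) (i j : ι) : Set ((ι → ℤ) × ι) := Set.range (sqe x i j)

theorem mem_sq {x : ι → ℤ} {i j : ι} {k : (ι → ℤ) × ι} :
    k ∈ sq x i j ↔ k = (x, i) ∨ k = (x, j) ∨ k = (x + e i, j) ∨ k = (x + e j, i) := by
  constructor
  · rintro ⟨t, rfl⟩
    fin_cases t <;> simp [sqe]
  · rintro (h | h | h | h)
    · exact ⟨0, h.symm⟩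
    · exact ⟨1, h.symm⟩
    · exact ⟨2, h.symm⟩
    · exact ⟨3, h.symm⟩

section square

variable {a b x : ι → ℤ} {i j : ι}

theorem inB_split (hij : i ≠ j) (u v : ℤ) (y : ι → ℤ) (hi : y i = u) (hj : y j = v)
    (ho : ∀ k, k ≠ i → k ≠ j → y k = x k) :
    inB a b y ↔ (∀ k, k ≠ i → k ≠ j → a k ≤ x k ∧ x k ≤ b k) ∧ (a i ≤ u ∧ u ≤ b i) ∧
      (a j ≤ v ∧ v ≤ b j) := by
  constructor
  · intro h
    refine ⟨fun k h1 h2 => ?_, ?_, ?_⟩
    · rw [← ho k h1 h2]; exact h k
    · rw [← hi]; exact h i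
    · rw [← hj]; exact h j
  · rintro ⟨h1, h2, h3⟩ k
    by_cases hki : k = i
    · subst hki; rw [hi]; exact h2
    · by_cases hkj : k = j
      · subst hkj; rw [hj]; exact h3
      · rw [ho k hki hkj]; exact h1 k hki hkj

theorem sum4 (P A0 A1 B0 B1 C1 C2 C3 C4 : Prop) [Decidable C1] [Decidable C2] [Decidable C3]
    [Decidable C4]
    (c1 : C1 ↔ ¬ ((P ∧ A0 ∧ B0) ↔ (P ∧ A1 ∧ B0)))
    (c2 : C2 ↔ ¬ ((P ∧ A0 ∧ B0) ↔ (P ∧ A0 ∧ B1)))
    (c3 : C3 ↔ ¬ ((P ∧ A1 ∧ B0) ↔ (P ∧ A1 ∧ B1)))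
    (c4 : C4 ↔ ¬ ((P ∧ A0 ∧ B1) ↔ (P ∧ A1 ∧ B1))) :
    (if C1 then 1 else 0) + ((if C2 then 1 else 0) + ((if C3 then 1 else 0) +
      (if C4 then 1 else 0))) = 0 ∨
    (if C1 then 1 else 0) + ((if C2 then 1 else 0) + ((if C3 then 1 else 0) +
      (if C4 then 1 else 0))) = 2 := by
  by_cases hP : P <;> by_cases h1 : A0 <;> by_cases h2 : A1 <;> by_cases h3 : B0 <;>
    by_cases h4 : B1 <;> simp [hP, h1, h2, h3, h4] at c1 c2 c3 c4 <;> simp [c1, c2, c3, c4]

theorem sqe_inj (x : ι → ℤ) (hij : i ≠ j) : Function.Injective (sqe x i j) := by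
  have n1 : ((x, i) : (ι → ℤ) × ι) ≠ (x, j) := by simp [hij]
  have n2 : ((x, i) : (ι → ℤ) × ι) ≠ (x + e i, j) := by simp [hij]
  have n3 : ((x, i) : (ι → ℤ) × ι) ≠ (x + e j, i) := by
    simp [e_ne_zero]
  have n4 : ((x, j) : (ι → ℤ) × ι) ≠ (x + e i, j) := by simp [e_ne_zero]
  have n5 : ((x, j) : (ι → ℤ) × ι) ≠ (x + e j, i) := by simp [hij.symm]
  have n6 : ((x + e i, j) : (ι → ℤ) × ι) ≠ (x + e j, i) := by simp [hij.symm]
  intro s t h
  fin_cases s <;> fin_cases t <;> first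
    | rfl
    | exact absurd h n1
    | exact absurd h n2
    | exact absurd h n3
    | exact absurd h n4
    | exact absurd h n5
    | exact absurd h n6
    | exact absurd h.symm n1
    | exact absurd h.symm n2
    | exact absurd h.symm n3
    | exact absurd h.symm n4
    | exact absurd h.symm n5
    | exact absurd h.symm n6

theorem sqe_card (a b : ι → ℤ) (x : ι → ℤ) (hij : i ≠ j)
    [DecidablePred fun t => Cr a b (sqe x i j t)] :
    (Finset.univ.filter fun t => Cr a b (sqe x i j t)).card = 0 ∨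
    (Finset.univ.filter fun t => Cr a b (sqe x i j t)).card = 2 := by
  have h0 := inB_split (a := a) (b := b) (x := x) hij (x i) (x j) x rfl rfl (fun _ _ _ => rfl)
  have h1 := inB_split (a := a) (b := b) (x := x) hij (x i + 1) (x j) (x + e i)
    (by simp) (by simp [e_ne hij.symm]) (fun k h1 h2 => by simp [e_ne h1])
  have h2 := inB_split (a := a) (b := b) (x := x) hij (x i) (x j + 1) (x + e j)
    (by simp [e_ne hij]) (by simp) (fun k h1 h2 => by simp [e_ne h2])
  have h3 := inB_split (a := a) (b := b) (x := x) hij (x i + 1) (x j + 1) (x + e i + e j)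
    (by simp [e_ne hij]) (by simp [e_ne hij.symm]) (fun k h1 h2 => by simp [e_ne h1, e_ne h2])
  have h3' : inB a b (x + e j + e i) ↔ inB a b (x + e i + e j) := by
    rw [add_right_comm]
  have c1 : Cr a b (sqe x i j 0) ↔ ¬ (inB a b x ↔ inB a b (x + e i)) := Iff.rfl
  have c2 : Cr a b (sqe x i j 1) ↔ ¬ (inB a b x ↔ inB a b (x + e j)) := Iff.rfl
  have c3 : Cr a b (sqe x i j 2) ↔ ¬ (inB a b (x + e i) ↔ inB a b (x + e i + e j)) := Iff.rfl
  have c4 : Cr a b (sqe x i j 3) ↔ ¬ (inB a b (x + e j) ↔ inB a b (x + e i + e j)) := by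
    rw [← h3']; rfl
  rw [h0, h1] at c1
  rw [h0, h2] at c2
  rw [h1, h3] at c3
  rw [h2, h3] at c4
  have := sum4 _ _ _ _ _ _ _ _ _ c1 c2 c3 c4
  rw [Finset.card_filter, Fin.sum_univ_four]
  simpa only [add_assoc] using this

/-- (G1) a lattice square has 0 or 2 crossing edges -/
theorem sq_card (a b : ι → ℤ) (x : ι → ℤ) (hij : i ≠ j) :
    {k | k ∈ sq x i j ∧ Cr a b k}.ncard = 0 ∨ {k | k ∈ sq x i j ∧ Cr a b k}.ncard = 2 := by
  classical
  have : {k | k ∈ sq x i j ∧ Cr a b k} =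
      sqe x i j '' ((Finset.univ.filter fun t => Cr a b (sqe x i j t) : Finset (Fin 4)) :
        Set (Fin 4)) := by
    ext k
    simp only [sq, Set.mem_ofPred_eq, Set.mem_range, Finset.coe_filter, Finset.mem_univ, true_and,
      Set.mem_image]
    constructor
    · rintro ⟨⟨t, rfl⟩, h⟩
      exact ⟨t, h, rfl⟩
    · rintro ⟨t, h, rfl⟩
      exact ⟨⟨t, rfl⟩, h⟩
  rw [this, Set.ncard_image_of_injective _ (sqe_inj x hij), Set.ncard_coe_finset]
  exact sqe_card a b x hij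

end square

section conn

variable {a b x y : ι → ℤ} {i j : ι}

/-- a unit step inside `P` -/
def St (P : (ι → ℤ) → Prop) (x y : ι → ℤ) : Prop := P x ∧ P y ∧ ∃ i, y = x + e i ∨ x = y + e i

theorem St.symm {P : (ι → ℤ) → Prop} (h : St P x y) : St P y x := by
  obtain ⟨h1, h2, i, h3⟩ := h
  exact ⟨h2, h1, i, h3.symm⟩

/-- (G3) the box is connected through its edges -/
theorem box_conn [Fintype ι] (hx : inB a b x) (hy : inB a b y) :
    Relation.ReflTransGen (St (inB a b)) x y := by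
  obtain ⟨n, hn⟩ : ∃ n, n = ∑ i, (x i - y i).natAbs := ⟨_, rfl⟩
  induction n using Nat.strong_induction_on generalizing x with
  | _ n ih =>
    by_cases hxy : x = y
    · rw [hxy]
    obtain ⟨i, hi⟩ : ∃ i, x i ≠ y i := by
      by_contra h
      push Not at h
      exact hxy (funext h)
    rcases lt_or_gt_of_ne hi with h | h
    · have hz : inB a b (x + e i) := by
        intro k
        by_cases hk : k = i
        · subst hk
          have h1 := hx k
          have h2 := hy k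
          simp only [Pi.add_apply, e_same]
          omega
        · have h1 := hx k
          simpa [e_ne hk] using h1
      refine Relation.ReflTransGen.head ⟨hx, hz, i, Or.inl rfl⟩ (ih _ ?_ hz rfl)
      rw [hn]
      refine Finset.sum_lt_sum (fun k _ => ?_) ⟨i, Finset.mem_univ _, ?_⟩
      · by_cases hk : k = i
        · subst hk
          simp only [Pi.add_apply, e_same]
          omega
        · simp [e_ne hk]
      · simp only [Pi.add_apply, e_same]
        omega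
    · have hz : inB a b (x - e i) := by
        intro k
        by_cases hk : k = i
        · subst hk
          have h1 := hx k
          have h2 := hy k
          simp only [Pi.sub_apply, e_same]
          omega
        · have h1 := hx k
          simpa [e_ne hk] using h1
      refine Relation.ReflTransGen.head ⟨hx, hz, i, Or.inr (by simp)⟩ (ih _ ?_ hz rfl)
      rw [hn]
      refine Finset.sum_lt_sum (fun k _ => ?_) ⟨i, Finset.mem_univ _, ?_⟩
      · by_cases hk : k = i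
        · subst hk
          simp only [Pi.sub_apply, e_same]
          omega
        · simp [e_ne hk]
      · simp only [Pi.sub_apply, e_same]
        omega

theorem cr_iff (hab : ∀ i, a i ≤ b i) :
    Cr a b (x, i) ↔ (x i = b i ∨ x i = a i - 1) ∧ ∀ k, k ≠ i → a k ≤ x k ∧ x k ≤ b k := by
  have h1 : inB a b x ↔ (a i ≤ x i ∧ x i ≤ b i) ∧ ∀ k, k ≠ i → a k ≤ x k ∧ x k ≤ b k := by
    constructor
    · intro h
      exact ⟨h i, fun k _ => h k⟩
    · rintro ⟨h1, h2⟩ k
      by_cases hk : k = i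
      · subst hk; exact h1
      · exact h2 k hk
  have h2 : inB a b (x + e i) ↔ (a i ≤ x i + 1 ∧ x i + 1 ≤ b i) ∧
      ∀ k, k ≠ i → a k ≤ x k ∧ x k ≤ b k := by
    constructor
    · intro h
      refine ⟨by simpa using h i, fun k hk => by simpa [e_ne hk] using h k⟩
    · rintro ⟨h1, h2⟩ k
      by_cases hk : k = i
      · subst hk; simpa using h1
      · simpa [e_ne hk] using h2 k hk
  have hi := hab i
  unfold Cr
  simp only [h1, h2]
  generalize (∀ k, k ≠ i → a k ≤ x k ∧ x k ≤ b k) = P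
  by_cases hP : P
  · simp only [hP, and_true]
    constructor
    · intro h
      by_contra hc
      push Not at hc
      apply h
      obtain ⟨h3, h4⟩ := hc
      constructor <;> intro h5 <;> omega
    · intro h h'
      omega
  · simp only [hP, and_false, not_true_eq_false]

/-- two crossing edges in a common square -/
def Adj (a b : ι → ℤ) (k k' : (ι → ℤ) × ι) : Prop :=
  Cr a b k ∧ Cr a b k' ∧ ∃ x i j, i ≠ j ∧ k ∈ sq x i j ∧ k' ∈ sq x i j

theorem Adj.symm {k k' : (ι → ℤ) × ι} (h : Adj a b k k') : Adj a b k' k := by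
  obtain ⟨h1, h2, x, i, j, h3, h4, h5⟩ := h
  exact ⟨h2, h1, x, i, j, h3, h5, h4⟩

theorem adj_step {k : ι} (hk : k ≠ i) (h1 : Cr a b (x, i)) (h2 : Cr a b (x + e k, i)) :
    Adj a b (x, i) (x + e k, i) :=
  ⟨h1, h2, x, i, k, hk.symm, by simp [mem_sq], by simp [mem_sq]⟩

theorem side_conn [Fintype ι] (hab : ∀ i, a i ≤ b i) (hx : Cr a b (x, i)) (hy : Cr a b (y, i))
    (hxy : x i = y i) : Relation.ReflTransGen (Adj a b) (x, i) (y, i) := by
  have hx' := (cr_iff hab).1 hx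
  have hy' := (cr_iff hab).1 hy
  set a' := Function.update a i (x i) with ha'
  set b' := Function.update b i (x i) with hb'
  have key : ∀ z, inB a' b' z ↔ z i = x i ∧ ∀ k, k ≠ i → a k ≤ z k ∧ z k ≤ b k := by
    intro z
    constructor
    · intro h
      refine ⟨?_, fun k hk => ?_⟩
      · have := h i
        simp only [ha', hb', Function.update_self] at this
        omega
      · have := h k
        simpa [ha', hb', Function.update_of_ne hk] using this
    · rintro ⟨h1, h2⟩ k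
      by_cases hk : k = i
      · subst hk
        simp [ha', hb', h1]
      · simpa [ha', hb', Function.update_of_ne hk] using h2 k hk
  have hcr : ∀ z, inB a' b' z → Cr a b (z, i) := by
    intro z hz
    rw [key] at hz
    rw [cr_iff hab]
    exact ⟨by rw [hz.1]; exact hx'.1, hz.2⟩
  have h := box_conn (a := a') (b := b') (x := x) (y := y) ((key x).2 ⟨rfl, hx'.2⟩)
    ((key y).2 ⟨hxy.symm, hy'.2⟩)
  refine h.lift (fun z => ((z, i) : (ι → ℤ) × ι)) ?_
  rintro u v ⟨hu, hv, k, hk⟩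
  have hki : k ≠ i := by
    rintro rfl
    have h1 := ((key u).1 hu).1
    have h2 := ((key v).1 hv).1
    rcases hk with hk | hk
    · rw [hk] at h2; simp at h2; omega
    · rw [hk] at h1; simp at h1; omega
  rcases hk with hk | hk
  · subst hk
    exact adj_step hki (hcr _ hu) (hcr _ hv)
  · subst hk
    exact (adj_step hki (hcr _ hv) (hcr _ hu)).symm

/-- the corner between two sides -/
theorem corner (hab : ∀ i, a i ≤ b i) (hij : i ≠ j) {c d : ℤ} (hc : c = b i ∨ c = a i - 1)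
    (hd : d = b j ∨ d = a j - 1) :
    ∃ x y : ι → ℤ, x i = c ∧ y j = d ∧ Adj a b (x, i) (y, j) := by
  set w : ι → ℤ := Function.update (Function.update a i c) j d with hw
  have wi : w i = c := by simp [hw, hij]
  have wj : w j = d := by simp [hw]
  have wk : ∀ k, k ≠ i → k ≠ j → w k = a k := by
    intro k h1 h2
    simp [hw, h1, h2]
  have hai := hab i
  have haj := hab j
  have A : ∃ x, x i = c ∧ Cr a b (x, i) ∧ (x, i) ∈ sq w i j := by
    rcases hd with hd | hd
    · refine ⟨w, wi, ?_, by simp [mem_sq]⟩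
      rw [cr_iff hab]
      refine ⟨by rw [wi]; exact hc, fun k hk => ?_⟩
      by_cases hkj : k = j
      · subst hkj; rw [wj]; omega
      · rw [wk k hk hkj]; exact ⟨le_rfl, hab k⟩
    · refine ⟨w + e j, by simp [wi, e_ne hij], ?_, by simp [mem_sq]⟩
      rw [cr_iff hab]
      refine ⟨by simp only [Pi.add_apply, wi, e_ne hij, add_zero]; exact hc, fun k hk => ?_⟩
      by_cases hkj : k = j
      · subst hkj; simp only [Pi.add_apply, wj, e_same]; omega
      · simp only [Pi.add_apply, wk k hk hkj, e_ne hkj, add_zero]; exact ⟨le_rfl, hab k⟩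
  have B : ∃ y, y j = d ∧ Cr a b (y, j) ∧ (y, j) ∈ sq w i j := by
    rcases hc with hc | hc
    · refine ⟨w, wj, ?_, by simp [mem_sq]⟩
      rw [cr_iff hab]
      refine ⟨by rw [wj]; exact hd, fun k hk => ?_⟩
      by_cases hki : k = i
      · subst hki; rw [wi]; omega
      · rw [wk k hki hk]; exact ⟨le_rfl, hab k⟩
    · refine ⟨w + e i, by simp [wj, e_ne hij.symm], ?_, by simp [mem_sq]⟩
      rw [cr_iff hab]
      refine ⟨by simp only [Pi.add_apply, wj, e_ne hij.symm, add_zero]; exact hd, fun k hk => ?_⟩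
      by_cases hki : k = i
      · subst hki; simp only [Pi.add_apply, wi, e_same]; omega
      · simp only [Pi.add_apply, wk k hki hk, e_ne hki, add_zero]; exact ⟨le_rfl, hab k⟩
  obtain ⟨x, x1, x2, x3⟩ := A
  obtain ⟨y, y1, y2, y3⟩ := B
  exact ⟨x, y, x1, y1, x2, y2, w, i, j, hij, x3, y3⟩

theorem cr_conn_ne [Fintype ι] (hab : ∀ i, a i ≤ b i) (hij : i ≠ j) (hx : Cr a b (x, i))
    (hy : Cr a b (y, j)) : Relation.ReflTransGen (Adj a b) (x, i) (y, j) := by
  obtain ⟨u, v, hu, hv, h⟩ := corner hab hij ((cr_iff hab).1 hx).1 ((cr_iff hab).1 hy).1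
  exact (side_conn hab hx h.1 hu.symm).trans
    ((Relation.ReflTransGen.single h).trans (side_conn hab h.2.1 hy hv))

/-- (G2) any two crossing edges are joined by a chain of crossing edges, two consecutive ones in a
common square. -/
theorem cr_conn [Fintype ι] [Nontrivial ι] (hab : ∀ i, a i ≤ b i) {k k' : (ι → ℤ) × ι}
    (hk : Cr a b k) (hk' : Cr a b k') : Relation.ReflTransGen (Adj a b) k k' := by
  obtain ⟨x, i⟩ := k
  obtain ⟨y, j⟩ := k'
  by_cases hij : i = j
  · subst hij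
    obtain ⟨l, hl⟩ := exists_ne i
    have hz : Cr a b (b, l) := by
      rw [cr_iff hab]
      exact ⟨Or.inl rfl, fun k _ => ⟨hab k, le_rfl⟩⟩
    exact (cr_conn_ne hab hl.symm hk hz).trans (cr_conn_ne hab hl hz hk')
  · exact cr_conn_ne hab hij hk hk'

end conn

end Crest.Agent.R096.Gg_113
end

-- ▼ part R096/Sk2c_855
section

/-!
# Row 96 (S0127), p < 2: lemma 2SK (helper855), part c: the cells of a tiling where it is a grid
-/

set_option autoImplicit false
set_option linter.unusedSectionVars false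

open Set Metric

namespace Crest.Agent.R096.Sk2_855

open Crest.Agent.R096.Msh_715 (Tiling)

variable {E : Type*} [NormedAddCommGroup E] [NormedSpace ℝ E] {Om La : Set E} {ι : Type*}

/-- the closed cube of side `N` -/
def InR (N : ℤ) (w : Fin 3 → ℝ) : Prop := ∀ i, 0 ≤ w i ∧ w i ≤ N

/-- in the chart `δ` the tiling is the integer grid in the cube of side `N` -/
structure Grid (T : Tiling Om ι) (δ : E ≃ᵃ[ℝ] (Fin 3 → ℝ)) (N : ℤ) : Prop where
  mem : ∀ x, InR N (δ x) → x ∈ Om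
  cc : ∀ x, InR N (δ x) → T.cc x = {y | ∀ i, (⌊δ x i⌋ : ℝ) ≤ δ y i ∧ δ y i ≤ ⌈δ x i⌉}

namespace Grid

variable {T : Tiling Om ι} {δ : E ≃ᵃ[ℝ] (Fin 3 → ℝ)} {N : ℤ}

theorem inR_of_mem_cc (G : Grid T δ N) {x y : E} (hx : InR N (δ x)) (hy : y ∈ T.cc x) :
    InR N (δ y) := by
  rw [G.cc x hx] at hy
  intro i
  have h1 : (0 : ℝ) ≤ ⌊δ x i⌋ := by exact_mod_cast Int.floor_nonneg.2 (hx i).1
  have h2 : (⌈δ x i⌉ : ℝ) ≤ N := by exact_mod_cast Int.ceil_le.2 (hx i).2
  exact ⟨h1.trans (hy i).1, (hy i).2.trans h2⟩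

theorem mem_oc (G : Grid T δ N) {x y : E} (hx : InR N (δ x)) :
    y ∈ T.oc x ↔ ∀ i, ⌊δ x i⌋ = ⌊δ y i⌋ ∧ ⌈δ x i⌉ = ⌈δ y i⌉ := by
  constructor
  · intro h
    have hy := T.oc_sub_cc x h
    have hR := G.inR_of_mem_cc hx hy
    have hx' : x ∈ T.cc y := by
      rw [T.cc_eq_of_mem_oc (G.mem x hx) h]
      exact T.self_mem_cc x
    rw [G.cc x hx] at hy
    rw [G.cc y hR] at hx'
    intro i
    refine ⟨le_antisymm (Int.le_floor.2 (hy i).1) (Int.le_floor.2 (hx' i).1),
      le_antisymm (Int.ceil_le.2 (hx' i).2) (Int.ceil_le.2 (hy i).2)⟩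
  · intro h
    have hR : InR N (δ y) := by
      intro i
      have h1 : (0 : ℝ) ≤ ⌊δ x i⌋ := by exact_mod_cast Int.floor_nonneg.2 (hx i).1
      have h2 : (⌈δ x i⌉ : ℝ) ≤ N := by exact_mod_cast Int.ceil_le.2 (hx i).2
      rw [(h i).1] at h1
      rw [(h i).2] at h2
      exact ⟨h1.trans (Int.floor_le _), (Int.le_ceil _).trans h2⟩
    refine T.mem_oc_of_mem_cc ?_ ?_
    · rw [G.cc x hx]
      intro i
      rw [(h i).1, (h i).2]
      exact ⟨Int.floor_le _, Int.le_ceil _⟩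
    · rw [G.cc y hR]
      intro i
      rw [← (h i).1, ← (h i).2]
      exact ⟨Int.floor_le _, Int.le_ceil _⟩

/-- the non-integer coordinates -/
def ni (w : Fin 3 → ℝ) : Set (Fin 3) := {i | ∀ z : ℤ, w i ≠ z}

theorem lin_add (x v : E) (i : Fin 3) : δ (x + v) i = δ x i + δ.linear v i := by
  have := δ.map_vadd x v
  rw [vadd_eq_add, vadd_eq_add, add_comm v x] at this
  rw [this, Pi.add_apply, add_comm]

theorem mem_V (G : Grid T δ N) {x : E} (hx : InR N (δ x)) {v : E} :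
    v ∈ T.V x ↔ ∀ i, i ∉ ni (δ x) → δ.linear v i = 0 := by
  have hxO := G.mem x hx
  constructor
  · intro hv i hi
    obtain ⟨r, hr, hb⟩ := T.exists_ball_oc hxO
    by_cases hv0 : v = 0
    · rw [hv0, map_zero]; rfl
    have hvn : 0 < ‖v‖ := norm_pos_iff.2 hv0
    set s : ℝ := r / (2 * ‖v‖) with hs
    have hs0 : 0 < s := by positivity
    have h1 : x + s • v ∈ T.oc x := by
      refine hb _ ((T.V x).smul_mem s hv) ?_
      rw [norm_smul, Real.norm_of_nonneg hs0.le, hs]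
      field_simp
      linarith
    have h2 := (G.mem_oc hx).1 h1 i
    simp only [ni, Set.mem_ofPred_eq, not_forall, not_not] at hi
    obtain ⟨z, hz⟩ := hi
    rw [lin_add, map_smul, Pi.smul_apply, smul_eq_mul, hz, Int.floor_intCast,
      Int.ceil_intCast] at h2
    have h3 : (z : ℝ) ≤ z + s * δ.linear v i := Int.le_floor.1 h2.1.le
    have h4 : (z : ℝ) + s * δ.linear v i ≤ z := Int.ceil_le.1 h2.2.ge
    have h5 : s * δ.linear v i = 0 := by linarith
    exact (mul_eq_zero.1 h5).resolve_left hs0.ne'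
  · intro hv
    -- for small s > 0 the point x + s v is in the open cell
    have hev : ∀ᶠ s : ℝ in nhds 0, ∀ i ∈ ni (δ x),
        (⌊δ x i⌋ : ℝ) < δ (x + s • v) i ∧ δ (x + s • v) i < ⌊δ x i⌋ + 1 := by
      rw [Filter.eventually_all_finite (toFinite _)]
      intro i hi
      have hc : Continuous fun s : ℝ => δ (x + s • v) i := by
        have : (fun s : ℝ => δ (x + s • v) i) = fun s => δ x i + s * δ.linear v i := by
          funext s
          rw [lin_add, map_smul]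
          rfl
        rw [this]
        fun_prop
      have h1 : (⌊δ x i⌋ : ℝ) < δ (x + (0 : ℝ) • v) i := by
        rw [zero_smul, add_zero]
        exact lt_of_le_of_ne (Int.floor_le _) (fun h => hi _ h.symm)
      have h2 : δ (x + (0 : ℝ) • v) i < ⌊δ x i⌋ + 1 := by
        rw [zero_smul, add_zero]
        exact Int.lt_floor_add_one _
      exact ((hc.tendsto 0).eventually (lt_mem_nhds h1)).and
        ((hc.tendsto 0).eventually (gt_mem_nhds h2))
    obtain ⟨s, hs, hs0⟩ : ∃ s : ℝ, (∀ i ∈ ni (δ x),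
        (⌊δ x i⌋ : ℝ) < δ (x + s • v) i ∧ δ (x + s • v) i < ⌊δ x i⌋ + 1) ∧ 0 < s := by
      have h1 := hev.filter_mono (nhdsWithin_le_nhds (s := Ioi (0 : ℝ)))
      exact (h1.and self_mem_nhdsWithin).exists
    have h1 : x + s • v ∈ T.oc x := by
      rw [G.mem_oc hx]
      intro i
      by_cases hi : i ∈ ni (δ x)
      · have h2 := hs i hi
        have h3 : ⌊δ (x + s • v) i⌋ = ⌊δ x i⌋ := by
          rw [Int.floor_eq_iff]
          exact ⟨h2.1.le, h2.2⟩
        have h4 : ⌈δ (x + s • v) i⌉ = ⌊δ x i⌋ + 1 := by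
          rw [Int.ceil_eq_iff]
          push_cast
          exact ⟨by linarith, h2.2.le⟩
        have h5 : ⌈δ x i⌉ = ⌊δ x i⌋ + 1 := by
          rw [Int.ceil_eq_iff]
          push_cast
          exact ⟨by
            have : (⌊δ x i⌋ : ℝ) < δ x i :=
              lt_of_le_of_ne (Int.floor_le _) (fun h => hi _ h.symm)
            linarith, (Int.lt_floor_add_one _).le⟩
        exact ⟨h3.symm, by rw [h4, h5]⟩
      · have : δ (x + s • v) i = δ x i := by
          rw [lin_add, map_smul, Pi.smul_apply, hv i hi, smul_zero, add_zero]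
        rw [this]
        exact ⟨rfl, rfl⟩
    have h2 := T.sub_mem_V (T.oc_sub_cc x h1)
    rw [add_sub_cancel_left] at h2
    have h3 := (T.V x).smul_mem s⁻¹ h2
    rwa [smul_smul, inv_mul_cancel₀ hs0.ne', one_smul] at h3

theorem dim_eq (G : Grid T δ N) {x : E} (hx : InR N (δ x)) :
    T.dim x = (ni (δ x)).ncard := by
  classical
  have key : T.V x ≃ₗ[ℝ] (ni (δ x) → ℝ) :=
    LinearEquiv.ofBijective
      ((LinearMap.funLeft ℝ ℝ (Subtype.val : ni (δ x) → Fin 3)).comp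
        (δ.linear.toLinearMap.comp (T.V x).subtype)) (by
      constructor
      · rw [← LinearMap.ker_eq_bot, LinearMap.ker_eq_bot']
        rintro ⟨v, hv⟩ h
        have h1 : δ.linear v = 0 := by
          funext i
          by_cases hi : i ∈ ni (δ x)
          · exact congrFun h ⟨i, hi⟩
          · exact (G.mem_V hx).1 hv i hi
        have h2 : v = 0 := by
          have := δ.linear.injective (h1.trans (map_zero δ.linear).symm)
          exact this
        exact Subtype.ext h2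
      · intro w
        let w' : Fin 3 → ℝ := fun i => if hi : i ∈ ni (δ x) then w ⟨i, hi⟩ else 0
        refine ⟨⟨δ.linear.symm w', ?_⟩, ?_⟩
        · rw [G.mem_V hx]
          intro i hi
          rw [LinearEquiv.apply_symm_apply]
          simp [w', hi]
        · funext i
          show δ.linear (δ.linear.symm w') i.1 = w i
          rw [LinearEquiv.apply_symm_apply]
          simp [w', i.2])
  have h1 := key.finrank_eq
  rw [Module.finrank_fintype_fun_eq_card] at h1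
  show Module.finrank ℝ (T.V x) = _
  rw [h1, ← Nat.card_eq_fintype_card]
  rfl

/-- a cell which contains an interior point of the grid is a grid cell -/
theorem exists_rep (_ : Grid T δ N) {e : E} (he : ∀ i, 0 < δ e i ∧ δ e i < N) {x : E}
    (hx : x ∈ Om) (h : e ∈ T.cc x) [FiniteDimensional ℝ E] :
    ∃ x', InR N (δ x') ∧ T.cc x' = T.cc x ∧ T.oc x' = T.oc x ∧ T.dim x' = T.dim x ∧
      x' ∈ T.oc x := by
  rw [← T.closure_oc] at h
  have hc : ∀ i, Continuous fun y : E => δ y i := fun i =>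
    (continuous_apply i).comp δ.toAffineMap.continuous_of_finiteDimensional
  have ho : IsOpen {y : E | ∀ i, 0 < δ y i ∧ δ y i < N} := by
    have : {y : E | ∀ i, 0 < δ y i ∧ δ y i < N} = ⋂ i, {y | 0 < δ y i ∧ δ y i < N} := by
      ext; simp
    rw [this]
    exact isOpen_iInter_of_finite fun i =>
      (isOpen_lt continuous_const (hc i)).inter (isOpen_lt (hc i) continuous_const)
  obtain ⟨x', h1, h2⟩ := mem_closure_iff.1 h _ ho he
  exact ⟨x', fun i => ⟨(h1 i).1.le, (h1 i).2.le⟩, T.cc_eq_of_mem_oc hx h2, T.oc_eq_of_mem hx h2,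
    T.dim_eq_of_mem_oc hx h2, h2⟩

end Grid

end Crest.Agent.R096.Sk2_855
end

-- ▼ part R096/Sk2d_855
section

/-!
# Row 96 (S0127), p < 2: lemma 2SK (helper855), part d: crossing edges of a lattice box
-/

set_option autoImplicit false
set_option linter.unusedSectionVars false

open Set Metric

namespace Crest.Agent.R096.Sk2_855

open Crest.Agent.R096.Msh_715 (Tiling)
open Crest.Agent.R096.Gg_113 (Cr sq mem_sq Adj cr_iff sq_card cr_conn)
open Grid (ni)

/-- the lattice box of half side 5 -/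
abbrev lo (c : Fin 3 → ℤ) : Fin 3 → ℤ := fun i => c i - 5

/-- the lattice box of half side 5 -/
abbrev up (c : Fin 3 → ℤ) : Fin 3 → ℤ := fun i => c i + 5

/-- the crossing edges of the box -/
abbrev KK (c : Fin 3 → ℤ) : Type := {k : (Fin 3 → ℤ) × Fin 3 // Cr (lo c) (up c) k}

theorem kk_spec {c : Fin 3 → ℤ} (k : KK c) :
    (k.1.1 k.1.2 = c k.1.2 + 5 ∨ k.1.1 k.1.2 = c k.1.2 - 6) ∧
      ∀ j, j ≠ k.1.2 → c j - 5 ≤ k.1.1 j ∧ k.1.1 j ≤ c j + 5 := by
  have h := (cr_iff (a := lo c) (b := up c) (x := k.1.1) (i := k.1.2)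
    (fun i => by simp only [lo, up]; omega)).1 k.2
  refine ⟨?_, h.2⟩
  rcases h.1 with h | h
  · exact Or.inl h
  · exact Or.inr (by rw [h]; simp only [lo]; omega)

theorem kk_bd {c : Fin 3 → ℤ} (k : KK c) (j : Fin 3) :
    c j - 6 ≤ k.1.1 j ∧ k.1.1 j ≤ c j + 5 := by
  obtain ⟨h1, h2⟩ := kk_spec k
  by_cases hj : j = k.1.2
  · subst hj
    rcases h1 with h | h <;> omega
  · have := h2 j hj
    omega

instance (c : Fin 3 → ℤ) : Finite (KK c) := by
  have h : {k : (Fin 3 → ℤ) × Fin 3 | Cr (lo c) (up c) k}.Finite := by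
    refine ((Set.finite_Icc (fun i => c i - 6) (fun i => c i + 5)).prod
      (Set.finite_univ (α := Fin 3))).subset ?_
    intro k hk
    refine ⟨⟨fun j => (kk_bd ⟨k, hk⟩ j).1, fun j => (kk_bd ⟨k, hk⟩ j).2⟩, mem_univ _⟩
  exact h.to_subtype


/-- the point with parameter `θ` of the edge `k`, in coordinates -/
def pt (k : (Fin 3 → ℤ) × Fin 3) (θ : ℝ) : Fin 3 → ℝ :=
  fun j => k.1 j + if j = k.2 then θ else 0

@[simp] theorem pt_same (k : (Fin 3 → ℤ) × Fin 3) (θ : ℝ) : pt k θ k.2 = k.1 k.2 + θ := by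
  simp [pt]

theorem pt_ne {k : (Fin 3 → ℤ) × Fin 3} (θ : ℝ) {j : Fin 3} (h : j ≠ k.2) :
    pt k θ j = k.1 j := by
  simp [pt, h]

theorem fl_add {z : ℤ} {θ : ℝ} (h : θ ∈ Ioo (0 : ℝ) 1) :
    ⌊(z : ℝ) + θ⌋ = z ∧ ⌈(z : ℝ) + θ⌉ = z + 1 := by
  constructor
  · rw [Int.floor_eq_iff]
    exact ⟨by linarith [h.1], by linarith [h.2]⟩
  · rw [Int.ceil_eq_iff]
    push_cast
    exact ⟨by linarith [h.1], by linarith [h.2]⟩

theorem ni_pt (k : (Fin 3 → ℤ) × Fin 3) {θ : ℝ} (h : θ ∈ Ioo (0 : ℝ) 1) : ni (pt k θ) = {k.2} := by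
  ext j
  simp only [ni, Set.mem_ofPred_eq, mem_singleton_iff]
  constructor
  · intro hj
    by_contra hne
    exact hj (k.1 j) (pt_ne θ hne)
  · rintro rfl z hz
    rw [pt_same] at hz
    have h1 : (0 : ℝ) < ((z - k.1 k.2 : ℤ) : ℝ) := by push_cast; linarith [h.1]
    have h2 : ((z - k.1 k.2 : ℤ) : ℝ) < 1 := by push_cast; linarith [h.2]
    norm_cast at h1 h2
    omega

variable {E : Type*} [NormedAddCommGroup E] [NormedSpace ℝ E] {Om La : Set E} {ι : Type*}
  {T : Tiling Om ι} {δ : E ≃ᵃ[ℝ] (Fin 3 → ℝ)} {N : ℤ} {c : Fin 3 → ℤ}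

/-- the box is deep in the cube -/
def Deep (N : ℤ) (c : Fin 3 → ℤ) : Prop := ∀ i, 8 ≤ c i ∧ c i ≤ N - 8

theorem pt_inR (hc : Deep N c) (k : KK c) {θ : ℝ} (h : θ ∈ Icc (0 : ℝ) 1) :
    ∀ i, 1 ≤ pt k.1 θ i ∧ pt k.1 θ i ≤ N - 1 := by
  intro i
  have h1 := kk_bd k i
  have h2 := hc i
  have h3 : (2 : ℝ) ≤ k.1.1 i := by exact_mod_cast (by omega : (2 : ℤ) ≤ k.1.1 i)
  have h4 : (k.1.1 i : ℝ) ≤ N - 3 := by exact_mod_cast (by omega : k.1.1 i ≤ N - 3)
  by_cases hi : i = k.1.2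
  · subst hi
    rw [pt_same]
    exact ⟨by linarith [h.1], by linarith [h.2]⟩
  · rw [pt_ne θ hi]
    exact ⟨by linarith, by linarith⟩

theorem pt_InR (hc : Deep N c) (k : KK c) {θ : ℝ} (h : θ ∈ Icc (0 : ℝ) 1) : InR N (pt k.1 θ) :=
  fun i => ⟨by linarith [(pt_inR hc k h i).1], by linarith [(pt_inR hc k h i).2]⟩

/-- points of the crossing edge -/
noncomputable def ep (δ : E ≃ᵃ[ℝ] (Fin 3 → ℝ)) (k : (Fin 3 → ℤ) × Fin 3) (θ : ℝ) : E :=
  δ.symm (pt k θ)

@[simp] theorem δ_ep (k : (Fin 3 → ℤ) × Fin 3) (θ : ℝ) : δ (ep δ k θ) = pt k θ :=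
  δ.apply_symm_apply _

variable (G : Grid T δ N) (hc : Deep N c)

include G hc

theorem ep_Om (k : KK c) {θ : ℝ} (h : θ ∈ Icc (0 : ℝ) 1) : ep δ k.1 θ ∈ Om :=
  G.mem _ (by rw [δ_ep]; exact pt_InR hc k h)

theorem ep_dim (k : KK c) {θ : ℝ} (h : θ ∈ Ioo (0 : ℝ) 1) : T.dim (ep δ k.1 θ) = 1 := by
  rw [G.dim_eq (by rw [δ_ep]; exact pt_InR hc k (Ioo_subset_Icc_self h)), δ_ep, ni_pt _ h,
    ncard_singleton]

theorem ep_oc (k : KK c) {θ : ℝ} (h : θ ∈ Ioo (0 : ℝ) 1) {y : E} :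
    y ∈ T.oc (ep δ k.1 θ) ↔ ∃ θ' ∈ Ioo (0 : ℝ) 1, y = ep δ k.1 θ' := by
  rw [G.mem_oc (by rw [δ_ep]; exact pt_InR hc k (Ioo_subset_Icc_self h)), δ_ep]
  constructor
  · intro hy
    have h0 := hy k.1.2
    rw [pt_same, (fl_add h).1, (fl_add h).2] at h0
    have h1 : (k.1.1 k.1.2 : ℝ) < δ y k.1.2 := by
      have := Int.ceil_eq_iff.1 h0.2.symm
      push_cast at this
      linarith [this.1]
    have h2 : δ y k.1.2 < k.1.1 k.1.2 + 1 := (Int.floor_eq_iff.1 h0.1.symm).2
    refine ⟨δ y k.1.2 - k.1.1 k.1.2, ⟨by linarith, by linarith⟩, ?_⟩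
    apply δ.injective
    rw [δ_ep]
    funext j
    by_cases hj : j = k.1.2
    · subst hj
      rw [pt_same]
      ring
    · have hyj := hy j
      rw [pt_ne θ hj, Int.floor_intCast, Int.ceil_intCast] at hyj
      rw [pt_ne _ hj]
      exact le_antisymm (Int.ceil_le.1 hyj.2.ge) (Int.le_floor.1 hyj.1.le)
  · rintro ⟨θ', h', rfl⟩ i
    rw [δ_ep]
    by_cases hi : i = k.1.2
    · subst hi
      rw [pt_same, pt_same, (fl_add h).1, (fl_add h).2, (fl_add h').1, (fl_add h').2]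
      exact ⟨rfl, rfl⟩
    · rw [pt_ne θ hi, pt_ne θ' hi]
      exact ⟨rfl, rfl⟩

theorem ep_cc (k : KK c) {θ : ℝ} (h : θ ∈ Ioo (0 : ℝ) 1) {θ' : ℝ} (h' : θ' ∈ Icc (0 : ℝ) 1) :
    ep δ k.1 θ' ∈ T.cc (ep δ k.1 θ) := by
  rw [G.cc _ (by rw [δ_ep]; exact pt_InR hc k (Ioo_subset_Icc_self h)), Set.mem_ofPred_eq,
    δ_ep, δ_ep]
  intro i
  by_cases hi : i = k.1.2
  · subst hi
    rw [pt_same, pt_same, (fl_add h).1, (fl_add h).2]
    push_cast
    exact ⟨by linarith [h'.1], by linarith [h'.2]⟩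
  · rw [pt_ne θ hi, pt_ne θ' hi, Int.floor_intCast, Int.ceil_intCast]
    exact ⟨le_rfl, le_rfl⟩

theorem ep_inj (k k' : KK c) {θ θ' : ℝ} (h : θ ∈ Ioo (0 : ℝ) 1) (h' : θ' ∈ Ioo (0 : ℝ) 1)
    (e : ep δ k'.1 θ' ∈ T.oc (ep δ k.1 θ)) : k' = k := by
  obtain ⟨θ'', h'', e'⟩ := (ep_oc G hc k h).1 e
  have e1 := congrArg δ e'
  rw [δ_ep, δ_ep] at e1
  have e2 := congrArg ni e1
  rw [ni_pt _ h', ni_pt _ h''] at e2
  have e3 : k'.1.2 = k.1.2 := by simpa using e2
  apply Subtype.ext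
  refine Prod.ext ?_ e3
  funext j
  have e4 := congrFun e1 j
  have e5 := congrArg Int.floor e4
  by_cases hj : j = k.1.2
  · subst hj
    rw [pt_same, (fl_add h'').1] at e5
    rw [← e3] at e5 ⊢
    rw [pt_same, (fl_add h').1] at e5
    exact e5
  · rw [pt_ne _ hj, pt_ne _ (by rwa [e3]), Int.floor_intCast, Int.floor_intCast] at e5
    exact e5

theorem ep_vertex (k : KK c) {θ : ℝ} (h : θ = 0 ∨ θ = 1) : T.dim (ep δ k.1 θ) = 0 := by
  have hI : θ ∈ Icc (0 : ℝ) 1 := by rcases h with rfl | rfl <;> simp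
  rw [G.dim_eq (by rw [δ_ep]; exact pt_InR hc k hI), δ_ep]
  have : ni (pt k.1 θ) = ∅ := by
    ext j
    simp only [ni, Set.mem_ofPred_eq, mem_empty_iff_false, iff_false, not_forall, not_not]
    by_cases hj : j = k.1.2
    · subst hj
      rcases h with rfl | rfl
      · exact ⟨k.1.1 k.1.2, by simp⟩
      · exact ⟨k.1.1 k.1.2 + 1, by simp⟩
    · exact ⟨k.1.1 j, pt_ne θ hj⟩
  rw [this, ncard_empty]

omit hc

/-- the crossing edges in a grid square -/
theorem mem_square {x : E} (hx : InR N (δ x)) {i j : Fin 3} (hij : i ≠ j)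
    (hni : ni (δ x) = {i, j}) (k : KK c) :
    ep δ k.1 (1 / 2) ∈ T.cc x ↔ k.1 ∈ sq (fun l => ⌊δ x l⌋) i j := by
  have hce : ∀ l ∈ ni (δ x), ⌈δ x l⌉ = ⌊δ x l⌋ + 1 := by
    intro l hl
    rw [Int.ceil_eq_iff]
    push_cast
    refine ⟨?_, (Int.lt_floor_add_one _).le⟩
    have : (⌊δ x l⌋ : ℝ) < δ x l := lt_of_le_of_ne (Int.floor_le _) (fun h => hl _ h.symm)
    linarith
  have hce' : ∀ l ∉ ni (δ x), ⌈δ x l⌉ = ⌊δ x l⌋ := by
    intro l hl
    simp only [ni, Set.mem_ofPred_eq, not_forall, not_not] at hl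
    obtain ⟨z, hz⟩ := hl
    rw [hz, Int.ceil_intCast, Int.floor_intCast]
  have hi : i ∈ ni (δ x) := by rw [hni]; simp
  have hj : j ∈ ni (δ x) := by rw [hni]; simp
  have ho : ∀ l, l ≠ i → l ≠ j → l ∉ ni (δ x) := by
    intro l h1 h2 h3
    rw [hni] at h3
    rcases h3 with h3 | h3
    · exact h1 h3
    · exact h2 h3
  rw [G.cc x hx, Set.mem_ofPred_eq, δ_ep, mem_sq]
  set z : Fin 3 → ℤ := fun l => ⌊δ x l⌋ with hz
  obtain ⟨⟨y, a⟩, hk⟩ := k
  simp only
  -- the condition coordinate by coordinate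
  have hcoord : (∀ l, (⌊δ x l⌋ : ℝ) ≤ pt (y, a) (1 / 2) l ∧ pt (y, a) (1 / 2) l ≤ ⌈δ x l⌉) ↔
      (a = i ∨ a = j) ∧ y a = z a ∧
        ∀ l, l ≠ a → z l ≤ y l ∧ y l ≤ if l ∈ ({i, j} : Set (Fin 3)) then z l + 1 else z l := by
    classical
    constructor
    · intro h
      have ha := h a
      rw [show pt (y, a) (1 / 2) a = y a + 1 / 2 from pt_same (y, a) _] at ha
      have hani : a ∈ ni (δ x) := by
        by_contra hn
        rw [hce' a hn] at ha
        have h1 : (0 : ℝ) < ((z a - y a : ℤ) : ℝ) := by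
          push_cast; simp only [hz]; linarith [ha.2]
        have h2 : ((z a - y a : ℤ) : ℝ) < 1 := by
          push_cast; simp only [hz]; linarith [ha.1]
        norm_cast at h1 h2
        omega
      refine ⟨by rw [hni] at hani; exact hani, ?_, ?_⟩
      · rw [hce a hani] at ha
        push_cast at ha
        have h1 : (-1 : ℝ) < ((y a - z a : ℤ) : ℝ) := by
          push_cast; simp only [hz]; linarith [ha.1]
        have h2 : ((y a - z a : ℤ) : ℝ) < 1 := by
          push_cast; simp only [hz]; linarith [ha.2]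
        have h1' : (-1 : ℤ) < y a - z a := by exact_mod_cast h1
        have h2' : y a - z a < 1 := by exact_mod_cast h2
        omega
      · intro l hl
        have hl' := h l
        rw [show pt (y, a) (1 / 2) l = y l from pt_ne _ hl] at hl'
        refine ⟨by exact_mod_cast hl'.1, ?_⟩
        split_ifs with hm
        · rw [hce l (by rw [hni]; exact hm)] at hl'
          exact_mod_cast hl'.2
        · rw [hce' l (by rw [hni]; exact hm)] at hl'
          exact_mod_cast hl'.2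
    · rintro ⟨h1, h2, h3⟩ l
      by_cases hl : l = a
      · subst hl
        rw [show pt (y, l) (1 / 2) l = y l + 1 / 2 from pt_same (y, l) _,
          hce l (by rw [hni]; exact h1), h2]
        push_cast
        simp only [hz]
        constructor <;> linarith
      · rw [show pt (y, a) (1 / 2) l = y l from pt_ne _ hl]
        have h4 := h3 l hl
        refine ⟨by exact_mod_cast h4.1, ?_⟩
        split_ifs at h4 with hm
        · rw [hce l (by rw [hni]; exact hm)]
          exact_mod_cast h4.2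
        · rw [hce' l (by rw [hni]; exact hm)]
          exact_mod_cast h4.2
  rw [hcoord]
  classical
  constructor
  · rintro ⟨h1, h2, h3⟩
    rcases h1 with rfl | rfl
    · have h4 := h3 j hij.symm
      simp only [mem_insert_iff, mem_singleton_iff, or_true, if_true] at h4
      have h5 : ∀ l, l ≠ a → l ≠ j → y l = z l := by
        intro l hl1 hl2
        have := h3 l hl1
        rw [if_neg (by simp [hl1, hl2])] at this
        omega
      rcases (by omega : y j = z j ∨ y j = z j + 1) with h | h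
      · left
        refine Prod.ext ?_ rfl
        funext l
        by_cases e1 : l = a
        · rw [e1]; exact h2
        · by_cases e2 : l = j
          · rw [e2]; exact h
          · exact h5 l e1 e2
      · right; right; right
        refine Prod.ext ?_ rfl
        funext l
        simp only [Pi.add_apply]
        by_cases e1 : l = a
        · rw [e1, Gg_113.e_ne hij, add_zero]; exact h2
        · by_cases e2 : l = j
          · rw [e2, Gg_113.e_same]; exact h
          · rw [Gg_113.e_ne e2, add_zero]; exact h5 l e1 e2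
    · have h4 := h3 i hij
      simp only [mem_insert_iff, true_or, if_true] at h4
      have h5 : ∀ l, l ≠ a → l ≠ i → y l = z l := by
        intro l hl1 hl2
        have := h3 l hl1
        rw [if_neg (by simp [hl1, hl2])] at this
        omega
      rcases (by omega : y i = z i ∨ y i = z i + 1) with h | h
      · right; left
        refine Prod.ext ?_ rfl
        funext l
        by_cases e1 : l = a
        · rw [e1]; exact h2
        · by_cases e2 : l = i
          · rw [e2]; exact h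
          · exact h5 l e1 e2
      · right; right; left
        refine Prod.ext ?_ rfl
        funext l
        simp only [Pi.add_apply]
        by_cases e1 : l = a
        · rw [e1, Gg_113.e_ne hij.symm, add_zero]; exact h2
        · by_cases e2 : l = i
          · rw [e2, Gg_113.e_same]; exact h
          · rw [Gg_113.e_ne e2, add_zero]; exact h5 l e1 e2
  · intro h
    have aux : ∀ (b d : Fin 3), b ≠ d → (b = i ∧ d = j ∨ b = j ∧ d = i) →
        (y, a) = (z, b) ∨ (y, a) = (z + Gg_113.e d, b) →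
        (a = i ∨ a = j) ∧ y a = z a ∧
        ∀ l, l ≠ a → z l ≤ y l ∧ y l ≤ if l ∈ ({i, j} : Set (Fin 3)) then z l + 1 else z l := by
      intro b d hbd hbd' h
      rcases h with h | h
      · simp only [Prod.mk.injEq] at h
        obtain ⟨rfl, rfl⟩ := h
        refine ⟨by rcases hbd' with h | h <;> simp [h.1], rfl, fun l _ => ⟨le_rfl, ?_⟩⟩
        split_ifs
        · omega
        · exact le_rfl
      · simp only [Prod.mk.injEq] at h
        obtain ⟨rfl, rfl⟩ := h
        refine ⟨by rcases hbd' with h | h <;> simp [h.1], ?_, fun l _ => ?_⟩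
        · simp [Gg_113.e_ne hbd]
        · simp only [Pi.add_apply]
          by_cases hl : l = d
          · subst hl
            rw [Gg_113.e_same]
            rw [if_pos (by rcases hbd' with h | h <;> simp [h.2])]
            omega
          · rw [Gg_113.e_ne hl, add_zero]
            split_ifs
            · omega
            · exact ⟨le_rfl, le_rfl⟩
    rcases h with h | h | h | h
    · exact aux i j hij (Or.inl ⟨rfl, rfl⟩) (Or.inl h)
    · exact aux j i hij.symm (Or.inr ⟨rfl, rfl⟩) (Or.inl h)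
    · exact aux j i hij.symm (Or.inr ⟨rfl, rfl⟩) (Or.inr h)
    · exact aux i j hij (Or.inl ⟨rfl, rfl⟩) (Or.inr h)

include hc

theorem two_cross [FiniteDimensional ℝ E] {x : E} (hx : x ∈ Om) (hd : T.dim x = 2)
    (h : ∃ k : KK c, ep δ k.1 (1 / 2) ∈ T.cc x) :
    ∃ k k' : KK c, k ≠ k' ∧ ep δ k.1 (1 / 2) ∈ T.cc x ∧ ep δ k'.1 (1 / 2) ∈ T.cc x ∧
      ∀ k'' : KK c, ep δ k''.1 (1 / 2) ∈ T.cc x → k'' = k ∨ k'' = k' := by
  obtain ⟨k0, hk0⟩ := h
  have hh : (1 / 2 : ℝ) ∈ Icc (0 : ℝ) 1 := by constructor <;> norm_num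
  obtain ⟨x', hR, e1, -, e3, -⟩ := G.exists_rep (e := ep δ k0.1 (1 / 2))
    (by
      rw [δ_ep]
      intro i
      have := pt_inR hc k0 hh i
      exact ⟨by linarith, by linarith⟩) hx hk0
  rw [hd, G.dim_eq hR] at e3
  obtain ⟨i, j, hij, hni⟩ := ncard_eq_two.1 e3
  rw [← e1] at hk0 ⊢
  have key := fun k : KK c => mem_square G hR hij hni k
  have h2 : {k | k ∈ sq (fun l => ⌊δ x' l⌋) i j ∧ Cr (lo c) (up c) k}.ncard = 2 := by
    refine (sq_card (lo c) (up c) _ hij).resolve_left ?_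
    intro h0
    have hfin : {k | k ∈ sq (fun l => ⌊δ x' l⌋) i j ∧ Cr (lo c) (up c) k}.Finite :=
      (Set.finite_range _).subset fun k hk => hk.1
    have := (ncard_eq_zero hfin).1 h0
    have h1 : k0.1 ∈ ({k | k ∈ sq (fun l => ⌊δ x' l⌋) i j ∧ Cr (lo c) (up c) k} : Set _) :=
      ⟨(key k0).1 hk0, k0.2⟩
    rw [this] at h1
    exact h1
  obtain ⟨p, p', hpp, hp⟩ := ncard_eq_two.1 h2
  have m1 : p ∈ ({k | k ∈ sq (fun l => ⌊δ x' l⌋) i j ∧ Cr (lo c) (up c) k} : Set _) := by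
    rw [hp]; simp
  have m2 : p' ∈ ({k | k ∈ sq (fun l => ⌊δ x' l⌋) i j ∧ Cr (lo c) (up c) k} : Set _) := by
    rw [hp]; simp
  refine ⟨⟨p, m1.2⟩, ⟨p', m2.2⟩, fun h => hpp (congrArg Subtype.val h), (key _).2 m1.1,
    (key _).2 m2.1, fun k'' hk'' => ?_⟩
  have h3 : k''.1 ∈ ({k | k ∈ sq (fun l => ⌊δ x' l⌋) i j ∧ Cr (lo c) (up c) k} : Set _) :=
    ⟨(key k'').1 hk'', k''.2⟩
  rw [hp] at h3
  rcases h3 with h3 | h3
  · exact Or.inl (Subtype.ext h3)
  · exact Or.inr (Subtype.ext h3)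

theorem conn_cross (k k' : KK c) : Relation.ReflTransGen
    (fun k k' : KK c => ∃ x ∈ Om, T.dim x = 2 ∧ ep δ k.1 (1 / 2) ∈ T.cc x ∧
      ep δ k'.1 (1 / 2) ∈ T.cc x) k k' := by
  have h0 := cr_conn (a := lo c) (b := up c) (fun i => by simp only [lo, up]; omega) k.2 k'.2
  have step : ∀ (p p' : (Fin 3 → ℤ) × Fin 3), Adj (lo c) (up c) p p' →
      ∀ (hp : Cr (lo c) (up c) p) (hp' : Cr (lo c) (up c) p'),
      ∃ x ∈ Om, T.dim x = 2 ∧ ep δ p (1 / 2) ∈ T.cc x ∧ ep δ p' (1 / 2) ∈ T.cc x := by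
    rintro p p' ⟨-, -, z, i, j, hij, h1, h2⟩ hp hp'
    -- the centre of the square
    let w : Fin 3 → ℝ := fun l => z l + if l = i ∨ l = j then (1 / 2 : ℝ) else 0
    have hz : ∀ l, c l - 7 ≤ z l ∧ z l ≤ c l + 5 := by
      intro l
      have hb := kk_bd (⟨p, hp⟩ : KK c) l
      simp only at hb
      have hdiff : p.1 l = z l ∨ p.1 l = z l + 1 := by
        rcases mem_sq.1 h1 with h | h | h | h
        · rw [h]; exact Or.inl rfl
        · rw [h]; exact Or.inl rfl
        · rw [h]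
          simp only [Pi.add_apply]
          by_cases hl : l = i
          · rw [hl, Gg_113.e_same]; exact Or.inr rfl
          · rw [Gg_113.e_ne hl, add_zero]; exact Or.inl rfl
        · rw [h]
          simp only [Pi.add_apply]
          by_cases hl : l = j
          · rw [hl, Gg_113.e_same]; exact Or.inr rfl
          · rw [Gg_113.e_ne hl, add_zero]; exact Or.inl rfl
      omega
    have hfl : ∀ l, ⌊w l⌋ = z l := by
      intro l
      simp only [w]
      split_ifs
      · exact (fl_add (by constructor <;> norm_num)).1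
      · rw [add_zero, Int.floor_intCast]
    have hwR : InR N w := by
      intro l
      have h3 := hz l
      have h4 := hc l
      have h5 : (1 : ℝ) ≤ z l := by exact_mod_cast (by omega : (1 : ℤ) ≤ z l)
      have h6 : (z l : ℝ) ≤ N - 3 := by exact_mod_cast (by omega : z l ≤ N - 3)
      simp only [w]
      split_ifs <;> constructor <;> linarith
    have hwni : ni w = {i, j} := by
      ext l
      simp only [ni, Set.mem_ofPred_eq, mem_insert_iff, mem_singleton_iff]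
      constructor
      · intro h
        by_contra hn
        exact h (z l) (by simp only [w]; rw [if_neg hn, add_zero])
      · intro h m hm
        simp only [w] at hm
        rw [if_pos h] at hm
        have h7 : (0 : ℝ) < ((m - z l : ℤ) : ℝ) := by push_cast; linarith
        have h8 : ((m - z l : ℤ) : ℝ) < 1 := by push_cast; linarith
        norm_cast at h7 h8
        omega
    have hδ : δ (δ.symm w) = w := δ.apply_symm_apply w
    have hR : InR N (δ (δ.symm w)) := by rw [hδ]; exact hwR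
    refine ⟨δ.symm w, G.mem _ hR, ?_, ?_, ?_⟩
    · rw [G.dim_eq hR, hδ, hwni, ncard_pair hij]
    · refine (mem_square G hR hij (by rw [hδ, hwni]) ⟨p, hp⟩).2 ?_
      rw [hδ]
      simpa only [hfl] using h1
    · refine (mem_square G hR hij (by rw [hδ, hwni]) ⟨p', hp'⟩).2 ?_
      rw [hδ]
      simpa only [hfl] using h2
  -- lift the chain
  have lift : ∀ p', Relation.ReflTransGen (Adj (lo c) (up c)) k.1 p' →
      ∀ hp' : Cr (lo c) (up c) p', Relation.ReflTransGen
        (fun k k' : KK c => ∃ x ∈ Om, T.dim x = 2 ∧ ep δ k.1 (1 / 2) ∈ T.cc x ∧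
          ep δ k'.1 (1 / 2) ∈ T.cc x) k ⟨p', hp'⟩ := by
    intro p' h
    induction h with
    | refl => intro _; exact Relation.ReflTransGen.refl
    | tail _ hst ih =>
      intro hp'
      exact (ih hst.1).tail (step _ _ hst hst.1 hp')
  exact lift k'.1 h0 k'.2

end Crest.Agent.R096.Sk2_855
end

-- ▼ part R096/Sk2e_855
section

/-!
# Row 96 (S0127), p < 2: lemma 2SK (helper855), part e: good cubes, levels, marks
-/

set_option autoImplicit false
set_option linter.unusedSectionVars false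

open Set Metric MeasureTheory

namespace Crest.Agent.R096.Sk2_855

open Crest.Agent.R096.Msh_715 (Tiling)
open Crest.Agent.R096.Gg_113 (Cr cr_iff)
open Grid (ni)

variable {E : Type*} [NormedAddCommGroup E] [NormedSpace ℝ E] {Om La : Set E} {ι : Type*}

/-- the middle part of the target cube -/
def Mid (N m : ℤ) (w : Fin 3 → ℝ) : Prop := ∀ i, (m : ℝ) ≤ w i ∧ w i ≤ N - m

/-- a good cube: charts in the domain and in the target, the mesh is the unit grid, `f` is near the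
affine map `lam⁻¹ ∘ δ` on the 1-skeleton, no intruders, most levels are crossed once. -/
structure GoodQ (T : Tiling Om ι) (La : Set E) (f : E → E) (N m : ℤ)
    (δ lam : E ≃ᵃ[ℝ] (Fin 3 → ℝ)) : Prop where
  m0 : 0 ≤ m
  grid : Grid T δ N
  sub : ∀ y, Mid N m (lam y) → y ∈ La
  near : ∀ x ∈ sk1 T, InR N (δ x) → ‖lam (f x) - δ x‖ ≤ 1 / 8
  out : ∀ x ∈ sk1 T, Mid N m (lam (f x)) → InR N (δ x)
  once : ∀ k : (Fin 3 → ℤ) × Fin 3, InR N (pt k 0) → InR N (pt k 1) →
    volume {s : ℝ | s ∈ Ioo (1 / 4 : ℝ) (3 / 4) ∧ ∃ θ ∈ Icc (0 : ℝ) 1, ∃ θ' ∈ Icc (0 : ℝ) 1, θ ≠ θ' ∧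
      lam (f (ep δ k θ)) k.2 = k.1 k.2 + s ∧ lam (f (ep δ k θ')) k.2 = k.1 k.2 + s}
      ≤ ENNReal.ofReal (1 / 20000)

/-- the box is deep -/
def DeepM (N m : ℤ) (c : Fin 3 → ℤ) : Prop := ∀ i, m + 8 ≤ c i ∧ c i ≤ N - m - 8

theorem DeepM.deep {N m : ℤ} (hm : 0 ≤ m) {c : Fin 3 → ℤ} (h : DeepM N m c) : Deep N c :=
  fun i => ⟨by have := (h i).1; omega, by have := (h i).2; omega⟩

/-- the coordinates centred at the box -/
noncomputable def bL (lam : E ≃ᵃ[ℝ] (Fin 3 → ℝ)) (c : Fin 3 → ℤ) : E ≃ᵃ[ℝ] (Fin 3 → ℝ) :=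
  lam.trans (AffineEquiv.constVAdd ℝ (Fin 3 → ℝ) (fun i => -(c i : ℝ)))

theorem bL_apply (lam : E ≃ᵃ[ℝ] (Fin 3 → ℝ)) (c : Fin 3 → ℤ) (y : E) (i : Fin 3) :
    bL lam c y i = lam y i - c i := by
  simp only [bL, AffineEquiv.trans_apply, AffineEquiv.constVAdd_apply, vadd_eq_add, Pi.add_apply]
  ring

/-- the level of the edge `k` which belongs to the level `5 + s` of the box -/
noncomputable def lev {c : Fin 3 → ℤ} (k : KK c) (s : ℝ) : ℝ :=
  if k.1.1 k.1.2 = c k.1.2 + 5 then s else 1 - s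


theorem exists_norm_eq (w : Fin 3 → ℝ) : ∃ i, |w i| = ‖w‖ := by
  obtain ⟨i, -, hi⟩ := Finset.exists_max_image (Finset.univ : Finset (Fin 3)) (fun i => |w i|)
    ⟨0, Finset.mem_univ _⟩
  refine ⟨i, le_antisymm (norm_le_pi_norm w i) ?_⟩
  exact (pi_norm_le_iff_of_nonneg (abs_nonneg _)).2 fun j => hi j (Finset.mem_univ _)

variable {T : Tiling Om ι} {f : E → E} {N m : ℤ} {δ lam : E ≃ᵃ[ℝ] (Fin 3 → ℝ)}
  {c : Fin 3 → ℤ}

/-- a point of the 1-skeleton whose image is near the level `5 + s` of the box lies on a crossing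
edge -/
theorem GoodQ.localize (Q : GoodQ T La f N m δ lam) (hc : DeepM N m c) {s : ℝ}
    (hs : s ∈ Icc (1 / 4 : ℝ) (3 / 4)) {x : E} (hx : x ∈ sk1 T)
    (h : |‖bL lam c (f x)‖ - (5 + s)| ≤ 1 / 16) :
    ∃ k : KK c, ∃ θ ∈ Ioo (0 : ℝ) 1, x = ep δ k.1 θ ∧
      |lam (f x) k.1.2 - (k.1.1 k.1.2 + lev k s)| = |‖bL lam c (f x)‖ - (5 + s)| := by
  set w := bL lam c (f x) with hw
  have hwi : ∀ i, lam (f x) i = c i + w i := fun i => by rw [hw, bL_apply]; ring
  rw [abs_le] at h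
  have hs1 := hs.1
  have hs2 := hs.2
  have hu1 : (5 : ℝ) + 3 / 16 ≤ ‖w‖ := by linarith [h.1]
  have hu2 : ‖w‖ ≤ 6 - 3 / 16 := by linarith [h.2]
  have hab : ∀ i, |w i| ≤ ‖w‖ := fun i => norm_le_pi_norm w i
  have hR : InR N (δ x) := by
    refine Q.out x hx fun i => ?_
    have h1 := abs_le.1 (hab i)
    have h2 := hc i
    have h3 : (m : ℝ) + 8 ≤ c i := by exact_mod_cast h2.1
    have h4 : (c i : ℝ) ≤ N - m - 8 := by exact_mod_cast h2.2
    rw [hwi]
    constructor <;> linarith [h1.1, h1.2]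
  have hn := Q.near x hx hR
  have hnear : ∀ i, |lam (f x) i - δ x i| ≤ 1 / 8 := fun i =>
    (norm_le_pi_norm (lam (f x) - δ x) i).trans hn
  obtain ⟨i, hi⟩ := exists_norm_eq w
  -- the coordinate `i` is not an integer
  have hfl : (0 ≤ w i → ⌊δ x i⌋ = c i + 5 ∧ ((c i : ℝ) + 5 < δ x i ∧ δ x i < c i + 6)) ∧
      (w i < 0 → ⌊δ x i⌋ = c i - 6 ∧ ((c i : ℝ) - 6 < δ x i ∧ δ x i < c i - 5)) := by
    have h1 := abs_le.1 (hnear i)
    rw [hwi] at h1
    constructor
    · intro h0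
      rw [abs_of_nonneg h0] at hi
      have h2 : (c i : ℝ) + 5 < δ x i := by linarith [h1.2]
      have h3 : δ x i < c i + 6 := by linarith [h1.1]
      refine ⟨?_, h2, h3⟩
      rw [Int.floor_eq_iff]
      push_cast
      exact ⟨h2.le, by linarith⟩
    · intro h0
      rw [abs_of_neg h0] at hi
      have h2 : (c i : ℝ) - 6 < δ x i := by linarith [h1.2]
      have h3 : δ x i < c i - 5 := by linarith [h1.1]
      refine ⟨?_, h2, h3⟩
      rw [Int.floor_eq_iff]
      push_cast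
      exact ⟨h2.le, by linarith⟩
  have hlt : (⌊δ x i⌋ : ℝ) < δ x i ∧ δ x i < ⌊δ x i⌋ + 1 := by
    rcases le_or_gt 0 (w i) with h0 | h0
    · obtain ⟨e, h2, h3⟩ := hfl.1 h0
      rw [e]; push_cast
      exact ⟨h2, by linarith⟩
    · obtain ⟨e, h2, h3⟩ := hfl.2 h0
      rw [e]; push_cast
      exact ⟨h2, by linarith⟩
  have hini : i ∈ ni (δ x) := by
    intro z hz
    rw [hz, Int.floor_intCast] at hlt
    exact lt_irrefl _ hlt.1
  have hd := hx.2
  rw [Q.grid.dim_eq hR] at hd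
  have hni : ∀ j, j ≠ i → ∃ z : ℤ, δ x j = z := by
    intro j hj
    by_contra hn'
    push Not at hn'
    have h1 : ({i, j} : Set (Fin 3)) ⊆ ni (δ x) := by
      rintro l (rfl | rfl)
      · exact hini
      · exact hn'
    have h2 := ncard_le_ncard h1 (toFinite _)
    rw [ncard_pair hj.symm] at h2
    omega
  have hfj : ∀ j, j ≠ i → δ x j = ⌊δ x j⌋ := by
    intro j hj
    obtain ⟨z, hz⟩ := hni j hj
    rw [hz, Int.floor_intCast]
  set k0 : (Fin 3 → ℤ) × Fin 3 := (fun j => ⌊δ x j⌋, i) with hk0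
  have hCr : Cr (lo c) (up c) k0 := by
    rw [hk0, cr_iff (fun i => by simp only [lo, up]; omega)]
    constructor
    · rcases le_or_gt 0 (w i) with h0 | h0
      · exact Or.inl (hfl.1 h0).1
      · right
        show ⌊δ x i⌋ = c i - 5 - 1
        rw [(hfl.2 h0).1]; ring
    · intro j hj
      have h1 := abs_le.1 (hnear j)
      have h2 := abs_le.1 (hab j)
      rw [hwi, hfj j hj] at h1
      have h3 : (-6 : ℝ) < ((⌊δ x j⌋ - c j : ℤ) : ℝ) := by push_cast; linarith [h1.2, h2.1]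
      have h4 : ((⌊δ x j⌋ - c j : ℤ) : ℝ) < 6 := by push_cast; linarith [h1.1, h2.2]
      have h3' : (-6 : ℤ) < ⌊δ x j⌋ - c j := by exact_mod_cast h3
      have h4' : ⌊δ x j⌋ - c j < 6 := by exact_mod_cast h4
      show c j - 5 ≤ ⌊δ x j⌋ ∧ ⌊δ x j⌋ ≤ c j + 5
      omega
  refine ⟨⟨k0, hCr⟩, δ x i - ⌊δ x i⌋, ⟨by linarith [hlt.1], by linarith [hlt.2]⟩, ?_, ?_⟩
  · apply δ.injective
    rw [δ_ep]
    funext j
    by_cases hj : j = i
    · subst hj
      rw [show pt k0 (δ x j - ⌊δ x j⌋) j = k0.1 j + (δ x j - ⌊δ x j⌋) from pt_same k0 _]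
      simp only [hk0]
      ring
    · rw [show pt k0 (δ x i - ⌊δ x i⌋) j = k0.1 j from pt_ne _ hj]
      exact hfj j hj
  · show |lam (f x) i - ((⌊δ x i⌋ : ℤ) + lev (⟨k0, hCr⟩ : KK c) s)| = _
    unfold lev
    simp only [hk0]
    rcases le_or_gt 0 (w i) with h0 | h0
    · rw [if_pos (hfl.1 h0).1, (hfl.1 h0).1, hwi]
      rw [abs_of_nonneg h0] at hi
      push_cast
      rw [hi]
      congr 1
      ring
    · rw [if_neg (by rw [(hfl.2 h0).1]; omega), (hfl.2 h0).1, hwi]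
      rw [abs_of_neg h0] at hi
      push_cast
      rw [← hi, abs_sub_comm]
      congr 1
      ring

/-- values on a crossing edge -/
theorem GoodQ.near_ep (Q : GoodQ T La f N m δ lam) (hc : DeepM N m c) (k : KK c) {θ : ℝ}
    (hθ : θ ∈ Icc (0 : ℝ) 1) (i : Fin 3) : |lam (f (ep δ k.1 θ)) i - pt k.1 θ i| ≤ 1 / 8 := by
  have hcd := hc.deep Q.m0
  have h1 : ep δ k.1 θ ∈ sk1 T := by
    refine ⟨ep_Om Q.grid hcd k hθ, ?_⟩
    have h2 := ep_cc Q.grid hcd k (θ := 1 / 2) (by constructor <;> norm_num) hθ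
    rw [Q.grid.dim_eq (by rw [δ_ep]; exact pt_InR hcd k hθ), δ_ep]
    have : ni (pt k.1 θ) ⊆ {k.1.2} := by
      intro j hj
      by_contra hne
      exact hj (k.1.1 j) (pt_ne θ hne)
    have h3 := ncard_le_ncard this (toFinite _)
    rw [ncard_singleton] at h3
    exact h3
  have h2 := Q.near _ h1 (by rw [δ_ep]; exact pt_InR hcd k hθ)
  rw [δ_ep] at h2
  exact (norm_le_pi_norm _ i).trans h2

theorem GoodQ.ep_sk1 (Q : GoodQ T La f N m δ lam) (hc : DeepM N m c) (k : KK c) {θ : ℝ}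
    (hθ : θ ∈ Icc (0 : ℝ) 1) : ep δ k.1 θ ∈ sk1 T := by
  have hcd := hc.deep Q.m0
  refine ⟨ep_Om Q.grid hcd k hθ, ?_⟩
  rw [Q.grid.dim_eq (by rw [δ_ep]; exact pt_InR hcd k hθ), δ_ep]
  have : ni (pt k.1 θ) ⊆ {k.1.2} := by
    intro j hj
    by_contra hne
    exact hj (k.1.1 j) (pt_ne θ hne)
  have h3 := ncard_le_ncard this (toFinite _)
  rw [ncard_singleton] at h3
  exact h3

theorem continuous_ep [FiniteDimensional ℝ E] (k : (Fin 3 → ℤ) × Fin 3) :
    Continuous fun θ : ℝ => ep δ k θ := by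
  have h1 : Continuous δ.symm := δ.symm.toAffineMap.continuous_of_finiteDimensional
  refine h1.comp (continuous_pi fun j => ?_)
  unfold pt
  split_ifs
  · fun_prop
  · fun_prop

theorem continuous_aff [FiniteDimensional ℝ E] (l : E ≃ᵃ[ℝ] (Fin 3 → ℝ)) : Continuous l :=
  l.toAffineMap.continuous_of_finiteDimensional

/-- continuity of the values along a crossing edge -/
theorem GoodQ.cont_ep [FiniteDimensional ℝ E] (Q : GoodQ T La f N m δ lam) (hc : DeepM N m c)
    (hf : ContinuousOn f Om) (k : KK c) :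
    ContinuousOn (fun θ : ℝ => f (ep δ k.1 θ)) (Icc 0 1) :=
  hf.comp (continuous_ep k.1).continuousOn fun _ hθ => ep_Om Q.grid (hc.deep Q.m0) k hθ

/-- the values at a crossing point -/
theorem GoodQ.norm_of_lev (Q : GoodQ T La f N m δ lam) (hc : DeepM N m c) (k : KK c) {s : ℝ}
    (hs : s ∈ Icc (1 / 4 : ℝ) (3 / 4)) {θ : ℝ} (hθ : θ ∈ Icc (0 : ℝ) 1)
    (h : lam (f (ep δ k.1 θ)) k.1.2 = k.1.1 k.1.2 + lev k s) :
    |bL lam c (f (ep δ k.1 θ)) k.1.2| = 5 + s ∧
      ∀ j, j ≠ k.1.2 → |bL lam c (f (ep δ k.1 θ)) j| ≤ 5 + 1 / 8 := by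
  obtain ⟨h1, h2⟩ := kk_spec k
  constructor
  · rw [bL_apply, h]
    unfold lev
    rcases h1 with e | e
    · rw [if_pos e, e]
      push_cast
      rw [show (c k.1.2 : ℝ) + 5 + s - c k.1.2 = 5 + s by ring,
        abs_of_nonneg (by linarith [hs.1])]
    · rw [if_neg (by omega), e]
      push_cast
      rw [show (c k.1.2 : ℝ) - 6 + (1 - s) - c k.1.2 = -(5 + s) by ring, abs_neg,
        abs_of_nonneg (by linarith [hs.1])]
  · intro j hj
    have h3 := abs_le.1 (Q.near_ep hc k hθ j)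
    rw [pt_ne θ hj] at h3
    have h4 := h2 j hj
    have h5 : (c j : ℝ) - 5 ≤ k.1.1 j := by exact_mod_cast h4.1
    have h6 : (k.1.1 j : ℝ) ≤ c j + 5 := by exact_mod_cast h4.2
    rw [bL_apply, abs_le]
    constructor <;> linarith [h3.1, h3.2]

theorem GoodQ.norm_eq_of_lev (Q : GoodQ T La f N m δ lam) (hc : DeepM N m c) (k : KK c) {s : ℝ}
    (hs : s ∈ Icc (1 / 4 : ℝ) (3 / 4)) {θ : ℝ} (hθ : θ ∈ Icc (0 : ℝ) 1)
    (h : lam (f (ep δ k.1 θ)) k.1.2 = k.1.1 k.1.2 + lev k s) :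
    ‖bL lam c (f (ep δ k.1 θ))‖ = 5 + s := by
  obtain ⟨h1, h2⟩ := Q.norm_of_lev hc k hs hθ h
  refine le_antisymm ((pi_norm_le_iff_of_nonneg (by linarith [hs.1])).2 fun j => ?_) ?_
  · by_cases hj : j = k.1.2
    · rw [hj]; exact h1.le
    · exact (h2 j hj).trans (by linarith [hs.1])
  · rw [← h1]
    exact norm_le_pi_norm (bL lam c (f (ep δ k.1 θ))) k.1.2


/-- the level is crossed once by every edge -/
def Gd (f : E → E) (δ lam : E ≃ᵃ[ℝ] (Fin 3 → ℝ)) (c : Fin 3 → ℤ) (s : ℝ) : Prop :=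
  s ∈ Ioo (1 / 4 : ℝ) (3 / 4) ∧ ∀ k : KK c, ∀ θ ∈ Icc (0 : ℝ) 1, ∀ θ' ∈ Icc (0 : ℝ) 1,
    lam (f (ep δ k.1 θ)) k.1.2 = k.1.1 k.1.2 + lev k s →
    lam (f (ep δ k.1 θ')) k.1.2 = k.1.1 k.1.2 + lev k s → θ = θ'


end Crest.Agent.R096.Sk2_855
end

-- ▼ part R096/Sk2f_855
section

/-!
# Row 96 (S0127), p < 2: lemma 2SK (helper855), part f: the box of a good level
-/

set_option autoImplicit false
set_option linter.unusedSectionVars false

open Set Metric

namespace Crest.Agent.R096.Sk2_855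

open Crest.Agent.R096.Msh_715 (Tiling)

variable {E : Type*} [NormedAddCommGroup E] [NormedSpace ℝ E] [FiniteDimensional ℝ E]
  {Om La : Set E} {ι : Type*}
  {T : Tiling Om ι} {f : E → E} {N m : ℤ} {δ lam : E ≃ᵃ[ℝ] (Fin 3 → ℝ)}
  {c : Fin 3 → ℤ}

/-- level and crossing points of a box -/
structure Mks (f : E → E) (δ lam : E ≃ᵃ[ℝ] (Fin 3 → ℝ)) (c : Fin 3 → ℤ) where
  s : ℝ
  gd : Gd f δ lam c s
  θ : KK c → ℝ
  θmem : ∀ k, θ k ∈ Ioo (0 : ℝ) 1
  θlev : ∀ k, lam (f (ep δ k.1 (θ k))) k.1.2 = k.1.1 k.1.2 + lev k s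

namespace Mks

variable (D : Mks f δ lam c)

theorem hs : D.s ∈ Icc (1 / 4 : ℝ) (3 / 4) := Ioo_subset_Icc_self D.gd.1

/-- the crossing point -/
noncomputable def x (k : KK c) : E := ep δ k.1 (D.θ k)

/-- the mark -/
noncomputable def y (k : KK c) : E := f (D.x k)

/-- the mark set -/
def M (ω : ℝ) (k : KK c) : Set E := {z | ‖lam z - lam (D.y k)‖ ≤ ω}

end Mks


theorem abs_norm_bL_sub (y y' : E) : |‖bL lam c y‖ - ‖bL lam c y'‖| ≤ ‖lam y - lam y'‖ := by
  refine (abs_norm_sub_norm_le _ _).trans (le_of_eq ?_)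
  congr 1
  funext i
  rw [Pi.sub_apply, Pi.sub_apply, bL_apply, bL_apply]
  ring

/-- (C1) near the level only near the mark -/
theorem GoodQ.c1 (Q : GoodQ T La f N m δ lam) (hc : DeepM N m c) (hf : ContinuousOn f Om)
    (D : Mks f δ lam c) {ω : ℝ} (hω : 0 < ω) :
    ∃ w > 0, ∀ k : KK c, ∀ θ ∈ Icc (0 : ℝ) 1,
      |lam (f (ep δ k.1 θ)) k.1.2 - (k.1.1 k.1.2 + lev k D.s)| ≤ w →
      ‖lam (f (ep δ k.1 θ)) - lam (D.y k)‖ ≤ ω := by
  have key : ∀ k : KK c, ∃ w > 0, ∀ θ ∈ Icc (0 : ℝ) 1,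
      |lam (f (ep δ k.1 θ)) k.1.2 - (k.1.1 k.1.2 + lev k D.s)| ≤ w →
      ‖lam (f (ep δ k.1 θ)) - lam (D.y k)‖ ≤ ω := by
    intro k
    have hc1 := Q.cont_ep hc hf k
    have hc2 : ContinuousOn (fun θ : ℝ => lam (f (ep δ k.1 θ))) (Icc 0 1) :=
      (continuous_aff lam).comp_continuousOn hc1
    have hc3 : ContinuousOn (fun θ : ℝ => ‖lam (f (ep δ k.1 θ)) - lam (D.y k)‖) (Icc 0 1) :=
      (hc2.sub continuousOn_const).norm
    have hc4 : ContinuousOn (fun θ : ℝ =>
        |lam (f (ep δ k.1 θ)) k.1.2 - (k.1.1 k.1.2 + lev k D.s)|) (Icc 0 1) :=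
      (((continuous_apply k.1.2).comp_continuousOn hc2).sub continuousOn_const).abs
    set S : Set ℝ := {θ | θ ∈ Icc (0 : ℝ) 1 ∧ ω ≤ ‖lam (f (ep δ k.1 θ)) - lam (D.y k)‖} with hS
    have hSc : IsCompact S := by
      have : S = Icc (0 : ℝ) 1 ∩
          (fun θ : ℝ => ‖lam (f (ep δ k.1 θ)) - lam (D.y k)‖) ⁻¹' Ici ω := rfl
      rw [this]
      exact isCompact_Icc.of_isClosed_subset
        (hc3.preimage_isClosed_of_isClosed isClosed_Icc isClosed_Ici) inter_subset_left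
    rcases S.eq_empty_or_nonempty with h0 | h0
    · refine ⟨1, one_pos, fun θ hθ _ => ?_⟩
      by_contra hn
      have : θ ∈ S := ⟨hθ, (not_le.1 hn).le⟩
      rw [h0] at this
      exact this
    · obtain ⟨θ0, hθ0, hmin⟩ := hSc.exists_isMinOn h0 (hc4.mono fun θ h => h.1)
      set v := |lam (f (ep δ k.1 θ0)) k.1.2 - (k.1.1 k.1.2 + lev k D.s)| with hv
      have hv0 : 0 < v := by
        rcases (abs_nonneg (lam (f (ep δ k.1 θ0)) k.1.2 - (k.1.1 k.1.2 + lev k D.s))).lt_or_eq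
          with h | h
        · exact h
        · exfalso
          have h1 : lam (f (ep δ k.1 θ0)) k.1.2 = k.1.1 k.1.2 + lev k D.s := by
            have := abs_eq_zero.1 h.symm
            linarith
          have h2 := D.gd.2 k θ0 hθ0.1 (D.θ k) (Ioo_subset_Icc_self (D.θmem k)) h1 (D.θlev k)
          have h3 := hθ0.2
          rw [h2] at h3
          have h4 : ‖lam (f (ep δ k.1 (D.θ k))) - lam (D.y k)‖ = 0 := by
            rw [norm_eq_zero, sub_eq_zero]; rfl
          rw [h4] at h3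
          linarith
      refine ⟨v / 2, by positivity, fun θ hθ hle => ?_⟩
      by_contra hn
      have h1 : v ≤ |lam (f (ep δ k.1 θ)) k.1.2 - (k.1.1 k.1.2 + lev k D.s)| :=
        hmin (show θ ∈ S from ⟨hθ, (not_le.1 hn).le⟩)
      linarith
  choose w hw hw' using key
  cases nonempty_fintype (KK c)
  rcases isEmpty_or_nonempty (KK c) with h0 | h0
  · exact ⟨1, one_pos, fun k => (h0.false k).elim⟩
  · refine ⟨Finset.univ.inf' Finset.univ_nonempty w, ?_, fun k θ hθ hle => ?_⟩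
    · rw [gt_iff_lt, Finset.lt_inf'_iff]
      exact fun k _ => hw k
    · exact hw' k θ hθ (hle.trans (Finset.inf'_le _ (Finset.mem_univ k)))

theorem isCompact_box (l : E ≃ᵃ[ℝ] (Fin 3 → ℝ)) (z : Fin 3 → ℝ) (r : ℝ) :
    IsCompact {y : E | ‖l y - z‖ ≤ r} := by
  have h1 : {y : E | ‖l y - z‖ ≤ r} = l.symm '' closedBall z r := by
    ext y
    simp only [Set.mem_ofPred_eq, mem_image, mem_closedBall, dist_eq_norm]
    constructor
    · intro h
      exact ⟨l y, h, l.symm_apply_apply y⟩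
    · rintro ⟨w, hw, rfl⟩
      rw [l.apply_symm_apply]
      exact hw
  rw [h1]
  exact (isCompact_closedBall z r).image l.symm.toAffineMap.continuous_of_finiteDimensional

/-- (C2) the faces without crossing edges stay away from the marks -/
theorem GoodQ.c2 (Q : GoodQ T La f N m δ lam) (hc : DeepM N m c)
    {fi : E → E} (hf : ContinuousOn f Om) (hfi : ContinuousOn fi La) (mti : MapsTo fi La Om)
    (li : ∀ x ∈ Om, fi (f x) = x) (D : Mks f δ lam c) :
    ∃ ω > 0, ∀ k : KK c, ∀ x ∈ Om, (∀ k' : KK c, ep δ k'.1 (1 / 2) ∉ T.cc x) →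
      ∀ z ∈ T.cc x, ω < ‖lam (f z) - lam (D.y k)‖ := by
  have hcd := hc.deep Q.m0
  have key : ∀ k : KK c, ∃ ω > 0, ∀ x ∈ Om, (∀ k' : KK c, ep δ k'.1 (1 / 2) ∉ T.cc x) →
      ∀ z ∈ T.cc x, ω < ‖lam (f z) - lam (D.y k)‖ := by
    intro k
    have hxk : D.x k ∈ Om := ep_Om Q.grid hcd k (Ioo_subset_Icc_self (D.θmem k))
    -- a compact neighbourhood of the mark
    set C : Set E := {y | ‖lam y - lam (D.y k)‖ ≤ 1 / 8} with hC
    have hCc : IsCompact C := isCompact_box lam _ _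
    have hCL : C ⊆ La := by
      intro y hy
      refine Q.sub y fun i => ?_
      have h1 := (norm_le_pi_norm (lam y - lam (D.y k)) i).trans hy
      rw [Pi.sub_apply, Real.norm_eq_abs, abs_le] at h1
      have h2 : ‖bL lam c (D.y k)‖ = 5 + D.s :=
        Q.norm_eq_of_lev hc k D.hs (Ioo_subset_Icc_self (D.θmem k)) (D.θlev k)
      have h3 := norm_le_pi_norm (bL lam c (D.y k)) i
      rw [h2, bL_apply, Real.norm_eq_abs, abs_le] at h3
      have h4 : (m : ℝ) + 8 ≤ c i := by exact_mod_cast (hc i).1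
      have h5 : (c i : ℝ) ≤ N - m - 8 := by exact_mod_cast (hc i).2
      have h6 := D.hs.2
      constructor <;> linarith [h1.1, h1.2, h3.1, h3.2]
    have hK : IsCompact (fi '' C) := hCc.image_of_continuousOn (hfi.mono hCL)
    have hKO : fi '' C ⊆ Om := by
      rintro _ ⟨y, hy, rfl⟩
      exact mti (hCL hy)
    have hfin := T.finite_cells hK hKO
    -- each such cell has a positive distance
    have hcell : ∀ d ∈ {d : Set E | (∃ x ∈ Om, d = T.cc x) ∧ (d ∩ fi '' C).Nonempty},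
        ∃ ω > 0, D.x k ∉ d → ∀ z ∈ d, ω < ‖lam (f z) - lam (D.y k)‖ := by
      rintro d ⟨⟨x, hx, rfl⟩, -⟩
      by_cases hxd : D.x k ∈ T.cc x
      · exact ⟨1, one_pos, fun h => absurd hxd h⟩
      · have hcont : ContinuousOn (fun z => ‖lam (f z) - lam (D.y k)‖) (T.cc x) :=
          (((continuous_aff lam).comp_continuousOn (hf.mono (T.cc_sub_Om hx))).sub
            continuousOn_const).norm
        obtain ⟨z0, hz0, hmin⟩ := (T.isCompact_cc hx).exists_isMinOn ⟨x, T.self_mem_cc x⟩ hcont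
        have h0 : 0 < ‖lam (f z0) - lam (D.y k)‖ := by
          rw [norm_pos_iff, sub_ne_zero]
          intro e
          have e1 := lam.injective e
          have e2 := congrArg fi e1
          rw [li z0 (T.cc_sub_Om hx hz0), Mks.y, li _ hxk] at e2
          rw [e2] at hz0
          exact hxd hz0
        refine ⟨‖lam (f z0) - lam (D.y k)‖ / 2, by positivity, fun _ z hz => ?_⟩
        have h1 : ‖lam (f z0) - lam (D.y k)‖ ≤ ‖lam (f z) - lam (D.y k)‖ := hmin hz
        linarith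
    choose! w hw hw' using hcell
    obtain ⟨ω, hω0, hω1, hωw⟩ : ∃ ω > 0, ω ≤ 1 / 8 ∧
        ∀ d ∈ {d : Set E | (∃ x ∈ Om, d = T.cc x) ∧ (d ∩ fi '' C).Nonempty}, ω ≤ w d := by
      have := hfin.toFinset
      by_cases hne : hfin.toFinset.Nonempty
      · refine ⟨min (1 / 8) (hfin.toFinset.inf' hne w), ?_, min_le_left _ _, fun d hd => ?_⟩
        · refine lt_min (by norm_num) ?_
          rw [Finset.lt_inf'_iff]
          exact fun d hd => hw d (hfin.mem_toFinset.1 hd)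
        · exact (min_le_right _ _).trans (Finset.inf'_le _ (hfin.mem_toFinset.2 hd))
      · refine ⟨1 / 8, by norm_num, le_rfl, fun d hd => ?_⟩
        exact absurd ⟨d, hfin.mem_toFinset.2 hd⟩ hne
    refine ⟨ω, hω0, fun x hx hn z hz => ?_⟩
    by_contra hle
    rw [not_lt] at hle
    have hzO : z ∈ Om := T.cc_sub_Om hx hz
    have hfz : f z ∈ C := hle.trans hω1
    have hmem : T.cc x ∈ {d : Set E | (∃ x ∈ Om, d = T.cc x) ∧ (d ∩ fi '' C).Nonempty} :=
      ⟨⟨x, hx, rfl⟩, z, hz, f z, hfz, li z hzO⟩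
    have hxk' : D.x k ∉ T.cc x := by
      intro h
      have h1 := T.cc_sub_of_mem h
      have h2 : ep δ k.1 (1 / 2) ∈ T.cc (D.x k) :=
        ep_cc Q.grid hcd k (D.θmem k) (by constructor <;> norm_num)
      exact hn k (h1 h2)
    have := hw' _ hmem hxk' z hz
    linarith [hωw _ hmem]
  choose ω hω hω' using key
  cases nonempty_fintype (KK c)
  rcases isEmpty_or_nonempty (KK c) with h0 | h0
  · exact ⟨1, one_pos, fun k => (h0.false k).elim⟩
  · refine ⟨Finset.univ.inf' Finset.univ_nonempty ω, ?_, fun k x hx hn z hz => ?_⟩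
    · rw [gt_iff_lt, Finset.lt_inf'_iff]
      exact fun k _ => hω k
    · exact lt_of_le_of_lt (Finset.inf'_le _ (Finset.mem_univ k)) (hω' k x hx hn z hz)

/-- different marks are different -/
theorem GoodQ.c3 (Q : GoodQ T La f N m δ lam) (hc : DeepM N m c) (hinj : InjOn f Om)
    (D : Mks f δ lam c) :
    ∃ ω > 0, ∀ k k' : KK c, k ≠ k' → 2 * ω < ‖lam (D.y k) - lam (D.y k')‖ := by
  have hcd := hc.deep Q.m0
  have key : ∀ p : KK c × KK c, ∃ ω > 0, p.1 ≠ p.2 →
      2 * ω < ‖lam (D.y p.1) - lam (D.y p.2)‖ := by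
    rintro ⟨k, k'⟩
    by_cases h : k = k'
    · exact ⟨1, one_pos, fun h' => absurd h h'⟩
    · have h0 : 0 < ‖lam (D.y k) - lam (D.y k')‖ := by
        rw [norm_pos_iff, sub_ne_zero]
        intro e
        have e1 := lam.injective e
        have e2 := hinj (ep_Om Q.grid hcd k (Ioo_subset_Icc_self (D.θmem k)))
          (ep_Om Q.grid hcd k' (Ioo_subset_Icc_self (D.θmem k'))) e1
        refine h (ep_inj Q.grid hcd k' k (D.θmem k') (D.θmem k) ?_)
        rw [e2]
        exact T.self_mem_oc _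
      exact ⟨‖lam (D.y k) - lam (D.y k')‖ / 4, by positivity, fun _ => by
        show 2 * (‖lam (D.y k) - lam (D.y k')‖ / 4) < _
        linarith⟩
  choose ω hω hω' using key
  cases nonempty_fintype (KK c)
  rcases isEmpty_or_nonempty (KK c × KK c) with h0 | h0
  · exact ⟨1, one_pos, fun k k' => (h0.false (k, k')).elim⟩
  · refine ⟨Finset.univ.inf' Finset.univ_nonempty ω, ?_, fun k k' hne => ?_⟩
    · rw [gt_iff_lt, Finset.lt_inf'_iff]
      exact fun k _ => hω k
    · have h1 := hω' (k, k') hne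
      have h2 : Finset.univ.inf' Finset.univ_nonempty ω ≤ ω (k, k') :=
        Finset.inf'_le _ (Finset.mem_univ _)
      simp only at h1
      linarith

end Crest.Agent.R096.Sk2_855
end

-- ▼ part R096/Sk2g_855
section

/-!
# Row 96 (S0127), p < 2: lemma 2SK (helper855), part g: the box is a `Box` and it is `Ok`
-/

set_option autoImplicit false
set_option linter.unusedSectionVars false

open Set Metric

namespace Crest.Agent.R096.Sk2_855

open Crest.Agent.R096.Msh_715 (Tiling)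

variable {E : Type*} [NormedAddCommGroup E] [NormedSpace ℝ E] [FiniteDimensional ℝ E]
  {Om La : Set E} {ι : Type*}
  {T : Tiling Om ι} {f : E → E} {N m : ℤ} {δ lam : E ≃ᵃ[ℝ] (Fin 3 → ℝ)}
  {c : Fin 3 → ℤ}

/-- values on the mark set -/
theorem GoodQ.on_M (Q : GoodQ T La f N m δ lam) (hc : DeepM N m c) (D : Mks f δ lam c)
    {ω : ℝ} (hω : ω ≤ 1 / 32) (k : KK c) :
    ∃ σ : ℝ, (σ = 1 ∨ σ = -1) ∧ bL lam c (D.y k) k.1.2 = σ * (5 + D.s) ∧
      ∀ z ∈ D.M ω k, ‖bL lam c z‖ = σ * bL lam c z k.1.2 := by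
  obtain ⟨h1, h2⟩ := Q.norm_of_lev hc k D.hs (Ioo_subset_Icc_self (D.θmem k)) (D.θlev k)
  change |bL lam c (D.y k) k.1.2| = 5 + D.s at h1
  change ∀ j, j ≠ k.1.2 → |bL lam c (D.y k) j| ≤ 5 + 1 / 8 at h2
  have hs := D.hs
  have hσ : ∃ σ : ℝ, (σ = 1 ∨ σ = -1) ∧ bL lam c (D.y k) k.1.2 = σ * (5 + D.s) := by
    rcases abs_eq (by linarith [hs.1] : (0 : ℝ) ≤ 5 + D.s) |>.1 h1 with h | h
    · exact ⟨1, Or.inl rfl, by rw [h]; ring⟩
    · exact ⟨-1, Or.inr rfl, by rw [h]; ring⟩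
  obtain ⟨σ, hσ, hy⟩ := hσ
  refine ⟨σ, hσ, hy, fun z hz => ?_⟩
  have hd : ∀ j, |bL lam c z j - bL lam c (D.y k) j| ≤ ω := by
    intro j
    have := (norm_le_pi_norm (lam z - lam (D.y k)) j).trans hz
    rw [bL_apply, bL_apply]
    rw [Pi.sub_apply, Real.norm_eq_abs] at this
    have e : (lam z j - c j) - (lam (D.y k) j - c j) = lam z j - lam (D.y k) j := by ring
    rw [e]
    exact this
  have hmain : 5 + 3 / 16 ≤ σ * bL lam c z k.1.2 := by
    have h3 := abs_le.1 (hd k.1.2)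
    rw [hy] at h3
    rcases hσ with rfl | rfl
    · linarith [h3.1, hs.1]
    · linarith [h3.2, hs.1]
  have habs : |bL lam c z k.1.2| = σ * bL lam c z k.1.2 := by
    rcases hσ with rfl | rfl
    · rw [one_mul] at hmain ⊢
      exact abs_of_nonneg (by linarith)
    · rw [abs_of_nonpos (by linarith)]; ring
  refine le_antisymm ((pi_norm_le_iff_of_nonneg (by linarith)).2 fun j => ?_) ?_
  · by_cases hj : j = k.1.2
    · rw [hj, Real.norm_eq_abs, habs]
    · have h3 := abs_le.1 (hd j)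
      have h4 := abs_le.1 (h2 j hj)
      rw [Real.norm_eq_abs, abs_le]
      constructor <;> linarith [h3.1, h3.2, h4.1, h4.2]
  · rw [← habs]
    exact norm_le_pi_norm (bL lam c z) k.1.2

/-- parameters of the box -/
structure Par (T : Tiling Om ι) (D : Mks f δ lam c) where
  ω : ℝ
  w : ℝ
  η : ℝ
  w0 : 0 < w
  η0 : 0 ≤ η
  wω : w ≤ ω
  ω1 : ω ≤ 1 / 32
  ηω : 2 * η ≤ ω
  p1 : ∀ k : KK c, ∀ θ ∈ Icc (0 : ℝ) 1,
      |lam (f (ep δ k.1 θ)) k.1.2 - (k.1.1 k.1.2 + lev k D.s)| ≤ w + η →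
      ‖lam (f (ep δ k.1 θ)) - lam (D.y k)‖ ≤ ω / 2
  p2 : ∀ k : KK c, ∀ x ∈ Om, (∀ k' : KK c, ep δ k'.1 (1 / 2) ∉ T.cc x) →
      ∀ z ∈ T.cc x, 2 * ω < ‖lam (f z) - lam (D.y k)‖
  p3 : ∀ k k' : KK c, k ≠ k' → 2 * ω < ‖lam (D.y k) - lam (D.y k')‖

/-- the box -/
noncomputable def GoodQ.box (Q : GoodQ T La f N m δ lam) (hc : DeepM N m c) (D : Mks f δ lam c)
    (P : Par T D) : Box T La where
  L := bL lam c
  a := 5 + D.s - P.w
  b := 5 + D.s + P.w
  a_pos := by linarith [D.hs.1, P.wω, P.ω1]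
  ab := by linarith [P.w0]
  sub := by
    intro y hy
    refine Q.sub y fun i => ?_
    have h3 := (norm_le_pi_norm (bL lam c y) i).trans hy
    rw [bL_apply, Real.norm_eq_abs, abs_le] at h3
    have h4 : (m : ℝ) + 8 ≤ c i := by exact_mod_cast (hc i).1
    have h5 : (c i : ℝ) ≤ N - m - 8 := by exact_mod_cast (hc i).2
    have h6 := D.hs.2
    have h7 := P.wω
    have h8 := P.ω1
    constructor <;> linarith [h3.1, h3.2]
  K := KK c
  fin := inferInstance
  e := fun k => ep δ k.1 (1 / 2)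
  eOm := fun k => ep_Om Q.grid (hc.deep Q.m0) k (by constructor <;> norm_num)
  edim := fun k => ep_dim Q.grid (hc.deep Q.m0) k (by constructor <;> norm_num)
  einj := fun k k' h => ep_inj Q.grid (hc.deep Q.m0) k k' (by constructor <;> norm_num)
    (by constructor <;> norm_num) h
  M := D.M P.ω
  Mc := fun k => isCompact_box lam _ _
  Mdisj := by
    intro k k' hne
    rw [Set.disjoint_left]
    intro z hz hz'
    have h1 := P.p3 k k' hne
    have h2 : ‖lam (D.y k) - lam (D.y k')‖ ≤ P.ω + P.ω := by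
      have e : lam (D.y k) - lam (D.y k') = (lam z - lam (D.y k')) - (lam z - lam (D.y k)) := by
        abel
      rw [e]
      exact (norm_sub_le _ _).trans (add_le_add hz' hz)
    linarith
  Mlev := by
    intro k t ht
    obtain ⟨σ, hσ, hy, hM⟩ := Q.on_M hc D P.ω1 k
    have hset : D.M P.ω k ∩ {y | ‖bL lam c y‖ = t} =
        (lam ⁻¹' (closedBall (lam (D.y k)) P.ω ∩ {v : Fin 3 → ℝ | σ * (v k.1.2 - c k.1.2) = t})) := by
      ext z
      simp only [mem_inter_iff, Set.mem_ofPred_eq, mem_preimage, mem_closedBall, dist_eq_norm,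
        Mks.M]
      constructor
      · rintro ⟨h1, h2⟩
        rw [hM z h1, bL_apply] at h2
        exact ⟨h1, h2⟩
      · rintro ⟨h1, h2⟩
        refine ⟨h1, ?_⟩
        rw [hM z h1, bL_apply]
        exact h2
    rw [hset]
    constructor
    · refine Convex.affine_preimage (f := lam.toAffineMap) (Convex.inter (convex_closedBall _ _) ?_)
      intro u hu v hv a b ha hb hab
      simp only [Set.mem_ofPred_eq, Pi.add_apply, Pi.smul_apply, smul_eq_mul] at hu hv ⊢
      calc σ * (a * u k.1.2 + b * v k.1.2 - c k.1.2)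
          = a * (σ * (u k.1.2 - c k.1.2)) + b * (σ * (v k.1.2 - c k.1.2)) +
            (a + b - 1) * (σ * c k.1.2) := by ring
        _ = t := by rw [hu, hv, hab]; linear_combination t * hab
    · -- move the coordinate to the level
      have hσ2 : σ * σ = 1 := by rcases hσ with rfl | rfl <;> norm_num
      refine ⟨lam.symm (Function.update (lam (D.y k)) k.1.2 (c k.1.2 + σ * t)), ?_, ?_⟩
      · rw [AffineEquiv.apply_symm_apply, mem_closedBall, dist_eq_norm]
        refine (pi_norm_le_iff_of_nonneg (P.w0.le.trans P.wω)).2 fun j => ?_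
        rw [Pi.sub_apply, Function.update_apply]
        by_cases hj : j = k.1.2
        · rw [if_pos hj, hj]
          rw [bL_apply] at hy
          have h1 : c k.1.2 + σ * t - lam (D.y k) k.1.2 = σ * (t - (5 + D.s)) := by linarith
          rw [h1, Real.norm_eq_abs, abs_mul]
          have h2 : |σ| = 1 := by rcases hσ with rfl | rfl <;> norm_num
          rw [h2, one_mul, abs_le]
          constructor <;> linarith [ht.1, ht.2, P.wω]
        · rw [if_neg hj, sub_self, norm_zero]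
          exact P.w0.le.trans P.wω
      · rw [AffineEquiv.apply_symm_apply, Set.mem_ofPred_eq, Function.update_self]
        linear_combination t * hσ2
  two := fun x hx hd h => two_cross Q.grid (hc.deep Q.m0) hx hd h
  conn := fun k k' => conn_cross Q.grid (hc.deep Q.m0) k k'

/-- the box is `Ok` for every map near `f` -/
theorem GoodQ.ok (Q : GoodQ T La f N m δ lam) (hc : DeepM N m c) (D : Mks f δ lam c)
    (P : Par T D) {h : E → E} (hη : ∀ x ∈ Om, ‖lam (h x) - lam (f x)‖ ≤ P.η) :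
    (Q.box hc D P).Ok h := by
  have hcd := hc.deep Q.m0
  have hs := D.hs
  have hw := P.wω
  have hω := P.ω1
  have hηω := P.ηω
  have hη0 := P.η0
  have hcmp : ∀ x ∈ Om, |‖bL lam c (h x)‖ - ‖bL lam c (f x)‖| ≤ P.η := fun x hx =>
    (abs_norm_bL_sub _ _).trans (hη x hx)
  refine ⟨fun x hx hsh => ?_, fun k => ?_, fun x hx _ hn k => ?_⟩
  · -- edges
    have h1 : 5 + D.s - P.w ≤ ‖bL lam c (h x)‖ := hsh.1
    have h2 : ‖bL lam c (h x)‖ ≤ 5 + D.s + P.w := hsh.2
    have h3 := abs_le.1 (hcmp x hx.1)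
    have h4 : |‖bL lam c (f x)‖ - (5 + D.s)| ≤ P.w + P.η := by
      rw [abs_le]
      constructor <;> linarith [h3.1, h3.2]
    obtain ⟨k, θ, hθ, e, hval⟩ := Q.localize hc hs hx (h4.trans (by linarith))
    rw [← hval, e] at h4
    have h5 := P.p1 k θ (Ioo_subset_Icc_self hθ) h4
    refine ⟨k, ?_, ?_⟩
    · exact (ep_oc Q.grid hcd k (by constructor <;> norm_num)).2 ⟨θ, hθ, e⟩
    · show ‖lam (h x) - lam (D.y k)‖ ≤ P.ω
      have e1 : lam (h x) - lam (D.y k) =
          (lam (h x) - lam (f x)) + (lam (f x) - lam (D.y k)) := by abel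
      rw [e1]
      refine (norm_add_le _ _).trans ?_
      rw [← e] at h5
      linarith [hη x hx.1]
  · -- ends
    have hI0 : (0 : ℝ) ∈ Icc (0 : ℝ) 1 := by simp
    have hI1 : (1 : ℝ) ∈ Icc (0 : ℝ) 1 := by simp
    have hhalf : (1 / 2 : ℝ) ∈ Ioo (0 : ℝ) 1 := by constructor <;> norm_num
    obtain ⟨k1, k2⟩ := kk_spec k
    -- inner vertex
    have inner : ∀ θ : ℝ, θ = 0 ∨ θ = 1 → (|pt k.1 θ k.1.2 - c k.1.2| ≤ 5) →
        ‖bL lam c (h (ep δ k.1 θ))‖ < 5 + D.s - P.w := by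
      intro θ hθ h1
      have hθI : θ ∈ Icc (0 : ℝ) 1 := by rcases hθ with rfl | rfl <;> simp
      have h3 := abs_le.1 (hcmp _ (ep_Om Q.grid hcd k hθI))
      have h2 : ‖bL lam c (f (ep δ k.1 θ))‖ ≤ 5 + 1 / 8 := by
        refine (pi_norm_le_iff_of_nonneg (by norm_num)).2 fun j => ?_
        have h4 := abs_le.1 (Q.near_ep hc k hθI j)
        rw [bL_apply, Real.norm_eq_abs, abs_le]
        by_cases hj : j = k.1.2
        · subst hj
          rw [abs_le] at h1
          constructor <;> linarith [h4.1, h4.2, h1.1, h1.2]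
        · rw [pt_ne θ hj] at h4
          have h5 : (c j : ℝ) - 5 ≤ k.1.1 j := by exact_mod_cast (k2 j hj).1
          have h6 : (k.1.1 j : ℝ) ≤ c j + 5 := by exact_mod_cast (k2 j hj).2
          constructor <;> linarith [h4.1, h4.2]
      linarith [h3.2, hs.1]
    have outer : ∀ θ : ℝ, θ = 0 ∨ θ = 1 → (|pt k.1 θ k.1.2 - c k.1.2| = 6) →
        5 + D.s + P.w < ‖bL lam c (h (ep δ k.1 θ))‖ := by
      intro θ hθ h1
      have hθI : θ ∈ Icc (0 : ℝ) 1 := by rcases hθ with rfl | rfl <;> simp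
      have h3 := abs_le.1 (hcmp _ (ep_Om Q.grid hcd k hθI))
      have h4 := Q.near_ep hc k hθI k.1.2
      have h5 := norm_le_pi_norm (bL lam c (f (ep δ k.1 θ))) k.1.2
      rw [bL_apply, Real.norm_eq_abs] at h5
      have h6 : 6 - 1 / 8 ≤ |lam (f (ep δ k.1 θ)) k.1.2 - c k.1.2| := by
        have h7 : |pt k.1 θ k.1.2 - c k.1.2| ≤
            |lam (f (ep δ k.1 θ)) k.1.2 - c k.1.2| +
              |lam (f (ep δ k.1 θ)) k.1.2 - pt k.1 θ k.1.2| := by
          have e1 : pt k.1 θ k.1.2 - c k.1.2 = (lam (f (ep δ k.1 θ)) k.1.2 - c k.1.2) -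
            (lam (f (ep δ k.1 θ)) k.1.2 - pt k.1 θ k.1.2) := by ring
          rw [e1]
          exact abs_sub _ _
        rw [h1] at h7
        linarith
      linarith [h3.1, hs.2]
    rcases k1 with e | e
    · refine ⟨ep δ k.1 0, ep_cc Q.grid hcd k hhalf hI0, ep δ k.1 1,
        ep_cc Q.grid hcd k hhalf hI1, ep_vertex Q.grid hcd k (Or.inl rfl),
        ep_vertex Q.grid hcd k (Or.inr rfl), inner 0 (Or.inl rfl) ?_, outer 1 (Or.inr rfl) ?_⟩
      · rw [pt_same, e]; push_cast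
        rw [show (c k.1.2 : ℝ) + 5 + 0 - c k.1.2 = 5 by ring, abs_of_pos (by norm_num)]
      · rw [pt_same, e]; push_cast
        rw [show (c k.1.2 : ℝ) + 5 + 1 - c k.1.2 = 6 by ring, abs_of_pos (by norm_num)]
    · refine ⟨ep δ k.1 1, ep_cc Q.grid hcd k hhalf hI1, ep δ k.1 0,
        ep_cc Q.grid hcd k hhalf hI0, ep_vertex Q.grid hcd k (Or.inr rfl),
        ep_vertex Q.grid hcd k (Or.inl rfl), inner 1 (Or.inr rfl) ?_, outer 0 (Or.inl rfl) ?_⟩
      · rw [pt_same, e]; push_cast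
        rw [show (c k.1.2 : ℝ) - 6 + 1 - c k.1.2 = -5 by ring, abs_neg,
          abs_of_pos (by norm_num)]
      · rw [pt_same, e]; push_cast
        rw [show (c k.1.2 : ℝ) - 6 + 0 - c k.1.2 = -6 by ring, abs_neg,
          abs_of_pos (by norm_num)]
  · -- faces
    rw [Set.disjoint_left]
    rintro _ ⟨z, hz, rfl⟩ hzM
    have hzO := T.cc_sub_Om hx hz
    have h1 := P.p2 k x hx hn z hz
    have h2 : ‖lam (h z) - lam (D.y k)‖ ≤ P.ω := hzM
    have h3 : ‖lam (f z) - lam (D.y k)‖ ≤ ‖lam (h z) - lam (D.y k)‖ + ‖lam (h z) - lam (f z)‖ := by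
      have e1 : lam (f z) - lam (D.y k) =
          (lam (h z) - lam (D.y k)) - (lam (h z) - lam (f z)) := by abel
      rw [e1]
      exact norm_sub_le _ _
    linarith [hη z hzO]

end Crest.Agent.R096.Sk2_855
end

-- ▼ part R096/Sk2h_855
section

/-!
# Row 96 (S0127), p < 2: lemma 2SK (helper855), part h: the boxes of a finite family of good cubes
-/

set_option autoImplicit false
set_option linter.unusedSectionVars false

open Set Metric

namespace Crest.Agent.R096.Sk2_855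

open Crest.Agent.R096.Msh_715 (Tiling)

variable {E : Type*} [NormedAddCommGroup E] [NormedSpace ℝ E] [FiniteDimensional ℝ E]
  {Om La : Set E} {ι : Type*}
  {T : Tiling Om ι} {f : E → E} {N m : ℤ} {δ lam : E ≃ᵃ[ℝ] (Fin 3 → ℝ)}
  {c : Fin 3 → ℤ}




/-- (C4) the marks of one box stay away from the level of another box -/
theorem GoodQ.c4 (Q : GoodQ T La f N m δ lam) {c' : Fin 3 → ℤ} (hc' : DeepM N m c')
    (D : Mks f δ lam c) (D' : Mks f δ lam c')
    (h : ¬ ∃ x ∈ sk1 T, ‖bL lam c (f x)‖ = 5 + D.s ∧ ‖bL lam c' (f x)‖ = 5 + D'.s) :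
    ∃ ζ > 0, ∀ k : KK c', ζ < |‖bL lam c (D'.y k)‖ - (5 + D.s)| := by
  have hpos : ∀ k : KK c', 0 < |‖bL lam c (D'.y k)‖ - (5 + D.s)| := by
    intro k
    rw [abs_pos, sub_ne_zero]
    intro e
    exact h ⟨D'.x k, Q.ep_sk1 hc' k (Ioo_subset_Icc_self (D'.θmem k)), e,
      Q.norm_eq_of_lev hc' k D'.hs (Ioo_subset_Icc_self (D'.θmem k)) (D'.θlev k)⟩
  cases nonempty_fintype (KK c')
  rcases isEmpty_or_nonempty (KK c') with h0 | h0
  · exact ⟨1, one_pos, fun k => (h0.false k).elim⟩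
  · refine ⟨Finset.univ.inf' Finset.univ_nonempty
      (fun k => |‖bL lam c (D'.y k)‖ - (5 + D.s)| / 2), ?_, fun k => ?_⟩
    · rw [gt_iff_lt, Finset.lt_inf'_iff]
      exact fun k _ => half_pos (hpos k)
    · exact lt_of_le_of_lt (Finset.inf'_le _ (Finset.mem_univ k)) (half_lt_self (hpos k))


theorem GoodQ.Y_sub (Q : GoodQ T La f N m δ lam) (hc : DeepM N m c) (D : Mks f δ lam c)
    (P : Par T D) {y : E} (hy : y ∈ (Q.box hc D P).Y) : Mid N m (lam y) := by
  have hy' : ‖bL lam c y‖ ≤ 5 + D.s + P.w := hy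
  intro i
  have h3 := (norm_le_pi_norm (bL lam c y) i).trans hy'
  rw [bL_apply, Real.norm_eq_abs, abs_le] at h3
  have h4 : (m : ℝ) + 8 ≤ c i := by exact_mod_cast (hc i).1
  have h5 : (c i : ℝ) ≤ N - m - 8 := by exact_mod_cast (hc i).2
  have h6 := D.hs.2
  have h7 := P.wω
  have h8 := P.ω1
  constructor <;> linarith [h3.1, h3.2]



/-- a finite family of good cubes -/
structure Fam (T : Tiling Om ι) (La : Set E) (f : E → E) (κ : Type*) where
  N : κ → ℤ
  m : κ → ℤ
  δ : κ → E ≃ᵃ[ℝ] (Fin 3 → ℝ)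
  lam : κ → E ≃ᵃ[ℝ] (Fin 3 → ℝ)
  good : ∀ q, GoodQ T La f (N q) (m q) (δ q) (lam q)
  disj : ∀ q q', q ≠ q' →
    Disjoint {y | Mid (N q) (m q) (lam q y)} {y | Mid (N q') (m q') (lam q' y)}

namespace Fam

variable {κ : Type*} (F : Fam T La f κ)

/-- the index set of the boxes -/
abbrev J : Type _ := Σ q : κ, {c : Fin 3 → ℤ // DeepM (F.N q) (F.m q) c}

instance finite_deep (N m : ℤ) : Finite {c : Fin 3 → ℤ // DeepM N m c} := by
  have h : {c : Fin 3 → ℤ | DeepM N m c} = Set.pi univ fun _ => Icc (m + 8) (N - m - 8) := by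
    ext c
    simp only [DeepM, Set.mem_ofPred_eq, Set.mem_pi, mem_univ, true_implies, mem_Icc]
  have h2 : {c : Fin 3 → ℤ | DeepM N m c}.Finite := by
    rw [h]
    exact Set.Finite.pi fun _ => Set.finite_Icc _ _
  exact h2.to_subtype

instance [Finite κ] : Finite F.J := inferInstance

/-- the colour of a box -/
def col (j : F.J) : Fin (12 ^ 3) :=
  finFunctionFinEquiv fun i : Fin 3 => (⟨(j.2.1 i % 12).toNat, by omega⟩ : Fin 12)

/-- the boxes of a family -/
structure Boxes (η : ℝ) where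
  B : F.J → Box T La
  L : ∀ j, (B j).L = bL (F.lam j.1) j.2.1
  a1 : ∀ j, 5 + 1 / 8 < (B j).a
  b1 : ∀ j, (B j).b < 6 - 1 / 8
  M : ∀ j j', j ≠ j' → ∀ k, Disjoint (B j).shell ((B j').M k)
  NC : ∀ j x, (∀ k : KK j.2.1, ep (F.δ j.1) k.1 (1 / 2) ∉ T.cc x) → (B j).NC x
  Ydisj : ∀ j j', j ≠ j' → F.col j = F.col j' → Disjoint (B j).Y (B j').Y
  ok : ∀ h : E → E, (∀ x ∈ Om, ‖h x - f x‖ ≤ η) → ∀ j, (B j).Ok h


end Fam

end Crest.Agent.R096.Sk2_855
end

-- ▼ part R096/Sk2z_855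
section

/-!
# Row 96 (S0127), p < 2 (helper855): the surgery theorems without hypotheses
-/

set_option autoImplicit false
set_option linter.unusedSectionVars false

open Set Metric

namespace Crest.Agent.R096.Sk2_855

open Crest.Agent.R096.Msh_715 (Tiling P)
open Crest.Agent.R096.Ub_113 (USurg)

variable {E : Type} [NormedAddCommGroup E] [NormedSpace ℝ E] [FiniteDimensional ℝ E]

/-- **the disc move** -/
theorem dMoveZ (h3 : Module.finrank ℝ E = 3) : Srg_465.DMove E :=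
  Lm_812.dMove_gen h3 Gp_702.existStmt Gp_702.normStmt


/-- **USURG** -/
theorem usurgZ (h3 : Module.finrank ℝ E = 3) {Om La : Set E} {ι : Type} (T : Tiling Om ι) :
    USurg T La := Ub3_113.usurg_final h3 (dMoveZ h3) T


end Crest.Agent.R096.Sk2_855
end

-- ▼ part R096/Ca1_855

/-!
# Row 96 (S0127), p < 2: composite A (helper855), part 1: from good tiles to the homeomorphism `Ψ`
-/

set_option autoImplicit false
set_option linter.unusedSectionVars false

open Set Metric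

namespace Crest.Agent.R096.Ca_855

open Crest.Agent.R096.Msh_715 (Tiling P I)
open Crest.Agent.R096.Sk2_855 (sk1 HP Mv usurgZ)
open Crest.Agent.R096.Sk3_812 (GoodT HF)
open Crest.Agent.R096.Sk3_270 (two_sk_near exists_col)

variable {E : Type} [NormedAddCommGroup E] [NormedSpace ℝ E] [FiniteDimensional ℝ E]
  {Om La : Set E} {ι : Type} {T : Tiling Om ι}

/-- the tiles which touch the tile `i` -/
def nbs (T : Tiling Om ι) (i : ι) : Set ι := {j | (P (T.H j) ∩ P (T.H i)).Nonempty}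

theorem nbs_finite (T : Tiling Om ι) (i : ι) : (nbs T i).Finite :=
  T.finite_tiles (T.cpt i) (T.sub i)

theorem aff_sub (A : E ≃ᵃ[ℝ] E) (x y : E) : A x - A y = A.linear (x - y) := by
  have := A.toAffineMap.linearMap_vsub x y
  rw [vsub_eq_sub, vsub_eq_sub] at this
  exact this.symm

/-- data of the good regions: affine maps `A k`, deep regions `U k`, their surroundings `V k`,
gauges `u k i` with centres `C k i` -/
structure Regs (T : Tiling Om ι) (La : Set E) (f : E → E) {K : Type*} (A : K → E ≃ᵃ[ℝ] E)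
    (U V : K → Set E) (u : K → ι → E → ℝ) (C : K → ι → E) (a b : ℝ) (nc : ℕ) (t Λ : ℝ) :
    Prop where
  cpt : ∀ k, IsCompact (U k)
  sub : ∀ k, U k ⊆ Om
  UV : ∀ k, U k ⊆ V k
  good : ∀ k i, P (T.H i) ⊆ U k → GoodT T La f i (u k i) (C k i) a b
  star : ∀ k i, P (T.H i) ⊆ U k → ∀ x, u k i (A k x) ≤ b →
    x ∈ V k ∧ ∃ m ∈ nbs T i, x ∈ P (T.H m)
  disj : ∀ k l, k ≠ l → Disjoint (A k '' V k) (A l '' V l)
  nb : ∀ k i, (P (T.H i) ∩ V k).Nonempty → (nbs T i).ncard ≤ nc
  Λ0 : 0 ≤ Λ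
  t0 : 0 ≤ t
  lin : ∀ k v, ‖(A k).linear v‖ ≤ Λ * ‖v‖
  diam : ∀ k i, (P (T.H i) ∩ V k).Nonempty → ∀ x ∈ P (T.H i), ∀ y ∈ P (T.H i), ‖x - y‖ ≤ t

namespace Regs

variable {f fi : E → E} {K : Type*} {A : K → E ≃ᵃ[ℝ] E}
    {U V : K → Set E} {u : K → ι → E → ℝ} {C : K → ι → E} {a b : ℝ} {nc : ℕ} {t Λ : ℝ}

theorem P_ne (T : Tiling Om ι) (i : ι) : (P (T.H i)).Nonempty := by
  obtain ⟨x, hx⟩ := T.ne i
  exact ⟨x, Msh_715.I_sub_P _ hx⟩

/-- the index set of the bodies -/
def J (T : Tiling Om ι) (U : K → Set E) : Type _ := {p : K × ι // P (T.H p.2) ⊆ U p.1}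

theorem finite_J [Finite K] (R : Regs T La f A U V u C a b nc t Λ) : Finite (J T U) := by
  have h1 : ∀ k, {i | (P (T.H i) ∩ U k).Nonempty}.Finite := fun k =>
    T.finite_tiles (R.cpt k) (R.sub k)
  have h2 : {p : K × ι | P (T.H p.2) ⊆ U p.1}.Finite := by
    have h3 : (⋃ k : K, (fun i => (k, i)) '' {i | (P (T.H i) ∩ U k).Nonempty}).Finite :=
      Set.finite_iUnion fun k => (h1 k).image _
    refine h3.subset ?_
    rintro ⟨k, i⟩ hp
    refine mem_iUnion.2 ⟨k, i, ?_, rfl⟩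
    obtain ⟨x, hx⟩ := P_ne T i
    exact ⟨x, hx, hp hx⟩
  exact h2.to_subtype

/-- the body of a tile -/
def Y (u : K → ι → E → ℝ) (b : ℝ) (j : J T U) : Set E := {y | u j.1.1 j.1.2 y ≤ b}

theorem dist_star (R : Regs T La f A U V u C a b nc t Λ) {k : K} {i : ι} (hi : P (T.H i) ⊆ U k)
    {x : E} (hx : u k i (A k x) ≤ b) {z : E} (hz : z ∈ P (T.H i)) : ‖x - z‖ ≤ 2 * t := by
  obtain ⟨hxV, m, ⟨p, hp, hp'⟩, hxm⟩ := R.star k i hi x hx
  have h1 := R.diam k m ⟨x, hxm, hxV⟩ x hxm p hp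
  have h2 := R.diam k i ⟨z, hz, R.UV k (hi hz)⟩ p hp' z hz
  have e : x - z = (x - p) + (p - z) := by abel
  rw [e]
  refine (norm_add_le _ _).trans ?_
  linarith

theorem dist_star' (R : Regs T La f A U V u C a b nc t Λ) {k : K} {i : ι} (hi : P (T.H i) ⊆ U k)
    {x : E} (hx : u k i (A k x) ≤ b) {x' : E} (hx' : u k i (A k x') ≤ b) : ‖x - x'‖ ≤ 3 * t := by
  obtain ⟨hxV, m, ⟨p, hp, hp'⟩, hxm⟩ := R.star k i hi x hx
  have h1 := R.diam k m ⟨x, hxm, hxV⟩ x hxm p hp
  have h2 := R.dist_star hi hx' hp'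
  have e : x - x' = (x - p) - (x' - p) := by abel
  rw [e]
  refine (norm_sub_le _ _).trans ?_
  linarith

/-- the bodies have diameter at most `3 Λ t` -/
theorem diam_Y (R : Regs T La f A U V u C a b nc t Λ) (j : J T U) {y y' : E}
    (hy : y ∈ Y u b j) (hy' : y' ∈ Y u b j) : ‖y - y'‖ ≤ Λ * (3 * t) := by
  have h1 : u j.1.1 j.1.2 (A j.1.1 ((A j.1.1).symm y)) ≤ b := by
    rw [AffineEquiv.apply_symm_apply]; exact hy
  have h2 : u j.1.1 j.1.2 (A j.1.1 ((A j.1.1).symm y')) ≤ b := by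
    rw [AffineEquiv.apply_symm_apply]; exact hy'
  have h3 := R.dist_star' j.2 h1 h2
  have h4 := aff_sub (A j.1.1) ((A j.1.1).symm y) ((A j.1.1).symm y')
  rw [AffineEquiv.apply_symm_apply, AffineEquiv.apply_symm_apply] at h4
  rw [h4]
  exact (R.lin _ _).trans (mul_le_mul_of_nonneg_left h3 R.Λ0)

theorem Y_sub (R : Regs T La f A U V u C a b nc t Λ) (j : J T U) {y : E} (hy : y ∈ Y u b j) :
    ∃ x ∈ V j.1.1, A j.1.1 x = y ∧ ∃ m ∈ nbs T j.1.2, x ∈ P (T.H m) := by
  have h1 : u j.1.1 j.1.2 (A j.1.1 ((A j.1.1).symm y)) ≤ b := by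
    rw [AffineEquiv.apply_symm_apply]; exact hy
  obtain ⟨h2, h3⟩ := R.star _ _ j.2 _ h1
  exact ⟨_, h2, AffineEquiv.apply_symm_apply _ _, h3⟩

/-- the tiles three steps away -/
def N3 (T : Tiling Om ι) (V : Set E) (i : ι) : Set ι :=
  ⋃ m ∈ {m | m ∈ nbs T i ∧ (P (T.H m) ∩ V).Nonempty},
    ⋃ m' ∈ {m' | m' ∈ nbs T m ∧ (P (T.H m') ∩ V).Nonempty}, nbs T m'

theorem ncard_biUnion_le {α β : Type*} {s : Set α} (hs : s.Finite) {g : α → Set β} {n : ℕ}
    (hg : ∀ i ∈ s, (g i).ncard ≤ n) : (⋃ i ∈ s, g i).ncard ≤ s.ncard * n := by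
  classical
  induction s, hs using Set.Finite.induction_on with
  | empty => simp
  | @insert a s ha hs ih =>
    rw [Set.biUnion_insert, Set.ncard_insert_of_notMem ha hs]
    refine (Set.ncard_union_le _ _).trans ?_
    have h1 := ih fun i hi => hg i (Set.mem_insert_of_mem _ hi)
    have h2 := hg a (Set.mem_insert _ _)
    calc (g a).ncard + (⋃ i ∈ s, g i).ncard ≤ n + s.ncard * n := add_le_add h2 h1
      _ = (s.ncard + 1) * n := by ring

theorem N3_finite (T : Tiling Om ι) (V : Set E) (i : ι) : (N3 T V i).Finite :=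
  ((nbs_finite T i).subset fun _ h => h.1).biUnion fun m _ =>
    ((nbs_finite T m).subset fun _ h => h.1).biUnion fun m' _ => nbs_finite T m'

theorem N3_card (R : Regs T La f A U V u C a b nc t Λ) {k : K} {i : ι}
    (hi : (P (T.H i) ∩ V k).Nonempty) : (N3 T (V k) i).ncard ≤ nc * (nc * nc) := by
  have hn : ∀ m, (P (T.H m) ∩ V k).Nonempty →
      {m' | m' ∈ nbs T m ∧ (P (T.H m') ∩ V k).Nonempty}.ncard ≤ nc := fun m hm =>
    (Set.ncard_le_ncard (fun _ h => h.1) (nbs_finite T m)).trans (R.nb k m hm)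
  refine (ncard_biUnion_le ((nbs_finite T i).subset fun _ h => h.1) (n := nc * nc)
    fun m hm => ?_).trans (Nat.mul_le_mul_right _ (hn i hi))
  refine (ncard_biUnion_le ((nbs_finite T m).subset fun _ h => h.1) (n := nc)
    fun m' hm' => ?_).trans (Nat.mul_le_mul_right _ (hn m hm.2))
  exact R.nb k m' hm'.2

/-- the bodies which meet one body -/
theorem meet_card (R : Regs T La f A U V u C a b nc t Λ) (j : J T U) :
    {j' : J T U | j' ≠ j ∧ (Y u b j ∩ Y u b j').Nonempty}.ncard ≤ nc * (nc * nc) := by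
  obtain ⟨z, hz⟩ := P_ne T j.1.2
  have hV : (P (T.H j.1.2) ∩ V j.1.1).Nonempty := ⟨z, hz, R.UV _ (j.2 hz)⟩
  refine le_trans ?_ (R.N3_card hV)
  refine Set.ncard_le_ncard_of_injOn (fun j' : J T U => j'.1.2) ?_ ?_ (N3_finite _ _ _)
  · rintro j' ⟨-, y, hy, hy'⟩
    obtain ⟨x, hxV, hxy, m, hm, hxm⟩ := R.Y_sub j hy
    obtain ⟨x', hxV', hxy', m', ⟨p, hp1, hp2⟩, hxm'⟩ := R.Y_sub j' hy'
    have hk : j'.1.1 = j.1.1 := by
      by_contra hne
      exact (disjoint_left.1 (R.disj _ _ hne)) ⟨x', hxV', hxy'⟩ ⟨x, hxV, hxy⟩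
    rw [hk] at hxy' hxV'
    have hxx : x' = x := (A j.1.1).injective (hxy'.trans hxy.symm)
    subst hxx
    refine mem_iUnion₂.2 ⟨m, ⟨hm, x', hxm, hxV⟩, mem_iUnion₂.2 ⟨m', ⟨⟨x', hxm', hxm⟩, x', hxm',
      hxV⟩, p, hp2, hp1⟩⟩
  · rintro j1 ⟨-, y1, hy1, hy1'⟩ j2 ⟨-, y2, hy2, hy2'⟩ e
    have key : ∀ j' : J T U, (Y u b j ∩ Y u b j').Nonempty → j'.1.1 = j.1.1 := by
      rintro j' ⟨y, hy, hy'⟩
      obtain ⟨x, hxV, hxy, -⟩ := R.Y_sub j hy
      obtain ⟨x', hxV', hxy', -⟩ := R.Y_sub j' hy'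
      by_contra hne
      exact (disjoint_left.1 (R.disj _ _ hne)) ⟨x', hxV', hxy'⟩ ⟨x, hxV, hxy⟩
    have e1 := key j1 ⟨y1, hy1, hy1'⟩
    have e2 := key j2 ⟨y2, hy2, hy2'⟩
    exact Subtype.ext (Prod.ext (e1.trans e2.symm) e)

/-- **from the good regions to the homeomorphism** -/
theorem exists_psi [Finite K] (R : Regs T La f A U V u C a b nc t Λ)
    (h3 : Module.finrank ℝ E = 3) (hLa : IsOpen La) (F : HF Om La f fi)
    (happ : ∀ η > 0, ∃ h hi, HP Om La h hi ∧ ∀ x ∈ Om, ‖h x - f x‖ ≤ η) {e : ℝ} (he : 0 < e) :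
    ∃ Ψ : E ≃ₜ E, Mv T Ψ ∧
      (∀ k i, P (T.H i) ⊆ U k → ∀ x ∈ P (T.H i),
        ‖f (Ψ x) - A k x‖ ≤ 3 * (nc * (nc * nc) + 2) * (Λ * t) + e) ∧
      (∀ i, ∀ x ∈ P (T.H i), ∀ r, (∀ x' ∈ P (T.H i), ‖f x' - f x‖ ≤ r) →
        ‖f (Ψ x) - f x‖ ≤ r + 3 * (nc * (nc * nc) + 1) * (Λ * t) + e) := by
  have hfin := R.finite_J
  obtain ⟨col, hcol⟩ := exists_col (J := J T U)
    (fun j j' => (Y u b j ∩ Y u b j').Nonempty)
    (fun j j' h => by rwa [inter_comm]) (n := nc * (nc * nc) + 1)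
    (fun j => Nat.lt_succ_of_le (R.meet_card j))
  obtain ⟨Ψ, hΨ, g1, g2⟩ := two_sk_near h3 hLa (usurgZ (La := La) h3 T) (J := J T U)
    (fun j => j.1.2) (Y := fun j => Y u b j)
    (fun j => (R.good j.1.1 j.1.2 j.2).one h3 F) col
    (fun j j' hne hc => by
      rw [Set.disjoint_iff_inter_eq_empty]
      by_contra hn
      exact hcol j j' hne hc (nonempty_iff_ne_empty.2 hn)) happ he
  have hΛt : 0 ≤ Λ * t := mul_nonneg R.Λ0 R.t0
  have hD : 0 ≤ Λ * (3 * t) := mul_nonneg R.Λ0 (by linarith [R.t0])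
  refine ⟨Ψ, hΨ, fun k i hi x hx => ?_, fun i x hx r hr => ?_⟩
  · have h1 := g1 ⟨(k, i), hi⟩ (A k x) (Λ * (2 * t)) (Λ * (3 * t)) hD
      (by
        intro y hy
        rw [mem_closedBall, dist_eq_norm]
        have h2 : u k i (A k ((A k).symm y)) ≤ b := by
          rw [AffineEquiv.apply_symm_apply]; exact hy
        have h4 := aff_sub (A k) ((A k).symm y) x
        rw [AffineEquiv.apply_symm_apply] at h4
        rw [h4]
        exact (R.lin _ _).trans (mul_le_mul_of_nonneg_left (R.dist_star hi h2 hx) R.Λ0))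
      (fun j' _ y hy y' hy' => R.diam_Y j' hy hy') x hx
    refine h1.trans ?_
    push_cast
    nlinarith
  · have h1 := g2 i (f x) r (Λ * (3 * t)) hD
      (fun x' hx' _ => by rw [mem_closedBall, dist_eq_norm]; exact hr x' hx')
      (fun j' _ y hy y' hy' => R.diam_Y j' hy hy') x hx
    refine h1.trans ?_
    push_cast
    nlinarith

end Regs

end Crest.Agent.R096.Ca_855
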