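import Mathlib
import Crest.Agent.R096.Ce2_537

-- ▼ part R096/Clo1_441
section

/-!
# Row 96, (U6) CLOSE, part 1 (helper441): the nerve lemma

`A` connected, covered by finitely many closed sets `Q i`; `W i` connected sets such that
`W i ∩ W j` is nonempty as soon as `A ∩ Q i ∩ Q j` is: then the union of the `W i`, `i` running
over the indices with `A ∩ Q i` nonempty, is connected.
[`A` = fibre arc from a pin to a core, `Q i` = the cells of the mesh, `W i` = their 1-skeleta.]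
-/

set_option autoImplicit false

open Set Relation

namespace Crest.Agent.R096.Clo_441

/-- **Nerve lemma.** -/
theorem nerve {X Z ι : Type*} [TopologicalSpace X] [TopologicalSpace Z] {A : Set X}
    (hA : IsPreconnected A) {I : Set ι} (hI : I.Finite) {Q : ι → Set X}
    (hQ : ∀ i ∈ I, IsClosed (Q i)) (hAQ : A ⊆ ⋃ i ∈ I, Q i) (hne : ∀ i ∈ I, (A ∩ Q i).Nonempty)
    {W : ι → Set Z} (hW : ∀ i ∈ I, IsPreconnected (W i))
    (hWW : ∀ i ∈ I, ∀ j ∈ I, (A ∩ (Q i ∩ Q j)).Nonempty → (W i ∩ W j).Nonempty) :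
    IsPreconnected (⋃ i ∈ I, W i) := by
  classical
  refine IsPreconnected.biUnion_of_reflTransGen hW ?_
  intro i0 hi0 j0 hj0
  by_contra hcon
  set R : ι → ι → Prop := fun i j => (W i ∩ W j).Nonempty ∧ i ∈ I with hR
  set J : Set ι := {j | j ∈ I ∧ ReflTransGen R i0 j} with hJ
  have hJI : J ⊆ I := fun j hj => hj.1
  have hJf : J.Finite := hI.subset hJI
  have hKf : (I \ J).Finite := hI.subset sdiff_subset
  have hc1 : IsClosed (⋃ i ∈ J, Q i) := hJf.isClosed_biUnion fun i hi => hQ i (hJI hi)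
  have hc2 : IsClosed (⋃ i ∈ I \ J, Q i) := hKf.isClosed_biUnion fun i hi => hQ i hi.1
  have hcov : A ⊆ (⋃ i ∈ J, Q i) ∪ (⋃ i ∈ I \ J, Q i) := by
    intro x hx
    obtain ⟨i, hi, hxi⟩ := mem_iUnion₂.1 (hAQ hx)
    by_cases h : i ∈ J
    · exact Or.inl (mem_biUnion h hxi)
    · exact Or.inr (mem_biUnion ⟨hi, h⟩ hxi)
  have hi0J : i0 ∈ J := ⟨hi0, ReflTransGen.refl⟩
  have hj0J : j0 ∈ I \ J := ⟨hj0, fun h => hcon h.2⟩
  have hn1 : (A ∩ ⋃ i ∈ J, Q i).Nonempty := by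
    obtain ⟨x, hx, hxi⟩ := hne i0 hi0
    exact ⟨x, hx, mem_biUnion hi0J hxi⟩
  have hn2 : (A ∩ ⋃ i ∈ I \ J, Q i).Nonempty := by
    obtain ⟨x, hx, hxi⟩ := hne j0 hj0
    exact ⟨x, hx, mem_biUnion hj0J hxi⟩
  obtain ⟨x, hxA, hx1, hx2⟩ := isPreconnected_closed_iff.1 hA _ _ hc1 hc2 hcov hn1 hn2
  obtain ⟨i, hi, hxi⟩ := mem_iUnion₂.1 hx1
  obtain ⟨j, hj, hxj⟩ := mem_iUnion₂.1 hx2
  refine hj.2 ⟨hj.1, hi.2.tail ?_⟩
  exact ⟨hWW i hi.1 j hj.1 ⟨x, hxA, hxi, hxj⟩, hi.1⟩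

/-- Nerve lemma, the indices that do not meet `A` are dropped. -/
theorem nerve' {X Z ι : Type*} [TopologicalSpace X] [TopologicalSpace Z] {A : Set X}
    (hA : IsPreconnected A) {Q : ι → Set X} (hI : {i | (Q i ∩ A).Nonempty}.Finite)
    (hQ : ∀ i, IsClosed (Q i)) (hAQ : A ⊆ ⋃ i, Q i)
    {W : ι → Set Z} (hW : ∀ i, (Q i ∩ A).Nonempty → IsPreconnected (W i))
    (hWW : ∀ i j, (A ∩ (Q i ∩ Q j)).Nonempty → (W i ∩ W j).Nonempty) :
    IsPreconnected (⋃ i ∈ {i | (Q i ∩ A).Nonempty}, W i) := by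
  refine nerve hA hI (fun i _ => hQ i) ?_ ?_ (fun i hi => hW i hi) (fun i _ j _ h => hWW i j h)
  · intro x hx
    obtain ⟨i, hi⟩ := mem_iUnion.1 (hAQ hx)
    exact mem_biUnion (show i ∈ {i | (Q i ∩ A).Nonempty} from ⟨x, hi, hx⟩) hi
  · intro i hi
    rw [inter_comm]; exact hi

end Crest.Agent.R096.Clo_441
end

-- ▼ part R096/Clo2_441

/-!
# Row 96, (U6) CLOSE, part 2 (helper441): 1-skeleta and ropes in a cell complex

For a `Cplx` of 537: the 1-skeleton of every cell is connected; the union of the 1-skeleta of the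
cells (of a subcomplex `J`) that meet a connected compact set `A` is connected (`rope`).
-/

set_option autoImplicit false
set_option linter.unusedSectionVars false

open Set Metric Relation
open Crest.Agent.R096.Ce_537

namespace Crest.Agent.R096.Clo_441

variable {E : Type*} [NormedAddCommGroup E] [NormedSpace ℝ E]
variable {Ω : Set E} {I : Type*} [PartialOrder I] {dim : I → ℕ} {K : I → Set E}

/-- the 1-skeleton of the cell `i` -/
def sk1 (dim : I → ℕ) (K : I → Set E) (i : I) : Set E := ⋃ j ∈ {j | j ≤ i ∧ dim j ≤ 1}, K j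

lemma sk1_mono {i j : I} (h : j ≤ i) : sk1 dim K j ⊆ sk1 dim K i := by
  intro x hx
  obtain ⟨m, hm, hxm⟩ := mem_iUnion₂.1 hx
  exact mem_biUnion (show m ∈ {j | j ≤ i ∧ dim j ≤ 1} from ⟨hm.1.trans h, hm.2⟩) hxm

lemma subset_sk1 {i j : I} (h : j ≤ i) (hj : dim j ≤ 1) : K j ⊆ sk1 dim K i := fun _ hx =>
  mem_biUnion (show j ∈ {j | j ≤ i ∧ dim j ≤ 1} from ⟨h, hj⟩) hx

lemma sk1_subset (C : Cplx Ω I dim K) (i : I) : sk1 dim K i ⊆ K i := by
  intro x hx
  obtain ⟨m, hm, hxm⟩ := mem_iUnion₂.1 hx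
  exact C.subset hm.1 hxm

lemma sph_nonempty {k : ℕ} (hk : 1 ≤ k) : (sph k).Nonempty := by
  have : Nonempty (Fin k) := ⟨⟨0, hk⟩⟩
  have : Nontrivial (Fin k → ℝ) := Function.nontrivial
  exact NormedSpace.sphere_nonempty.2 zero_le_one

/-- every cell has a vertex -/
lemma exists_vertex (C : Cplx Ω I dim K) : ∀ i : I, ∃ v ≤ i, dim v = 0 := by
  intro i
  induction hd : dim i using Nat.strong_induction_on generalizing i with
  | _ d ih =>
    rcases Nat.eq_zero_or_pos d with h0 | h0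
    · exact ⟨i, le_refl _, hd.trans h0⟩
    · obtain ⟨e, he⟩ := C.isBall i
      obtain ⟨x, hx⟩ := sph_nonempty (k := dim i) (by omega)
      have : e.f x ∈ ⋃ j ∈ {j | j < i}, K j := by rw [← he]; exact mem_image_of_mem _ hx
      obtain ⟨j, hj, -⟩ := mem_iUnion₂.1 this
      obtain ⟨v, hv, hv0⟩ := ih (dim j) (hd ▸ C.mono i j hj) j rfl
      exact ⟨v, hv.trans (le_of_lt hj), hv0⟩

lemma cube_zero_eq (x y : Fin 0 → ℝ) : x = y := Subsingleton.elim _ _

lemma isPreconnected_cell (C : Cplx Ω I dim K) (i : I) : IsPreconnected (K i) := by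
  obtain ⟨e, -⟩ := C.isBall i
  rw [← e.image_eq]
  exact ((convex_closedBall (0 : Fin (dim i) → ℝ) 1).isPreconnected).image _ e.pf.1

lemma isPreconnected_bdry (C : Cplx Ω I dim K) (i : I) (h : 2 ≤ dim i) :
    IsPreconnected (⋃ j ∈ {j | j < i}, K j) := by
  obtain ⟨e, he⟩ := C.isBall i
  rw [← he]
  refine IsPreconnected.image ?_ _ (e.pf.1.mono sph_subset_cube)
  refine isPreconnected_sphere ?_ _ _
  rw [rank_fun']
  simp only [Fintype.card_fin]
  exact_mod_cast h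

/-- two cells that meet have a common vertex -/
lemma exists_common_vertex (C : Cplx Ω I dim K) {i j : I} {x : E} (hi : x ∈ K i) (hj : x ∈ K j) :
    ∃ v, v ≤ i ∧ v ≤ j ∧ dim v = 0 ∧ (K v).Nonempty := by
  obtain ⟨m, hmi, hmj, -⟩ := C.mem_inter hi hj
  obtain ⟨v, hv, hv0⟩ := exists_vertex C m
  exact ⟨v, hv.trans hmi, hv.trans hmj, hv0, (C.isBall v).nonempty⟩

lemma sk1_inter_nonempty (C : Cplx Ω I dim K) {i j : I} {x : E} (hi : x ∈ K i) (hj : x ∈ K j) :
    (sk1 dim K i ∩ sk1 dim K j).Nonempty := by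
  obtain ⟨v, hvi, hvj, hv0, z, hz⟩ := exists_common_vertex C hi hj
  exact ⟨z, subset_sk1 hvi (by omega) hz, subset_sk1 hvj (by omega) hz⟩

/-- **The 1-skeleton of every cell is connected.** -/
theorem isPreconnected_sk1 (C : Cplx Ω I dim K) : ∀ i : I, IsPreconnected (sk1 dim K i) := by
  intro i
  induction hd : dim i using Nat.strong_induction_on generalizing i with
  | _ d ih =>
    by_cases h1 : dim i ≤ 1
    · have : sk1 dim K i = K i := by
        refine Subset.antisymm (sk1_subset C i) (subset_sk1 (le_refl _) h1)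
      rw [this]
      exact isPreconnected_cell C i
    · have h2 : 2 ≤ dim i := by omega
      have heq : sk1 dim K i = ⋃ j ∈ {j | j < i}, sk1 dim K j := by
        refine Subset.antisymm ?_ ?_
        · intro x hx
          obtain ⟨m, hm, hxm⟩ := mem_iUnion₂.1 hx
          have hlt : m < i := by
            refine lt_of_le_of_ne hm.1 ?_
            rintro rfl
            exact absurd hm.2 h1
          exact mem_biUnion (show m ∈ {j | j < i} from hlt) (subset_sk1 (le_refl _) hm.2 hxm)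
        · intro x hx
          obtain ⟨m, hm, hxm⟩ := mem_iUnion₂.1 hx
          exact sk1_mono (le_of_lt hm) hxm
      rw [heq]
      refine nerve (isPreconnected_bdry C i h2) (C.finite_below i) (fun j _ => C.isClosed j)
        Subset.rfl ?_ ?_ ?_
      · intro j hj
        obtain ⟨x, hx⟩ := (C.isBall j).nonempty
        exact ⟨x, mem_biUnion (show j ∈ {j | j < i} from hj) hx, hx⟩
      · intro j hj
        exact ih (dim j) (hd ▸ C.mono i j hj) j rfl
      · rintro j _ l _ ⟨x, -, hxj, hxl⟩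
        exact sk1_inter_nonempty C hxj hxl

/-- the rope of `A` in the subcomplex `J` -/
def ropeSet (dim : I → ℕ) (K : I → Set E) (J : Set I) (A : Set E) : Set E :=
  ⋃ i ∈ {i | i ∈ J ∧ (K i ∩ A).Nonempty}, sk1 dim K i

lemma mem_ropeSet {J : Set I} {A : Set E} {i v : I} (hi : i ∈ J) (hA : (K i ∩ A).Nonempty)
    (hv : v ≤ i) (hv0 : dim v ≤ 1) {z : E} (hz : z ∈ K v) : z ∈ ropeSet dim K J A :=
  mem_biUnion (show i ∈ {i | i ∈ J ∧ (K i ∩ A).Nonempty} from ⟨hi, hA⟩) (subset_sk1 hv hv0 hz)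

/-- **The rope is connected.** -/
theorem isPreconnected_ropeSet (C : Cplx Ω I dim K) {J : Set I} {A : Set E}
    (hA : IsCompact A) (hAc : IsPreconnected A) (hAJ : A ⊆ ⋃ i ∈ J, K i) :
    IsPreconnected (ropeSet dim K J A) := by
  have hAΩ : A ⊆ Ω := by
    intro x hx
    obtain ⟨i, -, hi⟩ := mem_iUnion₂.1 (hAJ hx)
    exact C.sub i hi
  refine nerve hAc ((C.finite_meet hA hAΩ).subset fun i hi => hi.2) (fun i _ => C.isClosed i)
    ?_ ?_ (fun i _ => isPreconnected_sk1 C i) ?_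
  · intro x hx
    obtain ⟨i, hi, hxi⟩ := mem_iUnion₂.1 (hAJ hx)
    exact mem_biUnion (show i ∈ {i | i ∈ J ∧ (K i ∩ A).Nonempty} from ⟨hi, x, hxi, hx⟩) hxi
  · rintro i ⟨-, x, hx, hxA⟩
    exact ⟨x, hxA, hx⟩
  · rintro i _ j _ ⟨x, -, hxi, hxj⟩
    exact sk1_inter_nonempty C hxi hxj

/-- every point of the rope lies in a cell of dimension `≤ 1` of `J`, which is a face of a cell of
`J` that meets `A` -/
lemma exists_of_mem_ropeSet {J : Set I} (hJ : ∀ i ∈ J, ∀ j ≤ i, j ∈ J) {A : Set E} {z : E}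
    (hz : z ∈ ropeSet dim K J A) :
    ∃ i ∈ J, (K i ∩ A).Nonempty ∧ ∃ j ∈ J, j ≤ i ∧ dim j ≤ 1 ∧ z ∈ K j := by
  obtain ⟨i, hi, hz⟩ := mem_iUnion₂.1 hz
  obtain ⟨j, hj, hzj⟩ := mem_iUnion₂.1 hz
  exact ⟨i, hi.1, hi.2, j, hJ i hi.1 j hj.1, hj.1, hj.2, hzj⟩

/-- **(C3), topological sides.**  Pins: `σ c` = the cell functions of the foam composed with `F`,
constant `= y c` on the fibre arc `A`, oscillation `< b` on the cells meeting `A`; used levels keep
distance `b` from `y`; the final sheets `Sh q` meet the 1-skeleton only at points where SOME used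
level is attained.  If the sides of the final sheets are right at ONE vertex (of a cell meeting `A`,
e.g. at the core end), they are right at EVERY vertex of every cell meeting `A`. -/
theorem pin (C : Cplx Ω I dim K) {J : Set I} (hJ : ∀ i ∈ J, ∀ j ≤ i, j ∈ J) {A : Set E}
    (hA : IsCompact A) (hAc : IsPreconnected A) (hAJ : A ⊆ ⋃ i ∈ J, K i)
    {κ : Type*} {σ : κ → E → ℝ} {y : κ → ℝ} {b : ℝ}
    (hosc : ∀ i ∈ J, (K i ∩ A).Nonempty → ∀ z ∈ K i, ∀ c, |σ c z - y c| < b)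
    {Lv : Set (κ × ℝ)} (hLv : ∀ q ∈ Lv, b ≤ |q.2 - y q.1|)
    {Sh In Out : κ × ℝ → Set E}
    (hSh : ∀ q ∈ Lv, ∀ z ∈ Sh q, ∀ i ∈ J, dim i ≤ 1 → z ∈ K i → ∃ q' ∈ Lv, σ q'.1 z = q'.2)
    (hIn : ∀ q ∈ Lv, IsOpen (In q)) (hOut : ∀ q ∈ Lv, IsOpen (Out q))
    (hdis : ∀ q ∈ Lv, Disjoint (In q) (Out q)) (hcov : ∀ q ∈ Lv, (Sh q)ᶜ ⊆ In q ∪ Out q)
    {i0 v0 : I} (hi0 : i0 ∈ J) (hi0A : (K i0 ∩ A).Nonempty) (hv0 : v0 ≤ i0) (hd0 : dim v0 = 0)
    {z0 : E} (hz0 : z0 ∈ K v0) (hlab : ∀ q ∈ Lv, (z0 ∈ In q ↔ σ q.1 z0 < q.2))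
    {i v : I} (hi : i ∈ J) (hiA : (K i ∩ A).Nonempty) (hv : v ≤ i) (hd : dim v = 0)
    {z : E} (hz : z ∈ K v) {q : κ × ℝ} (hq : q ∈ Lv) : z ∈ In q ↔ y q.1 < q.2 := by
  have hpre := isPreconnected_ropeSet C hA hAc hAJ
  have hmiss : ropeSet dim K J A ⊆ (Sh q)ᶜ := by
    intro w hw hwS
    obtain ⟨m, hm, hmA, j, hj, hjm, hj1, hwj⟩ := exists_of_mem_ropeSet hJ hw
    obtain ⟨q', hq', hσ⟩ := hSh q hq w hwS j hj hj1 hwj
    have h1 := hosc m hm hmA w (C.subset hjm hwj) q'.1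
    have h2 := hLv q' hq'
    rw [hσ] at h1
    exact absurd h1 (not_lt.2 h2)
  have hz' : z ∈ ropeSet dim K J A := mem_ropeSet hi hiA hv (by omega) hz
  have hz0' : z0 ∈ ropeSet dim K J A := mem_ropeSet hi0 hi0A hv0 (by omega) hz0
  have hside : (z ∈ In q ↔ z0 ∈ In q) := by
    have h := hpre.subset_or_subset (hIn q hq) (hOut q hq) (hdis q hq)
      (hmiss.trans (hcov q hq))
    rcases h with h | h
    · exact ⟨fun _ => h hz0', fun _ => h hz'⟩
    · constructor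
      · intro hzi; exact absurd hzi (fun hzi => (hdis q hq).le_bot ⟨hzi, h hz'⟩)
      · intro hzi; exact absurd hzi (fun hzi => (hdis q hq).le_bot ⟨hzi, h hz0'⟩)
  rw [hside, hlab q hq]
  have h1 := hosc i0 hi0 hi0A z0 (C.subset hv0 hz0) q.1
  have h2 := hLv q hq
  rw [abs_lt] at h1
  rcases le_abs.1 h2 with h3 | h3
  · constructor
    · intro _; linarith [h1.1]
    · intro _; linarith [h1.2]
  · constructor
    · intro _; linarith [h1.1]
    · intro _; linarith [h1.2]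

end Crest.Agent.R096.Clo_441
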