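import Crest.Agent.R096.Clo2_441

/-!
# Row 96, (U6) CLOSE, part 3 (helper441): labels along ropes, first hitting of the core, gaps

`label_const` : vertex labels which may change along an edge only if the edge contains a crossing
point are constant along the rope of a connected compact set whose cells carry no crossing point.
`pin_labels` : the version with cell functions, levels and a slack `d0`.
`hit` : a path from a pin to a core, cut at its first entrance into the core.
`exists_delta` : small cells meeting a compact set have small oscillation.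
`gap` : from labels to distances.
-/

set_option autoImplicit false
set_option linter.unusedSectionVars false

open Set Metric Relation Filter Topology
open Crest.Agent.R096.Ce_537

namespace Crest.Agent.R096.Clo_441

section Labels

variable {E : Type*} [NormedAddCommGroup E] [NormedSpace ℝ E]
variable {Ω : Set E} {I : Type*} [PartialOrder I] {dim : I → ℕ} {K : I → Set E}

/-- the rope carries no point of `P` -/
def Clean (dim : I → ℕ) (K : I → Set E) (J : Set I) (A P : Set E) : Prop :=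
  ∀ i ∈ J, (K i ∩ A).Nonempty → ∀ j ≤ i, dim j = 1 → Disjoint (K j) P

/-- **Labels are constant along a clean rope.** -/
theorem label_const (C : Cplx Ω I dim K) {J : Set I} {A : Set E}
    (hA : IsCompact A) (hAc : IsPreconnected A) (hAJ : A ⊆ ⋃ i ∈ J, K i)
    {P : Set E} (hP : Clean dim K J A P) {κ : Type*} {lam : I → κ}
    (hlam : ∀ e, dim e = 1 → Disjoint (K e) P → ∀ v ≤ e, ∀ w ≤ e, dim v = 0 → dim w = 0 →
      lam v = lam w)
    {i v i' v' : I} (hi : i ∈ J) (hiA : (K i ∩ A).Nonempty) (hv : v ≤ i) (hv0 : dim v = 0)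
    (hi' : i' ∈ J) (hiA' : (K i' ∩ A).Nonempty) (hv' : v' ≤ i') (hv0' : dim v' = 0) :
    lam v = lam v' := by
  classical
  have hAΩ : A ⊆ Ω := by
    intro x hx
    obtain ⟨i, -, hi⟩ := mem_iUnion₂.1 (hAJ hx)
    exact C.sub i hi
  set M : Set I := {i | i ∈ J ∧ (K i ∩ A).Nonempty} with hM
  have hMf : M.Finite := (C.finite_meet hA hAΩ).subset fun i hi => hi.2
  -- the cells of dimension ≤ 1 of the rope
  set R : Set I := {j | ∃ i ∈ M, j ≤ i ∧ dim j ≤ 1} with hR
  have hRf : R.Finite := by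
    have h1 : R ⊆ ⋃ i ∈ M, {j | j ≤ i} := by
      rintro j ⟨i, hi, hj, -⟩
      exact mem_biUnion hi hj
    refine (hMf.biUnion fun i _ => ?_).subset h1
    have h2 : {j | j ≤ i} ⊆ insert i {j | j < i} := by
      intro j hj
      rcases (show j ≤ i from hj).eq_or_lt with rfl | h
      · exact mem_insert _ _
      · exact mem_insert_of_mem _ h
    exact ((C.finite_below i).insert i).subset h2
  have hrope : ropeSet dim K J A = ⋃ j ∈ R, K j := by
    refine Subset.antisymm ?_ ?_
    · intro x hx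
      obtain ⟨i, hi, hx⟩ := mem_iUnion₂.1 hx
      obtain ⟨j, hj, hxj⟩ := mem_iUnion₂.1 hx
      exact mem_biUnion (show j ∈ R from ⟨i, hi, hj.1, hj.2⟩) hxj
    · intro x hx
      obtain ⟨j, ⟨i, hi, hj, hd⟩, hxj⟩ := mem_iUnion₂.1 hx
      exact mem_ropeSet hi.1 hi.2 hj hd hxj
  have hpre : IsPreconnected (⋃ j ∈ R, K j) := hrope ▸ isPreconnected_ropeSet C hA hAc hAJ
  -- all vertices of a cell of R have the same label
  have hsame : ∀ j ∈ R, ∀ a ≤ j, ∀ b ≤ j, dim a = 0 → dim b = 0 → lam a = lam b := by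
    rintro j ⟨i, hi, hj, hd⟩ a ha b hb ha0 hb0
    rcases Nat.lt_or_ge (dim j) 1 with h | h
    · have hja : a = j := by
        rcases ha.eq_or_lt with h1 | h1
        · exact h1
        · exact absurd (C.mono j a h1) (by omega)
      have hjb : b = j := by
        rcases hb.eq_or_lt with h1 | h1
        · exact h1
        · exact absurd (C.mono j b h1) (by omega)
      rw [hja, hjb]
    · have h1 : dim j = 1 := by omega
      exact hlam j h1 (hP i hi.1 hi.2 j hj h1) a ha b hb ha0 hb0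
  by_contra hne
  set Z1 : Set E := ⋃ j ∈ {j | j ∈ R ∧ ∀ a ≤ j, dim a = 0 → lam a = lam v}, K j with hZ1
  set Z2 : Set E := ⋃ j ∈ {j | j ∈ R ∧ ∀ a ≤ j, dim a = 0 → lam a ≠ lam v}, K j with hZ2
  have hc1 : IsClosed Z1 :=
    (hRf.subset fun j hj => hj.1).isClosed_biUnion fun j _ => C.isClosed j
  have hc2 : IsClosed Z2 :=
    (hRf.subset fun j hj => hj.1).isClosed_biUnion fun j _ => C.isClosed j
  have hcov : (⋃ j ∈ R, K j) ⊆ Z1 ∪ Z2 := by
    intro x hx
    obtain ⟨j, hj, hxj⟩ := mem_iUnion₂.1 hx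
    obtain ⟨a, ha, ha0⟩ := exists_vertex C j
    by_cases h : lam a = lam v
    · refine Or.inl (mem_biUnion (show j ∈ {j | j ∈ R ∧ ∀ a ≤ j, dim a = 0 → lam a = lam v}
        from ⟨hj, fun b hb hb0 => ?_⟩) hxj)
      rw [hsame j hj b hb a ha hb0 ha0]; exact h
    · refine Or.inr (mem_biUnion (show j ∈ {j | j ∈ R ∧ ∀ a ≤ j, dim a = 0 → lam a ≠ lam v}
        from ⟨hj, fun b hb hb0 => ?_⟩) hxj)
      rw [hsame j hj b hb a ha hb0 ha0]; exact h
  have hvR : v ∈ R := ⟨i, ⟨hi, hiA⟩, hv, by omega⟩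
  have hvR' : v' ∈ R := ⟨i', ⟨hi', hiA'⟩, hv', by omega⟩
  have hmin : ∀ {w a : I}, dim w = 0 → a ≤ w → a = w := by
    intro w a hw ha
    rcases ha.eq_or_lt with h1 | h1
    · exact h1
    · exact absurd (C.mono w a h1) (by omega)
  have hn1 : ((⋃ j ∈ R, K j) ∩ Z1).Nonempty := by
    obtain ⟨x, hx⟩ := (C.isBall v).nonempty
    refine ⟨x, mem_biUnion hvR hx, mem_biUnion (show v ∈ {j | j ∈ R ∧ ∀ a ≤ j, dim a = 0 →
      lam a = lam v} from ⟨hvR, fun a ha _ => ?_⟩) hx⟩
    rw [hmin hv0 ha]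
  have hn2 : ((⋃ j ∈ R, K j) ∩ Z2).Nonempty := by
    obtain ⟨x, hx⟩ := (C.isBall v').nonempty
    refine ⟨x, mem_biUnion hvR' hx, mem_biUnion (show v' ∈ {j | j ∈ R ∧ ∀ a ≤ j, dim a = 0 →
      lam a ≠ lam v} from ⟨hvR', fun a ha _ => ?_⟩) hx⟩
    rw [hmin hv0' ha]
    exact fun h => hne h.symm
  obtain ⟨x, -, hx1, hx2⟩ := isPreconnected_closed_iff.1 hpre _ _ hc1 hc2 hcov hn1 hn2
  obtain ⟨j, hj, hxj⟩ := mem_iUnion₂.1 hx1
  obtain ⟨l, hl, hxl⟩ := mem_iUnion₂.1 hx2
  obtain ⟨a, haj, hal, ha0, -⟩ := exists_common_vertex C hxj hxl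
  exact hl.2 a hal ha0 (hj.2 a haj ha0)


end Labels






end Crest.Agent.R096.Clo_441
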