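import Crest.Agent.R096.Mmx1_662
import Crest.Agent.R96.Nu6_199
import Crest.Agent.R096.Chs1_879
import Mathlib
import Crest.Agent.R096.Knm1_955
import Crest.Agent.R096.Mxs0_487
import Crest.Agent.R096.Mi1_117
import Crest.Agent.R096.Be6_416
import Crest.Agent.R096.Csub8_487
import Crest.Agent.R096.Be7_416

-- ▼ part R096/Mmx2_662
section

/-!
# R096 (row 96), P4-MESH: the mixed mesh with a class of charts for the edges (helper662)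

`mesh_mixA` : `mesh_mix` where the requirement `hS1` on the edges is only asked for the given charts
and their flips (`Af` : any class of charts which contains the given ones and is stable under the
flip, e.g. affine charts).
-/

set_option autoImplicit false

open Set Metric Filter Topology

namespace Crest.Agent.R096.Mmx_662

open Crest.Agent.R096.Ce_537 Crest.Agent.R096.Bd_416

open scoped Classical

set_option linter.unusedSectionVars false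

variable {Q : Type} [PartialOrder Q] {dim : Q → ℕ} {J Fam : Type}
variable {E : Type*} [NormedAddCommGroup E] [NormedSpace ℝ E]
variable {C : Cmb Q dim J Fam} {K : Q → Set E} {D : Set Q} {g : Gd E J}
  {P : ∀ q, C.I q → Set E} {c : ∀ q, C.I q → E → ℝ} {b : ℝ} {Ω : Set E}

/-- the chart or its flip starts at the base vertex -/
theorem exists_flipA (X : Cplx Ω Q dim K) {τ : Q} (hd : dim τ = 1) (e : PLEquiv (cube 1) (K τ))
    (he : e.f '' sph 1 = bdS K τ) {Y : Type*} [PseudoMetricSpace Y] {Fr : Set (E → Y)} {Lg : (E → Y) → ℝ}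
    (hg : ∀ B ∈ Fr, ∀ z ∈ K τ, MB B id (Lg B) e.g (K τ) z) :
    ∃ e' : PLEquiv (cube 1) (K τ), e'.f '' sph 1 = bdS K τ ∧ e'.f (fun _ => -1) ∈ K (C.o τ) ∧
      (∀ B ∈ Fr, ∀ z ∈ K τ, MB B id (Lg B) e'.g (K τ) z) ∧ (e' = e ∨ e' = negE.trans e) := by
  obtain ⟨z, hz⟩ := (X.isBall (C.o τ)).nonempty
  have hzS : z ∈ bdS K τ := mem_biUnion (show C.o τ ∈ {j | j < τ} from C.o_lt τ hd.ge) hz
  rw [← he] at hzS
  obtain ⟨v, hv, rfl⟩ := hzS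
  rcases (abs_eq zero_le_one).1 (mem_sph1.1 hv) with h | h
  · refine ⟨negE.trans e, ?_, ?_, fun B hB z hz => ?_, Or.inr rfl⟩
    · rw [← he]
      apply Set.Subset.antisymm
      · rintro _ ⟨u, hu, rfl⟩
        refine ⟨-u, mem_sph1.2 ?_, rfl⟩
        show |-(u 0)| = 1
        rw [abs_neg]; exact mem_sph1.1 hu
      · rintro _ ⟨u, hu, rfl⟩
        refine ⟨-u, mem_sph1.2 ?_, ?_⟩
        · show |-(u 0)| = 1
          rw [abs_neg]; exact mem_sph1.1 hu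
        · show e.f (- -u) = e.f u
          rw [neg_neg]
    · show e.f (-(fun _ => -1)) ∈ _
      have hv' : (-(fun _ => -1) : Fin 1 → ℝ) = v := by
        funext k; rw [Subsingleton.elim k 0, h]; simp
      rw [hv']; exact hz
    · filter_upwards [hg B hB z hz] with y hy
      show dist (-(e.g y)) (-(e.g z)) ≤ _
      rw [dist_neg_neg]; exact hy
  · refine ⟨e, he, ?_, hg, Or.inl rfl⟩
    have hv' : (fun _ => -1 : Fin 1 → ℝ) = v := by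
      funext k; rw [Subsingleton.elim k 0, h]
    rw [hv']; exact hz

section mix

variable {R : Set Q} {g0 : Gd E J} {P0 : ∀ q, C.I q → Set E} {c0 : ∀ q, C.I q → E → ℝ}
  {Y : Type*} [PseudoMetricSpace Y]

/-- **THE MIXED MESH** with a class `Af` of charts for the edges -/
theorem mesh_mixA (X : Cplx Ω Q dim K) (hR : ∀ q ∈ R, ∀ p < q, p ∈ R)
    (H0 : Inv C K R g0 P0 c0) {b : ℕ → ℝ} (hb0 : ∀ n, 0 < b n) (hb2 : ∀ n, b n < 1/2)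
    {wt : J → ℝ} (hw : ∀ j, 0 < wt j) {Λ : ℕ → Q → (E → Y) → ℝ} (Fr : Q → Set (E → Y))
    (hΛ0 : ∀ n q, ∀ B ∈ Fr q, 0 ≤ Λ n q B)
    (hΛs : ∀ n q, ∀ B ∈ Fr q, Λ n q B / (2 * b n) ≤ Λ (n + 1) q B)
    (hFr : ∀ {σ τ : Q}, σ < τ → Fr τ ⊆ Fr σ)
    (hΛR : ∀ q ∈ R, ∀ B ∈ Fr q, ∀ x, ∀ z ∈ K q,
      LB B (Λ 0 q B / wt (C.col q x)) (c0 q x) (K q) z)
    {ε : ℝ} (he0 : 0 < ε) (he1 : ε < 1) {δ : ℝ} (hδ : 0 ≤ δ) (hδ1 : δ < 1)
    (N : Set Q) (hN2 : ∀ τ ∈ N, 2 ≤ dim τ)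
    (u : Q → ℝ) (hu : ∀ τ ∉ R, τ ∉ N → 0 < u τ)
    (hus : ∀ τ ∉ R, τ ∉ N → u τ * ∑ x, wt (C.col τ x) ≤ 1/2)
    (Lf Lg : Q → (E → Y) → ℝ) (hLf : ∀ τ ∉ R, τ ∉ N → ∀ B ∈ Fr τ, 0 ≤ Lf τ B)
    (e : ∀ τ, 1 ≤ dim τ → PLEquiv (cube (dim τ)) (K τ))
    (he : ∀ τ ∉ R, τ ∉ N → ∀ hd : 1 ≤ dim τ, (e τ hd).f '' sph (dim τ) = bdS K τ)
    (hef : ∀ τ ∉ R, τ ∉ N → ∀ hd : 1 ≤ dim τ, ∀ B ∈ Fr τ, ∀ ω ∈ sph (dim τ),
      MB id B (Lf τ B) (e τ hd).f (sph (dim τ)) ω)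
    (heg : ∀ τ ∉ R, τ ∉ N → ∀ hd : 1 ≤ dim τ, ∀ B ∈ Fr τ, ∀ z ∈ K τ,
      MB B id (Lg τ B) (e τ hd).g (K τ) z)
    (k : ∀ τ, C.I τ → ℕ) (hk : ∀ τ ∉ R, dim τ = 1 → Function.Injective (k τ))
    (ord : ∀ τ ∉ R, dim τ = 1 → ∀ x x', x ≠ x' → C.fam (C.col τ x) = C.fam (C.col τ x') →
      (k τ x' < k τ x → C.side τ x x' = 1) ∧ (k τ x < k τ x' → C.side τ x x' = 0))
    (hΛ1 : ∀ τ ∉ R, dim τ = 1 → ∀ B ∈ Fr τ,
      Lg τ B / (4 * (1 - δ) * (1 - ε) * u τ) ≤ Λ 2 τ B)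
    (Bb : Q → (E → Y) → ℝ)
    (hBb : ∀ τ ∉ R, τ ∉ N → 2 ≤ dim τ → ∀ B ∈ Fr τ, ∀ σ < τ, Λ (dim τ) σ B ≤ Bb τ B)
    (hΛ2 : ∀ τ ∉ R, τ ∉ N → 2 ≤ dim τ → ∀ B ∈ Fr τ,
      7 * max (Bb τ B * Lf τ B) (1 / u τ) / (2 * b (dim τ)) * Lg τ B ≤ Λ (dim τ + 1) τ B)
    (Rl : (∀ q, C.I q → E → ℝ) → ∀ τ, C.I τ → C.I τ → Prop)
    (hRl : ∀ D g P c (_ : Inv C K D g P c), ∀ τ ∉ R, τ ∉ N → 2 ≤ dim τ → (∀ σ < τ, σ ∈ D) →
      ∃ kk : C.I τ → ℕ, Function.Injective kk ∧ ∀ x x', Rl c τ x x' → kk x' < kk x)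
    (hRI : ∀ c τ x x', Ins C K c τ x x' → Rl c τ x x')
    (Spec : ∀ q, Lam (K q) (C.I q) → Prop)
    (hS0 : ∀ τ ∉ R, dim τ = 0 → ∀ M, Spec τ M)
    (Af : ∀ (m : ℕ) (τ : Q), PLEquiv (cube m) (K τ) → Prop)
    (hAe : ∀ τ ∉ R, ∀ hd : dim τ = 1, Af (dim τ) τ (e τ hd.ge))
    (hAn : ∀ τ (e : PLEquiv (cube 1) (K τ)), Af 1 τ e → Af 1 τ (negE.trans e))
    (hS1 : ∀ τ ∉ R, dim τ = 1 → ∀ (e : PLEquiv (cube 1) (K τ)), Af 1 τ e →
      e.f '' sph 1 = bdS K τ →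
      e.f (fun _ => -1) ∈ K (C.o τ) → ∀ (p : C.I τ → ℝ)
      (hE : Ed (fun i => 4 * (1 - δ) * (1 - ε) * u τ * wt (C.col τ i)) p),
      (∀ i, |p i| + 4 * (1 - δ) * (1 - ε) * u τ * wt (C.col τ i) / 2 < 1 - δ) →
      (∀ i j, k τ j < k τ i → p j < p i) → Spec τ ((edgeLam hE).pull e.symm (X.isClosed τ)))
    (hS2 : ∀ D g P c (H : Inv C K D g P c), ∀ τ, (hd : 2 ≤ dim τ) →
      (∀ q ∈ D, Trk C K R g0 P0 c0 b Spec Fr wt Λ (dim τ) q g (P q) (c q)) →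
      ∀ (hR : τ ∉ R) (hN : τ ∉ N) (hτ : ∀ σ < τ, σ ∈ D) (κ : ℝ) (ρ : C.I τ → ℝ)
      (Dp : Dep (bdLam H X τ hτ) κ (b (dim τ)) (fun x => u τ * wt (C.col τ x)) ρ),
      (∀ x x', Rl c τ x x' → ρ x' < ρ x) →
      Spec τ (Dp.fillBall (e τ (by omega)) (he τ hR hN (by omega))))
    (ruleN : ∀ D g P c (H : Inv C K D g P c), ∀ τ ∈ N,
      (∀ q ∈ D, Trk C K R g0 P0 c0 b Spec Fr wt Λ (dim τ) q g (P q) (c q)) →
      τ ∉ R → ∀ hτ : ∀ σ < τ, σ ∈ D,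
      ∃ (e' : PLEquiv (cube (dim τ)) (K τ)) (he' : e'.f '' sph (dim τ) = bdS K τ)
        (κ : ℝ) (h ρ : C.I τ → ℝ) (Dp : Dep (bdLam H X τ hτ) κ (b (dim τ)) h ρ),
        (∀ x x', Rl c τ x x' → ρ x' < ρ x) ∧ Spec τ (Dp.fillBall e' he') ∧
        ∀ B ∈ Fr τ, ∀ x, ∀ z ∈ K τ,
          LB B (Λ (dim τ + 1) τ B / wt (C.col τ x)) ((Dp.fillBall e' he').c x) (K τ) z)
    (n : ℕ) : ∃ g P c, Inv C K (R ∪ {q | dim q < n}) g P c ∧
      ∀ q ∈ R ∪ {q | dim q < n}, Trk C K R g0 P0 c0 b Spec Fr wt Λ n q g (P q) (c q) := by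
  refine mesh_spec X hR H0 hb0 hb2 hw hΛs hΛR (fun n D g P c H hT τ hd hτR hτ => ?_) n
  subst hd
  rcases Nat.lt_or_ge (dim τ) 1 with h1 | h1
  · have h0 : dim τ = 0 := by omega
    have := C.vert τ h0
    exact ⟨emptyLam (K τ) (C.I τ), newCell_empty _, hS0 τ hτR h0 _,
      fun _ _ x => isEmptyElim x⟩
  rcases Nat.lt_or_ge (dim τ) 2 with h2 | h2
  · have hd : dim τ = 1 := by omega
    have hτN : τ ∉ N := fun h => by have := hN2 τ h; omega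
    have key : ∃ e1 : PLEquiv (cube 1) (K τ), Af 1 τ e1 ∧ e1.f '' sph 1 = bdS K τ ∧
        ∀ B ∈ Fr τ, ∀ z ∈ K τ, MB B id (Lg τ B) e1.g (K τ) z := by
      have hgen : ∀ m, dim τ = m → m = 1 → ∃ e1 : PLEquiv (cube m) (K τ), Af m τ e1 ∧
          e1.f '' sph m = bdS K τ ∧ ∀ B ∈ Fr τ, ∀ z ∈ K τ, MB B id (Lg τ B) e1.g (K τ) z := by
        rintro m rfl hm
        exact ⟨e τ hm.ge, hAe τ hτR hm, he τ hτR hτN hm.ge, heg τ hτR hτN hm.ge⟩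
      exact hgen 1 hd rfl
    obtain ⟨e1, hA1, he1', hg1⟩ := key
    obtain ⟨e2, he2, hb, hg2, hf2⟩ := exists_flipA (C := C) X hd e1 he1' hg1
    have hA2 : Af 1 τ e2 := by
      rcases hf2 with rfl | rfl
      · exact hA1
      · exact hAn τ e1 hA1
    obtain ⟨p, hE, hm, hp, hN⟩ := exists_newCell_edgeM H X hτ hd (hb0 _) (hb2 _) e2 he2 hb (k τ)
      (hk τ hτR hd) (ord τ hτR hd) (fun x => wt (C.col τ x)) (fun x => hw _) (hu τ hτR hτN)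
      (hus τ hτR hτN) he0 he1 hδ hδ1
    refine ⟨_, hN, hS1 τ hτR hd e2 hA2 he2 hb p hE hm hp, fun B hB x z hz => ?_⟩
    refine (edge_LB hE e2 (X.isClosed τ) x (hg2 B hB) hz).mono ?_
    have h3 := hΛ1 τ hτR hd B hB
    rw [hd]
    have h4 := hw (C.col τ x)
    show Lg τ B / (4 * (1 - δ) * (1 - ε) * u τ * wt (C.col τ x)) ≤ Λ 2 τ B / wt (C.col τ x)
    rw [← div_div]
    exact div_le_div_of_nonneg_right h3 h4.le
  by_cases hτN : τ ∈ N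
  · obtain ⟨e', he', κ, h, ρ, Dp, hρ, hS, hL⟩ := ruleN D g P c H τ hτN hT hτR hτ
    exact ⟨Dp.fillBall e' he', newCell_cone H X hτ h2 _ _ Dp
      fun x x' hne hf h3 h4 h5 => hρ x x' (hRI _ _ _ _ ⟨hne, hf, h3, h4, h5⟩), hS, hL⟩
  · have hC := Cst.mk' (hb0 (dim τ)) (hb2 (dim τ))
    obtain ⟨kk, hkk, hkI⟩ := hRl D g P c H τ hτR hτN h2 hτ
    obtain ⟨ρ, Dp, hρ⟩ := Cw_298.exists_dep (bdLam H X τ hτ) hC kk hkk
      (fun x => wt (C.col τ x)) (fun x => hw _) (hu τ hτR hτN) (hus τ hτR hτN)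
    have hρ' : ∀ x x', Rl c τ x x' → ρ x' < ρ x := by
      intro x x' h
      have h4 := hρ x x' (hkI x x' h)
      have h5 := mul_pos (hu τ hτR hτN) (hw (C.col τ x))
      have h6 := mul_pos (hu τ hτR hτN) (hw (C.col τ x'))
      linarith
    refine ⟨Dp.fillBall (e τ h1) (he τ hτR hτN h1), newCell_cone H X hτ h2 _ _ Dp
      fun x x' hne hf h3 h4 h5 => hρ' x x' (hRI _ _ _ _ ⟨hne, hf, h3, h4, h5⟩),
      hS2 D g P c H τ h2 hT hτR hτN hτ _ ρ Dp hρ', fun B hB x z hz => ?_⟩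
    have hwx := hw (C.col τ x)
    have hB0 : 0 ≤ Bb τ B :=
      (hΛ0 _ _ B (hFr (C.o_lt τ h1) hB)).trans (hBb τ hτR hτN h2 B hB (C.o τ) (C.o_lt τ h1))
    have hL : ∀ ω ∈ bdS K τ,
        LB B (Bb τ B / wt (C.col τ x)) ((bdLam H X τ hτ).c x) (bdS K τ) ω := by
      intro ω hω
      refine H.LB_cbd X hτ x (div_nonneg hB0 hwx.le) fun σ h y hy hz => ?_
      refine ((hT σ (hτ σ h)).ll B (hFr h hB) y ω hz).mono ?_
      have e1 : C.col σ y = C.col τ x := by rw [← hy, C.col_up]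
      rw [e1]
      exact div_le_div_of_nonneg_right (hBb τ hτR hτN h2 B hB σ h) hwx.le
    refine (Dp.fillBall_LB (e τ h1) (he τ hτR hτN h1) x (div_nonneg hB0 hwx.le)
      (hLf τ hτR hτN B hB) hL (hef τ hτR hτN h1 B hB) (heg τ hτR hτN h1 B hB) hz).mono ?_
    have h3 := hΛ2 τ hτR hτN h2 B hB
    refine le_trans (le_of_eq ?_) (div_le_div_of_nonneg_right h3 hwx.le)
    have e2 : max (Bb τ B / wt (C.col τ x) * Lf τ B) (1 / (u τ * wt (C.col τ x)))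
        = max (Bb τ B * Lf τ B) (1 / u τ) / wt (C.col τ x) := by
      rw [← max_div_div_right hwx.le, div_mul_eq_mul_div, div_div]
    show 7 * max (Bb τ B / wt (C.col τ x) * Lf τ B) (1 / (u τ * wt (C.col τ x))) /
      (2 * b (dim τ)) * Lg τ B = _
    rw [e2]; ring

end mix

end Crest.Agent.R096.Mmx_662
end

-- ▼ part R096/Mxs1_487
section

/-!
# R096 (row 96), helper487.  `mix_shape`: 662's mixed mesh with 199's numbers of the shapes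

`mesh_mixA` with `u τ = uq`, `Λ n q B = Kn (K₀ q) 1 ε' b n * omB X C wt δ B q`, `K₀ : Q → ℝ`
monotone (112 #10580 (A)); the base and the rule of the designated cells `N` in the form of all
frames (337 / 112), or in one frame (416's `hbaseD`, `LB_D`).
-/

set_option autoImplicit false
set_option linter.unusedSectionVars false

open Set Metric Filter Topology

namespace Crest.Agent.R096.Mxs_487

open Crest.Agent.R096.Ce_537 Crest.Agent.R096.Bd_416 Crest.Agent.R096.Mmx_662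
open Crest.Agent.R96.Nu1_199 Crest.Agent.R96.Nu2_199 Crest.Agent.R96.Nu3_199
open Crest.Agent.R96.Nu4_199
open Crest.Agent.R96.Nu5_199 Crest.Agent.R96.Nu6_199

open scoped Classical

noncomputable section

/-- `Kn` grows with the stage -/
theorem Kn_le_succ {K₀ A ε : ℝ} {b : ℕ → ℝ} (hK : 0 ≤ K₀) (hb0 : ∀ n, 0 < b n)
    (hb2 : ∀ n, b n < 1/2) (n : ℕ) : Kn K₀ A ε b n ≤ Kn K₀ A ε b (n + 1) := by
  rw [Kn_succ]
  refine le_max_of_le_left ?_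
  have h1 := Kn_nonneg (A := A) (ε := ε) hK hb0 n
  have h2 := hb0 n
  have h3 := hb2 n
  rw [le_div_iff₀ (by linarith)]
  nlinarith

theorem le_Kn {K₀ A ε : ℝ} {b : ℕ → ℝ} (hK : 0 ≤ K₀) (hb0 : ∀ n, 0 < b n)
    (hb2 : ∀ n, b n < 1/2) : ∀ n, K₀ ≤ Kn K₀ A ε b n
  | 0 => le_rfl
  | n + 1 => (le_Kn hK hb0 hb2 n).trans (Kn_le_succ hK hb0 hb2 n)

variable {E : Type*} [NormedAddCommGroup E] [NormedSpace ℝ E] [FiniteDimensional ℝ E]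
variable {Q : Type} [PartialOrder Q] {dim : Q → ℕ} {J Fam : Type}
variable {C : Cmb Q dim J Fam} {K : Q → Set E} {Ω : Set E}
variable {R : Set Q} {K₀ : Q → ℝ} {ε : ℝ} {b : ℕ → ℝ} {wt : J → ℝ} {δ : Q → ℝ}
variable {g0 : Gd E J} {P0 : ∀ q, C.I q → Set E} {c0 : ∀ q, C.I q → E → ℝ}

/-- the numbers of the mesh with a constant `K₀ q` of the base: `Kn (K₀ q) n * omB B q` -/
abbrev LamK (X : Cplx Ω Q dim K) (C : Cmb Q dim J Fam) (K₀ : Q → ℝ) (ε : ℝ) (b : ℕ → ℝ)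
    (wt : J → ℝ) (δ : Q → ℝ) : ℕ → Q → (E → E) → ℝ :=
  fun n q B => Kn (K₀ q) 1 ε b n * omB X C wt δ B q



/-- **THE CONSTANT OF A TILE IN A FRAME** with `K₀ : Q → ℝ` (199's `lam_tile`) -/
theorem lam_tileK (X : Cplx Ω Q dim K) (hw : ∀ j, 0 < wt j) (hb0 : ∀ n, 0 < b n)
    (hK : ∀ q, 0 ≤ K₀ q) (hδ : ∀ q, 0 < δ q) {m : ℕ} {q : Q} (hq : 2 ≤ dim q) (hm : dim q ≤ m)
    {B : E ≃ᵃ[ℝ] E} {𝒦 : Set (Set E)} (h𝒦 : 𝒦.Finite) (hB : ∀ σ ≤ q, B '' K σ ∈ 𝒦)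
    (hinj : ∀ σ ≤ q, ∀ σ' ≤ q, K σ = K σ' → σ = σ') {d : ℝ} (hd : ∀ σ ≤ q, δ σ ≤ d)
    (hne : ∀ σ ≤ q, 2 ≤ dim σ → ∀ x : C.I σ, ∃ e, ∃ h : e < σ, dim e = 1 ∧
      ∃ y : C.I e, C.up h y = x) :
    LamK X C K₀ ε b wt δ (m + 1) q B ≤
      C𝒦 (K₀ q) ε b m 𝒦 * (∑ e ∈ edg X q, Wd C wt e + d) :=
  lam_tile X hw hb0 (hK q) hδ hq hm h𝒦 hB hinj hd hne

end

end Crest.Agent.R096.Mxs_487
end

-- ▼ part R096/Mi3_117
section

/-!
# R096 (row 96), MESH-INST, part 3 (helper117): **`mesh_instX`** = the mixed mesh (487's `mix_shape`)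
over a labelled mesh, base in 416's form `BaseC`: designated cells `N` with a rule, a margin on the
edges (affine charts), one more predicate `SpecX`.  One theorem for MachBF (`N = ∅`, `mesh_inst'`) and
MachNO.
-/

set_option autoImplicit false
set_option linter.unusedSectionVars false

open Set Metric

namespace Crest.Agent.R096.Mi_117

open Crest.Agent.R096.Ce_537 Crest.Agent.R096.Bd_416 Crest.Agent.R096.Arc_778
open Crest.Agent.R096.St_147 Crest.Agent.R096.Seq_213 Crest.Agent.R096.Lm_117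
open Crest.Agent.R096.Cb_609 Crest.Agent.R096.Pl
open Crest.Agent.R96.Nu1_199 Crest.Agent.R96.Nu2_199 Crest.Agent.R96.Nu3_199
open Crest.Agent.R96.Nu4_199 Crest.Agent.R96.Nu5_199 Crest.Agent.R96.Nu6_199
open Crest.Agent.R096.Mxs_487 Crest.Agent.R096.Be_416

open scoped Classical

section base

variable {V : Type*} [NormedAddCommGroup V] [NormedSpace ℝ V] [FiniteDimensional ℝ V]
  {Q : Type} [PartialOrder Q] {dim : Q → ℕ} {J Fam : Type} {Cm : Cmb Q dim J Fam}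
  {K : Q → Set V}


end base

/-- `SpecG` and one more predicate -/
def SpecGX {Q : Type} [PartialOrder Q] {dim : Q → ℕ} {J Fam : Type} {E : Type*}
    [NormedAddCommGroup E] [NormedSpace ℝ E] (C : Cmb Q dim J Fam) (K : Q → Set E)
    (k : ∀ q, C.I q → ℕ) (SpecX : ∀ q, Bd_416.Lam (K q) (C.I q) → Prop) (q : Q)
    (M : Bd_416.Lam (K q) (C.I q)) : Prop := SpecG C K k q M ∧ SpecX q M

variable {ι Φ W Q J Fm : Type} {M : MeshC ι Φ W} [PartialOrder Q] {dim : Q → ℕ}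
variable {L : LM M Q dim} {fam : J → Fm} {s : GSt M fam}
variable {E : Type*} [NormedAddCommGroup E] [NormedSpace ℝ E] [FiniteDimensional ℝ E]
variable {h : LF L s} {Lam : J → Q → ZMod 2} {hLam : ∀ j c, L.toSk.XL (gP s j) (Lam j) c}
variable {K : Q → Set E} {Ω : Set E} {R : Set Q} {g0 : Gd E J}
  {P0 : ∀ q, (cmb h Lam hLam).I q → Set E} {c0 : ∀ q, (cmb h Lam hLam).I q → E → ℝ}
  {K₀ δ : Q → ℝ} {ε : ℝ} {b : ℕ → ℝ} {wt : J → ℝ}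

/-- the tracked data of the final structure, mixed mesh -/
abbrev TrkX (X : Cplx Ω Q dim K) (R : Set Q) (g0 : Gd E J)
    (P0 : ∀ q, (cmb h Lam hLam).I q → Set E) (c0 : ∀ q, (cmb h Lam hLam).I q → E → ℝ)
    (SpecX : ∀ q, Bd_416.Lam (K q) ((cmb h Lam hLam).I q) → Prop)
    (K₀ δ : Q → ℝ) (ε : ℝ) (b : ℕ → ℝ) (wt : J → ℝ) (n : ℕ) (g : Gd E J)
    (P : ∀ q, (cmb h Lam hLam).I q → Set E) (c : ∀ q, (cmb h Lam hLam).I q → E → ℝ) (q : Q) :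
    Prop :=
  Trk (cmb h Lam hLam) K R g0 P0 c0 b (SpecGX (cmb h Lam hLam) K (ek h) SpecX) (fun _ => FrA E) wt
    (LamK X (cmb h Lam hLam) K₀ ε b wt δ) n q g (P q) (c q)



end Crest.Agent.R096.Mi_117
end

-- ▼ part R096/Mxs2_487
section

/-!
# R096 (row 96), helper487.  `mix_shapeT`: `mix_shape` with a factor `th` on the widths of the edges
-/
set_option autoImplicit false
set_option linter.unusedSectionVars false

open Set Metric Filter Topology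

namespace Crest.Agent.R096.Mxs_487

open Crest.Agent.R096.Ce_537 Crest.Agent.R096.Bd_416 Crest.Agent.R096.Mmx_662
open Crest.Agent.R96.Nu1_199 Crest.Agent.R96.Nu2_199 Crest.Agent.R96.Nu3_199
open Crest.Agent.R96.Nu4_199
open Crest.Agent.R96.Nu5_199 Crest.Agent.R96.Nu6_199

open scoped Classical

noncomputable section

variable {E : Type*} [NormedAddCommGroup E] [NormedSpace ℝ E] [FiniteDimensional ℝ E]
variable {Q : Type} [PartialOrder Q] {dim : Q → ℕ} {J Fam : Type}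
variable {C : Cmb Q dim J Fam} {K : Q → Set E} {Ω : Set E}
variable {R : Set Q} {K₀ : Q → ℝ} {ε : ℝ} {b : ℕ → ℝ} {wt : J → ℝ} {δ : Q → ℝ}
variable {g0 : Gd E J} {P0 : ∀ q, C.I q → Set E} {c0 : ∀ q, C.I q → E → ℝ}

/-- **THE MIXED MESH, ALL FRAMES AT ONCE** (`e` from `exists_e` or `exists_eA`), with a factor `th`:
`u τ = th τ * uq C wt δ τ`, `th τ = 1` for the cells of dimension `≥ 2` outside `R ∪ N`
(928 #10867, 335 (E10)). -/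
theorem mix_shapeT (X : Cplx Ω Q dim K) (N : Set Q)
    (hw : ∀ j, 0 < wt j) (hb0 : ∀ n, 0 < b n) (hb2 : ∀ n, b n < 1/2) (hε0 : 0 < ε) (hε1 : ε < 1)
    {δm : ℝ} (hδm : 0 ≤ δm) (hδm1 : δm < 1) {ε' : ℝ} (hε'0 : 0 < ε') (hε'1 : ε' < 1)
    {th : Q → ℝ} (hth0 : ∀ τ, 0 < th τ) (hth1 : ∀ τ, th τ ≤ 1)
    (hth : ∀ τ ∉ R, τ ∉ N → 2 ≤ dim τ → th τ = 1)
    (hε' : ∀ τ ∉ R, dim τ = 1 → 1 - ε' ≤ (1 - δm) * (1 - ε) * th τ)
    (hK : ∀ q, 0 ≤ K₀ q) (hKm : ∀ σ τ : Q, σ < τ → K₀ σ ≤ K₀ τ)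
    (hδ : ∀ q, 0 < δ q)
    (hR : ∀ q ∈ R, ∀ p < q, p ∈ R) (H0 : Inv C K R g0 P0 c0)
    (hbase : ∀ q ∈ R, ∀ B : E ≃ᵃ[ℝ] E, ∀ x, ∀ z ∈ K q,
      LB B (K₀ q * (AAc (dim q) (B '' K q) * (Wd C wt q + δ q)) / wt (C.col q x)) (c0 q x)
        (K q) z)
    (hN2 : ∀ τ ∈ N, 2 ≤ dim τ)
    (e : ∀ τ, 1 ≤ dim τ → PLEquiv (cube (dim τ)) (K τ))
    (he : ∀ τ, ∀ hd : 1 ≤ dim τ, (e τ hd).f '' sph (dim τ) = bdS K τ)
    (hef : ∀ τ, ∀ hd : 1 ≤ dim τ, ∀ B ∈ FrA E, ∀ v ∈ cube (dim τ),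
      MB id B (AAc (dim τ) (B '' K τ)) (e τ hd).f (cube (dim τ)) v)
    (heg : ∀ τ, ∀ hd : 1 ≤ dim τ, ∀ B ∈ FrA E, ∀ z ∈ K τ,
      MB B id (AAc (dim τ) (B '' K τ)) (e τ hd).g (K τ) z)
    (k : ∀ τ, C.I τ → ℕ) (hk : ∀ τ ∉ R, dim τ = 1 → Function.Injective (k τ))
    (ord : ∀ τ ∉ R, dim τ = 1 → ∀ x x', x ≠ x' → C.fam (C.col τ x) = C.fam (C.col τ x') →
      (k τ x' < k τ x → C.side τ x x' = 1) ∧ (k τ x < k τ x' → C.side τ x x' = 0))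
    (Rl : (∀ q, C.I q → E → ℝ) → ∀ τ, C.I τ → C.I τ → Prop)
    (hRl : ∀ D g P c (_ : Inv C K D g P c), ∀ τ ∉ R, τ ∉ N → 2 ≤ dim τ → (∀ σ < τ, σ ∈ D) →
      ∃ kk : C.I τ → ℕ, Function.Injective kk ∧ ∀ x x', Rl c τ x x' → kk x' < kk x)
    (hRI : ∀ c τ x x', Ins C K c τ x x' → Rl c τ x x')
    (Spec : ∀ q, Lam (K q) (C.I q) → Prop)
    (hS0 : ∀ τ ∉ R, dim τ = 0 → ∀ M, Spec τ M)
    (Af : ∀ (m : ℕ) (τ : Q), PLEquiv (cube m) (K τ) → Prop)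
    (hAe : ∀ τ ∉ R, ∀ hd : dim τ = 1, Af (dim τ) τ (e τ hd.ge))
    (hAn : ∀ τ (e : PLEquiv (cube 1) (K τ)), Af 1 τ e → Af 1 τ (negE.trans e))
    (hS1 : ∀ τ ∉ R, dim τ = 1 → ∀ (e : PLEquiv (cube 1) (K τ)), Af 1 τ e →
      e.f '' sph 1 = bdS K τ →
      e.f (fun _ => -1) ∈ K (C.o τ) → ∀ (p : C.I τ → ℝ)
      (hE : Ed (fun i => 4 * (1 - δm) * (1 - ε) * (th τ * uq C wt δ τ) * wt (C.col τ i)) p),
      (∀ i, |p i| + 4 * (1 - δm) * (1 - ε) * (th τ * uq C wt δ τ) * wt (C.col τ i) / 2 < 1 - δm) →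
      (∀ i j, k τ j < k τ i → p j < p i) → Spec τ ((edgeLam hE).pull e.symm (X.isClosed τ)))
    (hS2 : ∀ D g P c (H : Inv C K D g P c), ∀ τ, (hd : 2 ≤ dim τ) →
      (∀ q ∈ D, Trk C K R g0 P0 c0 b Spec (fun _ => FrA E) wt (LamK X C K₀ ε' b wt δ) (dim τ) q g
        (P q) (c q)) →
      ∀ (_ : τ ∉ R) (_ : τ ∉ N) (hτ : ∀ σ < τ, σ ∈ D) (κ : ℝ) (ρ : C.I τ → ℝ)
      (Dp : Dep (bdLam H X τ hτ) κ (b (dim τ)) (fun x => (th τ * uq C wt δ τ) * wt (C.col τ x)) ρ),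
      (∀ x x', Rl c τ x x' → ρ x' < ρ x) →
      Spec τ (Dp.fillBall (e τ (by omega)) (he τ (by omega))))
    (ruleN : ∀ D g P c (H : Inv C K D g P c), ∀ τ ∈ N,
      (∀ q ∈ D, Trk C K R g0 P0 c0 b Spec (fun _ => FrA E) wt (LamK X C K₀ ε' b wt δ) (dim τ) q g
        (P q) (c q)) →
      τ ∉ R → ∀ hτ : ∀ σ < τ, σ ∈ D,
      ∃ (e' : PLEquiv (cube (dim τ)) (K τ)) (he' : e'.f '' sph (dim τ) = bdS K τ)
        (κ : ℝ) (h ρ : C.I τ → ℝ) (Dp : Dep (bdLam H X τ hτ) κ (b (dim τ)) h ρ),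
        (∀ x x', Rl c τ x x' → ρ x' < ρ x) ∧ Spec τ (Dp.fillBall e' he') ∧
        ∀ B : E ≃ᵃ[ℝ] E, ∀ x, ∀ z ∈ K τ,
          LB B (K₀ τ * (AAc (dim τ) (B '' K τ) * (Wd C wt τ + δ τ)) / wt (C.col τ x))
            ((Dp.fillBall e' he').c x) (K τ) z)
    (n : ℕ) : ∃ g P c, Inv C K (R ∪ {q | dim q < n}) g P c ∧
      ∀ q ∈ R ∪ {q | dim q < n}, Trk C K R g0 P0 c0 b Spec (fun _ => FrA E) wt
        (LamK X C K₀ ε' b wt δ) n q g (P q) (c q) := by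
  have num : ∀ (k₀ : ℝ) (_ : 0 ≤ k₀) (B : E → E), Num C R wt k₀ 1 ε' b (omB X C wt δ B) δ
      (fun τ => AAc (dim τ) (B '' K τ)) (fun τ => AAc (dim τ) (B '' K τ)) := fun k₀ hk₀ B =>
    num_omB X hw hb0 hb2 hε'0 hε'1 hk₀ hδ B
  have N0 := num 0 le_rfl (fun x => x)
  refine mesh_mixA X hR H0 hb0 hb2 hw (Λ := LamK X C K₀ ε' b wt δ) (fun _ => FrA E)
    (fun n q B _ => (num _ (hK q) B).lam0 n q) (fun n q B _ => (num _ (hK q) B).lamS n q)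
    (fun _ => Subset.rfl) ?_ hε0 hε1 hδm hδm1 N hN2 (fun τ => th τ * uq C wt δ τ)
    (fun τ _ _ => mul_pos (hth0 τ) (N0.u0 τ)) (fun τ _ _ => ?_) (fun τ B => AAc (dim τ) (B '' K τ)) (fun τ B => AAc (dim τ) (B '' K τ))
    (fun τ _ _ B _ => (AAc_pos _ _).le) e (fun τ _ _ hd => he τ hd)
    (fun τ _ _ hd B hB v hv => ?_) (fun τ _ _ hd B hB z hz => heg τ hd B hB z hz) k hk ord
    (fun τ hτ hd B _ => ?_)
    (fun τ B => Bbq X R (K₀ τ) 1 ε' b (omB X C wt δ B) (fun τ => AAc (dim τ) (B '' K τ))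
      (fun τ => AAc (dim τ) (B '' K τ)) τ)
    (fun τ _ _ h2 B _ σ hσ => ?_) (fun τ hτ hN h2 B _ => ?_)
    Rl hRl hRI Spec hS0 Af hAe hAn hS1 hS2 (fun D g P c H τ hτN hT hτR hτ => ?_) n
  · -- the base
    rintro q hq _ ⟨B, rfl⟩ x z hz
    refine (hbase q hq B x z hz).mono (div_le_div_of_nonneg_right ?_ (hw _).le)
    exact mul_le_mul_of_nonneg_left (omB_ge (C := C) X hw hδ (B : E → E) q) (hK q)
  · -- the widths
    rw [mul_assoc]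
    have h1 : 0 ≤ uq C wt δ τ * ∑ x, wt (C.col τ x) :=
      mul_nonneg (N0.u0 τ).le (Finset.sum_nonneg fun _ _ => (hw _).le)
    have h2 := N0.uS τ
    have h3 := mul_le_mul_of_nonneg_right (hth1 τ) h1
    rw [one_mul] at h3
    exact h3.trans h2
  · exact (hef τ hd B hB v (sph_subset_cube hv)).filter_mono
      (nhdsWithin_mono _ fun _ h => sph_subset_cube h)
  · -- the edges
    refine le_trans ?_ ((num _ (hK τ) B).lam1 τ hτ hd)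
    have h1 : 0 < 1 - ε' := by linarith
    have h2 := N0.u0 τ
    have h3 := AAc_pos (dim τ) (B '' K τ)
    refine div_le_div_of_nonneg_left h3.le (by positivity) ?_
    have h4 := mul_le_mul_of_nonneg_right (hε' τ hτ hd) h2.le
    nlinarith
  · -- the faces
    refine le_trans ?_ ((num _ (hK τ) B).Bb_le X τ h2 σ hσ)
    exact mul_le_mul_of_nonneg_right (Knm_955.Kn_le (hK σ) (hKm σ τ hσ) zero_le_one le_rfl le_rfl
      hε'1 hb0 (fun _ => le_rfl) _) ((num _ (hK σ) B).ω0 σ)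
  · -- the cells of dimension at least two
    have h1 := (num _ (hK τ) B).lam2 X τ hτ h2
    show 7 * max (_ * _) (1 / (th τ * uq C wt δ τ)) / _ * _ ≤ _
    rw [hth τ hτ hN h2, one_mul]
    exact h1
  · -- the designated cells
    obtain ⟨e', he', κ, h, ρ, Dp, hρ, hS, hA⟩ := ruleN D g P c H τ hτN hT hτR hτ
    refine ⟨e', he', κ, h, ρ, Dp, hρ, hS, ?_⟩
    rintro _ ⟨B, rfl⟩ x z hz
    refine (hA B x z hz).mono (div_le_div_of_nonneg_right ?_ (hw _).le)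
    calc K₀ τ * (AAc (dim τ) (B '' K τ) * (Wd C wt τ + δ τ))
        ≤ K₀ τ * omB X C wt δ B τ :=
          mul_le_mul_of_nonneg_left (omB_ge (C := C) X hw hδ (B : E → E) τ) (hK τ)
      _ ≤ _ := mul_le_mul_of_nonneg_right (le_Kn (hK τ) hb0 hb2 _) ((num _ (hK τ) B).ω0 τ)

end

end Crest.Agent.R096.Mxs_487
end

-- ▼ part R096/Mi4_117
section

/-!
# R096 (row 96), MESH-INST, part 4 (helper117): `mesh_instT` = `mesh_instX` with 928's factor `th` of the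
widths (487's `mix_shapeT`)
-/

set_option autoImplicit false
set_option linter.unusedSectionVars false

open Set Metric

namespace Crest.Agent.R096.Mi_117

open Crest.Agent.R096.Ce_537 Crest.Agent.R096.Bd_416 Crest.Agent.R096.Arc_778
open Crest.Agent.R096.St_147 Crest.Agent.R096.Seq_213 Crest.Agent.R096.Lm_117
open Crest.Agent.R096.Cb_609 Crest.Agent.R096.Pl
open Crest.Agent.R96.Nu1_199 Crest.Agent.R96.Nu2_199 Crest.Agent.R96.Nu3_199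
open Crest.Agent.R96.Nu4_199 Crest.Agent.R96.Nu5_199 Crest.Agent.R96.Nu6_199
open Crest.Agent.R096.Mxs_487 Crest.Agent.R096.Be_416

open scoped Classical

variable {ι Φ W Q J Fm : Type} {M : MeshC ι Φ W} [PartialOrder Q] {dim : Q → ℕ}
variable {L : LM M Q dim} {fam : J → Fm} {s : GSt M fam}
variable {E : Type*} [NormedAddCommGroup E] [NormedSpace ℝ E] [FiniteDimensional ℝ E]
variable {h : LF L s} {Lam : J → Q → ZMod 2} {hLam : ∀ j c, L.toSk.XL (gP s j) (Lam j) c}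
variable {K : Q → Set E} {Ω : Set E} {R : Set Q} {g0 : Gd E J}
  {P0 : ∀ q, (cmb h Lam hLam).I q → Set E} {c0 : ∀ q, (cmb h Lam hLam).I q → E → ℝ}
  {K₀ δ : Q → ℝ} {ε : ℝ} {b : ℕ → ℝ} {wt : J → ℝ}

/-- **MESH-INST, mixed form with a factor `th` of the widths** (487's `mix_shapeT`) -/
theorem mesh_instT (X : Cplx Ω Q dim K) (T : Top3 L) (hconv : ∀ τ, Convex ℝ (K τ))
    (hcpt : ∀ τ, IsCompact (K τ)) (hbd : ∀ τ, bdS K τ = K τ \ ri (K τ))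
    (hw : ∀ j, 0 < wt j) (hb0 : ∀ n, 0 < b n) (hb2 : ∀ n, b n < 1/2) (hε0 : 0 < ε) (hε1 : ε < 1)
    {δm : ℝ} (hδm : 0 ≤ δm) (hδm1 : δm < 1) {ε' : ℝ} (hε'0 : 0 < ε') (hε'1 : ε' < 1)
    (N : Set Q) (hN2 : ∀ τ ∈ N, 2 ≤ dim τ)
    {th : Q → ℝ} (hth0 : ∀ τ, 0 < th τ) (hth1 : ∀ τ, th τ ≤ 1)
    (hth : ∀ τ ∉ R, τ ∉ N → 2 ≤ dim τ → th τ = 1)
    (hε' : ∀ τ ∉ R, dim τ = 1 → 1 - ε' ≤ (1 - δm) * (1 - ε) * th τ)
    (hK : ∀ q, 0 ≤ K₀ q) (hKm : ∀ σ τ : Q, σ < τ → K₀ σ ≤ K₀ τ)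
    (hδ : ∀ q, 0 < δ q) {κb : ℝ} (B : BaseC (cmb h Lam hLam) K wt κb R g0 P0 c0)
    (hKR : ∀ q ∈ R, κb ≤ K₀ q)
    (SpecX : ∀ q, Bd_416.Lam (K q) ((cmb h Lam hLam).I q) → Prop)
    (hX0 : ∀ τ ∉ R, dim τ = 0 → ∀ M, SpecX τ M)
    (hX1 : ∀ τ ∉ R, dim τ = 1 → ∀ (e : PLEquiv (cube 1) (K τ)), AffC e →
      e.f '' sph 1 = bdS K τ →
      e.f (fun _ => -1) ∈ K ((cmb h Lam hLam).o τ) → ∀ (p : (cmb h Lam hLam).I τ → ℝ)
      (hE : Ed (fun i => 4 * (1 - δm) * (1 - ε) * (th τ * uq (cmb h Lam hLam) wt δ τ) *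
        wt ((cmb h Lam hLam).col τ i)) p),
      (∀ i, |p i| + 4 * (1 - δm) * (1 - ε) * (th τ * uq (cmb h Lam hLam) wt δ τ) *
        wt ((cmb h Lam hLam).col τ i) / 2 < 1 - δm) →
      (∀ i j, ek h τ j < ek h τ i → p j < p i) →
      SpecX τ ((edgeLam hE).pull e.symm (X.isClosed τ)))
    (hX2 : ∀ D g P c (H : Inv (cmb h Lam hLam) K D g P c), ∀ τ, 2 ≤ dim τ →
      (∀ q ∈ D, TrkX X R g0 P0 c0 SpecX K₀ δ ε' b wt (dim τ) g P c q) →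
      ∀ (_ : τ ∉ R) (_ : τ ∉ N) (hτ : ∀ σ < τ, σ ∈ D) (κ : ℝ) (ρ : (cmb h Lam hLam).I τ → ℝ)
      (Dp : Dep (bdLam H X τ hτ) κ (b (dim τ)) (fun x => (th τ * uq (cmb h Lam hLam) wt δ τ) *
        wt ((cmb h Lam hLam).col τ x)) ρ),
      (∀ x x', RlG (cmb h Lam hLam) K c τ x x' → ρ x' < ρ x) →
      ∀ (e : PLEquiv (cube (dim τ)) (K τ)) (he : e.f '' sph (dim τ) = bdS K τ),
      SpecX τ (Dp.fillBall e he))
    (ruleN : ∀ D g P c (H : Inv (cmb h Lam hLam) K D g P c), ∀ τ ∈ N,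
      (∀ q ∈ D, TrkX X R g0 P0 c0 SpecX K₀ δ ε' b wt (dim τ) g P c q) →
      τ ∉ R → ∀ hτ : ∀ σ < τ, σ ∈ D,
      ∃ (e' : PLEquiv (cube (dim τ)) (K τ)) (he' : e'.f '' sph (dim τ) = bdS K τ)
        (κ : ℝ) (h' ρ : (cmb h Lam hLam).I τ → ℝ) (Dp : Dep (bdLam H X τ hτ) κ (b (dim τ)) h' ρ),
        (∀ x x', RlG (cmb h Lam hLam) K c τ x x' → ρ x' < ρ x) ∧ SpecX τ (Dp.fillBall e' he') ∧
        ∀ B : E ≃ᵃ[ℝ] E, ∀ x, ∀ z ∈ K τ,
          LB B (K₀ τ * (AAc (dim τ) (B '' K τ) * (Wd (cmb h Lam hLam) wt τ + δ τ)) /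
            wt ((cmb h Lam hLam).col τ x)) ((Dp.fillBall e' he').c x) (K τ) z) :
    ∃ g P c, Inv (cmb h Lam hLam) K univ g P c ∧ MGeo h Lam hLam K R c ∧
      ∀ q, TrkX X R g0 P0 c0 SpecX K₀ δ ε' b wt 4 g P c q := by
  obtain ⟨e, he, hef, heg, hea⟩ := exists_eA X hconv hcpt hbd
  have hbase : ∀ q ∈ R, ∀ F : E ≃ᵃ[ℝ] E, ∀ x, ∀ z ∈ K q,
      LB F (K₀ q * (AAc (dim q) (F '' K q) * (Wd (cmb h Lam hLam) wt q + δ q)) /
        wt ((cmb h Lam hLam).col q x)) (c0 q x) (K q) z := by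
    intro q hq F x z hz
    refine (B.num q hq F (δ q) (hδ q).le x z hz).mono (div_le_div_of_nonneg_right ?_ (hw _).le)
    refine mul_le_mul_of_nonneg_right (hKR q hq) (mul_nonneg (AAc_pos _ _).le ?_)
    have h1 := Wd_nonneg (C := cmb h Lam hLam) hw q
    have h2 := hδ q
    linarith
  obtain ⟨g, P, c, H, hT⟩ := mix_shapeT (C := cmb h Lam hLam) X N hw hb0 hb2 hε0 hε1 hδm hδm1
    hε'0 hε'1 hth0 hth1 hth hε' hK hKm hδ B.down B.inv hbase hN2 e he hef heg (ek h) (fun τ _ hd => ek_inj h τ hd)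
    (fun τ _ hd x x' hne _ => cmb_ord h Lam hLam τ hd x x' hne)
    (fun c τ => RlG (cmb h Lam hLam) K c τ)
    (fun D g P c H τ _ _ hd hτ => rlG_rank X D g P c H τ hd hτ)
    (fun c τ x x' h' => rlG_ins c τ x x' h')
    (SpecGX (cmb h Lam hLam) K (ek h) SpecX) (fun τ hR hd M' => ⟨specG0 hd M', hX0 τ hR hd M'⟩)
    (fun m τ e => AffC e) (fun τ _ hd => hea τ hd.ge hd) (fun τ e he => he.neg)
    (fun τ hR hd e ha he hb p hE hm hord => ⟨specG1 X hd e he hb hE hord,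
      hX1 τ hR hd e ha he hb p hE hm hord⟩)
    (fun D g P c H τ hd hT hR hN hτ κ ρ Dp hρ => ⟨specG2 H X hd hτ Dp hρ _ _,
      hX2 D g P c H τ hd hT hR hN hτ κ ρ Dp hρ _ _⟩)
    (fun D g P c H τ hN hT hR hτ => by
      obtain ⟨e', he', κ, h', ρ, Dp, h1, h2, h3⟩ := ruleN D g P c H τ hN hT hR hτ
      exact ⟨e', he', κ, h', ρ, Dp, h1, ⟨specG2 H X (hN2 τ hN) hτ Dp h1 _ _, h2⟩, h3⟩) 4
  have hall : ∀ q, q ∈ R ∪ {q | dim q < 4} := fun q => Or.inr (by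
    have := T.dim_le q
    show dim q < 4
    omega)
  have hU : R ∪ {q | dim q < 4} = univ := eq_univ_of_forall hall
  rw [hU] at H
  exact ⟨g, P, c, H, mgeo_of_trk X T H hb0 (fun _ _ h' => h'.1) (fun q => hT q (hall q)) B.geo
    (go_of_fam B.inv Subset.rfl B.fam1), fun q => hT q (hall q)⟩

end Crest.Agent.R096.Mi_117
end

-- ▼ part R096/Csub9_487

/-!
# R096 (row 96), helper487.  The numbers of a tile in the MIXED mesh (534 #11010 (f)).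

* `CUe K ε m 𝒦` = the constant of a configuration for the numbers `K` (bound of `K₀ q`), `ε < 1`,
  `b ≥ 1/4`; `CU K m 𝒦 = CUe K (1/2) m 𝒦` by definition;
* `CellIx.tile_pieceD` (extra weights `δ ≤ d` below the tile), `CellIx.tile_pieceE`,
  `CellIx.tile_famE`;
* `K0x R Kb KN` : `max KN Kb` on the cells which touch the given part, `KN` elsewhere;
* `LB_tile_mix` : the tile of the labelled mesh (`TrkX`, 117).
-/

set_option autoImplicit false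
set_option linter.unusedSectionVars false

open Set Metric Filter Topology Module

namespace Crest.Agent.R096.Csub_487

open Crest.Agent.R096.Ce_537 Crest.Agent.R096.Bd_416 Crest.Agent.R096.Msh_715
open Crest.Agent.R096.Lm_117 (QK Bel dimK OutK belK)
open Crest.Agent.R96.Nu3_199 Crest.Agent.R96.Nu5_199 Crest.Agent.R96.Nu6_199
open Crest.Agent.R96.Nu7_199 Crest.Agent.R96.Nu8_199
open Crest.Agent.R096.Nk_955 (LamSk tile_piece_k tile_fam_k lam_tile_k K0f K0f_nonneg K0f_mono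
  K0f_le K0f_of_mem K0f_of_not)

open scoped Classical

noncomputable section

section Cst

variable {E : Type*} [NormedAddCommGroup E] [NormedSpace ℝ E] [FiniteDimensional ℝ E]

/-- the constant of a configuration for `K₀ q ≤ K`, the given `ε`, and `b ≥ 1/4` -/
def CUe (K ε : ℝ) (m : ℕ) (𝒦 : Set (Set E)) : ℝ := C𝒦 K ε (fun _ => 1/4) m 𝒦


theorem CUe_nonneg {K ε : ℝ} (hK : 0 ≤ K) (m : ℕ) (𝒦 : Set (Set E)) : 0 ≤ CUe K ε m 𝒦 :=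
  C𝒦_nonneg hK (fun _ => by norm_num) m 𝒦


theorem C𝒦_le_CUe {K₀ K₁ ε ε₁ : ℝ} {b : ℕ → ℝ} (hK : 0 ≤ K₀) (hKK : K₀ ≤ K₁) (hε : ε ≤ ε₁)
    (hε1 : ε₁ < 1) (hb : ∀ n, 1/4 ≤ b n) (m : ℕ) (𝒦 : Set (Set E)) :
    C𝒦 K₀ ε b m 𝒦 ≤ CUe K₁ ε₁ m 𝒦 :=
  C𝒦_mono hK hKK hε hε1 (fun _ => by norm_num) hb m 𝒦

end Cst

section K0

variable {Q : Type} [PartialOrder Q] {R : Set Q} {Kb KN : ℝ}

/-- `K₀` of the mixed mesh: `KN` everywhere, `max KN Kb` on the cells with a face in `R` -/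
def K0x (R : Set Q) (Kb KN : ℝ) (q : Q) : ℝ := max KN (K0f R Kb q)

theorem K0x_nonneg (h : 0 ≤ KN) (q : Q) : 0 ≤ K0x R Kb KN q := le_max_of_le_left h

theorem K0x_mono (h : 0 ≤ Kb) {σ τ : Q} (hσ : σ ≤ τ) : K0x R Kb KN σ ≤ K0x R Kb KN τ :=
  max_le_max le_rfl (K0f_mono h hσ)

theorem le_K0x (q : Q) : KN ≤ K0x R Kb KN q := le_max_left _ _

theorem le_K0x_of_mem {q : Q} (hq : q ∈ R) : Kb ≤ K0x R Kb KN q := by
  unfold K0x; rw [K0f_of_mem hq]; exact le_max_right _ _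

theorem K0x_le (h : 0 ≤ Kb) (q : Q) : K0x R Kb KN q ≤ max KN Kb := max_le_max le_rfl (K0f_le h q)

theorem K0x_of_not (h : 0 ≤ KN) {q : Q} (hq : ∀ σ ≤ q, σ ∉ R) : K0x R Kb KN q = KN := by
  unfold K0x; rw [K0f_of_not hq]; exact max_eq_left h

end K0

variable {E : Type} [NormedAddCommGroup E] [NormedSpace ℝ E] [FiniteDimensional ℝ E]
variable {Om : Set E} {ι κ : Type} {T : Tiling Om ι} {Kc : κ → Set E}

namespace CellIx

variable {Q : Type} [PartialOrder Q] {dim : Q → ℕ} {K : Q → Set E} {cell : Q → T.Cell}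
  (h : CellIx T dim K cell)

include h

variable {J Fam : Type} {C : Cmb Q dim J Fam} {R : Set Q} {K₀ : Q → ℝ} {ε : ℝ} {b : ℕ → ℝ}
  {wt : J → ℝ} {δ : Q → ℝ} {g0 : Gd E J} {P0 : ∀ q, C.I q → Set E} {c0 : ∀ q, C.I q → E → ℝ}
  {Ω' : Set E}


/-- **the pieces of a tile** -/
theorem tile_pieceE (X : Cplx Ω' Q dim K) (h2 : 2 ≤ finrank ℝ E) (hw : ∀ j, 0 < wt j)
    (hb0 : ∀ n, 1/4 ≤ b n) {ε₁ : ℝ} (hε : ε ≤ ε₁) (hε1 : ε₁ < 1) (hK : ∀ q, 0 ≤ K₀ q)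
    (hδ : ∀ q, 0 < δ q) (hδ2 : ∀ q, 0 < WE X C wt q → ∀ σ ≤ q, δ σ ≤ WE X C wt q)
    {i : ι} {q : Q} (hqi : K q = P (T.H i))
    (hne : ∀ σ ≤ q, 2 ≤ dim σ → ∀ x : C.I σ, ∃ e, ∃ h : e < σ, dim e = 1 ∧
      ∃ y : C.I e, C.up h y = x)
    {Spec : ∀ q, Lam (K q) (C.I q) → Prop} {g : Gd E J} {P : C.I q → Set E} {c : C.I q → E → ℝ}
    (hT : Trk C K R g0 P0 c0 b Spec (fun _ => FrA E) wt (LamSk X C K₀ ε b wt δ)
      (finrank ℝ E + 1) q g P c)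
    {K₁ : ℝ} (hK1 : K₀ q ≤ K₁) {N : ℝ} (hN : WE X C wt q ≤ N)
    (B : E ≃ᵃ[ℝ] E) (x : C.I q) {z : E} (hz : z ∈ K q) :
    LB B (2 * CUe K₁ ε₁ (finrank ℝ E) (CfgB T i B) * N / wt (C.col q x)) (c x) (K q) z := by
  have hb0' : ∀ n, 0 < b n := fun n => by have := hb0 n; linarith
  refine (h.tile_piece X h2 hw hb0' hK hδ hδ2 hqi hne hT B x hz).mono
    (div_le_div_of_nonneg_right ?_ (hw _).le)
  have h1 := C𝒦_le_CUe (hK _) hK1 hε hε1 hb0 (finrank ℝ E) (CfgB T i B)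
  have h3 := WE_nonneg (C := C) X hw q
  have h4 := CUe_nonneg (ε := ε₁) ((hK _).trans hK1) (finrank ℝ E) (CfgB T i B)
  exact mul_le_mul (by linarith) hN h3 (by linarith)


end CellIx

section lm

open Crest.Agent.R096.St_147 Crest.Agent.R096.Seq_213 Crest.Agent.R096.Lm_117
open Crest.Agent.R096.Cb_609 Crest.Agent.R096.Mi_117 Crest.Agent.R096.Be_416

variable {ι' Φ W Q Jn Fm : Type} {M : MeshC ι' Φ W} [PartialOrder Q] {dim : Q → ℕ}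
variable {L : LM M Q dim} {fam : Jn → Fm} {s : GSt M fam}
variable {h : LF L s} {Lam : Jn → Q → ZMod 2} {hLam : ∀ j c, L.toSk.XL (gP s j) (Lam j) c}
variable {K : Q → Set E} {Ω' : Set E} {R : Set Q} {g0 g : Gd E Jn}
  {P0 Pp : ∀ q, (cmb h Lam hLam).I q → Set E} {c0 c : ∀ q, (cmb h Lam hLam).I q → E → ℝ}
  {K₀ δ : Q → ℝ} {ε : ℝ} {b : ℕ → ℝ} {wt : Jn → ℝ}
  {SpecX : ∀ q, Bd_416.Lam (K q) ((cmb h Lam hLam).I q) → Prop}

/-- **THE PIECES OF A TILE IN THE MIXED LABELLED MESH** (534 #11010 (f)).  `T` = the tiling of the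
cells of `Q`, `i` = a tile of `T`; `S` = the configuration in which the constant is read. -/
theorem LB_tile_mix {cell : Q → T.Cell} (hc : CellIx T dim K cell) (h3 : finrank ℝ E = 3)
    (X : Cplx Ω' Q dim K) (hw : ∀ j, 0 < wt j) (hb0 : ∀ n, 1/4 ≤ b n) {ε₁ : ℝ} (hε : ε ≤ ε₁)
    (hε1 : ε₁ < 1) (hK : ∀ q, 0 ≤ K₀ q) (hδ : ∀ q, 0 < δ q)
    (hδ2 : ∀ q, 0 < WE X (cmb h Lam hLam) wt q → ∀ σ ≤ q, δ σ ≤ WE X (cmb h Lam hLam) wt q)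
    {i : ι} {q : Q} (hqi : K q = P (T.H i))
    (hT : TrkX X R g0 P0 c0 SpecX K₀ δ ε b wt 4 g Pp c q) {K₁ : ℝ} (hK1 : K₀ q ≤ K₁)
    (B : E ≃ᵃ[ℝ] E) {S : Set (Set E)} (hS : S = CfgB T i B) (x : (cmb h Lam hLam).I q) {z : E}
    (hz : z ∈ K q) :
    LB B (2 * CUe K₁ ε₁ 3 S * WE X (cmb h Lam hLam) wt q / wt ((cmb h Lam hLam).col q x))
      (c q x) (K q) z := by
  subst hS
  have h4 : TrkX X R g0 P0 c0 SpecX K₀ δ ε b wt (finrank ℝ E + 1) g Pp c q := by rw [h3]; exact hT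
  have h5 := hc.tile_pieceE X (by omega) hw hb0 hε hε1 hK hδ hδ2 hqi
    (fun _ _ hσ y => cmb_ne h Lam hLam hσ y) h4 hK1 le_rfl B x hz
  rwa [h3] at h5


end lm

end

end Crest.Agent.R096.Csub_487
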