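import Crest.Agent.R096.Msh1_715
import Crest.Agent.R096.Msh2_715

-- ▼ part R096/Cut1_874
section

/-!
# Row 96, library: cutting a tiling by hyperplanes, tile by tile (MESH-CUT)

`T.cut A`: every tile `i` is cut by its own finite set `A i` of hyperplanes (`A i = ∅`: the tile is
untouched).  Hanging nodes are allowed in `Msh_715.Tiling`, so no compatibility is needed.
-/

set_option autoImplicit false

open Set Filter Topology Metric

namespace Crest.Agent.R096.Cut_874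

open Msh_715

variable {E : Type*} [NormedAddCommGroup E] [NormedSpace ℝ E]

/-- a finite set of proper hyperplanes does not cover a non empty open set -/
theorem exists_generic (A : Finset ((E →L[ℝ] ℝ) × ℝ)) (hA : ∀ a ∈ A, a.1 ≠ 0) {U : Set E}
    (hU : IsOpen U) (hne : U.Nonempty) : ∃ z ∈ U, ∀ a ∈ A, a.1 z ≠ a.2 := by
  classical
  induction A using Finset.induction_on generalizing U with
  | empty => obtain ⟨z, hz⟩ := hne; exact ⟨z, hz, by simp⟩
  | insert a A ha ih =>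
    have h0 : a.1 ≠ 0 := hA a (Finset.mem_insert_self _ _)
    have hop : IsOpen (U ∩ {z | a.1 z ≠ a.2}) :=
      hU.inter (isOpen_ne_fun a.1.continuous continuous_const)
    have hne' : (U ∩ {z | a.1 z ≠ a.2}).Nonempty := by
      obtain ⟨z, hz⟩ := hne
      by_cases hz2 : a.1 z = a.2
      · obtain ⟨v, hv⟩ : ∃ v, a.1 v ≠ 0 := by
          by_contra hcon
          push Not at hcon
          exact h0 (ContinuousLinearMap.ext hcon)
        have hc : Tendsto (fun s : ℝ => z + s • v) (𝓝 0) (𝓝 (z + (0 : ℝ) • v)) := by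
          apply Continuous.tendsto
          fun_prop
        rw [zero_smul, add_zero] at hc
        have h1 : ∀ᶠ s in 𝓝[>] (0 : ℝ), z + s • v ∈ U :=
          (hc.eventually (hU.mem_nhds hz)).filter_mono nhdsWithin_le_nhds
        obtain ⟨s, hs, hs0⟩ := (h1.and self_mem_nhdsWithin).exists
        have hs0 : (0 : ℝ) < s := hs0
        refine ⟨z + s • v, hs, ?_⟩
        simp only [Set.mem_setOf_eq, map_add, map_smul, smul_eq_mul, hz2]
        intro hcon
        have : s * a.1 v = 0 := by linarith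
        rcases mul_eq_zero.1 this with h | h
        · exact hs0.ne' h
        · exact hv h
      · exact ⟨z, hz, hz2⟩
    obtain ⟨z, hz, hz'⟩ := ih (fun b hb => hA b (Finset.mem_insert_of_mem hb)) hop hne'
    refine ⟨z, hz.1, ?_⟩
    intro b hb
    rcases Finset.mem_insert.1 hb with rfl | hb
    · exact hz.2
    · exact hz' b hb

/-- the opposite half space -/
def opp (a : (E →L[ℝ] ℝ) × ℝ) : (E →L[ℝ] ℝ) × ℝ := (-a.1, -a.2)

open Classical in
/-- the inequalities of one piece of a cut tile: `σ` = the hyperplanes of `A` on the side `≤` -/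
noncomputable def cutH (H A σ : Finset ((E →L[ℝ] ℝ) × ℝ)) : Finset ((E →L[ℝ] ℝ) × ℝ) :=
  H ∪ σ ∪ (A \ σ).image opp

theorem mem_cutH {H A σ : Finset ((E →L[ℝ] ℝ) × ℝ)} {h : (E →L[ℝ] ℝ) × ℝ} :
    h ∈ cutH H A σ ↔ h ∈ H ∨ h ∈ σ ∨ ∃ a ∈ A, a ∉ σ ∧ opp a = h := by
  classical
  unfold cutH
  simp only [Finset.mem_union, Finset.mem_image, Finset.mem_sdiff]
  constructor
  · rintro ((h1 | h1) | ⟨a, ⟨h1, h2⟩, h3⟩)
    · exact Or.inl h1
    · exact Or.inr (Or.inl h1)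
    · exact Or.inr (Or.inr ⟨a, h1, h2, h3⟩)
  · rintro (h1 | h1 | ⟨a, h1, h2, h3⟩)
    · exact Or.inl (Or.inl h1)
    · exact Or.inl (Or.inr h1)
    · exact Or.inr ⟨a, ⟨h1, h2⟩, h3⟩

/-- quantifying over the inequalities of a piece -/
theorem forall_cutH {H A σ : Finset ((E →L[ℝ] ℝ) × ℝ)} {p : (E →L[ℝ] ℝ) × ℝ → Prop} :
    (∀ h ∈ cutH H A σ, p h) ↔ (∀ h ∈ H, p h) ∧ (∀ a ∈ σ, p a) ∧ ∀ a ∈ A, a ∉ σ → p (opp a) := by
  constructor
  · intro h
    exact ⟨fun a ha => h a (mem_cutH.2 (Or.inl ha)), fun a ha => h a (mem_cutH.2 (Or.inr (Or.inl ha))),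
      fun a ha hn => h _ (mem_cutH.2 (Or.inr (Or.inr ⟨a, ha, hn, rfl⟩)))⟩
  · rintro ⟨h1, h2, h3⟩ h hh
    rcases mem_cutH.1 hh with h | h | ⟨a, ha, hn, rfl⟩
    · exact h1 _ h
    · exact h2 _ h
    · exact h3 a ha hn

theorem mem_P_cutH {H A σ : Finset ((E →L[ℝ] ℝ) × ℝ)} {x : E} :
    x ∈ P (cutH H A σ) ↔ x ∈ P H ∧ (∀ a ∈ σ, a.1 x ≤ a.2) ∧ ∀ a ∈ A, a ∉ σ → a.2 ≤ a.1 x := by
  show (∀ h ∈ cutH H A σ, h.1 x ≤ h.2) ↔ _
  rw [forall_cutH (p := fun h => h.1 x ≤ h.2)]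
  simp only [opp, ContinuousLinearMap.neg_apply, neg_le_neg_iff]
  rfl

theorem mem_I_cutH {H A σ : Finset ((E →L[ℝ] ℝ) × ℝ)} {x : E} :
    x ∈ I (cutH H A σ) ↔ x ∈ I H ∧ (∀ a ∈ σ, a.1 x < a.2) ∧ ∀ a ∈ A, a ∉ σ → a.2 < a.1 x := by
  show (∀ h ∈ cutH H A σ, h.1 x < h.2) ↔ _
  rw [forall_cutH (p := fun h => h.1 x < h.2)]
  simp only [opp, ContinuousLinearMap.neg_apply, neg_lt_neg_iff]
  rfl

variable {Om : Set E} {ι : Type*} (T : Tiling Om ι)

/-- index type of the cut tiling: (tile, sign pattern) with non empty interior -/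
def CutIx (T : Tiling Om ι) (A : ι → Finset ((E →L[ℝ] ℝ) × ℝ)) : Type _ :=
  {p : ι × Finset ((E →L[ℝ] ℝ) × ℝ) // p.2 ⊆ A p.1 ∧ (I (cutH (T.H p.1) (A p.1) p.2)).Nonempty}

/-- the tile of a piece -/
def CutIx.par {T : Tiling Om ι} {A : ι → Finset ((E →L[ℝ] ℝ) × ℝ)} (p : CutIx T A) : ι := p.1.1

/-- the sign pattern of a piece -/
def CutIx.sg {T : Tiling Om ι} {A : ι → Finset ((E →L[ℝ] ℝ) × ℝ)} (p : CutIx T A) :
    Finset ((E →L[ℝ] ℝ) × ℝ) := p.1.2

theorem CutIx.ext {T : Tiling Om ι} {A : ι → Finset ((E →L[ℝ] ℝ) × ℝ)} {p q : CutIx T A}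
    (h1 : p.par = q.par) (h2 : p.sg = q.sg) : p = q := Subtype.ext (Prod.ext h1 h2)

/-- every point of a tile lies in one of its pieces -/
theorem exists_piece {A : ι → Finset ((E →L[ℝ] ℝ) × ℝ)} (hA : ∀ i, ∀ a ∈ A i, a.1 ≠ 0) {x : E}
    {i : ι} (hi : x ∈ P (T.H i)) :
    ∃ p : CutIx T A, p.par = i ∧ x ∈ P (cutH (T.H i) (A i) p.sg) := by
  classical
  obtain ⟨z, hz, hzg⟩ := exists_generic (A i) (hA i) (isOpen_I (T.H i)) (T.ne i)
  set σ : Finset ((E →L[ℝ] ℝ) × ℝ) :=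
    (A i).filter fun a => a.1 x < a.2 ∨ (a.1 x = a.2 ∧ a.1 z < a.2) with hσ
  -- a small step towards `z`
  have key : ∀ a ∈ A i, ∀ᶠ s in 𝓝[>] (0 : ℝ),
      (a ∈ σ → a.1 (x + s • (z - x)) < a.2) ∧ (a ∉ σ → a.2 < a.1 (x + s • (z - x))) := by
    intro a ha
    have hform : ∀ s : ℝ, a.1 (x + s • (z - x)) = a.1 x + s * (a.1 z - a.1 x) := by
      intro s; simp only [map_add, map_smul, map_sub, smul_eq_mul]
    have hc : Tendsto (fun s : ℝ => a.1 (x + s • (z - x))) (𝓝 0) (𝓝 (a.1 (x + (0 : ℝ) • (z - x)))) := by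
      apply Continuous.tendsto
      fun_prop
    rw [zero_smul, add_zero] at hc
    rcases lt_trichotomy (a.1 x) a.2 with h | h | h
    · have hmem : a ∈ σ := by rw [hσ]; exact Finset.mem_filter.2 ⟨ha, Or.inl h⟩
      have := (hc.eventually (gt_mem_nhds h)).filter_mono (nhdsWithin_le_nhds (s := Ioi (0 : ℝ)))
      filter_upwards [this] with s hs
      exact ⟨fun _ => hs, fun hn => absurd hmem hn⟩
    · rcases lt_or_gt_of_ne (hzg a ha) with h2 | h2
      · have hmem : a ∈ σ := by rw [hσ]; exact Finset.mem_filter.2 ⟨ha, Or.inr ⟨h, h2⟩⟩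
        filter_upwards [self_mem_nhdsWithin] with s hs
        have hs : (0 : ℝ) < s := hs
        refine ⟨fun _ => ?_, fun hn => absurd hmem hn⟩
        rw [hform, h]
        nlinarith
      · have hmem : a ∉ σ := by
          rw [hσ]
          intro hcon
          rcases (Finset.mem_filter.1 hcon).2 with h3 | h3
          · exact (h ▸ h3).false
          · exact absurd h3.2 (not_lt.2 h2.le)
        filter_upwards [self_mem_nhdsWithin] with s hs
        have hs : (0 : ℝ) < s := hs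
        refine ⟨fun hn => absurd hn hmem, fun _ => ?_⟩
        rw [hform, h]
        nlinarith
    · have hmem : a ∉ σ := by
        rw [hσ]
        intro hcon
        rcases (Finset.mem_filter.1 hcon).2 with h3 | h3
        · exact absurd h3 (not_lt.2 h.le)
        · exact absurd h3.1 h.ne'
      have := (hc.eventually (lt_mem_nhds h)).filter_mono (nhdsWithin_le_nhds (s := Ioi (0 : ℝ)))
      filter_upwards [this] with s hs
      exact ⟨fun hn => absurd hn hmem, fun _ => hs⟩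
  have hall : ∀ᶠ s in 𝓝[>] (0 : ℝ), ∀ a ∈ A i,
      (a ∈ σ → a.1 (x + s • (z - x)) < a.2) ∧ (a ∉ σ → a.2 < a.1 (x + s • (z - x))) :=
    (Finset.eventually_all (l := 𝓝[>] (0 : ℝ)) (A i)).2 key
  have h1 : ∀ᶠ s in 𝓝[>] (0 : ℝ), s < 1 :=
    (gt_mem_nhds (zero_lt_one' ℝ)).filter_mono nhdsWithin_le_nhds
  obtain ⟨s, ⟨hs1, hs2⟩, hs3⟩ := ((hall.and h1).and self_mem_nhdsWithin).exists
  have hs3 : (0 : ℝ) < s := hs3
  have hsub : σ ⊆ A i := Finset.filter_subset _ _
  have hI : x + s • (z - x) ∈ I (cutH (T.H i) (A i) σ) := by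
    refine mem_I_cutH.2 ⟨mem_I_of_move hi hz hs3 hs2.le, fun a ha => (hs1 a (hsub ha)).1 ha,
      fun a ha hn => (hs1 a ha).2 hn⟩
  refine ⟨⟨(i, σ), hsub, _, hI⟩, rfl, ?_⟩
  show x ∈ P (cutH (T.H i) (A i) σ)
  refine mem_P_cutH.2 ⟨hi, ?_, ?_⟩
  · intro a ha
    rcases (Finset.mem_filter.1 ha).2 with h | h
    · exact h.le
    · exact h.1.le
  · intro a ha hn
    by_contra hcon
    push Not at hcon
    exact hn (Finset.mem_filter.2 ⟨ha, Or.inl hcon⟩)

/-- **the cut tiling** -/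
noncomputable def cut (T : Tiling Om ι) (A : ι → Finset ((E →L[ℝ] ℝ) × ℝ))
    (hA : ∀ i, ∀ a ∈ A i, a.1 ≠ 0) : Tiling Om (CutIx T A) where
  H p := cutH (T.H p.1.1) (A p.1.1) p.1.2
  cpt p := (T.cpt p.1.1).of_isClosed_subset (isClosed_P _) fun _ hx => (mem_P_cutH.1 hx).1
  ne p := p.2.2
  sub p := fun _ hx => T.sub p.1.1 (mem_P_cutH.1 hx).1
  cov x hx := by
    obtain ⟨i, hi⟩ := T.cov x hx
    obtain ⟨p, rfl, hp⟩ := exists_piece T hA hi
    exact ⟨p, hp⟩
  dis p q hpq := by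
    rw [Set.disjoint_left]
    intro x hx hy
    obtain ⟨hx1, hx2, hx3⟩ := mem_I_cutH.1 hx
    obtain ⟨hy1, hy2, hy3⟩ := mem_I_cutH.1 hy
    by_cases h : p.1.1 = q.1.1
    · apply hpq
      refine Subtype.ext (Prod.ext h ?_)
      ext a
      constructor
      · intro ha
        by_contra hn
        have h1 := hx2 a ha
        have h2 := hy3 a (h ▸ p.2.1 ha) hn
        exact absurd h1 (not_lt.2 h2.le)
      · intro ha
        by_contra hn
        have h1 := hy2 a ha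
        have h2 := hx3 a (h.symm ▸ q.2.1 ha) hn
        exact absurd h1 (not_lt.2 h2.le)
    · exact (Set.disjoint_left.1 (T.dis _ _ h)) hx1 hy1
  lf x hx := by
    classical
    obtain ⟨r, hr, hf⟩ := T.lf x hx
    refine ⟨r, hr, ?_⟩
    have hfin : (⋃ i ∈ {i | (P (T.H i) ∩ ball x r).Nonempty},
        (fun σ => ((i, σ) : ι × Finset ((E →L[ℝ] ℝ) × ℝ))) ''
          ((A i).powerset : Set (Finset ((E →L[ℝ] ℝ) × ℝ)))).Finite :=
      hf.biUnion fun i _ => ((A i).powerset.finite_toSet).image _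
    refine Set.Finite.of_finite_image (f := Subtype.val) (hfin.subset ?_) Subtype.val_injective.injOn
    rintro _ ⟨p, ⟨y, hy, hyb⟩, rfl⟩
    simp only [Set.mem_iUnion, Set.mem_image]
    refine ⟨p.1.1, ⟨y, (mem_P_cutH.1 hy).1, hyb⟩, p.1.2, ?_, rfl⟩
    simpa using p.2.1
  op := T.op

section

variable {T} {A : ι → Finset ((E →L[ℝ] ℝ) × ℝ)} {hA : ∀ i, ∀ a ∈ A i, a.1 ≠ 0}


theorem mem_at_cut {x : E} {p : CutIx T A} : p ∈ (cut T A hA).at_ x ↔
    p.par ∈ T.at_ x ∧ (∀ a ∈ p.sg, a.1 x ≤ a.2) ∧ ∀ a ∈ A p.par, a ∉ p.sg → a.2 ≤ a.1 x := by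
  show x ∈ P (cutH (T.H p.par) (A p.par) p.sg) ↔ _
  rw [mem_P_cutH]
  rfl

theorem exists_at_cut (hA : ∀ i, ∀ a ∈ A i, a.1 ≠ 0) {x : E} {i : ι} (hi : i ∈ T.at_ x) :
    ∃ p ∈ (cut T A hA).at_ x, p.par = i := by
  obtain ⟨p, rfl, hp⟩ := exists_piece T hA hi
  exact ⟨p, hp, rfl⟩

/-- **the closed cells of the cut tiling** -/
theorem mem_cc_cut {x y : E} : y ∈ (cut T A hA).cc x ↔ y ∈ T.cc x ∧
    ∀ i ∈ T.at_ x, ∀ a ∈ A i, (a.1 x ≤ a.2 → a.1 y ≤ a.2) ∧ (a.2 ≤ a.1 x → a.2 ≤ a.1 y) := by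
  constructor
  · intro hy
    constructor
    · intro i hi h hh
      obtain ⟨p, hp, rfl⟩ := exists_at_cut hA hi
      exact hy p hp h (mem_cutH.2 (Or.inl hh))
    · intro i hi a ha
      obtain ⟨p, hp, rfl⟩ := exists_at_cut hA hi
      obtain ⟨-, h2, h3⟩ := mem_at_cut.1 hp
      by_cases hs : a ∈ p.sg
      · have h4 := hy p hp a (mem_cutH.2 (Or.inr (Or.inl hs)))
        exact ⟨fun _ => h4.1, fun h5 => (h4.2 (le_antisymm (h2 a hs) h5)).ge⟩
      · have h4 := hy p hp (opp a) (mem_cutH.2 (Or.inr (Or.inr ⟨a, ha, hs, rfl⟩)))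
        simp only [opp, ContinuousLinearMap.neg_apply, neg_le_neg_iff, neg_inj] at h4
        exact ⟨fun h5 => (h4.2 (le_antisymm h5 (h3 a ha hs))).le, fun _ => h4.1⟩
  · rintro ⟨h1, h2⟩ p hp h hh
    obtain ⟨h3, h4, h5⟩ := mem_at_cut.1 hp
    rcases mem_cutH.1 hh with h | h | ⟨a, ha, hn, rfl⟩
    · exact h1 p.par h3 _ h
    · have h6 := h2 p.par h3 _ (p.2.1 h)
      exact ⟨h6.1 (h4 _ h), fun h7 => le_antisymm (h6.1 h7.le) (h6.2 h7.ge)⟩
    · have h6 := h2 p.par h3 a ha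
      simp only [opp, ContinuousLinearMap.neg_apply, neg_le_neg_iff, neg_inj]
      exact ⟨h6.2 (h5 a ha hn), fun h7 => le_antisymm (h6.1 h7.le) (h6.2 h7.ge)⟩



theorem cc_cut_sub (x : E) : (cut T A hA).cc x ⊆ T.cc x := fun _ hy => (mem_cc_cut.1 hy).1




/-- nothing changes at a point all of whose tiles are untouched -/
theorem cc_cut_eq {x : E} (h : ∀ i ∈ T.at_ x, A i = ∅) : (cut T A hA).cc x = T.cc x := by
  ext y
  rw [mem_cc_cut]
  refine ⟨fun h => h.1, fun hy => ⟨hy, fun i hi a ha => ?_⟩⟩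
  rw [h i hi] at ha
  exact absurd ha (Finset.notMem_empty _)





/-- a tile of the cut tiling is a piece of its parent -/
theorem cut_tile_sub (p : CutIx T A) : P ((cut T A hA).H p) ⊆ P (T.H p.par) := fun _ hx =>
  (mem_P_cutH.1 hx).1





/-! ### subcomplexes -/

/-- a closed polyhedron given by relations from the `A i`: `Le` (side `≤`), `Ge` (side `≥`) -/
def poly (Le Ge : Set ((E →L[ℝ] ℝ) × ℝ)) : Set E :=
  {y | (∀ a ∈ Le, a.1 y ≤ a.2) ∧ ∀ a ∈ Ge, a.2 ≤ a.1 y}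



end

end Crest.Agent.R096.Cut_874
end

-- ▼ part R096/Cut2_874

/-!
# Row 96, library: cutting a tiling, part 2: coordinate grids (fineness), subcomplexes, sides
-/

set_option autoImplicit false

open Set Filter Topology Metric

namespace Crest.Agent.R096.Cut_874

open Msh_715

variable {E : Type*} [NormedAddCommGroup E] [NormedSpace ℝ E]
variable {Om : Set E} {ι : Type*}

/-! ### Subcomplexes of a tiling -/

/-- `S` is a subcomplex: it contains the closed cell of each of its points -/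
def IsSub (T : Tiling Om ι) (S : Set E) : Prop := ∀ x ∈ S, T.cc x ⊆ S

namespace IsSub

variable {T : Tiling Om ι} {S S' : Set E}

theorem union (h : IsSub T S) (h' : IsSub T S') : IsSub T (S ∪ S') := by
  rintro x (hx | hx)
  · exact (h x hx).trans Set.subset_union_left
  · exact (h' x hx).trans Set.subset_union_right

theorem inter (h : IsSub T S) (h' : IsSub T S') : IsSub T (S ∩ S') := fun x hx =>
  Set.subset_inter (h x hx.1) (h' x hx.2)

theorem iUnion {κ : Sort*} {F : κ → Set E} (h : ∀ k, IsSub T (F k)) : IsSub T (⋃ k, F k) := by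
  intro x hx
  obtain ⟨k, hk⟩ := Set.mem_iUnion.1 hx
  exact (h k x hk).trans (Set.subset_iUnion F k)

theorem tile (i : ι) : IsSub T (P (T.H i)) := fun _ hx => T.cc_sub_tile hx





/-- the cut of a tiling keeps subcomplexes -/
theorem cut (h : IsSub T S) {A : ι → Finset ((E →L[ℝ] ℝ) × ℝ)} {hA : ∀ i, ∀ a ∈ A i, a.1 ≠ 0} :
    IsSub (Cut_874.cut T A hA) S := fun x hx => (cc_cut_sub x).trans (h x hx)

end IsSub

/-! ### Coordinate grids -/

section grid

variable {n : ℕ} (φ : E ≃L[ℝ] (Fin n → ℝ))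

/-- the `j`-th coordinate in the frame `φ` -/
noncomputable def co (j : Fin n) : E →L[ℝ] ℝ :=
  (ContinuousLinearMap.proj (R := ℝ) (φ := fun _ : Fin n => ℝ) j).comp
    (φ : E →L[ℝ] (Fin n → ℝ))

@[simp] theorem co_apply (j : Fin n) (x : E) : co φ j x = φ x j := rfl

theorem co_ne_zero (j : Fin n) : co φ j ≠ 0 := by
  intro h
  have h1 : co φ j (φ.symm (Pi.single j 1)) = 0 := by rw [h]; rfl
  rw [co_apply, ContinuousLinearEquiv.apply_symm_apply, Pi.single_eq_same] at h1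
  exact one_ne_zero h1

open Classical in
/-- the hyperplanes `φ_j = t`, `t ∈ Θ j` -/
noncomputable def grid (Θ : Fin n → Finset ℝ) : Finset ((E →L[ℝ] ℝ) × ℝ) :=
  Finset.univ.biUnion fun j => (Θ j).image fun t => (co φ j, t)




variable {φ} {T : Tiling Om ι} {Θ : ι → Fin n → Finset ℝ}




/-- finitely many values of a dense set separate all pairs at distance `> d` in a bounded interval -/
theorem exists_sep {D : Set ℝ} (hD : Dense D) (R : ℝ) {d : ℝ} (hd : 0 < d) :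
    ∃ Θ : Finset ℝ, (∀ t ∈ Θ, t ∈ D) ∧ ∀ u v : ℝ, -R ≤ u → u ≤ R → u + d < v → ∃ t ∈ Θ, u < t ∧ t < v := by
  classical
  have hex : ∀ k : ℤ, ∃ t ∈ D, (k : ℝ) * (d / 2) < t ∧ t < ((k : ℝ) + 1) * (d / 2) := by
    intro k
    obtain ⟨t, ht, ht'⟩ := hD.exists_between (show (k : ℝ) * (d / 2) < ((k : ℝ) + 1) * (d / 2) by
      nlinarith)
    exact ⟨t, ht, ht'.1, ht'.2⟩
  choose f hf hf1 hf2 using hex
  obtain ⟨N, hN⟩ := exists_nat_ge (R / (d / 2) + 1)
  refine ⟨(Finset.Icc (-(N : ℤ)) N).image f, ?_, ?_⟩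
  · intro t ht
    obtain ⟨k, -, rfl⟩ := Finset.mem_image.1 ht
    exact hf k
  · intro u v hu hu' huv
    have hd2 : 0 < d / 2 := by linarith
    set k : ℤ := ⌈u / (d / 2)⌉ with hk
    have h1 : u ≤ (k : ℝ) * (d / 2) := by
      have := Int.le_ceil (u / (d / 2))
      rw [← hk] at this
      rwa [div_le_iff₀ hd2] at this
    have h2 : (k : ℝ) * (d / 2) < u + d / 2 := by
      have := Int.ceil_lt_add_one (u / (d / 2))
      rw [← hk] at this
      have h3 : (k : ℝ) * (d / 2) < (u / (d / 2) + 1) * (d / 2) := mul_lt_mul_of_pos_right this hd2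
      have h4 : (u / (d / 2) + 1) * (d / 2) = u + d / 2 := by field_simp
      linarith
    refine ⟨f k, Finset.mem_image_of_mem f (Finset.mem_Icc.2 ⟨?_, ?_⟩), lt_of_le_of_lt h1 (hf1 k), ?_⟩
    · have h5 : -(N : ℝ) ≤ (k : ℝ) := by
        have h6 : -(R / (d / 2)) ≤ u / (d / 2) := by
          rw [← neg_div]; exact (div_le_div_iff_of_pos_right hd2).2 hu
        have h7 := Int.le_ceil (u / (d / 2))
        rw [← hk] at h7
        linarith
      exact_mod_cast h5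
    · have h5 : (k : ℝ) ≤ (N : ℝ) := by
        have h6 : u / (d / 2) ≤ R / (d / 2) := (div_le_div_iff_of_pos_right hd2).2 hu'
        have h7 := Int.ceil_lt_add_one (u / (d / 2))
        rw [← hk] at h7
        linarith
      exact_mod_cast h5
    · have := hf2 k
      nlinarith


/-- closed boxes in the frame `φ` (degenerate sides allowed: rectangles, segments) -/
def bx (φ : E ≃L[ℝ] (Fin n → ℝ)) (lo hi : Fin n → ℝ) : Set E := {y | ∀ j, lo j ≤ φ y j ∧ φ y j ≤ hi j}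


end grid


end Crest.Agent.R096.Cut_874
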