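import Crest.Agent.R096.Er1_594
import Crest.Agent.R096.Sk2_962

-- ▼ part R096/Er2_594
section

/-!
Row 96 (S0127), helper594.  **(R3) of 663 #9825**, part 2: the derivative. `D3 G x` = the matrix with
the rows `G j (P3 x)`, as a continuous linear map of `E3`; `row L j` = the `j`-th row of `L`.
-/

set_option autoImplicit false
set_option linter.unusedSectionVars false
set_option linter.style.longLine false

open MeasureTheory Set Filter Topology Metric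
open scoped ENNReal Gradient NNReal
open Crest.AnalysisR.VecCalc3 Crest.AnalysisR.Sobolev
open Crest.Agent.R096.Str_696 (LocPL)
open Crest.Agent.R096.Sk_962 (SH Gr LL LL.ae_diff LocPL.lip)
open Crest.Agent.R96.Lu_538 (Gmat Gmat_apply gmatL gmatL_apply aesm_Gmat)
open Crest.Agent.R096.DetN_663 (Gmat_Gr)
open Crest.Agent.R96.En10_199 (P3 P3_mp P3_apply Di vwd_of_grad wd_comp_equiv P3_symm_single)
open Crest.Agent.R096.SkC1_961 (E3 Hom3)
open Crest.Agent.R96.Sob4_199 (VWD)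
open Crest.Agent.R096.Sk4_663 (Zd lintegral_of_memLp memLp_of_lintegral)

namespace Crest.Agent.R096.Er_594

noncomputable section

/-- the `j`-th row of `L` -/
def row (L : E3 →L[ℝ] E3) (j : Fin 3) : R3 := WithLp.toLp 2 fun i => L (Pi.single i 1) j

theorem row_apply (L : E3 →L[ℝ] E3) (j i : Fin 3) : row L j i = L (Pi.single i 1) j := rfl

theorem inner_row (L : E3 →L[ℝ] E3) (j : Fin 3) (v : E3) : inner ℝ (row L j) (P3 v) = L v j := by
  have h1 : v = ∑ i, v i • (Pi.single i (1:ℝ) : E3) := by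
    funext k
    simp [Finset.sum_apply, Pi.single_apply]
  conv_rhs => rw [h1]
  rw [map_sum, Finset.sum_apply, PiLp.inner_apply]
  refine Finset.sum_congr rfl fun i _ => ?_
  rw [map_smul, Pi.smul_apply, row_apply, P3_apply, smul_eq_mul]
  simp

theorem row_sub (L M : E3 →L[ℝ] E3) (j : Fin 3) : row (L - M) j = row L j - row M j := by
  ext i; simp [row_apply]


theorem norm_row_le (L : E3 →L[ℝ] E3) (j : Fin 3) : ‖row L j‖ ≤ ‖L‖ := by
  by_cases h0 : row L j = 0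
  · rw [h0, norm_zero]; exact norm_nonneg _
  · have h1 := inner_row L j (P3.symm (row L j))
    rw [P3.apply_symm_apply, real_inner_self_eq_norm_sq] at h1
    have h2 : |L (P3.symm (row L j)) j| ≤ ‖L‖ * ‖row L j‖ := by
      calc |L (P3.symm (row L j)) j| ≤ ‖L (P3.symm (row L j))‖ := by
            rw [← Real.norm_eq_abs]; exact norm_le_pi_norm (L (P3.symm (row L j))) j
        _ ≤ ‖L‖ * ‖P3.symm (row L j)‖ := L.le_opNorm _
        _ ≤ ‖L‖ * ‖row L j‖ := by gcongr; exact norm_P3_symm_le _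
    rw [← h1, abs_of_nonneg (by positivity)] at h2
    have h3 : 0 < ‖row L j‖ := norm_pos_iff.2 h0
    nlinarith

theorem exists_row (L : E3 →L[ℝ] E3) : ∃ j, ‖L‖ ≤ 2 * ‖row L j‖ := by
  obtain ⟨j, -, hj⟩ := Finset.exists_max_image Finset.univ (fun j => ‖row L j‖)
    ⟨0, Finset.mem_univ _⟩
  refine ⟨j, L.opNorm_le_bound (by positivity) fun v => ?_⟩
  rw [pi_norm_le_iff_of_nonneg (by positivity)]
  intro i
  rw [← inner_row, Real.norm_eq_abs]
  calc |inner ℝ (row L i) (P3 v)| ≤ ‖row L i‖ * ‖P3 v‖ := abs_real_inner_le_norm _ _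
    _ ≤ ‖row L j‖ * (2 * ‖v‖) := by
        gcongr
        · exact hj i (Finset.mem_univ _)
        · exact norm_P3_le v
    _ = 2 * ‖row L j‖ * ‖v‖ := by ring

theorem enorm_row_le (L : E3 →L[ℝ] E3) (j : Fin 3) : ‖row L j‖ₑ ≤ ‖L‖ₑ := by
  rw [← ofReal_norm, ← ofReal_norm]
  exact ENNReal.ofReal_le_ofReal (norm_row_le L j)

/-- **rows ≤ operator norm** -/
theorem sum_row_le (L : E3 →L[ℝ] E3) {p : ℝ} (hp : 0 ≤ p) :
    ∑ j, ‖row L j‖ₑ ^ p ≤ 3 * ‖L‖ₑ ^ p := by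
  calc ∑ j, ‖row L j‖ₑ ^ p ≤ ∑ _j : Fin 3, ‖L‖ₑ ^ p :=
        Finset.sum_le_sum fun j _ => ENNReal.rpow_le_rpow (enorm_row_le L j) hp
    _ = 3 * ‖L‖ₑ ^ p := by
        rw [Finset.sum_const, Finset.card_univ, Fintype.card_fin, nsmul_eq_mul]; norm_num

/-- **operator norm ≤ rows** -/
theorem le_sum_row (L : E3 →L[ℝ] E3) {p : ℝ} (hp : 0 ≤ p) :
    ‖L‖ₑ ^ p ≤ 2 ^ p * ∑ j, ‖row L j‖ₑ ^ p := by
  obtain ⟨j, hj⟩ := exists_row L
  have h1 : ‖L‖ₑ ≤ 2 * ‖row L j‖ₑ := by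
    rw [← ofReal_norm, ← ofReal_norm]
    refine (ENNReal.ofReal_le_ofReal hj).trans (le_of_eq ?_)
    rw [ENNReal.ofReal_mul (by norm_num)]
    norm_num
  calc ‖L‖ₑ ^ p ≤ (2 * ‖row L j‖ₑ) ^ p := ENNReal.rpow_le_rpow h1 hp
    _ = 2 ^ p * ‖row L j‖ₑ ^ p := ENNReal.mul_rpow_of_nonneg _ _ hp
    _ ≤ 2 ^ p * ∑ j, ‖row L j‖ₑ ^ p := by
        gcongr
        exact Finset.single_le_sum (f := fun j => ‖row L j‖ₑ ^ p) (fun _ _ => zero_le)
          (Finset.mem_univ j)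

/-! ### the matrix of the weak gradients -/

/-- the derivative of `e3 f`, for `f` with weak gradients `G j` -/
def D3 (G : Fin 3 → R3 → R3) (x : E3) : E3 →L[ℝ] E3 :=
  (P3.symm : R3 →L[ℝ] E3).comp ((Gmat G (P3 x)).comp (P3 : E3 →L[ℝ] R3))

theorem D3_apply (G : Fin 3 → R3 → R3) (x v : E3) (j : Fin 3) :
    D3 G x v j = inner ℝ (G j (P3 x)) (P3 v) := rfl

theorem P3_single (i : Fin 3) : P3 (Pi.single i (1:ℝ)) = EuclideanSpace.single i (1:ℝ) := by
  rw [← P3_symm_single, P3.apply_symm_apply]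

theorem row_D3 (G : Fin 3 → R3 → R3) (x : E3) (j : Fin 3) : row (D3 G x) j = G j (P3 x) := by
  ext i
  rw [row_apply, D3_apply, P3_single, EuclideanSpace.inner_single_right]
  simp

theorem D3_single (G : Fin 3 → R3 → R3) (x : E3) (i : Fin 3) :
    P3 (D3 G x (Pi.single i 1)) = Di G i (P3 x) := by
  ext j
  rw [P3_apply, ← row_apply, row_D3]
  rfl

/-- the linear map with given rows -/
def ofRows (a : Fin 3 → R3) : E3 →L[ℝ] E3 :=
  (P3.symm : R3 →L[ℝ] E3).comp ((gmatL a).comp (P3 : E3 →L[ℝ] R3))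

theorem D3_eq (G : Fin 3 → R3 → R3) (x : E3) : D3 G x = ofRows fun j => G j (P3 x) := rfl

theorem row_ofRows (a : Fin 3 → R3) (j : Fin 3) : row (ofRows a) j = a j := by
  ext i
  change inner ℝ (a j) (P3 (Pi.single i 1)) = _
  rw [P3_single, EuclideanSpace.inner_single_right]
  simp



theorem det_conj' (A : E3 ≃ₗ[ℝ] R3) (M : R3 →ₗ[ℝ] R3) :
    LinearMap.det ((A.symm : R3 →ₗ[ℝ] E3) ∘ₗ M ∘ₗ (A : E3 →ₗ[ℝ] R3)) = LinearMap.det M := by
  have := LinearMap.det_conj M A.symm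
  simpa using this

theorem det_ofRows (a : Fin 3 → R3) : (ofRows a).det = (gmatL a).det :=
  det_conj' P3.toLinearEquiv (gmatL a : R3 →ₗ[ℝ] R3)

theorem det_D3 (G : Fin 3 → R3 → R3) (x : E3) : (D3 G x).det = (Gmat G (P3 x)).det :=
  det_ofRows _

/-- the singular set -/
theorem pre_Zd (G : Fin 3 → R3 → R3) : P3 ⁻¹' Zd G = {x | (D3 G x).det = 0} := by
  ext x
  simp only [mem_preimage, Zd, mem_ofPred_eq, det_D3]

/-! ### classical derivatives -/

/-- **the gradients of `r3 g` are the rows of the derivative of `g`** -/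
theorem Gr_r3 {g : E3 → E3} {y : R3} (hd : DifferentiableAt ℝ g (P3.symm y)) (j : Fin 3) :
    Gr (r3 g) j y = row (fderiv ℝ g (P3.symm y)) j := by
  have h1 : HasFDerivAt (r3 g) ((P3 : E3 →L[ℝ] R3).comp
      ((fderiv ℝ g (P3.symm y)).comp (P3.symm : R3 →L[ℝ] E3))) y := by
    have h2 := hd.hasFDerivAt.comp y (P3.symm : R3 →L[ℝ] E3).hasFDerivAt
    exact (P3 : E3 →L[ℝ] R3).hasFDerivAt.comp y h2
  have h3 := Gmat_Gr h1.differentiableAt
  rw [h1.fderiv] at h3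
  ext i
  have h4 : Gmat (Gr (r3 g)) y (EuclideanSpace.single i 1) j = Gr (r3 g) j y i := by
    rw [Gmat_apply, EuclideanSpace.inner_single_right]; simp
  rw [← h4, h3, row_apply]
  simp only [ContinuousLinearMap.comp_apply, ContinuousLinearEquiv.coe_coe]
  rw [P3_symm_single]
  rfl


/-- locally PL maps are differentiable almost everywhere (any finite-dimensional spaces) -/
theorem ae_diff_locPL {E F : Type*} [NormedAddCommGroup E] [NormedSpace ℝ E]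
    [FiniteDimensional ℝ E] [MeasurableSpace E] [BorelSpace E] {μ : Measure E}
    [μ.IsAddHaarMeasure] [NormedAddCommGroup F] [NormedSpace ℝ F] [FiniteDimensional ℝ F]
    {g : E → F} {Om : Set E} (h : LocPL g Om) :
    ∀ᵐ x ∂μ, x ∈ Om → DifferentiableAt ℝ g x :=
  LL.ae_diff (fun _ hx => LocPL.lip h hx)

end

end Crest.Agent.R096.Er_594
end

-- ▼ part R096/Er3_594

/-!
Row 96 (S0127), helper594.  **(R3) of 663 #9825**, part 3: Sobolev homeomorphisms and energies on `E3`;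
the `E3` versions `BF3`, `NO3` of `BFs`, `NO0`.
-/

set_option autoImplicit false
set_option linter.unusedSectionVars false
set_option linter.style.longLine false

open MeasureTheory Set Filter Topology Metric
open scoped ENNReal Gradient NNReal
open Crest.AnalysisR.VecCalc3 Crest.AnalysisR.Sobolev
open Crest.Agent.R096.Str_696 (LocPL)
open Crest.Agent.R096.Sk_962 (SH Gr Q0 Qc0 dg)
open Crest.Agent.R96.Lu_538 (Gmat Gmat_apply gmatL gmatL_apply aesm_Gmat)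
open Crest.Agent.R96.En10_199 (P3 P3_mp P3_apply Di vwd_of_grad wd_comp_equiv P3_symm_single)
open Crest.Agent.R096.SkC1_961 (E3 Hom3)
open Crest.Agent.R96.Sob4_199 (VWD)
open Crest.Agent.R096.Sk4_663 (Zd BFs NO0 lintegral_of_memLp memLp_of_lintegral)

namespace Crest.Agent.R096.Er_594

noncomputable section

/-! ### energies -/

/-- rows to operator norm, integrated -/
theorem lint_rows_le {R : Set R3} {p : ℝ} (hp : 0 ≤ p) (H : Fin 3 → R3 → R3)
    (L : E3 → E3 →L[ℝ] E3)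
    (h : ∀ᵐ x ∂(volume.restrict (P3 ⁻¹' R)), ∀ j, H j (P3 x) = row (L x) j) :
    ∫⁻ y in R, ∑ j, ‖H j y‖ₑ ^ p ≤ 3 * ∫⁻ x in P3 ⁻¹' R, ‖L x‖ₑ ^ p := by
  rw [lint_P3, ← lintegral_const_mul' _ _ (by norm_num)]
  apply lintegral_mono_ae
  filter_upwards [h] with x hx
  simp only [hx]
  exact sum_row_le (L x) hp

/-- operator norm to rows, integrated -/
theorem lint_le_rows {R : Set R3} {p : ℝ} (hp : 0 ≤ p) (H : Fin 3 → R3 → R3)
    (L : E3 → E3 →L[ℝ] E3)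
    (h : ∀ᵐ x ∂(volume.restrict (P3 ⁻¹' R)), ∀ j, H j (P3 x) = row (L x) j) :
    ∫⁻ x in P3 ⁻¹' R, ‖L x‖ₑ ^ p ≤ 2 ^ p * ∫⁻ y in R, ∑ j, ‖H j y‖ₑ ^ p := by
  have h2 : (2:ℝ≥0∞) ^ p ≠ ∞ := ENNReal.rpow_ne_top_of_nonneg hp (by norm_num)
  rw [lint_P3, ← lintegral_const_mul' _ _ h2]
  apply lintegral_mono_ae
  filter_upwards [h] with x hx
  simp only [hx]
  exact le_sum_row (L x) hp

/-- a.e. formula for the gradients of `r3 g` -/
theorem ae_Gr {g : E3 → E3} {Om R : Set R3} (hO : IsOpen Om) (hg : LocPL g (P3 ⁻¹' Om))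
    (hR : R ⊆ Om) :
    ∀ᵐ x ∂(volume.restrict (P3 ⁻¹' R)), ∀ j, Gr (r3 g) j (P3 x) = row (fderiv ℝ g x) j := by
  have h1 : ∀ᵐ x ∂(volume.restrict (P3 ⁻¹' R)), x ∈ P3 ⁻¹' Om := by
    have h2 : ∀ᵐ y ∂(volume.restrict R), y ∈ Om :=
      ae_restrict_of_ae_restrict_of_subset hR (ae_restrict_mem hO.measurableSet)
    exact ae_P3.1 h2
  filter_upwards [h1, ae_restrict_of_ae (ae_diff_locPL (μ := volume) hg)] with x hx hx' j
  have := hx' hx
  have h3 := Gr_r3 (g := g) (y := P3 x) (by rwa [P3.symm_apply_apply]) j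
  rwa [P3.symm_apply_apply] at h3

/-- **energies of differences** -/
theorem energy_sub_le {g : E3 → E3} {Om R : Set R3} (hO : IsOpen Om)
    (hg : LocPL g (P3 ⁻¹' Om)) (hR : R ⊆ Om) {p : ℝ} (hp : 0 ≤ p) (G : Fin 3 → R3 → R3) :
    ∫⁻ y in R, ∑ j, ‖Gr (r3 g) j y - G j y‖ₑ ^ p ≤
      3 * ∫⁻ x in P3 ⁻¹' R, ‖fderiv ℝ g x - D3 G x‖ₑ ^ p := by
  apply lint_rows_le hp (fun j y => Gr (r3 g) j y - G j y)
  filter_upwards [ae_Gr hO hg hR] with x hx j
  rw [hx j, row_sub, row_D3]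


theorem energy_g_le {g : E3 → E3} {Om R : Set R3} (hO : IsOpen Om)
    (hg : LocPL g (P3 ⁻¹' Om)) (hR : R ⊆ Om) {p : ℝ} (hp : 0 ≤ p) :
    ∫⁻ y in R, ∑ j, ‖Gr (r3 g) j y‖ₑ ^ p ≤ 3 * ∫⁻ x in P3 ⁻¹' R, ‖fderiv ℝ g x‖ₑ ^ p := by
  apply lint_rows_le hp (Gr (r3 g))
  filter_upwards [ae_Gr hO hg hR] with x hx j
  rw [hx j]

theorem energy_D3_le (G : Fin 3 → R3 → R3) (R : Set R3) {p : ℝ} (hp : 0 ≤ p) :
    ∫⁻ x in P3 ⁻¹' R, ‖D3 G x‖ₑ ^ p ≤ 2 ^ p * ∫⁻ y in R, ∑ j, ‖G j y‖ₑ ^ p :=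
  lint_le_rows hp G (D3 G) (Eventually.of_forall fun x j => (row_D3 G x j).symm)


theorem energy_D3_sub_le (G H : Fin 3 → R3 → R3) (R : Set R3) {p : ℝ} (hp : 0 ≤ p) :
    ∫⁻ x in P3 ⁻¹' R, ‖D3 G x - D3 H x‖ₑ ^ p ≤ 2 ^ p * ∫⁻ y in R, ∑ j, ‖G j y - H j y‖ₑ ^ p :=
  lint_le_rows hp (fun j y => G j y - H j y) (fun x => D3 G x - D3 H x)
    (Eventually.of_forall fun x j => by rw [row_sub, row_D3, row_D3])



/-! ### Sobolev homeomorphisms -/

/-- Sobolev homeomorphism of `E3`, with weak derivative `D` -/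
structure SH3 (p : ℝ) (Om La : Set E3) (f : E3 → E3) (D : E3 → E3 →L[ℝ] E3) : Prop where
  homeo : Hom3 f Om La
  vwd : ∀ i, VWD Om volume (fun x => P3 (f x)) (fun x => P3 (D x (Pi.single i 1))) (Pi.single i 1)
  aesm : AEStronglyMeasurable D (volume.restrict Om)
  energy : ∫⁻ x in Om, ‖D x‖ₑ ^ p ≠ ∞
  lp : ∫⁻ x in Om, ‖f x‖ₑ ^ p ≠ ∞

/-- **transport of the weak derivatives** (no integrability needed) -/
theorem vwd_e3 {Om : Set R3} (hO : IsOpen Om) {f : R3 → R3} {G : Fin 3 → R3 → R3}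
    (hG : ∀ j, HasWeakGradOn Om (fun x => f x j) (G j)) (i : Fin 3) :
    VWD (P3 ⁻¹' Om) volume (fun x => P3 (e3 f x)) (fun x => P3 (D3 G x (Pi.single i 1)))
      (Pi.single i 1) := by
  intro k
  have h1 := wd_comp_equiv (vwd_of_grad hO hG i k) P3 P3_mp
  rw [P3_symm_single] at h1
  have e1 : (fun x : E3 => (P3 (e3 f x)) k) = fun x => f (P3 x) k := by funext x; rw [P3_e3]
  have e2 : (fun x : E3 => P3 (D3 G x (Pi.single i 1)) k) = fun x => Di G i (P3 x) k := by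
    funext x; rw [D3_single]
  change Crest.Agent.R96.Acl_392.WD (P3 ⁻¹' Om) volume (fun x => (P3 (e3 f x)) k)
    (fun x => P3 (D3 G x (Pi.single i 1)) k) (Pi.single i 1)
  rw [e1, e2]
  exact h1

theorem aesm_D3 {Om : Set R3} {G : Fin 3 → R3 → R3}
    (h : ∀ j, AEStronglyMeasurable (G j) (volume.restrict Om)) :
    AEStronglyMeasurable (D3 G) (volume.restrict (P3 ⁻¹' Om)) := by
  have h1 : AEStronglyMeasurable (fun x => Gmat G (P3 x)) (volume.restrict (P3 ⁻¹' Om)) :=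
    aesm_P3 (aesm_Gmat h)
  have h2 : Continuous fun M : R3 →L[ℝ] R3 =>
      (P3.symm : R3 →L[ℝ] E3).comp (M.comp (P3 : E3 →L[ℝ] R3)) := by fun_prop
  exact h2.comp_aestronglyMeasurable h1

/-- **Sobolev homeomorphisms: `R3` to `E3`** -/
theorem sh3_of {p : ℝ} (hp : 1 ≤ p) {Om La : Set R3} (hO : IsOpen Om) {f : R3 → R3}
    {G : Fin 3 → R3 → R3} (h : SH p Om La f G) :
    SH3 p (P3 ⁻¹' Om) (P3 ⁻¹' La) (e3 f) (D3 G) := by
  have hp0 : 0 ≤ p := by linarith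
  have h2 : (2:ℝ≥0∞) ^ p ≠ ∞ := ENNReal.rpow_ne_top_of_nonneg hp0 (by norm_num)
  refine ⟨hom3_of h.homeo, vwd_e3 hO h.wg, aesm_D3 fun j => (h.memG j).1, ?_, ?_⟩
  · refine ne_top_of_le_ne_top ?_ (energy_D3_le G Om hp0)
    refine ENNReal.mul_ne_top h2 ?_
    rw [lintegral_finsetSum' _ fun j _ => ((h.memG j).1.aemeasurable.enorm).pow_const _]
    exact ENNReal.sum_ne_top.2 fun k _ => lintegral_of_memLp hp (h.memG k)
  · refine ne_top_of_le_ne_top (lintegral_of_memLp hp h.mem) ?_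
    rw [lint_P3]
    apply lintegral_mono
    intro x
    apply ENNReal.rpow_le_rpow _ hp0
    rw [← ofReal_norm, ← ofReal_norm]
    apply ENNReal.ofReal_le_ofReal
    exact norm_P3_symm_le _

/-! ### the `E3` forms of `BFs` and `NO0` -/



/-- the diagonal matrix, on `E3` -/
def dg3 (s : Fin 3 → ℝ) : E3 →L[ℝ] E3 := ofRows (dg s)

theorem dg3_apply (s : Fin 3 → ℝ) (v : E3) (j : Fin 3) : dg3 s v j = s j * v j := by
  change inner ℝ (dg s j) (P3 v) = _
  unfold dg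
  rw [EuclideanSpace.inner_single_left]
  simp


/-- the closed unit cube in `E3` -/
def Qc : Set E3 := {x | ∀ i, |x i| ≤ 1}



end

end Crest.Agent.R096.Er_594
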