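import Crest.Agent.R096.Dic6_582
import Crest.Agent.R096.Er3_594
import Crest.Agent.R96.Push20_899

-- ▼ part R096/Dic7_582
section

/-!
# Row 96, NO0-FRONT, two parameters; the open set mapped into the horizontal log walls
-/

set_option autoImplicit false
set_option linter.unusedSectionVars false
set_option linter.unusedVariables false
open Set Filter Topology MeasureTheory
open scoped NNReal ENNReal

noncomputable section

namespace Crest.Agent.R096.Dic7_582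

open Crest.Agent.R096.Brk1_582 Crest.Agent.R096.Brk2_582 Crest.Agent.R096.Brk3_582
open Crest.Agent.R096.Brk4_582 Crest.Agent.R096.Brk5_582
open Crest.Agent.R096.Bsp_628 Crest.Agent.R096.Log1_582 Crest.Agent.R096.Log2_582
open Crest.Agent.R096.Log3_582 Crest.Agent.R096.Dic2_582
open Crest.Agent.R096.Dic3_582 Crest.Agent.R096.Dic4_582 Crest.Agent.R096.Dic6_582
open Crest.Agent.R96.Push_899 (EE co SE IE Box coreBF Mid Psi Pun Wall Foam0 FoamC Uni IsStretch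
  Lands Hole foamBF foamHole toBox brk foam0_brk brk_asp countable_brk mem_SE_brk co_injective
  mem_co_image continuous_co uni_logA)
open Crest.Agent.R96.Acl_392 Crest.Agent.R96.Sob1_199 Crest.Agent.R96.Sob2_199
  Crest.Agent.R96.Sob3_199 Crest.Agent.R96.Sob4_199 Crest.Agent.R96.Sob5_199

variable {E : Type*} [NormedAddCommGroup E] [NormedSpace ℝ E] [FiniteDimensional ℝ E]
  [MeasurableSpace E] [BorelSpace E] {μ : Measure E} [μ.IsAddHaarMeasure]

section push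

open Crest.Agent.R96.Push_899

variable {ι : Type*} [Fintype ι] [Nonempty ι] [DecidableEq ι]

/-- 899's `pushNO_lt'` with one more clause: off the bad set the stretched point is in no hole -/
theorem pushNO_lt2 (k : ι) {a0 p : ℝ} (ha0 : 1 ≤ a0) (hp : 0 < p) (hpn : p < Fintype.card ι)
    {J : Type*} [Fintype J] (v : J → EE ι) (hv : ∀ l, v l k = 0) {d : ℝ≥0∞} (hd : 0 < d) :
    ∃ m : ℕ, 0 < m ∧ ∃ δ : ℝ≥0∞, 0 < δ ∧
      ∀ (Ω : Set E) (Λ : Set (EE ι)) (φ : E → EE ι) (e : J → E) (D : J → E → EE ι),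
        IsOpen Ω → Ω.Nonempty → μ Ω ≠ ⊤ → IsOpen Λ → ContinuousOn φ Ω → MapsTo φ Ω Λ →
        (∀ l, VWD Ω μ φ (D l) (e l)) →
        ∫⁻ x in Ω, ∑ l, ‖D l x - v l‖ₑ ^ p ∂μ ≤ δ * μ Ω →
      ∃ K₀ : Set (EE ι), IsCompact K₀ ∧ K₀ ⊆ Λ ∧ ∃ s₀ > 0, ∀ s, 0 < s → s < s₀ →
      ∀ b : ι → ℝ, ∃ a : ι → ℝ,
        (∀ i, ∃ j : ℕ, j < m ∧ a i = b i + j * (if i = k then s else s / 2) / m) ∧
      ∃ S : EE ι ≃ₜ EE ι, IsStretch k Λ s S ∧
      ∃ X ⊆ Ω, MeasurableSet X ∧ μ X ≤ d * μ Ω ∧ (∀ x ∈ Ω \ X, φ x ∈ K₀) ∧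
      ∀ (I : Type) [Countable I] (Q : I → Box ι), Foam0 Λ Q →
        (∀ c i j, (Q c).W i ≤ a0 * (Q c).W j) →
        (∀ c, (∃ y ∈ SE (Q c), ∃ y₀ ∈ K₀, ‖y - y₀‖ ≤ s) → Uni k a s (Q c)) →
      (∀ z : I → ι → ℝ, (∀ c, z c ∈ Mid (Q c)) → ∀ x ∈ Ω \ X,
        S (φ x) ∈ Pun Λ (fun c => Box.pt (z c)) ∧ ∀ c, S (φ x) ∈ SE (Q c) →
        Lands k s (Q c) (φ x)
          (Psi Q (fun c => coreBF (Q c) (z c)) (fun c => Box.pt (z c)) (S (φ x)))) ∧
      ∀ N : Set (ι → ℝ), volume N = 0 →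
      ∃ z : I → ι → ℝ, (∀ c, z c ∈ Mid (Q c)) ∧ (∀ c, z c ∉ N) ∧
      ∀ (D' : J → E → EE ι),
        (∀ l, VWD (Ω ∩ (fun x => S (φ x)) ⁻¹' (Pun Λ (fun c => Box.pt (z c)))) μ
          (fun x => Psi Q (fun c => coreBF (Q c) (z c)) (fun c => Box.pt (z c)) (S (φ x)))
            (D' l) (e l)) →
        ∫⁻ x in Ω ∩ (fun x => S (φ x)) ⁻¹' (Pun Λ (fun c => Box.pt (z c))),
          ∑ l, ‖D' l x - v l‖ₑ ^ p ∂μ ≤ d * μ Ω := by
  have hKK : KBF ι a0 p ≠ ⊤ := (KBF_lt_top hpn).ne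
  obtain ⟨m, hm, δ, hδ, H⟩ := NO_setup (μ := μ) (E := E) k ha0 hp hKK v hv hd
  refine ⟨m, hm, δ, hδ, ?_⟩
  intro Ω Λ φ e D hΩ hΩne hΩf hΛ hφ hmaps hD hG
  obtain ⟨K₀, hK, hne, hKΛ, r, hr, hrΛ, s₀, hs₀, H1⟩ := H Ω Λ φ e D hΩ hΩne hΩf hΛ hφ hmaps hD hG
  refine ⟨K₀, hK, hKΛ, s₀, hs₀, ?_⟩
  intro s hs hss b
  obtain ⟨hStP, H2⟩ := H1 s hs hss
  obtain ⟨a, ha, hXm, H3⟩ := H2 b
  obtain ⟨S, hS, hSe⟩ := isStretch_of (k := k) (a := a k) hr hK hrΛ hne hStP
  have mG : MeasurableSet (GX K₀ k a s (wm m) (ηm m)) :=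
    measurableSet_GX hK.measurableSet k a hStP.hs hStP.hw hStP.hw1
  have hm1 : (1:ℝ) ≤ m := by exact_mod_cast hm
  have hη : 0 < ηm m := by unfold ηm; positivity
  have hη1 : ηm m ≤ 1 / 2 := by
    unfold ηm; rw [div_le_div_iff₀ (by positivity) (by norm_num)]; linarith
  refine ⟨a, ha, S, hS, Ω ∩ φ ⁻¹' (GX K₀ k a s (wm m) (ηm m))ᶜ, inter_subset_left,
    measurableSet_inter_preimage hΩ.measurableSet hφ mG.compl, hXm, ?_, ?_⟩
  · rintro x ⟨hx, hx2⟩
    by_contra hcon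
    exact hx2 ⟨hx, fun hG => hcon hG.1⟩
  intro I _ Q hF hA hU
  constructor
  · rintro z hz x ⟨hx, hx2⟩
    have hG : φ x ∈ GX K₀ k a s (wm m) (ηm m) := by
      by_contra hcon
      exact hx2 ⟨hx, hcon⟩
    have hFC := foamBF ha0 hF hA hz
    have hχ : ∀ y ∈ K₀, cutf K₀ r y = 1 := fun y hy => (cutf_near hr hy).self_of_nhds
    constructor
    · refine ⟨?_, ?_⟩
      · rw [← hS.image]
        exact ⟨φ x, hmaps hx, rfl⟩
      · rw [hSe]
        intro hmem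
        obtain ⟨c, hc⟩ := mem_iUnion.1 hmem
        have h1 := hFC.hole_sub c hc
        have h2 := IE_subset_SE _ (hFC.core_sub c (IE_subset_SE _ h1))
        have hH := good_mem ha0 hFC hA hStP hχ hU hη
          (le_of_eq rfl : εm a0 m ≤ ηm m / (8 * a0 ^ 2)) hG c h2
        have hηa : ηm m / a0 ≤ ηm m := div_le_self hη.le ha0
        have h3 := (tt_lt_zero_iff (hFC.shape c).nest _).2 h1
        rw [hH.tt_eq] at h3
        have h4 := hH.1
        linarith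
    · intro c hc
      rw [hSe] at hc ⊢
      exact good_lands ha0 hFC hA hStP hχ
        hU hη hη1 (le_of_eq rfl : εm a0 m ≤ ηm m / (8 * a0 ^ 2)) hG hc
  intro N hN
  have hSc : Continuous S := S.continuous
  have hφ₁ : ContinuousOn (fun x => S (φ x)) Ω := hSc.comp_continuousOn hφ
  -- the weak derivatives of `S ∘ φ`
  have hex : ∀ l, ∃ D₁, VWD Ω μ (fun x => S (φ x)) D₁ (e l) := by
    intro l
    rw [hSe]
    exact St_wd (k := k) (a := a k) hStP.hs hStP.hw hStP.hw1 hStP.hε.le hStP.hε1.le hStP.χ0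
      hStP.χ1 hStP.hL hStP.hL0 hΩ hφ (hD l)
  choose D₁ hD₁ using hex
  have nmX : NullMeasurableSet (Ω ∩ φ ⁻¹' (GX K₀ k a s (wm m) (ηm m))ᶜ) μ := by
    have h1 : NullMeasurableSet (φ ⁻¹' (GX K₀ k a s (wm m) (ηm m))ᶜ) (μ.restrict Ω) :=
      (hφ.aestronglyMeasurable hΩ.measurableSet).aemeasurable.nullMeasurable mG.compl
    have h2 := (nullMeasurableSet_restrict hΩ.measurableSet.nullMeasurableSet).1 h1
    rwa [inter_comm] at h2
  obtain ⟨z, hz, hzN, Hz⟩ := pushBF_X (I := I) ha0 hp.le hΛ hF hA hΩ hφ₁ hD₁ hN nmX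
  refine ⟨z, hz, hzN, ?_⟩
  intro D' hD'
  have hbad := (Hz D' hD').2
  have hFC := foamBF ha0 hF hA hz
  have key := H3 I Q (fun c => coreBF (Q c) (z c)) (fun c => Box.pt (z c)) (fun _ => 0) hFC hA hU
    D₁ D' (by rw [← hSe]; exact hD₁) (by rw [← hSe]; exact hD') (by rw [← hSe]; exact hbad)
  rw [← hSe] at key
  exact key

end push

section hor

variable {q : ℕ} {Λ K₀ : Set (EE (Fin 3))} {M s : ℝ} {a : Fin 3 → ℝ} {F : Set (Bx (Fin 3))}
  {S : EE (Fin 3) ≃ₜ EE (Fin 3)} {φ : E → EE (Fin 3)} {Ω : Set E} {c₀ : ℝ}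

/-- the point of the target lies in a horizontal wall between two logs -/
def HW (F : Set (Bx (Fin 3))) (q : ℕ) (a : Fin 3 → ℝ) (s : ℝ) (y : Fin 3 → ℝ) : Prop :=
  ∃ C O : F, Log2_582.Hor F q a s C O ∧ y ∈ Pc F C ∩ Pc F O

/-- **off the bad set a whole neighbourhood is mapped into the horizontal log walls** -/
theorem hor_eventually (h : Fr q Λ K₀ M s a F) (hM : 3 ≤ M) (hΛ : IsOpen Λ) (hΩ : IsOpen Ω)
    (hφ : ContinuousOn φ Ω) (hm : MapsTo φ Ω Λ)
    (hS : IsStretch 2 Λ s S) {X : Set E} (hXK : ∀ x ∈ Ω \ X, φ x ∈ K₀) {B : F → Box (Fin 3)}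
    {z : F → Fin 3 → ℝ} {κ ρ : F → ℝ}
    (hC : FoamC Λ (brk h.foam) (fun c => coreBF (brk h.foam c) (z c)) B ∅ c₀ κ ρ)
    (hland : ∀ x ∈ Ω \ X, ∀ c, S (φ x) ∈ SE (brk h.foam c) →
      Lands 2 s (brk h.foam c) (φ x) (FF (brk h.foam) B z S φ x)) {x : E}
    (hx : x ∈ OO Ω Λ B S φ) (hxX : x ∉ X) :
    ∀ᶠ x' in 𝓝 x, HW F q a s (co (FF (brk h.foam) B z S φ x')) := by
  have hs := h.s0
  have hcont : ContinuousAt (FF (brk h.foam) B z S φ) x :=
    (continuousOn_FF hC hΛ hφ).continuousAt ((isOpen_OO hC hΛ hΩ hφ).mem_nhds hx)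
  have hSφ : ContinuousAt (fun x => S (φ x)) x :=
    (S.continuous.comp_continuousOn hφ).continuousAt (hΩ.mem_nhds hx.1)
  have hSx : S (φ x) ∈ Λ := (stretch_mem hS).2 (hm hx.1)
  have hcells := (foam0_brk h.foam).cells
  have hxx : x ∈ Ω \ X := ⟨hx.1, hxX⟩
  -- only the bricks through the image point matter
  have e1 : ∀ᶠ x' in 𝓝 x, ∀ c, S (φ x') ∈ SE (brk h.foam c) → S (φ x) ∈ SE (brk h.foam c) := by
    have h1 : Tendsto (fun x => S (φ x)) (𝓝 x) (𝓝[Λ] (S (φ x))) := by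
      apply tendsto_nhdsWithin_iff.2 ⟨hSφ, ?_⟩
      filter_upwards [hΩ.mem_nhds hx.1] with x' hx'
      exact (stretch_mem hS).2 (hm hx')
    exact h1.eventually (hcells.near hSx)
  -- finitely many bricks: strict inequalities persist
  have hfin : {c | S (φ x) ∈ SE (brk h.foam c)}.Finite := by
    obtain ⟨U, hU, hf⟩ := hcells.locfin _ hSx
    exact hf.subset fun c hc => ⟨_, hc, mem_of_mem_nhds hU⟩
  have hcoord : ∀ i, ContinuousAt (fun x' => FF (brk h.foam) B z S φ x' i) x := fun i =>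
    (EuclideanSpace.proj i).continuous.continuousAt.comp hcont
  have e2 : ∀ᶠ x' in 𝓝 x, ∀ c ∈ {c | S (φ x) ∈ SE (brk h.foam c)}, ∀ i : Fin 3, i ≠ 2 →
      (brk h.foam c).lo i < FF (brk h.foam) B z S φ x' i ∧
      FF (brk h.foam) B z S φ x' i < (brk h.foam c).hi i := by
    rw [eventually_all_finite hfin]
    intro c hc
    rw [eventually_all]
    intro i
    by_cases hi : i = 2
    · exact Eventually.of_forall fun x' h' => absurd hi h'
    · have h1 := (hland x hxx c hc).face i hi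
      filter_upwards [(hcoord i).eventually_const_lt h1.1, (hcoord i).eventually_lt_const h1.2]
        with x' h2 h3 _
      exact ⟨h2, h3⟩
  have e3 : ∀ᶠ x' in 𝓝 x, x' ∈ OO Ω Λ B S φ := (isOpen_OO hC hΛ hΩ hφ).mem_nhds hx
  have e4 : ∀ᶠ x' in 𝓝 x, ‖FF (brk h.foam) B z S φ x' - FF (brk h.foam) B z S φ x‖ ≤ s / 2 := by
    have h1 : Metric.closedBall (FF (brk h.foam) B z S φ x) (s / 2) ∈
        𝓝 (FF (brk h.foam) B z S φ x) := Metric.closedBall_mem_nhds _ (by linarith)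
    filter_upwards [hcont h1] with x' hx'
    rwa [mem_preimage, mem_closedBall_iff_norm] at hx'
  obtain ⟨-, hN, -, -⟩ := lands_at h (by linarith) hm hS hXK hland hxx
  filter_upwards [e1, e2, e3, e4] with x' h1 h2 h3 h4
  obtain ⟨c, hc⟩ := hcells.cover _ h3.2.1
  have hcx := h1 c hc
  have hb := hC.Psi_mem_brick h3.2 hc
  have hLog : IsLog q a s c.1 := h.isLog (by linarith) hcx (hXK x hxx) (hS.near _)
  -- the third coordinate is on the boundary of the brick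
  have hz : ∃ n : ℤ, FF (brk h.foam) B z S φ x' 2 = a 2 + s * n := by
    have h5 : FF (brk h.foam) B z S φ x' 2 = (brk h.foam c).lo 2 ∨
        FF (brk h.foam) B z S φ x' 2 = (brk h.foam c).hi 2 := by
      by_contra hcon
      push Not at hcon
      apply hb.2
      intro i
      have h6 : (brk h.foam c).lo i ≤ FF (brk h.foam) B z S φ x' i ∧
          FF (brk h.foam) B z S φ x' i ≤ (brk h.foam c).hi i := hb.1 i
      by_cases hi : i = 2
      · subst hi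
        exact ⟨lt_of_le_of_ne h6.1 (Ne.symm hcon.1), lt_of_le_of_ne h6.2 hcon.2⟩
      · exact h2 c hcx i hi
    obtain ⟨⟨n, hn⟩, hU, -, -⟩ := h.uni_of_log hLog
    rcases h5 with hw | hw
    · exact ⟨n, by rw [hw, hn]; ring⟩
    · exact ⟨n + 1, by rw [hw, hU, hn]; push_cast; ring⟩
  obtain ⟨n, hn⟩ := hz
  have hy : co (FF (brk h.foam) B z S φ x') ∈ Nr (co '' K₀) s := by
    have h5 := Nr_add hN (z := co (FF (brk h.foam) B z S φ x')) (r' := s / 2)
      ((norm_ofLp_sub_le _ _).trans h4)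
    rwa [add_halves] at h5
  obtain ⟨C, O, h6, h7⟩ := hor_near h.foam h.q1 hs h.logs (r' := s) (by nlinarith) hy hn
  exact ⟨C, O, h6, h7⟩

/-- **energy of the words on the bad set** -/
theorem dict_X (h : Fr q Λ K₀ M s a F) (hΛ : IsOpen Λ) (hΩ : IsOpen Ω)
    (hφ : ContinuousOn φ Ω) {X : Set E} (hXm : MeasurableSet X) {B : F → Box (Fin 3)}
    {z : F → Fin 3 → ℝ} {κ ρ : F → ℝ}
    (hC : FoamC Λ (brk h.foam) (fun c => coreBF (brk h.foam c) (z c)) B ∅ c₀ κ ρ)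
    {u : E} {D : E → EE (Fin 3)}
    (hD : VWD (OO Ω Λ B S φ) μ (FF (brk h.foam) B z S φ) D u) {g : F → E → ℝ}
    (hg : ∀ c, WD (OO Ω Λ B S φ) μ (fun x => s3 F c (FF (brk h.foam) B z S φ x)) (g c) u)
    {w : F → ℝ≥0∞} (hw' : ∀ c : F, w c ≤ ENNReal.ofReal c.1.sz) (v : EE (Fin 3)) {p : ℝ}
    (hp : 1 ≤ p) :
    ∫⁻ x in OO Ω Λ B S φ ∩ X, (∑' c, w c * ‖g c x‖ₑ) ^ p ∂μ ≤
      C1 q p * (∫⁻ x in OO Ω Λ B S φ, ‖D x - v‖ₑ ^ p ∂μ + ‖v‖ₑ ^ p * μ X) := by
  have hOO : IsOpen (OO Ω Λ B S φ) := isOpen_OO hC hΛ hΩ hφ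
  have hco : IsOpen (co '' Λ) := by
    have : co '' Λ = (WithLp.toLp 2 : (Fin 3 → ℝ) → EE (Fin 3)) ⁻¹' Λ := by
      ext y
      constructor
      · rintro ⟨x, hx, rfl⟩; exact hx
      · intro hy; exact ⟨_, hy, rfl⟩
    rw [this]
    exact hΛ.preimage (PiLp.continuous_toLp 2 _)
  have key := gen_tsum (μ := μ) h.foam hco (dF_pos h.q1) (by norm_num : (0 : ℝ) < 6) h.cmp
    hOO hD (continuousOn_FF hC hΛ hφ) (fun x hx => mem_co_image.2 (mapsTo_FF hC hx)) hg hw'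
  have h1 := lint_part (μ := μ) (Ω := OO Ω Λ B S φ) (d := fun x => ‖D x - v‖ₑ)
    (H := fun x => ∑' c, w c * ‖g c x‖ₑ) (s := 0) (N := ‖v‖ₑ)
    (C := ENNReal.ofReal (3 * (Cs 3 (dF q) 6 * 6))) ENNReal.ofReal_ne_top hp
    (Z := OO Ω Λ B S φ ∩ X) (hOO.measurableSet.inter hXm) inter_subset_left (by
      filter_upwards [key] with x hx hxZ
      refine (hx hxZ.1).trans (mul_le_mul' le_rfl ?_)
      calc ‖D x‖ₑ = ‖(D x - v) + v‖ₑ := by rw [sub_add_cancel]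
        _ ≤ _ := enorm_add_le _ _)
  simp only [tsub_zero] at h1
  refine h1.trans ?_
  unfold C1
  gcongr
  exact inter_subset_right

/-- the pushed map has weak derivatives -/
theorem exists_vwd_FF (h : Fr q Λ K₀ M s a F) (hΛ : IsOpen Λ) (hΩ : IsOpen Ω)
    (hφ : ContinuousOn φ Ω) (hS : IsStretch 2 Λ s S) {B : F → Box (Fin 3)}
    {z : F → Fin 3 → ℝ} {κ ρ : F → ℝ}
    (hC : FoamC Λ (brk h.foam) (fun c => coreBF (brk h.foam c) (z c)) B ∅ c₀ κ ρ)
    {u : E} {D : E → EE (Fin 3)} (hD : VWD Ω μ φ D u) :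
    ∃ D', VWD (OO Ω Λ B S φ) μ (FF (brk h.foam) B z S φ) D' u := by
  obtain ⟨K, hK⟩ := hS.lip
  obtain ⟨D₁, hD₁⟩ := comp_exists hΩ hD hφ (S := univ) (fun x _ => mem_univ _)
    (θ := S) hK.locallyLipschitz.locallyLipschitzOn
  have h1 : VWD (OO Ω Λ B S φ) μ (fun x => S (φ x)) D₁ u := fun i =>
    wd_mono (hD₁ i) inter_subset_left
  exact comp_exists (isOpen_OO hC hΛ hΩ hφ) h1
    ((S.continuous.comp_continuousOn hφ).mono inter_subset_left) (S := Pun Λ B)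
    (fun x hx => hx.2) (hC.locLip hΛ)

/-- the cell functions of the pushed map have weak derivatives -/
theorem exists_wd_s3 (h : Fr q Λ K₀ M s a F) (hΛ : IsOpen Λ) (hΩ : IsOpen Ω)
    (hφ : ContinuousOn φ Ω) {B : F → Box (Fin 3)}
    {z : F → Fin 3 → ℝ} {κ ρ : F → ℝ}
    (hC : FoamC Λ (brk h.foam) (fun c => coreBF (brk h.foam c) (z c)) B ∅ c₀ κ ρ)
    {u : E} {D : E → EE (Fin 3)}
    (hD : VWD (OO Ω Λ B S φ) μ (FF (brk h.foam) B z S φ) D u) :
    ∃ g : F → E → ℝ, ∀ c, WD (OO Ω Λ B S φ) μ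
      (fun x => s3 F c (FF (brk h.foam) B z S φ x)) (g c) u := by
  have hco : IsOpen (co '' Λ) := by
    have : co '' Λ = (WithLp.toLp 2 : (Fin 3 → ℝ) → EE (Fin 3)) ⁻¹' Λ := by
      ext y
      constructor
      · rintro ⟨x, hx, rfl⟩; exact hx
      · intro hy; exact ⟨_, hy, rfl⟩
    rw [this]
    exact hΛ.preimage (PiLp.continuous_toLp 2 _)
  exact ⟨_, fun c => comp_real (isOpen_OO hC hΛ hΩ hφ) hD (continuousOn_FF hC hΛ hφ)
    (fun x hx => mem_co_image.2 (mapsTo_FF hC hx))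
    (s3_locLip h.foam hco (dF_pos h.q1) (by norm_num : (0 : ℝ) < 6) h.cmp c)⟩

end hor

/-- the choice of `q` (first parameter), then of `d` (second parameter) -/
theorem exists_consts2 {p : ℝ} (hp : 1 ≤ p) (V : ℝ≥0∞) (hV : V ≠ ⊤) {ε : ℝ≥0∞} (hε : 0 < ε) :
    ∃ q : ℕ, 1 ≤ q ∧ 6 / (q : ℝ≥0∞) ≤ ε ∧ ∀ ε' : ℝ≥0∞, 0 < ε' →
      ∃ d : ℝ≥0∞, 0 < d ∧ d ≤ ε' ∧ C1 q p * (d + V * d) ≤ ε' ∧
      (2 ^ p + C0 p + C1 q p) * d + (C0 p * (V * (6 / (q : ℝ≥0∞))) + C1 q p * (V * d)) ≤ ε := by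
  have hε3 : 0 < ε / 3 := ENNReal.div_pos hε.ne' (by norm_num)
  have hc0 := C0_ne_top hp
  obtain ⟨q, hq, hq1⟩ := exists_div_le (6 * (1 + C0 p * V)) (by finiteness) hε3
  have hc1 := C1_ne_top hp q
  have h2p : (2 : ℝ≥0∞) ^ p ≠ ⊤ := ENNReal.rpow_ne_top_of_nonneg (by linarith) (by norm_num)
  have e3 : ε / 3 ≤ ε := ENNReal.div_le_of_le_mul' (by
    calc ε = 1 * ε := (one_mul _).symm
      _ ≤ 3 * ε := by gcongr; norm_num)
  refine ⟨q, hq, ?_, fun ε' hε' => ?_⟩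
  · calc 6 / (q : ℝ≥0∞) = 6 * 1 / q := by rw [mul_one]
      _ ≤ 6 * (1 + C0 p * V) / q := by gcongr; exact le_self_add
      _ ≤ ε := hq1.trans e3
  obtain ⟨d, hd, hd1⟩ := exists_mul_le (1 + (2 ^ p + C0 p + C1 q p) + C1 q p * V)
    (by finiteness) (lt_min hε3 (lt_min hε' hε'))
  have hd2 := hd1.trans (min_le_left _ _)
  have hd3 := hd1.trans ((min_le_right _ _).trans (min_le_left _ _))
  refine ⟨d, hd, ?_, ?_, ?_⟩
  · calc d = 1 * d := (one_mul d).symm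
      _ ≤ (1 + (2 ^ p + C0 p + C1 q p) + C1 q p * V) * d := by
          refine mul_le_mul' ?_ le_rfl
          rw [add_assoc]
          exact le_self_add
      _ ≤ ε' := hd3
  · refine le_trans ?_ hd3
    calc C1 q p * (d + V * d) = (C1 q p + C1 q p * V) * d := by ring
      _ ≤ _ := by
          refine mul_le_mul' (add_le_add ?_ le_rfl) le_rfl
          calc C1 q p ≤ 2 ^ p + C0 p + C1 q p := le_add_self
            _ ≤ _ := le_add_self
  · have h1 : (2 ^ p + C0 p + C1 q p) * d ≤ ε / 3 := by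
      refine le_trans (mul_le_mul' ?_ le_rfl) hd2
      calc 2 ^ p + C0 p + C1 q p ≤ 1 + (2 ^ p + C0 p + C1 q p) := le_add_self
        _ ≤ _ := le_self_add
    have h2 : C0 p * (V * (6 / (q : ℝ≥0∞))) ≤ ε / 3 := by
      refine le_trans ?_ hq1
      calc C0 p * (V * (6 / (q : ℝ≥0∞))) = 6 * (C0 p * V) / q := by
            simp only [div_eq_mul_inv]; ring
        _ ≤ 6 * (1 + C0 p * V) / q := by gcongr; exact le_add_self
    have h3 : C1 q p * (V * d) ≤ ε / 3 := by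
      refine le_trans ?_ hd2
      rw [← mul_assoc]
      refine mul_le_mul' ?_ le_rfl
      exact le_add_self
    calc _ ≤ ε / 3 + (ε / 3 + ε / 3) := add_le_add h1 (add_le_add h2 h3)
      _ = ε := by rw [← add_assoc]; exact ENNReal.add_thirds ε

/-- **FRONT OF NO0, `p < 3`, TWO PARAMETERS**: `ε` (cut squares, `q`) first, then `ε'` (bad set
`X`), which may depend on `q`. -/
theorem front2_lt {p : ℝ} (hp : 1 ≤ p) (hp3 : p < 3) {J : Type*} [Fintype J]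
    (v : J → EE (Fin 3)) (hv : ∀ l, v l 2 = 0) {ε : ℝ≥0∞} (hε : 0 < ε) :
    ∃ q : ℕ, 1 ≤ q ∧ ∀ ε' : ℝ≥0∞, 0 < ε' → ∃ m : ℕ, 0 < m ∧ ∃ δ : ℝ≥0∞, 0 < δ ∧
      ∀ (Ω : Set E) (Λ : Set (EE (Fin 3))) (φ : E → EE (Fin 3)) (e : J → E)
        (D : J → E → EE (Fin 3)),
        IsOpen Ω → Ω.Nonempty → μ Ω ≠ ⊤ → IsOpen Λ → Bornology.IsBounded Λ →
        ContinuousOn φ Ω → MapsTo φ Ω Λ → (∀ l, VWD Ω μ φ (D l) (e l)) →
        ∫⁻ x in Ω, ∑ l, ‖D l x - v l‖ₑ ^ p ∂μ ≤ δ * μ Ω →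
      ∃ K₀ : Set (EE (Fin 3)), IsCompact K₀ ∧ K₀ ⊆ Λ ∧ ∀ M : ℝ, 3 ≤ M → ∃ s₀ > 0,
      ∀ s, 0 < s → s < s₀ → ∀ b : Fin 3 → ℝ, ∃ a : Fin 3 → ℝ,
        (∀ i, ∃ j : ℕ, a i = b i + j * (s / (2 * m))) ∧
      ∃ S : EE (Fin 3) ≃ₜ EE (Fin 3), IsStretch 2 Λ s S ∧
      ∃ X ⊆ Ω, MeasurableSet X ∧ μ X ≤ ε' * μ Ω ∧ (∀ x ∈ Ω \ X, φ x ∈ K₀) ∧
      (μ.restrict Ω) (Strip q a s φ) ≤ ε * μ Ω ∧
      ∃ (F : Set (Bx (Fin 3))) (h : Fr q Λ K₀ M s a F),
      ∀ N : Set (Fin 3 → ℝ), volume N = 0 →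
      ∃ z : F → Fin 3 → ℝ, (∀ c, z c ∈ Mid (brk h.foam c)) ∧ (∀ c, z c ∉ N) ∧
        (∀ x ∈ Ω \ X, ∀ c, S (φ x) ∈ SE (brk h.foam c) → Lands 2 s (brk h.foam c) (φ x)
          (FF (brk h.foam) (fun c => Box.pt (z c)) z S φ x)) ∧
        (∃ HH : Set E, IsOpen HH ∧ HH ⊆ OO Ω Λ (fun c => Box.pt (z c)) S φ ∧ Ω \ X ⊆ HH ∧
          ∀ x ∈ HH, HW F q a s (co (FF (brk h.foam) (fun c => Box.pt (z c)) z S φ x))) ∧
        ∀ (D' : J → E → EE (Fin 3)),
          (∀ l, VWD (OO Ω Λ (fun c => Box.pt (z c)) S φ) μ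
            (FF (brk h.foam) (fun c => Box.pt (z c)) z S φ) (D' l) (e l)) →
          ∫⁻ x in OO Ω Λ (fun c => Box.pt (z c)) S φ, ∑ l, ‖D' l x - v l‖ₑ ^ p ∂μ ≤ ε' * μ Ω ∧
          ∀ (l : J) (w : F → ℝ≥0∞), (∀ c : F, IsLog q a s c.1 → w c = ENNReal.ofReal (s / 2)) →
            (∀ c : F, w c ≤ ENNReal.ofReal c.1.sz) → ∀ g : F → E → ℝ,
            (∀ c, WD (OO Ω Λ (fun c => Box.pt (z c)) S φ) μ
              (fun x => s3 F c (FF (brk h.foam) (fun c => Box.pt (z c)) z S φ x)) (g c) (e l)) →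
            ∫⁻ x in OO Ω Λ (fun c => Box.pt (z c)) S φ,
              (∑' c, w c * ‖g c x‖ₑ - (‖v l 0‖ₑ + ‖v l 1‖ₑ)) ^ p ∂μ ≤ ε * μ Ω ∧
            ∫⁻ x in OO Ω Λ (fun c => Box.pt (z c)) S φ ∩ X,
              (∑' c, w c * ‖g c x‖ₑ) ^ p ∂μ ≤ ε' * μ Ω := by
  have hV : (∑ l, ‖v l‖ₑ ^ p) ≠ ⊤ := by
    refine ENNReal.sum_ne_top.2 fun l _ => ENNReal.rpow_ne_top_of_nonneg (by linarith) (by simp)
  obtain ⟨q, hq, hqε, hcon⟩ := exists_consts2 hp _ hV hε
  refine ⟨q, hq, fun ε' hε' => ?_⟩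
  obtain ⟨d, hd, hdε, hd1, hcon⟩ := hcon ε' hε'
  obtain ⟨m, hm, δ, hδ, H⟩ := pushNO_lt2 (μ := μ) (E := E) 2 (one_le_kF q) (by linarith)
    (by rw [Fintype.card_fin]; exact_mod_cast hp3) v hv hd
  refine ⟨m, hm, δ, hδ, ?_⟩
  intro Ω Λ φ e D hΩ hΩne hΩf hΛ hΛb hφ hmaps hD hG
  obtain ⟨K₀, hK, hKΛ, s₁, hs₁, H1⟩ := H Ω Λ φ e D hΩ hΩne hΩf hΛ hφ hmaps hD hG
  refine ⟨K₀, hK, hKΛ, fun M hM => ?_⟩
  obtain ⟨s₂, hs₂, H2⟩ := exists_Fr hq hΛ hΛb hK hKΛ (M := M) (by linarith)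
  refine ⟨min s₁ s₂, lt_min hs₁ hs₂, fun s hs hss b => ?_⟩
  obtain ⟨a, ha, S, hS, X, hXΩ, hXm, hX, hXK, H3⟩ := H1 s hs (hss.trans_le (min_le_left _ _)) b
  have hφm : ∀ i, AEMeasurable (fun x => φ x i) (μ.restrict Ω) := fun i =>
    (((EuclideanSpace.proj i).continuous.comp_continuousOn hφ).aestronglyMeasurable
      hΩ.measurableSet).aemeasurable
  obtain ⟨α, β, hα, hβ, hstrip⟩ := exists_translate (μ := μ) (Ω := Ω) (φ := φ) hq hs hφm a
  obtain ⟨F, hF⟩ := H2 s hs (hss.trans_le (min_le_right _ _))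
    (fun i => a i + s * (![(α : ℝ), β, 0] : Fin 3 → ℝ) i)
  have hstrip' : (μ.restrict Ω) (Strip q (fun i => a i + s * (![(α : ℝ), β, 0] : Fin 3 → ℝ) i) s φ)
      ≤ 6 / q * μ Ω := by
    refine hstrip.trans (le_of_eq ?_)
    simp only [div_eq_mul_inv]; ring
  refine ⟨fun i => a i + s * (![(α : ℝ), β, 0] : Fin 3 → ℝ) i, ?_, S, hS, X, hXΩ, hXm,
    hX.trans (by gcongr), hXK, hstrip'.trans (by gcongr), F, hF, ?_⟩
  · intro i
    obtain ⟨j, hj, he⟩ := ha i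
    have hm0 : (m : ℝ) ≠ 0 := by exact_mod_cast hm.ne'
    fin_cases i
    · refine ⟨j + 2 * m * α, ?_⟩
      simp at he ⊢
      rw [he]; field_simp; ring
    · refine ⟨j + 2 * m * β, ?_⟩
      simp at he ⊢
      rw [he]; field_simp; ring
    · refine ⟨2 * j, ?_⟩
      simp at he ⊢
      rw [he]; field_simp
  intro N hN
  have : Countable F := countable_brk hF.foam
  obtain ⟨H4, H5⟩ := H3 F (brk hF.foam) (foam0_brk hF.foam) (fun c i j => brk_asp hF.foam c i j)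
    (fun c hc => by
      obtain ⟨y, hy, y₀, hy₀, hyy⟩ := hc
      exact uni_translate (hF.uni_of_log (hF.isLog (by linarith) hy hy₀ hyy)))
  obtain ⟨z, hz, hzN, H6⟩ := H5 N hN
  have hland : ∀ x ∈ Ω \ X, ∀ c, S (φ x) ∈ SE (brk hF.foam c) → Lands 2 s (brk hF.foam c) (φ x)
      (FF (brk hF.foam) (fun c => Box.pt (z c)) z S φ x) := fun x hx => (H4 z hz x hx).2
  have hC := foamBF (one_le_kF q) (foam0_brk hF.foam) (fun c i j => brk_asp hF.foam c i j) hz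
  have hOO : IsOpen (OO Ω Λ (fun c => Box.pt (z c)) S φ) := isOpen_OO hC hΛ hΩ hφ
  refine ⟨z, hz, hzN, hland, ?_, fun D' hD' => ?_⟩
  · refine ⟨OO Ω Λ (fun c => Box.pt (z c)) S φ ∩ {x | ∀ᶠ x' in 𝓝 x,
      HW F q (fun i => a i + s * (![(α : ℝ), β, 0] : Fin 3 → ℝ) i) s
        (co (FF (brk hF.foam) (fun c => Box.pt (z c)) z S φ x'))}, ?_, inter_subset_left, ?_, ?_⟩
    · exact hOO.inter (isOpen_iff_mem_nhds.2 fun x hx => eventually_eventually_nhds.2 hx)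
    · intro x hx
      have h1 : x ∈ OO Ω Λ (fun c => Box.pt (z c)) S φ := ⟨hx.1, (H4 z hz x hx).1⟩
      exact ⟨h1, hor_eventually hF hM hΛ hΩ hφ hmaps hS hXK hC hland h1 hx.2⟩
    · exact fun x hx => hx.2.self_of_nhds
  have hE := H6 D' hD'
  refine ⟨hE.trans (by gcongr), fun l w hw hw' g hg => ?_⟩
  have e1 : ∫⁻ x in OO Ω Λ (fun c => Box.pt (z c)) S φ, ‖D' l x - v l‖ₑ ^ p ∂μ ≤ d * μ Ω := by
    refine le_trans (lintegral_mono fun x => ?_) hE
    exact Finset.single_le_sum (f := fun l => ‖D' l x - v l‖ₑ ^ p) (fun _ _ => zero_le)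
      (Finset.mem_univ l)
  have e2 : ‖v l‖ₑ ^ p ≤ ∑ l, ‖v l‖ₑ ^ p :=
    Finset.single_le_sum (f := fun l => ‖v l‖ₑ ^ p) (fun _ _ => zero_le) (Finset.mem_univ l)
  have e3 : μ (Ω ∩ X) ≤ d * μ Ω := (measure_mono inter_subset_right).trans hX
  constructor
  · have key := dict_FF (μ := μ) hF hM hΛ hΩ hφ hmaps hS hXK hC hland (hD' l) hg hw hw' (v l) hp
    refine key.trans ?_
    calc _ ≤ (2 ^ p + C0 p + C1 q p) * (d * μ Ω) +
          (C0 p * ((∑ l, ‖v l‖ₑ ^ p) * (6 / q * μ Ω)) + C1 q p * ((∑ l, ‖v l‖ₑ ^ p) * (d * μ Ω))) :=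
          add_le_add (mul_le_mul' le_rfl e1) (add_le_add
            (mul_le_mul' le_rfl (mul_le_mul' e2 hstrip')) (mul_le_mul' le_rfl (mul_le_mul' e2 e3)))
      _ = ((2 ^ p + C0 p + C1 q p) * d + (C0 p * ((∑ l, ‖v l‖ₑ ^ p) * (6 / q)) +
          C1 q p * ((∑ l, ‖v l‖ₑ ^ p) * d))) * μ Ω := by ring
      _ ≤ ε * μ Ω := by gcongr
  · have key := dict_X (μ := μ) hF hΛ hΩ hφ hXm hC (hD' l) hg hw' (v l) hp
    refine key.trans ?_
    calc C1 q p * (∫⁻ x in OO Ω Λ (fun c => Box.pt (z c)) S φ, ‖D' l x - v l‖ₑ ^ p ∂μ +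
          ‖v l‖ₑ ^ p * μ X) ≤
        C1 q p * (d * μ Ω + (∑ l, ‖v l‖ₑ ^ p) * (d * μ Ω)) := by gcongr
      _ = C1 q p * (d + (∑ l, ‖v l‖ₑ ^ p) * d) * μ Ω := by ring
      _ ≤ ε' * μ Ω := by gcongr

end Crest.Agent.R096.Dic7_582
end
end

-- ▼ part R096/Shl1_798
section

/-!
Row 96 (S0127), helper798, task 2529 (NO0-PRE [P-A] of helper582): a Sobolev homeomorphism followed by
a bi-Lipschitz stretch of the target is a Sobolev homeomorphism (`SH3`).
-/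

set_option autoImplicit false
set_option linter.unusedSectionVars false
set_option linter.unusedVariables false
set_option linter.style.longLine false
open Set Filter Topology MeasureTheory
open scoped NNReal ENNReal

noncomputable section

namespace Crest.Agent.R096.Shl_798

open Crest.Agent.R96.Push_899 (EE co IsStretch LaE continuous_co)
open Crest.Agent.R96.Acl_392 Crest.Agent.R96.Sob2_199 Crest.Agent.R96.Sob4_199
  Crest.Agent.R96.Sob5_199
open Crest.Agent.R096.SkC1_961 (E3 Hom3)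
open Crest.Agent.R096.Er_594 (SH3)
open Crest.Agent.R96.En10_199 (P3)

/-- a Sobolev homeomorphism followed by a homeomorphism of the target is a homeomorphism -/
theorem hom3_comp {Om La : Set E3} {f : E3 → E3} (h : Hom3 f Om La) {S : EE (Fin 3) ≃ₜ EE (Fin 3)}
    (hS : ∀ y, S y ∈ LaE La ↔ y ∈ LaE La) : Hom3 (fun x => co (S (P3 (f x)))) Om La := by
  obtain ⟨fi, hf1, hf2, hf3, hf4, hf5, hf6⟩ := h
  have hφc : ContinuousOn (fun x => P3 (f x)) Om := P3.continuous.comp_continuousOn hf5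
  have hi : ∀ y ∈ La, co (S.symm (P3 y)) ∈ La := by
    intro y hy
    have : S (S.symm (P3 y)) ∈ LaE La := by rw [S.apply_symm_apply]; exact hy
    exact (hS _).1 this
  refine ⟨fun y => fi (co (S.symm (P3 y))), ?_, ?_, ?_, ?_, ?_, ?_⟩
  · intro x hx
    have h1 : (P3 (f x) : EE (Fin 3)) ∈ LaE La := hf1 hx
    exact (hS _).2 h1
  · intro y hy
    exact hf2 (hi y hy)
  · intro x hx
    have e : co (S.symm (P3 (co (S (P3 (f x)))))) = f x := by
      have e1 : P3 (co (S (P3 (f x)))) = S (P3 (f x)) := rfl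
      rw [e1, S.symm_apply_apply]
      rfl
    change fi (co (S.symm (P3 (co (S (P3 (f x))))))) = x
    rw [e]
    exact hf3 x hx
  · intro y hy
    change co (S (P3 (f (fi (co (S.symm (P3 y))))))) = y
    rw [hf4 _ (hi y hy)]
    have e1 : P3 (co (S.symm (P3 y))) = S.symm (P3 y) := rfl
    rw [e1, S.apply_symm_apply]
    rfl
  · exact continuous_co.comp_continuousOn (S.continuous.comp_continuousOn hφc)
  · refine hf6.comp ?_ hi
    exact (continuous_co.comp (S.symm.continuous.comp P3.continuous)).continuousOn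

/-- the linear map with prescribed images of the coordinate vectors -/
def mkL (w : Fin 3 → EE (Fin 3)) : E3 →L[ℝ] E3 :=
  ∑ i, (ContinuousLinearMap.proj (R := ℝ) (φ := fun _ : Fin 3 => ℝ) i).smulRight (P3.symm (w i))

theorem mkL_single (w : Fin 3 → EE (Fin 3)) (i : Fin 3) :
    P3 (mkL w (Pi.single i 1)) = w i := by
  have h1 : mkL w (Pi.single i 1) = P3.symm (w i) := by
    simp only [mkL, _root_.sum_apply, ContinuousLinearMap.smulRight_apply,
      ContinuousLinearMap.proj_apply]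
    rw [Finset.sum_eq_single i]
    · simp
    · intro j _ hj
      simp [hj]
    · intro hi
      exact absurd (Finset.mem_univ i) hi
  rw [h1, P3.apply_symm_apply]

theorem norm_mkL_le (w : Fin 3 → EE (Fin 3)) : ‖mkL w‖ ≤ ∑ i, ‖w i‖ := by
  refine ContinuousLinearMap.opNorm_le_bound _ (Finset.sum_nonneg fun i _ => norm_nonneg _) ?_
  intro v
  simp only [mkL, _root_.sum_apply, ContinuousLinearMap.smulRight_apply,
      ContinuousLinearMap.proj_apply]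
  refine (norm_sum_le _ _).trans ?_
  rw [Finset.sum_mul]
  refine Finset.sum_le_sum fun i _ => ?_
  rw [norm_smul, mul_comm]
  have h1 : ‖P3.symm (w i)‖ ≤ ‖w i‖ := by
    refine (pi_norm_le_iff_of_nonneg (norm_nonneg _)).2 fun j => ?_
    exact PiLp.norm_apply_le (w i) j
  exact mul_le_mul h1 (norm_le_pi_norm v i) (norm_nonneg _) (norm_nonneg _)

theorem continuous_mkL : Continuous mkL := by
  unfold mkL
  refine continuous_finsetSum _ fun i _ => ?_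
  have h1 : Continuous fun w : Fin 3 → EE (Fin 3) => P3.symm (w i) :=
    P3.symm.continuous.comp (continuous_apply i)
  exact (ContinuousLinearMap.smulRightL ℝ E3 E3
    (ContinuousLinearMap.proj (R := ℝ) (φ := fun _ : Fin 3 => ℝ) i)).continuous.comp h1

/-- **[P-A] of helper582**: post-composition of a Sobolev homeomorphism with a Lipschitz
homeomorphism of the target -/
theorem sh3_comp_lip {p : ℝ} (hp : 1 ≤ p) {Om La : Set E3} (hOm : IsOpen Om)
    (hOmf : volume Om ≠ ⊤) {f : E3 → E3} {D : E3 → E3 →L[ℝ] E3} (h : SH3 p Om La f D)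
    {S : EE (Fin 3) ≃ₜ EE (Fin 3)} {K : ℝ≥0} (hK : LipschitzWith K S)
    (hS : ∀ y, S y ∈ LaE La ↔ y ∈ LaE La) :
    ∃ D1 : E3 → E3 →L[ℝ] E3, SH3 p Om La (fun x => co (S (P3 (f x)))) D1 ∧
      ∀ᵐ x, x ∈ Om → ∀ i, ‖P3 (D1 x (Pi.single i 1))‖ ≤ K * ‖P3 (D x (Pi.single i 1))‖ := by
  have hp0 : 0 ≤ p := by linarith
  have hfc : ContinuousOn f Om := by
    obtain ⟨fi, hf1, hf2, hf3, hf4, hf5, hf6⟩ := h.homeo
    exact hf5
  have hφc : ContinuousOn (fun x => P3 (f x)) Om := P3.continuous.comp_continuousOn hfc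
  have hex : ∀ i : Fin 3, ∃ D' : E3 → EE (Fin 3),
      VWD Om volume (fun x => S (P3 (f x))) D' (Pi.single i 1) ∧
        ∀ᵐ x, x ∈ Om → ‖D' x‖ ≤ K * ‖P3 (D x (Pi.single i 1))‖ := fun i =>
    comp_lip hOm (h.vwd i) hφc (S := univ) (fun x _ => mem_univ _) (hK.lipschitzOnWith (s := univ))
  choose D' hD' hb using hex
  have hsing : ∀ (x : E3) (i : Fin 3), P3 (mkL (fun i => D' i x) (Pi.single i 1)) = D' i x :=
    fun x i => mkL_single _ i
  have hbd : ∀ᵐ x, x ∈ Om → ∀ i, ‖D' i x‖ ≤ K * ‖P3 (D x (Pi.single i 1))‖ := by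
    have := ae_all_iff.2 hb
    filter_upwards [this] with x hx hxO i using hx i hxO
  refine ⟨fun x => mkL (fun i => D' i x), ⟨hom3_comp h.homeo hS, ?_, ?_, ?_, ?_⟩, ?_⟩
  · intro i
    have e : (fun x => P3 (mkL (fun i => D' i x) (Pi.single i 1))) = D' i := by
      funext x; exact hsing x i
    rw [e]
    exact hD' i
  · have h1 : AEMeasurable (fun x => fun i => D' i x) (volume.restrict Om) :=
      aemeasurable_pi_iff.2 fun i => (hD' i).aemeas
    exact continuous_mkL.comp_aestronglyMeasurable h1.aestronglyMeasurable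
  · -- energy
    set c : ℝ := 3 * (K * ‖(P3 : E3 →L[ℝ] EE (Fin 3))‖) with hc
    have hc0 : 0 ≤ c := by positivity
    have hle : ∀ᵐ x, x ∈ Om → ‖mkL (fun i => D' i x)‖ₑ ≤ ENNReal.ofReal c * ‖D x‖ₑ := by
      filter_upwards [hbd] with x hx hxO
      have h1 : ‖mkL (fun i => D' i x)‖ ≤ c * ‖D x‖ := by
        refine (norm_mkL_le _).trans ?_
        have h2 : ∀ i ∈ (Finset.univ : Finset (Fin 3)), ‖D' i x‖ ≤
            K * ‖(P3 : E3 →L[ℝ] EE (Fin 3))‖ * ‖D x‖ := by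
          intro i _
          refine (hx hxO i).trans ?_
          have h3 : ‖P3 (D x (Pi.single i 1))‖ ≤
              ‖(P3 : E3 →L[ℝ] EE (Fin 3))‖ * ‖D x (Pi.single i 1)‖ :=
            (P3 : E3 →L[ℝ] EE (Fin 3)).le_opNorm _
          have h4 : ‖D x (Pi.single i 1)‖ ≤ ‖D x‖ := by
            have := (D x).le_opNorm (Pi.single i (1:ℝ))
            rwa [Pi.norm_single, norm_one, mul_one] at this
          calc (K : ℝ) * ‖P3 (D x (Pi.single i 1))‖ ≤
              K * (‖(P3 : E3 →L[ℝ] EE (Fin 3))‖ * ‖D x‖) := by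
                refine mul_le_mul_of_nonneg_left (h3.trans ?_) K.2
                exact mul_le_mul_of_nonneg_left h4 (norm_nonneg _)
            _ = _ := by ring
        refine (Finset.sum_le_sum h2).trans (le_of_eq ?_)
        rw [Finset.sum_const, Finset.card_univ, Fintype.card_fin, nsmul_eq_mul, hc]
        push_cast
        ring
      rw [← ofReal_norm, ← ofReal_norm, ← ENNReal.ofReal_mul hc0]
      exact ENNReal.ofReal_le_ofReal h1
    have hfin : ENNReal.ofReal c ^ p * ∫⁻ x in Om, ‖D x‖ₑ ^ p ≠ ⊤ :=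
      ENNReal.mul_ne_top (ENNReal.rpow_ne_top_of_nonneg hp0 ENNReal.ofReal_ne_top) h.energy
    refine ne_top_of_le_ne_top hfin ?_
    rw [← lintegral_const_mul' _ _ (ENNReal.rpow_ne_top_of_nonneg hp0 ENNReal.ofReal_ne_top)]
    apply lintegral_mono_ae
    rw [ae_restrict_iff' hOm.measurableSet]
    filter_upwards [hle] with x hx hxO
    rw [← ENNReal.mul_rpow_of_nonneg _ _ hp0]
    exact ENNReal.rpow_le_rpow (hx hxO) hp0
  · -- integrability
    set c : ℝ := K * ‖(P3 : E3 →L[ℝ] EE (Fin 3))‖ with hc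
    have hc0 : 0 ≤ c := by positivity
    have hle : ∀ x, ‖co (S (P3 (f x)))‖ₑ ≤ ENNReal.ofReal c * ‖f x‖ₑ + ENNReal.ofReal ‖S 0‖ := by
      intro x
      have h1 : ‖co (S (P3 (f x)))‖ ≤ c * ‖f x‖ + ‖S 0‖ := by
        have h2 : ‖co (S (P3 (f x)))‖ ≤ ‖S (P3 (f x))‖ := by
          refine (pi_norm_le_iff_of_nonneg (norm_nonneg _)).2 fun j => ?_
          exact PiLp.norm_apply_le (S (P3 (f x))) j
        have h3 := hK.dist_le_mul (P3 (f x)) 0
        rw [dist_eq_norm, dist_zero_right] at h3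
        have h4 : ‖P3 (f x)‖ ≤ ‖(P3 : E3 →L[ℝ] EE (Fin 3))‖ * ‖f x‖ :=
          (P3 : E3 →L[ℝ] EE (Fin 3)).le_opNorm _
        have h5 : ‖S (P3 (f x))‖ ≤ ‖S (P3 (f x)) - S 0‖ + ‖S 0‖ := by
          have := norm_add_le (S (P3 (f x)) - S 0) (S 0)
          rwa [sub_add_cancel] at this
        have h6 : (K : ℝ) * ‖P3 (f x)‖ ≤ c * ‖f x‖ := by
          rw [hc, mul_assoc]
          exact mul_le_mul_of_nonneg_left h4 K.2
        linarith
      rw [← ofReal_norm, ← ofReal_norm, ← ENNReal.ofReal_mul hc0,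
        ← ENNReal.ofReal_add (by positivity) (norm_nonneg _)]
      exact ENNReal.ofReal_le_ofReal h1
    have h2p : (2:ℝ≥0∞) ^ (p - 1) ≠ ⊤ := ENNReal.rpow_ne_top_of_nonneg (by linarith) (by norm_num)
    have hcp : ENNReal.ofReal c ^ p ≠ ⊤ := ENNReal.rpow_ne_top_of_nonneg hp0 ENNReal.ofReal_ne_top
    have h0p : ENNReal.ofReal ‖S 0‖ ^ p ≠ ⊤ :=
      ENNReal.rpow_ne_top_of_nonneg hp0 ENNReal.ofReal_ne_top
    have hfin : (2:ℝ≥0∞) ^ (p - 1) * ((ENNReal.ofReal c ^ p * ∫⁻ x in Om, ‖f x‖ₑ ^ p) +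
        ENNReal.ofReal ‖S 0‖ ^ p * volume Om) ≠ ⊤ :=
      ENNReal.mul_ne_top h2p (ENNReal.add_ne_top.2 ⟨ENNReal.mul_ne_top hcp h.lp,
        ENNReal.mul_ne_top h0p hOmf⟩)
    refine ne_top_of_le_ne_top hfin ?_
    have hconst : ENNReal.ofReal ‖S 0‖ ^ p * volume Om =
        ∫⁻ x in Om, ENNReal.ofReal ‖S 0‖ ^ p := by
      rw [setLIntegral_const]
    rw [← lintegral_const_mul' _ _ hcp, hconst, ← lintegral_add_right _ measurable_const,
      ← lintegral_const_mul' _ _ h2p]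
    apply lintegral_mono
    intro x
    change ‖co (S (P3 (f x)))‖ₑ ^ p ≤ 2 ^ (p - 1) * (ENNReal.ofReal c ^ p * ‖f x‖ₑ ^ p +
      ENNReal.ofReal ‖S 0‖ ^ p)
    rw [← ENNReal.mul_rpow_of_nonneg _ _ hp0]
    exact (ENNReal.rpow_le_rpow (hle x) hp0).trans
      (ENNReal.rpow_add_le_mul_rpow_add_rpow _ _ hp)
  · filter_upwards [hbd] with x hx hxO i
    rw [hsing x i]
    exact hx hxO i

/-- **[P-A] of helper582, for the stretches of the front** -/
theorem sh3_comp_stretch {p : ℝ} (hp : 1 ≤ p) {Om La : Set E3} (hOm : IsOpen Om)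
    (hOmf : volume Om ≠ ⊤) {f : E3 → E3} {D : E3 → E3 →L[ℝ] E3} (h : SH3 p Om La f D)
    {S : EE (Fin 3) ≃ₜ EE (Fin 3)} {s : ℝ} (hS : IsStretch 2 (LaE La) s S) :
    ∃ D1 : E3 → E3 →L[ℝ] E3, SH3 p Om La (fun x => co (S (P3 (f x)))) D1 := by
  obtain ⟨K, hK⟩ := hS.lip
  obtain ⟨D1, h1, -⟩ := sh3_comp_lip hp hOm hOmf h hK
    (fun y => Crest.Agent.R096.Dic6_582.stretch_mem hS)
  exact ⟨D1, h1⟩

end Crest.Agent.R096.Shl_798
end
end

-- ▼ part R096/Npr1_582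

/-!
# Row 96, NO0-PRE (helper582), part 1: the front in the language of the machine (`E3`, `FoamD`)
-/

set_option autoImplicit false
set_option linter.unusedSectionVars false
set_option linter.unusedVariables false
open Set Filter Topology MeasureTheory
open scoped NNReal ENNReal

noncomputable section

namespace Crest.Agent.R096.Npr_582

open Crest.Agent.R096.Brk1_582 Crest.Agent.R096.Brk2_582 Crest.Agent.R096.Brk3_582
open Crest.Agent.R096.Brk4_582 Crest.Agent.R096.Brk5_582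
open Crest.Agent.R096.Bsp_628 Crest.Agent.R096.Log1_582 Crest.Agent.R096.Log2_582
open Crest.Agent.R096.Log3_582 Crest.Agent.R096.Dic1_582 Crest.Agent.R096.Dic2_582
open Crest.Agent.R096.Dic3_582 Crest.Agent.R096.Dic4_582 Crest.Agent.R096.Dic6_582
open Crest.Agent.R096.Dic7_582
open Crest.Agent.R96.Push_899 (EE co SE IE Box coreBF Mid Psi Pun Wall Foam0 FoamC Uni IsStretch
  Lands Hole foamBF foamHole toBox brk foam0_brk brk_asp countable_brk mem_SE_brk co_injective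
  mem_co_image continuous_co uni_logA LaE co_image_LaE isOpen_LaE mkFoamD mkFoamD_Psi brk')
open Crest.Agent.R96.Acl_392 Crest.Agent.R96.Sob1_199 Crest.Agent.R96.Sob2_199
  Crest.Agent.R96.Sob3_199 Crest.Agent.R96.Sob4_199 Crest.Agent.R96.Sob5_199
open Crest.Agent.R096.SkC1_961 (E3 Hom3 FoamD IsPush)
open Crest.Agent.R096.Er_594 (SH3)
open Crest.Agent.R96.En10_199 (P3)

theorem P3_co (y : EE (Fin 3)) : P3 (co y) = y := rfl

section foam

variable {q : ℕ} {La : Set E3} {K₀ : Set (EE (Fin 3))} {M s : ℝ} {a : Fin 3 → ℝ}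
  {F : Set (Bx (Fin 3))}

theorem bfOf (h : Fr q (LaE La) K₀ M s a F) : BoxFoam La F (dF q) (kF q) := by
  have h1 := h.foam
  rwa [co_image_LaE] at h1

/-- the admissibility constant of the pushes -/
def cN (q : ℕ) : ℝ := 1 / (8 * kF q)

theorem foamC_of (h : Fr q (LaE La) K₀ M s a F) {z : F → Fin 3 → ℝ}
    (hz : ∀ c, z c ∈ Mid (brk h.foam c)) :
    FoamC (LaE La) (brk' (bfOf h)) (fun c => coreBF (brk h.foam c) (z c)) (fun c => Box.pt (z c)) ∅
      (cN q) (fun _ => 0) (fun c => Crest.Agent.R96.Push_899.side (brk h.foam c)) :=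
  foamBF (one_le_kF q) (foam0_brk h.foam) (fun c i j => brk_asp h.foam c i j) hz

/-- **the foam of the machine**: bricks of the log foam, the holes are points -/
def mkΦ (h : Fr q (LaE La) K₀ M s a F) {z : F → Fin 3 → ℝ}
    (hz : ∀ c, z c ∈ Mid (brk h.foam c)) : FoamD (dF q) (kF q) 6 (cN q) La :=
  mkFoamD (bfOf h) h.cmp (foamC_of h hz)



theorem mkΦ_Psi (h : Fr q (LaE La) K₀ M s a F) {z : F → Fin 3 → ℝ}
    (hz : ∀ c, z c ∈ Mid (brk h.foam c)) {y : EE (Fin 3)} (hy : y ∈ LaE La) :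
    (mkΦ h hz).Psi (co y) =
      co (Psi (brk h.foam) (fun c => coreBF (brk h.foam c) (z c)) (fun c => Box.pt (z c)) y) :=
  mkFoamD_Psi (bfOf h) h.cmp (foamC_of h hz) hy

theorem mkΦ_lev (h : Fr q (LaE La) K₀ M s a F) {z : F → Fin 3 → ℝ}
    (hz : ∀ c, z c ∈ Mid (brk h.foam c)) {y : EE (Fin 3)} (hy : y ∈ LaE La) (c : F) :
    (mkΦ h hz).lev c (co y) =
      s3 F c (Psi (brk h.foam) (fun c => coreBF (brk h.foam c) (z c)) (fun c => Box.pt (z c)) y) := by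
  unfold FoamD.lev
  rw [mkΦ_Psi h hz hy]
  rfl

end foam

/-- the point `y` of the target lies in a closed good unit square of a horizontal wall -/
def QW (F : Set (Bx (Fin 3))) (q : ℕ) (a : Fin 3 → ℝ) (h : ℝ) (y : E3) : Prop :=
  ∃ e o i j : ℤ, GSq F q a h e o i j ∧ y ∈ sqr a h e o i j

/-- the domain without the preimages of the holes -/
def Op {δ κ0 R c0 : ℝ} {La : Set E3} (Φ : FoamD δ κ0 R c0 La) (Om : Set E3) (f1 : E3 → E3) :
    Set E3 := {x | x ∈ Om ∧ ∀ c : Φ.F, f1 x ∉ (Φ.B c).S}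

/-- **output of the front**, `p < 3`: foam `Φ` (log foam of brick size `h`), holes = points `z c`,
`f1` = `f` followed by the stretch, bad set `X`, `HH` = mapped into the horizontal log walls,
`g c l` = weak derivatives of the level functions in the coordinate direction `l`. -/
structure Front (p : ℝ) (q : ℕ) (s : Fin 3 → ℝ) (ε ε' : ℝ≥0∞) (Om La : Set E3) (f : E3 → E3)
    (M h : ℝ) (a : Fin 3 → ℝ) (Φ : FoamD (dF q) (kF q) 6 (cN q) La) (z : Φ.F → E3) (f1 : E3 → E3)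
    (X HH : Set E3) (g : Φ.F → Fin 3 → E3 → ℝ) : Prop where
  q1 : 1 ≤ q
  h0 : 0 < h
  fr : ∃ K₀ : Set (EE (Fin 3)), IsCompact K₀ ∧ K₀ ⊆ LaE La ∧ Fr q (LaE La) K₀ M h a Φ.F ∧
    ∀ x ∈ Om \ X, P3 (f x) ∈ K₀
  st : ∃ S : EE (Fin 3) ≃ₜ EE (Fin 3), IsStretch 2 (LaE La) h S ∧ ∀ x, f1 x = co (S (P3 (f x)))
  sh : ∃ D1 : E3 → E3 →L[ℝ] E3, SH3 p Om La f1 D1
  rho : ∀ c : Φ.F, ∀ y ∈ c.1.set, 32 * c.1.sz ≤ Metric.infDist y Laᶜ
  size : ∀ c : Φ.F, c.1.sz ≤ 2 * q * h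
  homeo : Hom3 f1 Om La
  near : ∀ x, ‖f1 x - f x‖ ≤ h
  pt : ∀ c, Φ.B c = Box.pt (z c)
  pu : ∀ c, Φ.pu c = Crest.Agent.R96.Push_899.psi (toBox c.1 (Φ.bf.pos c.1 c.2))
    (coreBF (toBox c.1 (Φ.bf.pos c.1 c.2)) (z c)) (Box.pt (z c))
  mid : ∀ c, z c ∈ Mid (toBox c.1 (Φ.bf.pos c.1 c.2))
  op : IsOpen (Op Φ Om f1)
  XO : X ⊆ Om
  Xm : MeasurableSet X
  Xv : volume X ≤ ε' * volume Om
  HHo : IsOpen HH
  HHs : HH ⊆ Op Φ Om f1
  HHX : Om \ X ⊆ HH
  HHw : ∀ x ∈ HH, HW Φ.F q a h (Φ.Psi (f1 x))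
  Qv : volume {x | x ∈ Om ∧ ¬ (x ∈ HH ∧ QW Φ.F q a h (Φ.Psi (f1 x)))} ≤ (ε + ε') * volume Om
  gm : ∀ c l, Measurable (g c l)
  wd : ∀ c l, WD (Op Φ Om f1) volume (fun x => Φ.lev c (f1 x)) (g c l) (Pi.single l 1)
  eW : ∀ (l : Fin 3) (w : Φ.F → ℝ≥0∞), (∀ c : Φ.F, IsLog q a h c.1 → w c = ENNReal.ofReal (h / 2)) →
    (∀ c : Φ.F, w c ≤ ENNReal.ofReal c.1.sz) →
    ∫⁻ x in Op Φ Om f1, (∑' c, w c * ‖g c l x‖ₑ - ENNReal.ofReal (s l)) ^ p ≤ ε * volume Om
  eX : ∀ (l : Fin 3) (w : Φ.F → ℝ≥0∞), (∀ c : Φ.F, IsLog q a h c.1 → w c = ENNReal.ofReal (h / 2)) →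
    (∀ c : Φ.F, w c ≤ ENNReal.ofReal c.1.sz) →
    ∫⁻ x in Op Φ Om f1 ∩ X, (∑' c, w c * ‖g c l x‖ₑ) ^ p ≤ ε' * volume Om

/-- a measurable representative of a weak derivative -/
theorem exists_measurable_wd {Ω : Set E3} (hΩ : IsOpen Ω) {v g : E3 → ℝ} {e : E3}
    (h : WD Ω volume v g e) : ∃ g' : E3 → ℝ, Measurable g' ∧ WD Ω volume v g' e := by
  have hg : AEStronglyMeasurable g (volume.restrict Ω) := aemeas_of_loc h.lg
  refine ⟨hg.mk g, hg.stronglyMeasurable_mk.measurable, ?_⟩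
  refine wd_congr hΩ h (Eventually.of_forall fun _ _ => rfl) ?_
  have h1 := hg.ae_eq_mk
  exact (ae_restrict_iff' hΩ.measurableSet).1 h1

/-- **FRONT OF NO0 IN THE LANGUAGE OF THE MACHINE, `p < 3`** -/
theorem exists_front {p : ℝ} (hp : 1 ≤ p) (hp3 : p < 3) (s : Fin 3 → ℝ) (hs : ∀ i, 0 ≤ s i)
    (hs2 : s 2 = 0) {ε : ℝ≥0∞} (hε : 0 < ε) :
    ∃ q : ℕ, 1 ≤ q ∧ ∀ ε' : ℝ≥0∞, 0 < ε' → ∃ δ : ℝ≥0∞, 0 < δ ∧
      ∀ (Om La : Set E3) (f : E3 → E3) (D : E3 → E3 →L[ℝ] E3),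
        IsOpen Om → Om.Nonempty → volume Om ≠ ⊤ → IsOpen La → Bornology.IsBounded La →
        SH3 p Om La f D →
        ∫⁻ x in Om, ∑ l, ‖P3 (D x (Pi.single l 1)) - EuclideanSpace.single l (s l)‖ₑ ^ p ≤
          δ * volume Om →
      ∀ M : ℝ, 3 ≤ M → ∃ h₀ > 0, ∀ h, 0 < h → h < h₀ →
        ∃ (a : Fin 3 → ℝ) (Φ : FoamD (dF q) (kF q) 6 (cN q) La) (z : Φ.F → E3) (f1 : E3 → E3)
          (X HH : Set E3) (g : Φ.F → Fin 3 → E3 → ℝ),
          Front p q s ε ε' Om La f M h a Φ z f1 X HH g := by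
  obtain ⟨q, hq, H⟩ := front2_lt (E := E3) (μ := (volume : Measure E3)) hp hp3
    (fun l : Fin 3 => (EuclideanSpace.single l (s l) : EE (Fin 3))) (fun l => by
      fin_cases l
      · simp
      · simp
      · simp [hs2]) hε
  refine ⟨q, hq, fun ε' hε' => ?_⟩
  obtain ⟨m, hm, δ, hδ, H⟩ := H ε' hε'
  refine ⟨δ, hδ, fun Om La f D hOm hOmne hOmf hLa hLab hSH hE M hM => ?_⟩
  obtain ⟨fi, hf1, hf2, hf3, hf4, hf5, hf6⟩ := hSH.homeo
  have hLE : IsOpen (LaE La) := isOpen_LaE hLa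
  have hLEb : Bornology.IsBounded (LaE La) := by
    have h1 : LaE La = (P3 : E3 → EE (Fin 3)) '' La := by
      ext y
      constructor
      · intro hy; exact ⟨co y, hy, rfl⟩
      · rintro ⟨x, hx, rfl⟩; exact hx
    rw [h1]
    exact (P3 : E3 →L[ℝ] EE (Fin 3)).lipschitz.isBounded_image hLab
  set φ : E3 → EE (Fin 3) := fun x => P3 (f x) with hφ
  have hφc : ContinuousOn φ Om := P3.continuous.comp_continuousOn hf5
  have hφm : MapsTo φ Om (LaE La) := fun x hx => hf1 hx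
  obtain ⟨K₀, hK, hKΛ, H⟩ := H Om (LaE La) φ (fun l => Pi.single l 1)
    (fun l x => P3 (D x (Pi.single l 1))) hOm hOmne hOmf hLE hLEb hφc hφm hSH.vwd hE
  obtain ⟨h₀, hh₀, H⟩ := H M hM
  refine ⟨h₀, hh₀, fun h hh hhh => ?_⟩
  obtain ⟨a, ha, S, hS, X, hXO, hXm, hXv, hXK, hstrip, F, hF, H⟩ := H h hh hhh 0
  obtain ⟨z, hz, -, hland, ⟨HH, hHHo, hHHs, hHHX, hHHw⟩, H⟩ := H ∅ (by simp)
  have hC := foamBF (one_le_kF q) (foam0_brk hF.foam) (fun c i j => brk_asp hF.foam c i j) hz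
  have hOO : IsOpen (OO Om (LaE La) (fun c => Box.pt (z c)) S φ) := isOpen_OO hC hLE hOm hφc
  set f1 : E3 → E3 := fun x => co (S (φ x)) with hf1d
  have hSm : ∀ x ∈ Om, S (φ x) ∈ LaE La := fun x hx => (stretch_mem hS).2 (hφm hx)
  have hOp : Op (mkΦ hF hz) Om f1 = OO Om (LaE La) (fun c => Box.pt (z c)) S φ := by
    ext x
    constructor
    · rintro ⟨h1, h2⟩
      refine ⟨h1, hSm x h1, ?_⟩
      rw [mem_iUnion]
      rintro ⟨c, hc⟩
      exact h2 c hc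
    · rintro ⟨h1, h2, h3⟩
      refine ⟨h1, fun c hc => h3 ?_⟩
      rw [mem_iUnion]
      exact ⟨c, hc⟩
  have hPsi : ∀ x ∈ Om, (mkΦ hF hz).Psi (f1 x) =
      co (FF (brk hF.foam) (fun c => Box.pt (z c)) z S φ x) := fun x hx =>
    mkΦ_Psi hF hz (hSm x hx)
  have hlev : ∀ x ∈ Om, ∀ c : F, (mkΦ hF hz).lev c (f1 x) =
      s3 F c (FF (brk hF.foam) (fun c => Box.pt (z c)) z S φ x) := fun x hx c =>
    mkΦ_lev hF hz (hSm x hx) c
  -- weak derivatives
  have hex : ∀ l : Fin 3, ∃ D', VWD (OO Om (LaE La) (fun c => Box.pt (z c)) S φ) volume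
      (FF (brk hF.foam) (fun c => Box.pt (z c)) z S φ) D' (Pi.single l 1) := fun l =>
    exists_vwd_FF hF hLE hOm hφc hS hC (hSH.vwd l)
  choose D' hD' using hex
  have hexg : ∀ l : Fin 3, ∃ g : F → E3 → ℝ, ∀ c,
      WD (OO Om (LaE La) (fun c => Box.pt (z c)) S φ) volume
        (fun x => s3 F c (FF (brk hF.foam) (fun c => Box.pt (z c)) z S φ x)) (g c)
          (Pi.single l 1) := fun l => exists_wd_s3 hF hLE hOm hφc hC (hD' l)
  choose g0 hg0 using hexg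
  have hexm : ∀ (c : F) (l : Fin 3), ∃ g' : E3 → ℝ, Measurable g' ∧
      WD (OO Om (LaE La) (fun c => Box.pt (z c)) S φ) volume
        (fun x => s3 F c (FF (brk hF.foam) (fun c => Box.pt (z c)) z S φ x)) g'
          (Pi.single l 1) := fun c l => exists_measurable_wd hOO (hg0 l c)
  choose g hgm hg using hexm
  obtain ⟨-, H⟩ := H D' hD'
  have hsl : ∀ l : Fin 3, ‖(EuclideanSpace.single l (s l) : EE (Fin 3)) 0‖ₑ +
      ‖(EuclideanSpace.single l (s l) : EE (Fin 3)) 1‖ₑ = ENNReal.ofReal (s l) := by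
    intro l
    fin_cases l
    · simp [← ofReal_norm, abs_of_nonneg (hs 0)]
    · simp [← ofReal_norm, abs_of_nonneg (hs 1)]
    · simp [hs2]
  refine ⟨a, mkΦ hF hz, z, f1, X, HH, g, ?_⟩
  exact
    { q1 := hq
      h0 := hh
      fr := ⟨K₀, hK, hKΛ, hF, fun x hx => hXK x hx⟩
      st := ⟨S, hS, fun x => rfl⟩
      sh := Crest.Agent.R096.Shl_798.sh3_comp_stretch hp hOm hOmf hSH hS
      rho := by
        intro c y hy
        have := hF.rho c.1 c.2 y hy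
        rwa [co_image_LaE] at this
      size := fun c => hF.size c.1 c.2
      homeo := by
        refine ⟨fun y => fi (co (S.symm (P3 y))), ?_, ?_, ?_, ?_, ?_, ?_⟩
        · intro x hx; exact hSm x hx
        · intro y hy
          refine hf2 ?_
          have : S (S.symm (P3 y)) ∈ LaE La := by rw [S.apply_symm_apply]; exact hy
          exact (stretch_mem hS).1 this
        · intro x hx
          show fi (co (S.symm (P3 (co (S (φ x)))))) = x
          rw [P3_co, S.symm_apply_apply]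
          exact hf3 x hx
        · intro y hy
          show co (S (P3 (f (fi (co (S.symm (P3 y))))))) = y
          have h1 : co (S.symm (P3 y)) ∈ La := by
            have : S (S.symm (P3 y)) ∈ LaE La := by rw [S.apply_symm_apply]; exact hy
            exact (stretch_mem hS).1 this
          rw [hf4 _ h1, P3_co, S.apply_symm_apply]
          rfl
        · exact continuous_co.comp_continuousOn (S.continuous.comp_continuousOn hφc)
        · refine hf6.comp ?_ ?_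
          · exact (continuous_co.comp (S.symm.continuous.comp P3.continuous)).continuousOn
          · intro y hy
            have : S (S.symm (P3 y)) ∈ LaE La := by rw [S.apply_symm_apply]; exact hy
            exact (stretch_mem hS).1 this
      near := by
        intro x
        refine (pi_norm_le_iff_of_nonneg hh.le).2 fun i => ?_
        exact (PiLp.norm_apply_le (S (φ x) - φ x) i).trans (hS.near _)
      pt := fun c => rfl
      pu := fun c => rfl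
      mid := fun c => hz c
      op := by rw [hOp]; exact hOO
      XO := hXO
      Xm := hXm
      Xv := hXv
      HHo := hHHo
      HHs := by rw [hOp]; exact hHHs
      HHX := hHHX
      HHw := by
        intro x hx
        rw [hPsi x (hHHs hx).1]
        exact hHHw x hx
      Qv := by
        have h1 : {x | x ∈ Om ∧ ¬ (x ∈ HH ∧ QW (mkΦ hF hz).F q a h ((mkΦ hF hz).Psi (f1 x)))} ⊆
            (Strip q a h φ ∩ Om) ∪ X := by
          rintro x ⟨hx, hn⟩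
          by_cases hX : x ∈ X
          · exact Or.inr hX
          by_cases hst : x ∈ Strip q a h φ
          · exact Or.inl ⟨hst, hx⟩
          exfalso
          apply hn
          refine ⟨hHHX ⟨hx, hX⟩, ?_⟩
          rw [hPsi x hx]
          obtain ⟨-, l2, ⟨n, l3⟩, l4⟩ := lands_at hF (by linarith) hφm hS hXK hland ⟨hx, hX⟩
          have hY : ¬ NearMul q ⌊(φ x 0 - a 0) / h⌋ ∧ ¬ NearMul q ⌊(φ x 1 - a 1) / h⌋ :=
            not_or.1 hst
          have e1 : ∀ s t b : ℝ, |s - t| ≤ h / 2 → |⌊(s - b) / h⌋ - ⌊(t - b) / h⌋| ≤ 1 := by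
            intro s t b hst
            apply abs_floor_sub_le
            have : (s - b) / h - (t - b) / h = (s - t) / h := by ring
            rw [this, abs_div, abs_of_pos hh, div_le_one hh]
            linarith
          exact gsq_near hq hh hF.logs (r' := h / 2) (by nlinarith) l2 l3
            (not_dvd_of hY.1 (e1 _ _ _ (l4 0))) (not_dvd_of hY.2 (e1 _ _ _ (l4 1)))
        calc volume {x | x ∈ Om ∧ ¬ (x ∈ HH ∧ QW (mkΦ hF hz).F q a h ((mkΦ hF hz).Psi (f1 x)))} ≤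
            volume ((Strip q a h φ ∩ Om) ∪ X) := measure_mono h1
          _ ≤ volume (Strip q a h φ ∩ Om) + volume X := measure_union_le _ _
          _ ≤ (volume.restrict Om) (Strip q a h φ) + ε' * volume Om :=
            add_le_add (Measure.le_restrict_apply _ _) hXv
          _ ≤ ε * volume Om + ε' * volume Om := add_le_add hstrip le_rfl
          _ = (ε + ε') * volume Om := by ring
      gm := hgm
      wd := by
        intro c l
        rw [hOp]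
        refine wd_congr hOO (hg c l) (Eventually.of_forall fun x hx => ?_)
          (Eventually.of_forall fun _ _ => rfl)
        exact (hlev x hx.1 c).symm
      eW := by
        intro l w hw hw'
        rw [hOp]
        have := (H l w hw hw' (fun c => g c l) (fun c => hg c l)).1
        rw [hsl l] at this
        exact this
      eX := by
        intro l w hw hw'
        rw [hOp]
        exact (H l w hw hw' (fun c => g c l) (fun c => hg c l)).2 }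

end Crest.Agent.R096.Npr_582
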