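import Crest.Agent.R096.Dic6_582
import Mathlib
import Crest.Agent.R96.PnU2_849
import Crest.Agent.R096.Bxn3_627
import Crest.Agent.R096.Npr1_582
import Crest.Agent.R096.Np2_962
import Crest.Agent.R096.Bxc2_635
import Crest.Agent.R096.ThC6_766
import Crest.Agent.R96.PnU1_849

-- ▼ part R096/Frt1_899
section

/-!
Row 96 (S0127), NO0 for `p ≥ 3`, [U4] (helper899), part 1: the graded log foam with a given size
function.
-/

set_option autoImplicit false
set_option linter.unusedSectionVars false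
set_option linter.unusedVariables false
open Set Filter Topology MeasureTheory
open scoped NNReal ENNReal

noncomputable section

namespace Crest.Agent.R096.Frt_899

open Crest.Agent.R096.Brk1_582 Crest.Agent.R096.Brk2_582 Crest.Agent.R096.Brk3_582
open Crest.Agent.R096.Brk4_582 Crest.Agent.R096.Brk5_582
open Crest.Agent.R096.Bsp_628 Crest.Agent.R096.Log1_582 Crest.Agent.R096.Log2_582
open Crest.Agent.R096.Log3_582 Crest.Agent.R096.Dic2_582 Crest.Agent.R096.Dic6_582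
open Crest.Agent.R96.Push_899 (EE co continuous_co)

theorem co_image_eq (Λ : Set (EE (Fin 3))) :
    co '' Λ = (WithLp.toLp 2 : (Fin 3 → ℝ) → EE (Fin 3)) ⁻¹' Λ := by
  ext y
  constructor
  · rintro ⟨x, hx, rfl⟩; exact hx
  · intro hy; exact ⟨_, hy, rfl⟩

/-- **the graded log foam with size function `rho`** -/
theorem exists_FrR {q : ℕ} (hq : 1 ≤ q) {Λ K₀ : Set (EE (Fin 3))} (hΛ : IsOpen Λ)
    (hb : Bornology.IsBounded Λ) (hK : IsCompact K₀) (hKΛ : K₀ ⊆ Λ) {M : ℝ} (hM : 0 ≤ M)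
    {rho : (Fin 3 → ℝ) → ℝ} (hL : LipschitzWith 1 rho) (h0 : ∀ x, 0 < rho x ↔ x ∈ co '' Λ)
    (hr : ∀ x, 32 * rho x ≤ Metric.infDist x (co '' Λ)ᶜ) :
    ∃ s₀ > 0, ∀ s, 0 < s → s < s₀ → ∀ a : Fin 3 → ℝ, ∃ F, Fr q Λ K₀ M s a F ∧
      (∀ C ∈ F, ∀ x ∈ C.set, C.sz ≤ rho x) ∧
      ∀ C ∈ F, ∀ x ∈ C.set, min (2 * q * s) (rho x / 6) ≤ C.sz := by
  have hco : IsOpen (co '' Λ) := by
    rw [co_image_eq]
    exact hΛ.preimage (PiLp.continuous_toLp 2 _)
  have hbd : Bornology.IsBounded (co '' Λ) := by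
    have h1 : LipschitzWith 1 (co : EE (Fin 3) → Fin 3 → ℝ) := by
      refine LipschitzWith.of_dist_le_mul fun x y => ?_
      rw [dist_eq_norm, dist_eq_norm, NNReal.coe_one, one_mul]
      exact norm_ofLp_sub_le x y
    exact h1.isBounded_image hb
  obtain ⟨s₀, hs₀, H⟩ := exists_log_foam_dy hq hco hbd hL h0 (hK.image continuous_co)
    (image_mono hKΛ) hM (le_max_left _ _) (le_max_right _ _)
  refine ⟨s₀, hs₀, fun s hs hss a => ?_⟩
  obtain ⟨F, BF, h1, h2, h3, h4, h5, h6⟩ := (H s hs hss).2 a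
  have h6' : (3 * (1 + ((1 : ℝ≥0) : ℝ))) = 6 := by norm_num
  rw [h6'] at h2 h4
  refine ⟨F, ⟨hq, hs, BF, fun C hC x hx => ?_, h2, h3, h5, h6⟩, h1, fun C hC x hx => ?_⟩
  · have := h1 C hC x hx
    have := hr x
    linarith
  · rcases h4 C hC with h7 | h7
    · exact (min_le_left _ _).trans (isLog_sz hq hs h7).ge
    · refine (min_le_right _ _).trans ?_
      have := h7 x hx
      linarith

end Crest.Agent.R096.Frt_899
end
end

-- ▼ part R96/PnU4_849
section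

/-!
# Row 96, helper849: `pushNO_U`, part 4: the map `S ∘ Γ⁻¹` near the centres of the bricks, and the geometry
of the good set `GX`.
-/

set_option autoImplicit false
set_option linter.unusedSectionVars false
set_option linter.unusedVariables false

open MeasureTheory Set Filter Topology
open scoped NNReal ENNReal Function

noncomputable section

namespace Crest.Agent.R96.PnU_849

open Crest.Agent.R96.Acl_392 Crest.Agent.R96.Sob1_199 Crest.Agent.R96.Sob2_199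
  Crest.Agent.R96.Sob3_199 Crest.Agent.R96.Sob4_199 Crest.Agent.R96.Sob5_199
  Crest.Agent.R96.Push_899

variable {ι : Type*} [Fintype ι] [Nonempty ι] [DecidableEq ι]

/-- middle height of the `n`-th slab -/
def mid (a s : ℝ) (n : ℤ) : ℝ := a + s / 2 + n * s

/-- slope in the middle slabs -/
def Gs (w ε : ℝ) : ℝ := ε + (1 - ε) * (1 / (2 * w))










theorem abs_le_norm (y : EE ι) (i : ι) : |y i| ≤ ‖y‖ := by
  have := PiLp.norm_apply_le y i
  rwa [Real.norm_eq_abs] at this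


section

variable {k : ι} {χ : EE ι → ℝ} {a s w ε L : ℝ} (hP : StP χ s w ε L) (hw1 : w ≤ 1 / 4)
  (hG : 1 ≤ Gs w ε)

include hP hw1 hG





end

/-! ### sharper displacement -/




/-! ### the geometry of `GX` -/





/-- the centre of a brick aligned with the slabs is at a middle height -/
theorem uni_mid {k : ι} {a : ι → ℝ} {s : ℝ} {Q : Box ι} (h : Uni k a s Q) :
    ∃ n : ℤ, (Q.lo k + Q.hi k) / 2 = mid (a k) s n := by
  obtain ⟨n, hn⟩ := h.lo_k
  refine ⟨n, ?_⟩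
  rw [h.hi_k, hn]
  unfold mid
  ring

/-! ### `S ∘ Γ⁻¹` as a homeomorphism -/

/-- `S ∘ Γ⁻¹` -/
def SGh (k : ι) (G : ℝ) (hG : G ≠ 0) (S : EE ι ≃ₜ EE ι) : EE ι ≃ₜ EE ι :=
  (GmL k G hG).symm.toHomeomorph.trans S


/-- `S Γ⁻¹ z ∈ Λ ↔ z ∈ Γ Λ` -/
theorem SGh_mem {k : ι} {G : ℝ} (hG : G ≠ 0) {Λ : Set (EE ι)} {s : ℝ} {S : EE ι ≃ₜ EE ι}
    (h : IsStretch k Λ s S) (z : EE ι) : S (Gm k G⁻¹ z) ∈ Λ ↔ z ∈ Gm k G '' Λ := by
  constructor
  · intro h1
    rw [← h.image] at h1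
    obtain ⟨y, hy, hy2⟩ := h1
    have h2 := S.injective hy2
    refine ⟨y, hy, ?_⟩
    rw [h2, Gm_Gm (mul_inv_cancel₀ hG)]
  · rintro ⟨y, hy, rfl⟩
    rw [Gm_Gm (inv_mul_cancel₀ hG), ← h.image]
    exact mem_image_of_mem _ hy

/-- `S ∘ Γ⁻¹` is 4-Lipschitz everywhere -/
theorem SG_lipK {k : ι} {χ : EE ι → ℝ} {a s w ε L G : ℝ} (hP : StP χ s w ε L) (hG : 1 ≤ G)
    (hsl : 1 / (2 * w) ≤ 2 * G) (z z' : EE ι) :
    ‖St k χ a s w ε (Gm k G⁻¹ z) - St k χ a s w ε (Gm k G⁻¹ z')‖ ≤ 4 * ‖z - z'‖ := by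
  have Gp : 0 < G := by linarith
  have h1 := St_sub_k (k := k) (a := a) hP.hs hP.hw hP.hw1 hP.hε.le hP.hε1.le hP.χ0 hP.χ1 hP.hL
    (Gm k G⁻¹ z') (Gm k G⁻¹ z)
  have h2 : ‖Gm k G⁻¹ z - Gm k G⁻¹ z'‖ ≤ ‖z - z'‖ := by
    rw [Gm_sub]; exact norm_Gm_inv_le hG _
  have h3 : 1 / (2 * w) * |Gm k G⁻¹ z k - Gm k G⁻¹ z' k| ≤ 2 * ‖z - z'‖ := by
    rw [Gm_k, Gm_k, ← mul_sub, abs_mul, abs_of_pos (by positivity : 0 < G⁻¹)]
    have h4 := abs_le_norm (z - z') k
    rw [PiLp.sub_apply] at h4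
    calc 1 / (2 * w) * (G⁻¹ * |z k - z' k|) ≤ 2 * G * (G⁻¹ * |z k - z' k|) :=
          mul_le_mul_of_nonneg_right hsl (by positivity)
      _ = 2 * |z k - z' k| := by field_simp
      _ ≤ 2 * ‖z - z'‖ := by linarith
  have h5 : L * s * ‖Gm k G⁻¹ z - Gm k G⁻¹ z'‖ ≤ 1 / 2 * ‖z - z'‖ := by
    have h6 : L * s ≤ 1 / 2 := by linarith [hP.hLs, hP.hε1]
    exact mul_le_mul h6 h2 (norm_nonneg _) (by norm_num)
  set u := St k χ a s w ε (Gm k G⁻¹ z) - St k χ a s w ε (Gm k G⁻¹ z') with hu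
  have hk : |u k| ≤ 5 / 2 * ‖z - z'‖ := by
    rw [hu, PiLp.sub_apply]
    linarith
  -- the other coordinates
  have hs1 : ‖u - EuclideanSpace.single k (u k)‖ ≤ 1 * ‖z - z'‖ := by
    apply norm_le_of_abs zero_le_one
    intro i
    rw [PiLp.sub_apply, PiLp.single_apply]
    by_cases hi : i = k
    · subst hi
      rw [if_pos rfl, sub_self, abs_zero]
      positivity
    · rw [if_neg hi, sub_zero, hu, PiLp.sub_apply, St_ne _ hi, St_ne _ hi, Gm_ne _ hi, Gm_ne _ hi,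
        one_mul, PiLp.sub_apply]
  have hs2 : ‖(EuclideanSpace.single k (u k) : EE ι)‖ = |u k| := by
    rw [EuclideanSpace.norm_single, Real.norm_eq_abs]
  have e : u = (u - EuclideanSpace.single k (u k)) + EuclideanSpace.single k (u k) := by abel
  rw [e]
  refine (norm_add_le _ _).trans ?_
  rw [hs2]
  nlinarith [norm_nonneg (z - z')]


end Crest.Agent.R96.PnU_849
end
end

-- ▼ part R096/Frt2_899
section

/-!
Row 96 (S0127), NO0 for `p ≥ 3`, [U4] (helper899), part 2: scales, the stretched target, the size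
function of the foam, closeness of the pushed map to the given one.
-/

set_option autoImplicit false
set_option linter.unusedSectionVars false
set_option linter.unusedVariables false
open Set Filter Topology MeasureTheory Metric
open scoped NNReal ENNReal

noncomputable section

namespace Crest.Agent.R096.Frt_899

open Crest.Agent.R096.ThC6_766 (Scale)
open Crest.Agent.R96.Push_899 (EE co continuous_co LaE isOpen_LaE co_image_LaE IsStretch)
open Crest.Agent.R96.PnU_849 (Gm Gm_Gm Gm_sub norm_Gm_le norm_Gm_inv_le continuous_Gm)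
open Crest.Agent.R096.Er_594 (norm_P3_le norm_P3_symm_le)
open Crest.Agent.R96.En10_199 (P3)
open Crest.Agent.R096.SkC1_961 (E3 Hom3)

/-! ### the basic scale -/

theorem scale_inf {V : Type*} [NormedAddCommGroup V] [InnerProductSpace ℝ V] {Λ : Set V}
    (hΛ : IsOpen Λ) (hne : (Λᶜ).Nonempty) {t : ℝ} (ht : 0 < t) (ht1 : t ≤ 1) :
    Scale Λ (fun y => min (infDist y Λᶜ / 8) t) := by
  refine ⟨fun x => le_min (by have := infDist_nonneg (x := x) (s := Λᶜ); positivity) ht.le,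
    fun x y => ?_, fun x hx => ?_, fun x hx => ?_, fun x => (min_le_right _ _).trans ht1⟩
  · have h1 := infDist_le_infDist_add_dist (s := Λᶜ) (x := x) (y := y)
    rw [dist_eq_norm] at h1
    have h3 := norm_nonneg (x - y)
    rcases min_cases (infDist y Λᶜ / 8) t with h | h
    · rw [h.1]
      exact (min_le_left _ _).trans (by linarith)
    · rw [h.1]
      exact (min_le_right _ _).trans (by linarith)
  · have h1 : 0 < infDist x Λᶜ := by
      rw [← hΛ.isClosed_compl.notMem_iff_infDist_pos hne]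
      exact fun h => h hx
    exact lt_min (by positivity) ht
  · have h1 : infDist x Λᶜ = 0 := infDist_zero_of_mem hx
    rw [h1, zero_div]
    exact min_eq_left ht.le

/-! ### the stretched target -/

section gm

variable {k : Fin 3} {G : ℝ} {Λ : Set (EE (Fin 3))}

theorem Gm_image_eq (hG : G ≠ 0) : Gm k G '' Λ = Gm k G⁻¹ ⁻¹' Λ := by
  ext y
  constructor
  · rintro ⟨x, hx, rfl⟩
    show Gm k G⁻¹ (Gm k G x) ∈ Λ
    rwa [Gm_Gm (inv_mul_cancel₀ hG)]
  · intro hy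
    exact ⟨_, hy, Gm_Gm (mul_inv_cancel₀ hG) y⟩

theorem isOpen_GmI (hG : G ≠ 0) (hΛ : IsOpen Λ) : IsOpen (Gm k G '' Λ) := by
  rw [Gm_image_eq hG]
  exact hΛ.preimage (continuous_Gm k G⁻¹)

theorem lipschitz_Gm (hG : 1 ≤ G) : LipschitzWith (Real.toNNReal G) (Gm k G) := by
  refine LipschitzWith.of_dist_le_mul fun x y => ?_
  rw [dist_eq_norm, dist_eq_norm, Gm_sub, Real.coe_toNNReal _ (by linarith)]
  exact norm_Gm_le hG _

theorem bounded_GmI (hG : 1 ≤ G) (hΛ : Bornology.IsBounded Λ) :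
    Bornology.IsBounded (Gm k G '' Λ) := (lipschitz_Gm hG).isBounded_image hΛ

theorem mem_GmI (hG : G ≠ 0) {y : EE (Fin 3)} : Gm k G y ∈ Gm k G '' Λ ↔ y ∈ Λ := by
  rw [Gm_image_eq hG]
  show Gm k G⁻¹ (Gm k G y) ∈ Λ ↔ _
  rw [Gm_Gm (inv_mul_cancel₀ hG)]

theorem mem_of_GmI (hG : G ≠ 0) {y : EE (Fin 3)} (h : y ∈ Gm k G '' Λ) : Gm k G⁻¹ y ∈ Λ := by
  rw [Gm_image_eq hG] at h
  exact h


end gm

/-! ### the size function of the foam -/




theorem compl_nonempty_of_bounded {La : Set E3} (hb : Bornology.IsBounded La) :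
    (Laᶜ).Nonempty := by
  by_contra hcon
  rw [not_nonempty_iff_eq_empty, compl_empty_iff] at hcon
  rw [hcon] at hb
  exact NormedSpace.unbounded_univ ℝ E3 hb

/-- **the size function** -/
theorem exists_rho {La : Set E3} (hLa : IsOpen La) (hb : Bornology.IsBounded La) {G : ℝ}
    (hG : 1 ≤ G) {s₁ : EE (Fin 3) → ℝ} (hs : Scale (Gm 2 G '' LaE La) s₁) :
    ∃ rho : (Fin 3 → ℝ) → ℝ, LipschitzWith 1 rho ∧ (∀ x, 0 < rho x ↔ x ∈ co '' LaE La) ∧
      (∀ x, 32 * rho x ≤ infDist x (co '' LaE La)ᶜ) ∧ ∀ x, rho x ≤ s₁ (Gm 2 G (P3 x)) := by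
  have hG0 : 0 < G := by linarith
  have hne : (Laᶜ).Nonempty := compl_nonempty_of_bounded hb
  have hs0 := hs.nonneg
  rw [co_image_LaE]
  refine ⟨fun x => min (infDist x Laᶜ / 32) (s₁ (Gm 2 G (P3 x)) / G), ?_, fun x => ?_, fun x => ?_,
    fun x => ?_⟩
  · refine LipschitzWith.of_le_add fun x y => ?_
    rw [dist_eq_norm]
    have h1 := infDist_le_infDist_add_dist (s := Laᶜ) (x := x) (y := y)
    rw [dist_eq_norm] at h1
    have h2 := hs.lip (Gm 2 G (P3 x)) (Gm 2 G (P3 y))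
    have h3 : ‖Gm 2 G (P3 x) - Gm 2 G (P3 y)‖ ≤ G * (2 * ‖x - y‖) := by
      rw [Gm_sub, ← map_sub]
      exact (norm_Gm_le hG _).trans (mul_le_mul_of_nonneg_left (norm_P3_le _) hG0.le)
    have h4 := norm_nonneg (x - y)
    rcases min_cases (infDist y Laᶜ / 32) (s₁ (Gm 2 G (P3 y)) / G) with h | h
    · rw [h.1]
      exact (min_le_left _ _).trans (by linarith)
    · rw [h.1]
      refine (min_le_right _ _).trans ?_
      rw [div_add' _ _ _ hG0.ne']
      gcongr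
      nlinarith
  · constructor
    · intro h
      by_contra hcon
      have h1 : infDist x Laᶜ = 0 := infDist_zero_of_mem hcon
      have h2 : 0 < infDist x Laᶜ / 32 := h.trans_le (min_le_left _ _)
      rw [h1] at h2
      norm_num at h2
    · intro hx
      have h1 : 0 < infDist x Laᶜ := by
        rw [← hLa.isClosed_compl.notMem_iff_infDist_pos hne]
        exact fun h => h hx
      have h2 : 0 < s₁ (Gm 2 G (P3 x)) := hs.pos _ ((mem_GmI hG0.ne').2 hx)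
      exact lt_min (by positivity) (by positivity)
  · have := min_le_left (infDist x Laᶜ / 32) (s₁ (Gm 2 G (P3 x)) / G)
    linarith
  · refine (min_le_right _ _).trans ?_
    exact div_le_self (hs0 _) hG

end Crest.Agent.R096.Frt_899
end
end

-- ▼ part R096/Dcn1_635
section

/-!
Row 96 (S0127), NO0 for `p ≥ 3` (helper635), leaf (iii) of #10931: **the dictionary**:
`Np_962.FrontC` for the foam `ΦN` (= `Bxc1_635.fN`, concentric holes of arbitrarily small ratio), for an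
abstract map `φ` (`= Γ⁻¹ ∘ Th ∘ Γ ∘ f`), a stretch `S` and `f1 = S ∘ φ`.
-/

set_option autoImplicit false
set_option linter.unusedSectionVars false
set_option linter.unusedVariables false
open Set Filter Topology MeasureTheory
open scoped NNReal ENNReal

noncomputable section

namespace Crest.Agent.R096.Dcn_635

open Crest.Agent.R096.Brk1_582 Crest.Agent.R096.Brk2_582 Crest.Agent.R096.Brk3_582
open Crest.Agent.R096.Brk4_582 Crest.Agent.R096.Brk5_582
open Crest.Agent.R096.Bsp_628 Crest.Agent.R096.Log1_582 Crest.Agent.R096.Log2_582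
open Crest.Agent.R096.Log3_582 Crest.Agent.R096.Dic1_582 Crest.Agent.R096.Dic2_582
open Crest.Agent.R096.Dic3_582 Crest.Agent.R096.Dic4_582 Crest.Agent.R096.Dic6_582
open Crest.Agent.R096.Dic7_582 Crest.Agent.R096.Npr_582 Crest.Agent.R096.Np_962
open Crest.Agent.R096.Bxc1_635
open Crest.Agent.R96.Push_899 (EE co SE IE Box coreBF Mid Psi Pun Wall Foam0 FoamC Uni IsStretch
  Lands Hole foamBF foamHole toBox brk foam0_brk brk_asp countable_brk mem_SE_brk co_injective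
  mem_co_image continuous_co uni_logA LaE co_image_LaE isOpen_LaE mkFoamD mkFoamD_Psi brk')
open Crest.Agent.R96.Acl_392 Crest.Agent.R96.Sob1_199 Crest.Agent.R96.Sob2_199
  Crest.Agent.R96.Sob3_199 Crest.Agent.R96.Sob4_199 Crest.Agent.R96.Sob5_199
open Crest.Agent.R096.SkC1_961 (E3 Hom3 FoamD IsPush)
open Crest.Agent.R096.Er_594 (SH3)
open Crest.Agent.R96.En10_199 (P3)
open Crest.Agent.R096.Bxs_627 (ctr)

/-- the sum of the norms of the columns of `diag s` -/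
def Vs (p : ℝ) (s : Fin 3 → ℝ) : ℝ≥0∞ :=
  ∑ l : Fin 3, ‖(EuclideanSpace.single l (s l) : EE (Fin 3))‖ₑ ^ p


end Crest.Agent.R096.Dcn_635
end
end

-- ▼ part R096/Dcn2_635
section

/-!
Row 96 (S0127), NO0 for `p ≥ 3` (helper635), (Q1) of 899's #11058: **the dictionary with a second
map `φ₂`** (`φ = Γ⁻¹ Th Γ f` is built after the foam, the strips are chosen for `φ₂ = Γ⁻¹ th Γ f`).
-/

set_option autoImplicit false
set_option linter.unusedSectionVars false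
set_option linter.unusedVariables false
open Set Filter Topology MeasureTheory
open scoped NNReal ENNReal

noncomputable section

namespace Crest.Agent.R096.Dcn2_635

open Crest.Agent.R096.Brk1_582 Crest.Agent.R096.Brk2_582 Crest.Agent.R096.Brk3_582
open Crest.Agent.R096.Brk4_582 Crest.Agent.R096.Brk5_582
open Crest.Agent.R096.Bsp_628 Crest.Agent.R096.Log1_582 Crest.Agent.R096.Log2_582
open Crest.Agent.R096.Log3_582 Crest.Agent.R096.Dic1_582 Crest.Agent.R096.Dic2_582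
open Crest.Agent.R096.Dic3_582 Crest.Agent.R096.Dic4_582 Crest.Agent.R096.Dic6_582
open Crest.Agent.R096.Dic7_582 Crest.Agent.R096.Npr_582 Crest.Agent.R096.Np_962
open Crest.Agent.R096.Bxc1_635 Crest.Agent.R096.Dcn_635
open Crest.Agent.R96.Push_899 (EE co SE IE Box coreBF Mid Psi Pun Wall Foam0 FoamC Uni IsStretch
  Lands Hole foamBF foamHole toBox brk foam0_brk brk_asp countable_brk mem_SE_brk co_injective
  mem_co_image continuous_co uni_logA LaE co_image_LaE isOpen_LaE mkFoamD mkFoamD_Psi brk')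
open Crest.Agent.R96.Acl_392 Crest.Agent.R96.Sob1_199 Crest.Agent.R96.Sob2_199
  Crest.Agent.R96.Sob3_199 Crest.Agent.R96.Sob4_199 Crest.Agent.R96.Sob5_199
open Crest.Agent.R096.SkC1_961 (E3 Hom3 FoamD IsPush)
open Crest.Agent.R096.Er_594 (SH3)
open Crest.Agent.R96.En10_199 (P3)
open Crest.Agent.R096.Bxs_627 (ctr)

section dict

variable {E : Type*} [NormedAddCommGroup E] [NormedSpace ℝ E] [FiniteDimensional ℝ E]
  [MeasurableSpace E] [BorelSpace E] {μ : Measure E} [μ.IsAddHaarMeasure]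
  {q : ℕ} {Λ K₀ : Set (EE (Fin 3))} {M s : ℝ} {a : Fin 3 → ℝ} {F : Set (Bx (Fin 3))}
  {S : EE (Fin 3) ≃ₜ EE (Fin 3)} {φ φ₂ : E → EE (Fin 3)} {Ω : Set E} {c₀ : ℝ}

/-- **dictionary for the pushed map**, the strips of a second map -/
theorem dict_FF2 (h : Fr q Λ K₀ M s a F) (hM : 3 ≤ M) (hΛ : IsOpen Λ) (hΩ : IsOpen Ω)
    (hφ : ContinuousOn φ Ω) (hm : MapsTo φ Ω Λ)
    (hS : IsStretch 2 Λ s S) {X : Set E} (hXK : ∀ x ∈ Ω \ X, φ x ∈ K₀)
    (hφ₂ : ∀ x ∈ Ω \ X, ∀ i, |φ x i - φ₂ x i| ≤ s / 2) {B : F → Box (Fin 3)}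
    {z : F → Fin 3 → ℝ} {κ ρ : F → ℝ}
    (hC : FoamC Λ (brk h.foam) (fun c => coreBF (brk h.foam c) (z c)) B ∅ c₀ κ ρ)
    (hland : ∀ x ∈ Ω \ X, ∀ c, S (φ x) ∈ SE (brk h.foam c) →
      Lands 2 s (brk h.foam c) (φ x) (FF (brk h.foam) B z S φ x))
    {u : E} {D : E → EE (Fin 3)}
    (hD : VWD (OO Ω Λ B S φ) μ (FF (brk h.foam) B z S φ) D u) {g : F → E → ℝ}
    (hg : ∀ c, WD (OO Ω Λ B S φ) μ (fun x => s3 F c (FF (brk h.foam) B z S φ x)) (g c) u)
    {w : F → ℝ≥0∞} (hw : ∀ c : F, IsLog q a s c.1 → w c = ENNReal.ofReal (s / 2))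
    (hw' : ∀ c : F, w c ≤ ENNReal.ofReal c.1.sz) (v : EE (Fin 3)) {p : ℝ} (hp : 1 ≤ p) :
    ∫⁻ x in OO Ω Λ B S φ, (∑' c, w c * ‖g c x‖ₑ - (‖v 0‖ₑ + ‖v 1‖ₑ)) ^ p ∂μ ≤
      (2 ^ p + C0 p + C1 q p) * ∫⁻ x in OO Ω Λ B S φ, ‖D x - v‖ₑ ^ p ∂μ +
      (C0 p * (‖v‖ₑ ^ p * (μ.restrict Ω) (Strip q a s φ₂)) +
        C1 q p * (‖v‖ₑ ^ p * μ (Ω ∩ X))) := by
  have hs := h.s0
  have hOO : IsOpen (OO Ω Λ B S φ) := isOpen_OO hC hΛ hΩ hφ
  have hco : IsOpen (co '' Λ) := by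
    have : co '' Λ = (WithLp.toLp 2 : (Fin 3 → ℝ) → EE (Fin 3)) ⁻¹' Λ := by
      ext y
      constructor
      · rintro ⟨x, hx, rfl⟩; exact hx
      · intro hy; exact ⟨_, hy, rfl⟩
    rw [this]
    exact hΛ.preimage (PiLp.continuous_toLp 2 _)
  have hnear : ∀ x ∈ OO Ω Λ B S φ, x ∉ X → ∀ i, |FF (brk h.foam) B z S φ x i - φ₂ x i| ≤ s := by
    intro x hx hxX i
    have h1 := (lands_at h (by linarith) hm hS hXK hland ⟨hx.1, hxX⟩).2.2.2 i
    have h2 := hφ₂ x ⟨hx.1, hxX⟩ i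
    calc |FF (brk h.foam) B z S φ x i - φ₂ x i|
        = |(FF (brk h.foam) B z S φ x i - φ x i) + (φ x i - φ₂ x i)| := by ring_nf
      _ ≤ |FF (brk h.foam) B z S φ x i - φ x i| + |φ x i - φ₂ x i| := abs_add_le _ _
      _ ≤ s := by linarith
  have key := dict_energy (μ := μ) h.foam hco (dF_pos h.q1) (by norm_num : (0 : ℝ) < 6) h.cmp
    h.q1 hs h.logs (r' := s / 2) (by nlinarith) hOO hD (continuousOn_FF hC hΛ hφ)
    (fun x hx => mem_co_image.2 (mapsTo_FF hC hx)) hg hw hw' v (X := X) (φ := φ₂)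
    (fun x hx hxX => (lands_at h (by linarith) hm hS hXK hland ⟨hx.1, hxX⟩).2.1)
    (fun x hx hxX => (lands_at h (by linarith) hm hS hXK hland ⟨hx.1, hxX⟩).2.2.1)
    (fun x hx hxX => ⟨hnear x hx hxX 0, hnear x hx hxX 1⟩) hp
  refine key.trans (add_le_add le_rfl (add_le_add ?_ ?_))
  · refine mul_le_mul' le_rfl (mul_le_mul' le_rfl ?_)
    calc μ (OO Ω Λ B S φ ∩ Strip q a s φ₂) ≤ μ (Strip q a s φ₂ ∩ Ω) :=
          measure_mono fun x hx => ⟨hx.2, hx.1.1⟩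
      _ ≤ _ := Measure.le_restrict_apply _ _
  · unfold C1
    gcongr
    exact fun x hx => hx.1

end dict

/-- **DICTIONARY, `p ≥ 3`**: `FrontC` from the data of the push; the strips are those of a second
map `φ₂` with `|φ - φ₂| ≤ h / 2` off the bad set. -/
theorem frontC_of2 {p : ℝ} (hp : 1 ≤ p) {q : ℕ} {s : Fin 3 → ℝ} (hs : ∀ i, 0 ≤ s i) (hs2 : s 2 = 0)
    {ε ε' d : ℝ≥0∞} (hqε : 6 / (q : ℝ≥0∞) ≤ ε) (hdε : d ≤ ε')
    (hd1 : C1 q p * (d + Vs p s * d) ≤ ε')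
    (hcon : (2 ^ p + C0 p + C1 q p) * d + (C0 p * (Vs p s * (6 / (q : ℝ≥0∞))) +
      C1 q p * (Vs p s * d)) ≤ ε)
    {Om La : Set E3} (hOm : IsOpen Om) (hLa : IsOpen La) {K₀ : Set (EE (Fin 3))}
    (hK : IsCompact K₀) (hKΛ : K₀ ⊆ LaE La) {M h : ℝ} {a : Fin 3 → ℝ} {F : Set (Bx (Fin 3))}
    (hF : Fr q (LaE La) K₀ M h a F) (hM : 3 ≤ M) (lam : F → ℝ) (hl : ∀ c, 0 < lam c)
    (hl4 : ∀ c, lam c ≤ 1 / 4)
    {φ : E3 → EE (Fin 3)} (hφc : ContinuousOn φ Om) (hφm : MapsTo φ Om (LaE La))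
    (hφw : ∀ l : Fin 3, ∃ D : E3 → EE (Fin 3), VWD Om volume φ D (Pi.single l 1))
    {S : EE (Fin 3) ≃ₜ EE (Fin 3)} (hS : IsStretch 2 (LaE La) h S)
    (homeo : Hom3 (fun x => co (S (φ x))) Om La)
    {X : Set E3} (hXO : X ⊆ Om) (hXm : MeasurableSet X) (hXv : volume X ≤ d * volume Om)
    (hXK : ∀ x ∈ Om \ X, φ x ∈ K₀)
    (hXh : ∀ x ∈ Om, ∀ c, co (S (φ x)) ∈ (holeN (bfOf hF) lam hl c).S → x ∈ X)
    (hland : ∀ x ∈ Om \ X, ∀ c, S (φ x) ∈ SE (brk' (bfOf hF) c) → Lands 2 h (brk' (bfOf hF) c) (φ x)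
      (Psi (brk' (bfOf hF)) (coreN (bfOf hF)) (holeN (bfOf hF) lam hl) (S (φ x))))
    {φ₂ : E3 → EE (Fin 3)} (hφ₂ : ∀ x ∈ Om \ X, ∀ i, |φ x i - φ₂ x i| ≤ h / 2)
    (hstrip : (volume.restrict Om) (Strip q a h φ₂) ≤ 6 / (q : ℝ≥0∞) * volume Om)
    (hE : ∀ D' : Fin 3 → E3 → EE (Fin 3),
      (∀ l, VWD (Om ∩ (fun x => S (φ x)) ⁻¹' (Pun (LaE La) (holeN (bfOf hF) lam hl))) volume
        (fun x => Psi (brk' (bfOf hF)) (coreN (bfOf hF)) (holeN (bfOf hF) lam hl) (S (φ x)))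
        (D' l) (Pi.single l 1)) →
      ∫⁻ x in Om ∩ (fun x => S (φ x)) ⁻¹' (Pun (LaE La) (holeN (bfOf hF) lam hl)),
        ∑ l : Fin 3, ‖D' l x - EuclideanSpace.single l (s l)‖ₑ ^ p ≤ d * volume Om) :
    ∃ (HH : Set E3) (g : F → Fin 3 → E3 → ℝ),
      FrontC p q s ε ε' Om La M h a (ΦN (bfOf hF) hF.cmp lam hl hl4) (fun x => co (S (φ x))) X HH
        g := by
  have hh := hF.s0
  have hLE : IsOpen (LaE La) := isOpen_LaE hLa
  set z : F → Fin 3 → ℝ := fun c => ctr c.1 with hz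
  set B : F → Box (Fin 3) := holeN (bfOf hF) lam hl with hB
  set v : Fin 3 → EE (Fin 3) := fun l => EuclideanSpace.single l (s l) with hv
  have hC : FoamC (LaE La) (brk hF.foam) (fun c => coreBF (brk hF.foam c) (z c)) B ∅ (cN q)
      (fun _ => 0) (fun c => Crest.Agent.R96.Push_899.side (brk hF.foam c)) :=
    foamN (bfOf hF) (kF_one q) (cN_pos q) (cN_le q) lam hl hl4
  have hOO : IsOpen (OO Om (LaE La) B S φ) := isOpen_OO hC hLE hOm hφc
  set f1 : E3 → E3 := fun x => co (S (φ x)) with hf1d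
  have hland' : ∀ x ∈ Om \ X, ∀ c, S (φ x) ∈ SE (brk hF.foam c) →
      Lands 2 h (brk hF.foam c) (φ x) (FF (brk hF.foam) B z S φ x) := hland
  have hSm : ∀ x ∈ Om, S (φ x) ∈ LaE La := fun x hx => (stretch_mem hS).2 (hφm hx)
  have hOp : Op (ΦN (bfOf hF) hF.cmp lam hl hl4) Om f1 = OO Om (LaE La) B S φ := by
    ext x
    constructor
    · rintro ⟨h1, h2⟩
      refine ⟨h1, hSm x h1, ?_⟩
      rw [mem_iUnion]
      rintro ⟨c, hc⟩
      exact h2 c hc
    · rintro ⟨h1, h2, h3⟩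
      refine ⟨h1, fun c hc => h3 ?_⟩
      rw [mem_iUnion]
      exact ⟨c, hc⟩
  have hPsi : ∀ x ∈ Om, (ΦN (bfOf hF) hF.cmp lam hl hl4).Psi (f1 x) =
      co (FF (brk hF.foam) B z S φ x) := fun x hx =>
    fN_Psi (bfOf hF) hF.cmp (kF_one q) (cN_pos q) (cN_le q) lam hl hl4 (hSm x hx)
  have hlev : ∀ x ∈ Om, ∀ c : F, (ΦN (bfOf hF) hF.cmp lam hl hl4).lev c (f1 x) =
      s3 F c (FF (brk hF.foam) B z S φ x) := by
    intro x hx c
    unfold FoamD.lev
    rw [hPsi x hx]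
    rfl
  -- weak derivatives
  have hex : ∀ l : Fin 3, ∃ D', VWD (OO Om (LaE La) B S φ) volume
      (FF (brk hF.foam) B z S φ) D' (Pi.single l 1) := fun l => by
    obtain ⟨D, hD⟩ := hφw l
    exact exists_vwd_FF hF hLE hOm hφc hS hC hD
  choose D' hD' using hex
  have hexg : ∀ l : Fin 3, ∃ g : F → E3 → ℝ, ∀ c,
      WD (OO Om (LaE La) B S φ) volume
        (fun x => s3 F c (FF (brk hF.foam) B z S φ x)) (g c)
          (Pi.single l 1) := fun l => exists_wd_s3 hF hLE hOm hφc hC (hD' l)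
  choose g0 hg0 using hexg
  have hexm : ∀ (c : F) (l : Fin 3), ∃ g' : E3 → ℝ, Measurable g' ∧
      WD (OO Om (LaE La) B S φ) volume
        (fun x => s3 F c (FF (brk hF.foam) B z S φ x)) g'
          (Pi.single l 1) := fun c l => exists_measurable_wd hOO (hg0 l c)
  choose g hgm hg using hexm
  have hEn : ∫⁻ x in OO Om (LaE La) B S φ, ∑ l : Fin 3, ‖D' l x - v l‖ₑ ^ p ≤ d * volume Om :=
    hE D' hD'
  have hsl : ∀ l : Fin 3, ‖v l 0‖ₑ + ‖v l 1‖ₑ = ENNReal.ofReal (s l) := by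
    intro l
    fin_cases l
    · simp [hv, ← ofReal_norm, abs_of_nonneg (hs 0)]
    · simp [hv, ← ofReal_norm, abs_of_nonneg (hs 1)]
    · simp [hv, hs2]
  have e1 : ∀ l : Fin 3, ∫⁻ x in OO Om (LaE La) B S φ, ‖D' l x - v l‖ₑ ^ p ≤ d * volume Om := by
    intro l
    refine le_trans (lintegral_mono fun x => ?_) hEn
    exact Finset.single_le_sum (f := fun l => ‖D' l x - v l‖ₑ ^ p) (fun _ _ => zero_le)
      (Finset.mem_univ l)
  have e2 : ∀ l : Fin 3, ‖v l‖ₑ ^ p ≤ Vs p s := fun l =>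
    Finset.single_le_sum (f := fun l => ‖v l‖ₑ ^ p) (fun _ _ => zero_le) (Finset.mem_univ l)
  have e3 : volume (Om ∩ X) ≤ d * volume Om := (measure_mono inter_subset_right).trans hXv
  have hXin : ∀ x ∈ Om \ X, x ∈ OO Om (LaE La) B S φ := by
    rintro x ⟨hx, hxX⟩
    refine ⟨hx, hSm x hx, ?_⟩
    rw [mem_iUnion]
    rintro ⟨c, hc⟩
    exact hxX (hXh x hx c hc)
  refine ⟨OO Om (LaE La) B S φ ∩ {x | ∀ᶠ x' in 𝓝 x,
      HW F q a h (co (FF (brk hF.foam) B z S φ x'))}, g, ?_⟩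
  exact
    { q1 := hF.q1
      h0 := hh
      fr := ⟨K₀, hK, hKΛ, hF⟩
      homeo := homeo
      op := by rw [hOp]; exact hOO
      XO := hXO
      Xm := hXm
      Xv := hXv.trans (by gcongr)
      HHo := hOO.inter (isOpen_iff_mem_nhds.2 fun x hx => eventually_eventually_nhds.2 hx)
      HHs := by rw [hOp]; exact inter_subset_left
      HHX := fun x hx => ⟨hXin x hx,
        hor_eventually hF hM hLE hOm hφc hφm hS hXK hC hland' (hXin x hx) hx.2⟩
      HHw := by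
        intro x hx
        rw [hPsi x hx.1.1]
        exact hx.2.self_of_nhds
      Qv := by
        have h1 : {x | x ∈ Om ∧ ¬ (x ∈ OO Om (LaE La) B S φ ∩ {x | ∀ᶠ x' in 𝓝 x,
              HW F q a h (co (FF (brk hF.foam) B z S φ x'))} ∧
            QW (ΦN (bfOf hF) hF.cmp lam hl hl4).F q a h
              ((ΦN (bfOf hF) hF.cmp lam hl hl4).Psi (f1 x)))} ⊆
            (Strip q a h φ₂ ∩ Om) ∪ X := by
          rintro x ⟨hx, hn⟩
          by_cases hX : x ∈ X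
          · exact Or.inr hX
          by_cases hst : x ∈ Strip q a h φ₂
          · exact Or.inl ⟨hst, hx⟩
          exfalso
          apply hn
          refine ⟨⟨hXin x ⟨hx, hX⟩,
            hor_eventually hF hM hLE hOm hφc hφm hS hXK hC hland' (hXin x ⟨hx, hX⟩) hX⟩, ?_⟩
          rw [hPsi x hx]
          obtain ⟨-, l2, ⟨n, l3⟩, l4⟩ := lands_at hF (by linarith) hφm hS hXK hland' ⟨hx, hX⟩
          have hY : ¬ NearMul q ⌊(φ₂ x 0 - a 0) / h⌋ ∧ ¬ NearMul q ⌊(φ₂ x 1 - a 1) / h⌋ :=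
            not_or.1 hst
          have l5 : ∀ i, |FF (brk hF.foam) B z S φ x i - φ₂ x i| ≤ h := by
            intro i
            have h1 := l4 i
            have h2 := hφ₂ x ⟨hx, hX⟩ i
            calc |FF (brk hF.foam) B z S φ x i - φ₂ x i|
                = |(FF (brk hF.foam) B z S φ x i - φ x i) + (φ x i - φ₂ x i)| := by ring_nf
              _ ≤ |FF (brk hF.foam) B z S φ x i - φ x i| + |φ x i - φ₂ x i| := abs_add_le _ _
              _ ≤ h := by linarith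
          have e1 : ∀ s t b : ℝ, |s - t| ≤ h → |⌊(s - b) / h⌋ - ⌊(t - b) / h⌋| ≤ 1 := by
            intro s t b hst
            apply abs_floor_sub_le
            have : (s - b) / h - (t - b) / h = (s - t) / h := by ring
            rw [this, abs_div, abs_of_pos hh, div_le_one hh]
            linarith
          exact gsq_near hF.q1 hh hF.logs (r' := h / 2) (by nlinarith) l2 l3
            (not_dvd_of hY.1 (e1 _ _ _ (l5 0))) (not_dvd_of hY.2 (e1 _ _ _ (l5 1)))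
        calc _ ≤ volume ((Strip q a h φ₂ ∩ Om) ∪ X) := measure_mono h1
          _ ≤ volume (Strip q a h φ₂ ∩ Om) + volume X := measure_union_le _ _
          _ ≤ (volume.restrict Om) (Strip q a h φ₂) + ε' * volume Om :=
            add_le_add (Measure.le_restrict_apply _ _) (hXv.trans (by gcongr))
          _ ≤ ε * volume Om + ε' * volume Om :=
            add_le_add (hstrip.trans (by gcongr)) le_rfl
          _ = (ε + ε') * volume Om := by ring
      gm := hgm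
      wd := by
        intro c l
        rw [hOp]
        refine wd_congr hOO (hg c l) (Eventually.of_forall fun x hx => ?_)
          (Eventually.of_forall fun _ _ => rfl)
        exact (hlev x hx.1 c).symm
      eW := by
        intro l w hw hw'
        rw [hOp]
        have key := dict_FF2 (μ := volume) hF hM hLE hOm hφc hφm hS hXK hφ₂ hC hland' (hD' l)
          (fun c => hg c l) hw hw' (v l) hp
        rw [hsl l] at key
        refine key.trans ?_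
        calc _ ≤ (2 ^ p + C0 p + C1 q p) * (d * volume Om) +
              (C0 p * (Vs p s * (6 / q * volume Om)) + C1 q p * (Vs p s * (d * volume Om))) :=
              add_le_add (mul_le_mul' le_rfl (e1 l)) (add_le_add
                (mul_le_mul' le_rfl (mul_le_mul' (e2 l) hstrip))
                (mul_le_mul' le_rfl (mul_le_mul' (e2 l) e3)))
          _ = ((2 ^ p + C0 p + C1 q p) * d + (C0 p * (Vs p s * (6 / q)) +
              C1 q p * (Vs p s * d))) * volume Om := by ring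
          _ ≤ ε * volume Om := by gcongr
      eX := by
        intro l w hw hw'
        rw [hOp]
        have key := dict_X (μ := volume) hF hLE hOm hφc hXm hC (hD' l) (fun c => hg c l) hw' (v l) hp
        refine key.trans ?_
        calc C1 q p * ((∫⁻ x in OO Om (LaE La) B S φ, ‖D' l x - v l‖ₑ ^ p) +
              ‖v l‖ₑ ^ p * volume X) ≤
            C1 q p * (d * volume Om + Vs p s * (d * volume Om)) := by
              refine mul_le_mul' le_rfl (add_le_add (e1 l) (mul_le_mul' (e2 l) hXv))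
          _ = C1 q p * (d + Vs p s * d) * volume Om := by ring
          _ ≤ ε' * volume Om := by gcongr }

end Crest.Agent.R096.Dcn2_635
end
end

-- ▼ part R096/Dcn3_635

/-!
Row 96 (S0127), NO0 for `p ≥ 3` (helper635): small lemmas for `exists_front3` (899, [U4]).
(a) the preimage of the hole lies in the core (`hXh_of`), monotonicity of `ExIn` in `κ1`;
(b) `f1 = co ∘ S ∘ Γ⁻¹ ∘ Th ∘ Γ ∘ P3 ∘ f`: homeomorphism, `near`, `nb`;
(c) the hypotheses `hφc`, `hφm`, `hφw` of `frontC_of2` from `SH3 p Om La f1 D1`.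
-/

set_option autoImplicit false
set_option linter.unusedSectionVars false
set_option linter.unusedVariables false
open Set Filter Topology MeasureTheory
open scoped NNReal ENNReal

noncomputable section

namespace Crest.Agent.R096.Dcn3_635

open Crest.Agent.R096.Brk5_582 Crest.Agent.R096.Bsp_628 Crest.Agent.R096.Dic2_582
open Crest.Agent.R096.Bxc1_635
open Crest.Agent.R96.Push_899 (EE co Box IsStretch LaE continuous_co)
open Crest.Agent.R96.PnU_849
open Crest.Agent.R96.Acl_392 Crest.Agent.R96.Sob1_199 Crest.Agent.R96.Sob2_199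
  Crest.Agent.R96.Sob3_199 Crest.Agent.R96.Sob4_199 Crest.Agent.R96.Sob5_199
open Crest.Agent.R096.SkC1_961 (E3 Hom3)
open Crest.Agent.R096.Er_594 (SH3)
open Crest.Agent.R96.En10_199 (P3)
open Crest.Agent.R096.Bxs_627 (ctr)
open Crest.Agent.R096.EaX_766 (cbx lin RatA ExIn)

/-! ### (a) exact cores -/

theorem exIn_mono {p : ℝ} {Om : Set E3} {f : E3 → E3} {D : E3 → E3 →L[ℝ] E3} {o : E3}
    {u κ1 κ1' κ2 : ℝ} {Q : Bx (Fin 3)} {A : E3 ≃ᵃ[ℝ] E3} {lam : ℝ} (hl : 0 ≤ lam) (hs : 0 ≤ Q.sz)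
    (hκ : κ1 ≤ κ1') (h : ExIn p Om f D o u κ1 κ2 Q A lam) : ExIn p Om f D o u κ1' κ2 Q A lam where
  rat := h.rat
  cor := fun x hx => by
    obtain ⟨h1, h2⟩ := h.cor x hx
    exact ⟨h1, h2.trans (mul_le_mul_of_nonneg_right hκ (mul_nonneg hl hs))⟩
  lp := h.lp.trans (ENNReal.ofReal_le_ofReal
    (mul_le_mul_of_nonneg_right hκ (pow_nonneg (mul_nonneg hl hs) 3)))

/-- **the hypothesis `hXh` of `frontC_of`**: the preimage of the hole lies in the enlarged core. -/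
theorem hXh_of {p : ℝ} {Om La : Set E3} {F : Set (Bx (Fin 3))} {δ κ0 : ℝ}
    (bf : BoxFoam La F δ κ0) (lam : F → ℝ) (hl : ∀ c, 0 < lam c) {f1 : E3 → E3}
    {D1 : E3 → E3 →L[ℝ] E3} {o : E3} {u κ1 κ2 : ℝ} {A : F → E3 ≃ᵃ[ℝ] E3} (h2 : 0 ≤ κ2)
    (h1 : 0 ≤ κ1) (hκ : κ1 * κ0 ≤ 1 / 4)
    (hex : ∀ c : F, ExIn p Om f1 D1 o u κ1 κ2 c.1 (A c) (lam c)) {X : Set E3}
    (hXN : ∀ c : F, A c ⁻¹' cbx c.1 ((1 + 2 * κ2) * lam c) ⊆ X) :
    ∀ x ∈ Om, ∀ c, f1 x ∈ (holeN bf lam hl c).S → x ∈ X := by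
  intro x hx c hc
  apply hXN c
  have hp := bf.pos _ c.2
  have hlc := hl c
  have hb : ∀ k, |f1 x k - ctr c.1 k| ≤ lam c / 2 * (c.1.side k / 2) := by
    intro k
    have h3 := hc k
    have e1 : (holeN bf lam hl c).lo k = ctr c.1 k - lam c / 2 * (c.1.side k / 2) := by
      unfold holeN; rw [Bxs_627.cb_lo]; ring
    have e2 : (holeN bf lam hl c).hi k = ctr c.1 k + lam c / 2 * (c.1.side k / 2) := by
      unfold holeN; rw [Bxs_627.cb_hi]; ring
    rw [e1, e2] at h3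
    rw [abs_le]
    constructor <;> linarith [h3.1, h3.2]
  have hin : f1 x ∈ cbx c.1 (lam c) := by
    intro k
    refine (hb k).trans ?_
    have := mul_pos hlc (Bx.side_pos hp k)
    nlinarith
  obtain ⟨-, h4⟩ := (hex c).cor x (Or.inl ⟨hx, hin⟩)
  intro k
  have hs := Bx.side_pos hp k
  have h5 : |A c x k - f1 x k| ≤ κ1 * (lam c * c.1.sz) := by
    have := norm_le_pi_norm (f1 x - A c x) k
    rw [Pi.sub_apply, Real.norm_eq_abs, abs_sub_comm] at this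
    exact this.trans h4
  have h6 : κ1 * (lam c * c.1.sz) ≤ 1 / 4 * (lam c * c.1.side k) := by
    have h7 := bf.asp _ c.2 k
    calc κ1 * (lam c * c.1.sz) ≤ κ1 * (lam c * (κ0 * c.1.side k)) := by gcongr
      _ = κ1 * κ0 * (lam c * c.1.side k) := by ring
      _ ≤ 1 / 4 * (lam c * c.1.side k) := by gcongr
  calc |A c x k - ctr c.1 k| = |(A c x k - f1 x k) + (f1 x k - ctr c.1 k)| := by ring_nf
    _ ≤ |A c x k - f1 x k| + |f1 x k - ctr c.1 k| := abs_add_le _ _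
    _ ≤ 1 / 4 * (lam c * c.1.side k) + lam c / 2 * (c.1.side k / 2) :=
      add_le_add (h5.trans h6) (hb k)
    _ = lam c * c.1.side k / 2 := by ring
    _ ≤ (1 + 2 * κ2) * lam c * c.1.side k / 2 := by
      have : 0 ≤ κ2 * (lam c * c.1.side k) := by positivity
      nlinarith

/-! ### (b) the map `f1` -/

/-- the homeomorphism `S ∘ Γ⁻¹ ∘ Th ∘ Γ` -/
def HH1 (G : ℝ) (hG : 1 ≤ G) (Th S : EE (Fin 3) ≃ₜ EE (Fin 3)) : EE (Fin 3) ≃ₜ EE (Fin 3) :=
  (((GmL 2 G (by positivity)).toHomeomorph.trans Th).trans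
    (GmL 2 G (by positivity)).symm.toHomeomorph).trans S

theorem HH1_apply {G : ℝ} (hG : 1 ≤ G) (Th S : EE (Fin 3) ≃ₜ EE (Fin 3)) (y : EE (Fin 3)) :
    HH1 G hG Th S y = S (Gm 2 G⁻¹ (Th (Gm 2 G y))) := rfl

theorem Gm_inv_Gm {G : ℝ} (hG : 1 ≤ G) (y : EE (Fin 3)) : Gm 2 G⁻¹ (Gm 2 G y) = y :=
  Gm_Gm (inv_mul_cancel₀ (by positivity)) y

theorem Gm_Gm_inv {G : ℝ} (hG : 1 ≤ G) (y : EE (Fin 3)) : Gm 2 G (Gm 2 G⁻¹ y) = y :=
  Gm_Gm (mul_inv_cancel₀ (by positivity)) y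

theorem Gm_mem {G : ℝ} (hG : 1 ≤ G) {Λ : Set (EE (Fin 3))} {y : EE (Fin 3)} :
    Gm 2 G y ∈ Gm 2 G '' Λ ↔ y ∈ Λ := by
  constructor
  · rintro ⟨z, hz, he⟩
    have : z = y := by rw [← Gm_inv_Gm hG z, he, Gm_inv_Gm hG]
    rwa [← this]
  · exact fun h => ⟨y, h, rfl⟩

theorem Gm_inv_mem {G : ℝ} (hG : 1 ≤ G) {Λ : Set (EE (Fin 3))} {y : EE (Fin 3)} :
    Gm 2 G⁻¹ y ∈ Λ ↔ y ∈ Gm 2 G '' Λ := by
  rw [← Gm_mem hG (Λ := Λ), Gm_Gm_inv hG]

variable {Om La : Set E3} {f : E3 → E3} {G h : ℝ} {Th S : EE (Fin 3) ≃ₜ EE (Fin 3)}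

theorem HH1_mem (hG : 1 ≤ G) (hTh : ∀ y, Th y ∈ Gm 2 G '' LaE La ↔ y ∈ Gm 2 G '' LaE La)
    (hS : IsStretch 2 (LaE La) h S) (y : EE (Fin 3)) :
    HH1 G hG Th S y ∈ LaE La ↔ y ∈ LaE La := by
  rw [HH1_apply, Dic6_582.stretch_mem hS, Gm_inv_mem hG, hTh, Gm_mem hG]

/-- **`f1` is a homeomorphism** -/
theorem hom3_f1 (hf : Hom3 f Om La) (hG : 1 ≤ G)
    (hTh : ∀ y, Th y ∈ Gm 2 G '' LaE La ↔ y ∈ Gm 2 G '' LaE La)
    (hS : IsStretch 2 (LaE La) h S) :
    Hom3 (fun x => co (S (Gm 2 G⁻¹ (Th (Gm 2 G (P3 (f x))))))) Om La :=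
  Shl_798.hom3_comp hf (S := HH1 G hG Th S) (HH1_mem hG hTh hS)

theorem tilde_near (hG : 1 ≤ G) {y : EE (Fin 3)} {t : ℝ} (ht : ‖Th (Gm 2 G y) - Gm 2 G y‖ ≤ t) :
    ‖Gm 2 G⁻¹ (Th (Gm 2 G y)) - y‖ ≤ t := by
  calc ‖Gm 2 G⁻¹ (Th (Gm 2 G y)) - y‖
      = ‖Gm 2 G⁻¹ (Th (Gm 2 G y)) - Gm 2 G⁻¹ (Gm 2 G y)‖ := by rw [Gm_inv_Gm hG]
    _ = ‖Gm 2 G⁻¹ (Th (Gm 2 G y) - Gm 2 G y)‖ := by rw [Gm_sub]
    _ ≤ ‖Th (Gm 2 G y) - Gm 2 G y‖ := norm_Gm_inv_le hG _
    _ ≤ t := ht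

/-- **clause `near`** -/
theorem near_f1 (hG : 1 ≤ G) {t : ℝ} (ht : ∀ y, ‖Th y - y‖ ≤ t) (hS : IsStretch 2 (LaE La) h S)
    (x : E3) : ‖co (S (Gm 2 G⁻¹ (Th (Gm 2 G (P3 (f x)))))) - f x‖ ≤ h + t := by
  have e : f x = co (P3 (f x)) := rfl
  set y : EE (Fin 3) := Gm 2 G⁻¹ (Th (Gm 2 G (P3 (f x)))) with hy
  calc ‖co (S y) - f x‖ = ‖co (S y) - co (P3 (f x))‖ := by rw [← e]
    _ ≤ ‖S y - P3 (f x)‖ := norm_ofLp_sub_le _ _
    _ = ‖(S y - y) + (y - P3 (f x))‖ := by congr 1; abel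
    _ ≤ ‖S y - y‖ + ‖y - P3 (f x)‖ := norm_add_le _ _
    _ ≤ h + t := add_le_add (hS.near y) (tilde_near hG (ht _))

theorem infDist_co (hLa : (Laᶜ).Nonempty) (y : E3) :
    Metric.infDist (P3 y : EE (Fin 3)) (LaE La)ᶜ ≤ 2 * Metric.infDist y Laᶜ := by
  have hne : ((LaE La)ᶜ).Nonempty := by
    obtain ⟨z, hz⟩ := hLa
    exact ⟨P3 z, fun h => hz h⟩
  rw [← div_le_iff₀' (by norm_num : (0 : ℝ) < 2)]
  rw [Metric.le_infDist hLa]
  intro z hz
  rw [div_le_iff₀' (by norm_num : (0 : ℝ) < 2)]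
  have h1 : Metric.infDist (P3 y : EE (Fin 3)) (LaE La)ᶜ ≤ dist (P3 y : EE (Fin 3)) (P3 z) :=
    Metric.infDist_le_dist_of_mem (fun h => hz h)
  refine h1.trans ?_
  rw [dist_eq_norm, dist_eq_norm, ← map_sub, EuclideanSpace.norm_eq]
  apply Real.sqrt_le_iff.2
  refine ⟨by positivity, ?_⟩
  have h2 : ∀ i : Fin 3, ‖(P3 (y - z) : EE (Fin 3)) i‖ ^ 2 ≤ ‖y - z‖ ^ 2 := fun i =>
    pow_le_pow_left₀ (norm_nonneg _) (norm_le_pi_norm (y - z) i) 2
  have h3 : ∑ i : Fin 3, ‖(P3 (y - z) : EE (Fin 3)) i‖ ^ 2 ≤ ∑ i : Fin 3, ‖y - z‖ ^ 2 :=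
    Finset.sum_le_sum fun i _ => h2 i
  rw [Finset.sum_const, Finset.card_univ, Fintype.card_fin, nsmul_eq_mul] at h3
  push_cast at h3
  nlinarith [sq_nonneg ‖y - z‖]

/-- a scale function of `ΓΛ` is at most `G / 8` times the distance to the complement of `Λ` -/
theorem scale_le (hG : 1 ≤ G) {Λ : Set (EE (Fin 3))} (hne : (Λᶜ).Nonempty) {w : EE (Fin 3) → ℝ}
    (hw : ThC6_766.Scale (Gm 2 G '' Λ) w) (y : EE (Fin 3)) :
    w (Gm 2 G y) ≤ G / 8 * Metric.infDist y Λᶜ := by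
  have hG0 : 0 < G := by positivity
  rw [← div_le_iff₀' (by positivity), Metric.le_infDist hne]
  intro z hz
  rw [div_le_iff₀' (by positivity)]
  have h1 := hw.lip (Gm 2 G y) (Gm 2 G z)
  have h2 : w (Gm 2 G z) = 0 := hw.off _ (fun h => hz ((Gm_mem hG).1 h))
  rw [h2, Gm_sub] at h1
  have h3 := norm_Gm_le (k := 2) hG (y - z)
  rw [dist_eq_norm]
  linarith

/-- **clause `nb`** -/
theorem nb_f1 (hLa : IsOpen La) (hLac : (Laᶜ).Nonempty) (hG : 1 ≤ G) {w : EE (Fin 3) → ℝ} {Ct : ℝ}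
    (hCt : 0 ≤ Ct) (hw : ThC6_766.Scale (Gm 2 G '' LaE La) w) (ht : ∀ y, ‖Th y - y‖ ≤ Ct * w y)
    (h0 : 0 ≤ h) (hS : IsStretch 2 (LaE La) h S) :
    ∃ Cn : ℝ, 0 ≤ Cn ∧ ∀ x ∈ Om,
      ‖co (S (Gm 2 G⁻¹ (Th (Gm 2 G (P3 (f x)))))) - f x‖ ≤ Cn * Metric.infDist (f x) Laᶜ := by
  have hne : ((LaE La)ᶜ).Nonempty := by
    obtain ⟨z, hz⟩ := hLac
    exact ⟨P3 z, fun h => hz h⟩
  obtain ⟨K, hK, hKL, hKS⟩ := hS.supp
  -- the stretch
  obtain ⟨Cs, hCs, hCs2⟩ : ∃ Cs : ℝ, 0 ≤ Cs ∧ ∀ y, ‖S y - y‖ ≤ Cs * Metric.infDist y (LaE La)ᶜ := by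
    rcases K.eq_empty_or_nonempty with hKe | hKn
    · refine ⟨0, le_rfl, fun y => ?_⟩
      rw [hKS y (by rw [hKe]; exact notMem_empty y), sub_self, norm_zero, zero_mul]
    obtain ⟨y₀, hy₀, hmin⟩ := hK.exists_isMinOn hKn
      (Metric.continuous_infDist_pt (LaE La)ᶜ).continuousOn
    have hLE : IsOpen (LaE La) := Crest.Agent.R96.Push_899.isOpen_LaE hLa
    have hpos : 0 < Metric.infDist y₀ (LaE La)ᶜ := by
      rw [← hLE.isClosed_compl.notMem_iff_infDist_pos hne]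
      exact fun h => h (hKL hy₀)
    refine ⟨h / Metric.infDist y₀ (LaE La)ᶜ, by positivity, fun y => ?_⟩
    by_cases hy : y ∈ K
    · refine (hS.near y).trans ?_
      have h1 : Metric.infDist y₀ (LaE La)ᶜ ≤ Metric.infDist y (LaE La)ᶜ := hmin hy
      calc h = h / Metric.infDist y₀ (LaE La)ᶜ * Metric.infDist y₀ (LaE La)ᶜ := by field_simp
        _ ≤ _ := by gcongr
    · rw [hKS y hy, sub_self, norm_zero]
      exact mul_nonneg (by positivity) Metric.infDist_nonneg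
  refine ⟨(Cs * (1 + Ct * (G / 8)) + Ct * (G / 8)) * 2, by positivity, fun x _ => ?_⟩
  have e : f x = co (P3 (f x)) := rfl
  set y : EE (Fin 3) := Gm 2 G⁻¹ (Th (Gm 2 G (P3 (f x)))) with hy
  set d : ℝ := Metric.infDist (P3 (f x) : EE (Fin 3)) (LaE La)ᶜ with hd
  have hd0 : 0 ≤ d := Metric.infDist_nonneg
  have h1 : ‖y - P3 (f x)‖ ≤ Ct * (G / 8) * d := by
    refine tilde_near hG ((ht _).trans ?_)
    rw [mul_assoc]
    exact mul_le_mul_of_nonneg_left (scale_le hG hne hw _) hCt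
  have h2 : Metric.infDist y (LaE La)ᶜ ≤ (1 + Ct * (G / 8)) * d := by
    have h3 : Metric.infDist y (LaE La)ᶜ ≤ d + dist y (P3 (f x)) := Metric.infDist_le_infDist_add_dist
    rw [dist_eq_norm] at h3
    linarith
  calc ‖co (S y) - f x‖ = ‖co (S y) - co (P3 (f x))‖ := by rw [← e]
    _ ≤ ‖S y - P3 (f x)‖ := norm_ofLp_sub_le _ _
    _ = ‖(S y - y) + (y - P3 (f x))‖ := by congr 1; abel
    _ ≤ ‖S y - y‖ + ‖y - P3 (f x)‖ := norm_add_le _ _
    _ ≤ Cs * ((1 + Ct * (G / 8)) * d) + Ct * (G / 8) * d := by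
      refine add_le_add ((hCs2 y).trans (mul_le_mul_of_nonneg_left h2 hCs)) h1
    _ = (Cs * (1 + Ct * (G / 8)) + Ct * (G / 8)) * d := by ring
    _ ≤ (Cs * (1 + Ct * (G / 8)) + Ct * (G / 8)) * (2 * Metric.infDist (f x) Laᶜ) := by
      gcongr
      exact infDist_co hLac _
    _ = _ := by ring

/-! ### (c) the hypotheses on `φ` of `frontC_of` from `SH3` of `f1 = co ∘ S ∘ φ` -/

theorem phi_data {p : ℝ} (hOm : IsOpen Om) {D1 : E3 → E3 →L[ℝ] E3} {φ : E3 → EE (Fin 3)}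
    (hS : IsStretch 2 (LaE La) h S) (hsh : SH3 p Om La (fun x => co (S (φ x))) D1) :
    ContinuousOn φ Om ∧ MapsTo φ Om (LaE La) ∧
      ∀ l : Fin 3, ∃ D : E3 → EE (Fin 3), VWD Om volume φ D (Pi.single l 1) := by
  have e : ∀ x, S.symm (P3 ((fun x => co (S (φ x))) x)) = φ x := fun x => by
    have e1 : P3 ((fun x => co (S (φ x))) x) = S (φ x) := rfl
    rw [e1, S.symm_apply_apply]
  have hc : ContinuousOn (fun x => co (S (φ x))) Om := by
    obtain ⟨_, _, _, _, _, h5, _⟩ := hsh.homeo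
    exact h5
  have hm : MapsTo (fun x => co (S (φ x))) Om La := by
    obtain ⟨_, h1, _, _, _, _, _⟩ := hsh.homeo
    exact h1
  have hc' : ContinuousOn (fun x => P3 ((fun x => co (S (φ x))) x)) Om :=
    P3.continuous.comp_continuousOn hc
  refine ⟨?_, ?_, fun l => ?_⟩
  · refine (S.symm.continuous.comp_continuousOn hc').congr fun x _ => (e x).symm
  · intro x hx
    have h1 : S (φ x) ∈ LaE La := hm hx
    exact (Dic6_582.stretch_mem hS).1 h1
  · obtain ⟨K, hK⟩ := hS.anti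
    have hlip : LipschitzWith K S.symm := by
      have := hK.to_rightInverse (fun y => S.apply_symm_apply y)
      exact this
    obtain ⟨D', hD'⟩ := comp_exists hOm (hsh.vwd l) hc' (S := univ) (fun x _ => mem_univ _)
      (θ := S.symm) hlip.locallyLipschitz.locallyLipschitzOn
    refine ⟨D', ?_⟩
    have e2 : (fun x => S.symm (P3 ((fun x => co (S (φ x))) x))) = φ := funext e
    rwa [e2] at hD'

end Crest.Agent.R096.Dcn3_635
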