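import Crest.Agent.R096.Door0_501

-- ▼ part R096/Door1_501
section

/-!
# Row 96, DOORS (helper501), part 1: pairing of consecutive points, the structure `Move`,
the state of the layer.
-/

set_option autoImplicit false

namespace Crest.Agent.R096.Door_501

open Crest.Agent.R096.St_147 Classical

/-- pairing of consecutive points of a finite set with injective position `τ` -/
theorem exists_pairing {X : Type} (τ : X → ℝ) : ∀ (n : ℕ) (N : Finset X), N.card = 2 * n →
    Set.InjOn τ N → ∃ μ : X → X, ∀ x ∈ N, μ x ∈ N ∧ μ x ≠ x ∧ μ (μ x) = x ∧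
      (∀ y ∈ N, ¬ (τ x < τ y ∧ τ y < τ (μ x)) ∧ ¬ (τ (μ x) < τ y ∧ τ y < τ x)) ∧
      (τ x < τ (μ x) → Even (N.filter fun y => τ y < τ x).card) := by
  classical
  intro n
  induction n with
  | zero =>
    intro N hN _
    have : N = ∅ := Finset.card_eq_zero.1 (by omega)
    subst this
    exact ⟨id, fun x hx => (Finset.notMem_empty x hx).elim⟩
  | succ n ih =>
    intro N hN hinj
    have hne : N.Nonempty := Finset.card_pos.1 (by omega)
    obtain ⟨a, haN, ha⟩ := N.exists_min_image τ hne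
    have hne' : (N.erase a).Nonempty := by
      rw [← Finset.card_pos, Finset.card_erase_of_mem haN]; omega
    obtain ⟨b, hbN', hb⟩ := (N.erase a).exists_min_image τ hne'
    have hbN : b ∈ N := Finset.mem_of_mem_erase hbN'
    have hab : b ≠ a := Finset.ne_of_mem_erase hbN'
    have hlt : τ a < τ b := lt_of_le_of_ne (ha b hbN) fun h => hab (hinj hbN haN h.symm)
    set N' := (N.erase a).erase b with hN'
    have hcard : N'.card = 2 * n := by
      rw [hN', Finset.card_erase_of_mem hbN', Finset.card_erase_of_mem haN]; omega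
    have hsub : ∀ x ∈ N', x ∈ N ∧ x ≠ a ∧ x ≠ b := by
      intro x hx
      have h1 := Finset.mem_erase.1 hx
      have h2 := Finset.mem_erase.1 h1.2
      exact ⟨h2.2, h2.1, h1.1⟩
    have hsub' : ∀ x ∈ N, x ≠ a → x ≠ b → x ∈ N' := fun x hx h1 h2 =>
      Finset.mem_erase.2 ⟨h2, Finset.mem_erase.2 ⟨h1, hx⟩⟩
    have hbig : ∀ x ∈ N', τ b < τ x := by
      intro x hx
      obtain ⟨h1, h2, h3⟩ := hsub x hx
      exact lt_of_le_of_ne (hb x (Finset.mem_erase.2 ⟨h2, h1⟩)) fun h => h3 (hinj h1 hbN h.symm)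
    obtain ⟨μ, hμ⟩ := ih N' hcard (hinj.mono fun x hx => (hsub x hx).1)
    obtain ⟨ν, hν⟩ : ∃ ν : X → X, ∀ x, ν x = if x = a then b else if x = b then a else μ x :=
      ⟨_, fun _ => rfl⟩
    refine ⟨ν, fun x hx => ?_⟩
    by_cases hxa : x = a
    · subst hxa
      have e1 : ν x = b := by rw [hν, if_pos rfl]
      rw [e1]
      have e2 : ν b = x := by rw [hν, if_neg hab, if_pos rfl]
      rw [e2]
      refine ⟨hbN, hab, rfl, ?_, ?_⟩
      · intro y hy
        constructor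
        · rintro ⟨h1, h2⟩
          by_cases hyb : y = b
          · rw [hyb] at h2; exact lt_irrefl _ h2
          · have hya : y ≠ x := by rintro rfl; exact lt_irrefl _ h1
            have := hbig y (hsub' y hy hya hyb)
            linarith
        · rintro ⟨h1, h2⟩
          linarith
      · intro _
        have : N.filter (fun y => τ y < τ x) = ∅ := by
          rw [Finset.filter_eq_empty_iff]
          intro y hy h
          exact absurd (ha y hy) (not_le.2 h)
        rw [this]; simp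
    · by_cases hxb : x = b
      · subst hxb
        have e1 : ν x = a := by rw [hν, if_neg hxa, if_pos rfl]
        rw [e1]
        have e2 : ν a = x := by rw [hν, if_pos rfl]
        rw [e2]
        refine ⟨haN, Ne.symm hxa, rfl, ?_, ?_⟩
        · intro y hy
          constructor
          · rintro ⟨h1, h2⟩
            linarith
          · rintro ⟨h1, h2⟩
            by_cases hyb : y = x
            · rw [hyb] at h2; exact lt_irrefl _ h2
            · have hya : y ≠ a := by rintro rfl; exact lt_irrefl _ h1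
              have := hbig y (hsub' y hy hya hyb)
              linarith
        · intro h
          linarith
      · have hxN' := hsub' x hx hxa hxb
        obtain ⟨h1, h2, h3, h4, h5⟩ := hμ x hxN'
        obtain ⟨h6, h7, h8⟩ := hsub _ h1
        have e1 : ν x = μ x := by rw [hν, if_neg hxa, if_neg hxb]
        rw [e1]
        have e2 : ν (μ x) = x := by rw [hν, if_neg h7, if_neg h8, h3]
        rw [e2]
        refine ⟨h6, h2, rfl, ?_, ?_⟩
        · intro y hy
          by_cases hya : y = a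
          · subst hya
            have := hbig x hxN'
            have := hbig (μ x) h1
            constructor
            · rintro ⟨h9, h10⟩; linarith
            · rintro ⟨h9, h10⟩; linarith
          by_cases hyb : y = b
          · subst hyb
            have := hbig x hxN'
            have := hbig (μ x) h1
            constructor
            · rintro ⟨h9, h10⟩; linarith
            · rintro ⟨h9, h10⟩; linarith
          exact h4 y (hsub' y hy hya hyb)
        · intro h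
          have h9 := h5 h
          have h10 : N.filter (fun y => τ y < τ x) =
              insert a (insert b (N'.filter fun y => τ y < τ x)) := by
            ext y
            simp only [Finset.mem_filter, Finset.mem_insert]
            constructor
            · rintro ⟨hy, hlt⟩
              by_cases hya : y = a
              · exact Or.inl hya
              · by_cases hyb : y = b
                · exact Or.inr (Or.inl hyb)
                · exact Or.inr (Or.inr ⟨hsub' y hy hya hyb, hlt⟩)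
            · have := hbig x hxN'
              rintro (rfl | rfl | ⟨hy, hlt⟩)
              · exact ⟨haN, by linarith⟩
              · exact ⟨hbN, by linarith⟩
              · exact ⟨(hsub y hy).1, hlt⟩
          have hb' : b ∉ N'.filter (fun y => τ y < τ x) := fun h =>
            (hsub b (Finset.mem_filter.1 h).1).2.2 rfl
          have ha' : a ∉ insert b (N'.filter fun y => τ y < τ x) := by
            rw [Finset.mem_insert]
            rintro (h | h)
            · exact hab h.symm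
            · exact (hsub a (Finset.mem_filter.1 h).1).2.1 rfl
          rw [h10, Finset.card_insert_of_notMem ha', Finset.card_insert_of_notMem hb']
          obtain ⟨r, hr⟩ := h9
          exact ⟨r + 1, by omega⟩

variable {ι Φ W : Type} {M : MeshC ι Φ W} {k : ι} {Vx Ed : Type} {I : Type} {col : I → Bool}

/-- An elementary move: all sheets except `i0` are products; the sheet `i0` makes the horizontal
piece `Q` (vertices `Qv`; its boundary curves are the points in `s.P` xor `B`). -/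
structure Move (S : Shell M k Vx Ed) (s : St M col) where
  i0 : I
  /-- the points of the new pattern on the boundary of the shrunk cell -/
  B : Finset W
  lab0 : W → I
  mu0 : Φ → W → W
  B_on : ∀ {w}, w ∈ B → ∃ e, w ∈ S.OnE e
  mem : ∀ {F w}, k ∈ M.side F → w ∈ B → w ∈ M.On F → mu0 F w ∈ B ∧ mu0 F w ∈ M.On F
  ne : ∀ {F w}, k ∈ M.side F → w ∈ B → w ∈ M.On F → mu0 F w ≠ w
  inv : ∀ {F w}, k ∈ M.side F → w ∈ B → w ∈ M.On F → mu0 F (mu0 F w) = w
  lab : ∀ {F w}, k ∈ M.side F → w ∈ B → w ∈ M.On F → lab0 (mu0 F w) = lab0 w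
  nc : ∀ {F : Φ} {w x : W}, k ∈ M.side F → w ∈ B → w ∈ M.On F → x ∈ B → x ∈ M.On F →
    col (lab0 w) = col (lab0 x) → x ≠ w → x ≠ mu0 F w → ¬ M.Lace F w (mu0 F w) x (mu0 F x)
  same_lab : ∀ {w}, w ∈ s.P → w ∈ B → lab0 w = s.lab w
  same_mu : ∀ {F w}, k ∈ M.side F → w ∈ M.On F → w ∈ s.P → w ∈ B → mu0 F w = s.mu F w
  dif_top : ∀ {e w}, w ∈ S.OnE e → w ∈ s.P → w ∉ B → s.lab w = i0
  dif_bot : ∀ {w}, w ∈ B → w ∉ s.P → lab0 w = i0
  Qv : Finset Vx

namespace Move

variable {S : Shell M k Vx Ed} {s : St M col} (m : Move S s)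

/-- the points of the boundary of the horizontal piece and its points on the vertical edges -/
noncomputable def qe : Finset S.Pnt :=
  ((s.P.filter fun w => w ∉ m.B ∧ ∃ e, w ∈ S.OnE e).image S.top) ∪
    (((m.B.filter fun w => w ∉ s.P).image S.bot) ∪ (m.Qv.image S.vert))

theorem top_mem_qe {w : W} : S.top w ∈ m.qe ↔ w ∈ s.P ∧ w ∉ m.B ∧ ∃ e, w ∈ S.OnE e := by
  unfold qe
  simp [Finset.mem_union, Finset.mem_image]

theorem bot_mem_qe {w : W} : S.bot w ∈ m.qe ↔ w ∈ m.B ∧ w ∉ s.P := by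
  unfold qe
  simp [Finset.mem_union, Finset.mem_image]

theorem vert_mem_qe {v : Vx} : S.vert v ∈ m.qe ↔ v ∈ m.Qv := by
  unfold qe
  simp [Finset.mem_union, Finset.mem_image]

/-- the same on the vertical face `e` -/
noncomputable def qon (e : Ed) : Finset S.Pnt := m.qe.filter fun x => x ∈ S.On (Sum.inr (Sum.inr e))

theorem mem_qon {e : Ed} {x : S.Pnt} :
    x ∈ m.qon e ↔ x ∈ m.qe ∧ x ∈ S.On (Sum.inr (Sum.inr e)) := Finset.mem_filter

theorem tau_inj (e : Ed) : Set.InjOn (S.tau e) (m.qon e) := by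
  have hv : ∀ b, S.tau e (S.vert (S.en e b)) = if b then 3 / 2 else -1 / 2 := by
    intro b
    cases b
    · simp [Shell.tau]
    · simp [Shell.tau, (S.en_ne e).symm]
  intro x hx y hy h
  rw [Finset.mem_coe, mem_qon] at hx hy
  obtain ⟨hxq, hx⟩ := hx
  obtain ⟨hyq, hy⟩ := hy
  rcases hx with ⟨w, hw, rfl⟩ | ⟨w, hw, rfl⟩ | ⟨b, rfl⟩ <;>
    rcases hy with ⟨w', hw', rfl⟩ | ⟨w', hw', rfl⟩ | ⟨b', rfl⟩
  · rw [S.t_inj e hw hw' h]
  · exfalso
    have : w = w' := S.t_inj e hw hw' h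
    subst this
    exact (m.top_mem_qe.1 hxq).2.1 (m.bot_mem_qe.1 hyq).1
  · rw [hv] at h
    have h1 := S.t_lt hw
    have h2 := S.t_pos hw
    have : S.t w = if b' then 3 / 2 else -1 / 2 := h
    split_ifs at this <;> linarith
  · exfalso
    have : w = w' := S.t_inj e hw hw' h
    subst this
    exact (m.top_mem_qe.1 hyq).2.1 (m.bot_mem_qe.1 hxq).1
  · rw [S.t_inj e hw hw' h]
  · rw [hv] at h
    have h1 := S.t_lt hw
    have h2 := S.t_pos hw
    have : S.t w = if b' then 3 / 2 else -1 / 2 := h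
    split_ifs at this <;> linarith
  · rw [hv] at h
    have h1 := S.t_lt hw'
    have h2 := S.t_pos hw'
    have : (if b then 3 / 2 else -1 / 2) = S.t w' := h
    split_ifs at this <;> linarith
  · rw [hv] at h
    have h1 := S.t_lt hw'
    have h2 := S.t_pos hw'
    have : (if b then 3 / 2 else -1 / 2) = S.t w' := h
    split_ifs at this <;> linarith
  · rw [hv, hv] at h
    cases b <;> cases b' <;> simp at h ⊢ <;> linarith

/-- the parity conditions -/
structure Par : Prop where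
  /-- the boundary curves and the vertices of `Q` fit together -/
  even : ∀ e, Even (m.qon e).card
  /-- no product point of the same colour inside `Q` -/
  free : ∀ {e w}, w ∈ S.OnE e → w ∈ s.P → w ∈ m.B → col (s.lab w) = col m.i0 →
    Even ((m.qon e).filter fun x => S.tau e x < S.t w).card

theorem exists_pr (hp : m.Par) (e : Ed) : ∃ μ : S.Pnt → S.Pnt, ∀ x ∈ m.qon e, μ x ∈ m.qon e ∧
    μ x ≠ x ∧ μ (μ x) = x ∧ (∀ y ∈ m.qon e, ¬ (S.tau e x < S.tau e y ∧ S.tau e y < S.tau e (μ x)) ∧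
      ¬ (S.tau e (μ x) < S.tau e y ∧ S.tau e y < S.tau e x)) ∧
      (S.tau e x < S.tau e (μ x) → Even ((m.qon e).filter fun y => S.tau e y < S.tau e x).card) := by
  obtain ⟨n, hn⟩ := hp.even e
  exact exists_pairing (S.tau e) n (m.qon e) (by omega) (m.tau_inj e)

/-- the pairing on the vertical face `e` -/
noncomputable def pr (hp : m.Par) (e : Ed) : S.Pnt → S.Pnt := Classical.choose (m.exists_pr hp e)

theorem pr_spec (hp : m.Par) (e : Ed) : ∀ x ∈ m.qon e, m.pr hp e x ∈ m.qon e ∧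
    m.pr hp e x ≠ x ∧ m.pr hp e (m.pr hp e x) = x ∧
    (∀ y ∈ m.qon e, ¬ (S.tau e x < S.tau e y ∧ S.tau e y < S.tau e (m.pr hp e x)) ∧
      ¬ (S.tau e (m.pr hp e x) < S.tau e y ∧ S.tau e y < S.tau e x)) ∧
    (S.tau e x < S.tau e (m.pr hp e x) →
      Even ((m.qon e).filter fun y => S.tau e y < S.tau e x).card) :=
  Classical.choose_spec (m.exists_pr hp e)

/-- exchange top and bottom -/
def swp : S.Pnt → S.Pnt
  | Sum.inl w => S.bot w
  | Sum.inr (Sum.inl w) => S.top w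
  | Sum.inr (Sum.inr v) => S.vert v

/-- the points of the new state -/
noncomputable def P' : Finset S.Pnt :=
  (s.P.image S.top) ∪ ((m.B.image S.bot) ∪ (m.Qv.image S.vert))

theorem top_mem_P' {w : W} : S.top w ∈ m.P' ↔ w ∈ s.P := by
  unfold P'
  simp [Finset.mem_union, Finset.mem_image]

theorem bot_mem_P' {w : W} : S.bot w ∈ m.P' ↔ w ∈ m.B := by
  unfold P'
  simp [Finset.mem_union, Finset.mem_image]

theorem vert_mem_P' {v : Vx} : S.vert v ∈ m.P' ↔ v ∈ m.Qv := by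
  unfold P'
  simp [Finset.mem_union, Finset.mem_image]

/-- the names -/
def lab' : S.Pnt → I
  | Sum.inl w => s.lab w
  | Sum.inr (Sum.inl w) => m.lab0 w
  | Sum.inr (Sum.inr _) => m.i0

/-- the partners -/
noncomputable def mu' (hp : m.Par) : S.Face → S.Pnt → S.Pnt
  | Sum.inl F, Sum.inl w => S.top (s.mu F w)
  | Sum.inl _, Sum.inr x => Sum.inr x
  | Sum.inr (Sum.inl _), Sum.inl w => Sum.inl w
  | Sum.inr (Sum.inl G), Sum.inr (Sum.inl w) => S.bot (m.mu0 G.1 w)
  | Sum.inr (Sum.inl _), Sum.inr (Sum.inr v) => S.vert v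
  | Sum.inr (Sum.inr e), x => if x ∈ m.qe then m.pr hp e x else swp x

theorem qe_sub_P' {x : S.Pnt} (h : x ∈ m.qe) : x ∈ m.P' := by
  rcases x with w | w | v
  · exact m.top_mem_P'.2 (m.top_mem_qe.1 h).1
  · exact m.bot_mem_P'.2 (m.bot_mem_qe.1 h).1
  · exact m.vert_mem_P'.2 (m.vert_mem_qe.1 h)

theorem lab_qe {x : S.Pnt} (h : x ∈ m.qe) : m.lab' x = m.i0 := by
  rcases x with w | w | v
  · obtain ⟨h1, h2, e, h3⟩ := m.top_mem_qe.1 h
    exact m.dif_top h3 h1 h2
  · obtain ⟨h1, h2⟩ := m.bot_mem_qe.1 h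
    exact m.dif_bot h1 h2
  · rfl

/-- a point of the state on a vertical face which is not in `qe` is a product point -/
theorem product {e : Ed} {x : S.Pnt} (hx : x ∈ m.P') (hxe : x ∈ S.On (Sum.inr (Sum.inr e)))
    (hq : x ∉ m.qe) : ∃ w ∈ S.OnE e, w ∈ s.P ∧ w ∈ m.B ∧ (x = S.top w ∨ x = S.bot w) := by
  rcases x with w | w | v
  · have hw := S.top_mem_vert.1 hxe
    have hP := m.top_mem_P'.1 hx
    refine ⟨w, hw, hP, ?_, Or.inl rfl⟩
    by_contra hB
    exact hq (m.top_mem_qe.2 ⟨hP, hB, e, hw⟩)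
  · have hw := S.bot_mem_vert.1 hxe
    have hB := m.bot_mem_P'.1 hx
    refine ⟨w, hw, ?_, hB, Or.inr rfl⟩
    by_contra hP
    exact hq (m.bot_mem_qe.2 ⟨hB, hP⟩)
  · exact (hq (m.vert_mem_qe.2 (m.vert_mem_P'.1 hx))).elim

theorem top_not_qe {w : W} (h : w ∈ m.B) : S.top w ∉ m.qe := fun h' => (m.top_mem_qe.1 h').2.1 h

theorem bot_not_qe {w : W} (h : w ∈ s.P) : S.bot w ∉ m.qe := fun h' => (m.bot_mem_qe.1 h').2 h

theorem mu'_vert_qe (hp : m.Par) {e : Ed} {x : S.Pnt} (h : x ∈ m.qe) :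
    m.mu' hp (Sum.inr (Sum.inr e)) x = m.pr hp e x := by
  show (if x ∈ m.qe then m.pr hp e x else swp x) = _
  rw [if_pos h]

theorem mu'_vert_nqe (hp : m.Par) {e : Ed} {x : S.Pnt} (h : x ∉ m.qe) :
    m.mu' hp (Sum.inr (Sum.inr e)) x = swp x := by
  show (if x ∈ m.qe then m.pr hp e x else swp x) = _
  rw [if_neg h]

theorem mu'_mem (hp : m.Par) {F : S.Face} {x : S.Pnt} (hx : x ∈ m.P') (hF : x ∈ S.On F) :
    m.mu' hp F x ∈ m.P' ∧ m.mu' hp F x ∈ S.On F := by
  rcases F with F | G | e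
  · rcases x with w | x
    · have h1 := S.top_mem_On.1 hF
      have h2 := s.mu_mem (m.top_mem_P'.1 hx) h1
      exact ⟨m.top_mem_P'.2 h2.1, S.top_mem_On.2 h2.2⟩
    · obtain ⟨w, _, h⟩ := hF
      cases h
  · rcases x with w | w | v
    · exact (S.top_not_mem_On hF).elim
    · have h1 := S.bot_mem_On.1 hF
      have h2 := m.mem G.2 (m.bot_mem_P'.1 hx) h1
      exact ⟨m.bot_mem_P'.2 h2.1, S.bot_mem_On.2 h2.2⟩
    · exact (S.vert_not_mem_On' hF).elim
  · by_cases hq : x ∈ m.qe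
    · rw [m.mu'_vert_qe hp hq]
      have h1 := (m.pr_spec hp e x (m.mem_qon.2 ⟨hq, hF⟩)).1
      rw [mem_qon] at h1
      exact ⟨m.qe_sub_P' h1.1, h1.2⟩
    · rw [m.mu'_vert_nqe hp hq]
      obtain ⟨w, hw, hP, hB, rfl | rfl⟩ := m.product hx hF hq
      · exact ⟨m.bot_mem_P'.2 hB, S.bot_mem_vert.2 hw⟩
      · exact ⟨m.top_mem_P'.2 hP, S.top_mem_vert.2 hw⟩

theorem mu'_ne (hp : m.Par) {F : S.Face} {x : S.Pnt} (hx : x ∈ m.P') (hF : x ∈ S.On F) :
    m.mu' hp F x ≠ x := by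
  rcases F with F | G | e
  · rcases x with w | x
    · intro h
      exact s.mu_ne (m.top_mem_P'.1 hx) (S.top_mem_On.1 hF) (Sum.inl.inj h)
    · obtain ⟨w, _, h⟩ := hF
      cases h
  · rcases x with w | w | v
    · exact (S.top_not_mem_On hF).elim
    · intro h
      exact m.ne G.2 (m.bot_mem_P'.1 hx) (S.bot_mem_On.1 hF) (Sum.inl.inj (Sum.inr.inj h))
    · exact (S.vert_not_mem_On' hF).elim
  · by_cases hq : x ∈ m.qe
    · rw [m.mu'_vert_qe hp hq]
      exact (m.pr_spec hp e x (m.mem_qon.2 ⟨hq, hF⟩)).2.1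
    · rw [m.mu'_vert_nqe hp hq]
      obtain ⟨w, hw, hP, hB, rfl | rfl⟩ := m.product hx hF hq
      · intro h; cases h
      · intro h; cases h

theorem mu'_mu' (hp : m.Par) {F : S.Face} {x : S.Pnt} (hx : x ∈ m.P') (hF : x ∈ S.On F) :
    m.mu' hp F (m.mu' hp F x) = x := by
  rcases F with F | G | e
  · rcases x with w | x
    · have := s.mu_mu (m.top_mem_P'.1 hx) (S.top_mem_On.1 hF)
      exact congrArg S.top this
    · rfl
  · rcases x with w | w | v
    · rfl
    · have := m.inv G.2 (m.bot_mem_P'.1 hx) (S.bot_mem_On.1 hF)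
      exact congrArg S.bot this
    · rfl
  · by_cases hq : x ∈ m.qe
    · have h1 := m.pr_spec hp e x (m.mem_qon.2 ⟨hq, hF⟩)
      rw [m.mu'_vert_qe hp hq, m.mu'_vert_qe hp (m.mem_qon.1 h1.1).1]
      exact h1.2.2.1
    · rw [m.mu'_vert_nqe hp hq]
      obtain ⟨w, hw, hP, hB, rfl | rfl⟩ := m.product hx hF hq
      · exact m.mu'_vert_nqe hp (m.bot_not_qe hP)
      · exact m.mu'_vert_nqe hp (m.top_not_qe hB)

theorem mu'_lab (hp : m.Par) {F : S.Face} {x : S.Pnt} (hx : x ∈ m.P') (hF : x ∈ S.On F) :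
    m.lab' (m.mu' hp F x) = m.lab' x := by
  rcases F with F | G | e
  · rcases x with w | x
    · exact s.mu_lab (m.top_mem_P'.1 hx) (S.top_mem_On.1 hF)
    · rfl
  · rcases x with w | w | v
    · rfl
    · exact m.lab G.2 (m.bot_mem_P'.1 hx) (S.bot_mem_On.1 hF)
    · rfl
  · by_cases hq : x ∈ m.qe
    · have h1 := m.pr_spec hp e x (m.mem_qon.2 ⟨hq, hF⟩)
      rw [m.mu'_vert_qe hp hq, m.lab_qe (m.mem_qon.1 h1.1).1, m.lab_qe hq]
    · rw [m.mu'_vert_nqe hp hq]
      obtain ⟨w, hw, hP, hB, rfl | rfl⟩ := m.product hx hF hq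
      · exact m.same_lab hP hB
      · exact (m.same_lab hP hB).symm

end Move

end Crest.Agent.R096.Door_501
end

-- ▼ part R096/Door2_501
section

/-!
# Row 96, DOORS (helper501), part 2: the state of one layer; `H¹ = 0` and connectedness.
-/

set_option autoImplicit false

namespace Crest.Agent.R096.Door_501

open Crest.Agent.R096.St_147 Classical

variable {ι Φ W : Type} {M : MeshC ι Φ W} {k : ι} {Vx Ed : Type} {I : Type} {col : I → Bool}

theorem sep_real {a a' b b' m : ℝ} (_h : m < 3 / 2) (ha : a < m ∨ 3 - m < a)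
    (ha' : a' < m ∨ 3 - m < a') (hb : m < b ∧ b < 3 - m) (hb' : m < b' ∧ b' < 3 - m) :
    (((a < b ∧ b < a') ∨ (a' < b ∧ b < a)) ↔ ((a < b' ∧ b' < a') ∨ (a' < b' ∧ b' < a))) ∧
    (((b < a ∧ a < b') ∨ (b' < a ∧ a < b)) ↔ ((b < a' ∧ a' < b') ∨ (b' < a' ∧ a' < b))) := by
  obtain ⟨hb1, hb2⟩ := hb
  obtain ⟨hb3, hb4⟩ := hb'
  constructor
  · rcases ha with ha | ha <;> rcases ha' with ha' | ha'
    · constructor <;> (rintro (⟨h1, h2⟩ | ⟨h1, h2⟩) <;> exfalso <;> linarith)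
    · constructor
      · intro _; left; constructor <;> linarith
      · intro _; left; constructor <;> linarith
    · constructor
      · intro _; right; constructor <;> linarith
      · intro _; right; constructor <;> linarith
    · constructor <;> (rintro (⟨h1, h2⟩ | ⟨h1, h2⟩) <;> exfalso <;> linarith)
  · constructor
    · rintro (⟨h1, h2⟩ | ⟨h1, h2⟩) <;> exfalso <;> rcases ha with ha | ha <;> linarith
    · rintro (⟨h1, h2⟩ | ⟨h1, h2⟩) <;> exfalso <;> rcases ha' with ha' | ha' <;> linarith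

namespace Shell

variable (S : Shell M k Vx Ed)

theorem tau_mem {e : Ed} {x : S.Pnt} (hx : x ∈ S.On (Sum.inr (Sum.inr e))) :
    -1 / 2 ≤ S.tau e x ∧ S.tau e x ≤ 3 / 2 ∧ (S.pos (Sum.inr (Sum.inr e)) x = S.tau e x ∨
      S.pos (Sum.inr (Sum.inr e)) x = 3 - S.tau e x) := by
  rcases hx with ⟨w, hw, rfl⟩ | ⟨w, hw, rfl⟩ | ⟨b, rfl⟩
  · have h1 := S.t_pos hw
    have h2 := S.t_lt hw
    refine ⟨?_, ?_, Or.inl rfl⟩
    · show -1 / 2 ≤ S.t w
      linarith
    · show S.t w ≤ 3 / 2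
      linarith
  · have h1 := S.t_pos hw
    have h2 := S.t_lt hw
    refine ⟨?_, ?_, Or.inr rfl⟩
    · show -1 / 2 ≤ S.t w
      linarith
    · show S.t w ≤ 3 / 2
      linarith
  · refine ⟨?_, ?_, Or.inl rfl⟩
    · show -1 / 2 ≤ (if S.en e b = S.en e false then (-1 / 2 : ℝ) else 3 / 2)
      split_ifs <;> norm_num
    · show (if S.en e b = S.en e false then (-1 / 2 : ℝ) else 3 / 2) ≤ 3 / 2
      split_ifs <;> norm_num

theorem pos_of_lt {e : Ed} {x : S.Pnt} (hx : x ∈ S.On (Sum.inr (Sum.inr e))) {m : ℝ}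
    (h : S.tau e x < m) : S.pos (Sum.inr (Sum.inr e)) x < m ∨
      3 - m < S.pos (Sum.inr (Sum.inr e)) x := by
  obtain ⟨h1, h2, h3 | h3⟩ := S.tau_mem hx
  · left; rw [h3]; exact h
  · right; rw [h3]; linarith

theorem pos_of_gt {e : Ed} {x : S.Pnt} (hx : x ∈ S.On (Sum.inr (Sum.inr e))) {m : ℝ}
    (_hm : m < 3 / 2) (h : m < S.tau e x) : m < S.pos (Sum.inr (Sum.inr e)) x ∧
      S.pos (Sum.inr (Sum.inr e)) x < 3 - m := by
  obtain ⟨h1, h2, h3 | h3⟩ := S.tau_mem hx
  · rw [h3]; exact ⟨h, by linarith⟩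
  · rw [h3]; exact ⟨by linarith, by linarith⟩

theorem sep {e : Ed} {x x' y y' : S.Pnt} {m : ℝ} (hx : x ∈ S.On (Sum.inr (Sum.inr e)))
    (hx' : x' ∈ S.On (Sum.inr (Sum.inr e))) (hy : y ∈ S.On (Sum.inr (Sum.inr e)))
    (hy' : y' ∈ S.On (Sum.inr (Sum.inr e))) (hm : m < 3 / 2)
    (a1 : S.tau e x < m) (a2 : S.tau e x' < m) (b1 : m < S.tau e y) (b2 : m < S.tau e y') :
    ¬ S.mesh.Lace (Sum.inr (Sum.inr e)) x x' y y' ∧
      ¬ S.mesh.Lace (Sum.inr (Sum.inr e)) y y' x x' := by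
  have h := sep_real hm (S.pos_of_lt hx a1) (S.pos_of_lt hx' a2) (S.pos_of_gt hy hm b1)
    (S.pos_of_gt hy' hm b2)
  exact ⟨fun h' => h' h.1, fun h' => h' h.2⟩

/-- the faces of the layer cells -/
def Lay (F : S.Face) : Prop := ∃ G : S.Fk, (Sum.inr G : S.Cell) ∈ S.side F

theorem lay_top {F : Φ} (h : k ∈ M.side F) : S.Lay (Sum.inl F) :=
  ⟨⟨F, h⟩, S.inr_mem_side.2 rfl⟩

theorem of_lay_top {F : Φ} (h : S.Lay (Sum.inl F)) : k ∈ M.side F := by
  obtain ⟨G, hG⟩ := h
  rw [S.inr_mem_side.1 hG]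
  exact G.2

theorem lay_bot (G : S.Fk) : S.Lay (Sum.inr (Sum.inl G)) := ⟨G, S.mem_side_bot.2 (Or.inl rfl)⟩

theorem lay_vert (e : Ed) : S.Lay (Sum.inr (Sum.inr e)) :=
  ⟨⟨S.fc e false, S.fc_side e false⟩, S.mem_side_vert.2 ⟨false, rfl⟩⟩

end Shell

namespace Move

variable {S : Shell M k Vx Ed} {s : St M col} (m : Move S s)

theorem prod_out (hp : m.Par) {e : Ed} {w : W} (hw : w ∈ S.OnE e) (hP : w ∈ s.P) (hB : w ∈ m.B)
    (hc : col (s.lab w) = col m.i0) {y : S.Pnt} (hy : y ∈ m.qon e) :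
    ¬ (S.tau e y < S.t w ∧ S.t w < S.tau e (m.pr hp e y)) := by
  rintro ⟨h1, h2⟩
  have h3 := hp.free hw hP hB hc
  obtain ⟨g1, g2, g3, g4, g5⟩ := m.pr_spec hp e y hy
  have h4 := g5 (h1.trans h2)
  have h5 : (m.qon e).filter (fun x => S.tau e x < S.t w) =
      insert y ((m.qon e).filter fun x => S.tau e x < S.tau e y) := by
    ext z
    simp only [Finset.mem_filter, Finset.mem_insert]
    constructor
    · rintro ⟨hz, hlt⟩
      by_cases hzy : z = y
      · exact Or.inl hzy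
      · right
        refine ⟨hz, ?_⟩
        rcases lt_trichotomy (S.tau e z) (S.tau e y) with h | h | h
        · exact h
        · exact (hzy (m.tau_inj e hz hy h)).elim
        · exact ((g4 z hz).1 ⟨h, hlt.trans h2⟩).elim
    · rintro (rfl | ⟨hz, hlt⟩)
      · exact ⟨hy, h1⟩
      · exact ⟨hz, hlt.trans h1⟩
  rw [h5, Finset.card_insert_of_notMem (by simp)] at h3
  exact (Nat.even_add_one.1 h3) h4

theorem t_ne_tau {e : Ed} {w : W} (hw : w ∈ S.OnE e) (hP : w ∈ s.P) (hB : w ∈ m.B)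
    {y : S.Pnt} (hy : y ∈ m.qon e) : S.t w ≠ S.tau e y := by
  intro h
  rw [mem_qon] at hy
  obtain ⟨hyq, hy⟩ := hy
  rcases hy with ⟨w', hw', rfl⟩ | ⟨w', hw', rfl⟩ | ⟨b, rfl⟩
  · have : w = w' := S.t_inj e hw hw' h
    subst this
    exact (m.top_mem_qe.1 hyq).2.1 hB
  · have : w = w' := S.t_inj e hw hw' h
    subst this
    exact (m.bot_mem_qe.1 hyq).2 hP
  · have h1 := S.t_pos hw
    have h2 := S.t_lt hw
    have h3 : S.t w = if S.en e b = S.en e false then -1 / 2 else 3 / 2 := h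
    split_ifs at h3 <;> linarith

/-- product chord and chord of `Q` -/
theorem nc_PQ (hp : m.Par) {e : Ed} {w : W} (hw : w ∈ S.OnE e) (hP : w ∈ s.P) (hB : w ∈ m.B)
    (hc : col (s.lab w) = col m.i0) {x x' y : S.Pnt} (hx : x = S.top w ∨ x = S.bot w)
    (hx' : x' = S.top w ∨ x' = S.bot w) (hy : y ∈ m.qon e) :
    ¬ S.mesh.Lace (Sum.inr (Sum.inr e)) x x' y (m.pr hp e y) ∧
      ¬ S.mesh.Lace (Sum.inr (Sum.inr e)) y (m.pr hp e y) x x' := by
  obtain ⟨g1, g2, g3, g4, g5⟩ := m.pr_spec hp e y hy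
  have h1 := m.prod_out hp hw hP hB hc hy
  have h2 := m.prod_out hp hw hP hB hc g1
  rw [g3] at h2
  have h3 := m.t_ne_tau hw hP hB hy
  have h4 := m.t_ne_tau hw hP hB g1
  have hxF : x ∈ S.On (Sum.inr (Sum.inr e)) := by
    rcases hx with rfl | rfl
    · exact S.top_mem_vert.2 hw
    · exact S.bot_mem_vert.2 hw
  have hxF' : x' ∈ S.On (Sum.inr (Sum.inr e)) := by
    rcases hx' with rfl | rfl
    · exact S.top_mem_vert.2 hw
    · exact S.bot_mem_vert.2 hw
  have tx : S.tau e x = S.t w := by rcases hx with rfl | rfl <;> rfl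
  have tx' : S.tau e x' = S.t w := by rcases hx' with rfl | rfl <;> rfl
  have t1 := S.t_pos hw
  have t2 := S.t_lt hw
  have hyF := (m.mem_qon.1 hy).2
  have hyF' := (m.mem_qon.1 g1).2
  obtain ⟨b1, b2, _⟩ := S.tau_mem hyF
  obtain ⟨b3, b4, _⟩ := S.tau_mem hyF'
  rcases lt_or_gt_of_ne h3 with h5 | h5
  · -- `t w < tau y`
    have h6 : S.t w < S.tau e (m.pr hp e y) := by
      rcases lt_or_gt_of_ne h4 with h6 | h6
      · exact h6
      · exact (h2 ⟨h6, h5⟩).elim
    have h7 : S.t w < min (S.tau e y) (S.tau e (m.pr hp e y)) := lt_min h5 h6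
    have h8 := min_le_left (S.tau e y) (S.tau e (m.pr hp e y))
    have h9 := min_le_right (S.tau e y) (S.tau e (m.pr hp e y))
    set c := min (S.tau e y) (S.tau e (m.pr hp e y)) with hcdef
    exact S.sep (m := (S.t w + c) / 2) hxF hxF' hyF hyF' (by linarith) (by linarith) (by linarith)
      (by linarith) (by linarith)
  · have h6 : S.tau e (m.pr hp e y) < S.t w := by
      rcases lt_or_gt_of_ne h4 with h6 | h6
      · exact (h1 ⟨h5, h6⟩).elim
      · exact h6
    have h7 : max (S.tau e y) (S.tau e (m.pr hp e y)) < S.t w := max_lt h5 h6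
    have h8 := le_max_left (S.tau e y) (S.tau e (m.pr hp e y))
    have h9 := le_max_right (S.tau e y) (S.tau e (m.pr hp e y))
    set c := max (S.tau e y) (S.tau e (m.pr hp e y)) with hcdef
    exact (S.sep (m := (S.t w + c) / 2) hyF hyF' hxF hxF' (by linarith) (by linarith) (by linarith)
      (by linarith) (by linarith)).symm

/-- two chords of `Q` -/
theorem nc_QQ (hp : m.Par) {e : Ed} {x y : S.Pnt} (hx : x ∈ m.qon e) (hy : y ∈ m.qon e)
    (hne : y ≠ x) (hne' : y ≠ m.pr hp e x) :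
    ¬ S.mesh.Lace (Sum.inr (Sum.inr e)) x (m.pr hp e x) y (m.pr hp e y) := by
  obtain ⟨f1, f2, f3, f4, -⟩ := m.pr_spec hp e x hx
  obtain ⟨g1, g2, g3, g4, -⟩ := m.pr_spec hp e y hy
  have hne1 : m.pr hp e y ≠ x := by
    intro h; apply hne'; rw [← h, g3]
  have hne2 : m.pr hp e y ≠ m.pr hp e x := by
    intro h; apply hne
    rw [← f3, ← h, g3]
  have hxF := (m.mem_qon.1 hx).2
  have hxF' := (m.mem_qon.1 f1).2
  have hyF := (m.mem_qon.1 hy).2
  have hyF' := (m.mem_qon.1 g1).2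
  obtain ⟨a1, a2, _⟩ := S.tau_mem hxF
  obtain ⟨a3, a4, _⟩ := S.tau_mem hxF'
  obtain ⟨b1, b2, _⟩ := S.tau_mem hyF
  obtain ⟨b3, b4, _⟩ := S.tau_mem hyF'
  have n1 : S.tau e y ≠ S.tau e x := fun h => hne (m.tau_inj e hy hx h)
  have n2 : S.tau e y ≠ S.tau e (m.pr hp e x) := fun h => hne' (m.tau_inj e hy f1 h)
  have n3 : S.tau e (m.pr hp e y) ≠ S.tau e x := fun h => hne1 (m.tau_inj e g1 hx h)
  have n4 : S.tau e (m.pr hp e y) ≠ S.tau e (m.pr hp e x) := fun h => hne2 (m.tau_inj e g1 f1 h)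
  have n5 : S.tau e (m.pr hp e x) ≠ S.tau e x := fun h => f2 (m.tau_inj e f1 hx h)
  have n6 : S.tau e (m.pr hp e y) ≠ S.tau e y := fun h => g2 (m.tau_inj e g1 hy h)
  obtain ⟨e1, e2⟩ := f4 y hy
  obtain ⟨e3, e4⟩ := f4 _ g1
  obtain ⟨e5, e6⟩ := g4 x hx
  obtain ⟨e7, e8⟩ := g4 _ f1
  -- `{x, x'}` and `{y, y'}` have disjoint position intervals
  have hsep : max (S.tau e x) (S.tau e (m.pr hp e x)) < min (S.tau e y) (S.tau e (m.pr hp e y)) ∨
      max (S.tau e y) (S.tau e (m.pr hp e y)) < min (S.tau e x) (S.tau e (m.pr hp e x)) := by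
    rcases lt_or_gt_of_ne n1 with h1 | h1
    · -- `y < x`
      right
      have h2 : S.tau e y < S.tau e (m.pr hp e x) := by
        rcases lt_or_gt_of_ne n2 with h | h
        · exact h
        · exact (e2 ⟨h, h1⟩).elim
      have h3 : S.tau e (m.pr hp e y) < S.tau e x := by
        rcases lt_or_gt_of_ne n3 with h | h
        · exact h
        · exact (e5 ⟨h1, h⟩).elim
      have h4 : S.tau e (m.pr hp e y) < S.tau e (m.pr hp e x) := by
        rcases lt_or_gt_of_ne n4 with h | h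
        · exact h
        · exact (e4 ⟨h, h3⟩).elim
      exact max_lt (lt_min h1 h2) (lt_min h3 h4)
    · left
      have h2 : S.tau e (m.pr hp e x) < S.tau e y := by
        rcases lt_or_gt_of_ne n2 with h | h
        · exact (e1 ⟨h1, h⟩).elim
        · exact h
      have h3 : S.tau e x < S.tau e (m.pr hp e y) := by
        rcases lt_or_gt_of_ne n3 with h | h
        · exact (e6 ⟨h, h1⟩).elim
        · exact h
      have h4 : S.tau e (m.pr hp e x) < S.tau e (m.pr hp e y) := by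
        rcases lt_or_gt_of_ne n4 with h | h
        · exact (e3 ⟨h3, h⟩).elim
        · exact h
      exact max_lt (lt_min h1 h3) (lt_min h2 h4)
  have m1 := le_max_left (S.tau e x) (S.tau e (m.pr hp e x))
  have m2 := le_max_right (S.tau e x) (S.tau e (m.pr hp e x))
  have m3 := min_le_left (S.tau e x) (S.tau e (m.pr hp e x))
  have m4 := min_le_right (S.tau e x) (S.tau e (m.pr hp e x))
  have k1 := le_max_left (S.tau e y) (S.tau e (m.pr hp e y))
  have k2 := le_max_right (S.tau e y) (S.tau e (m.pr hp e y))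
  have k3 := min_le_left (S.tau e y) (S.tau e (m.pr hp e y))
  have k4 := min_le_right (S.tau e y) (S.tau e (m.pr hp e y))
  rcases hsep with h | h
  · set c := max (S.tau e x) (S.tau e (m.pr hp e x)) with hcdef
    set d := min (S.tau e y) (S.tau e (m.pr hp e y)) with hddef
    exact (S.sep (m := (c + d) / 2) hxF hxF' hyF hyF' (by linarith) (by linarith) (by linarith)
      (by linarith) (by linarith)).1
  · set c := max (S.tau e y) (S.tau e (m.pr hp e y)) with hcdef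
    set d := min (S.tau e x) (S.tau e (m.pr hp e x)) with hddef
    exact (S.sep (m := (c + d) / 2) hyF hyF' hxF hxF' (by linarith) (by linarith) (by linarith)
      (by linarith) (by linarith)).2

/-- two product chords -/
theorem nc_PP {e : Ed} {w w' : W} (hw : w ∈ S.OnE e) (hw' : w' ∈ S.OnE e) (hne : w' ≠ w)
    {x x' y y' : S.Pnt} (hx : x = S.top w ∨ x = S.bot w) (hx' : x' = S.top w ∨ x' = S.bot w)
    (hy : y = S.top w' ∨ y = S.bot w') (hy' : y' = S.top w' ∨ y' = S.bot w') :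
    ¬ S.mesh.Lace (Sum.inr (Sum.inr e)) x x' y y' := by
  have hF : ∀ {z : S.Pnt} {u : W}, u ∈ S.OnE e → z = S.top u ∨ z = S.bot u →
      z ∈ S.On (Sum.inr (Sum.inr e)) ∧ S.tau e z = S.t u := by
    rintro z u hu (rfl | rfl)
    · exact ⟨S.top_mem_vert.2 hu, rfl⟩
    · exact ⟨S.bot_mem_vert.2 hu, rfl⟩
  obtain ⟨a1, a2⟩ := hF hw hx
  obtain ⟨a3, a4⟩ := hF hw hx'
  obtain ⟨a5, a6⟩ := hF hw' hy
  obtain ⟨a7, a8⟩ := hF hw' hy'
  have t1 := S.t_pos hw
  have t2 := S.t_lt hw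
  have t3 := S.t_pos hw'
  have t4 := S.t_lt hw'
  rcases lt_or_gt_of_ne (fun h => hne (S.t_inj e hw' hw h) : S.t w' ≠ S.t w) with h | h
  · exact (S.sep (m := (S.t w + S.t w') / 2) a5 a7 a1 a3 (by linarith) (by linarith) (by linarith)
      (by linarith) (by linarith)).2
  · exact (S.sep (m := (S.t w + S.t w') / 2) a1 a3 a5 a7 (by linarith) (by linarith) (by linarith)
      (by linarith) (by linarith)).1

theorem swp_cases {w : W} {x : S.Pnt} (hx : x = S.top w ∨ x = S.bot w) :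
    (swp x : S.Pnt) = S.top w ∨ (swp x : S.Pnt) = S.bot w := by
  rcases hx with rfl | rfl
  · exact Or.inr rfl
  · exact Or.inl rfl

theorem nc' (hp : m.Par) {F : S.Face} {x y : S.Pnt} (hx : x ∈ m.P') (hxF : x ∈ S.On F)
    (hy : y ∈ m.P') (hyF : y ∈ S.On F) (hc : col (m.lab' x) = col (m.lab' y)) (hne : y ≠ x)
    (hne' : y ≠ m.mu' hp F x) :
    ¬ S.mesh.Lace F x (m.mu' hp F x) y (m.mu' hp F y) := by
  rcases F with F | G | e
  · rcases x with w | x
    · rcases y with w' | y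
      · exact s.nc (m.top_mem_P'.1 hx) (S.top_mem_On.1 hxF) (m.top_mem_P'.1 hy)
          (S.top_mem_On.1 hyF) hc (fun h => hne (congrArg S.top h))
          (fun h => hne' (congrArg S.top h))
      · obtain ⟨w, _, h⟩ := hyF
        cases h
    · obtain ⟨w, _, h⟩ := hxF
      cases h
  · rcases x with w | w | v
    · exact (S.top_not_mem_On hxF).elim
    · rcases y with w' | w' | v
      · exact (S.top_not_mem_On hyF).elim
      · exact m.nc G.2 (m.bot_mem_P'.1 hx) (S.bot_mem_On.1 hxF) (m.bot_mem_P'.1 hy)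
          (S.bot_mem_On.1 hyF) hc (fun h => hne (congrArg S.bot h))
          (fun h => hne' (congrArg S.bot h))
      · exact (S.vert_not_mem_On' hyF).elim
    · exact (S.vert_not_mem_On' hxF).elim
  · by_cases hxq : x ∈ m.qe
    · rw [m.mu'_vert_qe hp hxq] at hne' ⊢
      by_cases hyq : y ∈ m.qe
      · rw [m.mu'_vert_qe hp hyq]
        exact m.nc_QQ hp (m.mem_qon.2 ⟨hxq, hxF⟩) (m.mem_qon.2 ⟨hyq, hyF⟩) hne hne'
      · rw [m.mu'_vert_nqe hp hyq]
        obtain ⟨w, hw, hP, hB, hyw⟩ := m.product hy hyF hyq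
        have hl : m.lab' y = s.lab w := by
          rcases hyw with rfl | rfl
          · rfl
          · exact m.same_lab hP hB
        rw [m.lab_qe hxq, hl] at hc
        exact (m.nc_PQ hp hw hP hB hc.symm hyw (swp_cases hyw) (m.mem_qon.2 ⟨hxq, hxF⟩)).2
    · rw [m.mu'_vert_nqe hp hxq] at hne' ⊢
      obtain ⟨w, hw, hP, hB, hxw⟩ := m.product hx hxF hxq
      have hl : m.lab' x = s.lab w := by
        rcases hxw with rfl | rfl
        · rfl
        · exact m.same_lab hP hB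
      by_cases hyq : y ∈ m.qe
      · rw [m.mu'_vert_qe hp hyq]
        rw [m.lab_qe hyq, hl] at hc
        exact (m.nc_PQ hp hw hP hB hc hxw (swp_cases hxw) (m.mem_qon.2 ⟨hyq, hyF⟩)).1
      · rw [m.mu'_vert_nqe hp hyq]
        obtain ⟨w', hw', hP', hB', hyw⟩ := m.product hy hyF hyq
        refine nc_PP hw hw' ?_ hxw (swp_cases hxw) hyw (swp_cases hyw)
        rintro rfl
        rcases hxw with rfl | rfl <;> rcases hyw with rfl | rfl
        · exact hne rfl
        · exact hne' rfl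
        · exact hne' rfl
        · exact hne rfl

/-- **the state of the layer** -/
noncomputable def st (hp : m.Par) : St S.mesh col where
  P := m.P'
  lab := m.lab'
  mu := m.mu' hp
  mu_mem := fun hx hF => m.mu'_mem hp hx hF
  mu_ne := fun hx hF => m.mu'_ne hp hx hF
  mu_mu := fun hx hF => m.mu'_mu' hp hx hF
  mu_lab := fun hx hF => m.mu'_lab hp hx hF
  nc := fun hx hxF hy hyF hc hne hne' => m.nc' hp hx hxF hy hyF hc hne hne'

end Move

end Crest.Agent.R096.Door_501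
end

-- ▼ part R096/Door3_501

/-!
# Row 96, DOORS (helper501), part 3: `H¹ = 0` and connectedness of the state of one layer.
-/

set_option autoImplicit false

namespace Crest.Agent.R096.Door_501

open Crest.Agent.R096.St_147

theorem z1 : ∀ a b c d : ZMod 2, a + b = (c + d) + (a + c) + (b + d) := by decide

theorem z2 : ∀ a b c d : ZMod 2, (a + b) + c + d = (a + c) + (b + d) := by decide

theorem z3 : ∀ a b c d e : ZMod 2, a + e = b → a + c = b + d → c + e = d := by decide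

theorem z4 : ∀ a b : ZMod 2, a + (a + b) = b := by decide

theorem z5 : ∀ a b c : ZMod 2, a + b = (a + c) + (b + c) := by decide

theorem z6 : ∀ a b c d e : ZMod 2, a = b + c + d → a = e → b = e + c + d := by decide

open Classical

variable {ι Φ W : Type} {M : MeshC ι Φ W} {k : ι} {Vx Ed : Type} {I : Type} {col : I → Bool}

namespace Move

variable {S : Shell M k Vx Ed} {s : St M col} (m : Move S s)

/-- on a face of `k` the partner of an old point outside `B` is outside `B` -/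
theorem mu_not_B {F : Φ} {w : W} (hF : k ∈ M.side F) (hw : w ∈ M.On F) (hP : w ∈ s.P)
    (hB : w ∉ m.B) : s.mu F w ∉ m.B := by
  intro h
  have h1 := s.mu_mem hP hw
  have h2 := m.same_mu hF h1.2 h1.1 h
  rw [s.mu_mu hP hw] at h2
  have h3 := m.mem hF h h1.2
  rw [h2] at h3
  exact hB h3.1

theorem mu_B {F : Φ} {w : W} (hF : k ∈ M.side F) (hw : w ∈ M.On F) (hP : w ∈ s.P)
    (hB : w ∈ m.B) : s.mu F w ∈ m.B := by
  rw [← m.same_mu hF hw hP hB]
  exact (m.mem hF hB hw).1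

theorem mu0_not_P {F : Φ} {w : W} (hF : k ∈ M.side F) (hw : w ∈ M.On F) (hP : w ∉ s.P)
    (hB : w ∈ m.B) : m.mu0 F w ∉ s.P := by
  intro h
  have h1 := m.mem hF hB hw
  have h2 := m.same_mu hF h1.2 h h1.1
  rw [m.inv hF hB hw] at h2
  have h3 := s.mu_mem h h1.2
  rw [← h2] at h3
  exact hP h3.1

/-- the points of `qe` are closed under partners in the layer -/
theorem mu'_qe (hp : m.Par) {F : S.Face} {x : S.Pnt} (hF : S.Lay F) (hx : x ∈ m.qe)
    (hxF : x ∈ S.On F) : m.mu' hp F x ∈ m.qe := by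
  rcases F with F | G | e
  · rcases x with w | x
    · have hk := S.of_lay_top hF
      obtain ⟨h1, h2, h3⟩ := m.top_mem_qe.1 hx
      have hw := S.top_mem_On.1 hxF
      have h4 := s.mu_mem h1 hw
      obtain ⟨e, _, _, he⟩ := (S.onE hk).1 h4.2
      exact m.top_mem_qe.2 ⟨h4.1, m.mu_not_B hk hw h1 h2, e, he⟩
    · obtain ⟨w, _, h⟩ := hxF
      cases h
  · rcases x with w | w | v
    · exact (S.top_not_mem_On hxF).elim
    · obtain ⟨h1, h2⟩ := m.bot_mem_qe.1 hx
      have hw := S.bot_mem_On.1 hxF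
      exact m.bot_mem_qe.2 ⟨(m.mem G.2 h1 hw).1, m.mu0_not_P G.2 hw h2 h1⟩
    · exact (S.vert_not_mem_On' hxF).elim
  · rw [m.mu'_vert_qe hp hx]
    exact (m.mem_qon.1 (m.pr_spec hp e x (m.mem_qon.2 ⟨hx, hxF⟩)).1).1

/-- (QP): the horizontal piece has no period, when its lower boundary is filled -/
def QP (hp : m.Par) : Prop := ∀ κ : S.Face → S.Pnt → ZMod 2,
  (∀ G : S.Fk, ∃ ψ : S.Pnt → ZMod 2, ∀ F x, (Sum.inr G : S.Cell) ∈ S.side F → x ∈ m.qe →
    x ∈ S.On F → κ F x = ψ x + ψ (m.mu' hp F x)) →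
  (∃ ψ : S.Pnt → ZMod 2, ∀ F x, (Sum.inl k : S.Cell) ∈ S.side F → x ∈ m.qe →
    x ∈ S.On F → κ F x = ψ x + ψ (m.mu' hp F x)) →
  ∃ Ψ : S.Pnt → ZMod 2, ∀ F x, S.Lay F → x ∈ m.qe → x ∈ S.On F →
    κ F x = Ψ x + Ψ (m.mu' hp F x)

/-- (TC): the upper boundary of the horizontal piece is connected -/
def TC : Prop := ∀ X : Set W, (∀ F w, k ∈ M.side F → w ∈ M.On F → w ∈ s.P → w ∉ m.B → w ∈ X →
  s.mu F w ∈ X) → ∀ w ∈ X, w ∈ s.P → w ∉ m.B → (∃ e, w ∈ S.OnE e) →
  ∀ w', w' ∈ s.P → w' ∉ m.B → (∃ e, w' ∈ S.OnE e) → w' ∈ X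

/-- (QC): every point of the horizontal piece is connected to its upper boundary -/
def QC (hp : m.Par) : Prop := ∀ X : Set S.Pnt, (∀ F x, S.Lay F → x ∈ m.qe → x ∈ S.On F → x ∈ X →
  m.mu' hp F x ∈ X) → (∀ w, S.top w ∈ m.qe → S.top w ∈ X) → ∀ x ∈ m.qe, x ∈ X

theorem conn (hp : m.Par) (hQC : m.QC hp) (i : I) (h : s.Conn i) : (m.st hp).Conn i := by
  obtain ⟨⟨w0, hw0, hl0⟩, hconn⟩ := h
  refine ⟨⟨S.top w0, m.top_mem_P'.2 hw0, hl0⟩, ?_⟩
  intro X hX x hx hxP hxl x' hxP' hxl'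
  -- closed under partners
  have hX1 : ∀ F x, x ∈ X → x ∈ m.P' → x ∈ S.On F → m.lab' x = i → m.mu' hp F x ∈ X :=
    fun F x h1 h2 h3 h4 => hX F x h1 ⟨h2, h3⟩ h4
  have hX2 : ∀ F x, m.mu' hp F x ∈ X → x ∈ m.P' → x ∈ S.On F → m.lab' x = i → x ∈ X := by
    intro F x h1 h2 h3 h4
    have h5 := m.mu'_mem hp h2 h3
    have h6 := hX1 F _ h1 h5.1 h5.2 ((m.mu'_lab hp h2 h3).trans h4)
    rwa [m.mu'_mu' hp h2 h3] at h6
  -- old points
  have hold : ∀ w, S.top w ∈ X → w ∈ s.P → s.lab w = i → ∀ w', w' ∈ s.P → s.lab w' = i →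
      S.top w' ∈ X := by
    intro w h1 h2 h3 w' h4 h5
    exact hconn {w | S.top w ∈ X} (fun F w h6 h7 h8 => hX1 (Sum.inl F) (S.top w) h6
      (m.top_mem_P'.2 h7.1) (S.top_mem_On.2 h7.2) h8) w h1 h2 h3 w' h4 h5
  -- product points
  have hprod : ∀ e w, w ∈ S.OnE e → w ∈ s.P → w ∈ m.B → s.lab w = i →
      (S.top w ∈ X ↔ S.bot w ∈ X) := by
    intro e w h1 h2 h3 h4
    have h5 : m.mu' hp (Sum.inr (Sum.inr e)) (S.top w) = S.bot w :=
      m.mu'_vert_nqe hp (m.top_not_qe h3)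
    constructor
    · intro h
      have := hX1 (Sum.inr (Sum.inr e)) (S.top w) h (m.top_mem_P'.2 h2) (S.top_mem_vert.2 h1) h4
      rwa [h5] at this
    · intro h
      exact hX2 (Sum.inr (Sum.inr e)) (S.top w) (by rw [h5]; exact h) (m.top_mem_P'.2 h2)
        (S.top_mem_vert.2 h1) h4
  -- every point of the sheet is connected to an old one
  have hred : ∀ x, x ∈ m.P' → m.lab' x = i → (x ∈ m.qe → m.i0 = i) →
      (∀ w ∈ s.P, s.lab w = i → S.top w ∈ X) → x ∈ X := by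
    intro x h1 h2 h3 h4
    by_cases hq : x ∈ m.qe
    · have hi := h3 hq
      refine hQC X (fun F x _ h5 h6 h7 => hX1 F x h7 (m.qe_sub_P' h5) h6
        ((m.lab_qe h5).trans hi)) (fun w hw => ?_) x hq
      exact h4 w (m.top_mem_qe.1 hw).1 ((m.lab_qe hw).trans hi)
    · rcases x with w | w | v
      · exact h4 w (m.top_mem_P'.1 h1) h2
      · have hB := m.bot_mem_P'.1 h1
        have hP : w ∈ s.P := by
          by_contra hP
          exact hq (m.bot_mem_qe.2 ⟨hB, hP⟩)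
        obtain ⟨e, he⟩ := m.B_on hB
        have hl : s.lab w = i := (m.same_lab hP hB).symm.trans h2
        exact (hprod e w he hP hB hl).1 (h4 w hP hl)
      · exact (hq (m.vert_mem_qe.2 (m.vert_mem_P'.1 h1))).elim
  have hi0 : ∀ x, x ∈ m.qe → m.lab' x = i → m.i0 = i := fun x h1 h2 => (m.lab_qe h1).symm.trans h2
  -- a point of `X` gives an old point of `X`
  have htop : ∃ w ∈ s.P, s.lab w = i ∧ S.top w ∈ X := by
    by_contra hno
    push Not at hno
    by_cases hq : x ∈ m.qe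
    · have hi := hi0 x hq hxl
      have : x ∈ Xᶜ := by
        refine hQC Xᶜ (fun F y hF h5 h6 h7 h8 => ?_) (fun w hw h8 => ?_) x hq
        · exact h7 (hX2 F y h8 (m.qe_sub_P' h5) h6 ((m.lab_qe h5).trans hi))
        · exact hno w (m.top_mem_qe.1 hw).1 ((m.lab_qe hw).trans hi) h8
      exact this hx
    · rcases x with w | w | v
      · exact hno w (m.top_mem_P'.1 hxP) hxl hx
      · have hB := m.bot_mem_P'.1 hxP
        have hP : w ∈ s.P := by
          by_contra hP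
          exact hq (m.bot_mem_qe.2 ⟨hB, hP⟩)
        obtain ⟨e, he⟩ := m.B_on hB
        have hl : s.lab w = i := (m.same_lab hP hB).symm.trans hxl
        exact hno w hP hl ((hprod e w he hP hB hl).2 hx)
      · exact (hq (m.vert_mem_qe.2 (m.vert_mem_P'.1 hxP))).elim
  obtain ⟨w1, hw1, hl1, hX3⟩ := htop
  exact hred x' hxP' hxl' (fun h => hi0 x' h hxl') (hold w1 hX3 hw1 hl1)

theorem h1 (hp : m.Par) (hQP : m.QP hp) (hTC : m.TC) (i : I) (h : s.H1 i) :
    (m.st hp).H1 i := by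
  intro κ hκ
  choose ψ hψ' using hκ
  have hψ : ∀ (q : S.Cell) (F : S.Face) (x : S.Pnt), q ∈ S.side F → x ∈ m.P' → x ∈ S.On F →
      m.lab' x = i → κ F x = ψ q x + ψ q (m.mu' hp F x) :=
    fun q F x h1 h2 h3 h4 => hψ' q F x h1 ⟨h2, h3⟩ h4
  -- the potential on the horizontal piece
  obtain ⟨ΨQ, hΨQ⟩ : ∃ ΨQ : S.Pnt → ZMod 2, m.i0 = i → ∀ F x, S.Lay F → x ∈ m.qe → x ∈ S.On F →
      κ F x = ΨQ x + ΨQ (m.mu' hp F x) := by
    by_cases hi : m.i0 = i
    · obtain ⟨Ψ, hΨ⟩ := hQP κ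
        (fun G => ⟨ψ (Sum.inr G), fun F x h1 h2 h3 =>
          hψ _ F x h1 (m.qe_sub_P' h2) h3 ((m.lab_qe h2).trans hi)⟩)
        ⟨ψ (Sum.inl k), fun F x h1 h2 h3 =>
          hψ _ F x h1 (m.qe_sub_P' h2) h3 ((m.lab_qe h2).trans hi)⟩
      exact ⟨Ψ, fun _ => hΨ⟩
    · exact ⟨0, fun h => (hi h).elim⟩
  -- the value of `κ` on the vertical chord at `w`
  obtain ⟨kv, hkv⟩ : ∃ kv : W → ZMod 2, ∀ e w, w ∈ S.OnE e →
      κ (Sum.inr (Sum.inr e)) (S.top w) = kv w := by
    refine ⟨fun w => if h : ∃ e, w ∈ S.OnE e then κ (Sum.inr (Sum.inr h.choose)) (S.top w) else 0,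
      ?_⟩
    intro e w hw
    have h : ∃ e, w ∈ S.OnE e := ⟨e, hw⟩
    show _ = if h : ∃ e, w ∈ S.OnE e then κ (Sum.inr (Sum.inr h.choose)) (S.top w) else 0
    rw [dif_pos h]
    congr 3
    exact S.onE_disj hw h.choose_spec
  -- product chords
  have hvG : ∀ (e : Ed) (w : W) (G : S.Fk), w ∈ S.OnE e → w ∈ s.P → w ∈ m.B → s.lab w = i →
      w ∈ M.On G.1 → kv w = ψ (Sum.inr G) (S.top w) + ψ (Sum.inr G) (S.bot w) := by
    intro e w G h1 h2 h3 h4 h5
    obtain ⟨b, hb⟩ := S.fc_of_on h1 G.2 h5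
    have h6 := hψ (Sum.inr G) (Sum.inr (Sum.inr e)) (S.top w)
      (S.mem_side_vert.2 ⟨b, by congr 1; exact Subtype.ext hb.symm⟩) (m.top_mem_P'.2 h2)
      (S.top_mem_vert.2 h1) h4
    rw [hkv e w h1, m.mu'_vert_nqe hp (m.top_not_qe h3)] at h6
    exact h6
  have hvb : ∀ (e : Ed) (w : W), w ∈ S.OnE e → w ∈ s.P → w ∈ m.B → s.lab w = i →
      κ (Sum.inr (Sum.inr e)) (S.bot w) = kv w := by
    intro e w h1 h2 h3 h4
    have h5 := hvG e w ⟨S.fc e false, S.fc_side e false⟩ h1 h2 h3 h4 (S.on_of_onE h1 false)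
    have h6 := hψ (Sum.inr ⟨S.fc e false, S.fc_side e false⟩) (Sum.inr (Sum.inr e)) (S.bot w)
      (S.mem_side_vert.2 ⟨false, rfl⟩) (m.bot_mem_P'.2 h3) (S.bot_mem_vert.2 h1)
      ((m.same_lab h2 h3).trans h4)
    rw [m.mu'_vert_nqe hp (m.bot_not_qe h2)] at h6
    rw [h5, h6, add_comm]
    rfl
  -- bottom chords of products
  have hbot : ∀ (G : S.Fk) (w : W), w ∈ M.On G.1 → w ∈ s.P → w ∈ m.B → s.lab w = i →
      κ (Sum.inl G.1) (S.top w) = κ (Sum.inr (Sum.inl G)) (S.bot w) + kv w + kv (s.mu G.1 w) := by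
    intro G w h1 h2 h3 h4
    obtain ⟨e, _, _, he⟩ := (S.onE G.2).1 h1
    have h5 := s.mu_mem h2 h1
    have h6 := m.mu_B G.2 h1 h2 h3
    obtain ⟨e', _, _, he'⟩ := (S.onE G.2).1 h5.2
    have g1 := hψ (Sum.inr G) (Sum.inr (Sum.inl G)) (S.bot w) (S.mem_side_bot.2 (Or.inl rfl))
      (m.bot_mem_P'.2 h3) (S.bot_mem_On.2 h1) ((m.same_lab h2 h3).trans h4)
    have g1' : m.mu' hp (Sum.inr (Sum.inl G)) (S.bot w) = S.bot (s.mu G.1 w) := by
      rw [← m.same_mu G.2 h1 h2 h3]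
      rfl
    rw [g1'] at g1
    have g2 := hψ (Sum.inr G) (Sum.inl G.1) (S.top w) (S.inr_mem_side.2 rfl)
      (m.top_mem_P'.2 h2) (S.top_mem_On.2 h1) h4
    have g2' : m.mu' hp (Sum.inl G.1) (S.top w) = S.top (s.mu G.1 w) := rfl
    rw [g2'] at g2
    have g3 := hvG e w G he h2 h3 h4 h1
    have g4 := hvG e' (s.mu G.1 w) G he' h5.1 h6 ((s.mu_lab h2 h1).trans h4) h5.2
    rw [g1, g2, g3, g4]
    exact z1 _ _ _ _
  -- the potential on the old part
  obtain ⟨Ψ0, hΨ0⟩ := h (fun F w => κ (Sum.inl F) (S.top w)) (by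
    intro q
    by_cases hq : q = k
    · subst hq
      refine ⟨fun w => if w ∈ m.B then ψ (Sum.inl q) (S.bot w) + kv w else ΨQ (S.top w), ?_⟩
      intro F w hF hw hl
      obtain ⟨e, _, _, he⟩ := (S.onE hF).1 hw.2
      show κ (Sum.inl F) (S.top w) =
        (if w ∈ m.B then ψ (Sum.inl q) (S.bot w) + kv w else ΨQ (S.top w)) +
        (if s.mu F w ∈ m.B then ψ (Sum.inl q) (S.bot (s.mu F w)) + kv (s.mu F w)
          else ΨQ (S.top (s.mu F w)))
      by_cases hB : w ∈ m.B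
      · rw [if_pos hB, if_pos (m.mu_B hF hw.2 hw.1 hB), hbot ⟨F, hF⟩ w hw.2 hw.1 hB hl]
        have g1 := hψ (Sum.inl q) (Sum.inr (Sum.inl ⟨F, hF⟩)) (S.bot w)
          (S.mem_side_bot.2 (Or.inr rfl)) (m.bot_mem_P'.2 hB) (S.bot_mem_On.2 hw.2)
          ((m.same_lab hw.1 hB).trans hl)
        have g1' : m.mu' hp (Sum.inr (Sum.inl ⟨F, hF⟩)) (S.bot w) = S.bot (s.mu F w) := by
          rw [← m.same_mu hF hw.2 hw.1 hB]
          rfl
        rw [g1'] at g1
        rw [g1]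
        exact z2 _ _ _ _
      · rw [if_neg hB, if_neg (m.mu_not_B hF hw.2 hw.1 hB)]
        exact hΨQ ((m.dif_top he hw.1 hB).symm.trans hl) (Sum.inl F) (S.top w) (S.lay_top hF)
          (m.top_mem_qe.2 ⟨hw.1, hB, e, he⟩) (S.top_mem_On.2 hw.2)
    · refine ⟨fun w => ψ (Sum.inl q) (S.top w), ?_⟩
      intro F w hF hw hl
      exact hψ (Sum.inl q) (Sum.inl F) (S.top w) (S.inl_mem_side.2 ⟨hF, hq⟩)
        (m.top_mem_P'.2 hw.1) (S.top_mem_On.2 hw.2) hl)
  have hΨ0' : ∀ F w, w ∈ s.P → w ∈ M.On F → s.lab w = i →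
      κ (Sum.inl F) (S.top w) = Ψ0 w + Ψ0 (s.mu F w) := fun F w h1 h2 h3 => hΨ0 F w ⟨h1, h2⟩ h3
  -- the constant
  obtain ⟨c, hc⟩ : ∃ c : ZMod 2, m.i0 = i → ∀ w, S.top w ∈ m.qe → ΨQ (S.top w) + c = Ψ0 w := by
    by_cases hex : m.i0 = i ∧ ∃ w, S.top w ∈ m.qe
    · obtain ⟨hi, w0, hw0⟩ := hex
      refine ⟨ΨQ (S.top w0) + Ψ0 w0, fun _ w hw => ?_⟩
      obtain ⟨a1, a2, a3⟩ := m.top_mem_qe.1 hw0
      obtain ⟨b1, b2, b3⟩ := m.top_mem_qe.1 hw
      refine hTC {w | ΨQ (S.top w) + (ΨQ (S.top w0) + Ψ0 w0) = Ψ0 w} ?_ w0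
        (z4 _ _) a1 a2 a3 w b1 b2 b3
      intro F w' h1 h2 h3 h4 h5
      have h5' : ΨQ (S.top w') + (ΨQ (S.top w0) + Ψ0 w0) = Ψ0 w' := h5
      show ΨQ (S.top (s.mu F w')) + (ΨQ (S.top w0) + Ψ0 w0) = Ψ0 (s.mu F w')
      obtain ⟨e, _, _, he⟩ := (S.onE h1).1 h2
      have hq : S.top w' ∈ m.qe := m.top_mem_qe.2 ⟨h3, h4, e, he⟩
      have h6 := hΨQ hi (Sum.inl F) (S.top w') (S.lay_top h1) hq (S.top_mem_On.2 h2)
      have h7 := hΨ0' F w' h3 h2 ((m.dif_top he h3 h4).trans hi)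
      have h8 : m.mu' hp (Sum.inl F) (S.top w') = S.top (s.mu F w') := rfl
      rw [h8] at h6
      rw [h6] at h7
      exact z3 _ _ _ _ _ h5' h7
    · refine ⟨0, fun hi w hw => (hex ⟨hi, w, hw⟩).elim⟩
  -- the final potential
  let Ψ : S.Pnt → ZMod 2 := fun x => match x with
    | Sum.inl w => Ψ0 w
    | Sum.inr (Sum.inl w) => if w ∈ s.P then Ψ0 w + kv w else ΨQ (S.bot w) + c
    | Sum.inr (Sum.inr v) => ΨQ (S.vert v) + c
  have Ψtop : ∀ w, Ψ (S.top w) = Ψ0 w := fun _ => rfl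
  have Ψbot : ∀ w, Ψ (S.bot w) = if w ∈ s.P then Ψ0 w + kv w else ΨQ (S.bot w) + c :=
    fun _ => rfl
  have Ψq : ∀ x, x ∈ m.qe → m.i0 = i → Ψ x = ΨQ x + c := by
    intro x hx hi
    rcases x with w | w | v
    · exact (hc hi w hx).symm
    · have h1 := (m.bot_mem_qe.1 hx).2
      exact (Ψbot w).trans (if_neg h1)
    · rfl
  refine ⟨Ψ, ?_⟩
  intro F x hx hxl
  obtain ⟨hxP, hxF⟩ := hx
  have hxP : x ∈ m.P' := hxP
  have hxF : x ∈ S.On F := hxF
  have hxl : m.lab' x = i := hxl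
  show κ F x = Ψ x + Ψ (m.mu' hp F x)
  by_cases hq : x ∈ m.qe ∧ S.Lay F
  · obtain ⟨hq, hF⟩ := hq
    have hi : m.i0 = i := (m.lab_qe hq).symm.trans hxl
    rw [Ψq x hq hi, Ψq _ (m.mu'_qe hp hF hq hxF) hi, hΨQ hi F x hF hq hxF]
    exact z5 _ _ _
  · rcases F with F | G | e
    · rcases x with w | x
      · have hw := S.top_mem_On.1 hxF
        have hP := m.top_mem_P'.1 hxP
        exact hΨ0' F w hP hw hxl
      · obtain ⟨w, _, h⟩ := hxF
        cases h
    · have hq : x ∉ m.qe := fun h => hq ⟨h, S.lay_bot G⟩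
      rcases x with w | w | v
      · exact (S.top_not_mem_On hxF).elim
      · have hw := S.bot_mem_On.1 hxF
        have hB := m.bot_mem_P'.1 hxP
        have hP : w ∈ s.P := by
          by_contra hP
          exact hq (m.bot_mem_qe.2 ⟨hB, hP⟩)
        have hl : s.lab w = i := (m.same_lab hP hB).symm.trans hxl
        have hmu : m.mu' hp (Sum.inr (Sum.inl G)) (S.bot w) = S.bot (s.mu G.1 w) := by
          rw [← m.same_mu G.2 hw hP hB]
          rfl
        show κ (Sum.inr (Sum.inl G)) (S.bot w) = Ψ (S.bot w) +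
          Ψ (m.mu' hp (Sum.inr (Sum.inl G)) (S.bot w))
        rw [hmu, Ψbot, Ψbot, if_pos hP, if_pos (s.mu_mem hP hw).1]
        have h1 := hbot G w hw hP hB hl
        have h2 := hΨ0' G.1 w hP hw hl
        rw [z6 _ _ _ _ _ h1 h2]
        exact z2 _ _ _ _
      · exact (S.vert_not_mem_On' hxF).elim
    · have hq : x ∉ m.qe := fun h => hq ⟨h, S.lay_vert e⟩
      rw [m.mu'_vert_nqe hp hq]
      obtain ⟨w, hw, hP, hB, rfl | rfl⟩ := m.product hxP hxF hq
      · show κ (Sum.inr (Sum.inr e)) (S.top w) = Ψ (S.top w) + Ψ (S.bot w)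
        rw [hkv e w hw, Ψtop, Ψbot, if_pos hP]
        exact (z4 _ _).symm
      · have hl : s.lab w = i := (m.same_lab hP hB).symm.trans hxl
        show κ (Sum.inr (Sum.inr e)) (S.bot w) = Ψ (S.bot w) + Ψ (S.top w)
        rw [hvb e w hw hP hB hl, Ψtop, Ψbot, if_pos hP, add_comm]
        exact (z4 _ _).symm

end Move

end Crest.Agent.R096.Door_501
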