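import Crest.Agent.R096.Exa2_365

/-!
Row 96 (S0127), helper365.  **EXIN-AVG**, part 3: the version for `ExIn` with translates in a cube of
side `ρ` in the coordinates `A`; choice of a small lattice cube of translates with few bad points.
-/

set_option autoImplicit false
set_option linter.style.longLine false
set_option linter.unusedSectionVars false

open MeasureTheory Set Filter Topology Metric
open scoped ENNReal NNReal

namespace Crest.Agent.R096.Exa_365

open Crest.AnalysisR.VecCalc3 Crest.AnalysisR.Sobolev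
open Crest.Agent.R096.SkC1_961 (E3 Hom3)
open Crest.Agent.R096.Er_594 (SH3)
open Crest.Agent.R096.Bsp_628 Crest.Agent.R096.Brk5_582
open Crest.Agent.R096.Bxs_627 (ctr)
open Crest.Agent.R096.EaX_766 (lin cbx ExIn)
open Crest.Agent.R96.Sg1_199

noncomputable section

variable {p : ℝ} {Om La : Set E3} {f : E3 → E3} {D : E3 → E3 →L[ℝ] E3} {A : E3 ≃ᵃ[ℝ] E3}

theorem isClosed_cbx (Q : Bx (Fin 3)) (lam : ℝ) : IsClosed (cbx Q lam) := by
  unfold cbx
  simp only [Set.setOf_forall]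
  exact isClosed_iInter fun k => isClosed_le (by fun_prop) continuous_const

theorem continuous_aff (A : E3 ≃ᵃ[ℝ] E3) : Continuous A :=
  AffineMap.continuous_of_finiteDimensional A.toAffineMap

theorem det_lin_ne (A : E3 ≃ᵃ[ℝ] E3) : (lin A).det ≠ 0 := by
  have h1 : (lin A).det = LinearMap.det (A.linear : E3 →ₗ[ℝ] E3) := rfl
  rw [h1]
  exact (LinearEquiv.isUnit_det' A.linear).ne_zero

/-- the set of translates: `lin A w ∈ [0,ρ]^3` -/
def Wt (A : E3 ≃ᵃ[ℝ] E3) (ρ : ℝ) : Set E3 := lin A ⁻¹' Icc 0 (fun _ => ρ)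

theorem measurableSet_Wt (A : E3 ≃ᵃ[ℝ] E3) (ρ : ℝ) : MeasurableSet (Wt A ρ) :=
  (lin A).continuous.measurable measurableSet_Icc

theorem volume_Wt (A : E3 ≃ᵃ[ℝ] E3) {ρ : ℝ} (hρ : 0 ≤ ρ) :
    volume (Wt A ρ) = ENNReal.ofReal |(lin A).det|⁻¹ * ENNReal.ofReal (ρ ^ 3) := by
  unfold Wt
  have h1 := Measure.addHaar_preimage_continuousLinearMap (volume : Measure E3) (f := lin A)
    (det_lin_ne A) (Icc 0 (fun _ => ρ))
  rw [h1]
  congr 1
  · rw [abs_inv]
  · rw [Real.volume_Icc_pi]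
    simp only [Pi.zero_apply, sub_zero, Finset.prod_const, Finset.card_univ, Fintype.card_fin]
    rw [ENNReal.ofReal_pow hρ]

/-- **EXIN-AVG**: for most translates `w` (`lin A w ∈ [0,ρ]^3`), all segments of the family are good. -/
theorem exin_box (hO : IsOpen Om) (h : SH3 p Om La f D) {o : E3} {u κ1 κ2 : ℝ}
    {Q : Bx (Fin 3)} {lam : ℝ} (hE : ExIn p Om f D o u κ1 κ2 Q A lam)
    {J : Type*} [Fintype J] (x v : J → E3) {ρ : ℝ} (hρ : 0 < ρ)
    (hsub : ∀ j, ∀ y ∈ sgm (A (x j)) (lin A (v j)), ∀ b ∈ Icc (0 : E3) (fun _ => ρ),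
      y + b ∈ cbx Q ((1 + 2 * κ2) * lam)) {η θ : ℝ} (hη : 0 < η) (hθ : 0 ≤ θ)
    (hκ : (Fintype.card J : ℝ) * (κ1 * (lam * Q.sz) ^ 3) ≤ θ * η * ρ ^ 3) :
    volume {w | w ∈ Wt A ρ ∧ ¬ GoodW p Om f D A x v (ENNReal.ofReal η) w} ≤
      ENNReal.ofReal θ * volume (Wt A ρ) := by
  set V : Set E3 := A ⁻¹' cbx Q ((1 + 2 * κ2) * lam) with hVdef
  have hV : MeasurableSet V := ((isClosed_cbx Q _).preimage (continuous_aff A)).measurableSet
  have hVO : V ⊆ Om := fun y hy => (hE.cor y (Or.inr hy)).1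
  refine exin_avg hO h x v (measurableSet_Wt A ρ) hV hVO ?_ (by simpa using hη) ENNReal.ofReal_ne_top ?_
  · rintro w hw j y ⟨τ, hτ, rfl⟩
    have h1 : A (x j + w + τ • v j) = (A (x j) + τ • lin A (v j)) + lin A w := by
      rw [aff_add, aff_add, map_smul]
      abel
    simp only [hVdef, mem_preimage, h1]
    exact hsub j _ ⟨τ, hτ, rfl⟩ _ hw
  · have hd : 0 < |(lin A).det| := abs_pos.2 (det_lin_ne A)
    have h1 := hE.lp
    have h2 : ENNReal.ofReal |(lin A).det| * (ENNReal.ofReal |(lin A).det|⁻¹) = 1 := by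
      rw [← ENNReal.ofReal_mul hd.le, mul_inv_cancel₀ hd.ne', ENNReal.ofReal_one]
    have h3 : ∫⁻ z in V, Gd A D z ^ p ≤
        ENNReal.ofReal |(lin A).det|⁻¹ * ENNReal.ofReal (κ1 * (lam * Q.sz) ^ 3) := by
      calc ∫⁻ z in V, Gd A D z ^ p
          = (ENNReal.ofReal |(lin A).det| * ENNReal.ofReal |(lin A).det|⁻¹) * ∫⁻ z in V, Gd A D z ^ p := by
            rw [h2, one_mul]
        _ = ENNReal.ofReal |(lin A).det|⁻¹ * (ENNReal.ofReal |(lin A).det| * ∫⁻ z in V, Gd A D z ^ p) := by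
            ring
        _ ≤ _ := by gcongr; exact h1
    rw [volume_Wt A hρ.le]
    calc (Fintype.card J : ℝ≥0∞) * ∫⁻ z in V, Gd A D z ^ p
        ≤ (Fintype.card J : ℝ≥0∞) *
          (ENNReal.ofReal |(lin A).det|⁻¹ * ENNReal.ofReal (κ1 * (lam * Q.sz) ^ 3)) := by gcongr
      _ = ENNReal.ofReal |(lin A).det|⁻¹ *
          ENNReal.ofReal ((Fintype.card J : ℝ) * (κ1 * (lam * Q.sz) ^ 3)) := by
          rw [ENNReal.ofReal_mul (Nat.cast_nonneg _), ENNReal.ofReal_natCast]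
          ring
      _ ≤ ENNReal.ofReal |(lin A).det|⁻¹ * ENNReal.ofReal (θ * η * ρ ^ 3) := by gcongr
      _ = _ := by
          rw [ENNReal.ofReal_mul (mul_nonneg hθ hη.le), ENNReal.ofReal_mul hθ]
          ring

/-! ### density -/






end

end Crest.Agent.R096.Exa_365
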