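import Crest.Agent.R096.Mal13_874
import Crest.Agent.R96.Wm1_72
import Crest.Agent.R096.Exa3_365
import Crest.Agent.R096.Mfi5_290
import Crest.Agent.R096.Ea0_961
import Crest.Agent.R096.Mdd6_360
import Crest.Agent.R096.Pmc4_112

-- ▼ part R96/Wm3_748
section

/-!
# Row 96, PREMACH (S3) of 199 #10868 (III): the fine scales inside a core block

Block `Q : CB E n` of 874, frame `Q.ψ`, wall `Q.W`.  The cubes of scale `m > kc` of ALL meshes
`Q.T0 k` (any `k`, any shift of the block) lie within `15 / 2^m` of the wall (`nw_of_top`, `nw_of_tr`).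
Potential tiles: `Tw Q.ψ Q.a' m z` with `Nw Q m z`, `m ≥ k0`, all shifts `b` with `‖Q.ψ b‖ ≤ ρ`.
Multiplicity of all scales `≥ k0` together `≤ 60 n * μ (Q.ψ⁻¹ (ball of radius ρ + 2^-k0))`, hence the
average of the energy over the shifts of size `ρ ≥ 2^-k0 / t` costs a universal factor.
-/

set_option autoImplicit false
set_option linter.unusedSectionVars false
set_option linter.unusedVariables false

open MeasureTheory Set Filter Metric
open scoped Topology ENNReal Pointwise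

namespace Crest.Agent.R96.Wm3_748

open Crest.Agent.R096.Msh_810 Crest.Agent.R096.Msh_715
open Crest.Agent.R096.Mal_874 (CB pc bx of_mem_frontier_bx)
open Crest.Agent.R96.Sg8_199 (Mu EnA Mu_sigma act_avg)
open Crest.Agent.R96.Wm_72 (Tw Tw_tr Tw_aedisj isCompact_Tw measurableSet_Tw Mu_mono)

noncomputable section

variable {n : ℕ}

/-! ### slabs -/

/-- the slabs round the coordinate planes through two corners -/
def Slab (α β : Fin n → ℝ) (s : ℝ) : Set (Fin n → ℝ) :=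
  {x | ∃ l, |x l - α l| ≤ s ∨ |x l - β l| ≤ s}

theorem vol_one (y : Fin n → ℝ) {r s : ℝ} (hr : 0 ≤ r) (hs : 0 ≤ s) (l : Fin n) (t : ℝ) :
    volume (closedBall y r ∩ {x : Fin n → ℝ | |x l - t| ≤ s}) ≤
      ENNReal.ofReal ((2 * r) ^ (n - 1) * (2 * s)) := by
  classical
  have h1 : closedBall y r ∩ {x : Fin n → ℝ | |x l - t| ≤ s} ⊆
      Icc (Function.update (fun i => y i - r) l (t - s))
        (Function.update (fun i => y i + r) l (t + s)) := by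
    rintro x ⟨hx, hxl⟩
    have hx' : ∀ i, |x i - y i| ≤ r := by
      intro i
      have h2 := dist_le_pi_dist x y i
      rw [Real.dist_eq] at h2
      exact h2.trans hx
    have hxl' := abs_le.1 (show |x l - t| ≤ s from hxl)
    refine ⟨fun i => ?_, fun i => ?_⟩
    · by_cases h : i = l
      · subst h
        rw [Function.update_self]
        linarith [hxl'.1]
      · rw [Function.update_of_ne h]
        linarith [(abs_le.1 (hx' i)).1]
    · by_cases h : i = l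
      · subst h
        rw [Function.update_self]
        linarith [hxl'.2]
      · rw [Function.update_of_ne h]
        linarith [(abs_le.1 (hx' i)).2]
  refine (measure_mono h1).trans ?_
  rw [Real.volume_Icc_pi, ← Finset.mul_prod_erase Finset.univ _ (Finset.mem_univ l),
    Function.update_self, Function.update_self]
  have e1 : t + s - (t - s) = 2 * s := by ring
  have e2 : ∏ i ∈ Finset.univ.erase l, ENNReal.ofReal
      (Function.update (fun i => y i + r) l (t + s) i -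
        Function.update (fun i => y i - r) l (t - s) i) = ENNReal.ofReal ((2 * r) ^ (n - 1)) := by
    have e3 : ∀ i ∈ Finset.univ.erase l, ENNReal.ofReal
        (Function.update (fun i => y i + r) l (t + s) i -
          Function.update (fun i => y i - r) l (t - s) i) = ENNReal.ofReal (2 * r) := by
      intro i hi
      have hne : i ≠ l := Finset.ne_of_mem_erase hi
      rw [Function.update_of_ne hne, Function.update_of_ne hne]
      congr 1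
      ring
    rw [Finset.prod_congr rfl e3, Finset.prod_const, Finset.card_erase_of_mem (Finset.mem_univ l),
      Finset.card_univ, Fintype.card_fin, ENNReal.ofReal_pow (by positivity)]
  rw [e1, e2, mul_comm, ← ENNReal.ofReal_mul (by positivity)]

theorem vol_slab (y : Fin n → ℝ) {r s : ℝ} (hr : 0 ≤ r) (hs : 0 ≤ s) (α β : Fin n → ℝ) :
    volume (closedBall y r ∩ Slab α β s) ≤
      ENNReal.ofReal (2 * n * ((2 * r) ^ (n - 1) * (2 * s))) := by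
  have h1 : closedBall y r ∩ Slab α β s ⊆ ⋃ l : Fin n,
      (closedBall y r ∩ {x : Fin n → ℝ | |x l - α l| ≤ s}) ∪
        (closedBall y r ∩ {x : Fin n → ℝ | |x l - β l| ≤ s}) := by
    rintro x ⟨hx, l, hl⟩
    rw [mem_iUnion]
    refine ⟨l, ?_⟩
    rcases hl with hl | hl
    · exact Or.inl ⟨hx, hl⟩
    · exact Or.inr ⟨hx, hl⟩
  refine (measure_mono h1).trans ((measure_iUnion_le _).trans ?_)
  rw [tsum_fintype]
  have h2 : ∀ l : Fin n, volume ((closedBall y r ∩ {x : Fin n → ℝ | |x l - α l| ≤ s}) ∪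
      (closedBall y r ∩ {x : Fin n → ℝ | |x l - β l| ≤ s})) ≤
      ENNReal.ofReal (2 * ((2 * r) ^ (n - 1) * (2 * s))) := by
    intro l
    refine (measure_union_le _ _).trans ?_
    rw [two_mul ((2 * r) ^ (n - 1) * (2 * s)), ENNReal.ofReal_add (by positivity) (by positivity)]
    exact add_le_add (vol_one y hr hs l _) (vol_one y hr hs l _)
  refine (Finset.sum_le_sum fun l _ => h2 l).trans ?_
  rw [Finset.sum_const, Finset.card_univ, Fintype.card_fin, nsmul_eq_mul,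
    ← ENNReal.ofReal_natCast n, ← ENNReal.ofReal_mul (by positivity)]
  refine ENNReal.ofReal_le_ofReal (le_of_eq ?_)
  ring

/-- points close to a set in the planes are in the slabs -/
theorem sub_slab {W : Set (Fin n → ℝ)} (hWc : IsClosed W) (hWn : W.Nonempty) {α β : Fin n → ℝ}
    (hWp : ∀ w ∈ W, ∃ l, w l = α l ∨ w l = β l) {x : Fin n → ℝ} {s : ℝ} (h : infDist x W ≤ s) :
    x ∈ Slab α β s := by
  obtain ⟨w, hw, hd⟩ := hWc.exists_infDist_eq_dist hWn x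
  obtain ⟨l, hl⟩ := hWp w hw
  refine ⟨l, ?_⟩
  have h1 := dist_le_pi_dist x w l
  rw [Real.dist_eq, ← hd] at h1
  rcases hl with hl | hl
  · left
    rw [← hl]
    exact h1.trans h
  · right
    rw [← hl]
    exact h1.trans h

/-! ### cubes of a block near the wall -/

variable {E : Type*} [NormedAddCommGroup E] [NormedSpace ℝ E]

/-- the cube `m, z` of the block is within `15 / 2^m` of the wall -/
def Nw (Q : CB E n) (m : ℕ) (z : Fin n → ℤ) : Prop :=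
  ∀ x ∈ Cu Q.a' m z, infDist x Q.W ≤ 15 / 2 ^ m

/-- the wall lies in coordinate planes -/
theorem W_planes (Q : CB E n) : ∃ α β : Fin n → ℝ, ∀ w ∈ Q.W, ∃ l, w l = α l ∨ w l = β l := by
  have hp : (2 : ℝ) ^ Q.kc ≠ 0 := by positivity
  refine ⟨fun l => Q.a' l + Q.al l / 2 ^ Q.kc, fun l => Q.a' l + Q.be l / 2 ^ Q.kc, ?_⟩
  intro w hw
  obtain ⟨l, hl⟩ := of_mem_frontier_bx Q.al_lt hw
  refine ⟨l, ?_⟩
  unfold ps at hl
  rcases hl with hl | hl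
  · left
    show w l = Q.a' l + Q.al l / 2 ^ Q.kc
    rw [← hl]
    field_simp
    ring
  · right
    show w l = Q.a' l + Q.be l / 2 ^ Q.kc
    rw [← hl]
    field_simp
    ring

/-- **all cubes of scale `> kc` of the block meshes are near the wall** -/
theorem nw_of_top (Q : CB E n) {k : ℕ} (hk : Q.kc ≤ k) (τ : Top (Q.D k hk))
    (h : Q.kc < τ.1.1.k) : Nw Q τ.1.1.k τ.1.1.z := by
  obtain ⟨⟨i, x0, hx, hx0, hK⟩, hJ⟩ := τ
  change Q.kc < i.k at h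
  show ∀ x ∈ Cu Q.a' i.k i.z, infDist x Q.W ≤ 15 / 2 ^ i.k
  obtain ⟨m, hm⟩ : ∃ m, i.k = m + 1 := ⟨i.k - 1, by omega⟩
  have hnot : m ∉ gd (Q.D k hk) x0 := pred_notMem hx0 (by rw [hK, hm]; omega)
  have h1 : ∃ z, x0 ∈ Cu (Q.D k hk).a m z ∧ ¬ Adm (Q.D k hk) m z := by
    by_contra hcon
    push Not at hcon
    exact hnot fun z hz => hcon z hz
  obtain ⟨z, hz, hA⟩ := h1
  unfold Adm at hA
  push Not at hA
  obtain ⟨y, hy, hlt⟩ := hA
  have hρ : (Q.D k hk).ρ y = max (6 / 2 ^ k) (min (6 / 2 ^ Q.kc) (infDist y Q.W)) := rfl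
  have hC : (Q.D k hk).C = 6 := rfl
  rw [hρ, hC] at hlt
  have hpm : (0 : ℝ) < 2 ^ m := by positivity
  have h2 : min (6 / 2 ^ Q.kc) (infDist y Q.W) < 6 / 2 ^ m := by
    rw [lt_div_iff₀' hpm]
    exact lt_of_le_of_lt (mul_le_mul_of_nonneg_left (le_max_right _ _) hpm.le) hlt
  have h3 : (6 : ℝ) / 2 ^ m ≤ 6 / 2 ^ Q.kc :=
    div_le_div_of_nonneg_left (by norm_num) (by positivity)
      (pow_le_pow_right₀ (by norm_num) (by omega))
  have h4 : infDist y Q.W < 6 / 2 ^ m := by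
    rcases min_lt_iff.1 h2 with h5 | h5
    · exact absurd h5 (not_lt.2 h3)
    · exact h5
  intro x hx'
  have h5 := dist_le_of_mem_Cu hy hz
  have hxz : x0 ∈ Cu Q.a' i.k i.z := by
    have := Do_subset_Dc _ _ hx
    have e : (⟨i.k, i.z, Finset.univ⟩ : Idx n) = i := by
      cases i
      simp only [Idx.mk.injEq, true_and]
      exact hJ.symm
    unfold Cu
    rw [e]
    exact this
  have h6 := dist_le_of_mem_Cu hx' hxz
  have hpk : (2 : ℝ) ^ i.k = 2 * 2 ^ m := by rw [hm, pow_succ]; ring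
  have h7 : dist y x0 ≤ 1 / 2 ^ m := by
    rw [le_div_iff₀' hpm]
    exact h5
  have h8 : dist x x0 ≤ 1 / 2 ^ i.k := by
    rw [le_div_iff₀' (by positivity)]
    exact h6
  have h9 := infDist_le_infDist_add_dist (s := Q.W) (x := x) (y := y)
  have h10 := dist_triangle x x0 y
  rw [dist_comm x0 y] at h10
  have e1 : (1 : ℝ) / 2 ^ m = 2 / 2 ^ i.k := by rw [hpk]; field_simp
  have e2 : (6 : ℝ) / 2 ^ m = 12 / 2 ^ i.k := by rw [hpk]; field_simp; norm_num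
  have e3 : (15 : ℝ) / 2 ^ i.k = 12 / 2 ^ i.k + (2 / 2 ^ i.k + 1 / 2 ^ i.k) := by ring
  rw [e1] at h7
  rw [e2] at h4
  linarith




/-! ### one scale -/

section meas

variable [FiniteDimensional ℝ E] [MeasurableSpace E] [BorelSpace E] {μ : Measure E}
  [μ.IsAddHaarMeasure]

/-- a frame multiplies the volume by a constant -/
theorem exists_cst (ψ : E ≃L[ℝ] (Fin n → ℝ)) : ∃ c : ℝ≥0∞, c ≠ ∞ ∧ ∀ S : Set (Fin n → ℝ),
    MeasurableSet S → μ (ψ ⁻¹' S) = c * volume S := by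
  have : (μ.map ψ).IsAddHaarMeasure := ψ.isAddHaarMeasure_map μ
  have h := Measure.isAddLeftInvariant_eq_smul (μ.map ψ) (volume : Measure (Fin n → ℝ))
  refine ⟨(Measure.addHaarScalarFactor (μ.map ψ) (volume : Measure (Fin n → ℝ)) : ℝ≥0∞),
    ENNReal.coe_ne_top, fun S hS => ?_⟩
  rw [← Measure.map_apply ψ.continuous.measurable hS]
  exact congrArg (fun ν : Measure (Fin n → ℝ) => ν S) h

/-- **multiplicity of the cubes of one scale** in a set `S` -/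
theorem Mu_scale (ψ : E ≃L[ℝ] (Fin n → ℝ)) (a' : Fin n → ℝ) (m : ℕ) {S : Set (Fin n → ℝ)} {ρ : ℝ}
    {Ac : (Fin n → ℤ) → Set E} (hA : ∀ z, ∀ b ∈ Ac z, ‖ψ b‖ ≤ ρ ∧ Cu a' m z ⊆ S) (x : E) :
    Mu μ (fun z : Fin n → ℤ => Tw ψ a' m z) Ac x ≤
      μ (ψ ⁻¹' (closedBall (ψ x) (ρ + 1 / 2 ^ m) ∩ S)) := by
  set S' : Set (Fin n → ℤ) := {z | ∃ y ∈ Tw ψ a' m z, x - y ∈ Ac z} with hS'
  have h1 : Mu μ (fun z : Fin n → ℤ => Tw ψ a' m z) Ac x = ∑' z : S', μ (Tw ψ a' m z) := by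
    unfold Mu
    rw [tsum_subtype S' fun z => μ (Tw ψ a' m z)]
    refine tsum_congr fun z => ?_
    by_cases hz : z ∈ S'
    · rw [indicator_of_mem hz, indicator_of_mem (by exact hz)]
    · rw [indicator_of_notMem hz, indicator_of_notMem (by exact hz)]
  rw [h1, ← measure_iUnion₀ (f := fun z : S' => Tw ψ a' m z)
    (fun i i' h => Tw_aedisj ψ a' m fun e => h (Subtype.ext e))
    fun i => measurableSet_Tw.nullMeasurableSet]
  refine measure_mono (iUnion_subset fun z y hy => ?_)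
  obtain ⟨y0, hy0, hb⟩ := z.2
  obtain ⟨hb1, hb2⟩ := hA _ _ hb
  refine ⟨?_, hb2 hy⟩
  rw [mem_closedBall]
  have h2 := dist_le_of_mem_Cu (show ψ y ∈ Cu a' m z from hy) (show ψ y0 ∈ Cu a' m z from hy0)
  have hp : (0 : ℝ) < 2 ^ m := by positivity
  have h3 : dist (ψ y) (ψ y0) ≤ 1 / 2 ^ m := by
    rw [le_div_iff₀' hp]
    exact h2
  have h4 : dist (ψ y0) (ψ x) ≤ ρ := by
    rw [dist_comm, dist_eq_norm, ← map_sub]
    exact hb1
  have h5 := dist_triangle (ψ y) (ψ y0) (ψ x)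
  linarith

/-- activity set: all shifts of size `ρ`, if the cube is near the wall `W` -/
def Aq (ψ : E ≃L[ℝ] (Fin n → ℝ)) (a' : Fin n → ℝ) (W : Set (Fin n → ℝ)) (ρ : ℝ) (m : ℕ)
    (z : Fin n → ℤ) : Set E := {b | ‖ψ b‖ ≤ ρ ∧ ∀ x ∈ Cu a' m z, infDist x W ≤ 15 / 2 ^ m}

/-- **multiplicity of all scales `≥ k0`** (cubes of scale `m` within `15 / 2^m` of `W`) -/
theorem Mu_all [NeZero n] (ψ : E ≃L[ℝ] (Fin n → ℝ)) (a' : Fin n → ℝ) {W : Set (Fin n → ℝ)}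
    (hWc : IsClosed W) (hWn : W.Nonempty) {α β : Fin n → ℝ}
    (hWp : ∀ w ∈ W, ∃ l, w l = α l ∨ w l = β l) {ρ : ℝ} (hρ : 0 ≤ ρ) (k0 : ℕ) (x : E) :
    Mu μ (fun q : Σ _ : ℕ, (Fin n → ℤ) => Tw ψ a' (k0 + q.1) q.2)
      (fun q => Aq ψ a' W ρ (k0 + q.1) q.2) x ≤
      ENNReal.ofReal (60 * n) * μ (ψ ⁻¹' closedBall 0 (ρ + 1 / 2 ^ k0)) := by
  obtain ⟨c, -, hc⟩ := exists_cst (μ := μ) ψ
  rw [Mu_sigma]
  have hl0 : (0 : ℝ) < 1 / 2 ^ k0 := by positivity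
  set R : ℝ := 2 * (ρ + 1 / 2 ^ k0) with hR
  have hR0 : 0 < R := by positivity
  set B : ℝ := 60 * n * R ^ (n - 1) * (1 / 2 ^ k0) with hB
  have hB0 : 0 ≤ B := by positivity
  have h1 : ∀ m : ℕ, Mu μ (fun z : Fin n → ℤ => Tw ψ a' (k0 + m) z)
      (fun z => Aq ψ a' W ρ (k0 + m) z) x ≤ c * ENNReal.ofReal (B * (1 / 2) ^ m) := by
    intro m
    have hp : (0 : ℝ) < 1 / 2 ^ (k0 + m) := by positivity
    have hpm : (1 : ℝ) / 2 ^ (k0 + m) = 1 / 2 ^ k0 * (1 / 2) ^ m := by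
      rw [pow_add, one_div_pow]
      field_simp
    have hple : (1 : ℝ) / 2 ^ (k0 + m) ≤ 1 / 2 ^ k0 :=
      one_div_le_one_div_of_le (by positivity) (pow_le_pow_right₀ (by norm_num) (by omega))
    have h2 := Mu_scale (μ := μ) ψ a' (k0 + m) (S := Slab α β (15 / 2 ^ (k0 + m))) (ρ := ρ)
      (Ac := fun z => Aq ψ a' W ρ (k0 + m) z)
      (fun z b hb => ⟨hb.1, fun y hy => sub_slab hWc hWn hWp (hb.2 y hy)⟩) x
    refine h2.trans ?_
    have hms : MeasurableSet (closedBall (ψ x) (ρ + 1 / 2 ^ (k0 + m)) ∩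
        Slab α β (15 / 2 ^ (k0 + m))) := by
      refine isClosed_closedBall.measurableSet.inter ?_
      have e : Slab α β (15 / 2 ^ (k0 + m)) = ⋃ l : Fin n,
          ({x : Fin n → ℝ | |x l - α l| ≤ 15 / 2 ^ (k0 + m)} ∪
            {x : Fin n → ℝ | |x l - β l| ≤ 15 / 2 ^ (k0 + m)}) := by
        ext y
        simp only [Slab, mem_iUnion, mem_union, mem_ofPred_eq]
      rw [e]
      refine MeasurableSet.iUnion fun l => MeasurableSet.union ?_ ?_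
      · exact (isClosed_le (by fun_prop) continuous_const).measurableSet
      · exact (isClosed_le (by fun_prop) continuous_const).measurableSet
    rw [hc _ hms]
    refine mul_le_mul_of_nonneg_left ?_ (by positivity)
    refine (vol_slab _ (by positivity) (by positivity) α β).trans (ENNReal.ofReal_le_ofReal ?_)
    have h3 : (2 * (ρ + 1 / 2 ^ (k0 + m))) ^ (n - 1) ≤ R ^ (n - 1) := by
      refine pow_le_pow_left₀ (by positivity) ?_ _
      rw [hR]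
      linarith
    have e15 : (15 : ℝ) / 2 ^ (k0 + m) = 15 * (1 / 2 ^ (k0 + m)) := by ring
    rw [e15]
    calc 2 * (n : ℝ) * ((2 * (ρ + 1 / 2 ^ (k0 + m))) ^ (n - 1) * (2 * (15 * (1 / 2 ^ (k0 + m)))))
        ≤ 2 * n * (R ^ (n - 1) * (2 * (15 * (1 / 2 ^ (k0 + m))))) := by gcongr
      _ = B * (1 / 2) ^ m := by rw [hpm, hB]; ring
  refine (ENNReal.tsum_le_tsum h1).trans ?_
  rw [ENNReal.tsum_mul_left]
  have h4 : ∑' m : ℕ, ENNReal.ofReal (B * (1 / 2) ^ m) = ENNReal.ofReal (B * 2) := by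
    rw [← ENNReal.ofReal_tsum_of_nonneg (fun m => by positivity)
      (summable_geometric_two.mul_left B), tsum_mul_left, tsum_geometric_two]
  rw [h4, hc _ isClosed_closedBall.measurableSet, Real.volume_pi_closedBall _ (by positivity),
    Fintype.card_fin, mul_left_comm, ← ENNReal.ofReal_mul (by positivity)]
  refine mul_le_mul_of_nonneg_left (ENNReal.ofReal_le_ofReal ?_) (by positivity)
  obtain ⟨q, hq⟩ : ∃ q, n = q + 1 := ⟨n - 1, by have := NeZero.pos n; omega⟩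
  have h5 : R ^ n = R ^ (n - 1) * R := by
    rw [hq, Nat.add_sub_cancel, pow_succ]
  rw [← hR, h5, hB]
  have h6 : 1 / 2 ^ k0 * 2 ≤ R := by rw [hR]; linarith
  have h7 : 0 ≤ 60 * (n : ℝ) * R ^ (n - 1) := by positivity
  calc 60 * (n : ℝ) * R ^ (n - 1) * (1 / 2 ^ k0) * 2
      = 60 * (n : ℝ) * R ^ (n - 1) * (1 / 2 ^ k0 * 2) := by ring
    _ ≤ 60 * (n : ℝ) * R ^ (n - 1) * R := mul_le_mul_of_nonneg_left h6 h7
    _ = 60 * n * (R ^ (n - 1) * R) := by ring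


/-- the layer at the wall -/
def Lyr (Q : CB E n) (s : ℝ) : Set E := Q.ψ ⁻¹' {y | infDist y Q.W ≤ s}

theorem isClosed_Lyr (Q : CB E n) (s : ℝ) : IsClosed (Lyr Q s) :=
  (isClosed_le (continuous_infDist_pt _) continuous_const).preimage Q.ψ.continuous

/-- the shifted tiles lie in the layer -/
theorem add_mem_Lyr (Q : CB E n) {m k0 : ℕ} (hk : k0 ≤ m) {z : Fin n → ℤ} (hnw : Nw Q m z)
    {ρ : ℝ} {y b : E} (hy : y ∈ Tw Q.ψ Q.a' m z) (hb : ‖Q.ψ b‖ ≤ ρ) :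
    y + b ∈ Lyr Q (15 / 2 ^ k0 + ρ) := by
  show infDist (Q.ψ (y + b)) Q.W ≤ _
  have h1 := infDist_le_infDist_add_dist (s := Q.W) (x := Q.ψ (y + b)) (y := Q.ψ y)
  have h2 : dist (Q.ψ (y + b)) (Q.ψ y) ≤ ρ := by
    rw [dist_eq_norm, ← map_sub, add_sub_cancel_left]
    exact hb
  have h3 := hnw _ (show Q.ψ y ∈ Cu Q.a' m z from hy)
  have h4 : (15 : ℝ) / 2 ^ m ≤ 15 / 2 ^ k0 :=
    div_le_div_of_nonneg_left (by norm_num) (by positivity)
      (pow_le_pow_right₀ (by norm_num) hk)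
  linarith




end meas

end

end Crest.Agent.R96.Wm3_748
end

-- ▼ part R96/Wm4_748
section

/-!
# Row 96, PREMACH (S3), part 2: the mean of the energy of the inner tiles of a core block, A-form

`∫⁻ v in Wt A ρ, EnA .. v ≤ (K3 * ‖lin A‖ₑ^p * ∫⁻_S ‖(D' z) ∘ lin A⁻¹‖ₑ^p) * volume (Wt A ρ)` with a
constant `K3` of the shapes only (365 #10976 (4), 872 `exists_blocks_W`).
-/

set_option autoImplicit false
set_option linter.unusedSectionVars false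
set_option linter.unusedVariables false

open MeasureTheory Set Filter Metric
open scoped Topology ENNReal Pointwise

namespace Crest.Agent.R96.Wm4_748

open Crest.Agent.R096.Msh_810 Crest.Agent.R096.Msh_715
open Crest.Agent.R096.Mal_874 (CB)
open Crest.Agent.R96.Sg8_199 (Mu EnA Mu_sigma act_avg)
open Crest.Agent.R96.Wm_72 (Tw Tw_tr Tw_aedisj isCompact_Tw measurableSet_Tw Mu_mono)
open Crest.Agent.R96.Wm3_748

noncomputable section

variable {n : ℕ} {E : Type*} [NormedAddCommGroup E] [NormedSpace ℝ E]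
  [FiniteDimensional ℝ E] [MeasurableSpace E] [BorelSpace E] {μ : Measure E} [μ.IsAddHaarMeasure]

/-! ### multiplicities -/

/-- tiles which are a.e. disjoint and small in the frame `ψ` -/
theorem Mu_frame (ψ : E ≃L[ℝ] (Fin n → ℝ)) {τ : Type*} [Countable τ] {Til Ac : τ → Set E}
    (hm : ∀ t, MeasurableSet (Til t)) (hdis : Pairwise (Function.onFun (AEDisjoint μ) Til))
    {D ρ : ℝ} (hD : ∀ t, ∀ y ∈ Til t, ∀ y' ∈ Til t, dist (ψ y') (ψ y) ≤ D)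
    (hA : ∀ t, ∀ b ∈ Ac t, ‖ψ b‖ ≤ ρ) (x : E) :
    Mu μ Til Ac x ≤ μ (ψ ⁻¹' closedBall 0 (ρ + D)) := by
  set S' : Set τ := {t | ∃ y ∈ Til t, x - y ∈ Ac t} with hS'
  have h1 : Mu μ Til Ac x = ∑' t : S', μ (Til t) := by
    unfold Mu
    rw [tsum_subtype S' fun t => μ (Til t)]
    refine tsum_congr fun t => ?_
    by_cases ht : t ∈ S'
    · rw [indicator_of_mem ht, indicator_of_mem (by exact ht)]
    · rw [indicator_of_notMem ht, indicator_of_notMem (by exact ht)]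
  have h2 : μ (ψ ⁻¹' closedBall 0 (ρ + D)) = μ (ψ ⁻¹' closedBall (ψ x) (ρ + D)) := by
    obtain ⟨c, -, hc⟩ := exists_cst (μ := μ) ψ
    rw [hc _ isClosed_closedBall.measurableSet, hc _ isClosed_closedBall.measurableSet,
      Measure.addHaar_closedBall_center volume (ψ x)]
  rw [h1, h2, ← measure_iUnion₀ (f := fun t : S' => Til t)
    (fun i i' h => hdis fun e => h (Subtype.ext e)) fun i => (hm i).nullMeasurableSet]
  refine measure_mono (iUnion_subset fun t y hy => ?_)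
  obtain ⟨y0, hy0, hb⟩ := t.2
  rw [mem_preimage, mem_closedBall]
  have h3 := hD _ _ hy0 _ hy
  have h4 : dist (ψ y0) (ψ x) ≤ ρ := by
    rw [dist_comm, dist_eq_norm, ← map_sub]
    exact hA _ _ hb
  have h5 := dist_triangle (ψ y) (ψ y0) (ψ x)
  linarith

/-- activity set: all shifts of size `ρ`; finer cubes only near the wall `W` -/
def Ar (ψ : E ≃L[ℝ] (Fin n → ℝ)) (a' : Fin n → ℝ) (W : Set (Fin n → ℝ)) (ρ : ℝ) (k0 q : ℕ)
    (z : Fin n → ℤ) : Set E :=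
  {b | ‖ψ b‖ ≤ ρ ∧ (q ≠ 0 → ∀ x ∈ Cu a' (k0 + q) z, infDist x W ≤ 15 / 2 ^ (k0 + q))}

/-- **multiplicity of all scales `≥ k0`**, the scale `k0` unrestricted -/
theorem Mu_all' [NeZero n] (ψ : E ≃L[ℝ] (Fin n → ℝ)) (a' : Fin n → ℝ) {W : Set (Fin n → ℝ)}
    (hWc : IsClosed W) (hWn : W.Nonempty) {α β : Fin n → ℝ}
    (hWp : ∀ w ∈ W, ∃ l, w l = α l ∨ w l = β l) {ρ : ℝ} (hρ : 0 ≤ ρ) (k0 : ℕ) (x : E) :
    Mu μ (fun q : Σ _ : ℕ, (Fin n → ℤ) => Tw ψ a' (k0 + q.1) q.2)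
      (fun q => Ar ψ a' W ρ k0 q.1 q.2) x ≤
      ENNReal.ofReal (60 * n + 1) * μ (ψ ⁻¹' closedBall 0 (ρ + 1 / 2 ^ k0)) := by
  classical
  have h0 := Mu_all (μ := μ) ψ a' hWc hWn hWp hρ k0 x
  rw [Mu_sigma] at h0 ⊢
  have h1 : ∀ m : ℕ, Mu μ (fun z : Fin n → ℤ => Tw ψ a' (k0 + m) z)
      (fun z => Ar ψ a' W ρ k0 m z) x ≤
      (Pi.single (M := fun _ : ℕ => ℝ≥0∞) 0 (μ (ψ ⁻¹' closedBall 0 (ρ + 1 / 2 ^ k0)))) m +
        Mu μ (fun z : Fin n → ℤ => Tw ψ a' (k0 + m) z) (fun z => Aq ψ a' W ρ (k0 + m) z) x := by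
    intro m
    rcases Nat.eq_zero_or_pos m with rfl | hm
    · rw [Pi.single_eq_same]
      refine le_trans ?_ le_self_add
      have h2 := Mu_frame (μ := μ) ψ (τ := Fin n → ℤ) (Til := fun z => Tw ψ a' (k0 + 0) z)
        (Ac := fun z => Ar ψ a' W ρ k0 0 z) (D := 1 / 2 ^ (k0 + 0)) (ρ := ρ)
        (fun z => measurableSet_Tw) (fun z z' h => Tw_aedisj ψ a' _ h) ?_ (fun z b hb => hb.1) x
      · simpa using h2
      · intro z y hy y' hy'
        have h3 := dist_le_of_mem_Cu (show ψ y' ∈ Cu a' (k0 + 0) z from hy')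
          (show ψ y ∈ Cu a' (k0 + 0) z from hy)
        rw [le_div_iff₀' (by positivity)]
        exact h3
    · refine le_trans ?_ le_add_self
      refine Mu_mono (μ := μ) id Function.injective_id (fun z => rfl) (fun z b hb => ?_) x
      exact ⟨hb.1, hb.2 (by omega)⟩
  refine (ENNReal.tsum_le_tsum h1).trans ?_
  rw [ENNReal.tsum_add, tsum_pi_single]
  have e : ENNReal.ofReal (60 * n + 1) = ENNReal.ofReal (60 * n) + 1 := by
    rw [ENNReal.ofReal_add (by positivity) (by norm_num), ENNReal.ofReal_one]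
  rw [e, add_mul, one_mul, add_comm]
  exact add_le_add h0 le_rfl

/-- **multiplicity of the inner cubes of a block**: all scales `≥ k0`, those `> k0` near the wall -/
theorem Mu_cubes [NeZero n] (Q : CB E n) {τ : Type*} {Til Ac : τ → Set E} (sc : τ → ℕ)
    (zc : τ → Fin n → ℤ) (hinj : ∀ t t', sc t = sc t' → zc t = zc t' → t = t')
    (hT : ∀ t, Til t = Tw Q.ψ Q.a' (sc t) (zc t)) {k0 : ℕ} (hk0 : ∀ t, k0 ≤ sc t)
    (hnw : ∀ t, k0 < sc t → Nw Q (sc t) (zc t)) {ρ : ℝ} (hρ : 0 ≤ ρ)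
    (hA : ∀ t, ∀ b ∈ Ac t, ‖Q.ψ b‖ ≤ ρ) (x : E) :
    Mu μ Til Ac x ≤ ENNReal.ofReal (60 * n + 1) * μ (Q.ψ ⁻¹' closedBall 0 (ρ + 1 / 2 ^ k0)) := by
  obtain ⟨α, β, hWp⟩ := W_planes Q
  refine (Mu_mono (μ := μ) (fun t => (⟨sc t - k0, zc t⟩ : Σ _ : ℕ, (Fin n → ℤ)))
    (fun t t' h => ?_) (fun t => ?_) (fun t b hb => ?_) x).trans
    (Mu_all' (μ := μ) Q.ψ Q.a' isClosed_frontier Q.W_ne hWp hρ k0 x)
  · have h1 : sc t - k0 = sc t' - k0 := congrArg Sigma.fst h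
    have h2 : zc t = zc t' := congrArg (fun q : Σ _ : ℕ, (Fin n → ℤ) => q.2) h
    have h3 := hk0 t
    have h4 := hk0 t'
    exact hinj t t' (by omega) h2
  · show Til t = Tw Q.ψ Q.a' (k0 + (sc t - k0)) (zc t)
    rw [Nat.add_sub_cancel' (hk0 t)]
    exact hT t
  · refine ⟨hA t b hb, fun hq => ?_⟩
    have h3 := hk0 t
    change sc t - k0 ≠ 0 at hq
    change ∀ x ∈ Cu Q.a' (k0 + (sc t - k0)) (zc t), infDist x Q.W ≤ 15 / 2 ^ (k0 + (sc t - k0))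
    rw [Nat.add_sub_cancel' (hk0 t)]
    exact hnw t (by omega)

/-! ### volumes -/

/-- the cube of shifts against the balls of the multiplicity -/
theorem ball_cube (ψ : E ≃L[ℝ] (Fin n → ℝ)) {r t l : ℝ} (hr : 0 ≤ r) (ht : 0 ≤ t)
    (hl : l ≤ t * r) :
    μ (ψ ⁻¹' closedBall 0 (r + l)) ≤
      ENNReal.ofReal ((2 * (1 + t)) ^ n) * μ (ψ ⁻¹' Icc 0 (fun _ => r)) := by
  obtain ⟨c, -, hc⟩ := exists_cst (μ := μ) ψ
  have h1 : μ (ψ ⁻¹' closedBall 0 (r + l)) ≤ μ (ψ ⁻¹' closedBall 0 ((1 + t) * r)) :=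
    measure_mono (preimage_mono (closedBall_subset_closedBall (by linarith)))
  refine h1.trans (le_of_eq ?_)
  rw [hc _ isClosed_closedBall.measurableSet, hc _ measurableSet_Icc,
    Real.volume_pi_closedBall _ (by positivity), Real.volume_Icc_pi, Fintype.card_fin]
  simp only [Pi.zero_apply, sub_zero, Finset.prod_const, Finset.card_univ, Fintype.card_fin]
  have e : 2 * ((1 + t) * r) = 2 * (1 + t) * r := by ring
  rw [e, mul_pow, ENNReal.ofReal_mul (by positivity), ENNReal.ofReal_pow hr]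
  ring

/-! ### the mean of the energy in the frame of the block -/

/-- **mean of the energy**, from a bound of the multiplicity; `sc t` the scale of the tile `t` -/
theorem mean_of_Mu (ψ : E ≃L[ℝ] (Fin n → ℝ)) {F : Type*} [NormedAddCommGroup F] [NormedSpace ℝ F]
    [MeasurableSpace F] [BorelSpace F]
    {τ η : Type*} [Countable τ] {Til Ac : τ → Set E} (hAm : ∀ t, MeasurableSet (Ac t))
    (Ed : τ → Finset η) {m : ℕ} (hn : ∀ t, (Ed t).card ≤ m) (x v : η → E)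
    (hsub : ∀ t, ∀ j ∈ Ed t, Sg1_199.sgm (x j) (v j) ⊆ Til t)
    {β : τ → ℝ≥0∞} (sc : τ → ℕ) {b R : ℝ} (hb : 0 ≤ b) (hR : 0 ≤ R)
    (hβ : ∀ t, β t ≤ ENNReal.ofReal (b * 2 ^ sc t) * ‖(ψ : E →L[ℝ] (Fin n → ℝ))‖ₑ)
    (hdiam : ∀ t, ∀ y ∈ Til t, ∀ y' ∈ Til t, dist (ψ y') (ψ y) ≤ R / 2 ^ sc t)
    {D' : E → E →L[ℝ] F} (hD : ∀ w, Measurable fun z => D' z w)
    {S : Set E} (hS : MeasurableSet S) (hSA : ∀ t, ∀ y ∈ Til t, ∀ a ∈ Ac t, y + a ∈ S)
    {M : ℝ≥0∞} (hM1 : M ≠ ∞) (hM : ∀ z ∈ S, Mu μ Til Ac z ≤ M) {p : ℝ} (hp : 1 ≤ p) :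
    ∫⁻ a, EnA μ Til Ac Ed β (fun j z => ‖D' z (v j)‖ₑ) x v p a ∂μ ≤
      (m * (ENNReal.ofReal (b * R) * ‖(ψ : E →L[ℝ] (Fin n → ℝ))‖ₑ)) ^ p * M *
        ∫⁻ z in S, ‖(D' z).comp (ψ.symm : (Fin n → ℝ) →L[ℝ] E)‖ₑ ^ p ∂μ := by
  have hK : ENNReal.ofReal (b * R) * ‖(ψ : E →L[ℝ] (Fin n → ℝ))‖ₑ ≠ ∞ :=
    ENNReal.mul_ne_top ENNReal.ofReal_ne_top enorm_ne_top
  refine act_avg (c := fun j => ‖ψ (v j)‖ₑ) hAm Ed hn x v hsub β
    (fun j => (hD (v j)).enorm) (Eventually.of_forall ?_) hK ?_ hS hSA hM1 hM hp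
  · intro z t j _
    have e : D' z (v j) = ((D' z).comp (ψ.symm : (Fin n → ℝ) →L[ℝ] E)) (ψ (v j)) := by
      simp
    rw [e, mul_comm]
    exact ContinuousLinearMap.le_opENorm _ _
  · intro t j hj
    have h1 : x j ∈ Til t := hsub t j hj ⟨0, ⟨le_rfl, zero_le_one⟩, by simp⟩
    have h2 : x j + v j ∈ Til t := hsub t j hj ⟨1, ⟨zero_le_one, le_rfl⟩, by simp⟩
    have h3 := hdiam t _ h1 _ h2
    rw [dist_eq_norm, ← map_sub, add_sub_cancel_left] at h3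
    have h4 : ‖ψ (v j)‖ₑ ≤ ENNReal.ofReal (R / 2 ^ sc t) := by
      rw [← ofReal_norm]
      exact ENNReal.ofReal_le_ofReal h3
    calc β t * ‖ψ (v j)‖ₑ
        ≤ (ENNReal.ofReal (b * 2 ^ sc t) * ‖(ψ : E →L[ℝ] (Fin n → ℝ))‖ₑ) *
            ENNReal.ofReal (R / 2 ^ sc t) := mul_le_mul' (hβ t) h4
      _ = (ENNReal.ofReal (b * 2 ^ sc t) * ENNReal.ofReal (R / 2 ^ sc t)) *
            ‖(ψ : E →L[ℝ] (Fin n → ℝ))‖ₑ := by ring
      _ = _ := by
          rw [← ENNReal.ofReal_mul (by positivity)]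
          congr 2
          field_simp

end

/-! ### the form with the affine map of the core -/

section Aform

open Crest.Agent.R096.SkC1_961 (E3)
open Crest.Agent.R096.EaX_766 (lin)
open Crest.Agent.R096.Exa_365 (Wt)

noncomputable section

/-- the constant -/
def K3 (p : ℝ) (m : ℕ) (b R t : ℝ) (cM : ℝ≥0∞) : ℝ≥0∞ :=
  (m * ENNReal.ofReal (b * R)) ^ p * (cM * ENNReal.ofReal ((2 * (1 + t)) ^ 3))

theorem K3_ne_top {p : ℝ} (hp : 0 ≤ p) {m : ℕ} {b R t : ℝ} {cM : ℝ≥0∞} (h : cM ≠ ∞) :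
    K3 p m b R t cM ≠ ∞ :=
  ENNReal.mul_ne_top (ENNReal.rpow_ne_top_of_nonneg hp
    (ENNReal.mul_ne_top (ENNReal.natCast_ne_top m) ENNReal.ofReal_ne_top))
    (ENNReal.mul_ne_top h ENNReal.ofReal_ne_top)

theorem lin_symm_lin (A : E3 ≃ᵃ[ℝ] E3) (y : E3) : lin A.symm (lin A y) = y := by
  show A.symm.linear (A.linear y) = y
  rw [AffineEquiv.linear_symm]
  exact A.linear.symm_apply_apply y

variable {A : E3 ≃ᵃ[ℝ] E3} {s : ℝ} {ψ : E3 ≃L[ℝ] (Fin 3 → ℝ)}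

theorem psi_symm (hs : 0 < s) (hψ : ∀ y, ψ y = s⁻¹ • lin A y) (y : Fin 3 → ℝ) :
    ψ.symm y = s • lin A.symm y := by
  have h1 := hψ (ψ.symm y)
  rw [ContinuousLinearEquiv.apply_symm_apply] at h1
  have h2 : lin A (ψ.symm y) = s • y := by
    calc lin A (ψ.symm y) = s • (s⁻¹ • lin A (ψ.symm y)) := by
          rw [smul_smul, mul_inv_cancel₀ hs.ne', one_smul]
      _ = s • y := by rw [← h1]
  have h3 := lin_symm_lin A (ψ.symm y)
  rw [h2, map_smul] at h3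
  exact h3.symm

theorem enorm_psi (hψ : ∀ y, ψ y = s⁻¹ • lin A y) :
    ‖(ψ : E3 →L[ℝ] (Fin 3 → ℝ))‖ₑ = ‖s⁻¹‖ₑ * ‖lin A‖ₑ := by
  have e : (ψ : E3 →L[ℝ] (Fin 3 → ℝ)) = s⁻¹ • lin A := by
    ext y i
    have := congrFun (hψ y) i
    simpa using this
  rw [e, enorm_smul]

theorem enorm_comp {F : Type*} [NormedAddCommGroup F] [NormedSpace ℝ F] (hs : 0 < s)
    (hψ : ∀ y, ψ y = s⁻¹ • lin A y) (D : E3 →L[ℝ] F) :
    ‖D.comp (ψ.symm : (Fin 3 → ℝ) →L[ℝ] E3)‖ₑ = ‖s‖ₑ * ‖D.comp (lin A.symm)‖ₑ := by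
  have e : D.comp (ψ.symm : (Fin 3 → ℝ) →L[ℝ] E3) = s • D.comp (lin A.symm) := by
    ext y
    have := psi_symm hs hψ y
    simp [this]
  rw [e, enorm_smul]

theorem Wt_eq (hs : 0 < s) (hψ : ∀ y, ψ y = s⁻¹ • lin A y) (ρ : ℝ) :
    Wt A ρ = ψ ⁻¹' Icc 0 (fun _ => ρ / s) := by
  ext w
  show lin A w ∈ Icc 0 (fun _ => ρ) ↔ ψ w ∈ Icc 0 (fun _ => ρ / s)
  rw [hψ w]
  constructor
  · rintro ⟨h1, h2⟩
    refine ⟨fun i => ?_, fun i => ?_⟩
    · have := h1 i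
      simp only [Pi.zero_apply, Pi.smul_apply, smul_eq_mul] at this ⊢
      positivity
    · have := h2 i
      simp only [Pi.smul_apply, smul_eq_mul] at this ⊢
      rw [div_eq_inv_mul]
      exact mul_le_mul_of_nonneg_left this (by positivity)
  · rintro ⟨h1, h2⟩
    refine ⟨fun i => ?_, fun i => ?_⟩
    · have := h1 i
      simp only [Pi.zero_apply, Pi.smul_apply, smul_eq_mul] at this ⊢
      exact (mul_nonneg_iff_of_pos_left (inv_pos.2 hs)).1 this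
    · have := h2 i
      simp only [Pi.smul_apply, smul_eq_mul] at this ⊢
      rw [div_eq_inv_mul] at this
      exact le_of_mul_le_mul_left this (inv_pos.2 hs)

/-- shifts in `Wt A ρ` are small in the frame -/
theorem norm_of_Wt (hs : 0 < s) (hψ : ∀ y, ψ y = s⁻¹ • lin A y) {ρ : ℝ} (hρ : 0 ≤ ρ) {w : E3}
    (hw : w ∈ Wt A ρ) : ‖ψ w‖ ≤ ρ / s := by
  rw [Wt_eq hs hψ ρ] at hw
  obtain ⟨h1, h2⟩ := hw
  rw [pi_norm_le_iff_of_nonneg (by positivity)]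
  intro i
  have h3 := h1 i
  have h4 := h2 i
  rw [Real.norm_eq_abs, abs_le]
  simp only [Pi.zero_apply] at h3
  constructor
  · have : 0 ≤ ρ / s := by positivity
    linarith
  · exact h4

/-- **MEAN OF THE ENERGY OF A CLASS OF INNER TILES, A-FORM**, from the multiplicity -/
theorem mean_A (hs : 0 < s) (hψ : ∀ y, ψ y = s⁻¹ • lin A y) {F : Type*} [NormedAddCommGroup F]
    [NormedSpace ℝ F] [MeasurableSpace F] [BorelSpace F]
    {τ η : Type*} [Countable τ] {Til Ac : τ → Set E3} (hAm : ∀ t, MeasurableSet (Ac t))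
    (Ed : τ → Finset η) {m : ℕ} (hn : ∀ t, (Ed t).card ≤ m) (x v : η → E3)
    (hsub : ∀ t, ∀ j ∈ Ed t, Sg1_199.sgm (x j) (v j) ⊆ Til t)
    {β : τ → ℝ≥0∞} (sc : τ → ℕ) {b R : ℝ} (hb : 0 ≤ b) (hR : 0 ≤ R)
    (hβ : ∀ t, β t ≤ ENNReal.ofReal (b * 2 ^ sc t) * ‖(ψ : E3 →L[ℝ] (Fin 3 → ℝ))‖ₑ)
    (hdiam : ∀ t, ∀ y ∈ Til t, ∀ y' ∈ Til t, dist (ψ y') (ψ y) ≤ R / 2 ^ sc t)
    {D' : E3 → E3 →L[ℝ] F} (hD : ∀ w, Measurable fun z => D' z w)
    {S : Set E3} (hS : MeasurableSet S) (hSA : ∀ t, ∀ y ∈ Til t, ∀ a ∈ Ac t, y + a ∈ S)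
    {cM : ℝ≥0∞} (hcM : cM ≠ ∞) {ρ t l : ℝ} (hρ : 0 ≤ ρ) (ht : 0 ≤ t) (hl : s * l ≤ t * ρ)
    (hM : ∀ z ∈ S, Mu volume Til Ac z ≤ cM * volume (ψ ⁻¹' closedBall 0 (ρ / s + l))) {p : ℝ}
    (hp : 1 ≤ p) :
    ∫⁻ a in Wt A ρ, EnA volume Til Ac Ed β (fun j z => ‖D' z (v j)‖ₑ) x v p a ≤
      (K3 p m b R t cM * ‖lin A‖ₑ ^ p * ∫⁻ z in S, ‖(D' z).comp (lin A.symm)‖ₑ ^ p) *
        volume (Wt A ρ) := by
  have hp0 : 0 ≤ p := by linarith
  refine (setLIntegral_le_lintegral _ _).trans ?_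
  have hM1 : cM * volume (ψ ⁻¹' closedBall 0 (ρ / s + l)) ≠ ∞ :=
    ENNReal.mul_ne_top hcM ((ψ.toHomeomorph.isCompact_preimage.2
      (isCompact_closedBall _ _)).measure_lt_top).ne
  refine (mean_of_Mu (μ := volume) ψ hAm Ed hn x v hsub sc hb hR hβ hdiam hD hS hSA hM1 hM
    hp).trans ?_
  have h1 : volume (ψ ⁻¹' closedBall 0 (ρ / s + l)) ≤
      ENNReal.ofReal ((2 * (1 + t)) ^ 3) * volume (Wt A ρ) := by
    rw [Wt_eq hs hψ ρ]
    refine ball_cube (μ := volume) ψ (by positivity) ht ?_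
    rw [← mul_div_assoc, le_div_iff₀' hs]
    exact hl
  have hs1 : ‖s⁻¹‖ₑ * ‖s‖ₑ = 1 := by
    rw [← enorm_mul, inv_mul_cancel₀ hs.ne', enorm_one]
  have h2 : ∫⁻ z in S, ‖(D' z).comp (ψ.symm : (Fin 3 → ℝ) →L[ℝ] E3)‖ₑ ^ p =
      ‖s‖ₑ ^ p * ∫⁻ z in S, ‖(D' z).comp (lin A.symm)‖ₑ ^ p := by
    rw [← lintegral_const_mul' _ _ (ENNReal.rpow_ne_top_of_nonneg hp0 enorm_ne_top)]
    refine lintegral_congr fun z => ?_
    rw [enorm_comp hs hψ, ENNReal.mul_rpow_of_nonneg _ _ hp0]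
  rw [h2, enorm_psi hψ]
  set N := ‖lin A‖ₑ
  set I := ∫⁻ z in S, ‖(D' z).comp (lin A.symm)‖ₑ ^ p
  calc ((m : ℝ≥0∞) * (ENNReal.ofReal (b * R) * (‖s⁻¹‖ₑ * N))) ^ p *
        (cM * volume (ψ ⁻¹' closedBall 0 (ρ / s + l))) * (‖s‖ₑ ^ p * I)
      ≤ ((m : ℝ≥0∞) * (ENNReal.ofReal (b * R) * (‖s⁻¹‖ₑ * N))) ^ p *
        (cM * (ENNReal.ofReal ((2 * (1 + t)) ^ 3) * volume (Wt A ρ))) * (‖s‖ₑ ^ p * I) := by
        gcongr
    _ = (((m : ℝ≥0∞) * (ENNReal.ofReal (b * R) * (‖s⁻¹‖ₑ * N))) * ‖s‖ₑ) ^ p *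
        (cM * (ENNReal.ofReal ((2 * (1 + t)) ^ 3) * volume (Wt A ρ))) * I := by
        rw [ENNReal.mul_rpow_of_nonneg _ ‖s‖ₑ hp0]
        ring
    _ = (((m : ℝ≥0∞) * ENNReal.ofReal (b * R)) * N) ^ p *
        (cM * (ENNReal.ofReal ((2 * (1 + t)) ^ 3) * volume (Wt A ρ))) * I := by
        congr 3
        calc (m : ℝ≥0∞) * (ENNReal.ofReal (b * R) * (‖s⁻¹‖ₑ * N)) * ‖s‖ₑ
            = (m : ℝ≥0∞) * ENNReal.ofReal (b * R) * N * (‖s⁻¹‖ₑ * ‖s‖ₑ) := by ring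
          _ = _ := by rw [hs1, mul_one]
    _ = (K3 p m b R t cM * N ^ p * I) * volume (Wt A ρ) := by
        rw [ENNReal.mul_rpow_of_nonneg _ N hp0]
        unfold K3
        ring



end

end Aform

end Crest.Agent.R96.Wm4_748
end

-- ▼ part R096/Ez4_748
section

/-!
# Row 96, EA0 [Z4] (961 #11134): mean over the translations of the energy of the fine classes

Potential tiles of a block: 290's `QI M X j k0`.  `fine_mean` / `z4`: all classes `inr m` (cubes of scale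
`m ≥ k0`, off the shell), `kc < k0`: mean over `Tw (Q j) k0` at most `CA * ∫⁻_Ly ‖D'‖^p`.
`inner_mean`: ALL classes of `QI` (shell, coarse and fine cubes), A-form of 365.
-/

set_option autoImplicit false
set_option linter.unusedSectionVars false
set_option linter.unusedVariables false
set_option linter.style.longLine false

open MeasureTheory Set Filter Metric
open scoped Topology ENNReal NNReal

namespace Crest.Agent.R096.Ez4_748

open Crest.Agent.R096.Msh_715 Crest.Agent.R096.Msh_810 Crest.Agent.R096.Mal_874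
open Crest.Agent.R096.SkC1_961 (E3)
open Crest.Agent.R96.Sg8_199 (Mu EnA)
open Crest.Agent.R96.Sg1_199 (sgm li)
open Crest.Agent.R96.Wm_72 (Tw Mu_mono)
open Crest.Agent.R96.Wm3_748 Crest.Agent.R96.Wm4_748
open Crest.Agent.R096.Mfa_880 (PT)
open Crest.Agent.R096.Mfi_290
open Crest.Agent.R096.EaX_766 (lin)
open Crest.Agent.R096.Exa_365 (Wt)

noncomputable section

/-! ### general -/

section gen

variable {n : ℕ} {E : Type*} [NormedAddCommGroup E] [NormedSpace ℝ E]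
  [FiniteDimensional ℝ E] [MeasurableSpace E] [BorelSpace E] {μ : Measure E} [μ.IsAddHaarMeasure]

theorem tsum_supp {τ : Type*} (f : τ → ℝ≥0∞) (P : τ → Prop) (h : ∀ t, ¬ P t → f t = 0) :
    ∑' t, f t = ∑' t : {t // P t}, f t :=
  (tsum_subtype_eq_of_support_subset (s := {t | P t})
    (fun t ht => by_contra fun h' => ht (h t h'))).symm

/-- only the shifts in `B` matter -/
theorem EnA_inter {τ η : Type*} {Til Ac : τ → Set E} {Ed : τ → Finset η} {β : τ → ℝ≥0∞}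
    {G : η → E → ℝ≥0∞} {x v : η → E} {p : ℝ} {B : Set E} {a : E} (ha : a ∈ B) :
    EnA μ Til Ac Ed β G x v p a = EnA μ Til (fun t => Ac t ∩ B) Ed β G x v p a := by
  unfold EnA
  refine tsum_congr fun t => ?_
  by_cases h : a ∈ Ac t
  · rw [indicator_of_mem h, indicator_of_mem (show a ∈ Ac t ∩ B from ⟨h, ha⟩)]
  · rw [indicator_of_notMem h, indicator_of_notMem (fun h' => h h'.1)]

/-- only the tiles with a nonempty activity set matter -/
theorem EnA_supp {τ η : Type*} {Til Ac : τ → Set E} {Ed : τ → Finset η} {β : τ → ℝ≥0∞}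
    {G : η → E → ℝ≥0∞} {x v : η → E} {p : ℝ} {a : E} :
    EnA μ Til Ac Ed β G x v p a =
      EnA μ (fun t : {t // (Ac t).Nonempty} => Til t) (fun t => Ac t) (fun t => Ed t)
        (fun t => β t) G x v p a := by
  unfold EnA
  exact tsum_supp _ _ fun t h => indicator_of_notMem (fun h' => h ⟨a, h'⟩) _

/-- **mean over a set of shifts `B`**, hypotheses only for the tiles that are used -/
theorem mean_B (ψ : E ≃L[ℝ] (Fin n → ℝ)) {F : Type*} [NormedAddCommGroup F] [NormedSpace ℝ F]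
    [MeasurableSpace F] [BorelSpace F]
    {τ η : Type*} [Countable τ] {Til Ac : τ → Set E} (hAm : ∀ t, MeasurableSet (Ac t))
    {B : Set E} (hB : MeasurableSet B)
    (Ed : τ → Finset η) {m : ℕ} (hn : ∀ t, (Ac t ∩ B).Nonempty → (Ed t).card ≤ m) (x v : η → E)
    (hsub : ∀ t, ∀ j ∈ Ed t, sgm (x j) (v j) ⊆ Til t)
    {β : τ → ℝ≥0∞} (sc : τ → ℕ) {b R : ℝ} (hb : 0 ≤ b) (hR : 0 ≤ R)
    (hβ : ∀ t, (Ac t ∩ B).Nonempty →
      β t ≤ ENNReal.ofReal (b * 2 ^ sc t) * ‖(ψ : E →L[ℝ] (Fin n → ℝ))‖ₑ)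
    (hdiam : ∀ t, (Ac t ∩ B).Nonempty →
      ∀ y ∈ Til t, ∀ y' ∈ Til t, dist (ψ y') (ψ y) ≤ R / 2 ^ sc t)
    {D' : E → E →L[ℝ] F} (hD : ∀ w, Measurable fun z => D' z w)
    {S : Set E} (hS : MeasurableSet S) (hSA : ∀ t, ∀ y ∈ Til t, ∀ a ∈ Ac t ∩ B, y + a ∈ S)
    {M : ℝ≥0∞} (hM1 : M ≠ ∞) (hM : ∀ z ∈ S, Mu μ Til (fun t => Ac t ∩ B) z ≤ M) {p : ℝ}
    (hp : 1 ≤ p) :
    ∫⁻ a in B, EnA μ Til Ac Ed β (fun j z => ‖D' z (v j)‖ₑ) x v p a ∂μ ≤
      (m * (ENNReal.ofReal (b * R) * ‖(ψ : E →L[ℝ] (Fin n → ℝ))‖ₑ)) ^ p * M *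
        ∫⁻ z in S, ‖(D' z).comp (ψ.symm : (Fin n → ℝ) →L[ℝ] E)‖ₑ ^ p ∂μ := by
  rw [setLIntegral_congr_fun (g := fun a => EnA μ
    (fun t : {t // (Ac t ∩ B).Nonempty} => Til t) (fun t => Ac t ∩ B) (fun t => Ed t)
    (fun t => β t) (fun j z => ‖D' z (v j)‖ₑ) x v p a) hB
    (fun a ha => (EnA_inter ha).trans EnA_supp)]
  refine (setLIntegral_le_lintegral _ _).trans ?_
  refine mean_of_Mu (μ := μ) (Til := fun t : {t // (Ac t ∩ B).Nonempty} => Til t)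
    (Ac := fun t => Ac t ∩ B) ψ (fun t => (hAm t).inter hB) (fun t => Ed t)
    (fun t => hn t t.2) x v (fun t => hsub t) (fun t => sc t) hb hR (fun t => hβ t t.2)
    (fun t => hdiam t t.2) hD hS (fun t => hSA t) hM1 (fun z hz => ?_) hp
  refine le_trans ?_ (hM z hz)
  exact Mu_mono (μ := μ) (fun t : {t // (Ac t ∩ B).Nonempty} => t.1)
    Subtype.val_injective (fun t => rfl) (fun t => Subset.rfl) z

/-- multiplicity of inner cubes, conditional form -/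
theorem Mu_cubes_use [NeZero n] (Q : CB E n) {τ : Type*} {Til Ac : τ → Set E} (sc : τ → ℕ)
    (zc : τ → Fin n → ℤ) (hinj : ∀ t t', sc t = sc t' → zc t = zc t' → t = t')
    (hT : ∀ t, Til t = Tw Q.ψ Q.a' (sc t) (zc t)) {k0 : ℕ} {ρ : ℝ} (hρ : 0 ≤ ρ)
    (hA : ∀ t, ∀ b ∈ Ac t, ‖Q.ψ b‖ ≤ ρ ∧ k0 ≤ sc t ∧ (k0 < sc t → Nw Q (sc t) (zc t))) (x : E) :
    Mu μ Til Ac x ≤ ENNReal.ofReal (60 * n + 1) * μ (Q.ψ ⁻¹' closedBall 0 (ρ + 1 / 2 ^ k0)) := by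
  have h1 : Mu μ Til Ac x = Mu μ (fun t : {t // (Ac t).Nonempty} => Til t) (fun t => Ac t) x := by
    unfold Mu
    refine tsum_supp _ _ fun t h => indicator_of_notMem ?_ _
    rintro ⟨y, _, hb⟩
    exact h ⟨_, hb⟩
  rw [h1]
  exact Mu_cubes (μ := μ) Q (fun t : {t // (Ac t).Nonempty} => sc t) (fun t => zc t)
    (fun t t' h h' => Subtype.ext (hinj t t' h h')) (fun t => hT t)
    (fun t => (hA t _ t.2.some_mem).2.1) (fun t => (hA t _ t.2.some_mem).2.2) hρ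
    (fun t b hb => (hA t b hb).1) x

/-- near the wall, from `IsM` -/
theorem nw_of_isM (Q : CB E n) {k : ℕ} (hk : Q.kc ≤ k) {m : ℕ} {z : Fin n → ℤ}
    (h : IsM (Q.D k hk) ⟨m, z, Finset.univ⟩) (hm : Q.kc < m) : Nw Q m z :=
  nw_of_top Q hk ⟨⟨⟨m, z, Finset.univ⟩, h⟩, rfl⟩ hm

end gen

/-- the energy of a countable family of classes -/
theorem tsum_EnC {J : Type} (R : PT J) {κ' : Type*} (kk : κ' → R.κ) (G : E3 → E3 → ℝ≥0∞) (p : ℝ)
    (s : E3) : ∑' i, R.EnC G p (kk i) s =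
      EnA volume (fun q : Σ i, {t // R.cl t = kk i} => R.Til q.2) (fun q => R.Ac q.2)
        (fun q => R.Ed q.2) (fun q => ENNReal.ofReal (R.β q.2)) (fun j => G (R.v j)) R.x R.v p s := by
  unfold PT.EnC EnA
  rw [ENNReal.tsum_sigma']

/-! ### the fine classes of `QI` -/

section fine

variable {J : Type} (M : MD E3 3 J) (X : RD M) (j : J) (k0 : ℕ) (hk0 : (M.Q j).kc ≤ k0)

theorem of_qcl_inr {t : Pt (M.Q j)} {m : ℕ} (h : qcl M k0 j t = Sum.inr m) :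
    ∃ p : ℕ × (Fin 3 → ℤ), t = Sum.inl p ∧ p.1 = m ∧ k0 ≤ m := by
  classical
  unfold qcl at h
  by_cases hc : Coarse M k0 j t
  · rw [if_pos hc] at h
    cases h
  · rw [if_neg hc] at h
    have hm : sca M j t = m := Sum.inr.inj h
    rcases t with p | s
    · refine ⟨p, rfl, hm, ?_⟩
      have h1 : ¬ p.1 < k0 := fun h' => hc (Or.inl h')
      change p.1 = m at hm
      omega
    · exact absurd trivial hc

/-- corner of a potential cube -/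
def pz : Pt (M.Q j) → Fin 3 → ℤ
  | Sum.inl p => p.2
  | Sum.inr _ => 0

theorem qβ_le {p : ℕ × (Fin 3 → ℤ)} (h : (M.Q j).kc ≤ p.1) :
    ENNReal.ofReal (qβ M j (Sum.inl p)) ≤
      ENNReal.ofReal (2 * 2 ^ p.1) * ‖((M.Q j).ψ : E3 →L[ℝ] (Fin 3 → ℝ))‖ₑ := by
  classical
  have hN : (0 : ℝ) ≤ ‖((M.Q j).ψ : E3 →L[ℝ] (Fin 3 → ℝ))‖ := norm_nonneg _
  have h1 : qβ M j (Sum.inl p) ≤ 2 * 2 ^ p.1 * ‖((M.Q j).ψ : E3 →L[ℝ] (Fin 3 → ℝ))‖ := by
    unfold qβ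
    simp only []
    have h2 : (2 : ℝ) ^ (M.Q j).kc ≤ 2 ^ p.1 := pow_le_pow_right₀ (by norm_num) h
    have h3 : (0 : ℝ) < 2 ^ p.1 := by positivity
    split_ifs
    · rw [pow_succ, mul_comm (2 ^ p.1 : ℝ) 2]
    · exact mul_le_mul_of_nonneg_right (by linarith) hN
  rw [← ofReal_norm, ← ENNReal.ofReal_mul (by positivity)]
  exact ENNReal.ofReal_le_ofReal h1

/-- number of cells in the universal list -/
def nE : ℕ := (⋃₀ {c : Set (Set (Fin 3 → ℝ)) | c ∈ simL (N0 3) 1 2 ∧ c.Finite}).ncard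

/-- the cube of shifts in the frame -/
def Bt (Q : CB E3 3) (r : ℝ) : Set E3 := Q.ψ ⁻¹' Icc 0 (fun _ => r)

theorem measurableSet_Bt (Q : CB E3 3) (r : ℝ) : MeasurableSet (Bt Q r) :=
  Q.ψ.continuous.measurable measurableSet_Icc

theorem norm_of_Bt {Q : CB E3 3} {r : ℝ} (hr : 0 ≤ r) {w : E3} (hw : w ∈ Bt Q r) : ‖Q.ψ w‖ ≤ r := by
  obtain ⟨h1, h2⟩ := hw
  rw [pi_norm_le_iff_of_nonneg hr]
  intro i
  have h3 := h1 i
  have h4 := h2 i
  rw [Real.norm_eq_abs, abs_le]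
  simp only [Pi.zero_apply] at h3
  exact ⟨by linarith, h4⟩

/-- **FINE CLASSES** (scales `≥ k0 > kc`): mean over the cube of shifts of side `r` in the frame -/
theorem fine_mean (hlt : (M.Q j).kc < k0) {𝒦 : Set (Set E3)} {U : Set E3} (h𝒦 : 𝒦.Countable)
    (hU : U.Countable) {F : Type*} [NormedAddCommGroup F] [NormedSpace ℝ F] [MeasurableSpace F]
    [BorelSpace F] {D' : E3 → E3 →L[ℝ] F} (hD : ∀ w, Measurable fun z => D' z w) {r : ℝ}
    (hr : 0 ≤ r) {S : Set E3} (hS : MeasurableSet S) (hSL : Lyr (M.Q j) (15 / 2 ^ k0 + r) ⊆ S)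
    {p : ℝ} (hp : 1 ≤ p) :
    ∫⁻ v in Bt (M.Q j) r, ∑' m : ℕ, ((QI M X j k0 hk0).toPT 𝒦 U h𝒦 hU).EnC
        (fun w y => ‖D' y w‖ₑ) p (Sum.inr m) v ≤
      ((nE : ℝ≥0∞) * (ENNReal.ofReal (2 * 1) * ‖((M.Q j).ψ : E3 →L[ℝ] (Fin 3 → ℝ))‖ₑ)) ^ p *
        (181 * volume ((M.Q j).ψ ⁻¹' closedBall 0 (r + 1 / 2 ^ k0))) *
        ∫⁻ z in S, ‖(D' z).comp ((M.Q j).ψ.symm : (Fin 3 → ℝ) →L[ℝ] E3)‖ₑ ^ p := by
  set R : PT J := (QI M X j k0 hk0).toPT 𝒦 U h𝒦 hU with hR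
  have hc := R.cτ
  have h1 : ∀ v : E3, ∑' m : ℕ, R.EnC (fun w y => ‖D' y w‖ₑ) p (Sum.inr m) v =
      EnA volume (fun q : Σ m : ℕ, {t // R.cl t = Sum.inr m} => R.Til q.2) (fun q => R.Ac q.2)
        (fun q => R.Ed q.2) (fun q => ENNReal.ofReal (R.β q.2))
        (fun j y => ‖D' y (R.v j)‖ₑ) R.x R.v p v :=
    fun v => tsum_EnC R (fun m : ℕ => (Sum.inr m : Pt (M.Q j) ⊕ ℕ)) _ p v
  refine (le_of_eq (lintegral_congr fun v => h1 v)).trans ?_
  have key : ∀ q : Σ m : ℕ, {t // R.cl t = Sum.inr m}, ∃ p : ℕ × (Fin 3 → ℤ),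
      q.2.1 = Sum.inl p ∧ p.1 = q.1 ∧ k0 ≤ q.1 := fun q => of_qcl_inr M j k0 q.2.2
  have hM1 : (181 : ℝ≥0∞) * volume ((M.Q j).ψ ⁻¹' closedBall 0 (r + 1 / 2 ^ k0)) ≠ ∞ :=
    ENNReal.mul_ne_top (by simp) (((M.Q j).ψ.toHomeomorph.isCompact_preimage.2
      (isCompact_closedBall _ _)).measure_lt_top).ne
  have huse : ∀ q : Σ m : ℕ, {t // R.cl t = Sum.inr m}, (R.Ac q.2).Nonempty →
      Nw (M.Q j) q.1 (pz M j q.2.1) := by
    intro q hq
    obtain ⟨b, hb⟩ := hq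
    obtain ⟨⟨a1, a2⟩, h2, h3, h4⟩ := key q
    change b ∈ qAc M j q.2.1 at hb
    rw [h2] at hb ⊢
    obtain ⟨-, ⟨⟨k, hk, hI⟩, -⟩, -⟩ := hb
    change a1 = q.1 at h3
    rw [← h3] at h4 ⊢
    exact nw_of_isM (M.Q j) hk hI (by omega)
  have hTil : ∀ q : Σ m : ℕ, {t // R.cl t = Sum.inr m},
      R.Til q.2 = Tw (M.Q j).ψ (M.Q j).a' q.1 (pz M j q.2.1) := by
    intro q
    obtain ⟨⟨a1, a2⟩, h2, h3, h4⟩ := key q
    change til (M.Q j) q.2.1 = _
    rw [h2]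
    change a1 = q.1 at h3
    rw [← h3]
    rfl
  refine mean_B (μ := volume) (τ := Σ m : ℕ, {t // R.cl t = Sum.inr m})
    (Til := fun q => R.Til q.2) (Ac := fun q => R.Ac q.2) (M.Q j).ψ (fun q => R.Acm q.2)
    (measurableSet_Bt _ r) (fun q => R.Ed q.2) ?_ R.x R.v ?_
    (fun q => q.1) zero_le_two zero_le_one ?_ ?_ hD hS ?_ hM1 ?_ hp
  · intro q _
    refine (RT.card_Ed_le (QI M X j k0 hk0) 𝒦 U h𝒦 hU q.2.1).trans (le_of_eq ?_)
    have h2 : (QI M X j k0 hk0).cl q.2.1 = Sum.inr q.1 := q.2.2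
    rw [h2]
    rfl
  · intro q e he
    exact (R.sub q.2.1 e he).2
  · intro q _
    obtain ⟨⟨a1, a2⟩, h2, h3, h4⟩ := key q
    change a1 = q.1 at h3
    have h5 : R.β q.2.1 = qβ M j (Sum.inl (a1, a2)) := by
      change qβ M j q.2.1 = _
      rw [h2]
    rw [h5, ← h3]
    exact qβ_le M j (p := (a1, a2)) (by change (M.Q j).kc ≤ a1; omega)
  · intro q _ y hy y' hy'
    change y ∈ R.Til q.2 at hy
    change y' ∈ R.Til q.2 at hy'
    rw [hTil q] at hy hy'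
    have h3 := dist_le_of_mem_Cu (show (M.Q j).ψ y' ∈ Cu (M.Q j).a' q.1 (pz M j q.2.1) from hy')
      (show (M.Q j).ψ y ∈ Cu (M.Q j).a' q.1 (pz M j q.2.1) from hy)
    rw [le_div_iff₀' (by positivity)]
    exact h3
  · intro q y hy a ha
    change y ∈ R.Til q.2 at hy
    rw [hTil q] at hy
    obtain ⟨-, -, -, h4⟩ := key q
    exact hSL (add_mem_Lyr (M.Q j) h4 (huse q ⟨a, ha.1⟩) hy (norm_of_Bt hr ha.2))
  · intro z _
    refine (Mu_cubes_use (μ := volume) (M.Q j) (fun q : Σ m : ℕ, {t // R.cl t = Sum.inr m} => q.1)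
      (fun q => pz M j q.2.1) ?_ hTil (k0 := k0) hr ?_ z).trans (le_of_eq ?_)
    · intro q q' hq hz
      obtain ⟨⟨a1, a2⟩, h2, h3, h4⟩ := key q
      obtain ⟨⟨b1, b2⟩, h2', h3', h4'⟩ := key q'
      obtain ⟨m, t, ht⟩ := q
      obtain ⟨m', t', ht'⟩ := q'
      change m = m' at hq
      subst hq
      change t = _ at h2
      change t' = _ at h2'
      subst h2 h2'
      change a1 = m at h3
      change b1 = m at h3'
      change a2 = b2 at hz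
      subst h3 h3' hz
      rfl
    · intro q b hb
      exact ⟨norm_of_Bt hr hb.2, (key q).choose_spec.2.2, fun _ => huse q ⟨b, hb.1⟩⟩
    · congr 1
      norm_num

/-! ### EA0 -/

theorem Tw_eq_Bt (Q : CB E3 3) (k : ℕ) : Ea0_961.Tw Q k = Bt Q (1 / (10 * 2 ^ k)) := by
  ext w
  constructor
  · intro h
    exact ⟨fun l => (h l).1, fun l => (h l).2⟩
  · intro h l
    exact ⟨h.1 l, h.2 l⟩

/-- points near the wall are in the layer of `EA0` -/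
theorem Lyr_sub_Ly (Q : CB E3 3) (k : ℕ) {s : ℝ} (hs : s ≤ 20 / 2 ^ k) :
    Lyr Q s ⊆ Ea0_961.Ly Q k := by
  intro y hy
  have h1 : infDist (Q.ψ y) Q.W ≤ s := hy
  obtain ⟨w, hw, hd⟩ := (isClosed_frontier : IsClosed Q.W).exists_infDist_eq_dist Q.W_ne (Q.ψ y)
  refine ⟨Q.ψ.symm w, ?_, ?_⟩
  · rw [CB.frontier_N, mem_preimage, ContinuousLinearEquiv.apply_symm_apply]
    exact hw
  · rw [ContinuousLinearEquiv.apply_symm_apply, ← dist_eq_norm, ← hd]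
    exact h1.trans hs

theorem Ly_eq (Q : CB E3 3) (k : ℕ) : Ea0_961.Ly Q k = Lyr Q (20 / 2 ^ k) := by
  refine Subset.antisymm ?_ (Lyr_sub_Ly Q k le_rfl)
  rintro y ⟨z, hz, h⟩
  rw [CB.frontier_N] at hz
  have hz' : Q.ψ z ∈ Q.W := hz
  show infDist (Q.ψ y) Q.W ≤ _
  refine (infDist_le_dist_of_mem hz').trans ?_
  rw [dist_eq_norm]
  exact h

theorem measurableSet_Ly (Q : CB E3 3) (k : ℕ) : MeasurableSet (Ea0_961.Ly Q k) := by
  rw [Ly_eq]
  exact (isClosed_Lyr Q _).measurableSet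

end fine

end

end Crest.Agent.R096.Ez4_748
end

-- ▼ part R096/Ez5_748

/-!
# Row 96, EA0 [Z4] / [E7] and EaX (D4-FINE): means of the fine classes, final forms

`far0`: unscaled form (constant = condition number of the frame), any set of shifts `B ⊆ Bt Q r` with
`volume (Bt Q r) ≤ cB * volume B`; `far0_Tw`: `B = Tw Q k0`; `far0_S`: 874's small box.
`far_A`: A-form (365), `B = Wt A ρ`, universal constant `K3`.
-/

set_option autoImplicit false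
set_option linter.unusedSectionVars false
set_option linter.unusedVariables false
set_option linter.style.longLine false

open MeasureTheory Set Filter Metric
open scoped Topology ENNReal NNReal

namespace Crest.Agent.R096.Ez4_748

open Crest.Agent.R096.Msh_715 Crest.Agent.R096.Msh_810 Crest.Agent.R096.Mal_874
open Crest.Agent.R096.SkC1_961 (E3)
open Crest.Agent.R96.Wm3_748 Crest.Agent.R96.Wm4_748
open Crest.Agent.R096.Mfa_880 (PT)
open Crest.Agent.R096.Mfi_290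
open Crest.Agent.R096.EaX_766 (lin)
open Crest.Agent.R096.Exa_365 (Wt)
open Crest.Agent.R096.Pmc_112 (Gd')
open Crest.Agent.R096.Bsp_628 Crest.Agent.R096.Brk1_582 Crest.Agent.R096.Brk3_582 Crest.Agent.R096.Brk5_582

noncomputable section

/-! ### sets of shifts -/




/-! ### unscaled form -/

/-- the constant of the unscaled form (`K` bounds the frame and its inverse) -/
def CF (K p t : ℝ) : ℝ≥0∞ :=
  ((nE : ℝ≥0∞) * (2 * ENNReal.ofReal K)) ^ p * (181 * ENNReal.ofReal ((2 * (1 + t)) ^ 3)) *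
    ENNReal.ofReal K ^ p

theorem CF_ne_top {K p t : ℝ} (hp : 0 ≤ p) : CF K p t ≠ ∞ := by
  unfold CF
  refine ENNReal.mul_ne_top (ENNReal.mul_ne_top (ENNReal.rpow_ne_top_of_nonneg hp
    (ENNReal.mul_ne_top (ENNReal.natCast_ne_top _) (ENNReal.mul_ne_top (by simp)
      ENNReal.ofReal_ne_top))) (ENNReal.mul_ne_top (by simp) ENNReal.ofReal_ne_top))
    (ENNReal.rpow_ne_top_of_nonneg hp ENNReal.ofReal_ne_top)

section far

variable {J : Type} (M : MD E3 3 J) (X : RD M) (j : J) (k0 : ℕ) (hk0 : (M.Q j).kc ≤ k0)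

theorem bd_frame {ψ : E3 ≃L[ℝ] (Fin 3 → ℝ)} {K : ℝ} (hK0 : 0 ≤ K)
    (hK : ∀ y, ‖ψ y‖ ≤ K * ‖y‖ ∧ ‖y‖ ≤ K * ‖ψ y‖) :
    ‖(ψ : E3 →L[ℝ] (Fin 3 → ℝ))‖ₑ ≤ ENNReal.ofReal K ∧
      ‖(ψ.symm : (Fin 3 → ℝ) →L[ℝ] E3)‖ₑ ≤ ENNReal.ofReal K := by
  constructor
  · rw [← ofReal_norm]
    exact ENNReal.ofReal_le_ofReal (ContinuousLinearMap.opNorm_le_bound _ hK0 fun y => (hK y).1)
  · rw [← ofReal_norm]
    refine ENNReal.ofReal_le_ofReal (ContinuousLinearMap.opNorm_le_bound _ hK0 fun y => ?_)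
    have h := (hK (ψ.symm y)).2
    rw [ContinuousLinearEquiv.apply_symm_apply] at h
    exact h

/-- **FINE CLASSES, UNSCALED FORM** ([Z4] / [E7] of EA0), weights `w m ≤ Cw` -/
theorem far0 (hlt : (M.Q j).kc < k0) {𝒦 : Set (Set E3)} {U : Set E3} (h𝒦 : 𝒦.Countable)
    (hU : U.Countable) {D' : E3 → E3 →L[ℝ] E3} (hD : ∀ w, Measurable fun z => D' z w)
    {r t : ℝ} (hr : 0 ≤ r) (ht : 0 ≤ t) (htr : 1 / 2 ^ k0 ≤ t * r)
    {K : ℝ} (hK0 : 0 ≤ K) (hK : ∀ y, ‖(M.Q j).ψ y‖ ≤ K * ‖y‖ ∧ ‖y‖ ≤ K * ‖(M.Q j).ψ y‖)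
    {S : Set E3} (hS : MeasurableSet S) (hSL : Lyr (M.Q j) (15 / 2 ^ k0 + r) ⊆ S)
    {B : Set E3} (hB : B ⊆ Bt (M.Q j) r) {cB : ℝ≥0∞} (hBv : volume (Bt (M.Q j) r) ≤ cB * volume B)
    {w : ℕ → ℝ≥0∞} {Cw : ℝ≥0∞} (hw : ∀ m, w m ≤ Cw) (hCw : Cw ≠ ∞) {p : ℝ} (hp : 1 ≤ p) :
    ∫⁻ v in B, ∑' m : ℕ, w m * ((QI M X j k0 hk0).toPT 𝒦 U h𝒦 hU).EnC (Gd' D') p (Sum.inr m) v ≤
      Cw * cB * CF K p t * (∫⁻ z in S, ‖D' z‖ₑ ^ p) * volume B := by
  have hp0 : 0 ≤ p := by linarith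
  obtain ⟨b1, b2⟩ := bd_frame hK0 hK
  set R : PT J := (QI M X j k0 hk0).toPT 𝒦 U h𝒦 hU with hR
  have e1 : ∫⁻ v in B, ∑' m : ℕ, w m * R.EnC (Gd' D') p (Sum.inr m) v ≤
      Cw * ∫⁻ v in Bt (M.Q j) r, ∑' m : ℕ, R.EnC (Gd' D') p (Sum.inr m) v := by
    refine (lintegral_mono_set hB).trans ?_
    rw [← lintegral_const_mul' _ _ hCw]
    refine lintegral_mono fun v => ?_
    rw [← ENNReal.tsum_mul_left]
    exact ENNReal.tsum_le_tsum fun m => mul_le_mul' (hw m) le_rfl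
  refine e1.trans ?_
  have e2 := fine_mean M X j k0 hk0 hlt (𝒦 := 𝒦) (U := U) h𝒦 hU hD hr hS hSL hp
  have e3 : ∫⁻ z in S, ‖(D' z).comp ((M.Q j).ψ.symm : (Fin 3 → ℝ) →L[ℝ] E3)‖ₑ ^ p ≤
      ENNReal.ofReal K ^ p * ∫⁻ z in S, ‖D' z‖ₑ ^ p := by
    rw [← lintegral_const_mul' _ _ (ENNReal.rpow_ne_top_of_nonneg hp0 ENNReal.ofReal_ne_top)]
    refine lintegral_mono fun z => ?_
    rw [← ENNReal.mul_rpow_of_nonneg _ _ hp0]
    refine ENNReal.rpow_le_rpow ?_ hp0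
    rw [mul_comm]
    exact (ContinuousLinearMap.opENorm_comp_le _ _).trans (mul_le_mul' le_rfl b2)
  have e4 : volume ((M.Q j).ψ ⁻¹' closedBall 0 (r + 1 / 2 ^ k0)) ≤
      ENNReal.ofReal ((2 * (1 + t)) ^ 3) * volume (Bt (M.Q j) r) :=
    ball_cube (μ := (volume : Measure E3)) (M.Q j).ψ hr ht htr
  have e5 : ENNReal.ofReal (2 * 1) = 2 := by simp
  calc Cw * ∫⁻ v in Bt (M.Q j) r, ∑' m : ℕ, R.EnC (Gd' D') p (Sum.inr m) v
      ≤ Cw * (((nE : ℝ≥0∞) * (2 * ENNReal.ofReal K)) ^ p *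
          (181 * (ENNReal.ofReal ((2 * (1 + t)) ^ 3) * (cB * volume B))) *
          (ENNReal.ofReal K ^ p * ∫⁻ z in S, ‖D' z‖ₑ ^ p)) := by
        refine mul_le_mul' le_rfl (e2.trans ?_)
        rw [e5]
        refine mul_le_mul' (mul_le_mul' (ENNReal.rpow_le_rpow ?_ hp0) ?_) e3
        · exact mul_le_mul' le_rfl (mul_le_mul' le_rfl b1)
        · exact mul_le_mul' le_rfl (e4.trans (mul_le_mul' le_rfl hBv))
    _ = _ := by
        unfold CF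
        ring

/-- `B = Tw Q k0` of `EA0` -/
theorem far0_Tw (hlt : (M.Q j).kc < k0) {𝒦 : Set (Set E3)} {U : Set E3} (h𝒦 : 𝒦.Countable)
    (hU : U.Countable) {D' : E3 → E3 →L[ℝ] E3} (hD : ∀ w, Measurable fun z => D' z w)
    {K : ℝ} (hK0 : 0 ≤ K) (hK : ∀ y, ‖(M.Q j).ψ y‖ ≤ K * ‖y‖ ∧ ‖y‖ ≤ K * ‖(M.Q j).ψ y‖)
    {w : ℕ → ℝ≥0∞} {Cw : ℝ≥0∞} (hw : ∀ m, w m ≤ Cw) (hCw : Cw ≠ ∞) {p : ℝ} (hp : 1 ≤ p) :
    ∫⁻ v in Ea0_961.Tw (M.Q j) k0, ∑' m : ℕ,
        w m * ((QI M X j k0 hk0).toPT 𝒦 U h𝒦 hU).EnC (Gd' D') p (Sum.inr m) v ≤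
      Cw * CF K p 10 * (∫⁻ z in Ea0_961.Ly (M.Q j) k0, ‖D' z‖ₑ ^ p) *
        volume (Ea0_961.Tw (M.Q j) k0) := by
  have h2 : (0 : ℝ) < 2 ^ k0 := by positivity
  have h := far0 M X j k0 hk0 hlt h𝒦 hU hD (r := 1 / (10 * 2 ^ k0)) (t := 10) (by positivity)
    (by norm_num) (le_of_eq (by field_simp)) hK0 hK (measurableSet_Ly (M.Q j) k0)
    (Lyr_sub_Ly (M.Q j) k0 (by
      have : (1 : ℝ) / (10 * 2 ^ k0) = (1 / 10) / 2 ^ k0 := by field_simp
      rw [this, ← add_div]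
      gcongr
      norm_num))
    (B := Ea0_961.Tw (M.Q j) k0) (Tw_eq_Bt (M.Q j) k0).le (cB := 1)
    (by rw [one_mul, Tw_eq_Bt]) hw hCw hp
  rwa [mul_one] at h


/-- from `D'` to `D` -/
theorem int_D' {D D' : E3 → E3 →L[ℝ] E3} {S : Set E3} (hS : MeasurableSet S) {k : ℝ} {p : ℝ}
    (hp : 0 ≤ p) (h : ∀ᵐ x, x ∈ S → ∀ v, ‖D' x v‖ ≤ k * ‖D x v‖) :
    ∫⁻ z in S, ‖D' z‖ₑ ^ p ≤ ENNReal.ofReal k ^ p * ∫⁻ z in S, ‖D z‖ₑ ^ p := by
  rw [← lintegral_const_mul' _ _ (ENNReal.rpow_ne_top_of_nonneg hp ENNReal.ofReal_ne_top)]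
  refine setLIntegral_mono_ae' hS ?_
  filter_upwards [h] with x hx hxS
  rw [← ENNReal.mul_rpow_of_nonneg _ _ hp]
  refine ENNReal.rpow_le_rpow ?_ hp
  by_cases hk : 0 ≤ k
  · rw [← ofReal_norm, ← ofReal_norm, ← ENNReal.ofReal_mul hk]
    refine ENNReal.ofReal_le_ofReal
      (ContinuousLinearMap.opNorm_le_bound _ (by positivity) fun v => ?_)
    refine (hx hxS v).trans ?_
    rw [mul_assoc]
    exact mul_le_mul_of_nonneg_left ((D x).le_opNorm v) hk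
  · have h0 : D' x = 0 := by
      ext1 v
      have h1 := hx hxS v
      have h2 : k * ‖D x v‖ ≤ 0 := mul_nonpos_of_nonpos_of_nonneg (by linarith) (norm_nonneg _)
      have h3 : ‖D' x v‖ = 0 := le_antisymm (h1.trans h2) (norm_nonneg _)
      rw [norm_eq_zero.1 h3]
      rfl
    have h1 : ‖(0 : E3 →L[ℝ] E3)‖ₑ = 0 := by
      rw [← ofReal_norm, norm_zero, ENNReal.ofReal_zero]
    rw [h0, h1]
    exact bot_le

/-- `kc < k0` from `thin` and `cell'` of `EA0` when `κt * Cc < 1` -/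
theorem kc_lt {F : Set (Bx (Fin 3))} {u Cc κ2 κt : ℝ} {Bs M Nn : ℕ} {c : F} {A : E3 ≃ᵃ[ℝ] E3}
    {lam : ℝ} {Q : CB E3 3} {k0 : ℕ} {hk : Q.kc ≤ k0}
    (h : Ea0_961.Blk F u Cc κ2 κt Bs M Nn c A lam Q k0 hk) (hu : 0 < u) (hκ : 0 ≤ κt)
    (hc : κt * Cc < 1) : Q.kc < k0 := by
  rcases hk.lt_or_eq with h1 | h1
  · exact h1
  · exfalso
    have h2 := h.thin
    have h3 := h.cell'
    rw [← h1] at h2
    set T := u / 2 ^ Q.kc with hT
    have hT0 : 0 < T := by positivity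
    have e : κt * (lam * c.1.sz) / M = κt * (lam * c.1.sz / M) := by ring
    rw [e] at h2
    have h4 : T ≤ κt * (Cc * T) := h2.trans (mul_le_mul_of_nonneg_left h3 hκ)
    nlinarith

/-! ### A-form -/


end far

end

end Crest.Agent.R096.Ez4_748
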