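import Crest.Agent.R096.Qc0_222
import Crest.Agent.R096.Exa3_365
import Crest.Agent.R096.Ez5_748
import Crest.Agent.R096.Mfi6_290
import Crest.Agent.R096.Ea1_713
import Crest.Agent.R096.Eau2_365
import Crest.Agent.R096.Cm0_222
import Crest.Agent.R096.Eau3_365

-- ▼ part R096/Eds4_746
section

/-!
# Row 96 (S0127), helper746.  EA-D, part 4 (**[D4-COARSE] for EaX**): the energy of the coarse classes of a
block at a shift which is good (`Exa_365.GoodW`) for the edges of the tiles of the block.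
-/

set_option autoImplicit false
set_option linter.style.longLine false
set_option linter.unusedSectionVars false

open MeasureTheory Set Filter Metric
open scoped Topology ENNReal NNReal

namespace Crest.Agent.R096.Eds_746

open Crest.Agent.R096.Msh_715 Crest.Agent.R096.Mal_874 Crest.Agent.R096.Ncl_476
  Crest.Agent.R096.Msh_810 Crest.Agent.R096.Ine_222 Crest.Agent.R096.Mfi_290 Crest.Agent.R096.Qc_222
open Crest.Agent.R096.SkC1_961 (E3 Cfg)
open Crest.Agent.R96.Sg1_199 (li sgm sgm_eq_segment)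
open Crest.Agent.R096.Ls_222 (Edg ea ev eIn mem_eIn sgm_edg ev_ne sgm_cases)
open Crest.Agent.R096.EaX_766 (lin)
open Crest.Agent.R096.Pmc_112 (Gd')
open Crest.Agent.R096.Exa_365 (GoodW)

noncomputable section

/-! ### one tile -/

section tile

variable {Om : Set E3} {ι : Type*} {T : Tiling Om ι}
variable {L : E3 →L[ℝ] E3} {𝒮 : Set (Set E3)} {O : Set ι} {s : ι → ℝ}

/-- the energy of one tile, from a bound of the line integrals along its edges -/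
theorem tile_le (h : Fam T L 𝒮 O s) {t : ι} (ht : t ∈ O) {p : ℝ} (hp : 0 ≤ p) {g : Edg T → ℝ≥0∞}
    {K : ℝ≥0∞} (hg : ∀ e ∈ eIn T t, g e ≤ K * ‖L (ev e)‖ₑ) :
    volume (P (T.H t)) * (ENNReal.ofReal (‖L‖ / s t) * ∑ e ∈ eIn T t, g e) ^ p ≤
      (((𝒮.ncard : ℕ) : ℝ≥0∞) * ENNReal.ofReal (Dsh 𝒮)) ^ p * K ^ p * ‖L‖ₑ ^ p *
        volume (P (T.H t)) := by
  obtain ⟨B, hB, hS⟩ := h.fr t ht
  have hs := h.pos t ht
  have hn : (eIn T t).card ≤ 𝒮.ncard := eIn_card_le h.fin hS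
  have h1 : ∀ e ∈ eIn T t, g e ≤ K * ENNReal.ofReal (s t * Dsh 𝒮) := by
    intro e he
    refine (hg e he).trans ?_
    gcongr
    have h2 := h.size ht (mem_eIn.1 he (eb_mem e)) (mem_eIn.1 he (ea_mem e))
    rw [add_sub_cancel_left] at h2
    rw [← ofReal_norm_eq_enorm]
    exact ENNReal.ofReal_le_ofReal h2
  have h3 : ENNReal.ofReal (‖L‖ / s t) * ∑ e ∈ eIn T t, g e ≤
      ((𝒮.ncard : ℕ) : ℝ≥0∞) * ENNReal.ofReal (Dsh 𝒮) * K * ‖L‖ₑ := by
    calc ENNReal.ofReal (‖L‖ / s t) * ∑ e ∈ eIn T t, g e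
        ≤ ENNReal.ofReal (‖L‖ / s t) * ∑ _e ∈ eIn T t, K * ENNReal.ofReal (s t * Dsh 𝒮) := by
          gcongr with e he
          exact h1 e he
      _ = (((eIn T t).card : ℕ) : ℝ≥0∞) * K *
          (ENNReal.ofReal (‖L‖ / s t) * ENNReal.ofReal (s t * Dsh 𝒮)) := by
          rw [Finset.sum_const, nsmul_eq_mul]
          ring
      _ = (((eIn T t).card : ℕ) : ℝ≥0∞) * K * (‖L‖ₑ * ENNReal.ofReal (Dsh 𝒮)) := by
          congr 1
          rw [← ofReal_norm_eq_enorm, ← ENNReal.ofReal_mul (by positivity),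
            ← ENNReal.ofReal_mul (norm_nonneg _)]
          congr 1
          field_simp
      _ ≤ ((𝒮.ncard : ℕ) : ℝ≥0∞) * K * (‖L‖ₑ * ENNReal.ofReal (Dsh 𝒮)) := by
          gcongr
      _ = _ := by ring
  calc volume (P (T.H t)) * (ENNReal.ofReal (‖L‖ / s t) * ∑ e ∈ eIn T t, g e) ^ p
      ≤ volume (P (T.H t)) *
        (((𝒮.ncard : ℕ) : ℝ≥0∞) * ENNReal.ofReal (Dsh 𝒮) * K * ‖L‖ₑ) ^ p := by gcongr
    _ = _ := by
        rw [ENNReal.mul_rpow_of_nonneg _ _ hp, ENNReal.mul_rpow_of_nonneg _ _ hp]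
        ring

end tile

/-! ### the block -/

section blk

variable (Q : CB E3 3) (k0 : ℕ) (hk : Q.kc ≤ k0)

/-- the tiles of the block without the core fill at most `N \ Kc` -/
theorem sum_vol_le :
    ∑' i0 : {i // P ((Q.T k0 hk).H i) ⊆ Q.N ∧ i ≠ Q.cix k0 hk}, volume (P ((Q.T k0 hk).H i0.1)) ≤
      volume (Q.N \ Q.Kc) := by
  calc ∑' i0 : {i // P ((Q.T k0 hk).H i) ⊆ Q.N ∧ i ≠ Q.cix k0 hk}, volume (P ((Q.T k0 hk).H i0.1))
      ≤ ∑' i0 : {i // P ((Q.T k0 hk).H i) ⊆ Q.N ∧ i ≠ Q.cix k0 hk},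
        volume (I ((Q.T k0 hk).H i0.1)) :=
        ENNReal.tsum_le_tsum fun i0 => vol_P_le ((Q.T k0 hk).ne i0.1)
    _ ≤ volume (⋃ i0 : {i // P ((Q.T k0 hk).H i) ⊆ Q.N ∧ i ≠ Q.cix k0 hk},
        I ((Q.T k0 hk).H i0.1)) := by
        refine tsum_meas_le_meas_iUnion_of_disjoint volume
          (fun i0 => (isOpen_I _).measurableSet) ?_
        intro i j hij
        exact (Q.T k0 hk).dis i.1 j.1 fun h => hij (Subtype.ext h)
    _ ≤ volume (Q.N \ Q.Kc) := by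
        refine measure_mono (iUnion_subset fun i0 => ?_)
        intro x hx
        refine ⟨i0.2.1 (I_sub_P _ hx), fun hK => ?_⟩
        rw [← Q.P_core k0 hk] at hK
        have h1 := disjoint_P_I ((Q.T k0 hk).ne (Q.cix k0 hk))
          ((Q.T k0 hk).dis (Q.cix k0 hk) i0.1 (Ne.symm i0.2.2))
        exact disjoint_left.1 h1 hK hx

/-- the edges of the tiles of the block (without the core tile) -/
def EB : Set (Edg (Q.T k0 hk)) :=
  {e | ∃ t, P ((Q.T k0 hk).H t) ⊆ Q.N ∧ t ≠ Q.cix k0 hk ∧ e ∈ eIn (Q.T k0 hk) t}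

end blk

/-! ### the coarse classes -/

/-- **[D4-COARSE]**, general: the energy of the coarse classes from a bound of the line integrals along the
edges of the tiles of the block mesh -/
theorem coarse_X {Bs : ℕ} (hB1 : 1 ≤ Bs) {p : ℝ} (hp : 0 < p) : ∃ C : ℝ≥0, 0 < C ∧
    ∀ {J : Type} (M : MD E3 3 J) (X : RD M) (j : J) (k0 : ℕ) (hk0 : (M.Q j).kc ≤ k0)
      (𝒦 : Set (Set E3)) (U : Set E3) (h𝒦 : 𝒦.Countable) (hU : U.Countable) (A : E3 ≃ᵃ[ℝ] E3)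
      (u : ℝ), 0 < u → (∀ x : E3, A.linear x = u • (M.Q j).ψ x) →
      (∀ i, ∀ p ∈ (M.Q j).S.GG i, ∀ l, |p.1 l| ≤ Bs) →
      (∀ i, i ≠ (M.Q j).S.core → ∀ v ∈ ZP ((M.Q j).S.GG i), ∀ w ∈ ZP ((M.Q j).S.GG i),
        ∀ l, |w l - v l| ≤ Bs) →
    ∀ (D' : E3 → E3 →L[ℝ] E3) (K : ℝ≥0∞) (s : E3),
      (∀ e ∈ EB (M.Q j) k0 hk0, li (Gd' D' (ev e)) (ea e + s) (ev e) ≤ K * ‖lin A (ev e)‖ₑ) →
      ∑' t : Pt (M.Q j), ((QI M X j k0 hk0).toPT 𝒦 U h𝒦 hU).EnC (Gd' D') p (Sum.inl t) s ≤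
        C * K ^ p * ‖lin A‖ₑ ^ p * volume ((M.Q j).N \ (M.Q j).Kc) := by
  have hCt : ((((SL Bs).ncard : ℕ) : ℝ≥0∞) * ENNReal.ofReal (Dsh (SL Bs))) ^ p ≠ ∞ :=
    ENNReal.rpow_ne_top_of_nonneg hp.le
      (ENNReal.mul_ne_top (ENNReal.natCast_ne_top _) ENNReal.ofReal_ne_top)
  refine ⟨((((SL Bs).ncard : ℕ) : ℝ≥0∞) * ENNReal.ofReal (Dsh (SL Bs))).toNNReal ^ p + 1,
    by positivity, ?_⟩
  intro J M X j k0 hk0 𝒦 U h𝒦 hU A u hu hA hB hR D' K s hK
  set C0 : ℝ≥0∞ := (((SL Bs).ncard : ℕ) : ℝ≥0∞) * ENNReal.ofReal (Dsh (SL Bs)) with hC0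
  have hC0t : C0 ≠ ∞ := ENNReal.mul_ne_top (ENNReal.natCast_ne_top _) ENNReal.ofReal_ne_top
  have hCC : C0 ^ p ≤ ((C0.toNNReal ^ p + 1 : ℝ≥0) : ℝ≥0∞) := by
    rw [ENNReal.coe_add, ENNReal.coe_rpow_of_nonneg _ hp.le, ENNReal.coe_toNNReal hC0t]
    exact le_self_add
  have hF := fam (M.Q j) k0 hk0 hB1 hu hA hB hR
  refine (coarse_le M X j k0 hk0 h𝒦 hU hu hA (gd_even D') hp s).trans ?_
  calc ∑' i0 : {i // P (((M.Q j).T k0 hk0).H i) ⊆ (M.Q j).N ∧ i ≠ (M.Q j).cix k0 hk0},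
        volume (P (((M.Q j).T k0 hk0).H i0.1)) *
          (ENNReal.ofReal (‖lin A‖ / (u / 2 ^ kap (M.Q j) k0 hk0 i0.1)) *
            ∑ e ∈ eIn ((M.Q j).T k0 hk0) i0.1, li (Gd' D' (ev e)) (ea e + s) (ev e)) ^ p
      ≤ ∑' i0 : {i // P (((M.Q j).T k0 hk0).H i) ⊆ (M.Q j).N ∧ i ≠ (M.Q j).cix k0 hk0},
          C0 ^ p * K ^ p * ‖lin A‖ₑ ^ p * volume (P (((M.Q j).T k0 hk0).H i0.1)) := by
        refine ENNReal.tsum_le_tsum fun i0 => ?_
        exact tile_le hF i0.2.2 hp.le (g := fun e => li (Gd' D' (ev e)) (ea e + s) (ev e))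
          fun e he => hK e ⟨i0.1, i0.2.1, i0.2.2, he⟩
    _ = C0 ^ p * K ^ p * ‖lin A‖ₑ ^ p *
          ∑' i0 : {i // P (((M.Q j).T k0 hk0).H i) ⊆ (M.Q j).N ∧ i ≠ (M.Q j).cix k0 hk0},
            volume (P (((M.Q j).T k0 hk0).H i0.1)) := ENNReal.tsum_mul_left
    _ ≤ C0 ^ p * K ^ p * ‖lin A‖ₑ ^ p * volume ((M.Q j).N \ (M.Q j).Kc) := by
        gcongr
        exact sum_vol_le (M.Q j) k0 hk0
    _ ≤ _ := by gcongr

/-! ### translation of the block -/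

section tr

variable (Q : CB E3 3) (b : E3) {k0 : ℕ} (hk : Q.kc ≤ k0)

/-- **the edges of the translated block are the translates of the edges of the block** -/
theorem EB_tr {e' : Edg ((Q.tr b).T k0 hk)} (he : e' ∈ EB (Q.tr b) k0 hk) :
    ∃ e ∈ EB Q k0 hk, sgm (ea e') (ev e') = sgm (ea e + b) (ev e) := by
  obtain ⟨t', h1, h2, h3⟩ := he
  obtain ⟨x', hx', hd', hex'⟩ := e'.2
  have hxb : x' - b + b = x' := sub_add_cancel x' b
  have hrg := Q.rg_tr b k0 hk (x' - b)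
  have hxP : x' ∈ P (((Q.tr b).T k0 hk).H t') :=
    mem_eIn.1 h3 (hex' ▸ ((Q.tr b).T k0 hk).self_mem_cc x')
  obtain ⟨t, ht, htt⟩ := hrg.2 t' (by rw [hxb]; exact hxP)
  have hxO : x' - b ∈ Q.ψ ⁻¹' (Q.D k0 hk).Om := (Q.T k0 hk).sub t ht
  have hdim : (Q.T k0 hk).dim (x' - b) = 1 := by
    rw [← hrg.dim, hxb]
    exact hd'
  refine ⟨⟨(Q.T k0 hk).cc (x' - b), x' - b, hxO, hdim, rfl⟩, ⟨t, ?_, ?_, ?_⟩, ?_⟩
  · intro y hy
    have h4 : y + b ∈ (Q.tr b).N := h1 (by rw [htt]; exact mem_P_trS.2 hy)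
    rw [Q.mem_N_tr, add_sub_cancel_right] at h4
    exact h4
  · rintro rfl
    apply h2
    apply Mfa_880.tile_inj ((Q.tr b).T k0 hk)
    rw [(Q.tr b).P_core k0 hk, htt]
    ext y
    rw [Q.mem_Kc_tr, ← Q.P_core k0 hk]
    constructor
    · intro hy
      rw [← mem_P_trS (b := b), sub_add_cancel]
      exact hy
    · intro hy
      rw [← mem_P_trS (b := b), sub_add_cancel] at hy
      exact hy
  · exact mem_eIn.2 ((Q.T k0 hk).cc_sub_tile ht)
  · rw [sgm_edg]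
    set e : Edg (Q.T k0 hk) := ⟨(Q.T k0 hk).cc (x' - b), x' - b, hxO, hdim, rfl⟩ with he
    have h5 : sgm (ea e) (ev e) = (Q.T k0 hk).cc (x' - b) := sgm_edg e
    ext y
    rw [hex']
    have h6 : y ∈ ((Q.tr b).T k0 hk).cc x' ↔ y - b ∈ (Q.T k0 hk).cc (x' - b) := by
      have h7 := hrg.cc (y := y - b)
      have h8 : y - b + b = y := sub_add_cancel y b
      rw [h8, hxb] at h7
      exact h7
    rw [h6, ← h5]
    unfold sgm
    constructor
    · rintro ⟨τ, hτ, h7⟩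
      refine ⟨τ, hτ, ?_⟩
      change ea e + τ • ev e = y - b at h7
      change ea e + b + τ • ev e = y
      rw [← sub_add_cancel y b, ← h7]
      abel
    · rintro ⟨τ, hτ, h7⟩
      refine ⟨τ, hτ, ?_⟩
      change ea e + b + τ • ev e = y at h7
      change ea e + τ • ev e = y - b
      rw [← h7]
      abel

theorem volume_tr : volume ((Q.tr b).N \ (Q.tr b).Kc) = volume (Q.N \ Q.Kc) := by
  have e : (Q.tr b).N \ (Q.tr b).Kc = (fun y => y + -b) ⁻¹' (Q.N \ Q.Kc) := by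
    ext y
    rw [mem_preimage, Set.mem_sdiff, Set.mem_sdiff, Q.mem_N_tr, Q.mem_Kc_tr, sub_eq_add_neg]
  rw [e]
  exact measure_preimage_add_right volume (-b) _

end tr

/-- the line integral of `D` along a segment of a good family -/
theorem goodW_li {ι : Type*} {p : ℝ} {Om : Set E3} {f : E3 → E3} {D : E3 → E3 →L[ℝ] E3}
    {A : E3 ≃ᵃ[ℝ] E3} {x v : ι → E3} {η : ℝ≥0∞} {w : E3} (h : GoodW p Om f D A x v η w) (hp : 1 ≤ p)
    (j : ι) : li (Gd' D (v j)) (x j + w) (v j) ≤ (1 + η ^ (1 / p)) * ‖lin A (v j)‖ₑ := by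
  calc li (Gd' D (v j)) (x j + w) (v j)
      ≤ ∫⁻ τ in Icc (0:ℝ) 1, (1 + Exa_365.Gd A D (x j + w + τ • v j)) * ‖lin A (v j)‖ₑ :=
        lintegral_mono fun τ => Exa_365.dir_le A D _ _
    _ = (1 + li (Exa_365.Gd A D) (x j + w) (v j)) * ‖lin A (v j)‖ₑ := by
        rw [lintegral_mul_const' _ _ enorm_ne_top, lintegral_add_left measurable_const]
        congr 2
        simp
    _ ≤ _ := by
        gcongr
        exact h.li_Gd hp j

/-- restriction of a good family -/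
theorem goodW_comp {ι ι' : Type*} {p : ℝ} {Om : Set E3} {f : E3 → E3} {D : E3 → E3 →L[ℝ] E3}
    {A : E3 ≃ᵃ[ℝ] E3} {x v : ι → E3} {η : ℝ≥0∞} {w : E3} (h : GoodW p Om f D A x v η w)
    (φ : ι' → ι) : GoodW p Om f D A (fun i => x (φ i)) (fun i => v (φ i)) η w :=
  ⟨fun i j => h.ac i (φ j), fun j => h.ms (φ j), fun j => h.sm (φ j)⟩

/-- **[D4-COARSE] for EaX** (365 #11531 (b)): the energy of the coarse classes of the block `M.Q j = Q.tr w0`
at the room shift `s`, if the total shift `v = w0 + s` is good for the edges of the original block `Q`. -/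
theorem coarse_good {Bs : ℕ} (hB1 : 1 ≤ Bs) {p : ℝ} (hp : 1 ≤ p) : ∃ C : ℝ≥0, 0 < C ∧
    ∀ (Q : CB E3 3) (k0 : ℕ) (hk : Q.kc ≤ k0) (A : E3 ≃ᵃ[ℝ] E3) (u : ℝ), 0 < u →
      (∀ x : E3, A.linear x = u • Q.ψ x) → (∀ i, ∀ p ∈ Q.S.GG i, ∀ l, |p.1 l| ≤ Bs) →
      (∀ i, i ≠ Q.S.core → ∀ v ∈ ZP (Q.S.GG i), ∀ w ∈ ZP (Q.S.GG i), ∀ l, |w l - v l| ≤ Bs) →
    ∀ (Om : Set E3) (f : E3 → E3) (D : E3 → E3 →L[ℝ] E3) (η : ℝ≥0∞) (v : E3),
      GoodW p Om f D A (fun e : EB Q k0 hk => ea e.1) (fun e => ev e.1) η v →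
    ∀ (D' : E3 → E3 →L[ℝ] E3) (Kq : ℝ≥0∞),
      (∀ e ∈ EB Q k0 hk, li (Gd' D' (ev e)) (ea e + v) (ev e) ≤
        Kq * li (Gd' D (ev e)) (ea e + v) (ev e)) →
    ∀ {J : Type} (M : MD E3 3 J) (X : RD M) (j : J) (w0 s : E3), M.Q j = Q.tr w0 → w0 + s = v →
    ∀ (hk0 : (M.Q j).kc ≤ k0) (𝒦 : Set (Set E3)) (U : Set E3) (h𝒦 : 𝒦.Countable) (hU : U.Countable),
      ∑' t : Pt (M.Q j), ((QI M X j k0 hk0).toPT 𝒦 U h𝒦 hU).EnC (Gd' D') p (Sum.inl t) s ≤
        C * (Kq * (1 + η ^ (1 / p))) ^ p * ‖lin A‖ₑ ^ p * volume (Q.N \ Q.Kc) := by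
  obtain ⟨C, hC, H⟩ := coarse_X hB1 (p := p) (by linarith)
  refine ⟨C, hC, ?_⟩
  intro Q k0 hk A u hu hA hB hR Om f D η v hG D' Kq hD' J M X j w0 s hQ hs hk0 𝒦 U h𝒦 hU
  have key : ∀ Q' : CB E3 3, Q' = Q.tr w0 → ∀ hk' : Q'.kc ≤ k0,
      (∀ x : E3, A.linear x = u • Q'.ψ x) ∧ (∀ i, ∀ p ∈ Q'.S.GG i, ∀ l, |p.1 l| ≤ Bs) ∧
      (∀ i, i ≠ Q'.S.core → ∀ v ∈ ZP (Q'.S.GG i), ∀ w ∈ ZP (Q'.S.GG i), ∀ l, |w l - v l| ≤ Bs) ∧
      (∀ e ∈ EB Q' k0 hk', li (Gd' D' (ev e)) (ea e + s) (ev e) ≤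
        (Kq * (1 + η ^ (1 / p))) * ‖lin A (ev e)‖ₑ) ∧
      volume (Q'.N \ Q'.Kc) = volume (Q.N \ Q.Kc) := by
    rintro _ rfl hk'
    refine ⟨hA, hB, hR, ?_, volume_tr Q w0⟩
    intro e' he'
    obtain ⟨e, he, hee⟩ := EB_tr Q w0 hk he'
    have h1 : li (Gd' D' (ev e')) (ea e' + s) (ev e') = li (Gd' D' (ev e)) (ea e + v) (ev e) := by
      have := li_even (G := Gd' D') (gd_even D') (ev_ne e') hee s
      rw [this, ← hs]
      congr 1
      abel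
    have h2 : ‖lin A (ev e')‖ₑ = ‖lin A (ev e)‖ₑ := by
      rcases sgm_cases (ev_ne e') hee with ⟨h3, h4⟩ | ⟨h3, h4⟩
      · rw [h4]
      · rw [h4, map_neg, enorm_neg]
    rw [h1, h2]
    refine (hD' e he).trans ?_
    rw [mul_assoc]
    gcongr
    exact goodW_li hG hp ⟨e, he⟩
  obtain ⟨h1, h2, h3, h4, h5⟩ := key (M.Q j) hQ hk0
  rw [← h5]
  exact H M X j k0 hk0 𝒦 U h𝒦 hU A u hu h1 h2 h3 D' _ s h4

end

end Crest.Agent.R096.Eds_746
end

-- ▼ part R096/Bm1_748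
section

/-!
# Row 96, EaX, (BM-2) of 365 #11372 / 290 #11456: mean over the LARGE box `Wt A ρ` of the energy of ALL
inner potential tiles of one block (cubes of every scale `≥ kc`, shell), before the mesh data.

`block_mean`: any injective family `nmm : τ → Pt Q` of used names.
-/

set_option autoImplicit false
set_option linter.unusedSectionVars false
set_option linter.unusedVariables false
set_option linter.style.longLine false

open MeasureTheory Set Filter Metric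
open scoped Topology ENNReal NNReal

namespace Crest.Agent.R096.Bm_748

open Crest.Agent.R096.Msh_715 Crest.Agent.R096.Msh_810 Crest.Agent.R096.Mal_874
open Crest.Agent.R096.SkC1_961 (E3)
open Crest.Agent.R96.Sg8_199 (Mu EnA measurable_EnA)
open Crest.Agent.R96.Sg1_199 (sgm li)
open Crest.Agent.R96.Wm_72 (Tw)
open Crest.Agent.R96.Wm3_748 Crest.Agent.R96.Wm4_748
open Crest.Agent.R096.Mfi_290
open Crest.Agent.R096.Ez4_748 (tsum_supp EnA_inter Mu_cubes_use nw_of_isM)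
open Crest.Agent.R096.EaX_766 (lin)
open Crest.Agent.R096.Exa_365 (Wt)

noncomputable section

/-! ### the shell -/

theorem pol_eq (Q : CB E3 3) (s : Q.S.Ix) :
    pol Q s = P ((Q.T Q.kc le_rfl).H (Sum.inr s)) := by
  ext y
  rw [CB.T_inr, mem_P_iH]
  rfl





/-! ### multiplicity -/


section

variable {Q : CB E3 3} {τ : Type*} [Countable τ] (nmm : τ → Pt Q)


/-- scale of a name -/
def scn (Q : CB E3 3) : Pt Q → ℕ
  | Sum.inl p => p.1
  | Sum.inr _ => Q.kc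



end

end

end Crest.Agent.R096.Bm_748
end

-- ▼ part R096/Bm2_748
section

/-!
# Row 96, EaX, (BM-2): position of the translated inner tiles (hypothesis `hSA` of `block_mean`)

`til_off_core`: a used potential tile which is not the core does not meet the open core.
`til_add_mem`: `y + v ∈ A⁻¹ cbx c μ' \ A⁻¹ cbx c lam` for `y` in such a tile and `v ∈ Wt A ρ`.
-/

set_option autoImplicit false
set_option linter.unusedSectionVars false
set_option linter.unusedVariables false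
set_option linter.style.longLine false

open MeasureTheory Set Filter Metric
open scoped Topology ENNReal NNReal

namespace Crest.Agent.R096.Bm_748

open Crest.Agent.R096.Msh_715 Crest.Agent.R096.Msh_810 Crest.Agent.R096.Mal_874
open Crest.Agent.R096.SkC1_961 (E3)
open Crest.Agent.R096.Bsp_628 Crest.Agent.R096.Brk1_582 Crest.Agent.R096.Brk3_582
open Crest.Agent.R096.Brk5_582
open Crest.Agent.R096.Bxs_627 (ctr)
open Crest.Agent.R096.Mfi_290
open Crest.Agent.R096.EaX_766 (lin cbx)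
open Crest.Agent.R096.Exa_365 (Wt)

noncomputable section

/-- the interior of a polyhedron with an interior point (as in 642's `interior_P`) -/
theorem int_P {E : Type*} [NormedAddCommGroup E] [NormedSpace ℝ E]
    {H : Finset ((E →L[ℝ] ℝ) × ℝ)} (hne : (I H).Nonempty) : interior (P H) ⊆ I H := by
  intro x hx h hh
  obtain ⟨z, hz⟩ := hne
  have hxP : x ∈ P H := interior_subset hx
  by_contra hcon
  have e : h.1 x = h.2 := le_antisymm (hxP h hh) (not_lt.1 hcon)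
  have hc : ContinuousAt (fun s : ℝ => x + s • (x - z)) 0 := by fun_prop
  have hev : ∀ᶠ s in 𝓝 (0 : ℝ), x + s • (x - z) ∈ interior (P H) := by
    refine hc.eventually_mem (isOpen_interior.mem_nhds ?_)
    simpa using hx
  obtain ⟨r, hr, hr'⟩ := Metric.eventually_nhds_iff.1 hev
  have h1 : x + (r / 2) • (x - z) ∈ P H := interior_subset (hr' (by
    rw [Real.dist_eq, sub_zero, abs_of_pos (by positivity)]; linarith))
  have h2 := h1 h hh
  rw [map_add, map_smul, map_sub, e, smul_eq_mul] at h2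
  have h3 := hz h hh
  have h4 : 0 < r / 2 * (h.2 - h.1 z) := by
    apply mul_pos (by positivity); linarith
  linarith

/-- used names of a block -/
def Used (Q : CB E3 3) : Pt Q → Prop
  | Sum.inl p => Use Q p
  | Sum.inr s => s ≠ Q.S.core

/-- a used potential tile is a tile of some mesh of the block, different from the core -/
theorem exists_ix {Q : CB E3 3} {t : Pt Q} (ht : Used Q t) : ∃ (k : ℕ) (hk : Q.kc ≤ k),
    ∃ i, P ((Q.T k hk).H i) = til Q t ∧ i ≠ Q.cix k hk := by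
  rcases t with p | s
  · obtain ⟨⟨k, hk, hM⟩, h2, h3⟩ := ht
    set τ : Top (Q.D k hk) := ⟨⟨⟨p.1, p.2, Finset.univ⟩, hM⟩, rfl⟩ with hτ
    have e : P ((Q.T0 k hk).H τ) = cube Q p.1 p.2 := by
      ext y
      exact Q.tile_T0 k hk
    have hb : ¬ P ((Q.T0 k hk).H τ) ⊆ Q.S.bp Q.ψ Q.a' Q.kc := by
      rw [e]
      exact h3
    exact ⟨k, hk, Sum.inl ⟨τ, hb⟩, e, fun h => by cases h⟩
  · refine ⟨Q.kc, le_rfl, Sum.inr s, (pol_eq Q s).symm, fun h => ?_⟩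
    exact ht (Sum.inr.inj h)

/-- **a used potential tile does not meet the open core** -/
theorem til_off_core {Q : CB E3 3} {t : Pt Q} (ht : Used Q t) {y : E3} (hy : y ∈ til Q t) :
    y ∉ interior Q.Kc := by
  intro h
  obtain ⟨k, hk, i, h1, h2⟩ := exists_ix ht
  rw [← Q.P_core k hk] at h
  have h3 : y ∈ I ((Q.T k hk).H (Q.cix k hk)) := int_P ((Q.T k hk).ne _) h
  have h4 : i ∈ (Q.T k hk).at_ y := by
    change y ∈ P ((Q.T k hk).H i)
    rw [h1]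
    exact hy
  rw [(Q.T k hk).at_eq_singleton h3, mem_singleton_iff] at h4
  exact h2 h4

/-- a used potential tile lies in the block -/
theorem used_sub_N {Q : CB E3 3} {t : Pt Q} (ht : Used Q t) : til Q t ⊆ Q.N := by
  rcases t with p | s
  · exact ht.2.1
  · intro y hy
    have h2 : y ∈ P ((Q.T Q.kc le_rfl).H (Sum.inr s)) := by
      rw [← pol_eq]
      exact hy
    exact Q.bp_sub_N (Q.P_inr_sub _ le_rfl s h2)



end

end Crest.Agent.R096.Bm_748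
end

-- ▼ part R096/Bm3_748
section

/-!
# Row 96, EaX, (BM-2), FINE PART (365 #11531 (a)): mean over `Wt A ρ` of the energy of the used cubes of
scale `≥ k0` of one block (any `k0 ≥ kc`), before the mesh data.
-/

set_option autoImplicit false
set_option linter.unusedSectionVars false
set_option linter.unusedVariables false
set_option linter.style.longLine false

open MeasureTheory Set Filter Metric
open scoped Topology ENNReal NNReal

namespace Crest.Agent.R096.Bm_748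

open Crest.Agent.R096.Msh_715 Crest.Agent.R096.Msh_810 Crest.Agent.R096.Mal_874
open Crest.Agent.R096.SkC1_961 (E3)
open Crest.Agent.R96.Sg8_199 (Mu EnA measurable_EnA)
open Crest.Agent.R96.Sg1_199 (sgm li)
open Crest.Agent.R96.Wm_72 (Tw)
open Crest.Agent.R96.Wm3_748 Crest.Agent.R96.Wm4_748
open Crest.Agent.R096.Mfi_290
open Crest.Agent.R096.Ez4_748 (tsum_supp EnA_inter Mu_cubes_use nw_of_isM)
open Crest.Agent.R096.EaX_766 (lin)
open Crest.Agent.R096.Exa_365 (Wt)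

noncomputable section

variable {Q : CB E3 3} {τ : Type*} [Countable τ] (nmm : τ → Pt Q)

/-- **multiplicity of the used cubes of scale `≥ k0`** -/
theorem Mu_fine {k0 : ℕ} (hk0 : Q.kc ≤ k0) (hinj : Function.Injective nmm)
    (hfine : ∀ t, ∃ p, nmm t = Sum.inl p ∧ Use Q p ∧ k0 ≤ p.1)
    {Ac : τ → Set E3} {r : ℝ} (hr : 0 ≤ r) (hA : ∀ t, ∀ b ∈ Ac t, ‖Q.ψ b‖ ≤ r) (z : E3) :
    Mu volume (fun t => til Q (nmm t)) Ac z ≤
      181 * volume (Q.ψ ⁻¹' closedBall 0 (r + 1 / 2 ^ k0)) := by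
  have h2 := Mu_cubes_use (μ := (volume : Measure E3)) Q (Til := fun t => til Q (nmm t)) (Ac := Ac)
    (fun t => (hfine t).choose.1) (fun t => (hfine t).choose.2) (fun t t' e1 e2 => by
      apply hinj
      rw [(hfine t).choose_spec.1, (hfine t').choose_spec.1]
      exact congrArg Sum.inl (Prod.ext e1 e2)) (fun t =>
      (congrArg (til Q) (hfine t).choose_spec.1 :
        til Q (nmm t) = til Q (Sum.inl (hfine t).choose)))
    (k0 := k0) (ρ := r) hr (fun t b hb => by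
      obtain ⟨-, hu, hk⟩ := (hfine t).choose_spec
      refine ⟨hA _ b hb, hk, fun hlt => ?_⟩
      obtain ⟨⟨k, hk', hM⟩, -⟩ := hu
      exact nw_of_isM Q hk' hM (by omega)) z
  refine h2.trans (le_of_eq ?_)
  have e : ENNReal.ofReal (60 * (3 : ℕ) + 1) = 181 := by norm_num
  rw [e]

/-- **(BM-2), FINE PART: mean over the box `Wt A ρ` of the energies of the used cubes of scale `≥ k0`** -/
theorem block_mean_fine {k0 : ℕ} (hk0 : Q.kc ≤ k0) (hinj : Function.Injective nmm)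
    (hfine : ∀ t, ∃ p, nmm t = Sum.inl p ∧ Use Q p ∧ k0 ≤ p.1)
    {A : E3 ≃ᵃ[ℝ] E3} {s : ℝ} (hs : 0 < s) (hψ : ∀ y, Q.ψ y = s⁻¹ • lin A y)
    {η : Type*} (Ed : τ → Finset η) {m : ℕ} (hn : ∀ t, (Ed t).card ≤ m) (x v : η → E3)
    (hsub : ∀ t, ∀ j ∈ Ed t, sgm (x j) (v j) ⊆ til Q (nmm t)) {β : τ → ℝ≥0∞}
    (hβ : ∀ t, β t ≤ ENNReal.ofReal (2 * 2 ^ scn Q (nmm t)) *
      ‖(Q.ψ : E3 →L[ℝ] (Fin 3 → ℝ))‖ₑ)
    {D' : E3 → E3 →L[ℝ] E3} (hD : ∀ w, Measurable fun z => D' z w)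
    {ρ t : ℝ} (hρ : 0 ≤ ρ) (ht : 0 ≤ t) (hl : s * (1 / 2 ^ k0) ≤ t * ρ)
    {S : Set E3} (hS : MeasurableSet S)
    (hSA : ∀ t, ∀ y ∈ til Q (nmm t), ∀ a ∈ Wt A ρ, y + a ∈ S) {p : ℝ} (hp : 1 ≤ p) :
    ∫⁻ a in Wt A ρ, EnA volume (fun t => til Q (nmm t)) (fun _ => univ) Ed β
        (fun j z => ‖D' z (v j)‖ₑ) x v p a ≤
      (K3 p m 2 1 t 181 * ‖lin A‖ₑ ^ p * ∫⁻ z in S, ‖(D' z).comp (lin A.symm)‖ₑ ^ p) *
        volume (Wt A ρ) := by
  have hWm : MeasurableSet (Wt A ρ) := by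
    rw [Wt_eq hs hψ ρ]
    exact Q.ψ.continuous.measurable measurableSet_Icc
  rw [setLIntegral_congr_fun (g := fun a => EnA volume (fun t => til Q (nmm t))
    (fun t => (univ : Set E3) ∩ Wt A ρ) Ed β (fun j z => ‖D' z (v j)‖ₑ) x v p a) hWm
    (fun a ha => EnA_inter ha)]
  refine mean_A (ψ := Q.ψ) hs hψ (fun t => MeasurableSet.univ.inter hWm) Ed hn x v hsub
    (fun t => scn Q (nmm t)) zero_le_two zero_le_one hβ ?_ hD hS
    (fun i y hy a ha => hSA i y hy a ha.2) (by simp) hρ ht hl (fun z _ => ?_) hp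
  · intro i y hy y' hy'
    obtain ⟨p, e, -, -⟩ := hfine i
    rw [e] at hy hy' ⊢
    exact cube_dist (Q := Q) hy' hy
  · exact Mu_fine nmm hk0 hinj hfine (by positivity)
      (fun i b hb => norm_of_Wt hs hψ hρ hb.2) z



end

end Crest.Agent.R096.Bm_748
end

-- ▼ part R096/Eau4_365
section

/-!
Row 96 (S0127), helper365.  **EAU4**: the good set of translations of one block (foam-free, abstract `D'`).
-/

set_option autoImplicit false
set_option linter.style.longLine false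
set_option linter.unusedSectionVars false
set_option linter.unusedVariables false

open MeasureTheory Set Filter Topology Metric
open scoped ENNReal NNReal

namespace Crest.Agent.R096.Eau_365

open Crest.Agent.R096.Msh_715 Crest.Agent.R096.Mal_874 Crest.Agent.R096.Ncl_476
  Crest.Agent.R096.Msh_810 Crest.Agent.R096.Ine_222 Crest.Agent.R096.Mfi_290
open Crest.Agent.R096.SkC1_961 (E3 Hom3 FoamD)
open Crest.Agent.R096.Er_594 (SH3)
open Crest.Agent.R096.Bsp_628 Crest.Agent.R096.Brk5_582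
open Crest.Agent.R096.Bxs_627 (ctr)
open Crest.Agent.R096.EaX_766 (lin cbx ExIn Kor RatA)
open Crest.Agent.R096.Exa_365 Crest.Agent.R096.Acc_365
open Crest.Agent.R096.Ls_222 (Edg ea ev eIn mem_eIn sgm_edg ev_ne)
open Crest.Agent.R096.Pmc_112 (Gd')
open Crest.Agent.R096.Eds_746 (EB)
open Crest.Agent.R96.Sg1_199 (li sgm)

noncomputable section

/-- the edges of the block tiling without the core tile: inside `N`, off the interior of the core -/
theorem eb_sub {Q : CB E3 3} {k0 : ℕ} {hk : Q.kc ≤ k0} {e : Edg (Q.T k0 hk)} (he : e ∈ EB Q k0 hk) :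
    e.1 ⊆ Q.N \ interior Q.Kc := by
  obtain ⟨t, h1, h2, h3⟩ := he
  intro y hy
  have hyt : y ∈ P ((Q.T k0 hk).H t) := mem_eIn.1 h3 hy
  refine ⟨h1 hyt, fun h => ?_⟩
  rw [← Q.P_core k0 hk] at h
  have h4 : y ∈ I ((Q.T k0 hk).H (Q.cix k0 hk)) := Crest.Agent.R096.Bm_748.int_P ((Q.T k0 hk).ne _) h
  have h5 : t ∈ (Q.T k0 hk).at_ y := hyt
  rw [(Q.T k0 hk).at_eq_singleton h4, mem_singleton_iff] at h5
  exact h2 h5

/-- `exists_G` without `m ≠ 0` -/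
theorem exists_G' {p : ℝ} {Om La : Set E3} {f : E3 → E3} {D : E3 → E3 →L[ℝ] E3} (hO : IsOpen Om)
    (h : SH3 p Om La f D) {o : E3} {u κ1 κ2 : ℝ} {Q : Bx (Fin 3)} {A : E3 ≃ᵃ[ℝ] E3} {lam : ℝ}
    (hE : ExIn p Om f D o u κ1 κ2 Q A lam)
    {J : Type*} [Fintype J] (x v : J → E3) {ρ : ℝ} (hρ : 0 < ρ)
    (hsub : ∀ j, ∀ y ∈ Crest.Agent.R96.Sg1_199.sgm (A (x j)) (lin A (v j)),
      ∀ b ∈ Icc (0 : E3) (fun _ => ρ), y + b ∈ cbx Q ((1 + 2 * κ2) * lam)) {η : ℝ} (hη : 0 < η)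
    (hκ : (Fintype.card J : ℝ) * (κ1 * (lam * Q.sz) ^ 3) ≤ (1 / 4) * η * ρ ^ 3)
    {F : E3 → ℝ≥0∞} (hF : Measurable F) {m : ℝ≥0∞}
    (hm : ∫⁻ v in Wt A ρ, F v ≤ m * volume (Wt A ρ)) {N : Set E3} (hN : volume N = 0) :
    ∃ G : Set E3, MeasurableSet G ∧ G ⊆ Wt A ρ ∧ volume G ≠ 0 ∧
      ∀ w ∈ G, GoodW p Om f D A x v (ENNReal.ofReal η) w ∧ F w ≤ 8 * m ∧ w ∉ N := by
  by_cases hm0 : m = 0
  · subst hm0
    have h0 : ∫⁻ v in Wt A ρ, F v = 0 := by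
      rw [zero_mul] at hm
      exact le_antisymm hm bot_le
    rw [lintegral_eq_zero_iff hF] at h0
    have h1 : volume (Wt A ρ ∩ {w | F w ≠ 0}) = 0 := by
      have h2 := ae_iff.1 h0
      rw [Measure.restrict_apply' (measurableSet_Wt A ρ)] at h2
      rw [inter_comm]
      exact h2
    obtain ⟨G, h2, h3, h4, h5⟩ := exists_G hO h hE x v hρ hsub hη hκ (F := fun _ => 0)
      measurable_const (m := 1) one_ne_zero (by simp) (N := N ∪ (Wt A ρ ∩ {w | F w ≠ 0}))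
      (measure_union_null hN h1)
    refine ⟨G, h2, h3, h4, fun w hw => ?_⟩
    obtain ⟨h6, -, h7⟩ := h5 w hw
    refine ⟨h6, ?_, fun hw' => h7 (Or.inl hw')⟩
    by_contra hcon
    refine h7 (Or.inr ⟨h3 hw, ?_⟩)
    intro h8
    rw [h8] at hcon
    exact hcon bot_le
  · exact exists_G hO h hE x v hρ hsub hη hκ hF hm0 hm hN

/-- **the good set of translations of one block.** -/
theorem block_good {p : ℝ} {Om La : Set E3} {f : E3 → E3} {D : E3 → E3 →L[ℝ] E3} (hO : IsOpen Om)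
    (h : SH3 p Om La f D) {o : E3} {u κ1 κ2 : ℝ} {c : Bx (Fin 3)} {A : E3 ≃ᵃ[ℝ] E3} {lam : ℝ}
    (hE : ExIn p Om f D o u κ1 κ2 c A lam) {Q : CB E3 3} {k0 : ℕ} (hk : Q.kc ≤ k0)
    {μ ρ : ℝ} (hN : Q.N ⊆ A ⁻¹' cbx c μ) (hρ : 0 < ρ)
    (hroom : ∀ k, μ * c.side k / 2 + ρ ≤ (1 + 2 * κ2) * lam * c.side k / 2)
    {NC : ℕ} (hfin : (EB Q k0 hk).Finite) (hcard : (EB Q k0 hk).ncard ≤ NC) {η : ℝ} (hη : 0 < η)
    (hκ1 : 0 ≤ κ1 * (lam * c.sz) ^ 3)
    (hκ : (NC : ℝ) * (κ1 * (lam * c.sz) ^ 3) ≤ (1 / 4) * η * ρ ^ 3)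
    {D' : E3 → E3 →L[ℝ] E3} {Kq : ℝ} (hKq : 0 ≤ Kq) {S : Set E3}
    (hD' : ∀ᵐ x, x ∈ S → ∀ v, ‖D' x v‖ ≤ Kq * ‖D x v‖)
    (hSA : ∀ y ∈ Q.N, y ∉ interior Q.Kc → ∀ v ∈ Wt A ρ, y + v ∈ S)
    {F : E3 → ℝ≥0∞} (hF : Measurable F) {m : ℝ≥0∞}
    (hm : ∫⁻ v in Wt A ρ, F v ≤ m * volume (Wt A ρ)) :
    ∃ G : Set E3, MeasurableSet G ∧ G ⊆ Wt A ρ ∧ volume G ≠ 0 ∧ ∀ w ∈ G,
      GoodW p Om f D A (fun e : EB Q k0 hk => ea e.1) (fun e => ev e.1) (ENNReal.ofReal η) w ∧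
      F w ≤ 8 * m ∧
      ∀ e ∈ EB Q k0 hk, li (Gd' D' (ev e)) (ea e + w) (ev e) ≤
        ENNReal.ofReal Kq * li (Gd' D (ev e)) (ea e + w) (ev e) := by
  classical
  have : Finite (EB Q k0 hk) := hfin
  have : Fintype (EB Q k0 hk) := Fintype.ofFinite _
  have hc1 : Fintype.card (EB Q k0 hk) ≤ NC := by
    rw [← Nat.card_eq_fintype_card, Nat.card_coe_set_eq]
    exact hcard
  -- the comparison of the line integrals
  have hcmp := Eds_746.ae_li_dir_all (O := univ) (D := D) (D' := D') hKq (Pz := fun y => y ∈ S)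
    (fun x hx => absurd (mem_univ x) hx) (by
      filter_upwards [hD'] with x hx _ hxS
      exact hx hxS) (fun e : EB Q k0 hk => ea e.1) (fun e => ev e.1)
  rw [ae_iff] at hcmp
  have hsub : ∀ j : EB Q k0 hk, ∀ y ∈ Crest.Agent.R96.Sg1_199.sgm (A (ea j.1)) (lin A (ev j.1)),
      ∀ b ∈ Icc (0 : E3) (fun _ => ρ), y + b ∈ cbx c ((1 + 2 * κ2) * lam) := by
    rintro ⟨e, he⟩ y ⟨τ, hτ, rfl⟩ b hb k
    have h5 : ea e + τ • ev e ∈ e.1 := by
      rw [← sgm_edg e]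
      exact ⟨τ, hτ, rfl⟩
    have h6 : |A (ea e + τ • ev e) k - ctr c k| ≤ μ * c.side k / 2 := hN (eb_sub he h5).1 k
    have h7 : A (ea e) + τ • lin A (ev e) = A (ea e + τ • ev e) := by
      rw [aff_add, map_smul]
    show |(A (ea e) + τ • lin A (ev e) + b) k - ctr c k| ≤ (1 + 2 * κ2) * lam * c.side k / 2
    rw [h7, Pi.add_apply]
    have h8 : 0 ≤ b k := hb.1 k
    have h9 : b k ≤ ρ := hb.2 k
    have h10 := hroom k
    rw [abs_le] at h6 ⊢
    constructor <;> linarith [h6.1, h6.2]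
  have hκ' : (Fintype.card (EB Q k0 hk) : ℝ) * (κ1 * (lam * c.sz) ^ 3) ≤ (1 / 4) * η * ρ ^ 3 := by
    refine le_trans ?_ hκ
    exact mul_le_mul_of_nonneg_right (by exact_mod_cast hc1) hκ1
  obtain ⟨G, h1, h2, h3, h4⟩ := exists_G' hO h hE (fun e : EB Q k0 hk => ea e.1)
    (fun e => ev e.1) hρ hsub hη hκ' hF hm hcmp
  refine ⟨G, h1, h2, h3, fun w hw => ?_⟩
  obtain ⟨g1, g2, g3⟩ := h4 w hw
  refine ⟨g1, g2, fun e he => ?_⟩
  have g4 := (not_not.1 g3) ⟨e, he⟩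
  refine (g4 ?_).2
  rintro y ⟨τ, hτ, rfl⟩ -
  have h5 : ea e + τ • ev e ∈ e.1 := by
    rw [← sgm_edg e]
    exact ⟨τ, hτ, rfl⟩
  obtain ⟨h6, h7⟩ := eb_sub he h5
  have h8 := hSA _ h6 h7 w (h2 hw)
  have e1 : ea e + w + τ • ev e = ea e + τ • ev e + w := by abel
  show ea e + w + τ • ev e ∈ S
  rw [e1]
  exact h8

end

end Crest.Agent.R096.Eau_365
end

-- ▼ part R096/Mfb1_290
section

/-!
# Row 96, EaX: block mean before the data ([BM] of 365 #11372), part 1: structure and domination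

`Us Q` = used potential tiles of a block, `EdA Q B R t` = ALL segments in the tile `t` whose image
in the frame is an integer translate of a shape of the universal lists, `FB Q B R G p` = energy of
the block.  The energy of the classes of `Mfi_290.QI` (any mesh data, any scale `k0`, any lists of
cells) is at most `FB`.
-/

set_option autoImplicit false
set_option linter.unusedSectionVars false

open MeasureTheory Set Filter Metric
open scoped Topology ENNReal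

namespace Crest.Agent.R096.Mfb_290

open Msh_715 Cut_874 Msh_810 Mal_874 Mfi_290
open Crest.Agent.R096.SkC1_961 (E3 Cfg)
open Crest.Agent.R96.Sg1_199 (li sgm)
open Crest.Agent.R96.Sg8_199 (EnA)
open Crest.Agent.R96.Pm_199 (sh li_par)

noncomputable section

/-! ### segments -/

/-- a segment as a set -/
def Seg : Type := {K : Set E3 // ∃ p : E3 × E3, p.2 ≠ 0 ∧ K = sgm p.1 p.2}

/-- parametrisation of a segment -/
def Seg.p (K : Seg) : E3 × E3 := K.2.choose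

theorem Seg.p_ne (K : Seg) : K.p.2 ≠ 0 := K.2.choose_spec.1

theorem Seg.p_eq (K : Seg) : K.1 = sgm K.p.1 K.p.2 := K.2.choose_spec.2

theorem shf_sgm' (s x v : E3) : Mfe_161.shf s (sgm x v) = sgm (x + s) v := Mfe_161.shf_sgm s x v

/-- the translated segment -/
def Seg.tr (s : E3) (K : Seg) : Seg :=
  ⟨Mfe_161.shf s K.1, (K.p.1 + s, K.p.2), K.p_ne, by
    rw [← shf_sgm', ← K.p_eq]⟩

theorem Seg.tr_val (s : E3) (K : Seg) : (K.tr s).1 = Mfe_161.shf s K.1 := rfl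

theorem Seg.tr_tr (s t : E3) (K : Seg) : (K.tr t).tr s = K.tr (s + t) :=
  Subtype.ext (Mfe_161.shf_shf s t K.1)

theorem Seg.tr_zero (K : Seg) : K.tr 0 = K := Subtype.ext (Mfe_161.shf_zero K.1)

theorem Seg.tr_inj (s : E3) : Function.Injective (Seg.tr s) := fun _ _ h =>
  Subtype.ext (Mfe_161.shf_injective s (congrArg Subtype.val h))

/-- line integral along the shifted segment -/
def liS (G : E3 → E3 → ℝ≥0∞) (s : E3) (K : Seg) : ℝ≥0∞ := li (G K.p.2) (K.p.1 + s) K.p.2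

theorem liS_eq {G : E3 → E3 → ℝ≥0∞} (hG : ∀ v y, G (-v) y = G v y) {K : Seg} {x v s : E3}
    (h : Mfe_161.shf s K.1 = sgm x v) : liS G s K = li (G v) x v := by
  unfold liS
  refine li_par hG ?_
  rw [← shf_sgm', ← K.p_eq, h]

theorem liS_tr {G : E3 → E3 → ℝ≥0∞} (hG : ∀ v y, G (-v) y = G v y) (K : Seg) (s t : E3) :
    liS G s (K.tr t) = liS G (s + t) K := by
  refine liS_eq hG ?_
  rw [Seg.tr_val, Mfe_161.shf_shf, K.p_eq, shf_sgm']

/-! ### lists of shapes -/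

/-- the universal shapes -/
def Lsh (B : ℕ) (R : ℝ) : Set (Set E3) := shpT (N0 3) 1 2 ∪ shpT (NB 3 B) 1 R

theorem Lsh_finite (B : ℕ) (R : ℝ) : (Lsh B R).Finite :=
  (shpT_finite _ _ _).union (shpT_finite _ _ _)

/-- translation of a shape by an integer vector -/
def itr (w : Fin 3 → ℤ) (S : Set E3) : Set E3 := {u : E3 | (fun m => u m - (w m : ℝ)) ∈ S}

/-- the translates of the universal shapes in a ball -/
def Lb (B : ℕ) (R D : ℝ) : Set (Set E3) :=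
  {S' | S'.Nonempty ∧ S' ⊆ closedBall 0 D ∧ ∃ S ∈ Lsh B R, ∃ w : Fin 3 → ℤ, S' = itr w S}

theorem Lb_finite (B : ℕ) (R D : ℝ) : (Lb B R D).Finite := by
  have key : ∀ S ∈ Lsh B R,
      {S' : Set E3 | S'.Nonempty ∧ S' ⊆ closedBall 0 D ∧ ∃ w : Fin 3 → ℤ, S' = itr w S}.Finite := by
    intro S _
    rcases S.eq_empty_or_nonempty with hS | ⟨u, hu⟩
    · refine Set.finite_empty.subset ?_
      rintro S' ⟨⟨x, hx⟩, -, w, rfl⟩
      rw [hS] at hx
      exact hx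
    · have h1 : {w : Fin 3 → ℤ | ∀ m, |(w m : ℝ)| ≤ D + ‖u‖}.Finite := by
        have h2 : (Set.pi univ fun _ : Fin 3 => {t : ℤ | |(t : ℝ)| ≤ D + ‖u‖}).Finite := by
          refine Set.Finite.pi fun _ => ?_
          refine (Set.finite_Icc (-⌈D + ‖u‖⌉) ⌈D + ‖u‖⌉).subset ?_
          intro t ht
          have h0 : |(t : ℝ)| ≤ D + ‖u‖ := ht
          have h2 := abs_le.1 h0
          have h3 : (t : ℝ) ≤ (⌈D + ‖u‖⌉ : ℤ) := h2.2.trans (Int.le_ceil _)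
          have h4 : (-(⌈D + ‖u‖⌉ : ℤ) : ℝ) ≤ t := by
            have := Int.le_ceil (D + ‖u‖)
            linarith
          exact ⟨by exact_mod_cast h4, by exact_mod_cast h3⟩
        refine h2.subset ?_
        intro w hw m _
        exact hw m
      refine (h1.image fun w => itr w S).subset ?_
      rintro S' ⟨-, hb, w, rfl⟩
      refine ⟨w, ?_, rfl⟩
      intro m
      have h3 : (fun m => u m + (w m : ℝ)) ∈ itr w S := by
        show (fun m => u m + (w m : ℝ) - (w m : ℝ)) ∈ S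
        simp only [add_sub_cancel_right]
        exact hu
      have h4 := hb h3
      rw [mem_closedBall_zero_iff] at h4
      have h5 := (norm_le_pi_norm (fun m => u m + (w m : ℝ)) m).trans h4
      rw [Real.norm_eq_abs] at h5
      have h6 := norm_le_pi_norm u m
      rw [Real.norm_eq_abs] at h6
      have h7 : (w m : ℝ) = (u m + w m) - u m := by ring
      rw [h7]
      exact (abs_sub _ _).trans (by linarith)
  have h2 : Lb B R D = ⋃ S ∈ Lsh B R,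
      {S' : Set E3 | S'.Nonempty ∧ S' ⊆ closedBall 0 D ∧ ∃ w : Fin 3 → ℤ, S' = itr w S} := by
    ext S'
    simp only [Lb, mem_ofPred_eq, mem_iUnion, exists_prop]
    constructor
    · rintro ⟨h1, h2, S, hS, w, hw⟩
      exact ⟨S, hS, h1, h2, w, hw⟩
    · rintro ⟨S, hS, h1, h2, w, hw⟩
      exact ⟨h1, h2, S, hS, w, hw⟩
  rw [h2]
  exact (Lsh_finite B R).biUnion key

/-! ### the potential tiles of a block -/

variable (Q : CB E3 3)

/-- used potential tiles: cubes of some mesh of the block, tiles of the shell -/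
def used : Pt Q → Prop
  | Sum.inl p => Use Q p
  | Sum.inr s => s ≠ Q.S.core

/-- the used potential tiles -/
abbrev Us : Type := {t : Pt Q // used Q t}

/-- scale of a potential tile -/
def sc : Pt Q → ℕ
  | Sum.inl p => p.1
  | Sum.inr _ => Q.kc

open Classical in
/-- scale of the frame of a potential tile -/
def fk : Pt Q → ℕ
  | Sum.inl p => if (cube Q p.1 p.2 ∩ Q.S.bp Q.ψ Q.a' Q.kc).Nonempty then Q.kc else p.1 + 1
  | Sum.inr _ => Q.kc

/-- frame of a potential tile -/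
def fχ (t : Pt Q) : E3 ≃ᵃ[ℝ] E3 := chi Q.ψ Q.a' (fk Q t)

/-- norm of the frame -/
def fβ (t : Pt Q) : ℝ := 2 * 2 ^ sc Q t * ‖(Q.ψ : E3 →L[ℝ] (Fin 3 → ℝ))‖

theorem dist_fχ (t : Pt Q) (x y : E3) :
    dist (fχ Q t x) (fχ Q t y) = 2 ^ fk Q t * dist (Q.ψ x) (Q.ψ y) := by
  have hp : (0 : ℝ) < 2 ^ fk Q t := by positivity
  have e : (fχ Q t x : E3) - fχ Q t y = (2 : ℝ) ^ fk Q t • (Q.ψ x - Q.ψ y) := by
    funext m
    rw [Pi.sub_apply, Pi.smul_apply, Pi.sub_apply]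
    unfold fχ
    rw [chi_apply, chi_apply, smul_eq_mul]
    ring
  rw [dist_eq_norm, e, norm_smul, Real.norm_of_nonneg hp.le, ← dist_eq_norm]

/-- **all potential edges of a potential tile**: segments in the tile which are integer translates
of universal shapes in the frame -/
def EdS (B : ℕ) (R : ℝ) (t : Pt Q) : Set Seg :=
  {K | K.1 ⊆ til Q t ∧ ∃ S ∈ Lsh B R, ∃ z : Fin 3 → ℤ, fχ Q t '' K.1 = itr z S}

theorem EdS_map {B : ℕ} {R D : ℝ} {t : Pt Q}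
    (hD : ∀ x ∈ til Q t, ∀ y ∈ til Q t, dist (fχ Q t x) (fχ Q t y) ≤ D) :
    MapsTo (fun K : Seg => nrm (fχ Q t) (til_ne Q t).some '' K.1) (EdS Q B R t) (Lb B R (D + 1)) := by
  rintro K ⟨hK, S, hS, z, e⟩
  set x0 := (til_ne Q t).some with hx0
  have hx0m : x0 ∈ til Q t := (til_ne Q t).some_mem
  have hfr : ∀ y, nrm (fχ Q t) x0 y = fun m => fχ Q t y m - (flo (fχ Q t x0) m : ℝ) := by
    intro y
    unfold nrm
    rw [AffineEquiv.trans_apply, trz_apply]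
  refine ⟨?_, ?_, S, hS, z - flo (fχ Q t x0), ?_⟩
  · rw [image_nonempty, K.p_eq]
    exact ⟨_, mem_sgm_iff.2 ⟨0, ⟨le_rfl, zero_le_one⟩, rfl⟩⟩
  · rintro _ ⟨y, hy, rfl⟩
    show nrm (fχ Q t) x0 y ∈ _
    rw [mem_closedBall_zero_iff, hfr]
    have h1 := hD y (hK hy) x0 hx0m
    rw [pi_norm_le_iff_of_nonneg (by linarith [dist_nonneg.trans h1])]
    intro m
    have h2 := (dist_le_pi_dist (fχ Q t y) (fχ Q t x0) m).trans h1
    rw [Real.dist_eq] at h2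
    have h3 : |(fχ Q t x0 : E3) m - flo (fχ Q t x0) m| ≤ 1 := by
      have h4 := Int.floor_le ((fχ Q t x0 : E3) m)
      have h5 := Int.lt_floor_add_one ((fχ Q t x0 : E3) m)
      unfold flo
      rw [abs_le]
      constructor <;> linarith
    rw [Real.norm_eq_abs]
    calc |(fχ Q t y : E3) m - flo (fχ Q t x0) m|
        = |((fχ Q t y : E3) m - (fχ Q t x0 : E3) m) + ((fχ Q t x0 : E3) m - flo (fχ Q t x0) m)| := by
          congr 1; ring
      _ ≤ _ := abs_add_le _ _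
      _ ≤ D + 1 := add_le_add h2 h3
  · have h1 : nrm (fχ Q t) x0 '' K.1 = (fun u : E3 => fun m => u m - (flo (fχ Q t x0) m : ℝ)) ''
        (fχ Q t '' K.1) := by
      rw [image_image]
      exact image_congr fun y _ => hfr y
    show nrm (fχ Q t) x0 '' K.1 = _
    rw [h1, e]
    ext u
    unfold itr
    constructor
    · rintro ⟨w, hw, rfl⟩
      have hw' : (fun m => w m - (z m : ℝ)) ∈ S := hw
      show (fun m => w m - (flo (fχ Q t x0) m : ℝ) - ((z - flo (fχ Q t x0)) m : ℤ)) ∈ S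
      have e2 : (fun m => w m - (flo (fχ Q t x0) m : ℝ) - ((z - flo (fχ Q t x0)) m : ℤ)) =
          fun m => w m - (z m : ℝ) := by
        funext m
        rw [Pi.sub_apply]
        push_cast
        ring
      rw [e2]
      exact hw'
    · intro hu
      have hu' : (fun m => u m - ((z - flo (fχ Q t x0)) m : ℤ)) ∈ S := hu
      refine ⟨fun m => u m + flo (fχ Q t x0) m, ?_, ?_⟩
      · show (fun m => u m + (flo (fχ Q t x0) m : ℝ) - (z m : ℝ)) ∈ S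
        have e2 : (fun m => u m + (flo (fχ Q t x0) m : ℝ) - (z m : ℝ)) =
            fun m => u m - ((z - flo (fχ Q t x0)) m : ℤ) := by
          funext m
          rw [Pi.sub_apply]
          push_cast
          ring
        rw [e2]
        exact hu'
      · funext m
        show u m + (flo (fχ Q t x0) m : ℝ) - (flo (fχ Q t x0) m : ℝ) = u m
        ring

theorem EdS_injOn {B : ℕ} {R : ℝ} (t : Pt Q) :
    InjOn (fun K : Seg => nrm (fχ Q t) (til_ne Q t).some '' K.1) (EdS Q B R t) := by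
  intro K _ K' _ e
  exact Subtype.ext ((nrm (fχ Q t) (til_ne Q t).some).injective.image_injective e)

/-- potential tiles are bounded in their frame -/
theorem exists_D (t : Pt Q) :
    ∃ D : ℝ, ∀ x ∈ til Q t, ∀ y ∈ til Q t, dist (fχ Q t x) (fχ Q t y) ≤ D := by
  rcases t with p | s
  · refine ⟨2 ^ fk Q (Sum.inl p) * (1 / 2 ^ p.1), fun x hx y hy => ?_⟩
    rw [dist_fχ]
    exact mul_le_mul_of_nonneg_left (cube_dist hx hy) (by positivity)
  · have h1 : til Q (Sum.inr s) ⊆ Q.N := by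
      intro y hy
      have h2 : y ∈ P ((Q.T Q.kc le_rfl).H (Sum.inr s)) := by
        rw [CB.T_inr, mem_P_iH]
        exact hy
      exact Q.bp_sub_N (Q.P_inr_sub _ le_rfl s h2)
    have h2 : IsCompact (fχ Q (Sum.inr s) '' Q.N) :=
      Q.isCompact_N.image (fχ Q (Sum.inr s)).continuous_of_finiteDimensional
    exact ⟨diam (fχ Q (Sum.inr s) '' Q.N), fun x hx y hy =>
      dist_le_diam_of_mem h2.isBounded (mem_image_of_mem _ (h1 hx)) (mem_image_of_mem _ (h1 hy))⟩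

theorem EdS_finite (B : ℕ) (R : ℝ) (t : Pt Q) : (EdS Q B R t).Finite := by
  obtain ⟨D, hD⟩ := exists_D Q t
  exact Set.Finite.of_finite_image
    ((Lb_finite B R (D + 1)).subset (EdS_map Q hD).image_subset) (EdS_injOn Q t)

/-- all potential edges as a finite set -/
def EdA (B : ℕ) (R : ℝ) (t : Pt Q) : Finset Seg := (EdS_finite Q B R t).toFinset

variable {Q} in
theorem mem_EdA {B : ℕ} {R : ℝ} {t : Pt Q} {K : Seg} : K ∈ EdA Q B R t ↔
    K.1 ⊆ til Q t ∧ ∃ S ∈ Lsh B R, ∃ z : Fin 3 → ℤ, fχ Q t '' K.1 = itr z S :=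
  Set.Finite.mem_toFinset _

theorem sub_EdA {B : ℕ} {R : ℝ} {t : Pt Q} {K : Seg} (h : K ∈ EdA Q B R t) :
    sgm K.p.1 K.p.2 ⊆ til Q t := by
  rw [← K.p_eq]
  exact (mem_EdA.1 h).1

/-- the number of potential edges -/
def nE (B : ℕ) (R : ℝ) : ℕ := (Lb B R (max 2 R + 1)).ncard

theorem used_kc {t : Pt Q} (h : used Q t) : Q.kc ≤ sc Q t := by
  rcases t with p | s
  · obtain ⟨⟨k, hk, hM⟩, -⟩ := h
    exact Q.kc_le k hk (τ := ⟨⟨⟨p.1, p.2, Finset.univ⟩, hM⟩, rfl⟩)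
  · exact le_rfl

/-- **size of a used potential tile in the coordinates of the block** -/
theorem used_dist {R : ℝ} (hR1 : 1 ≤ R)
    (hR : ∀ i, i ≠ Q.S.core → ∀ u ∈ ZP (Q.S.GG i), ∀ v ∈ ZP (Q.S.GG i), ∀ l, |v l - u l| ≤ R)
    {t : Pt Q} (h : used Q t) {x y : E3} (hx : x ∈ til Q t) (hy : y ∈ til Q t) :
    dist (Q.ψ x) (Q.ψ y) ≤ R / 2 ^ sc Q t := by
  rcases t with p | s
  · exact (cube_dist hx hy).trans (div_le_div_of_nonneg_right hR1 (by positivity))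
  · have hp : (0 : ℝ) < 2 ^ Q.kc := by positivity
    show _ ≤ R / 2 ^ Q.kc
    rw [dist_pi_le_iff (by positivity)]
    intro l
    have h1 := hR s h _ hy _ hx l
    have e : ps Q.a' Q.kc (Q.ψ x) l - ps Q.a' Q.kc (Q.ψ y) l =
        2 ^ Q.kc * (Q.ψ x l - Q.ψ y l) := by
      unfold ps
      ring
    rw [e, abs_mul, abs_of_pos hp] at h1
    rw [Real.dist_eq, le_div_iff₀' hp]
    exact h1

theorem used_frame {R : ℝ} (hR1 : 1 ≤ R)
    (hR : ∀ i, i ≠ Q.S.core → ∀ u ∈ ZP (Q.S.GG i), ∀ v ∈ ZP (Q.S.GG i), ∀ l, |v l - u l| ≤ R)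
    {t : Pt Q} (h : used Q t) {x y : E3} (hx : x ∈ til Q t) (hy : y ∈ til Q t) :
    dist (fχ Q t x) (fχ Q t y) ≤ max 2 R := by
  rw [dist_fχ]
  have hkc := used_kc Q h
  rcases t with p | s
  · have h1 : dist (Q.ψ x) (Q.ψ y) ≤ 1 / 2 ^ p.1 := cube_dist hx hy
    have h2 : fk Q (Sum.inl p) ≤ p.1 + 1 := by
      by_cases hb : (cube Q p.1 p.2 ∩ Q.S.bp Q.ψ Q.a' Q.kc).Nonempty
      · have e : fk Q (Sum.inl p) = Q.kc := if_pos hb
        rw [e]
        exact le_trans hkc (Nat.le_succ _)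
      · have e : fk Q (Sum.inl p) = p.1 + 1 := if_neg hb
        rw [e]
    have h3 : (2 : ℝ) ^ fk Q (Sum.inl p) ≤ 2 * 2 ^ p.1 := by
      calc (2 : ℝ) ^ fk Q (Sum.inl p) ≤ 2 ^ (p.1 + 1) := pow_le_pow_right₀ (by norm_num) h2
        _ = _ := by rw [pow_succ, mul_comm]
    calc (2 : ℝ) ^ fk Q (Sum.inl p) * dist (Q.ψ x) (Q.ψ y) ≤ (2 * 2 ^ p.1) * (1 / 2 ^ p.1) :=
          mul_le_mul h3 h1 dist_nonneg (by positivity)
      _ = 2 := by field_simp
      _ ≤ _ := le_max_left _ _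
  · have h1 := used_dist Q hR1 hR h hx hy
    have hp : (0 : ℝ) < 2 ^ Q.kc := by positivity
    refine le_trans ?_ (le_max_right 2 R)
    calc (2 : ℝ) ^ fk Q (Sum.inr s) * dist (Q.ψ x) (Q.ψ y) ≤ 2 ^ Q.kc * (R / 2 ^ Q.kc) :=
          mul_le_mul_of_nonneg_left h1 hp.le
      _ = R := by field_simp

/-- **number of potential edges of a used potential tile: a number of `B`, `R`** -/
theorem card_EdA {B : ℕ} {R : ℝ} (hR1 : 1 ≤ R)
    (hR : ∀ i, i ≠ Q.S.core → ∀ u ∈ ZP (Q.S.GG i), ∀ v ∈ ZP (Q.S.GG i), ∀ l, |v l - u l| ≤ R)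
    {t : Pt Q} (h : used Q t) : (EdA Q B R t).card ≤ nE B R := by
  rw [← Set.ncard_coe_finset]
  show ((EdS_finite Q B R t).toFinset : Set Seg).ncard ≤ _
  rw [Set.Finite.coe_toFinset]
  exact Set.ncard_le_ncard_of_injOn _
    (fun K hK => EdS_map Q (fun x hx y hy => used_frame Q hR1 hR h hx hy) hK)
    (EdS_injOn Q t) (Lb_finite _ _ _)

/-! ### the energy of the block -/

/-- **the energy of the block at the shift `s`** -/
def FB (B : ℕ) (R : ℝ) (G : E3 → E3 → ℝ≥0∞) (p : ℝ) (s : E3) : ℝ≥0∞ :=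
  EnA volume (fun t : Us Q => til Q t.1) (fun _ => univ) (fun t => EdA Q B R t.1)
    (fun t => ENNReal.ofReal (fβ Q t.1)) (fun K : Seg => G K.p.2) (fun K => K.p.1)
    (fun K => K.p.2) p s

theorem FB_eq (B : ℕ) (R : ℝ) (G : E3 → E3 → ℝ≥0∞) (p : ℝ) (s : E3) :
    FB Q B R G p s = ∑' t : Us Q, volume (til Q t.1) *
      (ENNReal.ofReal (fβ Q t.1) * ∑ K ∈ EdA Q B R t.1, liS G s K) ^ p := by
  unfold FB EnA
  refine tsum_congr fun t => ?_
  rw [indicator_of_mem (mem_univ _)]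
  rfl

end

end Crest.Agent.R096.Mfb_290
end

-- ▼ part R096/Mfb2_290
section

/-!
# Row 96, EaX: block mean before the data ([BM] of 365 #11372), part 2: translations, domination
-/

set_option autoImplicit false
set_option linter.unusedSectionVars false

open MeasureTheory Set Filter Metric
open scoped Topology ENNReal

namespace Crest.Agent.R096.Mfb_290

open Msh_715 Cut_874 Msh_810 Mal_874 Mfi_290
open Crest.Agent.R096.SkC1_961 (E3 Cfg)
open Crest.Agent.R96.Sg1_199 (li sgm)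
open Crest.Agent.R96.Sg8_199 (EnA)
open Crest.Agent.R96.Pm_199 (sh li_par)

noncomputable section

/-! ### translations of the block -/

variable (Q : CB E3 3) (w0 : E3)

theorem use_tr (p : ℕ × (Fin 3 → ℤ)) : Use (Q.tr w0) p ↔ Use Q p := by
  unfold Use
  have h1 : (∃ (k : ℕ) (hk : (Q.tr w0).kc ≤ k), IsM ((Q.tr w0).D k hk) ⟨p.1, p.2, Finset.univ⟩) ↔
      ∃ (k : ℕ) (hk : Q.kc ≤ k), IsM (Q.D k hk) ⟨p.1, p.2, Finset.univ⟩ := by
    constructor
    · rintro ⟨k, hk, h⟩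
      exact ⟨k, hk, (isM_tr Q w0 k hk).1 h⟩
    · rintro ⟨k, hk, h⟩
      exact ⟨k, hk, (isM_tr Q w0 k hk).2 h⟩
  have h2 : cube (Q.tr w0) p.1 p.2 ⊆ (Q.tr w0).N ↔ cube Q p.1 p.2 ⊆ Q.N := by
    rw [cube_tr]
    exact sub_tr (Q.mem_N_tr w0)
  have h3 : cube (Q.tr w0) p.1 p.2 ⊆ (Q.tr w0).S.bp (Q.tr w0).ψ (Q.tr w0).a' (Q.tr w0).kc ↔
      cube Q p.1 p.2 ⊆ Q.S.bp Q.ψ Q.a' Q.kc := by
    rw [cube_tr]
    exact sub_tr (mem_bp_tr Q w0)
  rw [h1, h2, h3]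


theorem sc_tr (t : Pt Q) : sc (Q.tr w0) t = sc Q t := by
  rcases t with p | s <;> rfl

theorem fk_tr (t : Pt Q) : fk (Q.tr w0) t = fk Q t := by
  classical
  rcases t with p | s
  · have h : (cube (Q.tr w0) p.1 p.2 ∩
        (Q.tr w0).S.bp (Q.tr w0).ψ (Q.tr w0).a' (Q.tr w0).kc).Nonempty ↔
        (cube Q p.1 p.2 ∩ Q.S.bp Q.ψ Q.a' Q.kc).Nonempty := by
      rw [cube_tr]
      exact inter_tr (mem_bp_tr Q w0)
    by_cases hb : (cube Q p.1 p.2 ∩ Q.S.bp Q.ψ Q.a' Q.kc).Nonempty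
    · have e1 : fk Q (Sum.inl p) = Q.kc := if_pos hb
      have e2 : fk (Q.tr w0) (Sum.inl p) = (Q.tr w0).kc := if_pos (h.2 hb)
      exact e2.trans e1.symm
    · have e1 : fk Q (Sum.inl p) = p.1 + 1 := if_neg hb
      have e2 : fk (Q.tr w0) (Sum.inl p) = p.1 + 1 := if_neg fun h' => hb (h.1 h')
      exact e2.trans e1.symm
  · rfl

theorem fχ_tr (t : Pt Q) (y : E3) : fχ (Q.tr w0) t y = fχ Q t (y - w0) := by
  have h := chi_tr Q.ψ Q.a' w0 (fk (Q.tr w0) t) y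
  rw [fk_tr] at h
  unfold fχ
  rw [fk_tr]
  exact h

theorem fβ_tr (t : Pt Q) : fβ (Q.tr w0) t = fβ Q t := by
  unfold fβ
  rw [sc_tr]
  rfl

theorem EdA_tr (B : ℕ) (R : ℝ) (t : Pt Q) :
    EdA (Q.tr w0) B R t = (EdA Q B R t).map ⟨Seg.tr w0, Seg.tr_inj w0⟩ := by
  classical
  have himg : ∀ K : Seg, fχ (Q.tr w0) t '' (K.tr w0).1 = fχ Q t '' K.1 := by
    intro K
    rw [Seg.tr_val]
    unfold Mfe_161.shf
    rw [image_image]
    refine image_congr fun y _ => ?_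
    rw [fχ_tr, add_sub_cancel_right]
  have hsub : ∀ K : Seg, (K.tr w0).1 ⊆ til (Q.tr w0) t ↔ K.1 ⊆ til Q t := by
    intro K
    rw [til_tr, Seg.tr_val]
    unfold Mfe_161.shf
    exact image_subset_image_iff (add_left_injective w0)
  ext K
  rw [Finset.mem_map]
  refine (mem_EdA (Q := Q.tr w0) (t := t)).trans ?_
  constructor
  · rintro ⟨h1, S, hS, z, h2⟩
    have e : (K.tr (-w0)).tr w0 = K := by
      rw [Seg.tr_tr, add_neg_cancel, Seg.tr_zero]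
    refine ⟨K.tr (-w0), ?_, e⟩
    rw [mem_EdA]
    refine ⟨?_, S, hS, z, ?_⟩
    · rw [← hsub, e]
      exact h1
    · rw [← himg, e]
      exact h2
  · rintro ⟨K', hK', rfl⟩
    rw [mem_EdA] at hK'
    obtain ⟨h1, S, hS, z, h2⟩ := hK'
    refine ⟨(hsub K').2 h1, S, hS, z, ?_⟩
    show fχ (Q.tr w0) t '' (K'.tr w0).1 = _
    rw [himg]
    exact h2

theorem vol_tr (t : Pt Q) : volume (til (Q.tr w0) t) = volume (til Q t) := by
  refine (congrArg volume (til_tr Q w0 t)).trans ?_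
  have h : (fun y : E3 => y + w0) '' til Q t = (fun y : E3 => y + -w0) ⁻¹' til Q t :=
    image_add_right
  rw [h, measure_preimage_add_right]

theorem sum_tr (B : ℕ) (R : ℝ) {G : E3 → E3 → ℝ≥0∞} (hG : ∀ v y, G (-v) y = G v y)
    (s : E3) (t : Pt Q) : ∑ K ∈ EdA (Q.tr w0) B R t, liS G s K =
      ∑ K ∈ EdA Q B R t, liS G (w0 + s) K := by
  refine (congrArg (fun F : Finset Seg => ∑ K ∈ F, liS G s K) (EdA_tr Q w0 B R t)).trans ?_
  show ∑ K ∈ (EdA Q B R t).map ⟨Seg.tr w0, Seg.tr_inj w0⟩, liS G s K = _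
  rw [Finset.sum_map]
  refine Finset.sum_congr rfl fun K _ => ?_
  show liS G s (K.tr w0) = _
  rw [liS_tr hG, add_comm]

/-- energy of one tile -/
def term (B : ℕ) (R : ℝ) (G : E3 → E3 → ℝ≥0∞) (p : ℝ) (s : E3) (t : Pt Q) : ℝ≥0∞ :=
  volume (til Q t) * (ENNReal.ofReal (fβ Q t) * ∑ K ∈ EdA Q B R t, liS G s K) ^ p

theorem FB_eq' (B : ℕ) (R : ℝ) (G : E3 → E3 → ℝ≥0∞) (p : ℝ) (s : E3) :
    FB Q B R G p s = ∑' t : Us Q, term Q B R G p s t.1 := FB_eq Q B R G p s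

theorem term_tr (B : ℕ) (R : ℝ) {G : E3 → E3 → ℝ≥0∞} (hG : ∀ v y, G (-v) y = G v y) (p : ℝ)
    (s : E3) (t : Pt Q) : term (Q.tr w0) B R G p s t = term Q B R G p (w0 + s) t := by
  have h1 := vol_tr Q w0 t
  have h2 := fβ_tr Q w0 t
  have h3 := sum_tr Q w0 B R hG s t
  show volume (til (Q.tr w0) t) *
    (ENNReal.ofReal (fβ (Q.tr w0) t) * ∑ K ∈ EdA (Q.tr w0) B R t, liS G s K) ^ p = _
  refine (congrArg₂ (· * ·) h1 (congrArg (· ^ p) (congrArg₂ (· * ·)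
    (congrArg ENNReal.ofReal h2) h3))).trans ?_
  rfl

/-- energy of one tile, 0 if it is not used -/
def termI (B : ℕ) (R : ℝ) (G : E3 → E3 → ℝ≥0∞) (p : ℝ) (s : E3) (t : Pt Q) : ℝ≥0∞ :=
  {t | used Q t}.indicator (term Q B R G p s) t

theorem FB_ind (B : ℕ) (R : ℝ) (G : E3 → E3 → ℝ≥0∞) (p : ℝ) (s : E3) :
    FB Q B R G p s = ∑' t : Pt Q, termI Q B R G p s t := by
  rw [FB_eq']
  exact tsum_subtype {t | used Q t} (term Q B R G p s)



/-! ### domination -/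

section dom

variable {J : Type} (M : MD E3 3 J) (X : RD M) (j : J) (k0 : ℕ) (hk0 : (M.Q j).kc ≤ k0)

theorem used_of {t : Pt (M.Q j)} (h : (qAc M j t).Nonempty) : used (M.Q j) t := by
  rcases t with p | s
  · obtain ⟨b, -, hU, -⟩ := h
    exact hU
  · obtain ⟨b, hb⟩ := h
    exact hb.2

theorem qχ_eq (t : Pt (M.Q j)) : qχ M j t = fχ (M.Q j) t := by
  classical
  rcases t with p | s
  · by_cases hb : (cube (M.Q j) p.1 p.2 ∩
        (M.Q j).S.bp (M.Q j).ψ (M.Q j).a' (M.Q j).kc).Nonempty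
    · have h1 : kd M j (Sum.inl p) = Kd.near := if_pos hb
      have h2 : kd M j (Sum.inl p) ≠ Kd.far := by rw [h1]; exact fun h => Kd.noConfusion h
      have h3 : qχ M j (Sum.inl p) = chi (M.Q j).ψ (M.Q j).a' (M.Q j).kc := if_neg h2
      have h4 : fk (M.Q j) (Sum.inl p) = (M.Q j).kc := if_pos hb
      rw [h3]
      unfold fχ
      rw [h4]
    · have h1 : kd M j (Sum.inl p) = Kd.far := if_neg hb
      have h3 : qχ M j (Sum.inl p) = chi (M.Q j).ψ (M.Q j).a' (p.1 + 1) := if_pos h1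
      have h4 : fk (M.Q j) (Sum.inl p) = p.1 + 1 := if_neg hb
      rw [h3]
      unfold fχ
      rw [h4]
  · rfl

/-- a potential segment as a segment -/
def toSeg {𝒦 : Set (Set E3)} {U : Set E3} (K : Sgt 𝒦 U) : Seg := ⟨K.1, K.2.2⟩

theorem toSeg_val {𝒦 : Set (Set E3)} {U : Set E3} (K : Sgt 𝒦 U) : (toSeg K).1 = K.1 := rfl

theorem toSeg_inj {𝒦 : Set (Set E3)} {U : Set E3} :
    Function.Injective (toSeg : Sgt 𝒦 U → Seg) := by
  intro K K' h
  have h1 : (toSeg K).1 = (toSeg K').1 := congrArg Subtype.val h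
  exact Subtype.ext h1

/-- **the potential edges of `QI` are potential edges of the block** -/
theorem mem_of_Ed {B : ℕ} {R : ℝ} (hB : X.B j ≤ B) (hR : X.R j ≤ R) {𝒦 : Set (Set E3)}
    {U : Set E3} (h𝒦 : 𝒦.Countable) (hU : U.Countable) {t : Pt (M.Q j)} {K : Sgt 𝒦 U}
    (hK : K ∈ ((QI M X j k0 hk0).toPT 𝒦 U h𝒦 hU).Ed t) :
    toSeg K ∈ EdA (M.Q j) B R t := by
  obtain ⟨-, h2, h3⟩ := RT.mem_Ed (QI M X j k0 hk0) 𝒦 U h𝒦 hU hK
  rw [← K.p_eq] at h2 h3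
  rw [mem_EdA]
  refine ⟨h2, ?_⟩
  obtain ⟨c, ⟨hc1, -⟩, hc2⟩ := h3
  have hc3 : c ∈ Cm_222.LL B R := Cm_222.qSh_LL X j hB hR k0 hk0 _ hc1
  have hc4 : (qfr M j t '' K.1 : Set E3) ∈ Lsh B R := by
    rcases hc3 with h | h
    · exact Or.inl (h hc2)
    · exact Or.inr (h hc2)
  refine ⟨_, hc4, flo (qχ M j t (til_ne (M.Q j) t).some), ?_⟩
  rw [← qχ_eq]
  have hfr : ∀ y, qfr M j t y =
      fun m => qχ M j t y m - (flo (qχ M j t (til_ne (M.Q j) t).some) m : ℝ) := by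
    intro y
    unfold qfr nrm
    rw [AffineEquiv.trans_apply, trz_apply]
  unfold itr
  ext u
  constructor
  · rintro ⟨y, hy, rfl⟩
    exact ⟨y, hy, hfr y⟩
  · rintro ⟨y, hy, e⟩
    refine ⟨y, hy, ?_⟩
    rw [hfr] at e
    funext m
    have h5 : qχ M j t y m - (flo (qχ M j t (til_ne (M.Q j) t).some) m : ℝ) =
        u m - (flo (qχ M j t (til_ne (M.Q j) t).some) m : ℝ) := congrFun e m
    linarith

theorem sum_toSeg {𝒦 : Set (Set E3)} {U : Set E3} {F : Finset (Sgt 𝒦 U)} {E : Finset Seg}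
    (h : ∀ K ∈ F, toSeg K ∈ E) {G : E3 → E3 → ℝ≥0∞} (hG : ∀ v y, G (-v) y = G v y) (s : E3) :
    ∑ K ∈ F, li (G K.p.2) (K.p.1 + s) K.p.2 ≤ ∑ K ∈ E, liS G s K := by
  classical
  have h1 : ∀ K ∈ F, li (G K.p.2) (K.p.1 + s) K.p.2 = liS G s (toSeg K) := by
    intro K _
    refine (liS_eq hG ?_).symm
    rw [toSeg_val, K.p_eq, shf_sgm']
  have h2 : ∑ K ∈ F, li (G K.p.2) (K.p.1 + s) K.p.2 =
      ∑ K' ∈ F.map ⟨toSeg, toSeg_inj⟩, liS G s K' := by
    rw [Finset.sum_map]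
    exact Finset.sum_congr rfl h1
  rw [h2]
  refine Finset.sum_le_sum_of_subset ?_
  intro K' hK'
  obtain ⟨K, hK, rfl⟩ := Finset.mem_map.1 hK'
  exact h K hK

/-- the potential edges of `QI` -/
def edQ {𝒦 : Set (Set E3)} {U : Set E3} (h𝒦 : 𝒦.Countable) (hU : U.Countable) (t : Pt (M.Q j)) :
    Finset (Sgt 𝒦 U) := ((QI M X j k0 hk0).toPT 𝒦 U h𝒦 hU).Ed t

/-- the energy of one potential tile of `QI` -/
def tq {𝒦 : Set (Set E3)} {U : Set E3} (h𝒦 : 𝒦.Countable) (hU : U.Countable)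
    (G : E3 → E3 → ℝ≥0∞) (p : ℝ) (s : E3) (t : Pt (M.Q j)) : ℝ≥0∞ :=
  (qAc M j t).indicator (fun a => volume (til (M.Q j) t) *
      (ENNReal.ofReal (qβ M j t) * ∑ K ∈ edQ M X j k0 hk0 h𝒦 hU t,
        li (G K.p.2) (K.p.1 + a) K.p.2) ^ p) s

theorem tile_le {B : ℕ} {R : ℝ} (hB : X.B j ≤ B) (hR : X.R j ≤ R) {𝒦 : Set (Set E3)}
    {U : Set E3} (h𝒦 : 𝒦.Countable) (hU : U.Countable) {G : E3 → E3 → ℝ≥0∞}
    (hG : ∀ v y, G (-v) y = G v y) {p : ℝ} (hp : 0 ≤ p) (s : E3) (t : Pt (M.Q j)) :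
    tq M X j k0 hk0 h𝒦 hU G p s t ≤ termI (M.Q j) B R G p s t := by
  classical
  unfold tq
  by_cases hs : s ∈ qAc M j t
  · rw [indicator_of_mem hs]
    have hu : used (M.Q j) t := used_of M j ⟨s, hs⟩
    have e1 : termI (M.Q j) B R G p s t = term (M.Q j) B R G p s t :=
      indicator_of_mem (s := {t | used (M.Q j) t}) hu _
    rw [e1]
    unfold term
    refine mul_le_mul' le_rfl (ENNReal.rpow_le_rpow (mul_le_mul' ?_ ?_) hp)
    · refine ENNReal.ofReal_le_ofReal ((qβ_le M j ⟨s, hs⟩).trans (le_of_eq ?_))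
      rcases t with q | q <;> rfl
    · exact sum_toSeg (fun K hK => mem_of_Ed M X j k0 hk0 hB hR h𝒦 hU hK) hG s
  · rw [indicator_of_notMem hs]
    exact bot_le

/-- **[BM], domination**: the energy of all the classes of `QI` -/
theorem dom {B : ℕ} {R : ℝ} (hB : X.B j ≤ B) (hR : X.R j ≤ R) {𝒦 : Set (Set E3)}
    {U : Set E3} (h𝒦 : 𝒦.Countable) (hU : U.Countable) {G : E3 → E3 → ℝ≥0∞}
    (hG : ∀ v y, G (-v) y = G v y) {p : ℝ} (hp : 0 ≤ p) (s : E3) :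
    ∑' c, ((QI M X j k0 hk0).toPT 𝒦 U h𝒦 hU).EnC G p c s ≤ FB (M.Q j) B R G p s := by
  classical
  rw [FB_ind]
  have h1 : ∑' t, tq M X j k0 hk0 h𝒦 hU G p s t =
      ∑' c, ∑' t : {t // qcl M k0 j t = c}, tq M X j k0 hk0 h𝒦 hU G p s t.1 := by
    rw [← (Equiv.sigmaFiberEquiv (qcl M k0 j)).tsum_eq (tq M X j k0 hk0 h𝒦 hU G p s),
      ENNReal.tsum_sigma']
    rfl
  have h2 : ∑' c, ((QI M X j k0 hk0).toPT 𝒦 U h𝒦 hU).EnC G p c s =
      ∑' t, tq M X j k0 hk0 h𝒦 hU G p s t := by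
    rw [h1]
    rfl
  rw [h2]
  exact ENNReal.tsum_le_tsum fun t => tile_le M X j k0 hk0 hB hR h𝒦 hU hG hp s t


end dom

end

end Crest.Agent.R096.Mfb_290
end

-- ▼ part R096/Bm4_748
section

/-!
# Row 96, EaX, [BM] of 365 #11372 / #11531 (a): the function `F` (fine part) of one block, BEFORE `w0`, the
mesh data, the lists, and its mean over the large box `Wt A ρ`.

`FF Q k0 B R G p s` : energy of the used cubes of scale `≥ k0`; `measurable_FF`; `FF_mean`; `dom_fine`;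
**`exists_F`** = all three.  `FB_mean`: the same for all inner potential tiles (290's `FB`).
-/

set_option autoImplicit false
set_option linter.unusedSectionVars false
set_option linter.unusedVariables false
set_option linter.style.longLine false

open MeasureTheory Set Filter Metric
open scoped Topology ENNReal NNReal

namespace Crest.Agent.R096.Bm_748

open Crest.Agent.R096.Msh_715 Crest.Agent.R096.Msh_810 Crest.Agent.R096.Mal_874
open Crest.Agent.R096.SkC1_961 (E3)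
open Crest.Agent.R96.Sg8_199 (Mu EnA measurable_EnA)
open Crest.Agent.R96.Sg1_199 (sgm li)
open Crest.Agent.R96.Wm3_748 Crest.Agent.R96.Wm4_748
open Crest.Agent.R096.Mfi_290
open Crest.Agent.R096.Mfb_290 (Seg EdA sub_EdA fβ term termI liS term_tr use_tr tq tile_le card_EdA
  used used_of FB Us sc)
open Crest.Agent.R096.Ez4_748 (of_qcl_inr)
open Crest.Agent.R096.EaX_766 (lin)
open Crest.Agent.R096.Exa_365 (Wt)
open Crest.Agent.R096.Pmc_112 (Gd')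

noncomputable section

theorem Gd'_neg (D' : E3 → E3 →L[ℝ] E3) (v y : E3) : Gd' D' (-v) y = Gd' D' v y := by
  unfold Gd'
  rw [map_neg, enorm_neg]

section

variable (Q : CB E3 3) (k0 : ℕ)

/-- fine names: used cubes of scale `≥ k0` -/
def fine (t : Pt Q) : Prop := ∃ p : ℕ × (Fin 3 → ℤ), t = Sum.inl p ∧ Use Q p ∧ k0 ≤ p.1

/-- fine tiles -/
abbrev Uf : Type := {t : Pt Q // fine Q k0 t}

/-- **energy of the fine tiles of the block at the shift `s`** -/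
def FF (B : ℕ) (R : ℝ) (G : E3 → E3 → ℝ≥0∞) (p : ℝ) (s : E3) : ℝ≥0∞ :=
  EnA volume (fun t : Uf Q k0 => til Q t.1) (fun _ => univ) (fun t => EdA Q B R t.1)
    (fun t => ENNReal.ofReal (fβ Q t.1)) (fun K : Seg => G K.p.2) (fun K => K.p.1)
    (fun K => K.p.2) p s

theorem FF_eq (B : ℕ) (R : ℝ) (G : E3 → E3 → ℝ≥0∞) (p : ℝ) (s : E3) :
    FF Q k0 B R G p s = ∑' t : Uf Q k0, term Q B R G p s t.1 := by
  unfold FF EnA
  refine tsum_congr fun t => ?_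
  rw [indicator_of_mem (mem_univ _)]
  rfl

theorem measurable_FF (B : ℕ) (R : ℝ) {G : E3 → E3 → ℝ≥0∞} (hG : ∀ v, Measurable (G v)) (p : ℝ) :
    Measurable (FF Q k0 B R G p) :=
  measurable_EnA (μ := (volume : Measure E3)) (fun t : Uf Q k0 => til Q t.1)
    (fun _ => MeasurableSet.univ) (fun t => EdA Q B R t.1) (fun t => ENNReal.ofReal (fβ Q t.1))
    (fun K : Seg => K.p.1) (fun K => K.p.2) (fun K => hG K.p.2) p

/-- energy of one tile, 0 if it is not fine -/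
def termF (B : ℕ) (R : ℝ) (G : E3 → E3 → ℝ≥0∞) (p : ℝ) (s : E3) (t : Pt Q) : ℝ≥0∞ :=
  {t | fine Q k0 t}.indicator (term Q B R G p s) t

theorem FF_ind (B : ℕ) (R : ℝ) (G : E3 → E3 → ℝ≥0∞) (p : ℝ) (s : E3) :
    FF Q k0 B R G p s = ∑' t : Pt Q, termF Q k0 B R G p s t := by
  rw [FF_eq]
  exact tsum_subtype {t | fine Q k0 t} (term Q B R G p s)

theorem fine_tr (w0 : E3) (t : Pt Q) : fine (Q.tr w0) k0 t ↔ fine Q k0 t := by
  constructor
  · rintro ⟨p, h1, h2, h3⟩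
    exact ⟨p, h1, (use_tr Q w0 p).1 h2, h3⟩
  · rintro ⟨p, h1, h2, h3⟩
    exact ⟨p, h1, (use_tr Q w0 p).2 h2, h3⟩

theorem termF_tr (w0 : E3) (B : ℕ) (R : ℝ) {G : E3 → E3 → ℝ≥0∞} (hG : ∀ v y, G (-v) y = G v y)
    (p : ℝ) (s : E3) (t : Pt Q) :
    termF (Q.tr w0) k0 B R G p s t = termF Q k0 B R G p (w0 + s) t := by
  by_cases h : fine Q k0 t
  · have h' : fine (Q.tr w0) k0 t := (fine_tr Q k0 w0 t).2 h
    have e1 : termF (Q.tr w0) k0 B R G p s t = term (Q.tr w0) B R G p s t :=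
      indicator_of_mem (s := {t | fine (Q.tr w0) k0 t}) h' _
    have e2 : termF Q k0 B R G p (w0 + s) t = term Q B R G p (w0 + s) t :=
      indicator_of_mem (s := {t | fine Q k0 t}) h _
    exact e1.trans ((term_tr Q w0 B R hG p s t).trans e2.symm)
  · have h' : ¬ fine (Q.tr w0) k0 t := fun h'' => h ((fine_tr Q k0 w0 t).1 h'')
    have e1 : termF (Q.tr w0) k0 B R G p s t = 0 :=
      indicator_of_notMem (s := {t | fine (Q.tr w0) k0 t}) h' _
    have e2 : termF Q k0 B R G p (w0 + s) t = 0 :=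
      indicator_of_notMem (s := {t | fine Q k0 t}) h _
    exact e1.trans e2.symm

theorem FF_tr (w0 : E3) (B : ℕ) (R : ℝ) {G : E3 → E3 → ℝ≥0∞} (hG : ∀ v y, G (-v) y = G v y)
    (p : ℝ) (s : E3) : FF (Q.tr w0) k0 B R G p s = FF Q k0 B R G p (w0 + s) := by
  have h2 := FF_ind (Q.tr w0) k0 B R G p s
  have h3 := FF_ind Q k0 B R G p (w0 + s)
  have h4 : ∑' t : Pt Q, termF (Q.tr w0) k0 B R G p s t = ∑' t : Pt Q, termF Q k0 B R G p (w0 + s) t :=
    tsum_congr fun t => termF_tr Q k0 w0 B R hG p s t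
  exact h2.trans (h4.trans h3.symm)

theorem ofReal_fβ (t : Pt Q) : ENNReal.ofReal (fβ Q t) ≤ ENNReal.ofReal (2 * 2 ^ scn Q t) *
    ‖(Q.ψ : E3 →L[ℝ] (Fin 3 → ℝ))‖ₑ := by
  rw [← ofReal_norm, ← ENNReal.ofReal_mul (by positivity)]
  refine ENNReal.ofReal_le_ofReal (le_of_eq ?_)
  rcases t with p | s <;> rfl

/-- **mean of the fine energy over the large box** -/
theorem FF_mean (hk0 : Q.kc ≤ k0) {R : ℝ} (hR1 : 1 ≤ R)
    (hR : ∀ s, s ≠ Q.S.core → ∀ u ∈ ZP (Q.S.GG s), ∀ v ∈ ZP (Q.S.GG s), ∀ l, |v l - u l| ≤ R)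
    (B : ℕ) {A : E3 ≃ᵃ[ℝ] E3} {s : ℝ} (hs : 0 < s) (hψ : ∀ y, Q.ψ y = s⁻¹ • lin A y)
    {D' : E3 → E3 →L[ℝ] E3} (hD : ∀ w, Measurable fun z => D' z w)
    {ρ t : ℝ} (hρ : 0 ≤ ρ) (ht : 0 ≤ t) (hl : s * (1 / 2 ^ k0) ≤ t * ρ)
    {S : Set E3} (hS : MeasurableSet S)
    (hSA : ∀ q, fine Q k0 q → ∀ y ∈ til Q q, ∀ a ∈ Wt A ρ, y + a ∈ S) {p : ℝ} (hp : 1 ≤ p) :
    ∫⁻ a in Wt A ρ, FF Q k0 B R (Gd' D') p a ≤
      (K3 p (Mfb_290.nE B R) 2 1 t 181 * ‖lin A‖ₑ ^ p *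
        ∫⁻ z in S, ‖(D' z).comp (lin A.symm)‖ₑ ^ p) * volume (Wt A ρ) := by
  refine block_mean_fine (Q := Q) (fun t : Uf Q k0 => t.1) hk0 Subtype.val_injective
    (fun t => t.2) hs hψ (fun t => EdA Q B R t.1) (m := Mfb_290.nE B R) ?_ (fun K : Seg => K.p.1)
    (fun K => K.p.2) (fun t K hK => sub_EdA Q hK) (fun t => ofReal_fβ Q t.1) hD hρ ht hl hS
    (fun t y hy a ha => hSA t.1 t.2 y hy a ha) hp
  intro t
  refine card_EdA Q hR1 hR ?_
  obtain ⟨p, h1, h2, -⟩ := t.2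
  rw [h1]
  exact h2


end

/-! ### domination -/

section dom

variable {J : Type} (M : MD E3 3 J) (X : RD M) (j : J) (k0 : ℕ) (hk0 : (M.Q j).kc ≤ k0)

theorem dom_fine_self {B : ℕ} {R : ℝ} (hB : X.B j ≤ B) (hR : X.R j ≤ R) {𝒦 : Set (Set E3)}
    {U : Set E3} (h𝒦 : 𝒦.Countable) (hU : U.Countable) {G : E3 → E3 → ℝ≥0∞}
    (hG : ∀ v y, G (-v) y = G v y) {p : ℝ} (hp : 0 ≤ p) (s : E3) :
    ∑' m : ℕ, ((QI M X j k0 hk0).toPT 𝒦 U h𝒦 hU).EnC G p (Sum.inr m) s ≤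
      FF (M.Q j) k0 B R G p s := by
  classical
  rw [FF_ind]
  have h2 : ∑' m : ℕ, ((QI M X j k0 hk0).toPT 𝒦 U h𝒦 hU).EnC G p (Sum.inr m) s =
      ∑' q : (Σ m : ℕ, {t // qcl M k0 j t = Sum.inr m}),
        tq M X j k0 hk0 h𝒦 hU G p s q.2.1 := by
    rw [ENNReal.tsum_sigma']
    rfl
  rw [h2]
  have hinj : Function.Injective
      (fun q : (Σ m : ℕ, {t // qcl M k0 j t = Sum.inr m}) => (q.2.1 : Pt (M.Q j))) := by
    rintro ⟨m, t, ht⟩ ⟨m', t', ht'⟩ h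
    change t = t' at h
    subst h
    have e : (Sum.inr m : Pt (M.Q j) ⊕ ℕ) = Sum.inr m' := ht.symm.trans ht'
    have e' := Sum.inr.inj e
    subst e'
    rfl
  refine le_trans (ENNReal.tsum_le_tsum fun q => ?_)
    (ENNReal.tsum_comp_le_tsum_of_injective hinj (termF (M.Q j) k0 B R G p s))
  by_cases hs : s ∈ qAc M j q.2.1
  · refine (tile_le M X j k0 hk0 hB hR h𝒦 hU hG hp s q.2.1).trans (le_of_eq ?_)
    have hu : used (M.Q j) q.2.1 := used_of M j ⟨s, hs⟩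
    obtain ⟨p', h3, h4, h5⟩ := of_qcl_inr M j k0 q.2.2
    have hf : fine (M.Q j) k0 q.2.1 := ⟨p', h3, by rw [h3] at hu; exact hu, by omega⟩
    have e1 : termI (M.Q j) B R G p s q.2.1 = term (M.Q j) B R G p s q.2.1 :=
      indicator_of_mem (s := {t | used (M.Q j) t}) hu _
    have e2 : termF (M.Q j) k0 B R G p s q.2.1 = term (M.Q j) B R G p s q.2.1 :=
      indicator_of_mem (s := {t | fine (M.Q j) k0 t}) hf _
    rw [e1, e2]
  · have e : tq M X j k0 hk0 h𝒦 hU G p s q.2.1 = 0 := by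
      unfold tq
      exact indicator_of_notMem hs _
    rw [e]
    exact bot_le

/-- **domination of the fine classes at the original place of the block** -/
theorem dom_fine {Q : CB E3 3} {w0 : E3} (hQ : M.Q j = Q.tr w0) {B : ℕ} {R : ℝ} (hB : X.B j ≤ B)
    (hR : X.R j ≤ R) {𝒦 : Set (Set E3)} {U : Set E3} (h𝒦 : 𝒦.Countable) (hU : U.Countable)
    {G : E3 → E3 → ℝ≥0∞} (hG : ∀ v y, G (-v) y = G v y) {p : ℝ} (hp : 0 ≤ p) (s : E3) :
    ∑' m : ℕ, ((QI M X j k0 hk0).toPT 𝒦 U h𝒦 hU).EnC G p (Sum.inr m) s ≤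
      FF Q k0 B R G p (w0 + s) := by
  have h1 := dom_fine_self M X j k0 hk0 hB hR h𝒦 hU hG hp s
  have h2 : FF (M.Q j) k0 B R G p s = FF (Q.tr w0) k0 B R G p s := by rw [hQ]
  rw [h2, FF_tr Q k0 w0 B R hG p s] at h1
  exact h1

/-- the energy of all classes = coarse + fine -/
theorem sum_classes {𝒦 : Set (Set E3)} {U : Set E3} (h𝒦 : 𝒦.Countable) (hU : U.Countable)
    (G : E3 → E3 → ℝ≥0∞) (p : ℝ) (s : E3) :
    ∑' c, ((QI M X j k0 hk0).toPT 𝒦 U h𝒦 hU).EnC G p c s =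
      ∑' t : Pt (M.Q j), ((QI M X j k0 hk0).toPT 𝒦 U h𝒦 hU).EnC G p (Sum.inl t) s +
      ∑' m : ℕ, ((QI M X j k0 hk0).toPT 𝒦 U h𝒦 hU).EnC G p (Sum.inr m) s := by
  set f : Pt (M.Q j) ⊕ ℕ → ℝ≥0∞ := fun c => ((QI M X j k0 hk0).toPT 𝒦 U h𝒦 hU).EnC G p c s
  exact (ENNReal.summable.tsum_sum (f := f) ENNReal.summable)

end dom

/-- **[BM], FINE FORM, LITERALLY**: `F` before `w0`, the mesh data, the lists -/
theorem exists_F {Q : CB E3 3} {k0 : ℕ} (hk0 : Q.kc ≤ k0) {R : ℝ} (hR1 : 1 ≤ R)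
    (hR : ∀ s, s ≠ Q.S.core → ∀ u ∈ ZP (Q.S.GG s), ∀ v ∈ ZP (Q.S.GG s), ∀ l, |v l - u l| ≤ R)
    (B : ℕ) {A : E3 ≃ᵃ[ℝ] E3} {s : ℝ} (hs : 0 < s) (hψ : ∀ y, Q.ψ y = s⁻¹ • lin A y)
    {D' : E3 → E3 →L[ℝ] E3} (hD : ∀ w, Measurable fun z => D' z w)
    {ρ t : ℝ} (hρ : 0 ≤ ρ) (ht : 0 ≤ t) (hl : s * (1 / 2 ^ k0) ≤ t * ρ)
    {S : Set E3} (hS : MeasurableSet S)
    (hSA : ∀ q, used Q q → ∀ y ∈ til Q q, ∀ a ∈ Wt A ρ, y + a ∈ S) {p : ℝ} (hp : 1 ≤ p) :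
    ∃ F : E3 → ℝ≥0∞, Measurable F ∧
      ∫⁻ a in Wt A ρ, F a ≤
        (K3 p (Mfb_290.nE B R) 2 1 t 181 *
          (‖lin A‖ₑ ^ p * ∫⁻ z in S, ‖(D' z).comp (lin A.symm)‖ₑ ^ p)) * volume (Wt A ρ) ∧
      ∀ {J : Type} (M : MD E3 3 J) (X : RD M) (j : J) (w0 : E3), M.Q j = Q.tr w0 →
        X.B j ≤ B → X.R j ≤ R → ∀ (hk : (M.Q j).kc ≤ k0) (𝒦 : Set (Set E3)) (U : Set E3)
        (h𝒦 : 𝒦.Countable) (hU : U.Countable) (s : E3),
        ∑' m : ℕ, ((QI M X j k0 hk).toPT 𝒦 U h𝒦 hU).EnC (Gd' D') p (Sum.inr m) s ≤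
          F (w0 + s) := by
  refine ⟨FF Q k0 B R (Gd' D') p, measurable_FF Q k0 B R (fun v => (hD v).enorm) p, ?_, ?_⟩
  · refine (FF_mean Q k0 hk0 hR1 hR B hs hψ hD hρ ht hl hS (fun q hq y hy a ha => ?_) hp).trans
      (le_of_eq (by ring))
    obtain ⟨p', h1, h2, -⟩ := hq
    exact hSA q (by rw [h1]; exact h2) y hy a ha
  · intro J M X j w0 hQ hB hR' hk 𝒦 U h𝒦 hU s
    exact dom_fine M X j k0 hk hQ hB hR' h𝒦 hU (Gd'_neg D') (by linarith) s

/-- the bound for `X.B, X.R` and any of the weights -/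
theorem used_iff (Q : CB E3 3) (q : Pt Q) : used Q q ↔ Used Q q := by
  rcases q with p | s <;> exact Iff.rfl

end

end Crest.Agent.R096.Bm_748
end

-- ▼ part R096/Eds6_746
section

/-!
# Row 96 (S0127), helper746.  EA-D, part 4b (**[NC]**): the edges of the tiles of a block are finitely many,
with a uniform number; they contain the edges of the core.
-/

set_option autoImplicit false
set_option linter.style.longLine false
set_option linter.unusedSectionVars false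

open MeasureTheory Set Filter Metric
open scoped Topology ENNReal NNReal

namespace Crest.Agent.R096.Eds_746

open Crest.Agent.R096.Msh_715 Crest.Agent.R096.Mal_874 Crest.Agent.R096.Ncl_476
  Crest.Agent.R096.Msh_810 Crest.Agent.R096.Ine_222 Crest.Agent.R096.Mfi_290 Crest.Agent.R096.Qc_222
open Crest.Agent.R096.SkC1_961 (E3 Cfg)
open Crest.Agent.R96.Sg1_199 (li sgm sgm_eq_segment)
open Crest.Agent.R096.Ls_222 (Edg ea ev eIn mem_eIn sgm_edg ev_ne sgm_cases)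
open Crest.Agent.R096.EaX_766 (lin)

noncomputable section

/-! ### tilings -/

/-- a point of a tile where the cell is not a tile lies in another tile -/
theorem exists_other {E : Type*} [NormedAddCommGroup E] [NormedSpace ℝ E] {Om : Set E} {ι : Type*}
    (T : Tiling Om ι) {x : E} (hx : x ∈ Om) (hV : T.V x ≠ ⊤) (i : ι) : ∃ j ≠ i, x ∈ P (T.H j) := by
  by_contra hcon
  push Not at hcon
  apply hV
  rw [T.V_eq_top_iff hx]
  have hsub : T.at_ x ⊆ {i} := by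
    intro j hj
    by_contra h
    exact hcon j h hj
  obtain ⟨r, hr, hO, h1⟩ := T.exists_ball hx
  refine ⟨i, ?_⟩
  rw [← Nr_527.interior_P' (T.ne i), mem_interior]
  refine ⟨ball x r, ?_, isOpen_ball, mem_ball_self hr⟩
  intro y hy
  obtain ⟨j, hj⟩ := T.at_nonempty (hO hy)
  have := hsub (h1 y hy hj)
  rw [mem_singleton_iff] at this
  rw [← this]
  exact hj

section blk

variable (Q : CB E3 3) (k0 : ℕ) (hk : Q.kc ≤ k0)

/-- a tile which meets the core lies in the block -/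
theorem tile_sub_N {t : TIx Q k0 hk} {x : E3} (hx : x ∈ P ((Q.T k0 hk).H t)) (hK : x ∈ Q.Kc) :
    P ((Q.T k0 hk).H t) ⊆ Q.N := by
  rcases t with τ | s
  · intro y hy
    have hxb : x ∈ Q.S.bp Q.ψ Q.a' Q.kc := by
      rw [← Q.P_core k0 hk] at hK
      exact Q.P_inr_sub k0 hk _ hK
    have h1 := Q.near_tile k0 hk (τ := τ.1) (x := x) (y := y) hx hy (Q.near_of_bp hxb)
    rw [CB.mem_N]
    intro l
    have h2 := h1 l
    have hw := Q.w_real
    constructor <;> linarith [h2.1, h2.2]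
  · exact (Q.P_inr_sub k0 hk s).trans Q.bp_sub_N

/-- **the edges of the core are edges of other tiles of the block** -/
theorem core_sub_EB {e : Edg (Q.T k0 hk)} (he : e ∈ eIn (Q.T k0 hk) (Q.cix k0 hk)) :
    e ∈ EB Q k0 hk := by
  obtain ⟨x, hx, hd, hex⟩ := e.2
  have hxK : x ∈ P ((Q.T k0 hk).H (Q.cix k0 hk)) := mem_eIn.1 he (hex ▸ (Q.T k0 hk).self_mem_cc x)
  have hV : (Q.T k0 hk).V x ≠ ⊤ := by
    intro h
    unfold Tiling.dim at hd
    rw [h, finrank_top, Module.finrank_fin_fun] at hd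
    omega
  obtain ⟨t, ht, hxt⟩ := exists_other (Q.T k0 hk) hx hV (Q.cix k0 hk)
  refine ⟨t, tile_sub_N Q k0 hk hxt ?_, ht, ?_⟩
  · rw [← Q.P_core k0 hk]
    exact hxK
  · rw [mem_eIn, hex]
    exact (Q.T k0 hk).cc_sub_tile hxt

/-- the tiles of the block, without the core -/
def OB : Set (TIx Q k0 hk) := {t | P ((Q.T k0 hk).H t) ⊆ Q.N ∧ t ≠ Q.cix k0 hk}

theorem kap_le {t : TIx Q k0 hk} : kap Q k0 hk t ≤ k0 + 1 := by
  rcases t with τ | s
  · by_cases hb : (P ((Q.T0 k0 hk).H τ.1) ∩ Q.S.bp Q.ψ Q.a' Q.kc).Nonempty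
    · rw [kap_inl_meet _ _ _ hb]
      omega
    · rw [kap_inl _ _ _ hb]
      have := Q.le_k k0 hk (τ := τ.1)
      omega
  · show Q.kc ≤ k0 + 1
    omega

end blk

/-- the identity frame of a block -/
def Aψ (Q : CB E3 3) : E3 ≃ᵃ[ℝ] E3 := Q.ψ.toLinearEquiv.toAffineEquiv

theorem Aψ_lin (Q : CB E3 3) (x : E3) : (Aψ Q).linear x = (1 : ℝ) • Q.ψ x := by
  rw [one_smul]
  rfl

/-- **the number of the tiles of a block** -/
theorem card_OB {Bs : ℕ} (hB1 : 1 ≤ Bs) (Nb : ℝ) (hNb : 0 ≤ Nb) (dk : ℕ) : ∃ NT : ℝ, 0 ≤ NT ∧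
    ∀ (Q : CB E3 3) (k0 : ℕ) (hk : Q.kc ≤ k0), k0 ≤ Q.kc + dk →
      (∀ i, ∀ p ∈ Q.S.GG i, ∀ l, |p.1 l| ≤ Bs) →
      (∀ i, i ≠ Q.S.core → ∀ v ∈ ZP (Q.S.GG i), ∀ w ∈ ZP (Q.S.GG i), ∀ l, |w l - v l| ≤ Bs) →
      (∀ l, (Q.be l : ℝ) - Q.al l ≤ Nb) →
      ∀ F : Finset (TIx Q k0 hk), (∀ t ∈ F, t ∈ OB Q k0 hk) → (F.card : ℝ) ≤ NT := by
  classical
  obtain ⟨v, hv0, hv⟩ := exists_vol_lb (volume : Measure E3) (SL_finite Bs)
  refine ⟨(2 ^ (dk + 1)) ^ 3 * Nb ^ 3 / v, by positivity, ?_⟩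
  intro Q k0 hk hdk hB hR hN F hF
  have hfam := fam Q k0 hk hB1 (A := Aψ Q) (u := 1) one_pos (Aψ_lin Q) hB hR
  have hpc : (0:ℝ) < 2 ^ Q.kc := by positivity
  -- the volume of the block
  have hB0 := frL_chi Q (A := Aψ Q) (u := 1) (Aψ_lin Q) Q.kc 0
  have hvN : ENNReal.ofReal |(lin (Aψ Q)).det| * volume Q.N ≤
      ENNReal.ofReal ((1 / 2 ^ Q.kc) ^ 3 * Nb ^ 3) := by
    rw [hB0.vol (by positivity), ENNReal.ofReal_mul (by positivity)]
    refine mul_le_mul' le_rfl ?_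
    have h1 : ((chi Q.ψ Q.a' Q.kc).trans (trz 0)) '' Q.N ⊆
        Icc (fun l => (Q.al l : ℝ)) (fun l => (Q.be l : ℝ)) := by
      rintro _ ⟨y, hy, rfl⟩
      rw [CB.mem_N] at hy
      have h2 : ∀ l, ((chi Q.ψ Q.a' Q.kc).trans (trz 0)) y l = ps Q.a' Q.kc (Q.ψ y) l := by
        intro l
        rw [AffineEquiv.trans_apply, trz_apply, chi_eq_ps]
        simp
      constructor
      · intro l
        have h3 := (hy l).1
        show (Q.al l : ℝ) ≤ _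
        rw [h2]
        unfold CB.al
        push_cast
        exact h3
      · intro l
        have h3 := (hy l).2
        show _ ≤ (Q.be l : ℝ)
        rw [h2]
        unfold CB.be
        push_cast
        exact h3
    refine (measure_mono h1).trans ?_
    rw [Real.volume_Icc_pi]
    calc ∏ i, ENNReal.ofReal ((Q.be i : ℝ) - Q.al i) ≤ ∏ _i : Fin 3, ENNReal.ofReal Nb :=
          Finset.prod_le_prod' fun i _ => ENNReal.ofReal_le_ofReal (hN i)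
      _ = ENNReal.ofReal (Nb ^ 3) := by
          rw [Finset.prod_const, Finset.card_univ, Fintype.card_fin, ENNReal.ofReal_pow hNb]
  -- each tile has a definite volume
  have hlow : ∀ t ∈ F, ENNReal.ofReal ((1 / 2 ^ (k0 + 1)) ^ 3 * v) ≤
      ENNReal.ofReal |(lin (Aψ Q)).det| * volume (P ((Q.T k0 hk).H t)) := by
    intro t ht
    refine le_trans (ENNReal.ofReal_le_ofReal ?_) (hfam.vol_ge hv (hF t ht).2)
    have h1 : (2:ℝ) ^ kap Q k0 hk t ≤ 2 ^ (k0 + 1) :=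
      pow_le_pow_right₀ (by norm_num) (kap_le Q k0 hk)
    gcongr
  have hsum : ∑ t ∈ F, volume (P ((Q.T k0 hk).H t)) ≤ volume Q.N := by
    calc ∑ t ∈ F, volume (P ((Q.T k0 hk).H t)) ≤ ∑ t ∈ F, volume (I ((Q.T k0 hk).H t)) :=
          Finset.sum_le_sum fun t _ => vol_P_le ((Q.T k0 hk).ne t)
      _ = volume (⋃ t ∈ F, I ((Q.T k0 hk).H t)) := (measure_biUnion_finset
          (fun a _ b _ hab => (Q.T k0 hk).dis a b hab) fun t _ => (isOpen_I _).measurableSet).symm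
      _ ≤ volume Q.N := measure_mono (iUnion₂_subset fun t ht =>
          (I_sub_P _).trans (hF t ht).1)
  have h4 : ENNReal.ofReal (F.card * ((1 / 2 ^ (k0 + 1)) ^ 3 * v)) ≤
      ENNReal.ofReal ((1 / 2 ^ Q.kc) ^ 3 * Nb ^ 3) := by
    calc ENNReal.ofReal (F.card * ((1 / 2 ^ (k0 + 1)) ^ 3 * v))
        = ∑ t ∈ F, ENNReal.ofReal ((1 / 2 ^ (k0 + 1)) ^ 3 * v) := by
          rw [Finset.sum_const, nsmul_eq_mul, ENNReal.ofReal_mul (Nat.cast_nonneg _),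
            ENNReal.ofReal_natCast]
      _ ≤ ∑ t ∈ F, ENNReal.ofReal |(lin (Aψ Q)).det| * volume (P ((Q.T k0 hk).H t)) :=
          Finset.sum_le_sum hlow
      _ = ENNReal.ofReal |(lin (Aψ Q)).det| * ∑ t ∈ F, volume (P ((Q.T k0 hk).H t)) := by
          rw [Finset.mul_sum]
      _ ≤ ENNReal.ofReal |(lin (Aψ Q)).det| * volume Q.N := by gcongr
      _ ≤ _ := hvN
  rw [ENNReal.ofReal_le_ofReal_iff (by positivity)] at h4
  rw [le_div_iff₀ hv0]
  have h5 : (2:ℝ) ^ (k0 + 1) ≤ 2 ^ (dk + 1) * 2 ^ Q.kc := by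
    rw [← pow_add]
    exact pow_le_pow_right₀ (by norm_num) (by omega)
  have h6 : (0:ℝ) < (1 / 2 ^ (k0 + 1)) ^ 3 := by positivity
  have h7 : (1 / 2 ^ Q.kc : ℝ) ^ 3 ≤ (1 / 2 ^ (k0 + 1)) ^ 3 * (2 ^ (dk + 1)) ^ 3 := by
    rw [← mul_pow]
    refine pow_le_pow_left₀ (by positivity) ?_ 3
    rw [div_mul_eq_mul_div, one_mul, div_le_div_iff₀ hpc (by positivity), one_mul]
    exact h5
  refine le_of_mul_le_mul_left ?_ h6
  calc (1 / 2 ^ (k0 + 1)) ^ 3 * (F.card * v) = F.card * ((1 / 2 ^ (k0 + 1)) ^ 3 * v) := by ring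
    _ ≤ (1 / 2 ^ Q.kc) ^ 3 * Nb ^ 3 := h4
    _ ≤ ((1 / 2 ^ (k0 + 1)) ^ 3 * (2 ^ (dk + 1)) ^ 3) * Nb ^ 3 := by gcongr
    _ = _ := by ring

/-- **[NC]: the number of the edges of a block** -/
theorem card_EB {Bs : ℕ} (hB1 : 1 ≤ Bs) (Nb : ℝ) (hNb : 0 ≤ Nb) (dk : ℕ) : ∃ NC : ℕ,
    ∀ (Q : CB E3 3) (k0 : ℕ) (hk : Q.kc ≤ k0), k0 ≤ Q.kc + dk →
      (∀ i, ∀ p ∈ Q.S.GG i, ∀ l, |p.1 l| ≤ Bs) →
      (∀ i, i ≠ Q.S.core → ∀ v ∈ ZP (Q.S.GG i), ∀ w ∈ ZP (Q.S.GG i), ∀ l, |w l - v l| ≤ Bs) →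
      (∀ l, (Q.be l : ℝ) - Q.al l ≤ Nb) → (EB Q k0 hk).Finite ∧ (EB Q k0 hk).ncard ≤ NC := by
  classical
  obtain ⟨NT, hNT, H⟩ := card_OB hB1 Nb hNb dk
  refine ⟨⌊NT⌋₊ * (SL Bs).ncard, ?_⟩
  intro Q k0 hk hdk hB hR hN
  have hcard := H Q k0 hk hdk hB hR hN
  have hfin : (OB Q k0 hk).Finite := by
    by_contra hinf
    obtain ⟨F, hF1, hF2⟩ := Set.Infinite.exists_subset_card_eq hinf (⌊NT⌋₊ + 1)
    have h1 := hcard F fun t ht => hF1 ht
    rw [hF2] at h1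
    have h2 := Nat.lt_floor_add_one NT
    push_cast at h1
    linarith
  have hfam := fam Q k0 hk hB1 (A := Aψ Q) (u := 1) one_pos (Aψ_lin Q) hB hR
  have hsub : EB Q k0 hk ⊆ ((hfin.toFinset.biUnion fun t => eIn (Q.T k0 hk) t : Finset _) :
      Set (Edg (Q.T k0 hk))) := by
    rintro e ⟨t, h1, h2, h3⟩
    rw [Finset.mem_coe, Finset.mem_biUnion]
    exact ⟨t, hfin.mem_toFinset.2 ⟨h1, h2⟩, h3⟩
  refine ⟨(Finset.finite_toSet _).subset hsub, ?_⟩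
  calc (EB Q k0 hk).ncard
      ≤ ((hfin.toFinset.biUnion fun t => eIn (Q.T k0 hk) t : Finset _) :
        Set (Edg (Q.T k0 hk))).ncard := Set.ncard_le_ncard hsub (Finset.finite_toSet _)
    _ = (hfin.toFinset.biUnion fun t => eIn (Q.T k0 hk) t).card := Set.ncard_coe_finset _
    _ ≤ ∑ t ∈ hfin.toFinset, (eIn (Q.T k0 hk) t).card := Finset.card_biUnion_le
    _ ≤ ∑ _t ∈ hfin.toFinset, (SL Bs).ncard := by
        refine Finset.sum_le_sum fun t ht => ?_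
        obtain ⟨B, -, hS⟩ := hfam.fr t (hfin.mem_toFinset.1 ht).2
        exact eIn_card_le hfam.fin hS
    _ = hfin.toFinset.card * (SL Bs).ncard := by rw [Finset.sum_const, smul_eq_mul]
    _ ≤ ⌊NT⌋₊ * (SL Bs).ncard := by
        gcongr
        exact Nat.le_floor (hcard _ fun t ht => hfin.mem_toFinset.1 ht)

end

end Crest.Agent.R096.Eds_746
end

-- ▼ part R096/Eau5_365

/-!
Row 96 (S0127), helper365.  **EAU5**: the good set of one block with the energies of all classes ((B3)).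
-/

set_option autoImplicit false
set_option linter.style.longLine false
set_option linter.unusedSectionVars false
set_option linter.unusedVariables false

open MeasureTheory Set Filter Topology Metric
open scoped ENNReal NNReal

namespace Crest.Agent.R096.Eau_365

open Crest.Agent.R096.Msh_715 Crest.Agent.R096.Mal_874 Crest.Agent.R096.Ncl_476
  Crest.Agent.R096.Msh_810 Crest.Agent.R096.Ine_222 Crest.Agent.R096.Mfi_290
open Crest.Agent.R096.SkC1_961 (E3 Hom3 FoamD)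
open Crest.Agent.R096.Er_594 (SH3)
open Crest.Agent.R096.Bsp_628 Crest.Agent.R096.Brk5_582
open Crest.Agent.R096.Bxs_627 (ctr)
open Crest.Agent.R096.EaX_766 (lin cbx ExIn Kor RatA)
open Crest.Agent.R096.Exa_365 Crest.Agent.R096.Acc_365
open Crest.Agent.R096.Ls_222 (Edg ea ev eIn mem_eIn sgm_edg ev_ne)
open Crest.Agent.R096.Pmc_112 (Gd')
open Crest.Agent.R096.Eds_746 (EB)
open Crest.Agent.R96.Wm4_748 (K3)
open Crest.Agent.R96.Sg1_199 (li sgm)

noncomputable section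

/-- **the good set of one block, with the energies of all classes** -/
theorem block_en {p : ℝ} (hp : 1 ≤ p) (Bn : ℕ) {R0 : ℝ} (hR0 : 1 ≤ R0) (hBn : 1 ≤ Bn) :
    ∃ C4 : ℝ≥0, 0 < C4 ∧ ∀ {Om La : Set E3} {f : E3 → E3} {D : E3 → E3 →L[ℝ] E3}, IsOpen Om →
      SH3 p Om La f D → ∀ {o : E3} {u κ1 κ2 : ℝ} {F : Set (Bx (Fin 3))} {c : F}
      {A : E3 ≃ᵃ[ℝ] E3} {lam : ℝ}, ExIn p Om f D o u κ1 κ2 c.1 A lam →
      ∀ {κ4 : ℝ} {m : ℕ} {Q : CB E3 3}, 0 < m → BkX F c A lam κ4 m Bn R0 Q →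
      ∀ {k0 : ℕ} (hk : Q.kc ≤ k0) {ρ : ℝ}, 0 < ρ → 4 * (lam * c.1.sz) * (1 / 2 ^ k0) ≤ m * ρ →
      (∀ k, (1 + 2 * κ4) * lam * c.1.side k / 2 + ρ ≤ (1 + 2 * κ2) * lam * c.1.side k / 2) →
      ∀ {NC : ℕ}, (EB Q k0 hk).Finite → (EB Q k0 hk).ncard ≤ NC → ∀ {η : ℝ}, 0 < η →
      0 ≤ κ1 * (lam * c.1.sz) ^ 3 →
      (NC : ℝ) * (κ1 * (lam * c.1.sz) ^ 3) ≤ (1 / 4) * η * ρ ^ 3 →
      ∀ {D' : E3 → E3 →L[ℝ] E3}, (∀ v, Measurable fun z => D' z v) → ∀ {Kq : ℝ}, 0 ≤ Kq →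
      ∀ {S : Set E3}, MeasurableSet S → (∀ᵐ x, x ∈ S → ∀ v, ‖D' x v‖ ≤ Kq * ‖D x v‖) →
      (∀ y ∈ Q.N, y ∉ interior Q.Kc → ∀ v ∈ Wt A ρ, y + v ∈ S) →
      ∃ G : Set E3, MeasurableSet G ∧ G ⊆ Wt A ρ ∧ volume G ≠ 0 ∧ ∀ w ∈ G,
        GoodW p Om f D A (fun e : EB Q k0 hk => ea e.1) (fun e => ev e.1) (ENNReal.ofReal η) w ∧
        ∀ {J : Type} (M : MD E3 3 J) (X : RD M) (j : J) (w0 s : E3), M.Q j = Q.tr w0 →
          w0 + s = w → X.B j ≤ Bn → X.R j ≤ R0 →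
          ∀ (hk0 : (M.Q j).kc ≤ k0) (𝒦 : Set (Set E3)) (U : Set E3) (h𝒦 : 𝒦.Countable)
            (hU : U.Countable),
          ∑' c', ((QI M X j k0 hk0).toPT 𝒦 U h𝒦 hU).EnC (Gd' D') p c' s ≤
            C4 * (ENNReal.ofReal Kq * (1 + ENNReal.ofReal η ^ (1 / p))) ^ p * ‖lin A‖ₑ ^ p *
              volume (Q.N \ Q.Kc) +
            8 * (K3 p (Mfb_290.nE Bn R0) 2 1 1 181 *
              (‖lin A‖ₑ ^ p * ∫⁻ z in S, ‖(D' z).comp (lin A.symm)‖ₑ ^ p)) := by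
  set Bs : ℕ := max Bn ⌈R0⌉₊ with hBs
  have hBs1 : 1 ≤ Bs := hBn.trans (le_max_left _ _)
  obtain ⟨C4, hC4, H⟩ := Crest.Agent.R096.Eds_746.coarse_good hBs1 hp
  refine ⟨C4, hC4, ?_⟩
  intro Om La f D hO h o u κ1 κ2 F c A lam hE κ4 m Q hm hQ k0 hk ρ hρ hl hroom NC hfin hcard η hη
    hκ1 hκ D' hDm Kq hKq S hS hD' hSA
  obtain ⟨s, hs, hs1, hψ⟩ := hQ.psi
  have hm' : (0:ℝ) < m := by exact_mod_cast hm
  have hlin : ∀ x : E3, A.linear x = s • Q.ψ x := by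
    intro x
    rw [hψ x, smul_smul, mul_inv_cancel₀ hs.ne', one_smul]
    rfl
  have hB' : ∀ i, ∀ p ∈ Q.S.GG i, ∀ l, |p.1 l| ≤ (Bs : ℤ) := fun i p hp l =>
    (hQ.bnd i p hp l).trans (by exact_mod_cast le_max_left _ _)
  have hR' : ∀ i, i ≠ Q.S.core → ∀ v ∈ ZP (Q.S.GG i), ∀ w ∈ ZP (Q.S.GG i), ∀ l,
      |w l - v l| ≤ (Bs : ℝ) := by
    intro i hi v hv w hw l
    refine (hQ.size i hi v hv w hw l).trans ((Nat.le_ceil R0).trans ?_)
    exact_mod_cast le_max_right _ _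
  -- the fine part
  have hl' : s * (1 / 2 ^ k0) ≤ 1 * ρ := by
    have h1 : m * (s * (1 / 2 ^ k0)) ≤ m * ρ := by
      calc m * (s * (1 / 2 ^ k0)) = (m * s) * (1 / 2 ^ k0) := by ring
        _ ≤ 4 * (lam * c.1.sz) * (1 / 2 ^ k0) := by gcongr
        _ ≤ m * ρ := hl
    rw [one_mul]
    exact le_of_mul_le_mul_left h1 hm'
  obtain ⟨FF, hF1, hF2, hF3⟩ := Crest.Agent.R096.Bm_748.exists_F hk hR0 hQ.size Bn hs hψ hDm hρ.le
    zero_le_one hl' hS (fun q hq y hy a ha => by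
      rw [Crest.Agent.R096.Bm_748.used_iff] at hq
      exact hSA y (Crest.Agent.R096.Bm_748.used_sub_N hq hy)
        (Crest.Agent.R096.Bm_748.til_off_core hq hy) a ha) hp
  obtain ⟨G, g1, g2, g3, g4⟩ := block_good hO h hE hk hQ.N hρ hroom hfin hcard hη hκ1 hκ hKq hD'
    hSA hF1 hF2
  refine ⟨G, g1, g2, g3, fun w hw => ?_⟩
  obtain ⟨g5, g6, g7⟩ := g4 w hw
  refine ⟨g5, ?_⟩
  intro J M X j w0 s' hMQ hws hXB hXR hk0 𝒦 U h𝒦 hU
  rw [Crest.Agent.R096.Bm_748.sum_classes]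
  refine add_le_add ?_ ?_
  · exact H Q k0 hk A s hs hlin hB' hR' Om f D _ w g5 D' _ g7 M X j w0 s' hMQ hws hk0 𝒦 U h𝒦 hU
  · refine (hF3 M X j w0 hMQ hXB hXR hk0 𝒦 U h𝒦 hU s').trans ?_
    rw [hws]
    exact g6

end

end Crest.Agent.R096.Eau_365
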