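import Crest.Agent.R96.EaP3_899
import Crest.Agent.R096.Exa1_365
import Crest.Agent.R096.Pmc4_112

/-!
# Row 96 (S0127), helper746.  EA-D, part 1: **`ea_push_dir`**

899's `ea_push` with ONE measurable map `D' : E3 → E3 →L[ℝ] E3`, zero off `OmH`, and with the
**directional** bound `‖D' x v‖ ≤ KQ ‖D x v‖`.
-/

set_option autoImplicit false
set_option linter.unusedSectionVars false
set_option linter.unusedVariables false
set_option linter.style.longLine false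

open MeasureTheory Set Filter Topology
open scoped NNReal ENNReal

noncomputable section

namespace Crest.Agent.R096.Eds_746

open Crest.Agent.R096.Bsp_628 Crest.Agent.R096.Brk5_582 Crest.Agent.R096.SkC1_961
open Crest.Agent.R096.Bxs_627 hiding E3
open Crest.Agent.R96.Push_899 Crest.Agent.R096.EaX_766 Crest.Agent.R96.EaP_899
open Crest.Agent.R096.Msh_715
open Crest.Agent.R096.Er_594 (SH3)
open Crest.Agent.R096.Der_764 (OmH isOpen_OmH)
open Crest.Agent.R96.Acl_392 Crest.Agent.R96.Sob2_199 Crest.Agent.R96.Sob4_199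
  Crest.Agent.R96.Sob5_199 Crest.Agent.R96.En10_199
open Crest.Agent.R96.Sg5_199 (gdir wd_dir)
open Crest.Agent.R96.Sg1_199 (li sgm)
open Crest.Agent.R096.Pmc_112 (Gd')
open Crest.AnalysisR.VecCalc3 (R3)

/-! ### the linear map with given columns -/







/-! ### directions -/




variable {δ κ0 R c0 : ℝ} {La : Set E3} {F : Set (Bx (Fin 3))}




/-! ### consequences of the directional bound -/

theorem enorm_le_of_norm_le {E' F' : Type*} [SeminormedAddCommGroup E'] [SeminormedAddCommGroup F']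
    {a : E'} {b : F'} {K : ℝ} (hK : 0 ≤ K) (h : ‖a‖ ≤ K * ‖b‖) : ‖a‖ₑ ≤ ENNReal.ofReal K * ‖b‖ₑ := by
  rw [← ofReal_norm, ← ofReal_norm, ← ENNReal.ofReal_mul hK]
  exact ENNReal.ofReal_le_ofReal h

/-- composition with a linear map on the right -/
theorem norm_comp_le_of_dir {L L' B : E3 →L[ℝ] E3} {K : ℝ} (hK : 0 ≤ K)
    (h : ∀ v, ‖L' v‖ ≤ K * ‖L v‖) : ‖L'.comp B‖ ≤ K * ‖L.comp B‖ := by
  refine ContinuousLinearMap.opNorm_le_bound _ (mul_nonneg hK (norm_nonneg _)) fun v => ?_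
  calc ‖L' (B v)‖ ≤ K * ‖L (B v)‖ := h _
    _ ≤ K * (‖L.comp B‖ * ‖v‖) := mul_le_mul_of_nonneg_left ((L.comp B).le_opNorm v) hK
    _ = _ := by ring


/-- **line integrals**: for a.e. translate of a segment the line integral of `D'` is at most `K` times
the line integral of `D`. -/
theorem ae_li_dir {O : Set E3} {D D' : E3 → E3 →L[ℝ] E3} {K : ℝ} (hK : 0 ≤ K) {Pz : E3 → Prop}
    (h0 : ∀ x, x ∉ O → D' x = 0)
    (h : ∀ᵐ x, x ∈ O → Pz x → ∀ v, ‖D' x v‖ ≤ K * ‖D x v‖) (x v : E3) :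
    ∀ᵐ a : E3, (∀ y ∈ sgm (x + a) v, y ∈ O → Pz y) →
      (∀ᵐ τ ∂(volume.restrict (Icc (0:ℝ) 1)),
        ‖D' (x + a + τ • v) v‖ₑ ≤ ENNReal.ofReal K * ‖D (x + a + τ • v) v‖ₑ) ∧
      li (Gd' D' v) (x + a) v ≤ ENNReal.ofReal K * li (fun y => ‖D y v‖ₑ) (x + a) v := by
  set N : Set E3 := toMeasurable volume {x | ¬ (x ∈ O → Pz x → ∀ v, ‖D' x v‖ ≤ K * ‖D x v‖)} with hN
  have hN0 : volume N = 0 := by rw [hN, measure_toMeasurable]; exact ae_iff.1 h
  filter_upwards [Crest.Agent.R096.Exa_365.ae_miss hN0 (measurableSet_toMeasurable _ _) x v] with a ha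
    hP
  have h1 : ∀ᵐ τ ∂(volume.restrict (Icc (0:ℝ) 1)),
      ‖D' (x + a + τ • v) v‖ₑ ≤ ENNReal.ofReal K * ‖D (x + a + τ • v) v‖ₑ := by
    filter_upwards [ha, ae_restrict_mem measurableSet_Icc] with τ hτ hτ1
    have h2 : x + a + τ • v ∉ {x | ¬ (x ∈ O → Pz x → ∀ v, ‖D' x v‖ ≤ K * ‖D x v‖)} := fun h3 =>
      hτ (subset_toMeasurable _ _ h3)
    simp only [mem_setOf_eq, not_not] at h2
    by_cases hO : x + a + τ • v ∈ O
    · exact enorm_le_of_norm_le hK (h2 hO (hP _ ⟨τ, hτ1, rfl⟩ hO) v)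
    · rw [h0 _ hO]
      simp
  refine ⟨h1, ?_⟩
  unfold li Gd'
  rw [← lintegral_const_mul' _ _ ENNReal.ofReal_ne_top]
  exact lintegral_mono_ae h1

/-- all potential segments at once -/
theorem ae_li_dir_all {η : Type*} [Countable η] {O : Set E3} {D D' : E3 → E3 →L[ℝ] E3} {K : ℝ}
    (hK : 0 ≤ K) {Pz : E3 → Prop} (h0 : ∀ x, x ∉ O → D' x = 0)
    (h : ∀ᵐ x, x ∈ O → Pz x → ∀ v, ‖D' x v‖ ≤ K * ‖D x v‖) (x v : η → E3) :
    ∀ᵐ a : E3, ∀ j, (∀ y ∈ sgm (x j + a) (v j), y ∈ O → Pz y) →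
      (∀ᵐ τ ∂(volume.restrict (Icc (0:ℝ) 1)),
        ‖D' (x j + a + τ • v j) (v j)‖ₑ ≤ ENNReal.ofReal K * ‖D (x j + a + τ • v j) (v j)‖ₑ) ∧
      li (Gd' D' (v j)) (x j + a) (v j) ≤
        ENNReal.ofReal K * li (fun y => ‖D y (v j)‖ₑ) (x j + a) (v j) :=
  ae_all_iff.2 fun j => ae_li_dir hK h0 h (x j) (v j)

end Crest.Agent.R096.Eds_746
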