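import Crest.Agent.R096.Pmc4_112

/-!
# Row 96 (S0127), helper112.  PREMACH, part 5: `ea_mf` = the machine + PREMACH + EA-CORE

From `MachBF` and a shiftable mesh (199's `MF`) with good classes: the final map with its energies, for
most shifts.
-/

set_option autoImplicit false
set_option linter.style.longLine false

open MeasureTheory Set Filter Metric
open scoped Topology ENNReal

namespace Crest.Agent.R096.Pmc_112

open Crest.Agent.R096.Msh_715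
open Crest.Agent.R096.SkC1_961 (E3 Cfg FoamD Hom3 NN)
open Crest.Agent.R096.Bsp_628 Crest.Agent.R096.Brk5_582
open Crest.Agent.R096.Ls_222
open Crest.Agent.R096.Der_764 (OmH)
open Crest.Agent.R096.Mbf_337
open Crest.Agent.R096.Ea_713 (lin)
open Crest.Agent.R96.EaPost_348 (Geo)
open Crest.Agent.R96.Pm_199
open Crest.Agent.R96.Sob4_199 (VWD)
open Crest.Agent.R96.En10_199 (P3)
open Crest.Agent.R96.Sg1_199 (li sgm)
open Crest.Agent.R96.EaCore_348 (bt EE Choice Data Kea Res Ord ea_core)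

noncomputable section

variable {δ κ0 R c0 : ℝ} {La Om : Set E3} {Φ : FoamD δ κ0 R c0 La} {f : E3 → E3} {J : Type}

theorem szp (c : Φ.F) : 0 < c.1.sz := Bx.sz_pos (Φ.bf.pos _ c.2)

/-- monotonicity of the cores in `κ1` -/
theorem cores_mono {ι : Type} {T : Tiling Om ι} {κ1 κ1' κ2 : ℝ} (h : κ1 ≤ κ1') {X : Set Φ.F}
    {J0 J V : Φ.F → Set ι} {ct : Φ.F → ι} {A : Φ.F → E3 ≃ᵃ[ℝ] E3} {lam : Φ.F → ℝ}
    {z : Φ.F → E3} {θ : Φ.F → E3 → E3} {φ : Φ.F → E3 → ℝ}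
    (hC : Cores Φ T f κ1 κ2 X J0 J V ct A lam z θ φ) :
    Cores Φ T f κ1' κ2 X J0 J V ct A lam z θ φ where
  disj := hC.disj
  one := hC.one
  exact_ := fun c hc => by
    have h1 := hC.exact_ c hc
    exact { h1 with
      nbd := fun x hx => ⟨(h1.nbd x hx).1, fun hxi => ((h1.nbd x hx).2 hxi).trans
        (mul_le_mul_of_nonneg_right h (mul_nonneg h1.lam0.le (szp c).le))⟩ }
  tiny := fun c hc => by
    have h1 := hC.tiny c hc
    obtain ⟨ρ1, ρ2, ρ3, ρ4, d, hd0, hd1, hrest⟩ := h1.room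
    exact { h1 with room := ⟨ρ1, ρ2, ρ3, ρ4, d, hd0, hd1.trans h, hrest⟩ }

theorem fine_mono {ι : Type} {T : Tiling Om ι} {κ1 κ1' : ℝ} (h : κ1 ≤ κ1') {J0 : Φ.F → Set ι}
    (hC : Fine Φ T f κ1 J0) : Fine Φ T f κ1' J0 where
  psi := fun i hi x hx y hy c hc => (hC.psi i hi x hx y hy c hc).trans
    (mul_le_mul_of_nonneg_right h (szp c).le)
  lev := fun i hi x hx y hy c => (hC.lev i hi x hx y hy c).trans h

/-- the bound of the energy of the class `k` -/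
def Bk (M : MF Om Φ.F J) (D' : E3 → E3 →L[ℝ] E3) (p : ℝ) (lam m : M.κ → ℝ≥0∞) (a : E3)
    (w : J → E3) (k : M.κ) : ℝ≥0∞ :=
  match M.bl k with
  | none => lam k * m k
  | some j => M.EnC (Gd' D') p k (a + w j)

theorem ent_le_Bk {M : MF Om Φ.F J} {D' : E3 → E3 →L[ℝ] E3} {p : ℝ} {lam m : M.κ → ℝ≥0∞} {a : E3}
    {w : J → E3} {h : M.Ok a w}
    (h1 : ∀ k, M.bl k = none → M.EnT (Gd' D') p a w h k ≤ lam k * m k)
    (h2 : ∀ k j, M.bl k = some j → M.EnT (Gd' D') p a w h k ≤ M.EnC (Gd' D') p k (a + w j))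
    (k : M.κ) : M.EnT (Gd' D') p a w h k ≤ Bk M D' p lam m a w k := by
  unfold Bk
  rcases hk : M.bl k with _ | j
  · exact h1 k hk
  · exact h2 k j hk

/-- the factor of the edges -/
def Kl (δ R : ℝ) : ℝ≥0∞ := ENNReal.ofReal (8 * Cl δ R)

/-- the conclusion for one mesh `D` -/
structure Fin1 (C0 : ℝ) (e : ℝ) (Φ : FoamD δ κ0 R c0 La) (f : E3 → E3) (X : Set Φ.F)
    (D : Dec Om Φ.F) (p : ℝ) (ρ' : E3 → ℝ) (En : ℝ≥0∞) (g : E3 → E3) : Prop where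
  hom : Hom3 g Om La
  pl : Crest.Agent.R096.Str_696.LocPL g Om
  near : ∀ x ∈ Om, ‖g x - f x‖ ≤ ρ' x
  energy : ∫⁻ x in Om \ ⋃ i ∈ D.ct '' X, P (D.T.H i), ‖fderiv ℝ g x‖ₑ ^ p ≤ En
  core : ∀ c ∈ X, ∫⁻ x in P (D.T.H (D.ct c)), ‖fderiv ℝ g x - (1 / D.lam c) • lin (D.A c)‖ₑ ^ p ≤
    ENNReal.ofReal ((e ^ p + (C0 + 1) ^ p * e) * (‖lin (D.A c)‖ / D.lam c) ^ p) *
      volume (P (D.T.H (D.ct c)))


end

end Crest.Agent.R096.Pmc_112
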