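import Crest.Agent.R96.Pm2_199
import Crest.Agent.R096.Cnt1_324
import Crest.Agent.R096.Tms2_582
import Crest.Agent.R096.Eab1_747
import Crest.Agent.R096.Tms1_582
import Crest.Agent.R096.Ls4_222
import Crest.Agent.R096.Msh3_715
import Crest.Agent.R096.Aclt2_608
import Crest.Agent.R96.Pm1_199
import Crest.Agent.R096.Pmc5_112
import Crest.Agent.R096.Mfa4_880
import Crest.Agent.R96.Eam3_466
import Crest.Agent.R096.Zlt2_798
import Crest.Agent.R096.Wd16_120

-- ▼ part R96/Eac4_348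
section

/-!
# R96, EA p < 3 (helper348): the zones of the tiny cores are patched into a shiftable mesh

`ZIn M0 X` = a shiftable mesh `M0` whose decorated meshes have only the exact cores `X`, are lattices
in the zones of the other bricks, and the local families (582's `LocF`).  `ZIn.mf` = the patched
shiftable mesh: same classes, same potential tiles, same energies `EnC`.
-/

set_option autoImplicit false
set_option linter.style.longLine false
set_option linter.unusedSectionVars false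

open Set Metric Filter Topology MeasureTheory
open scoped ENNReal

namespace Crest.Agent.R96.Zpatch_348

open Crest.Agent.R096.Msh_715
open Crest.Agent.R096.Msh_810 (Cu Hc)
open Crest.Agent.R096.SkC1_961 (E3 Cfg)
open Crest.Agent.R096.Ls_222 (Edg ea ev eIn mem_eIn sgm_edg)
open Crest.Agent.R096.Cnt_324 (HS Eix ex edge_code)
open Crest.Agent.R096.Tms_582
open Crest.Agent.R096.Eab_747 (ZoneFam VZ)
open Crest.Agent.R096.Mal_874 (Co)
open Crest.Agent.R96.Pm_199
open Crest.Agent.R96.Sg1_199 (li sgm)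
open Crest.Agent.R96.Sg8_199 (EnA)
open Crest.Agent.R96.EaPost_348 (Geo)

noncomputable section

variable {Om : Set E3} {F J : Type}

/-- the vector `2^-k z` -/
def lv (k : ℕ) (z : Fin 3 → ℤ) : E3 := fun i => (2 : ℝ)⁻¹ ^ k * z i

/-- **input of the zone patch** -/
structure ZIn (M0 : MF Om F J) (X : Set F) where
  /-- the inequalities of the unpatched meshes are shifted inequalities of a countable family -/
  Hf : Set ((E3 →L[ℝ] ℝ) × ℝ)
  Hf_c : Hf.Countable
  hs : ∀ a w (h : M0.Ok a w), HS (M0.md a w h).T a Hf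
  hX : ∀ a w (h : M0.Ok a w), ∀ c ∈ X, (M0.md a w h).V c = {(M0.md a w h).ct c}
  hX' : ∀ a w (h : M0.Ok a w), ∀ c ∉ X, (M0.md a w h).V c = ∅
  cF : Countable {c // c ∉ X}
  x : {c // c ∉ X} → E3
  R : {c // c ∉ X} → ℝ
  k : {c // c ∉ X} → ℕ
  wz : {c // c ∉ X} → E3 → E3
  wz_lat : ∀ c a, ∃ z : Fin 3 → ℤ, wz c a = a + lv (k c) z
  Z : ∀ a w (h : M0.Ok a w), Zones (M0.md a w h).T x R k (fun c => wz c a)
  core_off : ∀ a w (h : M0.Ok a w), ∀ c ∈ X, ∀ c',
    Disjoint (P ((M0.md a w h).T.H ((M0.md a w h).ct c))) (closedBall (x c') (R c'))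
  Zc : {c // c ∉ X} → Finset (Fin 3 → ℤ)
  κ : {c // c ∉ X} → Type
  H : ∀ c, κ c → Finset ((E3 →L[ℝ] ℝ) × ℝ)
  F : LocF x R k Zc H
  J0 : ∀ c, Set (κ c)
  J : ∀ c, Set (κ c)
  θ : {c // c ∉ X} → E3 → E3
  φ : {c // c ∉ X} → E3 → ℝ

namespace ZIn

variable {M0 : MF Om F J} {X : Set F} (Zi : ZIn M0 X) {a : E3} {w : J → E3} (h : M0.Ok a w)

/-- the indices of the patched mesh -/
abbrev Ix : Type :=
  {i // i ∉ Ar (M0.md a w h).T Zi.k (fun c => Zi.wz c a) Zi.Zc} ⊕ Σ c, Zi.κ c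

/-- the patched mesh -/
def T : Tiling Om (Zi.Ix h) := tmesh (Zi.Z a w h) Zi.F

/-- the core tiles are not replaced -/
theorem ct_not {c : F} (hc : c ∈ X) :
    (M0.md a w h).ct c ∉ Ar (M0.md a w h).T Zi.k (fun c => Zi.wz c a) Zi.Zc := by
  rintro ⟨c', z, hz, he⟩
  obtain ⟨y, hy⟩ := (M0.md a w h).T.ne ((M0.md a w h).ct c)
  have h1 := I_sub_P _ hy
  have h2 := h1
  rw [he, P_Hc_idE] at h2
  have h3 := cube_in (Zi.Z a w h) Zi.F hz h2
  have h4 := (Zi.Z a w h).R0 c'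
  exact Set.disjoint_left.1 (Zi.core_off a w h c hc c') h1
    ((ball_subset_closedBall.trans (closedBall_subset_closedBall (by linarith))) h3)

theorem ne_ix (c : F) : Nonempty (Zi.Ix h) := by
  obtain ⟨y, hy⟩ := (M0.md a w h).T.ne ((M0.md a w h).ct c)
  obtain ⟨i, -⟩ := (Zi.T h).cov y ((M0.md a w h).T.sub _ (I_sub_P _ hy))
  exact ⟨i⟩

open Classical in
/-- the core tiles in the patched mesh -/
def ct (c : F) : Zi.Ix h :=
  if hc : (M0.md a w h).ct c ∉ Ar (M0.md a w h).T Zi.k (fun c => Zi.wz c a) Zi.Zc then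
    Sum.inl ⟨_, hc⟩ else (Zi.ne_ix h c).some

theorem ct_of {c : F} (hc : c ∈ X) : Zi.ct h c = Sum.inl ⟨(M0.md a w h).ct c, Zi.ct_not h hc⟩ := by
  unfold ct
  rw [dif_pos (Zi.ct_not h hc)]

/-- the new tiles of the zone `c` -/
def en (c : {c // c ∉ X}) (j : Zi.κ c) : Zi.Ix h := Sum.inr ⟨c, j⟩

/-- the tiles near the centre `c` -/
def Vz (c : {c // c ∉ X}) : Set (Zi.Ix h) := VZ (Zi.T h) Zi.x Zi.R c

open Classical in
/-- **the decorated patched mesh** -/
def dec : Dec Om F where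
  ι := Zi.Ix h
  T := Zi.T h
  J0 c := if hc : c ∉ X then Zi.en h ⟨c, hc⟩ '' Zi.J0 ⟨c, hc⟩ else {Zi.ct h c}
  J c := if hc : c ∉ X then Zi.en h ⟨c, hc⟩ '' Zi.J ⟨c, hc⟩ else {Zi.ct h c}
  V c := if hc : c ∉ X then Zi.Vz h ⟨c, hc⟩ else {Zi.ct h c}
  ct := Zi.ct h
  A := (M0.md a w h).A
  lam := (M0.md a w h).lam
  z := (M0.md a w h).z
  θ c := if hc : c ∉ X then fun y => Zi.θ ⟨c, hc⟩ (y - Zi.wz ⟨c, hc⟩ a) else (M0.md a w h).θ c
  φ c := if hc : c ∉ X then fun y => Zi.φ ⟨c, hc⟩ (y - Zi.wz ⟨c, hc⟩ a) else (M0.md a w h).φ c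
  M := (M0.md a w h).M
  fr := Sum.elim (fun i => (M0.md a w h).fr i.1) (fun _ => AffineEquiv.refl ℝ E3)


theorem dec_V_of {c : F} (hc : c ∈ X) : (Zi.dec h).V c = ({Zi.ct h c} : Set (Zi.Ix h)) :=
  dif_neg (not_not.2 hc)

theorem dec_J0_of {c : F} (hc : c ∈ X) : (Zi.dec h).J0 c = ({Zi.ct h c} : Set (Zi.Ix h)) :=
  dif_neg (not_not.2 hc)

theorem dec_J_of {c : F} (hc : c ∈ X) : (Zi.dec h).J c = ({Zi.ct h c} : Set (Zi.Ix h)) :=
  dif_neg (not_not.2 hc)

theorem dec_V_not {c : F} (hc : c ∉ X) : (Zi.dec h).V c = Zi.Vz h ⟨c, hc⟩ := dif_pos hc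

theorem dec_J0_not {c : F} (hc : c ∉ X) : (Zi.dec h).J0 c = Zi.en h ⟨c, hc⟩ '' Zi.J0 ⟨c, hc⟩ :=
  dif_pos hc

theorem dec_J_not {c : F} (hc : c ∉ X) : (Zi.dec h).J c = Zi.en h ⟨c, hc⟩ '' Zi.J ⟨c, hc⟩ :=
  dif_pos hc

theorem dec_θ_not {c : F} (hc : c ∉ X) :
    (Zi.dec h).θ c = fun y => Zi.θ ⟨c, hc⟩ (y - Zi.wz ⟨c, hc⟩ a) := dif_pos hc

theorem dec_φ_not {c : F} (hc : c ∉ X) :
    (Zi.dec h).φ c = fun y => Zi.φ ⟨c, hc⟩ (y - Zi.wz ⟨c, hc⟩ a) := dif_pos hc

/-- **the ordinary tiles of the patched mesh are ordinary tiles of the old one, off the half balls** -/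
theorem ord {i : Zi.Ix h} (hi : (Zi.dec h).Ord i) :
    ∃ i0, i = Sum.inl i0 ∧ (M0.md a w h).Ord i0.1 ∧
      ∀ c, Disjoint (P ((M0.md a w h).T.H i0.1)) (closedBall (Zi.x c) (Zi.R c / 2)) := by
  obtain ⟨i0, rfl, h2⟩ := off_zones (Zi.Z a w h) Zi.F (i := i) (fun c hc => by
    have := hi c.1
    rw [Zi.dec_V_not h c.2] at this
    exact this hc)
  refine ⟨i0, rfl, fun c hc => ?_, h2⟩
  by_cases hcX : c ∈ X
  · rw [Zi.hX a w h c hcX] at hc
    have h3 : i0.1 = (M0.md a w h).ct c := hc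
    have h5 : (Sum.inl i0 : Zi.Ix h) ∉ ({Zi.ct h c} : Set (Zi.Ix h)) := by
      rw [← Zi.dec_V_of h hcX]
      exact hi c
    apply h5
    rw [Zi.ct_of h hcX]
    have h6 : i0 = ⟨(M0.md a w h).ct c, Zi.ct_not h hcX⟩ := Subtype.ext h3
    exact congrArg (fun q => (Sum.inl q : Zi.Ix h)) h6
  · rw [Zi.hX' a w h c hcX] at hc
    exact hc

/-- the edges of an ordinary tile are edges of the old mesh -/
theorem edge_old {i0 : {i // i ∉ Ar (M0.md a w h).T Zi.k (fun c => Zi.wz c a) Zi.Zc}}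
    (hi : ∀ c, Disjoint (P ((M0.md a w h).T.H i0.1)) (closedBall (Zi.x c) (Zi.R c / 2)))
    {e : Edg (Zi.T h)} (he : e ∈ eIn (Zi.T h) (Sum.inl i0)) :
    ∃ e0 ∈ eIn (M0.md a w h).T i0.1, e0.1 = e.1 := by
  have h1 : e.1 ⊆ P ((M0.md a w h).T.H i0.1) := mem_eIn.1 he
  obtain ⟨y, hy, hd, he1⟩ := e.2
  have h2 : y ∈ P ((M0.md a w h).T.H i0.1) := h1 (by rw [he1]; exact (Zi.T h).self_mem_cc y)
  have hoff : ∀ c, y ∉ ball (Zi.x c) (Zi.R c / 2) := fun c hc =>
    Set.disjoint_left.1 (hi c) h2 (ball_subset_closedBall hc)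
  have h3 := (cells_off (Zi.Z a w h) Zi.F hoff).1
  have h4 := dim_off (Zi.Z a w h) Zi.F hoff
  refine ⟨⟨e.1, y, hy, ?_, ?_⟩, mem_eIn.2 h1, rfl⟩
  · rw [← h4]; exact hd
  · rw [← h3]; exact he1

/-! ### the countable family of inequalities -/

/-- the inequalities of the zones -/
def Hz : Set ((E3 →L[ℝ] ℝ) × ℝ) :=
  ⋃ c : {c // c ∉ X}, ⋃ j : Zi.κ c, ⋃ z : Fin 3 → ℤ,
    (fun g : (E3 →L[ℝ] ℝ) × ℝ => ((g.1, g.2 + g.1 (lv (Zi.k c) z)) : (E3 →L[ℝ] ℝ) × ℝ)) ''
      (Zi.H c j : Set ((E3 →L[ℝ] ℝ) × ℝ))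

theorem Hz_countable : (Zi.Hz).Countable := by
  have := Zi.cF
  unfold Hz
  refine countable_iUnion fun c => ?_
  have := (Zi.F.rep c).fin
  have : Countable (Zi.κ c) := Finite.to_countable
  refine countable_iUnion fun j => countable_iUnion fun z => ?_
  exact ((Zi.H c j).countable_toSet).image _

/-- all inequalities -/
def Hall : Set ((E3 →L[ℝ] ℝ) × ℝ) := Zi.Hf ∪ Zi.Hz

instance countable_Hall : Countable Zi.Hall :=
  (Zi.Hf_c.union Zi.Hz_countable).to_subtype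

theorem hs_T : HS (Zi.T h) a Zi.Hall := by
  rintro (i | ⟨c, j⟩) g hg
  · exact Or.inl (Zi.hs a w h i.1 g hg)
  · right
    have hg' : g ∈ trH (Zi.wz c a) (Zi.H c j) := hg
    obtain ⟨g0, hg0, rfl⟩ : ∃ g0 ∈ Zi.H c j, trh (Zi.wz c a) g0 = g := by
      classical
      unfold trH at hg'
      exact Finset.mem_image.1 hg'
    obtain ⟨z, hz⟩ := Zi.wz_lat c a
    refine mem_iUnion.2 ⟨c, mem_iUnion.2 ⟨j, mem_iUnion.2 ⟨z, g0, hg0, ?_⟩⟩⟩
    show (g0.1, g0.2 + g0.1 (lv (Zi.k c) z)) = (g0.1, g0.2 + g0.1 (Zi.wz c a) - g0.1 a)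
    rw [hz, map_add]
    congr 1
    ring

/-! ### the patched shiftable mesh -/

/-- a tile of the unpatched mesh (exists because `Om` is not empty if there is a tile) -/
theorem ne_ι (i : Zi.Ix h) : Nonempty (M0.md a w h).ι := by
  obtain ⟨y, hy⟩ := (Zi.T h).ne i
  obtain ⟨i0, -⟩ := (M0.md a w h).T.cov y ((Zi.T h).sub _ (I_sub_P _ hy))
  exact ⟨i0⟩

/-- potential tile of a tile -/
def pot (i : Zi.Ix h) : M0.τ :=
  Sum.elim (fun i0 => M0.pot a w h i0.1) (fun _ => M0.pot a w h (Zi.ne_ι h i).some) i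

/-- **the patched shiftable mesh** -/
def mf : MF Om F J where
  A := M0.A
  Am := M0.Am
  A0 := M0.A0
  A1 := M0.A1
  W := M0.W
  Wc := M0.Wc
  Bx := M0.Bx
  cJ := M0.cJ
  md a w h := Zi.dec h
  κ := M0.κ
  τ := M0.τ
  η := M0.η ⊕ Eix Zi.Hall
  cκ := M0.cκ
  cτ := M0.cτ
  cη := by
    have := M0.cη
    infer_instance
  cl := M0.cl
  bl := M0.bl
  Til := M0.Til
  Ac := M0.Ac
  Acm := M0.Acm
  eb := Sum.elim M0.eb (fun _ => none)
  x := Sum.elim M0.x (fun j => ex j)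
  v := Sum.elim M0.v (fun j => Crest.Agent.R096.Cnt_324.ev j)
  Ed t := (M0.Ed t).map ⟨Sum.inl, Sum.inl_injective⟩
  sub t j hj := by
    rw [Finset.mem_map] at hj
    obtain ⟨j0, hj0, rfl⟩ := hj
    exact M0.sub t j0 hj0
  β := M0.β
  Sh := M0.Sh
  shf := M0.shf
  edge a w h e := by
    obtain ⟨e1, y, hy, hd, he1⟩ := e
    obtain ⟨j, hj⟩ := edge_code (Zi.hs_T h) hy hd
    exact ⟨Sum.inr j, he1.trans hj⟩
  pot a w h := Zi.pot h
  inj a w h := by
    intro i hi i' hi' he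
    obtain ⟨i0, rfl, h1, -⟩ := Zi.ord h hi
    obtain ⟨i0', rfl, h1', -⟩ := Zi.ord h hi'
    congr 1
    exact Subtype.ext (M0.inj a w h h1 h1' he)
  act a w h i hi := by
    obtain ⟨i0, rfl, h1, -⟩ := Zi.ord h hi
    exact M0.act a w h i0.1 h1
  tile a w h i hi := by
    obtain ⟨i0, rfl, h1, -⟩ := Zi.ord h hi
    exact M0.tile a w h i0.1 h1
  tedge a w h i hi e he := by
    obtain ⟨i0, rfl, h1, h2⟩ := Zi.ord h hi
    obtain ⟨e0, he0, hee⟩ := Zi.edge_old h h2 he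
    have h3 := M0.tedge a w h i0.1 h1 e0 he0
    rw [sgm_edg, hee] at h3
    rw [sgm_edg]
    refine h3.trans ?_
    intro y hy
    obtain ⟨j, hj, hyj⟩ := mem_iUnion₂.1 hy
    exact mem_iUnion₂.2 ⟨Sum.inl j, Finset.mem_map.2 ⟨j, hj, rfl⟩, hyj⟩
  frn a w h i hi := by
    obtain ⟨i0, rfl, h1, -⟩ := Zi.ord h hi
    exact M0.frn a w h i0.1 h1
  shp a w h i hi := by
    obtain ⟨i0, rfl, h1, h2⟩ := Zi.ord h hi
    have h3 := M0.shp a w h i0.1 h1
    have h4 : Cfg (Zi.T h) (Sum.inl i0) = Cfg (M0.md a w h).T i0.1 :=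
      cfg_off (Zi.Z a w h) Zi.F h2
    show (fun K => (M0.md a w h).fr i0.1 '' K) '' Cfg (Zi.T h) (Sum.inl i0) ∈ _
    rw [h4]
    exact h3


/-- **the energies of the classes do not change** -/
theorem mf_EnC (G : E3 → E3 → ℝ≥0∞) (p : ℝ) (k : M0.κ) (s : E3) :
    Zi.mf.EnC G p k s = M0.EnC G p k s := by
  unfold MF.EnC EnA
  refine tsum_congr fun t => ?_
  congr 1
  funext b
  congr 2
  congr 1
  show ∑ j ∈ (M0.Ed t.1).map ⟨Sum.inl, Sum.inl_injective⟩, _ = _
  rw [Finset.sum_map]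
  rfl

/-! ### the zones of the patched mesh -/

theorem zoneFam : ZoneFam (Zi.dec h).T Zi.x Zi.R Zi.k (fun c => Zi.wz c a) Zi.Zc Zi.H
    (fun c => Zi.en h c) ((Zi.dec h).ct '' X) := by
  have hZ := Zi.Z a w h
  have hsub : ∀ c, closedBall (Zi.x c) (Zi.R c) ⊆ closedBall (Zi.x c) (2 * Zi.R c) := fun c =>
    closedBall_subset_closedBall (by have := hZ.R0 c; linarith)
  refine
    { pos := hZ.R0
      sub := fun c => (hsub c).trans (hZ.sub c)
      disj := fun c c' hcc => (hZ.dis c c' hcc).mono (hsub c) (hsub c')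
      lf := ?_
      scale := hZ.sm
      zone := fun c => tmesh_zone hZ Zi.F c (by have := hZ.R0 c; linarith)
      w0 := hZ.w01
      zc := Zi.F.inb
      repl := Zi.F.rep
      kt := ?_ }
  · intro y hy
    obtain ⟨r, hr, hf⟩ := hZ.lf y hy
    refine ⟨ball y r, ball_mem_nhds y hr, hf.subset ?_⟩
    rintro c ⟨u, hu, hu2⟩
    exact ⟨u, hsub c hu, hu2⟩
  · rintro _ ⟨c, hc, rfl⟩ c'
    show Disjoint (P ((Zi.T h).H (Zi.ct h c))) _
    rw [Zi.ct_of h hc]
    exact Zi.core_off a w h c hc c'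

/-- **the geometry of the rings** -/
theorem geo : Geo (Zi.dec h).T ((Zi.dec h).ct '' X) {i | ∃ c, c ∉ X ∧ i ∈ (Zi.dec h).V c} Zi.x
    (fun c => 5 / 8 * Zi.R c) (fun c => 7 / 8 * Zi.R c) 1 := by
  have h1 := (Zi.zoneFam h).geo
  have h2 : {i | ∃ c, c ∉ X ∧ i ∈ (Zi.dec h).V c} =
      {i | ∃ c, i ∈ VZ (Zi.dec h).T Zi.x Zi.R c} := by
    ext i
    constructor
    · rintro ⟨c, hc, hi⟩
      rw [Zi.dec_V_not h hc] at hi
      exact ⟨⟨c, hc⟩, hi⟩
    · rintro ⟨c, hi⟩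
      refine ⟨c.1, c.2, ?_⟩
      rw [Zi.dec_V_not h c.2]
      exact hi
  rw [h2]
  exact h1

end ZIn

end

end Crest.Agent.R96.Zpatch_348
end

-- ▼ part R096/Alt1_232
section

set_option autoImplicit false
set_option linter.unusedSectionVars false
set_option linter.style.longLine false

open MeasureTheory Set Filter
open scoped Topology ENNReal

namespace Crest.Agent.R096.Alt_232

open Crest.Agent.R096.Msh_715 Crest.Agent.R96.Sg1_199 Crest.Agent.R096.Tms_582
open Crest.Agent.R096.Ls_222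

noncomputable section

variable {E : Type*} [NormedAddCommGroup E] [NormedSpace ℝ E]

/-! ### segments -/

theorem sgm_inj {x v x' v' : E} (hv : v ≠ 0) (h : sgm x v = sgm x' v') :
    (x' = x ∧ v' = v) ∨ (x' = x + v ∧ v' = -v) := by
  have a1 : x' ∈ sgm x v := by rw [h]; exact ⟨0, by simp, by simp⟩
  have a2 : x' + v' ∈ sgm x v := by rw [h]; exact ⟨1, by simp, by simp⟩
  have a3 : x ∈ sgm x' v' := by rw [← h]; exact ⟨0, by simp, by simp⟩
  have a4 : x + v ∈ sgm x' v' := by rw [← h]; exact ⟨1, by simp, by simp⟩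
  obtain ⟨s, hs, es⟩ := a1
  obtain ⟨t, ht, et⟩ := a2
  obtain ⟨r, hr, er⟩ := a3
  obtain ⟨q, hq, eq⟩ := a4
  simp only at es et er eq
  have ev : v' = (t - s) • v := by
    have : x' + v' - x' = (x + t • v) - (x + s • v) := by rw [et, es]
    rw [add_sub_cancel_left] at this
    rw [this, sub_smul]; abel
  have inj : ∀ c d : ℝ, x + c • v = x + d • v → c = d := by
    intro c d hcd
    have := add_left_cancel hcd
    exact smul_left_injective ℝ hv this
  have e1 : s + r * (t - s) = 0 := by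
    apply inj
    rw [zero_smul, add_zero, add_smul, mul_smul, ← ev, ← add_assoc, es, er]
  have e2 : s + q * (t - s) = 1 := by
    apply inj
    rw [one_smul, add_smul, mul_smul, ← ev, ← add_assoc, es, eq]
  have f1 : (1 - r) * s + r * t = 0 := by linarith
  have f2 : (1 - q) * s + q * t = 1 := by linarith
  have g1 : 0 ≤ (1 - r) * s := mul_nonneg (by linarith [hr.2]) hs.1
  have g2 : 0 ≤ r * t := mul_nonneg hr.1 ht.1
  have g3 : (1 - r) * s = 0 := by linarith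
  have g4 : r * t = 0 := by linarith
  rcases mul_eq_zero.1 g4 with h0 | h0
  · left
    have hs0 : s = 0 := by rw [h0] at g3; linarith
    rw [hs0] at f2
    have ht1 : t = 1 := by nlinarith [hq.1, hq.2, ht.1, ht.2]
    constructor
    · rw [← es, hs0, zero_smul, add_zero]
    · rw [ev, hs0, ht1, sub_zero, one_smul]
  · right
    rw [h0] at f2
    have hs1 : s = 1 := by nlinarith [hq.1, hq.2, hs.1, hs.2]
    constructor
    · rw [← es, hs1, one_smul]
    · rw [ev, h0, hs1, zero_sub, neg_smul, one_smul]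



/-! ### systems -/

/-- all inequalities of the tiles of `T` are translates by `a` of inequalities in `S` -/
def Sys {Om : Set E} {ι : Type*} (S : Set ((E →L[ℝ] ℝ) × ℝ)) (a : E) (T : Tiling Om ι) : Prop :=
  ∀ i, ∀ h ∈ T.H i, ∃ s ∈ S, h = trh a s






/-! ### systems of the usual meshes -/





/-- inequalities of a countable family of systems -/
def SU {𝒦 : Type*} (HH : 𝒦 → Finset ((E →L[ℝ] ℝ) × ℝ)) : Set ((E →L[ℝ] ℝ) × ℝ) :=
  ⋃ k, (HH k : Set ((E →L[ℝ] ℝ) × ℝ))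



theorem Sys.mono {S S' : Set ((E →L[ℝ] ℝ) × ℝ)} (h : S ⊆ S') {a : E} {Om : Set E} {ι : Type*}
    {T : Tiling Om ι} (hT : Sys S a T) : Sys S' a T := fun i g hg => by
  obtain ⟨s, hs, e⟩ := hT i g hg
  exact ⟨s, h hs, e⟩

end

end Crest.Agent.R096.Alt_232
end

-- ▼ part R096/Rgv1_168
section

/-!
# Row 96, EA p < 3, leaf [REG] of 348 #11024 (helper168)

For almost every common shift `a` of a shiftable mesh `M : MF Om F J` (199): every a.e. property of
segments holds on ALL closed 1-cells of all the meshes `M.md a w h` (`ae_edges`), a Sobolev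
homeomorphism is absolutely continuous on them (`ae_acl`) and regular (`Tms_582.RegV`, `ae_regV`), and
countably many prescribed points are in open tiles (`ae_open`, from 324's `HS`).
-/

set_option autoImplicit false
set_option linter.unusedSectionVars false

open MeasureTheory Set Filter Topology Metric Module
open scoped ENNReal NNReal

namespace Crest.Agent.R096.Rgv_168

open Crest.Agent.R096.Msh_715 Crest.Agent.R096.Tms_582
open Crest.Agent.R096.SkC1_961 (E3 Hom3)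
open Crest.Agent.R096.Er_594 (SH3)
open Crest.Agent.R096.Mbf_337 (KJ)
open Crest.Agent.R96.Acl_392 Crest.Agent.R96.Sg1_199 Crest.Agent.R96.Sg2_199
open Crest.Agent.R096.Ls_222 (Edg ea ev ev_ne sgm_edg sgm_sub_Om)
open Crest.Agent.R096.Aclt_608 (finite_level SH3.cont)
open Crest.Agent.R096.Cnt_324 (HS ae_top)
open Crest.Agent.R96.Pm_199

noncomputable section

variable {Om : Set E3} {F J : Type}

/-- relative shifts of a block (`none` = the outer mesh) -/
def Wb (M : MF Om F J) : Option J → Set E3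
  | none => {0}
  | some j => M.W j

theorem Wb_countable (M : MF Om F J) (b : Option J) : (Wb M b).Countable := by
  cases b with
  | none => exact countable_singleton 0
  | some j => exact M.Wc j

theorem sh_mem (M : MF Om F J) {a : E3} {w : J → E3} (h : M.Ok a w) (b : Option J) :
    ∃ s ∈ Wb M b, sh b a w = a + s := by
  cases b with
  | none => exact ⟨0, rfl, (add_zero a).symm⟩
  | some j => exact ⟨w j, (h.2 j).1, rfl⟩

/-- **every a.e. property of the segments with given direction holds on all closed 1-cells of the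
mesh, for almost every common shift** -/
theorem ae_edges (M : MF Om F J) {Q : E3 → E3 → Prop} (hQ : ∀ v, ∀ᵐ x : E3, Q x v) :
    ∀ᵐ a : E3, ∀ (w : J → E3) (h : M.Ok a w) (e : Edg (M.md a w h).T), Q (ea e) (ev e) := by
  have : Countable M.η := M.cη
  have hc : ∀ b, Countable (Wb M b) := fun b => (Wb_countable M b).to_subtype
  have h1 : ∀ᵐ a : E3, ∀ i : (j : M.η) × Wb M (M.eb j),
      Q (M.x i.1 + (i.2 : E3) + a) (M.v i.1) ∧
      Q (M.x i.1 + M.v i.1 + (i.2 : E3) + a) (-M.v i.1) := by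
    rw [ae_all_iff]
    intro i
    have k1 := (measurePreserving_add_left (volume : Measure E3)
      (M.x i.1 + (i.2 : E3))).quasiMeasurePreserving.ae (hQ (M.v i.1))
    have k2 := (measurePreserving_add_left (volume : Measure E3)
      (M.x i.1 + M.v i.1 + (i.2 : E3))).quasiMeasurePreserving.ae (hQ (-M.v i.1))
    filter_upwards [k1, k2] with a ha hb using ⟨ha, hb⟩
  filter_upwards [h1] with a ha w h e
  obtain ⟨j, hj⟩ := M.edge a w h e
  obtain ⟨s, hs, es⟩ := sh_mem M h (M.eb j)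
  have k := ha ⟨j, s, hs⟩
  simp only at k
  rw [es, ← sgm_edg e] at hj
  rcases Alt_232.sgm_inj (ev_ne e) hj with ⟨e1, e2⟩ | ⟨e1, e2⟩
  · rw [← e1, ← e2]
    have e3 : M.x j + s + a = M.x j + (a + s) := by abel
    rw [← e3]
    exact k.1
  · have e3 : ev e = -M.v j := by rw [e2, neg_neg]
    have e4 : ea e = M.x j + M.v j + s + a := by
      have : ea e = M.x j + (a + s) - ev e := by rw [e1, add_sub_cancel_right]
      rw [this, e3]; abel
    rw [e3, e4]
    exact k.2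

variable {p : ℝ} {La : Set E3} {f : E3 → E3} {D : E3 → E3 →L[ℝ] E3}

/-- **absolute continuity on all closed 1-cells for almost every shift** -/
theorem ae_acl (M : MF Om F J) (hO : IsOpen Om) (h : SH3 p Om La f D) :
    ∀ᵐ a : E3, ∀ (w : J → E3) (hw : M.Ok a w) (e : Edg (M.md a w hw).T) (k : Fin 3),
      ACLat Om (fun y => f y k) (fun y => D y (ev e) k) (ev e) (ea e) := by
  refine ae_edges M (Q := fun x v => ∀ k : Fin 3, ACLat Om (fun y => f y k) (fun y => D y v k) v x)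
    fun v => ?_
  have h1 := Exa_365.ae_ac hO h (J := Unit) (fun _ => 0) (fun _ => v)
  filter_upwards [h1] with x hx k
  have := hx k ()
  rwa [zero_add] at this

/-- `RegV` from absolute continuity on all closed 1-cells -/
theorem regV_of_acl {ι : Type} {T : Tiling Om ι} (hf : ContinuousOn f Om)
    (h : ∀ (e : Edg T) (k : Fin 3), ACLat Om (fun y => f y k) (fun y => D y (ev e) k) (ev e) (ea e))
    (V : Set ι) : RegV T f V := by
  intro x hx hd ℓ ⟨K, hℓ⟩
  obtain ⟨i, -, hxi⟩ := mem_iUnion₂.1 hx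
  have hxO : x ∈ Om := T.sub i hxi
  let e : Edg T := ⟨T.cc x, x, hxO, hd, rfl⟩
  have h1 := finite_level (ev_ne e) (sgm_sub_Om e) hf (h e) hℓ
  have h2 : sgm (ea e) (ev e) = T.cc x := sgm_edg e
  rw [h2] at h1
  exact h1

/-- **[REG]** regularity of `f` on all closed 1-cells for almost every shift -/
theorem ae_regV (M : MF Om F J) (hO : IsOpen Om) (h : SH3 p Om La f D) :
    ∀ᵐ a : E3, ∀ (w : J → E3) (hw : M.Ok a w) (V : Set (M.md a w hw).ι),
      RegV (M.md a w hw).T f V := by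
  filter_upwards [ae_acl M hO h] with a ha w hw V
  exact regV_of_acl (SH3.cont h) (ha w hw) V

/-- countably many prescribed points are in open tiles for almost every shift -/
theorem ae_open {𝓗 : Set ((E3 →L[ℝ] ℝ) × ℝ)} (h𝓗 : 𝓗.Countable) {X0 : Set E3}
    (hX0 : X0.Countable) :
    ∀ᵐ a : E3, ∀ (Om : Set E3) (ι : Type) (T : Tiling Om ι), HS T a 𝓗 → ∀ x ∈ X0, x ∈ Om →
      ∃ i, x ∈ I (T.H i) := by
  have h1 : ∀ᵐ a : E3, ∀ x ∈ X0, ∀ (Om : Set E3) (ι : Type) (T : Tiling Om ι), HS T a 𝓗 →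
      ∀ z ∈ Om, T.V z ≠ ⊤ → x ∉ T.cc z := by
    rw [ae_ball_iff hX0]
    intro x _
    exact ae_top volume h𝓗 x
  filter_upwards [h1] with a ha Om ι T hT x hx hxO
  by_contra hn
  have h2 : T.V x ≠ ⊤ := fun h => hn ((T.V_eq_top_iff hxO).1 h)
  exact ha x hx Om ι T hT x hxO h2 (T.self_mem_cc x)

/-- **[REG], both clauses of `TinyLoc` at once** -/
theorem reg_all (M : MF Om F J) (hO : IsOpen Om) (h : SH3 p Om La f D)
    {𝓗 : Set ((E3 →L[ℝ] ℝ) × ℝ)} (h𝓗 : 𝓗.Countable)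
    (hs : ∀ a w hw, HS (M.md a w hw).T a 𝓗) {X0 : Set E3} (hX0 : X0.Countable) :
    ∀ᵐ a : E3, ∀ (w : J → E3) (hw : M.Ok a w),
      (∀ V : Set (M.md a w hw).ι, RegV (M.md a w hw).T f V) ∧
      ∀ x ∈ X0, x ∈ Om → ∃ i, x ∈ I ((M.md a w hw).T.H i) := by
  filter_upwards [ae_regV M hO h, ae_open h𝓗 hX0] with a h1 h2 w hw
  exact ⟨h1 w hw, h2 Om _ _ (hs a w hw)⟩


end

end Crest.Agent.R096.Rgv_168
end

-- ▼ part R096/Pmc7_112
section

/-!
# Row 96 (S0127), helper112.  PREMACH, part 7: `ea_mfR` = `ea_mf` with the full output of EA-CORE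

`EE_leQ` (energies of a set of tiles by a set of classes), `ea_mfR`: MachBF + PREMACH + EA-CORE with
348's `Res` literally (energy on saturated sets of tiles, pointwise bounds with errors per tile).
-/

set_option autoImplicit false
set_option linter.style.longLine false

open MeasureTheory Set Filter Metric
open scoped Topology ENNReal

namespace Crest.Agent.R096.Pmc_112

open Crest.Agent.R096.Msh_715
open Crest.Agent.R096.SkC1_961 (E3 Cfg FoamD Hom3 NN)
open Crest.Agent.R096.Bsp_628 Crest.Agent.R096.Brk5_582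
open Crest.Agent.R096.Ls_222
open Crest.Agent.R096.Der_764 (OmH)
open Crest.Agent.R096.Mbf_337
open Crest.Agent.R096.Ea_713 (lin)
open Crest.Agent.R96.EaPost_348 (Geo)
open Crest.Agent.R96.Pm_199
open Crest.Agent.R96.Sob4_199 (VWD)
open Crest.Agent.R96.En10_199 (P3)
open Crest.Agent.R96.Sg1_199 (li sgm)
open Crest.Agent.R96.Sg3_199 (EnF)
open Crest.Agent.R96.EaCore_348 (bt EE Choice Data Kea Res Ord ea_core)

noncomputable section

variable {Om : Set E3} {F J : Type}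

/-- **energy of a set of tiles by a set of classes** -/
theorem EE_leQ (M : MF Om F J) {C : Set (Set E3) → ℝ} (hC0 : ∀ 𝒦, 0 ≤ C 𝒦) {Cm : M.κ → ℝ}
    (hC : ∀ k, ∀ 𝒦 ∈ M.Sh k, C 𝒦 ≤ Cm k) (G : E3 → E3 → ℝ≥0∞) (K : ℝ≥0∞) {p : ℝ} (hp : 0 ≤ p)
    {a : E3} {w : J → E3} (h : M.Ok a w) {Q : Set (M.md a w h).ι} {S : Set M.κ}
    (hQS : ∀ i, (M.md a w h).Ord i → i ∈ Q → M.cl (M.pot a w h i) ∈ S) :
    EE C (M.md a w h).T (M.md a w h).fr ({i | (M.md a w h).Ord i} ∩ Q) (fun e => K * le G e) p ≤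
      ∑' k : S, (ENNReal.ofReal (Cm k) * K) ^ p * M.EnT G p a w h k := by
  classical
  set T := (M.md a w h).T with hT
  set fr := (M.md a w h).fr with hfr
  set O : Set (M.md a w h).ι := {i | (M.md a w h).Ord i} ∩ Q with hO
  have key : ∀ i : O, bt C T fr i.1 * ∑ e ∈ eIn T i.1, K * le G e ≤
      (ENNReal.ofReal (Cm (M.cl (M.pot a w h i.1))) * K) *
        (ENNReal.ofReal (M.β (M.pot a w h i.1)) * ∑ e ∈ eIn T i.1, le G e) := by
    intro i
    have h1 := M.shp a w h i.1 i.2.1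
    obtain ⟨h2, h3⟩ := norm_lin_le (M.frn a w h i.1 i.2.1)
    rw [← Finset.mul_sum]
    have h4 : bt C T fr i.1 ≤ ENNReal.ofReal (Cm (M.cl (M.pot a w h i.1))) *
        ENNReal.ofReal (M.β (M.pot a w h i.1)) := by
      unfold bt
      rw [← ENNReal.ofReal_mul ((hC0 _).trans (hC _ _ h1))]
      exact ENNReal.ofReal_le_ofReal (mul_le_mul (hC _ _ h1) h3 (norm_nonneg _)
        ((hC0 _).trans (hC _ _ h1)))
    calc bt C T fr i.1 * (K * ∑ e ∈ eIn T i.1, le G e)
        ≤ (ENNReal.ofReal (Cm (M.cl (M.pot a w h i.1))) *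
            ENNReal.ofReal (M.β (M.pot a w h i.1))) * (K * ∑ e ∈ eIn T i.1, le G e) :=
          mul_le_mul' h4 le_rfl
      _ = _ := by ring
  set f : O → ℝ≥0∞ := fun i => volume (P (T.H i.1)) *
      ((ENNReal.ofReal (Cm (M.cl (M.pot a w h i.1))) * K) *
        (ENNReal.ofReal (M.β (M.pot a w h i.1)) * ∑ e ∈ eIn T i.1, le G e)) ^ p with hf
  set cs : O → S := fun i => ⟨M.cl (M.pot a w h i.1), hQS i.1 i.2.1 i.2.2⟩ with hcs
  have e1 : ∑' i : O, f i = ∑' (k : S) (i : {i : O // cs i = k}), f i.1 := by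
    rw [← ENNReal.tsum_sigma' (f := fun q : Σ k : S, {i : O // cs i = k} => f q.2.1)]
    exact ((Equiv.sigmaFiberEquiv cs).tsum_eq f).symm
  calc EE C T fr O (fun e => K * le G e) p
      ≤ ∑' i : O, f i :=
        ENNReal.tsum_le_tsum fun i => mul_le_mul' le_rfl (ENNReal.rpow_le_rpow (key i) hp)
    _ = _ := e1
    _ ≤ ∑' k : S, (ENNReal.ofReal (Cm k) * K) ^ p * M.EnT G p a w h k := by
        refine ENNReal.tsum_le_tsum fun k => ?_
        unfold MF.EnT EnF
        rw [← ENNReal.tsum_mul_left]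
        refine le_trans (le_of_eq ?_) (ENNReal.tsum_comp_le_tsum_of_injective
          (f := fun i : {i : O // cs i = k} =>
            (⟨i.1.1, i.1.2.1, congrArg Subtype.val i.2⟩ :
              {i // (M.md a w h).Ord i ∧ M.cl (M.pot a w h i) = k}))
          (fun i j hij => by
            have h5 := congrArg Subtype.val hij
            exact Subtype.ext (Subtype.ext h5)) _)
        refine tsum_congr fun i => ?_
        obtain ⟨⟨i, hi⟩, hk⟩ := i
        have hk' : M.cl (M.pot a w h i) = k := congrArg Subtype.val hk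
        simp only [hf]
        rw [hk', ENNReal.mul_rpow_of_nonneg _ _ hp]
        ring

variable {δ κ0 R c0 : ℝ} {La : Set E3} {Φ : FoamD δ κ0 R c0 La} {f : E3 → E3}

/-- the numbers of the edges -/
def lP (δ R : ℝ) (D' : E3 → E3 →L[ℝ] E3) {ι : Type} {T : Tiling Om ι} (e : Edg T) : ℝ≥0∞ :=
  Kl δ R * le (Gd' D') e


end

end Crest.Agent.R096.Pmc_112
end

-- ▼ part R096/Pgn1_112

/-!
# Row 96 (S0127), helper112.  The X-generic end theorem `pre_gen`, part 1

`ZD` = data of the zones of the bricks off `X`; `zin` = 348's `ZIn` for 880's instance `Ins.mf`;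
`mok_zin` = `Pmc_112.Mok` for the patched meshes.
-/

set_option autoImplicit false
set_option linter.style.longLine false

open MeasureTheory Set Filter Metric
open scoped Topology ENNReal

namespace Crest.Agent.R096.Pgn_112

open Crest.Agent.R096.Msh_715 Crest.Agent.R096.Msh_810 Crest.Agent.R096.Cut_874
  Crest.Agent.R096.Mal_874
open Crest.Agent.R096.SkC1_961 (E3 Cfg FoamD Hom3)
open Crest.Agent.R096.Bsp_628 Crest.Agent.R096.Brk5_582
open Crest.Agent.R096.Ls_222 (Edg ea ev eIn mem_eIn)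
open Crest.Agent.R096.Mbf_337
open Crest.Agent.R096.Tms_582
open Crest.Agent.R096.Cnt_324 (HS Hfam)
open Crest.Agent.R096.Eab_747 (ZoneFam VZ)
open Crest.Agent.R096.Mfa_880
open Crest.Agent.R96.Pm_199
open Crest.Agent.R96.Eam_466 (TLAt FineX InB mix_tmesh locF_of_tl)
open Crest.Agent.R96.Zpatch_348 (ZIn lv)
open Crest.Agent.R096.Pmc_112 (Mok)

noncomputable section

/-- data of the zones of the bricks off `X` -/
structure ZD (F : Type) (X : Set F) where
  x : {c // c ∉ X} → E3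
  R : {c // c ∉ X} → ℝ
  k : {c // c ∉ X} → ℕ
  Zc : {c // c ∉ X} → Finset (Fin 3 → ℤ)
  κ : {c // c ∉ X} → Type
  H : ∀ c, κ c → Finset ((E3 →L[ℝ] ℝ) × ℝ)
  J0 : ∀ c, Set (κ c)
  J : ∀ c, Set (κ c)
  θ : {c // c ∉ X} → E3 → E3
  φ : {c // c ∉ X} → E3 → ℝ

/-- the representative of the shift modulo `2 ^ (-k)` is a lattice translate -/
theorem wz_lat (a : E3) (k : ℕ) : ∃ z : Fin 3 → ℤ, Zlt_798.wz a k = a + lv k z := by
  refine ⟨fun i => -⌊2 ^ k * a i⌋, ?_⟩
  funext i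
  show a i - ⌊2 ^ k * a i⌋ / 2 ^ k = a i + (2 : ℝ)⁻¹ ^ k * ((-⌊2 ^ k * a i⌋ : ℤ) : ℝ)
  push_cast
  rw [inv_pow]
  ring

variable {F : Type} {X : Set F}

/-- **the hypotheses on the zones** of an instance -/
structure ZOk (I : Ins F X) (Zd : ZD F X) : Prop where
  cF : Countable {c // c ∉ X}
  φ : I.M.φ = ContinuousLinearEquiv.refl ℝ E3
  LF : LocF Zd.x Zd.R Zd.k Zd.Zc Zd.H
  Z : ∀ (a : E3) (v : X → E3) (hv : I.M.Adm v),
    Zones (I.M.mesh I.hk (I.M.φ a) hv) Zd.x Zd.R Zd.k (fun c => Zlt_798.wz a (Zd.k c))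
  dis : ∀ c j, Disjoint (closedBall (Zd.x c) (2 * Zd.R c)) (I.M.V j)

theorem Kc_sub_N {n : ℕ} {E : Type*} [NormedAddCommGroup E] [NormedSpace ℝ E] (Q : CB E n) :
    Q.Kc ⊆ Q.N := by
  rw [← Q.P_core Q.kc le_rfl]
  exact (Q.P_inr_sub Q.kc le_rfl _).trans Q.bp_sub_N

/-- the inner tiles cover the block -/
theorem exists_inner {J : Type} (M : MD E3 3 J) {k : J → ℕ} (hk : M.Sc k) (a : Fin 3 → ℝ)
    {v : J → E3} (hv : M.Adm v) (j : J) {x : E3} (hx : x ∈ (M.Bk v j).N) :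
    ∃ i : M.IIx hk a hv j, x ∈ P ((M.mesh hk a hv).H (Sum.inr ⟨j, i⟩)) := by
  obtain ⟨i, hi, hs⟩ := (M.Bk v j).un_N (k j) (hk.kc j) x hx
  exact ⟨⟨i, hs⟩, hi⟩

/-- the core of a translated block lies in its room -/
theorem mem_V_of_N (M : MD E3 3 X) (hφ : M.φ = ContinuousLinearEquiv.refl ℝ E3) {v : X → E3}
    (hv : M.Adm v) (j : X) {y : E3} (hy : y ∈ ((M.Q j).tr (v j)).N) : y ∈ M.V j := by
  have h := MD.N_mem hv j hy
  rwa [hφ] at h

/-- **348's `ZIn`** -/
def zin (I : Ins F X) (Zd : ZD F X) (h : ZOk I Zd) : ZIn I.mf X where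
  Hf := Hfam I.M (⋃ j, I.W j)
  Hf_c := I.countable_hs
  hs _ _ h := I.mf_hs h
  hX _ _ h _ hc := I.mf_V h hc
  hX' _ _ h _ hc := I.mf_V' h hc
  cF := h.cF
  x := Zd.x
  R := Zd.R
  k := Zd.k
  wz c a := Zlt_798.wz a (Zd.k c)
  wz_lat c a := wz_lat a (Zd.k c)
  Z a w hw := h.Z a _ (Ins.adm hw)
  core_off a w hw c hc c' := by
    rw [I.P_ct hw hc]
    have h1 := h.dis c' ⟨c, hc⟩
    refine (h1.mono (closedBall_subset_closedBall ?_) ?_).symm
    · have := (h.Z a _ (Ins.adm hw)).R0 c'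
      linarith
    · intro y hy
      exact mem_V_of_N I.M h.φ (Ins.adm hw) ⟨c, hc⟩ (Kc_sub_N _ hy)
  Zc := Zd.Zc
  κ := Zd.κ
  H := Zd.H
  F := h.LF
  J0 := Zd.J0
  J := Zd.J
  θ := Zd.θ
  φ := Zd.φ

end

end Crest.Agent.R096.Pgn_112
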