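import Crest.Agent.R096.Wd16_120

/-!
Row 96, exact cores (helper120), part 18: pre-translated blocks (365 #11372): `tr_tr`, and the core tile of
the aligned mesh when the base block is itself a translate.
-/

set_option autoImplicit false
set_option linter.unusedSectionVars false

open Set Filter Topology Metric MeasureTheory
open scoped ENNReal

namespace Crest.Agent.R096.Wd_120

open Crest.Agent.R096.Msh_715
open Crest.Agent.R096.Mal_874 (CB MD)

variable {E : Type*} [NormedAddCommGroup E] [NormedSpace ℝ E] {n : ℕ}

theorem tr_tr (Q : CB E n) (v w : E) : (Q.tr v).tr w = Q.tr (v + w) := by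
  unfold CB.tr
  simp only [map_add, add_assoc]




end Crest.Agent.R096.Wd_120
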