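import Crest.Agent.R096.Mbf_337

/-!
Row 96 (S0127), helper664.  **Monotonicity of the hypotheses of the machine** (`Mbf_337`):
`Exact`, `Tiny`, `Cores`, `Fine` in `κ1`, `Exact` / `Cores` in `κ2` (decreasing), `Levels` in
`κp`, `μ`, `κ3`.
-/

set_option autoImplicit false
set_option linter.unusedSectionVars false

open MeasureTheory Set Filter Topology Metric
open scoped ENNReal

namespace Crest.Agent.R096.Mon_664

open Crest.Agent.R096.Bsp_628 Crest.Agent.R096.Brk3_582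
open Crest.Agent.R096.Msh_715
open Crest.Agent.R096.SkC1_961 (E3 Hom3 FoamD)
open Crest.Agent.R096.Mbf_337

variable {δ κ0 R c0 : ℝ} {La Om : Set E3} {ι : Type} {Φ : FoamD δ κ0 R c0 La} {T : Tiling Om ι}
  {f : E3 → E3}

theorem side_pos (c : Φ.F) (k : Fin 3) : 0 < c.1.side k := by
  have := Φ.bf.pos c.1 c.2 k
  show 0 < c.1.hi k - c.1.lo k
  linarith

theorem sz_pos (c : Φ.F) : 0 < c.1.sz := by
  have h1 := Φ.bf.pos c.1 c.2 0
  have h2 : c.1.hi 0 - c.1.lo 0 ≤ c.1.sz := Bx.side_le_sz c.1 0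
  linarith

theorem exact_mono {κ1 κ1' κ2 κ2' : ℝ} {c : Φ.F} {i : ι} {A : E3 ≃ᵃ[ℝ] E3} {lam : ℝ} {z : E3}
    (H : Exact Φ T f κ1 κ2 c i A lam z) (h1 : κ1 ≤ κ1') (h2 : κ2' ≤ κ2) :
    Exact Φ T f κ1' κ2' c i A lam z where
  lam0 := H.lam0
  lam1 := H.lam1
  box_in := H.box_in
  hole k := by
    have h3 : κ2' * (lam * c.1.side k) ≤ κ2 * (lam * c.1.side k) :=
      mul_le_mul_of_nonneg_right h2 (mul_pos H.lam0 (side_pos c k)).le
    have := H.hole k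
    exact ⟨by linarith [this.1], by linarith [this.2]⟩
  ray := H.ray
  tile := H.tile
  nbd x hx := by
    obtain ⟨h3, h4⟩ := H.nbd x fun k => by
      have h5 : κ2' * (lam * c.1.side k) ≤ κ2 * (lam * c.1.side k) :=
        mul_le_mul_of_nonneg_right h2 (mul_pos H.lam0 (side_pos c k)).le
      have := hx k
      exact ⟨by linarith [this.1], by linarith [this.2]⟩
    exact ⟨h3, fun h => (h4 h).trans
      (mul_le_mul_of_nonneg_right h1 (mul_pos H.lam0 (sz_pos c)).le)⟩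
  inside := H.inside
  miss := H.miss

theorem tiny_mono {κ1 κ1' : ℝ} {c : Φ.F} {J0 J V : Set ι} {θ : E3 → E3} {φ : E3 → ℝ}
    (H : Tiny Φ T f κ1 c J0 J V θ φ) (h1 : κ1 ≤ κ1') : Tiny Φ T f κ1' c J0 J V θ φ where
  pt := H.pt
  finV := H.finV
  sub0 := H.sub0
  sub := H.sub
  ball := H.ball
  mem := H.mem
  inside := H.inside
  room := by
    obtain ⟨ρ1, ρ2, ρ3, ρ4, d, a1, a2, a3⟩ := H.room
    exact ⟨ρ1, ρ2, ρ3, ρ4, d, a1, a2.trans h1, a3⟩
  bij := H.bij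
  aff := H.aff
  lin := H.lin
  tr := H.tr
  st := H.st
  reg := H.reg
  slice := H.slice

/-- **the cores** -/
theorem cores_mono {κ1 κ1' κ2 κ2' : ℝ} {X : Set Φ.F} {J0 J V : Φ.F → Set ι} {ct : Φ.F → ι}
    {A : Φ.F → E3 ≃ᵃ[ℝ] E3} {lam : Φ.F → ℝ} {z : Φ.F → E3} {θ : Φ.F → E3 → E3}
    {φ : Φ.F → E3 → ℝ} (H : Cores Φ T f κ1 κ2 X J0 J V ct A lam z θ φ) (h1 : κ1 ≤ κ1')
    (h2 : κ2' ≤ κ2) : Cores Φ T f κ1' κ2' X J0 J V ct A lam z θ φ where
  disj := H.disj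
  one := H.one
  exact_ c hc := exact_mono (H.exact_ c hc) h1 h2
  tiny c hc := tiny_mono (H.tiny c hc) h1

/-- **fineness** -/
theorem fine_mono {ε ε' : ℝ} {J0 : Φ.F → Set ι} (H : Fine Φ T f ε J0) (h : ε ≤ ε') :
    Fine Φ T f ε' J0 where
  psi i hi x hx y hy c hc := (H.psi i hi x hx y hy c hc).trans
    (mul_le_mul_of_nonneg_right h (sz_pos c).le)
  lev i hi x hx y hy c := (H.lev i hi x hx y hy c).trans h



end Crest.Agent.R096.Mon_664
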