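import Crest.Agent.R96.Wm5_72
import Crest.Agent.R096.Mfi5_290
import Mathlib
import Crest.Agent.R096.Mfa4_880
import Crest.Agent.R096.Eds2_746

-- ▼ part R96/Wm7_72
section

/-!
# Row 96, (WALL-MEAN), inner cubes at the walls: the mean of 290's class `Mfi_290.QW`
-/

set_option autoImplicit false

open MeasureTheory Set Filter Metric
open scoped Topology ENNReal Pointwise

namespace Crest.Agent.R96.Wm5_72

open Crest.Agent.R096.Msh_810 Crest.Agent.R096.Mal_874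
open Crest.Agent.R096.SkC1_961 (E3)
open Crest.Agent.R96.Sg1_199 (li sgm)
open Crest.Agent.R96.Wm_72 (Tw Tw_aedisj Tw_dist measurableSet_Tw isCompact_Tw)
open Crest.Agent.R96.Wm2_72
open Crest.Agent.R096.Mfi_290 (RT cube)

noncomputable section

/-- translates of a.e. disjoint sets -/
theorem aedisj_tr {E : Type*} [NormedAddCommGroup E] [MeasurableSpace E] [BorelSpace E]
    {μ : Measure E} [μ.IsAddRightInvariant] {S T : Set E} (h : AEDisjoint μ S T) (w : E) :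
    AEDisjoint μ ((fun y => y + w) '' S) ((fun y => y + w) '' T) := by
  unfold AEDisjoint at h ⊢
  rw [← image_inter (add_left_injective w), image_add_right, measure_preimage_add_right]
  exact h

variable {J : Type} {M : MD E3 3 J} {W : J → Set E3}

/-- **THE MEAN OF THE INNER CUBES AT THE WALL `j`** (290's `QW`) -/
theorem mean_QWi (X : RD M) (hWc : ∀ j, (W j).Countable) (j : J) (hW : (W j).Finite)
    {r' : ℝ} (hr' : M.r j < r') {H : E3 → ℝ≥0∞} {p : ℝ} (hp : 1 ≤ p)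
    (hH : ∫⁻ z in M.φ ⁻¹' (M.D0.Om ∩ cthickening r' (M.φ '' frontier (M.Q j).N)), H z ^ p ≠ ∞)
    {ε : ℝ≥0∞} (hε : ε ≠ 0) :
    ∃ k0 : ℕ, ∀ k : J → ℕ, k0 ≤ k j → ∀ {𝒦 : Set (Set E3)} {U : Set E3} (h𝒦 : 𝒦.Countable)
      (hU : U.Countable) {A : Set E3}, MeasurableSet A →
      ∀ {G : E3 → E3 → ℝ≥0∞}, (∀ v, Measurable (G v)) → (∀ᵐ y : E3, ∀ v, G v y ≤ ‖v‖ₑ * H y) →
      ∫⁻ a in A, ((Crest.Agent.R096.Mfi_290.QW M X k W hWc j).toPT 𝒦 U h𝒦 hU).EnC G p () a ≤ ε := by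
  classical
  obtain ⟨C, hC0, hC⟩ := exists_c (M.Q j).ψ
  have hc1 := X.c1 j
  have hWf : Finite (W j) := hW.to_subtype
  have := Fintype.ofFinite (W j)
  have hR : MeasurableSet (M.φ ⁻¹' (M.D0.Om ∩ cthickening r' (M.φ '' frontier (M.Q j).N))) := by
    refine M.φ.continuous.measurable (MeasurableSet.inter ?_ isClosed_cthickening.measurableSet)
    exact (isOpen_lt continuous_const M.D0.continuous_ρ).measurableSet
  obtain ⟨k0, hk0⟩ := cut_pt (isCompact_front (M.Q j)) (front_null (M.Q j))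
    (W := W j) (fun t => (t : E3)) C
    (n := (⋃₀ {c : Set (Set E3) | c ∈ simL (NR (X.A j) (X.d j)) (X.d j) (X.c j) ∧ c.Finite}).ncard)
    (K := ENNReal.ofReal (‖(M.φ : E3 →L[ℝ] (Fin 3 → ℝ))‖ * C))
    ENNReal.ofReal_ne_top hR hp hH hε
  obtain ⟨k1, hk1⟩ : ∃ k1 : ℕ, ∀ κ ≥ k1, M.r j + X.c j / 2 ^ κ ≤ r' := by
    obtain ⟨k1, hk1⟩ := exists_nat_gt (X.c j / (r' - M.r j))
    refine ⟨k1, fun κ hκ => ?_⟩
    have h0 : 0 < r' - M.r j := by linarith
    have h1 : (0 : ℝ) < 2 ^ κ := by positivity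
    have h2 : (k1 : ℝ) ≤ 2 ^ κ := by
      have : (κ : ℝ) ≤ 2 ^ κ := by exact_mod_cast Nat.lt_two_pow_self.le
      have h3 : (k1 : ℝ) ≤ κ := by exact_mod_cast hκ
      linarith
    rw [div_lt_iff₀ h0] at hk1
    have h3 : X.c j / 2 ^ κ ≤ r' - M.r j := by
      rw [div_le_iff₀ h1]
      nlinarith
    linarith
  refine ⟨max k0 k1, fun k hk 𝒦 U h𝒦 hU A Am G hGm hGH => ?_⟩
  have hcube : ∀ z, cube (M.Q j) (k j) z = Tw (M.Q j).ψ (M.Q j).a' (k j) z := fun z => rfl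
  refine hk0 (k j) ((le_max_left _ _).trans hk)
    ((Crest.Agent.R096.Mfi_290.QW M X k W hWc j).toPT 𝒦 U h𝒦 hU) (κ := ()) Am
    (fun t => t.1.1) ?_ ?_ ?_ ?_ ?_ ?_ hGm hGH
  · rintro ⟨w, z⟩ -
    show MeasurableSet ((fun y => y + (w : E3)) '' cube (M.Q j) (k j) z)
    rw [hcube, image_add_right]
    exact measurable_add_const _ measurableSet_Tw
  · rintro ⟨⟨w, z⟩, h1⟩ ⟨⟨w', z'⟩, h2⟩ hne htag - -
    obtain rfl : w = w' := htag
    refine aedisj_tr (Tw_aedisj (M.Q j).ψ (M.Q j).a' (k j) fun h => hne ?_) (w : E3)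
    subst h
    rfl
  · rintro ⟨⟨w, z⟩, h1⟩ ⟨b, hb, -⟩
    obtain ⟨-, ⟨y0, hy0, hy0f⟩, -⟩ := hb
    rintro _ ⟨x, hx, rfl⟩
    refine mem_cthickening_of_dist_le _ (y0 + w) _ _ ⟨y0, hy0f, rfl⟩ ?_
    show dist (x + (w : E3)) (y0 + w) ≤ _
    rw [dist_add_right]
    exact Tw_dist hC0.le hC hy0 hx
  · intro t _
    exact RT.card_Ed_le (Crest.Agent.R096.Mfi_290.QW M X k W hWc j) 𝒦 U h𝒦 hU t
  · rintro ⟨w, z⟩ - e he
    obtain ⟨-, hsub⟩ :=
      ((Crest.Agent.R096.Mfi_290.QW M X k W hWc j).toPT 𝒦 U h𝒦 hU).sub _ e he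
    set x := ((Crest.Agent.R096.Mfi_290.QW M X k W hWc j).toPT 𝒦 U h𝒦 hU).x e
    set v := ((Crest.Agent.R096.Mfi_290.QW M X k W hWc j).toPT 𝒦 U h𝒦 hU).v e
    obtain ⟨x1, hx1, e1⟩ : x ∈ (fun y => y + (w : E3)) '' cube (M.Q j) (k j) z :=
      hsub ⟨0, ⟨le_rfl, zero_le_one⟩, by simp⟩
    obtain ⟨x2, hx2, e2⟩ : x + v ∈ (fun y => y + (w : E3)) '' cube (M.Q j) (k j) z :=
      hsub ⟨1, ⟨zero_le_one, le_rfl⟩, by simp⟩
    have h5 : ‖v‖ ≤ C / 2 ^ k j := by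
      have h4 := Tw_dist hC0.le hC hx1 hx2
      have e3 : v = x2 - x1 := by
        have e4 : x + v = x2 + w := e2.symm
        have e5 : x = x1 + w := e1.symm
        have : v = (x + v) - x := by abel
        rw [this, e4, e5]
        abel
      rw [dist_eq_norm] at h4
      rw [e3]
      exact h4
    have e1 : ‖v‖ₑ = ENNReal.ofReal ‖v‖ := (ofReal_norm _).symm
    rw [e1]
    have e2 : ((Crest.Agent.R096.Mfi_290.QW M X k W hWc j).toPT 𝒦 U h𝒦 hU).β (w, z) =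
      2 ^ k j * ‖(M.φ : E3 →L[ℝ] (Fin 3 → ℝ))‖ := rfl
    rw [e2, ← ENNReal.ofReal_mul (by positivity)]
    refine ENNReal.ofReal_le_ofReal ?_
    calc 2 ^ k j * ‖(M.φ : E3 →L[ℝ] (Fin 3 → ℝ))‖ * ‖v‖
        ≤ 2 ^ k j * ‖(M.φ : E3 →L[ℝ] (Fin 3 → ℝ))‖ * (C / 2 ^ k j) :=
          mul_le_mul_of_nonneg_left h5 (by positivity)
      _ = _ := by field_simp
  · rintro ⟨w, z⟩ - y hy b hb -
    obtain ⟨x, hx, rfl⟩ := hy
    obtain ⟨hbw, ⟨y0, hy0, hy0f⟩, hsub⟩ := hb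
    have hxN : x ∈ (M.Q j).N := hsub hx
    constructor
    · refine M.Vsub j ?_
      refine mem_cthickening_of_dist_le _ _ _ _ (mem_image_of_mem M.φ hxN) ?_
      have e : M.φ (x + (w : E3) + b) - M.φ x = M.φ (b + w) := by
        rw [← map_sub]; congr 1; abel
      rw [dist_eq_norm, e]
      exact hbw
    · refine mem_cthickening_of_dist_le _ _ _ _ (mem_image_of_mem M.φ hy0f) ?_
      have e : M.φ (x + (w : E3) + b) - M.φ y0 = (M.φ x - M.φ y0) + M.φ (b + w) := by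
        rw [← map_sub, ← map_sub, ← map_add]; congr 1; abel
      show dist (M.φ (x + (w : E3) + b)) (M.φ y0) ≤ r'
      rw [dist_eq_norm, e]
      refine (norm_add_le _ _).trans ?_
      have h3 : ‖M.φ x - M.φ y0‖ ≤ X.c j / 2 ^ k j := by
        rw [← dist_eq_norm]
        refine (X.cn j x y0).trans ?_
        rw [div_eq_mul_one_div]
        exact mul_le_mul_of_nonneg_left (dist_cube hx hy0) (by linarith)
      have h4 := hk1 (k j) ((le_max_right _ _).trans hk)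
      have h5 : ‖M.φ (b + (w : E3))‖ ≤ M.r j := hbw
      linarith

end

end Crest.Agent.R96.Wm5_72
end

-- ▼ part R096/Mfa7_880

set_option autoImplicit false
set_option linter.style.longLine false

open MeasureTheory Set Filter Metric
open scoped Topology ENNReal

namespace Crest.Agent.R096.Mfa_880

open Crest.Agent.R096.Msh_715 Crest.Agent.R096.Msh_810 Crest.Agent.R096.Cut_874
  Crest.Agent.R096.Mal_874
open Crest.Agent.R096.SkC1_961 (E3 Cfg)
open Crest.Agent.R96.Pm_199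
open Crest.Agent.R096.Pmc_112 (Gd')
open Crest.Agent.R96.Wm5_72 (nO mean_QW mean_QWi)

noncomputable section

/-- **all data of the instance except the scales `k` at the walls** -/
structure Pri (F : Type) (X : Set F) where
  M : MD E3 3 X
  D : RD M
  /-- finite lists of relative shifts -/
  W : X → Set E3
  Wf : ∀ j, (W j).Finite
  k0 : X → ℕ
  hk0 : ∀ j, (M.Q j).kc ≤ k0 j
  /-- dyadic level of the corners and of the shifts -/
  κw : X → ℕ
  h0 : ∀ j m, ∃ c : ℤ, 2 ^ κw j * (D.d j : ℝ) * (M.Q j).a' m = c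
  hW : ∀ j, ∀ w ∈ W j, ∀ l, ∃ z : ℤ, 2 ^ κw j * M.φ w l = z
  Bx : X → Set E3
  hBx : ∀ j, Bx j ⊆ BxM M j
  r : ℝ
  A : Set E3
  Am : MeasurableSet A
  A0 : volume A ≠ 0
  A1 : volume A ≠ ∞
  hAr : ∀ a ∈ A, ‖a‖ ≤ r
  cX : Countable X
  hOm : (M.φ ⁻¹' M.D0.Om).Nonempty
  deco : E3 → (X → E3) → Deco F

namespace Pri

variable {F : Type} {X : Set F} (I : Pri F X)

/-- the domain -/
abbrev Om : Set E3 := I.M.φ ⁻¹' I.M.D0.Om

/-- admissible scales at the walls -/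
structure Sc (k : X → ℕ) : Prop where
  sc : I.M.Sc k
  k0 : ∀ j, I.k0 j ≤ k j
  κw : ∀ j, I.κw j ≤ k j

/-- **all large scales are admissible** -/
theorem exists_sc : ∃ kk : X → ℕ, ∀ k : X → ℕ, (∀ j, kk j ≤ k j) → I.Sc k := by
  obtain ⟨k1, h1⟩ := I.M.exists_thr
  refine ⟨fun j => max (k1 j) (max (I.k0 j) (I.κw j)), fun k hk => ⟨h1 k fun j => ?_, fun j => ?_,
    fun j => ?_⟩⟩
  · exact (le_max_left _ _).trans (hk j)
  · exact (le_max_left _ _).trans ((le_max_right _ _).trans (hk j))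
  · exact (le_max_right _ _).trans ((le_max_right _ _).trans (hk j))

variable {k : X → ℕ}

/-- the instance with the scales `k` -/
def ins (h : I.Sc k) : Ins F X where
  M := I.M
  D := I.D
  k := k
  hk := h.sc
  W := I.W
  Wc j := (I.Wf j).countable
  k0 := I.k0
  hk0 := I.hk0
  hkk := h.k0
  H := { κ := I.κw, hκ := h.κw, h0 := I.h0, hW := I.hW }
  Bx := I.Bx
  hBx := I.hBx
  r := I.r
  A := I.A
  Am := I.Am
  A0 := I.A0
  A1 := I.A1
  hAr := I.hAr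
  cX := I.cX
  hOm := I.hOm
  deco := I.deco

/-- the type of the classes -/
abbrev κ : Type :=
  Option ((Unit ⊕ X) ⊕ ((Σ j : X, Mfi_290.Pt (I.M.Q j) ⊕ ℕ) ⊕ (Σ _ : X, Unit)))


/-- the class of the outer cubes -/
def kO : I.κ := some (Sum.inl (Sum.inl ()))
/-- the class of the outer tiles at the wall `j` -/
def kOw (j : X) : I.κ := some (Sum.inl (Sum.inr j))
/-- the classes of the tiles of the block `j` -/
def kI (j : X) (c : Mfi_290.Pt (I.M.Q j) ⊕ ℕ) : I.κ := some (Sum.inr (Sum.inl ⟨j, c⟩))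
/-- the class of the inner cubes at the wall `j` -/
def kIw (j : X) : I.κ := some (Sum.inr (Sum.inr ⟨j, ()⟩))


theorem countable_κ : Countable I.κ := by
  have := I.cX
  infer_instance

/-- the universal constant of the outer class -/
def _root_.Crest.Agent.R096.Mfa_880.CO (θ : ℝ≥0∞) (p : ℝ) (CA : ℝ≥0∞) : ℝ≥0∞ :=
  2 / θ * ((nO * 2) ^ p * CA)

theorem _root_.Crest.Agent.R096.Mfa_880.CO_ne_top {θ : ℝ≥0∞} (hθ : θ ≠ 0) {p : ℝ} (hp : 0 ≤ p)
    {CA : ℝ≥0∞} (hCA : CA ≠ ∞) : CO θ p CA ≠ ∞ := by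
  refine ENNReal.mul_ne_top (ENNReal.div_ne_top ENNReal.ofNat_ne_top hθ)
    (ENNReal.mul_ne_top (ENNReal.rpow_ne_top_of_nonneg hp ?_) hCA)
  exact ENNReal.mul_ne_top (ENNReal.natCast_ne_top _) ENNReal.ofNat_ne_top

/-- **`outer_num`**: weights `lam` and means `m` of all classes of the instance -/
theorem outer_num (h1 : ‖(I.M.φ : E3 →L[ℝ] (Fin 3 → ℝ))‖ ≤ 1)
    (hc : ∀ x y : E3, dist x y ≤ dist (I.M.φ x) (I.M.φ y)) {CA : ℝ≥0∞}
    (hCA : 3 * volume (closedBall (0 : E3) (I.r + 1)) ≤ CA * volume I.A)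
    {D' : E3 → E3 →L[ℝ] E3} (hD' : ∀ v, Measurable fun y => D' y v) {p : ℝ} (hp : 1 ≤ p)
    (hfin : ∫⁻ z in I.Om, ‖D' z‖ₑ ^ p ≠ ∞) {θ : ℝ≥0∞} (hθ : θ ≠ 0) (hθ1 : θ ≠ ∞)
    (Kc : I.κ → ℝ≥0∞) (hKc : ∀ c, Kc c ≠ ∞) {ε : ℝ≥0∞} (hε : ε ≠ 0) {εb : I.κ → ℝ≥0∞}
    (hεb : ∀ c, εb c ≠ 0) :
    ∃ (kw : X → ℕ) (m lam : I.κ → ℝ≥0∞), (∀ c, m c ≠ 0) ∧ (∀ c, lam c ≠ 0) ∧ (∀ c, lam c ≠ ∞) ∧
      ∑' c, (lam c)⁻¹ ≤ θ ∧ lam I.kO = 2 / θ ∧
      Kc I.kO * (lam I.kO * m I.kO) ≤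
        Kc I.kO * (CO θ p CA * ∫⁻ z in I.Om \ NmB I.M I.Bx, ‖D' z‖ₑ ^ p) + ε ∧
      (∀ c, c ≠ I.kO → Kc c * (lam c * m c) ≤ εb c) ∧
      ∀ (k : X → ℕ) (hk : I.Sc k), (∀ j, kw j ≤ k j) → ∀ c : I.κ, (I.ins hk).mf.bl c = none →
        ∫⁻ a in I.A, (I.ins hk).mf.EnC (Gd' D') p c a ≤ m c * volume I.A := by
  classical
  have := I.cX
  have := I.countable_κ
  obtain ⟨lam, l0, l1, l2, l3⟩ := Eds_746.exists_lam I.kO hθ hθ1
  set E : ℝ≥0∞ := ∫⁻ z in I.Om \ NmB I.M I.Bx, ‖D' z‖ₑ ^ p with hE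
  have hKl : ∀ c, Kc c * lam c + 1 ≠ ∞ := fun c =>
    ENNReal.add_ne_top.2 ⟨ENNReal.mul_ne_top (hKc c) (l1 c), ENNReal.one_ne_top⟩
  have hKl0 : ∀ c, Kc c * lam c + 1 ≠ 0 := fun c => by simp
  set m : I.κ → ℝ≥0∞ := fun c => if c = I.kO then (nO * 2) ^ p * CA * E + ε / (Kc c * lam c + 1)
    else εb c / (Kc c * lam c + 1) with hm
  have hmO : m I.kO = (nO * 2) ^ p * CA * E + ε / (Kc I.kO * lam I.kO + 1) := if_pos rfl
  have hm' : ∀ c, c ≠ I.kO → m c = εb c / (Kc c * lam c + 1) := fun c hc' => if_neg hc'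
  have hm0 : ∀ c, m c ≠ 0 := by
    intro c
    by_cases hc' : c = I.kO
    · rw [hc', hmO]
      exact (lt_of_lt_of_le (ENNReal.div_pos hε (hKl _)) le_add_self).ne'
    · rw [hm' c hc']
      exact (ENNReal.div_pos (hεb c) (hKl _)).ne'
  have hmul : ∀ (c : I.κ) (e : ℝ≥0∞), Kc c * (lam c * (e / (Kc c * lam c + 1))) ≤ e := by
    intro c e
    calc Kc c * (lam c * (e / (Kc c * lam c + 1))) = (Kc c * lam c) * (e / (Kc c * lam c + 1)) := by
          ring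
      _ ≤ (Kc c * lam c + 1) * (e / (Kc c * lam c + 1)) := mul_le_mul' le_self_add le_rfl
      _ = e := ENNReal.mul_div_cancel (hKl0 c) (hKl c)
  -- the walls
  have hG : ∀ v, Measurable (Gd' D' v) := fun v => (hD' v).enorm
  have hGH : ∀ᵐ y : E3, ∀ v, Gd' D' v y ≤ ‖v‖ₑ * ‖D' y‖ₑ := by
    refine Eventually.of_forall fun y v => ?_
    rw [mul_comm]
    exact ContinuousLinearMap.le_opENorm _ _
  have hfj : ∀ j : X, ∫⁻ z in I.M.φ ⁻¹' (I.M.D0.Om ∩
      cthickening (I.M.r j + 1) (I.M.φ '' frontier (I.M.Q j).N)), ‖D' z‖ₑ ^ p ≠ ∞ := fun j =>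
    ((lintegral_mono_set (preimage_mono inter_subset_left)).trans_lt (lt_top_iff_ne_top.2 hfin)).ne
  have hA0 := I.A0
  have h2 : ∀ j : X, ∃ k0 : ℕ, ∀ k : X → ℕ, k0 ≤ k j →
      (∫⁻ a in I.A, (Mou_324.QW k (fun j => (I.Wf j).countable) I.D I.r).toPT.EnC (Gd' D') p j a ≤
        m (I.kOw j) * volume I.A) ∧
      ∫⁻ a in I.A, (QUw I.M I.D k (fun j => (I.Wf j).countable) j).EnC (Gd' D') p () a ≤
        m (I.kIw j) * volume I.A := by
    intro j
    obtain ⟨ka, ha⟩ := mean_QW (fun j => (I.Wf j).countable) I.D j (I.Wf j)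
      (r' := I.M.r j + 1) (by linarith) (H := fun z => ‖D' z‖ₑ) hp (hfj j)
      (ε := m (I.kOw j) * volume I.A) (mul_ne_zero (hm0 _) hA0)
    obtain ⟨kb, hb⟩ := mean_QWi I.D (fun j => (I.Wf j).countable) j (I.Wf j)
      (r' := I.M.r j + 1) (by linarith) (H := fun z => ‖D' z‖ₑ) hp (hfj j)
      (ε := m (I.kIw j) * volume I.A) (mul_ne_zero (hm0 _) hA0)
    refine ⟨max ka kb, fun k hk => ⟨?_, ?_⟩⟩
    · exact ha k ((le_max_left _ _).trans hk) I.r I.Am hG hGH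
    · exact hb k ((le_max_right _ _).trans hk) (Uni_663.KU_countable _) (countable_singleton 0) I.Am
        hG hGH
  choose kw hkw using h2
  refine ⟨kw, m, lam, hm0, l0, l1, l2, l3, ?_, ?_, ?_⟩
  · rw [hmO, mul_add, mul_add]
    refine add_le_add ?_ (hmul _ _)
    refine mul_le_mul' le_rfl (le_of_eq ?_)
    rw [l3]
    unfold CO
    ring
  · intro c hc'
    rw [hm' c hc']
    exact hmul c _
  · intro k hk hkk c
    have hI : ∀ c : (I.ins hk).mf.κ, (I.ins hk).mf.bl c = none →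
        ∫⁻ a in I.A, (I.ins hk).mf.EnC (Gd' D') p c a ≤ m c * volume I.A := by
      refine (I.ins hk).cases ?_ ?_ ?_ ?_ ?_
      · intro _
        refine le_trans (le_of_eq ?_) bot_le
        rw [lintegral_congr fun a => (I.ins hk).EnC_kN (Gd' D') p a]
        exact lintegral_zero
      · intro _
        rw [lintegral_congr fun a => (I.ins hk).EnC_kO (Gd' D') p a]
        refine (mean_QPB' (M := I.M) k (fun j => (I.Wf j).countable) I.Bx h1 hc I.Am hCA hG hGH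
          hp).trans ?_
        refine mul_le_mul' ?_ le_rfl
        show _ ≤ m I.kO
        rw [hmO]
        exact le_self_add
      · intro j _
        rw [lintegral_congr fun a => (I.ins hk).EnC_kOw (Gd' D') p a j]
        exact (hkw j k (hkk j)).1
      · intro j c hcc
        rw [(I.ins hk).bl_kI] at hcc
        cases hcc
      · intro j _
        rw [lintegral_congr fun a => (I.ins hk).EnC_kIw (Gd' D') p a j]
        exact (hkw j k (hkk j)).2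
    exact hI c

end Pri

end

end Crest.Agent.R096.Mfa_880
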