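import Crest.Agent.R096.Pgn2_112
import Crest.Agent.R096.Eds2_746
import Crest.Agent.R096.Mfa7_880
import Crest.Agent.R96.Gj1_872
import Crest.Agent.R096.Fns4_360

-- ▼ part R096/Pgn3_112
section

/-!
# Row 96 (S0127), helper112.  The X-generic end theorem `pre_gen`, part 3

`exists_lam_mu2` (weights, all other classes negligible, each one below a given number), `ae_mok`
(`Mok` for almost all shifts), `sum_blk`, `sum_tot` (sums of class energies).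
-/

set_option autoImplicit false
set_option linter.style.longLine false

open MeasureTheory Set Filter Metric
open scoped Topology ENNReal

namespace Crest.Agent.R096.Pgn_112

open Crest.Agent.R096.Msh_715 Crest.Agent.R096.Msh_810 Crest.Agent.R096.Cut_874
  Crest.Agent.R096.Mal_874
open Crest.Agent.R096.SkC1_961 (E3 Cfg FoamD Hom3)
open Crest.Agent.R096.Bsp_628 Crest.Agent.R096.Brk5_582
open Crest.Agent.R096.Ls_222 (Edg ea ev eIn mem_eIn)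
open Crest.Agent.R096.Mbf_337
open Crest.Agent.R096.Tms_582
open Crest.Agent.R096.Er_594 (SH3)
open Crest.Agent.R096.Mfa_880
open Crest.Agent.R096.Wd_120 (CoreAt)
open Crest.Agent.R96.Pm_199
open Crest.Agent.R96.Eam_466 (TLAt FineX InB mix_tmesh locF_of_tl)
open Crest.Agent.R96.Zpatch_348 (ZIn lv)
open Crest.Agent.R096.Pmc_112 (Mok Gd' Bk Kl)

noncomputable section


variable {δ κ0 Rc c0 : ℝ} {La : Set E3} {Φ : FoamD δ κ0 Rc c0 La} {X : Set Φ.F}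
  {I : Ins Φ.F X} {Zd : ZD Φ.F X}

/-- **`Mok` for almost all shifts** -/
theorem ae_mok (hz : ZOk I Zd) {f : E3 → E3} {κp μ κ1 κ2 p : ℝ} {D : E3 → E3 →L[ℝ] E3}
    (hO : IsOpen I.Om) (hSH : SH3 p I.Om La f D) (hxO : ∀ c, Zd.x c ∈ I.Om)
    (htl : ∀ c, TLAt Φ I.Om f κ1 c.1 (Zd.x c) (Zd.R c) (Zd.k c) (Zd.Zc c) (Zd.H c) (Zd.J0 c)
      (Zd.J c) (Zd.θ c) (Zd.φ c)) {Gd : X → Set E3}
    (hB1 : ∀ a w (h : I.mf.Ok a w), (∀ j, a + w j ∈ Gd j) →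
      (∀ c ∈ X, Exact Φ (I.mf.md a w h).T f κ1 κ2 c ((I.mf.md a w h).ct c)
        ((I.mf.md a w h).A c) ((I.mf.md a w h).lam c) ((I.mf.md a w h).z c)) ∧
      FineX Φ (I.mf.md a w h).T f κ1 X (I.mf.md a w h).ct Zd.x Zd.R)
    (hB2 : ∀ a w (h : I.mf.Ok a w), (∀ j, a + w j ∈ Gd j) →
      Cores Φ ((zin I Zd hz).dec h).T f κ1 κ2 X ((zin I Zd hz).dec h).J0
        ((zin I Zd hz).dec h).J ((zin I Zd hz).dec h).V ((zin I Zd hz).dec h).ct
        ((zin I Zd hz).dec h).A ((zin I Zd hz).dec h).lam ((zin I Zd hz).dec h).z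
        ((zin I Zd hz).dec h).θ ((zin I Zd hz).dec h).φ →
      WordsOk Φ f κp μ X ((zin I Zd hz).dec h)) :
    ∀ᵐ a : E3, a ∈ (zin I Zd hz).mf.A → ∀ w (h : (zin I Zd hz).mf.Ok a w),
      (∀ j, a + w j ∈ Gd j) → Mok Φ f κp μ κ1 κ2 X ((zin I Zd hz).mf.md a w h) := by
  have hcF := hz.cF
  have h1 := Rgv_168.reg_all (zin I Zd hz).mf hO hSH (𝓗 := (zin I Zd hz).Hall)
    (((zin I Zd hz).Hf_c.union (zin I Zd hz).Hz_countable)) (fun a w h => (zin I Zd hz).hs_T h)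
    (X0 := range Zd.x) (countable_range _)
  filter_upwards [h1] with a ha _ w h hG
  obtain ⟨h2, h3⟩ := ha w h
  obtain ⟨h4, h5⟩ := hB1 a w h hG
  exact mok_zin hz htl h h4 h5 h2 (fun c => h3 _ (mem_range_self c) (hxO c)) (hB2 a w h hG)

end

end Crest.Agent.R096.Pgn_112
end

-- ▼ part R096/Pgn4_112
section

/-!
# Row 96 (S0127), helper112.  The X-generic end theorem `pre_gen`, part 4: sums over the classes
-/

set_option autoImplicit false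
set_option linter.style.longLine false

open MeasureTheory Set Filter Metric
open scoped Topology ENNReal

namespace Crest.Agent.R096.Pgn_112

open Crest.Agent.R096.Msh_715 Crest.Agent.R096.Msh_810 Crest.Agent.R096.Cut_874
  Crest.Agent.R096.Mal_874
open Crest.Agent.R096.SkC1_961 (E3 Cfg FoamD Hom3)
open Crest.Agent.R096.Bsp_628 Crest.Agent.R096.Brk5_582
open Crest.Agent.R096.Ls_222 (Edg ea ev eIn mem_eIn)
open Crest.Agent.R096.Mbf_337
open Crest.Agent.R096.Tms_582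
open Crest.Agent.R096.Mfa_880
open Crest.Agent.R96.Pm_199
open Crest.Agent.R96.Zpatch_348 (ZIn lv)
open Crest.Agent.R096.Pmc_112 (Mok Gd' Bk Kl)

noncomputable section

variable {δ κ0 Rc c0 : ℝ} {La : Set E3} {Φ : FoamD δ κ0 Rc c0 La} {X : Set Φ.F}
  {I : Ins Φ.F X} {Zd : ZD Φ.F X}

theorem kI_inj (I : Ins Φ.F X) (j : X) : Function.Injective (I.kI j) := by
  intro c c' h
  have h1 := Sum.inl_injective (Sum.inr_injective (Option.some_injective _ h))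
  exact eq_of_heq (Sigma.mk.inj h1).2

/-- the classes of the block `j` are the classes `kI j c` -/
theorem eq_kI {k : I.mf.κ} {j : X} (h : I.mf.bl k = some j) : ∃ c, k = I.kI j c := by
  revert h
  refine I.cases (Pr := fun k => I.mf.bl k = some j → ∃ c, k = I.kI j c) ?_ ?_ ?_ ?_ ?_ k
  · intro h
    rw [I.bl_kN] at h
    cases h
  · intro h
    rw [I.bl_kO] at h
    cases h
  · intro j' h
    rw [I.bl_kOw] at h
    cases h
  · intro j' c h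
    rw [I.bl_kI] at h
    obtain rfl := Option.some_injective _ h
    exact ⟨c, rfl⟩
  · intro j' h
    rw [I.bl_kIw] at h
    cases h

/-- **sum over the classes of one block** -/
theorem sum_bl (I : Ins Φ.F X) (t : I.mf.κ → ℝ≥0∞) (j : X) :
    ∑' k : {k // I.mf.bl k = some j}, t k ≤ ∑' c, t (I.kI j c) := by
  choose g hg using fun k : {k // I.mf.bl k = some j} => eq_kI k.2
  have hinj : Function.Injective g := by
    intro k k' h
    apply Subtype.ext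
    rw [hg k, hg k', h]
  calc ∑' k : {k // I.mf.bl k = some j}, t k = ∑' k : {k // I.mf.bl k = some j}, t (I.kI j (g k)) :=
        tsum_congr fun k => congrArg t (hg k)
    _ ≤ ∑' c, t (I.kI j c) := ENNReal.tsum_comp_le_tsum_of_injective hinj (fun c => t (I.kI j c))

/-- the classes of the tiles in the block `j` -/
def Sb (I : Ins Φ.F X) (j : X) : Set I.mf.κ := range (I.kI j) ∪ {I.kIw j}

theorem sum_Sb (I : Ins Φ.F X) (t : I.mf.κ → ℝ≥0∞) (j : X) :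
    ∑' k : Sb I j, t k ≤ (∑' c, t (I.kI j c)) + t (I.kIw j) := by
  refine (ENNReal.tsum_union_le t (range (I.kI j)) {I.kIw j}).trans ?_
  gcongr
  · exact (tsum_range t (kI_inj I j)).le
  · exact (tsum_singleton (I.kIw j) t).le

variable (hz : ZOk I Zd) {D' : E3 → E3 →L[ℝ] E3} {p : ℝ} {lam m μ : I.mf.κ → ℝ≥0∞} {a : E3}
  {w : X → E3}

theorem Bk_kI (j : X) (c : Mfi_290.Pt (I.M.Q j) ⊕ ℕ) :
    Bk (zin I Zd hz).mf D' p lam m a w (I.kI j c) = (I.qI j).EnC (Gd' D') p c (a + w j) := by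
  have h1 : Bk (zin I Zd hz).mf D' p lam m a w (I.kI j c) =
      (zin I Zd hz).mf.EnC (Gd' D') p (I.kI j c) (a + w j) := rfl
  rw [h1]
  refine ((zin I Zd hz).mf_EnC (Gd' D') p (I.kI j c) (a + w j)).trans ?_
  exact I.EnC_kI (Gd' D') p (a + w j) j c


/-- **the sum over the classes of one block** -/
theorem blk_le (c : I.mf.κ → ℝ≥0∞) (j : X) {B : ℝ≥0∞}
    (hB : ∑' c', c (I.kI j c') * (I.qI j).EnC (Gd' D') p c' (a + w j) ≤ B) :
    ∑' k : Sb I j, c k.1 * Bk (zin I Zd hz).mf D' p lam m a w k.1 ≤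
      B + c (I.kIw j) * (lam (I.kIw j) * m (I.kIw j)) := by
  refine (sum_Sb I (fun k => c k * Bk (zin I Zd hz).mf D' p lam m a w k) j).trans ?_
  refine add_le_add (le_trans (le_of_eq (tsum_congr fun c' => ?_)) hB) le_rfl
  rw [Bk_kI]

/-- **the sum over all classes** -/
theorem tot_le (c : I.mf.κ → ℝ≥0∞)
    (hμ : ∀ k, I.mf.bl k = none → k ≠ I.kO → m k ≤ μ k) {ε : ℝ≥0∞}
    (hε : ∑' k, c k * (lam k * μ k) ≤ ε) {B : X → ℝ≥0∞}
    (hB : ∀ j, ∑' c', c (I.kI j c') * (I.qI j).EnC (Gd' D') p c' (a + w j) ≤ B j) :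
    ∑' k, c k * Bk (zin I Zd hz).mf D' p lam m a w k ≤
      c I.kO * (lam I.kO * m I.kO) + ε + ∑' j, B j := by
  refine Eds_746.sum_Bk (zin I Zd hz).mf I.kO rfl c hμ hε fun j => ?_
  refine (sum_bl I (fun k => c k * (zin I Zd hz).mf.EnC (Gd' D') p k (a + w j)) j).trans
    (le_trans (le_of_eq (tsum_congr fun c' => ?_)) (hB j))
  exact congrArg (c (I.kI j c') * ·) (Bk_kI (lam := lam) (m := m) hz j c')

end

end Crest.Agent.R096.Pgn_112
end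

-- ▼ part R096/Pgn5_112
section

/-!
# Row 96 (S0127), helper112.  The X-generic end theorem `pre_gen`, part 5: the tiles of the blocks in the
patched mesh (`Qb`), and the selection theorem `sel`.
-/

set_option autoImplicit false
set_option linter.style.longLine false

open MeasureTheory Set Filter Metric
open scoped Topology ENNReal

namespace Crest.Agent.R096.Pgn_112

open Crest.Agent.R096.Msh_715 Crest.Agent.R096.Msh_810 Crest.Agent.R096.Cut_874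
  Crest.Agent.R096.Mal_874
open Crest.Agent.R096.SkC1_961 (E3 Cfg FoamD Hom3)
open Crest.Agent.R096.Bsp_628 Crest.Agent.R096.Brk5_582
open Crest.Agent.R096.Ls_222 (Edg ea ev eIn mem_eIn Cl)
open Crest.Agent.R096.Der_764 (OmH)
open Crest.Agent.R096.Mbf_337
open Crest.Agent.R096.Tms_582
open Crest.Agent.R096.Er_594 (SH3)
open Crest.Agent.R096.Mfa_880
open Crest.Agent.R096.Wd_120 (CoreAt)
open Crest.Agent.R96.Pm_199
open Crest.Agent.R96.Sob4_199 (VWD)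
open Crest.Agent.R96.En10_199 (P3)
open Crest.Agent.R96.EaCore_348 (EE bt)
open Crest.Agent.R96.Eam_466 (TLAt FineX InB mix_tmesh locF_of_tl)
open Crest.Agent.R96.Zpatch_348 (ZIn lv)
open Crest.Agent.R096.Pmc_112 (Mok Gd' Bk Kl PreOut premach EE_leQ ent_le_Bk)

noncomputable section

variable {δ κ0 Rc c0 : ℝ} {La : Set E3} {Φ : FoamD δ κ0 Rc c0 La} {X : Set Φ.F}
  {I : Ins Φ.F X} {Zd : ZD Φ.F X}

/-- the block `j` misses the zones -/
theorem blk_zone (hz : ZOk I Zd) {v : X → E3} (hv : I.M.Adm v) (j : X) (c : {c // c ∉ X}) {y : E3}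
    (hy : y ∈ (I.M.Bk v j).N) : y ∉ closedBall (Zd.x c) (2 * Zd.R c) := fun h =>
  Set.disjoint_left.1 (hz.dis c j) h (mem_V_of_N I.M hz.φ hv j hy)

/-- a tile of the block `j` is not replaced -/
theorem not_Ar_in (hz : ZOk I Zd) {a : E3} {w : X → E3} (h : I.mf.Ok a w) {j : X}
    (i : I.M.IIx I.hk (I.M.φ a) (Ins.adm h) j) :
    (Sum.inr ⟨j, i⟩ : (I.mf.md a w h).ι) ∉ Ar (I.mf.md a w h).T (zin I Zd hz).k
      (fun c => (zin I Zd hz).wz c a) (zin I Zd hz).Zc := by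
  intro hA
  obtain ⟨c, hc⟩ := Crest.Agent.R96.Eam_466.Ar_sub ((zin I Zd hz).Z a w h) (zin I Zd hz).F hA
  obtain ⟨y, hy⟩ := (I.mf.md a w h).T.ne (Sum.inr ⟨j, i⟩)
  have h1 := hc (I_sub_P _ hy)
  have h2 : y ∈ (I.M.Bk (fun j => a + w j) j).N := i.2 (I_sub_P _ hy)
  refine blk_zone hz (Ins.adm h) j c h2 (ball_subset_closedBall (ball_subset_ball ?_ h1))
  have := ((zin I Zd hz).Z a w h).R0 c
  show Zd.R c / 2 ≤ 2 * Zd.R c
  change 0 < Zd.R c at this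
  linarith

/-- **the tiles of the block `j`** in the patched mesh, except the core -/
def Qb (hz : ZOk I Zd) {a : E3} {w : X → E3} (h : I.mf.Ok a w) (j : X) :
    Set ((zin I Zd hz).Ix h) :=
  {i | ∃ i' : I.M.IIx I.hk (I.M.φ a) (Ins.adm h) j, i' ≠ I.M.core I.hk (I.M.φ a) (Ins.adm h) j ∧
    i = Sum.inl ⟨Sum.inr ⟨j, i'⟩, not_Ar_in hz h i'⟩}

variable (hz : ZOk I Zd) {a : E3} {w : X → E3} (h : I.mf.Ok a w)

theorem Qb_disj {j j' : X} (hj : j ≠ j') : Disjoint (Qb hz h j) (Qb hz h j') := by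
  rw [Set.disjoint_left]
  rintro i ⟨i1, -, rfl⟩ ⟨i2, -, h2⟩
  have h3 := Sum.inr_injective (congrArg Subtype.val (Sum.inl_injective h2))
  exact hj (Sigma.mk.inj h3).1

/-- the tiles of the block lie in the block -/
theorem Qb_sub {j : X} {i : (zin I Zd hz).Ix h} (hi : i ∈ Qb hz h j) :
    P (((zin I Zd hz).dec h).T.H i) ⊆ ((I.M.Q j).tr (a + w j)).N := by
  obtain ⟨i1, -, rfl⟩ := hi
  exact i1.2

/-- the tiles of the block cover the block without the core -/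
theorem Qb_cov {j : X} {x : E3} (hx : x ∈ ((I.M.Q j).tr (a + w j)).N)
    (hk : x ∉ ((I.M.Q j).tr (a + w j)).Kc) :
    ∃ i ∈ Qb hz h j, x ∈ P (((zin I Zd hz).dec h).T.H i) := by
  obtain ⟨i, hi⟩ := exists_inner I.M I.hk (I.M.φ a) (Ins.adm h) j hx
  refine ⟨_, ⟨i, ?_, rfl⟩, hi⟩
  rintro rfl
  apply hk
  rw [I.M.P_core I.hk (I.M.φ a) (Ins.adm h) j] at hi
  exact hi

/-- the tiles of the block are ordinary -/
theorem Qb_ord {j : X} {i : (zin I Zd hz).Ix h} (hi : i ∈ Qb hz h j) :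
    ((zin I Zd hz).dec h).Ord i := by
  obtain ⟨i1, h1, rfl⟩ := hi
  intro c hc
  by_cases hcX : c ∈ X
  · have hc1 : (Sum.inl ⟨Sum.inr ⟨j, i1⟩, not_Ar_in hz h i1⟩ : (zin I Zd hz).Ix h) =
        (zin I Zd hz).ct h c := by
      rw [(zin I Zd hz).dec_V_of h hcX] at hc
      exact hc
    rw [(zin I Zd hz).ct_of h hcX] at hc1
    have h2 := congrArg Subtype.val (Sum.inl_injective hc1)
    have h3 : (Sum.inr ⟨j, i1⟩ : (I.mf.md a w h).ι) = (I.mf.md a w h).ct c := h2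
    rw [I.mf_ct h hcX] at h3
    obtain ⟨rfl, h4⟩ := Sigma.mk.inj_iff.1 (Sum.inr_injective h3)
    exact h1 (eq_of_heq h4)
  · rw [(zin I Zd hz).dec_V_not h hcX] at hc
    obtain ⟨y, hy1, hy2⟩ := hc
    refine blk_zone hz (Ins.adm h) j ⟨c, hcX⟩ (i1.2 hy1) (closedBall_subset_closedBall ?_ hy2)
    have := ((zin I Zd hz).Z a w h).R0 ⟨c, hcX⟩
    show Zd.R ⟨c, hcX⟩ / 2 ≤ 2 * Zd.R ⟨c, hcX⟩
    change 0 < Zd.R ⟨c, hcX⟩ at this
    linarith

/-- the tiles of the block miss the macro balls -/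
theorem Qb_off {j : X} {i : (zin I Zd hz).Ix h} (hi : i ∈ Qb hz h j) {x : E3}
    (hx : x ∈ P (((zin I Zd hz).dec h).T.H i)) (c : {c // c ∉ X}) :
    x ∉ closedBall (Zd.x c) (2 * Zd.R c) :=
  blk_zone hz (Ins.adm h) j c (Qb_sub hz h hi hx)

/-- the classes of the tiles of the block -/
theorem Qb_cl {j : X} {i : (zin I Zd hz).Ix h} (hi : i ∈ Qb hz h j) :
    (zin I Zd hz).mf.cl ((zin I Zd hz).mf.pot a w h i) ∈ Sb I j := by
  obtain ⟨i1, h1, rfl⟩ := hi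
  have h2 := I.cl_inner h h1
  have h3 : (zin I Zd hz).mf.cl ((zin I Zd hz).mf.pot a w h
      (Sum.inl ⟨Sum.inr ⟨j, i1⟩, not_Ar_in hz h i1⟩)) =
      I.mf.cl (I.mf.pot a w h (Sum.inr ⟨j, i1⟩)) := rfl
  rw [h3]
  rcases h2 with ⟨c, hc⟩ | hc
  · exact Or.inl ⟨c, hc.symm⟩
  · exact Or.inr hc

end

end Crest.Agent.R096.Pgn_112
end

-- ▼ part R096/Pgn6_112

/-!
# Row 96 (S0127), helper112.  The X-generic end theorem `pre_gen`, part 6: input and output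

`GenIn` = the data of the blocks (mesh `M`, rational data `D`, coarse scales `k0`, good sets `Gd`, core
data) and of the zones, with (B1) exact cores and fineness, (B2) words, (B3) energies, (Z) zones;
`GenOut` = one decorated mesh with everything the machine needs and all energies.
-/

set_option autoImplicit false
set_option linter.style.longLine false

open MeasureTheory Set Filter Metric
open scoped Topology ENNReal

namespace Crest.Agent.R096.Pgn_112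

open Crest.Agent.R096.Msh_715 Crest.Agent.R096.Msh_810 Crest.Agent.R096.Cut_874
  Crest.Agent.R096.Mal_874
open Crest.Agent.R096.SkC1_961 (E3 Cfg FoamD Hom3)
open Crest.Agent.R096.Bsp_628 Crest.Agent.R096.Brk5_582
open Crest.Agent.R096.Ls_222 (Edg ea ev eIn mem_eIn Cl)
open Crest.Agent.R096.Der_764 (OmH)
open Crest.Agent.R096.Mbf_337
open Crest.Agent.R096.Tms_582
open Crest.Agent.R096.Er_594 (SH3)
open Crest.Agent.R096.Mfa_880
open Crest.Agent.R096.Wd_120 (CoreAt)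
open Crest.Agent.R096.Fns_360 (trA)
open Crest.Agent.R96.Pm_199
open Crest.Agent.R96.Sob4_199 (VWD)
open Crest.Agent.R96.En10_199 (P3)
open Crest.Agent.R96.EaCore_348 (EE bt)
open Crest.Agent.R96.EaPost_348 (Geo)
open Crest.Agent.R96.Eam_466 (TLAt FineX InB mix_tmesh locF_of_tl)
open Crest.Agent.R96.Zpatch_348 (ZIn lv)
open Crest.Agent.R096.Pmc_112 (Mok Gd' Bk Kl lP PreOut premach EE_leQ ent_le_Bk)

noncomputable section

/-- **the input of `pre_gen`**: blocks, good sets, zones; (B1) `ex`, `fine`; (B2) `words`; (B3) `en`;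
(Z) `xO LF tl Z dis`. -/
structure GenIn {δ κ0 Rc c0 : ℝ} {La : Set E3} (Φ : FoamD δ κ0 Rc c0 La) (f : E3 → E3)
    (D' : E3 → E3 →L[ℝ] E3) (p κp κ1 κ2 : ℝ) (X : Set Φ.F) (A : Φ.F → E3 ≃ᵃ[ℝ] E3)
    (lam : Φ.F → ℝ) (z : Φ.F → E3) (Mc : Φ.F → ℕ) (M : MD E3 3 X) (D : RD M) (k0 : X → ℕ)
    (hk0 : ∀ j, (M.Q j).kc ≤ k0 j) (κr : X → ℕ) (Bx Gd : X → Set E3)
    (wt : ∀ j : X, Mfi_290.Pt (M.Q j) ⊕ ℕ → ℝ≥0∞) (B : X → ℝ≥0∞) (Zd : ZD Φ.F X) : Prop where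
  φ : M.φ = ContinuousLinearEquiv.refl ℝ E3
  Bxs : ∀ j, Bx j ⊆ BxM M j
  Gds : ∀ j, Gd j ⊆ Bx j
  Gdm : ∀ j, MeasurableSet (Gd j)
  Gd0 : ∀ j, volume (Gd j) ≠ 0
  h0 : ∀ j m, ∃ c : ℤ, 2 ^ κr j * (D.d j : ℝ) * (M.Q j).a' m = c
  /-- (B1) -/
  ex : ∀ (k : X → ℕ) (hk : M.Sc k) (a : Fin 3 → ℝ) (v : X → E3) (hv : M.Adm v),
    (∀ j, v j ∈ Gd j) → ∀ c : X, Exact Φ (M.mesh hk a hv) f κ1 κ2 c.1
      (Sum.inr ⟨c, M.core hk a hv c⟩) (trA (A c) (v c)) (lam c) (z c)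
  fine : ∀ (k : X → ℕ) (hk : M.Sc k) (a : Fin 3 → ℝ) (v : X → E3) (hv : M.Adm v),
    (∀ j, v j ∈ Gd j) → ∀ ct0 : Φ.F → M.OIx hk a hv ⊕ Σ j, M.IIx hk a hv j,
      (∀ c : X, ct0 c.1 = Sum.inr ⟨c, M.core hk a hv c⟩) →
      FineX Φ (M.mesh hk a hv) f κ1 X ct0 Zd.x Zd.R
  /-- (B2) -/
  words : ∀ v : X → E3, (∀ j, v j ∈ Gd j) → ∀ D0 : Dec (M.φ ⁻¹' M.D0.Om) Φ.F,
    Cores Φ D0.T f κ1 κ2 X D0.J0 D0.J D0.V D0.ct D0.A D0.lam D0.z D0.θ D0.φ →
    (∀ c : X, D0.lam c = lam c ∧ D0.z c = z c ∧ D0.A c = trA (A c) (v c) ∧ D0.M c = Mc c ∧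
      CoreAt D0.T (D0.ct c) ((M.Q c).tr (v c))) → WordsOk Φ f κp (κp / 64) X D0
  /-- (B3) -/
  en : ∀ j, ∀ s ∈ Gd j, ∑' c, wt j c * (QU M D k0 hk0 j).EnC (Gd' D') p c s ≤ B j
  /-- (Z) -/
  xO : ∀ c, Zd.x c ∈ M.φ ⁻¹' M.D0.Om
  LF : LocF Zd.x Zd.R Zd.k Zd.Zc Zd.H
  tl : ∀ c, TLAt Φ (M.φ ⁻¹' M.D0.Om) f κ1 c.1 (Zd.x c) (Zd.R c) (Zd.k c) (Zd.Zc c) (Zd.H c)
    (Zd.J0 c) (Zd.J c) (Zd.θ c) (Zd.φ c)
  Z : ∃ kZ : X → ℕ, ∀ (k : X → ℕ) (hk : M.Sc k), (∀ j, kZ j ≤ k j) → ∀ (a : E3) (v : X → E3)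
    (hv : M.Adm v), Zones (M.mesh hk a hv) Zd.x Zd.R Zd.k (fun c => Zlt_798.wz a (Zd.k c))
  dis : ∀ c j, Disjoint (closedBall (Zd.x c) (2 * Zd.R c)) (M.V j)

/-- the universal factor of the outer energy -/
def CAu : ℝ≥0∞ := 3 * volume (closedBall (0 : E3) (1 + 1)) / volume (closedBall (0 : E3) 1)

/-- the universal constant of the outer class -/
def COu (p : ℝ) : ℝ≥0∞ := CO (1 / 4) p CAu

theorem CAu_ne_top : CAu ≠ ∞ := by
  refine ENNReal.div_ne_top (ENNReal.mul_ne_top (by norm_num) ?_) ?_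
  · exact measure_closedBall_lt_top.ne
  · exact (measure_closedBall_pos volume (0 : E3) one_pos).ne'

theorem CAu_spec : 3 * volume (closedBall (0 : E3) (1 + 1)) ≤ CAu * volume (closedBall (0 : E3) 1) := by
  unfold CAu
  rw [ENNReal.div_mul_cancel (measure_closedBall_pos volume (0 : E3) one_pos).ne'
    measure_closedBall_lt_top.ne]

theorem COu_ne_top {p : ℝ} (hp : 0 ≤ p) : COu p ≠ ∞ :=
  CO_ne_top (by norm_num) hp CAu_ne_top

/-- **the output of `pre_gen`** (`Cs` = the constant of the outer tiles) -/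
def GenOut {δ κ0 Rc c0 : ℝ} {La : Set E3} (Φ : FoamD δ κ0 Rc c0 La) (Om : Set E3) (f : E3 → E3)
    (D' : E3 → E3 →L[ℝ] E3) (p κp κ1 κ2 : ℝ) (X : Set Φ.F) (A : Φ.F → E3 ≃ᵃ[ℝ] E3)
    (lam : Φ.F → ℝ) (z : Φ.F → E3) (Mc : Φ.F → ℕ) (M : MD E3 3 X) (Bx Gd : X → Set E3)
    (B : X → ℝ≥0∞) (Zd : ZD Φ.F X) (C : Set (Set E3) → ℝ) (Cs : ℝ) (ε : ℝ≥0∞)
    (εb : X → ℝ≥0∞) : Prop :=
  ∃ (v : X → E3) (Dd : Dec Om Φ.F), (∀ j, v j ∈ Gd j) ∧
    PreOut Φ f κp (κp / 64) κ1 κ2 8 X Dd (lP δ Rc D') ∧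
    Geo Dd.T (Dd.ct '' X) {i | ∃ c, c ∉ X ∧ i ∈ Dd.V c} Zd.x (fun c => 5 / 8 * Zd.R c)
      (fun c => 7 / 8 * Zd.R c) 1 ∧
    (∀ c : X, P (Dd.T.H (Dd.ct c)) = ((M.Q c).tr (v c)).Kc ∧ Dd.lam c = lam c ∧ Dd.z c = z c ∧
      Dd.A c = trA (A c) (v c) ∧ Dd.M c = Mc c) ∧
    EE C Dd.T Dd.fr (Crest.Agent.R96.EaCore_348.Ord (Φ := Φ) Dd.V) (lP δ Rc D') p ≤
      (ENNReal.ofReal Cs * Kl δ Rc) ^ p *
        (COu p * ∫⁻ x in Om \ NmB M Bx, ‖D' x‖ₑ ^ p) + ∑' j, B j + ε ∧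
    ∃ Qb : X → Set Dd.ι, (∀ j j', j ≠ j' → Disjoint (Qb j) (Qb j')) ∧
      (∀ j, ∀ i ∈ Qb j, P (Dd.T.H i) ⊆ ((M.Q j).tr (v j)).N) ∧
      (∀ j, ∀ x ∈ ((M.Q j).tr (v j)).N, x ∉ ((M.Q j).tr (v j)).Kc →
        ∃ i ∈ Qb j, x ∈ P (Dd.T.H i)) ∧
      (∀ j, ∀ i ∈ Qb j, Dd.Ord i) ∧
      (∀ j, ∀ i ∈ Qb j, ∀ x ∈ P (Dd.T.H i), ∀ c, x ∉ closedBall (Zd.x c) (2 * Zd.R c)) ∧
      ∀ j, EE C Dd.T Dd.fr (Crest.Agent.R96.EaCore_348.Ord (Φ := Φ) Dd.V ∩ Qb j)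
        (lP δ Rc D') p ≤ B j + εb j

end

end Crest.Agent.R096.Pgn_112
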