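import Crest.Agent.R096.Tl4_4
import Crest.Agent.R096.Eaa1_748
import Crest.Agent.R96.EaP3_899
import Crest.Agent.R96.Eam3_466
import Crest.Agent.R096.Zlt2_798
import Crest.Agent.R096.Pgn6_112

-- ▼ part R096/Pth1_561
section

/-!
# Row 96, [E13] PTH of 348 #11167 (helper561)

The tiny cores of 899's `fX` (point holes `z c`, `c ∉ X`): centres `x₀ c = f⁻¹ (z c)`, radii `R₀ c`, and
`TinyLoc` at all smaller radii (helper4's `tiny_loc`), together with the geometric clauses of 582's `Zones`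
and 466's `InB`, `exists_tl`, `LocF`.
-/

set_option autoImplicit false
set_option linter.unusedSectionVars false
set_option linter.unusedVariables false
set_option linter.style.longLine false

open MeasureTheory Set Filter Topology Metric

noncomputable section

namespace Crest.Agent.R096.Pth_561

open Crest.Agent.R096.Bsp_628 Crest.Agent.R096.Brk5_582
open Crest.Agent.R096.SkC1_961 (E3 Hom3 FoamD)
open Crest.Agent.R96.Push_899
open Crest.Agent.R96.EaP_899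
open Crest.Agent.R096.Msh_715
open Crest.Agent.R096.Er_594 (SH3)
open Crest.Agent.R096.Tms_582 (TinyLoc Zones LocF idE)
open Crest.Agent.R96.Eam_466 (TLAt exists_tl InB locF_of_tl)
open Crest.Agent.R096.Eaa_748 (exists_macro)

variable {δ κ0 R c0 : ℝ} {La Om : Set E3} {F : Set (Bx (Fin 3))} {X : Set F} {lam : F → ℝ}
  {z : F → E3}

/-- the middle box lies in the open brick -/
theorem mid_open {bf : BoxFoam La F δ κ0} {c : F} {q : E3} (hq : q ∈ Mid (brk' bf c)) :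
    ∀ k, c.1.lo k < q k ∧ q k < c.1.hi k := by
  intro k
  have h1 := hq.1 k
  have h2 := hq.2 k
  have h3 : 0 < c.1.side k := Bx.side_pos (bf.pos _ c.2) k
  have e1 : (brk' bf c).W k = c.1.side k := rfl
  have e2 : (brk' bf c).lo k = c.1.lo k := rfl
  have e3 : (brk' bf c).hi k = c.1.hi k := rfl
  simp only [e1, e2, e3] at h1 h2
  constructor <;> linarith

/-- a point of the open brick lies in `La` -/
theorem mem_La {bf : BoxFoam La F δ κ0} {c : F} {q : E3}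
    (hq : ∀ k, c.1.lo k < q k ∧ q k < c.1.hi k) : q ∈ La := by
  apply bf.sub _ c.2
  rw [Bx.mem_set]
  exact fun k => ⟨(hq k).1.le, (hq k).2.le⟩

/-- **the centres** -/
theorem exists_x0 {f : E3 → E3} (hf : Hom3 f Om La) {bf : BoxFoam La F δ κ0}
    (H : XD bf c0 X lam z) :
    ∃ x₀ : {c : F // c ∉ X} → E3, ∀ c, x₀ c ∈ Om ∧ f (x₀ c) = z c.1 := by
  obtain ⟨fi, h1, h2, h3, h4, h5, h6⟩ := hf
  refine ⟨fun c => fi (z c.1), fun c => ?_⟩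
  have h := mem_La (bf := bf) (mid_open (H.hz c.1 c.2))
  exact ⟨h2 h, h4 _ h⟩

/-- **the radii**, and `TinyLoc` at all smaller radii -/
theorem exists_R0 {p : ℝ} (hp : 1 ≤ p) (hO : IsOpen Om) (hLa : IsOpen La) {f : E3 → E3}
    {D : E3 → E3 →L[ℝ] E3} (hS : SH3 p Om La f D) (bf : BoxFoam La F δ κ0) (cmp : Cmp F R)
    (H : XD bf c0 X lam z) {x₀ : {c : F // c ∉ X} → E3}
    (hx₀ : ∀ c, x₀ c ∈ Om ∧ f (x₀ c) = z c.1) {κ1 : ℝ} (hκ1 : 0 < κ1)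
    {η : {c : F // c ∉ X} → ℝ} (hη : ∀ c, 0 < η c) :
    ∃ R₀ : {c : F // c ∉ X} → ℝ, (∀ c, 0 < R₀ c) ∧ (∀ c, R₀ c ≤ η c) ∧
      (∀ c, closedBall (x₀ c) (2 * R₀ c) ⊆ Om) ∧
      (∀ c, ∀ y ∈ closedBall (x₀ c) (2 * R₀ c), ∀ k, c.1.1.lo k < f y k ∧ f y k < c.1.1.hi k) ∧
      (∀ c c', c ≠ c' → Disjoint (closedBall (x₀ c) (2 * R₀ c)) (closedBall (x₀ c') (2 * R₀ c'))) ∧
      (∀ y ∈ Om, ∃ r > 0, {c | (closedBall (x₀ c) (2 * R₀ c) ∩ ball y r).Nonempty}.Finite) ∧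
      ∀ ρ : {c : F // c ∉ X} → ℝ, (∀ c, 0 < ρ c ∧ ρ c ≤ R₀ c) →
        InB (fX bf cmp H) f X x₀ ρ ∧
        ∀ c : {c : F // c ∉ X}, TinyLoc (fX bf cmp H) Om f κ1 c.1 (x₀ c) (ρ c) := by
  classical
  have hin : ∀ c : {c : F // c ∉ X}, ∀ k, c.1.1.lo k < f (x₀ c) k ∧ f (x₀ c) k < c.1.1.hi k := by
    intro c
    rw [(hx₀ c).2]
    exact mid_open (H.hz c.1 c.2)
  set x' : F → E3 := fun c => if h : c ∉ X then x₀ ⟨c, h⟩ else 0 with hx'
  have ex : ∀ c : {c : F // c ∉ X}, x' c.1 = x₀ c := fun c => dif_pos c.2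
  set η' : F → ℝ := fun c => if h : c ∉ X then 2 * η ⟨c, h⟩ else 1 with hη'
  have eη : ∀ c : {c : F // c ∉ X}, η' c.1 = 2 * η c := fun c => dif_pos c.2
  obtain ⟨r, h1, h2, h3⟩ := exists_macro hO hLa hS.homeo bf {c | c ∉ X} (x := x')
    (by
      intro c hc
      rw [ex ⟨c, hc⟩]
      exact ⟨(hx₀ ⟨c, hc⟩).1, hin ⟨c, hc⟩⟩) (W := fun _ => univ) (fun _ _ => univ_mem) (η := η')
    (by
      intro c
      by_cases hc : c ∉ X
      · rw [eη ⟨c, hc⟩]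
        have := hη ⟨c, hc⟩
        positivity
      · rw [hη']
        simp only [dif_neg hc]
        exact one_pos)
  have e2 : ∀ c : {c : F // c ∉ X}, 2 * (r c.1 / 2) = r c.1 := fun c => by ring
  refine ⟨fun c => r c.1 / 2, fun c => ?_, fun c => ?_, fun c => ?_, fun c => ?_, fun c c' hcc => ?_,
    fun y hy => ?_, fun ρ hρ => ?_⟩
  · have := (h1 c.1 c.2).1
    positivity
  · have := (h1 c.1 c.2).2.1
    rw [eη] at this
    linarith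
  · rw [e2, ← ex c]
    exact (h1 c.1 c.2).2.2.1.trans inter_subset_left
  · rw [e2, ← ex c]
    exact (h1 c.1 c.2).2.2.2
  · rw [e2, e2, ← ex c, ← ex c']
    exact h2 c.1 c.2 c'.1 c'.2 fun h => hcc (Subtype.ext h)
  · obtain ⟨U, hU, hfin⟩ := h3 y hy
    obtain ⟨s, hs, hsU⟩ := Metric.mem_nhds_iff.1 hU
    refine ⟨s, hs, Set.Finite.of_finite_image (f := Subtype.val) (hfin.subset ?_)
      Subtype.val_injective.injOn⟩
    rintro _ ⟨c, ⟨u, hu, hub⟩, rfl⟩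
    refine ⟨c.2, u, ?_, hsU hub⟩
    have h5 : 2 * (r c.1 / 2) = r c.1 := e2 c
    rw [ex c, ← h5]
    exact hu
  · have hsub : ∀ c : {c : F // c ∉ X}, closedBall (x₀ c) (ρ c) ⊆ closedBall (x' c.1) (r c.1) := by
      intro c
      rw [ex c]
      apply closedBall_subset_closedBall
      have h4 := (hρ c).2
      have h5 := (h1 c.1 c.2).1
      dsimp only at h4
      linarith
    refine ⟨fun c y hy => (h1 c.1 c.2).2.2.2 y (hsub c hy), fun c => ?_⟩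
    refine Crest.Agent.R096.Tl_4.tiny_loc hp hO hLa hS (fX bf cmp H) (fX_pt bf cmp H c.2) ?_ (hρ c).1
      ((hsub c).trans ((h1 c.1 c.2).2.2.1.trans inter_subset_left))
      (fun y hy => (h1 c.1 c.2).2.2.2 y (hsub c hy)) hκ1
    rw [(hx₀ c).2, fX_B_not bf cmp H c.2]
    rfl



end Crest.Agent.R096.Pth_561
end
end

-- ▼ part R096/Pth2_561
section

/-!
# Row 96 (helper561): the zones of the tiny cores of `fX` as 798's `ZBall`

`zball_of` : `ZBall M x₀ ρ` for every mesh `M` over the blocks of `X` whose rooms are mapped into their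
open bricks, and every radius function `0 < ρ ≤ R₀` of `Pth1_561.exists_pth`.
-/

set_option autoImplicit false
set_option linter.unusedSectionVars false
set_option linter.unusedVariables false
set_option linter.style.longLine false

open MeasureTheory Set Filter Topology Metric

noncomputable section

namespace Crest.Agent.R096.Pth_561

open Crest.Agent.R096.Bsp_628 Crest.Agent.R096.Brk5_582
open Crest.Agent.R096.SkC1_961 (E3 Hom3 FoamD)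
open Crest.Agent.R96.Push_899
open Crest.Agent.R96.EaP_899
open Crest.Agent.R096.Msh_715
open Crest.Agent.R096.Mal_874
open Crest.Agent.R096.Er_594 (SH3)
open Crest.Agent.R096.Tms_582 (TinyLoc Zones LocF idE)
open Crest.Agent.R96.Eam_466 (TLAt exists_tl InB locF_of_tl)
open Crest.Agent.R096.Zlt_798 (ZBall)

variable {δ κ0 R c0 : ℝ} {La Om : Set E3} {F : Set (Bx (Fin 3))} {X : Set F} {lam : F → ℝ}
  {z : F → E3}

/-- **`ZBall` for the zones of the tiny cores** -/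
theorem zball_of (bf : BoxFoam La F δ κ0) {f : E3 → E3} (M : MD E3 3 X) (hid : M.φ = idE)
    (hOm : M.D0.Om = Om)
    (hV : ∀ j : X, ∀ y ∈ M.V j, ∀ k, j.1.1.lo k < f y k ∧ f y k < j.1.1.hi k)
    {x₀ : {c : F // c ∉ X} → E3} {R₀ ρ : {c : F // c ∉ X} → ℝ}
    (hsub : ∀ c, closedBall (x₀ c) (2 * R₀ c) ⊆ Om)
    (hin : ∀ c, ∀ y ∈ closedBall (x₀ c) (2 * R₀ c), ∀ k, c.1.1.lo k < f y k ∧ f y k < c.1.1.hi k)
    (hdis : ∀ c c', c ≠ c' → Disjoint (closedBall (x₀ c) (2 * R₀ c)) (closedBall (x₀ c') (2 * R₀ c')))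
    (hlf : ∀ y ∈ Om, ∃ r > 0, {c | (closedBall (x₀ c) (2 * R₀ c) ∩ ball y r).Nonempty}.Finite)
    (hρ : ∀ c, 0 < ρ c ∧ ρ c ≤ R₀ c) : ZBall M x₀ ρ := by
  have hs : ∀ c, closedBall (x₀ c) (2 * ρ c) ⊆ closedBall (x₀ c) (2 * R₀ c) := fun c =>
    closedBall_subset_closedBall (by linarith [(hρ c).2])
  refine ⟨hid, fun c => (hρ c).1, fun c => ?_, fun c c' h => (hdis c c' h).mono (hs c) (hs c'),
    fun c j => ?_, fun y hy => ?_⟩
  · rw [hOm]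
    exact (hs c).trans (hsub c)
  · rw [Set.disjoint_left]
    intro y hy hy'
    refine Crest.Agent.R096.Eaa_748.brick_disj bf (c := j.1) (c' := c.1) ?_ (hV j y hy')
      (hin c y (hs c hy))
    intro e
    exact c.2 (e ▸ j.2)
  · rw [hOm] at hy
    obtain ⟨r, hr, hf⟩ := hlf y hy
    refine ⟨r, hr, hf.subset ?_⟩
    rintro c ⟨u, hu, hub⟩
    exact ⟨u, hs c hu, hub⟩

/-- **all data of the zones, before the mesh**: centres, radii, and for every mesh with rooms over the open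
bricks and every smaller radius function the inputs (Z) of 112's `pre_gen` -/
theorem exists_zones {p : ℝ} (hp : 1 ≤ p) (hO : IsOpen Om) (hLa : IsOpen La) {f : E3 → E3}
    {D : E3 → E3 →L[ℝ] E3} (hS : SH3 p Om La f D) (bf : BoxFoam La F δ κ0) (cmp : Cmp F R)
    (H : XD bf c0 X lam z) {κ1 : ℝ} (hκ1 : 0 < κ1) {η : {c : F // c ∉ X} → ℝ} (hη : ∀ c, 0 < η c) :
    ∃ (x₀ : {c : F // c ∉ X} → E3) (R₀ : {c : F // c ∉ X} → ℝ),
      (∀ c, x₀ c ∈ Om ∧ f (x₀ c) = z c.1) ∧ (∀ c, 0 < R₀ c) ∧ (∀ c, R₀ c ≤ η c) ∧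
      (∀ c, closedBall (x₀ c) (2 * R₀ c) ⊆ Om) ∧
      (∀ c, ∀ y ∈ closedBall (x₀ c) (2 * R₀ c), ∀ k, c.1.1.lo k < f y k ∧ f y k < c.1.1.hi k) ∧
      ∀ ρ : {c : F // c ∉ X} → ℝ, (∀ c, 0 < ρ c ∧ ρ c ≤ R₀ c) →
        InB (fX bf cmp H) f X x₀ ρ ∧
        (∀ c : {c : F // c ∉ X}, TinyLoc (fX bf cmp H) Om f κ1 c.1 (x₀ c) (ρ c)) ∧
        ∀ M : MD E3 3 X, M.φ = idE → M.D0.Om = Om →
          (∀ j : X, ∀ y ∈ M.V j, ∀ k, j.1.1.lo k < f y k ∧ f y k < j.1.1.hi k) →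
          ZBall M x₀ ρ := by
  obtain ⟨x₀, hx₀⟩ := exists_x0 hS.homeo H
  obtain ⟨R₀, a1, a2, a3, a4, a5, a6, a7⟩ := exists_R0 hp hO hLa hS bf cmp H hx₀ hκ1 hη
  refine ⟨x₀, R₀, hx₀, a1, a2, a3, a4, fun ρ hρ => ⟨(a7 ρ hρ).1, (a7 ρ hρ).2, ?_⟩⟩
  intro M hid hOm hV
  exact zball_of bf M hid hOm hV a3 a4 a5 a6 hρ

end Crest.Agent.R096.Pth_561
end
end

-- ▼ part R096/Pth3_561

/-!
# Row 96 (helper561): the zone fields of 112's `GenIn`

`exists_zd` : from `ZBall M x₀ ρ` and `TinyLoc` for all bricks off `X`: a record `Zd : ZD Φ.F X` and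
all (Z) fields of `GenIn` for the mesh data `zn Zb.zn Zd.k` (798).  `exists_zdX` : the same for 899's `fX`,
centres and radii included.
-/

set_option autoImplicit false
set_option linter.unusedSectionVars false
set_option linter.unusedVariables false
set_option linter.style.longLine false

open MeasureTheory Set Filter Topology Metric

noncomputable section

namespace Crest.Agent.R096.Pth_561

open Crest.Agent.R096.Bsp_628 Crest.Agent.R096.Brk5_582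
open Crest.Agent.R096.SkC1_961 (E3 Hom3 FoamD)
open Crest.Agent.R96.Push_899
open Crest.Agent.R96.EaP_899
open Crest.Agent.R096.Msh_715
open Crest.Agent.R096.Mal_874
open Crest.Agent.R096.Er_594 (SH3)
open Crest.Agent.R096.Tms_582 (TinyLoc Zones LocF idE)
open Crest.Agent.R96.Eam_466 (TLAt exists_tl InB locF_of_tl)
open Crest.Agent.R096.Zlt_798 (ZBall zn wz zn_Om)
open Crest.Agent.R096.Pgn_112 (ZD)

variable {δ κ0 Rc c0 : ℝ} {La Om : Set E3}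

/-- **all (Z) fields of `GenIn`** for a mesh with the zones `ZBall` -/
theorem exists_zd {Φ : FoamD δ κ0 Rc c0 La} {X : Set Φ.F} {M : MD E3 3 X}
    {x₀ : {c // c ∉ X} → E3} {ρ : {c // c ∉ X} → ℝ} (Zb : ZBall M x₀ ρ) (hOm : M.D0.Om = Om)
    {f : E3 → E3} {κ1 : ℝ} (htl : ∀ c : {c // c ∉ X}, TinyLoc Φ Om f κ1 c.1 (x₀ c) (ρ c))
    (kz1 : {c // c ∉ X} → ℕ) :
    ∃ Zd : ZD Φ.F X, Zd.x = x₀ ∧ Zd.R = ρ ∧ (∀ c, kz1 c ≤ Zd.k c) ∧
      (zn Zb.zn Zd.k).φ ⁻¹' (zn Zb.zn Zd.k).D0.Om = Om ∧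
      (∀ c, Zd.x c ∈ (zn Zb.zn Zd.k).φ ⁻¹' (zn Zb.zn Zd.k).D0.Om) ∧
      LocF Zd.x Zd.R Zd.k Zd.Zc Zd.H ∧
      (∀ c, TLAt Φ ((zn Zb.zn Zd.k).φ ⁻¹' (zn Zb.zn Zd.k).D0.Om) f κ1 c.1 (Zd.x c) (Zd.R c) (Zd.k c)
        (Zd.Zc c) (Zd.H c) (Zd.J0 c) (Zd.J c) (Zd.θ c) (Zd.φ c)) ∧
      (∃ kZ : X → ℕ, ∀ (k : X → ℕ) (hk : (zn Zb.zn Zd.k).Sc k), (∀ j, kZ j ≤ k j) →
        ∀ (a : E3) (v : X → E3) (hv : (zn Zb.zn Zd.k).Adm v),
          Zones ((zn Zb.zn Zd.k).mesh hk a hv) Zd.x Zd.R Zd.k (fun c => wz a (Zd.k c))) ∧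
      ∀ c j, Disjoint (closedBall (Zd.x c) (2 * Zd.R c)) ((zn Zb.zn Zd.k).V j) := by
  obtain ⟨kz0, hkz0⟩ := Crest.Agent.R096.Zlt_798.exists_zones Zb
  obtain ⟨kt, hkt⟩ := exists_tl (Φ := Φ) (X := X) htl
  set kz : {c // c ∉ X} → ℕ := fun c => max (kz1 c) (max (kz0 c) (kt c)) with hkz
  obtain ⟨Zc, κ, Hh, J0, J, θ, φ, h⟩ := hkt kz fun c => (le_max_right _ _).trans (le_max_right _ _)
  obtain ⟨kZ, hkZ⟩ := hkz0 kz fun c => (le_max_left _ _).trans (le_max_right _ _)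
  have hO' : (zn Zb.zn kz).φ ⁻¹' (zn Zb.zn kz).D0.Om = Om := by
    rw [zn_Om, hOm]
    show M.φ ⁻¹' Om = Om
    rw [Zb.id]
    rfl
  refine ⟨⟨x₀, ρ, kz, Zc, κ, Hh, J0, J, θ, φ⟩, rfl, rfl, fun c => le_max_left _ _, hO', fun c => ?_,
    locF_of_tl h, fun c => ?_, ⟨kZ, fun k hk hkk a v hv => ?_⟩, fun c j => Zb.disV c j⟩
  · show x₀ c ∈ (zn Zb.zn kz).φ ⁻¹' (zn Zb.zn kz).D0.Om
    rw [hO', ← hOm]
    exact Zb.sub c (mem_closedBall_self (by have := Zb.R0 c; linarith))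
  · show TLAt Φ ((zn Zb.zn kz).φ ⁻¹' (zn Zb.zn kz).D0.Om) f κ1 c.1 (x₀ c) (ρ c) (kz c) (Zc c) (Hh c)
      (J0 c) (J c) (θ c) (φ c)
    rw [hO']
    exact h c
  · obtain ⟨hk', hz⟩ := hkZ k hkk
    exact hz a v hv

/-- **all (Z) fields of `GenIn` for 899's `fX`**: centres, radii, and for every mesh data over the open
bricks the record `Zd` -/
theorem exists_zdX {F : Set (Bx (Fin 3))} {X : Set F} {lam : F → ℝ} {z : F → E3} {p : ℝ}
    (hp : 1 ≤ p) (hO : IsOpen Om) (hLa : IsOpen La) {f : E3 → E3}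
    {D : E3 → E3 →L[ℝ] E3} (hS : SH3 p Om La f D) (bf : BoxFoam La F δ κ0) (cmp : Cmp F Rc)
    (H : XD bf c0 X lam z) {κ1 : ℝ} (hκ1 : 0 < κ1) {η : {c : F // c ∉ X} → ℝ} (hη : ∀ c, 0 < η c) :
    ∃ (x₀ : {c : F // c ∉ X} → E3) (R₀ : {c : F // c ∉ X} → ℝ),
      (∀ c, x₀ c ∈ Om ∧ f (x₀ c) = z c.1) ∧ (∀ c, 0 < R₀ c) ∧ (∀ c, R₀ c ≤ η c) ∧
      (∀ c, closedBall (x₀ c) (2 * R₀ c) ⊆ Om) ∧
      (∀ c, ∀ y ∈ closedBall (x₀ c) (2 * R₀ c), ∀ k, c.1.1.lo k < f y k ∧ f y k < c.1.1.hi k) ∧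
      ∀ ρ : {c : F // c ∉ X} → ℝ, (∀ c, 0 < ρ c ∧ ρ c ≤ R₀ c) →
        InB (fX bf cmp H) f X x₀ ρ ∧
        ∀ M : MD E3 3 X, M.φ = idE → M.D0.Om = Om →
          (∀ j : X, ∀ y ∈ M.V j, ∀ k, j.1.1.lo k < f y k ∧ f y k < j.1.1.hi k) →
          ∃ Zb : ZBall M x₀ ρ, ∀ kz1 : {c : F // c ∉ X} → ℕ,
            ∃ Zd : ZD F X, Zd.x = x₀ ∧ Zd.R = ρ ∧ (∀ c, kz1 c ≤ Zd.k c) ∧
              (zn Zb.zn Zd.k).φ ⁻¹' (zn Zb.zn Zd.k).D0.Om = Om ∧
              (∀ c, Zd.x c ∈ (zn Zb.zn Zd.k).φ ⁻¹' (zn Zb.zn Zd.k).D0.Om) ∧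
              LocF Zd.x Zd.R Zd.k Zd.Zc Zd.H ∧
              (∀ c, TLAt (fX bf cmp H) ((zn Zb.zn Zd.k).φ ⁻¹' (zn Zb.zn Zd.k).D0.Om) f κ1 c.1
                (Zd.x c) (Zd.R c) (Zd.k c) (Zd.Zc c) (Zd.H c) (Zd.J0 c) (Zd.J c) (Zd.θ c)
                (Zd.φ c)) ∧
              (∃ kZ : X → ℕ, ∀ (k : X → ℕ) (hk : (zn Zb.zn Zd.k).Sc k), (∀ j, kZ j ≤ k j) →
                ∀ (a : E3) (v : X → E3) (hv : (zn Zb.zn Zd.k).Adm v),
                  Zones ((zn Zb.zn Zd.k).mesh hk a hv) Zd.x Zd.R Zd.k (fun c => wz a (Zd.k c))) ∧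
              ∀ c j, Disjoint (closedBall (Zd.x c) (2 * Zd.R c)) ((zn Zb.zn Zd.k).V j) := by
  obtain ⟨x₀, R₀, a1, a2, a3, a4, a5, a6⟩ := exists_zones hp hO hLa hS bf cmp H hκ1 hη
  refine ⟨x₀, R₀, a1, a2, a3, a4, a5, fun ρ hρ => ⟨(a6 ρ hρ).1, fun M hid hOm hV => ?_⟩⟩
  obtain ⟨b1, b2, b3⟩ := a6 ρ hρ
  exact ⟨b3 M hid hOm hV, fun kz1 => exists_zd (Φ := fX bf cmp H) (X := X) (b3 M hid hOm hV) hOm b2 kz1⟩

end Crest.Agent.R096.Pth_561
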