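import Crest.Agent.R096.Eaz1_663
import Crest.Agent.R096.Mdd10_360
import Crest.Agent.R096.Exg1_766
import Crest.Agent.R096.Eau3_365
import Crest.Agent.R096.Mon1_664
import Crest.Agent.R096.Pth3_561
import Crest.Agent.R96.Ea0g_348
import Crest.Agent.R096.Pgn6_112
import Crest.Agent.R096.Wd20_120
import Crest.Agent.R096.Enx1_766
import Crest.Agent.R096.Eau5_365
import Crest.Agent.R096.Mdd13_360
import Crest.Agent.R096.Ucm1_374
import Crest.Agent.R096.Pgn8_112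

-- ▼ part R096/Eax1_481
section

/-!
# Row 96 (S0127), EaX (helper481), part 1: the MESH DATA of `EaX` for 112's `pre_gen`

**`eax_data`** : the rooms `r` are chosen before the pre-translations `w0`; for every dyadic small `w0`
the mesh data with the blocks `(Q0 c).tr (w0 c)`, rational data, position of the rooms, and (B1)
(`Exact` and `FineX`) for every finer mesh data `M1`.
-/

set_option autoImplicit false
set_option linter.style.longLine false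
set_option linter.unusedSectionVars false
set_option linter.unusedVariables false

open MeasureTheory Set Filter Topology Metric
open scoped ENNReal NNReal

namespace Crest.Agent.R096.Eax_481

open Crest.Agent.R096.Bsp_628 Crest.Agent.R096.Brk5_582
open Crest.Agent.R096.SkC1_961 (E3 FoamD Hom3)
open Crest.Agent.R096.EaX_766 (cbx lin)
open Crest.Agent.R096.Bxs_627 (ctr CoriE fD zz)
open Crest.Agent.R096.Mal_874 Crest.Agent.R096.Msh_810 Crest.Agent.R096.Msh_715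
open Crest.Agent.R096.Fns_360
open Crest.Agent.R096.Mdd_360
open Crest.Agent.R096.Eaz_663
open Crest.Agent.R096.Exg_766 (XG)
open Crest.Agent.R096.Eau_365 (BkX)
open Crest.Agent.R96.EaP_899 (fX XD cm)
open Crest.Agent.R96.Eam_466 (OX FineX InB)
open Crest.Agent.R96.EaCore_348 (exact_mono)

noncomputable section

variable {La Om : Set E3} {f : E3 → E3} {F : Set (Bx (Fin 3))} {δ κ0 R : ℝ} {X : Set F}

/-- the final ratio of the core tiles -/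
abbrev lx {F : Set (Bx (Fin 3))} (θ : ℝ) (lam : F → ℝ) : F → ℝ := fun c => (1 + θ) * lam c

/-- **(B1) of 112's `GenIn`** for the mesh data `M` -/
def B1 {c0 : ℝ} (bf : BoxFoam La F δ κ0) (cmp : Cmp F R) {lam : F → ℝ} {zc : F → E3}
    (H : XD bf c0 X lam zc) (f : E3 → E3) (κm κ2m : ℝ) (A : F → E3 ≃ᵃ[ℝ] E3)
    (x : {c // c ∉ X} → E3) (Rz : {c // c ∉ X} → ℝ) (M : MD E3 3 X) : Prop :=
  ∀ {k : X → ℕ} (hk : M.Sc k) (a : Fin 3 → ℝ) {v : X → E3} (hv : M.Adm v)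
    {ct0 : F → M.OIx hk a hv ⊕ Σ j, M.IIx hk a hv j},
    (∀ c : X, ct0 c.1 = Sum.inr ⟨c, M.core hk a hv c⟩) →
    (∀ c : X, Mbf_337.Exact (fX bf cmp H) (M.mesh hk a hv) f κm κ2m c.1
      (Sum.inr ⟨c, M.core hk a hv c⟩) (trA (A c) (v c)) (lam c) (zz c.1.1 (lam c))) ∧
    FineX (fX bf cmp H) (M.mesh hk a hv) f κm X ct0 x Rz

/-- **mesh data of EaX** -/
theorem eax_data (hOm : IsOpen Om) (hLa : IsOpen La) (hf : Hom3 f Om La) (hδ : 0 < δ)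
    (hκ0 : 1 ≤ κ0) (hR : 0 < R) (bf : BoxFoam La F δ κ0) (cmp : Cmp F R)
    {p c0 κ1 κ2 κ3 κ4 κm κ1' lam2 θ κ τ1 τ u R0 : ℝ} {o : E3} {m Bn : ℕ}
    {D : E3 → E3 →L[ℝ] E3} {A : F → E3 ≃ᵃ[ℝ] E3} {lam : F → ℝ}
    (h2 : κ2 ≤ 1 / 4) (h1 : 0 ≤ κ1) (hKC : KC δ κ0 R c0 (κ2 / 2) lam2 κm κ) (hlam2 : lam2 < 1)
    (hτ1 : 0 ≤ τ1) (hτ : 0 < τ) (hκs : κ1 + τ1 + τ ≤ κ) (h34 : κ4 + τ1 < κ3)
    (hm : 0 < m) (hR1 : 1 ≤ R0) (hB1 : 1 ≤ Bn) (hη : R0 / (2 * m) ≤ κ)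
    (hlam : ∀ c ∈ X, (1 + θ) * lam c ≤ lam2)
    (G : XG p Om f D o u κ0 κ1 κ2 κ3 κ1' θ F X A lam) {Q0 : F → CB E3 3}
    (hB : ∀ c ∈ X, BkX F c (A c) ((1 + θ) * lam c) κ4 m Bn R0 (Q0 c))
    {zc : F → E3} (H : XD bf c0 X (lx θ lam) zc)
    {fi : E3 → E3} (hfi : ∀ y ∈ Om, fi (f y) = y) (hfic : ContinuousOn fi La)
    {x : {c // c ∉ X} → E3} {Rz : {c // c ∉ X} → ℝ}
    (hx : ∀ c, x c ∈ Om ∧ f (x c) = zc c.1 ∧ 0 < Rz c) :
    ∃ r : X → ℝ, (∀ c, 0 < r c) ∧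
      (∀ (c : X) (v : E3), ‖v‖ ≤ r c → ‖lin (A c) v‖ ≤ τ * ((1 + θ) * lam c * c.1.1.sz) ∧
        ∀ k, |lin (A c) v k| ≤ τ * ((1 + θ) * lam c * c.1.1.side k)) ∧
      ∀ w0 : F → E3,
        (∀ c ∈ X, ∃ κ : ℕ, w0 c ∈ Crest.Agent.R96.Gj_872.Dy (ContinuousLinearEquiv.refl ℝ E3) κ) →
        (∀ c ∈ X, ‖lin (A c) (w0 c)‖ ≤ τ1 * ((1 + θ) * lam c * c.1.sz) ∧
          ∀ k, |lin (A c) (w0 c) k| ≤ τ1 * ((1 + θ) * lam c * c.1.side k)) →
        ∃ (M' : MD E3 3 X) (Y : RD M') (κd : X → ℕ),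
          M'.φ = ContinuousLinearEquiv.refl ℝ E3 ∧ M'.D0.Om = Om ∧ M'.D0.C = 6 ∧
          (∀ y, M'.D0.ρ y ≤ 1) ∧ (M'.Q = fun c => (Q0 c.1).tr (w0 c.1)) ∧ M'.r = r ∧
          (∀ j, Y.B j = Bn) ∧ (∀ j, Y.R j = R0) ∧
          (∀ j m, ∃ c : ℤ, 2 ^ κd j * (Y.d j : ℝ) * (M'.Q j).a' m = c) ∧
          (∀ c : X, cthickening (M'.r c) (M'.Q c).N ⊆
            A c ⁻¹' cbx c.1.1 ((1 + 2 * κ3) * ((1 + θ) * lam c))) ∧
          (∀ c : X, ∀ y ∈ M'.V c, y ∈ Om ∧ (∀ k, c.1.1.lo k < f y k ∧ f y k < c.1.1.hi k) ∧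
            ‖f y - A c y‖ ≤ κ1 * ((1 + θ) * lam c * c.1.1.sz)) ∧
          ∀ M1 : MD E3 3 X, Finer M' M1 → ∀ Y1 : RD M1, (∀ j, Y1.R j = R0) →
            B1 bf cmp H f κm (κ2 / 2) (fun c => trA (A c) (w0 c)) x Rz M1 := by
  have hf1 : ContinuousOn f Om ∧ MapsTo f Om La := by
    obtain ⟨g, h1, h2, h3, h4, h5, h6⟩ := hf
    exact ⟨h5, h1⟩
  have hκp := hKC.pos
  have hκm : 0 < κm := by linarith [hKC.m]
  have hlp := G.lpos
  obtain ⟨D0, hD1, hD2, hD3, hD4, hD5⟩ := exists_DatX hOm hLa hδ hR bf cmp H hf1.2 hf1.1 hfi hfic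
    hx hκm (σ := fun _ => 1) (fun y y' => by have := dist_nonneg (x := y) (y := y'); linarith)
    (fun _ => zero_le_one) (fun _ _ => one_pos) (C := 6) (by norm_num) 0
  obtain ⟨r, hr0, hr1, hr2, hr3, hr⟩ := md_genU hOm hf bf (b := fun c : X => c.1)
    Subtype.val_injective (A := fun c : X => A c) (lam := fun c : X => (1 + θ) * lam c)
    (fun c => hlp c c.2) (κ1 := κ1) (κ2 := κ3) (κ3 := κ4 + τ1) (τ := τ) h34 h1 hτ
    (fun c => G.gap3 c c.2) (fun c => G.cor3 c c.2) (D0 := D0) hD3 (by rw [hD1])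
    (η := fun _ => 1) (fun _ => one_pos)
  refine ⟨r, hr0, hr2, fun w0 hw0 hw => ?_⟩
  obtain ⟨M', g1, g2, g3, g4, g5, g6⟩ := hr (fun c : X => (Q0 c.1).tr (w0 c.1)) fun c =>
    n_tr_cbx (hB c c.2).N fun k => ((hw c c.2).2 k).trans (le_of_eq (by ring))
  have hOm' : M'.D0.Om = Om := by rw [g2, hD3]
  -- rational data
  choose Bm d hd hRt ha using fun c : X => (hB c c.2).rt
  choose κd hκd using fun c : X => hw0 c c.2
  choose cn hcn1 hcn2 using fun j : X => exists_cn M'.φ ((Q0 j.1).ψ)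
  obtain ⟨Y, hY1, hY2, hY3, hY4, hY5, hY6⟩ := exists_RD_tr M' (Q0 := fun c : X => Q0 c.1)
    (w0 := fun c : X => w0 c.1) g3 (κ0 := fun _ => 0) (κ := κd) (fun _ => Nat.zero_le _)
    (Bm := Bm) (d := d) hd (fun c => by rw [g1]; exact hRt c)
    (fun c l => by
      obtain ⟨z, hz⟩ := ha c l
      exact ⟨z, by rw [pow_zero, one_mul]; exact hz⟩)
    (fun c l => by rw [g1]; exact hκd c l) (fun _ => Bn) (fun _ => hB1)
    (fun c => (hB c c.2).bnd) (fun _ => R0) (fun _ => hR1) (fun c => (hB c c.2).size) hcn1 hcn2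
  -- the rooms
  have hV : ∀ c : X, ∀ y ∈ M'.V c, y ∈ A c ⁻¹' cbx c.1.1 ((1 + 2 * κ3) * ((1 + θ) * lam c)) := by
    intro c y hy
    have h9 : y ∈ cthickening (M'.r c) (M'.φ '' (M'.Q c).N) := hy
    rw [g1, refl_image] at h9
    exact g6 c h9
  have himg0 : ∀ (c : X), ∀ y ∈ A c ⁻¹' cbx c.1.1 ((1 + 2 * κ3) * ((1 + θ) * lam c)),
      y ∈ Om ∧ (∀ k, c.1.1.lo k < f y k ∧ f y k < c.1.1.hi k) ∧
        ‖f y - A c y‖ ≤ κ1 * ((1 + θ) * lam c * c.1.1.sz) := by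
    intro c y hy
    refine ⟨G.vsub c c.2 hy, G.vimg c c.2 y hy, (G.cor3 c c.2 y (Or.inr fun i => ?_)).2⟩
    exact (hy i).trans (le_of_eq (by ring))
  refine ⟨M', Y, κd, g1, hOm', by rw [g2, hD1], fun y => by rw [g2]; exact hD4 y, g3, g4,
    fun j => by rw [hY4], fun j => by rw [hY5], hY6, g6, fun c y hy => himg0 c y (hV c y hy), ?_⟩
  intro M1 hF1 Y1 hY1R k hkS a v hv ct0 hct0
  have hφ1 : M1.φ = ContinuousLinearEquiv.refl ℝ E3 := by rw [hF1.φ, g1]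
  have hQ1 : M1.Q = fun c : X => (Q0 c.1).tr (w0 c.1) := by rw [hF1.Q, g3]
  have hO1 : M1.φ ⁻¹' M1.D0.Om = Om := by
    rw [hφ1, hF1.Om, hOm']
    rfl
  have himg : Img M1 Om f A (lx θ lam) κ1 := by
    intro c y hy
    rw [hF1.r, hF1.Q] at hy
    obtain ⟨h10, h11, h12⟩ := himg0 c y (g6 c hy)
    exact ⟨h10, Bx.mem_set.2 fun i => ⟨(h11 i).1.le, (h11 i).2.le⟩, h12⟩
  have hsm : Sm M1 A (lx θ lam) τ := by
    intro c v hv
    rw [hF1.r, g4] at hv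
    exact hr2 c v hv
  have himg' := img_tr himg (w0 := w0) (τ := τ1) fun c => (hw c c.2).1
  have hsm' := sm_tr hsm w0
  have hcor' : ∀ c ∈ X, CoriE Om f (trA (A c) (w0 c)) c.1 (lx θ lam c) (κ1 + τ1)
      (3 / 4 * κ2 - τ1) := fun c hc => cor_tr' (G.cor c hc) (by
        have h9 := (hw c hc).1
        have e : κ1 + τ1 - κ1 = τ1 := by ring
        rw [e]
        exact h9) (fun k => by
        have h9 := (hw c hc).2 k
        have e : 3 / 4 * κ2 - (3 / 4 * κ2 - τ1) = τ1 := by ring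
        rw [e]
        exact h9)
  have hFin : ∀ y ∈ Om, FineS (fX bf cmp H) f κm (closedBall y (M1.D0.ρ y) ∩
      (Om ∩ offO f (OX X (lx θ lam) La fi x fun c => Rz c / 2))) := by
    intro y hy
    obtain ⟨-, h10⟩ := hD5 y hy
    refine h10.mono (inter_subset_inter_left _ (closedBall_subset_closedBall ?_))
    have h11 := hF1.ρ y
    rw [g2] at h11
    exact h11
  have hlx : ∀ c ∈ X, lx θ lam c ≤ lam2 := hlam
  have hm' : (0:ℝ) < m := by exact_mod_cast hm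
  have huA : ∀ c : X, ∃ uA : ℝ, 0 ≤ uA ∧ uA ≤ 4 / m * (lx θ lam c * c.1.1.sz) ∧
      ∀ x y, ‖A c y - A c x‖ ≤ uA * dist ((Q0 c.1).ψ x) ((Q0 c.1).ψ y) := fun c =>
    (hB c c.2).exists_uA hm
  choose uA hu0 hu1 hu2 using huA
  obtain ⟨hE, hFx⟩ := b1_gen hLa hδ hR bf cmp H hfi (κ1 := κ1 + τ1) (κ2 := 3 / 4 * κ2 - τ1)
    (τ := τ) (η := κ) (ε := κm) (by linarith) hτ.le (by linarith [hKC.k2]) (by linarith) (by
      have h9 := hKC.k8
      have h10 : (κ1 + τ1 + τ) * κ0 ≤ κ * κ0 := mul_le_mul_of_nonneg_right hκs (by linarith)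
      linarith) (fun c hc => by
      have h9 := hKC.lam
      have h10 : (κ1 + τ1 + τ) * κ0 ≤ κ * κ0 := mul_le_mul_of_nonneg_right hκs (by linarith)
      have h11 := hlx c hc
      have h12 := hlp c hc
      have h13 : (1 + 2 * ((κ1 + τ1 + τ) * κ0)) * lx θ lam c ≤ (1 + (1 - lam2) / 8) * lx θ lam c :=
        mul_le_mul_of_nonneg_right (by linarith) h12.le
      have h14 : (1 + (1 - lam2) / 8) * lx θ lam c ≤ (1 + (1 - lam2) / 8) * lam2 :=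
        mul_le_mul_of_nonneg_left h11 (by linarith)
      nlinarith) (A := fun c => trA (A c) (w0 c)) hcor' M1 hφ1 hO1 (fun c => by
        rw [hQ1]
        exact kc_tr (hB c c.2).Kc (w0 c)) himg' hsm' Y1
    (uA := uA) hu0 (fun c x y => by
        rw [hQ1]
        exact uA_tr (hu2 c) (w0 c) x y) (fun c => by
        rw [hY1R, hQ1]
        show uA c * (R0 / 2 ^ (Q0 c.1).kc) ≤ κ * c.1.1.sz
        rw [(hB c c.2).kc]
        have hs := Bx.sz_pos (bf.pos _ c.1.2)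
        have hl1 : lx θ lam c < 1 := H.hl1 c.1 c.2
        have h12 := hlp c c.2
        have h9 : uA c * (R0 / 2 ^ 3) ≤ 4 / m * (lx θ lam c * c.1.1.sz) * (R0 / 2 ^ 3) :=
          mul_le_mul_of_nonneg_right (hu1 c) (by positivity)
        have h10 : 4 / m * (lx θ lam c * c.1.1.sz) * (R0 / 2 ^ 3) =
            R0 / (2 * m) * (lx θ lam c * c.1.1.sz) := by
          field_simp
          ring
        have h11 : lx θ lam c * c.1.1.sz ≤ c.1.1.sz := by nlinarith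
        have h13 : R0 / (2 * m) * (lx θ lam c * c.1.1.sz) ≤ κ * c.1.1.sz :=
          mul_le_mul hη h11 (mul_nonneg h12.le hs.le) hκp.le
        linarith) (by
        have h9 := hKC.KI
        have h10 : Fns_360.KI δ κ0 R (cm κ0 c0) * (κ + 2 * (κ1 + τ1 + τ)) ≤
            |Fns_360.KI δ κ0 R (cm κ0 c0)| * (5 * κ) :=
          mul_le_mul (le_abs_self _) (by linarith) (by linarith) (abs_nonneg _)
        linarith) hFin hkS a hv hct0
  refine ⟨fun c => ?_, hFx⟩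
  have h9 := hE c
  have h10 := hKC.m
  have h11 := hKC.k2
  exact Crest.Agent.R096.Mon_664.exact_mono h9 (by linarith) (by linarith)

end

end Crest.Agent.R096.Eax_481
end

-- ▼ part R096/Eax2_481
section

/-!
# Row 96 (S0127), EaX (helper481), part 2: all geometric fields of 112's `GenIn` for EaX

**`eax_gen`** : `eax_data` + 561's zones: for every dyadic small pre-translation `w0` the mesh data
`M := zn ..`, rational data, zones `Zd`, and `GenIn` from good sets, words (B2) and energies (B3).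
-/

set_option autoImplicit false
set_option linter.style.longLine false
set_option linter.unusedSectionVars false
set_option linter.unusedVariables false

open MeasureTheory Set Filter Topology Metric
open scoped ENNReal NNReal

namespace Crest.Agent.R096.Eax_481

open Crest.Agent.R096.Bsp_628 Crest.Agent.R096.Brk5_582
open Crest.Agent.R096.SkC1_961 (E3 FoamD Hom3)
open Crest.Agent.R096.Er_594 (SH3)
open Crest.Agent.R096.EaX_766 (cbx lin)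
open Crest.Agent.R096.Bxs_627 (ctr CoriE fD zz)
open Crest.Agent.R096.Mal_874 Crest.Agent.R096.Msh_810 Crest.Agent.R096.Msh_715
open Crest.Agent.R096.Fns_360
open Crest.Agent.R096.Mdd_360
open Crest.Agent.R096.Mbf_337 (Cores)
open Crest.Agent.R096.Mfa_880 (BxM QU)
open Crest.Agent.R096.Eaz_663
open Crest.Agent.R096.Exg_766 (XG)
open Crest.Agent.R096.Eau_365 (BkX)
open Crest.Agent.R096.Pgn_112 (ZD GenIn WordsOk)
open Crest.Agent.R096.Pmc_112 (Gd')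
open Crest.Agent.R096.Wd_120 (CoreAt)
open Crest.Agent.R096.Zlt_798 (ZBall zn znRD)
open Crest.Agent.R96.Pm_199 (Dec)
open Crest.Agent.R96.EaP_899 (fX XD cm)
open Crest.Agent.R96.Eam_466 (OX FineX InB)

noncomputable section

variable {La Om : Set E3} {f : E3 → E3} {F : Set (Bx (Fin 3))} {δ κ0 R : ℝ} {X : Set F}

/-- **the geometric fields of `GenIn` for EaX** -/
theorem eax_gen {p : ℝ} {D : E3 → E3 →L[ℝ] E3} (hp : 1 ≤ p) (hOm : IsOpen Om) (hLa : IsOpen La)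
    (hSH : SH3 p Om La f D) (hδ : 0 < δ)
    (hκ0 : 1 ≤ κ0) (hR : 0 < R) (bf : BoxFoam La F δ κ0) (cmp : Cmp F R)
    {c0 κ1 κ2 κ3 κ4 κm κ1' lam2 θ κ τ1 τ u R0 : ℝ} {o : E3} {m Bn : ℕ}
    {A : F → E3 ≃ᵃ[ℝ] E3} {lam : F → ℝ}
    (h2 : κ2 ≤ 1 / 4) (h1 : 0 ≤ κ1) (hKC : KC δ κ0 R c0 (κ2 / 2) lam2 κm κ) (hlam2 : lam2 < 1)
    (hτ1 : 0 ≤ τ1) (hτ : 0 < τ) (hκs : κ1 + τ1 + τ ≤ κ) (h34 : κ4 + τ1 < κ3)
    (hm : 0 < m) (hR1 : 1 ≤ R0) (hB1 : 1 ≤ Bn) (hη : R0 / (2 * m) ≤ κ)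
    (hlam : ∀ c ∈ X, (1 + θ) * lam c ≤ lam2)
    (G : XG p Om f D o u κ0 κ1 κ2 κ3 κ1' θ F X A lam) {Q0 : F → CB E3 3}
    (hB : ∀ c ∈ X, BkX F c (A c) ((1 + θ) * lam c) κ4 m Bn R0 (Q0 c))
    {zc : F → E3} (H : XD bf c0 X (lx θ lam) zc) :
    ∃ (x : {c // c ∉ X} → E3) (Rz : {c // c ∉ X} → ℝ), InB (fX bf cmp H) f X x Rz ∧
      (∀ c, 0 < Rz c) ∧
    ∃ r : X → ℝ, (∀ c, 0 < r c) ∧
      (∀ (c : X) (v : E3), ‖v‖ ≤ r c → ‖lin (A c) v‖ ≤ τ * ((1 + θ) * lam c * c.1.1.sz) ∧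
        ∀ k, |lin (A c) v k| ≤ τ * ((1 + θ) * lam c * c.1.1.side k)) ∧
      ∀ w0 : F → E3,
        (∀ c ∈ X, ∃ κ : ℕ, w0 c ∈ Crest.Agent.R96.Gj_872.Dy (ContinuousLinearEquiv.refl ℝ E3) κ) →
        (∀ c ∈ X, ‖lin (A c) (w0 c)‖ ≤ τ1 * ((1 + θ) * lam c * c.1.sz) ∧
          ∀ k, |lin (A c) (w0 c) k| ≤ τ1 * ((1 + θ) * lam c * c.1.side k)) →
        ∃ (M : MD E3 3 X) (Y : RD M) (κd : X → ℕ) (Zd : ZD F X),
          M.φ = ContinuousLinearEquiv.refl ℝ E3 ∧ M.φ ⁻¹' M.D0.Om = Om ∧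
          (M.Q = fun c => (Q0 c.1).tr (w0 c.1)) ∧ M.r = r ∧
          (∀ j, Y.B j = Bn) ∧ (∀ j, Y.R j = R0) ∧ Zd.x = x ∧ Zd.R = Rz ∧
          (∀ c : X, cthickening (M.r c) (M.Q c).N ⊆
            A c ⁻¹' cbx c.1.1 ((1 + 2 * κ3) * ((1 + θ) * lam c))) ∧
          (∀ c : X, ∀ v : E3, ‖v‖ ≤ r c → ∀ y ∈ ((M.Q c).tr v).N, y ∈ Om ∧
            (∀ k, c.1.1.lo k < f y k ∧ f y k < c.1.1.hi k) ∧
            ‖f y - A c y‖ ≤ κ1 * ((1 + θ) * lam c * c.1.1.sz)) ∧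
          ∀ (q κp : ℝ) (D' : E3 → E3 →L[ℝ] E3) (Mc : F → ℕ) (k0 : X → ℕ)
            (hk0 : ∀ j, (M.Q j).kc ≤ k0 j) (Gd : X → Set E3)
            (wt : ∀ j : X, Mfi_290.Pt (M.Q j) ⊕ ℕ → ℝ≥0∞) (B : X → ℝ≥0∞),
            (∀ j, ∀ v ∈ Gd j, ‖v‖ ≤ r j) → (∀ j, MeasurableSet (Gd j)) →
            (∀ j, volume (Gd j) ≠ 0) →
            (∀ v : X → E3, (∀ j, v j ∈ Gd j) → ∀ D0 : Dec (M.φ ⁻¹' M.D0.Om) F,
              Cores (fX bf cmp H) D0.T f κm (κ2 / 2) X D0.J0 D0.J D0.V D0.ct D0.A D0.lam D0.z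
                D0.θ D0.φ →
              (∀ c : X, D0.lam c = lx θ lam c ∧ D0.z c = zz c.1.1 (lx θ lam c) ∧
                D0.A c = trA (trA (A c) (w0 c)) (v c) ∧ D0.M c = Mc c ∧
                CoreAt D0.T (D0.ct c) ((M.Q c).tr (v c))) →
              WordsOk (fX bf cmp H) f κp (κp / 64) X D0) →
            (∀ j, ∀ s ∈ Gd j, ∑' c, wt j c * (QU M Y k0 hk0 j).EnC (Gd' D') q c s ≤ B j) →
            GenIn (fX bf cmp H) f D' q κp κm (κ2 / 2) X (fun c => trA (A c) (w0 c)) (lx θ lam)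
              (fun c => zz c.1 (lx θ lam c)) Mc M Y k0 hk0 κd (BxM M) Gd wt B Zd := by
  have hf : Hom3 f Om La := hSH.homeo
  have hκm : 0 < κm := by linarith [hKC.m, hKC.pos]
  have hf' := hf
  obtain ⟨fi, f1, f2, f3, f4, f5, f6⟩ := hf'
  obtain ⟨x, Rz, a1, a2, -, a4, a5, a6⟩ := Pth_561.exists_zdX (p := p) hp hOm hLa hSH bf cmp H hκm
    (η := fun _ => 1) (fun _ => one_pos)
  obtain ⟨b1, b2⟩ := a6 Rz fun c => ⟨a2 c, le_rfl⟩
  obtain ⟨r, hr0, hr1, hr⟩ := eax_data hOm hLa hf hδ hκ0 hR bf cmp h2 h1 hKC hlam2 hτ1 hτ hκs h34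
    hm hR1 hB1 hη hlam G hB H (fi := fi) f3 f6
    (x := x) (Rz := Rz) fun c => ⟨(a1 c).1, (a1 c).2, a2 c⟩
  refine ⟨x, Rz, b1, a2, r, hr0, hr1, fun w0 hw0 hw => ?_⟩
  obtain ⟨M', Y, κd, g1, g2, g3, g4, g5, g6, g7, g8, g9, g10, g11, g12⟩ := hr w0 hw0 hw
  obtain ⟨Zb, hZb⟩ := b2 M' g1 g2 fun j y hy => (g11 j y hy).2.1
  obtain ⟨Zd, e1, e2, -, e4, e5, e6, e7, e8, e9⟩ := hZb fun _ => 0
  refine ⟨zn Zb.zn Zd.k, znRD Zb.zn Zd.k Y, κd, Zd, g1, e4, g5, g6, g7, g8, e1, e2, g10, ?_, ?_⟩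
  · intro c v hv y hy
    refine g11 c y ?_
    show y ∈ cthickening (M'.r c) (M'.φ '' (M'.Q c).N)
    rw [g1, refl_image]
    have hy' : y - v ∈ (M'.Q c).N := ((M'.Q c).mem_N_tr v y).1 hy
    refine mem_cthickening_of_dist_le y (y - v) _ _ hy' ?_
    rw [dist_eq_norm, sub_sub_cancel, g6]
    exact hv
  · intro q κp D' Mc k0 hk0 Gd wt B h3 h4 h5 h6 h7
    have key : B1 bf cmp H f κm (κ2 / 2) (fun c => trA (A c) (w0 c)) x Rz (zn Zb.zn Zd.k) :=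
      g12 (zn Zb.zn Zd.k) (finer_zn Zb.zn Zd.k) (znRD Zb.zn Zd.k Y) g8
    refine
      { φ := g1
        Bxs := fun j => Subset.rfl
        Gds := fun j v hv => ?_
        Gdm := h4
        Gd0 := h5
        h0 := g9
        ex := fun k hk a v hv _ c => ?_
        fine := fun k hk a v hv _ ct0 hct0 => ?_
        words := h6
        en := h7
        xO := e5
        LF := e6
        tl := e7
        Z := e8
        dis := e9 }
    · show ‖M'.φ v‖ ≤ M'.r j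
      rw [g1, g6]
      exact h3 j v hv
    · classical
      refine (key hk a hv (ct0 := fun c' => if h : c' ∈ X then
        Sum.inr ⟨⟨c', h⟩, (zn Zb.zn Zd.k).core hk a hv ⟨c', h⟩⟩ else
        Sum.inr ⟨c, (zn Zb.zn Zd.k).core hk a hv c⟩) fun c' => ?_).1 c
      exact dif_pos c'.2
    · rw [e1, e2]
      exact (key hk a hv hct0).2

end

end Crest.Agent.R096.Eax_481
end

-- ▼ part R096/Eax3_481
section

/-!
# Row 96 (S0127), EaX (helper481), part 3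

* **`words_eax`** : the words clause (B2) of 112's `GenIn` for the pre-translated blocks (120's `b2_goodC`);
* **`preMesh_gen`** : 112's `GenOut` ⟹ 365's `PreMesh`.
-/

set_option autoImplicit false
set_option linter.style.longLine false
set_option linter.unusedSectionVars false
set_option linter.unusedVariables false

open MeasureTheory Set Filter Topology Metric
open scoped ENNReal NNReal

namespace Crest.Agent.R096.Eax_481

open Crest.Agent.R096.Bsp_628 Crest.Agent.R096.Brk5_582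
open Crest.Agent.R096.SkC1_961 (E3 FoamD Hom3)
open Crest.Agent.R096.Er_594 (SH3)
open Crest.Agent.R096.EaX_766 (cbx lin)
open Crest.Agent.R096.Exa_365 (GoodW)
open Crest.Agent.R096.Bxs_627 (ctr CoriE fD zz)
open Crest.Agent.R096.Mal_874 Crest.Agent.R096.Msh_810 Crest.Agent.R096.Msh_715
open Crest.Agent.R096.Ls_222 (eIn ea ev)
open Crest.Agent.R096.Fns_360
open Crest.Agent.R096.Mdd_360
open Crest.Agent.R096.Mbf_337 (Cores)
open Crest.Agent.R096.Mfa_880 (BxM QU NmB)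
open Crest.Agent.R096.Acc_365 (K2)
open Crest.Agent.R096.Eau_365 (BkX PreMesh Jx Tx)
open Crest.Agent.R096.Pgn_112 (ZD GenIn GenOut WordsOk COu)
open Crest.Agent.R096.Pmc_112 (Gd' Kl)
open Crest.Agent.R096.Wd_120 (CoreAt b2_goodC)
open Crest.Agent.R96.Pm_199 (Dec)
open Crest.Agent.R96.EaP_899 (fX XD cm)
open Crest.Agent.R96.Eam_466 (InB)

noncomputable section

/-- **(B2) for EaX** -/
theorem words_eax {δ κ0 R : ℝ} (hδ : 0 < δ) (hκ : 1 ≤ κ0) (hR : 1 ≤ R) {κp lam0 lam1 : ℝ}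
    (hκp : 0 < κp) (hl0 : 0 < lam0) (hl1 : lam1 < 1) {m : ℕ} (hm : 0 < m) :
    ∃ κw : ℝ, 0 < κw ∧ ∀ (La Om : Set E3), IsOpen La → ∀ (F : Set (Bx (Fin 3)))
      (bf : BoxFoam La F δ κ0) (cmp : Cmp F R) (c0 : ℝ) (X : Set F) (lam : F → ℝ) (zc : F → E3)
      (H : XD bf c0 X lam zc) (f : E3 → E3) (p : ℝ), 1 ≤ p → ContinuousOn f Om →
      ∀ (D : E3 → E3 →L[ℝ] E3) (κm κ2m : ℝ), 0 ≤ κ2m → (∀ c ∈ X, lam0 ≤ lam c ∧ lam c ≤ lam1) →
      ∀ (A : F → E3 ≃ᵃ[ℝ] E3) (κ4 : ℝ) (Bn : ℕ) (R0 : ℝ) (Q0 : F → CB E3 3),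
      (∀ c ∈ X, BkX F c (A c) (lam c) κ4 m Bn R0 (Q0 c)) →
      ∀ (k0 : X → ℕ) (hk : ∀ c : X, (Q0 c.1).kc ≤ k0 c) (η : ℝ≥0∞), η ≠ ∞ →
      (η ^ (1 / p)).toReal ≤ κw →
      ∀ (w0 : F → E3) (M : MD E3 3 X), M.φ ⁻¹' M.D0.Om = Om →
      (M.Q = fun c => (Q0 c.1).tr (w0 c.1)) → ∀ (Gd : X → Set E3),
      (∀ c : X, ∀ v ∈ Gd c, GoodW p Om f D (A c)
        (fun e : {e // e ∈ eIn ((Q0 c.1).T (k0 c) (hk c)) ((Q0 c.1).cix (k0 c) (hk c))} => ea e.1)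
        (fun e => ev e.1) η (w0 c + v)) →
      (∀ c : X, ∀ v ∈ Gd c, ∀ y ∈ ((M.Q c).tr v).N,
        ‖f y - A c y‖ + ‖lin (A c) (w0 c + v)‖ ≤ κw * (lam c * c.1.1.sz)) →
      ∀ v : X → E3, (∀ j, v j ∈ Gd j) → ∀ D0 : Dec (M.φ ⁻¹' M.D0.Om) F,
        Cores (fX bf cmp H) D0.T f κm κ2m X D0.J0 D0.J D0.V D0.ct D0.A D0.lam D0.z D0.θ D0.φ →
        (∀ c : X, D0.lam c = lam c ∧ D0.z c = zz c.1.1 (lam c) ∧
          D0.A c = trA (trA (A c) (w0 c)) (v c) ∧ D0.M c = m ∧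
          CoreAt D0.T (D0.ct c) ((M.Q c).tr (v c))) →
        WordsOk (fX bf cmp H) f κp (κp / 64) X D0 := by
  obtain ⟨κw, hκw, HH⟩ := b2_goodC hδ hκ hR (κp := κp) hκp hl0 hl1 m
  refine ⟨κw, hκw, ?_⟩
  intro La Om hLa F bf cmp c0 X lam zc H f p hp hf D κm κ2m hκ2 hlam A κ4 Bn R0 Q0 hB k0 hk η hη hηw
    w0 M hO hQ Gd hG hcl v hv D0 hC hD
  subst hO
  refine HH La _ hLa F bf cmp c0 X lam zc H f p hp hf D κm κ2m (κp / 64) hκ2 (by positivity)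
    (fun c : X => Q0 c.1) k0 hk (fun c => A c) (fun c => w0 c + v c) (fun _ => m) η hlam
    (fun _ => le_rfl) (fun c => ⟨hm, (hB c c.2).grid (k0 c) (hk c)⟩) hη hηw
    (fun c => hG c (v c) (hv c)) D0 hC (fun c => ?_) (fun c x hx hxi => ?_)
  · obtain ⟨g1, g2, g3, g4, g5⟩ := hD c
    rw [hQ] at g5
    have g5' : CoreAt D0.T (D0.ct c) (((Q0 c.1).tr (w0 c.1)).tr (v c)) := g5
    rw [tr_tr] at g5'
    rw [trA_trA] at g3
    exact ⟨g1, g2, g3, g4, g5'⟩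
  · obtain ⟨g1, g2, g3, g4, g5⟩ := hD c
    have h1 : x ∈ ((M.Q c).tr (v c)).N := by
      rw [g5.tile] at hx
      exact Crest.Agent.R096.Pgn_112.Kc_sub_N _ hx
    have h2 := hcl c (v c) (hv c) x h1
    rw [g3, trA_trA]
    have e : f x - trA (A c) (w0 c + v c) x = (f x - A c x) + (A c).linear (w0 c + v c) := by
      rw [← trA_sub (A c) (w0 c + v c) x]; abel
    rw [e]
    exact (norm_add_le _ _).trans h2

variable {δ κ0 R c0 : ℝ} {La : Set E3} {F : Set (Bx (Fin 3))}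


/-- closeness to the translated map over the translated block -/
theorem hcl_of {Om : Set E3} {f : E3 → E3} {A : E3 ≃ᵃ[ℝ] E3} {a b c s : ℝ} {w v y : E3}
    (h1 : ‖f y - A y‖ ≤ a * s) (h2 : ‖lin A w‖ ≤ b * s) (h3 : ‖lin A v‖ ≤ c * s) :
    ‖f y - A y‖ + ‖lin A (w + v)‖ ≤ (a + b + c) * s := by
  rw [map_add]
  have := norm_add_le (lin A w) (lin A v)
  linarith

/-- **112's `GenOut` ⟹ `PreMesh`** -/
theorem preMesh_gen {bf : BoxFoam La F δ κ0} {cmp : Cmp F R} {p : ℝ} {C : Set (Set E3) → ℝ}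
    {κp κe κ1 κ2 θ : ℝ} {Om : Set E3} {f : E3 → E3} {D D' : E3 → E3 →L[ℝ] E3} {X : Set F}
    {A : F → E3 ≃ᵃ[ℝ] E3} {lam : F → ℝ} {Q0 : F → CB E3 3} {C1 : ℝ≥0} {E : ℝ} {ε ε' : ℝ≥0∞}
    {Bx Gd : X → Set E3} {z : F → E3} {H : XD bf c0 X (lx θ lam) z} {B : X → ℝ≥0∞}
    {εb : X → ℝ≥0∞} {zc : F → E3} {Mc : F → ℕ} {M : MD E3 3 X} {Zd : ZD F X} {Cs : ℝ}
    {w0 : F → E3} (hκe : κe ≤ κ1) (hpX : p < 3 ∨ X = univ)
    (hQ : M.Q = fun c => (Q0 c.1).tr (w0 c.1))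
    (hcore : ∀ c ∈ X, (Q0 c).Kc = A c ⁻¹' cbx c.1 ((1 + θ) * lam c))
    (hsh : ∀ c : X, ∀ v ∈ Gd c, ∀ k,
      |lin (A c) (w0 c + v) k| ≤ θ * (lam c * c.1.1.side k) / 2)
    (hInB : InB (fX bf cmp H) f X Zd.x Zd.R) (hR : ∀ c, 0 < Zd.R c)
    (hE : ∀ x : ℝ≥0∞, x ≤ (ENNReal.ofReal Cs * Kl δ R) ^ p *
        (COu p * ∫⁻ x in Om \ NmB M Bx, ‖D' x‖ₑ ^ p) + ∑' j, B j + ε' →
      x ≤ C1 * Jx p Om D F X A lam + ENNReal.ofReal E * Tx p F X A lam + ε)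
    (h : GenOut (fX bf cmp H) Om f D' p κp κe κ2 X (fun c => trA (A c) (w0 c)) (lx θ lam) zc Mc M
      Bx Gd B Zd C Cs ε' εb) :
    PreMesh (c0 := c0) bf cmp p C κp κ1 κ2 θ Om f D X A lam C1 E ε := by
  classical
  obtain ⟨v, Dd, h1, h2, h3, h4, h5, -⟩ := h
  set v' : F → E3 := fun c => if hc : c ∈ X then w0 c + v ⟨c, hc⟩ else 0 with hv'
  have hv'e : ∀ c (hc : c ∈ X), v' c = w0 c + v ⟨c, hc⟩ := fun c hc => by
    simp only [hv']
    rw [dif_pos hc]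
  refine ⟨z, H, Dd, _, v', {c // c ∉ X}, Zd.x, _, _, fun c => c.1, κe, hκe, h2, h3, ?_, ?_, ?_,
    hE _ h5⟩
  · intro c y hy j
    refine hInB c y (closedBall_subset_closedBall ?_ hy) j
    have := hR c
    linarith
  · refine hpX.imp id fun hX => ?_
    subst hX
    exact ⟨fun c => c.2 (mem_univ _)⟩
  · intro c hc
    obtain ⟨g1, g2, g3, g4, g5⟩ := h4 ⟨c, hc⟩
    rw [hv'e c hc]
    refine ⟨?_, g2, ?_, hsh ⟨c, hc⟩ _ (h1 ⟨c, hc⟩)⟩
    · refine g1.trans ?_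
      rw [hQ]
      show (((Q0 c).tr (w0 c)).tr (v ⟨c, hc⟩)).Kc = _
      rw [tr_tr]
      ext x
      rw [(Q0 c).mem_Kc_tr, hcore c hc]
      rfl
    · have g6 : Dd.A c = trA (trA (A c) (w0 c)) (v ⟨c, hc⟩) := g4
      rw [g6, Crest.Agent.R96.Ea0p_348.lin_trA, Crest.Agent.R96.Ea0p_348.lin_trA]

end

end Crest.Agent.R096.Eax_481
end

-- ▼ part R096/Eax4_481
section

/-!
# Row 96 (S0127), EaX (helper481), part 4: the geometric and numerical facts of one block used by `preX`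
-/

set_option autoImplicit false
set_option linter.style.longLine false
set_option linter.unusedSectionVars false
set_option linter.unusedVariables false

open MeasureTheory Set Filter Topology Metric
open scoped ENNReal NNReal

namespace Crest.Agent.R096.Eax_481

open Crest.Agent.R096.Bsp_628 Crest.Agent.R096.Brk5_582
open Crest.Agent.R096.SkC1_961 (E3 FoamD Hom3)
open Crest.Agent.R096.Er_594 (SH3)
open Crest.Agent.R096.EaX_766 (cbx lin ExIn)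
open Crest.Agent.R096.Exa_365 (GoodW Wt)
open Crest.Agent.R096.Bxs_627 (ctr CoriE fD zz)
open Crest.Agent.R096.Mal_874 Crest.Agent.R096.Msh_810 Crest.Agent.R096.Msh_715
open Crest.Agent.R096.Ls_222 (eIn ea ev)
open Crest.Agent.R096.Fns_360
open Crest.Agent.R096.Mdd_360
open Crest.Agent.R096.Mbf_337 (Cores)
open Crest.Agent.R096.Mfa_880 (BxM QU NmB)
open Crest.Agent.R096.Acc_365 (K1 K2)
open Crest.Agent.R096.Eaz_663
open Crest.Agent.R096.Exg_766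
open Crest.Agent.R096.Enx_766
open Crest.Agent.R096.Eds_746 (EB card_EB core_sub_EB goodW_comp)
open Crest.Agent.R096.Eau_365 (BkX PreMesh PreX Jx Tx block_en exists_w0 measurable_Gd)
open Crest.Agent.R096.Pgn_112 (ZD GenIn GenOut WordsOk COu COu_ne_top pre_gen)
open Crest.Agent.R096.Pmc_112 (Gd' Kl)
open Crest.Agent.R096.PmcL_112 (KL KL_lt_top ea_pushL)
open Crest.Agent.R096.Wd_120 (CoreAt)
open Crest.Agent.R96.Pm_199 (Dec)
open Crest.Agent.R96.EaP_899 (fX XD cm KQ KQ_nonneg)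
open Crest.Agent.R96.Eam_466 (InB)
open Crest.Agent.R96.Wm4_748 (K3 K3_ne_top)

noncomputable section

/-- the block bound in the form of `inner_sum2` -/
theorem enB_le {p : ℝ} (hp : 1 ≤ p) {a C4 K3' kq η L vN vS ID' ID : ℝ≥0∞} (hη : η ≤ 1)
    (h1 : vN ≤ vS) (h2 : ID' ≤ kq ^ p * ID) :
    a * (C4 * (kq * (1 + η ^ (1 / p))) ^ p * L * vN + 8 * (K3' * (L * ID'))) ≤
      (a * (8 * (K3' * kq ^ p))) * (L * ID) + (a * (C4 * (kq * 2) ^ p)) * (L * vS) := by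
  have h3 : η ^ (1 / p) ≤ 1 := ENNReal.rpow_le_one hη (by positivity)
  have h4 : 1 + η ^ (1 / p) ≤ 2 := by
    calc 1 + η ^ (1 / p) ≤ 1 + 1 := by gcongr
      _ = 2 := by norm_num
  calc a * (C4 * (kq * (1 + η ^ (1 / p))) ^ p * L * vN + 8 * (K3' * (L * ID')))
      ≤ a * (C4 * (kq * 2) ^ p * L * vS + 8 * (K3' * (L * (kq ^ p * ID)))) := by gcongr
    _ = _ := by ring

section one

variable {p : ℝ} {Om La : Set E3} {f : E3 → E3} {D : E3 → E3 →L[ℝ] E3} {o : E3}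
  {u κ0 κ1 κ2 κ3 κ1' θ δ : ℝ} {F : Set (Bx (Fin 3))} {X : Set F} {A : F → E3 ≃ᵃ[ℝ] E3}
  {lam : F → ℝ}

/-- the vectors of the large box of translations are small -/
theorem wt_le (G : XG p Om f D o u κ0 κ1 κ2 κ3 κ1' θ F X A lam) (bf : BoxFoam La F δ κ0)
    (hκ0 : 1 ≤ κ0) {ρ0 τ : ℝ} (hρ0 : 0 < ρ0) (hρκ : ρ0 * κ0 = τ) {c : F} (hc : c ∈ X) {v : E3}
    (hv : v ∈ Wt (A c) (ρ0 * ((1 + θ) * lam c * c.1.sz))) :
    ‖lin (A c) v‖ ≤ τ * ((1 + θ) * lam c * c.1.sz) ∧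
      ∀ k, |lin (A c) v k| ≤ τ * ((1 + θ) * lam c * c.1.side k) := by
  have h1 := wt_small (bf.pos _ c.2) (bf.asp _ c.2) (G.lpos c hc).le hρ0.le (by linarith) le_rfl hv
  rw [hρκ] at h1
  refine ⟨h1.1.trans (mul_le_mul_of_nonneg_right ?_ ?_), h1.2⟩
  · rw [← hρκ]
    exact le_mul_of_one_le_right hρ0.le hκ0
  · exact (mul_pos (G.lpos c hc) (Bx.sz_pos (bf.pos _ c.2))).le

/-- the translated tiles lie in the collar `Sx` -/
theorem shift_Sx (G : XG p Om f D o u κ0 κ1 κ2 κ3 κ1' θ F X A lam) (bf : BoxFoam La F δ κ0)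
    (hκ0 : 1 ≤ κ0) {ρ0 τ : ℝ} (hρ0 : 0 < ρ0) (hρκ : ρ0 * κ0 = τ) (t3 : τ ≤ κ3 / 8)
    (t4 : τ ≤ θ / 16) (hθ : 0 < θ) (hθ1 : θ ≤ 1) (hκ3 : 0 < κ3) {c : F} (hc : c ∈ X)
    (hlc : 0 < lam c) {Q : CB E3 3}
    (hN : Q.N ⊆ A c ⁻¹' cbx c.1 ((1 + 2 * (κ3 / 4)) * ((1 + θ) * lam c)))
    (hK : Q.Kc = A c ⁻¹' cbx c.1 ((1 + θ) * lam c)) :
    ∀ y ∈ Q.N, y ∉ interior Q.Kc →
      ∀ v ∈ Wt (A c) (ρ0 * ((1 + θ) * lam c * c.1.sz)), y + v ∈ Sx F A lam θ κ3 c := by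
  intro y hy hyK v hv
  refine tile_sub (S := {y}) (κ4 := κ3 / 4) (t := 2 * τ) (bf.pos _ c.2) hlc
    (singleton_subset_iff.2 (hN hy)) ?_ (fun k => ?_) (by linarith) hθ ?_ y rfl
  · rw [disjoint_singleton_left]
    rw [hK] at hyK
    exact hyK
  · have h1 := (wt_le G bf hκ0 hρ0 hρκ hc hv).2 k
    linarith
  · nlinarith

/-- the blocks off the core lie in the collar `Sx` -/
theorem N_sub_Sx (G : XG p Om f D o u κ0 κ1 κ2 κ3 κ1' θ F X A lam) (bf : BoxFoam La F δ κ0)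
    (hθ : 0 < θ) (hκ3 : 0 < κ3) {c : F} (hc : c ∈ X) (hlc : 0 < lam c) {Q : CB E3 3}
    (hN : Q.N ⊆ A c ⁻¹' cbx c.1 ((1 + 2 * (κ3 / 4)) * ((1 + θ) * lam c)))
    (hK : Q.Kc = A c ⁻¹' cbx c.1 ((1 + θ) * lam c)) : Q.N \ Q.Kc ⊆ Sx F A lam θ κ3 c := by
  rintro y ⟨hy, hyK⟩
  have hQ := bf.pos _ c.2
  have hl := G.lpos c hc
  refine ⟨Crest.Agent.R096.Acc_365.cbx_mono hQ ?_ (hN hy), fun h => hyK ?_⟩
  · nlinarith
  · rw [hK]
    refine Crest.Agent.R096.Acc_365.cbx_mono hQ ?_ h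
    nlinarith

/-- the first numerical hypothesis of `block_en` -/
theorem num1 (G : XG p Om f D o u κ0 κ1 κ2 κ3 κ1' θ F X A lam) (bf : BoxFoam La F δ κ0) {ρ0 : ℝ}
    (hρ0 : 0 < ρ0) {dk m : ℕ} (hm : 0 < m) (hdk : 4 * (1 / 2 ^ (3 + dk)) ≤ ρ0) {c : F}
    (hc : c ∈ X) : 4 * ((1 + θ) * lam c * c.1.sz) * (1 / 2 ^ (3 + dk)) ≤
      m * (ρ0 * ((1 + θ) * lam c * c.1.sz)) := by
  have h1 : 0 < (1 + θ) * lam c * c.1.sz := mul_pos (G.lpos c hc) (Bx.sz_pos (bf.pos _ c.2))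
  have h2 : (1:ℝ) ≤ m := by exact_mod_cast hm
  calc 4 * ((1 + θ) * lam c * c.1.sz) * (1 / 2 ^ (3 + dk))
      = (4 * (1 / 2 ^ (3 + dk))) * ((1 + θ) * lam c * c.1.sz) := by ring
    _ ≤ ρ0 * ((1 + θ) * lam c * c.1.sz) := by gcongr
    _ ≤ m * (ρ0 * ((1 + θ) * lam c * c.1.sz)) := le_mul_of_one_le_left (by positivity) h2

/-- the second numerical hypothesis of `block_en` -/
theorem num2 (G : XG p Om f D o u κ0 κ1 κ2 κ3 κ1' θ F X A lam) (bf : BoxFoam La F δ κ0)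
    {ρ0 τ : ℝ} (hρ0 : 0 < ρ0) (hρκ : ρ0 * κ0 = τ) (t3 : τ ≤ κ3 / 8) (hκ3 : 0 < κ3)
    (hκ3' : κ3 ≤ 3 / 4 * κ2) {c : F} (hc : c ∈ X) (k : Fin 3) :
    (1 + 2 * (κ3 / 4)) * ((1 + θ) * lam c) * c.1.side k / 2 + ρ0 * ((1 + θ) * lam c * c.1.sz) ≤
      (1 + 2 * (3 / 4 * κ2)) * ((1 + θ) * lam c) * c.1.side k / 2 := by
  have h1 := bf.asp _ c.2 k
  have h2 := G.lpos c hc
  have h3 := Bx.side_pos (bf.pos _ c.2) k
  have h4 : ρ0 * ((1 + θ) * lam c * c.1.sz) ≤ τ * ((1 + θ) * lam c * c.1.side k) := by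
    calc ρ0 * ((1 + θ) * lam c * c.1.sz) ≤ ρ0 * ((1 + θ) * lam c * (κ0 * c.1.side k)) := by
          gcongr
      _ = ρ0 * κ0 * ((1 + θ) * lam c * c.1.side k) := by ring
      _ = _ := by rw [hρκ]
  have h5 : 0 < (1 + θ) * lam c * c.1.side k := mul_pos h2 h3
  have h6 : τ ≤ 3 / 4 * κ2 - κ3 / 4 := by linarith
  have h7 : τ * ((1 + θ) * lam c * c.1.side k) ≤
      (3 / 4 * κ2 - κ3 / 4) * ((1 + θ) * lam c * c.1.side k) := by gcongr
  linarith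

/-- the third numerical hypothesis of `block_en` -/
theorem num3 {s ρ0 η N : ℝ} (hs : 0 ≤ s) (h : N * κ1 ≤ 1 / 4 * η * ρ0 ^ 3) :
    N * (κ1 * s ^ 3) ≤ 1 / 4 * η * (ρ0 * s) ^ 3 := by
  have h1 : 0 ≤ s ^ 3 := by positivity
  calc N * (κ1 * s ^ 3) = (N * κ1) * s ^ 3 := by ring
    _ ≤ (1 / 4 * η * ρ0 ^ 3) * s ^ 3 := by gcongr
    _ = _ := by ring

end one

end

end Crest.Agent.R096.Eax_481
end

-- ▼ part R096/Eax5_481

/-!
# Row 96 (S0127), EaX (helper481), part 5: **`preX`**, the composition (hot spare of 365's Eau7)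
-/

set_option autoImplicit false
set_option linter.style.longLine false
set_option linter.unusedSectionVars false
set_option linter.unusedVariables false

open MeasureTheory Set Filter Topology Metric
open scoped ENNReal NNReal

namespace Crest.Agent.R096.Eax_481

open Crest.Agent.R096.Bsp_628 Crest.Agent.R096.Brk5_582
open Crest.Agent.R096.SkC1_961 (E3 FoamD Hom3)
open Crest.Agent.R096.Er_594 (SH3)
open Crest.Agent.R096.EaX_766 (cbx lin ExIn)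
open Crest.Agent.R096.Exa_365 (GoodW Wt)
open Crest.Agent.R096.Bxs_627 (ctr CoriE fD zz)
open Crest.Agent.R096.Mal_874 Crest.Agent.R096.Msh_810 Crest.Agent.R096.Msh_715
open Crest.Agent.R096.Ls_222 (eIn ea ev)
open Crest.Agent.R096.Fns_360
open Crest.Agent.R096.Mdd_360
open Crest.Agent.R096.Mbf_337 (Cores)
open Crest.Agent.R096.Mfa_880 (BxM QU NmB)
open Crest.Agent.R096.Acc_365 (K1 K2)
open Crest.Agent.R096.Eaz_663
open Crest.Agent.R096.Exg_766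
open Crest.Agent.R096.Enx_766
open Crest.Agent.R096.Eds_746 (EB card_EB core_sub_EB goodW_comp)
open Crest.Agent.R096.Eau_365 (BkX PreMesh PreX Jx Tx block_en exists_w0 measurable_Gd)
open Crest.Agent.R096.Pgn_112 (ZD GenIn GenOut WordsOk COu COu_ne_top pre_gen)
open Crest.Agent.R096.Pmc_112 (Gd' Kl)
open Crest.Agent.R096.PmcL_112 (KL KL_lt_top ea_pushL)
open Crest.Agent.R096.Wd_120 (CoreAt)
open Crest.Agent.R96.Pm_199 (Dec)
open Crest.Agent.R96.EaP_899 (fX XD cm KQ KQ_nonneg)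
open Crest.Agent.R96.Eam_466 (InB)
open Crest.Agent.R96.Wm4_748 (K3 K3_ne_top)

noncomputable section

set_option maxHeartbeats 1000000 in
theorem preX {p : ℝ} (hp2 : 2 < p) : PreX p := by
  have hp : 1 ≤ p := by linarith
  have hp0 : 0 ≤ p := by linarith
  intro δ κ0 R c0 κ2 Md hδ hκ0 hR hc0 hcκ hκ2 hκ2' hMd C hC
  have hκ00 : 0 < κ0 := by linarith
  -- step 0: the constants before `C1`
  obtain ⟨Bn, R0, hBn, hR0, HBk⟩ := exists_bkX hR hMd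
  obtain ⟨CK, hCK1, hCK⟩ := Ucm1_374.exists_bound C Bn R0
  obtain ⟨C4, hC4, HE⟩ := block_en hp Bn hR0 hBn
  set a : ℝ≥0∞ := (ENNReal.ofReal CK * Kl δ R) ^ p with ha
  have hat : a ≠ ∞ := ENNReal.rpow_ne_top_of_nonneg hp0
    (ENNReal.mul_ne_top ENNReal.ofReal_ne_top (by unfold Kl; exact ENNReal.ofReal_ne_top))
  set kq : ℝ≥0∞ := ENNReal.ofReal (KQ κ0 c0) with hkq
  set K3' : ℝ≥0∞ := K3 p (Mfb_290.nE Bn R0) 2 1 1 181 with hK3
  have hK3t : K3' ≠ ∞ := K3_ne_top hp0 (by norm_num)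
  set K5 : ℝ≥0∞ := a * (8 * (K3' * kq ^ p)) with hK5
  set K6 : ℝ≥0∞ := a * (C4 * (kq * 2) ^ p) with hK6
  set KK : ℝ≥0∞ := K5 * ENNReal.ofReal (4 ^ p) + K6 * 2 ^ (p - 1) with hKK
  have hkqt : kq ≠ ∞ := ENNReal.ofReal_ne_top
  have hKKt : KK ≠ ∞ := by
    refine ENNReal.add_ne_top.2 ⟨ENNReal.mul_ne_top (ENNReal.mul_ne_top hat (ENNReal.mul_ne_top
      (by norm_num) (ENNReal.mul_ne_top hK3t (ENNReal.rpow_ne_top_of_nonneg hp0 hkqt))))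
      ENNReal.ofReal_ne_top, ENNReal.mul_ne_top (ENNReal.mul_ne_top hat (ENNReal.mul_ne_top
      ENNReal.coe_ne_top (ENNReal.rpow_ne_top_of_nonneg hp0 (ENNReal.mul_ne_top hkqt (by norm_num)))))
      (ENNReal.rpow_ne_top_of_nonneg (by linarith) (by norm_num))⟩
  obtain ⟨C1, hC1⟩ := exists_C1 (K := KK) hat (COu_ne_top hp0) (KL_lt_top (κ0 := κ0) (c0 := c0) hp).ne
    hKKt
  refine ⟨C1, ?_⟩
  intro κp κ1' E lam2 hκp hκp1 hκ1' hκ12 hE hlam2 θ hθ hθ2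
  -- step 1: the other constants
  obtain ⟨κ, hKC⟩ := exists_KC δ R c0 (κ0 := κ0) (κ2 := κ2 / 2) (κm := κ1') hκ00 (by positivity)
    hlam2 hκ1'
  have hκ := hKC.pos
  obtain ⟨κ3, hκ3, hκ3', hκ3l⟩ := exists_k3 hlam2 hκ2
  obtain ⟨m0, hm0, HBk⟩ := HBk (κ3 / 4) (by positivity)
  set m : ℕ := max m0 (⌈R0 / (2 * κ)⌉₊ + 1) with hmdef
  have hm : 0 < m := hm0.trans_le (le_max_left _ _)
  have hm' : (0:ℝ) < m := by exact_mod_cast hm
  have hmη : R0 / (2 * m) ≤ κ := by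
    have h1 : R0 / (2 * κ) ≤ m := by
      refine (Nat.le_ceil _).trans ?_
      exact_mod_cast (Nat.le_succ _).trans (le_max_right _ _)
    rw [div_le_iff₀ (by positivity)] at h1 ⊢
    linarith
  obtain ⟨Nb, HBk⟩ := HBk m (le_max_left _ _)
  obtain ⟨κw, hκw, HW⟩ := words_eax hδ hκ0 hR hκp hc0 hlam2 hm
  set τ : ℝ := min (min (κ / 8) (κw / 8)) (min (κ3 / 8) (θ / 16)) with hτdef
  have hτ : 0 < τ := lt_min (lt_min (by positivity) (by positivity))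
    (lt_min (by positivity) (by positivity))
  have t1 : τ ≤ κ / 8 := (min_le_left _ _).trans (min_le_left _ _)
  have t2 : τ ≤ κw / 8 := (min_le_left _ _).trans (min_le_right _ _)
  have t3 : τ ≤ κ3 / 8 := (min_le_right _ _).trans (min_le_left _ _)
  have t4 : τ ≤ θ / 16 := (min_le_right _ _).trans (min_le_right _ _)
  set ρ0 : ℝ := τ / κ0 with hρ0def
  have hρ0 : 0 < ρ0 := by positivity
  have hρκ : ρ0 * κ0 = τ := by rw [hρ0def]; field_simp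
  have hρτ : ρ0 ≤ τ := by
    rw [← hρκ]
    exact le_mul_of_one_le_right hρ0.le hκ0
  obtain ⟨dk, hdk⟩ : ∃ dk : ℕ, 4 * (1 / 2 ^ (3 + dk)) ≤ ρ0 := by
    obtain ⟨n, hn⟩ := exists_pow_lt_of_lt_one (show 0 < ρ0 / 4 by positivity)
      (by norm_num : (1 / 2 : ℝ) < 1)
    refine ⟨n, ?_⟩
    have h1 : (1:ℝ) / 2 ^ (3 + n) ≤ (1 / 2) ^ n := by
      rw [one_div_pow]
      exact one_div_le_one_div_of_le (by positivity) (pow_le_pow_right₀ (by norm_num) (by omega))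
    linarith
  have hBs1 : 1 ≤ max Bn ⌈R0⌉₊ := hBn.trans (le_max_left _ _)
  obtain ⟨NC, HNC⟩ := card_EB hBs1 (Nb : ℝ) (Nat.cast_nonneg _) dk
  set η : ℝ := min 1 (κw ^ p) with hηdef
  have hη : 0 < η := lt_min one_pos (by positivity)
  have hη1 : η ≤ 1 := min_le_left _ _
  have hηw : (ENNReal.ofReal η ^ (1 / p)).toReal ≤ κw := by
    rw [← ENNReal.toReal_rpow, ENNReal.toReal_ofReal hη.le]
    calc η ^ (1 / p) ≤ (κw ^ p) ^ (1 / p) :=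
          Real.rpow_le_rpow hη.le (min_le_right _ _) (by positivity)
      _ = κw := by rw [← Real.rpow_mul hκw.le, mul_one_div_cancel (by linarith), Real.rpow_one]
  obtain ⟨κa, hκa, HK1⟩ := exists_k1 (κ0 := κ0) hκ00 hκ2 hκ1' hκ3l
  obtain ⟨κE, hκE, HKE⟩ := exists_κ1E (κ0 := κ0) hKKt hE hκ00
  set κ1 : ℝ := min (min κa κE) (min τ (η * ρ0 ^ 3 / (4 * (NC + 1)))) with hκ1def
  have hκ1 : 0 < κ1 := lt_min (lt_min hκa hκE) (lt_min hτ (by positivity))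
  have s1 : κ1 ≤ κa := (min_le_left _ _).trans (min_le_left _ _)
  have s2 : κ1 ≤ κE := (min_le_left _ _).trans (min_le_right _ _)
  have s3 : κ1 ≤ τ := (min_le_right _ _).trans (min_le_left _ _)
  have s4 : NC * κ1 ≤ 1 / 4 * η * ρ0 ^ 3 := by
    have h1 : κ1 ≤ η * ρ0 ^ 3 / (4 * (NC + 1)) := (min_le_right _ _).trans (min_le_right _ _)
    have hN : (0:ℝ) ≤ NC := Nat.cast_nonneg _
    rw [le_div_iff₀ (by positivity)] at h1
    nlinarith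
  refine ⟨κ1, hκ1, ?_⟩
  intro Om La f D hOm hOb hOc hLa hLb hLc hSH o u hu F bf cmp hDy hst X hpX A lam hlam hEx ε hε
  -- step 2: the data
  have hl : ∀ c ∈ X, c0 ≤ lx θ lam c := by
    intro c hc
    have h1 := (hlam c hc).1
    show c0 ≤ (1 + θ) * lam c
    nlinarith
  have hl1 : ∀ c ∈ X, lx θ lam c < 1 := fun c hc => (hlam c hc).2.1.trans_lt hlam2
  obtain ⟨zc, H, hz, -, D', hDm, -, hDv, hDle, -, hDS⟩ := ea_pushL hp hκ0 hc0 hcκ hOm hLa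
    hSH.homeo hSH.vwd bf cmp X hpX (lx θ lam) hl hl1 (N := ∅) measure_empty
  have G : XG p Om f D o u κ0 κ1 κ2 κ3 κ1' θ F X A lam := exg hLa hSH.homeo bf hκ00 hκ2 hκ2' hκ3 hκ3'
    (HK1 κ1 hκ1 s1) hθ hθ2 hc0 (fun c hc => ⟨(hlam c hc).1, (hlam c hc).2.1⟩) hEx
  obtain ⟨Q0, hQ0⟩ := HBk hLa bf cmp hu hDy X A (lx θ lam) fun c hc => by
    obtain ⟨h1, h2, q, hq⟩ := hlam c hc
    refine ⟨G.lpos c hc, ⟨(1 + θ) * q, ?_⟩, (hEx c hc).rat⟩
    show (1 + (θ : ℝ)) * lam c = _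
    rw [hq]
    push_cast
    ring
  have hpos : ∀ c : F, c.1.Pos := fun c => bf.pos _ c.2
  have hasp : ∀ c : F, ∀ k, c.1.sz ≤ κ0 * c.1.side k := fun c => bf.asp _ c.2
  have hθ1 : (θ : ℝ) ≤ 1 := by linarith
  obtain ⟨x, Rz, hInB, hRz, r, hr0, hr1, HG⟩ := eax_gen hp hOm hLa hSH hδ hκ0 (by linarith) bf cmp
    (κ3 := κ3) (κ4 := κ3 / 4) (τ1 := 2 * τ) (τ := τ) hκ2' hκ1.le hKC hlam2 (by linarith) hτ
    (by linarith) (by linarith) hm hR0 hBn hmη (fun c hc => (hlam c hc).2.1) G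
    (fun c hc => (hQ0 c hc).1) H
  -- the good sets of the blocks
  have hk : ∀ c : X, (Q0 c.1).kc ≤ 3 + dk := fun c => by rw [(hQ0 c.1 c.2).1.kc]; omega
  have hKcore : ∀ c ∈ X, (Q0 c).Kc = A c ⁻¹' cbx c.1 ((1 + θ) * lam c) := fun c hc => (hQ0 c hc).1.Kc
  have hNc : ∀ c ∈ X, (Q0 c).N ⊆ A c ⁻¹' cbx c.1 ((1 + 2 * (κ3 / 4)) * ((1 + θ) * lam c)) :=
    fun c hc => (hQ0 c hc).1.N
  have hlc : ∀ c ∈ X, 0 < lam c := fun c hc => hc0.trans_le (hlam c hc).1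
  have hsz : ∀ c : X, 0 < (1 + θ) * lam c * c.1.1.sz := fun c =>
    mul_pos (G.lpos c c.2) (Bx.sz_pos (hpos c))
  have hEB : ∀ c : X, (EB (Q0 c.1) (3 + dk) (hk c)).Finite ∧
      (EB (Q0 c.1) (3 + dk) (hk c)).ncard ≤ NC := by
    intro c
    have hB := (hQ0 c.1 c.2).1
    refine HNC (Q0 c.1) (3 + dk) (hk c) (by rw [hB.kc]) (fun i p hp l => ?_)
      (fun i hi v hv w hw l => ?_) (fun l => by exact_mod_cast (hQ0 c.1 c.2).2 l)
    · exact (hB.bnd i p hp l).trans (by exact_mod_cast le_max_left _ _)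
    · refine (hB.size i hi v hv w hw l).trans ((Nat.le_ceil R0).trans ?_)
      exact_mod_cast le_max_right _ _
  have hblk := fun c : X => HE hOm hSH (G.ex c c.2) hm (hQ0 c.1 c.2).1 (hk c)
    (mul_pos hρ0 (hsz c)) (num1 G bf hρ0 hm hdk c.2) (num2 G bf hρ0 hρκ t3 hκ3 hκ3' c.2)
    (NC := NC) (hEB c).1 (hEB c).2 hη (by have := hsz c; positivity)
    (num3 (hsz c).le s4) hDm (KQ_nonneg hκ0) (G.hS c c.2)
    (ae_dir bf hz hDle c.2 fun x hx => G.vimg c c.2 x hx.1)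
    (shift_Sx G bf hκ0 hρ0 hρκ t3 t4 hθ hθ1 hκ3 c.2 (hlc c c.2) (hNc c c.2) (hKcore c c.2))
  choose Gs gs1 gs2 gs3 gs4 using hblk
  choose w1 κv gv1 gv2 gv3 using fun c : X => exists_w0 (gs3 c) (hr0 c) (hr0 c)
  classical
  set w0 : F → E3 := fun c => if h : c ∈ X then w1 ⟨c, h⟩ else 0 with hw0def
  have hw0 : ∀ c : X, w0 c.1 = w1 c := fun c => by
    simp only [hw0def]
    rw [dif_pos c.2]
  have hw0s : ∀ c : X, ‖lin (A c) (w0 c)‖ ≤ 2 * τ * ((1 + θ) * lam c * c.1.1.sz) ∧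
      ∀ k, |lin (A c) (w0 c) k| ≤ 2 * τ * ((1 + θ) * lam c * c.1.1.side k) := by
    intro c
    rw [hw0 c]
    obtain ⟨y, hy, hyw⟩ := gv2 c
    have h1 := wt_le G bf hκ0 hρ0 hρκ c.2 (gs2 c hy)
    have h2 := hr1 c (w1 c - y) hyw.le
    have e : w1 c = y + (w1 c - y) := by abel
    constructor
    · rw [e, map_add]
      refine (norm_add_le _ _).trans ?_
      linarith [h1.1, h2.1]
    · intro k
      rw [e, map_add, Pi.add_apply]
      refine (abs_add_le _ _).trans ?_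
      linarith [h1.2 k, h2.2 k]
  obtain ⟨M, Y, κd, Zd, b1, b2, b3, b4, b5, b6, b7, b8, b9, b10, b11⟩ := HG w0
    (fun c hc => ⟨κv ⟨c, hc⟩, by rw [hw0 ⟨c, hc⟩]; exact gv1 ⟨c, hc⟩⟩)
    (fun c hc => hw0s ⟨c, hc⟩)
  set Gd : X → Set E3 := fun c => {s | ‖s‖ ≤ r c ∧ w0 c + s ∈ Gs c} with hGd
  have hGdm : ∀ c, MeasurableSet (Gd c) := fun c => measurable_Gd (gs1 c) (r c) (w0 c)
  have hGd0 : ∀ c, volume (Gd c) ≠ 0 := by
    intro c
    have h1 := gv3 c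
    rw [← hw0 c] at h1
    exact h1
  have hsm : ∀ c : X, ∀ v ∈ Gd c, ‖lin (A c) v‖ ≤ τ * ((1 + θ) * lam c * c.1.1.sz) ∧
      ∀ k, |lin (A c) v k| ≤ τ * ((1 + θ) * lam c * c.1.1.side k) := fun c v hv => hr1 c v hv.1
  set B : X → ℝ≥0∞ := fun c => a * (C4 * (kq * (1 + ENNReal.ofReal η ^ (1 / p))) ^ p *
      ‖lin (A c)‖ₑ ^ p * volume ((Q0 c.1).N \ (Q0 c.1).Kc) + 8 * (K3' * (‖lin (A c)‖ₑ ^ p *
        ∫⁻ z in Sx F A lam θ κ3 c, ‖(D' z).comp (lin (A c).symm)‖ₑ ^ p))) with hBdef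
  have hk0 : ∀ j : X, (M.Q j).kc ≤ 3 + dk := fun j => by
    rw [b3]
    exact hk j
  have hfc : ContinuousOn f Om := by
    obtain ⟨fi, f1, f2, f3, f4, f5, f6⟩ := hSH.homeo
    exact f5
  have hgw : ∀ c : X, ∀ v ∈ Gd c, GoodW p Om f D (A c)
      (fun e : {e // e ∈ eIn ((Q0 c.1).T (3 + dk) (hk c)) ((Q0 c.1).cix (3 + dk) (hk c))} => ea e.1)
      (fun e => ev e.1) (ENNReal.ofReal η) (w0 c + v) := by
    intro c v hv
    exact goodW_comp (gs4 c _ hv.2).1 fun e : {e // e ∈ eIn ((Q0 c.1).T (3 + dk) (hk c))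
      ((Q0 c.1).cix (3 + dk) (hk c))} => (⟨e.1, core_sub_EB _ _ _ e.2⟩ : EB (Q0 c.1) (3 + dk) (hk c))
  have hcl : ∀ c : X, ∀ v ∈ Gd c, ∀ y ∈ ((M.Q c).tr v).N,
      ‖f y - A c y‖ + ‖lin (A c) (w0 c + v)‖ ≤ κw * (lx θ lam c * c.1.1.sz) := by
    intro c v hv y hy
    have h1 := (b10 c v hv.1 y hy).2.2
    have h2 := (hw0s c).1
    have h3 := (hsm c v hv).1
    refine (hcl_of (Om := Om) h1 h2 h3).trans (mul_le_mul_of_nonneg_right ?_ (hsz c).le)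
    linarith
  have hen : ∀ j : X, ∀ s ∈ Gd j,
      ∑' c, a * (QU M Y (fun _ => 3 + dk) hk0 j).EnC (Gd' D') p c s ≤ B j := by
    intro j s hs
    rw [ENNReal.tsum_mul_left]
    refine mul_le_mul' le_rfl ?_
    exact (gs4 j _ hs.2).2 M Y j (w0 j) s (congrFun b3 j) rfl (b5 j).le (b6 j).le (hk0 j) _ _
      (Uni_663.KU_countable _) (countable_singleton 0)
  have GI := b11 p κp D' (fun _ => m) (fun _ => 3 + dk) hk0 Gd (fun _ _ => a) B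
    (fun j v hv => hv.1) hGdm hGd0
    (HW La Om hLa F bf cmp c0 X (lx θ lam) zc H f p hp hfc D κ1' (κ2 / 2) (by linarith)
      (fun c hc => ⟨hl c hc, (hlam c hc).2.1⟩) A (κ3 / 4) Bn R0 Q0 (fun c hc => (hQ0 c hc).1)
      (fun _ => 3 + dk) hk (ENNReal.ofReal η) ENNReal.ofReal_ne_top hηw w0 M b2 b3 Gd hgw hcl) hen
  have hdir : ∀ c : X, ∀ᵐ x, x ∈ Sx F A lam θ κ3 c → ∀ v, ‖D' x v‖ ≤ KQ κ0 c0 * ‖D x v‖ := fun c =>
    ae_dir bf hz hDle c.2 fun x hx => G.vimg c c.2 x hx.1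
  have hSB : ∑' c, B c ≤ KK * (Jx p Om D F X A lam +
      ENNReal.ofReal (κ1 * κ0 ^ 3) * Tx p F X A lam) :=
    inner_sum2 hp hSH hκ1.le bf.countable (fun c _ => hpos c) (fun c hc => (hlc c hc).le)
      (fun c _ => hasp c) hEx G.hS G.hSV G.hSd G.hSK fun c =>
        enB_le hp (ENNReal.ofReal_le_one.2 hη1)
          (measure_mono (N_sub_Sx G bf hθ hκ3 c.2 (hlc c c.2) (hNc c c.2) (hKcore c c.2)))
          (dcomp_le (G.hS c c.2) (KQ_nonneg hκ0) hp0 (hdir c) _)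
  have hIo : (∫⁻ x in Om \ NmB M (BxM M), ‖D' x‖ₑ ^ p) ≤ KL κ0 c0 p * Jx p Om D F X A lam :=
    outer_le bf hOm hθ.le (fun c hc => (hlc c hc).le) hDS M b1 (Q0 := fun c : X => Q0 c.1)
      (w0 := fun c : X => w0 c.1) (τ := τ) (τ1 := 2 * τ) (fun c => congrFun b3 c)
      (fun c => hKcore c c.2) (fun c => (hw0s c).2) (fun c s hs => (hr1 c s (by
        rw [b4] at hs
        exact hs)).2) (by nlinarith) (fun c x hx => G.vimg c c.2 x
        (b9 c (self_subset_cthickening _ hx))) (fun j => by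
        show ‖M.φ 0‖ ≤ M.r j
        rw [map_zero, norm_zero, b4]
        exact (hr0 j).le) (fun j => Subset.rfl)
  have hfin : ∫⁻ x in Om, ‖D' x‖ₑ ^ p ≠ ∞ :=
    ne_top_of_le_ne_top (ENNReal.mul_ne_top (KL_lt_top hp).ne hSH.energy)
      (hDS Om subset_rfl hOm.measurableSet fun c _ => Or.inl fun x hx _ => hx)
  have hout := pre_gen (Φ := fX bf cmp H) (Df := D) hOm hOc.nonempty hLa hδ (by linarith)
    hSH.homeo hSH hDm hDv hfin hp hκp hκp1 (by positivity) hκ12 (fun 𝒦 => (hC 𝒦).le) (Cs := CK)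
    (fun 𝒦 h => hCK 𝒦 (Or.inl h)) (Cm := fun _ _ => CK)
    (fun j c 𝒦 h => hCK 𝒦 (Ucm1_374.qSh_LB Y j (3 + dk) (hk0 j) (b5 j).le (b6 j).le c h)) b2 GI
    hε (εb := fun _ => 1) (fun _ => one_ne_zero)
  refine preMesh_gen (Q0 := Q0) (w0 := w0) le_rfl hpX b3 hKcore (fun c v hv k => ?_)
    (by rw [b7, b8]; exact hInB) (fun c => by rw [b8]; exact hRz c)
    (fun y hy => pre_energy hy hIo hSB (HKE κ1 hκ1 s2) hC1) hout
  rw [map_add, Pi.add_apply]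
  refine (abs_add_le _ _).trans ?_
  have h1 := (hw0s c).2 k
  have h2 := (hsm c v hv).2 k
  have h3 : 0 < lam c * c.1.1.side k := mul_pos (hlc c c.2) (Bx.side_pos (hpos c) k)
  have h4 : 3 * τ * (1 + θ) ≤ θ / 2 := by nlinarith
  have h5 : 3 * τ * (1 + θ) * (lam c * c.1.1.side k) ≤ θ / 2 * (lam c * c.1.1.side k) := by gcongr
  calc |lin (A c) (w0 c) k| + |lin (A c) v k| ≤
        2 * τ * ((1 + θ) * lam c * c.1.1.side k) + τ * ((1 + θ) * lam c * c.1.1.side k) :=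
        add_le_add h1 h2
    _ = 3 * τ * (1 + θ) * (lam c * c.1.1.side k) := by ring
    _ ≤ θ / 2 * (lam c * c.1.1.side k) := h5
    _ = _ := by ring

end

end Crest.Agent.R096.Eax_481
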