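import Crest.Agent.R096.No4_276
import Crest.Agent.R096.SkN2_477
import Crest.Agent.R096.Nl2_234

-- ▼ part R096/No5_276
section

/-!
# Row 96, NO0 (helper276), part 5 = end of leaf (L6): from the machine map to the conclusion of `NOS`

* `NOG` : the conclusion of `NOS` (with energy bounds `A1`, `A2`).
* `nog_of_macro` (`p < 3`, macro balls) and `nog_of_tiles` (no macro ball; all `p > 0`).
-/

set_option autoImplicit false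
set_option linter.unusedSectionVars false

open Set Function MeasureTheory Filter Topology Metric
open scoped ENNReal
open Crest.AnalysisR.VecCalc3 Crest.AnalysisR.Sobolev

namespace Crest.Agent.R096.No_276

open Crest.Agent.R096.Msh_715 Crest.Agent.R096.Ea_713 Crest.Agent.R96.Hole_348
open Crest.Agent.R096.Sk_962 (Q0 Qc0)
open Crest.Agent.R096.Sq_477
open Crest.Agent.R096.SkC1_961 (E3 Hom3)

noncomputable section

/-- the conclusion of `NOS` -/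
def NOG (p : ℝ) (s : Fin 3 → ℝ) (f : R3 → R3) (L : ℕ) (η : ℝ) (A1 A2 : ℝ≥0∞) (e : ℝ) : Prop :=
  ∃ g : E3 → E3, Hom3 g (QL L) (e3 '' (f '' Q0)) ∧ Crest.Agent.R096.Str_696.LocPL g (QL L) ∧
    (∀ z ∈ frontier Q0, ∀ ε > 0, ∀ᶠ x in 𝓝[Q0] z, ∀ y ∈ QL L,
      y 0 = x 0 → y 1 = x 1 → L * y 2 = x 2 → ‖g y - e3 (f x)‖ ≤ ε) ∧
    (∫⁻ x in QL L, ‖fderiv ℝ g x‖ₑ ^ p) ≤ A1 ∧
    (∫⁻ x in ShL L η, ‖fderiv ℝ g x‖ₑ ^ p) ≤ A2 ∧
    ∃ (N : ℕ) (z : Fin N → ℝ), 0 < N ∧ (∀ k, |L * z k| ≤ 1 / 2) ∧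
      ∑ k, ∑ i : Fin 2, (∫⁻ y in ball (0 : Fin 2 → ℝ) (1 - η),
        ‖Dp (sl g (z k) 2) i y - Pi.single ((2 : Fin 3).succAbove i)
          (s ((2 : Fin 3).succAbove i))‖ₑ ^ p) ≤ N * ENNReal.ofReal e

theorem NOG.mono {p : ℝ} {s : Fin 3 → ℝ} {f : R3 → R3} {L : ℕ} {η : ℝ} {A1 A2 A1' A2' : ℝ≥0∞}
    {e e' : ℝ} (h : NOG p s f L η A1 A2 e) (h1 : A1 ≤ A1') (h2 : A2 ≤ A2') (he : e ≤ e') :
    NOG p s f L η A1' A2' e' := by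
  obtain ⟨g, a1, a2, a3, a4, a5, N, z, a6, a7, a8⟩ := h
  exact ⟨g, a1, a2, a3, a4.trans h1, a5.trans h2, N, z, a6, a7,
    a8.trans (by gcongr)⟩

/-- the conclusion of `NOS p` literally -/
theorem nos_of_nog {p : ℝ} (h : ∀ s : Fin 3 → ℝ, (∀ i, 0 ≤ s i) → s 2 = 0 → ∀ e : ℝ, 0 < e →
    ∃ K : ℝ, 0 < K ∧
    ∀ (η : ℝ) (L : ℕ) (e₂ : ℝ), 0 < η → η ≤ 1 / 8 → 1 ≤ L → 0 < e₂ → ∃ d : ℝ, 0 < d ∧
    ∀ (U W : Set R3) (f : R3 → R3) (G : Fin 3 → R3 → R3),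
      IsOpen U → Bornology.IsBounded U → IsConnected U →
      IsOpen W → Bornology.IsBounded W → IsConnected W → Qc0 ⊆ U →
      Crest.Agent.R096.Sk_962.SH p U W f G →
      ∫⁻ x in Q0, ∑ j : Fin 3, ‖G j x - Crest.Agent.R096.Sk_962.dg s j‖ₑ ^ p ≤ ENNReal.ofReal d →
      volume (Q0 \ Crest.Agent.R096.Sk4_663.Zd G) ≤ ENNReal.ofReal d →
      NOG p s f L η (ENNReal.ofReal (K / L)) (ENNReal.ofReal ((K * η + e₂) / L)) e) : NOS p := h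

theorem insert_mem_QL {L : ℕ} {η : ℝ} (hη : 0 < η) {c : ℝ} (hc : |(L : ℝ) * c| ≤ 1 / 2)
    {y : Fin 2 → ℝ} (hy : y ∈ ball (0 : Fin 2 → ℝ) (1 - η)) :
    (2 : Fin 3).insertNth (α := fun _ => ℝ) c y ∈ QL L := by
  have h1 : ∀ i, |y i| < 1 := by
    intro i
    have h2 : ‖y‖ < 1 - η := by simpa using hy
    have h3 := norm_le_pi_norm y i
    rw [Real.norm_eq_abs] at h3
    linarith
  have e0 : (2 : Fin 3).insertNth (α := fun _ => ℝ) c y 0 = y 0 := by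
    have := Fin.insertNth_apply_succAbove (α := fun _ => ℝ) (2 : Fin 3) c y 0
    exact this
  have e1 : (2 : Fin 3).insertNth (α := fun _ => ℝ) c y 1 = y 1 := by
    have := Fin.insertNth_apply_succAbove (α := fun _ => ℝ) (2 : Fin 3) c y 1
    exact this
  have e2 : (2 : Fin 3).insertNth (α := fun _ => ℝ) c y 2 = c := by
    rw [Fin.insertNth_apply_same]
  refine ⟨?_, ?_, ?_⟩
  · rw [e0]; exact h1 0
  · rw [e1]; exact h1 1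
  · rw [e2]; linarith

theorem Dp_sl_congr {g g' : E3 → E3} {c : ℝ} {y : Fin 2 → ℝ}
    (h : g' =ᶠ[𝓝 ((2 : Fin 3).insertNth (α := fun _ => ℝ) c y)] g) (i : Fin 2) :
    Dp (sl g' c 2) i y = Dp (sl g c 2) i y := by
  unfold Dp
  have hc : Continuous fun y : Fin 2 → ℝ => (2 : Fin 3).insertNth (α := fun _ => ℝ) c y :=
    Continuous.finInsertNth (2 : Fin 3) continuous_const continuous_id
  have h1 : sl g' c 2 =ᶠ[𝓝 y] sl g c 2 := hc.continuousAt.eventually h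
  rw [h1.fderiv_eq]

theorem Macro.cov {Om : Set E3} {ι : Type} {κ : Type*} {T : Tiling Om ι} {Ex : Set ι} {a : κ → E3}
    {R0 R1 : κ → ℝ} {S : κ → Finset ι} {d : ι → ℝ} {t : ℝ} {Cf : ℝ≥0∞}
    (M : Macro T Ex a R0 R1 S d t Cf) {Z : Set E3} (hZ : Z ⊆ Om) {IZ : Set ι}
    (h : ∀ i, i ∉ Ex → (P (T.H i) ∩ Z).Nonempty → i ∈ IZ) :
    ∀ x ∈ Z, (∀ c, x ∉ closedBall (a c) (R1 c)) → ∃ i ∈ IZ, i ∉ Ex ∧ x ∈ P (T.H i) := by
  intro x hx hxc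
  obtain ⟨i, hi⟩ := T.cov x (hZ hx)
  have hiE : i ∉ Ex := by
    intro hE
    obtain ⟨c, hc⟩ := M.ex i hE
    exact hxc c (closedBall_subset_closedBall (M.fam.lt c).le (hc hi))
  exact ⟨i, h i hiE ⟨x, hi, hx⟩, hiE, hi⟩

theorem QL_open (L : ℝ) : IsOpen (QL L) := by
  have h1 : QL L = {x : E3 | |x 0| < 1} ∩ ({x | |x 1| < 1} ∩ {x | |L * x 2| < 1}) := by
    ext x; rfl
  rw [h1]
  refine IsOpen.inter ?_ (IsOpen.inter ?_ ?_)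
  · exact isOpen_lt (by fun_prop) continuous_const
  · exact isOpen_lt (by fun_prop) continuous_const
  · exact isOpen_lt (by fun_prop) continuous_const

theorem ShL_open (L η : ℝ) : IsOpen (ShL L η) := by
  refine (QL_open L).inter ?_
  have h1 : {x : E3 | 1 - 2 * η < |x 0| ∨ 1 - 2 * η < |x 1| ∨ 1 - 2 * η < |L * x 2|} =
      {x : E3 | 1 - 2 * η < |x 0|} ∪ ({x | 1 - 2 * η < |x 1|} ∪ {x | 1 - 2 * η < |L * x 2|}) := by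
    ext x; rfl
  rw [h1]
  refine IsOpen.union ?_ (IsOpen.union ?_ ?_)
  · exact isOpen_lt continuous_const (by fun_prop)
  · exact isOpen_lt continuous_const (by fun_prop)
  · exact isOpen_lt continuous_const (by fun_prop)

/-- near bound after the squeeze -/
theorem near_squeeze {Om La : Set E3} {κ : Type*} {a : κ → E3} {R1 : κ → ℝ} {f1 g g' : E3 → E3}
    (hsub : ∀ c, closedBall (a c) (R1 c) ⊆ Om) {C C' : ℝ} (hC : 0 ≤ C) (hC' : 0 ≤ C')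
    (hnear : ∀ y ∈ Om, ‖g y - f1 y‖ ≤ C * infDist (f1 y) Laᶜ)
    (hball : ∀ c, ∀ x ∈ closedBall (a c) (R1 c), ∀ y ∈ closedBall (a c) (R1 c),
      ‖f1 x - f1 y‖ ≤ C' * infDist (f1 y) Laᶜ)
    (h3 : ∀ x, (∀ c, x ∉ closedBall (a c) (R1 c)) → g' x = g x)
    (h5 : ∀ c, ∀ x ∈ closedBall (a c) (R1 c), ∃ x' ∈ closedBall (a c) (R1 c), g' x = g x') :
    ∀ y ∈ Om, ‖g' y - f1 y‖ ≤ (C * (1 + C') + C') * infDist (f1 y) Laᶜ := by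
  intro y hy
  have hd0 : 0 ≤ infDist (f1 y) Laᶜ := infDist_nonneg
  by_cases hyc : ∀ c, y ∉ closedBall (a c) (R1 c)
  · rw [h3 y hyc]
    refine (hnear y hy).trans ?_
    have : 0 ≤ (C * C' + C') * infDist (f1 y) Laᶜ := by positivity
    linarith [this]
  · push Not at hyc
    obtain ⟨c, hc⟩ := hyc
    obtain ⟨x', hx', hgx⟩ := h5 c y hc
    rw [hgx]
    have e1 := hnear x' (hsub c hx')
    have e2 := hball c x' hx' y hc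
    have e3' : infDist (f1 x') Laᶜ ≤ infDist (f1 y) Laᶜ + dist (f1 x') (f1 y) :=
      infDist_le_infDist_add_dist
    rw [dist_eq_norm] at e3'
    have e4 : ‖g x' - f1 y‖ ≤ ‖g x' - f1 x'‖ + ‖f1 x' - f1 y‖ := norm_sub_le_norm_sub_add_norm_sub _ _ _
    have e5 : C * infDist (f1 x') Laᶜ ≤ C * (infDist (f1 y) Laᶜ + C' * infDist (f1 y) Laᶜ) :=
      mul_le_mul_of_nonneg_left (by linarith) hC
    calc ‖g x' - f1 y‖ ≤ C * (infDist (f1 y) Laᶜ + C' * infDist (f1 y) Laᶜ) +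
          C' * infDist (f1 y) Laᶜ := by linarith
      _ = _ := by ring



end

end Crest.Agent.R096.No_276
end

-- ▼ part R096/No6_276

/-!
# Row 96, NO0 (helper276), part 6: the literal Prop `NOPre p` = what has to be proved BEFORE the machine

`NOS p ⇐ MachNO p + NOPre p` is proved in the following files (all `p ≥ 1` at once).

* `PreG` : geometry and numbers which do not depend on the levels;
* `PreN` : levels and their numbers;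
* `NOPre p` : order of the quantifiers: list of shapes `𝒮`, `t`, `Cf`; `s`, `S1` (`S1 * r` = scale of the
  designated squares: every tile which meets one has `N i ≥ S1 * r`); constants `S`, `KS`;
  `ε η L e₂`; foam constants; `C0 C κp ε'`; `μ`; `κ1`; `d`; the data; `Z`, `m0`; the levels.
* `p < 3` : `X = ∅`, `U = fun _ _ => True` (then all clauses on junk squares and exact cores are void);
  `p ≥ 3` : `X = univ`, no macro balls (`β = Empty`).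
-/

set_option autoImplicit false
set_option linter.unusedSectionVars false

open Set Function MeasureTheory Filter Topology Metric
open scoped ENNReal
open Crest.AnalysisR.VecCalc3 Crest.AnalysisR.Sobolev

namespace Crest.Agent.R096.No_276

open Crest.Agent.R096.Bsp_628 Crest.Agent.R096.Brk1_582 Crest.Agent.R096.Brk3_582
open Crest.Agent.R096.Brk5_582 Crest.Agent.R096.Log2_582 Crest.Agent.R096.Dic1_582
open Crest.Agent.R096.Msh_715 Crest.Agent.R096.Ea_713 Crest.Agent.R96.Hole_348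
open Crest.Agent.R096.Sk_962 (Q0 Qc0 dg SH)
open Crest.Agent.R096.Sk4_663 (Zd)
open Crest.Agent.R096.Sq_477
open Crest.Agent.R096.SkC1_961 (E3 Hom3 FoamD Cfg NN)
open Crest.Agent.R096.SkN1_477 Crest.Agent.R096.No0_477 Crest.Agent.R096.Nl_234
open Crest.Agent.R096.Mbf_337

noncomputable section

/-- `f` in the stretched coordinates -/
def fL (f : R3 → R3) (L : ℕ) (hL : (L : ℝ) ≠ 0) (y : E3) : E3 := e3 (f (e3.symm (RL L hL y)))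

/-- the tiles near the tiny cores -/
def Vti {F ι : Type*} (X : Set F) (V : F → Set ι) : Set ι := {i | ∃ c, c ∉ X ∧ i ∈ V c}

/-- the tiles which count for the set `Z`: they meet `Z` or lie in the ring of a macro ball which
meets `Z` -/
def IZ {Om : Set E3} {ι β : Type} (T : Tiling Om ι) (Z : Set E3) (b : β → E3) (R1 : β → ℝ)
    (Sc : β → Finset ι) : Set ι :=
  {i | (P (T.H i) ∩ Z).Nonempty ∨ ∃ c, (closedBall (b c) (R1 c) ∩ Z).Nonempty ∧ i ∈ Sc c}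

/-- the tile `i` meets a uniform (= designated) square -/
def MU {Om : Set E3} {ι : Type} (T : Tiling Om ι) (r : ℝ) (hr : r ≠ 0) (a : E3) (o : Fin 2 → ℤ)
    (M : ℕ) (Zs : Finset ℤ) (U : ℤ → (Fin 2 → ℕ) → Prop) (i : ι) : Prop :=
  ∃ k ∈ Fc M Zs, U k.1 k.2 ∧ (P (T.H i) ∩ usq (fr (vx a r o k.1 k.2) r hr)).Nonempty

/-- the tile `i` meets a junk square -/
def MJ {Om : Set E3} {ι : Type} (T : Tiling Om ι) (r : ℝ) (hr : r ≠ 0) (a : E3) (o : Fin 2 → ℤ)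
    (M : ℕ) (Zs : Finset ℤ) (U : ℤ → (Fin 2 → ℕ) → Prop) (i : ι) : Prop :=
  ∃ k ∈ Fc M Zs, ¬ U k.1 k.2 ∧ (P (T.H i) ∩ usq (fr (vx a r o k.1 k.2) r hr)).Nonempty

section Pre

variable {δ κ0 R c0 : ℝ} {La : Set E3} {ι : Type}

/-- **before the machine, part 1: everything which does not depend on the levels.**
`f0` = the given map (stretched), `f1` = the map which is given to the machine, `Kc` = bound of the
exact cores, `cnt i` = (number of the junk squares which meet the tile `i`) * `r ^ 3`. -/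
structure PreG (p : ℝ) (s : Fin 3 → ℝ) (L : ℕ) (η ε ε' C0 κ1 κ2 : ℝ) (𝒮 : Set (Set (Set E3)))
    (t : ℝ) (Cf : ℝ≥0∞) (f0 f1 : E3 → E3) (q : ℕ) (al : Fin 3 → ℝ) (h : ℝ)
    (Φ : FoamD δ κ0 R c0 La)
    (T : Tiling (QL L) ι) (X : Set Φ.F) (J0 J V : Φ.F → Set ι) (ct : Φ.F → ι)
    (A : Φ.F → E3 ≃ᵃ[ℝ] E3) (lam : Φ.F → ℝ) (z : Φ.F → E3) (θ : Φ.F → E3 → E3) (φ : Φ.F → E3 → ℝ)
    (𝒬 : Set (Set E3)) (r : ℝ) (hr : r ≠ 0) (a : E3) (o : Fin 2 → ℤ) (M : ℕ) (Zs : Finset ℤ)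
    (U : ℤ → (Fin 2 → ℕ) → Prop) {β : Type} (b : β → E3) (R0 R1 : β → ℝ) (Sc : β → Finset ι)
    (d : ι → ℝ) (Kc cnt : ι → ℝ) : Prop where
  hom : Hom3 f1 (QL L) La
  /-- the preprocessing moves little near the boundary (any constant) -/
  nb : ∃ Cn : ℝ, 0 ≤ Cn ∧ ∀ y ∈ QL L, ‖f1 y - f0 y‖ ≤ Cn * infDist (f0 y) Laᶜ
  star : Star Φ
  rho : ∀ c : Φ.F, ∀ y ∈ c.1.set, c.1.sz ≤ infDist y Laᶜ
  size : ∀ c : Φ.F, C0 * c.1.sz ≤ ε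
  q1 : 1 ≤ q
  h0 : 0 < h
  cores : Cores Φ T f1 κ1 κ2 X J0 J V ct A lam z θ φ
  fine : Fine Φ T f1 κ1 J0
  shape : 𝒬 ∈ 𝒮
  geo : NOGeo T (⋃ c, V c) 𝒬 L η r hr a o M Zs U
  /-- few junk squares -/
  nU : (({k : ℤ × (Fin 2 → ℕ) | k ∈ Fc M Zs ∧ ¬ U k.1 k.2}).ncard : ℝ) ≤
    ε * ((Zs.card : ℝ) * M ^ 2)
  /-- nearly all points are mapped into closed good squares of the log foam -/
  gvol : volume {x | x ∈ QL L ∧ ¬ ∃ e o' i j : ℤ, GSq Φ.F q al h e o' i j ∧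
    Φ.Psi (f1 x) ∈ sqr al h e o' i j} ≤ ENNReal.ofReal (ε * ((Zs.card : ℝ) * M ^ 2) * r ^ 3)
  /-- ends of the lines -/
  ends : ∀ j : Fin 2, ∑ m ∈ Zs, ∑ t ∈ Finset.range (M + 1),
    |(f1 (vx a r o m (fun i => if i = j then M else t)) -
      f1 (vx a r o m (fun i => if i = j then 0 else t))) j.castSucc - s j.castSucc * (M * r)| ≤
      ε * ((Zs.card : ℝ) * M)
  /-- macro balls round the tiny cores -/
  mac : Macro T (Vti X V) b R0 R1 Sc d t Cf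
  osc : ∀ c, ∀ x ∈ closedBall (b c) (R1 c), ∀ y ∈ closedBall (b c) (R1 c),
    ‖f1 x - f1 y‖ ≤ infDist (f1 y) Laᶜ
  /-- the slices miss the macro balls -/
  av : ∀ m ∈ Zs, ∀ c, ∀ x ∈ closedBall (b c) (R1 c), |x 0| < 1 - η → |x 1| < 1 - η →
    x 2 ≠ a 2 + r * m
  /-- exact cores: energy of their tiles -/
  kc0 : ∀ i, 0 ≤ Kc i
  kc : ∀ c ∈ X, 1 / lam c * ‖lin (A c)‖ ≤ Kc (ct c)
  kcs : ∑' i : {i // (∃ c, i ∈ V c) ∧ i ∉ Vti X V},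
    ENNReal.ofReal (Kc i ^ p) * volume (P (T.H i)) ≤ ENNReal.ofReal ε'
  /-- junk squares: number of those which meet a tile -/
  cnt0 : ∀ i, 0 ≤ cnt i
  cn : ∀ i, (({k : ℤ × (Fin 2 → ℕ) | k ∈ Fc M Zs ∧ ¬ U k.1 k.2 ∧
    (P (T.H i) ∩ usq (fr (vx a r o k.1 k.2) r hr)).Nonempty}).ncard : ℝ) * r ^ 3 ≤ cnt i
  jV : ∀ i ∈ Vti X V, ¬ MJ T r hr a o M Zs U i
  jc : ∑' i : {i // ((∃ c, i ∈ V c) ∧ i ∉ Vti X V) ∧ MJ T r hr a o M Zs U i},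
    ENNReal.ofReal (Kc i ^ p) * ENNReal.ofReal (cnt i) ≤
      ENNReal.ofReal (ε' * ((Zs.card : ℝ) * M ^ 2) * r ^ 3)

/-- **before the machine, part 2: the levels and their numbers.**  `HT` = ordinary tiles over the
horizontal log walls (not touching the excluded tiles), `B` = frames of the tiles, `C` = the constant
of the machine (function of the shape). -/
structure PreN (p : ℝ) (s : Fin 3 → ℝ) (L : ℕ) (η ε ε' e₂ S1 S KS κp μ κ3 : ℝ)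
    (C : Set (Set E3) → ℝ) (𝒮 : Set (Set (Set E3))) (f1 : E3 → E3) (q : ℕ) (al : Fin 3 → ℝ) (h : ℝ)
    (Φ : FoamD δ κ0 R c0 La) (T : Tiling (QL L) ι) (X : Set Φ.F) (V : Φ.F → Set ι) (ct : Φ.F → ι)
    (A : Φ.F → E3 ≃ᵃ[ℝ] E3) (lam : Φ.F → ℝ) (z : Φ.F → E3) (Mg : Φ.F → ℕ)
    (r : ℝ) (hr : r ≠ 0) (a : E3) (o : Fin 2 → ℤ) (M : ℕ) (Zs : Finset ℤ)
    (U : ℤ → (Fin 2 → ℕ) → Prop) {β : Type} (b : β → E3) (R1 : β → ℝ) (Sc : β → Finset ι)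
    (cnt : ι → ℝ) (Z : Φ.F → Set ℝ) (m0 : Φ.F → ℕ) (κ : Φ.F → ℕ) (Lv : Φ.F → Finset ℝ) :
    Prop where
  lev : Levels Φ T f1 κp μ κ3 Z m0 κ Lv
  words : Words Φ T f1 X ct A lam z Mg Lv
  /-- exact weight of the logs -/
  wlog : ∀ c : Φ.F, IsLog q al h c.1 → (Lv c).card * (2 : ℝ)⁻¹ ^ κ c = h / 2
  /-- initial weight of the edges of uniform squares (the clause `wt` of `NONum`) -/
  wt : ∃ x : Fin 2 → ℤ → (Fin 2 → ℕ) → ℝ, (∀ j m v, 0 ≤ x j m v) ∧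
    (∀ m ∈ Zs, ∀ v, (∀ j, v j < M) → U m v → ∀ (j : Fin 2) (b : ℕ), b = 0 ∨ b = 1 →
      Vw Φ f1 κ Lv (side (fr (vx a r o m v) r hr) j b) ≤
        ENNReal.ofReal (r * (s j.castSucc +
          x j m (fun i => v i + if i = j then 0 else b)))) ∧
    ∀ j, ∑ m ∈ Zs, ∑ v ∈ Fintype.piFinset fun _ : Fin 2 => Finset.range (M + 1), x j m v ≤
      ε * ((Zs.card : ℝ) * M ^ 2)
  /-- weight of the tiles above the uniform squares -/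
  sq : ∃ Xq : ℤ → (Fin 2 → ℕ) → ℝ, (∀ m v, 0 ≤ Xq m v) ∧
    (∀ m ∈ Zs, ∀ v, (∀ j, v j < M) → U m v → ∀ i, P (T.H i) = cub (vx a r o m v) r →
      NN Φ T f1 κ Lv i ≤ ENNReal.ofReal (r * (S + Xq m v))) ∧
    (∀ D : Finset (ℤ × (Fin 2 → ℕ)), D ⊆ Fc M Zs →
      (∀ k ∈ D, U k.1 k.2 ∧ HWq Φ f1 q al h (cub (vx a r o k.1 k.2) r)) →
      ∑ k ∈ D, Xq k.1 k.2 ^ p ≤ ε * ((Zs.card : ℝ) * M ^ 2)) ∧
    (∀ D : Finset (ℤ × (Fin 2 → ℕ)), D ⊆ Fc M Zs →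
      (∀ k ∈ D, U k.1 k.2 ∧ ¬ HWq Φ f1 q al h (cub (vx a r o k.1 k.2) r)) →
      ∑ k ∈ D, (S + Xq k.1 k.2) ^ p ≤ ε' * ((Zs.card : ℝ) * M ^ 2))
  /-- energies of the tiles -/
  tl : ∃ (B : ι → E3 ≃ᵃ[ℝ] E3) (N : ι → ℝ) (HT : Set ι), (∀ i, 0 ≤ N i) ∧
    (∀ i, (∀ c, i ∉ V c) → NN Φ T f1 κ Lv i ≤ ENNReal.ofReal (N i)) ∧
    (∀ i, (∀ c, i ∉ V c) → MU T r hr a o M Zs U i → S1 * r ≤ N i) ∧
    (∀ i ∈ HT, (∀ c, i ∉ V c) ∧ (∀ c, ∀ j ∈ V c, Disjoint (P (T.H i)) (P (T.H j))) ∧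
      HWq Φ f1 q al h (P (T.H i)) ∧ (fun K => B i '' K) '' Cfg T i ∈ 𝒮) ∧
    ∑' i : {i // i ∈ HT}, ENNReal.ofReal ((N i * ‖lin (B i)‖) ^ p) * volume (P (T.H i)) ≤
      ENNReal.ofReal (KS / L) ∧
    ∑' i : {i // i ∈ HT ∧ i ∈ IZ T (ShL L η) b R1 Sc},
      ENNReal.ofReal ((N i * ‖lin (B i)‖) ^ p) * volume (P (T.H i)) ≤
        ENNReal.ofReal ((KS * η + e₂) / L) ∧
    ∑' i : {i // (∀ c, i ∉ V c) ∧ i ∉ HT},
      ENNReal.ofReal ((C ((fun K => B i '' K) '' Cfg T i) * N i * ‖lin (B i)‖) ^ p) *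
        volume (P (T.H i)) ≤ ENNReal.ofReal ε' ∧
    ∑' i : {i // i ∈ HT ∧ MJ T r hr a o M Zs U i},
      ENNReal.ofReal ((N i * ‖lin (B i)‖) ^ p) * ENNReal.ofReal (cnt i) ≤
        ENNReal.ofReal (ε * ((Zs.card : ℝ) * M ^ 2) * r ^ 3) ∧
    ∑' i : {i // ((∀ c, i ∉ V c) ∧ i ∉ HT) ∧ MJ T r hr a o M Zs U i},
      ENNReal.ofReal ((C ((fun K => B i '' K) '' Cfg T i) * N i * ‖lin (B i)‖) ^ p) *
        ENNReal.ofReal (cnt i) ≤ ENNReal.ofReal (ε' * ((Zs.card : ℝ) * M ^ 2) * r ^ 3)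

end Pre

/-- **NOPre**: everything before the machine. -/
def NOPre (p : ℝ) : Prop :=
  ∃ (𝒮 : Set (Set (Set E3))) (t : ℝ) (Cf : ℝ≥0∞), 𝒮.Finite ∧ Cf ≠ ⊤ ∧
  ∀ s : Fin 3 → ℝ, (∀ i, 0 ≤ s i) → s 2 = 0 → ∀ S1 : ℝ, 0 < S1 → ∃ S KS : ℝ, S1 ≤ S ∧ 0 ≤ KS ∧
  ∀ (ε η : ℝ) (L : ℕ) (hL : (L : ℝ) ≠ 0) (e₂ : ℝ), 0 < ε → 0 < η → η ≤ 1 / 8 → 1 ≤ L → 0 < e₂ →
  ∃ (q : ℕ) (δ κ0 R c0 κ2 κ3 : ℝ), 0 < δ ∧ 1 ≤ κ0 ∧ 1 ≤ R ∧ 0 < c0 ∧ 0 < κ2 ∧ 8 ≤ κ3 ∧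
  ∀ (C0 : ℝ) (C : Set (Set E3) → ℝ) (κp ε' : ℝ), 0 < C0 → (∀ 𝒦, 0 < C 𝒦) → 0 < κp → 0 < ε' →
  ∃ μ : ℝ, 0 < μ ∧ μ ≤ κp ∧
  ∀ κ1 : ℝ, 0 < κ1 → ∃ dd : ℝ, 0 < dd ∧
  ∀ (U₀ W₀ : Set R3) (f : R3 → R3) (G : Fin 3 → R3 → R3),
    IsOpen U₀ → Bornology.IsBounded U₀ → IsConnected U₀ →
    IsOpen W₀ → Bornology.IsBounded W₀ → IsConnected W₀ → Qc0 ⊆ U₀ →
    SH p U₀ W₀ f G →
    ∫⁻ x in Q0, ∑ j : Fin 3, ‖G j x - dg s j‖ₑ ^ p ≤ ENNReal.ofReal dd →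
    volume (Q0 \ Zd G) ≤ ENNReal.ofReal dd →
  ∃ (f1 : E3 → E3) (al : Fin 3 → ℝ) (h : ℝ) (Φ : FoamD δ κ0 R c0 (e3 '' (f '' Q0))) (ι : Type)
    (T : Tiling (QL L) ι) (X : Set Φ.F) (J0 J V : Φ.F → Set ι) (ct : Φ.F → ι)
    (A : Φ.F → E3 ≃ᵃ[ℝ] E3) (lam : Φ.F → ℝ) (z : Φ.F → E3) (θ : Φ.F → E3 → E3) (φ : Φ.F → E3 → ℝ)
    (Mg : Φ.F → ℕ) (𝒬 : Set (Set E3)) (r : ℝ) (hr : r ≠ 0) (a : E3) (o : Fin 2 → ℤ) (M : ℕ)
    (Zs : Finset ℤ) (U : ℤ → (Fin 2 → ℕ) → Prop) (β : Type) (b : β → E3) (R0 R1 : β → ℝ)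
    (Sc : β → Finset ι) (d Kc cnt : ι → ℝ),
    (p < 3 ∨ X = univ) ∧
    PreG p s L η ε ε' C0 κ1 κ2 𝒮 t Cf (fL f L hL) f1 q al h Φ T X J0 J V ct A lam z θ φ 𝒬 r hr a o
      M Zs U b R0 R1 Sc d Kc cnt ∧
    ∀ (Z : Φ.F → Set ℝ) (m0 : Φ.F → ℕ), (∀ c, volume (Z c) = 0) →
      ∃ (κ : Φ.F → ℕ) (Lv : Φ.F → Finset ℝ),
        PreN p s L η ε ε' e₂ S1 S KS κp μ κ3 C 𝒮 f1 q al h Φ T X V ct A lam z Mg r hr a o M Zs U b R1 Sc
          cnt Z m0 κ Lv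

end

end Crest.Agent.R096.No_276
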