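import Crest.Agent.R096.Gno3_324
import Crest.Agent.R096.Mal9_874

/-!
# Row 96 (S0127), NO0 / GEO (helper324), part 4: uniform squares of the aligned mesh

`Ug_ad` : a square whose cube is in the zone of scale `k` of the outer mesh and at distance `> r` of all
blocks is uniform in `M.mesh hS`; `bad_ad` : the number of the other squares.
-/

set_option autoImplicit false
set_option linter.style.longLine false
set_option linter.unusedSectionVars false

open MeasureTheory Set Filter Topology Metric
open scoped ENNReal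

namespace Crest.Agent.R096.Gno_324

open Crest.Agent.R096.Msh_715 Crest.Agent.R096.SkC1_961 Crest.Agent.R096.No0_477
open Crest.Agent.R096.Mal_874 Crest.Agent.R096.Cut_874 Crest.Agent.R096.Msh_810

noncomputable section

/-- dyadic cubes are lattice cubes -/
theorem Cu_eq_lcub {a : E3} {k : ℕ} {r : ℝ} (hr : r = 1 / 2 ^ k) (z : Fin 3 → ℤ) :
    Msh_810.Cu a k z = lcub a r z := by
  have hp : (0 : ℝ) < 2 ^ k := by positivity
  ext x
  rw [mem_Cu]
  unfold lcub ps
  refine forall_congr' fun i => ?_
  rw [hr]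
  constructor
  · rintro ⟨h1, h2⟩
    constructor
    · have : (z i : ℝ) / 2 ^ k ≤ x i - a i := by rw [div_le_iff₀' hp]; exact h1
      have e : 1 / (2 : ℝ) ^ k * z i = z i / 2 ^ k := by ring
      rw [e]; linarith
    · have : x i - a i ≤ ((z i : ℝ) + 1) / 2 ^ k := by rw [le_div_iff₀' hp]; exact h2
      have e : 1 / (2 : ℝ) ^ k * (z i + 1) = (z i + 1) / 2 ^ k := by ring
      rw [e]; linarith
  · rintro ⟨h1, h2⟩
    constructor
    · have e : 1 / (2 : ℝ) ^ k * z i = z i / 2 ^ k := by ring
      rw [e] at h1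
      rw [← div_le_iff₀' hp]; linarith
    · have e : 1 / (2 : ℝ) ^ k * (z i + 1) = (z i + 1) / 2 ^ k := by ring
      rw [e] at h2
      rw [← le_div_iff₀' hp]; linarith

theorem dist_le_of_mem_lcub {a : E3} {r : ℝ} (hr : 0 ≤ r) {z : Fin 3 → ℤ} {x y : E3}
    (hx : x ∈ lcub a r z) (hy : y ∈ lcub a r z) : dist x y ≤ r := by
  rw [dist_pi_le_iff hr]
  intro i
  rw [Real.dist_eq, abs_le]
  obtain ⟨h1, h2⟩ := hx i
  obtain ⟨h3, h4⟩ := hy i
  constructor <;> linarith

variable {J : Type} {M : AD E3 3 J} {Om' : J → Set E3} {ι' : J → Type}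
  {S : ∀ j, Tiling (Om' j) (ι' j)}





end

end Crest.Agent.R096.Gno_324
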