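import Crest.Agent.R096.Mal8_874
import Crest.Agent.R096.Tme1_234
import Crest.Agent.R096.Fns2_360

-- ▼ part R096/Tme2_234
section

/-!
Row 96 (S0127), helper234.  TMESH-RHO, abstract part: size functions (`Msh_810.Dat`) from a hereditary
local property, and a size function with EXACT scales on a compact set (the bulk) and on a locally
finite family of disjoint compact sets (the zones).
-/

set_option autoImplicit false
set_option linter.style.longLine false
set_option linter.unusedSectionVars false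

open Set Filter Topology Metric

namespace Crest.Agent.R096.Tme_234

open Crest.Agent.R096.Msh_810 Crest.Agent.R096.Mal_874

variable {n : ℕ}

noncomputable section

section good

variable (Om : Set (Fin n → ℝ)) (Q : Set (Fin n → ℝ) → Prop)

/-- the good radii at `x` -/
def gr (x : Fin n → ℝ) : Set ℝ := {r | 0 < r ∧ r ≤ 1 ∧ ball x r ⊆ Om ∧ Q (ball x r)}

/-- the supremum of the good radii -/
def rg (x : Fin n → ℝ) : ℝ := sSup (gr Om Q x)

variable {Om Q}









end good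

/-! ### exact scales -/

/-- **the scale of the mesh is exactly `k` on `S`** (form stable under refinement elsewhere) -/
def ExactOn (D : Dat n) (S : Set (Fin n → ℝ)) (k : ℕ) : Prop :=
  ∀ x ∈ S, D.ρ x ≤ D.C / 2 ^ k ∧ ∀ y, dist x y ≤ (2 ^ k)⁻¹ → D.C / 2 ^ k ≤ D.ρ y

theorem ExactOn.K_eq {D : Dat n} {S : Set (Fin n → ℝ)} {k : ℕ} (h : ExactOn D S k) {x : Fin n → ℝ}
    (hx : x ∈ S) : K D x = k := by
  have hp : (0 : ℝ) < 2 ^ k := by positivity
  have hC := D.C_pos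
  refine K_eq_of (fun y hy => ?_) ?_
  · have := (h x hx).2 y hy
    rw [div_le_iff₀' hp] at this
    exact this
  · have := (h x hx).1
    rw [le_div_iff₀' hp] at this
    linarith

/-- every tile which meets `S` has the scale `k` -/
theorem ExactOn.tile {D : Dat n} {S : Set (Fin n → ℝ)} {k : ℕ} (h : ExactOn D S k) {τ : Cel D}
    (hτ : (τ.c ∩ S).Nonempty) : τ.1.k = k := by
  obtain ⟨y, hy, hyS⟩ := hτ
  have hp : (0 : ℝ) < 2 ^ k := by positivity
  have hC := D.C_pos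
  have h1 : τ.1.k ≤ k := by
    rw [← h.K_eq hyS]
    exact τ.2.le_K hy
  refine le_antisymm h1 ?_
  have h2 : D.C ≤ 2 ^ τ.1.k * D.ρ y := τ.2.lower hy
  have h3 := (h y hyS).1
  have h4 : D.C ≤ 2 ^ τ.1.k * (D.C / 2 ^ k) :=
    h2.trans (mul_le_mul_of_nonneg_left h3 (by positivity))
  by_contra hcon
  push Not at hcon
  have h5 : (2 : ℝ) ^ τ.1.k < 2 ^ k := pow_lt_pow_right₀ (by norm_num) hcon
  have h6 : (2 : ℝ) ^ τ.1.k * (D.C / 2 ^ k) < 2 ^ k * (D.C / 2 ^ k) :=
    mul_lt_mul_of_pos_right h5 (by positivity)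
  have h7 : (2 : ℝ) ^ k * (D.C / 2 ^ k) = D.C := by field_simp
  linarith


section walls

variable {J : Type*} {D0 : Dat n} {W : J → Set (Fin n → ℝ)}

theorem fin_meet {Om : Set (Fin n → ℝ)}
    (hlf : ∀ x ∈ Om, ∃ r > 0, {j | (W j ∩ ball x r).Nonempty}.Finite)
    {S : Set (Fin n → ℝ)} (hS : IsCompact S) (hSO : S ⊆ Om) : {j | (W j ∩ S).Nonempty}.Finite := by
  have h1 : ∀ x ∈ S, ∃ r > 0, {j | (W j ∩ ball x r).Nonempty}.Finite := fun x hx => hlf x (hSO hx)
  choose! r hr hfin using h1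
  obtain ⟨t, ht, hcov⟩ := hS.elim_nhds_subcover (fun x => ball x (r x))
    fun x hx => ball_mem_nhds x (hr x hx)
  refine (t.finite_toSet.biUnion (t := fun x => {j | (W j ∩ ball x (r x)).Nonempty})
    fun x hx => hfin x (ht x hx)).subset ?_
  rintro j ⟨y, hy, hyS⟩
  obtain ⟨x, hx, hyx⟩ := mem_iUnion₂.1 (hcov hyS)
  exact mem_biUnion hx ⟨y, hy, hyx⟩

theorem isOpen_compl_walls {Om : Set (Fin n → ℝ)} (hOm : IsOpen Om) (hc : ∀ j, IsClosed (W j))
    (hlf : ∀ x ∈ Om, ∃ r > 0, {j | (W j ∩ ball x r).Nonempty}.Finite) (p : J → Prop) :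
    IsOpen {x ∈ Om | ∀ l, p l → x ∉ W l} := by
  rw [isOpen_iff_mem_nhds]
  rintro x ⟨hx, hxW⟩
  obtain ⟨r, hr, hfin⟩ := hlf x hx
  have h1 : ∀ᶠ y in 𝓝 x, ∀ l ∈ {j | (W j ∩ ball x r).Nonempty}, p l → y ∉ W l := by
    rw [eventually_all_finite hfin]
    intro l _
    by_cases hl : p l
    · filter_upwards [(hc l).isOpen_compl.mem_nhds (hxW l hl)] with y hy _ using hy
    · exact Eventually.of_forall fun _ h => absurd h hl
  filter_upwards [h1, hOm.mem_nhds hx, ball_mem_nhds x hr] with y h2 h3 h4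
  exact ⟨h3, fun l hl hyl => h2 l ⟨y, hyl, h4⟩ hl hyl⟩

/-- room around a compact set which misses the walls `l`, `p l` -/
theorem room (hc : ∀ j, IsClosed (W j)) (hne : ∀ j, (W j).Nonempty)
    (hlf : ∀ x ∈ D0.Om, ∃ r > 0, {j | (W j ∩ ball x r).Nonempty}.Finite) {S : Set (Fin n → ℝ)}
    (hS : IsCompact S) (hSO : S ⊆ D0.Om) (p : J → Prop) (hp : ∀ l, p l → Disjoint S (W l)) :
    ∃ η > 0, ∀ x ∈ S, ∀ y, dist x y ≤ η → η ≤ D0.ρ y ∧ ∀ l, p l → η ≤ infDist y (W l) := by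
  have hOm : IsOpen D0.Om := isOpen_lt continuous_const D0.continuous_ρ
  obtain ⟨δ, hδ, hsub⟩ := hS.exists_cthickening_subset_open (isOpen_compl_walls hOm hc hlf p)
    fun x hx => ⟨hSO hx, fun l hl hxl => disjoint_left.1 (hp l hl) hx hxl⟩
  have hKc : IsCompact (cthickening δ S) := hS.cthickening
  have hm : ∃ m > 0, ∀ y ∈ cthickening δ S, m ≤ D0.ρ y := by
    rcases (cthickening δ S).eq_empty_or_nonempty with he | hn
    · exact ⟨1, one_pos, fun y hy => by rw [he] at hy; exact absurd hy (notMem_empty y)⟩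
    · obtain ⟨y0, hy0, hmin⟩ := hKc.exists_isMinOn hn D0.continuous_ρ.continuousOn
      exact ⟨D0.ρ y0, (hsub hy0).1, fun y hy => hmin hy⟩
  obtain ⟨m, hm0, hm⟩ := hm
  refine ⟨min m (δ / 2), lt_min hm0 (by linarith), fun x hx y hxy => ?_⟩
  have h1 : min m (δ / 2) ≤ δ / 2 := min_le_right _ _
  have hmem : ∀ z, dist x z ≤ δ → z ∈ cthickening δ S := fun z hz =>
    mem_cthickening_of_dist_le z x δ S hx (by rw [dist_comm]; exact hz)
  refine ⟨(min_le_left _ _).trans (hm y (hmem y (by linarith))), fun l hl => ?_⟩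
  rw [le_infDist (hne l)]
  intro z hz
  by_contra hcon
  push Not at hcon
  have h2 : dist x z ≤ δ := by
    have := dist_triangle x y z
    linarith
  exact (hsub (hmem z h2)).2 l hl hz

/-- the size function cut off at `C 2^-kb` -/
def cutD (D0 : Dat n) (kb : ℕ) : Dat n where
  ρ x := min (D0.C / 2 ^ kb) (D0.ρ x)
  C := D0.C
  a := D0.a
  lip x y := by
    have h1 := D0.lip x y
    rcases le_total (D0.C / 2 ^ kb) (D0.ρ y) with h2 | h2
    · rw [min_eq_left h2]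
      exact (min_le_left _ _).trans (by linarith [dist_nonneg (x := x) (y := y)])
    · rw [min_eq_right h2]
      exact (min_le_right _ _).trans h1
  nonneg x := le_min (div_nonneg D0.C_pos.le (by positivity)) (D0.nonneg x)
  le_one x := (min_le_right _ _).trans (D0.le_one x)
  hC := D0.hC

theorem cutD_ρ {kb : ℕ} (x : Fin n → ℝ) : (cutD D0 kb).ρ x = min (D0.C / 2 ^ kb) (D0.ρ x) := rfl

theorem cutD_Om {kb : ℕ} : (cutD D0 kb).Om = D0.Om := by
  ext x
  show 0 < min (D0.C / 2 ^ kb) (D0.ρ x) ↔ 0 < D0.ρ x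
  have := D0.C_pos
  rw [lt_min_iff]
  exact ⟨fun h => h.2, fun h => ⟨by positivity, h⟩⟩

theorem exists_pow_le {C η : ℝ} (hη : 0 < η) : ∃ k0 : ℕ, ∀ k, k0 ≤ k → C / 2 ^ k ≤ η := by
  obtain ⟨k0, hk0⟩ := pow_unbounded_of_one_lt (C / η) (by norm_num : (1 : ℝ) < 2)
  refine ⟨k0, fun k hk => ?_⟩
  have h1 : (2 : ℝ) ^ k0 ≤ 2 ^ k := pow_le_pow_right₀ (by norm_num) hk
  rw [div_le_iff₀ (by positivity)]
  rw [div_lt_iff₀ hη] at hk0
  nlinarith

/-- **exact scales**: `kb` on the bulk `Kb`, `k j ≥ k0 j` on the zone `W j`, with `k j = kb` for the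
zones which meet the bulk -/
theorem exists_exact (D0 : Dat n) (hc : ∀ j, IsCompact (W j)) (hne : ∀ j, (W j).Nonempty)
    (hsub : ∀ j, W j ⊆ D0.Om) (hdis : ∀ j l, j ≠ l → Disjoint (W j) (W l))
    (hlf : ∀ x ∈ D0.Om, ∃ r > 0, {j | (W j ∩ ball x r).Nonempty}.Finite) (k0 : J → ℕ)
    {Kb : Set (Fin n → ℝ)} (hKb : IsCompact Kb) (hKbO : Kb ⊆ D0.Om) :
    ∃ kb0 : ℕ, ∀ kb, kb0 ≤ kb → ∃ k : J → ℕ, (∀ j, k0 j ≤ k j) ∧ (∀ j, kb ≤ k j) ∧
      (∀ j, (W j ∩ Kb).Nonempty → k j = kb) ∧ ∃ ρ : (Fin n → ℝ) → ℝ, ∀ a : Fin n → ℝ,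
      ∃ D : Dat n, D.ρ = ρ ∧ D.C = D0.C ∧ D.a = a ∧ D.Om = D0.Om ∧ (∀ x, D.ρ x ≤ D0.ρ x) ∧
        (∀ x, D.ρ x ≤ D.C / 2 ^ kb) ∧ (∀ j, ExactOn D (W j) (k j)) ∧ ExactOn D Kb kb := by
  have hC := D0.C_pos
  have hC1 := D0.hC
  -- the zones which meet the bulk
  set J1 : Set J := {j | (W j ∩ Kb).Nonempty} with hJ1
  have hJ1f : J1.Finite := fin_meet hlf hKb hKbO
  -- thresholds of the zones
  have hη : ∀ j, ∃ η > 0, ∀ x ∈ W j, ∀ y, dist x y ≤ η →
      η ≤ D0.ρ y ∧ ∀ l, l ≠ j → η ≤ infDist y (W l) := fun j =>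
    room (fun j => (hc j).isClosed) hne hlf (hc j) (hsub j) (fun l => l ≠ j)
      fun l hl => hdis j l (Ne.symm hl)
  choose η hη0 hη using hη
  have hk1 : ∀ j, ∃ k1 : ℕ, ∀ k, k1 ≤ k → D0.C / 2 ^ k ≤ η j := fun j => exists_pow_le (hη0 j)
  choose k1 hk1 using hk1
  -- threshold of the bulk
  obtain ⟨ηb, hηb0, hηb⟩ := room (fun j => (hc j).isClosed) hne hlf hKb hKbO (fun l => l ∉ J1)
    (fun l hl => by
      rw [disjoint_left]
      intro x hx hxl
      exact hl ⟨x, hxl, hx⟩)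
  obtain ⟨kb1, hkb1⟩ := exists_pow_le hηb0
  refine ⟨max kb1 (hJ1f.toFinset.sup fun j => max (k0 j) (k1 j)), fun kb hkb => ?_⟩
  classical
  have hkbJ : ∀ j ∈ J1, k0 j ≤ kb ∧ k1 j ≤ kb := by
    intro j hj
    have h1 : max (k0 j) (k1 j) ≤ hJ1f.toFinset.sup fun j => max (k0 j) (k1 j) :=
      Finset.le_sup (f := fun j => max (k0 j) (k1 j)) (hJ1f.mem_toFinset.2 hj)
    have h2 := (h1.trans (le_max_right _ _)).trans hkb
    exact ⟨(le_max_left _ _).trans h2, (le_max_right _ _).trans h2⟩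
  have hkbb : D0.C / 2 ^ kb ≤ ηb := hkb1 kb ((le_max_left _ _).trans hkb)
  let k : J → ℕ := fun j => if j ∈ J1 then kb else max kb (max (k0 j) (k1 j))
  have hk0 : ∀ j, k0 j ≤ k j := by
    intro j
    by_cases hj : j ∈ J1
    · simp only [k, if_pos hj]; exact (hkbJ j hj).1
    · simp only [k, if_neg hj]; exact (le_max_left _ _).trans (le_max_right _ _)
  have hk1' : ∀ j, k1 j ≤ k j := by
    intro j
    by_cases hj : j ∈ J1
    · simp only [k, if_pos hj]; exact (hkbJ j hj).2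
    · simp only [k, if_neg hj]; exact (le_max_right _ _).trans (le_max_right _ _)
  have hkb' : ∀ j, kb ≤ k j := by
    intro j
    by_cases hj : j ∈ J1
    · simp only [k, if_pos hj]; exact le_rfl
    · simp only [k, if_neg hj]; exact le_max_left _ _
  have hinv : ∀ m : ℕ, (2 ^ m : ℝ)⁻¹ ≤ D0.C / 2 ^ m := by
    intro m
    rw [← one_div]
    gcongr
  refine ⟨k, hk0, hkb', fun j hj => by simp only [k]; exact if_pos hj,
    (outD (cutD D0 kb) k W 0).ρ, fun a => ⟨outD (cutD D0 kb) k W a, rfl, rfl, rfl, ?_, ?_, ?_, ?_, ?_⟩⟩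
  · rw [outD_Om hne (by rw [cutD_Om]; exact hlf), cutD_Om]
  · intro x
    exact (outD_le_ρ0 x).trans (min_le_right _ _)
  · intro x
    exact (outD_le_ρ0 x).trans (min_le_left _ _)
  · intro j x hx
    constructor
    · have h1 := outD_le (D0 := cutD D0 kb) (k := k) (W := W) (a := a) x (some j)
      have h2 : outF (cutD D0 kb).ρ (cutD D0 kb).C k W x (some j) =
          D0.C / 2 ^ k j + infDist x (W j) := rfl
      rw [h2, infDist_zero_of_mem hx, add_zero] at h1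
      exact h1
    · intro y hy
      have hCη : D0.C / 2 ^ k j ≤ η j := hk1 j _ (hk1' j)
      have h3 := hη j x hx y ((hy.trans (hinv _)).trans hCη)
      refine le_outD ?_ fun l => ?_
      · rw [cutD_ρ]
        refine le_min ?_ (hCη.trans h3.1)
        exact div_le_div_of_nonneg_left hC.le (by positivity)
          (pow_le_pow_right₀ (by norm_num) (hkb' j))
      · by_cases hl : l = j
        · rw [hl]
          have := infDist_nonneg (s := W j) (x := y)
          show D0.C / 2 ^ k j ≤ D0.C / 2 ^ k j + infDist y (W j)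
          linarith
        · have h4 := h3.2 l hl
          have h5 : 0 < D0.C / 2 ^ k l := by positivity
          show D0.C / 2 ^ k j ≤ D0.C / 2 ^ k l + infDist y (W l)
          linarith
  · intro x hx
    constructor
    · exact (outD_le_ρ0 x).trans (min_le_left _ _)
    · intro y hy
      have h3 := hηb x hx y ((hy.trans (hinv _)).trans hkbb)
      refine le_outD ?_ fun l => ?_
      · rw [cutD_ρ]
        exact le_min le_rfl (hkbb.trans h3.1)
      · by_cases hl : l ∈ J1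
        · have h6 : k l = kb := by simp only [k]; exact if_pos hl
          have := infDist_nonneg (s := W l) (x := y)
          show D0.C / 2 ^ kb ≤ D0.C / 2 ^ k l + infDist y (W l)
          rw [h6]
          linarith
        · have h4 := h3.2 l hl
          have h5 : 0 < D0.C / 2 ^ k l := by positivity
          show D0.C / 2 ^ kb ≤ D0.C / 2 ^ k l + infDist y (W l)
          linarith

end walls

end

end Crest.Agent.R096.Tme_234
end

-- ▼ part R096/Tme3_234

/-!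
Row 96 (S0127), helper234.  TMESH-RHO (T3-ρ): the base mesh of the meshes with tiny cores.

`exists_base`: for a foam whose holes have their preimages in small disjoint balls
`closedBall (x c) (2 * R c)` there are scales `kb` (bulk), `k c` (zones) such that for every shift `a`
there is a Whitney tiling of `Om` which is the lattice of scale `k c` in `closedBall (x c) (2 * R c)`, the
lattice of scale `kb` on the bulk, and fine off the balls `closedBall (x c) (R c / 2)`.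
-/

set_option autoImplicit false
set_option linter.style.longLine false
set_option linter.unusedSectionVars false

open MeasureTheory Set Filter Topology Metric
open scoped ENNReal

namespace Crest.Agent.R096.Tme_234

open Crest.Agent.R096.Bsp_628 Crest.Agent.R096.Brk1_582
open Crest.Agent.R096.Msh_715
open Crest.Agent.R096.Msh_810 (Cu Hc hc ps mem_Cu P_Hc Dat Top Cel tiling cf)
open Crest.Agent.R096.SkC1_961 (E3 Hom3 FoamD Cfg)
open Crest.Agent.R096.Mbf_337 Crest.Agent.R096.Tms_582 Crest.Agent.R096.Fns_360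

noncomputable section

/-! ### lattices and translates -/

section lat

variable {n : ℕ}

/-- the lattice point below `a`, in units of `2^-k` -/
def flr (a : Fin n → ℝ) (k : ℕ) (i : Fin n) : ℤ := ⌊(2 : ℝ) ^ k * a i⌋

/-- the representative of `a` modulo `2^-k` in the cube `[0, 2^-k)^n` -/
def wmod (a : Fin n → ℝ) (k : ℕ) (i : Fin n) : ℝ := a i - (flr a k i : ℝ) / 2 ^ k

theorem wmod_nonneg (a : Fin n → ℝ) (k : ℕ) (i : Fin n) : 0 ≤ wmod a k i := by
  have hp : (0 : ℝ) < 2 ^ k := by positivity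
  unfold wmod flr
  rw [sub_nonneg, div_le_iff₀' hp]
  exact Int.floor_le _

theorem wmod_lt (a : Fin n → ℝ) (k : ℕ) (i : Fin n) : wmod a k i < (2 : ℝ)⁻¹ ^ k := by
  have hp : (0 : ℝ) < 2 ^ k := by positivity
  unfold wmod flr
  rw [sub_lt_iff_lt_add, inv_pow, ← one_div, ← add_div, lt_div_iff₀' hp]
  have := Int.lt_floor_add_one ((2 : ℝ) ^ k * a i)
  linarith

/-- **the lattice with the shift `a` is the lattice with the shift `wmod a k`** -/
theorem Hc_mod {E : Type*} [NormedAddCommGroup E] [NormedSpace ℝ E] (φ : E ≃L[ℝ] (Fin n → ℝ))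
    (a : Fin n → ℝ) (k : ℕ) (z : Fin n → ℤ) :
    Hc φ a k z = Hc φ (wmod a k) k (fun i => z i + flr a k i) := by
  have e : hc φ a k z = hc φ (wmod a k) k (fun i => z i + flr a k i) := by
    funext p
    unfold hc
    have hp : (2 : ℝ) ^ k ≠ 0 := by positivity
    have h1 : a p.1 + ((z p.1 : ℝ) + 1) / 2 ^ k =
        wmod a k p.1 + ((((z p.1 + flr a k p.1 : ℤ)) : ℝ) + 1) / 2 ^ k := by
      unfold wmod
      push_cast
      field_simp
      ring
    have h2 : a p.1 + (z p.1 : ℝ) / 2 ^ k =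
        wmod a k p.1 + (((z p.1 + flr a k p.1 : ℤ)) : ℝ) / 2 ^ k := by
      unfold wmod
      push_cast
      field_simp
      ring
    rw [h1, h2]
  unfold Hc
  rw [e]

end lat

/-! ### the Whitney tiling as a tiling of `Om` -/

/-- 810's tiling in the standard frame, as a tiling of `Om` -/
def baseT {Om : Set E3} (D : Dat 3) (h : D.Om = Om) : Tiling Om (Top D) where
  H := (tiling idE D).H
  cpt := (tiling idE D).cpt
  ne := (tiling idE D).ne
  sub i := by
    have h2 : idE ⁻¹' D.Om = Om := h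
    exact ((tiling idE D).sub i).trans h2.subset
  cov x hx := (tiling idE D).cov x (by
    have h2 : idE ⁻¹' D.Om = Om := h
    rw [h2]; exact hx)
  dis := (tiling idE D).dis
  lf x hx := (tiling idE D).lf x (by
    have h2 : idE ⁻¹' D.Om = Om := h
    rw [h2]; exact hx)
  op := by
    have h1 := (tiling idE D).op
    have h2 : idE ⁻¹' D.Om = Om := h
    rw [h2] at h1
    exact h1

theorem baseT_H {Om : Set E3} (D : Dat 3) (h : D.Om = Om) (τ : Top D) :
    (baseT D h).H τ = Hc idE D.a τ.1.1.k τ.1.1.z := rfl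

theorem P_baseT {Om : Set E3} (D : Dat 3) (h : D.Om = Om) (τ : Top D) :
    P ((baseT D h).H τ) = τ.1.c := by
  rw [baseT_H, P_Hc, ← Msh_810.Top.c_eq]
  rfl

/-- the tiles which meet a set of exact scale `k` are the cubes of the lattice of scale `k` -/
theorem ExactOn.baseT {Om : Set E3} {D : Dat 3} (h : D.Om = Om) {S : Set E3} {k : ℕ}
    (hS : ExactOn D S k) {τ : Top D} (hτ : (P ((baseT D h).H τ) ∩ S).Nonempty) :
    ∃ z, (Tme_234.baseT D h).H τ = Hc idE D.a k z := by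
  rw [P_baseT] at hτ
  have h1 := hS.tile hτ
  exact ⟨τ.1.1.z, by rw [baseT_H, h1]⟩

variable {δ κ0 R0 c0 : ℝ} {La Om : Set E3}

/-- **T3-ρ** -/
theorem exists_base (Φ : FoamD δ κ0 R0 c0 La) (hOm : IsOpen Om) (hLa : IsOpen La) (hδ : 0 < δ)
    (hR0 : 0 < R0) {f : E3 → E3} (hf : Hom3 f Om La) {κ1 : ℝ} (hκ1 : 0 < κ1) (x : Φ.F → E3)
    (R : Φ.F → ℝ) (hR : ∀ c, 0 < R c) (hsub : ∀ c, closedBall (x c) (2 * R c) ⊆ Om)
    (hdis : ∀ c c', c ≠ c' → Disjoint (closedBall (x c) (2 * R c)) (closedBall (x c') (2 * R c')))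
    (hlf : ∀ y ∈ Om, ∃ r > 0, {c | (closedBall (x c) (2 * R c) ∩ ball y r).Nonempty}.Finite)
    (hhole : ∀ p ∈ Om, ∀ c, f p ∈ (Φ.B c).S → p ∈ ball (x c) (R c / 2)) (k0 : Φ.F → ℕ) {C : ℝ}
    (hC : 1 < C) (ρ0 : E3 → ℝ) (hρ0 : ∀ y z, ρ0 y ≤ ρ0 z + dist y z) (hρ0n : ∀ y, 0 ≤ ρ0 y)
    (hρ0p : ∀ y ∈ Om, 0 < ρ0 y) {Kb : Set E3} (hKb : IsCompact Kb) (hKbO : Kb ⊆ Om) :
    ∃ kb0 : ℕ, ∀ kb, kb0 ≤ kb → ∃ k : Φ.F → ℕ, (∀ c, k0 c ≤ k c) ∧ (∀ c, kb ≤ k c) ∧
      (∀ c, (2 : ℝ)⁻¹ ^ k c ≤ R c / 16) ∧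
      (∀ c, (closedBall (x c) (2 * R c) ∩ Kb).Nonempty → k c = kb) ∧ ∃ ρ : E3 → ℝ,
      (∀ y, ρ y ≤ ρ0 y) ∧ (∀ y, ρ y ≤ C / 2 ^ kb) ∧ ∀ a : E3,
      ∃ (D : Dat 3) (h : D.Om = Om), D.ρ = ρ ∧ D.C = C ∧ D.a = a ∧
        (∀ c, ExactOn D (closedBall (x c) (2 * R c)) (k c)) ∧ ExactOn D Kb kb ∧
        (∀ c τ, (P ((baseT D h).H τ) ∩ closedBall (x c) (2 * R c)).Nonempty →
          ∃ z, (baseT D h).H τ = Hc idE (wmod a (k c)) (k c) z) ∧
        (∀ τ, (P ((baseT D h).H τ) ∩ Kb).Nonempty → ∃ z, (baseT D h).H τ = Hc idE a kb z) ∧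
        ∀ τ, (∀ c, Disjoint (P ((baseT D h).H τ)) (closedBall (x c) (R c / 2))) →
          FineAt Φ (baseT D h) f κ1 τ := by
  obtain ⟨fi, hfm, hfim, hl, hri, hfc, hfic⟩ := id hf
  -- the points off the open half balls
  have hlf2 : ∀ y ∈ Om, ∃ r > 0, {c | (closedBall (x c) (R c / 2) ∩ ball y r).Nonempty}.Finite := by
    intro y hy
    obtain ⟨r, hr, hfin⟩ := hlf y hy
    refine ⟨r, hr, hfin.subset ?_⟩
    rintro c ⟨z, hz, hz'⟩
    exact ⟨z, closedBall_subset_closedBall (by linarith [hR c]) hz, hz'⟩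
  set X : Set E3 := {y | ∀ c, y ∉ ball (x c) (R c / 2)} with hX
  have hXcl : ∀ y ∈ Om, y ∉ X → ∀ᶠ z in 𝓝 y, z ∉ X := by
    intro y _ hy
    have h1 : ∃ c, y ∈ ball (x c) (R c / 2) := by
      by_contra hcon
      push Not at hcon
      exact hy hcon
    obtain ⟨c, hc⟩ := h1
    filter_upwards [isOpen_ball.mem_nhds hc] with z hz hzX
    exact hzX c hz
  have hXh : ∀ y ∈ Om, y ∈ X → ∀ c : Φ.F, f y ∉ (Φ.B c).S := fun y hy hyX c hc =>
    hyX c (hhole y hy c hc)
  obtain ⟨ρ1, h1, h2, h3, h4, h5⟩ := exists_fine_rho Φ hOm hLa hδ hR0 hfm hfc hXcl hXh hκ1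
  -- the abstract size function
  let D0 : Dat 3 :=
    { ρ := fun y => min (ρ0 y) (ρ1 y)
      C := C
      a := 0
      lip := fun y z => by
        have e1 := hρ0 y z
        have e2 := h1 y z
        rcases le_total (ρ0 z) (ρ1 z) with h | h
        · rw [min_eq_left h]; exact (min_le_left _ _).trans e1
        · rw [min_eq_right h]; exact (min_le_right _ _).trans e2
      nonneg := fun y => le_min (hρ0n y) (h2 y)
      le_one := fun y => (min_le_right _ _).trans (h3 y)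
      hC := hC }
  have hD0 : D0.Om = Om := by
    ext y
    show 0 < min (ρ0 y) (ρ1 y) ↔ y ∈ Om
    rw [lt_min_iff]
    exact ⟨fun h => (h4 y).1 h.2, fun h => ⟨hρ0p y h, (h4 y).2 h⟩⟩
  have hk1 : ∀ c, ∃ k1 : ℕ, ∀ k, k1 ≤ k → (1 : ℝ) / 2 ^ k ≤ R c / 16 := fun c =>
    exists_pow_le (by have := hR c; positivity)
  choose k1 hk1 using hk1
  obtain ⟨kb0, hkb0⟩ := exists_exact (J := Φ.F) D0 (W := fun c => closedBall (x c) (2 * R c))
    (fun c => isCompact_closedBall _ _)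
    (fun c => ⟨x c, mem_closedBall_self (by have := hR c; positivity)⟩)
    (fun c => by rw [hD0]; exact hsub c) hdis (by rw [hD0]; exact hlf)
    (fun c => max (k0 c) (k1 c)) hKb (by rw [hD0]; exact hKbO)
  refine ⟨kb0, fun kb hkb => ?_⟩
  obtain ⟨k, hk0, hkk, hkJ, ρ, hρ⟩ := hkb0 kb hkb
  have hρle : (∀ y, ρ y ≤ ρ0 y) ∧ (∀ y, ρ y ≤ ρ1 y) ∧ ∀ y, ρ y ≤ C / 2 ^ kb := by
    obtain ⟨D, d1, d2, d3, d4, d5, d6, d7, d8⟩ := hρ 0
    refine ⟨fun y => ?_, fun y => ?_, fun y => ?_⟩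
    · rw [← d1]; exact (d5 y).trans (min_le_left _ _)
    · rw [← d1]; exact (d5 y).trans (min_le_right _ _)
    · have := d6 y
      rw [d1, d2] at this
      exact this
  refine ⟨k, fun c => (le_max_left _ _).trans (hk0 c), hkk, fun c => ?_, hkJ, ρ, hρle.1, hρle.2.2,
    fun a => ?_⟩
  · have := hk1 c (k c) ((le_max_right _ _).trans (hk0 c))
    rw [inv_pow, ← one_div]
    exact this
  obtain ⟨D, d1, d2, d3, d4, d5, d6, d7, d8⟩ := hρ a
  have hDO : D.Om = Om := d4.trans hD0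
  refine ⟨D, hDO, d1, d2, d3, d7, d8, ?_, ?_, ?_⟩
  · intro c τ hτ
    obtain ⟨z, hz⟩ := (d7 c).baseT hDO hτ
    refine ⟨fun i => z i + flr a (k c) i, ?_⟩
    rw [hz, d3]
    exact Hc_mod idE a (k c) z
  · intro τ hτ
    obtain ⟨z, hz⟩ := d8.baseT hDO hτ
    exact ⟨z, by rw [hz, d3]⟩
  · intro τ hτ
    have hPO : P ((tiling idE D).H τ) ⊆ Om := (baseT D hDO).sub τ
    have hF := fineS_tile (φ := idE) (D := D) (ρ := ρ1) (Y := Om ∩ X) (Om := Om) (Φ := Φ) (f := f)
      (ε := κ1) (fun u => by rw [d1]; exact hρle.2.1 u)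
      (fun y hy => (h5 y hy).2) τ hPO
    have hsubX : P ((tiling idE D).H τ) ⊆ Om ∩ X := by
      intro y hy
      refine ⟨hPO hy, fun c hc => ?_⟩
      exact Set.disjoint_left.1 (hτ c) hy (ball_subset_closedBall hc)
    intro y hy z hz c'
    have hy' : y ∈ P ((tiling idE D).H τ) ∩ (Om ∩ X) := ⟨hy, hsubX hy⟩
    have hz' : z ∈ P ((tiling idE D).H τ) ∩ (Om ∩ X) := ⟨hz, hsubX hz⟩
    exact ⟨fun hc => hF.psi y hy' z hz' c' hc, hF.lev y hy' z hz' c'⟩

end

end Crest.Agent.R096.Tme_234
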