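import Crest.Agent.R096.SkC1_961
import Crest.Agent.R096.No0_477
import Crest.Agent.R96.En10_199
import Crest.Agent.R96.Sg2_199
import Crest.Agent.R096.Er3_594
import Crest.Agent.R096.No1_276
import Crest.Agent.R096.Pg3_691

-- ▼ part R096/Nend1_458
section

/-!
Row 96 (S0127), helper458.  **[P-C]: clause `ends` of `NONum`** (ends of the lines of the slices).

* `LS j r H a` = sum over ALL lines of direction `j` of the lattice `a + r ℤ³` of the integral of
  `H` along the whole line; exact Tonelli formula `lintegral_LS`.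
* part 2 = `Nend2_458` (`exists_endS`, `ends_of`).
-/

set_option autoImplicit false
set_option linter.unusedSectionVars false
set_option linter.unusedVariables false

open MeasureTheory Set Filter Topology
open scoped ENNReal

noncomputable section

namespace Crest.Agent.R096.Nend_458

open Crest.Agent.R96.Acl_392 Crest.Agent.R96.Sob2_199 Crest.Agent.R96.Sob3_199
  Crest.Agent.R96.Sob4_199 Crest.Agent.R96.En10_199
open Crest.Agent.R096.SkC1_961 (E3 Hom3)

open Crest.Agent.R096.No0_477 (vx)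

/-- the other horizontal direction -/
def ot (j : Fin 2) : Fin 2 := 1 - j

/-- the lattice translate: `r * q.1` in the other horizontal direction, `r * q.2` vertically -/
def cq (j : Fin 2) (r : ℝ) (q : ℤ × ℤ) : E3 := fun i =>
  if i = 2 then r * q.2 else if i = j.castSucc then 0 else r * q.1

/-- unit vector of direction `j` -/
def ej (j : Fin 2) : E3 := Pi.single j.castSucc (1:ℝ)

/-- half open box with lowest corner `b` and side `r` -/
def bx (b : E3) (r : ℝ) : Set E3 := {a | ∀ i, a i ∈ Ico (b i) (b i + r)}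

theorem measurableSet_bx (b : E3) (r : ℝ) : MeasurableSet (bx b r) := by
  have : bx b r = ⋂ i : Fin 3, (fun a : E3 => a i) ⁻¹' Ico (b i) (b i + r) := by
    ext a; simp [bx]
  rw [this]
  exact MeasurableSet.iInter fun i => (measurable_pi_apply i) measurableSet_Ico


/-- sum over all lines of direction `j` of the lattice `a + r ℤ³` -/
def LS (j : Fin 2) (r : ℝ) (H : E3 → ℝ≥0∞) (a : E3) : ℝ≥0∞ :=
  ∑' q : ℤ × ℤ, ∫⁻ τ : ℝ, H (a + cq j r q + τ • ej j)

theorem measurable_line {H : E3 → ℝ≥0∞} (hH : Measurable H) (c e : E3) :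
    Measurable fun a : E3 => ∫⁻ τ : ℝ, H (a + c + τ • e) := by
  apply Measurable.lintegral_prod_right' (f := fun q : E3 × ℝ => H (q.1 + c + q.2 • e))
  apply hH.comp
  have : Continuous fun q : E3 × ℝ => q.1 + c + q.2 • e := by fun_prop
  exact this.measurable

theorem measurable_LS {H : E3 → ℝ≥0∞} (hH : Measurable H) (j : Fin 2) (r : ℝ) :
    Measurable (LS j r H) := by
  unfold LS
  exact Measurable.tsum fun q => measurable_line hH _ _

/-- one line, exact formula -/
theorem lintegral_line {H : E3 → ℝ≥0∞} (hH : Measurable H) {B : Set E3} (hB : MeasurableSet B)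
    (c e : E3) : ∫⁻ a in B, ∫⁻ τ : ℝ, H (a + c + τ • e) =
      ∫⁻ z, H z * volume {τ : ℝ | z - (c + τ • e) ∈ B} := by
  have hc1 : Continuous fun q : E3 × ℝ => q.1 + c + q.2 • e := by fun_prop
  have hc2 : Continuous fun q : ℝ × E3 => q.2 - (c + q.1 • e) := by fun_prop
  rw [lintegral_lintegral_swap (by exact (hH.comp hc1.measurable).aemeasurable)]
  have h1 : ∀ τ : ℝ, ∫⁻ a in B, H (a + c + τ • e) =
      ∫⁻ z, H z * B.indicator 1 (z - (c + τ • e)) := by
    intro τ
    rw [← lintegral_indicator hB,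
      ← lintegral_sub_right_eq_self (μ := volume) (B.indicator fun a => H (a + c + τ • e))
        (c + τ • e)]
    apply lintegral_congr
    intro z
    by_cases hz : z - (c + τ • e) ∈ B
    · rw [indicator_of_mem hz, indicator_of_mem hz, Pi.one_apply, mul_one]
      congr 1
      abel
    · rw [indicator_of_notMem hz, indicator_of_notMem hz, mul_zero]
  simp only [h1]
  rw [lintegral_lintegral_swap]
  · apply lintegral_congr
    intro z
    rw [lintegral_const_mul]
    · congr 1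
      have h2 : (fun τ : ℝ => B.indicator (1 : E3 → ℝ≥0∞) (z - (c + τ • e))) =
          {τ : ℝ | z - (c + τ • e) ∈ B}.indicator 1 := by
        funext τ
        by_cases hz : z - (c + τ • e) ∈ B
        · rw [indicator_of_mem hz, indicator_of_mem (by exact hz)]
          rfl
        · rw [indicator_of_notMem hz, indicator_of_notMem (by exact hz)]
      have hm : MeasurableSet {τ : ℝ | z - (c + τ • e) ∈ B} := by
        have hc : Continuous fun τ : ℝ => z - (c + τ • e) := by fun_prop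
        exact hc.measurable hB
      rw [h2, lintegral_indicator_one hm]
    · have hc : Continuous fun τ : ℝ => z - (c + τ • e) := by fun_prop
      exact (measurable_one.indicator hB).comp hc.measurable
  · have h3 : Measurable fun q : ℝ × E3 => H q.2 * B.indicator 1 (q.2 - (c + q.1 • e)) :=
      (hH.comp measurable_snd).mul ((measurable_one.indicator hB).comp hc2.measurable)
    exact h3.aemeasurable

theorem mem_Ico_iff_floor {x b r : ℝ} (hr : 0 < r) (n : ℤ) :
    x - r * n ∈ Ico b (b + r) ↔ n = ⌊(x - b) / r⌋ := by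
  rw [eq_comm, Int.floor_eq_iff, mem_Ico, le_div_iff₀ hr, div_lt_iff₀ hr]
  constructor
  · rintro ⟨h1, h2⟩; constructor <;> nlinarith
  · rintro ⟨h1, h2⟩; constructor <;> nlinarith

theorem dens {r : ℝ} (hr : 0 < r) (j : Fin 2) (b z : E3) :
    ∑' q : ℤ × ℤ, volume {τ : ℝ | z - (cq j r q + τ • ej j) ∈ bx b r} = ENNReal.ofReal r := by
  have key : ∀ q : ℤ × ℤ, ∀ τ : ℝ, z - (cq j r q + τ • ej j) ∈ bx b r ↔
      (z j.castSucc - τ ∈ Ico (b j.castSucc) (b j.castSucc + r) ∧
        q.1 = ⌊(z (ot j).castSucc - b (ot j).castSucc) / r⌋ ∧ q.2 = ⌊(z 2 - b 2) / r⌋) := by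
    intro q τ
    rw [← mem_Ico_iff_floor hr, ← mem_Ico_iff_floor hr]
    unfold bx
    rw [mem_ofPred_eq, Fin.forall_fin_succ, Fin.forall_fin_two]
    fin_cases j
    · simp [cq, ej, ot]
    · simp [cq, ej, ot]
      tauto
  set q0 : ℤ × ℤ := (⌊(z (ot j).castSucc - b (ot j).castSucc) / r⌋, ⌊(z 2 - b 2) / r⌋) with hq0
  rw [tsum_eq_single q0]
  · have : {τ : ℝ | z - (cq j r q0 + τ • ej j) ∈ bx b r} =
        Ioc (z j.castSucc - b j.castSucc - r) (z j.castSucc - b j.castSucc) := by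
      ext τ
      rw [mem_ofPred_eq, key]
      simp only [hq0, and_self, and_true, mem_Ico, mem_Ioc]
      constructor
      · rintro ⟨h1, h2⟩; constructor <;> linarith
      · rintro ⟨h1, h2⟩; constructor <;> linarith
    rw [this, Real.volume_Ioc]
    congr 1
    ring
  · intro q hq
    have : {τ : ℝ | z - (cq j r q + τ • ej j) ∈ bx b r} = ∅ := by
      rw [eq_empty_iff_forall_notMem]
      intro τ hτ
      rw [mem_ofPred_eq, key] at hτ
      exact hq (Prod.ext hτ.2.1 hτ.2.2)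
    rw [this, measure_empty]

/-- **exact Tonelli formula for all lines of one direction** -/
theorem lintegral_LS {H : E3 → ℝ≥0∞} (hH : Measurable H) {r : ℝ} (hr : 0 < r) (j : Fin 2)
    (b : E3) : ∫⁻ a in bx b r, LS j r H a = ENNReal.ofReal r * ∫⁻ x, H x := by
  unfold LS
  rw [lintegral_tsum fun q => (measurable_line hH _ _).aemeasurable]
  simp only [lintegral_line hH (measurableSet_bx b r)]
  have hm : ∀ q : ℤ × ℤ, Measurable fun z : E3 =>
      volume {τ : ℝ | z - (cq j r q + τ • ej j) ∈ bx b r} := by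
    intro q
    have hc : Continuous fun p : E3 × ℝ => p.1 - (cq j r q + p.2 • ej j) := by fun_prop
    have hS : MeasurableSet {p : E3 × ℝ | p.1 - (cq j r q + p.2 • ej j) ∈ bx b r} :=
      hc.measurable (measurableSet_bx b r)
    exact measurable_measure_prodMk_left hS
  have hm2 : ∀ q : ℤ × ℤ, Measurable fun z : E3 =>
      H z * volume {τ : ℝ | z - (cq j r q + τ • ej j) ∈ bx b r} := fun q => hH.mul (hm q)
  rw [← lintegral_tsum fun q => (hm2 q).aemeasurable]
  simp only [ENNReal.tsum_mul_left, dens hr j b]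
  rw [lintegral_mul_const _ hH, mul_comm]

end Crest.Agent.R096.Nend_458
end
end

-- ▼ part R096/Nend2_458
section

/-!
Row 96 (S0127), helper458.  **[P-C]: clause `ends` of `NONum`** (ends of the lines of the slices).

* `exists_endS`: one measurable function `S` of the translate `a` with
  `∫⁻_{a ∈ box of side r} S a ≤ r ∫_Om ‖∂_j f_j - s_j‖`, which bounds, for a.e. `a`, the sum of the
  errors of the increments over ALL choices of `o`, `M`, `Zs` with lines inside `Om`.
* `ends_of`: the literal clause.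
-/

set_option autoImplicit false
set_option linter.unusedSectionVars false
set_option linter.unusedVariables false

open MeasureTheory Set Filter Topology
open scoped ENNReal

noncomputable section

namespace Crest.Agent.R096.Nend_458

open Crest.Agent.R96.Acl_392 Crest.Agent.R96.Sob2_199 Crest.Agent.R96.Sob3_199
  Crest.Agent.R96.Sob4_199 Crest.Agent.R96.En10_199
open Crest.Agent.R096.SkC1_961 (E3 Hom3)
open Crest.Agent.R096.Er_594 (SH3)
open Crest.Agent.R096.No0_477 (vx)

/-- the error density -/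
def er (D : E3 → E3 →L[ℝ] E3) (s : Fin 3 → ℝ) (j : Fin 2) (x : E3) : ℝ :=
  D x (ej j) j.castSucc - s j.castSucc

theorem wd_comp {p : ℝ} {Om La : Set E3} {f : E3 → E3} {D : E3 → E3 →L[ℝ] E3}
    (h : SH3 p Om La f D) (j : Fin 2) :
    WD Om volume (fun x => f x j.castSucc) (fun x => D x (ej j) j.castSucc) (ej j) :=
  h.vwd j.castSucc j.castSucc

theorem cont_comp {p : ℝ} {Om La : Set E3} {f : E3 → E3} {D : E3 → E3 →L[ℝ] E3}
    (h : SH3 p Om La f D) (j : Fin 2) : ContinuousOn (fun x => f x j.castSucc) Om := by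
  obtain ⟨fi, hf1, hf2, hf3, hf4, hf5, hf6⟩ := h.homeo
  exact (continuous_apply _).comp_continuousOn hf5

/-- the point of the slice -/
theorem vx_eq (a : E3) (r : ℝ) (o : Fin 2 → ℤ) (m : ℤ) (j : Fin 2) (t k : ℕ) :
    vx a r o m (fun i => if i = j then k else t) =
      a + cq j r (o (ot j) + t, m) + (r * (o j + k)) • ej j := by
  funext i
  fin_cases j <;> fin_cases i <;> simp [vx, cq, ej, ot]

/-- increments on one line against the full line integral -/
theorem incr_le {Om : Set E3} {u g : E3 → ℝ} {e x : E3} {c : ℝ} {H : E3 → ℝ≥0∞}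
    (h : ACLat Om u g e x) (hH : ∀ᵐ τ : ℝ, x + τ • e ∈ Om → ‖g (x + τ • e) - c‖ₑ ≤ H (x + τ • e))
    {σ σ' : ℝ} (hσ : σ ≤ σ') (hx : x ∈ segIn Om e σ σ') :
    ‖u (x + σ' • e) - u (x + σ • e) - c * (σ' - σ)‖ₑ ≤ ∫⁻ τ : ℝ, H (x + τ • e) := by
  obtain ⟨h1, h2⟩ := h σ σ' hσ hx
  have h3 : IntervalIntegrable (fun τ : ℝ => g (x + τ • e)) volume σ σ' :=
    (intervalIntegrable_iff_integrableOn_Icc_of_le hσ).2 h1
  have h4 : u (x + σ' • e) - u (x + σ • e) - c * (σ' - σ) =
      ∫ τ in σ..σ', (g (x + τ • e) - c) := by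
    rw [intervalIntegral.integral_sub h3 intervalIntegrable_const, ← h2,
      intervalIntegral.integral_const, smul_eq_mul, mul_comm]
  rw [h4, intervalIntegral.integral_of_le hσ]
  refine (enorm_integral_le_lintegral_enorm _).trans ?_
  calc ∫⁻ τ in Ioc σ σ', ‖g (x + τ • e) - c‖ₑ ≤ ∫⁻ τ in Ioc σ σ', H (x + τ • e) := by
        refine setLIntegral_mono_ae' measurableSet_Ioc ?_
        filter_upwards [hH] with τ h5 h6
        exact h5 (hx τ (Ioc_subset_Icc_self h6))
    _ ≤ ∫⁻ τ : ℝ, H (x + τ • e) := setLIntegral_le_lintegral _ _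

/-- the inside condition for the lines of direction `j` of the slices -/
def Ins (Om : Set E3) (j : Fin 2) (r : ℝ) (a : E3) (o : Fin 2 → ℤ) (M : ℕ) (Zs : Finset ℤ) : Prop :=
  ∀ m ∈ Zs, ∀ t : ℕ, t ≤ M → ∀ τ ∈ Icc (0:ℝ) (r * M),
    vx a r o m (fun i => if i = j then 0 else t) + τ • ej j ∈ Om

/-- **bound for the translate `a`**: all choices of `o`, `M`, `Zs` at once -/
def EndB (Om : Set E3) (f : E3 → E3) (s : Fin 3 → ℝ) (j : Fin 2) (r : ℝ) (S : E3 → ℝ≥0∞) (a : E3) :
    Prop :=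
  ∀ (o : Fin 2 → ℤ) (M : ℕ) (Zs : Finset ℤ), Ins Om j r a o M Zs →
    ∑ m ∈ Zs, ∑ t ∈ Finset.range (M + 1),
      ‖(f (vx a r o m (fun i => if i = j then M else t)) -
        f (vx a r o m (fun i => if i = j then 0 else t))) j.castSucc -
          s j.castSucc * (M * r)‖ₑ ≤ S a

/-- **[P-C], averaged form** -/
theorem exists_endS {p : ℝ} {Om La : Set E3} {f : E3 → E3} {D : E3 → E3 →L[ℝ] E3}
    (hOm : IsOpen Om) (hSH : SH3 p Om La f D) (s : Fin 3 → ℝ) (j : Fin 2) {r : ℝ} (hr : 0 < r) :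
    ∃ S : E3 → ℝ≥0∞, Measurable S ∧
      (∀ b : E3, ∫⁻ a in bx b r, S a ≤ ENNReal.ofReal r * ∫⁻ x in Om, ‖er D s j x‖ₑ) ∧
      ∀ᵐ a : E3, EndB Om f s j r S a := by
  have hwd := wd_comp hSH j
  have hu := cont_comp hSH j
  have hgm : AEMeasurable (fun x => ‖er D s j x‖ₑ) (volume.restrict Om) :=
    (((aemeas_of_loc hwd.lg).aemeasurable).sub_const _).enorm
  obtain ⟨G, hG, hGe⟩ := hgm
  set H : E3 → ℝ≥0∞ := Om.indicator G with hHd
  have hH : Measurable H := hG.indicator hOm.measurableSet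
  refine ⟨LS j r H, measurable_LS hH j r, fun b => ?_, ?_⟩
  · rw [lintegral_LS hH hr j b, hHd, lintegral_indicator hOm.measurableSet, lintegral_congr_ae hGe]
  · have h1 : ∀ᵐ x : E3, ACLat Om (fun x => f x j.castSucc) (fun x => D x (ej j) j.castSucc)
        (ej j) x := acl hOm hwd hu
    have h2 : ∀ᵐ x : E3, x ∈ Om → ‖er D s j x‖ₑ = G x :=
      (ae_restrict_iff' hOm.measurableSet).1 hGe
    have h3 := ae_line_of_ae (μ := (volume : Measure E3)) h2 (ej j)
    have h4 : ∀ᵐ a : E3, ∀ q : ℤ × ℤ,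
        ACLat Om (fun x => f x j.castSucc) (fun x => D x (ej j) j.castSucc) (ej j)
          (a + cq j r q) ∧
        ∀ᵐ τ : ℝ, a + cq j r q + τ • ej j ∈ Om →
          ‖er D s j (a + cq j r q + τ • ej j)‖ₑ = G (a + cq j r q + τ • ej j) := by
      rw [ae_all_iff]
      intro q
      exact (measurePreserving_add_right volume (cq j r q)).quasiMeasurePreserving.ae (h1.and h3)
    filter_upwards [h4] with a ha o M Zs hin
    set φ : ℤ × ℕ → ℤ × ℤ := fun q => (o (ot j) + q.2, q.1) with hφ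
    have hφi : Function.Injective φ := by
      rintro ⟨x1, x2⟩ ⟨y1, y2⟩ h
      simp only [hφ, Prod.mk.injEq] at h
      obtain ⟨h5, h6⟩ := h
      have : (x2 : ℤ) = y2 := by linarith
      exact Prod.ext h6 (by exact_mod_cast this)
    have key : ∀ m ∈ Zs, ∀ t ∈ Finset.range (M + 1),
        ‖(f (vx a r o m (fun i => if i = j then M else t)) -
          f (vx a r o m (fun i => if i = j then 0 else t))) j.castSucc -
            s j.castSucc * (M * r)‖ₑ ≤ ∫⁻ τ : ℝ, H (a + cq j r (φ (m, t)) + τ • ej j) := by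
      intro m hm t ht
      have ht' : t ≤ M := Nat.lt_succ_iff.1 (Finset.mem_range.1 ht)
      obtain ⟨h5, h6⟩ := ha (φ (m, t))
      have h7 : a + cq j r (φ (m, t)) ∈ segIn Om (ej j) (r * (o j + (0:ℕ))) (r * (o j + M)) := by
        intro τ hτ
        have h8 := hin m hm t ht' (τ - r * (o j + (0:ℕ))) ⟨by linarith [hτ.1], by
          have := hτ.2
          push_cast
          nlinarith⟩
        rw [vx_eq, add_assoc, ← add_smul] at h8
        simpa [hφ] using h8
      have h8 := incr_le (H := H) (c := s j.castSucc) h5 (by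
        filter_upwards [h6] with τ h9 h10
        rw [hHd, indicator_of_mem h10, ← h9 h10]
        exact le_rfl) (σ := r * (o j + (0:ℕ))) (σ' := r * (o j + M)) (by
          push_cast
          nlinarith [Nat.cast_nonneg (α := ℝ) M]) h7
      rw [vx_eq, vx_eq]
      refine le_trans (le_of_eq ?_) h8
      congr 1
      simp only [hφ, Pi.sub_apply]
      push_cast
      ring
    calc ∑ m ∈ Zs, ∑ t ∈ Finset.range (M + 1),
          ‖(f (vx a r o m (fun i => if i = j then M else t)) -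
            f (vx a r o m (fun i => if i = j then 0 else t))) j.castSucc -
              s j.castSucc * (M * r)‖ₑ
        ≤ ∑ m ∈ Zs, ∑ t ∈ Finset.range (M + 1),
            ∫⁻ τ : ℝ, H (a + cq j r (φ (m, t)) + τ • ej j) :=
          Finset.sum_le_sum fun m hm => Finset.sum_le_sum fun t ht => key m hm t ht
      _ = ∑ q ∈ Zs ×ˢ Finset.range (M + 1), ∫⁻ τ : ℝ, H (a + cq j r (φ q) + τ • ej j) := by
          rw [Finset.sum_product]
      _ ≤ ∑' q : ℤ × ℕ, ∫⁻ τ : ℝ, H (a + cq j r (φ q) + τ • ej j) := ENNReal.sum_le_tsum _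
      _ ≤ LS j r H a :=
          ENNReal.tsum_comp_le_tsum_of_injective hφi
            (fun q : ℤ × ℤ => ∫⁻ τ : ℝ, H (a + cq j r q + τ • ej j))

end Crest.Agent.R096.Nend_458
end
end

-- ▼ part R096/Nend3_458
section

/-!
Row 96 (S0127), helper458.  **[P-C]**, part 3: inside condition in `QL L`, the average in terms of
the hypothesis of the front, and the literal clause `ends` of `NONum`.
-/

set_option autoImplicit false
set_option linter.unusedSectionVars false
set_option linter.unusedVariables false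

open MeasureTheory Set Filter Topology
open scoped ENNReal

noncomputable section

namespace Crest.Agent.R096.Nend_458

open Crest.Agent.R96.Acl_392 Crest.Agent.R96.Sob2_199 Crest.Agent.R96.Sob3_199
  Crest.Agent.R96.Sob4_199 Crest.Agent.R96.En10_199
open Crest.Agent.R096.SkC1_961 (E3 Hom3)
open Crest.Agent.R096.Er_594 (SH3)
open Crest.Agent.R096.No0_477 (vx)
open Crest.Agent.R096.No_276 (QL)

/-- the lines of the slices are inside `QL L` -/
theorem ins_of {L : ℝ} {r : ℝ} (hr : 0 < r) {a : E3} {o : Fin 2 → ℤ} {M : ℕ} {Zs : Finset ℤ}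
    (lo : ∀ j : Fin 2, -1 < a j.castSucc + r * o j)
    (hi : ∀ j : Fin 2, a j.castSucc + r * (o j + M) < 1)
    (zs : ∀ m ∈ Zs, |L * (a 2 + r * m)| < 1) (j : Fin 2) : Ins (QL L) j r a o M Zs := by
  intro m hm t ht τ hτ
  have h2 := zs m hm
  have ht' : (t : ℝ) ≤ M := by exact_mod_cast ht
  have ht0 : (0 : ℝ) ≤ t := Nat.cast_nonneg t
  have hrt : r * t ≤ r * M := mul_le_mul_of_nonneg_left ht' hr.le
  have hrt0 : 0 ≤ r * t := mul_nonneg hr.le ht0
  have lo0 := lo 0
  have lo1 := lo 1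
  have hi0 := hi 0
  have hi1 := hi 1
  have hτ1 := hτ.1
  have hτ2 := hτ.2
  simp only [Fin.castSucc_zero, Fin.castSucc_one, mul_add] at lo0 lo1 hi0 hi1
  fin_cases j
  · refine ⟨?_, ?_, ?_⟩
    · simp only [vx, ej, Pi.add_apply, Pi.smul_apply]
      simp
      rw [abs_lt]
      constructor <;> nlinarith
    · simp only [vx, ej, Pi.add_apply, Pi.smul_apply]
      simp
      rw [abs_lt]
      constructor <;> nlinarith
    · simp only [vx, ej, Pi.add_apply, Pi.smul_apply]
      simpa using h2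
  · refine ⟨?_, ?_, ?_⟩
    · simp only [vx, ej, Pi.add_apply, Pi.smul_apply]
      simp
      rw [abs_lt]
      constructor <;> nlinarith
    · simp only [vx, ej, Pi.add_apply, Pi.smul_apply]
      simp
      rw [abs_lt]
      constructor <;> nlinarith
    · simp only [vx, ej, Pi.add_apply, Pi.smul_apply]
      simpa using h2

/-- the error density against the hypothesis of the front -/
theorem er_le (D : E3 → E3 →L[ℝ] E3) (s : Fin 3 → ℝ) (j : Fin 2) (x : E3) :
    ‖er D s j x‖ₑ ≤ ‖P3 (D x (Pi.single j.castSucc 1)) -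
      EuclideanSpace.single j.castSucc (s j.castSucc)‖ₑ := by
  have h := PiLp.norm_apply_le (P3 (D x (Pi.single j.castSucc 1)) -
      EuclideanSpace.single j.castSucc (s j.castSucc)) j.castSucc
  rw [← ofReal_norm, ← ofReal_norm]
  apply ENNReal.ofReal_le_ofReal
  refine le_trans (le_of_eq ?_) h
  simp [er, ej]

/-- **the average in terms of the hypothesis of the front** -/
theorem lintegral_er_le {p : ℝ} (hp : 1 ≤ p) {Om La : Set E3} {f : E3 → E3}
    {D : E3 → E3 →L[ℝ] E3} (hOmf : volume Om ≠ ⊤) (hSH : SH3 p Om La f D) (s : Fin 3 → ℝ)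
    {δ : ℝ≥0∞}
    (hE : ∫⁻ x in Om, ∑ l, ‖P3 (D x (Pi.single l 1)) - EuclideanSpace.single l (s l)‖ₑ ^ p ≤
      δ * volume Om) (j : Fin 2) :
    ∫⁻ x in Om, ‖er D s j x‖ₑ ≤ δ ^ p⁻¹ * volume Om := by
  have hp0 : 0 < p := by linarith
  have hgm : AEMeasurable (fun x => ‖er D s j x‖ₑ) (volume.restrict Om) :=
    (((aemeas_of_loc (wd_comp hSH j).lg).aemeasurable).sub_const _).enorm
  have hfin : IsFiniteMeasure (volume.restrict Om) :=
    ⟨by rw [Measure.restrict_apply_univ]; exact hOmf.lt_top⟩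
  have h1 := Crest.Agent.R96.En3_199.lintegral_rpow_le hgm hp
  rw [Measure.restrict_apply_univ] at h1
  have h2 : ∫⁻ x in Om, ‖er D s j x‖ₑ ^ p ≤ δ * volume Om := by
    refine le_trans (lintegral_mono fun x => ?_) hE
    refine le_trans (ENNReal.rpow_le_rpow (er_le D s j x) hp0.le) ?_
    exact Finset.single_le_sum (f := fun l : Fin 3 =>
      ‖P3 (D x (Pi.single l 1)) - EuclideanSpace.single l (s l)‖ₑ ^ p) (fun _ _ => zero_le)
      (Finset.mem_univ j.castSucc)
  have h3 : (∫⁻ x in Om, ‖er D s j x‖ₑ) ^ p ≤ (δ ^ p⁻¹ * volume Om) ^ p := by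
    refine h1.trans ?_
    rw [ENNReal.mul_rpow_of_nonneg _ _ hp0.le, ← ENNReal.rpow_mul, inv_mul_cancel₀ hp0.ne',
      ENNReal.rpow_one]
    calc volume Om ^ (p - 1) * ∫⁻ x in Om, ‖er D s j x‖ₑ ^ p
        ≤ volume Om ^ (p - 1) * (δ * volume Om) := by gcongr
      _ = δ * (volume Om ^ (p - 1) * volume Om ^ (1:ℝ)) := by rw [ENNReal.rpow_one]; ring
      _ = δ * volume Om ^ p := by
          rw [← ENNReal.rpow_add_of_nonneg _ _ (by linarith) zero_le_one, sub_add_cancel]
  exact (ENNReal.rpow_le_rpow_iff hp0).1 h3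


/-- **the literal clause `ends` of `NONum`** -/
theorem ends_of {Om : Set E3} {f f1 g : E3 → E3} {s : Fin 3 → ℝ} {r ε h C0 : ℝ} {a : E3}
    {o : Fin 2 → ℤ} {M : ℕ} {Zs : Finset ℤ} {S : Fin 2 → E3 → ℝ≥0∞}
    (hS : ∀ j, EndB Om f s j r (S j) a) (hin : ∀ j, Ins Om j r a o M Zs) (hε : 0 ≤ ε)
    (hSa : ∀ j, S j a ≤ ENNReal.ofReal (ε / 2 * ((Zs.card : ℝ) * M)))
    (hf1 : ∀ m ∈ Zs, ∀ v : Fin 2 → ℕ, (∀ i, v i ≤ M) →
      ‖f1 (vx a r o m v) - f (vx a r o m v)‖ ≤ h)
    (hg : ∀ m ∈ Zs, ∀ v : Fin 2 → ℕ, (∀ i, v i ≤ M) →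
      ‖g (vx a r o m v) - f1 (vx a r o m v)‖ ≤ C0 * h)
    (hh : 2 * ((C0 + 1) * h) * (M + 1) ≤ ε / 2 * M) :
    ∀ j : Fin 2, ∑ m ∈ Zs, ∑ t ∈ Finset.range (M + 1),
      |(g (vx a r o m (fun i => if i = j then M else t)) -
        g (vx a r o m (fun i => if i = j then 0 else t))) j.castSucc - s j.castSucc * (M * r)| ≤
        ε * ((Zs.card : ℝ) * M) := by
  intro j
  have hgf : ∀ m ∈ Zs, ∀ v : Fin 2 → ℕ, (∀ i, v i ≤ M) →
      |g (vx a r o m v) j.castSucc - f (vx a r o m v) j.castSucc| ≤ (C0 + 1) * h := by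
    intro m hm v hv
    have h1 := norm_le_pi_norm (g (vx a r o m v) - f (vx a r o m v)) j.castSucc
    rw [Pi.sub_apply, Real.norm_eq_abs] at h1
    refine h1.trans ?_
    have h2 : g (vx a r o m v) - f (vx a r o m v) =
        (g (vx a r o m v) - f1 (vx a r o m v)) + (f1 (vx a r o m v) - f (vx a r o m v)) := by abel
    rw [h2]
    refine (norm_add_le _ _).trans ?_
    linarith [hf1 m hm v hv, hg m hm v hv]
  -- the real sum for `f`
  set F : ℤ → ℕ → ℝ := fun m t => (f (vx a r o m (fun i => if i = j then M else t)) -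
    f (vx a r o m (fun i => if i = j then 0 else t))) j.castSucc - s j.castSucc * (M * r) with hF
  have h1 : ∑ m ∈ Zs, ∑ t ∈ Finset.range (M + 1), |F m t| ≤ ε / 2 * ((Zs.card : ℝ) * M) := by
    have h2 := (hS j o M Zs (hin j)).trans (hSa j)
    have h3 : ∑ m ∈ Zs, ∑ t ∈ Finset.range (M + 1), ‖F m t‖ₑ =
        ENNReal.ofReal (∑ m ∈ Zs, ∑ t ∈ Finset.range (M + 1), |F m t|) := by
      rw [ENNReal.ofReal_sum_of_nonneg fun m _ => Finset.sum_nonneg fun t _ => abs_nonneg _]
      refine Finset.sum_congr rfl fun m _ => ?_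
      rw [ENNReal.ofReal_sum_of_nonneg fun t _ => abs_nonneg _]
      refine Finset.sum_congr rfl fun t _ => ?_
      rw [← Real.norm_eq_abs, ofReal_norm]
    change ∑ m ∈ Zs, ∑ t ∈ Finset.range (M + 1), ‖F m t‖ₑ ≤ _ at h2
    rw [h3] at h2
    exact (ENNReal.ofReal_le_ofReal_iff (by positivity)).1 h2
  calc ∑ m ∈ Zs, ∑ t ∈ Finset.range (M + 1),
        |(g (vx a r o m (fun i => if i = j then M else t)) -
          g (vx a r o m (fun i => if i = j then 0 else t))) j.castSucc - s j.castSucc * (M * r)|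
      ≤ ∑ m ∈ Zs, ∑ t ∈ Finset.range (M + 1), (|F m t| + 2 * ((C0 + 1) * h)) := by
        refine Finset.sum_le_sum fun m hm => Finset.sum_le_sum fun t ht => ?_
        have ht' : t ≤ M := Nat.lt_succ_iff.1 (Finset.mem_range.1 ht)
        have h4 := hgf m hm (fun i => if i = j then M else t) (fun i => by
          split_ifs <;> omega)
        have h5 := hgf m hm (fun i => if i = j then 0 else t) (fun i => by
          split_ifs <;> omega)
        have h6 := abs_le.1 h4
        have h7 := abs_le.1 h5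
        have h8 := abs_le.1 (le_refl |F m t|)
        simp only [hF, Pi.sub_apply] at h8 ⊢
        rw [abs_le]
        constructor <;> linarith [h6.1, h6.2, h7.1, h7.2, h8.1, h8.2]
    _ = ∑ m ∈ Zs, ∑ t ∈ Finset.range (M + 1), |F m t| +
          (Zs.card : ℝ) * (2 * ((C0 + 1) * h) * (M + 1)) := by
        simp only [Finset.sum_add_distrib, Finset.sum_const, Finset.card_range, nsmul_eq_mul]
        push_cast
        ring
    _ ≤ ε / 2 * ((Zs.card : ℝ) * M) + (Zs.card : ℝ) * (ε / 2 * M) := by gcongr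
    _ = ε * ((Zs.card : ℝ) * M) := by ring

end Crest.Agent.R096.Nend_458
end
end

-- ▼ part R096/Pg4_691

/-!
# Row 96, NO0-PRE, [PREG] (helper691), part 4: the clause `ends` (458) with averages over the box of
shifts
-/

set_option autoImplicit false
set_option linter.unusedSectionVars false
set_option linter.style.longLine false

open Set Filter Topology Metric MeasureTheory
open scoped ENNReal

namespace Crest.Agent.R096.Pg_691

open Crest.Agent.R096.Msh_810 (box)
open Crest.Agent.R096.SkC1_961 (E3 Hom3)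
open Crest.Agent.R096.Er_594 (SH3)
open Crest.Agent.R096.No0_477 (vx cub)
open Crest.Agent.R096.No_276 (QL)
open Crest.Agent.R096.Nend_458
open Crest.Agent.R96.En10_199 (P3)

noncomputable section

/-- from the averages over cubes of side `2^-k` to the average over the box of shifts -/
theorem lintegral_box_le {S : E3 → ℝ≥0∞} {k : ℕ} {r : ℝ} (hr : r = 1 / 2 ^ k) {I : ℝ≥0∞}
    (h : ∀ b : E3, ∫⁻ a in bx b r, S a ≤ ENNReal.ofReal r * I) :
    ∫⁻ a in box 3, S a ≤ ((2 : ℝ≥0∞) ^ k) ^ 2 * I := by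
  have hp : (0 : ℝ) < 2 ^ k := by positivity
  have hr0 : 0 < r := by rw [hr]; positivity
  have hcov : box 3 ⊆ ⋃ z : Fin 3 → Fin (2 ^ k), bx (fun i => r * (z i : ℕ)) r := by
    intro a ha
    have ha' : ∀ i, 0 ≤ a i ∧ a i < 1 := fun i => ha i (mem_univ i)
    have hlt : ∀ i, ⌊2 ^ k * a i⌋₊ < 2 ^ k := by
      intro i
      have h1 : (2 : ℝ) ^ k * a i < ((2 ^ k : ℕ) : ℝ) := by
        push_cast
        have := (ha' i).2
        nlinarith
      exact (Nat.floor_lt (mul_nonneg hp.le (ha' i).1)).2 h1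
    refine mem_iUnion.2 ⟨fun i => ⟨⌊2 ^ k * a i⌋₊, hlt i⟩, fun i => ?_⟩
    have h1 := Nat.floor_le (mul_nonneg hp.le (ha' i).1)
    have h2 := Nat.lt_floor_add_one ((2 : ℝ) ^ k * a i)
    have e : r * (2 ^ k * a i) = a i := by rw [hr]; field_simp
    constructor
    · show r * ((⌊2 ^ k * a i⌋₊ : ℕ) : ℝ) ≤ a i
      have := mul_le_mul_of_nonneg_left h1 hr0.le
      rwa [e] at this
    · show a i < r * ((⌊2 ^ k * a i⌋₊ : ℕ) : ℝ) + r
      have := mul_lt_mul_of_pos_left h2 hr0
      rw [e] at this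
      linarith
  calc ∫⁻ a in box 3, S a ≤ ∫⁻ a in ⋃ z : Fin 3 → Fin (2 ^ k), bx (fun i => r * (z i : ℕ)) r, S a :=
        lintegral_mono_set hcov
    _ ≤ ∑' z : Fin 3 → Fin (2 ^ k), ∫⁻ a in bx (fun i => r * (z i : ℕ)) r, S a :=
        lintegral_iUnion_le _ _
    _ ≤ ∑' _z : Fin 3 → Fin (2 ^ k), ENNReal.ofReal r * I := ENNReal.tsum_le_tsum fun z => h _
    _ = ((2 : ℝ≥0∞) ^ k) ^ 3 * (ENNReal.ofReal r * I) := by
        rw [tsum_fintype, Finset.sum_const, Finset.card_univ, Fintype.card_fun, Fintype.card_fin,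
          Fintype.card_fin, nsmul_eq_mul]
        push_cast
        rfl
    _ = ((2 : ℝ≥0∞) ^ k) ^ 2 * I := by
        have h2 : (2 : ℝ≥0∞) ^ k ≠ 0 := by positivity
        have h3 : (2 : ℝ≥0∞) ^ k ≠ ⊤ := ENNReal.pow_ne_top (by norm_num)
        have h4 : ENNReal.ofReal r = ((2 : ℝ≥0∞) ^ k)⁻¹ := by
          rw [hr, one_div, ENNReal.ofReal_inv_of_pos hp, ENNReal.ofReal_pow (by norm_num)]
          norm_num
        rw [h4, ← mul_assoc, pow_succ, mul_assoc (((2 : ℝ≥0∞) ^ k) ^ 2),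
          ENNReal.mul_inv_cancel h2 h3, mul_one]

/-- the measurable functions `H k` for 273's `exists_shift4` -/
theorem exists_ends {p : ℝ} (hp : 1 ≤ p) {Om La : Set E3} {f : E3 → E3} {D : E3 → E3 →L[ℝ] E3}
    (hOm : IsOpen Om) (hOmf : volume Om ≠ ⊤) (hSH : SH3 p Om La f D) (s : Fin 3 → ℝ) {δ : ℝ≥0∞}
    (hE : ∫⁻ x in Om, ∑ l, ‖P3 (D x (Pi.single l 1)) - EuclideanSpace.single l (s l)‖ₑ ^ p ≤
      δ * volume Om) {k : ℕ} {r : ℝ} (hr : r = 1 / 2 ^ k) :
    ∃ S : Fin 2 → E3 → ℝ≥0∞, (∀ j, Measurable (S j)) ∧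
      (∀ j, ∫⁻ a in box 3, S j a ≤ ((2 : ℝ≥0∞) ^ k) ^ 2 * (δ ^ p⁻¹ * volume Om)) ∧
      ∀ᵐ a : E3, ∀ j, EndB Om f s j r (S j) a := by
  have hr0 : 0 < r := by rw [hr]; positivity
  choose S h1 h2 h3 using fun j => exists_endS hOm hSH s j hr0
  refine ⟨S, h1, fun j => ?_, ae_all_iff.2 h3⟩
  refine (lintegral_box_le hr (h2 j)).trans ?_
  gcongr
  exact lintegral_er_le hp hOmf hSH s hE j

/-- the volume of the stretched cube -/
theorem volume_QL {L : ℕ} (hL : 1 ≤ L) : volume (QL (L : ℝ)) = ENNReal.ofReal (8 / L) := by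
  have hL0 : (0 : ℝ) < L := by exact_mod_cast hL
  have h1 : QL (L : ℝ) = Set.pi univ fun i : Fin 3 =>
      Ioo (if i = 2 then -(1 / (L : ℝ)) else -1) (if i = 2 then 1 / (L : ℝ) else 1) := by
    ext y
    have h3 : (|(L : ℝ) * y 2| < 1) ↔ -(1 / (L : ℝ)) < y 2 ∧ y 2 < 1 / L := by
      rw [abs_lt, ← neg_div, div_lt_iff₀ hL0, lt_div_iff₀ hL0, mul_comm (L : ℝ) (y 2)]
    constructor
    · rintro ⟨h0, h1, h2⟩ i -
      rw [abs_lt] at h0 h1
      rw [h3] at h2
      fin_cases i
      · exact h0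
      · exact h1
      · exact h2
    · intro h
      have h0 := h 0 (mem_univ _)
      have h1 := h 1 (mem_univ _)
      have h2 := h 2 (mem_univ _)
      refine ⟨?_, ?_, h3.2 h2⟩
      · rw [abs_lt]; exact h0
      · rw [abs_lt]; exact h1
  rw [h1, Real.volume_pi_Ioo, Fin.prod_univ_three]
  simp only [Fin.isValue, Fin.reduceEq, if_false, if_true]
  rw [← ENNReal.ofReal_mul (by norm_num), ← ENNReal.ofReal_mul (by norm_num)]
  congr 1
  ring

/-- **the clause `ends`** -/
theorem ends_final {L : ℕ} (hL : 1 ≤ L) {f f1 : E3 → E3} {s : Fin 3 → ℝ} {r ε h : ℝ} {k : ℕ}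
    (hr : r = 1 / 2 ^ k) {a : E3} {o : Fin 2 → ℤ} {M : ℕ} {Zs : Finset ℤ} (hM : 0 < M)
    (lo : ∀ j : Fin 2, -1 < a j.castSucc + r * o j)
    (hi : ∀ j : Fin 2, a j.castSucc + r * (o j + M) < 1)
    (zs : ∀ m ∈ Zs, |(L : ℝ) * (a 2 + r * m)| ≤ 1 / 2)
    (hN : 1 / L ≤ ((Zs.card : ℝ) * M ^ 2) * r ^ 3)
    {S : Fin 2 → E3 → ℝ≥0∞} (hS : ∀ j, EndB (QL L) f s j r (S j) a) {m δ' : ℝ≥0∞}
    (hSa : ∀ j, S j a ≤ m * (((2 : ℝ≥0∞) ^ k) ^ 2 * (δ' * volume (QL (L : ℝ)))))
    (hδ : 16 * (m * δ') ≤ ENNReal.ofReal (ε / 2)) (hε : 0 < ε)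
    (hf : ∀ x, ‖f1 x - f x‖ ≤ h) (hh : 8 * h ≤ ε) :
    ∀ j : Fin 2, ∑ m ∈ Zs, ∑ t ∈ Finset.range (M + 1),
      |(f1 (vx a r o m (fun i => if i = j then M else t)) -
        f1 (vx a r o m (fun i => if i = j then 0 else t))) j.castSucc - s j.castSucc * (M * r)| ≤
        ε * ((Zs.card : ℝ) * M) := by
  have hr0 : 0 < r := by rw [hr]; positivity
  have hL0 : (0 : ℝ) < L := by exact_mod_cast hL
  have hMR : (1 : ℝ) ≤ M := by exact_mod_cast hM
  have hMr : (M : ℝ) * r ≤ 2 := by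
    have h1 := lo 0
    have h2 := hi 0
    rw [mul_add] at h2
    linarith
  refine ends_of (f1 := f1) (g := f1) (C0 := 0) (h := h) hS
    (fun j => ins_of hr0 lo hi (fun m hm => (zs m hm).trans_lt (by norm_num)) j) hε.le ?_
    (fun m _ v _ => hf _) (fun m _ v _ => by simp) ?_
  · intro j
    refine (hSa j).trans ?_
    have h2k : ((2 : ℝ≥0∞) ^ k) ^ 2 = ENNReal.ofReal (r⁻¹ ^ 2) := by
      rw [hr, one_div, inv_inv, ENNReal.ofReal_pow (by positivity),
        ENNReal.ofReal_pow (by norm_num)]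
      norm_num
    rw [volume_QL hL, h2k]
    have hZ : (0 : ℝ) ≤ (Zs.card : ℝ) := Nat.cast_nonneg _
    have h8 : r⁻¹ ^ 2 * (8 / L) ≤ 16 * ((Zs.card : ℝ) * M) := by
      have h3 : (8 : ℝ) / L ≤ 8 * (((Zs.card : ℝ) * M ^ 2) * r ^ 3) := by
        have : (8 : ℝ) / L = 8 * (1 / L) := by ring
        rw [this]
        linarith
      calc r⁻¹ ^ 2 * (8 / L) ≤ r⁻¹ ^ 2 * (8 * (((Zs.card : ℝ) * M ^ 2) * r ^ 3)) :=
            mul_le_mul_of_nonneg_left h3 (by positivity)
        _ = 8 * ((Zs.card : ℝ) * M) * (M * r) := by field_simp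
        _ ≤ 8 * ((Zs.card : ℝ) * M) * 2 :=
            mul_le_mul_of_nonneg_left hMr (by positivity)
        _ = 16 * ((Zs.card : ℝ) * M) := by ring
    calc m * (ENNReal.ofReal (r⁻¹ ^ 2) * (δ' * ENNReal.ofReal (8 / L)))
        = (m * δ') * ENNReal.ofReal (r⁻¹ ^ 2 * (8 / L)) := by
          rw [ENNReal.ofReal_mul (by positivity)]; ring
      _ ≤ (m * δ') * ENNReal.ofReal (16 * ((Zs.card : ℝ) * M)) := by
          gcongr
      _ = (16 * (m * δ')) * ENNReal.ofReal ((Zs.card : ℝ) * M) := by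
          rw [ENNReal.ofReal_mul (by norm_num)]
          have : ENNReal.ofReal 16 = 16 := by norm_num
          rw [this]; ring
      _ ≤ ENNReal.ofReal (ε / 2) * ENNReal.ofReal ((Zs.card : ℝ) * M) := by gcongr
      _ = _ := (ENNReal.ofReal_mul (by positivity)).symm
  · have h0 : 0 ≤ h := (norm_nonneg _).trans (hf 0)
    nlinarith

end

end Crest.Agent.R096.Pg_691
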