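import Mathlib
import Crest.Agent.R096.Ps11_273
import Crest.Agent.R096.Np7_962
import Crest.Agent.R096.Nst1_780
import Crest.Agent.R096.Ls5_222
import Crest.Agent.R096.Mal15_874
import Crest.Agent.R096.Pg4_691
import Crest.Agent.R096.Blk3_764
import Crest.Agent.R096.Mbf_337
import Crest.Agent.R096.Ea2_713
import Crest.Agent.R096.EaX1_766
import Crest.Agent.R96.Eap1_348
import Crest.Agent.R096.Npl2_477
import Crest.Agent.R096.Np2_962
import Crest.Agent.R096.Fns4_360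

-- ▼ part R096/Nx3_473
section

/-!
# Row 96, NO0 p >= 3, mesh part, leaf [X3] of 962 #11402 (helper473): NUMBERS

One shift `a` in a given set `A'` of admissible shifts of the unit box, `volume (box \ A') ≤ 1/4`, with
good lines and the means of `Ed`, `S` and of finitely many measurable functions of the shift.
-/

set_option autoImplicit false

open MeasureTheory Set Filter
open scoped Topology ENNReal

namespace Crest.Agent.R096.Nx3_473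

open Crest.Agent.R096.Msh_810 Crest.Agent.R096.Bas_731 Crest.Agent.R96.En3_199
  Crest.Agent.R96.En4_199 Crest.Agent.R96.En5_199 Crest.Agent.R96.En2_199 Crest.Agent.R96.En6_199
  Crest.Agent.R96.En7_199 Crest.Agent.R96.En8_199 Crest.Agent.R96.En9_199
  Crest.Agent.R96.En11_199
  Crest.Agent.R96.Acl_392 Crest.Agent.R96.Sob2_199 Crest.Agent.R96.Sob3_199
  Crest.Agent.R096.Ps_273

noncomputable section

variable {n : ℕ}

/-- **a good shift in a given set of shifts**, general weights -/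
theorem exists_in (D : Dat n) {Ω : Set (Fin n → ℝ)} (hΩ : IsOpen Ω)
    (hsub : Ω ⊆ D.Om) {𝒞 : Type*} [Countable 𝒞]
    {v : 𝒞 → (Fin n → ℝ) → ℝ}
    {g : 𝒞 → Fin n → (Fin n → ℝ) → ℝ} (hg : ∀ c i, Measurable (g c i))
    (hg0 : ∀ c i, ∀ x, x ∉ Ω → g c i x = 0)
    (hwd : ∀ c i, WD Ω volume (v c) (g c i) (Pi.single i (1:ℝ))) (hv : ∀ c, ContinuousOn (v c) Ω)
    (w : 𝒞 → ℝ≥0∞)
    (s : Fin n → ℝ≥0∞) {p : ℝ} (hp : 1 ≤ p) {ι : Type*} [Countable ι]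
    {R : ι → Set (Fin n → ℝ)} (hR : ∀ j, MeasurableSet (R j)) {κ : ι → ℝ≥0∞} (hκ0 : ∀ j, κ j ≠ 0)
    {η : Type*} [Countable η] {H : η → (Fin n → ℝ) → ℝ≥0∞} (hH : ∀ k, Measurable (H k))
    {θ : η → ℝ≥0∞} (hθ : ∀ k, ∫⁻ a in box n, H k a ≤ θ k) {m : η → ℝ≥0∞} (hm : ∀ k, m k ≠ 0)
    {c0 : ℝ≥0∞} (hc0 : c0 ≠ 0) {A' : Set (Fin n → ℝ)}
    (hA : volume (box n \ A') + ((n * ∑' j, (κ j)⁻¹ + 2 * n * c0⁻¹) + ∑' k, (m k)⁻¹) < 1)
    {Q : (Fin n → ℝ) → Prop} (hQ : ∀ᵐ a, Q a) :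
    ∃ a ∈ box n, a ∈ A' ∧ Q a ∧ (∀ (k : ℕ) (z : Fin n → ℤ), Good Ω v g (vx a k z)) ∧
      (∀ i, Ed (D.sh a) i p (Xs w g s i) ≤ c0 * (2 * ∫⁻ x in Ω, Xs w g s i x ^ p)) ∧
      (∀ i, Ed (D.sh a) i 1 (Xs w g s i) ≤ c0 * (2 * ∫⁻ x in Ω, Xs w g s i x)) ∧
      (∀ j, S (D.sh a) p ((R j).indicator (GGw w g)) ≤
        κ j * (KE n p * ∫⁻ x in Ω ∩ R j, GGw w g x ^ p)) ∧
      ∀ k, H k a ≤ m k * θ k := by
  have hb := bad_shift D hΩ hsub hg hg0 hwd hv w s hp hR hκ0 hH hθ hm hc0 hQ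
  by_contra hcon
  push Not at hcon
  have hcov : box n ⊆ (box n \ A') ∪ {a ∈ box n | ¬ (Q a ∧
      (∀ (k : ℕ) (z : Fin n → ℤ), Good Ω v g (vx a k z)) ∧
      (∀ i, Ed (D.sh a) i p (Xs w g s i) ≤ c0 * (2 * ∫⁻ x in Ω, Xs w g s i x ^ p)) ∧
      (∀ i, Ed (D.sh a) i 1 (Xs w g s i) ≤ c0 * (2 * ∫⁻ x in Ω, Xs w g s i x)) ∧
      (∀ j, S (D.sh a) p ((R j).indicator (GGw w g)) ≤
        κ j * (KE n p * ∫⁻ x in Ω ∩ R j, GGw w g x ^ p)) ∧
      ∀ k, H k a ≤ m k * θ k)} := by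
    intro a ha
    by_cases hA' : a ∈ A'
    · right
      refine ⟨ha, ?_⟩
      rintro ⟨h1, h2, h3, h4, h5, h6⟩
      obtain ⟨k, hk⟩ := hcon a ha hA' h1 h2 h3 h4 h5
      exact absurd (h6 k) (not_le.2 hk)
    · left
      exact ⟨ha, hA'⟩
  have h1 := measure_mono (μ := volume) hcov
  rw [volume_box] at h1
  have h2 := h1.trans (measure_union_le _ _)
  exact absurd (h2.trans (add_le_add le_rfl hb)) (not_le.2 hA)

/-- numerical weights: `n = 3`, one region, finitely many functions -/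
theorem num3 {N : ℕ} {V : ℝ≥0∞} (hV : V ≤ 1 / 4) :
    V + (((3 : ℕ) * ∑' _j : Unit, ((24 : ℝ≥0∞))⁻¹ + 2 * (3 : ℕ) * (48 : ℝ≥0∞)⁻¹) +
      ∑' _k : Fin N, ((8 : ℝ≥0∞) * N)⁻¹) < 1 := by
  have h1 : (∑' _j : Unit, ((24 : ℝ≥0∞))⁻¹) = (24 : ℝ≥0∞)⁻¹ := by
    rw [tsum_fintype]; simp
  have h2 : (∑' _k : Fin N, ((8 : ℝ≥0∞) * N)⁻¹) ≤ 1 / 8 := by
    rw [tsum_fintype, Finset.sum_const, Finset.card_univ, Fintype.card_fin, nsmul_eq_mul]
    rcases Nat.eq_zero_or_pos N with rfl | hN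
    · simp
    · have hN0 : (N : ℝ≥0∞) ≠ 0 := by exact_mod_cast hN.ne'
      rw [ENNReal.mul_inv (Or.inl (by norm_num)) (Or.inl (by norm_num)), mul_comm, mul_assoc,
        ENNReal.inv_mul_cancel hN0 (ENNReal.natCast_ne_top N), mul_one, one_div]
  rw [h1]
  have h3 : ((3 : ℕ) : ℝ≥0∞) * (24 : ℝ≥0∞)⁻¹ = 1 / 8 := by
    rw [show (24 : ℝ≥0∞) = 3 * 8 by norm_num, ENNReal.mul_inv (Or.inl (by norm_num))
      (Or.inl (by norm_num)), ← mul_assoc]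
    rw [show ((3 : ℕ) : ℝ≥0∞) = 3 by norm_num, ENNReal.mul_inv_cancel (by norm_num) (by norm_num),
      one_mul, one_div]
  have h4 : (2 : ℝ≥0∞) * (3 : ℕ) * (48 : ℝ≥0∞)⁻¹ = 1 / 8 := by
    rw [show (48 : ℝ≥0∞) = 6 * 8 by norm_num, ENNReal.mul_inv (Or.inl (by norm_num))
      (Or.inl (by norm_num)), ← mul_assoc]
    rw [show (2 : ℝ≥0∞) * ((3 : ℕ) : ℝ≥0∞) = 6 by norm_num,
      ENNReal.mul_inv_cancel (by norm_num) (by norm_num), one_mul, one_div]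
  rw [h3, h4]
  calc V + (1 / 8 + 1 / 8 + ∑' _k : Fin N, ((8 : ℝ≥0∞) * N)⁻¹)
      ≤ 1 / 4 + (1 / 8 + 1 / 8 + 1 / 8) := add_le_add hV (add_le_add le_rfl h2)
    _ < 1 := by
      have e : (1 / 4 + (1 / 8 + 1 / 8 + 1 / 8) : ℝ≥0∞) = ENNReal.ofReal (5 / 8) := by
        rw [show (5 / 8 : ℝ) = 1 / 4 + (1 / 8 + 1 / 8 + 1 / 8) by norm_num,
          ENNReal.ofReal_add (by norm_num) (by norm_num),
          ENNReal.ofReal_add (by norm_num) (by norm_num),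
          ENNReal.ofReal_add (by norm_num) (by norm_num)]
        congr 1
        · rw [ENNReal.ofReal_div_of_pos (by norm_num)]; norm_num
        · congr 1
          · congr 1 <;> (rw [ENNReal.ofReal_div_of_pos (by norm_num)]; norm_num)
          · rw [ENNReal.ofReal_div_of_pos (by norm_num)]; norm_num
      rw [e]
      exact ENNReal.ofReal_lt_one.2 (by norm_num)

/-- **[X3] NUMBERS**: one shift in `A'`, `volume (box 3 \ A') ≤ 1/4` -/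
theorem shift3 (D : Dat 3) {Ω : Set (Fin 3 → ℝ)} (hΩ : IsOpen Ω)
    (hsub : Ω ⊆ D.Om) {𝒞 : Type*} [Countable 𝒞]
    {v : 𝒞 → (Fin 3 → ℝ) → ℝ}
    {g : 𝒞 → Fin 3 → (Fin 3 → ℝ) → ℝ} (hg : ∀ c i, Measurable (g c i))
    (hg0 : ∀ c i, ∀ x, x ∉ Ω → g c i x = 0)
    (hwd : ∀ c i, WD Ω volume (v c) (g c i) (Pi.single i (1:ℝ))) (hv : ∀ c, ContinuousOn (v c) Ω)
    (w : 𝒞 → ℝ≥0∞) (s : Fin 3 → ℝ≥0∞) {p : ℝ} (hp : 1 ≤ p)
    {R' : Set (Fin 3 → ℝ)} (hR : MeasurableSet R')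
    {N : ℕ} {H : Fin N → (Fin 3 → ℝ) → ℝ≥0∞} (hH : ∀ k, Measurable (H k))
    {θ : Fin N → ℝ≥0∞} (hθ : ∀ k, ∫⁻ a in box 3, H k a ≤ θ k) {A' : Set (Fin 3 → ℝ)}
    (hA : volume (box 3 \ A') ≤ 1 / 4) {Q : (Fin 3 → ℝ) → Prop} (hQ : ∀ᵐ a, Q a) :
    ∃ a ∈ A', a ∈ box 3 ∧ Q a ∧ (∀ (k : ℕ) (z : Fin 3 → ℤ), Good Ω v g (vx a k z)) ∧
      (∀ l, Ed (D.sh a) l p (Xs w g s l) ≤ 96 * ∫⁻ x in Ω, Xs w g s l x ^ p) ∧
      (∀ l, Ed (D.sh a) l 1 (Xs w g s l) ≤ 96 * ∫⁻ x in Ω, Xs w g s l x) ∧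
      S (D.sh a) p (R'.indicator (GGw w g)) ≤ 24 * KE 3 p * ∫⁻ x in Ω ∩ R', GGw w g x ^ p ∧
      ∀ k, H k a ≤ 8 * N * θ k := by
  rcases Nat.eq_zero_or_pos N with rfl | hN
  · obtain ⟨a, h1, h2, h3, h4, h5, h6, h7, -⟩ := exists_in D hΩ hsub hg hg0 hwd hv w s hp
      (ι := Unit) (R := fun _ => R') (fun _ => hR) (κ := fun _ => 24) (fun _ => by norm_num)
      (η := Empty) (H := fun k => k.elim) (fun k => k.elim) (θ := fun k => k.elim)
      (fun k => k.elim) (m := fun k => k.elim) (fun k => k.elim) (c0 := 48) (by norm_num)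
      (A' := A') (by
        have := num3 (N := 0) hA
        simpa using this) hQ
    refine ⟨a, h2, h1, h3, h4, fun l => (h5 l).trans (le_of_eq ?_),
      fun l => (h6 l).trans (le_of_eq ?_), (h7 ()).trans (le_of_eq ?_), fun k => k.elim0⟩
    · rw [← mul_assoc]; norm_num
    · rw [← mul_assoc]; norm_num
    · rw [← mul_assoc]
  · have hN0 : (N : ℝ≥0∞) ≠ 0 := by exact_mod_cast hN.ne'
    obtain ⟨a, h1, h2, h3, h4, h5, h6, h7, h8⟩ := exists_in D hΩ hsub hg hg0 hwd hv w s hp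
      (ι := Unit) (R := fun _ => R') (fun _ => hR) (κ := fun _ => 24) (fun _ => by norm_num)
      hH hθ (m := fun _ => 8 * N) (fun _ => mul_ne_zero (by norm_num) hN0) (c0 := 48)
      (by norm_num) (A' := A') (num3 hA) hQ
    refine ⟨a, h2, h1, h3, h4, fun l => (h5 l).trans (le_of_eq ?_),
      fun l => (h6 l).trans (le_of_eq ?_), (h7 ()).trans (le_of_eq ?_), h8⟩
    · rw [← mul_assoc]; norm_num
    · rw [← mul_assoc]; norm_num
    · rw [← mul_assoc]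

end

end Crest.Agent.R096.Nx3_473
end

-- ▼ part R096/Nx2_473
section

/-!
# Row 96, NO0 p >= 3, mesh part, leaf [X2] of 962 #11402 (helper473): an open set around a small set

`X ⊆ Om` measurable, `Om` open, `∫_Om G ^ p < ⊤`: an open `R'`, `X ⊆ R' ⊆ Om`, with
`volume R' ≤ volume X + e` and `∫_R' G ^ p ≤ ∫_X G ^ p + e`.
-/

set_option autoImplicit false

open MeasureTheory Set Filter
open scoped Topology ENNReal

namespace Crest.Agent.R096.Nx2_473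

variable {E : Type*} [TopologicalSpace E] [MeasurableSpace E] [BorelSpace E]

/-- two outer regular conditions at once -/
theorem exists_open {μ : Measure E} {F : E → ℝ≥0∞} {Om X : Set E} (hOm : IsOpen Om)
    (hX : MeasurableSet X) (hXO : X ⊆ Om) [μ.OuterRegular]
    [((μ.restrict Om).withDensity F).OuterRegular] (hv : μ X ≠ ⊤)
    (hF : ∫⁻ x in X, F x ∂μ ≠ ⊤) {e : ℝ≥0∞} (he : e ≠ 0) :
    ∃ R', IsOpen R' ∧ X ⊆ R' ∧ R' ⊆ Om ∧ μ R' ≤ μ X + e ∧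
      ∫⁻ x in R', F x ∂μ ≤ (∫⁻ x in X, F x ∂μ) + e := by
  obtain ⟨V, hXV, hV, hVe⟩ := X.exists_isOpen_lt_add (μ := μ) hv he
  have h1 : ((μ.restrict Om).withDensity F) X = ∫⁻ x in X, F x ∂μ := by
    rw [withDensity_apply _ hX, Measure.restrict_restrict hX, inter_eq_self_of_subset_left hXO]
  obtain ⟨W, hXW, hW, hWe⟩ := X.exists_isOpen_lt_add (μ := (μ.restrict Om).withDensity F)
    (by rw [h1]; exact hF) he
  refine ⟨V ∩ W ∩ Om, (hV.inter hW).inter hOm, fun x hx => ⟨⟨hXV hx, hXW hx⟩, hXO hx⟩,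
    inter_subset_right, ?_, ?_⟩
  · exact (measure_mono (inter_subset_left.trans inter_subset_left)).trans hVe.le
  · have h2 : MeasurableSet (V ∩ W ∩ Om) := ((hV.inter hW).inter hOm).measurableSet
    have h3 : ∫⁻ x in V ∩ W ∩ Om, F x ∂μ = ((μ.restrict Om).withDensity F) (V ∩ W ∩ Om) := by
      rw [withDensity_apply _ h2, Measure.restrict_restrict h2,
        inter_eq_self_of_subset_left inter_subset_right]
    rw [h3, ← h1]
    exact (measure_mono (inter_subset_left.trans inter_subset_right)).trans hWe.le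

/-- **[X2]** in `Fin n → ℝ` -/
theorem exists_R {n : ℕ} {Om X : Set (Fin n → ℝ)} (hOm : IsOpen Om) (hX : MeasurableSet X)
    (hXO : X ⊆ Om) (hv : volume X ≠ ⊤) {G : (Fin n → ℝ) → ℝ≥0∞} {p : ℝ}
    (hF : ∫⁻ x in Om, G x ^ p < ⊤) {e : ℝ≥0∞} (he : e ≠ 0) :
    ∃ R', IsOpen R' ∧ X ⊆ R' ∧ R' ⊆ Om ∧ volume R' ≤ volume X + e ∧
      ∫⁻ x in R', G x ^ p ≤ (∫⁻ x in X, G x ^ p) + e := by
  have hfin : IsFiniteMeasure ((volume.restrict Om).withDensity fun x => G x ^ p) :=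
    isFiniteMeasure_withDensity hF.ne
  exact exists_open (μ := (volume : Measure (Fin n → ℝ))) (F := fun x => G x ^ p) hOm hX hXO hv
    (ne_top_of_le_ne_top hF.ne (lintegral_mono_set hXO)) he

/-- **[X2]**, bounded `Om` -/
theorem exists_R' {n : ℕ} {Om X : Set (Fin n → ℝ)} (hOm : IsOpen Om)
    (hb : Bornology.IsBounded Om) (hX : MeasurableSet X)
    (hXO : X ⊆ Om) {G : (Fin n → ℝ) → ℝ≥0∞} {p : ℝ}
    (hF : ∫⁻ x in Om, G x ^ p < ⊤) {e : ℝ≥0∞} (he : e ≠ 0) :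
    ∃ R', IsOpen R' ∧ MeasurableSet R' ∧ X ⊆ R' ∧ R' ⊆ Om ∧ volume R' ≤ volume X + e ∧
      ∫⁻ x in R', G x ^ p ≤ (∫⁻ x in X, G x ^ p) + e := by
  obtain ⟨R', h1, h2, h3, h4, h5⟩ := exists_R hOm hX hXO
    (ne_top_of_le_ne_top hb.measure_lt_top.ne (measure_mono hXO)) hF he
  exact ⟨R', h1, h1.measurableSet, h2, h3, h4, h5⟩

end Crest.Agent.R096.Nx2_473
end

-- ▼ part R096/Nx4_473
section

/-!
# Row 96, NO0 p >= 3, mesh part, leaf (M6) of 962 #11558 (helper473): the numbers of `MeshN`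

* `g0` : the derivatives of the level functions, set to zero off `Op`; `FrontC.g0`, `Front3.g0`
* the integrals of `Xs`, `GGw` from `FrontC`
* `exists_Rp` : the open bad set `R'`
* `nums` : the shift: `ed`, `ed1`, `sR` of `MeshN`
-/

set_option autoImplicit false
set_option linter.unusedSectionVars false
set_option linter.unusedVariables false

open Set Filter Topology MeasureTheory Metric
open scoped NNReal ENNReal

noncomputable section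

namespace Crest.Agent.R096.Nx4_473

open Crest.Agent.R096.SkC1_961 (E3 Hom3 FoamD)
open Crest.Agent.R096.Brk5_582 Crest.Agent.R096.Bsp_628 Crest.Agent.R096.Log2_582
open Crest.Agent.R096.Dic6_582 (dF kF)
open Crest.Agent.R096.Npr_582 (Op cN)
open Crest.Agent.R096.Np_962
open Crest.Agent.R96.Acl_392 Crest.Agent.R96.Sob2_199
open Crest.Agent.R096.Er_594 (SH3)
open Crest.Agent.R096.Msh_810 Crest.Agent.R096.Bas_731 Crest.Agent.R96.En3_199
  Crest.Agent.R96.En4_199 Crest.Agent.R96.En5_199 Crest.Agent.R96.En2_199 Crest.Agent.R96.En6_199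
  Crest.Agent.R96.En7_199 Crest.Agent.R96.En8_199 Crest.Agent.R96.En9_199
  Crest.Agent.R96.En11_199
open Crest.Agent.R096.Ps_273
open Crest.Agent.R096.Ls_222 (us continuousOn_us countable_F)
open Crest.Agent.R096.No_276 (QL)

section g0

variable {δ κ0 R c0 : ℝ} {La : Set E3}

/-- the derivatives of the level functions, zero off `Op` -/
def g0 (Φ : FoamD δ κ0 R c0 La) (Om : Set E3) (f1 : E3 → E3) (g : Φ.F → Fin 3 → E3 → ℝ) (c : Φ.F)
    (l : Fin 3) : E3 → ℝ := (Op Φ Om f1).indicator (g c l)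

variable {Φ : FoamD δ κ0 R c0 La} {Om : Set E3} {f1 : E3 → E3} {g : Φ.F → Fin 3 → E3 → ℝ}

theorem g0_on {x : E3} (hx : x ∈ Op Φ Om f1) (c : Φ.F) (l : Fin 3) :
    g0 Φ Om f1 g c l x = g c l x := indicator_of_mem hx _

theorem g0_off {x : E3} (hx : x ∉ Op Φ Om f1) (c : Φ.F) (l : Fin 3) :
    g0 Φ Om f1 g c l x = 0 := indicator_of_notMem hx _

theorem g0_gm (hO : IsOpen (Op Φ Om f1)) (hg : ∀ c l, Measurable (g c l)) (c : Φ.F) (l : Fin 3) :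
    Measurable (g0 Φ Om f1 g c l) := (hg c l).indicator hO.measurableSet

theorem g0_wd (hO : IsOpen (Op Φ Om f1)) {v : Φ.F → E3 → ℝ}
    (hwd : ∀ c l, WD (Op Φ Om f1) volume (v c) (g c l) (Pi.single l 1)) (c : Φ.F) (l : Fin 3) :
    WD (Op Φ Om f1) volume (v c) (g0 Φ Om f1 g c l) (Pi.single l 1) :=
  wd_congr hO (hwd c l) (Eventually.of_forall fun _ _ => rfl)
    (Eventually.of_forall fun _ hx => (g0_on hx c l).symm)

theorem lint_g0 {F : (Φ.F → Fin 3 → ℝ) → ℝ≥0∞} {S : Set E3} (hO : IsOpen (Op Φ Om f1))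
    (hS : MeasurableSet S) :
    ∫⁻ x in Op Φ Om f1 ∩ S, F (fun c l => g0 Φ Om f1 g c l x) =
      ∫⁻ x in Op Φ Om f1 ∩ S, F (fun c l => g c l x) := by
  refine setLIntegral_congr_fun (hO.measurableSet.inter hS) fun x hx => ?_
  have : (fun c l => g0 Φ Om f1 g c l x) = fun c l => g c l x := by
    funext c l
    exact g0_on hx.1 c l
  simp only [this]

end g0

section front

variable {p : ℝ} {q : ℕ} {s : Fin 3 → ℝ} {ε ε' : ℝ≥0∞} {Om La : Set E3} {f : E3 → E3}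
  {M ρ0 h : ℝ} {a : Fin 3 → ℝ} {κ1 κ2 lam0 : ℝ} {Φ : FoamD (dF q) (kF q) 6 (cN q) La}
  {lam : Φ.F → ℝ} {A : Φ.F → E3 ≃ᵃ[ℝ] E3} {f1 : E3 → E3} {D1 : E3 → E3 →L[ℝ] E3} {X HH : Set E3}
  {g : Φ.F → Fin 3 → E3 → ℝ}

/-- the common part of the front for `g0` -/
theorem frontC_g0 (H : FrontC p q s ε ε' Om La M h a Φ f1 X HH g) :
    FrontC p q s ε ε' Om La M h a Φ f1 X HH (g0 Φ Om f1 g) where
  q1 := H.q1
  h0 := H.h0
  fr := H.fr
  homeo := H.homeo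
  op := H.op
  XO := H.XO
  Xm := H.Xm
  Xv := H.Xv
  HHo := H.HHo
  HHs := H.HHs
  HHX := H.HHX
  HHw := H.HHw
  Qv := H.Qv
  gm := g0_gm H.op H.gm
  wd := g0_wd H.op (v := fun c x => Φ.lev c (f1 x)) H.wd
  eW l w h1 h2 := by
    refine le_trans (le_of_eq ?_) (H.eW l w h1 h2)
    have h3 := lint_g0 (Φ := Φ) (Om := Om) (f1 := f1) (g := g)
      (F := fun G => (∑' c, w c * ‖G c l‖ₑ - ENNReal.ofReal (s l)) ^ p) (S := univ) H.op
      MeasurableSet.univ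
    simpa only [inter_univ] using h3
  eX l w h1 h2 := by
    refine le_trans (le_of_eq ?_) (H.eX l w h1 h2)
    exact lint_g0 (Φ := Φ) (Om := Om) (f1 := f1) (g := g)
      (F := fun G => (∑' c, w c * ‖G c l‖ₑ) ^ p) (S := X) H.op H.Xm

/-- **the front for `g0`** -/
theorem front3_g0 (H : Front3 p q s ε ε' Om La f M ρ0 h a κ1 κ2 lam0 Φ lam A f1 D1 X HH g) :
    Front3 p q s ε ε' Om La f M ρ0 h a κ1 κ2 lam0 Φ lam A f1 D1 X HH (g0 Φ Om f1 g) where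
  c := frontC_g0 H.c
  sh := H.sh
  near := H.near
  nb := H.nb
  dy := H.dy
  rat := H.rat
  ex := H.ex
  XN := H.XN
  cs := H.cs

end front

/-! ### the integrals -/

section ints

/-- from the exponent `p` to the exponent `1` -/
theorem lint_holder {E : Type*} [MeasurableSpace E] {μ : Measure E} {Ω Om : Set E} (hΩ : Ω ⊆ Om)
    {F : E → ℝ≥0∞} (hF : Measurable F) {p : ℝ} (hp : 1 ≤ p) {ε : ℝ≥0∞}
    (h : ∫⁻ x in Ω, F x ^ p ∂μ ≤ ε * μ Om) : ∫⁻ x in Ω, F x ∂μ ≤ ε ^ p⁻¹ * μ Om := by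
  have hp0 : 0 < p := by linarith
  have h1 := eLpNorm'_le_eLpNorm'_mul_rpow_measure_univ (μ := μ.restrict Ω) (f := F) (p := 1)
    (q := p) one_pos hp hF.aestronglyMeasurable
  unfold eLpNorm' at h1
  simp only [enorm_eq_self, ENNReal.rpow_one, div_one, one_div] at h1
  refine h1.trans ?_
  rw [Measure.restrict_apply_univ]
  have hi : p⁻¹ ≤ 1 := inv_le_one_of_one_le₀ hp
  have hi0 : 0 ≤ p⁻¹ := inv_nonneg.2 hp0.le
  calc (∫⁻ x in Ω, F x ^ p ∂μ) ^ p⁻¹ * μ Ω ^ (1 - p⁻¹)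
      ≤ (ε * μ Om) ^ p⁻¹ * μ Om ^ (1 - p⁻¹) := by
        refine mul_le_mul' (ENNReal.rpow_le_rpow h hi0)
          (ENNReal.rpow_le_rpow (measure_mono hΩ) (by linarith))
    _ = ε ^ p⁻¹ * μ Om := by
        rw [ENNReal.mul_rpow_of_nonneg _ _ hi0, mul_assoc,
          ← ENNReal.rpow_add_of_nonneg _ _ hi0 (by linarith)]
        rw [add_sub_cancel, ENNReal.rpow_one]

end ints

section fronti

variable {p : ℝ} {q : ℕ} {s : Fin 3 → ℝ} {ε ε' : ℝ≥0∞} {Om La : Set E3}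
  {M h : ℝ} {a : Fin 3 → ℝ} {Φ : FoamD (dF q) (kF q) 6 (cN q) La}
  {f1 : E3 → E3} {X HH : Set E3} {g : Φ.F → Fin 3 → E3 → ℝ} {W : Φ.F → ℝ}

/-- the weights -/
abbrev wt (W : Φ.F → ℝ) : Φ.F → ℝ≥0∞ := fun c => ENNReal.ofReal (W c)

/-- the sharp energies, exponent `p` -/
theorem int_Xs (H : FrontC p q s ε ε' Om La M h a Φ f1 X HH g)
    (hW : ∀ c : Φ.F, IsLog q a h c.1 → W c = h / 2) (hWs : ∀ c : Φ.F, W c ≤ c.1.sz) (l : Fin 3) :
    ∫⁻ x in Op Φ Om f1, Xs (wt W) g (fun l => ENNReal.ofReal (s l)) l x ^ p ≤ ε * volume Om :=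
  H.eW l _ (fun c hc => by simp only [wt, hW c hc]) fun c => ENNReal.ofReal_le_ofReal (hWs c)

/-- the sharp energies, exponent `1` -/
theorem int_Xs1 (hp : 1 ≤ p) (H : FrontC p q s ε ε' Om La M h a Φ f1 X HH g)
    (hW : ∀ c : Φ.F, IsLog q a h c.1 → W c = h / 2) (hWs : ∀ c : Φ.F, W c ≤ c.1.sz) (l : Fin 3) :
    ∫⁻ x in Op Φ Om f1, Xs (wt W) g (fun l => ENNReal.ofReal (s l)) l x ≤
      ε ^ p⁻¹ * volume Om := by
  have : Countable Φ.F := countable_F Φ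
  exact lint_holder (fun x hx => hx.1) (measurable_Xs H.gm _ _ l) hp (int_Xs H hW hWs l)

/-- the sum of the three directions -/
theorem GGw_rpow_le {𝒞 : Type*} (w : 𝒞 → ℝ≥0∞) (g : 𝒞 → Fin 3 → E3 → ℝ) (hp : 1 ≤ p) (x : E3) :
    GGw w g x ^ p ≤ 3 ^ (p - 1) * ∑ l, Hw w g l x ^ p := by
  rw [GGw_eq]
  have h1 := ENNReal.rpow_sum_le_const_mul_sum_rpow (Finset.univ : Finset (Fin 3))
    (fun l => Hw w g l x) hp
  simpa using h1

/-- the energies on a set -/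
theorem int_GGw_le {𝒞 : Type*} [Countable 𝒞] {w : 𝒞 → ℝ≥0∞} {g : 𝒞 → Fin 3 → E3 → ℝ}
    (hg : ∀ c l, Measurable (g c l)) (hp : 1 ≤ p) {S : Set E3} {θ : ℝ≥0∞}
    (h : ∀ l, ∫⁻ x in S, Hw w g l x ^ p ≤ θ) : ∫⁻ x in S, GGw w g x ^ p ≤ 3 ^ p * θ := by
  calc ∫⁻ x in S, GGw w g x ^ p ≤ ∫⁻ x in S, 3 ^ (p - 1) * ∑ l, Hw w g l x ^ p :=
        lintegral_mono fun x => GGw_rpow_le w g hp x
    _ = 3 ^ (p - 1) * ∑ l, ∫⁻ x in S, Hw w g l x ^ p := by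
        rw [lintegral_const_mul _ (Finset.measurable_sum _ fun l _ =>
          (measurable_Hw hg w l).pow_const p), lintegral_finsetSum _ fun l _ =>
          (measurable_Hw hg w l).pow_const p]
    _ ≤ 3 ^ (p - 1) * ∑ _l : Fin 3, θ := by
        gcongr with l
        exact h l
    _ = 3 ^ p * θ := by
        rw [Finset.sum_const, Finset.card_univ, Fintype.card_fin, nsmul_eq_mul, ← mul_assoc]
        congr 1
        have e : (3 : ℝ≥0∞) ^ (p - 1) * 3 = 3 ^ (p - 1) * 3 ^ (1 : ℝ) := by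
          rw [ENNReal.rpow_one]
        push_cast
        rw [e, ← ENNReal.rpow_add _ _ (by norm_num) (by norm_num), sub_add_cancel]

/-- the energy on the bad set -/
theorem int_GGw_X (hp : 1 ≤ p) (H : FrontC p q s ε ε' Om La M h a Φ f1 X HH g)
    (hW : ∀ c : Φ.F, IsLog q a h c.1 → W c = h / 2) (hWs : ∀ c : Φ.F, W c ≤ c.1.sz) :
    ∫⁻ x in Op Φ Om f1 ∩ X, GGw (wt W) g x ^ p ≤ 3 ^ p * (ε' * volume Om) := by
  have : Countable Φ.F := countable_F Φ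
  refine int_GGw_le H.gm hp fun l => ?_
  exact H.eX l _ (fun c hc => by simp only [wt, hW c hc]) fun c =>
    ENNReal.ofReal_le_ofReal (hWs c)

/-- the whole energy is finite -/
theorem int_GGw_lt (hp : 1 ≤ p) (H : FrontC p q s ε ε' Om La M h a Φ f1 X HH g)
    (hW : ∀ c : Φ.F, IsLog q a h c.1 → W c = h / 2) (hWs : ∀ c : Φ.F, W c ≤ c.1.sz)
    (hε : ε ≠ ⊤) (hv : volume Om ≠ ⊤) : ∫⁻ x in Op Φ Om f1, GGw (wt W) g x ^ p < ⊤ := by
  have : Countable Φ.F := countable_F Φ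
  have hp0 : 0 ≤ p := by linarith
  have hvΩ : volume (Op Φ Om f1) ≠ ⊤ := ne_top_of_le_ne_top hv (measure_mono fun x hx => hx.1)
  set σ : ℝ≥0∞ := ∑ l, ENNReal.ofReal (s l) with hσ
  have hσl : ∀ l, ENNReal.ofReal (s l) ≤ σ := fun l =>
    Finset.single_le_sum (f := fun l => ENNReal.ofReal (s l)) (fun _ _ => zero_le)
      (Finset.mem_univ l)
  have hσt : σ ≠ ⊤ := ENNReal.sum_ne_top.2 fun _ _ => ENNReal.ofReal_ne_top
  have h1 : ∀ l, ∫⁻ x in Op Φ Om f1, Hw (wt W) g l x ^ p ≤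
      2 ^ (p - 1) * (ε * volume Om + σ ^ p * volume (Op Φ Om f1)) := by
    intro l
    calc ∫⁻ x in Op Φ Om f1, Hw (wt W) g l x ^ p
        ≤ ∫⁻ x in Op Φ Om f1, 2 ^ (p - 1) *
          (Xs (wt W) g (fun l => ENNReal.ofReal (s l)) l x ^ p + σ ^ p) := by
          refine lintegral_mono fun x => ?_
          have h2 : Hw (wt W) g l x ≤ Xs (wt W) g (fun l => ENNReal.ofReal (s l)) l x + σ := by
            unfold Xs
            exact le_tsub_add.trans (add_le_add le_rfl (hσl l))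
          exact (ENNReal.rpow_le_rpow h2 hp0).trans (ENNReal.rpow_add_le_mul_rpow_add_rpow _ _ hp)
      _ = 2 ^ (p - 1) * ((∫⁻ x in Op Φ Om f1,
            Xs (wt W) g (fun l => ENNReal.ofReal (s l)) l x ^ p) +
          σ ^ p * volume (Op Φ Om f1)) := by
          rw [lintegral_const_mul _ (((measurable_Xs H.gm _ _ l).pow_const p).add_const _),
            lintegral_add_right _ measurable_const, setLIntegral_const]
      _ ≤ _ := by
          gcongr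
          exact int_Xs H hW hWs l
  refine (int_GGw_le H.gm hp h1).trans_lt ?_
  have h3 : (3 : ℝ≥0∞) ^ p ≠ ⊤ := ENNReal.rpow_ne_top_of_nonneg hp0 (by norm_num)
  have h4 : (2 : ℝ≥0∞) ^ (p - 1) ≠ ⊤ := ENNReal.rpow_ne_top_of_nonneg (by linarith) (by norm_num)
  have h5 : σ ^ p ≠ ⊤ := ENNReal.rpow_ne_top_of_nonneg hp0 hσt
  exact (ENNReal.mul_ne_top h3 (ENNReal.mul_ne_top h4 (ENNReal.add_ne_top.2
    ⟨ENNReal.mul_ne_top hε hv, ENNReal.mul_ne_top h5 hvΩ⟩))).lt_top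

end fronti

/-! ### the bad set -/

/-- the numerical constant -/
def Kn (p : ℝ) : ℝ≥0∞ := 96 + 24 * KE 3 p * 3 ^ p

theorem Kn_ne_top {p : ℝ} (hp : 1 ≤ p) : Kn p ≠ ⊤ := by
  refine ENNReal.add_ne_top.2 ⟨by norm_num, ENNReal.mul_ne_top (ENNReal.mul_ne_top (by norm_num)
    (KE_ne_top hp)) (ENNReal.rpow_ne_top_of_nonneg (by linarith) (by norm_num))⟩

section main

variable {p : ℝ} {q : ℕ} {s : Fin 3 → ℝ} {ε ε' : ℝ≥0∞} {L : ℕ} {La : Set E3}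
  {M h : ℝ} {a : Fin 3 → ℝ} {Φ : FoamD (dF q) (kF q) 6 (cN q) La}
  {f1 : E3 → E3} {X HH : Set E3} {g : Φ.F → Fin 3 → E3 → ℝ} {W : Φ.F → ℝ}

theorem vol_QL (hL : 1 ≤ L) : volume (QL (L : ℝ)) ≠ ⊤ :=
  (Nst_780.isBounded_QL (by
    have : (1 : ℝ) ≤ L := by exact_mod_cast hL
    linarith)).measure_lt_top.ne

/-- **the open bad set `R'`** -/
theorem exists_Rp (hp : 1 ≤ p) (hL : 1 ≤ L)
    (H : FrontC p q s ε ε' (QL L) La M h a Φ f1 X HH g) (hε : ε ≠ ⊤) (hε' : ε' ≠ ⊤)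
    (hW : ∀ c : Φ.F, IsLog q a h c.1 → W c = h / 2) (hWs : ∀ c : Φ.F, W c ≤ c.1.sz)
    {K : ℝ≥0∞} (hK : Kn p ≤ K) {e : ℝ≥0∞} (he : e ≠ 0) :
    ∃ R' : Set E3, IsOpen R' ∧ X ⊆ R' ∧ R' ⊆ QL L ∧ QL L ⊆ HH ∪ R' ∧
      volume R' ≤ K * ε' * volume (QL L) + e ∧
      24 * KE 3 p * ∫⁻ x in Op Φ (QL L) f1 ∩ R', GGw (wt W) g x ^ p ≤
        K * ε' * volume (QL L) + e := by
  have hp0 : 0 < p := by linarith
  have : Countable Φ.F := countable_F Φ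
  have hL0 : (L : ℝ) ≠ 0 := by
    have : (1 : ℝ) ≤ L := by exact_mod_cast hL
    linarith
  have hΩ : MeasurableSet (Op Φ (QL L) f1) := H.op.measurableSet
  have hΩs : Op Φ (QL L) f1 ⊆ QL L := fun x hx => hx.1
  set G : E3 → ℝ≥0∞ := (Op Φ (QL L) f1).indicator (GGw (wt W) g) with hG
  have hGp : ∀ S : Set E3, S ⊆ QL L → ∫⁻ x in S, G x ^ p =
      ∫⁻ x in Op Φ (QL L) f1 ∩ S, GGw (wt W) g x ^ p := by
    intro S hS
    have e1 : (fun x => G x ^ p) = (Op Φ (QL L) f1).indicator (fun x => GGw (wt W) g x ^ p) := by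
      funext x
      by_cases hx : x ∈ Op Φ (QL L) f1
      · rw [hG, indicator_of_mem hx, indicator_of_mem hx]
      · rw [hG, indicator_of_notMem hx, indicator_of_notMem hx, ENNReal.zero_rpow_of_pos hp0]
    rw [e1, setLIntegral_indicator hΩ]
  have hfin : ∫⁻ x in QL L, G x ^ p < ⊤ := by
    rw [hGp _ subset_rfl, inter_eq_self_of_subset_left hΩs]
    exact int_GGw_lt hp H hW hWs hε (vol_QL hL)
  have hKE : 24 * KE 3 p ≠ ⊤ := ENNReal.mul_ne_top (by norm_num) (KE_ne_top hp)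
  obtain ⟨e1, he1, he1e, he1K⟩ : ∃ e1 : ℝ≥0∞, e1 ≠ 0 ∧ e1 ≤ e ∧ 24 * KE 3 p * e1 ≤ e := by
    refine ⟨min e (e / (24 * KE 3 p)), ?_, min_le_left _ _, ?_⟩
    · exact (lt_min (pos_iff_ne_zero.2 he) (ENNReal.div_pos he hKE)).ne'
    · exact (mul_le_mul' le_rfl (min_le_right _ _)).trans ENNReal.mul_div_le
  obtain ⟨R', h1, -, h2, h3, h4, h5⟩ := Nx2_473.exists_R' (Nst_780.isOpen_QL hL0)
    (Nst_780.isBounded_QL hL0) H.Xm H.XO (G := G) hfin he1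
  have hK1 : 1 ≤ K := le_trans (by
    unfold Kn
    exact le_add_right (by norm_num)) hK
  have hK2 : 24 * KE 3 p * 3 ^ p ≤ K := le_trans (by
    unfold Kn
    exact le_add_left le_rfl) hK
  refine ⟨R', h1, h2, h3, fun x hx => ?_, ?_, ?_⟩
  · by_cases hxX : x ∈ X
    · exact Or.inr (h2 hxX)
    · exact Or.inl (H.HHX ⟨hx, hxX⟩)
  · refine h4.trans (add_le_add (H.Xv.trans ?_) he1e)
    rw [mul_assoc]
    exact le_mul_of_one_le_left zero_le hK1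
  · rw [hGp R' h3, hGp X H.XO] at h5
    calc 24 * KE 3 p * ∫⁻ x in Op Φ (QL L) f1 ∩ R', GGw (wt W) g x ^ p
        ≤ 24 * KE 3 p * (3 ^ p * (ε' * volume (QL L)) + e1) := by
          gcongr
          exact h5.trans (add_le_add (int_GGw_X hp H hW hWs) le_rfl)
      _ = 24 * KE 3 p * 3 ^ p * (ε' * volume (QL L)) + 24 * KE 3 p * e1 := by ring
      _ ≤ K * (ε' * volume (QL L)) + e := by gcongr
      _ = _ := by ring

/-- **the numbers of `MeshN`** at one shift `a' ∈ A'`, `volume (box 3 \ A') ≤ 1/4` -/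
theorem nums (hp : 1 ≤ p) (hLa : IsOpen La)
    (H : FrontC p q s ε ε' (QL L) La M h a Φ f1 X HH g)
    (hg0 : ∀ c l, ∀ x, x ∉ Op Φ (QL L) f1 → g c l x = 0)
    (hW : ∀ c : Φ.F, IsLog q a h c.1 → W c = h / 2) (hWs : ∀ c : Φ.F, W c ≤ c.1.sz)
    {K : ℝ≥0∞} (hK : Kn p ≤ K) {R' : Set E3} (hR : IsOpen R') {e2 : ℝ≥0∞}
    (hR2 : 24 * KE 3 p * ∫⁻ x in Op Φ (QL L) f1 ∩ R', GGw (wt W) g x ^ p ≤ e2)
    (D : Dat 3) (hD : D.Om = QL L) {N : ℕ} {Hk : Fin N → E3 → ℝ≥0∞} (hH : ∀ k, Measurable (Hk k))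
    {θ : Fin N → ℝ≥0∞} (hθ : ∀ k, ∫⁻ b in box 3, Hk k b ≤ θ k) {A' : Set E3}
    (hA : volume (box 3 \ A') ≤ 1 / 4) {Q : E3 → Prop} (hQ : ∀ᵐ b, Q b) :
    ∃ b ∈ A', b ∈ box 3 ∧ Q b ∧
      (∀ (k : ℕ) (z : Fin 3 → ℤ), Good (Op Φ (QL L) f1) (us Φ f1) g (vx b k z)) ∧
      (∀ l, Ed (D.sh b) l p (Xs (wt W) g (fun l => ENNReal.ofReal (s l)) l) ≤
        K * (ε + ε ^ p⁻¹) * volume (QL L)) ∧
      (∀ l, Ed (D.sh b) l 1 (Xs (wt W) g (fun l => ENNReal.ofReal (s l)) l) ≤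
        K * (ε + ε ^ p⁻¹) * volume (QL L)) ∧
      S (D.sh b) p (R'.indicator (GGw (wt W) g)) ≤ e2 ∧
      ∀ k, Hk k b ≤ 8 * N * θ k := by
  have : Countable Φ.F := countable_F Φ
  have hsub : Op Φ (QL L) f1 ⊆ D.Om := fun x hx => by rw [hD]; exact hx.1
  obtain ⟨b, h1, h2, h3, h4, h5, h6, h7, h8⟩ := Nx3_473.shift3 D H.op hsub H.gm hg0
    (v := us Φ f1) H.wd
    (fun c => continuousOn_us hLa H.homeo (fun x hx => hx.1) (fun x hx c => hx.2 c) c)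
    (wt W) (fun l => ENNReal.ofReal (s l)) hp hR.measurableSet hH hθ hA hQ
  have hK96 : 96 ≤ K := le_trans (by
    unfold Kn
    exact le_add_right le_rfl) hK
  refine ⟨b, h1, h2, h3, h4, fun l => (h5 l).trans ?_, fun l => (h6 l).trans ?_, h7.trans hR2, h8⟩
  · rw [mul_assoc]
    exact mul_le_mul' hK96 ((int_Xs H hW hWs l).trans (mul_le_mul' le_self_add le_rfl))
  · rw [mul_assoc]
    exact mul_le_mul' hK96 ((int_Xs1 hp H hW hWs l).trans (mul_le_mul' le_add_self le_rfl))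

open Crest.Agent.R096.Mal_874 in
/-- the same for the outer mesh of mesh data -/
theorem nums_md (hp : 1 ≤ p) (hLa : IsOpen La)
    (H : FrontC p q s ε ε' (QL L) La M h a Φ f1 X HH g)
    (hg0 : ∀ c l, ∀ x, x ∉ Op Φ (QL L) f1 → g c l x = 0)
    (hW : ∀ c : Φ.F, IsLog q a h c.1 → W c = h / 2) (hWs : ∀ c : Φ.F, W c ≤ c.1.sz)
    {K : ℝ≥0∞} (hK : Kn p ≤ K) {R' : Set E3} (hR : IsOpen R') {e2 : ℝ≥0∞}
    (hR2 : 24 * KE 3 p * ∫⁻ x in Op Φ (QL L) f1 ∩ R', GGw (wt W) g x ^ p ≤ e2)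
    {J : Type*} (Md : MD E3 3 J) (hD : Md.D0.Om = QL L) (k : J → ℕ)
    {N : ℕ} {Hk : Fin N → E3 → ℝ≥0∞} (hH : ∀ k, Measurable (Hk k))
    {θ : Fin N → ℝ≥0∞} (hθ : ∀ k, ∫⁻ b in box 3, Hk k b ≤ θ k) {A' : Set E3}
    (hA : volume (box 3 \ A') ≤ 1 / 4) {Q : E3 → Prop} (hQ : ∀ᵐ b, Q b) :
    ∃ b ∈ A', b ∈ box 3 ∧ Q b ∧
      (∀ (k : ℕ) (z : Fin 3 → ℤ), Good (Op Φ (QL L) f1) (us Φ f1) g (vx b k z)) ∧
      (∀ l, Ed (outD Md.D0 k Md.W b) l p (Xs (wt W) g (fun l => ENNReal.ofReal (s l)) l) ≤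
        K * (ε + ε ^ p⁻¹) * volume (QL L)) ∧
      (∀ l, Ed (outD Md.D0 k Md.W b) l 1 (Xs (wt W) g (fun l => ENNReal.ofReal (s l)) l) ≤
        K * (ε + ε ^ p⁻¹) * volume (QL L)) ∧
      S (outD Md.D0 k Md.W b) p (R'.indicator (GGw (wt W) g)) ≤ e2 ∧
      ∀ k, Hk k b ≤ 8 * N * θ k :=
  nums hp hLa H hg0 hW hWs hK hR hR2 (outD Md.D0 k Md.W 0) (by
    rw [Md.outD_Om_eq 0, hD]) hH hθ hA hQ

end main

end Crest.Agent.R096.Nx4_473
end
end

-- ▼ part R096/Nend4_458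
section

/-!
Row 96 (S0127), helper458.  **[X4]** of 962's `MeshN`: the field `ends` (`p ≥ 3`), from 691's
`exists_ends` (functions for 273's shift) and closeness of `f1` to `f` on `QL L` only.
-/

set_option autoImplicit false
set_option linter.unusedSectionVars false
set_option linter.unusedVariables false

open MeasureTheory Set Filter Topology Metric
open scoped ENNReal

noncomputable section

namespace Crest.Agent.R096.Nend_458

open Crest.Agent.R096.Msh_810 (box)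
open Crest.Agent.R96.En10_199 (P3)
open Crest.Agent.R096.SkC1_961 (E3 Hom3)
open Crest.Agent.R096.Er_594 (SH3)
open Crest.Agent.R096.No0_477 (vx)
open Crest.Agent.R096.No_276 (QL)
open Crest.Agent.R096.Pg_691 (exists_ends ends_final)

/-- all vertices of the block lie in `QL L` -/
theorem vx_mem_QL {L : ℝ} {r : ℝ} (hr : 0 < r) {a : E3} {o : Fin 2 → ℤ} {M : ℕ} {Zs : Finset ℤ}
    (lo : ∀ j : Fin 2, -1 < a j.castSucc + r * o j)
    (hi : ∀ j : Fin 2, a j.castSucc + r * (o j + M) < 1)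
    (zs : ∀ m ∈ Zs, |L * (a 2 + r * m)| < 1) {m : ℤ} (hm : m ∈ Zs) {v : Fin 2 → ℕ}
    (hv : ∀ i, v i ≤ M) : vx a r o m v ∈ QL L := by
  have h2 := zs m hm
  have h0' : (v 0 : ℝ) ≤ M := by exact_mod_cast hv 0
  have h1' : (v 1 : ℝ) ≤ M := by exact_mod_cast hv 1
  have h0'' : (0 : ℝ) ≤ v 0 := Nat.cast_nonneg _
  have h1'' : (0 : ℝ) ≤ v 1 := Nat.cast_nonneg _
  have e0 : r * v 0 ≤ r * M := mul_le_mul_of_nonneg_left h0' hr.le
  have e1 : r * v 1 ≤ r * M := mul_le_mul_of_nonneg_left h1' hr.le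
  have e2 : 0 ≤ r * v 0 := mul_nonneg hr.le h0''
  have e3 : 0 ≤ r * v 1 := mul_nonneg hr.le h1''
  have lo0 := lo 0
  have lo1 := lo 1
  have hi0 := hi 0
  have hi1 := hi 1
  simp only [Fin.castSucc_zero, Fin.castSucc_one, mul_add] at lo0 lo1 hi0 hi1
  refine ⟨?_, ?_, ?_⟩
  · simp only [vx]
    simp
    rw [abs_lt]
    constructor <;> nlinarith
  · simp only [vx]
    simp
    rw [abs_lt]
    constructor <;> nlinarith
  · simp only [vx]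
    simpa using h2

/-- **[X4]: the field `ends` of `MeshN`** -/
theorem ends3 {L : ℕ} (hL : 1 ≤ L) {f f1 : E3 → E3} {s : Fin 3 → ℝ} {r e5 ρ0 η : ℝ} {K0 : ℕ}
    (hr : r = ((2:ℝ) ^ K0)⁻¹) {a : E3} {o : Fin 2 → ℤ} {M : ℕ} {Zs : Finset ℤ} (hM : 0 < M)
    (lo : ∀ j : Fin 2, a j.castSucc + r * o j ≤ -(1 - η) ∧ -1 < a j.castSucc + r * o j)
    (hi : ∀ j : Fin 2, 1 - η ≤ a j.castSucc + r * (o j + M) ∧ a j.castSucc + r * (o j + M) < 1)
    (zs : ∀ m ∈ Zs, |(L : ℝ) * (a 2 + r * m)| ≤ 1 / 2)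
    (hN : 2 / L ≤ ((Zs.card : ℝ) * M ^ 2) * r ^ 3)
    {S : Fin 2 → E3 → ℝ≥0∞} (hS : ∀ j, EndB (QL L) f s j r (S j) a) {m δ' : ℝ≥0∞}
    (hSa : ∀ j, S j a ≤ m * (((2 : ℝ≥0∞) ^ K0) ^ 2 * (δ' * volume (QL (L : ℝ)))))
    (hδ : 16 * (m * δ') ≤ ENNReal.ofReal (e5 / 2)) (he : 0 < e5)
    (hf : ∀ x ∈ QL (L : ℝ), ‖f1 x - f x‖ ≤ ρ0) (hh : 8 * ρ0 ≤ e5) :
    ∀ j : Fin 2, ∑ m ∈ Zs, ∑ t ∈ Finset.range (M + 1),
      |(f1 (vx a r o m (fun i => if i = j then M else t)) -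
        f1 (vx a r o m (fun i => if i = j then 0 else t))) j.castSucc - s j.castSucc * (M * r)| ≤
        e5 * ((Zs.card : ℝ) * M) := by
  classical
  have hr0 : 0 < r := by rw [hr]; positivity
  have hL0 : (0 : ℝ) < L := by exact_mod_cast hL
  have h0 : 0 ≤ ρ0 ∨ ∀ x, x ∉ QL (L : ℝ) := by
    by_cases h : ∃ x, x ∈ QL (L : ℝ)
    · obtain ⟨x, hx⟩ := h
      exact Or.inl ((norm_nonneg _).trans (hf x hx))
    · exact Or.inr fun x hx => h ⟨x, hx⟩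
  intro j
  have hin : ∀ m ∈ Zs, ∀ t ∈ Finset.range (M + 1), ∀ k : ℕ, k ≤ M →
      vx a r o m (fun i => if i = j then k else t) ∈ QL (L : ℝ) := by
    intro m hm t ht k hk
    refine vx_mem_QL hr0 (fun j => (lo j).2) (fun j => (hi j).2)
      (fun m hm => (zs m hm).trans_lt (by norm_num)) hm fun i => ?_
    have ht' : t ≤ M := Nat.lt_succ_iff.1 (Finset.mem_range.1 ht)
    split_ifs <;> omega
  rcases h0 with h0 | h0
  · set g : E3 → E3 := fun x => if x ∈ QL (L : ℝ) then f1 x else f x with hg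
    have hgf : ∀ x, ‖g x - f x‖ ≤ ρ0 := by
      intro x
      by_cases hx : x ∈ QL (L : ℝ)
      · simpa [hg, hx] using hf x hx
      · simpa [hg, hx] using h0
    have key := ends_final hL (f := f) (f1 := g) (s := s) (r := r) (ε := e5) (h := ρ0) (k := K0)
      (by rw [hr, one_div]) (a := a) (o := o) (M := M) (Zs := Zs) hM (fun j => (lo j).2)
      (fun j => (hi j).2) zs (le_trans (by gcongr; norm_num) hN) hS hSa hδ he hgf hh j
    refine le_trans (le_of_eq ?_) key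
    refine Finset.sum_congr rfl fun m hm => Finset.sum_congr rfl fun t ht => ?_
    rw [hg]
    simp only [hin m hm t ht M le_rfl, hin m hm t ht 0 (Nat.zero_le _), if_true]
  · rw [Finset.sum_eq_zero]
    · positivity
    · intro m hm
      exact absurd (hin m hm 0 (Finset.mem_range.2 (by omega)) 0 (Nat.zero_le _)) (h0 _)

end Crest.Agent.R096.Nend_458
end
end

-- ▼ part R096/Blk4_764
section

/-!
Row 96 (S0127), helper764, NO0 `p ≥ 3`: the geometric hypotheses of `blocks3` (Blk3_764) for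
`N c = A c ⁻¹' cbx c ((1 + 2 κ2) lam c)`: closed, in `Om`, mapped into the open brick, pairwise disjoint.
-/

set_option autoImplicit false
set_option linter.unusedSectionVars false
set_option linter.unusedVariables false
set_option linter.style.longLine false

open MeasureTheory Set Filter Topology Metric
open scoped ENNReal NNReal

namespace Crest.Agent.R096.Blk_764

open Crest.Agent.R096.Bsp_628
open Crest.Agent.R096.Bxs_627 (ctr ctr_lo ctr_hi)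
open Crest.Agent.R096.SkC1_961 (E3)
open Crest.Agent.R096.EaX_766 (cbx lin ExIn)

theorem isClosed_cbx (Q : Bx (Fin 3)) (r : ℝ) : IsClosed (cbx Q r) := by
  unfold cbx
  simp only [Set.ofPred_forall]
  refine isClosed_iInter fun k => isClosed_le ?_ continuous_const
  fun_prop

theorem isClosed_pre_cbx (A : E3 ≃ᵃ[ℝ] E3) (Q : Bx (Fin 3)) (r : ℝ) : IsClosed (A ⁻¹' cbx Q r) :=
  (isClosed_cbx Q r).preimage A.toAffineMap.continuous_of_finiteDimensional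

/-- the enlarged core box is mapped into the open brick -/
theorem f_mem_of_exIn {p : ℝ} {Om : Set E3} {f : E3 → E3} {D : E3 → E3 →L[ℝ] E3} {o : E3}
    {u κ0 κ1 κ2 lam : ℝ} {Q : Bx (Fin 3)} (hQ : Q.Pos) (hasp : ∀ i, Q.sz ≤ κ0 * Q.side i)
    {A : E3 ≃ᵃ[ℝ] E3} (hl0 : 0 < lam) (hl : lam ≤ 1 / 4) (h2 : κ2 ≤ 1 / 8) (h10 : 0 ≤ κ1)
    (h1 : κ1 * κ0 ≤ 1 / 2) (hex : ExIn p Om f D o u κ1 κ2 Q A lam) {x : E3}
    (hx : A x ∈ cbx Q ((1 + 2 * κ2) * lam)) : x ∈ Om ∧ ∀ k, Q.lo k < f x k ∧ f x k < Q.hi k := by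
  obtain ⟨hxO, h3⟩ := hex.cor x (Or.inr hx)
  refine ⟨hxO, fun k => ?_⟩
  have h4 := hx k
  have h5 : |f x k - A x k| ≤ κ1 * (lam * Q.sz) := by
    have := norm_le_pi_norm (f x - A x) k
    rw [Pi.sub_apply, Real.norm_eq_abs] at this
    exact this.trans h3
  have hs := Bx.side_pos hQ k
  have h6 : κ1 * (lam * Q.sz) ≤ Q.side k / 8 := by
    have h7 := hasp k
    calc κ1 * (lam * Q.sz) ≤ κ1 * (1 / 4 * (κ0 * Q.side k)) := by
          refine mul_le_mul_of_nonneg_left ?_ h10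
          have h8 : 0 < Q.sz := Bx.sz_pos hQ
          exact mul_le_mul hl h7 h8.le (by norm_num)
      _ = κ1 * κ0 * Q.side k / 4 := by ring
      _ ≤ _ := by nlinarith
  have h7 : (1 + 2 * κ2) * lam * Q.side k / 2 ≤ Q.side k * (5 / 32) := by
    have h8 : (1 + 2 * κ2) * lam ≤ 5 / 4 * (1 / 4) := by nlinarith
    nlinarith
  have h8 := abs_le.1 (h4.trans h7)
  have h9 := abs_le.1 (h5.trans h6)
  have e1 := ctr_lo Q k
  have e2 := ctr_hi Q k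
  constructor <;> linarith [h8.1, h8.2, h9.1, h9.2]

/-- **the enlarged cores are pairwise disjoint** -/
theorem N_disj {La : Set E3} {F : Set (Bx (Fin 3))} {δ κ0 : ℝ} (BF : BoxFoam La F δ κ0)
    {p : ℝ} {Om : Set E3} {f : E3 → E3} {D : E3 → E3 →L[ℝ] E3} {o : E3} {u κ1 κ2 : ℝ}
    {A : F → E3 ≃ᵃ[ℝ] E3} {lam : F → ℝ} (hl0 : ∀ c, 0 < lam c) (hl : ∀ c, lam c ≤ 1 / 4)
    (h2 : κ2 ≤ 1 / 8) (h10 : 0 ≤ κ1) (h1 : κ1 * κ0 ≤ 1 / 2)
    (hex : ∀ c : F, ExIn p Om f D o u κ1 κ2 c.1 (A c) (lam c)) :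
    Pairwise (Function.onFun Disjoint fun c : F => A c ⁻¹' cbx c.1 ((1 + 2 * κ2) * lam c)) := by
  intro c c' hne
  rw [Function.onFun, Set.disjoint_left]
  intro x hx hx'
  have a1 := (f_mem_of_exIn (BF.pos _ c.2) (BF.asp _ c.2) (hl0 c) (hl c) h2 h10 h1 (hex c) hx).2
  have a2 := (f_mem_of_exIn (BF.pos _ c'.2) (BF.asp _ c'.2) (hl0 c') (hl c') h2 h10 h1 (hex c')
    hx').2
  obtain ⟨k, hk⟩ := BF.inv.disj c.2 c'.2 (BF.pos _ c.2) (BF.pos _ c'.2)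
    (fun h => hne (Subtype.ext h))
  have b1 := a1 k
  have b2 := a2 k
  rcases hk with hk | hk <;> linarith [b1.1, b1.2, b2.1, b2.2]



end Crest.Agent.R096.Blk_764
end

-- ▼ part R096/Eax1_713
section

/-!
Row 96 (S0127), helper713.  EA p, the conclusion half: from `Mbf_337.Out` (the machine) to the energy
clauses of `EaX_766.EA` (335 #10429 (D5), (D6)).
-/

set_option autoImplicit false
set_option linter.style.longLine false
set_option linter.unusedSectionVars false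

open MeasureTheory Set Filter Topology Metric
open scoped ENNReal NNReal

namespace Crest.Agent.R096.Eax_713

open Crest.Agent.R096.Bsp_628 Crest.Agent.R096.Brk1_582 Crest.Agent.R096.Brk3_582
open Crest.Agent.R096.Brk5_582
open Crest.Agent.R096.Msh_715 Crest.Agent.R96.Hole_348
open Crest.Agent.R096.SkC1_961 (E3 Hom3 IsPush FoamD Cfg th NN)
open Crest.Agent.R096.Mbf_337
open Crest.Agent.R096.Bxs_627 (ctr zz)
open Crest.Agent.R096.EaX_766 (cbx lin Kor)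

noncomputable section

variable {δ κ0 R c0 : ℝ} {La Om : Set E3} {ι : Type}

theorem lin_eq (A : E3 ≃ᵃ[ℝ] E3) : Ea_713.lin A = lin A := rfl

/-- the box of `EaX_766` = the box of `Exact` -/
theorem cbx_eq {Q : Bx (Fin 3)} {lam : ℝ} :
    cbx Q lam = {y | ∀ k, zz Q lam k + lam * Q.lo k ≤ y k ∧ y k ≤ zz Q lam k + lam * Q.hi k} := by
  ext y
  simp only [cbx, zz, ctr, Bx.side, Set.mem_ofPred_eq, abs_le]
  constructor
  · intro h k
    have := h k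
    constructor <;> linarith [this.1, this.2]
  · intro h k
    have := h k
    constructor <;> linarith [this.1, this.2]



/-- the shape of the tile `i` in the frame `B` -/
def shp (T : Tiling Om ι) (B : ι → E3 ≃ᵃ[ℝ] E3) (i : ι) : Set (Set E3) :=
  (fun K => B i '' K) '' Cfg T i

/-- the Lipschitz constants of the machine in the ordinary tiles -/
def ell (C : Set (Set E3) → ℝ) (T : Tiling Om ι) (B : ι → E3 ≃ᵃ[ℝ] E3) (N : ι → ℝ) (tol : ι → ℝ)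
    (i : ι) : ℝ := C (shp T B i) * N i * ‖lin (B i)‖ + tol i







end

end Crest.Agent.R096.Eax_713
end

-- ▼ part R096/Jv1_733

/-!
Row 96 (S0127), helper733, NO0 `p ≥ 3`, mesh part, (M7) of 962 #11558.

* `junk_sum`, **`junk_vol`**, **`junk_front`** : the total volume of the blocks is small (hypothesis
  `hvol` of 798's `exists_geoN`)
* **`cs_trA`**, `cs_cores`, `cs_front` : the field `cs` of `MeshN` (translated core tiles)
-/

set_option autoImplicit false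
set_option linter.unusedSectionVars false
set_option linter.unusedVariables false
set_option linter.style.longLine false

open MeasureTheory Set Filter Topology Metric
open scoped ENNReal NNReal

namespace Crest.Agent.R096.Jv_733

open Crest.Agent.R096.Msh_715 hiding P
open Crest.Agent.R096.Bsp_628 Crest.Agent.R096.Brk5_582 Crest.Agent.R096.Dic6_582
open Crest.Agent.R096.SkC1_961 (E3 FoamD Hom3)
open Crest.Agent.R096.EaX_766 (cbx lin ExIn)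
open Crest.Agent.R096.Fns_360 (trA trA_apply trA_linear trA_sub)
open Crest.Agent.R096.Blk_764 (N_disj isClosed_pre_cbx)
open Crest.Agent.R096.No_276 (QL)
open Crest.Agent.R096.Npl_477 (vol_QL)
open Crest.Agent.R096.Np_962 (Front3)
open Crest.Agent.R096.Dic7_582 Crest.Agent.R096.Npr_582
open Crest.Agent.R096.Bxs_627 (zz)

noncomputable section

/-! ### JUNK-VOL -/

/-- disjoint blocks in `X` -/
theorem junk_sum {La : Set E3} {F : Set (Bx (Fin 3))} {δ κ0 : ℝ} (BF : BoxFoam La F δ κ0)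
    {p : ℝ} {Om : Set E3} {f : E3 → E3} {D : E3 → E3 →L[ℝ] E3} {o : E3} {u κ1 κ2 : ℝ}
    {A : F → E3 ≃ᵃ[ℝ] E3} {lam : F → ℝ} (hl0 : ∀ c, 0 < lam c) (hl : ∀ c, lam c ≤ 1 / 4)
    (h2 : κ2 ≤ 1 / 8) (h10 : 0 ≤ κ1) (h1 : κ1 * κ0 ≤ 1 / 2)
    (hex : ∀ c : F, ExIn p Om f D o u κ1 κ2 c.1 (A c) (lam c)) {X : Set E3}
    (hX : ∀ c, A c ⁻¹' cbx c.1 ((1 + 2 * κ2) * lam c) ⊆ X)
    {J : Type*} {b : J → F} (hb : Function.Injective b) {N : J → Set E3}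
    (hN : ∀ j, N j ⊆ A (b j) ⁻¹' cbx (b j).1 ((1 + 2 * κ2) * lam (b j))) (S : Finset J) :
    ∑ j ∈ S, volume (N j) ≤ volume X := by
  have hd := N_disj BF hl0 hl h2 h10 h1 hex
  calc ∑ j ∈ S, volume (N j)
      ≤ ∑ j ∈ S, volume (A (b j) ⁻¹' cbx (b j).1 ((1 + 2 * κ2) * lam (b j))) :=
        Finset.sum_le_sum fun j _ => measure_mono (hN j)
    _ = volume (⋃ j ∈ S, A (b j) ⁻¹' cbx (b j).1 ((1 + 2 * κ2) * lam (b j))) := by
        rw [measure_biUnion_finset]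
        · intro i _ j _ hij
          exact hd (hb.ne hij)
        · intro j _
          exact (isClosed_pre_cbx _ _ _).measurableSet
    _ ≤ volume X := measure_mono (iUnion₂_subset fun j _ => hX _)

/-- `volume X ≤ ε' volume (QL L)` in numbers -/
theorem vol_le {X : Set E3} {L : ℕ} (hL : 1 ≤ L) {ε' K : ℝ≥0∞} {e5 : ℝ} (he5 : 0 ≤ e5) (hK : 8 ≤ K)
    (hKe : K * ε' ≤ ENNReal.ofReal e5) (hX : volume X ≤ ε' * volume (QL L)) :
    volume X ≤ ENNReal.ofReal (e5 / L) := by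
  have hL0 : (0 : ℝ) < L := by exact_mod_cast hL
  refine hX.trans ?_
  rw [vol_QL hL0]
  calc ε' * ENNReal.ofReal (8 / L) = 8 * ε' * ENNReal.ofReal (1 / L) := by
        rw [show (8 : ℝ) / L = 8 * (1 / L) by ring, ENNReal.ofReal_mul (by norm_num)]
        rw [show ENNReal.ofReal 8 = 8 by norm_num]
        ring
    _ ≤ K * ε' * ENNReal.ofReal (1 / L) := by gcongr
    _ ≤ ENNReal.ofReal e5 * ENNReal.ofReal (1 / L) := by gcongr
    _ = ENNReal.ofReal (e5 / L) := by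
        rw [← ENNReal.ofReal_mul he5]
        congr 1; ring

variable {δ κ0 R c0 : ℝ} {La : Set E3}

/-- **[JUNK-VOL]**: the blocks of the mesh have small total volume (`hvol` of 798's `exists_geoN`). -/
theorem junk_vol {F : Set (Bx (Fin 3))} (BF : BoxFoam La F δ κ0)
    {p : ℝ} {L : ℕ} (hL : 1 ≤ L) {f : E3 → E3} {D : E3 → E3 →L[ℝ] E3} {o : E3} {u κ1 κ2 : ℝ}
    {A : F → E3 ≃ᵃ[ℝ] E3} {lam : F → ℝ} (hl0 : ∀ c, 0 < lam c) (hl : ∀ c, lam c ≤ 1 / 4)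
    (h2 : κ2 ≤ 1 / 8) (h10 : 0 ≤ κ1) (h1 : κ1 * κ0 ≤ 1 / 2)
    (hex : ∀ c : F, ExIn p (QL L) f D o u κ1 κ2 c.1 (A c) (lam c)) {X : Set E3}
    (hX : ∀ c, A c ⁻¹' cbx c.1 ((1 + 2 * κ2) * lam c) ⊆ X)
    {ε' K : ℝ≥0∞} {e5 : ℝ} (he5 : 0 ≤ e5) (hK : 8 ≤ K)
    (hKe : K * ε' ≤ ENNReal.ofReal e5) (hXv : volume X ≤ ε' * volume (QL L))
    {J : Type*} {b : J → F} (hb : Function.Injective b) {N : J → Set E3}
    (hN : ∀ j, N j ⊆ A (b j) ⁻¹' cbx (b j).1 ((1 + 2 * κ2) * lam (b j))) (S : Finset J) :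
    ∑ j ∈ S, volume (N j) ≤ ENNReal.ofReal (e5 / L) :=
  (junk_sum BF hl0 hl h2 h10 h1 hex hX hb hN S).trans (vol_le hL he5 hK hKe hXv)

/-- **[JUNK-VOL] from `Front3`** (all bricks; `N j` = `(M.Q j).N`, `b j` = its brick). -/
theorem junk_front {p : ℝ} {q : ℕ} {s : Fin 3 → ℝ} {ε ε' : ℝ≥0∞} {L : ℕ} (hL : 1 ≤ L)
    {f : E3 → E3} {M ρ0 h : ℝ} {a : Fin 3 → ℝ} {κ1 κ2 lam0 : ℝ}
    {Φ : FoamD (dF q) (kF q) 6 (cN q) La} {lam : Φ.F → ℝ} {A : Φ.F → E3 ≃ᵃ[ℝ] E3}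
    {f1 : E3 → E3} {D1 : E3 → E3 →L[ℝ] E3} {X HH : Set E3} {g : Φ.F → Fin 3 → E3 → ℝ}
    (H : Front3 p q s ε ε' (QL L) La f M ρ0 h a κ1 κ2 lam0 Φ lam A f1 D1 X HH g)
    (hl0 : ∀ c, 0 < lam c) (hl : ∀ c, lam c ≤ 1 / 4) (h2 : κ2 ≤ 1 / 8) (h10 : 0 ≤ κ1)
    (h1 : κ1 * kF q ≤ 1 / 2) {K : ℝ≥0∞} {e5 : ℝ} (he5 : 0 ≤ e5) (hK : 8 ≤ K)
    (hKe : K * ε' ≤ ENNReal.ofReal e5)
    {J : Type*} {b : J → Φ.F} (hb : Function.Injective b) {N : J → Set E3}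
    (hN : ∀ j, N j ⊆ A (b j) ⁻¹' cbx (b j).1 ((1 + 2 * κ2) * lam (b j))) (S : Finset J) :
    ∑ j ∈ S, volume (N j) ≤ ENNReal.ofReal (e5 / L) :=
  junk_vol Φ.bf hL hl0 hl h2 h10 h1 H.ex H.XN he5 hK hKe H.c.Xv hb hN S

/-! ### the field `cs` -/

theorem lin_trA (A : E3 ≃ᵃ[ℝ] E3) (v : E3) : lin (trA A v) = lin A := by
  unfold lin
  rw [trA_linear]

/-- translated sets -/
theorem volume_trA (A : E3 ≃ᵃ[ℝ] E3) (v : E3) (S : Set E3) :
    volume (trA A v ⁻¹' S) = volume (A ⁻¹' S) := by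
  have h1 : trA A v ⁻¹' S = (fun x => x - v) ⁻¹' (A ⁻¹' S) := by
    ext x
    rw [mem_preimage, mem_preimage, mem_preimage, trA_apply]
  rw [h1]
  simp only [sub_eq_add_neg]
  exact measure_preimage_add_right volume (-v) _

variable {Om : Set E3} {ι : Type}

/-- **the field `cs` of `MeshN`**: core tiles = translated cores -/
theorem cs_trA {p : ℝ} {F : Set (Bx (Fin 3))} {T : Tiling Om ι} {ct : F → ι} {A : F → E3 ≃ᵃ[ℝ] E3}
    {lam : F → ℝ} {v : F → E3} {e4 : ℝ≥0∞}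
    (hcs : ∑' c : F, ENNReal.ofReal ((1 / lam c * ‖lin (A c)‖) ^ p) *
      volume (A c ⁻¹' cbx c.1 (lam c)) ≤ e4)
    (ht : ∀ c, Msh_715.P (T.H (ct c)) = trA (A c) (v c) ⁻¹' cbx c.1 (lam c)) :
    ∑' c : F, ENNReal.ofReal ((1 / lam c * ‖Ea_713.lin (trA (A c) (v c))‖) ^ p) *
      volume (Msh_715.P (T.H (ct c))) ≤ e4 := by
  refine le_trans (le_of_eq (tsum_congr fun c => ?_)) hcs
  rw [ht c, volume_trA, Eax_713.lin_eq, lin_trA]

/-- the tile of an exact core -/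
theorem tile_exact {Φ : FoamD δ κ0 R c0 La} {T : Tiling Om ι} {f : E3 → E3} {κ1 κ2 : ℝ} {c : Φ.F}
    {i : ι} {A : E3 ≃ᵃ[ℝ] E3} {lam : ℝ}
    (h : Mbf_337.Exact Φ T f κ1 κ2 c i A lam (zz c.1 lam)) :
    Msh_715.P (T.H i) = A ⁻¹' cbx c.1 lam := by
  rw [Eax_713.cbx_eq]
  exact h.tile

/-- the field `cs` of `MeshN` from `Cores` with the translated maps -/
theorem cs_cores {p : ℝ} {Φ : FoamD δ κ0 R c0 La} {T : Tiling Om ι} {f : E3 → E3} {κ1 κ2 : ℝ}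
    {J0 J V : Φ.F → Set ι} {ct : Φ.F → ι} {A : Φ.F → E3 ≃ᵃ[ℝ] E3} {lam : Φ.F → ℝ} {v : Φ.F → E3}
    {θ : Φ.F → E3 → E3} {φ : Φ.F → E3 → ℝ} {e4 : ℝ≥0∞}
    (hcs : ∑' c : Φ.F, ENNReal.ofReal ((1 / lam c * ‖lin (A c)‖) ^ p) *
      volume (A c ⁻¹' cbx c.1 (lam c)) ≤ e4)
    (hC : Mbf_337.Cores Φ T f κ1 κ2 univ J0 J V ct (fun c => trA (A c) (v c)) lam
      (fun c => zz c.1 (lam c)) θ φ) :
    ∑' c : Φ.F, ENNReal.ofReal ((1 / lam c * ‖Ea_713.lin (trA (A c) (v c))‖) ^ p) *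
      volume (Msh_715.P (T.H (ct c))) ≤ e4 :=
  cs_trA hcs fun c => tile_exact (hC.exact_ c (mem_univ c))

/-- **the field `cs` of `MeshN` from `Front3`** with `e4 = ε' * volume (QL L)` -/
theorem cs_front {p : ℝ} {q : ℕ} {s : Fin 3 → ℝ} {ε ε' : ℝ≥0∞}
    {f : E3 → E3} {M ρ0 h : ℝ} {a : Fin 3 → ℝ} {κ1 κ2 lam0 : ℝ}
    {Φ : FoamD (dF q) (kF q) 6 (cN q) La} {lam : Φ.F → ℝ} {A : Φ.F → E3 ≃ᵃ[ℝ] E3}
    {f1 : E3 → E3} {D1 : E3 → E3 →L[ℝ] E3} {X HH : Set E3} {g : Φ.F → Fin 3 → E3 → ℝ}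
    (H : Front3 p q s ε ε' Om La f M ρ0 h a κ1 κ2 lam0 Φ lam A f1 D1 X HH g)
    {T : Tiling Om ι} {κ1' κ2' : ℝ} {J0 J V : Φ.F → Set ι} {ct : Φ.F → ι} {v : Φ.F → E3}
    {θ : Φ.F → E3 → E3} {φ : Φ.F → E3 → ℝ}
    (hC : Mbf_337.Cores Φ T f1 κ1' κ2' univ J0 J V ct (fun c => trA (A c) (v c)) lam
      (fun c => zz c.1 (lam c)) θ φ) :
    ∑' c : Φ.F, ENNReal.ofReal ((1 / lam c * ‖Ea_713.lin (trA (A c) (v c))‖) ^ p) *
      volume (Msh_715.P (T.H (ct c))) ≤ ε' * volume Om :=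
  cs_cores H.cs hC

end

end Crest.Agent.R096.Jv_733
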