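import Crest.Agent.R096.Er3_594

/-!
Row 96 (S0127), helper594.  **(R3) of 663 #9825**, part 4: `NO3 p → NO0 p`; energies with values in the
reals of the converse direction (`E3` to `R3`).
-/

set_option autoImplicit false
set_option linter.unusedSectionVars false
set_option linter.style.longLine false

open MeasureTheory Set Filter Topology Metric
open scoped ENNReal Gradient NNReal
open Crest.AnalysisR.VecCalc3 Crest.AnalysisR.Sobolev
open Crest.Agent.R096.Str_696 (LocPL)
open Crest.Agent.R096.Sk_962 (SH Gr Q0 Qc0 dg)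
open Crest.Agent.R96.Lu_538 (Gmat Gmat_apply gmatL gmatL_apply aesm_Gmat)
open Crest.Agent.R96.En10_199 (P3 P3_mp P3_apply Di vwd_of_grad wd_comp_equiv P3_symm_single)
open Crest.Agent.R096.SkC1_961 (E3 Hom3)
open Crest.Agent.R96.Sob4_199 (VWD)
open Crest.Agent.R096.Sk4_663 (Zd BFs NO0 lintegral_of_memLp memLp_of_lintegral)

namespace Crest.Agent.R096.Er_594

noncomputable section







/-! ### from `E3` to `R3`: all data of `SH` for `r3 g`, `g` given on `E3` -/

theorem lint_P3_symm (R : Set E3) (F : E3 → ℝ≥0∞) :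
    ∫⁻ x in R, F x = ∫⁻ y in P3.symm ⁻¹' R, F (P3.symm y) := by
  rw [lint_P3 (P3.symm ⁻¹' R) (fun y => F (P3.symm y)), symm_pre]
  simp only [P3.symm_apply_apply]

theorem isOpen_symm_pre {Om : Set E3} (h : IsOpen Om) : IsOpen (P3.symm ⁻¹' Om) :=
  h.preimage P3.symm.continuous



end

end Crest.Agent.R096.Er_594
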