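import Mathlib
import Crest.Agent.R096.Pg1_691
import Crest.Agent.R096.Npr1_582
import Crest.Agent.R096.Sta1_161

-- ▼ part R096/Npn1_691
section

/-!
# Row 96, NO0-PRE (helper691): the clause `nb` of `PreG` from a stretch with compact support
-/

set_option autoImplicit false

open Set Metric

namespace Crest.Agent.R096.Npn_691

/-- **the clause `nb`**: a map which is near `f` and equal to `f` where `f` is outside a compact subset
of `La` is close to `f` relative to the distance from the complement of `La`. -/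
theorem nb_of_supp {A E : Type*} [NormedAddCommGroup E] {f f1 : A → E} {La : Set E}
    (hLa : IsOpen La) (hne : Laᶜ.Nonempty) {h : ℝ} (near : ∀ x, ‖f1 x - f x‖ ≤ h)
    (supp : ∃ K : Set E, IsCompact K ∧ K ⊆ La ∧ ∀ x, f x ∉ K → f1 x = f x) :
    ∃ Cn : ℝ, 0 ≤ Cn ∧ ∀ y, ‖f1 y - f y‖ ≤ Cn * infDist (f y) Laᶜ := by
  obtain ⟨K, hK, hKL, hs⟩ := supp
  rcases K.eq_empty_or_nonempty with rfl | hKne
  · refine ⟨0, le_rfl, fun y => ?_⟩
    rw [hs y (notMem_empty _)]
    simp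
  · obtain ⟨y0, hy0, hmin⟩ := hK.exists_isMinOn hKne
      (continuous_infDist_pt Laᶜ).continuousOn
    set m := infDist y0 Laᶜ with hm
    have hm0 : 0 < m := by
      have h1 : y0 ∉ closure Laᶜ := by
        rw [hLa.isClosed_compl.closure_eq]
        exact fun h => h (hKL hy0)
      exact (infDist_pos_iff_notMem_closure hne).1 h1
    refine ⟨|h| / m, by positivity, fun y => ?_⟩
    by_cases hy : f y ∈ K
    · have h2 : m ≤ infDist (f y) Laᶜ := hmin hy
      calc ‖f1 y - f y‖ ≤ |h| := (near y).trans (le_abs_self h)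
        _ = |h| / m * m := by field_simp
        _ ≤ _ := mul_le_mul_of_nonneg_left h2 (by positivity)
    · rw [hs y hy, sub_self, norm_zero]
      exact mul_nonneg (by positivity) infDist_nonneg

end Crest.Agent.R096.Npn_691
end

-- ▼ part R096/Pg2_691

/-!
# Row 96, NO0-PRE, [PREG] (helper691), part 2: the clauses of `PreG` which depend on `Front` only
-/

set_option autoImplicit false
set_option linter.unusedSectionVars false
set_option linter.style.longLine false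

open Set Filter Topology Metric MeasureTheory
open scoped ENNReal

namespace Crest.Agent.R096.Pg_691

open Crest.Agent.R096.Bsp_628 Crest.Agent.R096.Brk1_582 Crest.Agent.R096.Brk5_582
open Crest.Agent.R096.Dic1_582 Crest.Agent.R096.Log2_582
open Crest.Agent.R096.Dic6_582 Crest.Agent.R096.Npr_582
open Crest.Agent.R096.SkC1_961 (E3 Hom3 FoamD)
open Crest.Agent.R96.Push_899 (Box Mid toBox EE co LaE continuous_co)
open Crest.Agent.R96.En10_199 (P3)
open Crest.Agent.R096.Mbf_337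

noncomputable section

variable {p : ℝ} {q : ℕ} {s : Fin 3 → ℝ} {e1 e2 : ℝ≥0∞} {Om La : Set E3} {f f1 : E3 → E3}
  {M h : ℝ} {al : Fin 3 → ℝ} {Φ : FoamD (dF q) (kF q) 6 (cN q) La} {z : Φ.F → E3}
  {X HH : Set E3} {g : Φ.F → Fin 3 → E3 → ℝ}

/-- the stretch moves only a compact subset of `La` -/
theorem supp_of_front (H : Front p q s e1 e2 Om La f M h al Φ z f1 X HH g) :
    ∃ K : Set E3, IsCompact K ∧ K ⊆ La ∧ ∀ x, f x ∉ K → f1 x = f x := by
  obtain ⟨S, hS, hf⟩ := H.st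
  obtain ⟨K, hKc, hKs, hKS⟩ := hS.supp
  refine ⟨co '' K, hKc.image continuous_co, ?_, fun x hx => ?_⟩
  · rintro _ ⟨y, hy, rfl⟩
    exact hKs hy
  · have h1 : S (P3 (f x)) = P3 (f x) := hKS _ fun hy => hx ⟨P3 (f x), hy, rfl⟩
    rw [hf x, h1]
    rfl

/-- clause `nb` -/
theorem nb_of_front (hLa : IsOpen La) (hne : Laᶜ.Nonempty)
    (H : Front p q s e1 e2 Om La f M h al Φ z f1 X HH g) :
    ∃ Cn : ℝ, 0 ≤ Cn ∧ ∀ y ∈ Om, ‖f1 y - f y‖ ≤ Cn * infDist (f y) Laᶜ := by
  obtain ⟨Cn, h0, h1⟩ := Crest.Agent.R096.Npn_691.nb_of_supp hLa hne H.near (supp_of_front H)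
  exact ⟨Cn, h0, fun y _ => h1 y⟩

theorem sz_pos (c : Φ.F) : 0 < c.1.sz := by
  have h1 := Φ.bf.pos c.1 c.2 0
  have h2 : c.1.hi 0 - c.1.lo 0 ≤ c.1.sz := Bx.side_le_sz c.1 0
  linarith

/-- clause `star` -/
theorem star_of_front (H : Front p q s e1 e2 Om La f M h al Φ z f1 X HH g) : Star Φ := by
  refine Crest.Agent.R096.Sta_161.star_of_infDist Φ fun C hC => ?_
  have hx : C.lo ∈ C.set := ⟨le_rfl, fun i => (Φ.bf.pos C hC i).le⟩
  refine ⟨C.lo, hx, ?_⟩
  have h1 := H.rho ⟨C, hC⟩ _ hx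
  have h2 := sz_pos (Φ := Φ) ⟨C, hC⟩
  simp only at h1 h2
  linarith

/-- clause `rho` -/
theorem rho_of_front (H : Front p q s e1 e2 Om La f M h al Φ z f1 X HH g) :
    ∀ c : Φ.F, ∀ y ∈ c.1.set, c.1.sz ≤ infDist y Laᶜ := fun c y hy => by
  have h1 := H.rho c y hy
  have h2 := sz_pos c
  linarith

/-- clause `size` -/
theorem size_of_front (H : Front p q s e1 e2 Om La f M h al Φ z f1 X HH g) {C0 ε : ℝ}
    (hC0 : 0 ≤ C0) (hε : C0 * (2 * q * h) ≤ ε) : ∀ c : Φ.F, C0 * c.1.sz ≤ ε := fun c =>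
  (mul_le_mul_of_nonneg_left (H.size c) hC0).trans hε

/-- clause `gvol` -/
theorem gvol_of_front (H : Front p q s e1 e2 Om La f M h al Φ z f1 X HH g) {B : ℝ≥0∞}
    (hB : (e1 + e2) * volume Om ≤ B) :
    volume {x | x ∈ Om ∧ ¬ ∃ e o' i j : ℤ, GSq Φ.F q al h e o' i j ∧
      Φ.Psi (f1 x) ∈ sqr al h e o' i j} ≤ B := by
  refine le_trans (measure_mono ?_) (H.Qv.trans hB)
  rintro x ⟨hx, hn⟩
  exact ⟨hx, fun hq => hn hq.2⟩

/-- the centres of the tiny cores -/
theorem centres_of_front (H : Front p q s e1 e2 Om La f M h al Φ z f1 X HH g) :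
    ∃ x : Φ.F → E3, ∀ c, x c ∈ Om ∧ f1 (x c) = z c ∧
      (∀ k, c.1.lo k < f1 (x c) k ∧ f1 (x c) k < c.1.hi k) ∧
      ∀ y ∈ Om, f1 y ∈ (Φ.B c).S → y = x c :=
  exists_centres H.pt H.mid H.homeo


end

end Crest.Agent.R096.Pg_691
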