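import Crest.Agent.R096.Npl2_477
import Crest.Agent.R096.Np7_962
import Crest.Agent.R096.Np4_962
import Crest.Agent.R096.Pg2_691
import Crest.Agent.R096.Pg4_691
import Crest.Agent.R096.Np5_962
import Mathlib
import Crest.Agent.R096.Ps9_273
import Crest.Agent.R096.No0_477
import Crest.Agent.R096.Shv1_273
import Crest.Agent.R096.Ls4_222
import Crest.Agent.R096.Pmc4_112

-- ▼ part R096/Xdt1_764
section

/-!
Row 96 (S0127), helper764, NO0 `p ≥ 3`, leaf [X10] of 962 #11402: the hypotheses of `Np_962.ExFront3`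
from those of `No_276.NOPre` (780's `stretch`, 477's `front_input` plus the clause `det`).
-/

set_option autoImplicit false
set_option linter.unusedSectionVars false
set_option linter.unusedVariables false

open Set Filter Topology Metric MeasureTheory
open scoped ENNReal NNReal
open Crest.AnalysisR.VecCalc3 Crest.AnalysisR.Sobolev

namespace Crest.Agent.R096.Xdt_764

open Crest.Agent.R096.SkC1_961 (E3 Hom3 FoamD)
open Crest.Agent.R096.Sk_962 (Q0 Qc0 dg SH)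
open Crest.Agent.R096.Sq_477 (e3)
open Crest.Agent.R096.Er_594 (SH3)
open Crest.Agent.R096.Sk4_663 (Zd)
open Crest.Agent.R096.No_276 (QL fL)
open Crest.Agent.R96.En10_199 (P3)

/-- **[X10] the input of `ExFront3` from the data of `NOPre`** (`dd` before the data). -/
theorem data_front3 {p : ℝ} (hp : 1 ≤ p) {s : Fin 3 → ℝ} (hs2 : s 2 = 0) {L : ℕ} (hL1 : 1 ≤ L)
    (hL : (L : ℝ) ≠ 0) {δ : ℝ≥0∞} (hδ : 0 < δ) : ∃ dd : ℝ, 0 < dd ∧
    ∀ (U₀ W₀ : Set R3) (f : R3 → R3) (G : Fin 3 → R3 → R3),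
      IsOpen U₀ → Bornology.IsBounded U₀ → IsConnected U₀ →
      IsOpen W₀ → Bornology.IsBounded W₀ → IsConnected W₀ → Qc0 ⊆ U₀ →
      SH p U₀ W₀ f G →
      ∫⁻ x in Q0, ∑ j : Fin 3, ‖G j x - dg s j‖ₑ ^ p ≤ ENNReal.ofReal dd →
      volume (Q0 \ Zd G) ≤ ENNReal.ofReal dd →
      IsOpen (QL L) ∧ (QL L).Nonempty ∧ Bornology.IsBounded (QL L) ∧ IsConnected (QL L) ∧
      IsOpen (e3 '' (f '' Q0)) ∧ Bornology.IsBounded (e3 '' (f '' Q0)) ∧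
      IsConnected (e3 '' (f '' Q0)) ∧ (e3 '' (f '' Q0))ᶜ.Nonempty ∧
      ∃ Df : E3 → E3 →L[ℝ] E3, SH3 p (QL L) (e3 '' (f '' Q0)) (fL f L hL) Df ∧
        ∫⁻ x in QL L, ∑ l, ‖P3 (Df x (Pi.single l 1)) - EuclideanSpace.single l (s l)‖ₑ ^ p ≤
          δ * volume (QL L) ∧
        volume (QL L \ {x | (Df x).det = 0}) ≤ δ * volume (QL L) := by
  have hL' : (1 : ℝ) ≤ L := by exact_mod_cast hL1
  have hL0 : (0 : ℝ) < L := by linarith
  obtain ⟨d, hd, H⟩ := Crest.Agent.R096.Nst_780.stretch hp hs2 hL' hL hδ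
  have hvol : volume (QL L) = ENNReal.ofReal (8 / L) := Crest.Agent.R096.Npl_477.vol_QL hL0
  have hv0 : 0 < δ * volume (QL L) := by
    rw [hvol]
    exact ENNReal.mul_pos hδ.ne' (ENNReal.ofReal_pos.2 (by positivity)).ne'
  obtain ⟨d', hd', hd'1⟩ : ∃ d' : ℝ, 0 < d' ∧ ENNReal.ofReal d' ≤ δ * volume (QL L) := by
    obtain ⟨e, he0, he⟩ := exists_between hv0
    refine ⟨e.toReal, ENNReal.toReal_pos he0.ne' (he.trans_le le_top).ne, ?_⟩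
    rw [ENNReal.ofReal_toReal (he.trans_le le_top).ne]
    exact he.le
  refine ⟨min d d', lt_min hd hd', fun U₀ W₀ f G h1 h2 h3 h4 h5 h6 h7 h8 h9 h10 => ?_⟩
  obtain ⟨D, hE, hdet⟩ := H U₀ W₀ f G h1 h4 h5 h7 h8
    (h9.trans (ENNReal.ofReal_le_ofReal (min_le_left _ _)))
  refine ⟨D.oO, D.cO.nonempty, D.bO, D.cO, D.oL, D.bL, D.cL, ?_, _, D.sh, hE, ?_⟩
  · by_contra hn
    rw [Set.not_nonempty_iff_eq_empty, compl_empty_iff] at hn
    have h := D.bL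
    rw [hn] at h
    exact (NoncompactSpace.noncompact_univ (X := E3)) (by
      have := Metric.isCompact_of_isClosed_isBounded isClosed_univ h
      exact this)
  · refine (hdet d' (h10.trans (ENNReal.ofReal_le_ofReal (min_le_right _ _)))).trans ?_
    have h11 : ENNReal.ofReal (1 / L) ≤ 1 := by
      rw [← ENNReal.ofReal_one]
      apply ENNReal.ofReal_le_ofReal
      rw [div_le_one hL0]
      exact hL'
    calc ENNReal.ofReal (1 / L) * ENNReal.ofReal d' ≤ 1 * ENNReal.ofReal d' := by gcongr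
      _ = ENNReal.ofReal d' := one_mul _
      _ ≤ _ := hd'1

end Crest.Agent.R096.Xdt_764
end

-- ▼ part R096/Nge1_423
section

/-!
Row 96 (S0127), helper423, node NO0-PRE3: **literal interface `ExPreN p`** (what the
top composition of `NOPre p`, `3 ≤ p`, consumes besides `ExFront3 p`, `ExMeshN p` and 276's `preG_meshN`).
Definitions only.
-/

set_option autoImplicit false
set_option linter.unusedSectionVars false
set_option linter.unusedVariables false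
open Set Filter Topology MeasureTheory Metric
open scoped NNReal ENNReal

noncomputable section

namespace Crest.Agent.R096.Nge_423

open Crest.Agent.R096.Msh_715 hiding P I
open Crest.Agent.R096.SkC1_961 (E3 Cfg FoamD Hom3)
open Crest.Agent.R096.Brk5_582 Crest.Agent.R096.Bsp_628
open Crest.Agent.R096.Dic6_582 (dF kF)
open Crest.Agent.R096.Er_594 (SH3)
open Crest.Agent.R96.En10_199 (P3)
open Crest.Agent.R096.Nl_234 (HWq)
open Crest.Agent.R096.Msh_810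
open Crest.Agent.R096.No_276
open Crest.Agent.R096.Np_962
open Crest.Agent.R096.Gno_324 (Ug 𝒬0)

/-- **PreN from MeshN, literal Prop** (two tolerances: `t1` before `C`, `ε'`; `t2` after).
`e1 ≤ t1`: excess; `e2, e3, e5, r, κ' ≤ t2`. -/
def ExPreN (p : ℝ) : Prop :=
  ∀ (𝒮0 : Set (Set (Set E3))), 𝒮0.Finite → ∀ Ku : ℝ≥0∞, Ku ≠ ⊤ →
  ∀ s : Fin 3 → ℝ, (∀ i, 0 ≤ s i) → ∀ S1 : ℝ, 0 < S1 → ∃ S KS : ℝ, S1 ≤ S ∧ 0 ≤ KS ∧
  ∀ (ε η : ℝ) (L : ℕ) (e₂ : ℝ), 0 < ε → 0 < η → η ≤ 1 / 8 → 1 ≤ L → 0 < e₂ → ∃ t1 : ℝ, 0 < t1 ∧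
  ∀ (C : Set (Set E3) → ℝ) (ε' : ℝ), (∀ 𝒦, 0 < C 𝒦) → 0 < ε' → ∃ t2 : ℝ, 0 < t2 ∧ t2 ≤ 1 ∧
  ∀ (δ κ0 R c0 : ℝ) (La : Set E3) (ι : Type) (q : ℕ) (al : Fin 3 → ℝ) (h : ℝ)
    (Φ : FoamD δ κ0 R c0 La) (f1 : E3 → E3) (g : Φ.F → Fin 3 → E3 → ℝ) (W : Φ.F → ℝ)
    (κ' μ κ1 κ2 κ3 : ℝ) (HH R' : Set E3) (e1 e2 e3 e4 : ℝ≥0∞) (e5 : ℝ) (D : Dat 3) (K0 : ℕ)
    (r : ℝ) (hr : r ≠ 0) (o : Fin 2 → ℤ) (M : ℕ) (Zs : Finset ℤ) (T : Tiling (QL L) ι) (Q : Set ι)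
    (τ : ι → Top D) (J0 J V : Φ.F → Set ι) (ct : Φ.F → ι) (A : Φ.F → E3 ≃ᵃ[ℝ] E3) (lam : Φ.F → ℝ)
    (z : Φ.F → E3) (θ : Φ.F → E3 → E3) (φ : Φ.F → E3 → ℝ) (Mg : Φ.F → ℕ) (B : ι → E3 ≃ᵃ[ℝ] E3)
    (cw : ι → ℝ≥0∞),
    MeshN p q al h s L η Φ f1 g W κ' μ κ1 κ2 κ3 C 𝒮0 HH R' e1 e2 e3 e4 e5 Ku D K0 r hr o M Zs T Q τ
      J0 J V ct A lam z θ φ Mg B cw →
    (∀ x ∈ HH, HWq Φ f1 q al h {x}) →
    0 ≤ κ' → κ' ≤ t2 → e1 ≤ ENNReal.ofReal t1 → e2 ≤ ENNReal.ofReal t2 → e3 ≤ ENNReal.ofReal t2 →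
    e5 ≤ t2 → r ≤ t2 →
  ∀ (κp : ℝ), κ' ≤ κp → ∀ (𝒮 : Set (Set (Set E3))), 𝒮0 ⊆ 𝒮 →
  ∀ (b : Empty → E3) (R1 : Empty → ℝ) (Sc : Empty → Finset ι) (cnt : ι → ℝ),
    (∀ i, 0 ≤ cnt i) → (∀ i, cnt i ≤ cntA T r hr D.a o M Zs i) →
  ∀ (Z : Φ.F → Set ℝ) (m0 : Φ.F → ℕ), (∀ c, volume (Z c) = 0) →
    ∃ (κ : Φ.F → ℕ) (Lv : Φ.F → Finset ℝ),
      PreN p s L η ε ε' e₂ S1 S KS κp μ κ3 C 𝒮 f1 q al h Φ T univ V ct A lam z Mg r hr D.a o M Zs
        (Ug T Qᶜ D.a r o) b R1 Sc cnt Z m0 κ Lv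

end Crest.Agent.R096.Nge_423
end
end

-- ▼ part R096/Pgn1_276
section

/-!
# Row 96, NO0-PRE3 (helper276): `PreG` for `p ≥ 3` from `MeshN` (962) and the front
-/

set_option autoImplicit false
set_option linter.unusedSectionVars false
set_option linter.style.longLine false

open Set Filter Topology Metric MeasureTheory
open scoped ENNReal

namespace Crest.Agent.R096.Pgn_276

open Crest.Agent.R096.Bsp_628 Crest.Agent.R096.Brk1_582 Crest.Agent.R096.Brk5_582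
open Crest.Agent.R096.Log2_582 Crest.Agent.R096.Dic1_582 Crest.Agent.R096.Dic6_582
open Crest.Agent.R096.Npr_582
open Crest.Agent.R096.Msh_715
open Crest.Agent.R096.Msh_810 (Dat Top)
open Crest.Agent.R096.SkC1_961 (E3 Hom3 FoamD Cfg)
open Crest.Agent.R096.Gno_324 Crest.Agent.R096.No0_477
open Crest.Agent.R096.SkN1_477 (usq)
open Crest.Agent.R096.No_276 (QL Macro PreG Vti MJ)
open Crest.Agent.R096.Mbf_337
open Crest.Agent.R096.Np_962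
open Crest.Agent.R96.Push_899 (EE co LaE co_image_LaE)
open Crest.Agent.R096.Ea_713 (lin)

noncomputable section

/-! ### the clauses which depend on the front only -/

section front

variable {p : ℝ} {q : ℕ} {s : Fin 3 → ℝ} {e1 e2 : ℝ≥0∞} {Om La : Set E3} {f1 : E3 → E3}
  {M h : ℝ} {al : Fin 3 → ℝ} {Φ : FoamD (dF q) (kF q) 6 (cN q) La}
  {X HH : Set E3} {g : Φ.F → Fin 3 → E3 → ℝ}

theorem rho32 (H : FrontC p q s e1 e2 Om La M h al Φ f1 X HH g) :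
    ∀ c : Φ.F, ∀ y ∈ c.1.set, 32 * c.1.sz ≤ infDist y Laᶜ := by
  obtain ⟨K₀, -, -, F⟩ := H.fr
  intro c y hy
  have := F.rho c.1 c.2 y hy
  rwa [co_image_LaE] at this

theorem rho1 (H : FrontC p q s e1 e2 Om La M h al Φ f1 X HH g) :
    ∀ c : Φ.F, ∀ y ∈ c.1.set, c.1.sz ≤ infDist y Laᶜ := fun c y hy => by
  have h1 := rho32 H c y hy
  have h2 := Pg_691.sz_pos c
  linarith

theorem star1 (H : FrontC p q s e1 e2 Om La M h al Φ f1 X HH g) : Star Φ := by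
  refine Crest.Agent.R096.Sta_161.star_of_infDist Φ fun C hC => ?_
  have hx : C.lo ∈ C.set := ⟨le_rfl, fun i => (Φ.bf.pos C hC i).le⟩
  refine ⟨C.lo, hx, ?_⟩
  have h1 := rho32 H ⟨C, hC⟩ _ hx
  have h2 := Pg_691.sz_pos (Φ := Φ) ⟨C, hC⟩
  simp only at h1 h2
  linarith

theorem size1 (H : FrontC p q s e1 e2 Om La M h al Φ f1 X HH g) {C0 ε : ℝ}
    (hC0 : 0 ≤ C0) (hε : C0 * (2 * q * h) ≤ ε) : ∀ c : Φ.F, C0 * c.1.sz ≤ ε := fun c => by
  obtain ⟨K₀, -, -, F⟩ := H.fr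
  exact (mul_le_mul_of_nonneg_left (F.size c.1 c.2) hC0).trans hε

theorem gvol1 (H : FrontC p q s e1 e2 Om La M h al Φ f1 X HH g) {B : ℝ≥0∞}
    (hB : (e1 + e2) * volume Om ≤ B) :
    volume {x | x ∈ Om ∧ ¬ ∃ e o' i j : ℤ, GSq Φ.F q al h e o' i j ∧
      Φ.Psi (f1 x) ∈ sqr al h e o' i j} ≤ B := by
  refine le_trans (measure_mono ?_) (H.Qv.trans hB)
  rintro x ⟨hx, hn⟩
  exact ⟨hx, fun hq => hn hq.2⟩

end front

/-- no macro balls -/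
theorem macro_empty {Om : Set E3} {ι : Type} (T : Tiling Om ι) (t : ℝ) (Cf : ℝ≥0∞)
    {b : Empty → E3} {R0 R1 : Empty → ℝ} {Sc : Empty → Finset ι} {d : ι → ℝ} :
    Macro T ∅ b R0 R1 Sc d t Cf where
  fam := ⟨fun c => c.elim, fun c => c.elim, fun c => c.elim, fun c => c.elim,
    fun _ _ => ⟨univ, univ_mem, Set.toFinite _⟩⟩
  rat c := c.elim
  ex _ hi := hi.elim
  ring c := c.elim
  nex c := c.elim
  dS c := c.elim
  d0 c := c.elim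
  dd c := c.elim
  fat c := c.elim

/-- fewer excluded tiles -/
theorem nogeo_mono {Om : Set E3} {ι : Type} {T : Tiling Om ι} {Ex Ex' : Set ι} {𝒬 : Set (Set E3)}
    {L : ℕ} {η r : ℝ} {hr : r ≠ 0} {a : E3} {o : Fin 2 → ℤ} {M : ℕ} {Zs : Finset ℤ}
    {U : ℤ → (Fin 2 → ℕ) → Prop} (G : NOGeo T Ex 𝒬 L η r hr a o M Zs U) (h : Ex' ⊆ Ex) :
    NOGeo T Ex' 𝒬 L η r hr a o M Zs U where
  r0 := G.r0
  M0 := G.M0
  lo := G.lo
  hi := G.hi
  zne := G.zne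
  zs := G.zs
  tile m hm v hv hU := by
    obtain ⟨i, h1, h2, h3⟩ := G.tile m hm v hv hU
    exact ⟨i, h1, h2, fun j hj => h3 j (h hj)⟩
  face := G.face
  edge := G.edge
  off m hm v hv hU x hx i hi hE := G.off m hm v hv hU x hx i hi (h hE)

section main

open Classical in
/-- energy constant of the core tiles -/
def Kcr {F ι : Type*} (ct : F → ι) (K : F → ℝ) (i : ι) : ℝ :=
  if h : ∃ c, i = ct c then K h.choose else 0

theorem Kcr_ct {F ι : Type*} {ct : F → ι} (hinj : Function.Injective ct) (K : F → ℝ) (c : F) :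
    Kcr ct K (ct c) = K c := by
  have h : ∃ c', ct c = ct c' := ⟨c, rfl⟩
  unfold Kcr
  rw [dif_pos h]
  rw [← hinj h.choose_spec]

theorem Kcr_nonneg {F ι : Type*} {ct : F → ι} {K : F → ℝ} (hK : ∀ c, 0 ≤ K c) (i : ι) :
    0 ≤ Kcr ct K i := by
  unfold Kcr
  split_ifs with h
  · exact hK _
  · exact le_rfl

theorem sum_core {F ι : Type*} {ct : F → ι} {P : ι → Prop}
    (hP : ∀ i, P i → ∃ c, i = ct c) (u : ι → ℝ≥0∞) :
    ∑' i : {i // P i}, u i ≤ ∑' c, u (ct c) := by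
  have hP' : ∀ i : {i // P i}, ∃ c, i.1 = ct c := fun i => hP i.1 i.2
  choose k hk using hP'
  have hf : Function.Injective k := by
    intro i j hij
    exact Subtype.ext (by rw [hk i, hk j, hij])
  calc ∑' i : {i // P i}, u i = ∑' i : {i // P i}, (fun c => u (ct c)) (k i) := by
        refine tsum_congr fun i => ?_
        show u i = u (ct (k i))
        rw [← hk i]
    _ ≤ _ := ENNReal.tsum_comp_le_tsum_of_injective hf _

/-- **`PreG` for `p ≥ 3`** -/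
theorem preG_meshN {p : ℝ} {q : ℕ} {s : Fin 3 → ℝ} {L : ℕ} (hL : 1 ≤ L) {η : ℝ}
    {La : Set E3} {f f1 : E3 → E3} {ε1 ε1' : ℝ≥0∞} {M3 h : ℝ} {al : Fin 3 → ℝ}
    {Φ : FoamD (dF q) (kF q) 6 (cN q) La} {Xf HH : Set E3} {g : Φ.F → Fin 3 → E3 → ℝ}
    (Hf : FrontC p q s ε1 ε1' (QL L) La M3 h al Φ f1 Xf HH g)
    (hnb : ∃ Cn : ℝ, 0 ≤ Cn ∧ ∀ y ∈ QL (L : ℝ), ‖f1 y - f y‖ ≤ Cn * infDist (f y) Laᶜ)
    {g' : Φ.F → Fin 3 → E3 → ℝ} {W : Φ.F → ℝ} {κ' μ κ1 κ2 κ3 : ℝ} {Cs : Set (Set E3) → ℝ}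
    {𝒮0 : Set (Set (Set E3))}
    {HH' R' : Set E3} {e1 e2 e3 e4 : ℝ≥0∞} {e5 : ℝ} {Ku : ℝ≥0∞} {D : Dat 3} {K0 : ℕ} {r : ℝ}
    {hr : r ≠ 0} {o : Fin 2 → ℤ} {M : ℕ} {Zs : Finset ℤ} {ι : Type} {T : Tiling (QL L) ι}
    {Q : Set ι} {τ : ι → Top D} {J0 J V : Φ.F → Set ι} {ct : Φ.F → ι} {A : Φ.F → E3 ≃ᵃ[ℝ] E3}
    {lam : Φ.F → ℝ} {z : Φ.F → E3} {θ : Φ.F → E3 → E3} {φ : Φ.F → E3 → ℝ} {Mg : Φ.F → ℕ}
    {B : ι → E3 ≃ᵃ[ℝ] E3} {cw : ι → ℝ≥0∞}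
    (H : MeshN p q al h s L η Φ f1 g' W κ' μ κ1 κ2 κ3 Cs 𝒮0 HH' R' e1 e2 e3 e4 e5 Ku D K0 r hr o M Zs
      T Q τ J0 J V ct A lam z θ φ Mg B cw)
    {ε ε' C0 t : ℝ} {Cf : ℝ≥0∞} {𝒮 : Set (Set (Set E3))} (hC0 : 0 ≤ C0)
    (hsz : C0 * (2 * q * h) ≤ ε) (h𝒬 : 𝒬0 ∈ 𝒮) (he5 : e5 ≤ ε)
    (hev : (ε1 + ε1') * 4 ≤ ENNReal.ofReal ε) (he4 : e4 ≤ ENNReal.ofReal ε')
    (he4' : Ku * e4 ≤ ENNReal.ofReal (ε' * (2 / L))) (hε : 0 ≤ ε) (hε' : 0 ≤ ε')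
    (b : Empty → E3) (R0 R1 : Empty → ℝ) (Sc : Empty → Finset ι) (d : ι → ℝ) :
    PreG p s L η ε ε' C0 κ1 κ2 𝒮 t Cf f f1 q al h Φ T univ J0 J V ct A lam z θ φ 𝒬0 r hr D.a o M Zs
      (Ug T Qᶜ D.a r o) b R0 R1 Sc d (Kcr ct fun c => 1 / lam c * ‖lin (A c)‖)
      (fun i => (({k : ℤ × (Fin 2 → ℕ) | k ∈ Fc M Zs ∧ ¬ Ug T Qᶜ D.a r o k.1 k.2 ∧
        (P (T.H i) ∩ usq (fr (vx D.a r o k.1 k.2) r hr)).Nonempty}).ncard : ℝ) * r ^ 3) := by
  have hr0 : 0 < r := by rw [H.rK]; positivity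
  have hL0 : (0 : ℝ) < L := by exact_mod_cast hL
  have hV : Vti (univ : Set Φ.F) V = ∅ := by
    ext i
    simp [Vti]
  have hVex : ∀ i, (∃ c, i ∈ V c) → ∃ c, i = ct c := by
    rintro i ⟨c, hc⟩
    rw [H.Vct c] at hc
    exact ⟨c, hc⟩
  have hlam : ∀ c, 0 < lam c := fun c => (H.cores.exact_ c (mem_univ c)).lam0
  have hK0 : ∀ c, 0 ≤ 1 / lam c * ‖lin (A c)‖ := fun c => by
    have := hlam c
    positivity
  have hgeo : NOGeo T (⋃ c, V c) 𝒬0 L η r hr D.a o M Zs (Ug T Qᶜ D.a r o) := by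
    refine nogeo_mono (nogeo_of T Qᶜ hr0 hr D.a o H.M0 H.lo H.hi H.zne H.zs) ?_
    intro i hi
    rw [mem_iUnion] at hi
    obtain ⟨c, rfl⟩ := hVex i hi
    intro hQ
    have h1 := H.dis _ hQ c
    obtain ⟨x, hx⟩ := T.ne (ct c)
    have hx' := I_sub_P _ hx
    exact Set.disjoint_left.1 h1 hx' hx'
  have hN0 : 0 ≤ (Zs.card : ℝ) * M ^ 2 := by positivity
  refine
    { hom := Hf.homeo
      nb := hnb
      star := star1 Hf
      rho := rho1 Hf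
      size := size1 Hf hC0 hsz
      q1 := Hf.q1
      h0 := Hf.h0
      cores := H.cores
      fine := H.fine
      shape := h𝒬
      geo := hgeo
      nU := H.junk.trans (mul_le_mul_of_nonneg_right he5 hN0)
      gvol := ?_
      ends := fun j => (H.ends j).trans (mul_le_mul_of_nonneg_right he5 (by positivity))
      mac := by rw [hV]; exact macro_empty T t Cf
      osc := fun c => c.elim
      av := fun m _ c => c.elim
      kc0 := Kcr_nonneg hK0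
      kc := fun c _ => (Kcr_ct H.inj (fun c => 1 / lam c * ‖lin (A c)‖) c).ge
      kcs := ?_
      cnt0 := fun i => by positivity
      cn := fun i => le_rfl
      jV := by rw [hV]; exact fun i hi => hi.elim
      jc := ?_ }
  · refine gvol1 Hf ?_
    rw [Pg_691.volume_QL hL]
    have h8 : ENNReal.ofReal (8 / L) ≤ 4 * ENNReal.ofReal (((Zs.card : ℝ) * M ^ 2) * r ^ 3) := by
      have h1 := H.N1
      have h2 : (8 : ℝ) / L ≤ 4 * (((Zs.card : ℝ) * M ^ 2) * r ^ 3) := by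
        have : (8 : ℝ) / L = 4 * (2 / L) := by ring
        rw [this]; linarith
      refine (ENNReal.ofReal_le_ofReal h2).trans (le_of_eq ?_)
      rw [ENNReal.ofReal_mul (by norm_num)]
      norm_num
    calc (ε1 + ε1') * ENNReal.ofReal (8 / L)
        ≤ (ε1 + ε1') * (4 * ENNReal.ofReal (((Zs.card : ℝ) * M ^ 2) * r ^ 3)) := by gcongr
      _ = ((ε1 + ε1') * 4) * ENNReal.ofReal (((Zs.card : ℝ) * M ^ 2) * r ^ 3) := by ring
      _ ≤ ENNReal.ofReal ε * ENNReal.ofReal (((Zs.card : ℝ) * M ^ 2) * r ^ 3) := by gcongr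
      _ = ENNReal.ofReal (ε * ((Zs.card : ℝ) * M ^ 2) * r ^ 3) := by
          rw [← ENNReal.ofReal_mul hε]; congr 1; ring
  · refine (sum_core (ct := ct) (fun i hi => hVex i hi.1)
      (fun i => ENNReal.ofReal ((Kcr ct fun c => 1 / lam c * ‖lin (A c)‖) i ^ p) *
        volume (P (T.H i)))).trans ?_
    simp only [Kcr_ct H.inj]
    exact H.cs.trans he4
  · refine (sum_core (ct := ct) (fun i hi => hVex i hi.1.1)
      (fun i => ENNReal.ofReal ((Kcr ct fun c => 1 / lam c * ‖lin (A c)‖) i ^ p) *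
        ENNReal.ofReal ((({k : ℤ × (Fin 2 → ℕ) | k ∈ Fc M Zs ∧ ¬ Ug T Qᶜ D.a r o k.1 k.2 ∧
        (P (T.H i) ∩ usq (fr (vx D.a r o k.1 k.2) r hr)).Nonempty}).ncard : ℝ) * r ^ 3))).trans ?_
    simp only [Kcr_ct H.inj]
    have h1 : ∀ c, ENNReal.ofReal ((({k : ℤ × (Fin 2 → ℕ) | k ∈ Fc M Zs ∧
        ¬ Ug T Qᶜ D.a r o k.1 k.2 ∧
        (P (T.H (ct c)) ∩ usq (fr (vx D.a r o k.1 k.2) r hr)).Nonempty}).ncard : ℝ) * r ^ 3) ≤
        Ku * volume (P (T.H (ct c))) := by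
      intro c
      have h2 : ((({k : ℤ × (Fin 2 → ℕ) | k ∈ Fc M Zs ∧ ¬ Ug T Qᶜ D.a r o k.1 k.2 ∧
          (P (T.H (ct c)) ∩ usq (fr (vx D.a r o k.1 k.2) r hr)).Nonempty}).ncard : ℝ)) * r ^ 3 ≤
          cntA T r hr D.a o M Zs (ct c) := by
        unfold cntA
        refine mul_le_mul_of_nonneg_right ?_ (by positivity)
        have hfin : {k : ℤ × (Fin 2 → ℕ) | k ∈ Fc M Zs ∧
            (P (T.H (ct c)) ∩ usq (fr (vx D.a r o k.1 k.2) r hr)).Nonempty}.Finite :=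
          (Fc M Zs).finite_toSet.subset fun k hk => hk.1
        have hsub : {k : ℤ × (Fin 2 → ℕ) | k ∈ Fc M Zs ∧ ¬ Ug T Qᶜ D.a r o k.1 k.2 ∧
            (P (T.H (ct c)) ∩ usq (fr (vx D.a r o k.1 k.2) r hr)).Nonempty} ⊆
            {k : ℤ × (Fin 2 → ℕ) | k ∈ Fc M Zs ∧
            (P (T.H (ct c)) ∩ usq (fr (vx D.a r o k.1 k.2) r hr)).Nonempty} :=
          fun k hk => ⟨hk.1, hk.2.2⟩
        exact_mod_cast Set.ncard_le_ncard hsub hfin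
      exact (ENNReal.ofReal_le_ofReal h2).trans ((H.cnt (ct c)).trans (by gcongr; exact H.cwc c))
    calc _ ≤ ∑' c : Φ.F, ENNReal.ofReal ((1 / lam c * ‖lin (A c)‖) ^ p) *
          (Ku * volume (P (T.H (ct c)))) := ENNReal.tsum_le_tsum fun c => by gcongr; exact h1 c
      _ = Ku * ∑' c : Φ.F, ENNReal.ofReal ((1 / lam c * ‖lin (A c)‖) ^ p) *
          volume (P (T.H (ct c))) := by
          rw [← ENNReal.tsum_mul_left]
          refine tsum_congr fun c => ?_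
          ring
      _ ≤ Ku * e4 := by gcongr; exact H.cs
      _ ≤ ENNReal.ofReal (ε' * (2 / L)) := he4'
      _ ≤ _ := by
          refine ENNReal.ofReal_le_ofReal ?_
          have := mul_le_mul_of_nonneg_left H.N1 hε'
          linarith

end main

end

end Crest.Agent.R096.Pgn_276
end

-- ▼ part R096/Nge2_423
section

/-!
Row 96 (S0127), helper423, node NO0-PRE3: **the top composition**
`noPre_of : 3 ≤ p → ExFront3 p → ExMeshN p → ExPreN p → NOPre p`.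
-/

set_option autoImplicit false
set_option linter.unusedSectionVars false
set_option linter.unusedVariables false
open Set Filter Topology MeasureTheory Metric
open scoped NNReal ENNReal

noncomputable section

namespace Crest.Agent.R096.Nge_423

open Crest.Agent.R096.Msh_715 hiding P I
open Crest.Agent.R096.SkC1_961 (E3 Cfg FoamD Hom3)
open Crest.Agent.R096.Brk5_582 Crest.Agent.R096.Bsp_628
open Crest.Agent.R096.Dic6_582 (dF kF)
open Crest.Agent.R096.Npr_582 (cN)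
open Crest.Agent.R096.Er_594 (SH3)
open Crest.Agent.R96.En10_199 (P3)
open Crest.Agent.R096.Nl_234 (HWq)
open Crest.Agent.R096.Msh_810
open Crest.Agent.R096.No_276
open Crest.Agent.R096.Np_962
open Crest.Agent.R096.Gno_324 (Ug 𝒬0)
open Crest.Agent.R096.Npl_477 (vol_QL)
open Crest.Agent.R096.No0_477 (cub fr Fc vx)
open Crest.Agent.R096.SkN1_477 (usq)

/-- a positive number `y ≤ 1` with `y * A ≤ b` -/
theorem exists_small {A b : ℝ≥0∞} (hA : A ≠ ⊤) (hb : 0 < b) :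
    ∃ y : ℝ≥0∞, 0 < y ∧ y ≤ 1 ∧ y * A ≤ b := by
  by_cases hbt : b = ⊤
  · exact ⟨1, one_pos, le_rfl, hbt ▸ le_top⟩
  refine ⟨min 1 (b / (A + 1)), lt_min one_pos (ENNReal.div_pos hb.ne' ?_), min_le_left _ _, ?_⟩
  · exact ENNReal.add_ne_top.2 ⟨hA, ENNReal.one_ne_top⟩
  · calc min 1 (b / (A + 1)) * A ≤ b / (A + 1) * (A + 1) :=
          mul_le_mul' (min_le_right _ _) le_self_add
      _ = b := ENNReal.div_mul_cancel (by simp) (ENNReal.add_ne_top.2 ⟨hA, ENNReal.one_ne_top⟩)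

/-- a small `ε ≠ 0` with `A * (ε + ε ^ p⁻¹) * V ≤ a` and `ε * V' ≤ b` -/
theorem exists_eps {p : ℝ} (hp : 1 ≤ p) {A V V' a b : ℝ≥0∞} (hA : A ≠ ⊤) (hV : V ≠ ⊤)
    (hV' : V' ≠ ⊤) (ha : 0 < a) (hb : 0 < b) :
    ∃ ε : ℝ≥0∞, 0 < ε ∧ ε ≠ ⊤ ∧ A * (ε + ε ^ p⁻¹) * V ≤ a ∧ ε * V' ≤ b := by
  have hp0 : 0 < p := by linarith
  obtain ⟨y, hy0, hy1, hy⟩ := exists_small (A := 2 * A * V + V') (b := min a b)
    (ENNReal.add_ne_top.2 ⟨ENNReal.mul_ne_top (ENNReal.mul_ne_top (by simp) hA) hV, hV'⟩)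
    (lt_min ha hb)
  have hyt : y ≠ ⊤ := (hy1.trans_lt ENNReal.one_lt_top).ne
  have h1 : y ^ p ≤ y := by
    calc y ^ p ≤ y ^ (1:ℝ) := ENNReal.rpow_le_rpow_of_exponent_ge hy1 hp
      _ = y := ENNReal.rpow_one y
  have h2 : (y ^ p) ^ p⁻¹ = y := by
    rw [← ENNReal.rpow_mul, mul_inv_cancel₀ hp0.ne', ENNReal.rpow_one]
  refine ⟨y ^ p, ENNReal.rpow_pos hy0 hyt, ENNReal.rpow_ne_top_of_nonneg hp0.le hyt, ?_, ?_⟩
  · rw [h2]
    calc A * (y ^ p + y) * V ≤ A * (y + y) * V := by gcongr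
      _ = y * (2 * A * V) := by ring
      _ ≤ y * (2 * A * V + V') := mul_le_mul' le_rfl le_self_add
      _ ≤ a := hy.trans (min_le_left _ _)
  · calc y ^ p * V' ≤ y * V' := by gcongr
      _ ≤ y * (2 * A * V + V') := mul_le_mul' le_rfl le_add_self
      _ ≤ b := hy.trans (min_le_right _ _)

/-- a small `δ' ≤ δ` with `A * δ' ^ p⁻¹ ≤ a` -/
theorem exists_del {p : ℝ} (hp : 1 ≤ p) {A a δ : ℝ≥0∞} (hA : A ≠ ⊤) (ha : 0 < a) (hδ : 0 < δ) :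
    ∃ δ' : ℝ≥0∞, 0 < δ' ∧ δ' ≤ δ ∧ A * δ' ^ p⁻¹ ≤ a := by
  have hp0 : 0 < p := by linarith
  obtain ⟨y, hy0, hy1, hy⟩ := exists_small (A := A) (b := a) hA ha
  have hyt : y ≠ ⊤ := (hy1.trans_lt ENNReal.one_lt_top).ne
  have h2 : (y ^ p) ^ p⁻¹ = y := by
    rw [← ENNReal.rpow_mul, mul_inv_cancel₀ hp0.ne', ENNReal.rpow_one]
  refine ⟨min δ (y ^ p), lt_min hδ (ENNReal.rpow_pos hy0 hyt), min_le_left _ _, ?_⟩
  calc A * min δ (y ^ p) ^ p⁻¹ ≤ A * (y ^ p) ^ p⁻¹ := by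
        gcongr
        exact min_le_right _ _
    _ = y * A := by rw [h2, mul_comm]
    _ ≤ a := hy

/-- a dyadic number below two bounds -/
theorem exists_dyadic {h₀ a : ℝ} (h0 : 0 < h₀) (ha : 0 < a) :
    ∃ h : ℝ, 0 < h ∧ h < h₀ ∧ h < a ∧ ∃ k N : ℕ, h / 2 * 2 ^ k = N := by
  obtain ⟨n, hn⟩ := exists_pow_lt_of_lt_one (lt_min h0 ha) (by norm_num : (1/2 : ℝ) < 1)
  refine ⟨(1/2) ^ n, by positivity, hn.trans_le (min_le_left _ _), hn.trans_le (min_le_right _ _),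
    n + 1, 1, ?_⟩
  rw [pow_succ]
  have : ((1:ℝ)/2) ^ n * 2 ^ n = 1 := by rw [← mul_pow]; norm_num
  push_cast
  linarith [this]

/-- **the top composition of `NOPre p`, `3 ≤ p`** -/
theorem noPre_of {p : ℝ} (hp : 3 ≤ p) (hF : ExFront3 p) (hM : ExMeshN p) (hN : ExPreN p) : NOPre p := by
  have hp1 : 1 ≤ p := by linarith
  obtain ⟨𝒮0, Ku, K, h𝒮0, hKu, hK, hM⟩ := hM
  refine ⟨insert 𝒬0 𝒮0, 1, 1, h𝒮0.insert _, ENNReal.one_ne_top, fun s hs hs2 S1 hS1 => ?_⟩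
  obtain ⟨S, KS, hS, hKS, hN⟩ := hN 𝒮0 h𝒮0 Ku hKu s hs S1 hS1
  refine ⟨S, KS, hS, hKS, fun ε η L hL e₂ hε hη hη8 hL1 he₂ => ?_⟩
  obtain ⟨t1, ht1, hN⟩ := hN ε η L e₂ hε hη hη8 hL1 he₂
  have hL0 : (0:ℝ) < L := by exact_mod_cast hL1
  have hV : volume (QL L) ≠ ⊤ := by rw [vol_QL hL0]; exact ENNReal.ofReal_ne_top
  obtain ⟨εf, hεf, hεft, hεf1, hεf2⟩ := exists_eps (p := p) hp1 (A := K) (V := volume (QL L))
    (V' := 4) (a := ENNReal.ofReal t1) (b := ENNReal.ofReal (ε / 2)) hK hV (by simp)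
    (ENNReal.ofReal_pos.2 ht1)
    (ENNReal.ofReal_pos.2 (by positivity))
  obtain ⟨q, hq, hF⟩ := hF s hs hs2 εf hεf
  have hq0 : (1:ℝ) ≤ q := by exact_mod_cast hq
  obtain ⟨κ2, hκ2, hM⟩ := hM q hq
  refine ⟨q, dF q, kF q, 6, cN q, κ2, max 8 (4 * q), Dic6_582.dF_pos hq, kF_one q, by norm_num, cN_pos q, hκ2,
    le_max_left _ _, fun C0 C κp ε' hC0 hC hκp hε' => ?_⟩
  obtain ⟨KC, hKC, hM⟩ := hM (max 8 (4 * q)) (le_max_left _ _) (le_max_right _ _) C hC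
  obtain ⟨t2, ht2, ht21, hN⟩ := hN C ε' hC hε'
  set κ' : ℝ := min κp t2 with hκ'
  have hκ'0 : 0 < κ' := lt_min hκp ht2
  have hκ'1 : κ' ≤ 1 := (min_le_right _ _).trans ht21
  set e5 : ℝ := min ε t2 with he5
  have he50 : 0 < e5 := lt_min hε ht2
  set V : ℝ≥0∞ := volume (QL L) with hVdef
  obtain ⟨εf', hεf', hεf'1, hεf'2⟩ := exists_small
    (A := K + K * V + KC * V + V + Ku * V + 4)
    (b := min (ENNReal.ofReal e5) (min (ENNReal.ofReal (t2 / 2)) (min (ENNReal.ofReal ε')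
      (min (ENNReal.ofReal (ε' * (2 / L))) (ENNReal.ofReal (ε / 2))))))
    (by
      refine ENNReal.add_ne_top.2 ⟨ENNReal.add_ne_top.2 ⟨ENNReal.add_ne_top.2 ⟨ENNReal.add_ne_top.2
        ⟨ENNReal.add_ne_top.2 ⟨hK, ENNReal.mul_ne_top hK hV⟩, ENNReal.mul_ne_top hKC hV⟩, hV⟩,
        ENNReal.mul_ne_top hKu hV⟩, by simp⟩)
    (by
      refine lt_min (ENNReal.ofReal_pos.2 he50) (lt_min (ENNReal.ofReal_pos.2 (by positivity))
        (lt_min (ENNReal.ofReal_pos.2 hε') (lt_min (ENNReal.ofReal_pos.2 (by positivity))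
        (ENNReal.ofReal_pos.2 (by positivity))))))
  have hsum : εf' * (K + K * V + KC * V + V + Ku * V + 4) =
      K * εf' + K * εf' * V + KC * εf' * V + εf' * V + Ku * (εf' * V) + εf' * 4 := by ring
  rw [hsum] at hεf'2
  simp only [le_min_iff] at hεf'2
  obtain ⟨hb1, hb2, hb3, hb4, hb5⟩ := hεf'2
  have hc1 : K * εf' ≤ ENNReal.ofReal e5 := le_trans (by
    exact le_trans (le_trans (le_trans (le_trans le_self_add le_self_add) le_self_add) le_self_add)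
      le_self_add) hb1
  have hc2 : K * εf' * V ≤ ENNReal.ofReal (t2 / 2) := le_trans (by
    exact le_trans (le_trans (le_trans (le_trans le_add_self le_self_add) le_self_add) le_self_add)
      le_self_add) hb2
  have hc3 : KC * εf' * V ≤ ENNReal.ofReal (t2 / 2) := le_trans (by
    exact le_trans (le_trans (le_trans le_add_self le_self_add) le_self_add) le_self_add) hb2
  have hc4 : εf' * V ≤ ENNReal.ofReal ε' := le_trans (by
    exact le_trans (le_trans le_add_self le_self_add) le_self_add) hb3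
  have hc5 : Ku * (εf' * V) ≤ ENNReal.ofReal (ε' * (2 / L)) := le_trans (by
    exact le_trans le_add_self le_self_add) hb4
  have hc6 : εf' * 4 ≤ ENNReal.ofReal (ε / 2) := le_trans le_add_self hb5
  have hc7 : (εf + εf') * 4 ≤ ENNReal.ofReal ε := by
    rw [add_mul]
    refine (add_le_add hεf2 hc6).trans ?_
    rw [← ENNReal.ofReal_add (by positivity) (by positivity), add_halves]
  have hsplit : ENNReal.ofReal (t2 / 2) + ENNReal.ofReal (t2 / 2) = ENNReal.ofReal t2 := by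
    rw [← ENNReal.ofReal_add (by positivity) (by positivity)]; congr 1; ring
  obtain ⟨lam0, hlam0, hF⟩ := hF (1 / 8) (by norm_num) le_rfl εf' hεf'
  refine ⟨κ' / 64, by positivity, ?_, fun κ1 hκ1 => ?_⟩
  · have : κ' ≤ κp := min_le_left _ _
    linarith
  obtain ⟨κ1f, hκ1f, hM⟩ := hM κ' hκ'0 hκ'1 lam0 hlam0 κ1 hκ1
  obtain ⟨δ, hδ, hF⟩ := hF κ1f hκ1f
  obtain ⟨δf, hδf, hδfδ, hδfK⟩ := exists_del (p := p) hp1 (A := K) (a := ENNReal.ofReal e5) (δ := δ)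
    hK (ENNReal.ofReal_pos.2 he50) hδ
  obtain ⟨dd, hdd, hdata⟩ := Crest.Agent.R096.Xdt_764.data_front3 (p := p) hp1 hs2 hL1 hL hδf
  refine ⟨dd, hdd, fun U₀ W₀ f G h1 h2 h3 h4 h5 h6 h7 h8 hE hZ => ?_⟩
  obtain ⟨hO, hne, hb, hcO, hoL, hbL, hcL, hnL, Df, hsh, hE', hdet⟩ :=
    hdata U₀ W₀ f G h1 h2 h3 h4 h5 h6 h7 h8 hE hZ
  obtain ⟨h₀, hh₀, hF⟩ := hF (QL L) _ (fL f L hL) Df hO hne hb hoL hbL hsh
    (hE'.trans (mul_le_mul' hδfδ le_rfl)) (hdet.trans (mul_le_mul' hδfδ le_rfl)) 3 (e5 / 16) le_rfl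
    (by positivity)
  obtain ⟨h, hh, hhlt, hhε, hdy⟩ := exists_dyadic hh₀ (a := ε / (C0 * (2 * q))) (by positivity)
  obtain ⟨al, F, bf, cmp, lam, hl, hl4, A, f1, D1, X, HH, g, hfr⟩ := hF h hh hhlt
  obtain ⟨W, R', D, K0, r, hr, o, M, Zs, ι, T, Q, τ, J0, J, Vc, ct, A', z, θ, φ, Mg, B, cw, hrρ, H⟩ :=
    hM L η hL1 hη hη8 s hs εf εf' δf e5 he50 hεft hc1 hδfK _ (fL f L hL) Df hoL hbL hsh hE' 3
      (e5 / 16) h le_rfl (by positivity) le_rfl hdy al F bf cmp lam hl hl4 A f1 D1 X HH g hfr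
      (ENNReal.ofReal (t2 / 2)) t2 (ENNReal.ofReal_pos.2 (by positivity)).ne' ht2
  have hsz : C0 * (2 * q * h) ≤ ε := by
    have hden : 0 < C0 * (2 * q) := by positivity
    have := (lt_div_iff₀ hden).1 hhε
    nlinarith
  have hPG := Pgn_276.preG_meshN (t := 1) (Cf := 1) hL1 hfr.c hfr.nb H hC0.le hsz
    (mem_insert 𝒬0 𝒮0) (min_le_left _ _) hc7 hc4 hc5 hε.le hε'.le (fun b => b.elim)
    (fun b => b.elim) (fun b => b.elim) (fun b => b.elim) (fun _ => 0)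
  refine ⟨f1, al, h, ΦN bf cmp lam hl hl4, ι, T, univ, J0, J, Vc, ct, A', lam, z, θ, φ, Mg, 𝒬0, r, hr,
    D.a, o, M, Zs, Ug T Qᶜ D.a r o, Empty, fun b => b.elim, fun b => b.elim, fun b => b.elim,
    fun b => b.elim, fun _ => 0, _, _, Or.inr rfl, hPG, fun Z m0 hZ0 => ?_⟩
  refine hN (dF q) (kF q) 6 (cN q) _ ι q al h (ΦN bf cmp lam hl hl4) f1 _ W κ' (κ' / 64) κ1 κ2
    (max 8 (4 * q)) HH R' _ _ _ _ e5 D K0 r hr o M Zs T Q τ J0 J Vc ct A' lam z θ φ Mg B cw H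
    (fun x hx => by
      obtain ⟨C', O', a1, a2⟩ := hfr.c.HHw x hx
      exact ⟨C', O', a1, x, rfl, a2⟩) hκ'0.le (min_le_right _ _) hεf1
    ((add_le_add hc2 le_rfl).trans hsplit.le) ((add_le_add hc3 le_rfl).trans hsplit.le)
    (min_le_right _ _) hrρ κp (min_le_left _ _) (insert 𝒬0 𝒮0) (subset_insert _ _)
    (fun b => b.elim) (fun b => b.elim) (fun b => b.elim) _ (fun i => ?_) (fun i => ?_) Z m0 hZ0
  · have hr0 : 0 < r := by rw [H.rK]; positivity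
    positivity
  · have hr0 : 0 < r := by rw [H.rK]; positivity
    unfold cntA
    refine mul_le_mul_of_nonneg_right ?_ (by positivity)
    have hfin : {k : ℤ × (Fin 2 → ℕ) | k ∈ Fc M Zs ∧
        (Msh_715.P (T.H i) ∩ usq (fr (vx D.a r o k.1 k.2) r hr)).Nonempty}.Finite :=
      (Fc M Zs).finite_toSet.subset fun k hk => hk.1
    have hsub : {k : ℤ × (Fin 2 → ℕ) | k ∈ Fc M Zs ∧ ¬ Ug T Qᶜ D.a r o k.1 k.2 ∧
        (Msh_715.P (T.H i) ∩ usq (fr (vx D.a r o k.1 k.2) r hr)).Nonempty} ⊆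
        {k : ℤ × (Fin 2 → ℕ) | k ∈ Fc M Zs ∧
        (Msh_715.P (T.H i) ∩ usq (fr (vx D.a r o k.1 k.2) r hr)).Nonempty} :=
      fun k hk => ⟨hk.1, hk.2.2⟩
    exact_mod_cast Set.ncard_le_ncard hsub hfin

end Crest.Agent.R096.Nge_423
end
end

-- ▼ part R096/Np6_962
section

/-!
Row 96 (S0127), helper962, node NO0-PRE3, mesh part: **the energies of the tiles** (clause `tl` of
`PreN`) from `MeshN`.
-/

set_option autoImplicit false
set_option linter.unusedSectionVars false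
set_option linter.unusedVariables false
open Set Filter Topology MeasureTheory Metric
open scoped NNReal ENNReal

noncomputable section

namespace Crest.Agent.R096.Np_962

open Crest.Agent.R096.Msh_715 hiding P I
open Crest.Agent.R096.SkC1_961 (E3 Cfg FoamD Hom3 NN)
open Crest.Agent.R096.Ls_222
open Crest.Agent.R096.Mbf_337
open Crest.Agent.R96.Pm_199 (le)
open Crest.Agent.R96.Sg1_199 (li sgm)
open Crest.Agent.R096.Msh_810 Crest.Agent.R96.En2_199 Crest.Agent.R96.En4_199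
  Crest.Agent.R96.En9_199 Crest.Agent.R96.En11_199
open Crest.Agent.R096.Ps_273
open Crest.Agent.R96.En3_199 (M1)
open Crest.Agent.R96.En5_199 Crest.Agent.R96.En6_199 Crest.Agent.R96.En7_199 Crest.Agent.R96.En8_199
open Crest.Agent.R096.No0_477 (cub fr Fc vx)
open Crest.Agent.R096.SkN1_477 (usq)
open Crest.Agent.R096.No_276 (QL ShL IZ MU MJ)
open Crest.Agent.R096.Gno_324 (Ug)
open Crest.Agent.R096.Ea_713 (lin)
open Crest.Agent.R096.Log2_582 (IsLog)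

/-! ### sums over subsets -/

theorem tsum_le_add {ι : Type*} (f : ι → ℝ≥0∞) {A B C : Set ι} (h : A ⊆ B ∪ C) :
    ∑' i : A, f i ≤ ∑' i : B, f i + ∑' i : C, f i :=
  (ENNReal.tsum_mono_subtype f h).trans (ENNReal.tsum_union_le f B C)

/-- the `p`-th power of `c (X + t) b` -/
theorem ofReal_pow_le {p : ℝ} (hp : 1 ≤ p) {X : ℝ≥0∞} (hX : X ≠ ⊤) {c b t : ℝ} (hc : 0 ≤ c)
    (hb : 0 ≤ b) (ht : 0 ≤ t) :
    ENNReal.ofReal ((c * (X.toReal + t) * b) ^ p) ≤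
      2 ^ (p - 1) * ((ENNReal.ofReal (c * b) * X) ^ p + ENNReal.ofReal (c * b * t) ^ p) := by
  have h0 : 0 ≤ p := by linarith
  have h1 : c * (X.toReal + t) * b = c * b * X.toReal + c * b * t := by ring
  have h2 : 0 ≤ c * b * X.toReal + c * b * t := by positivity
  rw [h1, ← ENNReal.ofReal_rpow_of_nonneg h2 h0, ENNReal.ofReal_add (by positivity) (by positivity),
    ENNReal.ofReal_mul (by positivity), ENNReal.ofReal_toReal hX]
  exact ENNReal.rpow_add_le_mul_rpow_add_rpow _ _ hp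

variable {δ κ0 R c0 : ℝ} {La : Set E3} {ι : Type}

/-- the weights of the edges -/
def Fw {Om : Set E3} {T : Tiling Om ι} {𝒞 : Type*} (κ' : ℝ) (W : 𝒞 → ℝ) (g : 𝒞 → Fin 3 → E3 → ℝ)
    (err : Edg T → ℝ≥0∞) (e : Edg T) : ℝ≥0∞ :=
  ENNReal.ofReal (1 + κ') * le (GV (fun c => ENNReal.ofReal (W c)) g) e + err e

open Classical in
/-- the weights of the tiles -/
def Nw {Om : Set E3} (T : Tiling Om ι) (r : ℝ) (hr : r ≠ 0) (a : E3) (o : Fin 2 → ℤ) (M : ℕ)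
    (Zs : Finset ℤ) (U : ℤ → (Fin 2 → ℕ) → Prop) (S1 : ℝ) (F : Edg T → ℝ≥0∞) (i : ι) : ℝ :=
  (∑ e ∈ eIn T i, F e).toReal + if MU T r hr a o M Zs U i then S1 * r else 0

section

variable {p : ℝ} {q : ℕ} {al : Fin 3 → ℝ} {h : ℝ} {s : Fin 3 → ℝ} {L : ℕ} {η : ℝ}
  {Φ : FoamD δ κ0 R c0 La} {f1 : E3 → E3} {g : Φ.F → Fin 3 → E3 → ℝ} {W : Φ.F → ℝ}
  {κ' μ κ1 κ2 κ3 : ℝ} {Cs : Set (Set E3) → ℝ} {𝒮0 : Set (Set (Set E3))} {HH R' : Set E3}
  {e1 e2 e3 e4 : ℝ≥0∞} {e5 : ℝ} {Ku : ℝ≥0∞} {D : Dat 3} {K0 : ℕ} {r : ℝ} {hr : r ≠ 0}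
  {o : Fin 2 → ℤ} {M : ℕ} {Zs : Finset ℤ} {T : Tiling (QL L) ι} {Q : Set ι} {τ : ι → Top D}
  {J0 J V : Φ.F → Set ι} {ct : Φ.F → ι} {A : Φ.F → E3 ≃ᵃ[ℝ] E3} {lam : Φ.F → ℝ} {z : Φ.F → E3}
  {θ : Φ.F → E3 → E3} {φ : Φ.F → E3 → ℝ} {Mg : Φ.F → ℕ} {B : ι → E3 ≃ᵃ[ℝ] E3} {cw : ι → ℝ≥0∞}

namespace MeshN

theorem r0 (H : MeshN p q al h s L η Φ f1 g W κ' μ κ1 κ2 κ3 Cs 𝒮0 HH R' e1 e2 e3 e4 e5 Ku D K0 r hr o
    M Zs T Q τ J0 J V ct A lam z θ φ Mg B cw) : 0 < r := by rw [H.rK]; positivity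

theorem usq_sub (hr0 : 0 < r) {w : E3} : usq (fr w r hr) ⊆ cub w r := by
  intro x hx
  have h2 := (Gno_324.mem_usq_fr hr0 hr).1 hx
  obtain ⟨a1, a2, a3, a4, a5⟩ := h2
  intro i
  fin_cases i
  · exact ⟨a1, a2⟩
  · exact ⟨a3, a4⟩
  · show w 2 ≤ x 2 ∧ x 2 ≤ w 2 + r
    rw [a5]
    exact ⟨le_rfl, by linarith⟩

/-- a tile which meets a uniform square is in `Q` -/
theorem MU_Q (H : MeshN p q al h s L η Φ f1 g W κ' μ κ1 κ2 κ3 Cs 𝒮0 HH R' e1 e2 e3 e4 e5 Ku D K0 r hr o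
    M Zs T Q τ J0 J V ct A lam z θ φ Mg B cw) {i : ι}
    (hi : MU T r hr D.a o M Zs (Ug T Qᶜ D.a r o) i) : i ∈ Q := by
  obtain ⟨k, hk, hU, x, hx1, hx2⟩ := hi
  have h1 : x ∈ cub (vx D.a r o k.1 k.2) r := usq_sub H.r0 hx2
  by_contra hcon
  exact (hU.2 x h1 i hx1).1 hcon

/-- the scale of a tile of `Q` which meets a square -/
theorem sc_of (H : MeshN p q al h s L η Φ f1 g W κ' μ κ1 κ2 κ3 Cs 𝒮0 HH R' e1 e2 e3 e4 e5 Ku D K0 r hr o
    M Zs T Q τ J0 J V ct A lam z θ φ Mg B cw) {i : ι} (hi : i ∈ Q) {k : ℤ × (Fin 2 → ℕ)}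
    (hk : k ∈ Fc M Zs) (hn : (Msh_715.P (T.H i) ∩ usq (fr (vx D.a r o k.1 k.2) r hr)).Nonempty) :
    (τ i).1.1.k = K0 := by
  obtain ⟨x, hx1, hx2⟩ := hn
  exact H.scl i hi ⟨k, hk, x, hx1, usq_sub H.r0 hx2⟩

theorem fin_sum {err : Edg T → ℝ≥0∞} (H : MeshN p q al h s L η Φ f1 g W κ' μ κ1 κ2 κ3 Cs 𝒮0 HH R' e1 e2 e3 e4 e5 Ku D K0 r hr o
    M Zs T Q τ J0 J V ct A lam z θ φ Mg B cw) (herr : ∀ e, err e ≠ ⊤) (i : ι) :
    ∑ e ∈ eIn T i, Fw κ' W g err e ≠ ⊤ := by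
  refine ENNReal.sum_ne_top.2 fun e _ => ?_
  exact ENNReal.add_ne_top.2 ⟨ENNReal.mul_ne_top ENNReal.ofReal_ne_top (H.fin e), herr e⟩

open Classical in
/-- **one tile of `Q`** -/
theorem tile_Q {err : Edg T → ℝ≥0∞} (H : MeshN p q al h s L η Φ f1 g W κ' μ κ1 κ2 κ3 Cs 𝒮0 HH R' e1 e2 e3 e4 e5 Ku D K0 r hr o
    M Zs T Q τ J0 J V ct A lam z θ φ Mg B cw) (hp : 1 ≤ p) (herr : ∀ e, err e ≠ ⊤) {S1 : ℝ}
    (hS1 : 0 ≤ S1) {i : ι} (hi : i ∈ Q) {c c' : ℝ} (hc : 0 ≤ c) (hcc : c ≤ c') :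
    ENNReal.ofReal ((c * Nw T r hr D.a o M Zs (Ug T Qᶜ D.a r o) S1 (Fw κ' W g err) i *
      ‖lin (B i)‖) ^ p) ≤ 2 ^ (p - 1) * ENNReal.ofReal c' ^ p * 2 ^ p *
        (((2:ℝ≥0∞) ^ (τ i).1.1.k * ∑ e ∈ eIn T i, Fw κ' W g err e) ^ p + ENNReal.ofReal S1 ^ p) := by
  have hp0 : 0 ≤ p := by linarith
  have hr0 := H.r0
  unfold Nw
  refine (ofReal_pow_le hp (H.fin_sum herr i) hc (norm_nonneg _) (by
    split_ifs
    · positivity
    · exact le_rfl)).trans ?_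
  refine le_trans (mul_le_mul' le_rfl ?_) (le_of_eq (show (2:ℝ≥0∞) ^ (p - 1) *
    (ENNReal.ofReal c' ^ p * 2 ^ p * (((2:ℝ≥0∞) ^ (τ i).1.1.k *
      ∑ e ∈ eIn T i, Fw κ' W g err e) ^ p + ENNReal.ofReal S1 ^ p)) = _ by ring))
  have hB := H.frQ i hi
  have hc' : 0 ≤ c' := hc.trans hcc
  have k1 : ENNReal.ofReal (c * ‖lin (B i)‖) ≤ ENNReal.ofReal c' * (2 * (2:ℝ≥0∞) ^ (τ i).1.1.k) := by
    have e : (2:ℝ≥0∞) * 2 ^ (τ i).1.1.k = ENNReal.ofReal (2 * 2 ^ (τ i).1.1.k) := by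
      rw [ENNReal.ofReal_mul (by norm_num), ENNReal.ofReal_pow (by norm_num)]
      norm_num
    rw [e, ← ENNReal.ofReal_mul hc']
    exact ENNReal.ofReal_le_ofReal (mul_le_mul hcc hB (norm_nonneg _) hc')
  rw [mul_add]
  refine add_le_add ?_ ?_
  · rw [← ENNReal.mul_rpow_of_nonneg _ _ hp0, ← ENNReal.mul_rpow_of_nonneg _ _ hp0]
    refine ENNReal.rpow_le_rpow ?_ hp0
    calc ENNReal.ofReal (c * ‖lin (B i)‖) * ∑ e ∈ eIn T i, Fw κ' W g err e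
        ≤ ENNReal.ofReal c' * (2 * (2:ℝ≥0∞) ^ (τ i).1.1.k) * ∑ e ∈ eIn T i, Fw κ' W g err e :=
          mul_le_mul' k1 le_rfl
      _ = _ := by ring
  · split_ifs with hMU
    · obtain ⟨k, hk, hU, hn⟩ := hMU
      have hsc := H.sc_of hi hk hn
      rw [← ENNReal.mul_rpow_of_nonneg _ _ hp0, ← ENNReal.mul_rpow_of_nonneg _ _ hp0]
      refine ENNReal.rpow_le_rpow ?_ hp0
      rw [show (2:ℝ≥0∞) = ENNReal.ofReal 2 by norm_num, ← ENNReal.ofReal_mul hc',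
        ← ENNReal.ofReal_mul (by positivity)]
      apply ENNReal.ofReal_le_ofReal
      have h2 : ‖lin (B i)‖ * r ≤ 2 := by
        rw [hsc] at hB
        have h3 : (2:ℝ) * 2 ^ K0 * r = 2 := by
          rw [H.rK, mul_assoc, mul_inv_cancel₀ (by positivity), mul_one]
        calc ‖lin (B i)‖ * r ≤ 2 * 2 ^ K0 * r := mul_le_mul_of_nonneg_right hB hr0.le
          _ = 2 := h3
      calc c * ‖lin (B i)‖ * (S1 * r) = c * (‖lin (B i)‖ * r) * S1 := by ring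
        _ ≤ c' * 2 * S1 := by
          refine mul_le_mul_of_nonneg_right ?_ hS1
          exact mul_le_mul hcc h2 (by positivity) hc'
    · rw [mul_zero, ENNReal.ofReal_zero, ENNReal.zero_rpow_of_pos (by linarith)]
      exact zero_le

/-- **tiles of `Q`, sharp form** -/
theorem en_sharp {err : Edg T → ℝ≥0∞} {er : Cel D → ℝ≥0∞} (H : MeshN p q al h s L η Φ f1 g W κ' μ κ1 κ2 κ3 Cs 𝒮0 HH R' e1 e2 e3 e4 e5 Ku D K0 r hr o
    M Zs T Q τ J0 J V ct A lam z θ φ Mg B cw) (hp : 1 ≤ p) (herr : ∀ e, err e ≠ ⊤) {S1 : ℝ}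
    (hS1 : 0 ≤ S1) (her : ∀ (e : Edg T) (σ : Cel D), e.1 = σ.c → err e ≤ er σ)
    {e0 : ℝ≥0∞} (hYe : ∀ l, Ye D l p er ≤ e0) {sm : ℝ} (hsm : ∀ l, s l ≤ sm) {A' : Set ι} (hA : A' ⊆ Q)
    {v : ι → ℝ≥0∞} {K : ℝ≥0∞} (hv : ∀ i ∈ A', v i ≤ K * volume (Msh_715.P (T.H i)))
    {c : ι → ℝ} {c' : ℝ} (hc : ∀ i ∈ A', 0 ≤ c i) (hcc : ∀ i ∈ A', c i ≤ c') :
    ∑' i : A', ENNReal.ofReal ((c i * Nw T r hr D.a o M Zs (Ug T Qᶜ D.a r o) S1 (Fw κ' W g err) i *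
      ‖lin (B i)‖) ^ p) * v i ≤ K * (2 ^ (p - 1) * ENNReal.ofReal c' ^ p * 2 ^ p *
        (2 ^ (p - 1) * ((M1 3 * (ENNReal.ofReal (1 + κ') * ENNReal.ofReal sm)) ^ p *
          volume (⋃ i ∈ A', Msh_715.P (T.H i)) +
          KC 3 p * (2 ^ (p - 1) * (ENNReal.ofReal (1 + κ') ^ p * (3 * e1) + 3 * e0))) +
          ENNReal.ofReal S1 ^ p * volume (⋃ i ∈ A', Msh_715.P (T.H i)))) := by
  have hb := H.base.mono hA
  have hcΦ : Countable Φ.F := countable_F Φ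
  have hF := hF_of (T := T) (D := D) (K := ENNReal.ofReal (1 + κ'))
    (w := fun c => ENNReal.ofReal (W c)) H.gm her
  have h1 := hb.tiles_sharp (p := p) hp (s := fun l => ENNReal.ofReal (s l))
    (sm := ENNReal.ofReal sm) (fun l => ENNReal.ofReal_le_ofReal (hsm l))
    (c := ENNReal.ofReal (1 + κ')) (er := er) (F := Fw κ' W g err) hF
    (N := fun i => ∑ e ∈ eIn T i, Fw κ' W g err e) (fun i _ => le_rfl)
  have hvol : ∑' i : A', volume (Msh_715.P (T.H i)) = volume (⋃ i ∈ A', Msh_715.P (T.H i)) := by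
    have hcount : Countable ι := Crest.Agent.R096.Ea_713.countable_ix T
    rw [biUnion_eq_iUnion, measure_iUnion₀]
    · intro i j hij
      exact Crest.Agent.R096.Ea_713.aedisj volume T (fun hh => hij (Subtype.ext hh))
    · intro i
      exact (Msh_715.isClosed_P _).measurableSet.nullMeasurableSet
  calc ∑' i : A', ENNReal.ofReal ((c i * Nw T r hr D.a o M Zs (Ug T Qᶜ D.a r o) S1 (Fw κ' W g err) i *
      ‖lin (B i)‖) ^ p) * v i
      ≤ ∑' i : A', K * (2 ^ (p - 1) * ENNReal.ofReal c' ^ p * 2 ^ p *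
        (((2:ℝ≥0∞) ^ (τ i).1.1.k * ∑ e ∈ eIn T i.1, Fw κ' W g err e) ^ p *
          volume (Msh_715.P (T.H i)) + ENNReal.ofReal S1 ^ p * volume (Msh_715.P (T.H i)))) := by
        refine ENNReal.tsum_le_tsum fun i => ?_
        refine (mul_le_mul' (H.tile_Q hp herr hS1 (hA i.2) (hc i i.2) (hcc i i.2))
          (hv i i.2)).trans (le_of_eq ?_)
        ring
    _ = K * (2 ^ (p - 1) * ENNReal.ofReal c' ^ p * 2 ^ p *
        (∑' i : A', ((2:ℝ≥0∞) ^ (τ i).1.1.k * ∑ e ∈ eIn T i.1, Fw κ' W g err e) ^ p *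
          volume (Msh_715.P (T.H i)) + ENNReal.ofReal S1 ^ p *
            ∑' i : A', volume (Msh_715.P (T.H i)))) := by
        rw [ENNReal.tsum_mul_left, ENNReal.tsum_mul_left, ENNReal.tsum_add, ENNReal.tsum_mul_left]
    _ ≤ _ := by
        rw [hvol]
        gcongr
        refine h1.trans ?_
        gcongr
        · exact (Finset.sum_le_sum fun l _ => H.ed l).trans (by simp)
        · exact (Finset.sum_le_sum fun l _ => hYe l).trans (by simp)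

/-- **tiles of `Q` in the bad set** -/
theorem en_inside {err : Edg T → ℝ≥0∞} {er : Cel D → ℝ≥0∞} (H : MeshN p q al h s L η Φ f1 g W κ' μ κ1 κ2 κ3 Cs 𝒮0 HH R' e1 e2 e3 e4 e5 Ku D K0 r hr o
    M Zs T Q τ J0 J V ct A lam z θ φ Mg B cw) (hp : 1 ≤ p) (herr : ∀ e, err e ≠ ⊤) {S1 : ℝ}
    (hS1 : 0 ≤ S1) (her : ∀ (e : Edg T) (σ : Cel D), e.1 = σ.c → err e ≤ er σ)
    {e0 : ℝ≥0∞} (hYe : ∀ l, Ye D l p er ≤ e0) {A' : Set ι} (hA : A' ⊆ Q)
    (hR : ∀ i ∈ A', Msh_715.P (T.H i) ⊆ R')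
    {v : ι → ℝ≥0∞} {K : ℝ≥0∞} (hv : ∀ i ∈ A', v i ≤ K * volume (Msh_715.P (T.H i)))
    {c : ι → ℝ} {c' : ℝ} (hc : ∀ i ∈ A', 0 ≤ c i) (hcc : ∀ i ∈ A', c i ≤ c') :
    ∑' i : A', ENNReal.ofReal ((c i * Nw T r hr D.a o M Zs (Ug T Qᶜ D.a r o) S1 (Fw κ' W g err) i *
      ‖lin (B i)‖) ^ p) * v i ≤ K * (2 ^ (p - 1) * ENNReal.ofReal c' ^ p * 2 ^ p *
        (2 ^ (p - 1) * (ENNReal.ofReal (1 + κ') ^ p * e2 + KC 3 p * (3 * e0)) +
          ENNReal.ofReal S1 ^ p * e2)) := by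
  have hb := H.base.mono hA
  have hcΦ : Countable Φ.F := countable_F Φ
  have hF := hF_of (T := T) (D := D) (K := ENNReal.ofReal (1 + κ'))
    (w := fun c => ENNReal.ofReal (W c)) H.gm her
  have h1 := hb.tiles_inside (p := p) hp
    (c := ENNReal.ofReal (1 + κ')) (er := er) (F := Fw κ' W g err) hF
    (N := fun i => ∑ e ∈ eIn T i, Fw κ' W g err e) (fun i _ => le_rfl) hR
  have hvol : ∑' i : A', volume (Msh_715.P (T.H i)) ≤ e2 := by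
    have hcount : Countable ι := Crest.Agent.R096.Ea_713.countable_ix T
    refine le_trans (le_of_eq ?_) ((measure_mono (iUnion₂_subset hR)).trans H.vR)
    rw [biUnion_eq_iUnion, measure_iUnion₀]
    · intro i j hij
      exact Crest.Agent.R096.Ea_713.aedisj volume T (fun hh => hij (Subtype.ext hh))
    · intro i
      exact (Msh_715.isClosed_P _).measurableSet.nullMeasurableSet
  calc ∑' i : A', ENNReal.ofReal ((c i * Nw T r hr D.a o M Zs (Ug T Qᶜ D.a r o) S1 (Fw κ' W g err) i *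
      ‖lin (B i)‖) ^ p) * v i
      ≤ ∑' i : A', K * (2 ^ (p - 1) * ENNReal.ofReal c' ^ p * 2 ^ p *
        (((2:ℝ≥0∞) ^ (τ i).1.1.k * ∑ e ∈ eIn T i.1, Fw κ' W g err e) ^ p *
          volume (Msh_715.P (T.H i)) + ENNReal.ofReal S1 ^ p * volume (Msh_715.P (T.H i)))) := by
        refine ENNReal.tsum_le_tsum fun i => ?_
        refine (mul_le_mul' (H.tile_Q hp herr hS1 (hA i.2) (hc i i.2) (hcc i i.2))
          (hv i i.2)).trans (le_of_eq ?_)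
        ring
    _ = K * (2 ^ (p - 1) * ENNReal.ofReal c' ^ p * 2 ^ p *
        (∑' i : A', ((2:ℝ≥0∞) ^ (τ i).1.1.k * ∑ e ∈ eIn T i.1, Fw κ' W g err e) ^ p *
          volume (Msh_715.P (T.H i)) + ENNReal.ofReal S1 ^ p *
            ∑' i : A', volume (Msh_715.P (T.H i)))) := by
        rw [ENNReal.tsum_mul_left, ENNReal.tsum_mul_left, ENNReal.tsum_add, ENNReal.tsum_mul_left]
    _ ≤ _ := by
        gcongr
        refine h1.trans ?_
        gcongr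
        · exact H.sR
        · exact (Finset.sum_le_sum fun l _ => hYe l).trans (by simp)

/-- **all other tiles** -/
theorem en_nonQ {err : Edg T → ℝ≥0∞} (H : MeshN p q al h s L η Φ f1 g W κ' μ κ1 κ2 κ3 Cs 𝒮0 HH R' e1 e2 e3 e4 e5 Ku D K0 r hr o
    M Zs T Q τ J0 J V ct A lam z θ φ Mg B cw) (hp : 1 ≤ p) (hC : ∀ 𝒦, 0 ≤ Cs 𝒦)
    (herr : ∀ e, err e ≠ ⊤) (S1 : ℝ) {e0 : ℝ≥0∞}
    (hnE : ∑' i : {i // i ∉ Q ∧ ∀ c, i ≠ ct c},
      (ENNReal.ofReal (Cs ((fun K => B i.1 '' K) '' Cfg T i.1) * ‖lin (B i.1)‖) *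
        ∑ e ∈ eIn T i.1, err e) ^ p * ((1 + cw i.1) * volume (Msh_715.P (T.H i.1))) ≤ e0) :
    ∑' i : {i // i ∉ Q ∧ ∀ c, i ≠ ct c},
      ENNReal.ofReal ((Cs ((fun K => B i.1 '' K) '' Cfg T i.1) *
        Nw T r hr D.a o M Zs (Ug T Qᶜ D.a r o) S1 (Fw κ' W g err) i.1 * ‖lin (B i.1)‖) ^ p) *
        ((1 + cw i.1) * volume (Msh_715.P (T.H i.1))) ≤
      2 ^ (p - 1) * 2 ^ (p - 1) * (ENNReal.ofReal (1 + κ') ^ p * e3 + e0) := by
  have hp0 : 0 ≤ p := by linarith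
  calc _ ≤ ∑' i : {i // i ∉ Q ∧ ∀ c, i ≠ ct c}, 2 ^ (p - 1) * 2 ^ (p - 1) *
      (ENNReal.ofReal (1 + κ') ^ p * ((ENNReal.ofReal (Cs ((fun K => B i.1 '' K) '' Cfg T i.1) * ‖lin (B i.1)‖) *
      ∑ e ∈ eIn T i.1, le (GV (fun c => ENNReal.ofReal (W c)) g) e) ^ p *
      ((1 + cw i.1) * volume (Msh_715.P (T.H i.1)))) +
      (ENNReal.ofReal (Cs ((fun K => B i.1 '' K) '' Cfg T i.1) * ‖lin (B i.1)‖) *
        ∑ e ∈ eIn T i.1, err e) ^ p * ((1 + cw i.1) * volume (Msh_715.P (T.H i.1)))) := by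
        refine ENNReal.tsum_le_tsum fun i => ?_
        have hN : Nw T r hr D.a o M Zs (Ug T Qᶜ D.a r o) S1 (Fw κ' W g err) i.1 =
            (∑ e ∈ eIn T i.1, Fw κ' W g err e).toReal + 0 := by
          unfold Nw
          rw [if_neg fun hMU => i.2.1 (H.MU_Q hMU)]
        rw [hN]
        refine (mul_le_mul' (ofReal_pow_le hp (H.fin_sum herr i.1) (hC _) (norm_nonneg _) le_rfl)
          le_rfl).trans ?_
        rw [mul_zero, ENNReal.ofReal_zero, ENNReal.zero_rpow_of_pos (by linarith), add_zero]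
        have e1 : ∑ e ∈ eIn T i.1, Fw κ' W g err e = ENNReal.ofReal (1 + κ') *
            ∑ e ∈ eIn T i.1, le (GV (fun c => ENNReal.ofReal (W c)) g) e +
            ∑ e ∈ eIn T i.1, err e := by
          unfold Fw
          rw [Finset.sum_add_distrib, Finset.mul_sum]
        rw [e1, mul_add]
        set X1 := ENNReal.ofReal (Cs ((fun K => B i.1 '' K) '' Cfg T i.1) * ‖lin (B i.1)‖)
        set X2 := ∑ e ∈ eIn T i.1, le (GV (fun c => ENNReal.ofReal (W c)) g) e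
        set X3 := ∑ e ∈ eIn T i.1, err e
        set X4 := (1 + cw i.1) * volume (Msh_715.P (T.H i.1))
        have h2 : (X1 * (ENNReal.ofReal (1 + κ') * X2) + X1 * X3) ^ p ≤
            2 ^ (p - 1) * (ENNReal.ofReal (1 + κ') ^ p * (X1 * X2) ^ p + (X1 * X3) ^ p) := by
          refine (ENNReal.rpow_add_le_mul_rpow_add_rpow _ _ hp).trans (le_of_eq ?_)
          rw [← ENNReal.mul_rpow_of_nonneg (ENNReal.ofReal (1 + κ')) _ hp0]
          congr 3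
          ring
        calc _ ≤ 2 ^ (p - 1) * (2 ^ (p - 1) * (ENNReal.ofReal (1 + κ') ^ p * (X1 * X2) ^ p +
              (X1 * X3) ^ p)) * X4 := mul_le_mul' (mul_le_mul' le_rfl h2) le_rfl
          _ = _ := by ring
    _ ≤ _ := by
        rw [ENNReal.tsum_mul_left, ENNReal.tsum_add, ENNReal.tsum_mul_left]
        gcongr
        exact H.nonQ

end MeshN

end

end Crest.Agent.R096.Np_962
end
end

-- ▼ part R096/Np8_962
section

/-!
Row 96 (S0127), helper962, node NO0-PRE3, mesh part: **clause `tl` of `PreN`** from `MeshN`.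
-/

set_option autoImplicit false
set_option linter.unusedSectionVars false
set_option linter.unusedVariables false
open Set Filter Topology MeasureTheory Metric
open scoped NNReal ENNReal

noncomputable section

namespace Crest.Agent.R096.Np_962

open Crest.Agent.R096.Msh_715 hiding P I
open Crest.Agent.R096.SkC1_961 (E3 Cfg FoamD Hom3 NN)
open Crest.Agent.R096.Ls_222
open Crest.Agent.R096.Mbf_337
open Crest.Agent.R96.Pm_199 (le)
open Crest.Agent.R96.Sg1_199 (li sgm)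
open Crest.Agent.R096.Msh_810 Crest.Agent.R96.En2_199 Crest.Agent.R96.En4_199
  Crest.Agent.R96.En9_199 Crest.Agent.R96.En11_199
open Crest.Agent.R096.Ps_273
open Crest.Agent.R96.En3_199 (M1)
open Crest.Agent.R096.No0_477 (cub fr Fc vx)
open Crest.Agent.R096.SkN1_477 (usq)
open Crest.Agent.R096.No_276 (QL ShL IZ MU MJ)
open Crest.Agent.R096.Gno_324 (Ug)
open Crest.Agent.R096.Ea_713 (lin)
open Crest.Agent.R096.Log2_582 (IsLog)
open Crest.Agent.R096.Nl_234 (HWq)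

variable {δ κ0 R c0 : ℝ} {La : Set E3} {ι : Type}

/-- constant in front of the volume -/
def KA (p sm S1 : ℝ) : ℝ≥0∞ :=
  2 ^ (p - 1) * 2 ^ p * (2 ^ (p - 1) * (M1 3 * (2 * ENNReal.ofReal sm)) ^ p + ENNReal.ofReal S1 ^ p)

/-- constant in front of the excess -/
def KB (p : ℝ) : ℝ≥0∞ :=
  2 ^ (p - 1) * 2 ^ p * (2 ^ (p - 1) * (KC 3 p * (2 ^ (p - 1) * (2 ^ p * 3))))

/-- constant in front of the errors -/
def KB0 (p : ℝ) : ℝ≥0∞ :=
  2 ^ (p - 1) * 2 ^ p * (2 ^ (p - 1) * (KC 3 p * (2 ^ (p - 1) * 3 + 3)))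

/-- constant in front of the numbers of the bad set -/
def KD (p S1 : ℝ) : ℝ≥0∞ := 2 ^ (p - 1) * 2 ^ p * (2 ^ (p - 1) * 2 ^ p + ENNReal.ofReal S1 ^ p)

/-- constant in front of the numbers of the other tiles -/
def KE (p : ℝ) : ℝ≥0∞ := 2 ^ (p - 1) * 2 ^ (p - 1) * 2 ^ p

section

variable {p : ℝ} {q : ℕ} {al : Fin 3 → ℝ} {h : ℝ} {s : Fin 3 → ℝ} {L : ℕ} {η : ℝ}
  {Φ : FoamD δ κ0 R c0 La} {f1 : E3 → E3} {g : Φ.F → Fin 3 → E3 → ℝ} {W : Φ.F → ℝ}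
  {κ' μ κ1 κ2 κ3 : ℝ} {Cs : Set (Set E3) → ℝ} {𝒮0 : Set (Set (Set E3))} {HH R' : Set E3}
  {e1 e2 e3 e4 : ℝ≥0∞} {e5 : ℝ} {Ku : ℝ≥0∞} {D : Dat 3} {K0 : ℕ} {r : ℝ} {hr : r ≠ 0}
  {o : Fin 2 → ℤ} {M : ℕ} {Zs : Finset ℤ} {T : Tiling (QL L) ι} {Q : Set ι} {τ : ι → Top D}
  {J0 J V : Φ.F → Set ι} {ct : Φ.F → ι} {A : Φ.F → E3 ≃ᵃ[ℝ] E3} {lam : Φ.F → ℝ} {z : Φ.F → E3}
  {θ : Φ.F → E3 → E3} {φ : Φ.F → E3 → ℝ} {Mg : Φ.F → ℕ} {B : ι → E3 ≃ᵃ[ℝ] E3} {cw : ι → ℝ≥0∞}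

theorem ofReal_one_add_le {κ' : ℝ} (h0 : κ' ≤ 1) : ENNReal.ofReal (1 + κ') ≤ 2 := by
  rw [show (2:ℝ≥0∞) = ENNReal.ofReal 2 by norm_num]
  exact ENNReal.ofReal_le_ofReal (by linarith)

namespace MeshN

/-- `en_sharp` with constants -/
theorem en_sharp' {err : Edg T → ℝ≥0∞} {er : Cel D → ℝ≥0∞} (H : MeshN p q al h s L η Φ f1 g W κ' μ κ1 κ2 κ3 Cs 𝒮0 HH R' e1 e2 e3 e4 e5 Ku D K0 r hr o
    M Zs T Q τ J0 J V ct A lam z θ φ Mg B cw) (hp : 1 ≤ p) (hκ : κ' ≤ 1) (herr : ∀ e, err e ≠ ⊤)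
    {S1 : ℝ} (hS1 : 0 ≤ S1) (her : ∀ (e : Edg T) (σ : Cel D), e.1 = σ.c → err e ≤ er σ)
    {e0 : ℝ≥0∞} (hYe : ∀ l, Ye D l p er ≤ e0) {sm : ℝ} (hsm : ∀ l, s l ≤ sm) {A' : Set ι} (hA : A' ⊆ Q)
    {v : ι → ℝ≥0∞} {K : ℝ≥0∞} (hv : ∀ i ∈ A', v i ≤ K * volume (Msh_715.P (T.H i)))
    {c : ι → ℝ} {c' : ℝ} (hc : ∀ i ∈ A', 0 ≤ c i) (hcc : ∀ i ∈ A', c i ≤ c') :
    ∑' i : A', ENNReal.ofReal ((c i * Nw T r hr D.a o M Zs (Ug T Qᶜ D.a r o) S1 (Fw κ' W g err) i *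
      ‖lin (B i)‖) ^ p) * v i ≤ K * ENNReal.ofReal c' ^ p *
        (KA p sm S1 * volume (⋃ i ∈ A', Msh_715.P (T.H i)) + KB p * e1 + KB0 p * e0) := by
  have hp0 : 0 ≤ p := by linarith
  refine (H.en_sharp hp herr hS1 her hYe hsm hA hv hc hcc).trans ?_
  have h2 := ofReal_one_add_le hκ
  have h2p : ENNReal.ofReal (1 + κ') ^ p ≤ 2 ^ p := ENNReal.rpow_le_rpow h2 hp0
  have h3 : (M1 3 * (ENNReal.ofReal (1 + κ') * ENNReal.ofReal sm)) ^ p ≤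
      (M1 3 * (2 * ENNReal.ofReal sm)) ^ p := ENNReal.rpow_le_rpow (by gcongr) hp0
  set v' := volume (⋃ i ∈ A', Msh_715.P (T.H i))
  calc _ ≤ K * (2 ^ (p - 1) * ENNReal.ofReal c' ^ p * 2 ^ p *
        (2 ^ (p - 1) * ((M1 3 * (2 * ENNReal.ofReal sm)) ^ p * v' +
          KC 3 p * (2 ^ (p - 1) * (2 ^ p * (3 * e1) + 3 * e0))) +
          ENNReal.ofReal S1 ^ p * v')) := by gcongr
    _ ≤ K * ENNReal.ofReal c' ^ p *
        (KA p sm S1 * v' + KB p * e1 + 2 ^ (p - 1) * 2 ^ p * (2 ^ (p - 1) * (KC 3 p *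
          (2 ^ (p - 1) * 3))) * e0) := by
        unfold KA KB
        refine le_of_eq ?_
        ring
    _ ≤ _ := by
        unfold KB0
        gcongr
        exact le_self_add

/-- `en_inside` with constants -/
theorem en_inside' {err : Edg T → ℝ≥0∞} {er : Cel D → ℝ≥0∞} (H : MeshN p q al h s L η Φ f1 g W κ' μ κ1 κ2 κ3 Cs 𝒮0 HH R' e1 e2 e3 e4 e5 Ku D K0 r hr o
    M Zs T Q τ J0 J V ct A lam z θ φ Mg B cw) (hp : 1 ≤ p) (hκ : κ' ≤ 1) (herr : ∀ e, err e ≠ ⊤)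
    {S1 : ℝ} (hS1 : 0 ≤ S1) (her : ∀ (e : Edg T) (σ : Cel D), e.1 = σ.c → err e ≤ er σ)
    {e0 : ℝ≥0∞} (hYe : ∀ l, Ye D l p er ≤ e0) {A' : Set ι} (hA : A' ⊆ Q)
    (hR : ∀ i ∈ A', Msh_715.P (T.H i) ⊆ R')
    {v : ι → ℝ≥0∞} {K : ℝ≥0∞} (hv : ∀ i ∈ A', v i ≤ K * volume (Msh_715.P (T.H i)))
    {c : ι → ℝ} {c' : ℝ} (hc : ∀ i ∈ A', 0 ≤ c i) (hcc : ∀ i ∈ A', c i ≤ c') :
    ∑' i : A', ENNReal.ofReal ((c i * Nw T r hr D.a o M Zs (Ug T Qᶜ D.a r o) S1 (Fw κ' W g err) i *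
      ‖lin (B i)‖) ^ p) * v i ≤ K * ENNReal.ofReal c' ^ p * (KD p S1 * e2 + KB0 p * e0) := by
  have hp0 : 0 ≤ p := by linarith
  refine (H.en_inside hp herr hS1 her hYe hA hR hv hc hcc).trans ?_
  have h2p : ENNReal.ofReal (1 + κ') ^ p ≤ 2 ^ p :=
    ENNReal.rpow_le_rpow (ofReal_one_add_le hκ) hp0
  calc _ ≤ K * (2 ^ (p - 1) * ENNReal.ofReal c' ^ p * 2 ^ p *
        (2 ^ (p - 1) * (2 ^ p * e2 + KC 3 p * (3 * e0)) + ENNReal.ofReal S1 ^ p * e2)) := by gcongr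
    _ = K * ENNReal.ofReal c' ^ p *
        (KD p S1 * e2 + 2 ^ (p - 1) * 2 ^ p * (2 ^ (p - 1) * (KC 3 p * 3)) * e0) := by
        unfold KD
        ring
    _ ≤ _ := by
        unfold KB0
        gcongr
        exact le_add_self

/-- `en_nonQ` with constants -/
theorem en_nonQ' {err : Edg T → ℝ≥0∞} (H : MeshN p q al h s L η Φ f1 g W κ' μ κ1 κ2 κ3 Cs 𝒮0 HH R' e1 e2 e3 e4 e5 Ku D K0 r hr o
    M Zs T Q τ J0 J V ct A lam z θ φ Mg B cw) (hp : 1 ≤ p) (hκ : κ' ≤ 1) (hC : ∀ 𝒦, 0 ≤ Cs 𝒦)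
    (herr : ∀ e, err e ≠ ⊤) (S1 : ℝ) {e0 : ℝ≥0∞}
    (hnE : ∑' i : {i // i ∉ Q ∧ ∀ c, i ≠ ct c},
      (ENNReal.ofReal (Cs ((fun K => B i.1 '' K) '' Cfg T i.1) * ‖lin (B i.1)‖) *
        ∑ e ∈ eIn T i.1, err e) ^ p * ((1 + cw i.1) * volume (Msh_715.P (T.H i.1))) ≤ e0) :
    ∑' i : {i // i ∉ Q ∧ ∀ c, i ≠ ct c},
      ENNReal.ofReal ((Cs ((fun K => B i.1 '' K) '' Cfg T i.1) *
        Nw T r hr D.a o M Zs (Ug T Qᶜ D.a r o) S1 (Fw κ' W g err) i.1 * ‖lin (B i.1)‖) ^ p) *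
        ((1 + cw i.1) * volume (Msh_715.P (T.H i.1))) ≤ KE p * (e3 + e0) := by
  have hp0 : 0 ≤ p := by linarith
  refine (H.en_nonQ hp hC herr S1 hnE).trans ?_
  have h2p : ENNReal.ofReal (1 + κ') ^ p ≤ 2 ^ p :=
    ENNReal.rpow_le_rpow (ofReal_one_add_le hκ) hp0
  have h1 : (1:ℝ≥0∞) ≤ 2 ^ p := ENNReal.one_le_rpow (by norm_num) (by linarith)
  unfold KE
  calc _ ≤ 2 ^ (p - 1) * 2 ^ (p - 1) * (2 ^ p * e3 + 2 ^ p * e0) := by
        gcongr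
        calc e0 = 1 * e0 := (one_mul _).symm
          _ ≤ _ := by gcongr
    _ = _ := by ring


/-- the tiles over the horizontal log walls -/
def HTs {Om : Set E3} (T : Tiling Om ι) (Q : Set ι) (HH : Set E3) : Set ι :=
  {i | i ∈ Q ∧ Msh_715.P (T.H i) ⊆ HH}

theorem HTs_sub {Om : Set E3} {T : Tiling Om ι} : HTs T Q HH ⊆ Q := fun _ hi => hi.1

/-- **clause `tl` of `PreN`** -/
theorem tl_of {err : Edg T → ℝ≥0∞} {er : Cel D → ℝ≥0∞} (H : MeshN p q al h s L η Φ f1 g W κ' μ κ1 κ2 κ3 Cs 𝒮0 HH R' e1 e2 e3 e4 e5 Ku D K0 r hr o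
    M Zs T Q τ J0 J V ct A lam z θ φ Mg B cw)
    (HHw : ∀ x ∈ HH, HWq Φ f1 q al h {x})
    (hp : 1 ≤ p) (hκ : κ' ≤ 1) (hC : ∀ 𝒦, 0 ≤ Cs 𝒦) (herr : ∀ e, err e ≠ ⊤)
    {S1 : ℝ} (hS1 : 0 ≤ S1) (her : ∀ (e : Edg T) (σ : Cel D), e.1 = σ.c → err e ≤ er σ)
    {e0 : ℝ≥0∞} (hYe : ∀ l, Ye D l p er ≤ e0) {sm : ℝ} (hsm : ∀ l, s l ≤ sm)
    (hnE : ∑' i : {i // i ∉ Q ∧ ∀ c, i ≠ ct c},
      (ENNReal.ofReal (Cs ((fun K => B i.1 '' K) '' Cfg T i.1) * ‖lin (B i.1)‖) *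
        ∑ e ∈ eIn T i.1, err e) ^ p * ((1 + cw i.1) * volume (Msh_715.P (T.H i.1))) ≤ e0)
    {κ : Φ.F → ℕ} {Lv : Φ.F → Finset ℝ}
    (hNN : ∀ i, NN Φ T f1 κ Lv i ≤ ∑ e ∈ eIn T i, Fw κ' W g err e)
    {𝒮 : Set (Set (Set E3))} (hS : 𝒮0 ⊆ 𝒮) {CQ : ℝ} (hCQ : ∀ 𝒦 ∈ 𝒮0, Cs 𝒦 ≤ CQ)
    {β : Type} {b : β → E3} {R1 : β → ℝ} {Sc : β → Finset ι} {cnt : ι → ℝ}
    (hcnt : ∀ i, cnt i ≤ cntA T r hr D.a o M Zs i) {V1 V2 : ℝ≥0∞}
    (hV1 : volume (⋃ i ∈ {i | i ∈ HTs T Q HH ∧ i ∈ IZ T (ShL L η) b R1 Sc},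
      Msh_715.P (T.H i)) ≤ V1)
    (hV2 : volume (⋃ i ∈ {i | i ∈ HTs T Q HH ∧ MJ T r hr D.a o M Zs (Ug T Qᶜ D.a r o) i},
      Msh_715.P (T.H i)) ≤ V2) {ε ε' e₂ KS : ℝ}
    (s1 : KA p sm S1 * volume (QL L) + KB p * e1 + KB0 p * e0 ≤ ENNReal.ofReal (KS / L))
    (s2 : KA p sm S1 * V1 + KB p * e1 + KB0 p * e0 ≤ ENNReal.ofReal ((KS * η + e₂) / L))
    (s3 : ENNReal.ofReal CQ ^ p * (KD p S1 * e2 + KB0 p * e0) + KE p * (e3 + e0) ≤
      ENNReal.ofReal ε')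
    (s4 : Ku * (KA p sm S1 * V2 + KB p * e1 + KB0 p * e0) ≤
      ENNReal.ofReal (ε * ((Zs.card : ℝ) * M ^ 2) * r ^ 3))
    (s5 : Ku * ENNReal.ofReal CQ ^ p * (KD p S1 * e2 + KB0 p * e0) + KE p * (e3 + e0) ≤
      ENNReal.ofReal (ε' * ((Zs.card : ℝ) * M ^ 2) * r ^ 3)) :
    ∃ (B : ι → E3 ≃ᵃ[ℝ] E3) (N : ι → ℝ) (HT : Set ι), (∀ i, 0 ≤ N i) ∧
    (∀ i, (∀ c, i ∉ V c) → NN Φ T f1 κ Lv i ≤ ENNReal.ofReal (N i)) ∧
    (∀ i, (∀ c, i ∉ V c) → MU T r hr D.a o M Zs (Ug T Qᶜ D.a r o) i → S1 * r ≤ N i) ∧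
    (∀ i ∈ HT, (∀ c, i ∉ V c) ∧ (∀ c, ∀ j ∈ V c, Disjoint (Msh_715.P (T.H i)) (Msh_715.P (T.H j))) ∧
      HWq Φ f1 q al h (Msh_715.P (T.H i)) ∧ (fun K => B i '' K) '' Cfg T i ∈ 𝒮) ∧
    ∑' i : {i // i ∈ HT}, ENNReal.ofReal ((N i * ‖lin (B i)‖) ^ p) * volume (Msh_715.P (T.H i)) ≤
      ENNReal.ofReal (KS / L) ∧
    ∑' i : {i // i ∈ HT ∧ i ∈ IZ T (ShL L η) b R1 Sc},
      ENNReal.ofReal ((N i * ‖lin (B i)‖) ^ p) * volume (Msh_715.P (T.H i)) ≤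
        ENNReal.ofReal ((KS * η + e₂) / L) ∧
    ∑' i : {i // (∀ c, i ∉ V c) ∧ i ∉ HT},
      ENNReal.ofReal ((Cs ((fun K => B i '' K) '' Cfg T i) * N i * ‖lin (B i)‖) ^ p) *
        volume (Msh_715.P (T.H i)) ≤ ENNReal.ofReal ε' ∧
    ∑' i : {i // i ∈ HT ∧ MJ T r hr D.a o M Zs (Ug T Qᶜ D.a r o) i},
      ENNReal.ofReal ((N i * ‖lin (B i)‖) ^ p) * ENNReal.ofReal (cnt i) ≤
        ENNReal.ofReal (ε * ((Zs.card : ℝ) * M ^ 2) * r ^ 3) ∧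
    ∑' i : {i // ((∀ c, i ∉ V c) ∧ i ∉ HT) ∧ MJ T r hr D.a o M Zs (Ug T Qᶜ D.a r o) i},
      ENNReal.ofReal ((Cs ((fun K => B i '' K) '' Cfg T i) * N i * ‖lin (B i)‖) ^ p) *
        ENNReal.ofReal (cnt i) ≤ ENNReal.ofReal (ε' * ((Zs.card : ℝ) * M ^ 2) * r ^ 3) := by
  classical
  have hr0 := H.r0
  set N : ι → ℝ := fun i => Nw T r hr D.a o M Zs (Ug T Qᶜ D.a r o) S1 (Fw κ' W g err) i with hNd
  have hN0 : ∀ i, 0 ≤ N i := fun i => by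
    simp only [hNd, Nw]
    refine add_nonneg ENNReal.toReal_nonneg ?_
    split_ifs
    · positivity
    · exact le_rfl
  have hQV : ∀ i ∈ Q, ∀ c, i ∉ V c := by
    intro i hi c hic
    rw [H.Vct c, mem_singleton_iff] at hic
    have h1 := H.dis i hi c
    rw [← hic, disjoint_self] at h1
    obtain ⟨x, hx⟩ := T.ne i
    exact (Set.bot_eq_empty ▸ h1 ▸ I_sub_P _ hx : x ∈ (∅ : Set E3))
  have hVne : ∀ i, (∀ c, i ∉ V c) → ∀ c, i ≠ ct c := by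
    intro i hi c hic
    exact hi c (by rw [H.Vct c, hic]; exact mem_singleton _)
  have hcw : ∀ i, ENNReal.ofReal (cnt i) ≤ cw i * volume (Msh_715.P (T.H i)) := fun i =>
    (ENNReal.ofReal_le_ofReal (hcnt i)).trans (H.cnt i)
  have hcwQ : ∀ i ∈ Q, ENNReal.ofReal (cnt i) ≤ Ku * volume (Msh_715.P (T.H i)) := fun i hi =>
    (hcw i).trans (mul_le_mul' (H.cwQ i hi) le_rfl)
  have hvQ : volume (⋃ i ∈ HTs T Q HH, Msh_715.P (T.H i)) ≤ volume (QL L) :=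
    measure_mono (iUnion₂_subset fun i _ => T.sub i)
  -- tiles which are not in `HT`
  set CC : ι → ℝ := fun i => Cs ((fun K => B i '' K) '' Cfg T i) with hCC
  have hsplit : {i | (∀ c, i ∉ V c) ∧ i ∉ HTs T Q HH} ⊆
      {i | i ∈ Q ∧ Msh_715.P (T.H i) ⊆ R'} ∪ {i | i ∉ Q ∧ ∀ c, i ≠ ct c} := by
    rintro i ⟨h1, h2⟩
    by_cases hi : i ∈ Q
    · left
      refine ⟨hi, ?_⟩
      rcases H.HR i hi with h3 | h3
      · exact absurd ⟨hi, h3⟩ h2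
      · exact h3
    · right
      exact ⟨hi, hVne i h1⟩
  have g3 : ∀ (v : ι → ℝ≥0∞) (K : ℝ≥0∞), (∀ i ∈ Q, v i ≤ K * volume (Msh_715.P (T.H i))) →
      (∀ i, v i ≤ (1 + cw i) * volume (Msh_715.P (T.H i))) →
      ∑' i : {i | (∀ c, i ∉ V c) ∧ i ∉ HTs T Q HH},
        ENNReal.ofReal ((CC i * N i * ‖lin (B i)‖) ^ p) * v i ≤
      K * ENNReal.ofReal CQ ^ p * (KD p S1 * e2 + KB0 p * e0) + KE p * (e3 + e0) := by
    intro v K hv1 hv2
    refine (tsum_le_add (fun i => ENNReal.ofReal ((CC i * N i * ‖lin (B i)‖) ^ p) * v i)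
      hsplit).trans (add_le_add ?_ ?_)
    · exact H.en_inside' hp hκ herr hS1 her hYe (A' := {i | i ∈ Q ∧ Msh_715.P (T.H i) ⊆ R'})
        (fun i hi => hi.1) (fun i hi => hi.2) (v := v) (K := K) (fun i hi => hv1 i hi.1)
        (c := CC) (c' := CQ) (fun i _ => hC _) (fun i hi => hCQ _ (H.shQ i hi.1))
    · refine le_trans (ENNReal.tsum_le_tsum fun i => ?_) (H.en_nonQ' hp hκ hC herr S1 hnE)
      exact mul_le_mul' le_rfl (hv2 i.1)
  refine ⟨B, N, HTs T Q HH, hN0, ?_, ?_, ?_, ?_, ?_, ?_, ?_, ?_⟩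
  · intro i _
    refine (hNN i).trans ?_
    rw [← ENNReal.ofReal_toReal (H.fin_sum herr i)]
    apply ENNReal.ofReal_le_ofReal
    simp only [hNd, Nw]
    have h1 : (0:ℝ) ≤ if MU T r hr D.a o M Zs (Ug T Qᶜ D.a r o) i then S1 * r else 0 := by
      split_ifs
      · positivity
      · exact le_rfl
    linarith
  · intro i _ hMU
    simp only [hNd, Nw]
    rw [if_pos hMU]
    have := ENNReal.toReal_nonneg (a := ∑ e ∈ eIn T i, Fw κ' W g err e)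
    linarith
  · intro i hi
    refine ⟨hQV i hi.1, fun c j hj => ?_, ?_, hS (H.shQ i hi.1)⟩
    · rw [H.Vct c, mem_singleton_iff] at hj
      rw [hj]
      exact H.dis i hi.1 c
    · obtain ⟨x, hx⟩ := T.ne i
      have hxP : x ∈ Msh_715.P (T.H i) := I_sub_P _ hx
      obtain ⟨C, O, hCO, y, hy, hyP⟩ := HHw x (hi.2 hxP)
      rw [mem_singleton_iff] at hy
      subst hy
      exact ⟨C, O, hCO, y, hxP, hyP⟩
  · refine le_trans ?_ s1
    have h1 := H.en_sharp' hp hκ herr hS1 her hYe hsm (A' := HTs T Q HH) HTs_sub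
      (v := fun i => volume (Msh_715.P (T.H i))) (K := 1) (fun i _ => by rw [one_mul])
      (c := fun _ => 1) (c' := 1) (fun _ _ => zero_le_one) (fun _ _ => le_rfl)
    simp only [one_mul, ENNReal.ofReal_one, ENNReal.one_rpow] at h1
    refine h1.trans ?_
    gcongr
  · refine le_trans ?_ s2
    have h1 := H.en_sharp' hp hκ herr hS1 her hYe hsm
      (A' := {i | i ∈ HTs T Q HH ∧ i ∈ IZ T (ShL L η) b R1 Sc}) (fun i hi => hi.1.1)
      (v := fun i => volume (Msh_715.P (T.H i))) (K := 1) (fun i _ => by rw [one_mul])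
      (c := fun _ => 1) (c' := 1) (fun _ _ => zero_le_one) (fun _ _ => le_rfl)
    simp only [one_mul, ENNReal.ofReal_one, ENNReal.one_rpow] at h1
    refine h1.trans ?_
    gcongr
  · refine le_trans ?_ s3
    have h1 := g3 (fun i => volume (Msh_715.P (T.H i))) 1 (fun i _ => by rw [one_mul])
      (fun i => by
        calc volume (Msh_715.P (T.H i)) = 1 * volume (Msh_715.P (T.H i)) := (one_mul _).symm
          _ ≤ _ := by gcongr; exact le_self_add)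
    rw [one_mul] at h1
    exact h1
  · refine le_trans ?_ s4
    have h1 := H.en_sharp' hp hκ herr hS1 her hYe hsm
      (A' := {i | i ∈ HTs T Q HH ∧ MJ T r hr D.a o M Zs (Ug T Qᶜ D.a r o) i}) (fun i hi => hi.1.1)
      (v := fun i => ENNReal.ofReal (cnt i)) (K := Ku) (fun i hi => hcwQ i hi.1.1)
      (c := fun _ => 1) (c' := 1) (fun _ _ => zero_le_one) (fun _ _ => le_rfl)
    simp only [one_mul, mul_one, ENNReal.ofReal_one, ENNReal.one_rpow] at h1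
    refine h1.trans ?_
    gcongr
  · refine le_trans ?_ s5
    refine le_trans ?_ (g3 (fun i => ENNReal.ofReal (cnt i)) Ku hcwQ (fun i => by
      refine (hcw i).trans ?_
      gcongr
      exact le_add_self))
    exact ENNReal.tsum_mono_subtype (fun i => ENNReal.ofReal ((CC i * N i * ‖lin (B i)‖) ^ p) *
      ENNReal.ofReal (cnt i)) (s := {i | ((∀ c, i ∉ V c) ∧ i ∉ HTs T Q HH) ∧
        MJ T r hr D.a o M Zs (Ug T Qᶜ D.a r o) i})
      (t := {i | (∀ c, i ∉ V c) ∧ i ∉ HTs T Q HH}) (fun i hi => hi.1)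

end MeshN

end

end Crest.Agent.R096.Np_962
end
end

-- ▼ part R096/Ps10_273
section

set_option autoImplicit false
set_option linter.unusedVariables false

open MeasureTheory Set Filter Metric
open scoped Topology ENNReal

namespace Crest.Agent.R096.Ps_273

open Crest.Agent.R096.Msh_810 Crest.Agent.R96.En3_199
  Crest.Agent.R96.En4_199 Crest.Agent.R96.En5_199 Crest.Agent.R96.En6_199
  Crest.Agent.R96.En7_199 Crest.Agent.R96.En8_199 Crest.Agent.R96.En9_199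
  Crest.Agent.R96.En11_199 Crest.Agent.R96.Sg1_199
open Crest.Agent.R096.Msh_715 hiding P I
open Crest.Agent.R096.Ls_222
open Crest.Agent.R096.No0_477 (cub fr Vw Fc)
open Crest.Agent.R096.SkC1_961 (E3)
open Crest.Agent.R096.Nsl_552 (exists_slices_block_e slice_card sqs)

noncomputable section

/-- the number of the cubes of scale `k` in terms of the number of the squares of the block -/
theorem mass_block {k L M : ℕ} {A : Finset ℤ} {r : ℝ} (hrk : r = ((2:ℝ) ^ k)⁻¹) (hL : 1 ≤ L)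
    (h : 2 / L ≤ ((A.card : ℝ) * M ^ 2) * r ^ 3) :
    ((2:ℝ≥0∞) ^ k) ^ 3 ≤ L * (A.card * (M:ℝ≥0∞) ^ 2) := by
  have hL0 : (0:ℝ) < L := by exact_mod_cast hL
  have h2 : (0:ℝ) < 2 ^ k := by positivity
  have h1 : ((2:ℝ) ^ k) ^ 3 ≤ L * (A.card * (M:ℝ) ^ 2) := by
    rw [hrk] at h
    have h3 : 2 ≤ L * (((A.card : ℝ) * M ^ 2) * (((2:ℝ) ^ k)⁻¹) ^ 3) := by
      rw [div_le_iff₀ hL0] at h
      linarith
    have h4 : (((2:ℝ) ^ k)⁻¹) ^ 3 * ((2:ℝ) ^ k) ^ 3 = 1 := by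
      rw [← mul_pow, inv_mul_cancel₀ h2.ne', one_pow]
    have h5 : (0:ℝ) < ((2:ℝ) ^ k) ^ 3 := by positivity
    calc ((2:ℝ) ^ k) ^ 3 ≤ 2 * ((2:ℝ) ^ k) ^ 3 := by linarith
      _ ≤ L * (((A.card : ℝ) * M ^ 2) * (((2:ℝ) ^ k)⁻¹) ^ 3) * ((2:ℝ) ^ k) ^ 3 := by gcongr
      _ = L * ((A.card : ℝ) * M ^ 2) * ((((2:ℝ) ^ k)⁻¹) ^ 3 * ((2:ℝ) ^ k) ^ 3) := by ring
      _ = _ := by rw [h4, mul_one]
  have h3 : ENNReal.ofReal (((2:ℝ) ^ k) ^ 3) ≤ ENNReal.ofReal (L * (A.card * (M:ℝ) ^ 2)) :=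
    ENNReal.ofReal_le_ofReal h1
  rw [ENNReal.ofReal_pow (by positivity), ENNReal.ofReal_pow (by norm_num),
    ENNReal.ofReal_mul (by positivity), ENNReal.ofReal_mul (by positivity),
    ENNReal.ofReal_pow (by positivity), ENNReal.ofReal_natCast, ENNReal.ofReal_natCast,
    ENNReal.ofReal_natCast] at h3
  simpa using h3

theorem card_sq_succ {M : ℕ} (hM : 0 < M) :
    (((Fintype.piFinset fun _ : Fin 2 => Finset.range (M + 1)).card : ℕ) : ℝ≥0∞) ≤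
      4 * (M:ℝ≥0∞) ^ 2 := by
  rw [Fintype.card_piFinset]
  simp only [Finset.card_range, Finset.prod_const, Finset.card_univ, Fintype.card_fin]
  have h1 : (M + 1) ^ 2 ≤ 4 * M ^ 2 := by nlinarith
  exact_mod_cast h1



end

end Crest.Agent.R096.Ps_273
end

-- ▼ part R096/Npw1_273
section

set_option autoImplicit false
set_option linter.unusedVariables false
set_option linter.unusedSectionVars false

open MeasureTheory Set Filter Metric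
open scoped Topology ENNReal

noncomputable section

namespace Crest.Agent.R096.Npw_273

open Crest.Agent.R096.Msh_715 hiding P I
open Crest.Agent.R096.SkC1_961 (E3 Cfg FoamD Hom3 NN)
open Crest.Agent.R096.Ls_222
open Crest.Agent.R096.Mbf_337
open Crest.Agent.R96.Pm_199 (le)
open Crest.Agent.R096.Msh_810 Crest.Agent.R96.En2_199 Crest.Agent.R96.En4_199
  Crest.Agent.R96.En9_199 Crest.Agent.R96.En11_199 Crest.Agent.R96.En3_199
open Crest.Agent.R096.Ps_273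
open Crest.Agent.R096.No0_477 (cub fr Fc vx Vw)
open Crest.Agent.R096.SkN1_477 (usq side)
open Crest.Agent.R096.No_276 (QL)
open Crest.Agent.R096.Gno_324 (Ug)
open Crest.Agent.R096.Ea_713 (lin)
open Crest.Agent.R096.Log2_582 (IsLog)
open Crest.Agent.R096.Nl_234 (HWq)
open Crest.Agent.R096.Np_962

variable {δ κ0 R c0 : ℝ} {La : Set E3} {ι : Type}

/-- a uniform square touches only tiles of `Q` -/
theorem mem_of_Ug {Om : Set E3} {T : Tiling Om ι} {Q : Set ι} {a : E3} {r : ℝ} {o : Fin 2 → ℤ}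
    {m : ℤ} {v : Fin 2 → ℕ} (h : Ug T Qᶜ a r o m v) {i : ι}
    (hi : Msh_715.P (T.H i) = cub (vx a r o m v) r) : i ∈ Q := by
  obtain ⟨x, hx⟩ := T.ne i
  have hx' := I_sub_P _ hx
  by_contra hn
  exact (h.2 x (hi ▸ hx') i hx').1 hn

theorem sum_le_of {k L M : ℕ} {Zs : Finset ℤ} {r : ℝ} (hrk : r = ((2:ℝ) ^ k)⁻¹) (hL : 1 ≤ L)
    (hN : 2 / L ≤ ((Zs.card : ℝ) * M ^ 2) * r ^ 3) {X : ℝ≥0∞} {t : ℝ} (ht : 0 ≤ t)
    (h : L * X ≤ ENNReal.ofReal t) :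
    ((2:ℝ≥0∞) ^ k) ^ 3 * X ≤ ENNReal.ofReal (t * ((Zs.card : ℝ) * M ^ 2)) := by
  have hm := mass_block hrk hL hN
  calc ((2:ℝ≥0∞) ^ k) ^ 3 * X ≤ (L * (Zs.card * (M:ℝ≥0∞) ^ 2)) * X := by gcongr
    _ = (L * X) * (Zs.card * (M:ℝ≥0∞) ^ 2) := by ring
    _ ≤ ENNReal.ofReal t * (Zs.card * (M:ℝ≥0∞) ^ 2) := by gcongr
    _ = _ := by
      rw [ENNReal.ofReal_mul ht, ENNReal.ofReal_mul (by positivity),
        ENNReal.ofReal_pow (by positivity), ENNReal.ofReal_natCast, ENNReal.ofReal_natCast]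

section main

variable {p : ℝ} {q : ℕ} {al : Fin 3 → ℝ} {h : ℝ} {s : Fin 3 → ℝ} {L : ℕ} {η : ℝ}
  {Φ : FoamD δ κ0 R c0 La} {f1 : E3 → E3} {g : Φ.F → Fin 3 → E3 → ℝ} {W : Φ.F → ℝ}
  {κ' μ κ1 κ2 κ3 : ℝ} {Cs : Set (Set E3) → ℝ} {𝒮0 : Set (Set (Set E3))} {HH R' : Set E3}
  {e1 e2 e3 e4 : ℝ≥0∞} {e5 : ℝ} {Ku : ℝ≥0∞} {D : Dat 3} {K0 : ℕ} {r : ℝ} {hr : r ≠ 0}
  {o : Fin 2 → ℤ} {M : ℕ} {Zs : Finset ℤ} {T : Tiling (QL L) ι} {Q : Set ι} {τ : ι → Top D}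
  {J0 J V : Φ.F → Set ι} {ct : Φ.F → ι} {A : Φ.F → E3 ≃ᵃ[ℝ] E3} {lam : Φ.F → ℝ} {z : Φ.F → E3}
  {θ : Φ.F → E3 → E3} {φ : Φ.F → E3 → ℝ} {Mg : Φ.F → ℕ} {B : ι → E3 ≃ᵃ[ℝ] E3} {cw : ι → ℝ≥0∞}

open Classical in
/-- **[P-W]: the clauses `wt` and `sq` of `PreN` from `MeshN`**, explicit numbers -/
theorem wtsq_of (H : MeshN p q al h s L η Φ f1 g W κ' μ κ1 κ2 κ3 Cs 𝒮0 HH R' e1 e2 e3 e4 e5 Ku D K0
      r hr o M Zs T Q τ J0 J V ct A lam z θ φ Mg B cw)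
    (hp : 1 ≤ p) (hL : 1 ≤ L) (hs : ∀ i, 0 ≤ s i) {sm : ℝ} (hsm : ∀ i, s i ≤ sm)
    {κ : Φ.F → ℕ} {Lv : Φ.F → Finset ℝ} {κp : ℝ} (hκ : 0 ≤ κp) {er : Cel D → ℝ≥0∞}
    (hF : ∀ (e : Edg T) (σ : Cel D) (l : Fin 3), σ.1.J = {l} → e.1 = σ.c →
      EN (us Φ f1) κ Lv e ≤ (1 + ENNReal.ofReal κp) *
        ic (Hw (fun c => ENNReal.ofReal (W c)) g l) D.a σ.1 + er σ)
    (hN : ∀ i, NN Φ T f1 κ Lv i ≤ ∑ e ∈ eIn T i, EN (us Φ f1) κ Lv e)
    (hHW : ∀ x ∈ HH, HWq Φ f1 q al h {x}) {e0 : ℝ≥0∞} (her : ∀ l, Ye D l p er ≤ e0)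
    (her1 : ∀ l, Ye D l 1 er ≤ e0) {ε εq ε' εR εH S : ℝ} (hε : 0 ≤ ε) (hεq : 0 ≤ εq)
    (hεR : 0 ≤ εR) (hεH : 0 ≤ εH) (hS0 : 0 ≤ S)
    (hS : M1 3 * ((1 + ENNReal.ofReal κp) * ENNReal.ofReal sm) ≤ ENNReal.ofReal S)
    (hx : 4 * (ENNReal.ofReal κp * ENNReal.ofReal sm) +
      L * ((1 + ENNReal.ofReal κp) * e1 + e0) ≤ ENNReal.ofReal ε)
    (hq : L * (KC 3 p * (2 ^ (p - 1) * ((1 + ENNReal.ofReal κp) ^ p * (3 * e1) + 3 * e0))) ≤
      ENNReal.ofReal εq)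
    (hH : L * (2 ^ (p - 1) * ((1 + ENNReal.ofReal κp) ^ p * e2 + KC 3 p * (3 * e0))) ≤
      ENNReal.ofReal εH)
    (hR : e2 ≤ ENNReal.ofReal (2 * εR / L))
    (h4 : 2 ^ (p - 1) * (S ^ p * εR + εH) ≤ ε') :
    (∃ x : Fin 2 → ℤ → (Fin 2 → ℕ) → ℝ, (∀ j m v, 0 ≤ x j m v) ∧
      (∀ m ∈ Zs, ∀ v, (∀ j, v j < M) → Ug T Qᶜ D.a r o m v → ∀ (j : Fin 2) (b : ℕ),
        b = 0 ∨ b = 1 →
        Vw Φ f1 κ Lv (side (fr (vx D.a r o m v) r hr) j b) ≤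
          ENNReal.ofReal (r * (s j.castSucc +
            x j m (fun i => v i + if i = j then 0 else b)))) ∧
      ∀ j, ∑ m ∈ Zs, ∑ v ∈ Fintype.piFinset fun _ : Fin 2 => Finset.range (M + 1), x j m v ≤
        ε * ((Zs.card : ℝ) * M ^ 2)) ∧
    ∃ Xq : ℤ → (Fin 2 → ℕ) → ℝ, (∀ m v, 0 ≤ Xq m v) ∧
      (∀ m ∈ Zs, ∀ v, (∀ j, v j < M) → Ug T Qᶜ D.a r o m v → ∀ i,
        Msh_715.P (T.H i) = cub (vx D.a r o m v) r →
        NN Φ T f1 κ Lv i ≤ ENNReal.ofReal (r * (S + Xq m v))) ∧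
      (∀ D' : Finset (ℤ × (Fin 2 → ℕ)), D' ⊆ Fc M Zs →
        (∀ k ∈ D', Ug T Qᶜ D.a r o k.1 k.2 ∧ HWq Φ f1 q al h (cub (vx D.a r o k.1 k.2) r)) →
        ∑ k ∈ D', Xq k.1 k.2 ^ p ≤ εq * ((Zs.card : ℝ) * M ^ 2)) ∧
      (∀ D' : Finset (ℤ × (Fin 2 → ℕ)), D' ⊆ Fc M Zs →
        (∀ k ∈ D', Ug T Qᶜ D.a r o k.1 k.2 ∧ ¬ HWq Φ f1 q al h (cub (vx D.a r o k.1 k.2) r)) →
        ∑ k ∈ D', (S + Xq k.1 k.2) ^ p ≤ ε' * ((Zs.card : ℝ) * M ^ 2)) := by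
  have hr0 : 0 < r := by rw [H.rK]; positivity
  have hL0 : (0:ℝ) < L := by exact_mod_cast hL
  have hgeo := Gno_324.nogeo_of T Qᶜ hr0 hr D.a o H.M0 H.lo H.hi H.zne H.zs
  have hZ0 : (0:ℝ) ≤ (Zs.card : ℝ) * M ^ 2 := by positivity
  have hsm' : ∀ l, ENNReal.ofReal (s l) ≤ ENNReal.ofReal sm := fun l =>
    ENNReal.ofReal_le_ofReal (hsm l)
  have hS3 : ∑ l : Fin 3, Ed D l p (Xs (fun c => ENNReal.ofReal (W c)) g
      (fun l => ENNReal.ofReal (s l)) l) ≤ 3 * e1 := by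
    calc _ ≤ ∑ _l : Fin 3, e1 := Finset.sum_le_sum fun l _ => H.ed l
      _ = _ := by simp
  have hY3 : ∑ l : Fin 3, Ye D l p er ≤ 3 * e0 := by
    calc _ ≤ ∑ _l : Fin 3, e0 := Finset.sum_le_sum fun l _ => her l
      _ = _ := by simp
  constructor
  · refine wt_clause (A := Zs) (Zs := Zs) hr H.rK H.blk Finset.Subset.rfl hs
      (κp := ENNReal.ofReal κp) (er := er) hF
      (U := fun m v => Ug T Qᶜ D.a r o m v) (fun m hm v hv hU j b hb =>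
        hgeo.edge m hm v hv hU j b hb) (N0 := ε * ((Zs.card : ℝ) * M ^ 2)) (by positivity) ?_
    intro j
    refine (sum_xE _ er j Zs _).trans ?_
    have hc := card_sq_succ H.M0
    have hm := mass_block H.rK hL H.N1
    calc _ ≤ (Zs.card * (4 * (M:ℝ≥0∞) ^ 2)) * (ENNReal.ofReal κp * ENNReal.ofReal sm) +
        (L * (Zs.card * (M:ℝ≥0∞) ^ 2)) * ((1 + ENNReal.ofReal κp) * e1 + e0) := by
          gcongr
          · exact hsm _
          · exact H.ed1 _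
          · exact her1 _
      _ = (4 * (ENNReal.ofReal κp * ENNReal.ofReal sm) +
        L * ((1 + ENNReal.ofReal κp) * e1 + e0)) * (Zs.card * (M:ℝ≥0∞) ^ 2) := by ring
      _ ≤ ENNReal.ofReal ε * (Zs.card * (M:ℝ≥0∞) ^ 2) := by gcongr
      _ = _ := by
        rw [ENNReal.ofReal_mul hε, ENNReal.ofReal_mul (by positivity),
          ENNReal.ofReal_pow (by positivity), ENNReal.ofReal_natCast, ENNReal.ofReal_natCast]
  · refine sq_clause hp H.base H.rK H.blk Finset.Subset.rfl (s := fun l => ENNReal.ofReal (s l))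
      (sm := ENNReal.ofReal sm) hsm' (c := 1 + ENNReal.ofReal κp) (er := er) hS0 hS hF hN
      (U := fun m v => Ug T Qᶜ D.a r o m v) (fun m _ v _ hU i hi => mem_of_Ug hU hi) (Rx := R')
      (fun x hx hxR => hHW x ((H.cov hx).resolve_right hxR)) (fun m _ v _ hU => hU.1)
      (N1 := εq * ((Zs.card : ℝ) * M ^ 2)) (N2 := εH * ((Zs.card : ℝ) * M ^ 2))
      (N3 := εR * ((Zs.card : ℝ) * M ^ 2)) (N4 := ε' * ((Zs.card : ℝ) * M ^ 2)) (by positivity)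
      (by positivity) (by positivity) ?_ ?_ ?_ ?_
    · refine (sum_qE hp _ er Zs _).trans ?_
      refine sum_le_of H.rK hL H.N1 hεq (le_trans ?_ hq)
      gcongr
    · have h1 := sum_qH (D := D) (k := K0) (o := o) (w := fun c => ENNReal.ofReal (W c)) (g := g) hp
        (1 + ENNReal.ofReal κp) er R' Zs (Fintype.piFinset fun _ : Fin 2 => Finset.range M)
      rw [← H.rK] at h1
      refine h1.trans (sum_le_of H.rK hL H.N1 hεH (le_trans ?_ hH))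
      gcongr
      exact H.sR
    · exact Gno_324.count_real D.a hr0 o _ R' (fun k hk => (Finset.mem_filter.1 hk).2) hL H.N1 hεR
        (H.vR.trans hR)
    · calc 2 ^ (p - 1) * (S ^ p * (εR * ((Zs.card : ℝ) * M ^ 2)) +
          εH * ((Zs.card : ℝ) * M ^ 2)) =
          (2 ^ (p - 1) * (S ^ p * εR + εH)) * ((Zs.card : ℝ) * M ^ 2) := by ring
        _ ≤ _ := mul_le_mul_of_nonneg_right h4 hZ0

end main

theorem exists_five {a1 a2 a3 a4 a5 A1 A2 A3 A4 A5 : ℝ} (h1 : 0 < a1) (h2 : 0 < a2) (h3 : 0 < a3)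
    (h4 : 0 < a4) (h5 : 0 < a5) (g1 : 0 ≤ A1) (g2 : 0 ≤ A2) (g3 : 0 ≤ A3) (g4 : 0 ≤ A4)
    (g5 : 0 ≤ A5) : ∃ t : ℝ, 0 < t ∧ t ≤ 1 ∧ t * A1 ≤ a1 ∧ t * A2 ≤ a2 ∧ t * A3 ≤ a3 ∧
      t * A4 ≤ a4 ∧ t * A5 ≤ a5 := by
  have key : ∀ {t a A : ℝ}, 0 < t → 0 ≤ A → 0 < a → t ≤ a / (A + 1) → t * A ≤ a := by
    intro t a A ht hA ha h
    rw [le_div_iff₀ (by linarith)] at h
    nlinarith
  refine ⟨min 1 (min (a1 / (A1 + 1)) (min (a2 / (A2 + 1)) (min (a3 / (A3 + 1))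
    (min (a4 / (A4 + 1)) (a5 / (A5 + 1)))))), ?_, min_le_left _ _, ?_, ?_, ?_, ?_, ?_⟩
  · refine lt_min one_pos (lt_min (by positivity) (lt_min (by positivity) (lt_min (by positivity)
      (lt_min (by positivity) (by positivity)))))
  all_goals
    refine key (lt_min one_pos (lt_min (by positivity) (lt_min (by positivity)
      (lt_min (by positivity) (lt_min (by positivity) (by positivity)))))) (by assumption)
      (by assumption) ?_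
  · exact (min_le_right _ _).trans (min_le_left _ _)
  · exact (min_le_right _ _).trans ((min_le_right _ _).trans (min_le_left _ _))
  · exact (min_le_right _ _).trans ((min_le_right _ _).trans ((min_le_right _ _).trans
      (min_le_left _ _)))
  · exact (min_le_right _ _).trans ((min_le_right _ _).trans ((min_le_right _ _).trans
      ((min_le_right _ _).trans (min_le_left _ _))))
  · exact (min_le_right _ _).trans ((min_le_right _ _).trans ((min_le_right _ _).trans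
      ((min_le_right _ _).trans (min_le_right _ _))))


end Crest.Agent.R096.Npw_273
end
end

-- ▼ part R096/Npw2_273
section

set_option autoImplicit false
set_option linter.unusedVariables false
set_option linter.unusedSectionVars false

open MeasureTheory Set Filter Metric
open scoped Topology ENNReal

noncomputable section

namespace Crest.Agent.R096.Npw_273

open Crest.Agent.R096.Msh_715 hiding P I
open Crest.Agent.R096.SkC1_961 (E3 Cfg FoamD Hom3 NN)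
open Crest.Agent.R096.Ls_222
open Crest.Agent.R096.Mbf_337
open Crest.Agent.R96.Pm_199 (le)
open Crest.Agent.R096.Msh_810 Crest.Agent.R96.En2_199 Crest.Agent.R96.En4_199
  Crest.Agent.R96.En9_199 Crest.Agent.R96.En11_199 Crest.Agent.R96.En3_199
open Crest.Agent.R096.Ps_273
open Crest.Agent.R096.No0_477 (cub fr Fc vx Vw)
open Crest.Agent.R096.SkN1_477 (usq side)
open Crest.Agent.R096.No_276 (QL)
open Crest.Agent.R096.Gno_324 (Ug)
open Crest.Agent.R096.Ea_713 (lin)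
open Crest.Agent.R096.Log2_582 (IsLog)
open Crest.Agent.R096.Nl_234 (HWq)
open Crest.Agent.R096.Np_962

open Classical in
/-- **[P-W], two tolerances**: `e1 ≤ t1`, then `ε'`, then `e2, e0, κ' ≤ t2` -/
theorem exists_wtsq2 {p : ℝ} (hp : 1 ≤ p) {L : ℕ} (hL : 1 ≤ L) {sm S : ℝ} (hsm0 : 0 ≤ sm)
    (hS : (M1 3 : ℝ) * (2 * sm) ≤ S) {ε : ℝ} (hε : 0 < ε) :
    ∃ t1 : ℝ, 0 < t1 ∧ t1 ≤ 1 ∧ ∀ ε' : ℝ, 0 < ε' → ∃ t2 : ℝ, 0 < t2 ∧ t2 ≤ t1 ∧ ∀ {δ κ0 R c0 : ℝ} {La : Set E3} {ι : Type}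
    {q : ℕ} {al : Fin 3 → ℝ} {h : ℝ} {s : Fin 3 → ℝ} {η : ℝ}
    {Φ : FoamD δ κ0 R c0 La} {f1 : E3 → E3} {g : Φ.F → Fin 3 → E3 → ℝ} {W : Φ.F → ℝ}
    {κ' μ κ1 κ2 κ3 : ℝ} {Cs : Set (Set E3) → ℝ} {𝒮0 : Set (Set (Set E3))} {HH R' : Set E3}
    {e1 e2 e3 e4 : ℝ≥0∞} {e5 : ℝ} {Ku : ℝ≥0∞} {D : Dat 3} {K0 : ℕ} {r : ℝ} {hr : r ≠ 0}
    {o : Fin 2 → ℤ} {M : ℕ} {Zs : Finset ℤ} {T : Tiling (QL L) ι} {Q : Set ι} {τ : ι → Top D}
    {J0 J V : Φ.F → Set ι} {ct : Φ.F → ι} {A : Φ.F → E3 ≃ᵃ[ℝ] E3} {lam : Φ.F → ℝ} {z : Φ.F → E3}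
    {θ : Φ.F → E3 → E3} {φ : Φ.F → E3 → ℝ} {Mg : Φ.F → ℕ} {B : ι → E3 ≃ᵃ[ℝ] E3}
    {cw : ι → ℝ≥0∞},
    MeshN p q al h s L η Φ f1 g W κ' μ κ1 κ2 κ3 Cs 𝒮0 HH R' e1 e2 e3 e4 e5 Ku D K0
      r hr o M Zs T Q τ J0 J V ct A lam z θ φ Mg B cw →
    (∀ i, 0 ≤ s i) → (∀ i, s i ≤ sm) → 0 ≤ κ' → κ' ≤ t2 → e1 ≤ ENNReal.ofReal t1 →
    e2 ≤ ENNReal.ofReal t2 → (∀ x ∈ HH, HWq Φ f1 q al h {x}) →
    ∀ {κ : Φ.F → ℕ} {Lv : Φ.F → Finset ℝ} {err : Edg T → ℝ≥0∞} {er : Cel D → ℝ≥0∞},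
    (∀ e, EN (us Φ f1) κ Lv e ≤ ENNReal.ofReal (1 + κ') *
      le (GV (fun c => ENNReal.ofReal (W c)) g) e + err e) →
    (∀ i, NN Φ T f1 κ Lv i ≤ ∑ e ∈ eIn T i, EN (us Φ f1) κ Lv e) →
    (∀ (e : Edg T) (σ : Cel D), e.1 = σ.c → err e ≤ er σ) →
    (∀ l, Ye D l p er ≤ ENNReal.ofReal t2) → (∀ l, Ye D l 1 er ≤ ENNReal.ofReal t2) →
    (∃ x : Fin 2 → ℤ → (Fin 2 → ℕ) → ℝ, (∀ j m v, 0 ≤ x j m v) ∧
      (∀ m ∈ Zs, ∀ v, (∀ j, v j < M) → Ug T Qᶜ D.a r o m v → ∀ (j : Fin 2) (b : ℕ),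
        b = 0 ∨ b = 1 →
        Vw Φ f1 κ Lv (side (fr (vx D.a r o m v) r hr) j b) ≤
          ENNReal.ofReal (r * (s j.castSucc +
            x j m (fun i => v i + if i = j then 0 else b)))) ∧
      ∀ j, ∑ m ∈ Zs, ∑ v ∈ Fintype.piFinset fun _ : Fin 2 => Finset.range (M + 1), x j m v ≤
        ε * ((Zs.card : ℝ) * M ^ 2)) ∧
    ∃ Xq : ℤ → (Fin 2 → ℕ) → ℝ, (∀ m v, 0 ≤ Xq m v) ∧
      (∀ m ∈ Zs, ∀ v, (∀ j, v j < M) → Ug T Qᶜ D.a r o m v → ∀ i,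
        Msh_715.P (T.H i) = cub (vx D.a r o m v) r →
        NN Φ T f1 κ Lv i ≤ ENNReal.ofReal (r * (S + Xq m v))) ∧
      (∀ D' : Finset (ℤ × (Fin 2 → ℕ)), D' ⊆ Fc M Zs →
        (∀ k ∈ D', Ug T Qᶜ D.a r o k.1 k.2 ∧ HWq Φ f1 q al h (cub (vx D.a r o k.1 k.2) r)) →
        ∑ k ∈ D', Xq k.1 k.2 ^ p ≤ ε * ((Zs.card : ℝ) * M ^ 2)) ∧
      (∀ D' : Finset (ℤ × (Fin 2 → ℕ)), D' ⊆ Fc M Zs →
        (∀ k ∈ D', Ug T Qᶜ D.a r o k.1 k.2 ∧ ¬ HWq Φ f1 q al h (cub (vx D.a r o k.1 k.2) r)) →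
        ∑ k ∈ D', (S + Xq k.1 k.2) ^ p ≤ ε' * ((Zs.card : ℝ) * M ^ 2)) := by
  have hL0 : (0:ℝ) < L := by exact_mod_cast hL
  have hM1 : (0:ℝ) ≤ M1 3 := Nat.cast_nonneg _
  have hS0 : 0 ≤ S := le_trans (by positivity) hS
  set K : ℝ := (KC 3 p).toReal with hK
  have hK0 : 0 ≤ K := ENNReal.toReal_nonneg
  have hKC : KC 3 p = ENNReal.ofReal K := (ENNReal.ofReal_toReal (KC_ne_top hp)).symm
  have hSp : 0 ≤ S ^ p := Real.rpow_nonneg hS0 p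
  have h2p : (0:ℝ) < 2 ^ p := by positivity
  have h2q : (0:ℝ) < 2 ^ (p - 1) := by positivity
  obtain ⟨t, ht, ht1, t1, t2, -, -, -⟩ := exists_five (a1 := ε) (a2 := ε) (a3 := 1)
    (a4 := 1) (a5 := 1) hε hε one_pos one_pos one_pos
    (A1 := 4 * sm + 3 * L) (A2 := L * (K * (2 ^ (p - 1) * (2 ^ p * 3 + 3))))
    (A3 := 1) (A4 := 1) (A5 := 1) (by positivity)
    (by positivity) zero_le_one zero_le_one zero_le_one
  refine ⟨t, ht, ht1, fun ε' hε' => ?_⟩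
  set εR : ℝ := ε' / (2 * 2 ^ (p - 1) * (S ^ p + 1)) with hεR
  set εH : ℝ := ε' / (2 * 2 ^ (p - 1)) with hεH
  have hεR0 : 0 < εR := by rw [hεR]; positivity
  have hεH0 : 0 < εH := by rw [hεH]; positivity
  have h4 : 2 ^ (p - 1) * (S ^ p * εR + εH) ≤ ε' := by
    have e1 : 2 ^ (p - 1) * εH = ε' / 2 := by
      rw [hεH]; field_simp
    have e2 : 2 ^ (p - 1) * (S ^ p * εR) ≤ ε' / 2 := by
      rw [hεR]
      have e3 : 2 ^ (p - 1) * (S ^ p * (ε' / (2 * 2 ^ (p - 1) * (S ^ p + 1)))) =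
          (ε' / 2) * (S ^ p / (S ^ p + 1)) := by
        field_simp
      rw [e3]
      have e4 : S ^ p / (S ^ p + 1) ≤ 1 := by
        rw [div_le_one (by positivity)]; linarith
      nlinarith
    rw [mul_add]; linarith
  obtain ⟨u, hu, hu1, -, t3, t4, t5, -⟩ := exists_five (a1 := 1) (a2 := εH)
    (a3 := 2 * εR / L) (a4 := t) (a5 := 1) one_pos hεH0 (by positivity) ht one_pos
    (A1 := 1)
    (A2 := L * (2 ^ (p - 1) * (2 ^ p + K * 3))) (A3 := 1) (A4 := 1) (A5 := 1) zero_le_one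
    (by positivity) zero_le_one zero_le_one zero_le_one
  have hut : u ≤ t := by linarith
  refine ⟨u, hu, hut, ?_⟩
  intro δ κ0 R c0 La ι q al h s η Φ f1 g W κp μ κ1 κ2 κ3 Cs 𝒮0 HH R' e1 e2 e3 e4 e5 Ku D K0 r hr o M
    Zs T Q τ J0 J V ct A lam z θ φ Mg B cw H hs hsm hκ hκu he1 he2 hHW κ Lv err er hEN hN herr her her1
  have hκt : κp ≤ t := hκu.trans hut
  have hutE : ENNReal.ofReal u ≤ ENNReal.ofReal t := ENNReal.ofReal_le_ofReal hut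
  have hcΦ : Countable Φ.F := countable_F Φ
  have h1e : ENNReal.ofReal (1 + κp) = 1 + ENNReal.ofReal κp := by
    rw [ENNReal.ofReal_add zero_le_one hκ, ENNReal.ofReal_one]
  have hF : ∀ (e : Edg T) (σ : Cel D) (l : Fin 3), σ.1.J = {l} → e.1 = σ.c →
      EN (us Φ f1) κ Lv e ≤ (1 + ENNReal.ofReal κp) *
        ic (Hw (fun c => ENNReal.ofReal (W c)) g l) D.a σ.1 + er σ := by
    intro e σ l hσ he
    refine (hEN e).trans ?_
    rw [← h1e]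
    exact hF_of H.gm herr e σ l hσ he
  have h1κ : 1 + ENNReal.ofReal κp ≤ 2 := by
    have h := ENNReal.ofReal_le_ofReal (hκt.trans ht1)
    rw [ENNReal.ofReal_one] at h
    calc 1 + ENNReal.ofReal κp ≤ 1 + 1 := by gcongr
      _ = 2 := by norm_num
  have h1κp : (1 + ENNReal.ofReal κp) ^ p ≤ ENNReal.ofReal (2 ^ p) := by
    rw [← ENNReal.ofReal_rpow_of_pos (by norm_num)]
    refine (ENNReal.rpow_le_rpow h1κ (by linarith)).trans (le_of_eq ?_)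
    norm_num
  have h2q' : (2:ℝ≥0∞) ^ (p - 1) = ENNReal.ofReal (2 ^ (p - 1)) := by
    rw [← ENNReal.ofReal_rpow_of_pos (by norm_num)]
    norm_num
  have e3' : (3:ℝ≥0∞) = ENNReal.ofReal 3 := by norm_num
  have e2' : (2:ℝ≥0∞) = ENNReal.ofReal 2 := by norm_num
  have e4' : (4:ℝ≥0∞) = ENNReal.ofReal 4 := by norm_num
  have eL : (L:ℝ≥0∞) = ENNReal.ofReal L := (ENNReal.ofReal_natCast L).symm
  refine wtsq_of H hp hL hs hsm (κp := κp) hκ hF hN hHW (e0 := ENNReal.ofReal u) her her1 hε.le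
    hε.le hεR0.le hεH0.le hS0 ?_ ?_ ?_ ?_ ?_ h4
  · calc (M1 3 : ℝ≥0∞) * ((1 + ENNReal.ofReal κp) * ENNReal.ofReal sm) ≤
        M1 3 * (2 * ENNReal.ofReal sm) := by gcongr
      _ = ENNReal.ofReal ((M1 3 : ℝ) * (2 * sm)) := by
        rw [ENNReal.ofReal_mul hM1, ENNReal.ofReal_mul (by norm_num), ENNReal.ofReal_natCast, ← e2']
      _ ≤ _ := ENNReal.ofReal_le_ofReal hS
  · calc 4 * (ENNReal.ofReal κp * ENNReal.ofReal sm) +
        L * ((1 + ENNReal.ofReal κp) * e1 + ENNReal.ofReal u) ≤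
        ENNReal.ofReal 4 * (ENNReal.ofReal t * ENNReal.ofReal sm) +
          ENNReal.ofReal L * (ENNReal.ofReal 2 * ENNReal.ofReal t + ENNReal.ofReal t) := by
          rw [← e4', ← eL, ← e2']
          gcongr
      _ = ENNReal.ofReal (t * (4 * sm + 3 * L)) := by
        rw [← ENNReal.ofReal_mul ht.le, ← ENNReal.ofReal_mul (by norm_num),
          ← ENNReal.ofReal_mul (by norm_num), ← ENNReal.ofReal_add (by positivity) ht.le,
          ← ENNReal.ofReal_mul hL0.le, ← ENNReal.ofReal_add (by positivity) (by positivity)]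
        congr 1; ring
      _ ≤ _ := ENNReal.ofReal_le_ofReal t1
  · calc L * (KC 3 p * (2 ^ (p - 1) * ((1 + ENNReal.ofReal κp) ^ p * (3 * e1) +
        3 * ENNReal.ofReal u))) ≤
        ENNReal.ofReal L * (ENNReal.ofReal K * (ENNReal.ofReal (2 ^ (p - 1)) *
          (ENNReal.ofReal (2 ^ p) * (ENNReal.ofReal 3 * ENNReal.ofReal t) +
            ENNReal.ofReal 3 * ENNReal.ofReal t))) := by
          rw [← eL, ← hKC, ← h2q', ← e3']
          gcongr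
      _ = ENNReal.ofReal (t * (L * (K * (2 ^ (p - 1) * (2 ^ p * 3 + 3))))) := by
        rw [← ENNReal.ofReal_mul (by norm_num), ← ENNReal.ofReal_mul h2p.le,
          ← ENNReal.ofReal_add (by positivity) (by positivity), ← ENNReal.ofReal_mul h2q.le,
          ← ENNReal.ofReal_mul hK0, ← ENNReal.ofReal_mul hL0.le]
        congr 1; ring
      _ ≤ _ := ENNReal.ofReal_le_ofReal t2
  · calc L * (2 ^ (p - 1) * ((1 + ENNReal.ofReal κp) ^ p * e2 +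
        KC 3 p * (3 * ENNReal.ofReal u))) ≤
        ENNReal.ofReal L * (ENNReal.ofReal (2 ^ (p - 1)) *
          (ENNReal.ofReal (2 ^ p) * ENNReal.ofReal u +
            ENNReal.ofReal K * (ENNReal.ofReal 3 * ENNReal.ofReal u))) := by
          rw [← eL, ← hKC, ← h2q', ← e3']
          gcongr
      _ = ENNReal.ofReal (u * (L * (2 ^ (p - 1) * (2 ^ p + K * 3)))) := by
        rw [← ENNReal.ofReal_mul h2p.le, ← ENNReal.ofReal_mul (by norm_num),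
          ← ENNReal.ofReal_mul hK0,
          ← ENNReal.ofReal_add (by positivity) (by positivity), ← ENNReal.ofReal_mul h2q.le,
          ← ENNReal.ofReal_mul hL0.le]
        congr 1; ring
      _ ≤ _ := ENNReal.ofReal_le_ofReal t3
  · refine he2.trans (ENNReal.ofReal_le_ofReal ?_)
    linarith

end Crest.Agent.R096.Npw_273
end
end

-- ▼ part R096/Cnt1_197
section

/-!
Row 96 (S0127), leaf [C] COUNT of helper962 #10270: a compact convex set which contains a cube of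
side `r` meets few cubes of side `r` of any grid of mesh `r`.
-/

set_option autoImplicit false
set_option linter.style.longLine false

open MeasureTheory Set Filter Topology Metric
open scoped ENNReal Pointwise

namespace Crest.Agent.R096.Cnt1_197

abbrev E3 : Type := Fin 3 → ℝ

/-- the closed cube of the grid -/
def Qc (a : E3) (r : ℝ) (m : Fin 3 → ℤ) : Set E3 :=
  {x | ∀ i, a i + r * m i ≤ x i ∧ x i ≤ a i + r * (m i + 1)}










/-! ### other index types: sets contained in different cubes of the grid -/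

section Idx

variable {Q : Type*} {A : Q → Set E3} {φ : Q → Fin 3 → ℤ}





end Idx

end Crest.Agent.R096.Cnt1_197
end

-- ▼ part R096/Cnt2_197
section

/-!
Row 96 (S0127), leaf [C] COUNT of helper962 #10270: the squares and cubes of `No0_477` which meet a
convex tile containing a cube of the same side; sums of maxima over the tiles.
-/

set_option autoImplicit false
set_option linter.style.longLine false
set_option maxHeartbeats 40000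

open MeasureTheory Set Filter Topology Metric
open scoped ENNReal

namespace Crest.Agent.R096.Cnt2_197

open Crest.Agent.R096.SkN1_477 Crest.Agent.R096.No0_477 Crest.Agent.R096.Cnt1_197

/-- index of the cube above the square `(m, v)` -/
def ix (o : Fin 2 → ℤ) (q : ℤ × (Fin 2 → ℕ)) : Fin 3 → ℤ :=
  ![o 0 + q.2 0, o 1 + q.2 1, q.1]



theorem usq_sub_cub (w : E3) {r : ℝ} (hr : 0 < r) :
    usq (fr w r hr.ne') ⊆ cub w r := by
  rintro x ⟨y, hy, hyx⟩ i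
  rw [fr_apply] at hyx
  have h1 : x = w + r • emb y := by
    rw [hyx, smul_smul, mul_inv_cancel₀ hr.ne', one_smul]
    abel
  rw [h1]
  have h2 : 0 ≤ emb y i ∧ emb y i ≤ 1 := by
    fin_cases i
    · exact hy 0
    · exact hy 1
    · simp [emb]
  simp only [Pi.add_apply, Pi.smul_apply, smul_eq_mul]
  constructor
  · nlinarith [h2.1]
  · nlinarith [h2.2]


section Gen

variable {P : Set E3} (hc : Convex ℝ P) (hb : IsCompact P) {r : ℝ} (hr : 0 < r)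
  {z : E3} (hz : ∀ x : E3, (∀ i, |x i - z i| ≤ r / 2) → x ∈ P) (a : E3) (o : Fin 2 → ℤ)
  (A : ℤ × (Fin 2 → ℕ) → Set E3) (hA : ∀ q, A q ⊆ Qc a r (ix o q))

include hc hb hr hz hA



end Gen








end Crest.Agent.R096.Cnt2_197
end

-- ▼ part R096/Npv1_57
section

/-!
Row 96 (S0127), helper57, node NO0-PRE3, leaf **[P-V]** of 962 #11402: the volume of base tiles which
meet the shell / the junk squares.
-/

set_option autoImplicit false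
open Set Filter Topology MeasureTheory Metric
open scoped NNReal ENNReal

noncomputable section

namespace Crest.Agent.R096.Npv_57

open Crest.Agent.R096.Msh_715 hiding P I
open Crest.Agent.R096.SkC1_961 (E3)
open Crest.Agent.R096.Msh_810
open Crest.Agent.R096.Ps_273
open Crest.Agent.R096.No0_477 (cub fr Fc vx)
open Crest.Agent.R096.SkN1_477 (usq)
open Crest.Agent.R096.No_276 (QL ShL IZ MJ)

section Gen
variable {Om : Set E3} {ι : Type} {T : Tiling Om ι}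

/-- the tiles of `A` meet the junk squares and have sup-diameter `≤ r`: volume of the union -/
theorem junk_vol {r : ℝ} (hr : 0 < r) {a : E3} {o : Fin 2 → ℤ} {M : ℕ} {Zs : Finset ℤ}
    {U : ℤ → (Fin 2 → ℕ) → Prop} {A : Set ι}
    (hT : ∀ i ∈ A, ∀ x ∈ Msh_715.P (T.H i), ∀ y ∈ Msh_715.P (T.H i), ‖x - y‖ ≤ r)
    (hm : ∀ i ∈ A, MJ T r hr.ne' a o M Zs U i) :
    volume (⋃ i ∈ A, Msh_715.P (T.H i)) ≤
      ENNReal.ofReal (27 * r ^ 3 *
        (({k : ℤ × (Fin 2 → ℕ) | k ∈ Fc M Zs ∧ ¬ U k.1 k.2}.ncard : ℕ) : ℝ)) := by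
  classical
  set J : Set (ℤ × (Fin 2 → ℕ)) := {k | k ∈ Fc M Zs ∧ ¬ U k.1 k.2} with hJ
  have hfin : J.Finite := (Fc M Zs).finite_toSet.subset fun k hk => hk.1
  set B : ℤ × (Fin 2 → ℕ) → Set E3 := fun k =>
    Icc (fun i => vx a r o k.1 k.2 i - r) (fun i => vx a r o k.1 k.2 i + 2 * r) with hB
  have hvol : ∀ k, volume (B k) = ENNReal.ofReal (27 * r ^ 3) := by
    intro k
    rw [hB]
    simp only
    rw [Real.volume_Icc_pi, Fin.prod_univ_three]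
    have e : ∀ i : Fin 3, vx a r o k.1 k.2 i + 2 * r - (vx a r o k.1 k.2 i - r) = 3 * r := by
      intro i; ring
    rw [e, e, e, ← ENNReal.ofReal_mul (by positivity), ← ENNReal.ofReal_mul (by positivity)]
    congr 1; ring
  have hsub : (⋃ i ∈ A, Msh_715.P (T.H i)) ⊆ ⋃ k ∈ hfin.toFinset, B k := by
    intro x hx
    simp only [mem_iUnion, exists_prop] at hx ⊢
    obtain ⟨i, hi, hxi⟩ := hx
    obtain ⟨k, hk, hkU, y, hy1, hy2⟩ := hm i hi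
    refine ⟨k, hfin.mem_toFinset.2 ⟨hk, hkU⟩, ?_⟩
    have hy3 := Cnt2_197.usq_sub_cub (vx a r o k.1 k.2) hr hy2
    have hxy := hT i hi x hxi y hy1
    have hco : ∀ j, |x j - y j| ≤ r := fun j => (norm_le_pi_norm (x - y) j).trans hxy
    constructor
    · intro j
      have h1 := abs_le.1 (hco j)
      have h2 := hy3 j
      show vx a r o k.1 k.2 j - r ≤ x j
      linarith [h1.1, h2.1]
    · intro j
      have h1 := abs_le.1 (hco j)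
      have h2 := hy3 j
      show x j ≤ vx a r o k.1 k.2 j + 2 * r
      linarith [h1.2, h2.2]
  refine (measure_mono hsub).trans ((measure_biUnion_finset_le _ _).trans ?_)
  simp only [hvol]
  rw [Finset.sum_const, nsmul_eq_mul, ncard_eq_toFinset_card J hfin,
    ENNReal.ofReal_mul (p := 27 * r ^ 3) (by positivity), ENNReal.ofReal_natCast, mul_comm]

/-- the tiles of `A` meet the shell and have sup-diameter `≤ t`: volume of the union -/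
theorem shell_vol_on {L : ℕ} (hL : 1 ≤ L) {η t : ℝ} (hη : 0 ≤ η) (ht : 0 ≤ t) {ι : Type}
    {T : Tiling (QL L) ι} {A : Set ι}
    (hT : ∀ i ∈ A, ∀ x ∈ Msh_715.P (T.H i), ∀ y ∈ Msh_715.P (T.H i), ‖x - y‖ ≤ t)
    (hS : ∀ i ∈ A, (Msh_715.P (T.H i) ∩ ShL L η).Nonempty) :
    volume (⋃ i ∈ A, Msh_715.P (T.H i)) ≤ ENNReal.ofReal ((48 * η + 24 * L * t) / L) := by
  have hL0 : (0:ℝ) < L := by exact_mod_cast hL
  have hL1 : (1:ℝ) ≤ L := by exact_mod_cast hL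
  have hu : 0 ≤ 2 * η + L * t := by positivity
  refine (measure_mono ?_).trans ((Shv_273.vol_Sv hL0 hu).trans
    (ENNReal.ofReal_le_ofReal (le_of_eq ?_)))
  swap
  · ring
  intro x hx
  simp only [mem_iUnion, exists_prop] at hx
  obtain ⟨i, hi, hxi⟩ := hx
  obtain ⟨y, hyi, hyQ, hy2⟩ := hS i hi
  have hxy : ‖x - y‖ ≤ t := hT i hi x hxi y hyi
  have hco : ∀ j, |x j - y j| ≤ t := fun j => (norm_le_pi_norm (x - y) j).trans hxy
  have hab : ∀ j, |y j| - t ≤ |x j| := by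
    intro j
    have h1 : |y j| ≤ |x j| + |x j - y j| := by
      have h2 : y j = x j - (x j - y j) := by ring
      calc |y j| = |x j - (x j - y j)| := by rw [← h2]
        _ ≤ _ := abs_sub _ _
    linarith [hco j]
  refine ⟨T.sub i hxi, ?_⟩
  have hLt : t ≤ L * t := by nlinarith
  simp only [mem_ofPred_eq] at hy2
  rcases hy2 with h | h | h
  · left
    linarith [hab 0]
  · right; left
    linarith [hab 1]
  · right; right
    rw [abs_mul, abs_of_pos hL0] at h ⊢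
    have h3 := mul_le_mul_of_nonneg_left (hab 2) hL0.le
    nlinarith

end Gen

section Base
variable {Om : Set E3} {ι : Type} {T : Tiling Om ι} {D : Dat 3} {Q : Set ι} {τ : ι → Top D}
  {K0 : ℕ} {r : ℝ}

/-- base tiles of scale `≥ K0` have sup-diameter at most `2 ^ -K0` -/
theorem diam_Q (H : BaseOn T D Q τ) (rK : r = ((2:ℝ) ^ K0)⁻¹) (scQ : ∀ i ∈ Q, K0 ≤ (τ i).1.1.k)
    {i : ι} (hi : i ∈ Q) {x y : E3} (hx : x ∈ Msh_715.P (T.H i)) (hy : y ∈ Msh_715.P (T.H i)) :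
    ‖x - y‖ ≤ r := by
  rw [H.P_eq hi, Top.c_eq] at hx hy
  have hr0 : 0 ≤ r := by rw [rK]; positivity
  have hk : ((2:ℝ) ^ (τ i).1.1.k)⁻¹ ≤ r := by
    rw [rK]
    exact inv_anti₀ (by positivity) (pow_le_pow_right₀ (by norm_num) (scQ i hi))
  refine (pi_norm_le_iff_of_nonneg hr0).2 fun j => le_trans ?_ hk
  have h1 := mem_Cu.1 hx j
  have h2 := mem_Cu.1 hy j
  unfold ps at h1 h2
  have h2k : (0:ℝ) < 2 ^ (τ i).1.1.k := by positivity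
  have h3 : (2:ℝ) ^ (τ i).1.1.k * |x j - y j| ≤ 1 := by
    rw [← abs_of_pos h2k, ← abs_mul, abs_le]
    constructor <;> linarith [h1.1, h1.2, h2.1, h2.2]
  rw [Pi.sub_apply, Real.norm_eq_abs, ← one_div, le_div_iff₀ h2k, mul_comm]
  exact h3

/-- the sum of the volumes is the volume of the union -/
theorem tsum_vol (T : Tiling Om ι) (A : Set ι) :
    ∑' i : A, volume (Msh_715.P (T.H i)) = volume (⋃ i ∈ A, Msh_715.P (T.H i)) := by
  have hcount : Countable ι := Crest.Agent.R096.Ea_713.countable_ix T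
  rw [biUnion_eq_iUnion, measure_iUnion₀]
  · intro i j hij
    exact Crest.Agent.R096.Ea_713.aedisj volume T (fun hh => hij (Subtype.ext hh))
  · intro i
    exact (Msh_715.isClosed_P _).measurableSet.nullMeasurableSet

/-- **[P-V], junk**: base tiles which meet junk squares -/
theorem vol_MJ (H : BaseOn T D Q τ) (rK : r = ((2:ℝ) ^ K0)⁻¹) (scQ : ∀ i ∈ Q, K0 ≤ (τ i).1.1.k)
    {A : Set ι} (hA : A ⊆ Q) {hr : r ≠ 0} {a : E3} {o : Fin 2 → ℤ} {M : ℕ} {Zs : Finset ℤ}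
    {U : ℤ → (Fin 2 → ℕ) → Prop} (hm : ∀ i ∈ A, MJ T r hr a o M Zs U i) :
    ∑' i : A, volume (Msh_715.P (T.H i)) ≤ ENNReal.ofReal (27 * r ^ 3 *
        (({k : ℤ × (Fin 2 → ℕ) | k ∈ Fc M Zs ∧ ¬ U k.1 k.2}.ncard : ℕ) : ℝ)) := by
  have hr0 : 0 < r := by rw [rK]; positivity
  rw [tsum_vol T A]
  exact junk_vol hr0 (fun i hi x hx y hy => diam_Q H rK scQ (hA hi) hx hy) hm

/-- the same with the field `junk` of `MeshN` -/
theorem vol_MJ_le (H : BaseOn T D Q τ) (rK : r = ((2:ℝ) ^ K0)⁻¹)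
    (scQ : ∀ i ∈ Q, K0 ≤ (τ i).1.1.k) {A : Set ι} (hA : A ⊆ Q) {hr : r ≠ 0} {a : E3}
    {o : Fin 2 → ℤ} {M : ℕ} {Zs : Finset ℤ} {U : ℤ → (Fin 2 → ℕ) → Prop}
    (hm : ∀ i ∈ A, MJ T r hr a o M Zs U i) {e5 : ℝ}
    (junk : ((({k : ℤ × (Fin 2 → ℕ) | k ∈ Fc M Zs ∧ ¬ U k.1 k.2}).ncard : ℕ) : ℝ) ≤
      e5 * ((Zs.card : ℝ) * M ^ 2)) :
    ∑' i : A, volume (Msh_715.P (T.H i)) ≤
      ENNReal.ofReal (27 * e5 * (((Zs.card : ℝ) * M ^ 2) * r ^ 3)) := by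
  have hr0 : 0 < r := by rw [rK]; positivity
  refine (vol_MJ H rK scQ hA hm).trans (ENNReal.ofReal_le_ofReal ?_)
  have h1 := mul_le_mul_of_nonneg_left junk (show 0 ≤ 27 * r ^ 3 by positivity)
  calc _ ≤ 27 * r ^ 3 * (e5 * ((Zs.card : ℝ) * M ^ 2)) := h1
    _ = _ := by ring

end Base

section Shell
variable {L : ℕ} {ι : Type} {T : Tiling (QL L) ι} {D : Dat 3} {Q : Set ι} {τ : ι → Top D}
  {K0 : ℕ} {r : ℝ}

/-- **[P-V], shell**: base tiles which meet the shell -/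
theorem vol_ShL (hL : 1 ≤ L) {η : ℝ} (hη : 0 ≤ η) (H : BaseOn T D Q τ)
    (rK : r = ((2:ℝ) ^ K0)⁻¹) (scQ : ∀ i ∈ Q, K0 ≤ (τ i).1.1.k) {A : Set ι} (hA : A ⊆ Q)
    (hS : ∀ i ∈ A, (Msh_715.P (T.H i) ∩ ShL L η).Nonempty) :
    ∑' i : A, volume (Msh_715.P (T.H i)) ≤ ENNReal.ofReal ((48 * η + 24 * L * r) / L) := by
  have hr0 : 0 < r := by rw [rK]; positivity
  rw [tsum_vol T A]
  exact shell_vol_on hL hη hr0.le (fun i hi x hx y hy => diam_Q H rK scQ (hA hi) hx hy) hS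

/-- the same for the set `IZ` of `PreN` without macro balls -/
theorem vol_IZ (hL : 1 ≤ L) {η : ℝ} (hη : 0 ≤ η) (H : BaseOn T D Q τ)
    (rK : r = ((2:ℝ) ^ K0)⁻¹) (scQ : ∀ i ∈ Q, K0 ≤ (τ i).1.1.k) {A : Set ι} (hA : A ⊆ Q)
    {β : Type} [IsEmpty β] {b : β → E3} {R1 : β → ℝ} {Sc : β → Finset ι}
    (hS : ∀ i ∈ A, i ∈ IZ T (ShL L η) b R1 Sc) :
    ∑' i : A, volume (Msh_715.P (T.H i)) ≤ ENNReal.ofReal ((48 * η + 24 * L * r) / L) := by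
  refine vol_ShL hL hη H rK scQ hA fun i hi => ?_
  rcases hS i hi with h | ⟨c, -⟩
  · exact h
  · exact isEmptyElim c

end Shell

end Crest.Agent.R096.Npv_57
end
end

-- ▼ part R096/Err1_479
section

/-!
Row 96 (S0127), helper479.  NO0-PRE3, leaf [B3] of 962 #11186: **errors on the edges** of a tiling.
-/

set_option autoImplicit false
set_option linter.unusedSectionVars false

open MeasureTheory Set Filter
open scoped Topology ENNReal NNReal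

namespace Crest.Agent.R096.Err_479

open Crest.Agent.R096.Msh_715 Crest.Agent.R096.Ls_222

variable {E : Type*} [NormedAddCommGroup E] [NormedSpace ℝ E] [FiniteDimensional ℝ E]
  {Om : Set E} {ι : Type*}

theorem countable_ix (T : Tiling Om ι) : Countable ι := by
  have h1 : (univ : Set ι).Countable := by
    refine Set.PairwiseDisjoint.countable_of_isOpen (s := fun i => I (T.H i)) (a := univ) ?_
      (fun i _ => isOpen_I _) (fun i _ => T.ne i)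
    intro i _ j _ hij
    exact T.dis i j hij
  exact countable_univ_iff.1 h1

/-- a small number for one tile -/
theorem exists_small {p : ℝ} (hp : 1 ≤ p) {u δ : ℝ≥0∞} (hu : u ≠ ∞) (hδ : 0 < δ) (n : ℕ) :
    ∃ t : ℝ≥0∞, 0 < t ∧ t ≠ ∞ ∧ ∀ x : ℝ≥0∞, x ≤ n * t → u * x ^ p ≤ δ := by
  have hu1 : u + 1 ≠ ∞ := by simp [hu]
  have hu0 : u + 1 ≠ 0 := by simp
  have hn1 : (n : ℝ≥0∞) + 1 ≠ ∞ := by simp
  have hn0 : (n : ℝ≥0∞) + 1 ≠ 0 := by simp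
  set s : ℝ≥0∞ := min 1 (δ / (u + 1)) with hs
  have hs0 : 0 < s := lt_min one_pos (ENNReal.div_pos hδ.ne' hu1)
  have hs1 : s ≤ 1 := min_le_left _ _
  have hsT : s ≠ ∞ := ne_top_of_le_ne_top ENNReal.one_ne_top hs1
  refine ⟨s / (n + 1), ENNReal.div_pos hs0.ne' hn1, ENNReal.div_ne_top hsT hn0, ?_⟩
  intro x hx
  have hxs : x ≤ s := by
    refine hx.trans ?_
    calc (n : ℝ≥0∞) * (s / (n + 1)) ≤ (n + 1) * (s / (n + 1)) := by
          gcongr; exact le_self_add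
      _ ≤ s := ENNReal.mul_div_le
  have hx1 : x ≤ 1 := hxs.trans hs1
  have h1 : x ^ p ≤ x := by
    calc x ^ p ≤ x ^ (1 : ℝ) := ENNReal.rpow_le_rpow_of_exponent_ge hx1 hp
      _ = x := ENNReal.rpow_one x
  calc u * x ^ p ≤ (u + 1) * (δ / (u + 1)) := by
        refine mul_le_mul' le_self_add ?_
        exact h1.trans (hxs.trans (min_le_right _ _))
    _ ≤ δ := ENNReal.mul_div_le

/-- **[B3] ERRORS** (962 #11186): errors of the edges, below a given bound, whose contribution to a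
weighted sum of `p`-th powers over the tiles is as small as we like -/
theorem exists_err (T : Tiling Om ι) (A : Set ι) {p : ℝ} (hp : 1 ≤ p) {u : ι → ℝ≥0∞}
    (hu : ∀ i, u i ≠ ∞) {δ : ℝ≥0∞} (hδ : δ ≠ 0) {b : Edg T → ℝ≥0∞} (hb : ∀ e, b e ≠ 0) :
    ∃ err : Edg T → ℝ≥0∞, (∀ e, err e ≠ 0) ∧ (∀ e, err e ≤ b e) ∧ (∀ e, err e ≠ ∞) ∧
      ∑' i : A, u i * (∑ e ∈ eIn T i, err e) ^ p ≤ δ := by
  classical
  have hι : Countable ι := countable_ix T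
  obtain ⟨d, hd0, hd⟩ := ENNReal.exists_pos_sum_of_countable' hδ ι
  choose t ht0 htT ht using fun i => exists_small hp (hu i) (hd0 i) (eIn T i).card
  let err : Edg T → ℝ≥0∞ := fun e =>
    min (b e) (min 1 ((finite_tiles_edg e).toFinset.inf t))
  have herr : ∀ i, ∀ e ∈ eIn T i, err e ≤ t i := by
    intro i e he
    refine (min_le_right _ _).trans ((min_le_right _ _).trans ?_)
    exact Finset.inf_le (by simpa using he)
  refine ⟨err, fun e => ?_, fun e => min_le_left _ _, fun e => ?_, ?_⟩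
  · have h1 : 0 < (finite_tiles_edg e).toFinset.inf t := by
      rw [Finset.lt_inf_iff ENNReal.zero_lt_top]
      exact fun i _ => ht0 i
    exact (lt_min (pos_iff_ne_zero.2 (hb e)) (lt_min one_pos h1)).ne'
  · exact ne_top_of_le_ne_top ENNReal.one_ne_top ((min_le_right _ _).trans (min_le_left _ _))
  · calc ∑' i : A, u i * (∑ e ∈ eIn T i, err e) ^ p ≤ ∑' i : A, d i := by
          refine ENNReal.tsum_le_tsum fun i => ht i _ ?_
          calc ∑ e ∈ eIn T i, err e ≤ ∑ _e ∈ eIn T i, t i :=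
                Finset.sum_le_sum fun e he => herr i e he
            _ = (eIn T i).card * t i := by rw [Finset.sum_const, nsmul_eq_mul]
      _ ≤ ∑' i, d i := ENNReal.tsum_comp_le_tsum_of_injective Subtype.val_injective d
      _ ≤ δ := hd.le

end Crest.Agent.R096.Err_479
end

-- ▼ part R096/Np9_962

/-!
Row 96 (S0127), helper962, node NO0-PRE3, mesh part: **`PreN` from `MeshN`** with the order of the
constants of `NOPre` / `ExMeshN`.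
-/

set_option autoImplicit false
set_option linter.unusedSectionVars false
set_option linter.unusedVariables false
open Set Filter Topology MeasureTheory Metric
open scoped NNReal ENNReal

noncomputable section

namespace Crest.Agent.R096.Np_962

open Crest.Agent.R096.Msh_715 hiding P I
open Crest.Agent.R096.SkC1_961 (E3 Cfg FoamD Hom3 NN)
open Crest.Agent.R096.Ls_222
open Crest.Agent.R096.Mbf_337
open Crest.Agent.R96.Pm_199 (le)
open Crest.Agent.R96.Sg1_199 (li sgm)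
open Crest.Agent.R096.Msh_810 Crest.Agent.R96.En2_199 Crest.Agent.R96.En4_199
  Crest.Agent.R96.En9_199 Crest.Agent.R96.En11_199
open Crest.Agent.R096.Ps_273
open Crest.Agent.R96.En3_199 (M1)
open Crest.Agent.R096.No0_477 (cub fr Fc vx)
open Crest.Agent.R096.SkN1_477 (usq)
open Crest.Agent.R096.No_276 (QL ShL IZ MU MJ PreN)
open Crest.Agent.R096.Gno_324 (Ug)
open Crest.Agent.R096.Ea_713 (lin)
open Crest.Agent.R096.Log2_582 (IsLog)
open Crest.Agent.R096.Nl_234 (HWq)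

variable {δ κ0 R c0 : ℝ} {La : Set E3} {ι : Type}

section

variable {p : ℝ} {q : ℕ} {al : Fin 3 → ℝ} {h : ℝ} {s : Fin 3 → ℝ} {L : ℕ} {η : ℝ}
  {Φ : FoamD δ κ0 R c0 La} {f1 : E3 → E3} {g : Φ.F → Fin 3 → E3 → ℝ} {W : Φ.F → ℝ}
  {κ' μ κ1 κ2 κ3 : ℝ} {Cs : Set (Set E3) → ℝ} {𝒮0 : Set (Set (Set E3))} {HH R' : Set E3}
  {e1 e2 e3 e4 : ℝ≥0∞} {e5 : ℝ} {Ku : ℝ≥0∞} {D : Dat 3} {K0 : ℕ} {r : ℝ} {hr : r ≠ 0}
  {o : Fin 2 → ℤ} {M : ℕ} {Zs : Finset ℤ} {T : Tiling (QL L) ι} {Q : Set ι} {τ : ι → Top D}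
  {J0 J V : Φ.F → Set ι} {ct : Φ.F → ι} {A : Φ.F → E3 ≃ᵃ[ℝ] E3} {lam : Φ.F → ℝ} {z : Φ.F → E3}
  {θ : Φ.F → E3 → E3} {φ : Φ.F → E3 → ℝ} {Mg : Φ.F → ℕ} {B : ι → E3 ≃ᵃ[ℝ] E3} {cw : ι → ℝ≥0∞}

open Classical in
/-- errors of the edges -/
theorem MeshN.errs (H : MeshN p q al h s L η Φ f1 g W κ' μ κ1 κ2 κ3 Cs 𝒮0 HH R' e1 e2 e3 e4 e5 Ku D K0 r hr o
    M Zs T Q τ J0 J V ct A lam z θ φ Mg B cw) (hp : 1 ≤ p) {e0 : ℝ≥0∞} (he0 : e0 ≠ 0) :
    ∃ (err : Edg T → ℝ≥0∞) (er : Cel D → ℝ≥0∞), (∀ e, err e ≠ 0) ∧ (∀ e, err e ≠ ⊤) ∧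
      (∀ (e : Edg T) (σ : Cel D), e.1 = σ.c → err e ≤ er σ) ∧
      (∀ l, Ye D l p er ≤ e0) ∧ (∀ l, Ye D l 1 er ≤ e0) ∧
      ∑' i : {i // i ∉ Q ∧ ∀ c, i ≠ ct c},
        (ENNReal.ofReal (Cs ((fun K => B i.1 '' K) '' Cfg T i.1) * ‖lin (B i.1)‖) *
          ∑ e ∈ eIn T i.1, err e) ^ p * ((1 + cw i.1) * volume (Msh_715.P (T.H i.1))) ≤ e0 := by
  have hp0 : 0 ≤ p := by linarith
  obtain ⟨b, er, hb, her, hbe, h1, h2⟩ := exists_err_T T D hp he0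
  obtain ⟨err, g1, g2, g3, g4⟩ := Err_479.exists_err T {i | i ∉ Q ∧ ∀ c, i ≠ ct c} hp
    (u := fun i => if i ∉ Q ∧ ∀ c, i ≠ ct c then
      ENNReal.ofReal (Cs ((fun K => B i '' K) '' Cfg T i) * ‖lin (B i)‖) ^ p *
        ((1 + cw i) * volume (Msh_715.P (T.H i))) else 0)
    (fun i => by
      split_ifs with hi
      · refine ENNReal.mul_ne_top (ENNReal.rpow_ne_top_of_nonneg hp0 ENNReal.ofReal_ne_top)
          (ENNReal.mul_ne_top ?_ (T.cpt i).measure_lt_top.ne)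
        exact ENNReal.add_ne_top.2 ⟨ENNReal.one_ne_top, H.wfin i hi.1 hi.2⟩
      · exact ENNReal.zero_ne_top) he0 (b := fun e => ENNReal.ofReal (b e))
    (fun e => by simpa using hb e)
  refine ⟨err, fun σ => ENNReal.ofReal (er σ), g1, g3, fun e σ he =>
    (g2 e).trans (ENNReal.ofReal_le_ofReal (hbe e σ he)), h1, h2, ?_⟩
  refine le_trans (le_of_eq ?_) g4
  refine tsum_congr fun i => ?_
  rw [if_pos i.2, ENNReal.mul_rpow_of_nonneg _ _ hp0]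
  ring

end

theorem KA_ne_top {p sm S1 : ℝ} (hp : 1 ≤ p) : KA p sm S1 ≠ ⊤ := by
  have hp0 : 0 ≤ p := by linarith
  have h1 : (2:ℝ≥0∞) ^ (p - 1) ≠ ⊤ := ENNReal.rpow_ne_top_of_nonneg (by linarith) (by norm_num)
  have h2 : (2:ℝ≥0∞) ^ p ≠ ⊤ := ENNReal.rpow_ne_top_of_nonneg (by linarith) (by norm_num)
  unfold KA
  refine ENNReal.mul_ne_top (ENNReal.mul_ne_top h1 h2) (ENNReal.add_ne_top.2
    ⟨ENNReal.mul_ne_top h1 (ENNReal.rpow_ne_top_of_nonneg hp0 ?_),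
      ENNReal.rpow_ne_top_of_nonneg hp0 ENNReal.ofReal_ne_top⟩)
  exact ENNReal.mul_ne_top (ENNReal.natCast_ne_top _)
    (ENNReal.mul_ne_top (by norm_num) ENNReal.ofReal_ne_top)

theorem KB_ne_top {p : ℝ} (hp : 1 ≤ p) : KB p ≠ ⊤ := by
  have h1 : (2:ℝ≥0∞) ^ (p - 1) ≠ ⊤ := ENNReal.rpow_ne_top_of_nonneg (by linarith) (by norm_num)
  have h2 : (2:ℝ≥0∞) ^ p ≠ ⊤ := ENNReal.rpow_ne_top_of_nonneg (by linarith) (by norm_num)
  unfold KB
  exact ENNReal.mul_ne_top (ENNReal.mul_ne_top h1 h2) (ENNReal.mul_ne_top h1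
    (ENNReal.mul_ne_top (KC_ne_top hp) (ENNReal.mul_ne_top h1 (ENNReal.mul_ne_top h2 (by norm_num)))))

theorem KB0_ne_top {p : ℝ} (hp : 1 ≤ p) : KB0 p ≠ ⊤ := by
  have h1 : (2:ℝ≥0∞) ^ (p - 1) ≠ ⊤ := ENNReal.rpow_ne_top_of_nonneg (by linarith) (by norm_num)
  have h2 : (2:ℝ≥0∞) ^ p ≠ ⊤ := ENNReal.rpow_ne_top_of_nonneg (by linarith) (by norm_num)
  unfold KB0
  exact ENNReal.mul_ne_top (ENNReal.mul_ne_top h1 h2) (ENNReal.mul_ne_top h1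
    (ENNReal.mul_ne_top (KC_ne_top hp) (ENNReal.add_ne_top.2
      ⟨ENNReal.mul_ne_top h1 (by norm_num), by norm_num⟩)))

theorem KD_ne_top {p S1 : ℝ} (hp : 1 ≤ p) : KD p S1 ≠ ⊤ := by
  have h1 : (2:ℝ≥0∞) ^ (p - 1) ≠ ⊤ := ENNReal.rpow_ne_top_of_nonneg (by linarith) (by norm_num)
  have h2 : (2:ℝ≥0∞) ^ p ≠ ⊤ := ENNReal.rpow_ne_top_of_nonneg (by linarith) (by norm_num)
  unfold KD
  exact ENNReal.mul_ne_top (ENNReal.mul_ne_top h1 h2) (ENNReal.add_ne_top.2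
    ⟨ENNReal.mul_ne_top h1 h2, ENNReal.rpow_ne_top_of_nonneg (by linarith) ENNReal.ofReal_ne_top⟩)

theorem KE_ne_top {p : ℝ} (hp : 1 ≤ p) : KE p ≠ ⊤ := by
  have h1 : (2:ℝ≥0∞) ^ (p - 1) ≠ ⊤ := ENNReal.rpow_ne_top_of_nonneg (by linarith) (by norm_num)
  have h2 : (2:ℝ≥0∞) ^ p ≠ ⊤ := ENNReal.rpow_ne_top_of_nonneg (by linarith) (by norm_num)
  unfold KE
  exact ENNReal.mul_ne_top (ENNReal.mul_ne_top h1 h1) h2

/-- one `t` for finitely many products -/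
theorem exists_t {n : ℕ} (a : Fin n → ℝ) (A : Fin n → ℝ) (ha : ∀ i, 0 < a i) (hA : ∀ i, 0 ≤ A i)
    {t0 : ℝ} (ht0 : 0 < t0) : ∃ t : ℝ, 0 < t ∧ t ≤ t0 ∧ ∀ i, t * A i ≤ a i := by
  have h1 : ∀ᶠ t : ℝ in 𝓝[>] (0:ℝ), ∀ i, t * A i ≤ a i := by
    rw [eventually_all]
    intro i
    have h2 : Tendsto (fun t : ℝ => t * A i) (𝓝[>] 0) (𝓝 (0 * A i)) :=
      (tendsto_nhdsWithin_of_tendsto_nhds tendsto_id).mul_const _
    rw [zero_mul] at h2
    exact (h2.eventually (gt_mem_nhds (ha i))).mono fun t ht => le_of_lt ht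
  have h3 : ∀ᶠ t : ℝ in 𝓝[>] (0:ℝ), 0 < t ∧ t ≤ t0 := by
    filter_upwards [self_mem_nhdsWithin, mem_nhdsWithin_of_mem_nhds (Iic_mem_nhds ht0)] with t h4 h5
    exact ⟨h4, h5⟩
  obtain ⟨t, h4, h5⟩ := (h1.and h3).exists
  exact ⟨t, h5.1, h5.2, h4⟩

theorem num3 {A B C x y : ℝ} (hA : 0 ≤ A) (hB : 0 ≤ B) (hC : 0 ≤ C) (hx : 0 ≤ x) (hy : 0 ≤ y) :
    ENNReal.ofReal A * ENNReal.ofReal x + ENNReal.ofReal B * ENNReal.ofReal y +
      ENNReal.ofReal C * ENNReal.ofReal y = ENNReal.ofReal (A * x + B * y + C * y) := by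
  rw [← ENNReal.ofReal_mul hA, ← ENNReal.ofReal_mul hB, ← ENNReal.ofReal_mul hC,
    ← ENNReal.ofReal_add (by positivity) (by positivity),
    ← ENNReal.ofReal_add (by positivity) (by positivity)]

theorem num5 {X D B E t : ℝ} (hX : 0 ≤ X) (hD : 0 ≤ D) (hB : 0 ≤ B) (hE : 0 ≤ E) (ht : 0 ≤ t) :
    ENNReal.ofReal X * (ENNReal.ofReal D * ENNReal.ofReal t + ENNReal.ofReal B * ENNReal.ofReal t) +
      ENNReal.ofReal E * (ENNReal.ofReal t + ENNReal.ofReal t) =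
      ENNReal.ofReal (X * (D * t + B * t) + E * (t + t)) := by
  rw [← ENNReal.ofReal_mul hD, ← ENNReal.ofReal_mul hB,
    ← ENNReal.ofReal_add (by positivity) (by positivity),
    ← ENNReal.ofReal_add (by positivity) (by positivity),
    ← ENNReal.ofReal_mul hX, ← ENNReal.ofReal_mul hE,
    ← ENNReal.ofReal_add (by positivity) (by positivity)]

set_option maxHeartbeats 2000000 in
open Classical in
/-- **`PreN` from `MeshN`.**  Order: `S, KS` (from `p, sm, S1`); then `t1` (from `Ku, L, ε, η, e₂`);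
then `t2` (from `C, ε'`). -/
theorem exists_preN {p : ℝ} (hp : 1 ≤ p) {sm S1 : ℝ} (hsm0 : 0 ≤ sm) (hS1 : 0 < S1) :
    ∃ S KS : ℝ, S1 ≤ S ∧ 0 ≤ KS ∧
    ∀ (Ku : ℝ≥0∞), Ku ≠ ⊤ → ∀ (ε η : ℝ) (L : ℕ) (e₂ : ℝ), 1 ≤ L → 0 < ε → 0 < η → 0 < e₂ →
    ∃ t1 : ℝ, 0 < t1 ∧ t1 ≤ 1 ∧
    ∀ (𝒮0 : Set (Set (Set E3))), 𝒮0.Finite → ∀ C : Set (Set E3) → ℝ, (∀ 𝒦, 0 < C 𝒦) →
    ∀ ε' : ℝ, 0 < ε' → ∃ t2 : ℝ, 0 < t2 ∧ t2 ≤ t1 ∧
    ∀ {δ κ0 R c0 : ℝ} {La : Set E3} {ι : Type} {q : ℕ} {al : Fin 3 → ℝ} {h : ℝ} {s : Fin 3 → ℝ}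
      {Φ : FoamD δ κ0 R c0 La} {f1 : E3 → E3} {g : Φ.F → Fin 3 → E3 → ℝ} {W : Φ.F → ℝ}
      {κ' μ κ1 κ2 κ3 : ℝ} {HH R' : Set E3}
      {e1 e2 e3 e4 : ℝ≥0∞} {e5 : ℝ} {D : Dat 3} {K0 : ℕ} {r : ℝ} {hr : r ≠ 0}
      {o : Fin 2 → ℤ} {M : ℕ} {Zs : Finset ℤ} {T : Tiling (QL L) ι} {Q : Set ι} {τ : ι → Top D}
      {J0 J V : Φ.F → Set ι} {ct : Φ.F → ι} {A : Φ.F → E3 ≃ᵃ[ℝ] E3} {lam : Φ.F → ℝ}
      {z : Φ.F → E3} {θ : Φ.F → E3 → E3} {φ : Φ.F → E3 → ℝ} {Mg : Φ.F → ℕ}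
      {B : ι → E3 ≃ᵃ[ℝ] E3} {cw : ι → ℝ≥0∞},
      MeshN p q al h s L η Φ f1 g W κ' μ κ1 κ2 κ3 C 𝒮0 HH R' e1 e2 e3 e4 e5 Ku D K0
        r hr o M Zs T Q τ J0 J V ct A lam z θ φ Mg B cw →
      (∀ i, 0 ≤ s i) → (∀ i, s i ≤ sm) → (∀ x ∈ HH, HWq Φ f1 q al h {x}) →
      0 ≤ κ' → κ' ≤ t2 → e1 ≤ ENNReal.ofReal t1 → e2 ≤ ENNReal.ofReal t2 →
      e3 ≤ ENNReal.ofReal t2 → 0 ≤ e5 → e5 ≤ t1 → r ≤ t1 →
      ∀ κp : ℝ, κ' ≤ κp → ∀ 𝒮 : Set (Set (Set E3)), 𝒮0 ⊆ 𝒮 →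
      ∀ (b : Empty → E3) (R1 : Empty → ℝ) (Sc : Empty → Finset ι) (cnt : ι → ℝ),
      (∀ i, cnt i ≤ cntA T r hr D.a o M Zs i) →
      ∀ (Z : Φ.F → Set ℝ) (m0 : Φ.F → ℕ), (∀ c, volume (Z c) = 0) →
      ∃ (κ : Φ.F → ℕ) (Lv : Φ.F → Finset ℝ),
        PreN p s L η ε ε' e₂ S1 S KS κp μ κ3 C 𝒮 f1 q al h Φ T univ V ct A lam z Mg r hr D.a o M
          Zs (Ug T Qᶜ D.a r o) b R1 Sc cnt Z m0 κ Lv := by
  have hp0 : 0 ≤ p := by linarith
  set A0 : ℝ := (KA p sm S1).toReal with hA0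
  set B1 : ℝ := (KB p).toReal with hB1
  set B0 : ℝ := (KB0 p).toReal with hB0
  set D1 : ℝ := (KD p S1).toReal with hD1
  set E1 : ℝ := (KE p).toReal with hE1
  have eA : KA p sm S1 = ENNReal.ofReal A0 := (ENNReal.ofReal_toReal (KA_ne_top hp)).symm
  have eB : KB p = ENNReal.ofReal B1 := (ENNReal.ofReal_toReal (KB_ne_top hp)).symm
  have eB0 : KB0 p = ENNReal.ofReal B0 := (ENNReal.ofReal_toReal (KB0_ne_top hp)).symm
  have eD : KD p S1 = ENNReal.ofReal D1 := (ENNReal.ofReal_toReal (KD_ne_top hp)).symm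
  have eE : KE p = ENNReal.ofReal E1 := (ENNReal.ofReal_toReal (KE_ne_top hp)).symm
  have nA : 0 ≤ A0 := ENNReal.toReal_nonneg
  have nB : 0 ≤ B1 := ENNReal.toReal_nonneg
  have nB0 : 0 ≤ B0 := ENNReal.toReal_nonneg
  have nD : 0 ≤ D1 := ENNReal.toReal_nonneg
  have nE : 0 ≤ E1 := ENNReal.toReal_nonneg
  clear_value A0 B1 B0 D1 E1
  have hM1 : (0:ℝ) ≤ M1 3 := Nat.cast_nonneg _
  refine ⟨S1 + (M1 3 : ℝ) * (2 * sm), 48 * A0 + 1, by nlinarith, by positivity, ?_⟩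
  intro Ku hKu ε η L e₂ hL hε hη he₂
  have hL0 : (0:ℝ) < L := by exact_mod_cast hL
  set S : ℝ := S1 + (M1 3 : ℝ) * (2 * sm) with hS
  set k : ℝ := Ku.toReal with hk
  have ek : Ku = ENNReal.ofReal k := (ENNReal.ofReal_toReal hKu).symm
  have nk : 0 ≤ k := ENNReal.toReal_nonneg
  clear_value k
  obtain ⟨t0, ht0, ht01, hw⟩ := Npw_273.exists_wtsq2 hp hL hsm0 (S := S) (by rw [hS]; linarith) hε
  obtain ⟨t1, h1, h1t, hf⟩ := exists_t (n := 3) ![1 / L, e₂ / L, 2 * ε / L]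
    ![B1 + B0, 24 * A0 + (B1 + B0), k * (135 * A0 / L + (B1 + B0))]
    (by intro i; fin_cases i <;> simp <;> positivity)
    (by intro i; fin_cases i <;> simp <;> positivity) ht0
  have f1' : t1 * (B1 + B0) ≤ 1 / L := by simpa using hf 0
  have f2' : t1 * (24 * A0 + (B1 + B0)) ≤ e₂ / L := by simpa using hf 1
  have f3' : t1 * (k * (135 * A0 / L + (B1 + B0))) ≤ 2 * ε / L := by simpa using hf 2
  refine ⟨t1, h1, h1t.trans ht01, ?_⟩
  intro 𝒮0 hfin C hC ε' hε'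
  obtain ⟨u0, hu0, hu0t, hw⟩ := hw ε' hε'
  -- bound of the machine's function on the universal shapes
  obtain ⟨CQ, hCQ⟩ : ∃ CQ : ℝ, ∀ 𝒦 ∈ 𝒮0, C 𝒦 ≤ CQ := by
    obtain ⟨c, hc⟩ := (hfin.image C).bddAbove
    exact ⟨c, fun 𝒦 h𝒦 => hc (mem_image_of_mem _ h𝒦)⟩
  set X : ℝ := (ENNReal.ofReal CQ ^ p).toReal with hX
  have eX : ENNReal.ofReal CQ ^ p = ENNReal.ofReal X := (ENNReal.ofReal_toReal
    (ENNReal.rpow_ne_top_of_nonneg hp0 ENNReal.ofReal_ne_top)).symm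
  have nX : 0 ≤ X := ENNReal.toReal_nonneg
  clear_value X
  obtain ⟨t2, h2, h2t, hg⟩ := exists_t (n := 2) ![ε', 2 * ε' / L]
    ![X * (D1 + B0) + 2 * E1, k * X * (D1 + B0) + 2 * E1]
    (by intro i; fin_cases i <;> simp <;> positivity)
    (by intro i; fin_cases i <;> simp <;> positivity) (lt_min h1 hu0)
  have g1 : t2 * (X * (D1 + B0) + 2 * E1) ≤ ε' := by simpa using hg 0
  have g2 : t2 * (k * X * (D1 + B0) + 2 * E1) ≤ 2 * ε' / L := by simpa using hg 1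
  have h2t1 : t2 ≤ t1 := h2t.trans (min_le_left _ _)
  have h2u : t2 ≤ u0 := h2t.trans (min_le_right _ _)
  refine ⟨t2, h2, h2t1, ?_⟩
  intro δ κ0 R c0 La ι q al h s Φ f1 g W κ' μ κ1 κ2 κ3 HH R' e1 e2 e3 e4 e5 D K0 r hr o M Zs T Q τ
    J0 J V ct A lam z θ φ Mg B cw H hs hsm hHW hκ0 hκt he1 he2 he3 he50 he5 hrt κp hκp 𝒮 h𝒮 b R1 Sc
    cnt hcnt Z m0 hZ
  have hκ1 : κ' ≤ 1 := hκt.trans (h2t1.trans (h1t.trans ht01))
  have hr0 := H.r0
  have he0 : ENNReal.ofReal t2 ≠ 0 := (ENNReal.ofReal_pos.2 h2).ne'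
  obtain ⟨err, er, herr0, herr, her, hYe, hYe1, hnE⟩ := H.errs hp he0
  obtain ⟨κ, Lv, hLev, hWo, hcard, hEN, hNN⟩ := H.choice err herr0 Z m0 hZ
  have hNN' : ∀ i, NN Φ T f1 κ Lv i ≤ ∑ e ∈ eIn T i, Fw κ' W g err e := fun i =>
    (hNN i).trans (Finset.sum_le_sum fun e _ => hEN e)
  have hmono2 : ENNReal.ofReal t2 ≤ ENNReal.ofReal t1 := ENNReal.ofReal_le_ofReal h2t1
  obtain ⟨hwt, hsq⟩ := hw H hs hsm hκ0 (hκt.trans h2u)
    (he1.trans (ENNReal.ofReal_le_ofReal h1t)) (he2.trans (ENNReal.ofReal_le_ofReal h2u)) hHW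
    (κ := κ) (Lv := Lv) (err := err) (er := er) hEN hNN her
    (fun l => (hYe l).trans (ENNReal.ofReal_le_ofReal h2u))
    (fun l => (hYe1 l).trans (ENNReal.ofReal_le_ofReal h2u))
  set N0 : ℝ := ((Zs.card : ℝ) * M ^ 2) * r ^ 3 with hN0
  have nN0 : 0 ≤ N0 :=
    mul_nonneg (mul_nonneg (Nat.cast_nonneg _) (sq_nonneg _)) (pow_nonneg hr0.le _)
  have hN1 : 2 / L ≤ N0 := H.N1
  have hN2 : N0 ≤ 5 / L := H.N2
  have h27 : (0:ℝ) ≤ 27 * t1 := by linarith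
  have hv2 : ENNReal.ofReal (27 * e5 * N0) ≤ ENNReal.ofReal (27 * t1 * (5 / L)) :=
    ENNReal.ofReal_le_ofReal (mul_le_mul (mul_le_mul_of_nonneg_left he5 (by norm_num)) hN2 nN0 h27)
  refine ⟨κ, Lv, Pmc_112.levels_mono hκp hLev, hWo, ?_, hwt, hsq, ?_⟩
  · intro c hc
    rw [hcard c, H.W0 c hc]
  · refine H.tl_of hHW hp hκ1 (fun 𝒦 => (hC 𝒦).le) herr hS1.le her (e0 := ENNReal.ofReal t2) hYe hsm
      hnE hNN' h𝒮 hCQ hcnt
      (V1 := ENNReal.ofReal ((48 * η + 24 * L * r) / L))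
      (V2 := ENNReal.ofReal (27 * e5 * N0)) ?_ ?_ ?_ ?_ ?_ ?_ ?_
    · have h3 := Npv_57.vol_IZ hL hη.le H.base H.rK H.scQ
        (A := {i | i ∈ MeshN.HTs T Q HH ∧ i ∈ IZ T (ShL L η) b R1 Sc}) (fun i hi => hi.1.1)
        (b := b) (R1 := R1) (Sc := Sc) (fun i hi => hi.2)
      rwa [Npv_57.tsum_vol] at h3
    · have h3 := Npv_57.vol_MJ_le H.base H.rK H.scQ
        (A := {i | i ∈ MeshN.HTs T Q HH ∧ MJ T r hr D.a o M Zs (Ug T Qᶜ D.a r o) i})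
        (fun i hi => hi.1.1) (hr := hr) (a := D.a) (o := o) (M := M) (Zs := Zs)
        (U := Ug T Qᶜ D.a r o) (fun i hi => hi.2) H.junk
      rwa [Npv_57.tsum_vol] at h3
    · rw [Npl_477.vol_QL hL0, eA, eB, eB0]
      calc _ ≤ ENNReal.ofReal A0 * ENNReal.ofReal (8 / L) + ENNReal.ofReal B1 * ENNReal.ofReal t1 +
            ENNReal.ofReal B0 * ENNReal.ofReal t1 := by gcongr
        _ = ENNReal.ofReal (A0 * (8 / L) + B1 * t1 + B0 * t1) :=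
            num3 nA nB nB0 (by positivity) h1.le
        _ ≤ _ := by
            apply ENNReal.ofReal_le_ofReal
            have h4 : (48 * A0 + 1) / L = A0 * (8 / L) + 1 / L + 40 * A0 / L := by
              field_simp; ring
            have h5 : 0 ≤ 40 * A0 / L := by positivity
            nlinarith
    · rw [eA, eB, eB0]
      calc _ ≤ ENNReal.ofReal A0 * ENNReal.ofReal ((48 * η + 24 * L * r) / L) +
            ENNReal.ofReal B1 * ENNReal.ofReal t1 + ENNReal.ofReal B0 * ENNReal.ofReal t1 := by gcongr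
        _ = ENNReal.ofReal (A0 * ((48 * η + 24 * L * r) / L) + B1 * t1 + B0 * t1) :=
            num3 nA nB nB0 (by positivity) h1.le
        _ ≤ _ := by
            apply ENNReal.ofReal_le_ofReal
            have h4 : A0 * ((48 * η + 24 * L * r) / L) = 48 * A0 * η / L + 24 * A0 * r := by
              field_simp
            have h5 : ((48 * A0 + 1) * η + e₂) / L = 48 * A0 * η / L + η / L + e₂ / L := by
              field_simp
            have h6 : 0 ≤ η / L := by positivity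
            have h7 : 24 * A0 * r ≤ 24 * A0 * t1 := by
              apply mul_le_mul_of_nonneg_left hrt (by positivity)
            rw [h4, h5]
            nlinarith
    · rw [eX, eD, eB0, eE]
      calc _ ≤ ENNReal.ofReal X * (ENNReal.ofReal D1 * ENNReal.ofReal t2 +
            ENNReal.ofReal B0 * ENNReal.ofReal t2) +
            ENNReal.ofReal E1 * (ENNReal.ofReal t2 + ENNReal.ofReal t2) := by gcongr
        _ = ENNReal.ofReal (X * (D1 * t2 + B0 * t2) + E1 * (t2 + t2)) :=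
            num5 nX nD nB0 nE h2.le
        _ ≤ _ := by
            apply ENNReal.ofReal_le_ofReal
            nlinarith
    · rw [ek, eA, eB, eB0]
      calc _ ≤ ENNReal.ofReal k * (ENNReal.ofReal A0 * ENNReal.ofReal (27 * t1 * (5 / L)) +
            ENNReal.ofReal B1 * ENNReal.ofReal t1 + ENNReal.ofReal B0 * ENNReal.ofReal t1) :=
            mul_le_mul' le_rfl (add_le_add (add_le_add (mul_le_mul' le_rfl hv2)
              (mul_le_mul' le_rfl he1)) (mul_le_mul' le_rfl hmono2))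
        _ = ENNReal.ofReal (k * (A0 * (27 * t1 * (5 / L)) + B1 * t1 + B0 * t1)) := by
            rw [num3 nA nB nB0 (by positivity) h1.le, ← ENNReal.ofReal_mul nk]
        _ ≤ _ := by
            apply ENNReal.ofReal_le_ofReal
            have h4 : k * (A0 * (27 * t1 * (5 / L)) + B1 * t1 + B0 * t1) =
                t1 * (k * (135 * A0 / L + (B1 + B0))) := by field_simp; ring
            have h5 : ε * (2 / L) ≤ ε * N0 := mul_le_mul_of_nonneg_left hN1 hε.le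
            have h6 : ε * (2 / L) = 2 * ε / L := by ring
            have h7 : ε * ((Zs.card : ℝ) * M ^ 2) * r ^ 3 = ε * N0 := by rw [hN0]; ring
            rw [h4, h7]
            linarith
    · rw [ek, eX, eD, eB0, eE]
      calc _ ≤ ENNReal.ofReal k * ENNReal.ofReal X * (ENNReal.ofReal D1 * ENNReal.ofReal t2 +
            ENNReal.ofReal B0 * ENNReal.ofReal t2) +
            ENNReal.ofReal E1 * (ENNReal.ofReal t2 + ENNReal.ofReal t2) := by gcongr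
        _ = ENNReal.ofReal (k * X * (D1 * t2 + B0 * t2) + E1 * (t2 + t2)) := by
            rw [← ENNReal.ofReal_mul nk, num5 (mul_nonneg nk nX) nD nB0 nE h2.le]
        _ ≤ _ := by
            apply ENNReal.ofReal_le_ofReal
            have h4 : k * X * (D1 * t2 + B0 * t2) + E1 * (t2 + t2) =
                t2 * (k * X * (D1 + B0) + 2 * E1) := by ring
            have h5 : ε' * (2 / L) ≤ ε' * N0 := mul_le_mul_of_nonneg_left hN1 hε'.le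
            have h6 : ε' * (2 / L) = 2 * ε' / L := by ring
            have h7 : ε' * ((Zs.card : ℝ) * M ^ 2) * r ^ 3 = ε' * N0 := by rw [hN0]; ring
            rw [h4, h7]
            linarith

end Crest.Agent.R096.Np_962
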