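import Crest.Agent.R096.Dcn3_635_Mg
import Crest.Agent.R096.Er4_594
import Crest.Agent.R096.Tau4_764_Mg
import Crest.Agent.R096.Blk3_764
import Crest.Agent.R096.Shc1_816
import Crest.Agent.R096.Bxn6_627
import Crest.Agent.R096.Np9_962_Mg

-- ▼ part R096/Frt3_899
section

/-!
Row 96 (S0127), NO0 for `p ≥ 3`, [U4] (helper899), part 3: small lemmas (minimum of scales, lower
bounds of the radii, enlarged cores, near bricks).
-/

set_option autoImplicit false
set_option linter.unusedSectionVars false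
set_option linter.unusedVariables false
open Set Filter Topology MeasureTheory Metric
open scoped NNReal ENNReal

noncomputable section

namespace Crest.Agent.R096.Frt_899

open Crest.Agent.R096.Brk5_582 Crest.Agent.R096.Bsp_628 Crest.Agent.R096.Log1_582
open Crest.Agent.R096.Log2_582 Crest.Agent.R096.Dic6_582
open Crest.Agent.R096.ThC6_766 (Scale)
open Crest.Agent.R96.Push_899 (EE co continuous_co LaE isOpen_LaE co_image_LaE IsStretch SE Box Uni
  brk' brk Mid)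
open Crest.Agent.R96.PnU_849 (Gm Gm_Gm Gm_sub norm_Gm_le norm_Gm_inv_le continuous_Gm)
open Crest.Agent.R96.En10_199 (P3)
open Crest.Agent.R096.SkC1_961 (E3 Hom3)
open Crest.Agent.R096.Bxs_627 (ctr)
open Crest.Agent.R096.EaX_766 (cbx lin RatA ExIn)
open Crest.Agent.R096.Npr_582 (bfOf)

/-! ### scales -/

theorem scale_min2 {V : Type*} [NormedAddCommGroup V] [InnerProductSpace ℝ V] {Λ : Set V}
    {w₁ w₂ : V → ℝ} (h1 : Scale Λ w₁) (h2 : Scale Λ w₂) : Scale Λ (fun y => min (w₁ y) (w₂ y)) := by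
  refine ⟨fun x => le_min (h1.nonneg x) (h2.nonneg x), fun x y => ?_, fun x hx =>
    lt_min (h1.pos x hx) (h2.pos x hx), fun x hx => ?_, fun x => (min_le_left _ _).trans (h1.le_one x)⟩
  · rcases min_cases (w₁ y) (w₂ y) with h | h
    · rw [h.1]; exact (min_le_left _ _).trans (h1.lip x y)
    · rw [h.1]; exact (min_le_right _ _).trans (h2.lip x y)
  · rw [h1.off x hx, h2.off x hx, min_self]

theorem loc_low {V : Type*} [PseudoMetricSpace V] {r : V → ℝ} (hc : Continuous r) {q : V}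
    (hq : 0 < r q) : ∃ ε : ℝ, 0 < ε ∧ ∃ m : ℝ, 0 < m ∧ ∀ z ∈ ball q ε, m ≤ r z := by
  have h1 : ∀ᶠ z in 𝓝 q, r q / 2 < r z :=
    hc.continuousAt.eventually_const_lt (by linarith)
  obtain ⟨ε, hε, h2⟩ := Metric.eventually_nhds_iff_ball.1 h1
  exact ⟨ε, hε, r q / 2, by linarith, fun z hz => (h2 z hz).le⟩

/-! ### bricks -/

theorem ctr_mem {Q : Bx (Fin 3)} (hQ : Q.Pos) : ctr Q ∈ Q.set := by
  rw [Bx.mem_set]
  intro i
  have h1 := Crest.Agent.R096.Bxs_627.ctr_lo Q i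
  have h2 := Crest.Agent.R096.Bxs_627.ctr_hi Q i
  have h3 := Bx.side_pos hQ i
  constructor <;> linarith

/-- points over the enlarged core are mapped into the open brick -/
theorem N_in {p : ℝ} {Om : Set E3} {f : E3 → E3} {D : E3 → E3 →L[ℝ] E3} {o : E3} {u κ1 κ2 κ0 : ℝ}
    {Q : Bx (Fin 3)} {A : E3 ≃ᵃ[ℝ] E3} {lam : ℝ} (h : ExIn p Om f D o u κ1 κ2 Q A lam) (hQ : Q.Pos)
    (asp : ∀ i, Q.sz ≤ κ0 * Q.side i) (hl : 0 < lam) (hl8 : lam ≤ 1 / 8) (hκ1 : 0 ≤ κ1)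
    (hκ : κ1 * κ0 ≤ 1 / 4) (hκ2 : 0 ≤ κ2) (hκ2' : κ2 ≤ 1 / 8) {x : E3}
    (hx : x ∈ A ⁻¹' cbx Q ((1 + 2 * κ2) * lam)) :
    x ∈ Om ∧ ∀ k, |f x k - ctr Q k| < Q.side k / 2 := by
  obtain ⟨h2, h3⟩ := h.cor x (Or.inr hx)
  refine ⟨h2, fun k => ?_⟩
  have h4 := norm_le_pi_norm (f x - A x) k
  rw [Pi.sub_apply, Real.norm_eq_abs] at h4
  have h5 : |A x k - ctr Q k| ≤ (1 + 2 * κ2) * lam * Q.side k / 2 := hx k
  have h6 := abs_sub_le (f x k) (A x k) (ctr Q k)
  have h8 := Bx.side_pos hQ k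
  have h9 : κ1 * (lam * Q.sz) ≤ 1 / 4 * (lam * Q.side k) := by
    calc κ1 * (lam * Q.sz) ≤ κ1 * (lam * (κ0 * Q.side k)) := by gcongr; exact asp k
      _ = κ1 * κ0 * (lam * Q.side k) := by ring
      _ ≤ _ := by gcongr
  have h10 : lam * Q.side k ≤ 1 / 8 * Q.side k := by gcongr
  have h11 : (1 + 2 * κ2) * lam * Q.side k ≤ 5 / 4 * (lam * Q.side k) := by
    rw [mul_assoc]
    have := mul_pos hl h8
    gcongr
    linarith
  linarith

theorem isClosed_cbx (Q : Bx (Fin 3)) (a : ℝ) : IsClosed (cbx Q a) := by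
  have : cbx Q a = ⋂ k, {y : E3 | |y k - ctr Q k| ≤ a * Q.side k / 2} := by
    ext y; simp [cbx]
  rw [this]
  refine isClosed_iInter fun k => ?_
  exact isClosed_le (by fun_prop) continuous_const

theorem continuous_aff (A : E3 ≃ᵃ[ℝ] E3) : Continuous A :=
  AffineMap.continuous_of_finiteDimensional (A : E3 →ᵃ[ℝ] E3)

theorem measurable_N (A : E3 ≃ᵃ[ℝ] E3) (Q : Bx (Fin 3)) (a : ℝ) :
    MeasurableSet (A ⁻¹' cbx Q a) :=
  ((isClosed_cbx Q a).preimage (continuous_aff A)).measurableSet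

/-- bricks near `K₀` are aligned (unit walls at the integer heights) -/
theorem uni_of_Nr {q : ℕ} {Λ K K₀ : Set (EE (Fin 3))} {M s : ℝ} {a : Fin 3 → ℝ} {α β : ℕ}
    {F : Set (Bx (Fin 3))}
    (h : Fr q Λ K M s (fun i => a i + s * (![(α : ℝ), β, 0] : Fin 3 → ℝ) i) F) (hM : 1 < M)
    (hK : K₀ ⊆ K) (c : F) (hc : Crest.Agent.R96.PnU_849.Nr K₀ s (brk h.foam c)) :
    Uni 2 a s (brk h.foam c) := by
  obtain ⟨y, hy, y₀, hy₀, hyy⟩ := hc
  exact uni_translate (h.uni_of_log (h.isLog hM hy (hK hy₀) hyy))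

theorem cores_disj {La : Set E3} {F : Set (Bx (Fin 3))} {δ κ0 : ℝ} (BF : BoxFoam La F δ κ0)
    {f : E3 → E3} {c c' : F} (hne : c ≠ c') {x : E3}
    (h1 : ∀ k, |f x k - ctr c.1 k| < c.1.side k / 2)
    (h2 : ∀ k, |f x k - ctr c'.1 k| < c'.1.side k / 2) : False := by
  obtain ⟨k, hk⟩ := BF.inv.disj c.2 c'.2 (BF.pos _ c.2) (BF.pos _ c'.2) (fun h => hne (Subtype.ext h))
  have h3 := abs_lt.1 (h1 k)
  have h4 := abs_lt.1 (h2 k)
  have h5 := Crest.Agent.R096.Bxs_627.ctr_lo c.1 k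
  have h6 := Crest.Agent.R096.Bxs_627.ctr_hi c.1 k
  have h7 := Crest.Agent.R096.Bxs_627.ctr_lo c'.1 k
  have h8 := Crest.Agent.R096.Bxs_627.ctr_hi c'.1 k
  rcases hk with hk | hk <;> linarith [h3.1, h3.2, h4.1, h4.2]

/-! ### the map in the stretched coordinates -/

section sh

open Crest.Agent.R96.En10_199 (P3_mp)
open Crest.Agent.R96.Sob7_199 (grad_of_wd)
open Crest.Agent.R096.Er_594
open Crest.Agent.R096.Sk_962 (SH)
open Crest.AnalysisR.VecCalc3 Crest.AnalysisR.Sobolev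
open Crest.Agent.R96.Acl_392
open Crest.Agent.R96.PnU_849

/-- helper4's `Tl_4.sh_of3` (copied: lighter imports) -/
theorem sh_of3 {p : ℝ} (hp : 1 ≤ p) {Om La : Set E3} (hO : IsOpen Om) {f : E3 → E3}
    {D : E3 → E3 →L[ℝ] E3} (h : SH3 p Om La f D) :
    SH p (P3.symm ⁻¹' Om) (P3.symm ⁻¹' La) (r3 f) (fun j y => row (D (P3.symm y)) j) := by
  have hp0 : 0 < p := by linarith
  have hmp : MeasurePreserving P3.symm (volume : Measure R3) (volume : Measure E3) :=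
    PiLp.volume_preserving_ofLp (Fin 3)
  have hem : MeasurableEmbedding P3.symm := P3.symm.toHomeomorph.measurableEmbedding
  have hOs := isOpen_symm_pre hO
  have hae : ∀ {F : Type} [TopologicalSpace F] {u : E3 → F},
      AEStronglyMeasurable u (volume.restrict Om) →
      AEStronglyMeasurable (fun y => u (P3.symm y)) (volume.restrict (P3.symm ⁻¹' Om)) := by
    intro F _ u hu
    have h1 : Measure.map P3.symm (volume.restrict (P3.symm ⁻¹' Om)) = volume.restrict Om := by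
      rw [← hem.restrict_map, hmp.map_eq]
    rw [← h1] at hu
    exact (hem.aestronglyMeasurable_map_iff).1 hu
  have hml : ∀ {u : R3 → R3}, AEStronglyMeasurable u (volume.restrict (P3.symm ⁻¹' Om)) →
      ∫⁻ y in P3.symm ⁻¹' Om, ‖u y‖ₑ ^ p ≠ ∞ →
      MemLp u (ENNReal.ofReal p) (volume.restrict (P3.symm ⁻¹' Om)) := by
    intro u h1 h2
    refine ⟨h1, ?_⟩
    rw [eLpNorm_lt_top_iff_lintegral_rpow_enorm_lt_top (by simpa using hp0) (by simp)]
    rw [ENNReal.toReal_ofReal hp0.le]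
    exact lt_top_iff_ne_top.2 h2
  have h22 : (2:ℝ≥0∞) ^ p ≠ ∞ := ENNReal.rpow_ne_top_of_nonneg hp0.le (by norm_num)
  refine ⟨homeo_of' h.homeo, hml ?_ ?_, fun j => grad_of_wd fun i => ?_, fun j => hml ?_ ?_⟩
  · have h1 := hae ((hom3_cont h.homeo).aestronglyMeasurable hO.measurableSet)
    exact P3.continuous.comp_aestronglyMeasurable h1
  · have h1 : ∫⁻ y in P3.symm ⁻¹' Om, ‖r3 f y‖ₑ ^ p ≤
        2 ^ p * ∫⁻ y in P3.symm ⁻¹' Om, ‖f (P3.symm y)‖ₑ ^ p := by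
      rw [← lintegral_const_mul' _ _ h22]
      apply lintegral_mono
      intro y
      change ‖P3 (f (P3.symm y))‖ₑ ^ p ≤ 2 ^ p * ‖f (P3.symm y)‖ₑ ^ p
      rw [← ENNReal.mul_rpow_of_nonneg _ _ hp0.le]
      apply ENNReal.rpow_le_rpow _ hp0.le
      rw [← ofReal_norm, ← ofReal_norm]
      refine (ENNReal.ofReal_le_ofReal (norm_P3_le _)).trans (le_of_eq ?_)
      rw [ENNReal.ofReal_mul (by norm_num)]
      norm_num
    refine ne_top_of_le_ne_top (ENNReal.mul_ne_top h22 ?_) h1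
    rw [← lint_P3_symm Om (fun x => ‖f x‖ₑ ^ p)]
    exact h.lp
  · have h1 := Crest.Agent.R96.En10_199.wd_comp_equiv (h.vwd i j) P3.symm hmp
    have h2 : (P3.symm.symm (Pi.single i (1:ℝ)) : R3) = EuclideanSpace.single i 1 := by
      rw [← Crest.Agent.R96.En10_199.P3_symm_single]
      exact P3.apply_symm_apply _
    rw [h2] at h1
    exact h1
  · have h1 := hae h.aesm
    have h2 : Continuous fun L : E3 →L[ℝ] E3 => row L j := by
      have : (fun L : E3 →L[ℝ] E3 => row L j) = fun L => P3 (fun i => L (Pi.single i 1) j) := rfl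
      rw [this]
      refine P3.continuous.comp (continuous_pi fun i => ?_)
      exact (continuous_apply (A := fun _ : Fin 3 => ℝ) j).comp
        (continuous_eval_const (F := E3 →L[ℝ] E3) (Pi.single i (1:ℝ) : E3))
    exact h2.comp_aestronglyMeasurable h1
  · have h1 : ∫⁻ y in P3.symm ⁻¹' Om, ‖row (D (P3.symm y)) j‖ₑ ^ p ≤
        2 ^ p * ∫⁻ y in P3.symm ⁻¹' Om, ‖D (P3.symm y)‖ₑ ^ p := by
      rw [← lintegral_const_mul' _ _ h22]
      apply lintegral_mono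
      intro y
      change ‖P3 (fun i => D (P3.symm y) (Pi.single i 1) j)‖ₑ ^ p ≤ 2 ^ p * ‖D (P3.symm y)‖ₑ ^ p
      rw [← ENNReal.mul_rpow_of_nonneg _ _ hp0.le]
      apply ENNReal.rpow_le_rpow _ hp0.le
      rw [← ofReal_norm, ← ofReal_norm]
      refine (ENNReal.ofReal_le_ofReal (((norm_P3_le _).trans (mul_le_mul_of_nonneg_left
        ((pi_norm_le_iff_of_nonneg (norm_nonneg (D (P3.symm y)))).2 fun i => ?_)
          (by norm_num))))).trans (le_of_eq ?_)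
      · refine (norm_le_pi_norm (D (P3.symm y) (Pi.single i 1)) j).trans ?_
        have h3 := (D (P3.symm y)).le_opNorm (Pi.single i (1:ℝ))
        have h4 : ‖(Pi.single i (1:ℝ) : E3)‖ = 1 := by
          rw [Pi.norm_single]; simp
        rwa [h4, mul_one] at h3
      · rw [ENNReal.ofReal_mul (by norm_num)]
        norm_num
    refine ne_top_of_le_ne_top (ENNReal.mul_ne_top h22 ?_) h1
    rw [← lint_P3_symm Om (fun x => ‖D x‖ₑ ^ p)]
    exact h.energy


/-- weak gradients and multiplication by a constant -/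
theorem hwg_smul {Om : Set R3} {v : R3 → ℝ} {g : R3 → R3} (h : HasWeakGradOn Om v g) (c : ℝ) :
    HasWeakGradOn Om (fun x => c * v x) (c • g) := by
  obtain ⟨h1, h2, h3⟩ := h
  refine ⟨?_, h2.smul c, ?_⟩
  · have h4 := h1.smul c
    exact h4
  · intro φ a1 a2 a3 i
    have h4 := h3 φ a1 a2 a3 i
    have e1 : ∫ x in Om, c * v x * pderiv φ i x = c * ∫ x in Om, v x * pderiv φ i x := by
      rw [← integral_const_mul]
      congr 1
      funext x; ring
    have e2 : ∫ x in Om, (c • g) x i * φ x = c * ∫ x in Om, g x i * φ x := by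
      rw [← integral_const_mul]
      congr 1
      funext x
      rw [Pi.smul_apply, PiLp.smul_apply, smul_eq_mul]; ring
    rw [e1, e2, h4]; ring

/-- the homeomorphism part -/
theorem homeo_Gm {Om La : Set R3} {f : R3 → R3} (h : IsHomeomorphOn f Om La) (k : Fin 3) {G : ℝ}
    (hG : G ≠ 0) : IsHomeomorphOn (fun x => Gm k G (f x)) Om (Gm k G '' La) := by
  obtain ⟨fi, a1, a2, a3, a4, a5, a6⟩ := h
  refine ⟨fun y => fi (Gm k G⁻¹ y), ?_, ?_, ?_, ?_, ?_, ?_⟩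
  · intro x hx; exact ⟨f x, a1 hx, rfl⟩
  · rintro _ ⟨y, hy, rfl⟩
    change fi (Gm k G⁻¹ (Gm k G y)) ∈ Om
    rw [Gm_Gm (inv_mul_cancel₀ hG)]; exact a2 hy
  · intro x hx
    change fi (Gm k G⁻¹ (Gm k G (f x))) = x
    rw [Gm_Gm (inv_mul_cancel₀ hG)]; exact a3 x hx
  · rintro _ ⟨y, hy, rfl⟩
    change Gm k G (f (fi (Gm k G⁻¹ (Gm k G y)))) = Gm k G y
    rw [Gm_Gm (inv_mul_cancel₀ hG), a4 y hy]
  · exact (continuous_Gm k G).comp_continuousOn a5
  · refine a6.comp (continuous_Gm k G⁻¹).continuousOn ?_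
    rintro _ ⟨y, hy, rfl⟩
    rw [Gm_Gm (inv_mul_cancel₀ hG)]; exact hy

/-- **the push of `SH` by `Gm k G`** (any `k`, any `G ≠ 0`) -/
theorem sh_Gm' {p : ℝ} {Om La : Set R3} {f : R3 → R3} {G₀ : Fin 3 → R3 → R3} (k : Fin 3) {G : ℝ}
    (hG : G ≠ 0) (h : SH p Om La f G₀) :
    SH p Om (Gm k G '' La) (fun x => Gm k G (f x)) (fun j => if j = k then G • G₀ k else G₀ j) := by
  refine ⟨homeo_Gm h.homeo k hG, ?_, ?_, ?_⟩
  · have h1 := h.mem.continuousLinearMap_comp ((GmL k G hG : R3 ≃L[ℝ] R3) : R3 →L[ℝ] R3)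
    exact h1
  · intro j
    by_cases hj : j = k
    · subst hj
      rw [if_pos rfl]
      have e1 : (fun x => Gm j G (f x) j) = fun x => G * f x j := by
        funext x; rw [Gm_k]
      rw [e1]
      exact hwg_smul (h.wg j) G
    · rw [if_neg hj]
      have e1 : (fun x => Gm k G (f x) j) = fun x => f x j := by
        funext x; rw [Gm_ne _ hj]
      rw [e1]
      exact h.wg j
  · intro j
    by_cases hj : j = k
    · subst hj
      rw [if_pos rfl]
      exact (h.memG j).const_smul G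
    · rw [if_neg hj]
      exact h.memG j

/-- both halves together -/
theorem sh_Gm3 {p : ℝ} (hp : 1 ≤ p) {Om La : Set E3} (hO : IsOpen Om) {f : E3 → E3}
    {D : E3 → E3 →L[ℝ] E3} (h : SH3 p Om La f D) {G : ℝ} (hG : 1 ≤ G) :
    SH p (P3.symm ⁻¹' Om) (Gm 2 G '' LaE La) (fun y => Gm 2 G (r3 f y))
      (fun j y => if j = 2 then G • row (D (P3.symm y)) 2 else row (D (P3.symm y)) j) := by
  have h1 : SH p (P3.symm ⁻¹' Om) (Gm 2 G '' LaE La) (fun y => Gm 2 G (r3 f y))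
      (fun j => if j = 2 then G • (fun y => row (D (P3.symm y)) 2) else
        (fun y => row (D (P3.symm y)) j)) :=
    sh_Gm' 2 (G := G) (by linarith) (sh_of3 hp hO h)
  have e : (fun j y => if j = 2 then G • row (D (P3.symm y)) 2 else row (D (P3.symm y)) j :
      Fin 3 → R3 → R3) = (fun j => if j = 2 then G • (fun y => row (D (P3.symm y)) 2) else
        (fun y => row (D (P3.symm y)) j)) := by
    funext j y
    by_cases hj : j = 2
    · simp only [if_pos hj, Pi.smul_apply]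
    · simp only [if_neg hj]
  rw [e]
  exact h1

end sh

end Crest.Agent.R096.Frt_899
end
end

-- ▼ part R096/Frt4_899
section

/-!
Row 96 (S0127), NO0 for `p ≥ 3`, [U4] (helper899), part 4: **the composition of the front**, with the
theorem on one brick (`BrickThm`) as a hypothesis.
-/

set_option autoImplicit false
set_option linter.unusedSectionVars false
set_option linter.unusedVariables false
open Set Filter Topology MeasureTheory Metric
open scoped NNReal ENNReal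

noncomputable section

namespace Crest.Agent.R096.Frt_899

open Crest.AnalysisR.VecCalc3 (R3)
open Crest.Agent.R096.Brk1_582 Crest.Agent.R096.Brk2_582 Crest.Agent.R096.Brk3_582
open Crest.Agent.R096.Brk4_582 Crest.Agent.R096.Brk5_582 Crest.Agent.R096.Bsp_628
open Crest.Agent.R096.Log1_582 Crest.Agent.R096.Log2_582 Crest.Agent.R096.Log3_582
open Crest.Agent.R096.Dic1_582 Crest.Agent.R096.Dic2_582 Crest.Agent.R096.Dic4_582
open Crest.Agent.R096.Dic6_582 Crest.Agent.R096.Dic7_582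
open Crest.Agent.R096.ThC6_766 (Scale)
open Crest.Agent.R96.Push_899 (EE co continuous_co LaE isOpen_LaE co_image_LaE IsStretch SE Box Uni
  brk' brk Mid StP St cutf foam0' asp' countable_brk Hole Psi Pun Lands)
open Crest.Agent.R96.PnU_849
open Crest.Agent.R96.En10_199 (P3)
open Crest.Agent.R096.SkC1_961 (E3 Hom3)
open Crest.Agent.R096.Bxs_627 (ctr HolT prepT)
open Crest.Agent.R096.EaX_766 (cbx lin RatA ExIn)
open Crest.Agent.R096.Npr_582 (bfOf cN)
open Crest.Agent.R096.Np_962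
open Crest.Agent.R096.Bxc1_635 (holeN holeN_hole' ctr_mid' coreN)
open Crest.Agent.R096.Dcn_635 (Vs)
open Crest.Agent.R096.Er_594 (SH3 e3 r3 D3 row symm_pre sh3_of)
open Crest.Agent.R096.Sk_962 (SH)
open Crest.Agent.R96.Lu_538 (Gmat)
open Crest.Agent.R096.Osc_802 (cube)
open Crest.Agent.R096.Toph_766 (Aff)
open Crest.Agent.R96.Str_520 (col)
open Crest.Agent.R096.Bks_896 (kf kf_pos measurable_kf)
open Crest.Agent.R096.Blk_764 (blocks3 C3 C3_ne_top cg hGD_of)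

open Classical in
/-- the ratio of the core of the brick `Q` -/
def lamU (q Gn : ℕ) (K₀ : Set (EE (Fin 3))) (h : ℝ) (Q : Box (Fin 3)) : ℝ :=
  if Nr K₀ h Q then 1 / (512 * kF q) else 1 / (512 * kF q * Gn)

/-- **the theorem on one brick** -/
def BrickThm (p : ℝ) : Prop :=
  ∀ q m Gn : ℕ, 1 ≤ q → 0 < m → GU (kF q) m ≤ Gn →
  ∀ κ1 κ2 : ℝ, 0 < κ1 → κ1 ≤ 1 / 4 → κ1 * kF q ≤ 1 / 4 → 0 < κ2 → κ2 ≤ 1 / 8 →
  ∃ C0 : ℝ, 0 ≤ C0 ∧ ∃ θ : ℝ, 0 < θ ∧ ∃ κ₁ : ℝ, 0 < κ₁ ∧ κ₁ ≤ 1 / 32 ∧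
  ∃ kE : ℝ → ℝ, Measurable kE ∧ (∀ x, 0 < x → 0 < kE x) ∧
  ∀ r : ℝ, 0 < r → ∃ hE : ℝ → ℝ, Continuous hE ∧ (∀ x, 0 < x → 0 < hE x) ∧ ∃ h₁ : ℝ, 0 < h₁ ∧
  ∀ (Om La : Set E3), IsOpen Om → Bornology.IsBounded Om → IsOpen La → Bornology.IsBounded La →
  ∀ K₀ : Set (EE (Fin 3)), IsCompact K₀ → K₀.Nonempty → cthickening (2 * r) K₀ ⊆ LaE La →
  ∀ h : ℝ, 0 < h → h < h₁ → StP (cutf K₀ r) h (ws m) (εU (kF q) m) (1 / r) →
  ∀ (a₀ : Fin 3 → ℝ) (α β₂ : ℕ) (S : EE (Fin 3) ≃ₜ EE (Fin 3)), IsStretch 2 (LaE La) h S →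
    ⇑S = St 2 (cutf K₀ r) (a₀ 2) h (ws m) (εU (kF q) m) →
  ∀ M : ℝ, 3 ≤ M → ∀ (F : Set (Bx (Fin 3)))
    (hF : Fr q (LaE La) (cthickening (2 * r) K₀) M h
      (fun i => a₀ i + h * (![(α : ℝ), β₂, 0] : Fin 3 → ℝ) i) F),
  ∀ (f₁ : R3 → R3) (G₁ : Fin 3 → R3 → R3) (β' : ℝ) (w μ κ δ : R3 → ℝ) (th : R3 → R3)
    (yc ξ : F → R3) (Th : R3 ≃ₜ R3) (G' : Fin 3 → R3 → R3) (τ : ℝ), 0 < β' → β' ≤ 1 / 2 →
    SH p (P3.symm ⁻¹' Om) (Gm 2 (GU (kF q) m) '' LaE La) f₁ G₁ →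
    Scale (Gm 2 (GU (kF q) m) '' LaE La) w →
    Scale (P3.symm ⁻¹' Om) μ → Scale (P3.symm ⁻¹' Om) δ →
    HolT p (P3.symm ⁻¹' Om) (Gm 2 (GU (kF q) m) '' LaE La) f₁ G₁ β' κ₁ w μ κ δ th
      (fun c : F => Gm 2 (GU (kF q) m) (P3 (ctr c.1))) (fun c : F => c.1.sz / (8 * kF q)) yc ξ Th
      G' τ →
    (∀ x ∈ P3.symm ⁻¹' Om, κ x ≤ kE (μ x)) → (∀ c : F, c.1.sz ≤ hE (μ (ξ c))) →
  ∀ G'' : Fin 3 → R3 → R3,
    SH p (P3.symm ⁻¹' Om) (LaE La) (fun x => S (Gm 2 (GU (kF q) m)⁻¹ (Th (f₁ x)))) G'' →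
    (∀ (U V : Set R3) (B : R3 →L[ℝ] R3) (ε : ℝ≥0), IsOpen U → U ⊆ P3.symm ⁻¹' Om → IsOpen V →
      (∀ x ∈ U, Th (f₁ x) ∈ V) →
      LipschitzOnWith ε (fun y => S (Gm 2 (GU (kF q) m)⁻¹ y) - B y) V →
      ∀ᵐ x, x ∈ U → ∀ i, ‖col G'' i x - B (col G' i x)‖ ≤ ε * ‖col G' i x‖) →
  ∃ A : F → E3 ≃ᵃ[ℝ] E3, ∀ c : F,
    ExIn p Om (e3 (fun x => S (Gm 2 (GU (kF q) m)⁻¹ (Th (f₁ x))))) (D3 G'')
      (fun i => a₀ i + h * (![(α : ℝ), β₂, 0] : Fin 3 → ℝ) i) h κ1 κ2 c.1 (A c)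
      (lamU q Gn K₀ h (brk' (bfOf hF) c)) ∧
    ‖lin (A c)‖ ≤ C0 * ‖Gmat G₁ (ξ c)‖ ∧
    A c ⁻¹' cbx c.1 ((1 + 2 * κ2) * lamU q Gn K₀ h (brk' (bfOf hF) c)) ⊆
      P3 ⁻¹' cube (ξ c) (4 * (c.1.sz / (8 * kF q)) / μ (ξ c)) ∧
    ∀ x : E3, ‖Aff f₁ G₁ (ξ c) (Gm 2 (GU (kF q) m) (P3 (ctr c.1)) - yc c) (P3 x) -
        Gm 2 (GU (kF q) m) (P3 (ctr c.1))‖ ≤ θ * c.1.sz →
      x ∈ A c ⁻¹' cbx c.1 ((1 + 2 * κ2) * lamU q Gn K₀ h (brk' (bfOf hF) c))

/-- the choice of `δ` -/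
theorem exists_delta {δ₁ d ε' C V : ℝ≥0∞} (h1 : 0 < δ₁) (hd : 0 < d) (hε : 0 < ε') (hC : C ≠ ⊤)
    (hV : V ≠ ⊤) : ∃ δ : ℝ≥0∞, 0 < δ ∧ δ ≤ δ₁ ∧ 2 * δ ≤ d / 2 ∧ C * (δ + V * δ) ≤ ε' := by
  have hd2 : 0 < d / 2 := ENNReal.half_pos hd.ne'
  obtain ⟨δ, hδ, hle⟩ := exists_mul_le (1 + 2 + C * (1 + V)) (by finiteness)
    (lt_min h1 (lt_min hd2 hε))
  have e1 := hle.trans (min_le_left _ _)
  have e2 := hle.trans ((min_le_right _ _).trans (min_le_left _ _))
  have e3 := hle.trans ((min_le_right _ _).trans (min_le_right _ _))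
  refine ⟨δ, hδ, ?_, ?_, ?_⟩
  · refine le_trans ?_ e1
    calc δ = 1 * δ := (one_mul δ).symm
      _ ≤ (1 + 2 + C * (1 + V)) * δ := by
          refine mul_le_mul' ?_ le_rfl
          rw [add_assoc]; exact le_self_add
  · refine le_trans ?_ e2
    refine mul_le_mul' ?_ le_rfl
    calc (2:ℝ≥0∞) ≤ 1 + 2 := le_add_self
      _ ≤ _ := le_self_add
  · refine le_trans ?_ e3
    calc C * (δ + V * δ) = C * (1 + V) * δ := by ring
      _ ≤ _ := mul_le_mul' le_add_self le_rfl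

theorem lamU_pos {q Gn : ℕ} (hGn : (0:ℝ) < Gn) (K₀ : Set (EE (Fin 3))) (h : ℝ)
    (Q : Box (Fin 3)) : 0 < lamU q Gn K₀ h Q := by
  have := one_le_kF q
  unfold lamU
  split_ifs <;> positivity

theorem lamU_ge {q Gn : ℕ} (hGn : (1:ℝ) ≤ Gn) (K₀ : Set (EE (Fin 3))) (h : ℝ)
    (Q : Box (Fin 3)) : 1 / (512 * kF q * Gn) ≤ lamU q Gn K₀ h Q := by
  have := one_le_kF q
  unfold lamU
  split_ifs
  · apply one_div_le_one_div_of_le (by positivity)
    nlinarith
  · exact le_rfl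

theorem lamU_le {q Gn : ℕ} (hGn : (1:ℝ) ≤ Gn) (K₀ : Set (EE (Fin 3))) (h : ℝ)
    (Q : Box (Fin 3)) : lamU q Gn K₀ h Q ≤ 1 / 512 := by
  have := one_le_kF q
  unfold lamU
  split_ifs
  · apply one_div_le_one_div_of_le (by norm_num)
    linarith
  · apply one_div_le_one_div_of_le (by norm_num)
    nlinarith

theorem lamU_rat (q Gn : ℕ) (K₀ : Set (EE (Fin 3))) (h : ℝ) (Q : Box (Fin 3)) :
    ∃ r : ℚ, lamU q Gn K₀ h Q = r := by
  have hk : ∃ n : ℚ, kF q = n := ⟨max 3 (2 * q), by unfold kF; push_cast; rfl⟩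
  obtain ⟨n, hn⟩ := hk
  unfold lamU
  rw [hn]
  split_ifs
  · exact ⟨1 / (512 * n), by push_cast; rfl⟩
  · exact ⟨1 / (512 * n * Gn), by push_cast; rfl⟩

theorem lamU_near {q Gn : ℕ} {K₀ : Set (EE (Fin 3))} {h : ℝ} {Q : Box (Fin 3)}
    (hQ : Nr K₀ h Q) : lamU q Gn K₀ h Q = 1 / (512 * kF q) := by
  unfold lamU
  rw [if_pos hQ]

set_option maxHeartbeats 1600000 in
/-- **FRONT OF NO0, `p ≥ 3`**, from the theorem on one brick -/
theorem exists_front3_of {p : ℝ} (hp : 3 ≤ p) (HB : BrickThm p) : ExFront3 p := by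
  intro s hs hs2 ε hε
  have hp1 : 1 ≤ p := by linarith
  have hp0 : 0 < p := by linarith
  have hV : Vs p s ≠ ⊤ :=
    ENNReal.sum_ne_top.2 fun l _ => ENNReal.rpow_ne_top_of_nonneg hp0.le (by simp)
  obtain ⟨q, hq, hqε, Hq⟩ := exists_consts2 hp1 (Vs p s) hV hε
  refine ⟨q, hq, fun κ2 hκ2 hκ2' ε' hε' => ?_⟩
  obtain ⟨d, hd, hdε, hd1, hcon⟩ := Hq ε' hε'
  have hκ0 : 1 ≤ kF q := one_le_kF q
  have hκ00 : 0 < kF q := by linarith
  have hd2 : 0 < d / 2 := ENNReal.half_pos hd.ne'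
  obtain ⟨m, hm, β, hβ, HU⟩ := pushNO_U (μ := (volume : Measure E3)) (E := E3) (2 : Fin 3)
    (a0 := kF q) (c₁ := 1 / (512 * kF q) / 2) (CT := 25 / 2) (p := p) hκ0 (by positivity)
    (by
      rw [div_div, div_le_one (by positivity)]
      nlinarith) (by norm_num) hp1
    (fun l : Fin 3 => (EuclideanSpace.single l (s l) : EE (Fin 3))) (fun l => by
      fin_cases l
      · simp
      · simp
      · simp [hs2]) hd2
  set G : ℝ := GU (kF q) m with hGd
  have hG : 1 ≤ G := GU_ge hκ0 hm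
  have hG0 : G ≠ 0 := by positivity
  obtain ⟨Gn, hGn⟩ := exists_nat_ge G
  have hGn1 : (1:ℝ) ≤ Gn := hG.trans hGn
  have hm1 : (1:ℝ) ≤ m := by exact_mod_cast hm
  have hlF : 0 < 1 / (512 * kF q * Gn) := by positivity
  have hlF1 : 1 / (512 * kF q * Gn) ≤ 1 := by
    rw [div_le_one (by positivity)]
    nlinarith
  refine ⟨1 / (512 * kF q * Gn), hlF, fun κ1 hκ1 => ?_⟩
  obtain ⟨δ₁, hδ₁, HU⟩ := HU (1 / (512 * kF q * Gn) / 2) (by positivity) (by linarith)
  -- bricks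
  set κ1' : ℝ := min κ1 (1 / (4 * kF q)) with hκ1'
  have hκ1p : 0 < κ1' := lt_min hκ1 (by positivity)
  have hκ1k : κ1' * kF q ≤ 1 / 4 := by
    calc κ1' * kF q ≤ 1 / (4 * kF q) * kF q := by gcongr; exact min_le_right _ _
      _ = 1 / 4 := by field_simp
  have hκ14 : κ1' ≤ 1 / 4 := by nlinarith
  obtain ⟨C0, hC0, θ, hθ, κ₁, hκ₁, hκ₁', kE, hkm, hkp, HB⟩ := HB q m Gn hq hm hGn κ1' κ2 hκ1p hκ14
    hκ1k hκ2 hκ2'
  have hC3 := C3_ne_top (p := p) (Gc := G) (C0 := C0) (lam0 := 1 / (512 * kF q * Gn)) hp1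
  obtain ⟨δ, hδ, hδ₁le, hδd, hδC⟩ := exists_delta (V := ENNReal.ofReal (∑ l, |s l| ^ p)) hδ₁ hd hε' hC3
    ENNReal.ofReal_ne_top
  refine ⟨δ, hδ, ?_⟩
  intro Om La f D hOm hOmne hOmb hLa hLab hSH hE hdet M ρ0 hM hρ0
  have hOmf : volume Om ≠ ⊤ := hOmb.measure_lt_top.ne
  obtain ⟨fi, hf1, hf2, hf3, hf4, hf5, hf6⟩ := hSH.homeo
  have hLE : IsOpen (LaE La) := isOpen_LaE hLa
  have hLac : (Laᶜ).Nonempty := compl_nonempty_of_bounded hLab
  have hLEb : Bornology.IsBounded (LaE La) := by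
    have h1 : LaE La = (P3 : E3 → EE (Fin 3)) '' La := by
      ext y
      constructor
      · intro hy; exact ⟨co y, hy, rfl⟩
      · rintro ⟨x, hx, rfl⟩; exact hx
    rw [h1]
    exact (P3 : E3 →L[ℝ] EE (Fin 3)).lipschitz.isBounded_image hLab
  set φ : E3 → EE (Fin 3) := fun x => P3 (f x) with hφ
  have hφc : ContinuousOn φ Om := P3.continuous.comp_continuousOn hf5
  have hφm : MapsTo φ Om (LaE La) := fun x hx => hf1 hx
  obtain ⟨K₀, hK, hKne, hKΛ, r, hr, hrΛ, e₀, he₀, s₀, hs₀, HU⟩ := HU Om (LaE La) φ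
    (fun l => Pi.single l 1) (fun l x => P3 (D x (Pi.single l 1))) hOm hOmne hOmf hLE hφc hφm hSH.vwd
    (hE.trans (mul_le_mul' hδ₁le le_rfl))
  -- the stretched target
  set Λ₁ : Set (EE (Fin 3)) := Gm 2 G '' LaE La with hΛ₁
  have hΛo : IsOpen Λ₁ := isOpen_GmI hG0 hLE
  have hΛb : Bornology.IsBounded Λ₁ := bounded_GmI hG hLEb
  have hΛc : (Λ₁ᶜ).Nonempty := by
    obtain ⟨z, hz⟩ := hLac
    exact ⟨Gm 2 G (P3 z), fun h => hz ((mem_GmI (Λ := LaE La) hG0).1 h)⟩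
  set t : ℝ := min 1 (min (4 / 5 * e₀) (2 / 5 * ρ0)) with ht
  have ht0 : 0 < t := lt_min one_pos (lt_min (by positivity) (by positivity))
  have ht1 : t ≤ 1 := min_le_left _ _
  have hte : 5 / 4 * t ≤ e₀ := by
    have : t ≤ 4 / 5 * e₀ := (min_le_right _ _).trans (min_le_left _ _)
    linarith
  have htρ : 5 / 4 * t ≤ ρ0 / 2 := by
    have : t ≤ 2 / 5 * ρ0 := (min_le_right _ _).trans (min_le_right _ _)
    linarith
  set w : EE (Fin 3) → ℝ := fun y => min (infDist y Λ₁ᶜ / 8) t with hwd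
  have hw : Scale Λ₁ w := scale_inf hΛo hΛc ht0 ht1
  have hwt : ∀ y, w y ≤ t := fun y => min_le_right _ _
  -- the map
  set Ω : Set R3 := P3.symm ⁻¹' Om with hΩd
  have hΩ : IsOpen Ω := hOm.preimage P3.symm.continuous
  have hΩb : Bornology.IsBounded Ω := by
    have h1 : Ω = (P3 : E3 → R3) '' Om := by
      ext y
      constructor
      · intro hy; exact ⟨P3.symm y, hy, P3.apply_symm_apply y⟩
      · rintro ⟨x, hx, rfl⟩
        show P3.symm (P3 x) ∈ Om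
        rwa [P3.symm_apply_apply]
    rw [h1]
    exact (P3 : E3 →L[ℝ] R3).lipschitz.isBounded_image hOmb
  set f₁ : R3 → R3 := fun y => Gm 2 G (r3 f y) with hf₁
  set G₁ : Fin 3 → R3 → R3 := fun j y =>
    if j = 2 then G • row (D (P3.symm y)) 2 else row (D (P3.symm y)) j with hG₁
  have hsh₁ : SH p Ω Λ₁ f₁ G₁ := sh_Gm3 hp1 hOm hSH hG
  set β' : ℝ := min (β / 4) (1 / 2) with hβ'
  have hβp : 0 < β' := lt_min (by positivity) (by norm_num)
  have hβ1 : β' ≤ 1 / 2 := min_le_right _ _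
  have hβ4 : 4 * β' ≤ β := by
    have : β' ≤ β / 4 := min_le_left _ _
    linarith
  have hσ : (0:ℝ) < 1 / (2 * kF q) := by positivity
  obtain ⟨μ, κ, δ', s₁, hμ, hδ', hκle, hs₁, hs₁w, -, Hprep⟩ := prepT hβp hβ1 hp hΩ hΩb hΛo hΛb hsh₁ hw
    hκ₁ hκ₁' (κf := fun x => min (kf p θ (1 / (2 * kF q)) x) (kE x))
    ((measurable_kf _ _ _).min hkm) (fun x hx => lt_min (kf_pos hθ hσ hx) (hkp x hx))
    (hf := fun _ => 1) continuousOn_const (fun _ _ => one_pos)
  obtain ⟨hE', hEc, hEp, h₁, hh₁, HB⟩ := HB r hr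
  have hμc := hμ.cont
  obtain ⟨s₂, hs₂, hs₂'⟩ := Crest.Agent.R096.Toph_766.exists_s1 hΩ hΛo hsh₁.homeo hw
    (h := fun x => hE' (μ x)) (by fun_prop) (fun x hx => hEp _ (hμ.pos x hx))
  have hs₃ := scale_min2 hs₁ hs₂
  obtain ⟨rho, hρL, hρ1, hρ32, hρs⟩ := exists_rho hLa hLab hG hs₃
  have hK'c : IsCompact (cthickening (2 * r) K₀) := hK.cthickening
  obtain ⟨s₀', hs₀', HF⟩ := exists_FrR hq hLE hLEb hK'c hrΛ (M := M) (by linarith) hρL hρ1 hρ32
  refine ⟨min s₀ (min s₀' (min (ρ0 / 2) h₁)), lt_min hs₀ (lt_min hs₀' (lt_min (by positivity) hh₁)),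
    fun h hh hhh => ?_⟩
  have hh0 : h < s₀ := hhh.trans_le (min_le_left _ _)
  have hh0' : h < s₀' := hhh.trans_le ((min_le_right _ _).trans (min_le_left _ _))
  have hhρ : h < ρ0 / 2 :=
    hhh.trans_le ((min_le_right _ _).trans ((min_le_right _ _).trans (min_le_left _ _)))
  have hhh₁ : h < h₁ :=
    hhh.trans_le ((min_le_right _ _).trans ((min_le_right _ _).trans (min_le_right _ _)))
  obtain ⟨hStP, HU⟩ := HU h hh hh0
  -- the collapse
  have hρc : Continuous rho := hρL.continuous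
  have hrc : Continuous fun y : EE (Fin 3) =>
      1 / (8 * kF q) * min (2 * q * h) (rho (co (Gm 2 G⁻¹ y)) / 6) := by
    have h2 : Continuous fun y : EE (Fin 3) => rho (co (Gm 2 G⁻¹ y)) :=
      hρc.comp (continuous_co.comp (continuous_Gm 2 G⁻¹))
    exact continuous_const.mul (continuous_const.min (h2.div_const 6))
  have hqp : (0:ℝ) < q := by exact_mod_cast hq
  obtain ⟨Phi, th, hCT, hthn, hthΛ, Hprep⟩ := Hprep
    (r := fun y : EE (Fin 3) => 1 / (8 * kF q) * min (2 * q * h) (rho (co (Gm 2 G⁻¹ y)) / 6))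
    (fun y hy => loc_low hrc (by
      have h2 : 0 < rho (co (Gm 2 G⁻¹ y)) := (hρ1 _).2 ⟨_, mem_of_GmI hG0 hy, rfl⟩
      have h3 : 0 < min (2 * q * h) (rho (co (Gm 2 G⁻¹ y)) / 6) :=
        lt_min (by positivity) (by positivity)
      positivity))
  have hthc : Continuous th := (hCT.lipschitz (by linarith)).continuous
  obtain ⟨a₀, ha₀, S, hS, hSe, X₀, hX₀O, hX₀m, hX₀v, hX₀K, HU⟩ := HU th hthc.continuousOn
    (fun y => (hthn y).trans (by
      have := hwt y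
      linarith)) 0
  -- the strips
  set φ₂ : E3 → EE (Fin 3) := fun x => Gm 2 G⁻¹ (th (Gm 2 G (P3 (f x)))) with hφ₂
  have hφ₂c : ContinuousOn φ₂ Om :=
    (continuous_Gm 2 G⁻¹).comp_continuousOn (hthc.comp_continuousOn
      ((continuous_Gm 2 G).comp_continuousOn hφc))
  have hφ₂m : ∀ i, AEMeasurable (fun x => φ₂ x i) (volume.restrict Om) := fun i =>
    (((EuclideanSpace.proj i).continuous.comp_continuousOn hφ₂c).aestronglyMeasurable
      hOm.measurableSet).aemeasurable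
  obtain ⟨α, β₂, hα, hβ₂, hstrip⟩ := exists_translate (μ := (volume : Measure E3)) (Ω := Om)
    (φ := φ₂) hq hh hφ₂m a₀
  set a : Fin 3 → ℝ := fun i => a₀ i + h * (![(α : ℝ), β₂, 0] : Fin 3 → ℝ) i with ha
  obtain ⟨F, hF, hFsz, hFlow⟩ := HF h hh hh0' a
  have bf : BoxFoam La F (dF q) (kF q) := bfOf hF
  have hcnt : Countable F := countable_brk hF.foam
  set lam : F → ℝ := fun c => lamU q Gn K₀ h (brk' bf c) with hlam
  have hl : ∀ c, 0 < lam c := fun c => lamU_pos (by linarith) _ _ _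
  have hl512 : ∀ c, lam c ≤ 1 / 512 := fun c => lamU_le hGn1 _ _ _
  have hl4 : ∀ c, lam c ≤ 1 / 4 := fun c => (hl512 c).trans (by norm_num)
  have hllow : ∀ c, 1 / (512 * kF q * Gn) ≤ lam c := fun c => lamU_ge hGn1 _ _ _
  set P : F → EE (Fin 3) := fun c => Gm 2 G (P3 (ctr c.1)) with hP
  set R : F → ℝ := fun c => c.1.sz / (8 * kF q) with hR
  obtain ⟨ho1, ho2, ho3, ho4, ho5⟩ := Crest.Agent.R096.Hok_358.holes_ok bf hG
  have hpos : ∀ c : F, c.1.Pos := fun c => bf.pos _ c.2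
  have hszp : ∀ c : F, 0 < c.1.sz := fun c => Bx.sz_pos (hpos c)
  have hPs : ∀ c : F, c.1.sz ≤ min (s₁ (P c)) (s₂ (P c)) := fun c =>
    (hFsz c.1 c.2 _ (ctr_mem (hpos c))).trans (hρs (ctr c.1))
  have hRsz : ∀ c : F, R c ≤ c.1.sz := fun c => div_le_self (hszp c).le (by linarith)
  obtain ⟨yc, ξ, Th, G', hol⟩ := Hprep P R ho1 (fun c => by
      have h1 := hFlow c.1 c.2 _ (ctr_mem (hpos c))
      have h2 : co (Gm 2 G⁻¹ (P c)) = ctr c.1 := by
        show co (Gm 2 G⁻¹ (Gm 2 G (P3 (ctr c.1)))) = _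
        rw [Gm_Gm (inv_mul_cancel₀ hG0)]; rfl
      show 1 / (8 * kF q) * min (2 * q * h) (rho (co (Gm 2 G⁻¹ (P c))) / 6) ≤ c.1.sz / (8 * kF q)
      rw [h2, one_div, inv_mul_eq_div]
      gcongr) (fun c => (hRsz c).trans ((hPs c).trans (min_le_left _ _))) ho3 ho4
    (τ := h / (16 * m)) (by positivity)
  -- (T4)
  have hK₀K' : K₀ ⊆ cthickening (2 * r) K₀ := self_subset_cthickening K₀
  have hU : ∀ c : F, Nr K₀ h (brk' bf c) → Uni 2 a₀ h (brk' bf c) := fun c hc =>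
    uni_of_Nr hF (by linarith) hK₀K' c hc
  have hτ : ∀ y, h / (16 * m) * w y ≤ h / (16 * m) := fun y =>
    mul_le_of_le_one_right (by positivity) (hw.le_one y)
  have hT4 := Crest.Agent.R096.Tau_764.T4_tau (k := (2 : Fin 3)) (a0 := kF q) hκ0 hm (K₀ := K₀)
    (Λ := LaE La) (a := a₀) hh (Q := brk' bf) hU (x := fun c => P3 (ctr c.1)) (P := P) (R := R)
    (fun c i => rfl) (fun c => rfl) (fun c i => ho5 c i) (T := Th) (th := th) (w := w)
    (τ := h / (16 * m)) (β := β) (β' := β') hβ4 hτ hol.tau hol.tloc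
  obtain ⟨hXK, hEn⟩ := HU Th hol.lip (fun y => (hol.disp y).trans (by
      have := hwt y
      linarith)) hT4 F (brk' bf) (foam0' bf) (fun c i j => asp' bf c i j) hU (fun c => ctr c.1)
    (holeN bf lam hl) (fun c => ctr_mid' bf c) (fun c => holeN_hole' bf lam hl hl4 (by positivity) c
      (by
        have := hllow c
        linarith)) (fun c hc => holeN_hole' bf lam hl hl4 (by positivity) c (by
        have h1 : lam c = 1 / (512 * kF q) := lamU_near hc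
        rw [h1]))
  -- the Sobolev homeomorphism
  have hΩv : volume Ω ≠ ⊤ := hΩb.measure_lt_top.ne
  obtain ⟨G'', hsh2, hcol2, hcl⟩ := Crest.Agent.R096.Shc_816.sh_comp2 hΩ hΩv hol.sh
    (H := SGh 2 G hG0 S) (Λ' := LaE La) (fun y => SGh_mem hG0 hS y) (K := 4) (by
      refine LipschitzWith.of_dist_le_mul fun y y' => ?_
      rw [dist_eq_norm, dist_eq_norm]
      show ‖S (Gm 2 G⁻¹ y) - S (Gm 2 G⁻¹ y')‖ ≤ _
      rw [hSe]
      exact SG_lipK hStP hG (GU_slope hκ0 hm) y y')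
  have hnearξ : ∀ c : F, ‖f₁ (ξ c) - P c‖ ≤ w (P c) := by
    intro c
    have h1 := hol.near_good c
    have h2 := hol.near_P c
    have h3 := hs₁w (P c) (ho1 c)
    have h4 : R c ≤ s₁ (P c) := (hRsz c).trans ((hPs c).trans (min_le_left _ _))
    have h5 := hw.nonneg (P c)
    have e : f₁ (ξ c) - P c = -(yc c - f₁ (ξ c)) - (P c - yc c) := by abel
    rw [e]
    refine (norm_sub_le _ _).trans ?_
    rw [norm_neg]
    linarith
  have hξΩ : ∀ c, ξ c ∈ Ω := fun c => (hol.ee c).1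
  obtain ⟨A, hA⟩ := HB Om La hOm hOmb hLa hLab K₀ hK hKne hrΛ h hh hhh₁ hStP a₀ α β₂ S hS hSe M hM F hF
    f₁ G₁ β' w μ κ δ' th yc ξ Th G' (h / (16 * m)) hβp hβ1 hsh₁ hw hμ hδ' hol
    (fun x hx => (hκle x hx).trans (min_le_right _ _))
    (fun c => (hPs c).trans ((min_le_right _ _).trans ((hs₂' (P c) (ho1 c)).2 _ (hξΩ c) (hnearξ c))))
    G'' hsh2 hcl
  -- the final map
  set f1 : E3 → E3 := fun x => co (S (Gm 2 G⁻¹ (Th (Gm 2 G (P3 (f x)))))) with hf1d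
  have e1 : e3 (fun x => S (Gm 2 G⁻¹ (Th (f₁ x)))) = f1 := by
    funext x
    show P3.symm (S (Gm 2 G⁻¹ (Th (Gm 2 G (P3 (f (P3.symm (P3 x)))))))) = _
    rw [P3.symm_apply_apply]
    rfl
  have hSH1 : SH3 p Om La f1 (D3 G'') := by
    have h1 := sh3_of hp1 hΩ hsh2
    have e2 : P3 ⁻¹' Ω = Om := symm_pre Om
    have e4 : P3 ⁻¹' (LaE La) = La := rfl
    rw [e2, e4] at h1
    rw [← e1]
    exact h1
  have hex : ∀ c, ExIn p Om f1 (D3 G'') a h κ1' κ2 c.1 (A c) (lam c) := fun c => by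
    have h1 := (hA c).1
    rw [e1] at h1
    exact h1
  -- the enlarged cores
  set N : F → Set E3 := fun c => A c ⁻¹' cbx c.1 ((1 + 2 * κ2) * lam c) with hN
  have hasp : ∀ c : F, ∀ i, c.1.sz ≤ kF q * c.1.side i := fun c i => bf.asp _ c.2 i
  have hNin : ∀ c x, x ∈ N c → x ∈ Om ∧ ∀ k, |f1 x k - ctr c.1 k| < c.1.side k / 2 := fun c x hx =>
    N_in (hex c) (hpos c) (hasp c) (hl c) ((hl512 c).trans (by norm_num)) hκ1p.le hκ1k hκ2.le hκ2' hx
  have hNd : Pairwise (Function.onFun Disjoint N) := by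
    intro c c' hcc
    rw [Function.onFun, Set.disjoint_left]
    intro x hx hx'
    exact cores_disj bf hcc (hNin c x hx).2 (hNin c' x hx').2
  have hKN : ∀ c : F, A c ⁻¹' cbx c.1 (lam c) ⊆ N c := by
    intro c x hx k
    refine (hx k).trans ?_
    have h1 := hl c
    have h2 := Bx.side_pos (hpos c) k
    have h3 : 0 ≤ κ2 * (lam c * c.1.side k) := by positivity
    nlinarith
  obtain ⟨hvN, hcs⟩ := blocks3 (p := p) hp1 (Gc := G) (C0 := C0) (lam0 := 1 / (512 * kF q * Gn))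
    (θ := θ) (σ := 1 / (2 * kF q)) hG hC0 hlF hθ hσ hOm (D := D) (Ω := Ω) rfl (f₁ := f₁) (G₁ := G₁)
    (fun j => (hsh₁.memG j).1) (Eventually.of_forall fun x _ j => by
      have h1 := hGD_of (D := D) G x j
      rw [← h1]
      show (if j = 2 then G • row (D (P3.symm (P3 x))) 2 else row (D (P3.symm (P3 x))) j) = _
      by_cases hj : j = 2
      · simp only [if_pos hj, Pi.smul_apply]
      · simp only [if_neg hj])
    (μ := μ) (κ := κ) (δ := δ') (fun x hx => hμ.pos x hx)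
    (fun x hx => (hκle x hx).trans (min_le_left _ _)) (ξ := ξ) (t := fun c => P c - yc c) (P := P)
    (R := R) (sz := fun c => c.1.sz) (lam := lam) (A := A) (N := N)
    (K := fun c => A c ⁻¹' cbx c.1 (lam c)) hol.ee hol.good ho2 (fun c => by
      show 4 * (c.1.sz / (8 * kF q)) ≤ 1 / (2 * kF q) * c.1.sz
      apply le_of_eq
      field_simp
      ring) (fun c => measurable_N _ _ _) hNd (fun c => (hA c).2.2.1)
    (fun c x hx => (hA c).2.2.2 x hx) hKN hllow (fun c => (hA c).2.1)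
  -- the bad set
  set X : Set E3 := X₀ ∪ ⋃ c, N c with hX
  have hXO : X ⊆ Om := union_subset hX₀O (iUnion_subset fun c x hx => (hNin c x hx).1)
  have hXm : MeasurableSet X := hX₀m.union (MeasurableSet.iUnion fun c => measurable_N _ _ _)
  have hXv : volume X ≤ d * volume Om := by
    calc volume X ≤ volume X₀ + volume (⋃ c, N c) := measure_union_le _ _
      _ ≤ d / 2 * volume Om + 2 * (δ * volume Om) :=
        add_le_add hX₀v (hvN.trans (mul_le_mul' le_rfl hdet))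
      _ = (d / 2 + 2 * δ) * volume Om := by ring
      _ ≤ (d / 2 + d / 2) * volume Om := by gcongr
      _ = d * volume Om := by rw [ENNReal.add_halves]
  have hnotX₀ : ∀ x ∈ Om \ X, x ∈ Om \ X₀ := fun x hx => ⟨hx.1, fun h => hx.2 (Or.inl h)⟩
  set ψ : E3 → EE (Fin 3) := fun x => Gm 2 G⁻¹ (Th (Gm 2 G (P3 (f x)))) with hψ
  obtain ⟨hψc, hψm, hψw⟩ := Crest.Agent.R096.Dcn3_635.phi_data hOm hS (φ := ψ) hSH1
  have hstrip' : (volume.restrict Om) (Strip q a h φ₂) ≤ 6 / (q : ℝ≥0∞) * volume Om := by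
    refine hstrip.trans (le_of_eq ?_)
    simp only [div_eq_mul_inv]; ring
  obtain ⟨HH, g, hFC⟩ := Crest.Agent.R096.Dcn2_635.frontC_of2 hp1 hs hs2 (ε := ε) (ε' := ε') (d := d)
    hqε hdε hd1 hcon hOm hLa hK'c hrΛ hF hM lam hl hl4 hψc hψm hψw hS
    (Crest.Agent.R096.Dcn3_635.hom3_f1 hSH.homeo hG (fun y => hol.mem y) hS) hXO hXm hXv
    (fun x hx => hK₀K' (hXK x (hnotX₀ x hx)).1)
    (Crest.Agent.R096.Dcn3_635.hXh_of bf lam hl hκ2.le hκ1p.le hκ1k hex
      (fun c => (subset_iUnion N c).trans subset_union_right))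
    (fun x hx c hc => (hXK x (hnotX₀ x hx)).2 c hc)
    (φ₂ := φ₂) (fun x hx i => by
      have h1 := (hT4 (Gm 2 G (P3 (f x))) ⟨_, hφm hx.1, rfl⟩ (hX₀K x (hnotX₀ x hx)).2).1
      have h2 : ‖ψ x - φ₂ x‖ ≤ h / (16 * m) := by
        show ‖Gm 2 G⁻¹ (Th (Gm 2 G (P3 (f x)))) - Gm 2 G⁻¹ (th (Gm 2 G (P3 (f x))))‖ ≤ _
        rw [Gm_sub]
        exact (norm_Gm_inv_le hG _).trans h1
      have h3 := Crest.Agent.R96.PnU_849.abs_le_norm (ψ x - φ₂ x) i
      rw [PiLp.sub_apply] at h3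
      refine h3.trans (h2.trans ?_)
      apply div_le_div_of_nonneg_left hh.le (by norm_num)
      linarith)
    hstrip'
    (fun D' hD' => (hEn D' hD').trans (mul_le_mul' ENNReal.half_le_self le_rfl))
  refine ⟨a, F, bf, hF.cmp, lam, hl, hl4, A, f1, D3 G'', X, HH, g, ?_⟩
  exact
    { c := hFC
      sh := hSH1
      near := fun x _ => (Crest.Agent.R096.Dcn3_635.near_f1 hG (t := 5 / 4 * t) (fun y =>
        (hol.disp y).trans (by
          have := hwt y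
          linarith)) hS x).trans (by linarith)
      nb := Crest.Agent.R096.Dcn3_635.nb_f1 hLa hLac hG (Ct := 5 / 4) (by norm_num) hw hol.disp
        hh.le hS
      dy := hF.dy
      rat := fun c => ⟨hllow c, lamU_rat _ _ _ _ _⟩
      ex := fun c => Crest.Agent.R096.Dcn3_635.exIn_mono (hl c).le (hszp c).le (min_le_left _ _)
        (hex c)
      XN := fun c => (subset_iUnion N c).trans subset_union_right
      cs := by
        refine (hcs s hs2).trans ?_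
        calc _ ≤ C3 p G C0 (1 / (512 * kF q * Gn)) * (δ * volume Om +
              ENNReal.ofReal (∑ l, |s l| ^ p) * (δ * volume Om)) := by gcongr
          _ = C3 p G C0 (1 / (512 * kF q * Gn)) * (δ + ENNReal.ofReal (∑ l, |s l| ^ p) * δ) *
              volume Om := by ring
          _ ≤ ε' * volume Om := by gcongr }

end Crest.Agent.R096.Frt_899
end
end

-- ▼ part R096/Frt5_899
section

/-!
Row 96 (S0127), NO0 for `p ≥ 3`, [U4] (helper899), part 5: **`exists_front3`**, from 627's theorem on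
one brick (`exIn_hol3`).
-/

set_option autoImplicit false
set_option linter.unusedSectionVars false
set_option linter.unusedVariables false
open Set Filter Topology MeasureTheory Metric
open scoped NNReal ENNReal

noncomputable section

namespace Crest.Agent.R096.Frt_899

open Crest.AnalysisR.VecCalc3 (R3)
open Crest.Agent.R096.Brk5_582 Crest.Agent.R096.Bsp_628
open Crest.Agent.R096.Log1_582 Crest.Agent.R096.Log2_582
open Crest.Agent.R096.Log3_582 (isLog_side isLog_sz)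
open Crest.Agent.R096.Dic6_582 Crest.Agent.R096.Dic7_582
open Crest.Agent.R096.ThC6_766 (Scale)
open Crest.Agent.R96.Push_899 (EE co continuous_co LaE isOpen_LaE co_image_LaE IsStretch SE Box Uni
  brk' brk Mid StP St cutf foam0' asp' bf_LaE brk_dist mem_SE_toBox mem_SE_brk cutf_eq_zero
  cutf_eq_one)
open Crest.Agent.R96.PnU_849
open Crest.Agent.R96.En10_199 (P3)
open Crest.Agent.R096.SkC1_961 (E3 Hom3)
open Crest.Agent.R096.Bxs_627 (ctr HolT HolN exIn_hol3 dgf dgf_k dgf_ne NearS nearS_uni nearS_off msl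
  ctr_lo ctr_hi)
open Crest.Agent.R096.EaX_766 (cbx lin RatA ExIn)
open Crest.Agent.R096.Npr_582 (bfOf cN)
open Crest.Agent.R096.Np_962
open Crest.Agent.R096.Er_594 (SH3 e3 r3 D3 row symm_pre sh3_of isOpen_symm_pre)
open Crest.Agent.R096.Sk_962 (SH)
open Crest.Agent.R96.Lu_538 (Gmat)
open Crest.Agent.R096.Osc_802 (cube)
open Crest.Agent.R096.Toph_766 (Aff)
open Crest.Agent.R96.Str_520 (col)

theorem dgf_eq (k : Fin 3) (g : ℝ) : dgf k g = Gm k g := by
  funext y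
  ext i
  by_cases hi : i = k
  · subst hi; rw [dgf_k, Gm_k]
  · rw [dgf_ne _ _ hi, Gm_ne _ hi]

theorem msl_eq (a0 : ℝ) (m : ℕ) : msl (ws m) (εU a0 m) = GU a0 m := by
  unfold msl GU
  ring

section near

variable {q m : ℕ} {La : Set E3} {K₀ : Set (EE (Fin 3))} {r h M : ℝ} {a₀ : Fin 3 → ℝ}
  {α β₂ : ℕ} {F : Set (Bx (Fin 3))}

/-- the centre of a brick -/
theorem ctr_SE (bf : BoxFoam (co '' LaE La) F (dF q) (kF q)) (c : F) :
    P3 (ctr c.1) ∈ SE (brk bf c) := by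
  rw [mem_SE_brk]
  exact ctr_mem (bf.pos c.1 c.2)

/-- points near the centre are in the brick -/
theorem mem_SE_of (bf : BoxFoam (co '' LaE La) F (dF q) (kF q)) (c : F) {y : EE (Fin 3)}
    (hy : ∀ i, |y i - P3 (ctr c.1) i| ≤ c.1.side i / 2) : y ∈ SE (brk bf c) := by
  rw [mem_SE_brk, Bx.mem_set]
  intro i
  have h1 := abs_le.1 (hy i)
  have h2 : P3 (ctr c.1) i = ctr c.1 i := rfl
  have h3 := ctr_lo c.1 i
  have h4 := ctr_hi c.1 i
  have h5 : co y i = y i := rfl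
  rw [h2] at h1
  rw [h5]
  constructor <;> linarith [h1.1, h1.2]

/-- **a brick which is no log is off the support of the cut-off** -/
theorem cutf_zero_of (hr : 0 < r) (hM : 1 < M) (hne : K₀.Nonempty)
    (hF : Fr q (LaE La) (cthickening (2 * r) K₀) M h
      (fun i => a₀ i + h * (![(α : ℝ), β₂, 0] : Fin 3 → ℝ) i) F) {c : F}
    (hc : ¬ IsLog q (fun i => a₀ i + h * (![(α : ℝ), β₂, 0] : Fin 3 → ℝ) i) h c.1)
    {y : EE (Fin 3)} (hy : y ∈ SE (brk hF.foam c)) : cutf K₀ r y = 0 := by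
  apply cutf_eq_zero hr
  by_contra hcon
  push Not at hcon
  apply hc
  obtain ⟨z, hz, hyz⟩ := (infDist_lt_iff hne).1 hcon
  exact hF.isLog hM hy (mem_cthickening_of_dist_le y z _ _ hz hyz.le)
    (by rw [sub_self, norm_zero]; exact hF.s0.le)

/-- **a brick near `K₀`**: the cut-off is `1` at the centre -/
theorem cutf_one_of (hr : 0 < r)
    (bf : BoxFoam (co '' LaE La) F (dF q) (kF q)) {c : F} (hsz : c.1.sz ≤ 2 * q * h)
    (hh : (6 * q + 1) * h ≤ r) (hc : Nr K₀ h (brk bf c)) : cutf K₀ r (P3 (ctr c.1)) = 1 := by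
  apply cutf_eq_one hr
  obtain ⟨y, hy, y₀, hy₀, hyy⟩ := hc
  refine (infDist_le_dist_of_mem hy₀).trans ?_
  have h1 := brk_dist bf hy (ctr_SE bf c)
  rw [Fintype.card_fin] at h1
  push_cast at h1
  have h2 := dist_triangle (P3 (ctr c.1)) y y₀
  rw [dist_eq_norm, dist_eq_norm] at h2
  have h3 : dist (P3 (ctr c.1)) y₀ ≤ 3 * c.1.sz + h := h2.trans (by
    rw [dist_eq_norm]; linarith)
  nlinarith

end near

/-- **the theorem on one brick** (627's `exIn_hol3` for all bricks of a log foam) -/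
theorem brickThm {p : ℝ} (hp : 3 ≤ p) : BrickThm p := by
  intro q m Gn hq hm hGn κ1 κ2 hκ1 hκ1a hκ1b hκ2 hκ2a
  have hkF := one_le_kF q
  have hkF0 : 0 < kF q := by linarith
  have hG1 : 1 ≤ GU (kF q) m := GU_ge hkF hm
  have hG0 : 0 < GU (kF q) m := by linarith
  have hGn1 : (1:ℝ) ≤ Gn := hG1.trans hGn
  have hGn0 : (0:ℝ) < Gn := by linarith
  have hws := ws_pos hm
  have hws8 := ws_le hm
  have hGws := GU_ws hkF hm
  obtain ⟨κ₁, ca, cb, b1, b2, b3, b4, H⟩ := exIn_hol3 hp hkF (one_div_pos.2 hGn0) hκ1 hκ1a hκ2.le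
    (by linarith : κ2 < 1 / 4)
  refine ⟨3, by norm_num, 1 / (Gn:ℝ) / (2048 * kF q ^ 2), by positivity, κ₁, b1,
    b2.trans (by norm_num), fun x => ca * x ^ (p + 6), by fun_prop,
    fun x hx => by positivity, ?_⟩
  intro r hr
  refine ⟨fun x => 8 * kF q * r * cb * x ^ 4, by fun_prop, fun x hx => by positivity,
    r / ((6 * q + 1) * (Gn:ℝ)), by positivity, ?_⟩
  intro Om La hO hOb hLa hLab K₀ hK hne hKL h hh hhr hP a₀ α β₂ S hS hSt M hM F hF
    f₁ G₁ β' w μ κ δ th yc ξ Th G' τ hβ hβ' sh₁ hw hμ hδ hol hκ hsz G'' sh₂ hG''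
  have hM1 : 1 < M := by linarith
  have hq1 : (1:ℝ) ≤ q := by exact_mod_cast hq
  have hh1 : (6 * q + 1) * (Gn * h) ≤ r := by
    rw [lt_div_iff₀ (by positivity)] at hhr
    linarith
  have hh2 : (6 * q + 1) * h ≤ r := by
    refine le_trans ?_ hh1
    gcongr
    nlinarith
  have hkq : 2 * (q:ℝ) ≤ kF q := le_max_right _ _
  have hcont : ContinuousOn f₁ (P3.symm ⁻¹' Om) := by
    obtain ⟨_, -, -, -, -, h5, -⟩ := sh₁.homeo
    exact h5
  have key : ∀ c : F, ∃ A : E3 ≃ᵃ[ℝ] E3,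
      ExIn p Om (e3 (fun x => S (Gm 2 (GU (kF q) m)⁻¹ (Th (f₁ x))))) (D3 G'')
        (fun i => a₀ i + h * (![(α : ℝ), β₂, 0] : Fin 3 → ℝ) i) h κ1 κ2 c.1 A
        (lamU q Gn K₀ h (brk' (bfOf hF) c)) ∧
      ‖lin A‖ ≤ 3 * ‖Gmat G₁ (ξ c)‖ ∧
      A ⁻¹' cbx c.1 ((1 + 2 * κ2) * lamU q Gn K₀ h (brk' (bfOf hF) c)) ⊆
        P3 ⁻¹' cube (ξ c) (4 * (c.1.sz / (8 * kF q)) / μ (ξ c)) ∧
      ∀ x : E3, ‖Aff f₁ G₁ (ξ c) (Gm 2 (GU (kF q) m) (P3 (ctr c.1)) - yc c) (P3 x) -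
          Gm 2 (GU (kF q) m) (P3 (ctr c.1))‖ ≤ 1 / (Gn:ℝ) / (2048 * kF q ^ 2) * c.1.sz →
        x ∈ A ⁻¹' cbx c.1 ((1 + 2 * κ2) * lamU q Gn K₀ h (brk' (bfOf hF) c)) := by
    intro c
    have hQ : c.1.Pos := hF.foam.pos c.1 c.2
    have hs := Bx.sz_pos hQ
    have hsz2 := hF.size c.1 c.2
    have asp : ∀ j, c.1.sz ≤ kF q * c.1.side j := hF.foam.asp c.1 c.2
    -- the slope of the brick
    set χ := cutf K₀ r with hχ
    obtain ⟨γ, hγ0, hγG, hlam⟩ : ∃ γ : ℝ, 1 / (Gn:ℝ) ≤ γ ∧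
        γ * GU (kF q) m ≤ 1 + χ (P3 (ctr c.1)) * (GU (kF q) m - 1) ∧
        lamU q Gn K₀ h (brk' (bfOf hF) c) = γ / (512 * kF q) := by
      by_cases hN : Nr K₀ h (brk' (bfOf hF) c)
      · refine ⟨1, ?_, ?_, ?_⟩
        · rw [div_le_one hGn0]; exact hGn1
        · rw [hχ, cutf_one_of hr hF.foam hsz2 hh2 hN]; linarith
        · unfold lamU
          rw [if_pos hN]
      · refine ⟨1 / (Gn:ℝ), le_rfl, ?_, ?_⟩
        · have h1 : 1 / (Gn:ℝ) * GU (kF q) m ≤ 1 := by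
            rw [one_div, inv_mul_le_iff₀ hGn0, mul_one]; exact hGn
          have h2 := mul_nonneg (hP.χ0 (P3 (ctr c.1))) (sub_nonneg.2 hG1)
          linarith
        · unfold lamU
          rw [if_neg hN]
          field_simp
    -- the radius of the map
    obtain ⟨ρ, hρ0, hNS, hρ1, hρ2⟩ : ∃ ρ : ℝ, 0 < ρ ∧
        NearS 2 S χ (GU (kF q) m) (P3 (ctr c.1)) (c.1.sz / (8 * kF q) / 16) ρ ∧
        c.1.sz / (8 * kF q) / 16 < GU (kF q) m * ρ ∧
        GU (kF q) m * (1 / r) * (ρ + c.1.sz / (8 * kF q) / 16) ≤ 1 / 2 := by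
      have hR : c.1.sz / (8 * kF q) / 16 ≤ h / 128 := by
        rw [div_div, div_le_div_iff₀ (by positivity) (by norm_num)]
        have h1 : c.1.sz ≤ kF q * h := hsz2.trans (by gcongr)
        linarith
      by_cases hlog : IsLog q (fun i => a₀ i + h * (![(α : ℝ), β₂, 0] : Fin 3 → ℝ) i) h c.1
      · have hU : Uni 2 a₀ h (brk hF.foam c) := uni_translate (hF.uni_of_log hlog)
        obtain ⟨N, hN⟩ := uni_mid hU
        refine ⟨ws m * h, by positivity, ?_, ?_, ?_⟩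
        · rw [hSt, ← msl_eq]
          refine nearS_uni hP (by linarith) (N := N) ?_ _
          have h1 : P3 (ctr c.1) 2 = ((brk hF.foam c).lo 2 + (brk hF.foam c).hi 2) / 2 := rfl
          rw [h1, hN]
          rfl
        · have : 0.49 * h ≤ GU (kF q) m * (ws m * h) := by
            rw [← mul_assoc]; gcongr
          linarith
        · have h1 : ws m * h ≤ 1 / 8 * h := by gcongr
          have h2 : GU (kF q) m * h ≤ r / 7 := by
            have h3 : GU (kF q) m * h ≤ Gn * h := by gcongr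
            have h4 : 7 * (Gn * h) ≤ (6 * q + 1) * (Gn * h) := by
              gcongr
              linarith
            linarith
          have h5 : GU (kF q) m * (1 / r) * (ws m * h + c.1.sz / (8 * kF q) / 16) ≤
              GU (kF q) m * (1 / r) * (1 / 8 * h + h / 128) := by gcongr
          refine h5.trans ?_
          have h6 : GU (kF q) m * (1 / r) * (1 / 8 * h + h / 128) =
              (GU (kF q) m * h) / r * (17 / 128) := by ring
          rw [h6]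
          have h7 : (GU (kF q) m * h) / r ≤ 1 / 7 := by
            rw [div_le_iff₀ hr]; linarith
          linarith
      · have hside : ∀ j, c.1.sz / (8 * kF q) ≤ c.1.side j / 8 := by
          intro j
          rw [div_le_div_iff₀ (by positivity) (by norm_num)]
          have := asp j
          linarith
        refine ⟨c.1.sz / (8 * kF q) / 8, by positivity, ?_, ?_, ?_⟩
        · rw [hSt]
          refine nearS_off hP _ ?_
          intro y hy1 hy2
          refine cutf_zero_of hr hM1 hne hF hlog (mem_SE_of hF.foam c fun i => ?_)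
          have h1 := hside i
          have h2 := Bx.side_pos hQ i
          by_cases hi : i = 2
          · subst hi
            refine hy2.trans ?_
            linarith
          · refine (hy1 i hi).trans ?_
            linarith
        · have h1 : 0 < c.1.sz / (8 * kF q) := by positivity
          nlinarith
        · have h1 : c.1.sz / (8 * kF q) / 8 ≤ h / 64 := by linarith
          have h2 : GU (kF q) m * h ≤ r / 7 := by
            have h3 : GU (kF q) m * h ≤ Gn * h := by gcongr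
            have h4 : 7 * (Gn * h) ≤ (6 * q + 1) * (Gn * h) := by
              gcongr
              linarith
            linarith
          have h5 : GU (kF q) m * (1 / r) * (c.1.sz / (8 * kF q) / 8 + c.1.sz / (8 * kF q) / 16) ≤
              GU (kF q) m * (1 / r) * (h / 64 + h / 128) := by gcongr
          refine h5.trans ?_
          have h6 : GU (kF q) m * (1 / r) * (h / 64 + h / 128) =
              (GU (kF q) m * h) / r * (3 / 128) := by ring
          rw [h6]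
          have h7 : (GU (kF q) m * h) / r ≤ 1 / 7 := by
            rw [div_le_iff₀ hr]; linarith
          linarith
    have hsz3 := hsz c
    simp only at hsz3
    obtain ⟨A, c1, c2, c3, c4⟩ := H le_rfl (isOpen_symm_pre hO) hcont hμ hκ hol.toHolN
      (k := 2) (S := S) (χ := χ) (G := GU (kF q) m) (L := 1 / r) hG1 hP.χ0 hP.χ1 hP.hL0 hP.hL
      (G2 := G'') (by rw [dgf_eq]; exact hG'') c hQ asp (γ := γ) (ρ := ρ) (by positivity) rfl
      (by rw [dgf_eq]) hγ0 hγG hNS hρ1 hρ2 (by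
        have e1 : μ (ξ c) ^ (4:ℝ) = μ (ξ c) ^ 4 := by
          rw [← Real.rpow_natCast]; norm_num
        rw [e1]
        have e2 : 1 / r * (c.1.sz / (8 * kF q)) = c.1.sz / (8 * kF q * r) := by
          field_simp
        rw [e2, div_le_iff₀ (by positivity)]
        linarith)
      (fun i => a₀ i + h * (![(α : ℝ), β₂, 0] : Fin 3 → ℝ) i) hh
    rw [dgf_eq, symm_pre] at c1
    rw [hlam]
    exact ⟨A, c1, c4, fun x hx => (c2 x hx).2, c3⟩
  choose A hA using key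
  exact ⟨A, hA⟩

/-- **[U4]: the front of NO0, `p ≥ 3`** -/
theorem exists_front3 {p : ℝ} (hp : 3 ≤ p) : ExFront3 p := exists_front3_of hp (brickThm hp)

end Crest.Agent.R096.Frt_899
end
end

-- ▼ part R096/Nge5_423

/-!
Row 96 (S0127), helper423, node NO0-PRE3: **`noPre_ge3 : 3 ≤ p → ExMeshN p → NOPre p`**.
-/

set_option autoImplicit false
set_option linter.unusedSectionVars false
set_option linter.unusedVariables false
open Set Filter Topology MeasureTheory Metric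
open scoped NNReal ENNReal

noncomputable section

namespace Crest.Agent.R096.Nge_423

open Crest.Agent.R096.Np_962
open Crest.Agent.R096.No_276

theorem exPreN {p : ℝ} (hp : 1 ≤ p) : ExPreN p := by
  intro 𝒮0 h𝒮0 Ku hKu s hs S1 hS1
  have hsm0 : 0 ≤ s 0 + s 1 + s 2 := add_nonneg (add_nonneg (hs 0) (hs 1)) (hs 2)
  have hsm : ∀ i, s i ≤ s 0 + s 1 + s 2 := by
    intro i
    have h0 := hs 0
    have h1 := hs 1
    have h2 := hs 2
    fin_cases i
    · show s 0 ≤ s 0 + s 1 + s 2; linarith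
    · show s 1 ≤ s 0 + s 1 + s 2; linarith
    · show s 2 ≤ s 0 + s 1 + s 2; linarith
  obtain ⟨S, KS, hS, hKS, H⟩ := exists_preN hp hsm0 hS1
  refine ⟨S, KS, hS, hKS, fun ε η L e₂ hε hη hη8 hL he₂ => ?_⟩
  obtain ⟨t1, ht1, ht11, H⟩ := H Ku hKu ε η L e₂ hL hε hη he₂
  refine ⟨t1, ht1, fun C ε' hC hε' => ?_⟩
  obtain ⟨t2, ht2, ht21, H⟩ := H 𝒮0 h𝒮0 C hC ε' hε'
  refine ⟨t2, ht2, ht21.trans ht11, ?_⟩
  intro δ κ0 R c0 La ι q al h Φ f1 g W κ' μ κ1 κ2 κ3 HH R' e1 e2 e3 e4 e5 D K0 r hr o M Zs T Q τ J0 J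
    V ct A lam z θ φ Mg B cw hM hHW hκ0 hκ h1 h2 h3 h5 hr' κp hκp 𝒮 h𝒮 b R1 Sc cnt hc0 hc Z m0 hZ
  have he5 : 0 ≤ e5 := by
    have hN : (0:ℝ) < (Zs.card : ℝ) * M ^ 2 := by
      have h1 : 0 < M := hM.M0
      have h2 : 0 < Zs.card := Finset.card_pos.2 hM.zne
      positivity
    have hj := hM.junk
    have h3 : (0:ℝ) ≤ e5 * ((Zs.card : ℝ) * M ^ 2) := le_trans (Nat.cast_nonneg _) hj
    exact nonneg_of_mul_nonneg_left h3 hN
  exact H hM hs hsm hHW hκ0 hκ h1 h2 h3 he5 (h5.trans ht21) (hr'.trans ht21) κp hκp 𝒮 h𝒮 b R1 Sc cnt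
    hc Z m0 hZ

/-- **NO0 before the machine, `3 ≤ p`, from the mesh part alone** -/
theorem noPre_ge3 {p : ℝ} (hp : 3 ≤ p) (hM : ExMeshN p) : NOPre p :=
  noPre_of hp (Frt_899.exists_front3 hp) hM (exPreN (by linarith))

end Crest.Agent.R096.Nge_423
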