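import Mathlib
import Crest.Agent.R096.Ncl1_476
import Crest.Agent.R096.Ls9_222
import Crest.Agent.R096.Nr2_527
import Crest.Agent.R096.Ea0_961

-- ▼ part R096/Ine1_222
section

set_option autoImplicit false
set_option linter.unusedSectionVars false

open MeasureTheory Set Filter Metric
open scoped Topology ENNReal Pointwise

namespace Crest.Agent.R096.Ine_222

open Crest.Agent.R096.Msh_715 Crest.Agent.R096.Mal_874 Crest.Agent.R096.Ncl_476
open Crest.Agent.R096.SkC1_961 (E3)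
open Crest.Agent.R96.Sg1_199 (li sgm sgm_eq_segment)
open Crest.Agent.R096.Ls_222 (Edg ea ev eIn mem_eIn sgm_edg ev_ne)

noncomputable section

/-! ### finite lists -/

theorem exists_diam_lb {α : Type*} [PseudoMetricSpace α] {𝒮 : Set (Set α)} (h : 𝒮.Finite) :
    ∃ c : ℝ, 0 < c ∧ ∀ S ∈ 𝒮, 0 < diam S → c ≤ diam S := by
  induction 𝒮, h using Set.Finite.induction_on with
  | empty => exact ⟨1, one_pos, fun S hS => absurd hS (notMem_empty _)⟩
  | @insert S 𝒮 _ _ ih =>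
    obtain ⟨c, hc, h⟩ := ih
    by_cases hS : 0 < diam S
    · refine ⟨min c (diam S), lt_min hc hS, ?_⟩
      rintro S' (rfl | hS') h'
      · exact min_le_right _ _
      · exact (min_le_left _ _).trans (h S' hS' h')
    · refine ⟨c, hc, ?_⟩
      rintro S' (rfl | hS') h'
      · exact absurd h' hS
      · exact h S' hS' h'

theorem exists_vol_lb {α : Type*} [MeasurableSpace α] (μ : Measure α) {𝒮 : Set (Set α)}
    (h : 𝒮.Finite) : ∃ c : ℝ, 0 < c ∧ ∀ S ∈ 𝒮, μ S ≠ 0 → ENNReal.ofReal c ≤ μ S := by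
  induction 𝒮, h using Set.Finite.induction_on with
  | empty => exact ⟨1, one_pos, fun S hS => absurd hS (notMem_empty _)⟩
  | @insert S 𝒮 _ _ ih =>
    obtain ⟨c, hc, h⟩ := ih
    by_cases hS : μ S = 0
    · refine ⟨c, hc, ?_⟩
      rintro S' (rfl | hS') h'
      · exact absurd hS h'
      · exact h S' hS' h'
    · obtain ⟨d, hd0, hd⟩ : ∃ d : ℝ, 0 < d ∧ ENNReal.ofReal d ≤ μ S := by
        by_cases ht : μ S = ∞
        · exact ⟨1, one_pos, by rw [ht]; exact le_top⟩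
        · exact ⟨(μ S).toReal, ENNReal.toReal_pos hS ht, by rw [ENNReal.ofReal_toReal ht]⟩
      refine ⟨min c d, lt_min hc hd0, ?_⟩
      rintro S' (rfl | hS') h'
      · exact (ENNReal.ofReal_le_ofReal (min_le_right _ _)).trans hd
      · exact (ENNReal.ofReal_le_ofReal (min_le_left _ _)).trans (h S' hS' h')

/-! ### frames -/

/-- `B` is `L` in the scale `s` -/
def FrL (L : E3 →L[ℝ] E3) (s : ℝ) (B : E3 ≃ᵃ[ℝ] E3) : Prop := ∀ x y, s • (B x - B y) = L (x - y)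

theorem FrL.dist {L : E3 →L[ℝ] E3} {s : ℝ} {B : E3 ≃ᵃ[ℝ] E3} (h : FrL L s B) (hs : 0 < s) (x y : E3) :
    ‖L (x - y)‖ = s * dist (B x) (B y) := by
  rw [← h x y, norm_smul, Real.norm_eq_abs, abs_of_pos hs, dist_eq_norm]

theorem FrL.vol {L : E3 →L[ℝ] E3} {s : ℝ} {B : E3 ≃ᵃ[ℝ] E3} (h : FrL L s B) (hs : 0 < s) (S : Set E3) :
    ENNReal.ofReal |L.det| * volume S = ENNReal.ofReal (s ^ 3) * volume (B '' S) := by
  rw [← Measure.addHaar_image_continuousLinearMap]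
  have e : L '' S = s • ((fun y => y + (-B 0)) '' (B '' S)) := by
    ext y
    constructor
    · rintro ⟨x, hx, rfl⟩
      refine ⟨B x + (-B 0), ⟨B x, ⟨x, hx, rfl⟩, rfl⟩, ?_⟩
      have := h x 0
      rw [sub_zero] at this
      change s • (B x + (-B 0)) = _
      rw [← sub_eq_add_neg, this]
    · rintro ⟨_, ⟨_, ⟨x, hx, rfl⟩, rfl⟩, rfl⟩
      refine ⟨x, hx, ?_⟩
      have := h x 0
      rw [sub_zero] at this
      change _ = s • (B x + (-B 0))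
      rw [← sub_eq_add_neg, this]
  rw [e, Measure.addHaar_smul, image_add_right, measure_preimage_add_right]
  congr 2
  rw [Module.finrank_fin_fun, abs_of_pos (by positivity)]

/-- Jensen on `[0,1]` for arbitrary functions -/
theorem lint_rpow_le (f : ℝ → ℝ≥0∞) {p : ℝ} (hp : 1 ≤ p) :
    (∫⁻ τ in Icc (0:ℝ) 1, f τ) ^ p ≤ ∫⁻ τ in Icc (0:ℝ) 1, f τ ^ p := by
  have hp0 : 0 ≤ p := by linarith
  obtain ⟨g, hg, hgf, he⟩ := exists_measurable_le_lintegral_eq (volume.restrict (Icc (0:ℝ) 1)) f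
  rw [he]
  refine le_trans ?_ (lintegral_mono fun τ => ENNReal.rpow_le_rpow (hgf τ) hp0)
  have h1 := Crest.Agent.R96.En3_199.lintegral_rpow_le (ν := volume.restrict (Icc (0:ℝ) 1))
    hg.aemeasurable hp
  have h2 : (volume.restrict (Icc (0:ℝ) 1)) univ = 1 := by simp
  rw [h2, ENNReal.one_rpow, one_mul] at h1
  exact h1

/-! ### families of tiles -/

theorem vol_P_le {H : Finset ((E3 →L[ℝ] ℝ) × ℝ)} (hne : (I H).Nonempty) :
    volume (P H) ≤ volume (I H) := by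
  have h1 : Convex ℝ (P H) := convex_P H
  have h2 : volume (frontier (P H)) = 0 := h1.addHaar_frontier volume
  have h3 : P H ⊆ I H ∪ frontier (P H) := by
    rw [← Nr_527.interior_P' hne, ← closure_eq_interior_union_frontier]
    exact subset_closure
  calc volume (P H) ≤ volume (I H ∪ frontier (P H)) := measure_mono h3
    _ ≤ volume (I H) + volume (frontier (P H)) := measure_union_le _ _
    _ = volume (I H) := by rw [h2, add_zero]

variable {Om : Set E3} {ι : Type*} {T : Tiling Om ι}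

/-- a family of tiles with frames proportional to `L` and shapes in the finite list `𝒮` -/
structure Fam (T : Tiling Om ι) (L : E3 →L[ℝ] E3) (𝒮 : Set (Set E3)) (O : Set ι) (s : ι → ℝ) :
    Prop where
  fin : 𝒮.Finite
  det : L.det ≠ 0
  pos : ∀ t ∈ O, 0 < s t
  fr : ∀ t ∈ O, ∃ B : E3 ≃ᵃ[ℝ] E3, FrL L (s t) B ∧ (fun K => B '' K) '' cfg T t ⊆ 𝒮
  cmp : ∀ t ∈ O, ∀ r ∈ O, (P (T.H t) ∩ P (T.H r)).Nonempty → s t ≤ 2 * s r

namespace Fam

variable {L : E3 →L[ℝ] E3} {𝒮 : Set (Set E3)} {O : Set ι} {s : ι → ℝ}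

theorem size (h : Fam T L 𝒮 O s) {t : ι} (ht : t ∈ O) {x y : E3} (hx : x ∈ P (T.H t))
    (hy : y ∈ P (T.H t)) : ‖L (x - y)‖ ≤ s t * Dsh 𝒮 := by
  obtain ⟨B, hB, hS⟩ := h.fr t ht
  rw [hB.dist (h.pos t ht)]
  exact mul_le_mul_of_nonneg_left (tile_dist_le h.fin hS hx hy) (h.pos t ht).le

theorem vol_le (h : Fam T L 𝒮 O s) {t : ι} (ht : t ∈ O) :
    ENNReal.ofReal |L.det| * volume (P (T.H t)) ≤
      ENNReal.ofReal (s t ^ 3 * (2 * Dsh 𝒮) ^ 3) := by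
  obtain ⟨B, hB, hS⟩ := h.fr t ht
  obtain ⟨x, hx⟩ := T.ne t
  rw [hB.vol (h.pos t ht), ENNReal.ofReal_mul (by have := h.pos t ht; positivity)]
  refine mul_le_mul_right ?_ _
  have h1 : B '' P (T.H t) ⊆ closedBall (B x) (Dsh 𝒮) := by
    rintro _ ⟨y, hy, rfl⟩
    exact tile_dist_le h.fin hS hy (I_sub_P _ hx)
  refine (measure_mono h1).trans ?_
  rw [Real.volume_pi_closedBall _ (Dsh_nonneg 𝒮)]
  simp

theorem vol_ge (h : Fam T L 𝒮 O s) {v : ℝ} (hv : ∀ S ∈ 𝒮, volume S ≠ 0 → ENNReal.ofReal v ≤ volume S)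
    {t : ι} (ht : t ∈ O) :
    ENNReal.ofReal (s t ^ 3 * v) ≤ ENNReal.ofReal |L.det| * volume (P (T.H t)) := by
  obtain ⟨B, hB, hS⟩ := h.fr t ht
  rw [hB.vol (h.pos t ht), ENNReal.ofReal_mul (by have := h.pos t ht; positivity)]
  refine mul_le_mul_right ?_ _
  refine hv _ (hS (mem_image_of_mem _ (tile_mem_cfg T t))) fun h0 => ?_
  have h1 := hB.vol (h.pos t ht) (P (T.H t))
  rw [h0, mul_zero, mul_eq_zero] at h1
  rcases h1 with h1 | h1
  · rw [ENNReal.ofReal_eq_zero] at h1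
    exact absurd h1 (not_le.2 (abs_pos.2 h.det))
  · have h2 : 0 < volume (I (T.H t)) := (isOpen_I _).measure_pos volume (T.ne t)
    exact absurd (measure_mono_null (I_sub_P _) h1) h2.ne'

theorem edge_ge (h : Fam T L 𝒮 O s) {c : ℝ} (hc : ∀ S ∈ 𝒮, 0 < diam S → c ≤ diam S) {t : ι}
    (ht : t ∈ O) {e : Edg T} (he : e ∈ eIn T t) : s t * c ≤ ‖L (ev e)‖ := by
  obtain ⟨B, hB, hS⟩ := h.fr t ht
  have hs := h.pos t ht
  have h0 : ‖L (ev e)‖ = s t * dist (B (ea e + ev e)) (B (ea e)) := by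
    rw [← hB.dist hs, add_sub_cancel_left]
  rw [h0]
  refine mul_le_mul_of_nonneg_left ?_ hs.le
  have hmem : (B '' e.1 : Set E3) ∈ 𝒮 := hS (mem_image_of_mem _ (edg_mem_cfg he))
  have hle : diam (B '' e.1) ≤ dist (B (ea e + ev e)) (B (ea e)) := by
    refine diam_le_of_forall_dist_le dist_nonneg ?_
    rintro _ ⟨x, hx, rfl⟩ _ ⟨y, hy, rfl⟩
    rw [← sgm_edg e] at hx hy
    obtain ⟨τ, hτ, rfl⟩ := hx
    obtain ⟨σ, hσ, rfl⟩ := hy
    have h1 : s t * dist (B (ea e + τ • ev e)) (B (ea e + σ • ev e)) ≤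
        s t * dist (B (ea e + ev e)) (B (ea e)) := by
      rw [← hB.dist hs, ← hB.dist hs]
      have e1 : ea e + τ • ev e - (ea e + σ • ev e) = (τ - σ) • ev e := by rw [sub_smul]; abel
      rw [e1, add_sub_cancel_left, map_smul, norm_smul, Real.norm_eq_abs]
      have : |τ - σ| ≤ 1 := by
        rw [abs_le]; constructor <;> linarith [hτ.1, hτ.2, hσ.1, hσ.2]
      nlinarith [norm_nonneg (L (ev e))]
    exact le_of_mul_le_mul_left h1 hs
  refine le_trans (hc _ hmem ?_) hle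
  have hb : Bornology.IsBounded (B '' e.1 : Set E3) :=
    ((isCompact_cfg (edg_mem_cfg he)).image B.continuous_of_finiteDimensional).isBounded
  have h2 := dist_le_diam_of_mem hb (mem_image_of_mem B (eb_mem e)) (mem_image_of_mem B (ea_mem e))
  refine lt_of_lt_of_le (dist_pos.2 fun h3 => ev_ne e ?_) h2
  have h4 := B.injective h3
  simpa using h4

/-- **multiplicity**: number of tiles of the family at a point -/
theorem mult (h : Fam T L 𝒮 O s) {v : ℝ} (hv0 : 0 < v)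
    (hv : ∀ S ∈ 𝒮, volume S ≠ 0 → ENNReal.ofReal v ≤ volume S) (x : E3) (F : Finset ι)
    (hF : ∀ t ∈ F, t ∈ O ∧ x ∈ P (T.H t)) : (F.card : ℝ) ≤ 512 * Dsh 𝒮 ^ 3 / v := by
  classical
  have hD := Dsh_nonneg 𝒮
  rcases F.eq_empty_or_nonempty with rfl | ⟨t0, ht0⟩
  · simp; positivity
  obtain ⟨hO0, hx0⟩ := hF t0 ht0
  have hs0 := h.pos t0 hO0
  obtain ⟨B, hB, hS⟩ := h.fr t0 hO0
  set Z : Set E3 := {y | ‖L (y - x)‖ ≤ 2 * s t0 * Dsh 𝒮} with hZ
  have hsub : ∀ t ∈ F, I (T.H t) ⊆ Z := by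
    intro t ht y hy
    have h1 := h.size (hF t ht).1 (I_sub_P _ hy) (hF t ht).2
    have h2 := h.cmp t (hF t ht).1 t0 hO0 ⟨x, (hF t ht).2, hx0⟩
    exact h1.trans (mul_le_mul_of_nonneg_right h2 hD)
  have hvZ : ENNReal.ofReal |L.det| * volume Z ≤ ENNReal.ofReal (s t0 ^ 3 * (4 * Dsh 𝒮) ^ 3) := by
    rw [hB.vol hs0, ENNReal.ofReal_mul (by positivity)]
    refine mul_le_mul_right ?_ _
    have h1 : B '' Z ⊆ closedBall (B x) (2 * Dsh 𝒮) := by
      rintro _ ⟨y, hy, rfl⟩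
      have hy' : ‖L (y - x)‖ ≤ 2 * s t0 * Dsh 𝒮 := hy
      rw [hB.dist hs0] at hy'
      refine le_of_mul_le_mul_left (hy'.trans (le_of_eq ?_)) hs0
      ring
    refine (measure_mono h1).trans ?_
    rw [Real.volume_pi_closedBall _ (by positivity)]
    simp only [Fintype.card_fin]
    refine ENNReal.ofReal_le_ofReal (le_of_eq ?_)
    ring
  have hsum : ∑ t ∈ F, volume (P (T.H t)) ≤ volume Z := by
    calc ∑ t ∈ F, volume (P (T.H t)) ≤ ∑ t ∈ F, volume (I (T.H t)) :=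
          Finset.sum_le_sum fun t _ => vol_P_le (T.ne t)
      _ = volume (⋃ t ∈ F, I (T.H t)) := (measure_biUnion_finset
          (fun a _ b _ hab => T.dis a b hab) fun t _ => (isOpen_I _).measurableSet).symm
      _ ≤ volume Z := measure_mono (iUnion₂_subset hsub)
  have hlow : ∀ t ∈ F, ENNReal.ofReal ((s t0 / 2) ^ 3 * v) ≤
      ENNReal.ofReal |L.det| * volume (P (T.H t)) := by
    intro t ht
    refine le_trans (ENNReal.ofReal_le_ofReal ?_) (h.vol_ge hv (hF t ht).1)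
    have h2 := h.cmp t0 hO0 t (hF t ht).1 ⟨x, hx0, (hF t ht).2⟩
    have h3 : s t0 / 2 ≤ s t := by linarith
    have := h.pos t (hF t ht).1
    gcongr
  have h4 : ENNReal.ofReal (F.card * ((s t0 / 2) ^ 3 * v)) ≤
      ENNReal.ofReal (s t0 ^ 3 * (4 * Dsh 𝒮) ^ 3) := by
    calc ENNReal.ofReal (F.card * ((s t0 / 2) ^ 3 * v))
        = ∑ t ∈ F, ENNReal.ofReal ((s t0 / 2) ^ 3 * v) := by
          rw [Finset.sum_const, nsmul_eq_mul, ENNReal.ofReal_mul (Nat.cast_nonneg _),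
            ENNReal.ofReal_natCast]
      _ ≤ ∑ t ∈ F, ENNReal.ofReal |L.det| * volume (P (T.H t)) := Finset.sum_le_sum hlow
      _ = ENNReal.ofReal |L.det| * ∑ t ∈ F, volume (P (T.H t)) := by rw [Finset.mul_sum]
      _ ≤ ENNReal.ofReal |L.det| * volume Z := by gcongr
      _ ≤ _ := hvZ
  rw [ENNReal.ofReal_le_ofReal_iff (by positivity)] at h4
  rw [le_div_iff₀ hv0]
  have h5 : 0 < s t0 ^ 3 := by positivity
  refine le_of_mul_le_mul_left ?_ h5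
  nlinarith [h4]

end Fam

end

end Crest.Agent.R096.Ine_222
end

-- ▼ part R096/Ine2_222
section

set_option autoImplicit false
set_option linter.unusedSectionVars false

open MeasureTheory Set Filter Metric
open scoped Topology ENNReal Pointwise

namespace Crest.Agent.R096.Ine_222

open Crest.Agent.R096.Msh_715 Crest.Agent.R096.Mal_874 Crest.Agent.R096.Ncl_476
open Crest.Agent.R096.SkC1_961 (E3)
open Crest.Agent.R96.Sg1_199 (li sgm sgm_eq_segment)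
open Crest.Agent.R096.Ls_222 (Edg ea ev eIn mem_eIn sgm_edg ev_ne)

noncomputable section

/-- power of a finite sum -/
theorem sum_rpow_le {η : Type*} (S : Finset η) (f : η → ℝ≥0∞) {n : ℕ} (hn : S.card ≤ n) {p : ℝ}
    (hp : 1 ≤ p) : (∑ j ∈ S, f j) ^ p ≤ (n : ℝ≥0∞) ^ (p - 1) * ∑ j ∈ S, f j ^ p := by
  rcases S.eq_empty_or_nonempty with rfl | hne
  · simp only [Finset.sum_empty]
    rw [ENNReal.zero_rpow_of_pos (by linarith)]; exact zero_le
  refine (ENNReal.rpow_sum_le_const_mul_sum_rpow S f hp).trans ?_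
  gcongr

variable {Om : Set E3} {ι : Type*} {T : Tiling Om ι}
variable {L : E3 →L[ℝ] E3} {𝒮 : Set (Set E3)} {O : Set ι} {s : ι → ℝ}

/-- the constant -/
def Cin (𝒮 : Set (Set E3)) (c v p : ℝ) : ℝ≥0∞ :=
  ((𝒮.ncard : ℕ) : ℝ≥0∞) ^ (p - 1) * ENNReal.ofReal ((2 * Dsh 𝒮) ^ 3 * c ^ (p - 3)) *
    ENNReal.ofReal (512 * Dsh 𝒮 ^ 3 / v)

namespace Fam

/-- volume times the power of the frame -/
theorem vol_mul (h : Fam T L 𝒮 O s) {c : ℝ} (hc0 : 0 < c)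
    (hc : ∀ S ∈ 𝒮, 0 < diam S → c ≤ diam S) {p : ℝ} (hp : 0 ≤ p) (hp3 : p ≤ 3) {t : ι} (ht : t ∈ O)
    {e : Edg T} (he : e ∈ eIn T t) :
    volume (P (T.H t)) * ENNReal.ofReal (‖L‖ / s t) ^ p ≤
      ENNReal.ofReal ((2 * Dsh 𝒮) ^ 3 * c ^ (p - 3)) *
        (ENNReal.ofReal (‖L‖ ^ p / |L.det|) * ENNReal.ofReal (‖L (ev e)‖ ^ (3 - p))) := by
  have hs := h.pos t ht
  have hD := Dsh_nonneg 𝒮
  have hd : 0 < |L.det| := abs_pos.2 h.det
  have hd0 : ENNReal.ofReal |L.det| ≠ 0 := by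
    rw [Ne, ENNReal.ofReal_eq_zero, not_le]; exact hd
  have h1 : volume (P (T.H t)) ≤ ENNReal.ofReal (s t ^ 3 * (2 * Dsh 𝒮) ^ 3 / |L.det|) := by
    rw [ENNReal.ofReal_div_of_pos hd, ENNReal.le_div_iff_mul_le (Or.inl hd0)
      (Or.inl ENNReal.ofReal_ne_top), mul_comm]
    exact h.vol_le ht
  have h2 := h.edge_ge hc ht he
  have h3 : s t ^ (3 - p) ≤ ‖L (ev e)‖ ^ (3 - p) * c ^ (p - 3) := by
    have h4 : s t ≤ ‖L (ev e)‖ * c⁻¹ := by
      rw [← div_eq_mul_inv, le_div_iff₀ hc0]; exact h2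
    calc s t ^ (3 - p) ≤ (‖L (ev e)‖ * c⁻¹) ^ (3 - p) :=
          Real.rpow_le_rpow hs.le h4 (by linarith)
      _ = ‖L (ev e)‖ ^ (3 - p) * c⁻¹ ^ (3 - p) :=
          Real.mul_rpow (norm_nonneg _) (inv_nonneg.2 hc0.le)
      _ = _ := by
          rw [Real.inv_rpow hc0.le, ← Real.rpow_neg hc0.le, neg_sub]
  have h5 : s t ^ 3 * (s t ^ p)⁻¹ = s t ^ (3 - p) := by
    rw [Real.rpow_sub hs, div_eq_mul_inv]
    norm_cast
  calc volume (P (T.H t)) * ENNReal.ofReal (‖L‖ / s t) ^ p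
      ≤ ENNReal.ofReal (s t ^ 3 * (2 * Dsh 𝒮) ^ 3 / |L.det|) * ENNReal.ofReal ((‖L‖ / s t) ^ p) := by
        rw [ENNReal.ofReal_rpow_of_nonneg (by positivity) hp]
        gcongr
    _ = ENNReal.ofReal ((s t ^ 3 * (2 * Dsh 𝒮) ^ 3 / |L.det|) * (‖L‖ / s t) ^ p) := by
        rw [ENNReal.ofReal_mul (by positivity)]
    _ ≤ ENNReal.ofReal (((2 * Dsh 𝒮) ^ 3 * c ^ (p - 3)) * ((‖L‖ ^ p / |L.det|) *
          ‖L (ev e)‖ ^ (3 - p))) := by
        refine ENNReal.ofReal_le_ofReal ?_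
        rw [Real.div_rpow (norm_nonneg _) hs.le]
        calc (s t ^ 3 * (2 * Dsh 𝒮) ^ 3 / |L.det|) * (‖L‖ ^ p / s t ^ p)
            = ((2 * Dsh 𝒮) ^ 3 * (‖L‖ ^ p / |L.det|)) * (s t ^ 3 * (s t ^ p)⁻¹) := by
              rw [div_eq_mul_inv, div_eq_mul_inv, div_eq_mul_inv]; ring
          _ ≤ ((2 * Dsh 𝒮) ^ 3 * (‖L‖ ^ p / |L.det|)) * (‖L (ev e)‖ ^ (3 - p) * c ^ (p - 3)) := by
              rw [h5]
              exact mul_le_mul_of_nonneg_left h3 (by positivity)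
          _ = _ := by ring
    _ = _ := by
        rw [← ENNReal.ofReal_mul (show 0 ≤ ‖L‖ ^ p / |L.det| by positivity),
          ← ENNReal.ofReal_mul (by positivity)]

/-- one tile -/
theorem one (h : Fam T L 𝒮 O s) {c : ℝ} (hc0 : 0 < c)
    (hc : ∀ S ∈ 𝒮, 0 < diam S → c ≤ diam S) {p : ℝ} (hp : 1 ≤ p) (hp3 : p ≤ 3) {t : ι} (ht : t ∈ O)
    (G : E3 → E3 → ℝ≥0∞) (w : E3) :
    volume (P (T.H t)) * (ENNReal.ofReal (‖L‖ / s t) *
        ∑ e ∈ eIn T t, li (G (ev e)) (ea e + w) (ev e)) ^ p ≤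
      ∑ e ∈ eIn T t, (((𝒮.ncard : ℕ) : ℝ≥0∞) ^ (p - 1) *
        ENNReal.ofReal ((2 * Dsh 𝒮) ^ 3 * c ^ (p - 3)) * ENNReal.ofReal (‖L‖ ^ p / |L.det|)) *
        (ENNReal.ofReal (‖L (ev e)‖ ^ (3 - p)) *
          li (fun y => G (ev e) y ^ p) (ea e + w) (ev e)) := by
  have hp0 : 0 ≤ p := by linarith
  obtain ⟨B, hB, hS⟩ := h.fr t ht
  have hn : (eIn T t).card ≤ 𝒮.ncard := eIn_card_le h.fin hS
  rw [ENNReal.mul_rpow_of_nonneg _ _ hp0, ← mul_assoc]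
  calc volume (P (T.H t)) * ENNReal.ofReal (‖L‖ / s t) ^ p *
        (∑ e ∈ eIn T t, li (G (ev e)) (ea e + w) (ev e)) ^ p
      ≤ volume (P (T.H t)) * ENNReal.ofReal (‖L‖ / s t) ^ p *
        (((𝒮.ncard : ℕ) : ℝ≥0∞) ^ (p - 1) *
          ∑ e ∈ eIn T t, li (fun y => G (ev e) y ^ p) (ea e + w) (ev e)) := by
        gcongr
        refine (sum_rpow_le _ _ hn hp).trans ?_
        gcongr with e _
        exact lint_rpow_le _ hp
    _ = ∑ e ∈ eIn T t, ((𝒮.ncard : ℕ) : ℝ≥0∞) ^ (p - 1) *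
          ((volume (P (T.H t)) * ENNReal.ofReal (‖L‖ / s t) ^ p) *
            li (fun y => G (ev e) y ^ p) (ea e + w) (ev e)) := by
        rw [Finset.mul_sum, Finset.mul_sum]
        refine Finset.sum_congr rfl fun e _ => ?_
        ring
    _ ≤ _ := by
        refine Finset.sum_le_sum fun e he => ?_
        refine (mul_le_mul_right (mul_le_mul_left (h.vol_mul hc0 hc hp0 hp3 ht he) _) _).trans
          (le_of_eq ?_)
        ring

/-- sum over the tiles = sum over the edges, with multiplicity -/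
theorem swap (h : Fam T L 𝒮 O s) {v : ℝ} (hv0 : 0 < v)
    (hv : ∀ S ∈ 𝒮, volume S ≠ 0 → ENNReal.ofReal v ≤ volume S) (f : Edg T → ℝ≥0∞) :
    ∑' t : O, ∑ e ∈ eIn T t.1, f e ≤
      ENNReal.ofReal (512 * Dsh 𝒮 ^ 3 / v) * ∑' e : {e : Edg T // ∃ t ∈ O, e ∈ eIn T t}, f e.1 := by
  classical
  have e1 : ∀ t : O, ∑ e ∈ eIn T t.1, f e = ∑' e : Edg T, if e ∈ eIn T t.1 then f e else 0 := by
    intro t
    rw [tsum_eq_sum (s := eIn T t.1) (fun e he => if_neg he)]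
    exact Finset.sum_congr rfl fun e he => (if_pos he).symm
  have e2 : ENNReal.ofReal (512 * Dsh 𝒮 ^ 3 / v) *
      ∑' e : {e : Edg T // ∃ t ∈ O, e ∈ eIn T t}, f e.1 =
      ∑' e : Edg T, {e : Edg T | ∃ t ∈ O, e ∈ eIn T t}.indicator
        (fun e => ENNReal.ofReal (512 * Dsh 𝒮 ^ 3 / v) * f e) e := by
    rw [← ENNReal.tsum_mul_left]
    exact tsum_subtype {e : Edg T | ∃ t ∈ O, e ∈ eIn T t}
      (fun e => ENNReal.ofReal (512 * Dsh 𝒮 ^ 3 / v) * f e)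
  rw [tsum_congr e1, ENNReal.tsum_comm, e2]
  refine ENNReal.tsum_le_tsum fun e => ?_
  by_cases hE : ∃ t ∈ O, e ∈ eIn T t
  · rw [indicator_of_mem (show e ∈ {e : Edg T | ∃ t ∈ O, e ∈ eIn T t} from hE)]
    rw [ENNReal.tsum_eq_iSup_sum]
    refine iSup_le fun F => ?_
    rw [← Finset.sum_filter, Finset.sum_const, nsmul_eq_mul]
    refine mul_le_mul_left ?_ _
    have h1 := h.mult hv0 hv (ea e) ((F.filter fun t => e ∈ eIn T t.1).map
      (Function.Embedding.subtype _)) (by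
        intro t ht
        rw [Finset.mem_map] at ht
        obtain ⟨t', ht', rfl⟩ := ht
        exact ⟨t'.2, mem_eIn.1 (Finset.mem_filter.1 ht').2 (ea_mem e)⟩)
    rw [Finset.card_map] at h1
    rw [← ENNReal.ofReal_natCast]
    exact ENNReal.ofReal_le_ofReal h1
  · rw [indicator_of_notMem (show e ∉ {e : Edg T | ∃ t ∈ O, e ∈ eIn T t} from hE)]
    refine le_of_eq (ENNReal.tsum_eq_zero.2 fun t => if_neg fun ht => hE ⟨t.1, t.2, ht⟩)

/-- **energy of the tiles of the family** -/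
theorem energy (h : Fam T L 𝒮 O s) {c v : ℝ} (hc0 : 0 < c)
    (hc : ∀ S ∈ 𝒮, 0 < diam S → c ≤ diam S) (hv0 : 0 < v)
    (hv : ∀ S ∈ 𝒮, volume S ≠ 0 → ENNReal.ofReal v ≤ volume S) {p : ℝ} (hp : 1 ≤ p) (hp3 : p ≤ 3)
    (G : E3 → E3 → ℝ≥0∞) (w : E3) :
    ∑' t : O, volume (P (T.H t.1)) * (ENNReal.ofReal (‖L‖ / s t.1) *
        ∑ e ∈ eIn T t.1, li (G (ev e)) (ea e + w) (ev e)) ^ p ≤
      Cin 𝒮 c v p * (ENNReal.ofReal (‖L‖ ^ p / |L.det|) *
        ∑' e : {e : Edg T // ∃ t ∈ O, e ∈ eIn T t}, ENNReal.ofReal (‖L (ev e.1)‖ ^ (3 - p)) *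
          li (fun y => G (ev e.1) y ^ p) (ea e.1 + w) (ev e.1)) := by
  refine (ENNReal.tsum_le_tsum fun t : O => h.one hc0 hc hp hp3 t.2 G w).trans ?_
  refine (h.swap hv0 hv _).trans (le_of_eq ?_)
  rw [ENNReal.tsum_mul_left]
  unfold Cin
  ring

end Fam

end

end Crest.Agent.R096.Ine_222
end

-- ▼ part R096/Ine3_222

set_option autoImplicit false
set_option linter.unusedSectionVars false

open MeasureTheory Set Filter Metric
open scoped Topology ENNReal NNReal Pointwise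

namespace Crest.Agent.R096.Ine_222

open Crest.Agent.R096.Msh_715 Crest.Agent.R096.Mal_874 Crest.Agent.R096.Ncl_476
  Crest.Agent.R096.Msh_810
open Crest.Agent.R096.SkC1_961 (E3)
open Crest.Agent.R96.Sg1_199 (li sgm sgm_eq_segment)
open Crest.Agent.R096.Ls_222 (Edg ea ev eIn mem_eIn sgm_edg ev_ne)
open Crest.Agent.R096.EaX_766 (lin)
open Crest.Agent.R096.Ea0_961 (Ed)

noncomputable section

section blk

variable (Q : CB E3 3) (k : ℕ) (hk : Q.kc ≤ k)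

/-- the tiles of the block mesh -/
abbrev Ix : Type := {i // i ∉ {i | P ((Q.T0 k hk).H i) ⊆ Q.S.bp Q.ψ Q.a' Q.kc}} ⊕ Q.S.Ix

open Classical in
/-- scale of the frame of a tile -/
def kap : Ix Q k hk → ℕ
  | Sum.inl τ => if (P ((Q.T0 k hk).H τ.1) ∩ Q.S.bp Q.ψ Q.a' Q.kc).Nonempty then Q.kc
      else τ.1.1.1.k + 1
  | Sum.inr _ => Q.kc

theorem kap_inl_meet {τ} (h : (P ((Q.T0 k hk).H τ.1) ∩ Q.S.bp Q.ψ Q.a' Q.kc).Nonempty) :
    kap Q k hk (Sum.inl τ) = Q.kc := if_pos h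

theorem kap_inl {τ} (h : ¬ (P ((Q.T0 k hk).H τ.1) ∩ Q.S.bp Q.ψ Q.a' Q.kc).Nonempty) :
    kap Q k hk (Sum.inl τ) = τ.1.1.1.k + 1 := if_neg h

theorem kap_K {t : Ix Q k hk} {x : E3} (hx : x ∈ P ((Q.T k hk).H t)) :
    Crest.Agent.R096.Msh_810.K (Q.D k hk) (Q.ψ x) ≤ kap Q k hk t ∧
      kap Q k hk t ≤ Crest.Agent.R096.Msh_810.K (Q.D k hk) (Q.ψ x) + 1 := by
  rcases t with τ | i
  · by_cases h : (P ((Q.T0 k hk).H τ.1) ∩ Q.S.bp Q.ψ Q.a' Q.kc).Nonempty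
    · rw [kap_inl_meet Q k hk h]
      obtain ⟨y, hy1, hy2⟩ := h
      have h1 : Q.near 1 x := by
        have := Q.near_tile k hk hy1 hx (Q.near_of_bp hy2)
        rwa [zero_add] at this
      rw [(Q.near_K k hk h1).self_of_nhds]
      omega
    · rw [kap_inl Q k hk h]
      have hx' : τ.1 ∈ (tiling Q.ψ (Q.D k hk)).at_ x := hx
      have h1 := tile_k_le hx'
      have h2 := K_le_succ (Msh_810.mem_at.1 hx')
      omega
  · have h1 : Q.near 1 x := by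
      have := Q.near_of_bp (Q.P_inr_sub k hk i hx)
      intro l
      have h := this l
      constructor <;> linarith [h.1, h.2]
    rw [(Q.near_K k hk h1).self_of_nhds]
    change Q.kc ≤ Q.kc ∧ Q.kc ≤ Q.kc + 1
    omega

theorem mem_simL {𝒩 : Finset (Fin 3 → ℝ)} {d : ℕ} {R : ℝ} {K : Set (Set (Fin 3 → ℝ))} :
    K ∈ simL 𝒩 d R ↔ ∀ ⦃S⦄, S ∈ K → S ∈ shpT 𝒩 d R := Iff.rfl

/-- the list of the shapes -/
def SL (Bs : ℕ) : Set (Set E3) := shpT (NB 3 Bs) 1 Bs ∪ shpT (N0 3) 1 2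

theorem SL_finite (Bs : ℕ) : (SL Bs).Finite := (shpT_finite _ _ _).union (shpT_finite _ _ _)

theorem frL_chi {A : E3 ≃ᵃ[ℝ] E3} {u : ℝ} (hA : ∀ x : E3, A.linear x = u • Q.ψ x) (m : ℕ)
    (z : Fin 3 → ℤ) : FrL (lin A) (u / 2 ^ m) ((chi Q.ψ Q.a' m).trans (trz z)) := by
  intro x y
  have e : lin A (x - y) = u • Q.ψ (x - y) := hA (x - y)
  rw [e]
  ext l
  rw [AffineEquiv.trans_apply, AffineEquiv.trans_apply, trz_apply, trz_apply, Pi.smul_apply,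
    Pi.sub_apply, Pi.smul_apply, chi_apply, chi_apply, map_sub, Pi.sub_apply, smul_eq_mul,
    smul_eq_mul]
  field_simp
  ring

theorem det_ne (A : E3 ≃ᵃ[ℝ] E3) : (lin A).det ≠ 0 :=
  (LinearEquiv.isUnit_det' A.linear).ne_zero

/-- **the family of the tiles of the block** (without the core) -/
theorem fam {Bs : ℕ} (hB1 : 1 ≤ Bs) {A : E3 ≃ᵃ[ℝ] E3} {u : ℝ} (hu : 0 < u)
    (hA : ∀ x : E3, A.linear x = u • Q.ψ x)
    (hB : ∀ i, ∀ p ∈ Q.S.GG i, ∀ l, |p.1 l| ≤ Bs)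
    (hR : ∀ i, i ≠ Q.S.core → ∀ v ∈ ZP (Q.S.GG i), ∀ w ∈ ZP (Q.S.GG i), ∀ l, |w l - v l| ≤ Bs) :
    Fam (Q.T k hk) (lin A) (SL Bs) {t | t ≠ Q.cix k hk} (fun t => u / 2 ^ kap Q k hk t) where
  fin := SL_finite Bs
  det := det_ne A
  pos := fun t _ => by positivity
  fr := by
    intro t ht
    have hB1' : (1:ℝ) ≤ Bs := by exact_mod_cast hB1
    by_cases hb : (P ((Q.T k hk).H t) ∩ Q.S.bp Q.ψ Q.a' Q.kc).Nonempty
    · obtain ⟨z, hz⟩ := Q.near_sim k hk hB1 hB hB1' hR hb ht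
      refine ⟨(chi Q.ψ Q.a' (kap Q k hk t)).trans (trz z), frL_chi Q hA _ z, ?_⟩
      have e : kap Q k hk t = Q.kc := by
        rcases t with τ | i
        · exact kap_inl_meet Q k hk hb
        · rfl
      rw [e]
      intro K hK
      exact Or.inl (mem_simL.1 hz hK)
    · rcases t with τ | i
      · have h1 : Disjoint (P ((Q.T0 k hk).H τ.1)) (Q.S.bp Q.ψ Q.a' Q.kc) := by
          rw [Set.disjoint_iff_inter_eq_empty, ← Set.not_nonempty_iff_eq_empty]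
          exact hb
        obtain ⟨z, hz⟩ := sim_univ Q.ψ (Q.D k hk) τ.1
        refine ⟨(chi Q.ψ Q.a' (kap Q k hk (Sum.inl τ))).trans (trz z), frL_chi Q hA _ z, ?_⟩
        rw [kap_inl Q k hk hb, Q.cfg_far k hk h1]
        intro K hK
        exact Or.inr (mem_simL.1 hz hK)
      · exfalso
        apply hb
        obtain ⟨y, hy⟩ := (Q.T k hk).ne (Sum.inr i)
        exact ⟨y, I_sub_P _ hy, Q.P_inr_sub k hk i (I_sub_P _ hy)⟩
  cmp := by
    rintro t - r - ⟨x, hxt, hxr⟩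
    have h1 := (kap_K Q k hk hxt).1
    have h2 := (kap_K Q k hk hxr).2
    have h3 : kap Q k hk r ≤ kap Q k hk t + 1 := by omega
    have h4 : (2:ℝ) ^ kap Q k hk r ≤ 2 * 2 ^ kap Q k hk t := by
      calc (2:ℝ) ^ kap Q k hk r ≤ 2 ^ (kap Q k hk t + 1) := pow_le_pow_right₀ (by norm_num) h3
        _ = 2 * 2 ^ kap Q k hk t := by ring
    rw [← mul_div_assoc, div_le_div_iff₀ (by positivity) (by positivity)]
    nlinarith

end blk

theorem Fam.mono {Om : Set E3} {ι : Type*} {T : Tiling Om ι} {L : E3 →L[ℝ] E3} {𝒮 : Set (Set E3)}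
    {O O' : Set ι} {s : ι → ℝ} (h : Fam T L 𝒮 O s) (hO : O' ⊆ O) : Fam T L 𝒮 O' s where
  fin := h.fin
  det := h.det
  pos := fun t ht => h.pos t (hO ht)
  fr := fun t ht => h.fr t (hO ht)
  cmp := fun t ht r hr => h.cmp t (hO ht) r (hO hr)

/-- **[INE]: energy of the inner tiles of the block mesh, by (2b) of `Ea0_961.InS`.** -/
theorem ine {Bs : ℕ} (hB1 : 1 ≤ Bs) {p : ℝ} (hp : 1 ≤ p) (hp3 : p ≤ 3) : ∃ C : ℝ≥0, 0 < C ∧
    ∀ (Q : CB E3 3) (k : ℕ) (hk : Q.kc ≤ k) (A : E3 ≃ᵃ[ℝ] E3) (u : ℝ), 0 < u →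
      (∀ x : E3, A.linear x = u • Q.ψ x) → (∀ i, ∀ p ∈ Q.S.GG i, ∀ l, |p.1 l| ≤ Bs) →
      (∀ i, i ≠ Q.S.core → ∀ v ∈ ZP (Q.S.GG i), ∀ w ∈ ZP (Q.S.GG i), ∀ l, |w l - v l| ≤ Bs) →
    ∀ (D : E3 → E3 →L[ℝ] E3) (w : E3),
      ∑' t : {t // P ((Q.T k hk).H t) ⊆ Q.N ∧ t ≠ Q.cix k hk}, volume (P ((Q.T k hk).H t.1)) *
        (ENNReal.ofReal (‖lin A‖ / (u / 2 ^ kap Q k hk t.1)) *
          ∑ e ∈ eIn (Q.T k hk) t.1, li (fun y => ‖D y (ev e)‖ₑ) (ea e + w) (ev e)) ^ p ≤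
      C * (ENNReal.ofReal (‖lin A‖ ^ p / |(lin A).det|) *
        ∑' e : Ed Q k hk, ENNReal.ofReal (‖lin A (e.1.2 - e.1.1)‖ ^ (3 - p)) *
          (∫⁻ τ in Icc (0:ℝ) 1, ‖D (e.1.1 + w + τ • (e.1.2 - e.1.1)) (e.1.2 - e.1.1)‖ₑ ^ p)) := by
  obtain ⟨c, hc0, hc⟩ := exists_diam_lb (SL_finite Bs)
  obtain ⟨v, hv0, hv⟩ := exists_vol_lb (volume : Measure E3) (SL_finite Bs)
  have hCt : Cin (SL Bs) c v p ≠ ∞ := by
    unfold Cin
    refine ENNReal.mul_ne_top (ENNReal.mul_ne_top ?_ ENNReal.ofReal_ne_top) ENNReal.ofReal_ne_top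
    exact ENNReal.rpow_ne_top_of_nonneg (by linarith) (ENNReal.natCast_ne_top _)
  refine ⟨(Cin (SL Bs) c v p).toNNReal + 1, by positivity, ?_⟩
  intro Q k hk A u hu hA hB hR D w
  have hF := (fam Q k hk hB1 hu hA hB hR).mono
    (O' := {t | P ((Q.T k hk).H t) ⊆ Q.N ∧ t ≠ Q.cix k hk}) (fun t ht => ht.2)
  refine (hF.energy hc0 hc hv0 hv hp hp3 (fun v y => ‖D y v‖ₑ) w).trans ?_
  have hC : Cin (SL Bs) c v p ≤ (((Cin (SL Bs) c v p).toNNReal + 1 : ℝ≥0) : ℝ≥0∞) := by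
    rw [ENNReal.coe_add, ENNReal.coe_toNNReal hCt]
    exact le_self_add
  refine mul_le_mul' hC (mul_le_mul' le_rfl ?_)
  set E' := {e : Edg (Q.T k hk) // ∃ t ∈ {t | P ((Q.T k hk).H t) ⊆ Q.N ∧ t ≠ Q.cix k hk},
    e ∈ eIn (Q.T k hk) t} with hE'
  have hmem : ∀ e : E', (ea e.1, ea e.1 + ev e.1) ∈ Ed Q k hk := by
    rintro ⟨e, t, ht, he⟩
    have h1 : segment ℝ (ea e) (ea e + ev e) = e.1 := by rw [← sgm_eq_segment, sgm_edg]
    obtain ⟨x, hx, hd, hex⟩ := e.2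
    refine ⟨x, hd, ?_, ?_⟩
    · change (Q.T k hk).cc x = segment ℝ (ea e) (ea e + ev e)
      rw [h1, hex]
    · change segment ℝ (ea e) (ea e + ev e) ⊆ Q.N
      rw [h1]
      exact (mem_eIn.1 he).trans ht.1
  have hinj : Function.Injective (fun e : E' => (⟨(ea e.1, ea e.1 + ev e.1), hmem e⟩ :
      Ed Q k hk)) := by
    intro e e' hee
    have h1 := congrArg Subtype.val hee
    simp only [Prod.mk.injEq] at h1
    have h2 : ev e.1 = ev e'.1 := by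
      have := h1.2
      rw [h1.1] at this
      exact add_left_cancel this
    apply Subtype.ext
    apply Subtype.ext
    rw [← sgm_edg e.1, ← sgm_edg e'.1, h1.1, h2]
  have h3 := ENNReal.tsum_comp_le_tsum_of_injective hinj (fun e : Ed Q k hk =>
    ENNReal.ofReal (‖lin A (e.1.2 - e.1.1)‖ ^ (3 - p)) *
      (∫⁻ τ in Icc (0:ℝ) 1, ‖D (e.1.1 + w + τ • (e.1.2 - e.1.1)) (e.1.2 - e.1.1)‖ₑ ^ p))
  refine le_trans (le_of_eq ?_) h3
  refine tsum_congr fun e => ?_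
  simp only [add_sub_cancel_left]
  rfl

end

end Crest.Agent.R096.Ine_222
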