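import Crest.Agent.R096.Wd16_120
import Crest.Agent.R096.Wd18_120
import Crest.Agent.R096.Fns4_360
import Crest.Agent.R096.Pmc4_112

/-!
Row 96, exact cores (helper120), part 19: **(B2) of 112 #11318**: the clause `words` of `Pmc_112.Mok` for
every decorated mesh whose core tiles are the cores of the translated blocks; families indexed by `X`.
`b2_good` = `GoodW` form (EaX, `p > 2`); `b2_in` = EA0 form (`Blk`, `InS` of 961, `p ≤ 2`).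
-/

set_option autoImplicit false
set_option linter.unusedSectionVars false
set_option linter.style.longLine false

open Set Filter Topology Metric MeasureTheory
open scoped ENNReal

namespace Crest.Agent.R096.Wd_120

open Crest.Agent.R096.Bsp_628 Crest.Agent.R096.Brk1_582
open Crest.Agent.R096.Bxs_627 (zz)
open Crest.Agent.R096.Brk3_582 Crest.Agent.R096.Brk5_582 Crest.Agent.R096.Core_124
open Crest.Agent.R096.Msh_715 Crest.Agent.R096.Ls_222 Crest.Agent.R96.Sg1_199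
open Crest.Agent.R096.SkC1_961 (E3 FoamD th)
open Crest.Agent.R096.Mbf_337 (sb Cores Exact Words)
open Crest.Agent.R096.EaX_766 (lin)
open Crest.Agent.R096.Exa_365 (GoodW)
open Crest.Agent.R096.Mal_874 (CB)
open Crest.Agent.R96.Acl_392 (ACLat)
open Crest.Agent.R96.Pm_199 (Dec)
open Crest.Agent.R96.EaP_899 (XD fX)
open Crest.Agent.R096.Fns_360 (trA trA_apply)
open Crest.Agent.R096.Ea0_961 (Blk Tw Ed cb0 sbF)


/-- **(B2), EA0 form** (`p ≤ 2`; [E5] of 348 #11167) -/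
theorem b2_in {δ κ0 R : ℝ} (hδ : 0 < δ) (hκ : 1 ≤ κ0) (hR : 1 ≤ R) {κp lam0 lam1 : ℝ}
    (hκp : 0 < κp) (hl0 : 0 < lam0) (hl1 : lam1 < 1) {M : ℕ} (hM0 : 0 < M) :
    ∃ κw : ℝ, 0 < κw ∧ ∀ (La Om : Set E3), IsOpen La → ∀ (F : Set (Bx (Fin 3)))
      (bf : BoxFoam La F δ κ0) (cmp : Cmp F R) (c0 : ℝ) (X : Set F) (lam : F → ℝ) (zc : F → E3)
      (H : XD bf c0 X lam zc) (f : E3 → E3), ContinuousOn f Om →
      ∀ (D : E3 → E3 →L[ℝ] E3) (u κ1 κ2 κ2' κv κt μ Cc : ℝ) (Bs Nn : ℕ), 0 ≤ u → 0 ≤ κv → κv ≤ κw →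
      κt ≤ κw → 0 < μ →
      ∀ (A : F → E3 ≃ᵃ[ℝ] E3) (Q : F → CB E3 3) (k0 : F → ℕ) (hk : ∀ c, (Q c).kc ≤ k0 c),
      (∀ c ∈ X, lam0 ≤ lam c ∧ lam c ≤ lam1) →
      (∀ c ∈ X, Blk F u Cc κ2' κt Bs M Nn c (A c) (lam c) (Q c) (k0 c) (hk c)) →
      (∀ c ∈ X, ∀ x ∈ (Q c).Kc, ((Q c).T (k0 c) (hk c)).dim x = 1 →
        ∀ y ∈ ((Q c).T (k0 c) (hk c)).cc x, ∀ w : E3, ‖(Q c).ψ w‖ ≤ 1 / (10 * 2 ^ k0 c) →
        ‖f (y + w) - A c (y + w)‖ ≤ κv * (lam c * c.1.sz) / M) →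
      ∀ v : X → E3, (∀ c : X, v c ∈ Tw (Q c) (k0 c)) →
      (∀ c : X, ∀ e ∈ Ed (Q c) (k0 c) (hk c), segment ℝ e.1 e.2 ⊆ (Q c).Kc →
        ∫⁻ τ in Icc (0:ℝ) 1, ‖D (e.1 + v c + τ • (e.2 - e.1)) (e.2 - e.1) -
          lin (A c) (e.2 - e.1)‖ₑ ≤ ENNReal.ofReal (κv * ‖lin (A c) (e.2 - e.1)‖)) →
      (∀ c : X, ∀ e ∈ eIn ((Q c).T (k0 c) (hk c)) ((Q c).cix (k0 c) (hk c)), ∀ k,
        ACLat Om (fun y => f y k) (fun y => D y (ev e) k) (ev e) (ea e + v c)) →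
      ∀ D0 : Dec Om F, Cores (fX bf cmp H) D0.T f κ1 κ2 X D0.J0 D0.J D0.V D0.ct D0.A D0.lam D0.z
        D0.θ D0.φ →
      (∀ c : X, D0.lam c = lam c ∧ D0.z c = zz c.1.1 (lam c) ∧ D0.A c = trA (A c) (v c) ∧
        D0.M c = M ∧ CoreAt D0.T (D0.ct c) ((Q c).tr (v c))) →
      ∃ Bad : F → Set ℝ, (∀ c, MeasurableSet (Bad c)) ∧
        (∀ c, volume (Bad c ∩ Icc 0 1) ≤ ENNReal.ofReal (κp / 32)) ∧
        ∀ L : F → Finset ℝ, (∀ c, ∀ t ∈ L c, μ ≤ t ∧ t ≤ 1 - μ) →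
          (∀ c, ∀ t ∈ L c, t ∉ Bad c) →
            Words (fX bf cmp H) D0.T f X D0.ct D0.A D0.lam D0.z D0.M L := by
  classical
  obtain ⟨κw, hκw, HH⟩ := words_blk_in hδ hκ hR (κb := κp / 32) (by positivity) hl0 hl1 M
  refine ⟨κw, hκw, ?_⟩
  intro La Om hLa F bf cmp c0 X lam zc H f hf D u κ1 κ2 κ2' κv κt μ Cc Bs Nn hu hκv0 hκv hκt hμ
    A Q k0 hk hlam hB hgam v hv htra hacl D0 hC hD
  let w' : F → E3 := fun c => if h : c ∈ X then v ⟨c, h⟩ else 0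
  have ew : ∀ c (h : c ∈ X), w' c = v ⟨c, h⟩ := fun c h => dif_pos h
  have hψ : ∀ c (h : c ∈ X), ‖(Q c).ψ (w' c)‖ ≤ 1 / (10 * 2 ^ k0 c) := by
    intro c hc
    rw [ew c hc, pi_norm_le_iff_of_nonneg (by positivity)]
    intro l
    have h1 := hv ⟨c, hc⟩ l
    rw [Real.norm_eq_abs, abs_of_nonneg h1.1]
    exact h1.2
  refine words_mok (Φ := fX bf cmp H) hμ ?_
  refine HH La Om hLa _ (fX bf cmp H) D0.ι D0.T f hf D u κ1 κ2 κv κt hu hκv0 hκv hκt X D0.J0 D0.J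
    D0.V D0.ct D0.A D0.lam D0.z D0.θ D0.φ D0.M Q k0 hk A w' hC ?_ ?_ ?_ ?_ ?_ ?_ ?_
    (fun c hc => (hB c hc).lin_eq) hψ ?_ ?_ ?_ ?_
  · intro c hc
    have h1 := hD ⟨c, hc⟩
    rw [h1.2.1, h1.1]
  · intro c hc
    rw [ew c hc]
    exact (hD ⟨c, hc⟩).2.2.2.2
  · intro c hc y
    rw [ew c hc, (hD ⟨c, hc⟩).2.2.1, trA_apply]
  · intro c hc
    obtain ⟨h1, h2, h3, h4, h5⟩ := hD ⟨c, hc⟩
    have e1 : D0.M c = M := h4
    have e2 : D0.z c = zz c.1 (lam c) := h2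
    have e3 : D0.lam c = lam c := h1
    rw [e1, e2, e3]
    exact ⟨hM0, (hB c hc).grid⟩
  · intro c hc
    exact ((hD ⟨c, hc⟩).2.2.2.1).le
  · intro c hc
    rw [(hD ⟨c, hc⟩).1]; exact hlam c hc
  · intro c hc
    have e3 : D0.lam c = lam c := (hD ⟨c, hc⟩).1
    rw [e3]
    exact push_fX bf cmp H hc
  · intro c hc
    have e1 : D0.M c = M := (hD ⟨c, hc⟩).2.2.2.1
    have e3 : D0.lam c = lam c := (hD ⟨c, hc⟩).1
    rw [e1, e3]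
    exact (hB c hc).thin
  · intro c hc x hx hd y hy
    have e1 : D0.M c = M := (hD ⟨c, hc⟩).2.2.2.1
    have e3 : D0.lam c = lam c := (hD ⟨c, hc⟩).1
    rw [e1, e3]
    exact hgam c hc x hx hd y hy (w' c) (hψ c hc)
  · intro c hc e he hs
    rw [ew c hc]
    exact htra ⟨c, hc⟩ e he hs
  · intro c hc e he k
    rw [ew c hc]
    exact hacl ⟨c, hc⟩ e he k

/-- the last hypothesis of `b2_in` holds for almost every translation -/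
theorem ae_acl_core {p : ℝ} {Om La : Set E3} {f : E3 → E3} {D : E3 → E3 →L[ℝ] E3}
    (hOm : IsOpen Om) (h : Crest.Agent.R096.Er_594.SH3 p Om La f D) (Q : CB E3 3) (k0 : ℕ)
    (hk : Q.kc ≤ k0) : ∀ᵐ w : E3, ∀ e ∈ eIn (Q.T k0 hk) (Q.cix k0 hk), ∀ k,
      ACLat Om (fun y => f y k) (fun y => D y (ev e) k) (ev e) (ea e + w) := by
  have h1 := Crest.Agent.R096.Exa_365.ae_ac hOm h
    (fun e : {e // e ∈ eIn (Q.T k0 hk) (Q.cix k0 hk)} => ea e.1) (fun e => ev e.1)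
  filter_upwards [h1] with w hw e he k
  exact hw k ⟨e, he⟩

end Crest.Agent.R096.Wd_120
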