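import Crest.Agent.R96.Ea0q_348_Mg
import Crest.Agent.R096.Frs2_662
import Crest.Agent.R096.Bmd5_798
import Crest.Agent.R096.Jv1_733_Mg
import Crest.Agent.R096.Mon1_664
import Crest.Agent.R096.Nsl2_552
import Crest.Agent.R096.Np3_962
import Crest.Agent.R096.Red1_58
import Crest.Agent.R96.Sg5_199
import Crest.Agent.R096.Pgb1_120
import Crest.Agent.R096.Mfs1_168
import Crest.Agent.R96.Gj1_872
import Crest.Agent.R096.Mfs2_168
import Crest.Agent.R096.Cm0_222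
import Crest.Agent.R096.Np5_962
import Crest.Agent.R096.Nge5_423
import Crest.Agent.R96.Gj2_872
import Crest.Agent.R096.Ea0_961
import Mathlib
import Crest.Agent.R096.Qc0_222
import Crest.Agent.R096.Ez5_748
import Crest.Agent.R096.Uni1_663
import Crest.Agent.R096.Mfa4_880
import Crest.Agent.R96.Ea0p_348
import Crest.Agent.R96.Eam4_466
import Crest.Agent.R96.Eac3_348
import Crest.Agent.R096.Pmc6_112
import Crest.Agent.R096.Pgn6_112
import Crest.Agent.R096.Zb1_874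
import Crest.Agent.R096.Eaz1_663
import Crest.Agent.R096.Pth3_561
import Crest.Agent.R096.Wd19_120
import Crest.Agent.R096.Ucm1_374
import Crest.Agent.R96.Ea0g_348
import Crest.Agent.R096.Pgn8_112

-- ▼ part R096/Top6_961
section

/-!
Row 96 (S0127), helper961.  **The top of the row, fifth form**: `MachBF`, `MachNO` from `DoorsPb b` (662, 337, 487),
`NOPre p` for `p < 3` proved (552), `EA0` from `Pre0` (348).
-/

set_option autoImplicit false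
set_option linter.style.longLine false

namespace Crest.Agent.R096.Top_961

open MeasureTheory Metric Set Filter Topology
open scoped ENNReal Gradient NNReal
open Crest.AnalysisR.VecCalc3 Crest.AnalysisR.Sobolev
open Crest.Agent.R096.Sk_962 Crest.Agent.R096.Sk4_663

/-- **S0127 from the open nodes** (10:15Z): `DoorsPb b` (DOORS), `PreX` (`p > 2`), `Pre0` and the
consumer of `EA0` (`p ≤ 2`), `NOPre` (`p ≥ 3`). -/
theorem s0127_final5 {b : ℝ} (hb : 0 < b) (hD : Frs_662.DoorsPb b)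
    (preX : ∀ p : ℝ, 2 < p → Eau_365.PreX p)
    (pre0 : ∀ p : ℝ, 1 ≤ p → p ≤ 2 → Crest.Agent.R96.Ea0p_348.Pre0 p)
    (r12 : ∀ p : ℝ, 1 ≤ p → p ≤ 2 → Ea0_961.EA0 p → Br_695.BFk p)
    (pre3 : ∀ p : ℝ, 3 ≤ p → No_276.NOPre p)
    (Ω Λ : Set R3) (hΩo : IsOpen Ω) (hΩb : Bornology.IsBounded Ω) (hΩc : IsConnected Ω)
    (hΛo : IsOpen Λ) (hΛb : Bornology.IsBounded Λ) (hΛc : IsConnected Λ)
    (p : ℝ) (hp : 1 ≤ p) (f : R3 → R3) (hf : IsHomeomorphOn f Ω Λ)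
    (hfp : MemLp f (ENNReal.ofReal p) (volume.restrict Ω))
    (G : Fin 3 → R3 → R3) (hG : ∀ j : Fin 3, HasWeakGradOn Ω (fun x => f x j) (G j))
    (hGp : ∀ j : Fin 3, MemLp (G j) (ENNReal.ofReal p) (volume.restrict Ω))
    (ε : ℝ≥0∞) (hε : 0 < ε) :
    ∃ g : R3 → R3, IsSmoothDiffeoOn g Ω Λ ∧ MemLp g (ENNReal.ofReal p) (volume.restrict Ω) ∧
      (∀ j : Fin 3, MemLp (fun x => ∇ (fun y => g y j) x) (ENNReal.ofReal p) (volume.restrict Ω)) ∧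
      ∫⁻ x in Ω, (‖g x - f x‖ₑ ^ p + ∑ j : Fin 3, ‖∇ (fun y => g y j) x - G j x‖ₑ ^ p) < ε :=
  s0127_final2 (Mch_337.machBF_of_b hb (Frs_662.frontPb_of hD))
    (fun p hp => Mxo_487.machNO_of_b hp hb (Frs_662.frontPb_of hD)) preX
    (fun hM p hp h2 => Crest.Agent.R96.Ea0p_348.ea0_of_pre hp (by linarith) hM (pre0 p hp h2)) r12
    (fun p hp => (lt_or_ge p 3).elim (fun h => Nsl_552.noPre_lt hp h) (fun h => pre3 p h))
    Ω Λ hΩo hΩb hΩc hΛo hΛb hΛc p hp f hf hfp G hG hGp ε hε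

end Crest.Agent.R096.Top_961
end

-- ▼ part R096/Bmd6_798
section

/-!
Row 96 (S0127), helper798.  NO0-PRE3: **`exMeshN_of : ExBlkN p → PreGenN → ExMeshN p`**
(962 #11679 (1)).
-/

set_option autoImplicit false
set_option linter.style.longLine false
set_option linter.unusedSectionVars false
set_option linter.unusedVariables false

open MeasureTheory Set Filter Topology Metric
open scoped NNReal ENNReal

noncomputable section

namespace Crest.Agent.R096.Bmd_798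

open Crest.Agent.R096.Msh_715 hiding P I
open Crest.Agent.R096.SkC1_961 (E3 Cfg FoamD Hom3 NN)
open Crest.Agent.R096.Ls_222
open Crest.Agent.R096.Mbf_337
open Crest.Agent.R96.Pm_199 (le Dec)
open Crest.Agent.R096.Msh_810 Crest.Agent.R96.En2_199 Crest.Agent.R96.En4_199
  Crest.Agent.R96.En9_199 Crest.Agent.R96.En11_199
open Crest.Agent.R096.Ps_273
open Crest.Agent.R096.No0_477 (cub fr Fc vx)
open Crest.Agent.R096.Ea_713 (lin)
open Crest.Agent.R096.Er_594 (SH3)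
open Crest.Agent.R096.Der_764 (OmH)
open Crest.Agent.R96.Sob4_199 (VWD)
open Crest.Agent.R96.Acl_392 (WD)
open Crest.Agent.R96.En10_199 (P3)
open Crest.Agent.R096.Bsp_628 Crest.Agent.R096.Brk5_582
open Crest.Agent.R096.Dic6_582 (dF kF)
open Crest.Agent.R096.Bxs_627 (zz)
open Crest.Agent.R096.EaX_766 (cbx)
open Crest.Agent.R096.Fns_360 (trA FineS offO O34)
open Crest.Agent.R096.Mal_874 (MD RD outD reOm)
open Crest.Agent.R096.Gno_324 (cap capD_Om)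
open Crest.Agent.R096.Mfa_880 (QU BxM)
open Crest.Agent.R096.Bls_168 (cwR Bulk cnt_eq cwR_ne_top cw_num)
open Crest.Agent.R096.Np_962
open Crest.Agent.R096.No_276 (QL)
open Crest.Agent.R096.Npr_582 (Op cN)
open Crest.Agent.R096.Pmc_112 (Gd')
open Crest.Agent.R096.Nx4_473 (Kn Kn_ne_top exists_Rp nums_md front3_g0 g0 g0_off vol_QL int_GGw_lt wt)

/-- the constant of `ExMeshN` -/
def Kmn (p : ℝ) : ℝ≥0∞ := Kn p + 512

theorem Kmn_ne_top {p : ℝ} (hp : 1 ≤ p) : Kmn p ≠ ⊤ :=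
  ENNReal.add_ne_top.2 ⟨Kn_ne_top hp, by norm_num⟩

/-- **COMPOSITION OF `ExMeshN`** -/
theorem exMeshN_of {p : ℝ} (hp : 1 ≤ p) (HB : ExBlkN p) (HG : PreGenN) : ExMeshN p := by
  classical
  obtain ⟨Ku, hKu, hcw⟩ := cw_num
  refine ⟨Bme_922.S0, Ku, Kmn p, Bme_922.S0_finite, hKu, Kmn_ne_top hp, fun q hq =>
    ⟨1 / 16, by norm_num, fun κ3 hκ3 hκ3q Cs hCs => ?_⟩⟩
  have hdF : 0 < dF q := Crest.Agent.R096.Dic6_582.dF_pos hq
  have hkF : (1 : ℝ) ≤ kF q := kF_one q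
  obtain ⟨B0, R0, KB, hKB, HB⟩ := HB q hq
  obtain ⟨KG, hKG, HG⟩ := HG p hp B0 R0 (dF q) 6 hdF (by norm_num) Cs hCs
  refine ⟨KG * KB, ENNReal.mul_ne_top hKG hKB, fun κ' hκ' hκ'1 lam0 hlam0 κ1 hκ1 => ?_⟩
  set κm : ℝ := min κ1 (1 / (32 * kF q)) with hκm
  have hκm0 : 0 < κm := lt_min hκ1 (by positivity)
  have hκm1 : κm ≤ κ1 := min_le_left _ _
  have hκm2 : κm * kF q ≤ 1 / 32 := by
    have h1 : κm ≤ 1 / (32 * kF q) := min_le_right _ _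
    calc κm * kF q ≤ 1 / (32 * kF q) * kF q := mul_le_mul_of_nonneg_right h1 (by linarith)
      _ = 1 / 32 := by field_simp
  obtain ⟨κ1f, hκ1f, hκ1f2, HB⟩ := HB κ' hκ' hκ'1 lam0 hlam0 κm hκm0 hκm2
  refine ⟨κ1f, hκ1f, ?_⟩
  intro L η hL hη0 hη s hs εf εf' δf e5 he5 hεf hKe hKd La f D0f hLa hLab hSH hclose Mf ρ0 h hMf hρ0
    hρ5 hdy al F bf cmp lam hl hl4 A f1 D1 X HH g Hf e ρ he hρ
  set Φ := ΦN bf cmp lam hl hl4 with hΦ
  have hL0 : (0 : ℝ) < L := by exact_mod_cast hL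
  have hQo : IsOpen (QL (L : ℝ)) := Nst_780.isOpen_QL hL0.ne'
  have hQb : Bornology.IsBounded (QL (L : ℝ)) := Nst_780.isBounded_QL hL0.ne'
  have hQn : (QL (L : ℝ)).Nonempty := ⟨0, by
    refine ⟨?_, ?_, ?_⟩ <;> simp⟩
  set g' : Φ.F → Fin 3 → E3 → ℝ := g0 Φ (QL L) f1 g with hg'
  have Hf' := front3_g0 Hf
  have hKn : Kn p ≤ Kmn p := le_self_add
  have h512 : (512 : ℝ≥0∞) ≤ Kmn p := le_add_self
  have hεf' : εf' ≠ ⊤ := by
    rintro rfl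
    have h1 : Kmn p * ⊤ = ⊤ := ENNReal.mul_top (lt_of_lt_of_le (by norm_num) h512).ne'
    rw [h1] at hKe
    exact absurd hKe (not_le.2 ENNReal.ofReal_lt_top)
  -- weights
  obtain ⟨W, hW0, hWd, hW1, hW2, hW3, hWl⟩ := Nsl_552.exists_W Φ hq Hf.c.h0 hdy al hκ3 hκ3q
  -- the bad set
  obtain ⟨R', hR1, hXR, hR2, hcov, hvR, hsR⟩ := exists_Rp hp hL Hf'.c hεf hεf' hWl hW3 hKn he
  -- the outer data
  obtain ⟨D0, hD1, -, hD3, hD4⟩ := Szn_849.dat_front hQo hLa Hf hR1 hXR hκm0 (C := 6) (by norm_num) 0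
  -- the blocks
  obtain ⟨D', w0, Mc, M, Y, k0, hk0, κr, Gd, B, hDm, hDv, hMD, hN, hGen, hBsum⟩ :=
    HB s εf εf' (QL L) La f hQo hQb hLa hLab Mf ρ0 h al F bf cmp lam hl hl4 A f1 D1 X HH g Hf D0 hD1 hD3
      (fun u hu => ⟨(hD4 u hu).1, (hD4 u hu).2.1⟩)
  have hφ : ∀ x, M.φ x = x := by
    intro x
    rw [hGen.φ]
    rfl
  have hOm : M.D0.Om = QL L := by rw [hMD, hD3]
  have hC6 : M.D0.C = 6 := by rw [hMD, hD1]
  -- the block of squares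
  have hvol : ∀ S : Finset (UX F), ∑ j ∈ S, volume (M.Q j).N ≤ ENNReal.ofReal (e5 / L) := fun S =>
    Jv_733.junk_front hL Hf hl hl4 le_rfl hκ1f.le hκ1f2 he5.le
      (le_trans (by norm_num) h512) hKe (b := fun j : UX F => j.1) Subtype.val_injective hN S
  obtain ⟨β, hβ, hβO, hfin, k0g, hk0g, K1, hgeo⟩ := exists_geoN M hφ hL hOm hη0 hη he5 hvol
  -- (M3)
  have hOmH : OmH Φ f1 (QL L) = Op Φ (QL L) f1 := rfl
  have hgf : ∫⁻ x in QL (L : ℝ), GGw (fun c => ENNReal.ofReal (W c)) g' x ^ p ≠ ⊤ := by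
    have hp0 : 0 < p := by linarith
    have h1 := int_GGw_lt hp Hf'.c hWl hW3 hεf (vol_QL hL)
    have h2 : ∫⁻ x in QL (L : ℝ), GGw (wt W) g' x ^ p =
        ∫⁻ x in Op Φ (QL L) f1, GGw (wt W) g' x ^ p := by
      have hsub : Op Φ (QL L) f1 ⊆ QL L := fun x hx => hx.1
      have h3 : (fun x => GGw (wt W) g' x ^ p) =
          (Op Φ (QL L) f1).indicator (fun x => GGw (wt W) g' x ^ p) := by
        funext x
        by_cases hx : x ∈ Op Φ (QL L) f1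
        · rw [indicator_of_mem hx]
        · rw [indicator_of_notMem hx]
          have h4 : GGw (wt W) g' x = 0 := by
            unfold GGw G1
            refine ENNReal.tsum_eq_zero.2 fun c => ?_
            have h5 : ∀ i, g' c i x = 0 := fun i => g0_off hx c i
            simp only [h5, enorm_zero, Finset.sum_const_zero, mul_zero]
          rw [h4, ENNReal.zero_rpow_of_pos hp0]
      rw [h3, setLIntegral_indicator Hf.c.op.measurableSet, inter_eq_self_of_subset_left hsub, ← h3]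
    change ∫⁻ x in QL (L : ℝ), GGw (wt W) g' x ^ p ≠ ⊤
    rw [h2]
    exact h1.ne
  obtain ⟨kw, hkw⟩ := HG (kF q) (cN q) La (QL L) Φ f1 D1 D' hQo hQn hQb hLa Hf.c.homeo Hf.sh hDm hDv
    g' Hf'.c.gm Hf'.c.wd W κ' κm (1 / 16) κ3 hW0 hWd hW1 hW2 hW3 hκ' hκ'1 hκ3 (by norm_num)
    (lt_of_le_of_lt hκm2 (by norm_num)) (fun c l x hx => g0_off hx c l) hgf _ lam _ Mc M Y k0 hk0 κr
    Gd B hGen e he
  -- the scales
  set S : Finset (UX F) := hfin.toFinset with hS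
  obtain ⟨n, hn⟩ : ∃ n : ℕ, ((2 : ℝ) ^ n)⁻¹ ≤ ρ := by
    obtain ⟨n, hn⟩ := exists_pow_lt_of_lt_one hρ (show (1 / 2 : ℝ) < 1 by norm_num)
    refine ⟨n, ?_⟩
    rw [one_div, inv_pow] at hn
    exact hn.le
  set K0 : ℕ := max K1 (max (S.sup kw) n) with hK0
  have hK01 : K1 ≤ K0 := le_max_left _ _
  have hK02 : ∀ j ∈ S, kw j ≤ K0 := fun j hj =>
    (Finset.le_sup (f := kw) hj).trans ((le_max_left _ _).trans (le_max_right _ _))
  have hK03 : n ≤ K0 := (le_max_right _ _).trans (le_max_right _ _)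
  set k : UX F → ℕ := fun j => if j ∈ S then K0 else max (max (k0g j) (kw j)) K0 with hkdef
  have hkS : ∀ j, j ∈ S → k j = K0 := fun j hj => if_pos hj
  have hkn : ∀ j, j ∉ S → k j = max (max (k0g j) (kw j)) K0 := fun j hj => if_neg hj
  have hSm : ∀ j, j ∈ S ↔ (M.V j ∩ cthickening β (BB L η)).Nonempty := fun j =>
    hfin.mem_toFinset
  have hk1 : ∀ j, k0g j ≤ k j ∨ (M.V j ∩ cthickening β (BB L η)).Nonempty := by
    intro j
    by_cases hj : j ∈ S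
    · exact Or.inr ((hSm j).1 hj)
    · left
      rw [hkn j hj]
      exact (le_max_left _ _).trans (le_max_left _ _)
  have hk2 : ∀ j, K0 ≤ k j := by
    intro j
    by_cases hj : j ∈ S
    · rw [hkS j hj]
    · rw [hkn j hj]
      exact le_max_right _ _
  have hk3 : ∀ j, (M.V j ∩ cthickening β (BB L η)).Nonempty → k j = K0 := fun j hj =>
    hkS j ((hSm j).2 hj)
  have hk4 : ∀ j, kw j ≤ k j := by
    intro j
    by_cases hj : j ∈ S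
    · rw [hkS j hj]
      exact hK02 j hj
    · rw [hkn j hj]
      exact (le_max_right _ _).trans (le_max_left _ _)
  have hc : 0 < M.D0.C / 2 ^ K0 := by
    rw [hC6]
    positivity
  obtain ⟨hk, hK, hrest⟩ := hgeo K0 hK01 hc k hk1 hk2 hk3
  set r : ℝ := ((2 : ℝ) ^ K0)⁻¹ with hr
  have hr0 : 0 < r := by positivity
  have hrρ : r ≤ ρ := le_trans (by
    rw [hr]
    exact inv_anti₀ (by positivity) (pow_le_pow_right₀ (by norm_num) hK03)) hn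
  obtain ⟨h4r, hLr, hβr, hblk⟩ := hrest r hr0.ne' rfl
  -- (M3) at these scales
  obtain ⟨A1, hA1m, hA1v, hA1⟩ := hkw _ hc k hk hk4
  -- the ends
  obtain ⟨Se, hS1, hS2, hS3⟩ := Pg_691.exists_ends hp hQo (vol_QL hL) hSH s hclose (k := K0)
    (r := r) (by rw [hr, one_div])
  -- the shift
  set Mc0 := cap M (M.D0.C / 2 ^ K0) hc with hMc0
  have hOmc : Mc0.D0.Om = QL L := by
    have h3 : Mc0.D0.Om = M.D0.Om := capD_Om M.D0 _ hc
    rw [h3, hOm]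
  obtain ⟨a, haA, habox, haS, haG, haEd, haEd1, haSR, haH⟩ := nums_md hp hLa Hf'.c
    (fun c l x hx => g0_off hx c l) hWl hW3 hKn hR1 hsR Mc0 hOmc k (N := 2) (Hk := Se) hS1
    (θ := fun _ => ((2 : ℝ≥0∞) ^ K0) ^ 2 * (δf ^ p⁻¹ * volume (QL (L : ℝ)))) hS2 hA1v hS3
  obtain ⟨v, hv, hvG, frr, hfin', hcmp, hchoice, hnonQ⟩ := hA1 a haA
  obtain ⟨o, Mm, Zs, lo, hi, hM0, zne, zs, N1, N2, hcub, hblkk, hjs⟩ := hblk a
  have hO : Mc0.φ ⁻¹' Mc0.D0.Om = QL L := Szn_849.cap_pre M hc hGen.hOm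
  obtain ⟨hjunk, hscl⟩ := hjs v hv hO
  have hφc : ∀ x, Mc0.φ x = x := hφ
  -- the bulk
  have hBulk : Bulk Mc0 k a v K0 r o Mm Zs (BB L η) :=
    { r_eq := rfl
      sub := hcub
      hK := by
        intro x hx
        filter_upwards [ball_mem_nhds x (show (0 : ℝ) < β / 2 by linarith)] with y hy
        exact hK a y (mem_cthickening_of_dist_le y x _ _ hx (mem_ball.1 hy).le)
      hj := by
        rintro j ⟨y, hy1, hy2⟩
        refine hk3 j ⟨y, ?_, self_subset_cthickening _ hy2⟩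
        have h2 := MD.N_mem hv j hy1
        exact Eq.subst (motive := fun t => t ∈ M.V j) (hφ y) h2 }
  have hψc : ∀ j x, ‖(Mc0.Q j).ψ x‖ ≤ ‖x‖ := hGen.ψ1
  obtain ⟨hcwQ, hcwc⟩ := hcw Mc0 hφc hψc hk a hv hr0.ne' hBulk
  obtain ⟨hcores, hfine⟩ := hGen.cf _ hc k hk a v hv hvG
  have hcs : ∑' c : Φ.F, ENNReal.ofReal ((1 / lam c * ‖lin (Av (fun c => trA (A c) (w0 c)) v c)‖) ^ p) *
      volume (Msh_715.P ((Mc0.mesh hk a hv).H (ctu Mc0 hk a hv c))) ≤ εf' * volume (QL (L : ℝ)) := by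
    have key : ∀ A2 : Φ.F → E3 ≃ᵃ[ℝ] E3, A2 = Av (fun c => trA (A c) (w0 c)) v →
        Cores Φ (reOm (Mc0.mesh hk a hv) hO) f1 κm (1 / 16) univ
          (fun b => {ctu Mc0 hk a hv b}) (fun b => {ctu Mc0 hk a hv b})
          (fun b => {ctu Mc0 hk a hv b}) (ctu Mc0 hk a hv) A2 lam (fun c => zz c.1 (lam c))
          (fun _ x => x) (fun _ _ => 0) := by
      rintro _ rfl
      exact Szn_849.cores_reOm hO hcores
    have h1 := Jv_733.cs_front Hf (key (fun c => trA (A c) (w0 c + v ⟨c, mem_univ c⟩)) (by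
      funext c
      exact (Mdd_360.trA_trA (A c) (w0 c) (v ⟨c, mem_univ c⟩)).symm))
    refine le_trans (le_of_eq (tsum_congr fun c => ?_)) h1
    have h2 : Av (fun c => trA (A c) (w0 c)) v c = trA (A c) (w0 c + v ⟨c, mem_univ c⟩) :=
      Mdd_360.trA_trA (A c) (w0 c) (v ⟨c, mem_univ c⟩)
    rw [h2]
    rfl
  have hm : ∀ j, Se j a ≤ 16 * (((2 : ℝ≥0∞) ^ K0) ^ 2 * (δf ^ p⁻¹ * volume (QL (L : ℝ)))) := by
    intro j
    refine (haH j).trans (le_of_eq ?_)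
    norm_num
  have hends := Nend_458.ends3 hL (f := f) (f1 := f1) (s := s) (r := r) (e5 := e5) (ρ0 := ρ0) (η := η)
    (K0 := K0) rfl hM0 lo hi (fun m hm' => (zs m).1 hm') N1 haS hm (by
      have h1 : 512 * δf ^ p⁻¹ ≤ ENNReal.ofReal e5 :=
        (mul_le_mul' h512 le_rfl).trans hKd
      have h2 : (16 : ℝ≥0∞) * (16 * δf ^ p⁻¹) = 2⁻¹ * (512 * δf ^ p⁻¹) := by
        rw [← mul_assoc, ← mul_assoc]
        congr 1
        rw [show (512 : ℝ≥0∞) = 2 * 256 by norm_num, ← mul_assoc,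
          ENNReal.inv_mul_cancel (by norm_num) (by norm_num)]
        norm_num
      rw [h2]
      calc 2⁻¹ * (512 * δf ^ p⁻¹) ≤ 2⁻¹ * ENNReal.ofReal e5 := mul_le_mul' le_rfl h1
        _ = ENNReal.ofReal (e5 / 2) := by
            rw [div_eq_inv_mul, ENNReal.ofReal_mul (by norm_num), ENNReal.ofReal_inv_of_pos
              (by norm_num)]
            norm_num) he5 Hf.near (by linarith)
  have he3 : KG * ∑' j, B j + e ≤ KG * KB * εf' * volume (QL (L : ℝ)) + e := by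
    refine add_le_add ?_ le_rfl
    calc KG * ∑' j, B j ≤ KG * (KB * εf' * volume (QL (L : ℝ))) := mul_le_mul' le_rfl hBsum
      _ = KG * KB * εf' * volume (QL (L : ℝ)) := by ring
  obtain ⟨Bf, hMesh⟩ := meshN_of (Φ := Φ) (M := Mc0) (hk := hk) (a := a) (hv := hv) hφc hO
    (q := q) (al := al) (h := h) (s := s) (η := η) (f1 := f1) (g := g') (W := W) (κ' := κ')
    (μ := κ' / 64) (κ1 := κ1) (κ2 := 1 / 16) (κ3 := κ3) (Cs := Cs) (HH := HH) (R' := R')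
    (hr := hr0.ne') (Ku := Ku) (e5 := e5)
    (J0 := fun b => {ctu Mc0 hk a hv b}) (Jt := fun b => {ctu Mc0 hk a hv b})
    (V := fun b => {ctu Mc0 hk a hv b}) (ct := ctu Mc0 hk a hv)
    (A := Av (fun c => trA (A c) (w0 c)) v) (lam := lam) (z := fun c => zz c.1 (lam c))
    (θ := fun _ x => x) (φ := fun _ _ => 0) (Mg := Mc) (D' := D')
    (cw := fun i => cwR (Mc0.mesh hk a hv) r hr0.ne' a o Mm Zs i) frr
    (fun c : Φ.F => (⟨c, mem_univ c⟩ : UX Φ.F)) (fun c c' hcc => congrArg Subtype.val hcc)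
    (fun c => rfl) rfl lo hi hM0 zne (fun m hm' => (zs m).1 hm') N1 N2 hblkk hjunk hscl
    (fun p => scQ_cap p) hends
    (Mon_664.cores_mono hcores hκm1 le_rfl) (Mon_664.fine_mono hfine hκm1) hfin' hcmp hchoice hcov
    (fun p => Szn_849.outer_HR M hc hk a hv hφ (fun u hu => by
      have h1 := (hD4 u (by rw [← hOm]; exact hu)).2.2
      rw [hMD]
      exact h1) p)
    (fun i => (cnt_eq _ _ _ _ _ _ i).le) hcwQ (fun c => hcwc ⟨c, mem_univ c⟩)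
    (fun i _ _ => cwR_ne_top _ _ _ _ _ _ i) hWl Hf'.c.gm haEd haEd1 haSR hvR
    ((hnonQ K0 r hr0.ne' o Mm Zs _ hBulk).trans he3) hcs
  exact ⟨W, R', outD Mc0.D0 k Mc0.W a, K0, r, hr0.ne', o, Mm, Zs, TI Mc0 hk a hv,
    reOm (Mc0.mesh hk a hv) hO, Qr Mc0 hk a hv, tau Mc0 hk a hv,
    (fun b => {ctu Mc0 hk a hv b}), (fun b => {ctu Mc0 hk a hv b}), (fun b => {ctu Mc0 hk a hv b}),
    ctu Mc0 hk a hv, Av (fun c => trA (A c) (w0 c)) v, (fun c => zz c.1 (lam c)), (fun _ x => x),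
    (fun _ _ => 0), Mc, Bf, (fun i => cwR (Mc0.mesh hk a hv) r hr0.ne' a o Mm Zs i), hrρ, hMesh⟩

end Crest.Agent.R096.Bmd_798
end
end

-- ▼ part R096/Prn1_120
section

/-!
Row 96 (S0127), helper120, [B0] of 962 #11186 / #11223: **PREMACH-N** = the target
`Np_962.PremachN` (112's `premach` with exact weights of the levels and the sharp bound for the
weights of the edges by the derivatives of the level functions).
-/

set_option autoImplicit false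
set_option linter.unusedSectionVars false
set_option linter.unusedVariables false
open Set Filter Topology MeasureTheory
open scoped NNReal ENNReal

noncomputable section

namespace Crest.Agent.R096.Prn_120

open Crest.Agent.R096.Msh_715
open Crest.Agent.R096.SkC1_961 (E3 Cfg FoamD Hom3 NN)
open Crest.Agent.R096.Ls_222
open Crest.Agent.R096.Mbf_337
open Crest.Agent.R096.Der_764 (OmH isOpen_OmH continuousOn_Psif)
open Crest.Agent.R96.Pm_199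
open Crest.Agent.R96.Acl_392 (ACLat WD segIn)
open Crest.Agent.R96.Sg1_199 (li sgm UGs ugs_of_acl li_ne_top_of_acl)
open Crest.Agent.R96.Sg5_199 (gdir wd_dir measurable_gdir)
open Crest.Agent.R096.Pmc_112 (Gd' Qs Qs_rev ae_Qs Mok dim_of_cores)
open Crest.Agent.R096.Np_962

/-! ### domination of the increments, extended nonnegative form -/

theorem lint_le_of_inc {h : ℝ → ℝ} {G : ℝ → ℝ≥0∞} (hh : IntegrableOn h (Icc (0:ℝ) 1))
    (hGm : AEMeasurable G (volume.restrict (Icc (0:ℝ) 1)))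
    (hGf : ∫⁻ τ in Icc (0:ℝ) 1, G τ ≠ ⊤)
    (H : ∀ s t : ℝ, 0 ≤ s → s ≤ t → t ≤ 1 →
      ENNReal.ofReal |∫ τ in s..t, h τ| ≤ ∫⁻ τ in Ioc s t, G τ) :
    ∫⁻ τ in Icc (0:ℝ) 1, ‖h τ‖ₑ ≤ ∫⁻ τ in Icc (0:ℝ) 1, G τ := by
  have hhI : IntervalIntegrable h volume 0 1 := by
    rw [intervalIntegrable_iff_integrableOn_Ioc_of_le zero_le_one]
    exact hh.mono_set Ioc_subset_Icc_self
  have hgI : IntegrableOn (fun τ => (G τ).toReal) (Icc (0:ℝ) 1) :=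
    integrable_toReal_of_lintegral_ne_top hGm hGf
  have hgI' : IntervalIntegrable (fun τ => (G τ).toReal) volume 0 1 := by
    rw [intervalIntegrable_iff_integrableOn_Ioc_of_le zero_le_one]
    exact hgI.mono_set Ioc_subset_Icc_self
  have hfin : ∀ᵐ τ ∂(volume.restrict (Icc (0:ℝ) 1)), G τ < ⊤ := ae_lt_top' hGm hGf
  have hsub : ∀ s t : ℝ, 0 ≤ s → t ≤ 1 → Ioc s t ⊆ Icc (0:ℝ) 1 := fun s t hs ht τ hτ =>
    ⟨hs.trans hτ.1.le, hτ.2.trans ht⟩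
  have key := Red_58.norm_le_of_inc hhI hgI' (by
    intro s hs t ht hst
    have h1 := H s t hs.1 hst ht.2
    have h2 : ∫ τ in s..t, (G τ).toReal = (∫⁻ τ in Ioc s t, G τ).toReal := by
      rw [intervalIntegral.integral_of_le hst]
      exact integral_toReal (hGm.mono_measure (Measure.restrict_mono (hsub s t hs.1 ht.2) le_rfl))
        (ae_mono (Measure.restrict_mono (hsub s t hs.1 ht.2) le_rfl) hfin)
    rw [h2, Real.norm_eq_abs]
    have h3 : ∫⁻ τ in Ioc s t, G τ ≠ ⊤ :=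
      ne_top_of_le_ne_top hGf (lintegral_mono_set (hsub s t hs.1 ht.2))
    exact (ENNReal.ofReal_le_iff_le_toReal h3).1 h1)
  have e1 : ∫⁻ τ in Icc (0:ℝ) 1, ‖h τ‖ₑ = ENNReal.ofReal (∫ τ in (0:ℝ)..1, ‖h τ‖) := by
    rw [intervalIntegral.integral_of_le zero_le_one,
      ofReal_integral_norm_eq_lintegral_enorm (hh.mono_set Ioc_subset_Icc_self)]
    exact setLIntegral_congr Ioc_ae_eq_Icc.symm
  have e2 : ∫⁻ τ in Icc (0:ℝ) 1, G τ = ENNReal.ofReal (∫ τ in (0:ℝ)..1, (G τ).toReal) := by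
    rw [intervalIntegral.integral_of_le zero_le_one, ← integral_Icc_eq_integral_Ioc,
      integral_toReal hGm hfin, ENNReal.ofReal_toReal hGf]
  rw [e1, e2]
  exact ENNReal.ofReal_le_ofReal key

/-! ### good segments -/

variable {δ κ0 R c0 : ℝ} {La Om : Set E3} {Φ : FoamD δ κ0 R c0 La} {f : E3 → E3} {J : Type}

/-- good segments: 112's `Qs`, and all level functions are absolutely continuous with derivative
`gdir (g c) v` -/
def Qn (Φ : FoamD δ κ0 R c0 La) (f : E3 → E3) (Om : Set E3) (D' : E3 → E3 →L[ℝ] E3)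
    (g : Φ.F → Fin 3 → E3 → ℝ) (x v : E3) : Prop :=
  Qs Φ f Om D' x v ∧ ∀ c, ACLat (OmH Φ f Om) (us Φ f c) (gdir (g c) v) v x

/-- the reversed segment -/
theorem aclat_rev {Ω : Set E3} {u : E3 → ℝ} {g : Fin 3 → E3 → ℝ} {x v : E3}
    (h : ACLat Ω u (gdir g v) v x) : ACLat Ω u (gdir g (-v)) (-v) (x + v) := by
  intro s t hst hseg
  have e0 : ∀ τ : ℝ, x + v + τ • -v = x + (1 - τ) • v := by
    intro τ
    rw [sub_smul, one_smul, smul_neg]; abel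
  have hseg' : x ∈ segIn Ω v (1 - t) (1 - s) := by
    intro τ hτ
    have h1 := hseg (1 - τ) ⟨by linarith [hτ.2], by linarith [hτ.1]⟩
    rw [e0, sub_sub_cancel] at h1
    exact h1
  obtain ⟨h1, h2⟩ := h (1 - t) (1 - s) (by linarith) hseg'
  have e1 : ∀ τ : ℝ, gdir g (-v) (x + v + τ • -v) = - gdir g v (x + (1 - τ) • v) := by
    intro τ
    rw [e0]
    unfold gdir
    rw [← Finset.sum_neg_distrib]
    refine Finset.sum_congr rfl fun l _ => ?_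
    rw [Pi.neg_apply, neg_mul]
  constructor
  · simp only [e1]
    apply Integrable.neg
    have h3 : IntervalIntegrable (fun τ : ℝ => gdir g v (x + τ • v)) volume (1 - t) (1 - s) := by
      rw [intervalIntegrable_iff_integrableOn_Icc_of_le (by linarith)]
      exact h1
    have h4 := h3.comp_sub_left 1
    simp only [sub_sub_cancel] at h4
    have h5 := (intervalIntegrable_iff_integrableOn_Icc_of_le hst).1 h4.symm
    exact h5
  · rw [e0 t, e0 s]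
    simp only [e1]
    rw [intervalIntegral.integral_neg,
      intervalIntegral.integral_comp_sub_left (fun τ => gdir g v (x + τ • v)) 1, ← h2]
    ring

theorem Qn_rev {D' : E3 → E3 →L[ℝ] E3} {g : Φ.F → Fin 3 → E3 → ℝ} {x v : E3}
    (h : Qn Φ f Om D' g x v) : Qn Φ f Om D' g (x + v) (-v) :=
  ⟨Qs_rev h.1, fun c => aclat_rev (h.2 c)⟩

theorem ae_Qn (hO : IsOpen Om) (hLa : IsOpen La) (hf : Hom3 f Om La)
    {D' : E3 → E3 →L[ℝ] E3}
    (hD : ∀ l, Crest.Agent.R96.Sob4_199.VWD (OmH Φ f Om) volume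
      (fun x => Crest.Agent.R96.En10_199.P3 (Φ.Psi (f x)))
      (fun x => Crest.Agent.R96.En10_199.P3 (D' x (Pi.single l 1))) (Pi.single l (1:ℝ)))
    {g : Φ.F → Fin 3 → E3 → ℝ}
    (hg : ∀ c l, WD (OmH Φ f Om) volume (fun x => Φ.lev c (f x)) (g c l) (Pi.single l 1))
    (x v : E3) : ∀ᵐ a : E3, Qn Φ f Om D' g (x + a) v := by
  have : Countable Φ.F := countable_F Φ
  have hOH : IsOpen (OmH Φ f Om) := isOpen_OmH hO hLa hf
  have hu : ∀ c : Φ.F, ContinuousOn (us Φ f c) (OmH Φ f Om) := fun c =>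
    continuousOn_us hLa hf (fun y hy => hy.1) (fun y hy => hy.2) c
  have h1 := Crest.Agent.R96.Sg2_199.ae_shift (μ := (volume : Measure E3)) hOH
    (ι := Unit) (fun _ => x) (fun _ => v) (u := fun (c : Φ.F) y => us Φ f c y)
    (g := fun c _ => gdir (g c) v) hu (fun c _ => wd_dir (fun l => hg c l) v)
  filter_upwards [ae_Qs hO hLa hf hD x v, h1] with a ha1 ha2
  exact ⟨ha1, fun c => ha2 c ()⟩

/-! ### the sizes `GV` -/

theorem GV_smul {𝒞 : Type*} (w : 𝒞 → ℝ≥0∞) (g : 𝒞 → Fin 3 → E3 → ℝ) (t : ℝ) (v y : E3) :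
    GV w g (t • v) y = ‖t‖ₑ * GV w g v y := by
  unfold GV
  rw [← ENNReal.tsum_mul_left]
  refine tsum_congr fun c => ?_
  have h1 : ∑ l, (t • v) l * g c l y = t * ∑ l, v l * g c l y := by
    rw [Finset.mul_sum]
    refine Finset.sum_congr rfl fun l _ => ?_
    rw [Pi.smul_apply, smul_eq_mul, mul_assoc]
  rw [h1, enorm_mul]
  ring

theorem measurable_GV {𝒞 : Type*} [Countable 𝒞] (w : 𝒞 → ℝ≥0∞) {g : 𝒞 → Fin 3 → E3 → ℝ}
    (hg : ∀ c l, Measurable (g c l)) (v : E3) : Measurable (GV w g v) := by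
  unfold GV
  exact Measurable.tsum fun c =>
    (Finset.measurable_sum _ fun l _ => (hg c l).const_mul _).enorm.const_mul _

/-! ### one level function on one good segment -/

/-- on a good segment the derivative of the level function `c` is at most `Cl / sz` times the
derivative of `Psi ∘ f` on `{lev < 1}` (in the mean over the segment) -/
theorem li_gdir_le (hLa : IsOpen La) (hδ : 0 < δ) (hR : 0 < R) (hf : Hom3 f Om La)
    {D' : E3 → E3 →L[ℝ] E3} (hDm : ∀ v, Measurable fun y => D' y v) {g : Φ.F → Fin 3 → E3 → ℝ}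
    {x v : E3} (hs : sgm x v ⊆ OmH Φ f Om) (hQ : Qn Φ f Om D' g x v) (c : Φ.F) :
    li (fun y => ‖gdir (g c) v y‖ₑ) x v ≤
      li (fun y => ENNReal.ofReal (Cl δ R / c.1.sz) *
        {y | us Φ f c y < 1}.indicator (fun y => ‖D' y v‖ₑ) y) x v := by
  have hsO : sgm x v ⊆ Om := fun y hy => (hs hy).1
  have hsh : ∀ y ∈ sgm x v, ∀ c, f y ∉ (Φ.B c).S := fun y hy => (hs hy).2
  obtain ⟨hG, hGf⟩ := hQ.1 hs
  have hug := ugs_us hLa hδ hR hf hsO hsh hG c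
  have hA := hQ.2 c
  have hseg : ∀ s t : ℝ, 0 ≤ s → t ≤ 1 → x ∈ segIn (OmH Φ f Om) v s t := by
    intro s t h1 h2 τ hτ
    exact hs ⟨τ, ⟨h1.trans hτ.1, hτ.2.trans h2⟩, rfl⟩
  have hcont : ContinuousOn (fun τ : ℝ => us Φ f c (x + τ • v)) (Icc 0 1) :=
    (continuousOn_us hLa hf hsO hsh c).comp (Continuous.continuousOn (by fun_prop))
      fun τ hτ => ⟨τ, hτ, rfl⟩
  have hm : AEMeasurable (fun τ : ℝ => ENNReal.ofReal (Cl δ R / c.1.sz) *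
      {y | us Φ f c y < 1}.indicator (fun y => ‖D' y v‖ₑ) (x + τ • v))
      (volume.restrict (Icc (0:ℝ) 1)) := by
    refine AEMeasurable.const_mul ?_ _
    obtain ⟨U, hU, hUe⟩ := (continuousOn_iff'.1 hcont) (Iio 1) isOpen_Iio
    have hDmm : Measurable fun τ : ℝ => ‖D' (x + τ • v) v‖ₑ :=
      ((hDm v).comp (Continuous.measurable (by fun_prop : Continuous fun τ : ℝ => x + τ • v))).enorm
    refine ((hDmm.indicator hU.measurableSet).aemeasurable).congr ?_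
    rw [Filter.EventuallyEq, ae_restrict_iff' measurableSet_Icc]
    refine Eventually.of_forall fun τ hτ => ?_
    have h1 : τ ∈ U ↔ us Φ f c (x + τ • v) < 1 := by
      have h2 : τ ∈ (fun τ : ℝ => us Φ f c (x + τ • v)) ⁻¹' Iio 1 ∩ Icc 0 1 ↔ τ ∈ U ∩ Icc 0 1 := by
        rw [hUe]
      constructor
      · intro h; exact (h2.2 ⟨h, hτ⟩).1
      · intro h; exact (h2.1 ⟨h, hτ⟩).1
    by_cases h : τ ∈ U
    · rw [indicator_of_mem h, indicator_of_mem (show x + τ • v ∈ {y | us Φ f c y < 1} from h1.1 h)]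
    · rw [indicator_of_notMem h,
        indicator_of_notMem (show x + τ • v ∉ {y | us Φ f c y < 1} from fun h2 => h (h1.2 h2))]
  have hf' : li (fun y => ENNReal.ofReal (Cl δ R / c.1.sz) *
        {y | us Φ f c y < 1}.indicator (fun y => ‖D' y v‖ₑ) y) x v ≠ ⊤ := by
    rw [li_const_mul ENNReal.ofReal_ne_top]
    refine ENNReal.mul_ne_top ENNReal.ofReal_ne_top (ne_top_of_le_ne_top hGf ?_)
    exact li_mono fun y _ => indicator_le_self _ _ _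
  refine lint_le_of_inc (h := fun τ => gdir (g c) v (x + τ • v))
    (hA 0 1 zero_le_one (hseg 0 1 le_rfl le_rfl)).1 hm hf' ?_
  intro s t h1 h2 h3
  have h4 := hug s t h1 h2 h3
  rw [(hA s t h2 (hseg s t h1 h3)).2] at h4
  exact h4

/-- **`cmp`**: on a good segment -/
theorem li_GV_le (hLa : IsOpen La) (hδ : 0 < δ) (hR : 0 < R) (hf : Hom3 f Om La)
    {D' : E3 → E3 →L[ℝ] E3} (hDm : ∀ v, Measurable fun y => D' y v) {g : Φ.F → Fin 3 → E3 → ℝ}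
    (hgm : ∀ c l, Measurable (g c l)) {W : Φ.F → ℝ} (hW : ∀ c, W c ≤ c.1.sz)
    {x v : E3} (hs : sgm x v ⊆ OmH Φ f Om) (hQ : Qn Φ f Om D' g x v) :
    li (GV (fun c => ENNReal.ofReal (W c)) g v) x v ≤
      ENNReal.ofReal (8 * Cl δ R) * li (Gd' D' v) x v := by
  have : Countable Φ.F := countable_F Φ
  have hline : Measurable fun τ : ℝ => x + τ • v := Continuous.measurable (by fun_prop)
  have e1 : li (GV (fun c => ENNReal.ofReal (W c)) g v) x v =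
      ∑' c : Φ.F, ENNReal.ofReal (W c) * li (fun y => ‖gdir (g c) v y‖ₑ) x v := by
    have e2 : li (GV (fun c => ENNReal.ofReal (W c)) g v) x v = ∫⁻ τ in Icc (0:ℝ) 1,
        ∑' c : Φ.F, ENNReal.ofReal (W c) * ‖gdir (g c) v (x + τ • v)‖ₑ := rfl
    rw [e2, lintegral_tsum (f := fun (c : Φ.F) (τ : ℝ) =>
      ENNReal.ofReal (W c) * ‖gdir (g c) v (x + τ • v)‖ₑ) fun c =>
      (((measurable_gdir (g := g c) (hgm c) v).comp hline).enorm.const_mul _).aemeasurable]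
    refine tsum_congr fun c => ?_
    exact lintegral_const_mul' _ _ ENNReal.ofReal_ne_top
  rw [e1]
  calc ∑' c : Φ.F, ENNReal.ofReal (W c) * li (fun y => ‖gdir (g c) v y‖ₑ) x v
      ≤ ∑' c : Φ.F, ENNReal.ofReal (W c) * li (fun y => ENNReal.ofReal (Cl δ R / c.1.sz) *
        {y | us Φ f c y < 1}.indicator (fun y => ‖D' y v‖ₑ) y) x v :=
        ENNReal.tsum_le_tsum fun c => mul_le_mul' le_rfl (li_gdir_le hLa hδ hR hf hDm hs hQ c)
    _ ≤ li (fun y => ∑' c : Φ.F, ENNReal.ofReal (W c) * (ENNReal.ofReal (Cl δ R / c.1.sz) *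
        {y | us Φ f c y < 1}.indicator (fun y => ‖D' y v‖ₑ) y)) x v := tsum_mul_li_le _ _ _ _
    _ ≤ li (fun y => ENNReal.ofReal (8 * Cl δ R) * ‖D' y v‖ₑ) x v := by
        refine li_mono fun y hy => ?_
        refine (sum_grad_le' (Φ := Φ) hLa hδ hR hf (hs hy).1 (hs hy).2 (fun y => ‖D' y v‖ₑ)
          (A := W) (B := 1) zero_le_one (fun c => by rw [one_mul]; exact hW c)).trans ?_
        refine mul_le_mul' (ENNReal.ofReal_le_ofReal ?_) le_rfl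
        have := Cl_nonneg hδ hR
        linarith
    _ = _ := li_const_mul ENNReal.ofReal_ne_top

/-! ### one mesh -/

theorem preOutN_of (hLa : IsOpen La) (hδ : 0 < δ) (hR : 0 < R) (hf : Hom3 f Om La)
    {D' : E3 → E3 →L[ℝ] E3} (hDm : ∀ v, Measurable fun y => D' y v) {g : Φ.F → Fin 3 → E3 → ℝ}
    (hgm : ∀ c l, Measurable (g c l)) {W : Φ.F → ℝ} {κp μ κ1 κ2 κ3 : ℝ}
    (hW0 : ∀ c, 0 < W c) (hWd : ∀ c, ∃ k N : ℕ, W c * 2 ^ k = N)
    (hW1 : ∀ c, c.1.sz ≤ κ3 * W c) (hW2 : ∀ c, W c ≤ κ3 * c.1.sz) (hW3 : ∀ c, W c ≤ c.1.sz)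
    (hκp : 0 < κp) (hκp1 : κp ≤ 1) (hμ : μ ≤ κp / 64) (hκ2 : 0 ≤ κ2) (hκ : κ1 * κ0 < κ2)
    {X : Set Φ.F} {D : Dec Om Φ.F} (hM : Mok Φ f κp μ κ1 κ2 X D)
    (hQ : ∀ e : Edg D.T, Qn Φ f Om D' g (ea e) (ev e)) :
    PreOutN Φ f κp μ κ1 κ2 κ3 W X g D' D := by
  have hh := hh_of_cores hκ2 hκ hM.cores (dim_of_cores hf hM.cores)
  have hs : ∀ e : Edg D.T, sgm (ea e) (ev e) ⊆ OmH Φ f Om := fun e y hy =>
    ⟨sgm_sub_Om e hy, hh e y hy⟩
  obtain ⟨Bad, hB1, hB2, hB3⟩ := hM.words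
  refine ⟨hM.cores, hM.fine, fun e => ((hQ e).1 (hs e)).2,
    fun e => li_GV_le hLa hδ hR hf hDm hgm hW3 (hs e) (hQ e), ?_⟩
  intro err herr Z m0 hZ
  obtain ⟨κ, L, -, h2, h3, h4, h5, -, -⟩ := levsel2 hLa hf D.T hh
    (g := fun c e y => ‖gdir (g c) (ev e) y‖ₑ)
    (fun c e => ugs_of_acl (hs e) ((hQ e).2 c)) (fun c e => li_ne_top_of_acl (hs e) ((hQ e).2 c))
    (κ' := fun _ => Empty) (X := fun _ j => j.elim) (fun _ j => j.elim)
    (J := fun _ j => j.elim) (fun _ j => j.elim) (fun _ j => j.elim) (e' := fun _ => 1)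
    (fun _ => one_pos) herr hκp hκp1 hμ hW0 hWd hW1 hW2 hZ hB1 hB2 m0
  refine ⟨κ, L, h2, hB3 L h2.marg h3, h4, fun e => ?_, fun i => NN_le h2.vert i⟩
  refine (h5 e).trans (add_le_add (le_of_eq ?_) le_rfl)
  show li _ _ _ = ENNReal.ofReal (1 + κp) * li _ _ _
  rw [← li_const_mul ENNReal.ofReal_ne_top]
  congr 1
  funext y
  unfold GV
  rw [← ENNReal.tsum_mul_left]
  refine tsum_congr fun c => ?_
  rw [ENNReal.ofReal_mul (by linarith), mul_assoc]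
  rfl

/-- **PREMACH-N** ([B0] of 962 #11186 / #11223) -/
theorem premachN : PremachN := by
  intro δ κ0 R c0 La Om Φ f J hO hLa hδ hR hf M D' hDm hD g hgm hg W κp μ κ1 κ2 κ3 hW0 hWd hW1 hW2
    hW3 hκp hκp1 hμ hκ3 hκ2 hκ X p hp Gd hGd θ₁ θ₂ hZ m lam hm0 hm hl0 hl1 hl P' hP hM
  have : Countable Φ.F := countable_F Φ
  have hGh : ∀ (t : ℝ) v y, Gd' D' (t • v) y = ‖t‖ₑ * Gd' D' v y := by
    intro t v y
    unfold Gd'
    rw [map_smul, enorm_smul]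
  have hGm : ∀ v, Measurable (Gd' D' v) := fun v => (hDm v).enorm
  obtain ⟨A', h1, h2, h3, h4⟩ := M.sel (Q := Qn Φ f Om D' g) (ae_Qn hO hLa hf hD hg)
    (fun x v h => Qn_rev h) (G := GV (fun c => ENNReal.ofReal (W c)) g)
    (fun t v y => GV_smul _ g t v y) (fun v => measurable_GV _ hgm v) hp hGd hZ hm0 hm hl0 hl1 hl
    (P' := fun a => P' a ∧ ∀ w (h : M.Ok a w), (∀ j, a + w j ∈ Gd j) →
      Mok Φ f κp μ κ1 κ2 X (M.md a w h))
    (by filter_upwards [hP, hM] with a ha1 ha2 ha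
        exact ⟨ha1 ha, ha2 ha⟩)
  refine ⟨A', h1, h2, h3, fun a ha => ?_⟩
  obtain ⟨⟨h5, h6⟩, w, h, h7, h8, h9, -⟩ := h4 a ha
  refine ⟨h5, w, h, h7, preOutN_of hLa hδ hR hf hDm hgm hW0 hWd hW1 hW2 hW3 hκp hκp1 hμ hκ2 hκ
    (h6 w h h7) h8, h9, fun k j hk => ?_⟩
  have h10 := M.en_le hGh hGm hp h k
  rw [hk] at h10
  exact h10

end Crest.Agent.R096.Prn_120
end
end

-- ▼ part R096/Pgb2_120
section

/-!
# Row 96 (S0127), helper120, (M3) of 962 #11558 (`pre_genN`), part 2: literal statement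

`DN` = data of the blocks, `LN` = finite dyadic lists of relative shifts, `LN.ins` = 880's record over the
capped mesh data `cap M c` (common shifts in the unit ball), `GenInN` = input, **`PreGenN`** = the theorem
as a Prop.
-/

set_option autoImplicit false
set_option linter.style.longLine false
set_option linter.unusedSectionVars false

open MeasureTheory Set Filter Metric
open scoped Topology ENNReal

namespace Crest.Agent.R096.Pgb_120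

open Crest.Agent.R096.Msh_715 Crest.Agent.R096.Msh_810 Crest.Agent.R096.Cut_874
  Crest.Agent.R096.Mal_874
open Crest.Agent.R096.SkC1_961 (E3 Cfg FoamD Hom3)
open Crest.Agent.R096.Gno_324 (cap capD capD_Om)
open Crest.Agent.R096.Mfa_880
open Crest.Agent.R096.Mfs_168 (mfs)
open Crest.Agent.R096.Mbf_337
open Crest.Agent.R096.Der_764 (OmH)
open Crest.Agent.R96.Pm_199
open Crest.Agent.R96.Sob4_199 (VWD)
open Crest.Agent.R96.Acl_392 (WD)
open Crest.Agent.R96.En10_199 (P3)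
open Crest.Agent.R096.Pmc_112 (Gd' Mok)
open Crest.Agent.R096.Np_962 (GV PreOutN)

noncomputable section

/-- **the data of the blocks** -/
structure DN (F : Type) (X : Set F) where
  M : MD E3 3 X
  D : RD M
  /-- coarse scales -/
  k0 : X → ℕ
  hk0 : ∀ j, (M.Q j).kc ≤ k0 j
  /-- admissible total shifts -/
  Bx : X → Set E3
  hBx : ∀ j, Bx j ⊆ BxM M j
  cX : Countable X
  hOm : (M.φ ⁻¹' M.D0.Om).Nonempty
  /-- decoration of the cores (depends on the shifts) -/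
  deco : E3 → (X → E3) → Deco F

/-- **finite lists of dyadic relative shifts** -/
structure LN {F : Type} {X : Set F} (I : DN F X) where
  W : X → Set E3
  Wf : ∀ j, (W j).Finite
  κw : X → ℕ
  h0 : ∀ j m, ∃ c : ℤ, 2 ^ κw j * (I.D.d j : ℝ) * (I.M.Q j).a' m = c
  hW : ∀ j, ∀ w ∈ W j, ∀ l, ∃ z : ℤ, 2 ^ κw j * I.M.φ w l = z

namespace LN

variable {F : Type} {X : Set F} {I : DN F X} (L : LN I)

/-- 880's record over `cap M c`; common shifts = the unit ball -/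
def pri {c : ℝ} (hc : 0 < c) : Pri F X where
  M := cap I.M c hc
  D := capX I.D c hc
  W := L.W
  Wf := L.Wf
  k0 := I.k0
  hk0 := I.hk0
  κw := L.κw
  h0 := L.h0
  hW := L.hW
  Bx := I.Bx
  hBx := I.hBx
  r := 1
  A := closedBall 0 1
  Am := isClosed_closedBall.measurableSet
  A0 := (measure_closedBall_pos volume (0 : E3) one_pos).ne'
  A1 := measure_closedBall_lt_top.ne
  hAr a ha := mem_closedBall_zero_iff.1 ha
  cX := I.cX
  hOm := by rw [cap_Om]; exact I.hOm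
  deco := I.deco

/-- **the instance over the capped mesh with the scales `k` at the walls** -/
def ins {c : ℝ} (hc : 0 < c) {k : X → ℕ} (hk : (cap I.M c hc).Sc k) (h1 : ∀ j, I.k0 j ≤ k j)
    (h2 : ∀ j, L.κw j ≤ k j) : Ins F X :=
  (L.pri hc).ins ⟨hk, h1, h2⟩

end LN

/-- **input of `pre_genN`**: good sets of total shifts; (B1) + (B2) = `mok` (635's `mok_XN`: exact cores,
fineness, words on every capped mesh whose total shifts are good); (B3) = `en` -/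
structure GenInN {δ κ0 R c0 : ℝ} {La : Set E3} (Φ : FoamD δ κ0 R c0 La) (f : E3 → E3)
    (D' : E3 → E3 →L[ℝ] E3) (p κp μ κ1 κ2 : ℝ) {X : Set Φ.F} (I : DN Φ.F X) (κr : X → ℕ)
    (Gd : X → Set E3) (wt : ∀ j : X, Mfi_290.Pt (I.M.Q j) ⊕ ℕ → ℝ≥0∞) (B : X → ℝ≥0∞) : Prop where
  Gds : ∀ j, Gd j ⊆ I.Bx j
  Gdm : ∀ j, MeasurableSet (Gd j)
  Gd0 : ∀ j, volume (Gd j) ≠ 0
  h0 : ∀ j m, ∃ c : ℤ, 2 ^ κr j * (I.D.d j : ℝ) * (I.M.Q j).a' m = c
  mok : ∀ (c : ℝ) (hc : 0 < c) (k : X → ℕ) (hk : (cap I.M c hc).Sc k) (a : E3) (w : X → E3)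
    (hv : (cap I.M c hc).Adm fun j => a + w j), (∀ j, a + w j ∈ Gd j) →
    ∀ (i0 : (cap I.M c hc).OIx hk ((cap I.M c hc).φ a) hv ⊕
        Σ j, (cap I.M c hc).IIx hk ((cap I.M c hc).φ a) hv j)
      (fr : ((cap I.M c hc).OIx hk ((cap I.M c hc).φ a) hv ⊕
        Σ j, (cap I.M c hc).IIx hk ((cap I.M c hc).φ a) hv j) → E3 ≃ᵃ[ℝ] E3),
    Mok Φ f κp μ κ1 κ2 X
      (((I.deco a w).mkX X ((cap I.M c hc).mesh hk ((cap I.M c hc).φ a) hv) i0
        fun j => Sum.inr ⟨j, (cap I.M c hc).core hk ((cap I.M c hc).φ a) hv j⟩).wf fr)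
  en : ∀ j, ∀ s ∈ Gd j, ∑' c, wt j c * (QU I.M I.D I.k0 I.hk0 j).EnC (Gd' D') p c s ≤ B j

/-- **the output of `pre_genN` for one shift `a`** (`I'` = the instance over the capped mesh) -/
def OutN {δ κ0 R c0 : ℝ} {La : Set E3} (Φ : FoamD δ κ0 R c0 La) (f : E3 → E3)
    (D' : E3 → E3 →L[ℝ] E3) (g : Φ.F → Fin 3 → E3 → ℝ) (W : Φ.F → ℝ) (p κp μ κ1 κ2 κ3 : ℝ)
    {X : Set Φ.F} (Gd : X → Set E3) (B : X → ℝ≥0∞) (KO KI εb : X → ℝ≥0∞) (I' : Ins Φ.F X)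
    (wt : ∀ j : X, Mfi_290.Pt (I'.M.Q j) ⊕ ℕ → ℝ≥0∞) (a : E3) : Prop :=
  ∃ (w : X → E3) (h : (mfs I').Ok a w), (∀ j, a + w j ∈ Gd j) ∧
    PreOutN Φ f κp μ κ1 κ2 κ3 W X g D' ((mfs I').md a w h) ∧
    (∀ j, KO j * (mfs I').EnT (GV (fun c => ENNReal.ofReal (W c)) g) p a w h (I'.kOw j) ≤ εb j) ∧
    (∀ j, KI j * (mfs I').EnT (GV (fun c => ENNReal.ofReal (W c)) g) p a w h (I'.kIw j) ≤ εb j) ∧
    ∀ j, ∑' c, wt j c * (mfs I').EnT (Gd' D') p a w h (I'.kI j c) ≤ B j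

/-- **`pre_genN`, literal Prop** ((M3) of 962 #11558).  First the data and the numbers, then the lists `L`
of relative shifts and the thresholds `kw`; then any cap `c` and any admissible scales `k ≥ kw`. -/
def PreGenN : Prop :=
  ∀ (δ κ0 R c0 : ℝ) (La : Set E3) (Φ : FoamD δ κ0 R c0 La) (f : E3 → E3) (X : Set Φ.F)
    (I : DN Φ.F X), IsOpen La → 0 < δ → 0 < R → Hom3 f (I.M.φ ⁻¹' I.M.D0.Om) La →
  ∀ D' : E3 → E3 →L[ℝ] E3, (∀ v, Measurable fun y => D' y v) →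
  (∀ l, VWD (OmH Φ f (I.M.φ ⁻¹' I.M.D0.Om)) volume (fun x => P3 (Φ.Psi (f x)))
    (fun x => P3 (D' x (Pi.single l 1))) (Pi.single l (1:ℝ))) →
  ∀ g : Φ.F → Fin 3 → E3 → ℝ, (∀ c l, Measurable (g c l)) →
  (∀ c l, WD (OmH Φ f (I.M.φ ⁻¹' I.M.D0.Om)) volume (fun x => Φ.lev c (f x)) (g c l)
    (Pi.single l 1)) →
  ∀ (W : Φ.F → ℝ) (κp μ κ1 κ2 κ3 : ℝ), (∀ c, 0 < W c) → (∀ c, ∃ k N : ℕ, W c * 2 ^ k = N) →
  (∀ c, c.1.sz ≤ κ3 * W c) → (∀ c, W c ≤ κ3 * c.1.sz) → (∀ c, W c ≤ c.1.sz) →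
  0 < κp → κp ≤ 1 → μ ≤ κp / 64 → 8 ≤ κ3 → 0 ≤ κ2 → κ1 * κ0 < κ2 →
  ∀ p : ℝ, 1 ≤ p →
  ∀ H : E3 → ℝ≥0∞, (∀ᵐ y : E3, ∀ v, GV (fun c => ENNReal.ofReal (W c)) g v y ≤ ‖v‖ₑ * H y) →
  ∫⁻ y in I.M.φ ⁻¹' I.M.D0.Om, H y ^ p ≠ ∞ →
  ∀ (κr : X → ℕ) (Gd : X → Set E3) (wt : ∀ j : X, Mfi_290.Pt (I.M.Q j) ⊕ ℕ → ℝ≥0∞)
    (B : X → ℝ≥0∞), GenInN Φ f D' p κp μ κ1 κ2 I κr Gd wt B →
  ∀ θ : ℝ≥0∞, θ ≠ 0 → ∀ KO KI εb : X → ℝ≥0∞, (∀ j, KO j ≠ ∞) → (∀ j, KI j ≠ ∞) →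
  (∀ j, εb j ≠ 0) →
  ∃ (L : LN I) (kw : X → ℕ) (h1 : ∀ j, I.k0 j ≤ kw j) (h2 : ∀ j, L.κw j ≤ kw j),
  ∀ (c : ℝ) (hc : 0 < c) (k : X → ℕ) (hk : (cap I.M c hc).Sc k) (hkw : ∀ j, kw j ≤ k j),
  ∃ A' ⊆ closedBall (0 : E3) 1, MeasurableSet A' ∧ volume (closedBall (0 : E3) 1 \ A') ≤ θ ∧
  ∀ a ∈ A', OutN Φ f D' g W p κp μ κ1 κ2 κ3 Gd B KO KI εb
    (L.ins hc hk (fun j => (h1 j).trans (hkw j)) fun j => (h2 j).trans (hkw j)) wt a

end

end Crest.Agent.R096.Pgb_120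
end

-- ▼ part R096/Pgb3_120
section

/-!
# Row 96 (S0127), helper120, (M3) of 962 #11558 (`pre_genN`), part 3: **proof of `PreGenN`**
-/

set_option autoImplicit false
set_option linter.style.longLine false
set_option linter.unusedSectionVars false

open MeasureTheory Set Filter Metric
open scoped Topology ENNReal

namespace Crest.Agent.R096.Pgb_120

open Crest.Agent.R096.Msh_715 Crest.Agent.R096.Msh_810 Crest.Agent.R096.Cut_874
  Crest.Agent.R096.Mal_874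
open Crest.Agent.R096.SkC1_961 (E3 Cfg FoamD Hom3)
open Crest.Agent.R096.Gno_324 (cap capD capD_Om)
open Crest.Agent.R096.Mfa_880
open Crest.Agent.R096.Mfs_168 (mfs)
open Crest.Agent.R096.Mbf_337
open Crest.Agent.R096.Der_764 (OmH)
open Crest.Agent.R96.Pm_199
open Crest.Agent.R96.Sob4_199 (VWD)
open Crest.Agent.R96.Acl_392 (WD)
open Crest.Agent.R96.En10_199 (P3)
open Crest.Agent.R096.Pmc_112 (Gd' Mok)
open Crest.Agent.R096.Np_962 (GV PreOutN)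
open Crest.Agent.R96.Wm5_72 (mean_QW mean_QWi)

noncomputable section

theorem EnC_congr {J : Type} {Q Q' : PT J} (h : Q = Q') {c : Q.κ} {c' : Q'.κ} (hc : HEq c c')
    (G : E3 → E3 → ℝ≥0∞) (p : ℝ) (s : E3) : Q.EnC G p c s = Q'.EnC G p c' s := by
  subst h
  cases hc
  rfl

/-- a common bound for good sets -/
theorem isBounded_BxM {J : Type} (M : MD E3 3 J) (j : J) : Bornology.IsBounded (BxM M j) := by
  have h1 : BxM M j ⊆ M.φ.symm '' closedBall (0 : Fin 3 → ℝ) (M.r j) := by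
    intro s hs
    refine ⟨M.φ s, mem_closedBall_zero_iff.2 hs, M.φ.symm_apply_apply s⟩
  exact (((isCompact_closedBall (0 : Fin 3 → ℝ) (M.r j)).image
    M.φ.symm.continuous).isBounded).subset h1

/-- the type of the classes -/
abbrev KT {F : Type} {X : Set F} (I : DN F X) : Type :=
  Option ((Unit ⊕ X) ⊕ ((Σ j : X, Mfi_290.Pt (I.M.Q j) ⊕ ℕ) ⊕ (Σ _ : X, Unit)))

/-- the means: the walls `ow`, `iw`, no condition at the outer cubes -/
def mN {F : Type} {X : Set F} (I : DN F X) (ow iw : X → ℝ≥0∞) : KT I → ℝ≥0∞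
  | none => 1
  | some (Sum.inl (Sum.inl _)) => ∞
  | some (Sum.inl (Sum.inr j)) => ow j
  | some (Sum.inr (Sum.inl _)) => 1
  | some (Sum.inr (Sum.inr ⟨j, _⟩)) => iw j

theorem mul_aux {K l e : ℝ≥0∞} (hK : K * l + 1 ≠ ∞) : K * (l * (e / (K * l + 1))) ≤ e := by
  have h0 : K * l + 1 ≠ 0 := by simp
  calc K * (l * (e / (K * l + 1))) = (K * l) * (e / (K * l + 1)) := by ring
    _ ≤ (K * l + 1) * (e / (K * l + 1)) := mul_le_mul' le_self_add le_rfl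
    _ = e := ENNReal.mul_div_cancel h0 hK

set_option maxHeartbeats 1000000 in
/-- **(M3) OF 962 #11558** -/
theorem preGenN : PreGenN := by
  intro δ κ0 R c0 La Φ f X I hLa hδ hR hf D' hDm hD g hgm hgw W κp μ κ1 κ2 κ3 W0 Wd W1 W2 W3 hκp
    hκp1 hμ hκ3 hκ2 hκ p hp H hGH hH κr Gd wt B hI θ hθ KO KI εb hKO hKI hεb
  classical
  have := I.cX
  have cF : Countable Φ.F := Crest.Agent.R096.Ls_222.countable_F Φ
  set G : E3 → E3 → ℝ≥0∞ := GV (fun c => ENNReal.ofReal (W c)) g with hG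
  have hGm : ∀ v, Measurable (G v) := fun v => Crest.Agent.R096.Prn_120.measurable_GV _ hgm v
  set U : Set E3 := closedBall (0 : E3) 1 with hU
  have hU0 : volume U ≠ 0 := (measure_closedBall_pos volume (0 : E3) one_pos).ne'
  have hU1 : volume U ≠ ∞ := measure_closedBall_lt_top.ne
  -- the fraction of bad shifts
  obtain ⟨η, hη0, hη1, hη⟩ : ∃ η : ℝ≥0∞, η ≠ 0 ∧ η ≠ ∞ ∧ (η + η) * volume U ≤ θ := by
    refine ⟨min 1 (θ / (2 * volume U)), ?_, ?_, ?_⟩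
    · refine (lt_min one_pos (ENNReal.div_pos hθ (ENNReal.mul_ne_top ENNReal.ofNat_ne_top hU1))).ne'
    · exact ((min_le_left _ _).trans_lt ENNReal.one_lt_top).ne
    · calc (min 1 (θ / (2 * volume U)) + min 1 (θ / (2 * volume U))) * volume U
          ≤ (θ / (2 * volume U) + θ / (2 * volume U)) * volume U := by
            gcongr <;> exact min_le_right _ _
        _ = θ / (2 * volume U) * (2 * volume U) := by ring
        _ ≤ θ := by rw [mul_comm]; exact ENNReal.mul_div_le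
  -- the lists
  obtain ⟨κw, Wl, hκw, hWf, hWD, hlist⟩ := Crest.Agent.R96.Gj_872.exists_dyadic_lists
    (μ := (volume : Measure E3)) I.M.φ (A := U) isClosed_closedBall.measurableSet hU0
    isBounded_closedBall hI.Gdm hI.Gd0
    (fun j => (isBounded_BxM I.M j).subset ((hI.Gds j).trans (I.hBx j))) κr hη0
  let L : LN I :=
    { W := Wl
      Wf := hWf
      κw := κw
      h0 := fun j m => by
        obtain ⟨z, hz⟩ := hI.h0 j m
        obtain ⟨z', hz'⟩ := Crest.Agent.R96.Gj_872.int_mul_pow (hκw j)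
          (x := (I.D.d j : ℝ) * (I.M.Q j).a' m) ⟨z, by rw [← mul_assoc]; exact hz⟩
        exact ⟨z', by rw [mul_assoc]; exact hz'⟩
      hW := fun j w hw => (hWD j w hw).1 }
  -- weights and means
  obtain ⟨lam, l0, l1, l2, -⟩ := Eds_746.exists_lam (none : KT I) hη0 hη1
  let kOw : X → KT I := fun j => some (Sum.inl (Sum.inr j))
  let kIw : X → KT I := fun j => some (Sum.inr (Sum.inr ⟨j, ()⟩))
  have hq : ∀ (K : ℝ≥0∞) (κ : KT I), K ≠ ∞ → K * lam κ + 1 ≠ ∞ := fun K κ hK =>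
    ENNReal.add_ne_top.2 ⟨ENNReal.mul_ne_top hK (l1 κ), ENNReal.one_ne_top⟩
  set ow : X → ℝ≥0∞ := fun j => εb j / (KO j * lam (kOw j) + 1) with how
  set iw : X → ℝ≥0∞ := fun j => εb j / (KI j * lam (kIw j) + 1) with hiw
  have how0 : ∀ j, ow j ≠ 0 := fun j => (ENNReal.div_pos (hεb j) (hq _ _ (hKO j))).ne'
  have hiw0 : ∀ j, iw j ≠ 0 := fun j => (ENNReal.div_pos (hεb j) (hq _ _ (hKI j))).ne'
  set m : KT I → ℝ≥0∞ := mN I ow iw with hm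
  have hm0 : ∀ κ, m κ ≠ 0 := by
    rintro (_ | (⟨⟩ | j) | (⟨j, c⟩ | ⟨j, ⟨⟩⟩))
    · exact one_ne_zero
    · exact ENNReal.top_ne_zero
    · exact how0 j
    · exact one_ne_zero
    · exact hiw0 j
  -- the walls
  have hfj : ∀ j : X, ∫⁻ z in I.M.φ ⁻¹' (I.M.D0.Om ∩
      cthickening (I.M.r j + 1) (I.M.φ '' frontier (I.M.Q j).N)), H z ^ p ≠ ∞ := fun j =>
    ((lintegral_mono_set (preimage_mono inter_subset_left)).trans_lt (lt_top_iff_ne_top.2 hH)).ne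
  have h2 : ∀ j : X, ∃ kk : ℕ, ∀ k : X → ℕ, kk ≤ k j →
      (∫⁻ a in U, (Mou_324.QW k (fun j => (hWf j).countable) I.D 1).toPT.EnC G p j a ≤
        ow j * volume U) ∧
      ∫⁻ a in U, (QUw I.M I.D k (fun j => (hWf j).countable) j).EnC G p () a ≤
        iw j * volume U := by
    intro j
    obtain ⟨ka, ha⟩ := mean_QW (fun j => (hWf j).countable) I.D j (hWf j)
      (r' := I.M.r j + 1) (by linarith) (H := H) hp (hfj j)
      (ε := ow j * volume U) (mul_ne_zero (how0 _) hU0)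
    obtain ⟨kb, hb⟩ := mean_QWi I.D (fun j => (hWf j).countable) j (hWf j)
      (r' := I.M.r j + 1) (by linarith) (H := H) hp (hfj j)
      (ε := iw j * volume U) (mul_ne_zero (hiw0 _) hU0)
    refine ⟨max ka kb, fun k hk => ⟨?_, ?_⟩⟩
    · exact ha k ((le_max_left _ _).trans hk) 1 isClosed_closedBall.measurableSet hGm hGH
    · exact hb k ((le_max_right _ _).trans hk) (Uni_663.KU_countable _) (countable_singleton 0)
        isClosed_closedBall.measurableSet hGm hGH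
  choose kk hkk using h2
  refine ⟨L, fun j => max (kk j) (max (I.k0 j) (κw j)),
    fun j => (le_max_left _ _).trans (le_max_right _ _),
    fun j => (le_max_right _ _).trans (le_max_right _ _), ?_⟩
  intro c hc k hk hkw
  set I' : Ins Φ.F X := L.ins hc hk (fun j => ((le_max_left _ _).trans (le_max_right _ _)).trans
    (hkw j)) fun j => ((le_max_right _ _).trans (le_max_right _ _)).trans (hkw j) with hI'
  have eOm : I'.Om = I.M.φ ⁻¹' I.M.D0.Om := cap_Om hc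
  have hOo : IsOpen I'.Om :=
    (isOpen_lt continuous_const I'.M.D0.continuous_ρ).preimage I'.M.φ.continuous
  -- the means of all classes which move with `a`
  have hmean : ∀ κ : (mfs I').κ, (mfs I').bl κ = none →
      ∫⁻ a in (mfs I').A, (mfs I').EnC G p κ a ≤ m κ * volume (mfs I').A := by
    refine I'.cases ?_ ?_ ?_ ?_ ?_
    · intro _
      refine le_trans (le_of_eq ?_) bot_le
      exact (lintegral_congr fun a => I'.EnC_kN G p a).trans lintegral_zero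
    · intro _
      refine le_trans le_top (le_of_eq ?_)
      show (⊤ : ℝ≥0∞) = ∞ * volume U
      rw [ENNReal.top_mul hU0]
    · intro j _
      refine (le_of_eq (lintegral_congr fun a => I'.EnC_kOw G p a j)).trans ?_
      refine le_trans (le_of_eq ?_) (hkk j k ((le_max_left _ _).trans (hkw j))).1
      refine lintegral_congr fun a => ?_
      exact EnC_congr (congrArg Crest.Agent.R096.Mfe_161.PTn.toPT
        (QW_cap I.D hc k (fun j => (hWf j).countable) 1)) HEq.rfl G p a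
    · intro j c' hcc
      have h3 : (mfs I').bl (I'.kI j c') = some j := rfl
      rw [h3] at hcc
      cases hcc
    · intro j _
      refine (le_of_eq (lintegral_congr fun a => I'.EnC_kIw G p a j)).trans ?_
      exact (hkk j k ((le_max_left _ _).trans (hkw j))).2
  obtain ⟨A', hA1, hA2, hA3, hA4⟩ := Crest.Agent.R096.Prn_120.premachN δ κ0 R c0 La I'.Om Φ f X hOo
    hLa hδ hR (by rw [eOm]; exact hf) (mfs I') D' hDm (by rw [eOm]; exact hD) g hgm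
    (by rw [eOm]; exact hgw) W κp μ κ1 κ2 κ3 W0 Wd W1 W2 W3 hκp hκp1 hμ hκ3 hκ2 hκ X p
    (by linarith) Gd hI.Gds η η hlist m lam hm0 hmean l0 l1 l2 (fun _ => True)
    (Eventually.of_forall fun _ _ => trivial)
    (Eventually.of_forall fun a _ w h hw => hI.mok c hc k hk a w _ hw _ _)
  refine ⟨A', hA1, hA2, hA3.trans hη, fun a ha => ?_⟩
  obtain ⟨-, w, h, hw, hPre, hE1, hE2⟩ := hA4 a ha
  refine ⟨w, h, hw, hPre, fun j => ?_, fun j => ?_, fun j => ?_⟩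
  · exact (mul_le_mul' le_rfl (hE1 (I'.kOw j) rfl)).trans (mul_aux (hq _ _ (hKO j)))
  · exact (mul_le_mul' le_rfl (hE1 (I'.kIw j) rfl)).trans (mul_aux (hq _ _ (hKI j)))
  · refine le_trans (ENNReal.tsum_le_tsum fun c' => ?_) (hI.en j (a + w j) (hw j))
    refine mul_le_mul' le_rfl ((hE2 (I'.kI j c') j rfl).trans (le_of_eq ?_))
    refine (I'.EnC_kI (Gd' D') p (a + w j) j c').trans ?_
    exact EnC_congr (QU_cap I.D hc I.k0 I.hk0 j) HEq.rfl (Gd' D') p (a + w j)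

end

end Crest.Agent.R096.Pgb_120
end

-- ▼ part R096/Nqc1_645
section

/-!
# Row 96 (S0127), helper645, node NO0-PRE3, [X9] of 962 #11402: "nonQ <- classes"

The weighted energy of a set `R` of ordinary tiles of a shiftable mesh (`MF`, helper199) is at most the
sum over its classes of the energies of the classes.

* `wEE_le`: general form, the integrand `Gk k` and the factor `K k` depend on the class;
* `Gkc`, `Kc`: `GV` on the classes which move with `a`, `8 Cl * Gd' D'` on the classes of a block;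
* `nonQ_le`: the form for the field `nonQ` of `Np_962.MeshN` (core tiles `V c = {ct c}`);
* `nonQ_le_EnC`: the classes bounded by `lam k * m k` (`bl k = none`) and by `EnC` at the total shift of
  the block (`bl k = some j`), the output of `Np_962.PremachN`.
-/

set_option autoImplicit false
set_option linter.style.longLine false
set_option linter.unusedSectionVars false

open MeasureTheory Set Filter Metric
open scoped Topology ENNReal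

namespace Crest.Agent.R096.Nqc_645

open Crest.Agent.R096.Msh_715
open Crest.Agent.R096.SkC1_961 (E3 Cfg FoamD Hom3)
open Crest.Agent.R096.Ls_222
open Crest.Agent.R096.Ea_713 (lin)
open Crest.Agent.R96.Pm_199
open Crest.Agent.R96.Sg1_199 (li sgm)
open Crest.Agent.R96.Sg3_199 (EnF)
open Crest.Agent.R096.Pmc_112 (norm_lin_le Gd')
open Crest.Agent.R096.Np_962 (GV PreOutN)

noncomputable section

variable {Om : Set E3} {F J : Type}

/-- **weighted energy of a set of ordinary tiles <= energies of the classes** -/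
theorem wEE_le (M : MF Om F J) {Cs : Set (Set E3) → ℝ} (hC0 : ∀ 𝒦, 0 ≤ Cs 𝒦) {Cm : M.κ → ℝ}
    (hC : ∀ k, ∀ 𝒦 ∈ M.Sh k, Cs 𝒦 ≤ Cm k) (G : E3 → E3 → ℝ≥0∞) (Gk : M.κ → E3 → E3 → ℝ≥0∞)
    (K : M.κ → ℝ≥0∞) {p : ℝ} (hp : 0 ≤ p) {a : E3} {w : J → E3} (h : M.Ok a w)
    {R : Set (M.md a w h).ι} (hR : ∀ i ∈ R, (M.md a w h).Ord i) {S : Set M.κ}
    (hRS : ∀ i ∈ R, M.cl (M.pot a w h i) ∈ S)
    {cw : (M.md a w h).ι → ℝ≥0∞} {cwm : M.κ → ℝ≥0∞}
    (hcw : ∀ i ∈ R, cw i ≤ cwm (M.cl (M.pot a w h i)))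
    (hG : ∀ i ∈ R, ∀ e ∈ eIn (M.md a w h).T i,
      le G e ≤ K (M.cl (M.pot a w h i)) * le (Gk (M.cl (M.pot a w h i))) e) :
    ∑' i : R, (ENNReal.ofReal (Cs ((fun S => (M.md a w h).fr i.1 '' S) '' Cfg (M.md a w h).T i.1) *
        ‖lin ((M.md a w h).fr i.1)‖) * ∑ e ∈ eIn (M.md a w h).T i.1, le G e) ^ p *
        ((1 + cw i.1) * volume (P ((M.md a w h).T.H i.1))) ≤
      ∑' k : S, (ENNReal.ofReal (Cm k) * K k) ^ p * (1 + cwm k) * M.EnT (Gk k) p a w h k := by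
  classical
  set T := (M.md a w h).T with hT
  set fr := (M.md a w h).fr with hfr
  have key : ∀ i : R, ENNReal.ofReal (Cs ((fun S => fr i.1 '' S) '' Cfg T i.1) * ‖lin (fr i.1)‖) *
        ∑ e ∈ eIn T i.1, le G e ≤
      (ENNReal.ofReal (Cm (M.cl (M.pot a w h i.1))) * K (M.cl (M.pot a w h i.1))) *
        (ENNReal.ofReal (M.β (M.pot a w h i.1)) *
          ∑ e ∈ eIn T i.1, le (Gk (M.cl (M.pot a w h i.1))) e) := by
    intro i
    have h1 := M.shp a w h i.1 (hR i.1 i.2)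
    obtain ⟨h2, h3⟩ := norm_lin_le (M.frn a w h i.1 (hR i.1 i.2))
    have h4 : ENNReal.ofReal (Cs ((fun S => fr i.1 '' S) '' Cfg T i.1) * ‖lin (fr i.1)‖) ≤
        ENNReal.ofReal (Cm (M.cl (M.pot a w h i.1))) * ENNReal.ofReal (M.β (M.pot a w h i.1)) := by
      rw [← ENNReal.ofReal_mul ((hC0 _).trans (hC _ _ h1))]
      exact ENNReal.ofReal_le_ofReal (mul_le_mul (hC _ _ h1) h3 (norm_nonneg _)
        ((hC0 _).trans (hC _ _ h1)))
    have h5 : ∑ e ∈ eIn T i.1, le G e ≤ K (M.cl (M.pot a w h i.1)) *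
        ∑ e ∈ eIn T i.1, le (Gk (M.cl (M.pot a w h i.1))) e := by
      rw [Finset.mul_sum]
      exact Finset.sum_le_sum fun e he => hG i.1 i.2 e he
    refine (mul_le_mul' h4 h5).trans (le_of_eq ?_)
    ring
  set f : R → ℝ≥0∞ := fun i =>
      ((ENNReal.ofReal (Cm (M.cl (M.pot a w h i.1))) * K (M.cl (M.pot a w h i.1))) *
        (ENNReal.ofReal (M.β (M.pot a w h i.1)) *
          ∑ e ∈ eIn T i.1, le (Gk (M.cl (M.pot a w h i.1))) e)) ^ p *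
      ((1 + cwm (M.cl (M.pot a w h i.1))) * volume (P (T.H i.1))) with hf
  set cs : R → S := fun i => ⟨M.cl (M.pot a w h i.1), hRS i.1 i.2⟩ with hcs
  have e1 : ∑' i : R, f i = ∑' (k : S) (i : {i : R // cs i = k}), f i.1 := by
    rw [← ENNReal.tsum_sigma' (f := fun q : Σ k : S, {i : R // cs i = k} => f q.2.1)]
    exact ((Equiv.sigmaFiberEquiv cs).tsum_eq f).symm
  refine le_trans (ENNReal.tsum_le_tsum fun i => mul_le_mul' (ENNReal.rpow_le_rpow (key i) hp)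
    (mul_le_mul' (add_le_add le_rfl (hcw i.1 i.2)) le_rfl)) ?_
  change ∑' i : R, f i ≤ _
  rw [e1]
  refine ENNReal.tsum_le_tsum fun k => ?_
  unfold MF.EnT EnF
  rw [← ENNReal.tsum_mul_left]
  refine le_trans (le_of_eq ?_) (ENNReal.tsum_comp_le_tsum_of_injective
    (f := fun i : {i : R // cs i = k} =>
      (⟨i.1.1, hR i.1.1 i.1.2, congrArg Subtype.val i.2⟩ :
        {i // (M.md a w h).Ord i ∧ M.cl (M.pot a w h i) = k}))
    (fun i j hij => by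
      have h5 := congrArg Subtype.val hij
      exact Subtype.ext (Subtype.ext h5)) _)
  refine tsum_congr fun i => ?_
  obtain ⟨⟨i, hi⟩, hk⟩ := i
  have hk' : M.cl (M.pot a w h i) = k := congrArg Subtype.val hk
  simp only [hf]
  rw [hk', ENNReal.mul_rpow_of_nonneg _ _ hp]
  ring


/-! ### the integrand by class -/

variable {δ κ0 R c0 : ℝ} {La : Set E3} {Φ : FoamD δ κ0 R c0 La}

/-- the integrand of the class `k`: `GV` if `k` moves with `a`, `Gd' D'` if `k` moves with a block -/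
def Gkc (M : MF Om Φ.F J) (W : Φ.F → ℝ) (g : Φ.F → Fin 3 → E3 → ℝ) (D' : E3 → E3 →L[ℝ] E3)
    (k : M.κ) : E3 → E3 → ℝ≥0∞ :=
  match M.bl k with
  | none => GV (fun c => ENNReal.ofReal (W c)) g
  | some _ => Gd' D'

/-- the factor of the class `k` -/
def Kc (δ R : ℝ) (M : MF Om F J) (k : M.κ) : ℝ≥0∞ :=
  match M.bl k with
  | none => 1
  | some _ => ENNReal.ofReal (8 * Cl δ R)

theorem Gkc_none {M : MF Om Φ.F J} {W : Φ.F → ℝ} {g : Φ.F → Fin 3 → E3 → ℝ}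
    {D' : E3 → E3 →L[ℝ] E3} {k : M.κ} (hk : M.bl k = none) :
    Gkc M W g D' k = GV (fun c => ENNReal.ofReal (W c)) g := by
  unfold Gkc; rw [hk]

theorem Gkc_some {M : MF Om Φ.F J} {W : Φ.F → ℝ} {g : Φ.F → Fin 3 → E3 → ℝ}
    {D' : E3 → E3 →L[ℝ] E3} {k : M.κ} {j : J} (hk : M.bl k = some j) :
    Gkc M W g D' k = Gd' D' := by
  unfold Gkc; rw [hk]

theorem Kc_none {M : MF Om F J} {k : M.κ} (hk : M.bl k = none) : Kc δ R M k = 1 := by
  unfold Kc; rw [hk]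

theorem Kc_some {M : MF Om F J} {k : M.κ} {j : J} (hk : M.bl k = some j) :
    Kc δ R M k = ENNReal.ofReal (8 * Cl δ R) := by
  unfold Kc; rw [hk]

/-- the comparison of the integrands edge by edge -/
theorem le_Gkc {M : MF Om Φ.F J} {W : Φ.F → ℝ} {g : Φ.F → Fin 3 → E3 → ℝ}
    {D' : E3 → E3 →L[ℝ] E3} {ι : Type} {T : Tiling Om ι} {e : Edg T}
    (hcmp : le (GV (fun c => ENNReal.ofReal (W c)) g) e ≤
      ENNReal.ofReal (8 * Cl δ R) * le (Gd' D') e) (k : M.κ) :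
    le (GV (fun c => ENNReal.ofReal (W c)) g) e ≤ Kc δ R M k * le (Gkc M W g D' k) e := by
  rcases hk : M.bl k with _ | j
  · rw [Kc_none hk, Gkc_none hk, one_mul]
  · rw [Kc_some hk, Gkc_some hk]; exact hcmp








end

end Crest.Agent.R096.Nqc_645
end

-- ▼ part R096/Nqc2_645
section

/-!
# Row 96 (S0127), helper645, node NO0-PRE3, (M3) of 962 #11558: field `nonQ` of `MeshN` over 168's `mfs`

* `tsum_ne_kO`: sum over the classes which are neither `kO` nor `kN`;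
* `nonQ_mfs` : the weighted energy of the ordinary tiles outside `Qr` is at most the sum over the walls
  (integrand `GV`) and over the inner classes of the blocks (integrand `Gd' D'`, factor `8 Cl`);
* `nonQ_mfs_le` : the same from the numbers `εb j` (walls), `B j` (blocks);
* `exists_Ci`, `exists_Cw` : the constants of the shapes.
-/

set_option autoImplicit false
set_option linter.style.longLine false
set_option linter.unusedSectionVars false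

open MeasureTheory Set Filter Metric
open scoped Topology ENNReal

namespace Crest.Agent.R096.Nqc_645

open Crest.Agent.R096.Msh_715
open Crest.Agent.R096.SkC1_961 (E3 Cfg FoamD Hom3)
open Crest.Agent.R096.Ls_222
open Crest.Agent.R096.Ea_713 (lin)
open Crest.Agent.R96.Pm_199
open Crest.Agent.R96.Sg1_199 (li sgm)
open Crest.Agent.R96.Sg3_199 (EnF)
open Crest.Agent.R096.Pmc_112 (norm_lin_le Gd')
open Crest.Agent.R096.Np_962 (GV PreOutN)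
open Crest.Agent.R096.Mfa_880 (Ins)
open Crest.Agent.R096.Mfs_168 (mfs)
open Crest.Agent.R096.Mal_874
open Crest.Agent.R096.Bmd_798 (Qr)

noncomputable section

/-! ### sums over the classes -/

section sums

variable {F : Type} {X : Set F} (I : Ins F X)

/-- no ordinary tile has the class `kN` -/
theorem cl_ne_kN {a : E3} {w : X → E3} (h : I.mf.Ok a w) {i : (I.mf.md a w h).ι}
    (hi : ((mfs I).md a w h).Ord i) : (mfs I).cl ((mfs I).pot a w h i) ≠ I.kN := by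
  obtain ⟨c, hc, -⟩ := Mfs_168.cl_nat I h hi
  rw [hc]
  intro h0
  exact Option.some_ne_none _ h0

/-- **the sum over the classes different from `kO`, `kN`** -/
theorem tsum_ne_kO (g : I.mf.κ → ℝ≥0∞) :
    ∑' k : {k : I.mf.κ | k ≠ I.kO ∧ k ≠ I.kN}, g k ≤
      ∑' j, g (I.kOw j) + (∑' j, ∑' c, g (I.kI j c) + ∑' j, g (I.kIw j)) := by
  set f : I.mf.κ → ℝ≥0∞ := I.rec' 0 0 (fun j => g (I.kOw j)) (fun j c => g (I.kI j c))
    (fun j => g (I.kIw j)) with hf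
  have h1 : ∀ k : {k : I.mf.κ | k ≠ I.kO ∧ k ≠ I.kN}, g k = f k := by
    rintro ⟨k, hk⟩
    revert hk
    refine I.cases (Pr := fun k => k ∈ {k : I.mf.κ | k ≠ I.kO ∧ k ≠ I.kN} → g k = f k) ?_ ?_ ?_ ?_ ?_ k
    · intro hk; exact absurd rfl hk.2
    · intro hk; exact absurd rfl hk.1
    · intro j _; rfl
    · intro j c _; rfl
    · intro j _; rfl
  calc ∑' k : {k : I.mf.κ | k ≠ I.kO ∧ k ≠ I.kN}, g k
      = ∑' k : {k : I.mf.κ | k ≠ I.kO ∧ k ≠ I.kN}, f k := tsum_congr h1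
    _ ≤ ∑' k : I.mf.κ, f k :=
        ENNReal.tsum_comp_le_tsum_of_injective Subtype.val_injective f
    _ = _ := by
        rw [I.tsum_class f]
        have e0 : f I.kN = 0 := rfl
        have e1 : f I.kO = 0 := rfl
        have e2 : ∀ j, f (I.kOw j) = g (I.kOw j) := fun _ => rfl
        have e3 : ∀ j c, f (I.kI j c) = g (I.kI j c) := fun _ _ => rfl
        have e4 : ∀ j, f (I.kIw j) = g (I.kIw j) := fun _ => rfl
        rw [e0, e1, zero_add, zero_add]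
        simp only [e2, e3, e4]

end sums

/-! ### the field `nonQ` -/

section nonQ

variable {δ κ0 R c0 : ℝ} {La : Set E3} {Φ : FoamD δ κ0 R c0 La} {X : Set Φ.F}

/-- **`nonQ` over `mfs`, sum over the walls and the blocks** -/
theorem nonQ_mfs (I : Ins Φ.F X) (hX : ∀ c, c ∈ X) {Cs : Set (Set E3) → ℝ} (hC0 : ∀ 𝒦, 0 ≤ Cs 𝒦)
    {Ci : ℝ} {Cw : X → ℝ} (hCi : ∀ j c, ∀ 𝒦 ∈ I.mf.Sh (I.kI j c), Cs 𝒦 ≤ Ci)
    (hCw : ∀ j, ∀ 𝒦 ∈ simL (NR (I.D.A j) (I.D.d j)) (I.D.d j) (I.D.c j), Cs 𝒦 ≤ Cw j)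
    (W : Φ.F → ℝ) (g : Φ.F → Fin 3 → E3 → ℝ) (D' : E3 → E3 →L[ℝ] E3) {p : ℝ} (hp : 0 ≤ p)
    {a : E3} {w : X → E3} (h : I.mf.Ok a w)
    (hcmp : ∀ e : Edg ((mfs I).md a w h).T, le (GV (fun c => ENNReal.ofReal (W c)) g) e ≤
      ENNReal.ofReal (8 * Cl δ R) * le (Gd' D') e)
    {cw : ((mfs I).md a w h).ι → ℝ≥0∞} {cwm : I.mf.κ → ℝ≥0∞}
    (hcw : ∀ i, ((mfs I).md a w h).Ord i → cw i ≤ cwm ((mfs I).cl ((mfs I).pot a w h i))) :
    ∑' i : {i // i ∉ Qr I.M I.hk (I.M.φ a) (Ins.adm h) ∧ ∀ c, i ≠ ((mfs I).md a w h).ct c},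
      (ENNReal.ofReal (Cs ((fun K => ((mfs I).md a w h).fr i.1 '' K) ''
          Cfg ((mfs I).md a w h).T i.1) * ‖lin (((mfs I).md a w h).fr i.1)‖) *
        ∑ e ∈ eIn ((mfs I).md a w h).T i.1,
          le (GV (fun c => ENNReal.ofReal (W c)) g) e) ^ p *
        ((1 + cw i.1) * volume (Msh_715.P (((mfs I).md a w h).T.H i.1))) ≤
      ∑' j, ENNReal.ofReal (Cw j) ^ p * (1 + cwm (I.kOw j)) *
          (mfs I).EnT (GV (fun c => ENNReal.ofReal (W c)) g) p a w h (I.kOw j) +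
        (∑' j, ∑' c, (ENNReal.ofReal Ci * ENNReal.ofReal (8 * Cl δ R)) ^ p *
            (1 + cwm (I.kI j c)) * (mfs I).EnT (Gd' D') p a w h (I.kI j c) +
          ∑' j, ENNReal.ofReal (Cw j) ^ p * (1 + cwm (I.kIw j)) *
            (mfs I).EnT (GV (fun c => ENNReal.ofReal (W c)) g) p a w h (I.kIw j)) := by
  classical
  -- a bound on the finite list of `kO`
  obtain ⟨b, hb⟩ := (((mfs I).shf I.kO).image Cs).bddAbove
  set Cm : (mfs I).κ → ℝ := I.rec' 0 b Cw (fun _ _ => Ci) Cw with hCm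
  have hC : ∀ k, ∀ 𝒦 ∈ (mfs I).Sh k, Cs 𝒦 ≤ Cm k := by
    intro k
    refine I.cases (Pr := fun k => ∀ 𝒦 ∈ (mfs I).Sh k, Cs 𝒦 ≤ Cm k) ?_ ?_ ?_ ?_ ?_ k
    · intro 𝒦 h𝒦
      exact absurd h𝒦 (by rw [Mfs_168.mfs_Sh, I.Sh_kN]; exact notMem_empty _)
    · intro 𝒦 h𝒦
      exact hb ⟨𝒦, h𝒦, rfl⟩
    · intro j 𝒦 h𝒦
      exact hCw j 𝒦 h𝒦
    · intro j c 𝒦 h𝒦
      exact hCi j c 𝒦 h𝒦
    · intro j 𝒦 h𝒦
      exact hCw j 𝒦 h𝒦
  have hV : ∀ c, ((mfs I).md a w h).V c = {((mfs I).md a w h).ct c} := fun c =>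
    Mfs_168.mfs_V I h (hX c)
  have hO : ∀ i, (∀ c, i ≠ ((mfs I).md a w h).ct c) → ((mfs I).md a w h).Ord i := by
    intro i hi c
    rw [hV c]
    exact hi c
  have key := wEE_le (mfs I) hC0 hC (GV (fun c => ENNReal.ofReal (W c)) g)
    (Gkc (mfs I) W g D') (Kc δ R (mfs I)) hp h
    (R := {i | i ∉ Qr I.M I.hk (I.M.φ a) (Ins.adm h) ∧ ∀ c, i ≠ ((mfs I).md a w h).ct c})
    (fun i hi => hO i hi.2) (S := {k : I.mf.κ | k ≠ I.kO ∧ k ≠ I.kN})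
    (fun i hi => ⟨Mfs_168.cl_ne_kO I h (hO i hi.2) hi.1, cl_ne_kN I h (hO i hi.2)⟩)
    (cw := cw) (cwm := cwm) (fun i hi => hcw i (hO i hi.2))
    (fun i _ e _ => le_Gkc (hcmp e) _)
  refine key.trans ((tsum_ne_kO I fun k => (ENNReal.ofReal (Cm k) * Kc δ R (mfs I) k) ^ p *
    (1 + cwm k) * (mfs I).EnT (Gkc (mfs I) W g D' k) p a w h k).trans (le_of_eq ?_))
  have e1 : ∀ j, (ENNReal.ofReal (Cm (I.kOw j)) * Kc δ R (mfs I) (I.kOw j)) ^ p *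
      (1 + cwm (I.kOw j)) * (mfs I).EnT (Gkc (mfs I) W g D' (I.kOw j)) p a w h (I.kOw j) =
      ENNReal.ofReal (Cw j) ^ p * (1 + cwm (I.kOw j)) *
          (mfs I).EnT (GV (fun c => ENNReal.ofReal (W c)) g) p a w h (I.kOw j) := by
    intro j
    have q1 : Kc δ R (mfs I) (I.kOw j) = 1 := Kc_none (M := mfs I) (I.bl_kOw j)
    have q2 : Gkc (mfs I) W g D' (I.kOw j) = GV (fun c => ENNReal.ofReal (W c)) g :=
      Gkc_none (M := mfs I) (I.bl_kOw j)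
    rw [q1, q2, mul_one]
    rfl
  have e2 : ∀ j c, (ENNReal.ofReal (Cm (I.kI j c)) * Kc δ R (mfs I) (I.kI j c)) ^ p *
      (1 + cwm (I.kI j c)) * (mfs I).EnT (Gkc (mfs I) W g D' (I.kI j c)) p a w h (I.kI j c) =
      (ENNReal.ofReal Ci * ENNReal.ofReal (8 * Cl δ R)) ^ p * (1 + cwm (I.kI j c)) *
          (mfs I).EnT (Gd' D') p a w h (I.kI j c) := by
    intro j c
    have q1 : Kc δ R (mfs I) (I.kI j c) = ENNReal.ofReal (8 * Cl δ R) :=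
      Kc_some (M := mfs I) (I.bl_kI j c)
    have q2 : Gkc (mfs I) W g D' (I.kI j c) = Gd' D' := Gkc_some (M := mfs I) (I.bl_kI j c)
    rw [q1, q2]
    rfl
  have e3 : ∀ j, (ENNReal.ofReal (Cm (I.kIw j)) * Kc δ R (mfs I) (I.kIw j)) ^ p *
      (1 + cwm (I.kIw j)) * (mfs I).EnT (Gkc (mfs I) W g D' (I.kIw j)) p a w h (I.kIw j) =
      ENNReal.ofReal (Cw j) ^ p * (1 + cwm (I.kIw j)) *
          (mfs I).EnT (GV (fun c => ENNReal.ofReal (W c)) g) p a w h (I.kIw j) := by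
    intro j
    have q1 : Kc δ R (mfs I) (I.kIw j) = 1 := Kc_none (M := mfs I) (I.bl_kIw j)
    have q2 : Gkc (mfs I) W g D' (I.kIw j) = GV (fun c => ENNReal.ofReal (W c)) g :=
      Gkc_none (M := mfs I) (I.bl_kIw j)
    rw [q1, q2, mul_one]
    rfl
  simp only [e1, e2, e3]

/-- **`nonQ` over `mfs`, from the numbers of the walls and of the blocks** -/
theorem nonQ_mfs_le (I : Ins Φ.F X) (hX : ∀ c, c ∈ X) {Cs : Set (Set E3) → ℝ}
    (hC0 : ∀ 𝒦, 0 ≤ Cs 𝒦) {Ci : ℝ} {Cw : X → ℝ}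
    (hCi : ∀ j c, ∀ 𝒦 ∈ I.mf.Sh (I.kI j c), Cs 𝒦 ≤ Ci)
    (hCw : ∀ j, ∀ 𝒦 ∈ simL (NR (I.D.A j) (I.D.d j)) (I.D.d j) (I.D.c j), Cs 𝒦 ≤ Cw j)
    (W : Φ.F → ℝ) (g : Φ.F → Fin 3 → E3 → ℝ) (D' : E3 → E3 →L[ℝ] E3) {p : ℝ} (hp : 0 ≤ p)
    {a : E3} {w : X → E3} (h : I.mf.Ok a w)
    (hcmp : ∀ e : Edg ((mfs I).md a w h).T, le (GV (fun c => ENNReal.ofReal (W c)) g) e ≤
      ENNReal.ofReal (8 * Cl δ R) * le (Gd' D') e)
    {cw : ((mfs I).md a w h).ι → ℝ≥0∞} {cwm : I.mf.κ → ℝ≥0∞}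
    (hcw : ∀ i, ((mfs I).md a w h).Ord i → cw i ≤ cwm ((mfs I).cl ((mfs I).pot a w h i)))
    {εb B : X → ℝ≥0∞} {Ki : ℝ≥0∞}
    (h1 : ∀ j, ENNReal.ofReal (Cw j) ^ p * (1 + cwm (I.kOw j)) *
      (mfs I).EnT (GV (fun c => ENNReal.ofReal (W c)) g) p a w h (I.kOw j) ≤ εb j)
    (h2 : ∀ j, ENNReal.ofReal (Cw j) ^ p * (1 + cwm (I.kIw j)) *
      (mfs I).EnT (GV (fun c => ENNReal.ofReal (W c)) g) p a w h (I.kIw j) ≤ εb j)
    (h3 : ∀ j, ∑' c, (mfs I).EnT (Gd' D') p a w h (I.kI j c) ≤ B j)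
    (h4 : ∀ j c, cwm (I.kI j c) ≤ Ki) :
    ∑' i : {i // i ∉ Qr I.M I.hk (I.M.φ a) (Ins.adm h) ∧ ∀ c, i ≠ ((mfs I).md a w h).ct c},
      (ENNReal.ofReal (Cs ((fun K => ((mfs I).md a w h).fr i.1 '' K) ''
          Cfg ((mfs I).md a w h).T i.1) * ‖lin (((mfs I).md a w h).fr i.1)‖) *
        ∑ e ∈ eIn ((mfs I).md a w h).T i.1,
          le (GV (fun c => ENNReal.ofReal (W c)) g) e) ^ p *
        ((1 + cw i.1) * volume (Msh_715.P (((mfs I).md a w h).T.H i.1))) ≤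
      (ENNReal.ofReal Ci * ENNReal.ofReal (8 * Cl δ R)) ^ p * (1 + Ki) * (∑' j, B j) +
        2 * ∑' j, εb j := by
  refine (nonQ_mfs I hX hC0 hCi hCw W g D' hp h hcmp hcw).trans ?_
  have k1 : ∑' j, ENNReal.ofReal (Cw j) ^ p * (1 + cwm (I.kOw j)) *
      (mfs I).EnT (GV (fun c => ENNReal.ofReal (W c)) g) p a w h (I.kOw j) ≤ ∑' j, εb j :=
    ENNReal.tsum_le_tsum h1
  have k2 : ∑' j, ENNReal.ofReal (Cw j) ^ p * (1 + cwm (I.kIw j)) *
      (mfs I).EnT (GV (fun c => ENNReal.ofReal (W c)) g) p a w h (I.kIw j) ≤ ∑' j, εb j :=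
    ENNReal.tsum_le_tsum h2
  have k3 : ∑' j, ∑' c, (ENNReal.ofReal Ci * ENNReal.ofReal (8 * Cl δ R)) ^ p *
      (1 + cwm (I.kI j c)) * (mfs I).EnT (Gd' D') p a w h (I.kI j c) ≤
      (ENNReal.ofReal Ci * ENNReal.ofReal (8 * Cl δ R)) ^ p * (1 + Ki) * (∑' j, B j) := by
    rw [← ENNReal.tsum_mul_left]
    refine ENNReal.tsum_le_tsum fun j => ?_
    refine le_trans ?_ (mul_le_mul' le_rfl (h3 j))
    rw [← ENNReal.tsum_mul_left]
    refine ENNReal.tsum_le_tsum fun c => ?_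
    gcongr
    exact h4 j c
  calc _ ≤ ∑' j, εb j + ((ENNReal.ofReal Ci * ENNReal.ofReal (8 * Cl δ R)) ^ p * (1 + Ki) *
        (∑' j, B j) + ∑' j, εb j) := add_le_add k1 (add_le_add k3 k2)
    _ = _ := by rw [two_mul]; ring

end nonQ

/-! ### the constants of the shapes -/

/-- the constant of the inner classes, before the data (222's [CM]) -/
theorem exists_Ci (Cs : Set (Set E3) → ℝ) (B0 : ℕ) (R0 : ℝ) : ∃ Ci : ℝ, 0 < Ci ∧
    ∀ {F : Type} {X : Set F} (I : Ins F X), (∀ j, I.D.B j ≤ B0) → (∀ j, I.D.R j ≤ R0) →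
      ∀ j c, ∀ 𝒦 ∈ I.mf.Sh (I.kI j c), Cs 𝒦 ≤ Ci := by
  obtain ⟨Ci, h0, h1⟩ := Cm_222.exists_Cm Cs B0 R0
  exact ⟨Ci, h0, fun I hB hR j c 𝒦 h𝒦 => h1 I.M I.D j (hB j) (hR j) (I.k0 j) (I.hk0 j) c 𝒦 h𝒦⟩

/-- the constants of the walls: functions of the rational data only (the same for `cap M c`) -/
theorem exists_Cw (Cs : Set (Set E3) → ℝ) {J : Type} {M : MD E3 3 J} (D : RD M) :
    ∃ Cw : J → ℝ, (∀ j, 0 < Cw j) ∧
      ∀ j, ∀ 𝒦 ∈ simL (NR (D.A j) (D.d j)) (D.d j) (D.c j), Cs 𝒦 ≤ Cw j := by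
  have h : ∀ j, ∃ b : ℝ, 0 < b ∧
      ∀ 𝒦 ∈ simL (NR (D.A j) (D.d j)) (D.d j) (D.c j), Cs 𝒦 ≤ b := by
    intro j
    obtain ⟨b, hb⟩ := ((simL_finite (NR (D.A j) (D.d j)) (D.d j) (D.c j)).image Cs).bddAbove
    exact ⟨max b 1, lt_of_lt_of_le one_pos (le_max_right _ _),
      fun 𝒦 h𝒦 => (hb ⟨𝒦, h𝒦, rfl⟩).trans (le_max_left _ _)⟩
  choose Cw h1 h2 using h
  exact ⟨Cw, h1, h2⟩

end

end Crest.Agent.R096.Nqc_645
end

-- ▼ part R096/Pgb4_120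
section

/-!
# Row 96 (S0127), helper120: **(M3) of 962 #11558 in the literal form of 798: `pgn : Bmd_798.PreGenN`**
(from `preGenN`, 645's `nonQ_mfs_le`, 168's `cw_class`).
-/

set_option autoImplicit false
set_option linter.style.longLine false
set_option linter.unusedSectionVars false

open MeasureTheory Set Filter Metric
open scoped Topology ENNReal

namespace Crest.Agent.R096.Pgb_120

open Crest.Agent.R096.Msh_715 Crest.Agent.R096.Msh_810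
open Crest.Agent.R096.SkC1_961 (E3 Cfg FoamD Hom3)
open Crest.Agent.R096.Gno_324 (cap capD capD_Om)
open Crest.Agent.R096.Mal_874 (MD RD outD)
open Crest.Agent.R096.Mfa_880 (Ins Pri Deco BxM QU)
open Crest.Agent.R096.Mfs_168 (mfs)
open Crest.Agent.R096.Mbf_337
open Crest.Agent.R096.Ls_222
open Crest.Agent.R096.Ea_713 (lin)
open Crest.Agent.R096.Der_764 (OmH)
open Crest.Agent.R96.Pm_199 (le Dec)
open Crest.Agent.R096.Fns_360 (trA)
open Crest.Agent.R096.Wd_120 (CoreAt coreAt_mesh)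
open Crest.Agent.R096.Bmd_798 (UX ctu Av GenN TI Qr)
open Crest.Agent.R096.Bls_168 (cwR Bulk Kw Kw_ne_top)
open Crest.Agent.R096.Pmc_112 (Gd' Mok)
open Crest.Agent.R096.Np_962 (GV GV_le PreOutN ChoiceN)
open Crest.Agent.R96.En9_199 (GGw)

noncomputable section

/-- the data for `preGenN` from those of 798's `GenN` -/
def dnN {F : Type} (cF : Countable F) (A : F → E3 ≃ᵃ[ℝ] E3) (lam : F → ℝ) (z : F → E3) (Mc : F → ℕ)
    (M : MD E3 3 (UX F)) (Y : RD M) (k0 : UX F → ℕ) (hk0 : ∀ j, (M.Q j).kc ≤ k0 j)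
    (hne : (M.φ ⁻¹' M.D0.Om).Nonempty) : DN F (Set.univ : Set F) where
  M := M
  D := Y
  k0 := k0
  hk0 := hk0
  Bx j := BxM M j
  hBx _ := subset_rfl
  cX := by infer_instance
  hOm := hne
  deco a w :=
    { A := fun c => trA (A c) (a + w ⟨c, mem_univ c⟩)
      lam := lam
      z := z
      θ := fun _ x => x
      φ := fun _ _ => 0
      M := Mc }

theorem box_sub_closedBall : box 3 ⊆ closedBall (0 : E3) 1 := by
  intro x hx
  rw [mem_closedBall_zero_iff, pi_norm_le_iff_of_nonneg zero_le_one]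
  intro i
  have h1 := hx i (mem_univ i)
  rw [Real.norm_eq_abs, abs_of_nonneg h1.1]
  exact h1.2.le

section gin

variable {δ κ0 Rc c0 : ℝ} {La Om : Set E3} {Φ : FoamD δ κ0 Rc c0 La} {f : E3 → E3}
  {D' : E3 → E3 →L[ℝ] E3} {p κp κ1 κ2 : ℝ} {A : Φ.F → E3 ≃ᵃ[ℝ] E3} {lam : Φ.F → ℝ}
  {z : Φ.F → E3} {Mc : Φ.F → ℕ} {B0 : ℕ} {R0 : ℝ} {M : MD E3 3 (UX Φ.F)} {Y : RD M}
  {k0 : UX Φ.F → ℕ} {hk0 : ∀ j, (M.Q j).kc ≤ k0 j} {κr : UX Φ.F → ℕ}
  {Gd : UX Φ.F → Set E3} {B : UX Φ.F → ℝ≥0∞}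

/-- **input of `preGenN` from 798's `GenN`** -/
theorem genIn (cF : Countable Φ.F)
    (hG : GenN Φ Om f D' p κp κ1 κ2 A lam z Mc B0 R0 M Y k0 hk0 κr Gd B)
    (hne : (M.φ ⁻¹' M.D0.Om).Nonempty) :
    GenInN Φ f D' p κp (κp / 64) κ1 κ2 (dnN cF A lam z Mc M Y k0 hk0 hne) κr Gd
      (fun _ _ => 1) B where
  Gds := hG.Gds
  Gdm := hG.Gdm
  Gd0 := hG.Gd0
  h0 := hG.h0
  mok := by
    intro c hc k hk a w hv hw i0 fr
    have h1 := hG.cf c hc k hk ((cap M c hc).φ a) (fun j => a + w j) hv hw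
    set D0 : Dec ((cap M c hc).φ ⁻¹' (cap M c hc).D0.Om) Φ.F :=
      ((((dnN cF A lam z Mc M Y k0 hk0 hne).deco a w).mkX univ
        ((cap M c hc).mesh hk ((cap M c hc).φ a) hv) i0
        fun j => Sum.inr ⟨j, (cap M c hc).core hk ((cap M c hc).φ a) hv j⟩).wf fr) with hD0
    have eJ : ∀ c', {i : TI (cap M c hc) hk ((cap M c hc).φ a) hv |
        ∃ h : c' ∈ (univ : Set Φ.F), i = Sum.inr ⟨⟨c', h⟩,
          (cap M c hc).core hk ((cap M c hc).φ a) hv ⟨c', h⟩⟩} =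
        {ctu (cap M c hc) hk ((cap M c hc).φ a) hv c'} := fun c' =>
      Set.ext fun i => ⟨fun ⟨_, e⟩ => e, fun e => ⟨mem_univ c', e⟩⟩
    have eJ0 : D0.J0 = fun b => {ctu (cap M c hc) hk ((cap M c hc).φ a) hv b} := funext eJ
    have eJJ : D0.J = fun b => {ctu (cap M c hc) hk ((cap M c hc).φ a) hv b} := funext eJ
    have eV : D0.V = fun b => {ctu (cap M c hc) hk ((cap M c hc).φ a) hv b} := funext eJ
    have ect : D0.ct = ctu (cap M c hc) hk ((cap M c hc).φ a) hv := by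
      funext c'
      exact Deco.mkX_ct (D := (dnN cF A lam z Mc M Y k0 hk0 hne).deco a w) (X := univ)
        (T := (cap M c hc).mesh hk ((cap M c hc).φ a) hv) (i0 := i0)
        (ct := fun j => Sum.inr ⟨j, (cap M c hc).core hk ((cap M c hc).φ a) hv j⟩) (mem_univ c')
    have hC : Cores Φ D0.T f κ1 κ2 univ D0.J0 D0.J D0.V D0.ct D0.A D0.lam D0.z D0.θ D0.φ := by
      rw [eJ0, eJJ, eV, ect]
      exact h1.1
    have hF : Fine Φ D0.T f κ1 D0.J0 := by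
      rw [eJ0]
      exact h1.2
    have hcA : ∀ c' : UX Φ.F, CoreAt D0.T (D0.ct c'.1) ((M.Q c').tr (a + w c')) := by
      intro c'
      rw [ect]
      exact coreAt_mesh (cap M c hc) hk ((cap M c hc).φ a) hv c'
    exact ⟨hC, hF, hG.words (fun j => a + w j) hw _ ((cap_Om hc).trans hG.hOm) D0 hC fun c' =>
      ⟨rfl, rfl, rfl, rfl, hcA c'⟩⟩
  en := by
    intro j s hs
    refine le_trans (le_of_eq (tsum_congr fun c => ?_)) (hG.en j s hs)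
    exact one_mul _

end gin

/-- `nonQ` for one instance over `univ` -/
theorem nonQ_ins {δ κ0 Rc c0 : ℝ} {La : Set E3} {Φ : FoamD δ κ0 Rc c0 La} {f : E3 → E3}
    {D' : E3 → E3 →L[ℝ] E3} {g : Φ.F → Fin 3 → E3 → ℝ} {W : Φ.F → ℝ} {p κp μ κ1 κ2 κ3 : ℝ}
    (hp : 0 ≤ p) {B0 : ℕ} {R0 : ℝ} {Cs : Set (Set E3) → ℝ} (hCs : ∀ 𝒦, 0 < Cs 𝒦) {Ci : ℝ}
    (hCi : ∀ {F : Type} {X : Set F} (I : Ins F X), (∀ j, I.D.B j ≤ B0) → (∀ j, I.D.R j ≤ R0) →
      ∀ j c, ∀ 𝒦 ∈ I.mf.Sh (I.kI j c), Cs 𝒦 ≤ Ci) {Ku Ki : ℝ≥0∞}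
    (hKu : ∀ {J : Type} (M : MD E3 3 J), (∀ x, M.φ x = x) →
      (∀ j x, ‖(M.Q j).ψ x‖ ≤ ‖x‖) → ∀ {k : J → ℕ} (hk : M.Sc k) (a : E3) {v : J → E3}
      (hv : M.Adm v) {K0 : ℕ} {r : ℝ} (hr : r ≠ 0) {o : Fin 2 → ℤ} {Mm : ℕ} {Zs : Finset ℤ}
      {B : Set E3}, Bulk M k a v K0 r o Mm Zs B →
      (∀ i ∈ Qr M hk a hv, cwR (M.mesh hk a hv) r hr a o Mm Zs i ≤ Ku) ∧
      ∀ j, cwR (M.mesh hk a hv) r hr a o Mm Zs (Sum.inr ⟨j, M.core hk a hv j⟩) ≤ Ku)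
    (hKi : ∀ {J : Type} (M : MD E3 3 J), (∀ x, M.φ x = x) →
      (∀ j x, ‖(M.Q j).ψ x‖ ≤ ‖x‖) → ∀ {k : J → ℕ} (hk : M.Sc k) (a : E3) {v : J → E3}
      (hv : M.Adm v) (X : RD M), Crest.Agent.R096.Mal_874.RP X a v k → (∀ j, X.B j ≤ B0) →
      (∀ j, X.R j ≤ R0) →
      ∀ {K0 : ℕ} {r : ℝ} (hr : r ≠ 0) {o : Fin 2 → ℤ} {Mm : ℕ} {Zs : Finset ℤ} {B : Set E3},
      Bulk M k a v K0 r o Mm Zs B → ∀ j (i : M.IIx hk a hv j),
        Disjoint (Msh_715.P ((M.mesh hk a hv).H (Sum.inr ⟨j, i⟩))) (frontier (M.Bk v j).N) →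
        cwR (M.mesh hk a hv) r hr a o Mm Zs (Sum.inr ⟨j, i⟩) ≤ Ki)
    (I : Ins Φ.F (univ : Set Φ.F)) (hφ : ∀ x, I.M.φ x = x) (hψ : ∀ j x, ‖(I.M.Q j).ψ x‖ ≤ ‖x‖)
    (hB : ∀ j, I.D.B j ≤ B0) (hR : ∀ j, I.D.R j ≤ R0) {Cw : UX Φ.F → ℝ}
    (hCw : ∀ j, ∀ 𝒦 ∈ Crest.Agent.R096.Mal_874.simL (Crest.Agent.R096.Mal_874.NR (I.D.A j) (I.D.d j)) (I.D.d j) (I.D.c j),
      Cs 𝒦 ≤ Cw j) {εb B : UX Φ.F → ℝ≥0∞} {a : E3} {w : UX Φ.F → E3} (h : (mfs I).Ok a w)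
    (hPre : PreOutN Φ f κp μ κ1 κ2 κ3 W univ g D' ((mfs I).md a w h))
    (hEO : ∀ j, ENNReal.ofReal (Cw j) ^ p * (1 + Kw (I.D.A j) (I.D.d j) (I.D.c j)) *
      (mfs I).EnT (GV (fun c => ENNReal.ofReal (W c)) g) p a w h (I.kOw j) ≤ εb j)
    (hEI : ∀ j, ENNReal.ofReal (Cw j) ^ p * (1 + Kw (I.D.A j) (I.D.d j) (I.D.c j)) *
      (mfs I).EnT (GV (fun c => ENNReal.ofReal (W c)) g) p a w h (I.kIw j) ≤ εb j)
    (hEB : ∀ j, ∑' c, (mfs I).EnT (Gd' D') p a w h (I.kI j c) ≤ B j)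
    {K0 : ℕ} {r : ℝ} (hr : r ≠ 0) {o : Fin 2 → ℤ} {Mm : ℕ} {Zs : Finset ℤ} {Bb : Set E3}
    (hb : Bulk I.M I.k (I.M.φ a) (fun j => a + w j) K0 r o Mm Zs Bb) :
    ∑' i : {i // i ∉ Qr I.M I.hk (I.M.φ a) (Ins.adm h) ∧
        ∀ b, i ≠ ctu I.M I.hk (I.M.φ a) (Ins.adm h) b},
      (ENNReal.ofReal (Cs ((fun K => ((mfs I).md a w h).fr i.1 '' K) ''
          Cfg (I.M.mesh I.hk (I.M.φ a) (Ins.adm h)) i.1) *
          ‖lin (((mfs I).md a w h).fr i.1)‖) *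
        ∑ e ∈ eIn (I.M.mesh I.hk (I.M.φ a) (Ins.adm h)) i.1,
          le (GV (fun c => ENNReal.ofReal (W c)) g) e) ^ p *
        ((1 + cwR (I.M.mesh I.hk (I.M.φ a) (Ins.adm h)) r hr (I.M.φ a) o Mm Zs i.1) *
          volume (Msh_715.P ((I.M.mesh I.hk (I.M.φ a) (Ins.adm h)).H i.1))) ≤
      (ENNReal.ofReal Ci * ENNReal.ofReal (8 * Cl δ Rc)) ^ p * (1 + Ki) * (∑' j, B j) +
        2 * ∑' j, εb j := by
  have ect : ((mfs I).md a w h).ct = ctu I.M I.hk (I.M.φ a) (Ins.adm h) := by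
    funext c'
    exact Mfs_168.mfs_ct I h (mem_univ c')
  have q := Nqc_645.nonQ_mfs_le I (fun c => mem_univ c) (fun 𝒦 => (hCs 𝒦).le) (Ci := Ci)
    (Cw := Cw) (hCi I hB hR) hCw W g D' hp h hPre.cmp
    (cw := cwR (I.M.mesh I.hk (I.M.φ a) (Ins.adm h)) r hr (I.M.φ a) o Mm Zs)
    (cwm := Mfs_168.cwm I Ku Ki)
    (fun i hi => Mfs_168.cw_class I hφ h hr hb
      (hKu I.M hφ hψ I.hk (I.M.φ a) (Ins.adm h) hr hb).1
      (hKi I.M hφ hψ I.hk (I.M.φ a) (Ins.adm h) I.D (I.H.rp a fun j => (h.2 j).1) hB hR hr hb) hi)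
    (εb := εb) (B := B) (Ki := Ki) hEO hEI hEB (fun j c => le_rfl)
  rw [ect] at q
  exact q

set_option maxHeartbeats 1000000 in
/-- **(M3) OF 962 #11558, 798's LITERAL** -/
theorem pgn : Crest.Agent.R096.Bmd_798.PreGenN := by
  intro p hp B0 R0 δ Rc hδ hRc Cs hCs
  obtain ⟨Ci, hCi0, hCi⟩ := Nqc_645.exists_Ci Cs B0 R0
  obtain ⟨Ku, -, hKu⟩ := Bls_168.cw_num
  obtain ⟨Ki, hKit, hKi⟩ := Bls_168.cw_in B0 R0
  refine ⟨(ENNReal.ofReal Ci * ENNReal.ofReal (8 * Cl δ Rc)) ^ p * (1 + Ki), ?_, ?_⟩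
  · exact ENNReal.mul_ne_top (ENNReal.rpow_ne_top_of_nonneg (by linarith)
      (ENNReal.mul_ne_top ENNReal.ofReal_ne_top ENNReal.ofReal_ne_top))
      (ENNReal.add_ne_top.2 ⟨ENNReal.one_ne_top, hKit⟩)
  intro κ0 c0 La Om Φ f Df D' hO hne hOb hLa hf hSH hDm hD g hgm hgw W κp κ1 κ2 κ3 W0 Wd W1 W2 W3
    hκp hκp1 hκ3 hκ2 hκ hg0 hH A lam z Mc M Y k0 hk0 κr Gd B hG ε hε
  have hφ := hG.φ
  have hφx : ∀ x, M.φ x = x := fun x => by rw [hφ]; rfl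
  have eOm := hG.hOm
  have hne' : (M.φ ⁻¹' M.D0.Om).Nonempty := by rw [eOm]; exact hne
  have cF : Countable Φ.F := Crest.Agent.R096.Ls_222.countable_F Φ
  obtain ⟨Cw, hCw0, hCw⟩ := Nqc_645.exists_Cw Cs Y
  obtain ⟨εb, hεb0, hεb⟩ := ENNReal.exists_pos_sum_of_countable'
    (ENNReal.div_pos hε ENNReal.ofNat_ne_top : 0 < ε / 2).ne' (UX Φ.F)
  set KO : UX Φ.F → ℝ≥0∞ := fun j => ENNReal.ofReal (Cw j) ^ p *
    (1 + Kw (Y.A j) (Y.d j) (Y.c j)) with hKO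
  have hKOt : ∀ j, KO j ≠ ∞ := fun j => ENNReal.mul_ne_top
    (ENNReal.rpow_ne_top_of_nonneg (by linarith) ENNReal.ofReal_ne_top)
    (ENNReal.add_ne_top.2 ⟨ENNReal.one_ne_top, Kw_ne_top _ _ _⟩)
  obtain ⟨L, kw, h1, h2, H⟩ := preGenN δ κ0 Rc c0 La Φ f univ
    (dnN cF A lam z Mc M Y k0 hk0 hne') hLa hδ hRc (by
      show Hom3 f (M.φ ⁻¹' M.D0.Om) La
      rw [eOm]; exact hf) D' hDm (by
      show ∀ l, Crest.Agent.R96.Sob4_199.VWD (OmH Φ f (M.φ ⁻¹' M.D0.Om)) volume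
        (fun x => Crest.Agent.R96.En10_199.P3 (Φ.Psi (f x)))
        (fun x => Crest.Agent.R96.En10_199.P3 (D' x (Pi.single l 1))) (Pi.single l (1:ℝ))
      rw [eOm]; exact hD) g hgm (by
      show ∀ c l, Crest.Agent.R96.Acl_392.WD (OmH Φ f (M.φ ⁻¹' M.D0.Om)) volume
        (fun x => Φ.lev c (f x)) (g c l) (Pi.single l 1)
      rw [eOm]; exact hgw) W κp (κp / 64) κ1 κ2 κ3 W0 Wd W1 W2 W3 hκp hκp1 le_rfl hκ3 hκ2 hκ p hp
    (GGw (fun c => ENNReal.ofReal (W c)) g) (Eventually.of_forall fun y v => GV_le v y) (by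
      show ∫⁻ y in M.φ ⁻¹' M.D0.Om, _ ≠ ∞
      rw [eOm]; exact hH) κr Gd (fun _ _ => 1) B (genIn cF hG hne') (1 / 4)
    (ENNReal.div_pos one_ne_zero ENNReal.ofNat_ne_top).ne' KO KO εb hKOt hKOt
    (fun j => (hεb0 j).ne')
  refine ⟨kw, fun c hc k hk hkw => ?_⟩
  obtain ⟨A', hA1, hA2, hA3, hA4⟩ := H c hc k hk hkw
  refine ⟨A', hA2, (measure_mono (sdiff_subset_sdiff_left box_sub_closedBall)).trans hA3,
    fun a ha => ?_⟩
  have ea : (cap M c hc).φ a = a := hφx a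
  obtain ⟨w, h, hw, hPre, hEO, hEI, hEB⟩ := hA4 a ha
  set I' : Ins Φ.F (univ : Set Φ.F) := L.ins hc hk (fun j => (h1 j).trans (hkw j))
    (fun j => (h2 j).trans (hkw j)) with hI'
  have ect : ((mfs I').md a w h).ct = ctu (cap M c hc) hk ((cap M c hc).φ a) (Ins.adm h) := by
    funext c'
    exact Mfs_168.mfs_ct I' h (mem_univ c')
  -- the statement at the base point `M.φ a`
  have key : ∃ (v : UX Φ.F → E3) (hv : (cap M c hc).Adm v), (∀ j, v j ∈ Gd j) ∧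
      ∃ fr : TI (cap M c hc) hk ((cap M c hc).φ a) hv → E3 ≃ᵃ[ℝ] E3,
      (∀ e : Edg ((cap M c hc).mesh hk ((cap M c hc).φ a) hv), le (Gd' D') e ≠ ⊤) ∧
      (∀ e : Edg ((cap M c hc).mesh hk ((cap M c hc).φ a) hv),
        le (GV (fun c => ENNReal.ofReal (W c)) g) e ≤
        ENNReal.ofReal (8 * Cl δ Rc) * le (Gd' D') e) ∧
      ChoiceN Φ ((cap M c hc).mesh hk ((cap M c hc).φ a) hv) f κp (κp / 64) κ3 W univ
        (ctu (cap M c hc) hk ((cap M c hc).φ a) hv) (Av A v) lam z Mc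
        (fun e => ENNReal.ofReal (1 + κp) * le (GV (fun c => ENNReal.ofReal (W c)) g) e) ∧
      ∀ (K0 : ℕ) (r : ℝ) (hr : r ≠ 0) (o : Fin 2 → ℤ) (Mm : ℕ) (Zs : Finset ℤ) (Bb : Set E3),
        Bulk (cap M c hc) k ((cap M c hc).φ a) v K0 r o Mm Zs Bb →
        ∑' i : {i // i ∉ Qr (cap M c hc) hk ((cap M c hc).φ a) hv ∧
            ∀ b, i ≠ ctu (cap M c hc) hk ((cap M c hc).φ a) hv b},
          (ENNReal.ofReal (Cs ((fun K => fr i.1 '' K) ''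
            Cfg ((cap M c hc).mesh hk ((cap M c hc).φ a) hv) i.1) *
            ‖lin (fr i.1)‖) *
            ∑ e ∈ eIn ((cap M c hc).mesh hk ((cap M c hc).φ a) hv) i.1,
              le (GV (fun c => ENNReal.ofReal (W c)) g) e) ^ p *
            ((1 + cwR ((cap M c hc).mesh hk ((cap M c hc).φ a) hv) r hr ((cap M c hc).φ a) o Mm Zs
              i.1) *
              volume (Msh_715.P (((cap M c hc).mesh hk ((cap M c hc).φ a) hv).H i.1))) ≤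
          (ENNReal.ofReal Ci * ENNReal.ofReal (8 * Cl δ Rc)) ^ p * (1 + Ki) * ∑' j, B j + ε := by
    refine ⟨fun j => a + w j, Ins.adm h, hw, ((mfs I').md a w h).fr, hPre.fin, hPre.cmp, ?_, ?_⟩
    · have h3 := hPre.choice
      rw [ect] at h3
      exact h3
    · intro K0 r hr o Mm Zs Bb hb
      have q := nonQ_ins (Φ := Φ) (by linarith : (0:ℝ) ≤ p) (B0 := B0) (R0 := R0) hCs hCi hKu hKi I'
        hφx hG.ψ1 hG.bB hG.bR (Cw := Cw) hCw (εb := εb) (B := B) h hPre (fun j => hEO j)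
        (fun j => hEI j) (fun j => by
          refine le_trans (le_of_eq (tsum_congr fun c => ?_)) (hEB j)
          exact (one_mul _).symm) hr hb
      refine q.trans (add_le_add le_rfl ?_)
      calc 2 * ∑' j, εb j ≤ 2 * (ε / 2) := mul_le_mul' le_rfl hεb.le
        _ = ε := ENNReal.mul_div_cancel two_ne_zero ENNReal.ofNat_ne_top
  rw [ea] at key
  exact key

end

end Crest.Agent.R096.Pgb_120
end

-- ▼ part R096/Np10_962
section

/-!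
Row 96 (S0127), helper962, node NO0-PRE3: `NOPre p`, `p ≥ 3`, from the two last Props of 798.
-/

set_option autoImplicit false

namespace Crest.Agent.R096.Np_962

/-- **`NOPre p` for `p ≥ 3` from `ExBlkN p` and `PreGenN`** -/
theorem noPre_of_blk {p : ℝ} (hp : 3 ≤ p) (HB : Bmd_798.ExBlkN p) (HG : Bmd_798.PreGenN) :
    No_276.NOPre p :=
  Nge_423.noPre_ge3 hp (Bmd_798.exMeshN_of (by linarith) HB HG)

/-- **`NOPre p` for `p ≥ 3` from `ExBlkN p`** -/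
theorem noPre_of_blkN {p : ℝ} (hp : 3 ≤ p) (HB : Bmd_798.ExBlkN p) : No_276.NOPre p :=
  noPre_of_blk hp HB Pgb_120.pgn

end Crest.Agent.R096.Np_962
end

-- ▼ part R96/Gj3_872
section

set_option autoImplicit false

open MeasureTheory Set Filter Metric
open scoped Topology ENNReal Pointwise

namespace Crest.Agent.R96.Gj_872

open Crest.Agent.R096.Mal_874
open Crest.Agent.R096.Bsp_628 Crest.Agent.R096.Brk5_582
open Crest.Agent.R096.SkC1_961 (E3)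
open Crest.Agent.R096.EaX_766 (lin)
open Crest.Agent.R096.Exa_365 (Wt measurableSet_Wt volume_Wt det_lin_ne)
open Crest.Agent.R096.Ea0_961 (Tw Ed Ly Blk InS)

noncomputable section

/-! ### the set `Tw` of the translations of a block -/

theorem Tw_eq (Q : CB E3 3) (k0 : ℕ) :
    Tw Q k0 = Q.ψ ⁻¹' Icc 0 (fun _ => 1 / (10 * 2 ^ k0)) := by
  ext w
  show (∀ l, 0 ≤ Q.ψ w l ∧ Q.ψ w l ≤ 1 / (10 * 2 ^ k0)) ↔ _
  rw [mem_preimage, mem_Icc, Pi.le_def, Pi.le_def, ← forall_and]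
  rfl

theorem measurableSet_Tw (Q : CB E3 3) (k0 : ℕ) : MeasurableSet (Tw Q k0) := by
  rw [Tw_eq]
  exact Q.ψ.continuous.measurable measurableSet_Icc

theorem isCompact_Tw (Q : CB E3 3) (k0 : ℕ) : IsCompact (Tw Q k0) := by
  have h : Tw Q k0 = Q.ψ.symm '' Icc 0 (fun _ => 1 / (10 * 2 ^ k0)) := by
    rw [Tw_eq]
    exact (Q.ψ.symm.toEquiv.image_eq_preimage_symm _).symm
  rw [h]
  exact isCompact_Icc.image Q.ψ.symm.continuous


theorem volume_Tw_ne (Q : CB E3 3) (k0 : ℕ) : volume (Tw Q k0) ≠ 0 := by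
  have h1 : (0:ℝ) < 1 / (10 * 2 ^ k0) := by positivity
  have h2 : (Q.ψ ⁻¹' (univ.pi fun _ => Ioo (0:ℝ) (1 / (10 * 2 ^ k0)))) ⊆ Tw Q k0 := by
    intro w hw l
    have h3 : Q.ψ w l ∈ Ioo (0:ℝ) (1 / (10 * 2 ^ k0)) := hw l (mem_univ l)
    exact ⟨h3.1.le, h3.2.le⟩
  have h3 : IsOpen (Q.ψ ⁻¹' (univ.pi fun _ => Ioo (0:ℝ) (1 / (10 * 2 ^ k0)))) :=
    (isOpen_set_pi finite_univ fun _ _ => isOpen_Ioo).preimage Q.ψ.continuous
  have h4 : (Q.ψ ⁻¹' (univ.pi fun _ => Ioo (0:ℝ) (1 / (10 * 2 ^ k0)))).Nonempty := by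
    refine ⟨Q.ψ.symm fun _ => 1 / (10 * 2 ^ k0) / 2, fun l _ => ?_⟩
    rw [ContinuousLinearEquiv.apply_symm_apply]
    exact ⟨by positivity, by linarith⟩
  exact ((h3.measure_pos volume h4).trans_le (measure_mono h2)).ne'

theorem volume_Tw_ne_top (Q : CB E3 3) (k0 : ℕ) : volume (Tw Q k0) ≠ ∞ :=
  (isCompact_Tw Q k0).measure_lt_top.ne


/-! ### the good shifts -/

/-- (2a) and (2b) of `InS.tra` at the translation `w` -/
structure TraW (p : ℝ) (D : E3 → E3 →L[ℝ] E3) (Cc κw : ℝ) (A : E3 ≃ᵃ[ℝ] E3) (er : ℝ≥0∞)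
    (Q : CB E3 3) (k0 : ℕ) (hk : Q.kc ≤ k0) (w : E3) : Prop where
  a2 : ∀ e ∈ Ed Q k0 hk, segment ℝ e.1 e.2 ⊆ Q.Kc →
    ∫⁻ τ in Icc (0:ℝ) 1, ‖D (e.1 + w + τ • (e.2 - e.1)) (e.2 - e.1) - lin A (e.2 - e.1)‖ₑ ≤
      ENNReal.ofReal (κw * ‖lin A (e.2 - e.1)‖)
  b2 : ENNReal.ofReal (‖lin A‖ ^ p / |(lin A).det|) *
    (∑' e : Ed Q k0 hk, ENNReal.ofReal (‖lin A (e.1.2 - e.1.1)‖ ^ (3 - p)) *
      (∫⁻ τ in Icc (0:ℝ) 1, ‖D (e.1.1 + w + τ • (e.1.2 - e.1.1)) (e.1.2 - e.1.1)‖ₑ ^ p)) ≤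
    ENNReal.ofReal (Cc * ‖lin A‖ ^ p) * volume (Q.N \ Q.Kc) + er

theorem volume_not_tra {p : ℝ} {Om : Set E3} {f : E3 → E3} {D : E3 → E3 →L[ℝ] E3} {Cc κ1 κ2 κw : ℝ}
    {M : ℕ} {c : Bx (Fin 3)} {A : E3 ≃ᵃ[ℝ] E3} {lam : ℝ} {er : ℝ≥0∞} {Q : CB E3 3} {k0 : ℕ}
    {hk : Q.kc ≤ k0} (h : InS p Om f D Cc κ1 κ2 κw M c A lam er Q k0 hk) :
    volume {w | w ∈ Tw Q k0 ∧ ¬ TraW p D Cc κw A er Q k0 hk w} ≤
      ENNReal.ofReal (1 / 4) * volume (Tw Q k0) := by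
  obtain ⟨G, hG, hG2⟩ := h.tra
  refine (measure_mono ?_).trans hG
  rintro w ⟨hw, hn⟩
  refine ⟨hw, fun hwG => hn ?_⟩
  obtain ⟨h1, h2⟩ := hG2 w hwG hw
  exact ⟨h1, h2⟩



end

end Crest.Agent.R96.Gj_872
end

-- ▼ part R096/Gz0_222
section

set_option autoImplicit false
set_option linter.unusedSectionVars false

open MeasureTheory Set Filter Metric
open scoped Topology ENNReal NNReal

namespace Crest.Agent.R096.Gz_222

open Crest.Agent.R096.Msh_715 Crest.Agent.R096.Mal_874 Crest.Agent.R096.Ncl_476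
  Crest.Agent.R096.Msh_810 Crest.Agent.R096.Ine_222 Crest.Agent.R096.Mfi_290
open Crest.Agent.R096.Bsp_628 (Bx)
open Crest.Agent.R096.SkC1_961 (E3 Cfg)
open Crest.Agent.R96.Sg1_199 (li sgm sgm_eq_segment)
open Crest.Agent.R096.Ls_222 (Edg ea ev eIn mem_eIn sgm_edg ev_ne sgm_cases)
open Crest.Agent.R096.EaX_766 (lin)
open Crest.Agent.R096.Ea0_961 (Ed InS Blk Tw Ly)
open Crest.Agent.R096.Pmc_112 (Gd')
open Crest.Agent.R096.Uni_663 (toPTU EnC_toPT_le measurable_EnCU)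
open Crest.Agent.R096.Ez4_748 (CF far0_Tw int_D' measurableSet_Ly kc_lt)
open Crest.Agent.R96.Gj_872 (TraW volume_not_tra exists_good measurableSet_Tw volume_Tw_ne
  volume_Tw_ne_top)
open Crest.Agent.R096.Qc_222 (coarse0 ae_cmp gd_even)

noncomputable section

/-- **[G0], one block: the good total shifts.** `Pz` = the points where `D'` is controlled by `D`. -/
theorem good_block {Bs : ℕ} (hB1 : 1 ≤ Bs) {p : ℝ} (hp : 1 ≤ p) (hp3 : p ≤ 3) :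
    ∃ C : ℝ≥0, 0 < C ∧
    ∀ {J : Type} (M : MD E3 3 J) (X : RD M) (j : J) (k0 : ℕ) (hk0 : (M.Q j).kc ≤ k0)
      (A : E3 ≃ᵃ[ℝ] E3) (u : ℝ), (M.Q j).kc < k0 → 0 < u →
      (∀ x : E3, A.linear x = u • (M.Q j).ψ x) →
      (∀ i, ∀ p ∈ (M.Q j).S.GG i, ∀ l, |p.1 l| ≤ Bs) →
      (∀ i, i ≠ (M.Q j).S.core → ∀ v ∈ ZP ((M.Q j).S.GG i), ∀ w ∈ ZP ((M.Q j).S.GG i),
        ∀ l, |w l - v l| ≤ Bs) →
    ∀ (D D' : E3 → E3 →L[ℝ] E3) (KQ : ℝ) (Pz : E3 → Prop), (∀ w, Measurable fun z => D' z w) →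
      0 ≤ KQ → (∀ᵐ x, Pz x → ∀ v, ‖D' x v‖ ≤ KQ * ‖D x v‖) →
      (∀ y ∈ (M.Q j).N, ∀ s ∈ Tw (M.Q j) k0, Pz (y + s)) → (∀ x ∈ Ly (M.Q j) k0, Pz x) →
    ∀ K : ℝ, 0 ≤ K → (∀ y, ‖(M.Q j).ψ y‖ ≤ K * ‖y‖ ∧ ‖y‖ ≤ K * ‖(M.Q j).ψ y‖) →
    ∀ (Cc κw : ℝ) (er : ℝ≥0∞),
      volume {w | w ∈ Tw (M.Q j) k0 ∧ ¬ TraW p D Cc κw A er (M.Q j) k0 hk0 w} ≤
        ENNReal.ofReal (1 / 4) * volume (Tw (M.Q j) k0) →
    ∀ P : E3 → Prop, (∀ᵐ v : E3, v ∈ Tw (M.Q j) k0 → P v) →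
    ∃ Gd : Set E3, MeasurableSet Gd ∧ Gd ⊆ Tw (M.Q j) k0 ∧ volume Gd ≠ 0 ∧
      ∀ v ∈ Gd, P v ∧ TraW p D Cc κw A er (M.Q j) k0 hk0 v ∧
        ∀ (𝒦 : Set (Set E3)) (U : Set E3) (h𝒦 : 𝒦.Countable) (hU : U.Countable),
          ∑' c, ((QI M X j k0 hk0).toPT 𝒦 U h𝒦 hU).EnC (Gd' D') p c v ≤
            C * ENNReal.ofReal KQ ^ p * (ENNReal.ofReal (Cc * ‖lin A‖ ^ p) *
              volume ((M.Q j).N \ (M.Q j).Kc) + er) +
            8 * CF K p 10 * ENNReal.ofReal KQ ^ p * ∫⁻ z in Ly (M.Q j) k0, ‖D z‖ₑ ^ p := by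
  have hp0 : 0 ≤ p := by linarith
  obtain ⟨C, hC, HC⟩ := coarse0 hB1 hp hp3
  refine ⟨C, hC, ?_⟩
  intro J M X j k0 hk0 A u hlt hu hA hB hR D D' KQ Pz hDm hKQ hPz hN hL K hK0 hK Cc κw er htr P hP
  -- the fine energy
  set F : E3 → ℝ≥0∞ := fun v => ∑' m : ℕ, (toPTU (QI M X j k0 hk0)).EnC (Gd' D') p (Sum.inr m) v
    with hF
  have hGm : ∀ v, Measurable (Gd' D' v) := fun v => (hDm v).enorm
  have hFm : Measurable F := Measurable.tsum fun m => measurable_EnCU _ hGm p _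
  set m0 : ℝ≥0∞ := CF K p 10 * (ENNReal.ofReal KQ ^ p * ∫⁻ z in Ly (M.Q j) k0, ‖D z‖ₑ ^ p) with hm0
  have hmean : ∫⁻ v in Tw (M.Q j) k0, F v ≤ m0 * volume (Tw (M.Q j) k0) := by
    have h1 := far0_Tw M X j k0 hk0 hlt (Uni_663.KU_countable (QI M X j k0 hk0))
      (countable_singleton 0) hDm hK0 hK (w := fun _ => 1) (Cw := 1) (fun _ => le_rfl) (by simp) hp
    have h2 : ∫⁻ z in Ly (M.Q j) k0, ‖D' z‖ₑ ^ p ≤
        ENNReal.ofReal KQ ^ p * ∫⁻ z in Ly (M.Q j) k0, ‖D z‖ₑ ^ p := by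
      refine int_D' (measurableSet_Ly _ _) hp0 ?_
      filter_upwards [hPz] with x hx hxL
      exact hx (hL x hxL)
    calc ∫⁻ v in Tw (M.Q j) k0, F v
        = ∫⁻ v in Tw (M.Q j) k0, ∑' m : ℕ,
            1 * (toPTU (QI M X j k0 hk0)).EnC (Gd' D') p (Sum.inr m) v := by
          simp only [one_mul]
          rfl
      _ ≤ 1 * CF K p 10 * (∫⁻ z in Ly (M.Q j) k0, ‖D' z‖ₑ ^ p) * volume (Tw (M.Q j) k0) := h1
      _ ≤ 1 * CF K p 10 * (ENNReal.ofReal KQ ^ p * ∫⁻ z in Ly (M.Q j) k0, ‖D z‖ₑ ^ p) *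
            volume (Tw (M.Q j) k0) := by gcongr
      _ = m0 * volume (Tw (M.Q j) k0) := by rw [hm0, one_mul]
  -- the a.e. properties
  have hz0 : m0 = 0 → ∀ᵐ v, v ∈ Tw (M.Q j) k0 → F v = 0 := by
    intro h0
    have h1 : ∫⁻ v in Tw (M.Q j) k0, F v = 0 := by
      have h2 := hmean
      rw [h0, zero_mul] at h2
      exact le_antisymm h2 zero_le
    rw [lintegral_eq_zero_iff hFm] at h1
    exact (ae_restrict_iff' (measurableSet_Tw _ _)).1 h1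
  have hcmp : ∀ᵐ s : E3, (∀ y ∈ (M.Q j).N, y + s ∈ (univ : Set E3) → Pz (y + s)) →
      ∀ e : Edg ((M.Q j).T k0 hk0), e.1 ⊆ (M.Q j).N →
      li (Gd' D' (ev e)) (ea e + s) (ev e) ≤
        ENNReal.ofReal KQ * li (Gd' D (ev e)) (ea e + s) (ev e) := by
    have : Countable (TIx (M.Q j) k0 hk0) := inferInstance
    refine ae_cmp ((M.Q j).T k0 hk0) (M.Q j).N (O := univ) hKQ (fun x hx => absurd (mem_univ x) hx) ?_
    filter_upwards [hPz] with x hx _ h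
    exact hx h
  set P' : E3 → Prop := fun v => P v ∧ (m0 = 0 → F v = 0) ∧
    ∀ e : Edg ((M.Q j).T k0 hk0), e.1 ⊆ (M.Q j).N →
      li (Gd' D' (ev e)) (ea e + v) (ev e) ≤
        ENNReal.ofReal KQ * li (Gd' D (ev e)) (ea e + v) (ev e) with hP'
  have hP'ae : ∀ᵐ v, v ∈ Tw (M.Q j) k0 → P' v := by
    by_cases h0 : m0 = 0
    · filter_upwards [hP, hz0 h0, hcmp] with v h1 h2 h3 hv
      exact ⟨h1 hv, fun _ => h2 hv, h3 fun y hy _ => hN y hy v hv⟩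
    · filter_upwards [hP, hcmp] with v h1 h3 hv
      exact ⟨h1 hv, fun h => absurd h h0, h3 fun y hy _ => hN y hy v hv⟩
  have hθ : (8:ℝ≥0∞)⁻¹ + ENNReal.ofReal (1 / 4) < 1 := by
    have h1 : (8:ℝ≥0∞)⁻¹ = ENNReal.ofReal (1 / 8) := by
      rw [one_div, ENNReal.ofReal_inv_of_pos (by norm_num)]
      norm_num
    rw [h1, ← ENNReal.ofReal_add (by norm_num) (by norm_num), ← ENNReal.ofReal_one]
    exact (ENNReal.ofReal_lt_ofReal_iff one_pos).2 (by norm_num)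
  set m1 : ℝ≥0∞ := if m0 = 0 then 1 else m0 with hm1
  have hm10 : m1 ≠ 0 := by
    rw [hm1]
    split_ifs with h
    · exact one_ne_zero
    · exact h
  have hm01 : m0 ≤ m1 := by
    rw [hm1]
    split_ifs with h
    · rw [h]; exact zero_le
    · exact le_rfl
  obtain ⟨G, hG1, hG2, hG3, -, hG4⟩ := exists_good (μ := volume) (ι' := Unit)
    (measurableSet_Tw (M.Q j) k0) (volume_Tw_ne _ _) (volume_Tw_ne_top _ _) (F := fun _ => F)
    (fun _ => hFm) (lam := fun _ => 8) (m := fun _ => m1) (fun _ => hm10) (fun _ => by norm_num)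
    (fun _ => by norm_num) (fun _ => hmean.trans (mul_le_mul' hm01 le_rfl)) (θ₁ := 8⁻¹)
    (by rw [tsum_fintype]; simp) hP'ae htr hθ
  refine ⟨G, hG2, hG1, hG3, fun v hv => ?_⟩
  obtain ⟨⟨h1, h2, h3⟩, h4, h5⟩ := hG4 v hv
  refine ⟨h1, h4, fun 𝒦 U h𝒦 hU => ?_⟩
  -- the coarse classes
  have hco := HC M X j k0 hk0 𝒦 U h𝒦 hU A u hu hA hB hR D D' (ENNReal.ofReal KQ) v h3 1 _ h4.b2
  -- the fine classes
  have hfi : ∑' m : ℕ, ((QI M X j k0 hk0).toPT 𝒦 U h𝒦 hU).EnC (Gd' D') p (Sum.inr m) v ≤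
      8 * m0 := by
    refine (ENNReal.tsum_le_tsum fun m => EnC_toPT_le (QI M X j k0 hk0) h𝒦 hU (gd_even D') hp0
      (Sum.inr m) v).trans ?_
    change F v ≤ _
    by_cases h0 : m0 = 0
    · rw [h2 h0]
      exact zero_le
    · have h6 := h5 ()
      rwa [hm1, if_neg h0] at h6
  have hsum : ∑' c, ((QI M X j k0 hk0).toPT 𝒦 U h𝒦 hU).EnC (Gd' D') p c v =
      ∑' t : Pt (M.Q j), ((QI M X j k0 hk0).toPT 𝒦 U h𝒦 hU).EnC (Gd' D') p (Sum.inl t) v +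
      ∑' m : ℕ, ((QI M X j k0 hk0).toPT 𝒦 U h𝒦 hU).EnC (Gd' D') p (Sum.inr m) v :=
    Summable.tsum_sum (f := fun c : Pt (M.Q j) ⊕ ℕ =>
      ((QI M X j k0 hk0).toPT 𝒦 U h𝒦 hU).EnC (Gd' D') p c v) ENNReal.summable ENNReal.summable
  rw [hsum]
  refine add_le_add ?_ ?_
  · refine le_trans (le_of_eq (tsum_congr fun t => ?_)) (hco.trans (le_of_eq ?_))
    · rw [ENNReal.one_rpow, one_mul]
    · rw [one_mul]
  · refine hfi.trans (le_of_eq ?_)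
    rw [hm0]
    ring

/-- **[G0] for `Ea0_961`: (B3) of `pre_gen`, and the data for (B2)** -/
theorem good_block0 {Bs : ℕ} (hB1 : 1 ≤ Bs) {p : ℝ} (hp : 1 ≤ p) (hp3 : p ≤ 3) :
    ∃ C : ℝ≥0, 0 < C ∧
    ∀ {Om : Set E3} {f : E3 → E3} {D : E3 → E3 →L[ℝ] E3} {F : Set (Bx (Fin 3))} {u Cc κ1 κ2 κw κt : ℝ}
      {Mg Nn : ℕ} {c : F} {A : E3 ≃ᵃ[ℝ] E3} {lam : ℝ} {er : ℝ≥0∞} {Q : CB E3 3} {k0 : ℕ}
      {hk : Q.kc ≤ k0}, 0 < u → 0 ≤ κt → κt * Cc < 1 → Blk F u Cc κ2 κt Bs Mg Nn c A lam Q k0 hk →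
      InS p Om f D Cc κ1 κ2 κw Mg c.1 A lam er Q k0 hk →
    ∀ (D' : E3 → E3 →L[ℝ] E3) (KQ : ℝ) (Pz : E3 → Prop), (∀ w, Measurable fun z => D' z w) →
      0 ≤ KQ → (∀ᵐ x, Pz x → ∀ v, ‖D' x v‖ ≤ KQ * ‖D x v‖) →
      (∀ y ∈ Q.N, ∀ s ∈ Tw Q k0, Pz (y + s)) → (∀ x ∈ Ly Q k0, Pz x) →
    ∀ K : ℝ, 0 ≤ K → (∀ y, ‖Q.ψ y‖ ≤ K * ‖y‖ ∧ ‖y‖ ≤ K * ‖Q.ψ y‖) →
    ∀ P : E3 → Prop, (∀ᵐ v : E3, v ∈ Tw Q k0 → P v) →
    ∀ {J : Type} (M : MD E3 3 J) (X : RD M) (j : J) (hQ : M.Q j = Q) (hk' : (M.Q j).kc ≤ k0),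
    ∃ Gd : Set E3, MeasurableSet Gd ∧ Gd ⊆ Tw Q k0 ∧ volume Gd ≠ 0 ∧
      ∀ v ∈ Gd, P v ∧ TraW p D Cc κw A er Q k0 hk v ∧
        ∀ (𝒦 : Set (Set E3)) (U : Set E3) (h𝒦 : 𝒦.Countable) (hU : U.Countable),
          ∑' c, ((QI M X j k0 hk').toPT 𝒦 U h𝒦 hU).EnC (Gd' D') p c v ≤
            C * ENNReal.ofReal KQ ^ p * (ENNReal.ofReal (Cc * ‖lin A‖ ^ p) *
              volume (Q.N \ Q.Kc) + er) +
            8 * CF K p 10 * ENNReal.ofReal KQ ^ p * ∫⁻ z in Ly Q k0, ‖D z‖ₑ ^ p := by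
  obtain ⟨C, hC, H⟩ := good_block hB1 hp hp3
  refine ⟨C, hC, ?_⟩
  intro Om f D F u Cc κ1 κ2 κw κt Mg Nn c A lam er Q k0 hk hu hκt hcc hB hI D' KQ Pz hDm hKQ hPz
    hN hL K hK0 hK P hP J M X j hQ hk'
  subst hQ
  exact H M X j k0 hk' A u (kc_lt hB hu hκt hcc) hu hB.lin_eq hB.hB hB.hR D D' KQ Pz hDm hKQ hPz hN
    hL K hK0 hK Cc κw er (volume_not_tra hI) P hP

end

end Crest.Agent.R096.Gz_222
end

-- ▼ part R096/Gz1_222
section

set_option autoImplicit false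
set_option linter.unusedSectionVars false
set_option linter.unusedVariables false

open MeasureTheory Set Filter Metric
open scoped Topology ENNReal NNReal

namespace Crest.Agent.R096.Gz_222

open Crest.Agent.R096.Msh_715 Crest.Agent.R096.Mal_874 Crest.Agent.R096.Msh_810
  Crest.Agent.R096.Mfi_290
open Crest.Agent.R096.Bsp_628 (Bx)
open Crest.Agent.R096.SkC1_961 (E3 Cfg)
open Crest.Agent.R096.EaX_766 (lin cbx Kor)
open Crest.Agent.R096.Ea0_961 (Ed InS Blk Tw Ly)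
open Crest.Agent.R096.Pmc_112 (Gd')
open Crest.Agent.R096.Ez4_748 (CF CF_ne_top)
open Crest.Agent.R96.Gj_872 (TraW)
open Crest.Agent.R096.Mfa_880 (QU)
open Crest.Agent.R096.Mdd_360 (exists_K_net)
open Crest.Agent.R96.Ea0p_348 (Sn Ln)

noncomputable section

/-- **(2d): THE GOOD SETS OF ALL BLOCKS AND (B3)**; `C1` before the net `Nn`, `CA` after it -/
theorem good_sets {p : ℝ} (hp : 1 ≤ p) (hp3 : p ≤ 3) {Cc : ℝ} (hCc : 1 ≤ Cc) {Bs : ℕ} (hB1 : 1 ≤ Bs)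
    {KQ : ℝ} (hKQ : 0 ≤ KQ) : ∃ C1 : ℝ≥0, ∀ Nn : ℕ, ∃ CA : ℝ≥0,
    ∀ {Om : Set E3} {f : E3 → E3} {D : E3 → E3 →L[ℝ] E3} {F : Set (Bx (Fin 3))} (X : Set F)
      {u κ1 κ2 κw κt : ℝ} {Mg : ℕ} (A : F → E3 ≃ᵃ[ℝ] E3) (lam : F → ℝ) (Q : F → CB E3 3)
      (k0 : F → ℕ) (hk : ∀ c, (Q c).kc ≤ k0 c) (er : F → ℝ≥0∞), 0 < u → 0 ≤ κt → κt * Cc < 1 →
      (∀ c ∈ X, Blk F u Cc κ2 κt Bs Mg Nn c (A c) (lam c) (Q c) (k0 c) (hk c)) →
      (∀ c ∈ X, InS p Om f D Cc κ1 κ2 κw Mg c.1 (A c) (lam c) (er c) (Q c) (k0 c) (hk c)) →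
    ∀ (D' : E3 → E3 →L[ℝ] E3) (Pz : E3 → Prop), (∀ w, Measurable fun z => D' z w) →
      (∀ᵐ x, Pz x → ∀ v, ‖D' x v‖ ≤ KQ * ‖D x v‖) →
      (∀ c ∈ X, ∀ y ∈ (Q c).N, ∀ s ∈ Tw (Q c) (k0 c), Pz (y + s)) →
      (∀ c ∈ X, ∀ x ∈ Ly (Q c) (k0 c), Pz x) →
    ∀ P : X → E3 → Prop, (∀ c : X, ∀ᵐ v : E3, v ∈ Tw (Q c) (k0 c) → P c v) →
    ∀ (M : MD E3 3 X) (Xr : RD M), (∀ c : X, M.Q c = Q c) →
    ∀ hk' : ∀ c : X, (M.Q c).kc ≤ k0 c,
    ∃ Gd : X → Set E3, ∀ c : X, MeasurableSet (Gd c) ∧ Gd c ⊆ Tw (Q c) (k0 c) ∧ volume (Gd c) ≠ 0 ∧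
      ∀ v ∈ Gd c, P c v ∧ TraW p D Cc κw (A c) (er c) (Q c) (k0 c) (hk c) v ∧
        (∀ (𝒦 : Set (Set E3)) (U : Set E3) (h𝒦 : 𝒦.Countable) (hU : U.Countable),
          ∑' cl, ((QI M Xr c (k0 c) (hk' c)).toPT 𝒦 U h𝒦 hU).EnC (Gd' D') p cl v ≤
            C1 * (Sn p F A lam Q c + er c) + CA * Ln p D F Q k0 c) ∧
        ∑' cl, (QU M Xr (fun c : X => k0 c) hk' c).EnC (Gd' D') p cl v ≤
            C1 * (Sn p F A lam Q c + er c) + CA * Ln p D F Q k0 c := by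
  have hp0 : 0 ≤ p := by linarith
  obtain ⟨C, hC, H⟩ := good_block0 hB1 hp hp3
  have hcC : (C : ℝ≥0∞) * ENNReal.ofReal KQ ^ p * ENNReal.ofReal Cc ≠ ∞ :=
    ENNReal.mul_ne_top (ENNReal.mul_ne_top ENNReal.coe_ne_top
      (ENNReal.rpow_ne_top_of_nonneg hp0 ENNReal.ofReal_ne_top)) ENNReal.ofReal_ne_top
  refine ⟨((C : ℝ≥0∞) * ENNReal.ofReal KQ ^ p * ENNReal.ofReal Cc).toNNReal, fun Nn => ?_⟩
  obtain ⟨K, hK1, hK⟩ := exists_K_net (ContinuousLinearEquiv.refl ℝ E3) Nn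
  have hcA : 8 * CF K p 10 * ENNReal.ofReal KQ ^ p ≠ ∞ :=
    ENNReal.mul_ne_top (ENNReal.mul_ne_top (by norm_num) (CF_ne_top hp0))
      (ENNReal.rpow_ne_top_of_nonneg hp0 ENNReal.ofReal_ne_top)
  refine ⟨(8 * CF K p 10 * ENNReal.ofReal KQ ^ p).toNNReal, ?_⟩
  intro Om f D F X u κ1 κ2 κw κt Mg A lam Q k0 hk er hu hκt hcc hB hI D' Pz hDm hPz hN hL P hP M Xr
    hQ hk'
  rw [ENNReal.coe_toNNReal hcC, ENNReal.coe_toNNReal hcA]
  have key : ∀ c : X, ∃ Gd : Set E3, MeasurableSet Gd ∧ Gd ⊆ Tw (Q c) (k0 c) ∧ volume Gd ≠ 0 ∧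
      ∀ v ∈ Gd, P c v ∧ TraW p D Cc κw (A c) (er c) (Q c) (k0 c) (hk c) v ∧
        ∀ (𝒦 : Set (Set E3)) (U : Set E3) (h𝒦 : 𝒦.Countable) (hU : U.Countable),
          ∑' cl, ((QI M Xr c (k0 c) (hk' c)).toPT 𝒦 U h𝒦 hU).EnC (Gd' D') p cl v ≤
            C * ENNReal.ofReal KQ ^ p * (ENNReal.ofReal (Cc * ‖lin (A c)‖ ^ p) *
              volume ((Q c).N \ (Q c).Kc) + er c) +
            8 * CF K p 10 * ENNReal.ofReal KQ ^ p * ∫⁻ z in Ly (Q c) (k0 c), ‖D z‖ₑ ^ p := by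
    intro c
    obtain ⟨d, B, n1, n2, n3, n4, -⟩ := (hB c c.2).net
    exact H hu hκt hcc (hB c c.2) (hI c c.2) D' KQ Pz hDm hKQ hPz (hN c c.2) (hL c c.2) K
      (by linarith) (hK _ d B n1 n2 n3 n4) (P c) (hP c) M Xr c (hQ c) (hk' c)
  have hbd : ∀ c : X, (C : ℝ≥0∞) * ENNReal.ofReal KQ ^ p * (ENNReal.ofReal (Cc * ‖lin (A c)‖ ^ p) *
              volume ((Q c).N \ (Q c).Kc) + er c) +
            8 * CF K p 10 * ENNReal.ofReal KQ ^ p * (∫⁻ z in Ly (Q c) (k0 c), ‖D z‖ₑ ^ p) ≤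
      C * ENNReal.ofReal KQ ^ p * ENNReal.ofReal Cc * (Sn p F A lam Q c + er c) +
        8 * CF K p 10 * ENNReal.ofReal KQ ^ p * Ln p D F Q k0 c := by
    intro c
    have hKc : (Q c).Kc = Kor F A lam c := (hB c c.2).core
    have h1 : ENNReal.ofReal (Cc * ‖lin (A c)‖ ^ p) * volume ((Q c).N \ (Q c).Kc) ≤
        ENNReal.ofReal Cc * Sn p F A lam Q c := by
      unfold Sn
      rw [hKc, ENNReal.ofReal_mul (by linarith), ← ENNReal.ofReal_rpow_of_nonneg (norm_nonneg _) hp0,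
        ofReal_norm, mul_assoc]
      gcongr
      exact le_add_self
    have h2 : er c ≤ ENNReal.ofReal Cc * er c := by
      have h3 : (1 : ℝ≥0∞) ≤ ENNReal.ofReal Cc := by
        rw [← ENNReal.ofReal_one]
        exact ENNReal.ofReal_le_ofReal hCc
      calc er c = 1 * er c := (one_mul _).symm
        _ ≤ _ := mul_le_mul' h3 le_rfl
    refine add_le_add ?_ (mul_le_mul' le_rfl ?_)
    · rw [mul_assoc ((C : ℝ≥0∞) * _)]
      refine mul_le_mul' le_rfl ?_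
      rw [mul_add]
      exact add_le_add h1 h2
    · unfold Ln
      exact lintegral_mono fun x => le_add_self
  choose Gd g1 g2 g3 g4 using key
  refine ⟨Gd, fun c => ⟨g1 c, g2 c, g3 c, fun v hv => ?_⟩⟩
  obtain ⟨h1, h2, h3⟩ := g4 c v hv
  exact ⟨h1, h2, fun 𝒦 U h𝒦 hU => (h3 𝒦 U h𝒦 hU).trans (hbd c),
    (h3 _ _ (Uni_663.KU_countable _) (countable_singleton 0)).trans (hbd c)⟩

end

end Crest.Agent.R096.Gz_222
end

-- ▼ part R96/Eam5_466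
section

/-!
# R96, [Z7] of 961 #11134 (helper466): `FineX` and `Exact` for the blocks of `EA0`

Input: `Ea0_961.Blk` and `InS.cor` (v3) for the bricks of `X`, translations `v c ∈ Tw (Q c) (k0 c)`,
`κc` small, `M` large (`Mz`, `exists_Mz`).

* `norm_lin_Tw` : `‖A.linear v‖ ≤ κt / 10 * (lam * sz) / M`;
* **`cor_Tw`** : the core statement for the translated core, closeness `κc + 1 / M`, margin `κ2 / 2`;
* **`block_Tw`** : `f` on the translated block;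
* **`z7`** : `FineX` and `Exact` on the aligned mesh.
-/

set_option autoImplicit false
set_option linter.style.longLine false
set_option linter.unusedSectionVars false

open MeasureTheory Set Filter Topology Metric

namespace Crest.Agent.R96.Eam_466

open Crest.Agent.R096.Bsp_628 Crest.Agent.R096.Brk1_582 Crest.Agent.R096.Brk2_582
open Crest.Agent.R096.Brk3_582
open Crest.Agent.R096.Brk5_582
open Crest.Agent.R096.Msh_715
open Crest.Agent.R96.Push_899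
open Crest.Agent.R096.SkC1_961 (E3 Hom3 IsPush FoamD)
open Crest.Agent.R096.Mbf_337
open Crest.Agent.R096.EaX_766 (cbx)
open Crest.Agent.R096.Bxs_627 (ctr cb zz CoriE ctr_lo ctr_hi)
open Crest.Agent.R096.Mal_874 Crest.Agent.R096.Msh_810
open Crest.Agent.R096.Fns_360
open Crest.Agent.R96.EaP_899
open Crest.Agent.R096.Ea0_961 (Blk Tw)

noncomputable section

variable {δ κ0 R c0 : ℝ} {La : Set E3} {F : Set (Bx (Fin 3))}

/-- **`κc` is small, `M` is large**: `κc` = closeness of `f` and `A`, `K = KI ..`, `κm` = the `κ1` of the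
machine -/
structure Mz (κ0 κ2 Cc lam1 K κm κc : ℝ) (Bs M : ℕ) : Prop where
  pos : 0 < M
  m1 : κ0 ≤ κ2 * M
  m2 : (κc + 1 / M) * κ0 ≤ 1 / 8
  m3 : (κc + 1 / M) * κ0 ≤ (1 - lam1) / 8
  m4 : K * (Bs * Cc / M + 2 * (κc + 1 / M)) ≤ κm
  m5 : κc + 1 / M ≤ κm


section one

variable {u Cc κ2 κt : ℝ} {Bs M Nn : ℕ} {c : F} {A : E3 ≃ᵃ[ℝ] E3} {lam : ℝ} {Q : CB E3 3} {k0 : ℕ}
  {hk : Q.kc ≤ k0}


variable {K κm κc lam1 : ℝ}





end one


end

end Crest.Agent.R96.Eam_466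
end

-- ▼ part R096/Gz2_222
section

set_option autoImplicit false
set_option linter.unusedSectionVars false
set_option linter.unusedVariables false

open MeasureTheory Set Filter Metric
open scoped Topology ENNReal NNReal

namespace Crest.Agent.R096.Gz_222

open Crest.Agent.R096.Msh_715 Crest.Agent.R096.Mal_874 Crest.Agent.R096.Msh_810
  Crest.Agent.R096.Mfi_290
open Crest.Agent.R096.Bsp_628 Crest.Agent.R096.Brk1_582 Crest.Agent.R096.Brk3_582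
open Crest.Agent.R096.Brk5_582
open Crest.Agent.R96.Push_899
open Crest.Agent.R096.SkC1_961 (E3 Cfg)
open Crest.Agent.R096.EaX_766 (lin cbx Kor)
open Crest.Agent.R096.Ea0_961 (Ed InS Blk Tw Ly)
open Crest.Agent.R096.Bxs_627 (ctr ctr_lo ctr_hi)
open Crest.Agent.R096.Pmc_112 (Gd')
open Crest.Agent.R96.Gj_872 (TraW)
open Crest.Agent.R096.Mfa_880 (QU)
open Crest.Agent.R96.Ea0p_348 (Sn Ln)
open Crest.Agent.R96.Eam_466 (Mz)
open Crest.Agent.R96.EaP_899 (KQ KQ_nonneg)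

noncomputable section

variable {δ κ0 R : ℝ} {La : Set E3} {F : Set (Bx (Fin 3))}

section one

variable {u Cc κ2 κt : ℝ} {Bs M Nn : ℕ} {c : F} {A : E3 ≃ᵃ[ℝ] E3} {lam : ℝ} {Q : CB E3 3} {k0 : ℕ}
  {hk : Q.kc ≤ k0} {K κm κc lam1 : ℝ}

/-- **`f` near the block** (all points within `20 / 2 ^ k0` of the block in the frame) -/
theorem halo_brick (bf : BoxFoam La F δ κ0) {Om : Set E3} {f : E3 → E3}
    (hlam : 0 < lam) (hlam1 : lam ≤ lam1) (hl1 : lam1 < 1) (hu : 0 < u) (hκt0 : 0 ≤ κt)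
    (hκt : κt ≤ 1 / 40) (hκ2 : 0 < κ2) (hκc : 0 ≤ κc) (hM : Mz κ0 κ2 Cc lam1 K κm κc Bs M)
    (hB : Blk F u Cc κ2 κt Bs M Nn c A lam Q k0 hk)
    (hcor : ∀ x : E3, (x ∈ Om ∧ f x ∈ cbx c.1 lam) ∨ A x ∈ cbx c.1 ((1 + 2 * κ2) * lam) →
      x ∈ Om ∧ ‖f x - A x‖ ≤ κc * (lam * c.1.sz)) {y x : E3} (hy : y ∈ Q.N)
    (hx : ‖Q.ψ x - Q.ψ y‖ ≤ 20 / 2 ^ k0) :
    x ∈ Om ∧ (∀ k, c.1.lo k < f x k ∧ f x k < c.1.hi k) ∧ ‖f x - A x‖ ≤ κc * (lam * c.1.sz) := by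
  have hM' : (0 : ℝ) < M := by exact_mod_cast hM.pos
  have hs := Bx.sz_pos (bf.pos _ c.2)
  have hside := fun k => Bx.side_pos (bf.pos _ c.2) k
  have h2k : (0 : ℝ) < 2 ^ k0 := by positivity
  obtain ⟨h1, h2⟩ := hB.sub _ hy
  -- the difference
  have hd : ‖A x - A y‖ ≤ 1 / 2 * (1 / M * (lam * c.1.sz)) := by
    have e1 : A x - A y = A.linear (x - y) :=
      (AffineMap.linearMap_vsub (A : E3 →ᵃ[ℝ] E3) x y).symm
    have e2 : ‖A.linear (x - y)‖ = u * ‖Q.ψ x - Q.ψ y‖ := by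
      rw [hB.lin_eq, norm_smul, Real.norm_eq_abs, abs_of_pos hu, map_sub]
    rw [e1, e2]
    calc u * ‖Q.ψ x - Q.ψ y‖ ≤ u * (20 / 2 ^ k0) := mul_le_mul_of_nonneg_left hx hu.le
      _ = 20 * (u / 2 ^ k0) := by ring
      _ ≤ 20 * (κt * (lam * c.1.sz) / M) := by
          have := hB.thin
          linarith
      _ = (20 * κt) * (1 / M * (lam * c.1.sz)) := by ring
      _ ≤ 1 / 2 * (1 / M * (lam * c.1.sz)) := by
          refine mul_le_mul_of_nonneg_right (by linarith) (by positivity)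
  have hdk : ∀ k, |A x k - A y k| ≤ 1 / 2 * (1 / M * (lam * c.1.sz)) := fun k => by
    have := (norm_le_pi_norm (A x - A y) k).trans hd
    rwa [Pi.sub_apply, Real.norm_eq_abs] at this
  have hq : ∀ k, 1 / M * (lam * c.1.sz) ≤ κ2 * (lam * c.1.side k) := by
    intro k
    have h9 := bf.asp _ c.2 k
    rw [one_div, inv_mul_le_iff₀ hM']
    calc lam * c.1.sz ≤ lam * (κ0 * c.1.side k) := by gcongr
      _ = lam * c.1.side k * κ0 := by ring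
      _ ≤ lam * c.1.side k * (κ2 * M) :=
        mul_le_mul_of_nonneg_left hM.m1 (mul_pos hlam (hside k)).le
      _ = M * (κ2 * (lam * c.1.side k)) := by ring
  have h3 : A x ∈ cbx c.1 ((1 + 2 * κ2) * lam) := by
    intro k
    have h4 := h1 k
    have h5 := hdk k
    have h6 := hq k
    have e : A x k - ctr c.1 k = (A y k - ctr c.1 k) + (A x k - A y k) := by ring
    change |A x k - ctr c.1 k| ≤ _
    rw [e]
    refine (abs_add_le _ _).trans ?_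
    change |A y k - ctr c.1 k| ≤ _ at h4
    have h7 : 0 < κ2 * (lam * c.1.side k) := mul_pos hκ2 (mul_pos hlam (hside k))
    nlinarith
  obtain ⟨hxO, h4⟩ := hcor x (Or.inr h3)
  refine ⟨hxO, ?_, h4⟩
  intro k
  have h6 := h2 k
  change |A y k - ctr c.1 k| ≤ _ at h6
  have h8 := (norm_le_pi_norm (f x - A x) k).trans h4
  rw [Pi.sub_apply, Real.norm_eq_abs] at h8
  have h5 := hdk k
  have h9 := bf.asp _ c.2 k
  have h10 : lam * c.1.sz ≤ κ0 * c.1.side k := by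
    calc lam * c.1.sz ≤ 1 * c.1.sz := mul_le_mul_of_nonneg_right (by linarith) hs.le
      _ = c.1.sz := one_mul _
      _ ≤ κ0 * c.1.side k := h9
  have hκp : 0 ≤ κc + 1 / (M : ℝ) := by positivity
  have h11 : (κc + 1 / M) * (lam * c.1.sz) ≤ (1 - lam1) / 8 * c.1.side k := by
    calc (κc + 1 / M) * (lam * c.1.sz) ≤ (κc + 1 / M) * (κ0 * c.1.side k) :=
          mul_le_mul_of_nonneg_left h10 hκp
      _ = ((κc + 1 / M) * κ0) * c.1.side k := by ring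
      _ ≤ _ := mul_le_mul_of_nonneg_right hM.m3 (hside k).le
  have h12 : 0 ≤ 1 / M * (lam * c.1.sz) := by positivity
  have hsum : |f x k - ctr c.1 k| < c.1.side k / 2 := by
    have e : f x k - ctr c.1 k = (A y k - ctr c.1 k) + (A x k - A y k) + (f x k - A x k) := by ring
    rw [e]
    have h13 : |A y k - ctr c.1 k + (A x k - A y k) + (f x k - A x k)| ≤
        (1 + lam) / 2 * c.1.side k / 2 + 1 / 2 * (1 / M * (lam * c.1.sz)) + κc * (lam * c.1.sz) :=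
      (abs_add_le _ _).trans (add_le_add ((abs_add_le _ _).trans (add_le_add h6 h5)) h8)
    refine lt_of_le_of_lt h13 ?_
    have h14 : 1 / 2 * (1 / M * (lam * c.1.sz)) + κc * (lam * c.1.sz) ≤
        (1 - lam1) / 8 * c.1.side k := by
      refine le_trans ?_ h11
      rw [add_mul]
      linarith
    have h15 : 0 < (1 - lam1) * c.1.side k := mul_pos (by linarith) (hside k)
    have h16 : lam * c.1.side k ≤ lam1 * c.1.side k := mul_le_mul_of_nonneg_right hlam1 (hside k).le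
    nlinarith
  have hc1 : ctr c.1 k - c.1.side k / 2 = c.1.lo k := ctr_lo c.1 k
  have hc2 : ctr c.1 k + c.1.side k / 2 = c.1.hi k := ctr_hi c.1 k
  have h17 := abs_lt.1 hsum
  constructor
  · linarith [h17.1]
  · linarith [h17.2]

end one

/-- the open core of the push lies in the open brick -/
theorem core_sub_brk (bf : BoxFoam La F δ κ0) {z : F → E3} (hz : ∀ c, z c ∈ Mid (brk' bf c)) (c : F)
    {y : E3} (hy : y ∈ (coreBF (brk' bf c) (z c)).I) : y ∈ (brk' bf c).I := by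
  have hW : ∀ i, 0 < (brk' bf c).W i := (foam0' bf).W0 c
  intro k
  have h1 := hy k
  rw [coreBF_lo hW, coreBF_hi hW] at h1
  have h2 := (hz c).1 k
  have h3 := (hz c).2 k
  have h4 := hW k
  constructor
  · have := h1.1
    simp only at h2
    linarith
  · have := h1.2
    simp only at h3
    linarith

/-- a point of the open brick of `c ∈ X` is in no core of a brick off `X` -/
theorem pz_of_brick (bf : BoxFoam La F δ κ0) {X : Set F} {z : F → E3}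
    (hz : ∀ c, z c ∈ Mid (brk' bf c)) {c : F} (hc : c ∈ X) {y : E3}
    (hy : ∀ k, c.1.lo k < y k ∧ y k < c.1.hi k) (c' : F) (h : y ∈ (coreBF (brk' bf c') (z c')).I) :
    c' ∈ X := by
  by_contra hcon
  have hne : c' ≠ c := fun h' => hcon (h' ▸ hc)
  have h1 := core_sub_brk bf hz c' h
  refine (foam0' bf).disj c c' (Ne.symm hne) y ?_ h1
  intro k
  exact ⟨(hy k).1.le, (hy k).2.le⟩

/-- **THE GOOD SETS OF ALL BLOCKS AND (B3), final form**: `D'` from 112's `ea_pushL`, smallness from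
466's `Mz` and `κt ≤ 1 / 40`, `κt * Cc < 1` -/
theorem good_sets_L {p : ℝ} (hp : 1 ≤ p) (hp3 : p ≤ 3) {κ0 Cc : ℝ} (c0 : ℝ) (hκ0 : 1 ≤ κ0)
    (hCc : 1 ≤ Cc) {Bs : ℕ} (hB1 : 1 ≤ Bs) : ∃ C1 : ℝ≥0, ∀ Nn : ℕ, ∃ CA : ℝ≥0,
    ∀ {δ : ℝ} {La Om : Set E3} {f : E3 → E3} {D : E3 → E3 →L[ℝ] E3} {F : Set (Bx (Fin 3))}
      (bf : BoxFoam La F δ κ0) (X : Set F) {u κ1 κ2 κw κt lam1 K κm : ℝ} {Mg : ℕ}
      (A : F → E3 ≃ᵃ[ℝ] E3) (lam : F → ℝ) (Q : F → CB E3 3) (k0 : F → ℕ)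
      (hk : ∀ c, (Q c).kc ≤ k0 c) (er : F → ℝ≥0∞), 0 < u → 0 ≤ κt → κt ≤ 1 / 40 → κt * Cc < 1 →
      0 < κ2 → 0 ≤ κ1 → lam1 < 1 → (∀ c ∈ X, 0 < lam c ∧ lam c ≤ lam1) →
      Mz κ0 κ2 Cc lam1 K κm κ1 Bs Mg →
      (∀ c ∈ X, Blk F u Cc κ2 κt Bs Mg Nn c (A c) (lam c) (Q c) (k0 c) (hk c)) →
      (∀ c ∈ X, InS p Om f D Cc κ1 κ2 κw Mg c.1 (A c) (lam c) (er c) (Q c) (k0 c) (hk c)) →
    ∀ z : F → E3, (∀ c, z c ∈ Mid (brk' bf c)) →
    ∀ D' : E3 → E3 →L[ℝ] E3, (∀ w, Measurable fun y => D' y w) →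
      (∀ᵐ x, (∀ c, f x ∈ (coreBF (brk' bf c) (z c)).I → c ∈ X) →
        ∀ v, ‖D' x v‖ ≤ KQ κ0 c0 * ‖D x v‖) →
    ∀ P : X → E3 → Prop, (∀ c : X, ∀ᵐ v : E3, v ∈ Tw (Q c) (k0 c) → P c v) →
    ∀ (M : MD E3 3 X) (Xr : RD M), (∀ c : X, M.Q c = Q c) →
    ∀ hk' : ∀ c : X, (M.Q c).kc ≤ k0 c,
    ∃ Gd : X → Set E3, ∀ c : X, MeasurableSet (Gd c) ∧ Gd c ⊆ Tw (Q c) (k0 c) ∧ volume (Gd c) ≠ 0 ∧
      ∀ v ∈ Gd c, P c v ∧ TraW p D Cc κw (A c) (er c) (Q c) (k0 c) (hk c) v ∧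
        (∀ (𝒦 : Set (Set E3)) (U : Set E3) (h𝒦 : 𝒦.Countable) (hU : U.Countable),
          ∑' cl, ((QI M Xr c (k0 c) (hk' c)).toPT 𝒦 U h𝒦 hU).EnC (Gd' D') p cl v ≤
            C1 * (Sn p F A lam Q c + er c) + CA * Ln p D F Q k0 c) ∧
        ∑' cl, (QU M Xr (fun c : X => k0 c) hk' c).EnC (Gd' D') p cl v ≤
            C1 * (Sn p F A lam Q c + er c) + CA * Ln p D F Q k0 c := by
  obtain ⟨C1, H⟩ := good_sets hp hp3 hCc hB1 (KQ := KQ κ0 c0) (KQ_nonneg hκ0)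
  refine ⟨C1, fun Nn => ?_⟩
  obtain ⟨CA, H⟩ := H Nn
  refine ⟨CA, ?_⟩
  intro δ La Om f D F bf X u κ1 κ2 κw κt lam1 K κm Mg A lam Q k0 hk er hu hκt0 hκt hcc hκ2 hκ1 hl1
    hlam hM hB hI z hz D' hDm hD P hP M Xr hQ hk'
  have hb : ∀ c ∈ X, ∀ y ∈ (Q c).N, ∀ x : E3, ‖(Q c).ψ x - (Q c).ψ y‖ ≤ 20 / 2 ^ k0 c →
      ∀ c', f x ∈ (coreBF (brk' bf c') (z c')).I → c' ∈ X := by
    intro c hc y hy x hx c' h
    have h1 := halo_brick bf (hlam c hc).1 (hlam c hc).2 hl1 hu hκt0 hκt hκ2 hκ1 hM (hB c hc)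
      (hI c hc).cor hy hx
    exact pz_of_brick bf hz hc h1.2.1 c' h
  refine H X A lam Q k0 hk er hu hκt0 hcc hB hI D'
    (fun x => ∀ c, f x ∈ (coreBF (brk' bf c) (z c)).I → c ∈ X) hDm hD ?_ ?_ P hP M Xr hQ hk'
  · intro c hc y hy s hs
    refine hb c hc y hy (y + s) ?_
    have h2 : (0 : ℝ) < 2 ^ k0 c := by positivity
    rw [map_add, add_sub_cancel_left, pi_norm_le_iff_of_nonneg (by positivity)]
    intro l
    rw [Real.norm_eq_abs, abs_of_nonneg (hs l).1]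
    refine (hs l).2.trans ?_
    rw [div_le_div_iff₀ (by positivity) h2]
    nlinarith
  · intro c hc x hx
    obtain ⟨y, hy, hxy⟩ := hx
    exact hb c hc y ((Q c).isCompact_N.isClosed.frontier_subset hy) x hxy

end

end Crest.Agent.R096.Gz_222
end

-- ▼ part R096/Gz3_222
section

set_option autoImplicit false
set_option linter.unusedSectionVars false
set_option linter.unusedVariables false

open MeasureTheory Set Filter Metric
open scoped Topology ENNReal NNReal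

namespace Crest.Agent.R096.Gz_222

open Crest.Agent.R096.Msh_715 Crest.Agent.R096.Mal_874 Crest.Agent.R096.Msh_810
  Crest.Agent.R096.Mfi_290
open Crest.Agent.R096.Bsp_628 Crest.Agent.R096.Brk1_582 Crest.Agent.R096.Brk3_582
open Crest.Agent.R096.Brk5_582
open Crest.Agent.R96.Push_899
open Crest.Agent.R096.SkC1_961 (E3 Cfg)
open Crest.Agent.R096.EaX_766 (lin cbx Kor)
open Crest.Agent.R096.Ea0_961 (Ed InS Blk Tw Ly)
open Crest.Agent.R096.Bxs_627 (ctr ctr_lo ctr_hi)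
open Crest.Agent.R096.Pmc_112 (Gd' Kl)
open Crest.Agent.R096.PmcL_112 (KL KL_lt_top)
open Crest.Agent.R96.Gj_872 (TraW)
open Crest.Agent.R096.Mfa_880 (QU NmB isOpen_NmB)
open Crest.Agent.R96.Ea0p_348 (Sn Ln Jn)
open Crest.Agent.R96.Eam_466 (Mz)
open Crest.Agent.R96.EaP_899 (KQ KQ_nonneg)
open Crest.Agent.R096.Eaz_663 (KC)
open Crest.Agent.R096.Pgn_112 (COu COu_ne_top)

noncomputable section

/-! ### smallness -/

/-- 466's `Mz` from 663's `KC` -/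
theorem mz_of_kc {δ κ0 R c0 κ2 lam1 κm κ Cc : ℝ} {Bs M : ℕ} (h : KC δ κ0 R c0 κ2 lam1 κm κ)
    (hκ0 : 0 ≤ κ0) (hCc : 1 ≤ Cc) (hBs : 1 ≤ Bs) (hM : 0 < M) (hM0 : Bs * Cc ≤ κ * M)
    (hm1 : κ0 ≤ κ2 * M) : Mz κ0 κ2 Cc lam1 0 (2 * κ) κ Bs M := by
  have hM' : (0 : ℝ) < M := by exact_mod_cast hM
  have hB' : (1 : ℝ) ≤ Bs := by exact_mod_cast hBs
  have h1 : 1 / (M : ℝ) ≤ κ := by
    rw [div_le_iff₀ hM']
    nlinarith
  have h2 : 0 ≤ 1 / (M : ℝ) := by positivity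
  have h3 : (κ + 1 / M) * κ0 ≤ 2 * (κ * κ0) := by nlinarith
  refine ⟨hM, hm1, ?_, ?_, ?_, ?_⟩
  · linarith [h.k8]
  · linarith [h.lam]
  · rw [zero_mul]
    linarith [h.pos]
  · linarith

/-! ### the good sets, weighted energies -/

/-- **THE GOOD SETS OF ALL BLOCKS AND `GenIn.en`** (weights `(ofReal Cs * Kl δ Rc) ^ p`) -/
theorem good_sets_W {p : ℝ} (hp : 1 ≤ p) (hp3 : p ≤ 3) {κ0 Cc : ℝ} (c0 δ Rc Cs : ℝ) (hκ0 : 1 ≤ κ0)
    (hCc : 1 ≤ Cc) {Bs : ℕ} (hB1 : 1 ≤ Bs) : ∃ C1 : ℝ≥0, ∀ Nn : ℕ, ∃ CA : ℝ≥0,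
    ∀ {La Om : Set E3} {f : E3 → E3} {D : E3 → E3 →L[ℝ] E3} {F : Set (Bx (Fin 3))}
      (bf : BoxFoam La F δ κ0) (X : Set F) {u κ1 κ2 κw κt lam1 K κm : ℝ} {Mg : ℕ}
      (A : F → E3 ≃ᵃ[ℝ] E3) (lam : F → ℝ) (Q : F → CB E3 3) (k0 : F → ℕ)
      (hk : ∀ c, (Q c).kc ≤ k0 c) (er : F → ℝ≥0∞), 0 < u → 0 ≤ κt → κt ≤ 1 / 40 → κt * Cc < 1 →
      0 < κ2 → 0 ≤ κ1 → lam1 < 1 → (∀ c ∈ X, 0 < lam c ∧ lam c ≤ lam1) →
      Mz κ0 κ2 Cc lam1 K κm κ1 Bs Mg →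
      (∀ c ∈ X, Blk F u Cc κ2 κt Bs Mg Nn c (A c) (lam c) (Q c) (k0 c) (hk c)) →
      (∀ c ∈ X, InS p Om f D Cc κ1 κ2 κw Mg c.1 (A c) (lam c) (er c) (Q c) (k0 c) (hk c)) →
    ∀ z : F → E3, (∀ c, z c ∈ Mid (brk' bf c)) →
    ∀ D' : E3 → E3 →L[ℝ] E3, (∀ w, Measurable fun y => D' y w) →
      (∀ᵐ x, (∀ c, f x ∈ (coreBF (brk' bf c) (z c)).I → c ∈ X) →
        ∀ v, ‖D' x v‖ ≤ KQ κ0 c0 * ‖D x v‖) →
    ∀ P : X → E3 → Prop, (∀ c : X, ∀ᵐ v : E3, v ∈ Tw (Q c) (k0 c) → P c v) →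
    ∀ (M : MD E3 3 X) (Xr : RD M), (∀ c : X, M.Q c = Q c) →
    ∀ hk' : ∀ c : X, (M.Q c).kc ≤ k0 c,
    ∃ Gd : X → Set E3, ∀ c : X, MeasurableSet (Gd c) ∧ Gd c ⊆ Tw (Q c) (k0 c) ∧ volume (Gd c) ≠ 0 ∧
      ∀ v ∈ Gd c, P c v ∧ TraW p D Cc κw (A c) (er c) (Q c) (k0 c) (hk c) v ∧
        ∑' cl, (ENNReal.ofReal Cs * Kl δ Rc) ^ p *
            (QU M Xr (fun c : X => k0 c) hk' c).EnC (Gd' D') p cl v ≤
          C1 * (Sn p F A lam Q c + er c) + CA * Ln p D F Q k0 c := by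
  obtain ⟨C1, H⟩ := good_sets_L hp hp3 c0 hκ0 hCc hB1
  have hw : (ENNReal.ofReal Cs * Kl δ Rc) ^ p ≠ ∞ := by
    refine ENNReal.rpow_ne_top_of_nonneg (by linarith) (ENNReal.mul_ne_top ENNReal.ofReal_ne_top ?_)
    unfold Kl
    exact ENNReal.ofReal_ne_top
  set W := (ENNReal.ofReal Cs * Kl δ Rc) ^ p with hW
  refine ⟨W.toNNReal * C1, fun Nn => ?_⟩
  obtain ⟨CA, H⟩ := H Nn
  refine ⟨W.toNNReal * CA, ?_⟩
  intro La Om f D F bf X u κ1 κ2 κw κt lam1 K κm Mg A lam Q k0 hk er hu hκt0 hκt hcc hκ2 hκ1 hl1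
    hlam hM hB hI z hz D' hDm hD P hP M Xr hQ hk'
  obtain ⟨Gd, hG⟩ := H bf X A lam Q k0 hk er hu hκt0 hκt hcc hκ2 hκ1 hl1 hlam hM hB hI z hz D' hDm hD
    P hP M Xr hQ hk'
  refine ⟨Gd, fun c => ⟨(hG c).1, (hG c).2.1, (hG c).2.2.1, fun v hv => ?_⟩⟩
  obtain ⟨h1, h2, -, h4⟩ := (hG c).2.2.2 v hv
  refine ⟨h1, h2, ?_⟩
  rw [ENNReal.tsum_mul_left, ENNReal.coe_mul, ENNReal.coe_mul, ENNReal.coe_toNNReal hw, mul_assoc,
    mul_assoc, ← mul_add]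
  exact mul_le_mul' le_rfl h4

/-! ### the outer energy -/

theorem zero_mem_Tw (Q : CB E3 3) (k0 : ℕ) : (0 : E3) ∈ Tw Q k0 := by
  intro l
  rw [map_zero]
  exact ⟨le_rfl, by simp only [Pi.zero_apply]; positivity⟩

/-- the energy of `D` off the rooms -/
theorem int_out {F : Set (Bx (Fin 3))} (hF : F.Countable) {X : Set F} (M : MD E3 3 X)
    (Q : F → CB E3 3) (k0 : F → ℕ) (hQ : ∀ j : X, M.Q j = Q j) {p : ℝ} (Om : Set E3)
    (D : E3 → E3 →L[ℝ] E3) :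
    ∫⁻ x in Om \ NmB M (fun j : X => Tw (Q j) (k0 j)), ‖D x‖ₑ ^ p ≤
      Jn p Om D F X Q + ∑' c : X, Ln p D F Q k0 c := by
  have : Countable F := hF.to_subtype
  have e1 : NmB M (fun j : X => Tw (Q j) (k0 j)) =
      ⋃ j : X, interior {x | ∀ s ∈ Tw (Q j) (k0 j), x - s ∈ (Q j).N} := by
    unfold NmB
    refine iUnion_congr fun j => ?_
    rw [hQ j]
  have hsub := Zb_874.om_sub Om (fun j : X => Q j) (fun j : X => k0 j)
    (B := fun j : X => Tw (Q j) (k0 j)) (fun j s hs => Zb_874.tw_norm' hs (by norm_num))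
  rw [e1]
  have e2 : (⋃ j : X, (Q j).N) = ⋃ c ∈ X, (Q c).N := (biUnion_eq_iUnion X fun c _ => (Q c).N).symm
  rw [e2] at hsub
  calc ∫⁻ x in Om \ ⋃ j : X, interior {x | ∀ s ∈ Tw (Q j) (k0 j), x - s ∈ (Q j).N}, ‖D x‖ₑ ^ p
      ≤ ∫⁻ x in (Om \ ⋃ c ∈ X, (Q c).N) ∪ ⋃ j : X, Ly (Q j) (k0 j), ‖D x‖ₑ ^ p :=
        lintegral_mono_set hsub
    _ ≤ (∫⁻ x in Om \ ⋃ c ∈ X, (Q c).N, ‖D x‖ₑ ^ p) +
        ∫⁻ x in ⋃ j : X, Ly (Q j) (k0 j), ‖D x‖ₑ ^ p := lintegral_union_le _ _ _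
    _ ≤ (∫⁻ x in Om \ ⋃ c ∈ X, (Q c).N, (1 + ‖D x‖ₑ ^ p)) +
        ∑' j : X, ∫⁻ x in Ly (Q j) (k0 j), (1 + ‖D x‖ₑ ^ p) := by
        refine add_le_add (lintegral_mono fun x => le_add_self) ?_
        refine (lintegral_iUnion_le _ _).trans (ENNReal.tsum_le_tsum fun j => ?_)
        exact lintegral_mono fun x => le_add_self

/-- **OUTER ENERGY OF `D'`** (last clause of `ea_pushL`), `hroom` from `halo_brick` -/
theorem outer0' {δ κ0 : ℝ} {La Om : Set E3} {F : Set (Bx (Fin 3))} (bf : BoxFoam La F δ κ0)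
    (hO : IsOpen Om) (hF : F.Countable) {X : Set F} (M : MD E3 3 X) (Q : F → CB E3 3) (k0 : F → ℕ)
    (hQ : ∀ j : X, M.Q j = Q j) {p : ℝ} {f : E3 → E3} {D D' : E3 → E3 →L[ℝ] E3} {KS : ℝ≥0∞}
    (hS : ∀ S ⊆ Om, MeasurableSet S →
      (∀ c, c ∉ X → (∀ x ∈ Om, f x ∈ (brk' bf c).I → x ∈ S) ∨
        (∀ x ∈ Om, f x ∈ (brk' bf c).I → x ∉ S)) →
      (∫⁻ x in S, ‖D' x‖ₑ ^ p) ≤ KS * (∫⁻ x in S, ‖D x‖ₑ ^ p))
    (hroom : ∀ c ∈ X, ∀ x ∈ (Q c).N, ∀ k, c.1.lo k < f x k ∧ f x k < c.1.hi k) :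
    ∫⁻ x in Om \ NmB M (fun j : X => Tw (Q j) (k0 j)), ‖D' x‖ₑ ^ p ≤
      KS * (Jn p Om D F X Q + ∑' c : X, Ln p D F Q k0 c) := by
  refine (hS _ sdiff_subset (hO.measurableSet.diff (isOpen_NmB M _).measurableSet)
    fun c hc => ?_).trans (mul_le_mul' le_rfl (int_out hF M Q k0 hQ Om D))
  left
  intro x hx hfx
  refine ⟨hx, fun hn => ?_⟩
  obtain ⟨j, hj⟩ := mem_iUnion.1 hn
  have h0 : x ∈ (Q j).N := by
    have h1 := interior_subset hj 0 (zero_mem_Tw _ _)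
    rwa [sub_zero, hQ j] at h1
  have h1 := hroom j j.2 x h0
  have hne : (c : F) ≠ j.1 := fun h => hc (by rw [h]; exact j.2)
  refine (foam0' bf).disj c j.1 hne (f x) ?_ fun k => h1 k
  intro k
  exact ⟨(hfx k).1.le, (hfx k).2.le⟩

/-- **the outer term of `GenOut`, in the letters of `Pre0`** -/
theorem outer0 {p : ℝ} (hp : 1 ≤ p) (κ0 c0 δ Rc Cs : ℝ) : ∃ C2 : ℝ≥0,
    ∀ {La Om : Set E3} {F : Set (Bx (Fin 3))} (bf : BoxFoam La F δ κ0), IsOpen Om → F.Countable →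
    ∀ {X : Set F} (M : MD E3 3 X) (Q : F → CB E3 3) (k0 : F → ℕ), (∀ j : X, M.Q j = Q j) →
    ∀ {f : E3 → E3} {D D' : E3 → E3 →L[ℝ] E3},
      (∀ S ⊆ Om, MeasurableSet S →
        (∀ c, c ∉ X → (∀ x ∈ Om, f x ∈ (brk' bf c).I → x ∈ S) ∨
          (∀ x ∈ Om, f x ∈ (brk' bf c).I → x ∉ S)) →
        (∫⁻ x in S, ‖D' x‖ₑ ^ p) ≤ KL κ0 c0 p * (∫⁻ x in S, ‖D x‖ₑ ^ p)) →
      (∀ c ∈ X, ∀ x ∈ (Q c).N, ∀ k, c.1.lo k < f x k ∧ f x k < c.1.hi k) →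
    (ENNReal.ofReal Cs * Kl δ Rc) ^ p * (COu p *
        ∫⁻ x in Om \ NmB M (fun j : X => Tw (Q j) (k0 j)), ‖D' x‖ₑ ^ p) ≤
      C2 * (Jn p Om D F X Q + ∑' c : X, Ln p D F Q k0 c) := by
  have hw : (ENNReal.ofReal Cs * Kl δ Rc) ^ p ≠ ∞ := by
    refine ENNReal.rpow_ne_top_of_nonneg (by linarith) (ENNReal.mul_ne_top ENNReal.ofReal_ne_top ?_)
    unfold Kl
    exact ENNReal.ofReal_ne_top
  have hc : (ENNReal.ofReal Cs * Kl δ Rc) ^ p * (COu p * KL κ0 c0 p) ≠ ∞ :=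
    ENNReal.mul_ne_top hw (ENNReal.mul_ne_top (COu_ne_top (by linarith)) (KL_lt_top hp).ne)
  refine ⟨((ENNReal.ofReal Cs * Kl δ Rc) ^ p * (COu p * KL κ0 c0 p)).toNNReal, ?_⟩
  intro La Om F bf hO hF X M Q k0 hQ f D D' hS hroom
  rw [ENNReal.coe_toNNReal hc]
  calc (ENNReal.ofReal Cs * Kl δ Rc) ^ p * (COu p *
        ∫⁻ x in Om \ NmB M (fun j : X => Tw (Q j) (k0 j)), ‖D' x‖ₑ ^ p)
      ≤ (ENNReal.ofReal Cs * Kl δ Rc) ^ p * (COu p *
        (KL κ0 c0 p * (Jn p Om D F X Q + ∑' c : X, Ln p D F Q k0 c))) := by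
        gcongr
        exact outer0' bf hO hF M Q k0 hQ hS hroom
    _ = _ := by ring

end

end Crest.Agent.R096.Gz_222
end

-- ▼ part R096/Eaz2_663
section

/-!
# Row 96 (S0127), EA0 (helper663), part 2: the INPUT of 112's `pre_gen` for `Pre0 p`

`genIn0` : all constants of `Pre0` and the instance of `GenIn` (mesh data `Eaz1`, zones `Pth3_561`, good sets
`Gz3_222`, words `Wd19_120`).
-/

set_option autoImplicit false
set_option linter.style.longLine false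
set_option linter.unusedSectionVars false

open MeasureTheory Set Filter Topology Metric
open scoped ENNReal NNReal

namespace Crest.Agent.R096.Eaz_663

open Crest.Agent.R096.Bsp_628 Crest.Agent.R096.Brk5_582 Crest.Agent.R096.Brk1_582
open Crest.Agent.R096.Brk2_582 Crest.Agent.R096.Brk3_582
open Crest.Agent.R096.SkC1_961 (E3 FoamD Hom3)
open Crest.Agent.R096.EaX_766 (cbx lin Kor)
open Crest.Agent.R096.Bxs_627 (ctr CoriE fD zz)
open Crest.Agent.R096.Mal_874 Crest.Agent.R096.Msh_810 Crest.Agent.R096.Msh_715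
open Crest.Agent.R096.Fns_360
open Crest.Agent.R096.Ea0_961
open Crest.Agent.R096.Mdd_360
open Crest.Agent.R096.Zlt_798
open Crest.Agent.R096.Er_594 (SH3)
open Crest.Agent.R096.Der_764 (OmH)
open Crest.Agent.R096.Ls_222 (Edg ea ev eIn)
open Crest.Agent.R096.Mfi_290 (qSh Pt)
open Crest.Agent.R096.Mfa_880 (NmB BxM QU)
open Crest.Agent.R096.Pmc_112 (Gd' Kl)
open Crest.Agent.R096.Pgn_112
open Crest.Agent.R96.Push_899
open Crest.Agent.R96.EaP_899 (fX XD cm KQ)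
open Crest.Agent.R96.Eam_466 (OX FineX InB TLAt)
open Crest.Agent.R96.Sob4_199 (VWD)
open Crest.Agent.R96.En10_199 (P3)
open Crest.Agent.R96.Acl_392 (ACLat)
open Crest.Agent.R96.EaCore_348 (exact_mono EE)
open Crest.Agent.R96.Ea0p_348 (Jn Sn Ln PreMesh0 Pre0)

noncomputable section

/-- **the input of `pre_gen` for `EA0 p`, with all constants of `Pre0`** -/
theorem genIn0 {p : ℝ} (hp : 1 ≤ p) (hp3 : p < 3) (δ κ0 R c0 κ2 Cc : ℝ) (Bs : ℕ) (hδ : 0 < δ)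
    (hκ0 : 1 ≤ κ0) (hR : 1 ≤ R) (hc0 : 0 < c0) (hcκ : c0 * κ0 ≤ 1) (hκ2 : 0 < κ2) (hκ24 : κ2 ≤ 1 / 4)
    (hCc : 1 ≤ Cc) (hBs : 1 ≤ Bs) (C : Set (Set E3) → ℝ) :
    ∃ (CK : ℝ) (C1g C2 : ℝ≥0), (∀ 𝒦 ∈ simL (N0 3) 1 2, C 𝒦 ≤ CK) ∧
    ∀ κp κm τ lam1 : ℝ, 0 < κp → 0 < κm → 0 < τ → lam1 < 1 →
    ∃ κ1 : ℝ, 0 < κ1 ∧ ∃ M0 : ℕ, ∀ M : ℕ, M0 ≤ M →
    ∃ κw : ℝ, 0 < κw ∧ ∀ Nn : ℕ, ∃ (CAg : ℝ≥0) (κt : ℝ), 0 < κt ∧ κt ≤ τ ∧
    ∀ (Om La : Set E3) (f : E3 → E3) (D : E3 → E3 →L[ℝ] E3), IsOpen Om → IsOpen La →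
      SH3 p Om La f D →
    ∀ (u : ℝ), 0 < u →
    ∀ (F : Set (Bx (Fin 3))) (bf : BoxFoam La F δ κ0) (cmp : Cmp F R),
    ∀ (X : Set F) (A : F → E3 ≃ᵃ[ℝ] E3) (lam : F → ℝ) (Q : F → CB E3 3) (k0 : F → ℕ)
      (hk : ∀ c, (Q c).kc ≤ k0 c) (er : F → ℝ≥0∞),
      (∀ c ∈ X, c0 ≤ lam c ∧ lam c ≤ lam1) →
      (∀ c ∈ X, Blk F u Cc κ2 κt Bs M Nn c (A c) (lam c) (Q c) (k0 c) (hk c)) →
      (∀ c ∈ X, InS p Om f D Cc κ1 κ2 κw M c.1 (A c) (lam c) (er c) (Q c) (k0 c) (hk c)) →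
    ∃ (zc : F → E3) (H : XD bf c0 X lam zc) (D' : E3 → E3 →L[ℝ] E3) (M' : MD E3 3 X) (Y : RD M')
      (k0' : X → ℕ) (hk0' : ∀ j, (M'.Q j).kc ≤ k0' j) (κr : X → ℕ) (Gd : X → Set E3)
      (Zd : ZD F X),
      (∀ v, Measurable fun y => D' y v) ∧
      (∀ l, VWD (OmH (fX bf cmp H) f Om) volume (fun x => P3 ((fX bf cmp H).Psi (f x)))
        (fun x => P3 (D' x (Pi.single l 1))) (Pi.single l (1:ℝ))) ∧
      (∫⁻ x in Om, ‖D' x‖ₑ ^ p ≠ ∞) ∧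
      (∀ j c, ∀ 𝒦 ∈ qSh M' Y j (k0' j) (hk0' j) c, C 𝒦 ≤ CK) ∧
      M'.φ ⁻¹' M'.D0.Om = Om ∧
      (∀ j : X, M'.Q j = Q j) ∧ (∀ j : X, k0' j = k0 j) ∧
      GenIn (fX bf cmp H) f D' p κp κm (κ2 / 2) X A lam (fun c => zz c.1 (lam c)) (fun _ => M) M' Y
        k0' hk0' κr (fun j : X => Tw (Q j) (k0 j)) Gd
        (fun _ _ => (ENNReal.ofReal CK * Kl δ R) ^ p)
        (fun c : X => C1g * (Sn p F A lam Q c + er c) + CAg * Ln p D F Q k0 c) Zd ∧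
      (∀ j : X, Gd j ⊆ Tw (Q j) (k0 j)) ∧
      (∀ c, 0 < Zd.R c) ∧
      (∀ c : {c // c ∉ X}, ∀ y ∈ closedBall (Zd.x c) (2 * Zd.R c),
        ∀ j, c.1.1.lo j < f y j ∧ f y j < c.1.1.hi j) ∧
      (ENNReal.ofReal CK * Kl δ R) ^ p * (COu p *
        ∫⁻ x in Om \ NmB M' (fun j : X => Tw (Q j) (k0 j)), ‖D' x‖ₑ ^ p) ≤
          C2 * (Jn p Om D F X Q + ∑' c : X, Ln p D F Q k0 c) := by
  classical
  obtain ⟨CK, hCK1, hCK⟩ := Ucm1_374.exists_bound C Bs (Bs : ℝ)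
  obtain ⟨C1g, HGz⟩ := Gz_222.good_sets_W hp hp3.le c0 δ R CK hκ0 hCc hBs
  obtain ⟨C2, HO⟩ := Gz_222.outer0 hp κ0 c0 δ R CK
  refine ⟨CK, C1g, C2, fun 𝒦 h => hCK 𝒦 (Or.inl h), ?_⟩
  intro κp κm τ lam1 hκp hκm hτ hlam1
  obtain ⟨κ, hKC⟩ := exists_KC δ R c0 (κ0 := κ0) (by linarith) hκ2 hlam1 hκm
  have hκ := hKC.pos
  refine ⟨κ, hκ, ⌈max (Bs * Cc / κ) (κ0 / κ2)⌉₊ + 1, ?_⟩
  intro M hM0
  have hM : 0 < M := by omega
  have hMr : (0 : ℝ) < M := by exact_mod_cast hM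
  have hMx : max (Bs * Cc / κ) (κ0 / κ2) ≤ M := by
    refine (Nat.le_ceil _).trans ?_
    exact_mod_cast (Nat.le_succ _).trans hM0
  have hMB : (Bs : ℝ) * Cc ≤ κ * M := by
    have h1 := (le_max_left _ _).trans hMx
    rw [div_le_iff₀ hκ] at h1
    linarith
  have hMm : κ0 ≤ κ2 * M := by
    have h1 := (le_max_right _ _).trans hMx
    rw [div_le_iff₀ hκ2] at h1
    linarith
  obtain ⟨κw, hκw, HW⟩ := Wd_120.b2_in hδ hκ0 hR hκp hc0 hlam1 hM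
  refine ⟨κw, hκw, ?_⟩
  intro Nn
  obtain ⟨CAg, HG⟩ := HGz Nn
  obtain ⟨K, hK1, hK⟩ := exists_K_net (ContinuousLinearEquiv.refl ℝ E3) Nn
  set τ' := κ / κ0 with hτ'
  have hκ0' : 0 < κ0 := by linarith
  have hτ'0 : 0 < τ' := by positivity
  have hK0 : 0 < K := by linarith
  have hCc0 : 0 < Cc := by linarith
  set κt := min (min τ κw) (min (5 * τ' / K ^ 2) (min (1 / 40) (1 / (2 * Cc)))) with hκt
  have hκt0 : 0 < κt := by
    refine lt_min (lt_min hτ hκw) (lt_min (by positivity) (lt_min (by norm_num) (by positivity)))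
  have t1 : κt ≤ τ := (min_le_left _ _).trans (min_le_left _ _)
  have t2 : κt ≤ κw := (min_le_left _ _).trans (min_le_right _ _)
  have t3 : κt ≤ 5 * τ' / K ^ 2 := (min_le_right _ _).trans (min_le_left _ _)
  have t4 : κt ≤ 1 / 40 := (min_le_right _ _).trans ((min_le_right _ _).trans (min_le_left _ _))
  have t5 : κt ≤ 1 / (2 * Cc) :=
    (min_le_right _ _).trans ((min_le_right _ _).trans (min_le_right _ _))
  have t6 : K ^ 2 * κt ≤ 5 * τ' := by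
    rw [le_div_iff₀ (by positivity)] at t3
    linarith
  have t7 : κt * Cc < 1 := by
    rw [le_div_iff₀ (by positivity)] at t5
    linarith
  refine ⟨CAg, κt, hκt0, t1, ?_⟩
  intro Om La f D hOm hLa hSH u hu F bf cmp X A lam Q k0 hk er hlam hB hI
  have hl : ∀ c ∈ X, c0 ≤ lam c := fun c hc => (hlam c hc).1
  have hl1 : ∀ c ∈ X, lam c < 1 := fun c hc => (hlam c hc).2.trans_lt hlam1
  obtain ⟨zc, H, hz, -, D', hDm, -, hDv, hDle, -, hDS⟩ := PmcL_112.ea_pushL hp hκ0 hc0 hcκ hOm hLa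
    hSH.homeo hSH.vwd bf cmp X (Or.inl hp3) lam hl hl1 (N := ∅) measure_empty
  obtain ⟨x₀, hx₀⟩ := Pth_561.exists_x0 hSH.homeo H
  obtain ⟨R₀, a1, -, a3, a4, a5, a6, a7⟩ := Pth_561.exists_R0 hp hOm hLa hSH bf cmp H hx₀ hκm
    (η := fun _ => 1) (fun _ => one_pos)
  obtain ⟨fi, hf1, hf2, hf3, hf4, hf5, hf6⟩ := id hSH.homeo
  have hKQ : ∀ c ∈ X, ∀ y, ‖(Q c).ψ y‖ ≤ K * ‖y‖ ∧ ‖y‖ ≤ K * ‖(Q c).ψ y‖ := by
    intro c hc
    obtain ⟨d, B, n1, n2, n3, n4, -⟩ := (hB c hc).net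
    exact hK _ d B n1 n2 n3 n4
  obtain ⟨M₁, Y, κd, b1, b2, b3, b4, b5, b6, b7, b8, b9, b10, b11, Zb, b13⟩ := ea0_data hOm hLa
    hSH.homeo hδ hκ0 (by linarith) bf cmp hκ24 hKC hlam1 hτ'0 (by rw [hτ', div_mul_cancel₀ _ hκ0'.ne'])
    hBs hMB hM hu hK1 t6 hKQ hlam hB hI H hf3 hf6 (x := x₀) (Rz := R₀)
    (fun c => ⟨(hx₀ c).1, (hx₀ c).2, a1 c⟩) a3 a4 a5 a6
  obtain ⟨Zd, e1, e2, -, e4, e5, e6, e7, e8, e9⟩ := Pth_561.exists_zd (Φ := fX bf cmp H) (X := X) Zb b2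
    (a7 R₀ fun c => ⟨a1 c, le_rfl⟩).2 (fun _ => 0)
  have hkM : ∀ j : X, (M₁.Q j).kc ≤ k0 j := fun j => by rw [b5]; exact hk j
  obtain ⟨Gd, hG⟩ := HG bf X A lam Q k0 hk er hu hκt0.le t4 t7 hκ2 hκ.le hlam1
    (fun c hc => ⟨hc0.trans_le (hl c hc), (hlam c hc).2⟩)
    (Gz_222.mz_of_kc hKC hκ0'.le hCc hBs hM hMB hMm) hB hI zc hz D' hDm hDle
    (fun c v => ∀ e ∈ eIn ((Q c).T (k0 c) (hk c)) ((Q c).cix (k0 c) (hk c)), ∀ k,
      ACLat Om (fun y => f y k) (fun y => D y (ev e) k) (ev e) (ea e + v))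
    (fun c => (Wd_120.ae_acl_core hOm hSH (Q c) (k0 c) (hk c)).mono fun v hv _ => hv)
    (zn Zb.zn Zd.k) (znRD Zb.zn Zd.k Y) (fun c => by
      show M₁.Q c = Q c
      rw [b5]) hkM
  have hQ : ∀ j : X, (zn Zb.zn Zd.k).Q j = Q j := fun j => by
    show M₁.Q j = Q j
    rw [b5]
  have hbr : ∀ c ∈ X, ∀ x ∈ (Q c).N, x ∈ Om ∧ (∀ k, c.1.lo k < f x k ∧ f x k < c.1.hi k) := by
    intro c hc x hx
    obtain ⟨h1, h2, -⟩ := b11 ⟨c, hc⟩ x (self_subset_cthickening _ hx)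
    exact ⟨h1, h2⟩
  refine ⟨zc, H, D', zn Zb.zn Zd.k, znRD Zb.zn Zd.k Y, fun j => k0 j, hkM, κd, Gd, Zd, hDm, hDv, ?_, ?_,
    e4, hQ, fun _ => rfl, ?_, fun j => (hG j).2.1, ?_, ?_, ?_⟩
  · exact ne_top_of_le_ne_top (ENNReal.mul_ne_top (PmcL_112.KL_lt_top hp).ne hSH.energy)
      (hDS Om subset_rfl hOm.measurableSet fun c _ => Or.inl fun x hx _ => hx)
  · intro j c 𝒦 h
    exact hCK 𝒦 (Ucm1_374.qSh_LB (znRD Zb.zn Zd.k Y) j (k0 j) (hkM j) (b6 j).le (b7 j).le c h)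
  · refine ⟨b1, fun j s hs => ?_, fun j => (hG j).2.1, fun j => (hG j).1, fun j => (hG j).2.2.1, b8,
      ?_, ?_, ?_, fun j s hs => ((hG j).2.2.2 s hs).2.2, e5, e6, e7, e8, e9⟩
    · show ‖M₁.φ s‖ ≤ M₁.r j
      rw [b1]
      exact b9 j s hs
    · intro k hkS a v hv hvG c
      set ct0 : F → (zn Zb.zn Zd.k).OIx hkS a hv ⊕ Σ j, (zn Zb.zn Zd.k).IIx hkS a hv j := fun c' =>
        if h : c' ∈ X then Sum.inr ⟨⟨c', h⟩, (zn Zb.zn Zd.k).core hkS a hv ⟨c', h⟩⟩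
        else Sum.inr ⟨c, (zn Zb.zn Zd.k).core hkS a hv c⟩ with hct
      have h1 : ∀ c' : X, ct0 c'.1 = Sum.inr ⟨c', (zn Zb.zn Zd.k).core hkS a hv c'⟩ := fun c' => by
        rw [hct]
        exact dif_pos c'.2
      exact (b13 (zn Zb.zn Zd.k) (finer_zn Zb.zn Zd.k) (znRD Zb.zn Zd.k Y) b7 hkS a hv h1).1 c
    · intro k hkS a v hv hvG ct0 hct0
      have h1 := (b13 (zn Zb.zn Zd.k) (finer_zn Zb.zn Zd.k) (znRD Zb.zn Zd.k Y) b7 hkS a hv hct0).2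
      rw [e1, e2]
      exact h1
    · intro v hvG D0 hC hD
      have hfc : ContinuousOn f ((zn Zb.zn Zd.k).φ ⁻¹' (zn Zb.zn Zd.k).D0.Om) :=
        (congrArg (fun S => ContinuousOn f S) e4).mpr hf5
      refine HW La _ hLa F bf cmp c0 X lam zc H f hfc D u κm (κ2 / 2) κ2 κw κt (κp / 64) Cc Bs Nn
        hu.le hκw.le le_rfl t2 (by positivity) A Q k0 hk hlam hB ?_ v (fun c => (hG c).2.1 (hvG c))
        ?_ ?_ D0 hC ?_
      · intro c hc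
        exact (hI c hc).gam
      · intro c
        exact ((hG c).2.2.2 (v c) (hvG c)).2.1.a2
      · intro c
        have h1 := ((hG c).2.2.2 (v c) (hvG c)).1
        exact fun e he k => (congrArg (fun S => ACLat S (fun y => f y k) (fun y => D y (ev e) k) (ev e)
          (ea e + v c)) e4).mpr (h1 e he k)
      · intro c
        have h1 := hD c
        rw [hQ c] at h1
        exact h1
  · intro c
    rw [e2]
    exact a1 c
  · intro c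
    rw [e1, e2]
    exact a4 c
  · exact HO bf hOm bf.countable (zn Zb.zn Zd.k) Q k0 hQ hDS fun c hc x hx => (hbr c hc x hx).2

end

end Crest.Agent.R096.Eaz_663
end

-- ▼ part R096/Gz4_222
section

set_option autoImplicit false
set_option linter.unusedSectionVars false
set_option linter.unusedVariables false

open MeasureTheory Set Filter Metric
open scoped Topology ENNReal NNReal

namespace Crest.Agent.R096.Gz_222

open Crest.Agent.R096.Msh_715 Crest.Agent.R096.Mal_874 Crest.Agent.R096.Msh_810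
  Crest.Agent.R096.Mfi_290
open Crest.Agent.R096.Bsp_628 Crest.Agent.R096.Brk1_582 Crest.Agent.R096.Brk3_582
open Crest.Agent.R096.Brk5_582
open Crest.Agent.R96.Push_899
open Crest.Agent.R096.SkC1_961 (E3 Cfg)
open Crest.Agent.R096.EaX_766 (lin cbx Kor)
open Crest.Agent.R096.Ea0_961 (Ed InS Blk Tw Ly)
open Crest.Agent.R096.Pmc_112 (Gd' Kl)
open Crest.Agent.R096.Mfa_880 (NmB)
open Crest.Agent.R96.Ea0p_348 (Sn Ln Jn PreMesh0 preMesh0_of)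
open Crest.Agent.R96.EaCore_348 (EE Ord Macro)
open Crest.Agent.R96.EaP_899 (XD fX cm)
open Crest.Agent.R096.Pgn_112 (COu ZD)

noncomputable section

/-- **from 112's `GenOut` to 348's `PreMesh0`** -/
theorem premesh_of_genout {δ κ0 R c0 : ℝ} {La : Set E3} {F : Set (Bx (Fin 3))}
    {bf : BoxFoam La F δ κ0} {cmp : Cmp F R} {p : ℝ} {C : Set (Set E3) → ℝ} {κp κ1 κ2 : ℝ}
    {Om : Set E3} {f : E3 → E3} {D D' : E3 → E3 →L[ℝ] E3} {X : Set F} {A : F → E3 ≃ᵃ[ℝ] E3}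
    {lam : F → ℝ} {Q : F → CB E3 3} {k0 : F → ℕ} (hk : ∀ c, (Q c).kc ≤ k0 c) {er : F → ℝ≥0∞}
    {Gd Bx' : X → Set E3} {z zq : F → E3} {Mc : F → ℕ} {H : XD bf c0 X lam z} {M : MD E3 3 X}
    {Zd : ZD F X} {Cs : ℝ} {C1 C2 CA : ℝ≥0} {ε : ℝ≥0∞} {εb : F → ℝ≥0∞} {B : X → ℝ≥0∞}
    (hcore : ∀ c ∈ X, (Q c).Kc = A c ⁻¹' cbx c.1 (lam c)) (hQ : ∀ j : X, M.Q j = Q j)
    (hGd : ∀ c : X, Gd c ⊆ Tw (Q c.1) (k0 c.1))
    (hout : (ENNReal.ofReal Cs * Kl δ R) ^ p * (COu p * ∫⁻ x in Om \ NmB M Bx', ‖D' x‖ₑ ^ p) ≤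
      C2 * (Jn p Om D F X Q + ∑' c : X, Ln p D F Q k0 c))
    (hB : ∀ c : X, B c ≤ C1 * (Sn p F A lam Q c + er c) + CA * Ln p D F Q k0 c)
    (hZR : ∀ c, 0 < Zd.R c)
    (hZf : ∀ c : {c // c ∉ X}, ∀ y ∈ closedBall (Zd.x c) (2 * Zd.R c),
      ∀ j, c.1.1.lo j < f y j ∧ f y j < c.1.1.hi j)
    (h : Pgn_112.GenOut (fX bf cmp H) Om f D' p κp κ1 κ2 X A lam zq Mc M Bx' Gd B Zd C Cs ε
      (fun c : X => εb c)) :
    PreMesh0 (c0 := c0) bf cmp p C κp κ1 κ2 Om f D X A lam Q k0 er (C1 + C2) (CA + C2) ε εb := by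
  obtain ⟨v, Dd, h1, h2, h3, h4, h5, Qb, q1, q2, q3, q4, q5, q6⟩ := h
  have hR : ∀ c, closedBall (Zd.x c) (7 / 8 * Zd.R c) ⊆ closedBall (Zd.x c) (2 * Zd.R c) :=
    fun c => closedBall_subset_closedBall (by have := hZR c; linarith)
  have key : Crest.Agent.R96.Ea0p_348.GenOut bf cmp p C κp κ1 κ2 Om f X A lam Q Gd z H (1 : ℝ≥0)
      ((ENNReal.ofReal Cs * Kl δ R) ^ p * (COu p * ∫⁻ x in Om \ NmB M Bx', ‖D' x‖ₑ ^ p)) B ε
      (fun c : X => εb c) := by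
    refine ⟨Dd, Pmc_112.lP δ R D', v, {c // c ∉ X}, Zd.x, fun c => 5 / 8 * Zd.R c,
      fun c => 7 / 8 * Zd.R c, fun c => c.1, Qb, h2, h3, ?_, ?_, ?_, ?_, ?_⟩
    · intro c y hy j
      exact hZf c y (hR c hy) j
    · intro c
      obtain ⟨g1, g2, -, g3, -⟩ := h4 c
      refine ⟨h1 c, ?_, g2, g3⟩
      rw [g1, hQ c]
    · refine h5.trans (le_of_eq ?_)
      rw [ENNReal.coe_one, one_mul]
      rfl
    · exact fun c c' hcc => q1 c c' hcc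
    · intro c
      refine ⟨fun i hi => q4 c i hi, ?_, ?_, ?_⟩
      · intro i hi x hx k hxk
        exact q5 c i hi x (I_sub_P _ hx) k (hR k hxk)
      · rintro x ⟨hx, hx'⟩
        rw [← hQ c] at hx hx'
        obtain ⟨i, hi, hxi⟩ := q3 c x hx hx'
        exact mem_iUnion₂.2 ⟨i, hi, hxi⟩
      · refine (q6 c).trans (le_of_eq ?_)
        rw [ENNReal.coe_one, one_mul]
  have hfin := preMesh0_of (p := p) (D := D) (Q := Q) (k0 := k0) hk (er := er) hcore hGd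
    (KO := C2) hout (C1g := C1) (CAg := CA) hB key
  have e1 : (1 : ℝ≥0) * (C2 + C1) = C1 + C2 := by rw [one_mul, add_comm]
  have e2 : (1 : ℝ≥0) * (C2 + CA) = CA + C2 := by rw [one_mul, add_comm]
  rw [e1, e2] at hfin
  exact hfin

end

end Crest.Agent.R096.Gz_222
end

-- ▼ part R096/Eaz3_663

/-!
# Row 96 (S0127), EA0 (helper663), part 3: **`pre0 : 1 ≤ p → p < 3 → Ea0p_348.Pre0 p`**

`genIn0` (Eaz2) + 112's `pre_gen` (Pgn8) + 222's `premesh_of_genout` (Gz4, over 348's Ea0g).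
-/

set_option autoImplicit false
set_option linter.style.longLine false
set_option linter.unusedSectionVars false

open MeasureTheory Set Filter Topology Metric
open scoped ENNReal NNReal

namespace Crest.Agent.R096.Eaz_663

open Crest.Agent.R096.Bsp_628 Crest.Agent.R096.Brk5_582
open Crest.Agent.R096.SkC1_961 (E3 FoamD Hom3)
open Crest.Agent.R096.EaX_766 (cbx lin Kor)
open Crest.Agent.R096.Bxs_627 (zz)
open Crest.Agent.R096.Mal_874
open Crest.Agent.R096.Ea0_961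
open Crest.Agent.R96.EaP_899 (fX XD)
open Crest.Agent.R96.Ea0p_348 (Jn Sn Ln PreMesh0 Pre0)

noncomputable section

/-- **PREMACH FOR `EA0 p`** -/
theorem pre0 {p : ℝ} (hp : 1 ≤ p) (hp3 : p < 3) : Pre0 p := by
  intro δ κ0 R c0 κ2 Cc Bs hδ hκ0 hR hc0 hcκ hκ2 hκ24 hCc hBs C hC
  obtain ⟨CK, C1g, C2, hCs, HH⟩ := genIn0 hp hp3 δ κ0 R c0 κ2 Cc Bs hδ hκ0 hR hc0 hcκ hκ2 hκ24 hCc
    hBs C
  refine ⟨C1g + C2, ?_⟩
  intro κp κm τ lam1 hκp hκp1 hκm hκmκ hτ hlam1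
  obtain ⟨κ1, hκ1, M0, HH⟩ := HH κp κm τ lam1 hκp hκm hτ hlam1
  refine ⟨κ1, hκ1, M0, fun M hM => ?_⟩
  obtain ⟨κw, hκw, HH⟩ := HH M hM
  refine ⟨κw, hκw, fun Nn => ?_⟩
  obtain ⟨CAg, κt, hκt, hκtτ, HH⟩ := HH Nn
  refine ⟨CAg + C2, κt, hκt, hκtτ, ?_⟩
  intro Om La f D hOm hOb hOc hLa hLb hLc hSH u hu F bf cmp hst X A lam Q k0 hk er hlam hB hI ε hε
    εb hεb
  obtain ⟨zc, H, D', M', Y, k0', hk0', κr, Gd, Zd, g1, g2, g3, g4, g5, g6, g7, G, g8, g9, g10, g11⟩ :=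
    HH Om La f D hOm hLa hSH u hu F bf cmp X A lam Q k0 hk er hlam hB hI
  have hout := Pgn_112.pre_gen (Φ := fX bf cmp H) (Df := D) hOm hOc.nonempty hLa hδ (by linarith)
    hSH.homeo hSH g1 g2 g3 hp hκp hκp1 (by positivity) hκmκ (fun 𝒦 => (hC 𝒦).le) hCs g4 g5 G hε
    (εb := fun c : X => εb c.1) (fun c => hεb c.1 c.2)
  exact Gz_222.premesh_of_genout hk (fun c hc => (hB c hc).core) g6 g8 g11 (fun c => le_rfl) g9 g10 hout

end

end Crest.Agent.R096.Eaz_663
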