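import Crest.Agent.R096.Ed2_276
import Crest.Agent.R096.P5Spec_205

-- ▼ part R096/Ed3_276
section

open Set Metric Filter Topology
open scoped ComplexConjugate

namespace Crest.Agent.R096.Ed_276

/-- `v ↦ Re (v / z)`. -/
noncomputable def dlz (z : ℂ) : ℂ →L[ℝ] ℝ := Complex.reCLM.comp (z⁻¹ • ContinuousLinearMap.id ℝ ℂ)

lemma dlz_apply (z v : ℂ) : dlz z v = (v / z).re := by
  simp only [dlz, ContinuousLinearMap.comp_apply, smul_apply, ContinuousLinearMap.id_apply,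
    smul_eq_mul, Complex.reCLM_apply]
  rw [mul_comm, div_eq_mul_inv]

lemma dlz_norm_le (z v : ℂ) : |dlz z v| ≤ ‖v‖ / ‖z‖ := by
  rw [dlz_apply, ← norm_div]
  exact Complex.abs_re_le_norm _

lemma hasFDerivAt_lz {z : ℂ} (hz : z ≠ 0) :
    HasFDerivAt (fun w : ℂ => Real.log ‖w‖) (dlz z) z := by
  have key : ∀ u : ℂ, u ∈ Complex.slitPlane →
      HasFDerivAt (fun w : ℂ => (Complex.log w).re) (dlz u) u := by
    intro u hu
    have h3 : HasFDerivAt Complex.log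
        ((ContinuousLinearMap.toSpanSingleton ℂ (u⁻¹)).restrictScalars ℝ) u :=
      (Complex.hasDerivAt_log hu).hasFDerivAt.restrictScalars ℝ
    have h4 := Complex.reCLM.hasFDerivAt.comp u h3
    refine h4.congr_fderiv ?_
    ext v
    simp only [dlz_apply, ContinuousLinearMap.comp_apply, ContinuousLinearMap.coe_restrictScalars',
      ContinuousLinearMap.toSpanSingleton_apply, smul_eq_mul, Complex.reCLM_apply]
    rw [div_eq_mul_inv]
  have hre : ∀ w : ℂ, Real.log ‖w‖ = (Complex.log w).re := fun w => (Complex.log_re w).symm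
  by_cases h : z ∈ Complex.slitPlane
  · simp_rw [hre]
    exact key z h
  · have h' : -z ∈ Complex.slitPlane := by
      rw [Complex.mem_slitPlane_iff] at h ⊢
      push Not at h
      left
      have h2 : z.re ≠ 0 := fun h0 => hz (Complex.ext h0 h.2)
      have := lt_of_le_of_ne h.1 h2
      simpa using this
    have hre' : ∀ w : ℂ, Real.log ‖w‖ = (Complex.log (-w)).re := fun w => by
      rw [Complex.log_re, norm_neg]
    simp_rw [hre']
    have h5 := (key (-z) h').comp z ((hasFDerivAt_id (𝕜 := ℝ) z).neg)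
    refine h5.congr_fderiv ?_
    ext v
    simp only [dlz_apply, ContinuousLinearMap.comp_apply, neg_apply, ContinuousLinearMap.id_apply]
    rw [neg_div_neg_eq]

/-- derivative of the smooth transition. -/
noncomputable def dst (x : ℝ) : ℝ := deriv Real.smoothTransition x

lemma hasDerivAt_st (x : ℝ) : HasDerivAt Real.smoothTransition (dst x) x :=
  ((Real.smoothTransition.contDiff (n := 1)).differentiable (by simp)).differentiableAt.hasDerivAt

lemma dst_of_neg {x : ℝ} (hx : x < 0) : dst x = 0 := by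
  have : Real.smoothTransition =ᶠ[𝓝 x] fun _ => (0:ℝ) := by
    filter_upwards [Iio_mem_nhds hx] with y hy
    exact Real.smoothTransition.zero_of_nonpos (le_of_lt hy)
  rw [dst, this.deriv_eq, deriv_const]

lemma dst_of_one_lt {x : ℝ} (hx : 1 < x) : dst x = 0 := by
  have : Real.smoothTransition =ᶠ[𝓝 x] fun _ => (1:ℝ) := by
    filter_upwards [Ioi_mem_nhds hx] with y hy
    exact Real.smoothTransition.one_of_one_le (le_of_lt hy)
  rw [dst, this.deriv_eq, deriv_const]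

lemma continuous_dst : Continuous dst := by
  have := (Real.smoothTransition.contDiff (n := 1)).continuous_deriv le_rfl
  exact this

lemma exists_dst_bound : ∃ D : ℝ, 0 < D ∧ ∀ x, |dst x| ≤ D := by
  obtain ⟨D, hD⟩ := (isCompact_Icc (a := (0:ℝ)) (b := 1)).exists_bound_of_continuousOn
    continuous_dst.continuousOn
  refine ⟨max D 1, lt_max_of_lt_right one_pos, fun x => ?_⟩
  rcases lt_or_ge x 0 with h | h
  · rw [dst_of_neg h, abs_zero]; positivity
  rcases lt_or_ge 1 x with h1 | h1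
  · rw [dst_of_one_lt h1, abs_zero]; positivity
  · exact (hD x ⟨h, h1⟩).trans (le_max_left _ _)

/-- the smooth transition is Lipschitz. -/
lemma st_lip {D : ℝ} (hD : ∀ x, |dst x| ≤ D) (x y : ℝ) :
    |Real.smoothTransition x - Real.smoothTransition y| ≤ D * |x - y| := by
  have := Convex.norm_image_sub_le_of_norm_hasDerivWithin_le (f := Real.smoothTransition)
    (f' := dst) (s := univ) (C := D) (x := y) (y := x)
    (fun u _ => (hasDerivAt_st u).hasDerivWithinAt) (fun u _ => hD u) convex_univ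
    (mem_univ _) (mem_univ _)
  simpa using this

/-- logarithmic cut-off: `0` for `log |z| ≤ c`, `1` for `k (log |z| - c) ≥ 1`. -/
noncomputable def cut (k c : ℝ) (z : ℂ) : ℝ := Real.smoothTransition (k * (Real.log ‖z‖ - c))

lemma cut_zero {k c : ℝ} (hk : 0 ≤ k) {z : ℂ} (h : Real.log ‖z‖ ≤ c) : cut k c z = 0 :=
  Real.smoothTransition.zero_of_nonpos (mul_nonpos_of_nonneg_of_nonpos hk (by linarith))

lemma cut_one {k c : ℝ} {z : ℂ} (h : 1 ≤ k * (Real.log ‖z‖ - c)) : cut k c z = 1 :=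
  Real.smoothTransition.one_of_one_le h

lemma cut_nonneg (k c : ℝ) (z : ℂ) : 0 ≤ cut k c z := Real.smoothTransition.nonneg _

lemma cut_le_one (k c : ℝ) (z : ℂ) : cut k c z ≤ 1 := Real.smoothTransition.le_one _

lemma abs_cut_le_one (k c : ℝ) (z : ℂ) : |cut k c z| ≤ 1 := by
  rw [abs_of_nonneg (cut_nonneg _ _ _)]; exact cut_le_one _ _ _

/-- radial derivative of the cut-off. -/
noncomputable def dcut (k c : ℝ) (z : ℂ) : ℝ := dst (k * (Real.log ‖z‖ - c)) * k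

lemma hasFDerivAt_cut (k c : ℝ) {z : ℂ} (hz : z ≠ 0) :
    HasFDerivAt (cut k c) (dcut k c z • dlz z) z := by
  have h1 : HasFDerivAt (fun w : ℂ => k * (Real.log ‖w‖ - c)) (k • dlz z) z :=
    ((hasFDerivAt_lz hz).sub_const c).const_mul k
  have h2 := (hasDerivAt_st (k * (Real.log ‖z‖ - c))).comp_hasFDerivAt z h1
  refine h2.congr_fderiv ?_
  rw [smul_smul, dcut]

lemma continuousAt_cut (k c : ℝ) {z : ℂ} (hz : z ≠ 0) : ContinuousAt (cut k c) z :=
  (hasFDerivAt_cut k c hz).continuousAt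

lemma continuousAt_dcut (k c : ℝ) {z : ℂ} (hz : z ≠ 0) : ContinuousAt (dcut k c) z := by
  have h1 : ContinuousAt (fun w : ℂ => k * (Real.log ‖w‖ - c)) z :=
    (((hasFDerivAt_lz hz).continuousAt).sub continuousAt_const).const_mul k
  exact (continuous_dst.continuousAt.comp h1).mul continuousAt_const

/-- exponent and planar map associated with a logarithm `L`. -/
noncomputable def Ex (ε : ℝ) (L : ℂ → ℂ) (z : ℂ) : ℂ :=
  ((cut ε (-1 - 1/ε) z * (L z).re : ℝ) : ℂ) + ((cut 1 (-2 - 1/ε) z * (L z).im : ℝ) : ℂ) * Complex.I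

noncomputable def Gt (ε : ℝ) (L : ℂ → ℂ) (z : ℂ) : ℂ := z * Complex.exp (Ex ε L z)

/-- derivative of the exponent. -/
noncomputable def dEx (ε : ℝ) (l : ℂ) (z : ℂ) (D : ℂ →L[ℝ] ℂ) : ℂ →L[ℝ] ℂ :=
  Complex.ofRealCLM.comp (cut ε (-1 - 1/ε) z • Complex.reCLM.comp D
      + l.re • (dcut ε (-1 - 1/ε) z • dlz z)) +
    Complex.I • Complex.ofRealCLM.comp (cut 1 (-2 - 1/ε) z • Complex.imCLM.comp D
      + l.im • (dcut 1 (-2 - 1/ε) z • dlz z))

noncomputable def dGt (ε : ℝ) (L : ℂ → ℂ) (z : ℂ) (D : ℂ →L[ℝ] ℂ) : ℂ →L[ℝ] ℂ :=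
  Complex.exp (Ex ε L z) • (ContinuousLinearMap.id ℝ ℂ + z • dEx ε (L z) z D)

lemma hasFDerivAt_Ex (ε : ℝ) {L : ℂ → ℂ} {z : ℂ} {D : ℂ →L[ℝ] ℂ} (hz : z ≠ 0)
    (hL : HasFDerivAt L D z) : HasFDerivAt (Ex ε L) (dEx ε (L z) z D) z := by
  have h1 : HasFDerivAt (fun w => (L w).re) (Complex.reCLM.comp D) z :=
    Complex.reCLM.hasFDerivAt.comp z hL
  have h2 : HasFDerivAt (fun w => (L w).im) (Complex.imCLM.comp D) z :=
    Complex.imCLM.hasFDerivAt.comp z hL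
  have h3 := Complex.ofRealCLM.hasFDerivAt.comp z
    ((hasFDerivAt_cut ε (-1 - 1/ε) hz).mul h1)
  have h4 := Complex.ofRealCLM.hasFDerivAt.comp z
    ((hasFDerivAt_cut 1 (-2 - 1/ε) hz).mul h2)
  have h5 := h3.add (h4.mul_const Complex.I)
  refine h5.congr_fderiv ?_
  ext v
  simp [dEx]

lemma hasFDerivAt_Gt (ε : ℝ) {L : ℂ → ℂ} {z : ℂ} {D : ℂ →L[ℝ] ℂ} (hz : z ≠ 0)
    (hL : HasFDerivAt L D z) : HasFDerivAt (Gt ε L) (dGt ε L z D) z := by
  have h1 := (hasFDerivAt_Ex ε hz hL).cexp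
  have h2 := (hasFDerivAt_id (𝕜 := ℝ) z).mul h1
  refine h2.congr_fderiv ?_
  ext v
  simp [dGt]
  ring

end Crest.Agent.R096.Ed_276
end

-- ▼ part R096/Ed4_276
section

open Set Metric Filter Topology
open scoped ComplexConjugate

namespace Crest.Agent.R096.Ed_276

/-- constants of the planar data. -/
structure Par {ι : Type*} (B : ι → ℂ →L[ℝ] ℂ) (G : ℂ → ℂ) (Cb mb dm Λ ε : ℝ) : Prop where
  Cb0 : 0 < Cb
  hC : ∀ i z, ‖B i z‖ ≤ Cb * ‖z‖
  m0 : 0 < mb
  hm : ∀ i z, mb * ‖z‖ ≤ ‖B i z‖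
  d0 : 0 < dm
  hd : ∀ i, dm ≤ (B i).det
  L0 : 0 < Λ
  hΛ : ∀ z, ‖Lg G z‖ ≤ Λ
  ε0 : 0 < ε
  hε : ∀ x, |dst x| * ε * Λ ≤ 1 / 2

variable {ι : Type*} {B : ι → ℂ →L[ℝ] ℂ} {G : ℂ → ℂ}

lemma exists_par [Finite ι] (h : Pl B G) : ∃ Cb mb dm Λ ε : ℝ, Par B G Cb mb dm Λ ε := by
  cases nonempty_fintype ι
  obtain ⟨i0, _⟩ := h.sel 0
  have : Nonempty ι := ⟨i0⟩
  -- upper bound
  obtain ⟨C0, hC0⟩ : ∃ C, ∀ i, ‖B i‖ ≤ C := by
    obtain ⟨C, hC⟩ := (Set.finite_range fun i => ‖B i‖).bddAbove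
    exact ⟨C, fun i => hC ⟨i, rfl⟩⟩
  set Cb : ℝ := max C0 1 with hCb
  have hCb0 : 0 < Cb := lt_max_of_lt_right one_pos
  have hC : ∀ i z, ‖B i z‖ ≤ Cb * ‖z‖ := fun i z =>
    ((B i).le_opNorm z).trans (mul_le_mul_of_nonneg_right ((hC0 i).trans (le_max_left _ _))
      (norm_nonneg _))
  -- determinant
  obtain ⟨i1, hi1⟩ := Finite.exists_min fun i => (B i).det
  set dm := (B i1).det with hdm
  have hd0 : 0 < dm := h.det i1
  have hm : ∀ i z, dm / Cb * ‖z‖ ≤ ‖B i z‖ := by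
    intro i z
    have h1 := det_mul_norm_le (B i) z
    have h2 : dm * ‖z‖ ≤ (B i).det * ‖z‖ := mul_le_mul_of_nonneg_right (hi1 i) (norm_nonneg _)
    have h3 : ‖B i‖ * ‖B i z‖ ≤ Cb * ‖B i z‖ :=
      mul_le_mul_of_nonneg_right ((hC0 i).trans (le_max_left _ _)) (norm_nonneg _)
    rw [div_mul_eq_mul_div, div_le_iff₀ hCb0]
    linarith
  have hm0 : 0 < dm / Cb := div_pos hd0 hCb0
  -- bound of the logarithm
  obtain ⟨Λ, hΛ0, hΛ⟩ : ∃ Λ : ℝ, 0 < Λ ∧ ∀ z, ‖Lg G z‖ ≤ Λ := by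
    refine ⟨|Real.log Cb| + |Real.log (dm / Cb)| + 2 * Real.pi, by positivity, fun z => ?_⟩
    rcases eq_or_ne z 0 with rfl | hz
    · rw [Lg_of_not (by simp [Complex.mem_slitPlane_iff]), norm_zero]; positivity
    have hz' : 0 < ‖z‖ := norm_pos_iff.mpr hz
    have h1 : |(Lg G z).re| ≤ |Real.log Cb| + |Real.log (dm / Cb)| := by
      rw [h.re_Lg hz]
      obtain ⟨i, hi⟩ := h.sel z
      have hu : ‖G z‖ / ‖z‖ ≤ Cb := by
        rw [div_le_iff₀ hz', hi]; exact hC i z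
      have hl : dm / Cb ≤ ‖G z‖ / ‖z‖ := by
        rw [le_div_iff₀ hz', hi]; exact hm i z
      have hp : 0 < ‖G z‖ / ‖z‖ := hm0.trans_le hl
      have h2 := Real.log_le_log hp hu
      have h3 := Real.log_le_log hm0 hl
      rw [abs_le]
      constructor
      · have := neg_abs_le (Real.log (dm / Cb)); have := abs_nonneg (Real.log Cb); linarith
      · have := le_abs_self (Real.log Cb); have := abs_nonneg (Real.log (dm / Cb)); linarith
    have h2 := Pl.abs_im_Lg (G := G) z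
    have h3 := Complex.norm_le_abs_re_add_abs_im (Lg G z)
    linarith
  obtain ⟨D, hD0, hD⟩ := exists_dst_bound
  refine ⟨Cb, dm / Cb, dm, Λ, 1 / (2 * D * Λ), ⟨hCb0, hC, hm0, hm, hd0, hi1, hΛ0, hΛ,
    by positivity, fun x => ?_⟩⟩
  calc |dst x| * (1 / (2 * D * Λ)) * Λ ≤ D * (1 / (2 * D * Λ)) * Λ := by
        have := hD x
        gcongr
    _ = 1 / 2 := by field_simp

/-! ### pointwise formulas -/

lemma dGt_self (ε : ℝ) (L : ℂ → ℂ) {z : ℂ} (hz : z ≠ 0) {D : ℂ →L[ℝ] ℂ} (hD : D z = 0) :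
    dGt ε L z D z = Gt ε L z * (1 + ((dcut ε (-1 - 1/ε) z * (L z).re : ℝ) : ℂ)
      + ((dcut 1 (-2 - 1/ε) z * (L z).im : ℝ) : ℂ) * Complex.I) := by
  have h1 : dlz z z = 1 := by rw [dlz_apply, div_self hz, Complex.one_re]
  simp only [dGt, dEx, Gt, smul_apply, add_apply, ContinuousLinearMap.id_apply,
    ContinuousLinearMap.comp_apply, hD, h1, Complex.reCLM_apply, Complex.imCLM_apply,
    Complex.ofRealCLM_apply, smul_eq_mul, Complex.zero_re, Complex.zero_im]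
  push_cast
  ring

lemma dGt_I (ε : ℝ) (L : ℂ → ℂ) {z : ℂ} (hz : z ≠ 0) (D : ℂ →L[ℝ] ℂ) :
    dGt ε L z D (Complex.I * z) = Gt ε L z * (((cut ε (-1 - 1/ε) z * (D (Complex.I * z)).re : ℝ) : ℂ)
      + ((1 + cut 1 (-2 - 1/ε) z * (D (Complex.I * z)).im : ℝ) : ℂ) * Complex.I) := by
  have h1 : dlz z (Complex.I * z) = 0 := by
    rw [dlz_apply, mul_div_assoc, div_self hz, mul_one, Complex.I_re]
  simp only [dGt, dEx, Gt, smul_apply, add_apply, ContinuousLinearMap.id_apply,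
    ContinuousLinearMap.comp_apply, h1, Complex.reCLM_apply, Complex.imCLM_apply,
    Complex.ofRealCLM_apply, smul_eq_mul]
  push_cast
  ring

/-- the cut-off of the modulus is constant where the cut-off of the argument moves. -/
lemma dcut_mul_cut {ε : ℝ} (hε : 0 < ε) (z : ℂ) :
    dcut 1 (-2 - 1/ε) z * cut ε (-1 - 1/ε) z = 0 := by
  rcases le_or_gt (Real.log ‖z‖) (-1 - 1/ε) with h | h
  · rw [cut_zero hε.le h, mul_zero]
  · rw [dcut, dst_of_one_lt (by linarith), zero_mul, zero_mul]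

lemma norm_Gt (ε : ℝ) (L : ℂ → ℂ) (z : ℂ) :
    ‖Gt ε L z‖ = ‖z‖ * Real.exp (cut ε (-1 - 1/ε) z * (L z).re) := by
  rw [Gt, norm_mul, Complex.norm_exp]
  simp [Ex]

section bounds
variable {Cb mb dm Λ ε : ℝ} (P : Par B G Cb mb dm Λ ε)
include P

lemma Par.re_le (z : ℂ) : |(Lg G z).re| ≤ Λ := (Complex.abs_re_le_norm _).trans (P.hΛ z)
lemma Par.im_le (z : ℂ) : |(Lg G z).im| ≤ Λ := (Complex.abs_im_le_norm _).trans (P.hΛ z)

lemma Par.norm_Gt_le (z : ℂ) : ‖Gt ε (Lg G) z‖ ≤ Real.exp Λ * ‖z‖ := by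
  rw [norm_Gt, mul_comm]
  refine mul_le_mul_of_nonneg_right (Real.exp_le_exp.mpr ?_) (norm_nonneg _)
  calc cut ε (-1 - 1/ε) z * (Lg G z).re ≤ |cut ε (-1 - 1/ε) z * (Lg G z).re| := le_abs_self _
    _ = |cut ε (-1 - 1/ε) z| * |(Lg G z).re| := abs_mul _ _
    _ ≤ 1 * Λ := mul_le_mul (abs_cut_le_one _ _ _) (P.re_le z) (abs_nonneg _) zero_le_one
    _ = Λ := one_mul _

lemma Par.le_norm_Gt (z : ℂ) : Real.exp (-Λ) * ‖z‖ ≤ ‖Gt ε (Lg G) z‖ := by
  rw [norm_Gt, mul_comm]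
  refine mul_le_mul_of_nonneg_left (Real.exp_le_exp.mpr ?_) (norm_nonneg _)
  have : |cut ε (-1 - 1/ε) z * (Lg G z).re| ≤ Λ := by
    rw [abs_mul]
    calc |cut ε (-1 - 1/ε) z| * |(Lg G z).re| ≤ 1 * Λ :=
          mul_le_mul (abs_cut_le_one _ _ _) (P.re_le z) (abs_nonneg _) zero_le_one
      _ = Λ := one_mul _
  exact (abs_le.mp this).1

lemma Par.dcut_re (z w : ℂ) : |dcut ε (-1 - 1/ε) z * (Lg G w).re| ≤ 1 / 2 := by
  rw [dcut, abs_mul, abs_mul, abs_of_pos P.ε0]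
  exact (mul_le_mul_of_nonneg_left (P.re_le w) (mul_nonneg (abs_nonneg _) P.ε0.le)).trans (P.hε _)

/-- lower bound for the cross product of the derivative. -/
lemma Par.cr_dGt {z : ℂ} (hz : z ≠ 0) (i : ι) :
    Real.exp (-Λ) ^ 2 * (1 / 2 * min 1 (dm / Cb ^ 2)) * ‖z‖ ^ 2 ≤
      cr (dGt ε (Lg G) z (dL (B i) z) z) (dGt ε (Lg G) z (dL (B i) z) (Complex.I * z)) := by
  have hz' : 0 < ‖z‖ := norm_pos_iff.mpr hz
  have hBz : B i z ≠ 0 := by
    intro h0
    have := P.hm i z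
    rw [h0, norm_zero] at this
    have := mul_pos P.m0 hz'
    linarith
  have hD0 : dL (B i) z z = 0 := by rw [dL_apply, div_self hBz, div_self hz, sub_self]
  have hDI : dL (B i) z (Complex.I * z) = B i (Complex.I * z) / B i z - Complex.I := by
    rw [dL_apply, mul_div_assoc, div_self hz, mul_one]
  rw [dGt_self ε _ hz hD0, dGt_I ε _ hz, cr_mul, hDI]
  set a := cut ε (-1 - 1/ε) z
  set b := cut 1 (-2 - 1/ε) z
  set a1 := dcut ε (-1 - 1/ε) z * (Lg G z).re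
  set b1 := dcut 1 (-2 - 1/ε) z * (Lg G z).im with hb1
  set q := B i (Complex.I * z) / B i z
  have hab : b1 * a = 0 := by
    have := dcut_mul_cut P.ε0 z
    calc b1 * a = (dcut 1 (-2 - 1/ε) z * cut ε (-1 - 1/ε) z) * (Lg G z).im := by ring
      _ = 0 := by rw [this, zero_mul]
  have hq : dm / Cb ^ 2 ≤ q.im := by
    rw [im_div]
    have h1 : ‖B i z‖ ^ 2 ≤ Cb ^ 2 * ‖z‖ ^ 2 := by
      rw [← mul_pow]; exact pow_le_pow_left₀ (norm_nonneg _) (P.hC i z) 2
    have h2 : 0 < ‖B i z‖ ^ 2 := by positivity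
    have hC2 : 0 < Cb ^ 2 := pow_pos P.Cb0 2
    rw [div_le_div_iff₀ hC2 h2]
    calc dm * ‖B i z‖ ^ 2 ≤ dm * (Cb ^ 2 * ‖z‖ ^ 2) := mul_le_mul_of_nonneg_left h1 P.d0.le
      _ ≤ (B i).det * (Cb ^ 2 * ‖z‖ ^ 2) := mul_le_mul_of_nonneg_right (P.hd i) (by positivity)
      _ = (B i).det * ‖z‖ ^ 2 * Cb ^ 2 := by ring
  have hcr : cr (1 + (a1 : ℂ) + (b1 : ℂ) * Complex.I)
      (((a * (q - Complex.I).re : ℝ) : ℂ) + ((1 + b * (q - Complex.I).im : ℝ) : ℂ) * Complex.I)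
      = (1 + a1) * ((1 - b) + b * q.im) := by
    simp only [cr, Complex.add_re, Complex.add_im, Complex.one_re, Complex.one_im,
      Complex.ofReal_re, Complex.ofReal_im, Complex.mul_re, Complex.mul_im, Complex.I_re,
      Complex.I_im, Complex.sub_re, Complex.sub_im]
    linear_combination (-q.re) * hab
  rw [hcr]
  have h1 : 1 / 2 ≤ 1 + a1 := by
    have := (abs_le.mp (P.dcut_re z z)).1
    linarith
  have hb0 : 0 ≤ b := cut_nonneg _ _ _
  have hb1' : b ≤ 1 := cut_le_one _ _ _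
  have h2 : min 1 (dm / Cb ^ 2) ≤ (1 - b) + b * q.im := by
    have h3 : min 1 (dm / Cb ^ 2) ≤ 1 := min_le_left _ _
    have h4 : min 1 (dm / Cb ^ 2) ≤ q.im := (min_le_right _ _).trans hq
    nlinarith
  have hmin : 0 ≤ min 1 (dm / Cb ^ 2) := le_min zero_le_one (div_nonneg P.d0.le (by positivity))
  have h3 : 1 / 2 * min 1 (dm / Cb ^ 2) ≤ (1 + a1) * ((1 - b) + b * q.im) :=
    mul_le_mul h1 h2 hmin (by linarith)
  have h4 : (Real.exp (-Λ) * ‖z‖) ^ 2 ≤ ‖Gt ε (Lg G) z‖ ^ 2 :=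
    pow_le_pow_left₀ (by positivity) (P.le_norm_Gt z) 2
  calc Real.exp (-Λ) ^ 2 * (1 / 2 * min 1 (dm / Cb ^ 2)) * ‖z‖ ^ 2
      = (Real.exp (-Λ) * ‖z‖) ^ 2 * (1 / 2 * min 1 (dm / Cb ^ 2)) := by ring
    _ ≤ ‖Gt ε (Lg G) z‖ ^ 2 * ((1 + a1) * ((1 - b) + b * q.im)) :=
        mul_le_mul h4 h3 (by positivity) (by positivity)

end bounds

end Crest.Agent.R096.Ed_276
end

-- ▼ part R096/Ed5_276
section

open Set Metric Filter Topology
open scoped ComplexConjugate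

namespace Crest.Agent.R096.Ed_276

variable {ι : Type*} {B : ι → ℂ →L[ℝ] ℂ} {G : ℂ → ℂ}

section bounds
variable {Cb mb dm Λ ε : ℝ} (P : Par B G Cb mb dm Λ ε)

/-- Lipschitz constant of the planar map. -/
noncomputable def C1 (Cb mb Λ ε : ℝ) : ℝ :=
  Real.exp Λ * (1 + (2 * (Cb / mb + 1) + 1 / 2 + 1 / (2 * ε)))

include P

lemma Par.norm_dL {z : ℂ} (hz : z ≠ 0) (i : ι) (v : ℂ) :
    ‖dL (B i) z v‖ ≤ (Cb / mb + 1) * (‖v‖ / ‖z‖) := by
  have hz' : 0 < ‖z‖ := norm_pos_iff.mpr hz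
  rw [dL_apply]
  have h1 : ‖B i v / B i z‖ ≤ Cb / mb * (‖v‖ / ‖z‖) := by
    rw [norm_div]
    have h2 : 0 < mb * ‖z‖ := mul_pos P.m0 hz'
    calc ‖B i v‖ / ‖B i z‖ ≤ (Cb * ‖v‖) / (mb * ‖z‖) :=
          div_le_div₀ (mul_nonneg P.Cb0.le (norm_nonneg _)) (P.hC i v) h2 (P.hm i z)
      _ = Cb / mb * (‖v‖ / ‖z‖) := by rw [mul_div_mul_comm]
  calc ‖B i v / B i z - v / z‖ ≤ ‖B i v / B i z‖ + ‖v / z‖ := norm_sub_le _ _
    _ ≤ Cb / mb * (‖v‖ / ‖z‖) + ‖v‖ / ‖z‖ := by rw [norm_div v z]; gcongr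
    _ = (Cb / mb + 1) * (‖v‖ / ‖z‖) := by ring

lemma Par.abs_dst (x : ℝ) : |dst x| ≤ 1 / (2 * ε * Λ) := by
  have h := P.hε x
  have := P.ε0; have := P.L0
  rw [le_div_iff₀ (by positivity)]
  nlinarith

lemma Par.norm_dEx {z : ℂ} (hz : z ≠ 0) (i : ι) (v : ℂ) :
    ‖dEx ε (Lg G z) z (dL (B i) z) v‖ ≤
      (2 * (Cb / mb + 1) + 1 / 2 + 1 / (2 * ε)) * (‖v‖ / ‖z‖) := by
  have hz' : 0 < ‖z‖ := norm_pos_iff.mpr hz
  have hq : 0 ≤ ‖v‖ / ‖z‖ := by positivity
  have hdl := dlz_norm_le z v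
  have hD := P.norm_dL hz i v
  have ha := abs_cut_le_one ε (-1 - 1/ε) z
  have hb := abs_cut_le_one 1 (-2 - 1/ε) z
  have h1 : |cut ε (-1 - 1/ε) z * (dL (B i) z v).re| ≤ (Cb / mb + 1) * (‖v‖ / ‖z‖) := by
    rw [abs_mul]
    calc _ ≤ 1 * |(dL (B i) z v).re| := mul_le_mul_of_nonneg_right ha (abs_nonneg _)
      _ ≤ _ := by rw [one_mul]; exact (Complex.abs_re_le_norm _).trans hD
  have h2 : |cut 1 (-2 - 1/ε) z * (dL (B i) z v).im| ≤ (Cb / mb + 1) * (‖v‖ / ‖z‖) := by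
    rw [abs_mul]
    calc _ ≤ 1 * |(dL (B i) z v).im| := mul_le_mul_of_nonneg_right hb (abs_nonneg _)
      _ ≤ _ := by rw [one_mul]; exact (Complex.abs_im_le_norm _).trans hD
  have h3 : |(Lg G z).re * (dcut ε (-1 - 1/ε) z * dlz z v)| ≤ 1 / 2 * (‖v‖ / ‖z‖) := by
    have h4 := P.dcut_re z z
    calc |(Lg G z).re * (dcut ε (-1 - 1/ε) z * dlz z v)|
        = |dcut ε (-1 - 1/ε) z * (Lg G z).re| * |dlz z v| := by rw [← abs_mul]; congr 1; ring
      _ ≤ 1 / 2 * (‖v‖ / ‖z‖) := mul_le_mul h4 hdl (abs_nonneg _) (by norm_num)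
  have h4 : |(Lg G z).im * (dcut 1 (-2 - 1/ε) z * dlz z v)| ≤ 1 / (2 * ε) * (‖v‖ / ‖z‖) := by
    have h5 : |dcut 1 (-2 - 1/ε) z| ≤ 1 / (2 * ε * Λ) := by
      rw [dcut, mul_one]; exact P.abs_dst _
    have h6 := P.im_le z
    have := P.ε0; have hL := P.L0
    calc |(Lg G z).im * (dcut 1 (-2 - 1/ε) z * dlz z v)|
        = |(Lg G z).im| * |dcut 1 (-2 - 1/ε) z| * |dlz z v| := by
          rw [← abs_mul, ← abs_mul]; congr 1; ring
      _ ≤ Λ * (1 / (2 * ε * Λ)) * (‖v‖ / ‖z‖) := by gcongr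
      _ = 1 / (2 * ε) * (‖v‖ / ‖z‖) := by field_simp
  have hform : dEx ε (Lg G z) z (dL (B i) z) v =
      ((cut ε (-1 - 1/ε) z * (dL (B i) z v).re
        + (Lg G z).re * (dcut ε (-1 - 1/ε) z * dlz z v) : ℝ) : ℂ) +
      Complex.I * ((cut 1 (-2 - 1/ε) z * (dL (B i) z v).im
        + (Lg G z).im * (dcut 1 (-2 - 1/ε) z * dlz z v) : ℝ) : ℂ) := by
    simp [dEx]
    ring
  rw [hform]
  have h7 : ∀ a b c d : ℝ, ‖((a + b : ℝ) : ℂ) + Complex.I * ((c + d : ℝ) : ℂ)‖ ≤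
      |a| + |b| + (|c| + |d|) := by
    intro a b c d
    calc _ ≤ ‖((a + b : ℝ) : ℂ)‖ + ‖Complex.I * ((c + d : ℝ) : ℂ)‖ := norm_add_le _ _
      _ = |a + b| + |c + d| := by
          rw [norm_mul, Complex.norm_I, one_mul, Complex.norm_real, Complex.norm_real,
            Real.norm_eq_abs, Real.norm_eq_abs]
      _ ≤ _ := add_le_add (abs_add_le _ _) (abs_add_le _ _)
  refine (h7 _ _ _ _).trans ?_
  linarith

lemma Par.norm_dGt {z : ℂ} (hz : z ≠ 0) (i : ι) (v : ℂ) :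
    ‖dGt ε (Lg G) z (dL (B i) z) v‖ ≤ C1 Cb mb Λ ε * ‖v‖ := by
  have hz' : 0 < ‖z‖ := norm_pos_iff.mpr hz
  have h1 : ‖Complex.exp (Ex ε (Lg G) z)‖ ≤ Real.exp Λ := by
    rw [Complex.norm_exp]
    refine Real.exp_le_exp.mpr ?_
    have : (Ex ε (Lg G) z).re = cut ε (-1 - 1/ε) z * (Lg G z).re := by simp [Ex]
    rw [this]
    calc cut ε (-1 - 1/ε) z * (Lg G z).re ≤ |cut ε (-1 - 1/ε) z * (Lg G z).re| := le_abs_self _
      _ = |cut ε (-1 - 1/ε) z| * |(Lg G z).re| := abs_mul _ _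
      _ ≤ 1 * Λ := mul_le_mul (abs_cut_le_one _ _ _) (P.re_le z) (abs_nonneg _) zero_le_one
      _ = Λ := one_mul _
  have h2 : ‖v + z * dEx ε (Lg G z) z (dL (B i) z) v‖ ≤
      (1 + (2 * (Cb / mb + 1) + 1 / 2 + 1 / (2 * ε))) * ‖v‖ := by
    calc _ ≤ ‖v‖ + ‖z‖ * ‖dEx ε (Lg G z) z (dL (B i) z) v‖ := by
          rw [← norm_mul]; exact norm_add_le _ _
      _ ≤ ‖v‖ + ‖z‖ * ((2 * (Cb / mb + 1) + 1 / 2 + 1 / (2 * ε)) * (‖v‖ / ‖z‖)) := by
          gcongr; exact P.norm_dEx hz i v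
      _ = (1 + (2 * (Cb / mb + 1) + 1 / 2 + 1 / (2 * ε))) * ‖v‖ := by field_simp
  have h3 : dGt ε (Lg G) z (dL (B i) z) v =
      Complex.exp (Ex ε (Lg G) z) * (v + z * dEx ε (Lg G z) z (dL (B i) z) v) := by
    simp [dGt]
    ring
  rw [h3, norm_mul, C1, mul_assoc]
  exact mul_le_mul h1 h2 (norm_nonneg _) (Real.exp_pos _).le

end bounds

/-! ### the map near `0`, near infinity and near the slit -/

lemma Gt_of_small {ε : ℝ} (hε : 0 < ε) (L : ℂ → ℂ) {z : ℂ}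
    (h : Real.log ‖z‖ ≤ -2 - 1/ε) : Gt ε L z = z := by
  rw [Gt, Ex, cut_zero hε.le (by linarith), cut_zero zero_le_one h]
  simp

lemma Gt_of_large {ε : ℝ} (hε : 0 < ε) (h : Pl B G) {z : ℂ} (hz : z ≠ 0)
    (hl : -1 ≤ Real.log ‖z‖) : Gt ε (Lg G) z = G z := by
  have h1 : cut ε (-1 - 1/ε) z = 1 := by
    apply cut_one
    have : ε * (1/ε) = 1 := by field_simp
    nlinarith
  have h2 : cut 1 (-2 - 1/ε) z = 1 := by
    apply cut_one
    have : 0 < 1/ε := by positivity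
    linarith
  rw [Gt, Ex, h1, h2, one_mul, one_mul, Complex.re_add_im, h.exp_Lg hz]

lemma Gt_of_L {ε : ℝ} {L : ℂ → ℂ} {z : ℂ} (h : L z = 0) : Gt ε L z = z := by
  simp [Gt, Ex, h]

lemma log_small {z : ℂ} {c : ℝ} (hz : z ≠ 0) (h : ‖z‖ ≤ Real.exp c) : Real.log ‖z‖ ≤ c := by
  rw [← Real.log_exp c]
  exact Real.log_le_log (norm_pos_iff.mpr hz) h

lemma Gt_near_zero {ε : ℝ} (hε : 0 < ε) (L : ℂ → ℂ) {z : ℂ}
    (h : ‖z‖ ≤ Real.exp (-2 - 1/ε)) : Gt ε L z = z := by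
  rcases eq_or_ne z 0 with rfl | hz
  · simp [Gt]
  · exact Gt_of_small hε L (log_small hz h)

lemma eventually_small (c : ℝ) : ∀ᶠ z : ℂ in 𝓝 0, ‖z‖ ≤ Real.exp c := by
  have : Tendsto (fun z : ℂ => ‖z‖) (𝓝 0) (𝓝 0) := by
    simpa using (continuous_norm (E := ℂ)).tendsto 0
  exact (this.eventually (Iic_mem_nhds (Real.exp_pos c)))

lemma Gt_congr {ε : ℝ} {L L' : ℂ → ℂ} {z : ℂ} (h : L z = L' z) : Gt ε L z = Gt ε L' z := by
  simp [Gt, Ex, h]

lemma dGt_congr {ε : ℝ} {L L' : ℂ → ℂ} {z : ℂ} (h : L z = L' z) (D : ℂ →L[ℝ] ℂ) :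
    dGt ε L z D = dGt ε L' z D := by
  simp [dGt, Ex, h]

/-- general little lemma: linear bound from a derivative. -/
lemma eventually_of_fderiv {E F : Type*} [NormedAddCommGroup E] [NormedSpace ℝ E]
    [NormedAddCommGroup F] [NormedSpace ℝ F] {f : E → F} {f' : E →L[ℝ] F} {x : E} {C : ℝ}
    (hf : HasFDerivAt f f' x) (hC : ∀ v, ‖f' v‖ ≤ C * ‖v‖) :
    ∀ᶠ y in 𝓝 x, ‖f y - f x‖ ≤ (C + 1) * ‖y - x‖ := by
  have h := hf.isLittleO.def one_pos
  filter_upwards [h] with y hy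
  calc ‖f y - f x‖ = ‖(f y - f x - f' (y - x)) + f' (y - x)‖ := by congr 1; abel
    _ ≤ 1 * ‖y - x‖ + C * ‖y - x‖ := (norm_add_le _ _).trans (add_le_add hy (hC _))
    _ = (C + 1) * ‖y - x‖ := by ring

/-- the planar map on the pieces, near points off the slit. -/
lemma Pl.log_piece (h : Pl B G) {z : ℂ} {i : ι} (hz : -z ∈ Complex.slitPlane)
    (hi : G z = B i z) :
    HasFDerivAt (fun w => Complex.log (-(B i w)) - Complex.log (-w)) (dL (B i) z) z ∧
    (fun w => Complex.log (-(B i w)) - Complex.log (-w)) z = Lg G z ∧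
    ∀ᶠ w in 𝓝 z, G w = B i w →
      (fun w => Complex.log (-(B i w)) - Complex.log (-w)) w = Lg G w := by
  have h1 : -(B i z) ∈ Complex.slitPlane := by rw [← hi]; exact h.slit hz
  refine ⟨hasFDerivAt_log_lin (B i) hz h1, ?_, ?_⟩
  · simp only [Lg_of_slit hz, hi]
  · filter_upwards [eventually_slit hz] with w hw hwi
    simp only [Lg_of_slit hw, hwi]

/-- `Gt` is continuous. -/
lemma Pl.continuous_Gt (h : Pl B G) {ε : ℝ} (hε : 0 < ε) : Continuous (Gt ε (Lg G)) := by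
  rw [continuous_iff_continuousAt]
  intro z
  rcases eq_or_ne z 0 with rfl | hz
  · refine (continuous_id.continuousAt (x := (0:ℂ))).congr ?_
    filter_upwards [eventually_small (-2 - 1/ε)] with w hw
    exact (Gt_near_zero hε _ hw).symm
  · have h1 := h.continuousAt_Lg hz
    have h2 : ContinuousAt (Ex ε (Lg G)) z := by
      refine ContinuousAt.add ?_ (ContinuousAt.mul ?_ continuousAt_const)
      · exact Complex.continuous_ofReal.continuousAt.comp
          ((continuousAt_cut _ _ hz).mul (Complex.continuous_re.continuousAt.comp h1))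
      · exact Complex.continuous_ofReal.continuousAt.comp
          ((continuousAt_cut _ _ hz).mul (Complex.continuous_im.continuousAt.comp h1))
    exact continuousAt_id.mul h2.cexp

/-- `Gt` is Lipschitz. -/
lemma Pl.lip_Gt [Finite ι] (h : Pl B G) {Cb mb dm Λ ε : ℝ} (P : Par B G Cb mb dm Λ ε) (z w : ℂ) :
    ‖Gt ε (Lg G) z - Gt ε (Lg G) w‖ ≤ (C1 Cb mb Λ ε + 1) * ‖z - w‖ := by
  have hC1 : 0 ≤ C1 Cb mb Λ ε := by
    have h1 := P.Cb0; have h2 := P.m0; have h3 := P.ε0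
    unfold C1; positivity
  have hid : ∀ {z : ℂ}, (∀ᶠ w in 𝓝 z, Gt ε (Lg G) w = w) → ∀ᶠ w in 𝓝 z,
      ‖Gt ε (Lg G) w - Gt ε (Lg G) z‖ ≤ (C1 Cb mb Λ ε + 1) * ‖w - z‖ := by
    intro z hz
    filter_upwards [hz] with w hw
    rw [hw, hz.self_of_nhds]
    nlinarith [norm_nonneg (w - z)]
  refine lip_cover (C := fun i => {z | G z = B i z})
    (fun i => isClosed_eq h.cont (B i).continuous) h.sel ?_ (h.continuous_Gt P.ε0) z w
  intro i z hzi
  rcases eq_or_ne z 0 with rfl | hz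
  · refine (hid ?_).mono fun w hw _ => hw
    filter_upwards [eventually_small (-2 - 1/ε)] with w hw
    exact Gt_near_zero P.ε0 _ hw
  by_cases hs : -z ∈ Complex.slitPlane
  · obtain ⟨h1, h2, h3⟩ := h.log_piece hs hzi
    have h4 := hasFDerivAt_Gt ε hz h1
    rw [dGt_congr h2] at h4
    have h5 := eventually_of_fderiv h4 (P.norm_dGt hz i)
    filter_upwards [h5, h3] with w hw hw3 hwi
    have e1 := Gt_congr (ε := ε) (L := fun w => Complex.log (-(B i w)) - Complex.log (-w))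
      (L' := Lg G) (hw3 hwi)
    have e2 := Gt_congr (ε := ε) (L := fun w => Complex.log (-(B i w)) - Complex.log (-w))
      (L' := Lg G) h2
    rw [e1, e2] at hw
    exact hw
  · refine (hid ?_).mono fun w hw _ => hw
    filter_upwards [h.near_slit_Lg hz hs] with w hw
    exact Gt_of_L hw

/-- derivative of `Gt` at points near which `G` is linear. -/
lemma Pl.hasFDerivAt_Gt (h : Pl B G) {ε : ℝ} {z : ℂ} (hz : z ≠ 0) {i : ι}
    (hi : ∀ᶠ w in 𝓝 z, G w = B i w) :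
    HasFDerivAt (Gt ε (Lg G)) (dGt ε (Lg G) z (dL (B i) z)) z := by
  by_cases hs : -z ∈ Complex.slitPlane
  · obtain ⟨h1, h2, h3⟩ := h.log_piece hs hi.self_of_nhds
    have h4 := Ed_276.hasFDerivAt_Gt ε hz h1
    rw [dGt_congr h2] at h4
    refine h4.congr_of_eventuallyEq ?_
    filter_upwards [h3, hi] with w hw hwi
    exact (Gt_congr (L := fun w => Complex.log (-(B i w)) - Complex.log (-w))
      (L' := Lg G) (hw hwi)).symm
  · -- `G = id = B i` near `z`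
    have h1 : HasFDerivAt (fun w => w) (B i) z := by
      refine (B i).hasFDerivAt.congr_of_eventuallyEq ?_
      filter_upwards [hi, h.near_slit hz hs] with w hw hw2
      rw [← hw, hw2]
    have h2 : B i = ContinuousLinearMap.id ℝ ℂ := h1.unique (hasFDerivAt_id z)
    have h3 : dL (B i) z = 0 := by
      ext v
      rw [dL_apply, h2]
      simp
    have h4 : HasFDerivAt (Lg G) (0 : ℂ →L[ℝ] ℂ) z := by
      refine (hasFDerivAt_const (0:ℂ) z).congr_of_eventuallyEq ?_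
      filter_upwards [h.near_slit_Lg hz hs] with w hw
      exact hw
    rw [h3]
    exact Ed_276.hasFDerivAt_Gt ε hz h4

end Crest.Agent.R096.Ed_276
end

-- ▼ part R096/Ed6_276
section

open Set Metric Filter Topology
open scoped ComplexConjugate

namespace Crest.Agent.R096.Ed_276

variable {ι : Type*} {B : ι → ℂ →L[ℝ] ℂ} {G : ℂ → ℂ}

/-- the point of the unit circle with argument `φ` from the slit. -/
noncomputable def zp (φ : ℝ) : ℂ := -Complex.exp (φ * Complex.I)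

lemma continuous_zp : Continuous zp := by unfold zp; fun_prop

lemma norm_zp (φ : ℝ) : ‖zp φ‖ = 1 := by rw [zp, norm_neg, Complex.norm_exp_ofReal_mul_I]

lemma zp_ne (φ : ℝ) : zp φ ≠ 0 := by
  rw [← norm_ne_zero_iff, norm_zp]; exact one_ne_zero

lemma arg_neg_zp {φ : ℝ} (h : φ ∈ Ioo (-Real.pi) Real.pi) : Complex.arg (-zp φ) = φ := by
  rw [zp, neg_neg]
  have := Complex.log_exp (x := (φ : ℂ) * Complex.I) (by simpa using h.1) (by simpa using h.2.le)
  rw [← Complex.log_im, this]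
  simp

lemma neg_zp_slit {φ : ℝ} (h : φ ∈ Ioo (-Real.pi) Real.pi) : -zp φ ∈ Complex.slitPlane := by
  rw [Complex.mem_slitPlane_iff_arg]
  exact ⟨by rw [arg_neg_zp h]; exact h.2.ne, neg_ne_zero.mpr (zp_ne φ)⟩

/-- angular coordinate from the slit. -/
noncomputable def ph (z : ℂ) : ℝ := Complex.arg (-z)

lemma ph_mem {z : ℂ} (hz : -z ∈ Complex.slitPlane) : ph z ∈ Ioo (-Real.pi) Real.pi := by
  rw [Complex.mem_slitPlane_iff_arg] at hz
  exact ⟨Complex.neg_pi_lt_arg _, lt_of_le_of_ne (Complex.arg_le_pi _) hz.1⟩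

lemma eq_polar (z : ℂ) : z = (‖z‖ : ℂ) * zp (ph z) := by
  have := Complex.norm_mul_exp_arg_mul_I (-z)
  rw [norm_neg] at this
  rw [zp, ph, mul_neg, this, neg_neg]

lemma tendsto_zp_neg : Tendsto zp (𝓝 (-Real.pi)) (𝓝 1) := by
  have : zp (-Real.pi) = 1 := by
    rw [zp]; push_cast; rw [neg_mul, Complex.exp_neg, Complex.exp_pi_mul_I]; norm_num
  rw [← this]; exact continuous_zp.tendsto _

lemma tendsto_zp_pos : Tendsto zp (𝓝 Real.pi) (𝓝 1) := by
  have : zp Real.pi = 1 := by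
    rw [zp, Complex.exp_pi_mul_I]; norm_num
  rw [← this]; exact continuous_zp.tendsto _

/-- angular map. -/
noncomputable def ga (G : ℂ → ℂ) (φ : ℝ) : ℝ := ph (G (zp φ))

namespace Pl

lemma ph_G (h : Pl B G) {z : ℂ} (hz : z ≠ 0) : ph (G z) = ga G (ph z) := by
  have h0 : 0 < ‖z‖ := norm_pos_iff.mpr hz
  conv_lhs => rw [eq_polar z, h.hom _ h0.le]
  rw [ga, ph, ph, ← mul_neg, Complex.arg_real_mul _ h0]
  rfl

lemma ga_mem (h : Pl B G) {φ : ℝ} (hφ : φ ∈ Ioo (-Real.pi) Real.pi) :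
    ga G φ ∈ Ioo (-Real.pi) Real.pi := ph_mem (h.slit (neg_zp_slit hφ))

lemma continuousOn_ga (h : Pl B G) : ContinuousOn (ga G) (Ioo (-Real.pi) Real.pi) := by
  intro φ hφ
  have h1 : ContinuousAt (fun φ => -G (zp φ)) φ := (h.cont.comp continuous_zp).neg.continuousAt
  exact (ContinuousAt.comp (g := Complex.arg) (f := fun φ => -G (zp φ))
    (Complex.continuousAt_arg (h.slit (neg_zp_slit hφ))) h1).continuousWithinAt

lemma injOn_ga (h : Pl B G) : InjOn (ga G) (Ioo (-Real.pi) Real.pi) := by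
  intro φ hφ ψ hψ heq
  have h1 := eq_polar (G (zp φ))
  have h2 := eq_polar (G (zp ψ))
  have hn1 : 0 < ‖G (zp φ)‖ := norm_pos_iff.mpr (h.ne (zp_ne φ))
  have hn2 : 0 < ‖G (zp ψ)‖ := norm_pos_iff.mpr (h.ne (zp_ne ψ))
  have heq' : ph (G (zp φ)) = ph (G (zp ψ)) := heq
  rw [← heq'] at h2
  have hne : ((‖G (zp φ)‖ : ℝ) : ℂ) ≠ 0 := by exact_mod_cast hn1.ne'
  have h3 : G (zp ψ) = ((‖G (zp ψ)‖ / ‖G (zp φ)‖ : ℝ) : ℂ) * G (zp φ) := by
    calc G (zp ψ) = (‖G (zp ψ)‖ : ℂ) * zp (ph (G (zp φ))) := h2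
      _ = ((‖G (zp ψ)‖ / ‖G (zp φ)‖ : ℝ) : ℂ) * ((‖G (zp φ)‖ : ℂ) * zp (ph (G (zp φ)))) := by
          push_cast; field_simp
      _ = ((‖G (zp ψ)‖ / ‖G (zp φ)‖ : ℝ) : ℂ) * G (zp φ) := by rw [← h1]
  rw [← h.hom _ (div_nonneg hn2.le hn1.le)] at h3
  have h4 := h.inj h3
  have h5 : ‖G (zp ψ)‖ / ‖G (zp φ)‖ = 1 := by
    have := congrArg norm h4
    rw [norm_mul, norm_zp, norm_zp, mul_one, Complex.norm_real, Real.norm_eq_abs,
      abs_of_nonneg (div_nonneg hn2.le hn1.le)] at this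
    exact this.symm
  rw [h5, Complex.ofReal_one, one_mul] at h4
  rw [← arg_neg_zp hφ, ← arg_neg_zp hψ, h4]

lemma ga_end_neg (h : Pl B G) : ∀ᶠ φ in 𝓝 (-Real.pi), φ ∈ Ioo (-Real.pi) Real.pi → ga G φ = φ := by
  filter_upwards [tendsto_zp_neg.eventually h.idn] with φ hφ hI
  rw [ga, hφ]; exact arg_neg_zp hI

lemma ga_end_pos (h : Pl B G) : ∀ᶠ φ in 𝓝 Real.pi, φ ∈ Ioo (-Real.pi) Real.pi → ga G φ = φ := by
  filter_upwards [tendsto_zp_pos.eventually h.idn] with φ hφ hI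
  rw [ga, hφ]; exact arg_neg_zp hI

lemma exists_neg (h : Pl B G) {u : ℝ} (hu : -Real.pi < u) :
    ∃ φ, -Real.pi < φ ∧ φ < u ∧ φ < Real.pi ∧ ga G φ = φ := by
  have h1 : ∀ᶠ φ in 𝓝[>] (-Real.pi), φ ∈ Ioo (-Real.pi) Real.pi → ga G φ = φ :=
    h.ga_end_neg.filter_mono nhdsWithin_le_nhds
  have hpi : -Real.pi < min u Real.pi := lt_min hu (by have := Real.pi_pos; linarith)
  have h2 : ∀ᶠ φ in 𝓝[>] (-Real.pi), φ ∈ Ioo (-Real.pi) (min u Real.pi) :=
    Ioo_mem_nhdsGT hpi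
  obtain ⟨φ, ha, hb⟩ := (h1.and h2).exists
  exact ⟨φ, hb.1, hb.2.trans_le (min_le_left _ _), hb.2.trans_le (min_le_right _ _),
    ha ⟨hb.1, hb.2.trans_le (min_le_right _ _)⟩⟩

lemma exists_pos (h : Pl B G) {u : ℝ} (hu : u < Real.pi) :
    ∃ φ, -Real.pi < φ ∧ u < φ ∧ φ < Real.pi ∧ ga G φ = φ := by
  have h1 : ∀ᶠ φ in 𝓝[<] Real.pi, φ ∈ Ioo (-Real.pi) Real.pi → ga G φ = φ :=
    h.ga_end_pos.filter_mono nhdsWithin_le_nhds
  have hpi : max u (-Real.pi) < Real.pi := max_lt hu (by have := Real.pi_pos; linarith)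
  have h2 : ∀ᶠ φ in 𝓝[<] Real.pi, φ ∈ Ioo (max u (-Real.pi)) Real.pi :=
    Ioo_mem_nhdsLT hpi
  obtain ⟨φ, ha, hb⟩ := (h1.and h2).exists
  exact ⟨φ, (le_max_right _ _).trans_lt hb.1, (le_max_left _ _).trans_lt hb.1, hb.2,
    ha ⟨(le_max_right _ _).trans_lt hb.1, hb.2⟩⟩

lemma strictMonoOn_ga (h : Pl B G) : StrictMonoOn (ga G) (Ioo (-Real.pi) Real.pi) := by
  have hpi : -Real.pi < Real.pi := by have := Real.pi_pos; linarith
  rcases h.continuousOn_ga.strictMonoOn_of_injOn_Ioo hpi h.injOn_ga with hm | ha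
  · exact hm
  · exfalso
    obtain ⟨φ, h1, -, h3, h4⟩ := h.exists_neg hpi
    obtain ⟨ψ, h5, h6, h7, h8⟩ := h.exists_neg h1
    have := ha ⟨h5, h7⟩ ⟨h1, h3⟩ h6
    rw [h4, h8] at this
    linarith

/-- interpolated angular map. -/
lemma strictMonoOn_mix (h : Pl B G) {b : ℝ} (hb0 : 0 ≤ b) (hb1 : b ≤ 1) :
    StrictMonoOn (fun φ => φ + b * (ga G φ - φ)) (Ioo (-Real.pi) Real.pi) := by
  intro φ hφ ψ hψ hlt
  have h1 := h.strictMonoOn_ga hφ hψ hlt
  show φ + b * (ga G φ - φ) < ψ + b * (ga G ψ - ψ)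
  rcases hb0.eq_or_lt with rfl | hb
  · linarith
  · nlinarith [mul_pos hb (sub_pos.mpr h1), mul_nonneg (sub_nonneg.mpr hb1) (sub_pos.mpr hlt).le]

lemma mix_mem (h : Pl B G) {b : ℝ} (hb0 : 0 ≤ b) (hb1 : b ≤ 1) {φ : ℝ}
    (hφ : φ ∈ Ioo (-Real.pi) Real.pi) :
    φ + b * (ga G φ - φ) ∈ Ioo (-Real.pi) Real.pi := by
  have h1 := h.ga_mem hφ
  have : φ + b * (ga G φ - φ) = (1 - b) * φ + b * ga G φ := by ring
  rw [this]
  obtain ⟨h2, h3⟩ := hφ; obtain ⟨h4, h5⟩ := h1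
  rcases hb0.eq_or_lt with rfl | hb
  · constructor <;> linarith
  · constructor
    · nlinarith [mul_pos hb (sub_pos.mpr h4), mul_nonneg (sub_nonneg.mpr hb1) (sub_pos.mpr h2).le]
    · nlinarith [mul_pos hb (sub_pos.mpr h5), mul_nonneg (sub_nonneg.mpr hb1) (sub_pos.mpr h3).le]

lemma mix_surj (h : Pl B G) {b : ℝ} {ψ : ℝ} (hψ : ψ ∈ Ioo (-Real.pi) Real.pi) :
    ∃ φ ∈ Ioo (-Real.pi) Real.pi, φ + b * (ga G φ - φ) = ψ := by
  obtain ⟨φ1, h1, h2, h3, h4⟩ := h.exists_neg hψ.1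
  obtain ⟨φ2, h5, h6, h7, h8⟩ := h.exists_pos hψ.2
  have hsub : Icc φ1 φ2 ⊆ Ioo (-Real.pi) Real.pi := fun x hx =>
    ⟨h1.trans_le hx.1, hx.2.trans_lt h7⟩
  have hc : ContinuousOn (fun φ => φ + b * (ga G φ - φ)) (Icc φ1 φ2) :=
    continuousOn_id.add (continuousOn_const.mul ((h.continuousOn_ga.mono hsub).sub continuousOn_id))
  have := intermediate_value_Icc (h2.trans h6).le hc
  have hmem : ψ ∈ Icc (φ1 + b * (ga G φ1 - φ1)) (φ2 + b * (ga G φ2 - φ2)) := by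
    rw [h4, h8]; constructor <;> linarith
  obtain ⟨φ, hφ, hφ2⟩ := this hmem
  exact ⟨φ, hsub hφ, hφ2⟩

end Pl

/-! ### polar form of `Gt` -/

noncomputable def ell (G : ℂ → ℂ) (φ : ℝ) : ℝ := (Lg G (zp φ)).re

noncomputable def Ax (ε x : ℝ) : ℝ := Real.smoothTransition (ε * (x - (-1 - 1/ε)))
noncomputable def Bx (ε x : ℝ) : ℝ := Real.smoothTransition (1 * (x - (-2 - 1/ε)))

lemma cut_A (ε : ℝ) (z : ℂ) : cut ε (-1 - 1/ε) z = Ax ε (Real.log ‖z‖) := rfl
lemma cut_B (ε : ℝ) (z : ℂ) : cut 1 (-2 - 1/ε) z = Bx ε (Real.log ‖z‖) := rfl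

lemma Pl.Lg_zp (h : Pl B G) {z : ℂ} (hz : z ≠ 0) : Lg G z = Lg G (zp (ph z)) := by
  have h0 : 0 < ‖z‖ := norm_pos_iff.mpr hz
  conv_lhs => rw [eq_polar z, h.Lg_hom h0]

lemma Pl.im_Lg (h : Pl B G) {z : ℂ} (hz : -z ∈ Complex.slitPlane) :
    (Lg G z).im = ga G (ph z) - ph z := by
  have hz0 : z ≠ 0 := fun h0 => by simp [h0] at hz
  rw [Lg_of_slit hz, Complex.sub_im, Complex.log_im, Complex.log_im, ← h.ph_G hz0]
  rfl

/-- polar coordinates of `Gt z`. -/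
lemma Pl.polar_Gt (h : Pl B G) {ε : ℝ} {z : ℂ} (hz : -z ∈ Complex.slitPlane) :
    -(Gt ε (Lg G) z) ∈ Complex.slitPlane ∧
    Real.log ‖Gt ε (Lg G) z‖ = Real.log ‖z‖ + Ax ε (Real.log ‖z‖) * ell G (ph z) ∧
    ph (Gt ε (Lg G) z) = ph z + Bx ε (Real.log ‖z‖) * (ga G (ph z) - ph z) := by
  have hz0 : z ≠ 0 := fun h0 => by simp [h0] at hz
  have hn : -z ≠ 0 := neg_ne_zero.mpr hz0
  have hexp : -(Gt ε (Lg G) z) = Complex.exp (Complex.log (-z) + Ex ε (Lg G) z) := by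
    rw [Complex.exp_add, Complex.exp_log hn, Gt]; ring
  have him : (Complex.log (-z) + Ex ε (Lg G) z).im =
      ph z + Bx ε (Real.log ‖z‖) * (ga G (ph z) - ph z) := by
    rw [← h.im_Lg hz, ← cut_B]
    simp [Ex, ph, Complex.log_im]
  have hb0 : 0 ≤ Bx ε (Real.log ‖z‖) := Real.smoothTransition.nonneg _
  have hb1 : Bx ε (Real.log ‖z‖) ≤ 1 := Real.smoothTransition.le_one _
  have hmem := h.mix_mem hb0 hb1 (ph_mem hz)
  have hlog : Complex.log (-(Gt ε (Lg G) z)) = Complex.log (-z) + Ex ε (Lg G) z := by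
    rw [hexp]
    apply Complex.log_exp
    · rw [him]; exact hmem.1
    · rw [him]; exact hmem.2.le
  have harg : ph (Gt ε (Lg G) z) = ph z + Bx ε (Real.log ‖z‖) * (ga G (ph z) - ph z) := by
    rw [← him, ← hlog, Complex.log_im]; rfl
  refine ⟨?_, ?_, harg⟩
  · rw [Complex.mem_slitPlane_iff_arg]
    refine ⟨?_, ?_⟩
    · have h1 : Complex.arg (-(Gt ε (Lg G) z)) = ph (Gt ε (Lg G) z) := rfl
      rw [h1, harg]; exact hmem.2.ne
    · rw [hexp]; exact Complex.exp_ne_zero _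
  · have h1 : Real.log ‖Gt ε (Lg G) z‖ = (Complex.log (-(Gt ε (Lg G) z))).re := by
      rw [Complex.log_re, norm_neg]
    rw [h1, hlog, Complex.add_re, Complex.log_re, norm_neg, ell, ← h.Lg_zp hz0, ← cut_A]
    simp [Ex]

lemma Gt_slit {ε : ℝ} {z : ℂ} (hz : -z ∉ Complex.slitPlane) : Gt ε (Lg G) z = z :=
  Gt_of_L (Lg_of_not hz)

/-- two points with the same polar coordinates agree. -/
lemma polar_inj {z w : ℂ} (hz : z ≠ 0) (hw : w ≠ 0) (h1 : Real.log ‖z‖ = Real.log ‖w‖)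
    (h2 : ph z = ph w) : z = w := by
  have h3 : ‖z‖ = ‖w‖ := Real.log_injOn_pos (norm_pos_iff.mpr hz) (norm_pos_iff.mpr hw) h1
  rw [eq_polar z, eq_polar w, h3, h2]

section
variable {Cb mb dm Λ ε : ℝ} (P : Par B G Cb mb dm Λ ε)
include P

lemma Par.Ax_mono {φ : ℝ} {x y : ℝ} (hxy : x < y) :
    x + Ax ε x * ell G φ < y + Ax ε y * ell G φ := by
  have h1 := st_lip (D := 1 / (2 * ε * Λ)) P.abs_dst (ε * (y - (-1 - 1/ε))) (ε * (x - (-1 - 1/ε)))
  have h2 : |ell G φ| ≤ Λ := P.re_le _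
  have he := P.ε0; have hL := P.L0
  have h3 : |Ax ε y - Ax ε x| ≤ (y - x) / (2 * Λ) := by
    have h4 : ε * (y - (-1 - 1/ε)) - ε * (x - (-1 - 1/ε)) = ε * (y - x) := by ring
    rw [h4, abs_of_pos (mul_pos he (sub_pos.mpr hxy))] at h1
    calc |Ax ε y - Ax ε x| ≤ 1 / (2 * ε * Λ) * (ε * (y - x)) := h1
      _ = (y - x) / (2 * Λ) := by field_simp
  have h5 : |(Ax ε y - Ax ε x) * ell G φ| ≤ (y - x) / 2 := by
    rw [abs_mul]
    have h6 : 0 ≤ (y - x) / (2 * Λ) := div_nonneg (sub_pos.mpr hxy).le (by positivity)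
    calc |Ax ε y - Ax ε x| * |ell G φ| ≤ (y - x) / (2 * Λ) * Λ :=
          mul_le_mul h3 h2 (abs_nonneg _) h6
      _ = (y - x) / 2 := by field_simp
  have h7 := (abs_le.mp h5).1
  nlinarith

lemma Ax_low {x : ℝ} (hx : x ≤ -1 - 1/ε) : Ax ε x = 0 :=
  Real.smoothTransition.zero_of_nonpos
    (mul_nonpos_of_nonneg_of_nonpos P.ε0.le (by linarith))

omit P in
lemma Bx_high {x : ℝ} (hx : -1 - 1/ε ≤ x) : Bx ε x = 1 :=
  Real.smoothTransition.one_of_one_le (by linarith)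

/-- `Gt` is injective. -/
lemma Par.inj_Gt (h : Pl B G) : Function.Injective (Gt ε (Lg G)) := by
  intro z w heq
  by_cases hz : -z ∈ Complex.slitPlane
  · by_cases hw : -w ∈ Complex.slitPlane
    · have hz0 : z ≠ 0 := fun h0 => by simp [h0] at hz
      have hw0 : w ≠ 0 := fun h0 => by simp [h0] at hw
      obtain ⟨-, h1, h2⟩ := h.polar_Gt (ε := ε) hz
      obtain ⟨-, h3, h4⟩ := h.polar_Gt (ε := ε) hw
      rw [heq] at h1 h2
      have e1 := h1.symm.trans h3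
      have e2 := h2.symm.trans h4
      have hpz := ph_mem hz
      have hpw := ph_mem hw
      rcases le_total (-1 - 1/ε) (Real.log ‖z‖) with hx | hx
      · rcases le_total (-1 - 1/ε) (Real.log ‖w‖) with hy | hy
        · -- both outer
          rw [Bx_high hx, Bx_high hy] at e2
          have e3 : ph z = ph w := h.strictMonoOn_ga.injOn hpz hpw (by linarith)
          rw [e3] at e1
          have e4 : Real.log ‖z‖ = Real.log ‖w‖ := by
            rcases lt_trichotomy (Real.log ‖z‖) (Real.log ‖w‖) with hlt | heq' | hlt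
            · exact absurd e1 (P.Ax_mono hlt).ne
            · exact heq'
            · exact absurd e1 (P.Ax_mono hlt).ne'
          exact polar_inj hz0 hw0 e4 e3
        · -- z outer, w inner
          rw [Ax_low P hy, zero_mul, add_zero] at e1
          rcases hx.eq_or_lt with hx' | hx'
          · have hx2 : Real.log ‖z‖ ≤ -1 - 1/ε := hx'.ge
            rw [Ax_low P hx2, zero_mul, add_zero] at e1
            rw [e1] at e2
            have e3 := (h.strictMonoOn_mix (b := Bx ε (Real.log ‖w‖))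
              (Real.smoothTransition.nonneg _) (Real.smoothTransition.le_one _)).injOn hpz hpw e2
            exact polar_inj hz0 hw0 e1 e3
          · have h5 := P.Ax_mono (φ := ph z) hx'
            rw [Ax_low P le_rfl, zero_mul, add_zero] at h5
            linarith
      · rcases le_total (-1 - 1/ε) (Real.log ‖w‖) with hy | hy
        · -- z inner, w outer
          rw [Ax_low P hx, zero_mul, add_zero] at e1
          rcases hy.eq_or_lt with hy' | hy'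
          · have hy2 : Real.log ‖w‖ ≤ -1 - 1/ε := hy'.ge
            rw [Ax_low P hy2, zero_mul, add_zero] at e1
            rw [e1] at e2
            have e3 := (h.strictMonoOn_mix (b := Bx ε (Real.log ‖w‖))
              (Real.smoothTransition.nonneg _) (Real.smoothTransition.le_one _)).injOn hpz hpw e2
            exact polar_inj hz0 hw0 e1 e3
          · have h5 := P.Ax_mono (φ := ph w) hy'
            rw [Ax_low P le_rfl, zero_mul, add_zero] at h5
            linarith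
        · -- both inner
          rw [Ax_low P hx, Ax_low P hy, zero_mul, add_zero, zero_mul, add_zero] at e1
          rw [e1] at e2
          have e3 := (h.strictMonoOn_mix (b := Bx ε (Real.log ‖w‖))
            (Real.smoothTransition.nonneg _) (Real.smoothTransition.le_one _)).injOn hpz hpw e2
          exact polar_inj hz0 hw0 e1 e3
    · exfalso
      have h1 := (h.polar_Gt (ε := ε) hz).1
      rw [heq, Gt_slit hw] at h1
      exact hw h1
  · by_cases hw : -w ∈ Complex.slitPlane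
    · exfalso
      have h1 := (h.polar_Gt (ε := ε) hw).1
      rw [← heq, Gt_slit hz] at h1
      exact hz h1
    · rwa [Gt_slit hz, Gt_slit hw] at heq

omit P in
lemma ph_mul_zp {r φ : ℝ} (hr : 0 < r) (hφ : φ ∈ Ioo (-Real.pi) Real.pi) :
    ph ((r : ℂ) * zp φ) = φ := by
  rw [ph, ← mul_neg, Complex.arg_real_mul _ hr, arg_neg_zp hφ]

lemma Par.surj_Gt (h : Pl B G) : Function.Surjective (Gt ε (Lg G)) := by
  intro w
  by_cases hw : -w ∈ Complex.slitPlane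
  · have hw0 : w ≠ 0 := fun h0 => by simp [h0] at hw
    have hpw := ph_mem hw
    -- it is enough to find polar coordinates
    suffices hs : ∃ x φ : ℝ, φ ∈ Ioo (-Real.pi) Real.pi ∧ x + Ax ε x * ell G φ = Real.log ‖w‖ ∧
        φ + Bx ε x * (ga G φ - φ) = ph w by
      obtain ⟨x, φ, hφ, h1, h2⟩ := hs
      set z : ℂ := ((Real.exp x : ℝ) : ℂ) * zp φ with hz
      have hpz : ph z = φ := ph_mul_zp (Real.exp_pos x) hφ
      have hnz : ‖z‖ = Real.exp x := by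
        rw [hz, norm_mul, norm_zp, mul_one, Complex.norm_real, Real.norm_eq_abs,
          abs_of_pos (Real.exp_pos x)]
      have hz0 : z ≠ 0 := by rw [← norm_ne_zero_iff, hnz]; exact (Real.exp_pos x).ne'
      have hzs : -z ∈ Complex.slitPlane := by
        rw [Complex.mem_slitPlane_iff_arg]
        refine ⟨?_, neg_ne_zero.mpr hz0⟩
        have : Complex.arg (-z) = φ := hpz
        rw [this]; exact hφ.2.ne
      obtain ⟨h3, h4, h5⟩ := h.polar_Gt (ε := ε) hzs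
      rw [hnz, Real.log_exp, hpz] at h4 h5
      refine ⟨z, polar_inj ?_ hw0 (h4.trans h1) (h5.trans h2)⟩
      intro h0
      rw [h0] at h3
      simp at h3
    rcases le_total (-1 - 1/ε) (Real.log ‖w‖) with hx | hx
    · obtain ⟨φ, hφ, h1⟩ := h.mix_surj (b := 1) hpw
      -- solve for x
      have hc : Continuous fun x => x + Ax ε x * ell G φ := by
        have : Continuous fun x => Ax ε x := by
          unfold Ax
          exact Real.smoothTransition.continuous.comp (by fun_prop)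
        fun_prop
      set N := Real.log ‖w‖ + |ell G φ| with hN
      have hle : -1 - 1/ε ≤ N := hx.trans (by have := abs_nonneg (ell G φ); linarith)
      have hiv := intermediate_value_Icc hle hc.continuousOn
      have hmem : Real.log ‖w‖ ∈ Icc ((-1 - 1/ε) + Ax ε (-1 - 1/ε) * ell G φ)
          (N + Ax ε N * ell G φ) := by
        rw [Ax_low P le_rfl, zero_mul, add_zero]
        refine ⟨hx, ?_⟩
        have h3 : |Ax ε N * ell G φ| ≤ |ell G φ| := by
          rw [abs_mul]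
          have : |Ax ε N| ≤ 1 := by
            rw [Ax, abs_of_nonneg (Real.smoothTransition.nonneg _)]
            exact Real.smoothTransition.le_one _
          calc |Ax ε N| * |ell G φ| ≤ 1 * |ell G φ| :=
                mul_le_mul_of_nonneg_right this (abs_nonneg _)
            _ = |ell G φ| := one_mul _
        have := (abs_le.mp h3).1
        linarith
      obtain ⟨x, hx1, hx2⟩ := hiv hmem
      exact ⟨x, φ, hφ, hx2, by rw [Bx_high hx1.1]; exact h1⟩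
    · obtain ⟨φ, hφ, h1⟩ := h.mix_surj (b := Bx ε (Real.log ‖w‖)) hpw
      exact ⟨Real.log ‖w‖, φ, hφ, by rw [Ax_low P hx]; ring, h1⟩
  · exact ⟨w, Gt_slit hw⟩

/-- `G` is surjective. -/
lemma Par.surj_G (h : Pl B G) : Function.Surjective G := by
  intro w
  rcases eq_or_ne w 0 with rfl | hw0
  · exact ⟨0, h.zero⟩
  -- scale so that the preimage is large
  have hw' : 0 < ‖w‖ := norm_pos_iff.mpr hw0
  -- choose t large such that every preimage of t w under Gt has norm ≥ 1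
  set t : ℝ := 2 * Real.exp Λ / ‖w‖ with ht
  have ht0 : 0 < t := by positivity
  obtain ⟨z, hz⟩ := P.surj_Gt h ((t : ℂ) * w)
  have h1 := P.norm_Gt_le z
  rw [hz, norm_mul, Complex.norm_real, Real.norm_eq_abs, abs_of_pos ht0] at h1
  have h2 : t * ‖w‖ = 2 * Real.exp Λ := by rw [ht]; field_simp
  have h3 : 2 ≤ ‖z‖ := by
    have := Real.exp_pos Λ
    rw [h2] at h1
    nlinarith
  have hz0 : z ≠ 0 := by
    rw [← norm_ne_zero_iff]; linarith
  have h4 : -1 ≤ Real.log ‖z‖ := by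
    have := Real.log_nonneg (by linarith : (1:ℝ) ≤ ‖z‖)
    linarith
  rw [Gt_of_large P.ε0 h hz0 h4] at hz
  refine ⟨((t⁻¹ : ℝ) : ℂ) * z, ?_⟩
  rw [h.hom _ (inv_nonneg.mpr ht0.le), hz]
  have : (t : ℂ) ≠ 0 := by exact_mod_cast ht0.ne'
  push_cast
  field_simp

end

end Crest.Agent.R096.Ed_276
end

-- ▼ part R096/Ed7_276
section

open Set Metric Filter Topology
open scoped ComplexConjugate

namespace Crest.Agent.R096.Ed_276

/-! ### scaling -/

section scaling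
variable {V F : Type*} [NormedAddCommGroup V] [NormedSpace ℝ V] [NormedAddCommGroup F]
  [NormedSpace ℝ F]

structure ScD (Q g : V → F) (K : ℝ) : Prop where
  K0 : 0 ≤ K
  lip : ∀ x y, ‖Q x - Q y‖ ≤ K * ‖x - y‖
  q0 : Q 0 = 0
  hom : ∀ t : ℝ, 0 ≤ t → ∀ x, g (t • x) = t • g x
  eq : ∀ x, 1 ≤ ‖x‖ → Q x = g x

/-- rescaled map. -/
noncomputable def sc (Q g : V → F) (R : ℝ) (x : V) : F :=
  open Classical in if R = 0 then g x else R • Q (R⁻¹ • x)

variable {Q g : V → F} {K : ℝ}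

lemma sc_zero (x : V) : sc Q g 0 x = g x := by simp [sc]

lemma sc_pos {R : ℝ} (hR : R ≠ 0) (x : V) : sc Q g R x = R • Q (R⁻¹ • x) := by simp [sc, hR]

namespace ScD

lemma sc_of_le (h : ScD Q g K) {R : ℝ} (hR : 0 ≤ R) {x : V} (hx : R ≤ ‖x‖) : sc Q g R x = g x := by
  rcases hR.eq_or_lt with rfl | hR'
  · exact sc_zero x
  · rw [sc_pos hR'.ne', h.eq, h.hom _ (inv_nonneg.mpr hR), smul_smul, mul_inv_cancel₀ hR'.ne',
      one_smul]
    rw [norm_smul, norm_inv, Real.norm_eq_abs, abs_of_pos hR', ← div_eq_inv_mul,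
      le_div_iff₀ hR', one_mul]
    exact hx

lemma g0 (h : ScD Q g K) : g 0 = 0 := by
  have := h.hom 0 le_rfl 0
  simpa using this

lemma qnorm (h : ScD Q g K) (x : V) : ‖Q x‖ ≤ K * ‖x‖ := by
  have := h.lip x 0
  simpa [h.q0] using this

lemma g_lip (h : ScD Q g K) (x y : V) : ‖g x - g y‖ ≤ K * ‖x - y‖ := by
  -- for `z ≠ 0` and large `t`, `g z = t⁻¹ Q (t z)`
  have key : ∀ z : V, ∃ T : ℝ, 0 < T ∧ ∀ t ≥ T, g z = t⁻¹ • Q (t • z) := by
    intro z
    rcases eq_or_ne z 0 with rfl | hz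
    · refine ⟨1, one_pos, fun t _ => ?_⟩
      rw [smul_zero, h.q0, smul_zero, h.g0]
    · have hz' : 0 < ‖z‖ := norm_pos_iff.mpr hz
      refine ⟨1 / ‖z‖, by positivity, fun t ht => ?_⟩
      have ht0 : 0 < t := lt_of_lt_of_le (by positivity) ht
      rw [h.eq, h.hom t ht0.le, smul_smul, inv_mul_cancel₀ ht0.ne', one_smul]
      rw [norm_smul, Real.norm_eq_abs, abs_of_pos ht0]
      have := (div_le_iff₀ hz').mp ht
      exact this
  obtain ⟨T1, hT1, h1⟩ := key x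
  obtain ⟨T2, hT2, h2⟩ := key y
  set t := max T1 T2
  have ht0 : 0 < t := lt_max_of_lt_left hT1
  rw [h1 t (le_max_left _ _), h2 t (le_max_right _ _), ← smul_sub, norm_smul, norm_inv,
    Real.norm_eq_abs, abs_of_pos ht0]
  have h3 := h.lip (t • x) (t • y)
  rw [← smul_sub, norm_smul, Real.norm_eq_abs, abs_of_pos ht0] at h3
  calc t⁻¹ * ‖Q (t • x) - Q (t • y)‖ ≤ t⁻¹ * (K * (t * ‖x - y‖)) := by gcongr
    _ = K * ‖x - y‖ := by field_simp

lemma sc_lipx (h : ScD Q g K) {R : ℝ} (hR : 0 ≤ R) (x y : V) :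
    ‖sc Q g R x - sc Q g R y‖ ≤ K * ‖x - y‖ := by
  rcases hR.eq_or_lt with rfl | hR'
  · rw [sc_zero, sc_zero]; exact h.g_lip x y
  · rw [sc_pos hR'.ne', sc_pos hR'.ne', ← smul_sub, norm_smul, Real.norm_eq_abs, abs_of_pos hR']
    have h3 := h.lip (R⁻¹ • x) (R⁻¹ • y)
    rw [← smul_sub, norm_smul, norm_inv, Real.norm_eq_abs, abs_of_pos hR'] at h3
    calc R * ‖Q (R⁻¹ • x) - Q (R⁻¹ • y)‖ ≤ R * (K * (R⁻¹ * ‖x - y‖)) := by gcongr
      _ = K * ‖x - y‖ := by field_simp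

lemma sc_at0 (h : ScD Q g K) (R : ℝ) : sc Q g R 0 = 0 := by
  by_cases hR : R = 0
  · rw [hR, sc_zero, h.g0]
  · rw [sc_pos hR, smul_zero, h.q0, smul_zero]

lemma sc_norm (h : ScD Q g K) {R : ℝ} (hR : 0 ≤ R) (x : V) : ‖sc Q g R x‖ ≤ K * ‖x‖ := by
  have := h.sc_lipx hR x 0
  simpa [h.sc_at0] using this

lemma sc_lipR_aux (h : ScD Q g K) {R R' : ℝ} (hR : 0 ≤ R) (hRR : R ≤ R') (x : V) :
    ‖sc Q g R x - sc Q g R' x‖ ≤ 2 * K * (R' - R) := by
  have hK := h.K0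
  have hR' : 0 ≤ R' := hR.trans hRR
  rcases le_or_gt R' ‖x‖ with h1 | h1
  · rw [h.sc_of_le hR' h1, h.sc_of_le hR (hRR.trans h1), sub_self, norm_zero]
    exact mul_nonneg (by positivity) (sub_nonneg.mpr hRR)
  -- replace R by ρ = max R ‖x‖
  set ρ := max R ‖x‖ with hρ
  have hρR : sc Q g R x = sc Q g ρ x := by
    rcases le_or_gt ‖x‖ R with h2 | h2
    · rw [hρ, max_eq_left h2]
    · rw [hρ, max_eq_right h2.le, h.sc_of_le hR h2.le, h.sc_of_le (norm_nonneg _) le_rfl]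
  have hρ0 : 0 ≤ ρ := hR.trans (le_max_left _ _)
  have hρR' : ρ ≤ R' := max_le hRR h1.le
  have hxρ : ‖x‖ ≤ ρ := le_max_right _ _
  rw [hρR]
  rcases hρ0.eq_or_lt with h0 | hpos
  · have hx0 : x = 0 := by
      rw [← norm_le_zero_iff, h0]; exact hxρ
    rw [hx0, h.sc_at0, h.sc_at0, sub_self, norm_zero]
    exact mul_nonneg (by positivity) (sub_nonneg.mpr hRR)
  have hR'pos : 0 < R' := hpos.trans_le hρR'
  rw [sc_pos hpos.ne', sc_pos hR'pos.ne']
  have e : ρ • Q (ρ⁻¹ • x) - R' • Q (R'⁻¹ • x) =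
      ρ • (Q (ρ⁻¹ • x) - Q (R'⁻¹ • x)) - (R' - ρ) • Q (R'⁻¹ • x) := by module
  rw [e]
  have h3 : ‖ρ • (Q (ρ⁻¹ • x) - Q (R'⁻¹ • x))‖ ≤ K * (R' - ρ) := by
    rw [norm_smul, Real.norm_eq_abs, abs_of_pos hpos]
    have h4 := h.lip (ρ⁻¹ • x) (R'⁻¹ • x)
    rw [← sub_smul, norm_smul, Real.norm_eq_abs,
      abs_of_nonneg (sub_nonneg.mpr (inv_anti₀ hpos hρR'))] at h4
    calc ρ * ‖Q (ρ⁻¹ • x) - Q (R'⁻¹ • x)‖ ≤ ρ * (K * ((ρ⁻¹ - R'⁻¹) * ‖x‖)) := by gcongr
      _ = K * ((R' - ρ) * (‖x‖ / R')) := by field_simp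
      _ ≤ K * ((R' - ρ) * 1) := by
          have : ‖x‖ / R' ≤ 1 := (div_le_one hR'pos).mpr h1.le
          have h5 : 0 ≤ R' - ρ := sub_nonneg.mpr hρR'
          gcongr
      _ = K * (R' - ρ) := by ring
  have h6 : ‖(R' - ρ) • Q (R'⁻¹ • x)‖ ≤ K * (R' - ρ) := by
    have h5 : 0 ≤ R' - ρ := sub_nonneg.mpr hρR'
    rw [norm_smul, Real.norm_eq_abs, abs_of_nonneg h5]
    have h7 := h.qnorm (R'⁻¹ • x)
    rw [norm_smul, norm_inv, Real.norm_eq_abs, abs_of_pos hR'pos] at h7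
    calc (R' - ρ) * ‖Q (R'⁻¹ • x)‖ ≤ (R' - ρ) * (K * (R'⁻¹ * ‖x‖)) := by gcongr
      _ ≤ (R' - ρ) * (K * 1) := by
          have : R'⁻¹ * ‖x‖ ≤ 1 := by
            rw [← div_eq_inv_mul]; exact (div_le_one hR'pos).mpr h1.le
          gcongr
      _ = K * (R' - ρ) := by ring
  have h8 : R ≤ ρ := le_max_left _ _
  calc _ ≤ K * (R' - ρ) + K * (R' - ρ) := (norm_sub_le _ _).trans (add_le_add h3 h6)
    _ = 2 * K * (R' - ρ) := by ring
    _ ≤ 2 * K * (R' - R) := by gcongr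

lemma sc_lipR (h : ScD Q g K) {R R' : ℝ} (hR : 0 ≤ R) (hR' : 0 ≤ R') (x : V) :
    ‖sc Q g R x - sc Q g R' x‖ ≤ 2 * K * |R - R'| := by
  rcases le_total R R' with h1 | h1
  · have := h.sc_lipR_aux hR h1 x
    rwa [abs_sub_comm, abs_of_nonneg (sub_nonneg.mpr h1)]
  · have := h.sc_lipR_aux hR' h1 x
    rwa [norm_sub_rev, abs_of_nonneg (sub_nonneg.mpr h1)]

end ScD

end scaling

/-! ### a real function close to the identity is bijective -/

lemma bij_real {f : ℝ → ℝ} (h : ∀ s t, |(f s - f t) - (s - t)| ≤ 1 / 2 * |s - t|) :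
    Function.Bijective f := by
  have hmono : ∀ s t, t < s → (s - t) / 2 ≤ f s - f t := by
    intro s t hst
    have h1 := (abs_le.mp (h s t)).1
    rw [abs_of_pos (sub_pos.mpr hst)] at h1
    linarith
  refine ⟨?_, ?_⟩
  · have : StrictMono f := fun t s hst => by
      have := hmono s t hst
      have h2 : 0 < (s - t) / 2 := by linarith
      linarith
    exact this.injective
  · intro c
    have hc : Continuous f := by
      have hl : LipschitzWith 2 f := by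
        refine LipschitzWith.of_dist_le_mul fun s t => ?_
        rw [Real.dist_eq, Real.dist_eq]
        have h1 := h s t
        have h2 : |f s - f t| ≤ |(f s - f t) - (s - t)| + |s - t| := by
          have := abs_add_le ((f s - f t) - (s - t)) (s - t)
          simpa using this
        have h3 : ((2 : NNReal) : ℝ) = 2 := rfl
        rw [h3]
        have := abs_nonneg (s - t)
        linarith
      exact hl.continuous
    set N := 2 * (|c| + |f 0|) + 1 with hN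
    have hN0 : 0 < N := by positivity
    have h1 := hmono N 0 hN0
    have h2 := hmono 0 (-N) (by linarith)
    have hc1 := le_abs_self c; have hc2 := neg_abs_le c
    have hf1 := le_abs_self (f 0); have hf2 := neg_abs_le (f 0)
    have hiv := intermediate_value_Icc (by linarith : -N ≤ N) hc.continuousOn
    have hmem : c ∈ Icc (f (-N)) (f N) := ⟨by linarith, by linarith⟩
    obtain ⟨x, -, hx⟩ := hiv hmem
    exact ⟨x, hx⟩

end Crest.Agent.R096.Ed_276
end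

-- ▼ part R096/Ed8_276
section

open Set Metric Filter Topology
open scoped ComplexConjugate

namespace Crest.Agent.R096.Ed_276

/-- planar data with the vertical component. -/
structure Pl2 {ι : Type*} (B : ι → ℂ →L[ℝ] ℂ) (l : ι → ℂ →L[ℝ] ℝ) (G : ℂ → ℂ) (lam : ℂ → ℝ) :
    Prop extends Pl B G where
  contl : Continuous lam
  homl : ∀ t : ℝ, 0 ≤ t → ∀ z, lam (t * z) = t * lam z
  sel2 : ∀ z, ∃ i, G z = B i z ∧ lam z = l i z

/-- cut-off of the vertical component. -/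
noncomputable def lt (lam : ℂ → ℝ) (z : ℂ) : ℝ := cut 1 (-1) z * lam z

noncomputable def dlt (lam : ℂ → ℝ) (z : ℂ) (l : ℂ →L[ℝ] ℝ) : ℂ →L[ℝ] ℝ :=
  cut 1 (-1) z • l + lam z • (dcut 1 (-1) z • dlz z)

noncomputable def Q2 (ε : ℝ) (G : ℂ → ℂ) (lam : ℂ → ℝ) (z : ℂ) : M := (Gt ε (Lg G) z, lt lam z)

noncomputable def g2 (G : ℂ → ℂ) (lam : ℂ → ℝ) (z : ℂ) : M := (G z, lam z)

variable {ι : Type*} {B : ι → ℂ →L[ℝ] ℂ} {l : ι → ℂ →L[ℝ] ℝ} {G : ℂ → ℂ} {lam : ℂ → ℝ}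

lemma lt_of_small {z : ℂ} (h : ‖z‖ ≤ Real.exp (-1)) (h0 : lam 0 = 0) : lt lam z = 0 := by
  rcases eq_or_ne z 0 with rfl | hz
  · rw [lt, h0, mul_zero]
  · rw [lt, cut_zero zero_le_one (log_small hz h), zero_mul]

lemma lt_of_large {z : ℂ} (h : 1 ≤ ‖z‖) : lt lam z = lam z := by
  have h1 : 0 ≤ Real.log ‖z‖ := Real.log_nonneg h
  rw [lt, cut_one (by linarith), one_mul]

lemma Pl2.lam0 (h : Pl2 B l G lam) : lam 0 = 0 := by
  have := h.homl 0 le_rfl 0
  simpa using this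

lemma Gt_of_ge {ε : ℝ} (hε : 0 < ε) (h : Pl B G) {z : ℂ} (hz : Real.exp (-1) ≤ ‖z‖) :
    Gt ε (Lg G) z = G z := by
  have h1 : 0 < ‖z‖ := (Real.exp_pos _).trans_le hz
  refine Gt_of_large hε h (norm_pos_iff.mp h1) ?_
  rw [← Real.log_exp (-1)]
  exact Real.log_le_log (Real.exp_pos _) hz

lemma hasFDerivAt_lt {z : ℂ} (hz : z ≠ 0) {l : ℂ →L[ℝ] ℝ} (hl : HasFDerivAt lam l z) :
    HasFDerivAt (lt lam) (dlt lam z l) z :=
  (hasFDerivAt_cut 1 (-1) hz).mul hl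

lemma norm_dlt {Cl D : ℝ} (hD : ∀ x, |dst x| ≤ D) {l : ℂ →L[ℝ] ℝ} (hCl : ∀ v, |l v| ≤ Cl * ‖v‖)
    (hCl0 : 0 ≤ Cl) {z : ℂ} (hz : z ≠ 0) (hlam : |lam z| ≤ Cl * ‖z‖) (v : ℂ) :
    ‖dlt lam z l v‖ ≤ (Cl + Cl * D) * ‖v‖ := by
  have hz' : 0 < ‖z‖ := norm_pos_iff.mpr hz
  have h1 : |cut 1 (-1) z * l v| ≤ Cl * ‖v‖ := by
    rw [abs_mul]
    calc |cut 1 (-1) z| * |l v| ≤ 1 * |l v| :=
          mul_le_mul_of_nonneg_right (abs_cut_le_one _ _ _) (abs_nonneg _)
      _ ≤ Cl * ‖v‖ := by rw [one_mul]; exact hCl v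
  have hd : |dcut 1 (-1) z| ≤ D := by rw [dcut, mul_one]; exact hD _
  have hD0 : 0 ≤ D := (abs_nonneg _).trans hd
  have h2 : |lam z * (dcut 1 (-1) z * dlz z v)| ≤ Cl * D * ‖v‖ := by
    rw [abs_mul, abs_mul]
    calc |lam z| * (|dcut 1 (-1) z| * |dlz z v|) ≤ (Cl * ‖z‖) * (D * (‖v‖ / ‖z‖)) := by
          have := dlz_norm_le z v
          gcongr
      _ = Cl * D * ‖v‖ := by field_simp
  have h3 : dlt lam z l v = cut 1 (-1) z * l v + lam z * (dcut 1 (-1) z * dlz z v) := by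
    simp [dlt]
  rw [h3, Real.norm_eq_abs]
  calc _ ≤ _ := abs_add_le _ _
    _ ≤ (Cl + Cl * D) * ‖v‖ := by linarith

lemma Pl2.lip_lt [Finite ι] (h : Pl2 B l G lam) {Cl D : ℝ} (hD : ∀ x, |dst x| ≤ D)
    (hCl : ∀ i v, |l i v| ≤ Cl * ‖v‖) (hCl0 : 0 ≤ Cl) (z w : ℂ) :
    ‖lt lam z - lt lam w‖ ≤ ((Cl + Cl * D) + 1) * ‖z - w‖ := by
  have hD0 : 0 ≤ D := (abs_nonneg _).trans (hD 0)
  have hcont : Continuous (lt lam) := by
    rw [continuous_iff_continuousAt]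
    intro z
    rcases eq_or_ne z 0 with rfl | hz
    · refine (continuousAt_const (y := (0:ℝ))).congr ?_
      filter_upwards [eventually_small (-1)] with w hw
      exact (lt_of_small hw h.lam0).symm
    · exact (continuousAt_cut _ _ hz).mul h.contl.continuousAt
  refine lip_cover (C := fun i => {z | G z = B i z ∧ lam z = l i z})
    (fun i => (isClosed_eq h.cont (B i).continuous).inter (isClosed_eq h.contl (l i).continuous))
    h.sel2 ?_ hcont z w
  intro i z hzi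
  rcases eq_or_ne z 0 with rfl | hz
  · filter_upwards [eventually_small (-1)] with w hw _
    rw [lt_of_small hw h.lam0, lt_of_small (by simpa using (Real.exp_pos _).le) h.lam0, sub_self,
      norm_zero]
    positivity
  · have h1 := hasFDerivAt_lt hz (l i).hasFDerivAt
    have hb : |(l i) z| ≤ Cl * ‖z‖ := hCl i z
    have h2 := eventually_of_fderiv h1 (norm_dlt hD (hCl i) hCl0 hz hb)
    filter_upwards [h2] with w hw hwi
    have e1 : lt lam w = lt (fun x => l i x) w := by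
      rw [lt, lt, hwi.2]
    have e2 : lt lam z = lt (fun x => l i x) z := by
      rw [lt, lt, hzi.2]
    rw [e1, e2]
    exact hw

/-- the scaling data of the pair. -/
lemma Pl2.exists_scD [Finite ι] (h : Pl2 B l G lam) {Cb mb dm Λ ε : ℝ} (P : Par B G Cb mb dm Λ ε) :
    ∃ K Cl : ℝ, 0 ≤ Cl ∧ (∀ i v, |l i v| ≤ Cl * ‖v‖) ∧ ScD (Q2 ε G lam) (g2 G lam) K := by
  obtain ⟨Cl, hCl0, hCl⟩ : ∃ C : ℝ, 0 ≤ C ∧ ∀ i v, |l i v| ≤ C * ‖v‖ := by
    obtain ⟨C, hC⟩ := (Set.finite_range fun i => ‖l i‖).bddAbove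
    refine ⟨max C 0, le_max_right _ _, fun i v => ?_⟩
    have := (l i).le_opNorm v
    rw [Real.norm_eq_abs] at this
    exact this.trans (mul_le_mul_of_nonneg_right ((hC ⟨i, rfl⟩).trans (le_max_left _ _))
      (norm_nonneg _))
  obtain ⟨D, hD0, hD⟩ := exists_dst_bound
  have hC1 : 0 ≤ C1 Cb mb Λ ε := by
    have h1 := P.Cb0; have h2 := P.m0; have h3 := P.ε0
    unfold C1; positivity
  set K : ℝ := (C1 Cb mb Λ ε + 1) + ((Cl + Cl * D) + 1) with hK
  refine ⟨K, Cl, hCl0, hCl, ⟨by positivity, fun x y => ?_, ?_, fun t ht x => ?_, fun x hx => ?_⟩⟩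
  · have h1 := h.toPl.lip_Gt P x y
    have h2 := h.lip_lt hD hCl hCl0 x y
    have h3 : ‖Q2 ε G lam x - Q2 ε G lam y‖ =
        max ‖Gt ε (Lg G) x - Gt ε (Lg G) y‖ ‖lt lam x - lt lam y‖ := rfl
    rw [h3]
    have hn := norm_nonneg (x - y)
    refine max_le (h1.trans ?_) (h2.trans ?_)
    · exact mul_le_mul_of_nonneg_right (by rw [hK]; nlinarith) hn
    · exact mul_le_mul_of_nonneg_right (by rw [hK]; nlinarith) hn
  · have h1 : Gt ε (Lg G) 0 = 0 := by simp [Gt]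
    have h2 : lt lam 0 = 0 := by rw [lt, h.lam0, mul_zero]
    rw [Q2, h1, h2]; rfl
  · simp only [g2, Complex.real_smul, h.hom t ht, h.homl t ht]
    rfl
  · have h1 : Real.exp (-1) ≤ ‖x‖ := by
      have : Real.exp (-1) ≤ 1 := Real.exp_le_one_iff.mpr (by norm_num)
      linarith
    rw [Q2, g2, Gt_of_ge P.ε0 h.toPl h1, lt_of_large hx]

/-! ### the model map -/

/-- model of the rounded edge map on `ℂ × ℝ`. -/
noncomputable def TM (Q g : ℂ → M) (R : ℝ → ℝ) (x : M) : M := sc Q g (R x.2) x.1 + (0, x.2)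

section
variable {Cb mb dm Λ ε K : ℝ} (P : Par B G Cb mb dm Λ ε) (h : Pl2 B l G lam)

include P h

lemma sc_fst_inj {R : ℝ} (_hR : 0 ≤ R) :
    Function.Injective fun z => (sc (Q2 ε G lam) (g2 G lam) R z).1 := by
  rcases eq_or_ne R 0 with rfl | hR'
  · intro z w hzw
    simp only [sc_zero, g2] at hzw
    exact h.inj hzw
  · intro z w hzw
    simp only [sc_pos hR', Q2, Prod.smul_fst] at hzw
    have h1 := P.inj_Gt h.toPl (smul_right_injective ℂ hR' hzw)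
    exact smul_right_injective ℂ (inv_ne_zero hR') h1

lemma sc_fst_surj {R : ℝ} (_hR : 0 ≤ R) :
    Function.Surjective fun z => (sc (Q2 ε G lam) (g2 G lam) R z).1 := by
  rcases eq_or_ne R 0 with rfl | hR'
  · intro w
    obtain ⟨z, hz⟩ := P.surj_G h.toPl w
    exact ⟨z, by simp only [sc_zero, g2]; exact hz⟩
  · intro w
    obtain ⟨z, hz⟩ := P.surj_Gt h.toPl (R⁻¹ • w)
    refine ⟨R • z, ?_⟩
    simp only [sc_pos hR', Q2, Prod.smul_fst, smul_smul, inv_mul_cancel₀ hR', one_smul, hz,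
      mul_inv_cancel₀ hR']

/-- the vertical component only depends on the horizontal image. -/
lemma sc_snd_eq {R : ℝ} (hR : 0 ≤ R) {z y : ℂ}
    (hzy : (sc (Q2 ε G lam) (g2 G lam) R z).1 = G y) :
    (sc (Q2 ε G lam) (g2 G lam) R z).2 = (sc (Q2 ε G lam) (g2 G lam) R y).2 := by
  rcases hR.eq_or_lt with rfl | hR'
  · simp only [sc_zero, g2] at hzy ⊢
    rw [h.inj hzy]
  · have hR0 := hR'.ne'
    have hfst : ∀ w : ℂ, Real.exp (-1) * R ≤ ‖w‖ →
        (sc (Q2 ε G lam) (g2 G lam) R w).1 = G w := by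
      intro w hw
      have h1 : Real.exp (-1) ≤ ‖R⁻¹ • w‖ := by
        rw [norm_smul, norm_inv, Real.norm_eq_abs, abs_of_pos hR', ← div_eq_inv_mul,
          le_div_iff₀ hR']
        exact hw
      simp only [sc_pos hR0, Q2, Prod.smul_fst]
      rw [Gt_of_ge P.ε0 h.toPl h1, Complex.real_smul, Complex.real_smul,
        h.hom _ (inv_nonneg.mpr hR)]
      have : (R : ℂ) ≠ 0 := by exact_mod_cast hR0
      push_cast
      field_simp
    have hsnd : ∀ w : ℂ, ‖w‖ < Real.exp (-1) * R →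
        (sc (Q2 ε G lam) (g2 G lam) R w).2 = 0 := by
      intro w hw
      have h1 : ‖R⁻¹ • w‖ ≤ Real.exp (-1) := by
        rw [norm_smul, norm_inv, Real.norm_eq_abs, abs_of_pos hR', ← div_eq_inv_mul,
          div_le_iff₀ hR']
        exact hw.le
      simp only [sc_pos hR0, Q2, Prod.smul_snd]
      rw [lt_of_small h1 h.lam0, smul_zero]
    rcases le_or_gt (Real.exp (-1) * R) ‖z‖ with hz | hz
    · rw [hfst z hz] at hzy
      rw [h.inj hzy]
    · rcases le_or_gt (Real.exp (-1) * R) ‖y‖ with hy | hy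
      · have := sc_fst_inj P h hR (a₁ := z) (a₂ := y) (hzy.trans (hfst y hy).symm)
        rw [this]
      · rw [hsnd z hz, hsnd y hy]

variable (hS : ScD (Q2 ε G lam) (g2 G lam) K) {R : ℝ → ℝ} {ε₀ : ℝ} (hR : ∀ s, 0 ≤ R s)
  (hRL : ∀ s t, |R s - R t| ≤ ε₀ * |s - t|) (hε₀ : 4 * K * ε₀ ≤ 1)

include hS hR hRL hε₀

omit P h in
lemma vert_lip (y : ℂ) (s t : ℝ) :
    ‖sc (Q2 ε G lam) (g2 G lam) (R s) y - sc (Q2 ε G lam) (g2 G lam) (R t) y‖ ≤
      1 / 2 * |s - t| := by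
  have h1 := hS.sc_lipR (hR s) (hR t) y
  have h2 := hRL s t
  have hK := hS.K0
  calc _ ≤ 2 * K * |R s - R t| := h1
    _ ≤ 2 * K * (ε₀ * |s - t|) := by gcongr
    _ = 1 / 2 * (4 * K * ε₀) * |s - t| := by ring
    _ ≤ 1 / 2 * 1 * |s - t| := by gcongr
    _ = 1 / 2 * |s - t| := by ring

omit P h in
lemma vert_bij (y : ℂ) :
    Function.Bijective fun s => s + (sc (Q2 ε G lam) (g2 G lam) (R s) y).2 := by
  refine bij_real fun s t => ?_
  have h1 := vert_lip hS hR hRL hε₀ y s t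
  have h2 : |(sc (Q2 ε G lam) (g2 G lam) (R s) y).2 - (sc (Q2 ε G lam) (g2 G lam) (R t) y).2| ≤
      ‖sc (Q2 ε G lam) (g2 G lam) (R s) y - sc (Q2 ε G lam) (g2 G lam) (R t) y‖ :=
    norm_snd_le (sc (Q2 ε G lam) (g2 G lam) (R s) y - sc (Q2 ε G lam) (g2 G lam) (R t) y)
  calc _ = |(sc (Q2 ε G lam) (g2 G lam) (R s) y).2 - (sc (Q2 ε G lam) (g2 G lam) (R t) y).2| := by
        congr 1; ring
    _ ≤ _ := h2.trans h1

lemma TM_bij : Function.Bijective (TM (Q2 ε G lam) (g2 G lam) R) := by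
  refine ⟨?_, ?_⟩
  · rintro ⟨z, s⟩ ⟨w, t⟩ heq
    have e1 : (sc (Q2 ε G lam) (g2 G lam) (R s) z).1 = (sc (Q2 ε G lam) (g2 G lam) (R t) w).1 := by
      have := congrArg Prod.fst heq
      simpa [TM] using this
    have e2 : (sc (Q2 ε G lam) (g2 G lam) (R s) z).2 + s =
        (sc (Q2 ε G lam) (g2 G lam) (R t) w).2 + t := by
      have := congrArg Prod.snd heq
      simpa [TM] using this
    obtain ⟨y, hy⟩ := P.surj_G h.toPl (sc (Q2 ε G lam) (g2 G lam) (R s) z).1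
    have e3 := sc_snd_eq P h (hR s) hy.symm
    have e4 := sc_snd_eq P h (hR t) (e1.symm.trans hy.symm)
    rw [e3, e4] at e2
    have e5 : s = t := (vert_bij hS hR hRL hε₀ y).injective
      (by show s + _ = t + _; linarith)
    subst e5
    have e6 : z = w := sc_fst_inj P h (hR s) e1
    rw [e6]
  · rintro ⟨ζ, c⟩
    obtain ⟨y, hy⟩ := P.surj_G h.toPl ζ
    obtain ⟨s, hs⟩ := (vert_bij hS hR hRL hε₀ y).surjective c
    obtain ⟨z, hz⟩ := sc_fst_surj P h (hR s) ζ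
    have e3 := sc_snd_eq P h (hR s) (z := z) (y := y) (by rw [hy]; exact hz)
    refine ⟨(z, s), ?_⟩
    have hs' : s + (sc (Q2 ε G lam) (g2 G lam) (R s) y).2 = c := hs
    have hz' : (sc (Q2 ε G lam) (g2 G lam) (R s) z).1 = ζ := hz
    apply Prod.ext
    · simpa [TM] using hz'
    · simp only [TM, Prod.snd_add]
      rw [e3]; linarith

omit P h in
lemma TM_lip (x y : M) : ‖TM (Q2 ε G lam) (g2 G lam) R x - TM (Q2 ε G lam) (g2 G lam) R y‖ ≤
    (K + 2) * ‖x - y‖ := by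
  have h1 := hS.sc_lipx (hR x.2) x.1 y.1
  have h2 := vert_lip hS hR hRL hε₀ y.1 x.2 y.2
  have h3 : ‖x.1 - y.1‖ ≤ ‖x - y‖ := norm_fst_le (x - y)
  have h4 : |x.2 - y.2| ≤ ‖x - y‖ := norm_snd_le (x - y)
  have e : TM (Q2 ε G lam) (g2 G lam) R x - TM (Q2 ε G lam) (g2 G lam) R y =
      (sc (Q2 ε G lam) (g2 G lam) (R x.2) x.1 - sc (Q2 ε G lam) (g2 G lam) (R x.2) y.1) +
      (sc (Q2 ε G lam) (g2 G lam) (R x.2) y.1 - sc (Q2 ε G lam) (g2 G lam) (R y.2) y.1) +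
      (0, x.2 - y.2) := by
    have : ((0 : ℂ), x.2 - y.2) = ((0:ℂ), x.2) - ((0:ℂ), y.2) := by simp
    rw [this, TM, TM]; abel
  have h5 : ‖((0 : ℂ), x.2 - y.2)‖ = |x.2 - y.2| := by
    simp [Prod.norm_def]
  rw [e]
  have hK := hS.K0
  calc _ ≤ ‖sc (Q2 ε G lam) (g2 G lam) (R x.2) x.1 - sc (Q2 ε G lam) (g2 G lam) (R x.2) y.1‖ +
        ‖sc (Q2 ε G lam) (g2 G lam) (R x.2) y.1 - sc (Q2 ε G lam) (g2 G lam) (R y.2) y.1‖ +
        ‖((0 : ℂ), x.2 - y.2)‖ := (norm_add_le _ _).trans (by gcongr; exact norm_add_le _ _)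
    _ ≤ K * ‖x - y‖ + 1 / 2 * ‖x - y‖ + ‖x - y‖ := by
        rw [h5]
        have := mul_le_mul_of_nonneg_left h3 hK
        gcongr
        · exact h1.trans this
        · exact h2.trans (by gcongr)
    _ ≤ (K + 2) * ‖x - y‖ := by nlinarith [norm_nonneg (x - y)]

lemma TM_homeo (hε1 : ε₀ ≤ 1) : IsHomeomorph (TM (Q2 ε G lam) (g2 G lam) R) := by
  have hc : Continuous (TM (Q2 ε G lam) (g2 G lam) R) := by
    have : LipschitzWith (Real.toNNReal (K + 2)) (TM (Q2 ε G lam) (g2 G lam) R) := by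
      refine LipschitzWith.of_dist_le_mul fun x y => ?_
      rw [dist_eq_norm, dist_eq_norm, Real.coe_toNNReal _ (by have := hS.K0; linarith)]
      exact TM_lip hS hR hRL hε₀ x y
    exact this.continuous
  rw [isHomeomorph_iff_continuous_isClosedMap_bijective]
  refine ⟨hc, ?_, TM_bij P h hS hR hRL hε₀⟩
  have hprop : IsProperMap (TM (Q2 ε G lam) (g2 G lam) R) := by
    rw [isProperMap_iff_tendsto_cocompact]
    refine ⟨hc, Filter.tendsto_cocompact_cocompact_of_norm fun β => ?_⟩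
    set b := max β 0 with hb
    have hb0 : 0 ≤ b := le_max_right _ _
    have hm := P.m0
    have hK := hS.K0
    refine ⟨b / mb + (b + K * (b / mb)) + R 0 + (b + K * (b / mb)), fun x hx => ?_⟩
    by_contra hcon
    have hle : ‖TM (Q2 ε G lam) (g2 G lam) R x‖ ≤ b := (not_lt.mp hcon).trans (le_max_left _ _)
    obtain ⟨z, s⟩ := x
    have h1 : ‖(sc (Q2 ε G lam) (g2 G lam) (R s) z).1‖ ≤ b := by
      have := norm_fst_le (TM (Q2 ε G lam) (g2 G lam) R (z, s))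
      have e : (TM (Q2 ε G lam) (g2 G lam) R (z, s)).1 =
          (sc (Q2 ε G lam) (g2 G lam) (R s) z).1 := by simp [TM]
      rw [e] at this
      exact this.trans hle
    have h2 : |(sc (Q2 ε G lam) (g2 G lam) (R s) z).2 + s| ≤ b := by
      have := norm_snd_le (TM (Q2 ε G lam) (g2 G lam) R (z, s))
      have e : (TM (Q2 ε G lam) (g2 G lam) R (z, s)).2 =
          (sc (Q2 ε G lam) (g2 G lam) (R s) z).2 + s := by simp [TM]
      rw [e, Real.norm_eq_abs] at this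
      exact this.trans hle
    obtain ⟨y, hy⟩ := P.surj_G h.toPl (sc (Q2 ε G lam) (g2 G lam) (R s) z).1
    have hyn : ‖y‖ ≤ b / mb := by
      obtain ⟨i, hi⟩ := h.sel y
      have h3 := P.hm i y
      rw [← hi, hy] at h3
      rw [le_div_iff₀ hm]
      linarith
    have e3 := sc_snd_eq P h (hR s) hy.symm
    have h4 : |(sc (Q2 ε G lam) (g2 G lam) (R s) z).2| ≤ K * (b / mb) := by
      rw [e3]
      have h5 := norm_snd_le (sc (Q2 ε G lam) (g2 G lam) (R s) y)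
      rw [Real.norm_eq_abs] at h5
      exact h5.trans ((hS.sc_norm (hR s) y).trans (by gcongr))
    have hs : |s| ≤ b + K * (b / mb) := by
      have h6 : s = ((sc (Q2 ε G lam) (g2 G lam) (R s) z).2 + s) -
        (sc (Q2 ε G lam) (g2 G lam) (R s) z).2 := by ring
      calc |s| = |((sc (Q2 ε G lam) (g2 G lam) (R s) z).2 + s) -
            (sc (Q2 ε G lam) (g2 G lam) (R s) z).2| := by rw [← h6]
        _ ≤ _ := abs_sub _ _
        _ ≤ b + K * (b / mb) := add_le_add h2 h4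
    have hRs : R s ≤ R 0 + (b + K * (b / mb)) := by
      have h7 := hRL s 0
      rw [sub_zero] at h7
      have h8 := (abs_le.mp h7).2
      have h9 : ε₀ * |s| ≤ 1 * |s| := mul_le_mul_of_nonneg_right hε1 (abs_nonneg _)
      linarith
    have hz : ‖z‖ ≤ b / mb + R 0 + (b + K * (b / mb)) := by
      have hR0 := hR 0
      have hbm : 0 ≤ b / mb := by positivity
      have hKb : 0 ≤ K * (b / mb) := by positivity
      rcases le_or_gt (R s) ‖z‖ with h10 | h10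
      · have h11 := hS.sc_of_le (hR s) h10
        rw [h11] at hy
        have h12 : y = z := h.inj hy
        rw [← h12]; linarith
      · linarith
    have hfin : ‖((z, s) : M)‖ ≤ b / mb + (b + K * (b / mb)) + R 0 + (b + K * (b / mb)) := by
      have hR0 := hR 0
      have hbm : 0 ≤ b / mb := by positivity
      have hKb : 0 ≤ K * (b / mb) := by positivity
      rw [Prod.norm_def]
      refine max_le ?_ ?_
      · show ‖z‖ ≤ _
        linarith
      · show ‖s‖ ≤ _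
        rw [Real.norm_eq_abs]; linarith
    linarith
  exact hprop.isClosedMap

end

end Crest.Agent.R096.Ed_276
end

-- ▼ part R096/Ed9_276
section

open Set Metric Filter Topology MeasureTheory
open scoped ComplexConjugate NNReal

namespace Crest.Agent.R096.Ed_276

/-- selections of finitely many linear maps are locally linear off the coincidence set. -/
lemma sel_local {V F ι : Type*} [NormedAddCommGroup V] [NormedSpace ℝ V] [NormedAddCommGroup F]
    [NormedSpace ℝ F] [Finite ι] {A : ι → V →L[ℝ] F} {H : V → F} (hc : Continuous H)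
    (sel : ∀ x, ∃ i, H x = A i x) {x : V} (hx : ∀ i j, A i x = A j x → A i = A j) :
    ∃ i, ∀ᶠ y in 𝓝 x, H y = A i y := by
  obtain ⟨i, hi⟩ := sel x
  refine ⟨i, ?_⟩
  have h1 : ∀ᶠ y in 𝓝 x, ∀ j, H x ≠ A j x → H y ≠ A j y := by
    rw [eventually_all]
    intro j
    by_cases hj : H x = A j x
    · filter_upwards with y h; exact absurd hj h
    · have : IsOpen {y | H y ≠ A j y} := isOpen_ne_fun hc (A j).continuous
      filter_upwards [this.mem_nhds hj] with y hy _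
      exact hy
  filter_upwards [h1] with y hy
  obtain ⟨j, hj⟩ := sel y
  have h2 : H x = A j x := by
    by_contra h
    exact hy j h hj
  rw [hj, hx i j (hi.symm.trans h2)]

/-- a.e. point avoids the coincidence sets of finitely many linear maps. -/
lemma ae_sel {E F ι : Type*} [NormedAddCommGroup E] [NormedSpace ℝ E] [FiniteDimensional ℝ E]
    [MeasurableSpace E] [BorelSpace E] (μ : Measure E) [μ.IsAddHaarMeasure]
    [NormedAddCommGroup F] [NormedSpace ℝ F] [Finite ι] (A : ι → E →L[ℝ] F) :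
    ∀ᵐ x ∂μ, ∀ i j, A i x = A j x → A i = A j := by
  rw [ae_all_iff]; intro i
  rw [ae_all_iff]; intro j
  by_cases hij : A i = A j
  · exact Eventually.of_forall fun _ _ => hij
  · have h1 : (LinearMap.ker ((A i - A j : E →L[ℝ] F) : E →ₗ[ℝ] F)) ≠ ⊤ := by
      intro h
      apply hij
      rw [LinearMap.ker_eq_top] at h
      have : A i - A j = 0 := by
        ext x
        have := LinearMap.congr_fun h x
        simpa using this
      exact sub_eq_zero.mp this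
    have h2 := Measure.addHaar_submodule μ _ h1
    have h3 : ∀ᵐ x ∂μ, x ∉ ((LinearMap.ker ((A i - A j : E →L[ℝ] F) : E →ₗ[ℝ] F) : Submodule ℝ E) :
        Set E) := measure_eq_zero_iff_ae_notMem.mp h2
    filter_upwards [h3] with x hx heq
    exfalso
    apply hx
    simp [heq]

/-- stability of the positivity of the determinant. -/
lemma det_stable (C c : ℝ) (hc : 0 < c) : ∃ η > 0, ∀ N N' : M →L[ℝ] M, ‖N‖ ≤ C → c ≤ N.det →
    ‖N' - N‖ ≤ η → 0 < N'.det := by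
  have hcomp : IsCompact (closedBall (0 : M →L[ℝ] M) (C + 1)) := isCompact_closedBall _ _
  have hu := hcomp.uniformContinuousOn_of_continuous
    (ContinuousLinearMap.continuous_det (𝕜 := ℝ) (E := M)).continuousOn
  rw [Metric.uniformContinuousOn_iff] at hu
  obtain ⟨δ, hδ, h⟩ := hu c hc
  refine ⟨min (δ / 2) 1, by positivity, fun N N' hN hd hNN => ?_⟩
  have h1 : N ∈ closedBall (0 : M →L[ℝ] M) (C + 1) := by
    rw [mem_closedBall, dist_zero_right]; linarith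
  have h2 : N' ∈ closedBall (0 : M →L[ℝ] M) (C + 1) := by
    rw [mem_closedBall, dist_zero_right]
    calc ‖N'‖ = ‖(N' - N) + N‖ := by congr 1; abel
      _ ≤ ‖N' - N‖ + ‖N‖ := norm_add_le _ _
      _ ≤ 1 + C := add_le_add (hNN.trans (min_le_right _ _)) hN
      _ = C + 1 := by ring
  have h3 := h N' h2 N h1 (by
    rw [dist_eq_norm]
    calc ‖N' - N‖ ≤ δ / 2 := hNN.trans (min_le_left _ _)
      _ < δ := by linarith)
  rw [Real.dist_eq] at h3
  have := (abs_lt.mp h3).1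
  linarith

section core

variable {E : Type*} [NormedAddCommGroup E] [InnerProductSpace ℝ E] [FiniteDimensional ℝ E]
  [MeasureSpace E] [BorelSpace E] [(volume : Measure E).IsAddHaarMeasure]

variable {ι : Type*} {B : ι → ℂ →L[ℝ] ℂ} {l : ι → ℂ →L[ℝ] ℝ} {G : ℂ → ℂ} {lam : ℂ → ℝ}
  {Cb mb dm Λ ε K : ℝ}

lemma TM_shift_fst (Q g : ℂ → M) (R : ℝ → ℝ) (x : M) (w : ℂ) (t : ℝ) :
    TM Q g R (x + t • ((w, 0) : M)) = sc Q g (R x.2) (x.1 + t • w) + (0, x.2) := by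
  simp [TM]

lemma TM_shift_snd (Q g : ℂ → M) (R : ℝ → ℝ) (x : M) (t : ℝ) :
    TM Q g R (x + t • ((0, 1) : M)) = sc Q g (R (x.2 + t)) x.1 + (0, x.2 + t) := by
  simp [TM]

/-- the derivative of the model map at a point of differentiability. -/
lemma fderiv_TM (h : Pl2 B l G lam) (hS : ScD (Q2 ε G lam) (g2 G lam) K) {R : ℝ → ℝ} {ε₀ : ℝ}
    (hR : ∀ s, 0 ≤ R s) (hRL : ∀ s t, |R s - R t| ≤ ε₀ * |s - t|) {m : M}
    (hd : DifferentiableAt ℝ (TM (Q2 ε G lam) (g2 G lam) R) m) (hRm : 0 < R m.2) (hm : m.1 ≠ 0)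
    {i : ι} (hi : ∀ᶠ w in 𝓝 ((R m.2)⁻¹ • m.1), G w = B i w ∧ lam w = l i w) :
    ‖fderiv ℝ (TM (Q2 ε G lam) (g2 G lam) R) m -
      tri (dGt ε (Lg G) ((R m.2)⁻¹ • m.1) (dL (B i) ((R m.2)⁻¹ • m.1)))
        (dlt lam ((R m.2)⁻¹ • m.1) (l i))‖ ≤ 2 * K * ε₀ := by
  set ζ : ℂ := (R m.2)⁻¹ • m.1 with hζ
  have hζ0 : ζ ≠ 0 := smul_ne_zero (inv_ne_zero hRm.ne') hm
  set D := dGt ε (Lg G) ζ (dL (B i) ζ) with hD
  set ℓ := dlt lam ζ (l i) with hℓ
  set T := TM (Q2 ε G lam) (g2 G lam) R with hT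
  set F := fderiv ℝ T m with hF
  have hfd : HasFDerivAt T F m := hd.hasFDerivAt
  have hK := hS.K0
  have hε₀ : 0 ≤ ε₀ := by
    have := hRL 1 0
    have h2 := (abs_nonneg _).trans this
    simpa using h2
  -- horizontal directions
  have hhor : ∀ w : ℂ, F (w, 0) = (D w, ℓ w) := by
    intro w
    have h1 : HasDerivAt (fun t : ℝ => T (m + t • ((w, 0) : M))) (F (w, 0)) 0 := by
      have := hfd.hasLineDerivAt ((w, 0) : M)
      exact this
    have hG : HasFDerivAt (Gt ε (Lg G)) D ζ :=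
      h.toPl.hasFDerivAt_Gt hζ0 (hi.mono fun _ h => h.1)
    have hl : HasFDerivAt lam (l i) ζ :=
      (l i).hasFDerivAt.congr_of_eventuallyEq (hi.mono fun _ h => h.2)
    have hlt : HasFDerivAt (lt lam) ℓ ζ := hasFDerivAt_lt hζ0 hl
    have hQ : HasFDerivAt (Q2 ε G lam) (D.prod ℓ) ζ := hG.prodMk hlt
    have hline : HasDerivAt (fun t : ℝ => (R m.2)⁻¹ • (m.1 + t • w)) ((R m.2)⁻¹ • w) 0 := by
      have h3 : HasDerivAt (fun t : ℝ => m.1 + t • w) ((1:ℝ) • w) 0 :=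
        ((hasDerivAt_id (0:ℝ)).smul_const w).const_add m.1
      rw [one_smul] at h3
      exact h3.const_smul ((R m.2)⁻¹ : ℝ)
    have hQ' : HasFDerivAt (Q2 ε G lam) (D.prod ℓ) ((R m.2)⁻¹ • (m.1 + (0:ℝ) • w)) := by
      rw [zero_smul, add_zero]; exact hQ
    have h4 := hQ'.comp_hasDerivAt (0:ℝ) hline
    have h5 : HasDerivAt (fun t : ℝ => T (m + t • ((w, 0) : M)))
        (R m.2 • (D.prod ℓ) ((R m.2)⁻¹ • w)) 0 := by
      have h6 := (h4.const_smul (R m.2)).add_const ((0, m.2) : M)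
      refine h6.congr_of_eventuallyEq (Eventually.of_forall fun t => ?_)
      show T (m + t • ((w, 0) : M)) = _
      rw [hT, TM_shift_fst, sc_pos hRm.ne']
      rfl
    have h7 := h1.unique h5
    rw [h7, map_smul, smul_smul, mul_inv_cancel₀ hRm.ne', one_smul]
    rfl
  -- vertical direction
  have hver : ‖F (0, 1) - (0, 1)‖ ≤ 2 * K * ε₀ := by
    have h1 : HasDerivAt (fun t : ℝ => T (m + t • ((0, 1) : M))) (F (0, 1)) 0 :=
      hfd.hasLineDerivAt ((0, 1) : M)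
    have h2 : HasDerivAt (fun t : ℝ => T (m + t • ((0, 1) : M)) - ((0 : ℂ), m.2 + t))
        (F (0, 1) - (0, 1)) 0 := by
      refine h1.sub ?_
      exact (hasDerivAt_const (0:ℝ) (0:ℂ)).prodMk ((hasDerivAt_id (0:ℝ)).const_add m.2)
    have h3 : ∀ t : ℝ, ‖(T (m + t • ((0, 1) : M)) - ((0 : ℂ), m.2 + t)) -
        (T (m + (0:ℝ) • ((0, 1) : M)) - ((0 : ℂ), m.2 + 0))‖ ≤ (2 * K * ε₀) * ‖t - 0‖ := by
      intro t
      rw [hT, TM_shift_snd, TM_shift_snd, add_sub_cancel_right, add_sub_cancel_right]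
      have h4 := hS.sc_lipR (hR (m.2 + t)) (hR (m.2 + 0)) m.1
      have h5 := hRL (m.2 + t) (m.2 + 0)
      have h6 : m.2 + t - (m.2 + 0) = t := by ring
      rw [h6] at h5
      calc _ ≤ 2 * K * |R (m.2 + t) - R (m.2 + 0)| := h4
        _ ≤ 2 * K * (ε₀ * |t|) := by gcongr
        _ = (2 * K * ε₀) * ‖t - 0‖ := by rw [sub_zero, Real.norm_eq_abs]; ring
    have h4 := h2.hasFDerivAt.le_of_lip' (C := 2 * K * ε₀) (by positivity)
      (Eventually.of_forall h3)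
    have h5 := (ContinuousLinearMap.toSpanSingleton ℝ (F (0, 1) - ((0:ℂ), (1:ℝ)))).le_opNorm 1
    rw [ContinuousLinearMap.toSpanSingleton_apply, one_smul, norm_one, mul_one] at h5
    exact h5.trans h4
  refine ContinuousLinearMap.opNorm_le_bound _ (by positivity) fun x => ?_
  obtain ⟨w, r⟩ := x
  have h1 : ((w, r) : M) = (w, 0) + r • ((0, 1) : M) := by simp
  have h2 : (F - tri D ℓ) (w, r) = r • (F (0, 1) - (0, 1)) := by
    rw [sub_apply, h1, map_add, map_smul, hhor, map_add, map_smul]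
    simp only [tri_apply, map_zero]
    apply Prod.ext
    · simp
    · simp
      ring
  rw [h2, norm_smul]
  have h3 : ‖r‖ ≤ ‖((w, r) : M)‖ := norm_snd_le ((w, r) : M)
  calc ‖r‖ * ‖F (0, 1) - (0, 1)‖ ≤ ‖((w, r) : M)‖ * (2 * K * ε₀) :=
        mul_le_mul h3 hver (norm_nonneg _) (norm_nonneg _)
    _ = 2 * K * ε₀ * ‖((w, r) : M)‖ := by ring

end core

end Crest.Agent.R096.Ed_276
end

-- ▼ part R096/Ed10_276
section

open Set Metric Filter Topology MeasureTheory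
open scoped ComplexConjugate NNReal

namespace Crest.Agent.R096.Ed_276

section core

variable {E : Type*} [NormedAddCommGroup E] [InnerProductSpace ℝ E] [FiniteDimensional ℝ E]
  [MeasureSpace E] [BorelSpace E] [(volume : Measure E).IsAddHaarMeasure]

variable {ι : Type*} {B : ι → ℂ →L[ℝ] ℂ} {l : ι → ℂ →L[ℝ] ℝ} {G : ℂ → ℂ} {lam : ℂ → ℝ}
  {Cb mb dm Λ ε K : ℝ}

omit [FiniteDimensional ℝ E] [MeasureSpace E] [BorelSpace E]
  [(volume : Measure E).IsAddHaarMeasure] in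
lemma clm_det_comp (A B : E →L[ℝ] E) : (A.comp B).det = A.det * B.det :=
  LinearMap.det_comp (A : E →ₗ[ℝ] E) (B : E →ₗ[ℝ] E)

lemma moll_core [Finite ι] (h : Pl2 B l G lam) (hS : ScD (Q2 ε G lam) (g2 G lam) K) {R : ℝ → ℝ}
    {ε₀ : ℝ} (hR : ∀ s, 0 ≤ R s) (hRL : ∀ s t, |R s - R t| ≤ ε₀ * |s - t|)
    (hε₀ : 4 * K * ε₀ ≤ 1) (Φ 𝒜 : M ≃L[ℝ] E)
    (hA : 0 < ((𝒜 : M →L[ℝ] E).comp (Φ.symm : E →L[ℝ] M)).det) {x₀ : E}
    (hx₀ : 0 < R (Φ.symm x₀).2) (K₀ : Set (M →L[ℝ] M)) (hcv : Convex ℝ K₀) (hcp : IsCompact K₀)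
    (hdet : ∀ N ∈ K₀, ∀ N', ‖N' - N‖ ≤ 2 * K * ε₀ → 0 < N'.det)
    (hmem : ∀ᶠ ζ in 𝓝 ((R (Φ.symm x₀).2)⁻¹ • (Φ.symm x₀).1), ζ ≠ 0 → ∀ i,
      (∀ᶠ w in 𝓝 ζ, G w = B i w ∧ lam w = l i w) →
        tri (dGt ε (Lg G) ζ (dL (B i) ζ)) (dlt lam ζ (l i)) ∈ K₀) :
    P5Spec_205.MollAt (fun x => 𝒜 (TM (Q2 ε G lam) (g2 G lam) R (Φ.symm x))) x₀ := by
  have hK := hS.K0
  have hε0 : 0 ≤ ε₀ := by
    have := hRL 1 0
    have h2 := (abs_nonneg _).trans this
    simpa using h2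
  have hRc : Continuous R := by
    have : LipschitzWith (Real.toNNReal ε₀) R := by
      refine LipschitzWith.of_dist_le_mul fun s t => ?_
      rw [Real.dist_eq, Real.dist_eq, Real.coe_toNNReal _ hε0]
      exact hRL s t
    exact this.continuous
  set T : M → M := TM (Q2 ε G lam) (g2 G lam) R with hT
  -- Lipschitz
  have hTL : LipschitzWith (Real.toNNReal (K + 2)) T := by
    refine LipschitzWith.of_dist_le_mul fun x y => ?_
    rw [dist_eq_norm, dist_eq_norm, Real.coe_toNNReal _ (by linarith)]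
    exact TM_lip hS hR hRL hε₀ x y
  set f : E → E := fun x => 𝒜 (T (Φ.symm x)) with hf
  have hfL : LipschitzWith (‖(𝒜 : M →L[ℝ] E)‖₊ * (Real.toNNReal (K + 2) *
      ‖(Φ.symm : E →L[ℝ] M)‖₊)) f :=
    (𝒜 : M →L[ℝ] E).lipschitz.comp (hTL.comp (Φ.symm : E →L[ℝ] M).lipschitz)
  -- the neighbourhood
  have hcont : ContinuousAt (fun x : E => (R (Φ.symm x).2)⁻¹ • (Φ.symm x).1) x₀ := by
    have h1 : ContinuousAt (fun x : E => R (Φ.symm x).2) x₀ :=
      (hRc.comp (continuous_snd.comp Φ.symm.continuous)).continuousAt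
    exact (h1.inv₀ hx₀.ne').smul (continuous_fst.comp Φ.symm.continuous).continuousAt
  have hev1 := hcont.eventually hmem
  have hev2 : ∀ᶠ x in 𝓝 x₀, 0 < R (Φ.symm x).2 :=
    ((hRc.comp (continuous_snd.comp Φ.symm.continuous)).continuousAt).eventually
      (Ioi_mem_nhds hx₀)
  obtain ⟨r, hr, hball⟩ := Metric.eventually_nhds_iff_ball.mp (hev1.and hev2)
  -- a.e. good points
  let A : ι → E →L[ℝ] M := fun i =>
    ((B i).prod (l i)).comp ((ContinuousLinearMap.fst ℝ ℂ ℝ).comp (Φ.symm : E →L[ℝ] M))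
  have hae1 := ae_sel (volume : Measure E) A
  let A2 : Bool → E →L[ℝ] ℂ := fun b =>
    bif b then ((ContinuousLinearMap.fst ℝ ℂ ℝ).comp (Φ.symm : E →L[ℝ] M)) else 0
  have hae2 := ae_sel (volume : Measure E) A2
  have hae3 : ∀ᵐ x ∂(volume : Measure E), DifferentiableAt ℝ f x := hfL.ae_differentiableAt
  have hA2 : A2 true ≠ A2 false := by
    intro h0
    have h1 := congrArg (fun L : E →L[ℝ] ℂ => L (Φ (1, 0))) h0
    simp [A2] at h1
  -- the compact set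
  set KK : Set (E →L[ℝ] E) := (fun N' : M →L[ℝ] M =>
    (𝒜 : M →L[ℝ] E).comp (N'.comp (Φ.symm : E →L[ℝ] M))) '' (cthickening (2 * K * ε₀) K₀) with hKK
  have hη : 0 ≤ 2 * K * ε₀ := by positivity
  refine ⟨r, hr, KK, ?_, ?_, ?_, ⟨_, hfL.lipschitzOnWith⟩, ?_⟩
  · -- convex
    rintro _ ⟨N, hN, rfl⟩ _ ⟨N', hN', rfl⟩ a b ha hb hab
    refine ⟨a • N + b • N', (hcv.cthickening _) hN hN' ha hb hab, ?_⟩
    ext x
    simp
  · refine (hcp.cthickening).image ?_
    have h1 : Continuous fun N' : M →L[ℝ] M => N'.comp (Φ.symm : E →L[ℝ] M) :=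
      continuous_id.clm_comp continuous_const
    exact continuous_const.clm_comp h1
  · rintro _ ⟨N', hN', rfl⟩
    rw [hcp.cthickening_eq_biUnion_closedBall hη] at hN'
    simp only [mem_iUnion, mem_closedBall, exists_prop] at hN'
    obtain ⟨N, hN, hd⟩ := hN'
    rw [dist_eq_norm] at hd
    have h1 := hdet N hN N' hd
    -- determinant of the conjugate
    have e1 : (𝒜 : M →L[ℝ] E).comp (N'.comp (Φ.symm : E →L[ℝ] M)) =
        ((𝒜 : M →L[ℝ] E).comp (Φ.symm : E →L[ℝ] M)).comp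
          ((Φ : M →L[ℝ] E).comp (N'.comp (Φ.symm : E →L[ℝ] M))) := by
      ext x; simp
    have e2 : ((Φ : M →L[ℝ] E).comp (N'.comp (Φ.symm : E →L[ℝ] M))).det = N'.det := by
      have := LinearMap.det_conj (N' : M →ₗ[ℝ] M) Φ.toLinearEquiv
      exact this
    show 0 < ((𝒜 : M →L[ℝ] E).comp (N'.comp (Φ.symm : E →L[ℝ] M))).det
    rw [e1, clm_det_comp, e2]
    exact mul_pos hA h1
  · filter_upwards [hae1, hae2, hae3] with x hx1 hx2 hx3 hxb
    obtain ⟨hm1, hRx⟩ := hball x hxb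
    set m : M := Φ.symm x with hm
    have hm0 : m.1 ≠ 0 := by
      intro h0
      apply hA2
      apply hx2
      simp only [A2, cond_true, cond_false]
      simpa using h0
    have hζ0 : (R m.2)⁻¹ • m.1 ≠ 0 := smul_ne_zero (inv_ne_zero hRx.ne') hm0
    -- local linearity
    have hloc : ∃ i, ∀ᶠ w in 𝓝 ((R m.2)⁻¹ • m.1), g2 G lam w = ((B i).prod (l i)) w := by
      refine sel_local (A := fun i => (B i).prod (l i)) ?_ ?_ ?_
      · exact h.cont.prodMk h.contl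
      · intro w
        obtain ⟨i, hi⟩ := h.sel2 w
        exact ⟨i, Prod.ext hi.1 hi.2⟩
      · intro i j hij
        have h1 : A i x = A j x := by
          show ((B i).prod (l i)) m.1 = ((B j).prod (l j)) m.1
          have h2 : m.1 = R m.2 • ((R m.2)⁻¹ • m.1) := by
            rw [smul_smul, mul_inv_cancel₀ hRx.ne', one_smul]
          have e : ∀ k, ((B k).prod (l k)) m.1 =
              R m.2 • ((B k).prod (l k)) ((R m.2)⁻¹ • m.1) := fun k => by
            rw [← map_smul, ← h2]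
          rw [e i, e j, hij]
        have h3 := hx1 i j h1
        ext w
        · have h4 := congrArg (fun L : E →L[ℝ] M => (L (Φ (w, 0))).1) h3
          simpa [A] using h4
        · have h4 := congrArg (fun L : E →L[ℝ] M => (L (Φ (w, 0))).2) h3
          simpa [A] using h4
    obtain ⟨i, hi⟩ := hloc
    have hi' : ∀ᶠ w in 𝓝 ((R m.2)⁻¹ • m.1), G w = B i w ∧ lam w = l i w := by
      filter_upwards [hi] with w hw
      exact ⟨congrArg Prod.fst hw, congrArg Prod.snd hw⟩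
    have hN := hm1 hζ0 i hi'
    -- differentiability of T at m
    have hTd : DifferentiableAt ℝ T m := by
      have h1 : T = fun y => 𝒜.symm (f (Φ y)) := by
        funext y; simp [hf]
      rw [h1]
      have h2 : DifferentiableAt ℝ f (Φ m) := by rw [hm, Φ.apply_symm_apply]; exact hx3
      exact (𝒜.symm.differentiableAt).comp m (h2.comp m Φ.differentiableAt)
    have hbound := fderiv_TM h hS hR hRL hTd hRx hm0 hi'
    have hfd : fderiv ℝ f x = (𝒜 : M →L[ℝ] E).comp ((fderiv ℝ T m).comp (Φ.symm : E →L[ℝ] M)) := by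
      have h1 : HasFDerivAt f ((𝒜 : M →L[ℝ] E).comp ((fderiv ℝ T m).comp
          (Φ.symm : E →L[ℝ] M))) x :=
        (𝒜 : M →L[ℝ] E).hasFDerivAt.comp x
          ((hTd.hasFDerivAt).comp x (Φ.symm : E →L[ℝ] M).hasFDerivAt)
      exact h1.fderiv
    rw [hfd]
    exact ⟨fderiv ℝ T m, mem_cthickening_of_dist_le _ _ _ _ hN (by rw [dist_eq_norm]; exact hbound),
      rfl⟩

/-! ### the sets `K₀` -/

lemma K0_axis (h : Pl B G) (hlam0 : lam 0 = 0) (hε : 0 < ε) :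
    ∀ᶠ ζ in 𝓝 (0:ℂ), ζ ≠ 0 → ∀ i,
      (∀ᶠ w in 𝓝 ζ, G w = B i w ∧ lam w = l i w) →
        tri (dGt ε (Lg G) ζ (dL (B i) ζ)) (dlt lam ζ (l i)) =
          ContinuousLinearMap.id ℝ M := by
  have h1 : ∀ᶠ ζ in 𝓝 (0:ℂ), ‖ζ‖ < min (Real.exp (-2 - 1/ε)) (Real.exp (-1)) := by
    have : Tendsto (fun z : ℂ => ‖z‖) (𝓝 0) (𝓝 0) := by
      simpa using (continuous_norm (E := ℂ)).tendsto 0
    exact this.eventually (Iio_mem_nhds (lt_min (Real.exp_pos _) (Real.exp_pos _)))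
  filter_upwards [h1] with ζ hζ hζ0 i hi
  have hnear : ∀ᶠ w in 𝓝 ζ, ‖w‖ < min (Real.exp (-2 - 1/ε)) (Real.exp (-1)) :=
    continuous_norm.continuousAt.eventually (Iio_mem_nhds hζ)
  have hG : HasFDerivAt (Gt ε (Lg G)) (dGt ε (Lg G) ζ (dL (B i) ζ)) ζ :=
    h.hasFDerivAt_Gt hζ0 (hi.mono fun _ h => h.1)
  have hG2 : HasFDerivAt (Gt ε (Lg G)) (ContinuousLinearMap.id ℝ ℂ) ζ := by
    refine (hasFDerivAt_id ζ).congr_of_eventuallyEq ?_
    filter_upwards [hnear] with w hw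
    exact Gt_near_zero hε _ (hw.le.trans (min_le_left _ _))
  have hl : HasFDerivAt lam (l i) ζ :=
    (l i).hasFDerivAt.congr_of_eventuallyEq (hi.mono fun _ h => h.2)
  have hlt : HasFDerivAt (lt lam) (dlt lam ζ (l i)) ζ := hasFDerivAt_lt hζ0 hl
  have hlt2 : HasFDerivAt (lt lam) (0 : ℂ →L[ℝ] ℝ) ζ := by
    refine (hasFDerivAt_const (0:ℝ) ζ).congr_of_eventuallyEq ?_
    filter_upwards [hnear] with w hw
    exact lt_of_small (hw.le.trans (min_le_right _ _)) hlam0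
  rw [hG.unique hG2, hlt.unique hlt2]
  ext x <;> simp

/-- radial derivative. -/
noncomputable def Vr (ε : ℝ) (G : ℂ → ℂ) (z : ℂ) : ℂ :=
  Gt ε (Lg G) z * (1 + ((dcut ε (-1 - 1/ε) z * (Lg G z).re : ℝ) : ℂ)
      + ((dcut 1 (-2 - 1/ε) z * (Lg G z).im : ℝ) : ℂ) * Complex.I)

lemma continuousAt_Vr (h : Pl B G) (hε : 0 < ε) {z : ℂ} (hz : z ≠ 0) :
    ContinuousAt (Vr ε G) z := by
  have h1 := h.continuousAt_Lg hz
  refine (h.continuous_Gt hε).continuousAt.mul ?_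
  refine (continuousAt_const.add ?_).add (ContinuousAt.mul ?_ continuousAt_const)
  · exact Complex.continuous_ofReal.continuousAt.comp
      ((continuousAt_dcut _ _ hz).mul (Complex.continuous_re.continuousAt.comp h1))
  · exact Complex.continuous_ofReal.continuousAt.comp
      ((continuousAt_dcut _ _ hz).mul (Complex.continuous_im.continuousAt.comp h1))

/-- the convex compact set at `ζ₀`. -/
def KS (C2 c1 θ : ℝ) (ζ₀ V₀ : ℂ) : Set (M →L[ℝ] M) :=
  {N | N (0, 1) = (0, 1) ∧ ‖N‖ ≤ C2 ∧ ‖(N (ζ₀, 0)).1 - V₀‖ ≤ θ ∧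
    3 / 4 * c1 * ‖ζ₀‖ ^ 2 ≤ cr V₀ (N (Complex.I * ζ₀, 0)).1}

lemma KS_convex (C2 c1 θ : ℝ) (ζ₀ V₀ : ℂ) : Convex ℝ (KS C2 c1 θ ζ₀ V₀) := by
  rintro N ⟨h1, h2, h3, h4⟩ N' ⟨h1', h2', h3', h4'⟩ a b ha hb hab
  refine ⟨?_, ?_, ?_, ?_⟩
  · rw [add_apply, smul_apply, smul_apply, h1, h1', ← add_smul, hab, one_smul]
  · calc ‖a • N + b • N'‖ ≤ ‖a • N‖ + ‖b • N'‖ := norm_add_le _ _
      _ = a * ‖N‖ + b * ‖N'‖ := by
          rw [norm_smul, norm_smul, Real.norm_eq_abs, Real.norm_eq_abs, abs_of_nonneg ha,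
            abs_of_nonneg hb]
      _ ≤ a * C2 + b * C2 := by gcongr
      _ = C2 := by rw [← add_mul, hab, one_mul]
  · have e : ((a • N + b • N') (ζ₀, 0)).1 - V₀ =
        a • ((N (ζ₀, 0)).1 - V₀) + b • ((N' (ζ₀, 0)).1 - V₀) := by
      have : V₀ = (a + b) • V₀ := by rw [hab, one_smul]
      conv_lhs => rw [this]
      simp only [add_apply, smul_apply, Prod.fst_add, Prod.smul_fst]
      module
    rw [e]
    calc _ ≤ ‖a • ((N (ζ₀, 0)).1 - V₀)‖ + ‖b • ((N' (ζ₀, 0)).1 - V₀)‖ := norm_add_le _ _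
      _ = a * ‖(N (ζ₀, 0)).1 - V₀‖ + b * ‖(N' (ζ₀, 0)).1 - V₀‖ := by
          rw [norm_smul, norm_smul, Real.norm_eq_abs, Real.norm_eq_abs, abs_of_nonneg ha,
            abs_of_nonneg hb]
      _ ≤ a * θ + b * θ := by gcongr
      _ = θ := by rw [← add_mul, hab, one_mul]
  · have e : cr V₀ ((a • N + b • N') (Complex.I * ζ₀, 0)).1 =
        a * cr V₀ (N (Complex.I * ζ₀, 0)).1 + b * cr V₀ (N' (Complex.I * ζ₀, 0)).1 := by
      simp only [add_apply, smul_apply, Prod.fst_add, Prod.smul_fst]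
      rw [cr_add_right, cr_smul_right, cr_smul_right]
    rw [e]
    calc 3 / 4 * c1 * ‖ζ₀‖ ^ 2 = a * (3 / 4 * c1 * ‖ζ₀‖ ^ 2) + b * (3 / 4 * c1 * ‖ζ₀‖ ^ 2) := by
          rw [← add_mul, hab, one_mul]
      _ ≤ _ := by gcongr

lemma KS_compact (C2 c1 θ : ℝ) (ζ₀ V₀ : ℂ) : IsCompact (KS C2 c1 θ ζ₀ V₀) := by
  have hap : ∀ x : M, Continuous fun N : M →L[ℝ] M => N x := fun x =>
    (ContinuousLinearMap.apply ℝ M x).continuous
  refine (isCompact_closedBall (0 : M →L[ℝ] M) C2).of_isClosed_subset ?_ ?_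
  · have hset : KS C2 c1 θ ζ₀ V₀ = {N : M →L[ℝ] M | N (0, 1) = (0, 1)} ∩
        ({N : M →L[ℝ] M | ‖N‖ ≤ C2} ∩ ({N : M →L[ℝ] M | ‖(N (ζ₀, 0)).1 - V₀‖ ≤ θ} ∩
        {N : M →L[ℝ] M | 3 / 4 * c1 * ‖ζ₀‖ ^ 2 ≤ cr V₀ (N (Complex.I * ζ₀, 0)).1})) := rfl
    rw [hset]
    refine IsClosed.inter ?_ (IsClosed.inter ?_ (IsClosed.inter ?_ ?_))
    · exact isClosed_eq (f := fun N : M →L[ℝ] M => N (0, 1)) (hap _) continuous_const
    · exact isClosed_le (f := fun N : M →L[ℝ] M => ‖N‖) continuous_norm continuous_const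
    · exact isClosed_le (f := fun N : M →L[ℝ] M => ‖(N (ζ₀, 0)).1 - V₀‖)
        (((continuous_fst.comp (hap _)).sub continuous_const).norm) continuous_const
    · refine isClosed_le continuous_const ?_
      have h1 : Continuous fun N : M →L[ℝ] M => (N (Complex.I * ζ₀, 0)).1 :=
        continuous_fst.comp (hap _)
      unfold cr
      exact (continuous_const.mul (Complex.continuous_im.comp h1)).sub
        (continuous_const.mul (Complex.continuous_re.comp h1))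
  · intro N hN
    rw [mem_closedBall, dist_zero_right]
    exact hN.2.1

lemma KS_det {C2 c1 : ℝ} (hC2 : 0 < C2) {ζ₀ V₀ : ℂ} (hζ : ζ₀ ≠ 0)
    {N : M →L[ℝ] M} (hN : N ∈ KS C2 c1 (c1 * ‖ζ₀‖ / (4 * C2)) ζ₀ V₀) : c1 / 2 ≤ N.det := by
  obtain ⟨h1, h2, h3, h4⟩ := hN
  have hz' : 0 < ‖ζ₀‖ := norm_pos_iff.mpr hζ
  set D : ℂ →L[ℝ] ℂ := (ContinuousLinearMap.fst ℝ ℂ ℝ).comp
    (N.comp (ContinuousLinearMap.inl ℝ ℂ ℝ)) with hD
  have hDa : ∀ w, D w = (N (w, 0)).1 := fun w => rfl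
  have hdet : N.det = D.det := by
    rw [det_M N h1, det_eq, hDa, hDa]
  have h5 := cr_apply D ζ₀
  have h6 : ‖D (Complex.I * ζ₀)‖ ≤ C2 * ‖ζ₀‖ := by
    rw [hDa]
    calc ‖(N (Complex.I * ζ₀, 0)).1‖ ≤ ‖N (Complex.I * ζ₀, 0)‖ := norm_fst_le _
      _ ≤ ‖N‖ * ‖((Complex.I * ζ₀, 0) : M)‖ := N.le_opNorm _
      _ ≤ C2 * ‖ζ₀‖ := by
          have e : ‖((Complex.I * ζ₀, (0:ℝ)) : M)‖ = ‖ζ₀‖ := by
            simp [Prod.norm_def]
          rw [e]; gcongr
  have h7 : cr (D ζ₀) (D (Complex.I * ζ₀)) =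
      cr V₀ (D (Complex.I * ζ₀)) + cr (D ζ₀ - V₀) (D (Complex.I * ζ₀)) := by
    rw [cr_sub_left]; ring
  have h8 : |cr (D ζ₀ - V₀) (D (Complex.I * ζ₀))| ≤ c1 * ‖ζ₀‖ / (4 * C2) * (C2 * ‖ζ₀‖) := by
    refine (abs_cr_le _ _).trans ?_
    have h9 : 0 ≤ c1 * ‖ζ₀‖ / (4 * C2) := (norm_nonneg _).trans h3
    exact mul_le_mul h3 h6 (norm_nonneg _) h9
  have h10 : c1 * ‖ζ₀‖ / (4 * C2) * (C2 * ‖ζ₀‖) = c1 / 4 * ‖ζ₀‖ ^ 2 := by
    field_simp
  rw [h10] at h8
  have h11 := (abs_le.mp h8).1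
  have h12 : c1 / 2 * ‖ζ₀‖ ^ 2 ≤ D.det * ‖ζ₀‖ ^ 2 := by
    rw [← h5, h7]
    have h4' : 3 / 4 * c1 * ‖ζ₀‖ ^ 2 ≤ cr V₀ (D (Complex.I * ζ₀)) := h4
    nlinarith
  rw [hdet]
  exact le_of_mul_le_mul_right h12 (by positivity)

lemma K0_off (P : Par B G Cb mb dm Λ ε) (h : Pl B G) {C2 c1 θ : ℝ}
    (hθ : 0 < θ) (hc1 : c1 = Real.exp (-Λ) ^ 2 * (1 / 2 * min 1 (dm / Cb ^ 2)))
    (hC2 : ∀ ζ : ℂ, ζ ≠ 0 → ∀ i, (∀ᶠ w in 𝓝 ζ, G w = B i w ∧ lam w = l i w) →
      ‖tri (dGt ε (Lg G) ζ (dL (B i) ζ)) (dlt lam ζ (l i))‖ ≤ C2) {ζ₀ : ℂ} (hζ₀ : ζ₀ ≠ 0) :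
    ∀ᶠ ζ in 𝓝 ζ₀, ζ ≠ 0 → ∀ i,
      (∀ᶠ w in 𝓝 ζ, G w = B i w ∧ lam w = l i w) →
        tri (dGt ε (Lg G) ζ (dL (B i) ζ)) (dlt lam ζ (l i)) ∈ KS C2 c1 θ ζ₀ (Vr ε G ζ₀) := by
  have hc10 : 0 < c1 := by
    rw [hc1]
    have := P.Cb0; have := P.d0
    have : 0 < min 1 (dm / Cb ^ 2) := lt_min one_pos (by positivity)
    positivity
  have hz' : 0 < ‖ζ₀‖ := norm_pos_iff.mpr hζ₀
  have hV := continuousAt_Vr h P.ε0 hζ₀
  set C := C1 Cb mb Λ ε with hC
  have e1 : ∀ᶠ ζ in 𝓝 ζ₀, C * ‖ζ - ζ₀‖ + ‖Vr ε G ζ - Vr ε G ζ₀‖ < θ := by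
    have h1 : ContinuousAt (fun ζ => C * ‖ζ - ζ₀‖ + ‖Vr ε G ζ - Vr ε G ζ₀‖) ζ₀ :=
      (continuousAt_const.mul ((continuousAt_id.sub continuousAt_const).norm)).add
        ((hV.sub continuousAt_const).norm)
    refine h1.eventually (Iio_mem_nhds ?_)
    simpa using hθ
  have e2 : ∀ᶠ ζ in 𝓝 ζ₀, 3 / 4 * c1 * ‖ζ₀‖ ^ 2 <
      c1 * ‖ζ‖ ^ 2 - ‖Vr ε G ζ₀ - Vr ε G ζ‖ * (C * ‖ζ‖) - ‖Vr ε G ζ₀‖ * (C * ‖ζ - ζ₀‖) := by
    have h1 : ContinuousAt (fun ζ => c1 * ‖ζ‖ ^ 2 - ‖Vr ε G ζ₀ - Vr ε G ζ‖ * (C * ‖ζ‖) -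
        ‖Vr ε G ζ₀‖ * (C * ‖ζ - ζ₀‖)) ζ₀ := by
      refine ContinuousAt.sub (ContinuousAt.sub ?_ ?_) ?_
      · exact continuousAt_const.mul (continuousAt_id.norm.pow 2)
      · exact ((continuousAt_const.sub hV).norm).mul (continuousAt_const.mul continuousAt_id.norm)
      · exact continuousAt_const.mul (continuousAt_const.mul
          ((continuousAt_id.sub continuousAt_const).norm))
    refine h1.eventually (Ioi_mem_nhds ?_)
    simp only [sub_self, norm_zero, zero_mul, mul_zero, sub_zero]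
    have : 0 < c1 * ‖ζ₀‖ ^ 2 := by positivity
    linarith
  filter_upwards [e1, e2] with ζ h1 h2 hζ i hi
  have hzζ : 0 < ‖ζ‖ := norm_pos_iff.mpr hζ
  set D := dGt ε (Lg G) ζ (dL (B i) ζ) with hD
  have hBz : B i ζ ≠ 0 := by
    intro h0
    have := P.hm i ζ
    rw [h0, norm_zero] at this
    have := mul_pos P.m0 hzζ
    linarith
  have hD0 : dL (B i) ζ ζ = 0 := by rw [dL_apply, div_self hBz, div_self hζ, sub_self]
  have hDζ : D ζ = Vr ε G ζ := dGt_self ε _ hζ hD0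
  have hDn : ∀ v, ‖D v‖ ≤ C * ‖v‖ := P.norm_dGt hζ i
  refine ⟨?_, hC2 ζ hζ i hi, ?_, ?_⟩
  · simp
  · show ‖D ζ₀ - Vr ε G ζ₀‖ ≤ θ
    have e : D ζ₀ - Vr ε G ζ₀ = -(D (ζ - ζ₀)) + (Vr ε G ζ - Vr ε G ζ₀) := by
      rw [map_sub, hDζ]; ring
    rw [e]
    calc _ ≤ ‖-(D (ζ - ζ₀))‖ + ‖Vr ε G ζ - Vr ε G ζ₀‖ := norm_add_le _ _
      _ ≤ C * ‖ζ - ζ₀‖ + ‖Vr ε G ζ - Vr ε G ζ₀‖ := by rw [norm_neg]; gcongr; exact hDn _
      _ ≤ θ := h1.le
  · show 3 / 4 * c1 * ‖ζ₀‖ ^ 2 ≤ cr (Vr ε G ζ₀) (D (Complex.I * ζ₀))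
    have e : cr (Vr ε G ζ₀) (D (Complex.I * ζ₀)) = cr (D ζ) (D (Complex.I * ζ)) +
        cr (Vr ε G ζ₀ - Vr ε G ζ) (D (Complex.I * ζ)) -
        cr (Vr ε G ζ₀) (D (Complex.I * (ζ - ζ₀))) := by
      rw [hDζ, cr_sub_left, mul_sub, map_sub]
      have : cr (Vr ε G ζ₀) (D (Complex.I * ζ) - D (Complex.I * ζ₀)) =
          cr (Vr ε G ζ₀) (D (Complex.I * ζ)) - cr (Vr ε G ζ₀) (D (Complex.I * ζ₀)) := by
        simp only [cr, Complex.sub_re, Complex.sub_im]; ring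
      rw [this]; ring
    have h3 := P.cr_dGt hζ i
    rw [← hc1] at h3
    have h4 : |cr (Vr ε G ζ₀ - Vr ε G ζ) (D (Complex.I * ζ))| ≤
        ‖Vr ε G ζ₀ - Vr ε G ζ‖ * (C * ‖ζ‖) := by
      refine (abs_cr_le _ _).trans ?_
      gcongr
      refine (hDn _).trans ?_
      simp
    have h5 : |cr (Vr ε G ζ₀) (D (Complex.I * (ζ - ζ₀)))| ≤
        ‖Vr ε G ζ₀‖ * (C * ‖ζ - ζ₀‖) := by
      refine (abs_cr_le _ _).trans ?_
      gcongr
      refine (hDn _).trans ?_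
      simp
    have h6 := (abs_le.mp h4).1
    have h7 := (abs_le.mp h5).2
    rw [e]
    have h3' : c1 * ‖ζ‖ ^ 2 ≤ cr (D ζ) (D (Complex.I * ζ)) := h3
    linarith

end core

end Crest.Agent.R096.Ed_276
end

-- ▼ part R096/Ed11_276
section

open Set Metric Filter Topology MeasureTheory
open scoped ComplexConjugate NNReal

namespace Crest.Agent.R096.Ed_276

variable {E : Type*} [NormedAddCommGroup E] [InnerProductSpace ℝ E] [FiniteDimensional ℝ E]
  [MeasureSpace E] [BorelSpace E] [(volume : Measure E).IsAddHaarMeasure]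

variable {ι : Type*} {B : ι → ℂ →L[ℝ] ℂ} {l : ι → ℂ →L[ℝ] ℝ} {G : ℂ → ℂ} {lam : ℂ → ℝ}

/-- the edge theorem, normalised. -/
theorem edge_model [Finite ι] (h : Pl2 B l G lam) (Φ 𝒜 : M ≃L[ℝ] E)
    (hA : 0 < ((𝒜 : M →L[ℝ] E).comp (Φ.symm : E →L[ℝ] M)).det) :
    ∃ ε₀ > 0, ∃ C : ℝ≥0, ∃ Q : ℂ → M, (∀ z, 1 ≤ ‖z‖ → Q z = g2 G lam z) ∧
      ∀ R : ℝ → ℝ, (∀ s, 0 ≤ R s) → (∀ s t, |R s - R t| ≤ ε₀ * |s - t|) →
        IsHomeomorph (fun x => 𝒜 (TM Q (g2 G lam) R (Φ.symm x))) ∧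
        LipschitzWith C (fun x => 𝒜 (TM Q (g2 G lam) R (Φ.symm x))) ∧
        ∀ x, 0 < R (Φ.symm x).2 →
          P5Spec_205.MollAt (fun x => 𝒜 (TM Q (g2 G lam) R (Φ.symm x))) x := by
  obtain ⟨Cb, mb, dm, Λ, ε, P⟩ := exists_par h.toPl
  obtain ⟨K, Cl, hCl0, hCl, hS⟩ := h.exists_scD P
  obtain ⟨D, hD0, hD⟩ := exists_dst_bound
  have hK := hS.K0
  have hC1 : 0 ≤ C1 Cb mb Λ ε := by
    have h1 := P.Cb0; have h2 := P.m0; have h3 := P.ε0
    unfold C1; positivity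
  set C2 : ℝ := C1 Cb mb Λ ε + 1 + (Cl + Cl * D) with hC2d
  have hC20 : 0 < C2 := by positivity
  have hC2 : ∀ ζ : ℂ, ζ ≠ 0 → ∀ i, (∀ᶠ w in 𝓝 ζ, G w = B i w ∧ lam w = l i w) →
      ‖tri (dGt ε (Lg G) ζ (dL (B i) ζ)) (dlt lam ζ (l i))‖ ≤ C2 := by
    intro ζ hζ i hi
    refine ContinuousLinearMap.opNorm_le_bound _ hC20.le fun x => ?_
    have h1 := P.norm_dGt hζ i x.1
    have hlam : |lam ζ| ≤ Cl * ‖ζ‖ := by rw [hi.self_of_nhds.2]; exact hCl i ζ
    have h2 := norm_dlt hD (hCl i) hCl0 hζ hlam x.1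
    have h3 : ‖x.1‖ ≤ ‖x‖ := norm_fst_le x
    have h4 : ‖x.2‖ ≤ ‖x‖ := norm_snd_le x
    have hx := norm_nonneg x
    rw [tri_apply, Prod.norm_def]
    refine max_le ?_ ?_
    · calc _ ≤ C1 Cb mb Λ ε * ‖x.1‖ := h1
        _ ≤ C1 Cb mb Λ ε * ‖x‖ := by gcongr
        _ ≤ C2 * ‖x‖ := by
            refine mul_le_mul_of_nonneg_right ?_ hx
            rw [hC2d]; nlinarith
    · calc _ ≤ ‖x.2‖ + ‖dlt lam ζ (l i) x.1‖ := norm_add_le _ _
        _ ≤ ‖x‖ + (Cl + Cl * D) * ‖x‖ := by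
            refine add_le_add h4 (h2.trans ?_)
            gcongr
        _ ≤ C2 * ‖x‖ := by
            rw [hC2d]; nlinarith
  set c1 : ℝ := Real.exp (-Λ) ^ 2 * (1 / 2 * min 1 (dm / Cb ^ 2)) with hc1
  have hc10 : 0 < c1 := by
    rw [hc1]
    have := P.Cb0; have := P.d0
    have : 0 < min 1 (dm / Cb ^ 2) := lt_min one_pos (by positivity)
    positivity
  obtain ⟨η, hη, hdet⟩ := det_stable C2 (min (c1 / 2) 1) (lt_min (by positivity) one_pos)
  set ε₀ : ℝ := min 1 (min (1 / (4 * K + 1)) (η / (2 * K + 1))) with hε₀d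
  have hε₀0 : 0 < ε₀ := by positivity
  have hε₀1 : ε₀ ≤ 1 := min_le_left _ _
  have hε₀2 : 4 * K * ε₀ ≤ 1 := by
    have h1 : ε₀ ≤ 1 / (4 * K + 1) := (min_le_right _ _).trans (min_le_left _ _)
    calc 4 * K * ε₀ ≤ 4 * K * (1 / (4 * K + 1)) := by gcongr
      _ ≤ 1 := by
          rw [mul_one_div, div_le_one (by positivity)]; linarith
  have hε₀3 : 2 * K * ε₀ ≤ η := by
    have h1 : ε₀ ≤ η / (2 * K + 1) := (min_le_right _ _).trans (min_le_right _ _)
    calc 2 * K * ε₀ ≤ 2 * K * (η / (2 * K + 1)) := by gcongr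
      _ = η * (2 * K / (2 * K + 1)) := by ring
      _ ≤ η * 1 := by
          have : 2 * K / (2 * K + 1) ≤ 1 := by rw [div_le_one (by positivity)]; linarith
          gcongr
      _ = η := mul_one _
  refine ⟨ε₀, hε₀0, ‖(𝒜 : M →L[ℝ] E)‖₊ * (Real.toNNReal (K + 2) *
      ‖(Φ.symm : E →L[ℝ] M)‖₊), Q2 ε G lam, hS.eq, fun R hR hRL => ⟨?_, ?_, ?_⟩⟩
  · have h1 := TM_homeo P h hS hR hRL hε₀2 hε₀1
    exact 𝒜.toHomeomorph.isHomeomorph.comp (h1.comp Φ.symm.toHomeomorph.isHomeomorph)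
  · have hTL : LipschitzWith (Real.toNNReal (K + 2)) (TM (Q2 ε G lam) (g2 G lam) R) := by
      refine LipschitzWith.of_dist_le_mul fun x y => ?_
      rw [dist_eq_norm, dist_eq_norm, Real.coe_toNNReal _ (by linarith)]
      exact TM_lip hS hR hRL hε₀2 x y
    exact (𝒜 : M →L[ℝ] E).lipschitz.comp (hTL.comp (Φ.symm : E →L[ℝ] M).lipschitz)
  · intro x₀ hx₀
    set ζ₀ : ℂ := (R (Φ.symm x₀).2)⁻¹ • (Φ.symm x₀).1 with hζ₀
    rcases eq_or_ne ζ₀ 0 with h0 | h0
    · refine moll_core h hS hR hRL hε₀2 Φ 𝒜 hA hx₀ {ContinuousLinearMap.id ℝ M}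
        (convex_singleton _) isCompact_singleton ?_ ?_
      · rintro N hN N' hNN
        rw [mem_singleton_iff] at hN
        subst hN
        refine hdet _ _ ?_ ?_ (hNN.trans hε₀3)
        · refine ContinuousLinearMap.norm_id_le.trans ?_
          rw [hC2d]
          have : 0 ≤ Cl + Cl * D := by positivity
          linarith
        · refine (min_le_right _ _).trans ?_
          rw [ContinuousLinearMap.det]
          simp
      · rw [← hζ₀, h0]
        filter_upwards [K0_axis (B := B) (l := l) h.toPl h.lam0 P.ε0] with ζ hζ hζ0 i hi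
        rw [mem_singleton_iff]
        exact hζ hζ0 i hi
    · refine moll_core h hS hR hRL hε₀2 Φ 𝒜 hA hx₀
        (KS C2 c1 (c1 * ‖ζ₀‖ / (4 * C2)) ζ₀ (Vr ε G ζ₀)) (KS_convex _ _ _ _ _)
        (KS_compact _ _ _ _ _) ?_ ?_
      · intro N hN N' hNN
        exact hdet N N' hN.2.1 ((min_le_left _ _).trans (KS_det hC20 h0 hN)) (hNN.trans hε₀3)
      · rw [← hζ₀]
        have hθ : 0 < c1 * ‖ζ₀‖ / (4 * C2) := by
          have := norm_pos_iff.mpr h0
          positivity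
        exact K0_off P h.toPl hθ hc1 hC2 h0

end Crest.Agent.R096.Ed_276
end

-- ▼ part R096/Ed12_276
section

open Set Metric Filter Topology MeasureTheory
open scoped ComplexConjugate NNReal

namespace Crest.Agent.R096.Ed_276

variable {E : Type*} [NormedAddCommGroup E] [InnerProductSpace ℝ E] [FiniteDimensional ℝ E]

/-! ### the frame -/

/-- the linear map `(z, s) ↦ Re z u + Im z u' + s e`. -/
noncomputable def frL (u u' e : E) : M →ₗ[ℝ] E where
  toFun x := x.1.re • u + x.1.im • u' + x.2 • e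
  map_add' x y := by
    simp only [Prod.fst_add, Prod.snd_add, Complex.add_re, Complex.add_im]; module
  map_smul' c x := by
    simp only [Prod.smul_fst, Prod.smul_snd, Complex.real_smul, Complex.mul_re, Complex.mul_im,
      Complex.ofReal_re, Complex.ofReal_im, smul_eq_mul, RingHom.id_apply]; module

omit [FiniteDimensional ℝ E] in
lemma frL_apply (u u' e : E) (x : M) : frL u u' e x = x.1.re • u + x.1.im • u' + x.2 • e := rfl

omit [FiniteDimensional ℝ E] in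
lemma inner_frL_e {u u' e : E} (he : ‖e‖ = 1) (h1 : inner ℝ e u = 0) (h2 : inner ℝ e u' = 0)
    (x : M) : inner ℝ e (frL u u' e x) = x.2 := by
  rw [frL_apply, inner_add_right, inner_add_right, inner_smul_right, inner_smul_right,
    inner_smul_right, h1, h2, real_inner_self_eq_norm_sq, he]
  ring

omit [FiniteDimensional ℝ E] in
lemma frL_inj {u u' e : E} (he : ‖e‖ = 1) (hu : ‖u‖ = 1) (hu' : ‖u'‖ = 1) (h1 : inner ℝ e u = 0)
    (h2 : inner ℝ e u' = 0) (h3 : inner ℝ u u' = 0) : Function.Injective (frL u u' e) := by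
  rw [← LinearMap.ker_eq_bot, LinearMap.ker_eq_bot']
  intro x hx
  have e1 : x.2 = 0 := by rw [← inner_frL_e he h1 h2 x, hx, inner_zero_right]
  have e2 : x.1.re = 0 := by
    have h1' : inner ℝ u e = 0 := by rw [real_inner_comm]; exact h1
    have : inner ℝ u (frL u u' e x) = x.1.re := by
      rw [frL_apply, inner_add_right, inner_add_right, inner_smul_right, inner_smul_right,
        inner_smul_right, h3, h1', real_inner_self_eq_norm_sq, hu]
      ring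
    rw [← this, hx, inner_zero_right]
  have e3 : x.1.im = 0 := by
    have h3' : inner ℝ u' u = 0 := by rw [real_inner_comm]; exact h3
    have h2' : inner ℝ u' e = 0 := by rw [real_inner_comm]; exact h2
    have : inner ℝ u' (frL u u' e x) = x.1.im := by
      rw [frL_apply, inner_add_right, inner_add_right, inner_smul_right, inner_smul_right,
        inner_smul_right, h3', h2', real_inner_self_eq_norm_sq, hu']
      ring
    rw [← this, hx, inner_zero_right]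
  exact Prod.ext (Complex.ext e2 e3) e1

lemma exists_u' (h3 : Module.finrank ℝ E = 3) (u e : E) : ∃ u' : E, ‖u'‖ = 1 ∧ inner ℝ e u' = 0 ∧
    inner ℝ u u' = 0 := by
  classical
  set W : Submodule ℝ E := Submodule.span ℝ (({u, e} : Finset E) : Set E) with hW
  have hWr : Module.finrank ℝ W ≤ 2 :=
    (finrank_span_finset_le_card ({u, e} : Finset E)).trans Finset.card_le_two
  have h4 := Submodule.finrank_add_finrank_orthogonal W
  have h5 : 0 < Module.finrank ℝ Wᗮ := by omega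
  have h6 : Wᗮ ≠ ⊥ := by
    intro h0
    rw [h0, finrank_bot] at h5
    exact lt_irrefl _ h5
  obtain ⟨v, hv, hv0⟩ := Submodule.exists_mem_ne_zero_of_ne_bot h6
  have hvn : ‖v‖ ≠ 0 := norm_ne_zero_iff.mpr hv0
  have hu : inner ℝ u v = 0 :=
    (Submodule.mem_orthogonal W v).mp hv u (Submodule.subset_span (by simp))
  have he : inner ℝ e v = 0 :=
    (Submodule.mem_orthogonal W v).mp hv e (Submodule.subset_span (by simp))
  refine ⟨‖v‖⁻¹ • v, ?_, ?_, ?_⟩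
  · rw [norm_smul, norm_inv, norm_norm, inv_mul_cancel₀ hvn]
  · rw [inner_smul_right, he, mul_zero]
  · rw [inner_smul_right, hu, mul_zero]

/-- properties of the frame. -/
structure Frame (Φ : M ≃L[ℝ] E) (u e : E) : Prop where
  u_eq : Φ (1, 0) = u
  e_eq : Φ (0, 1) = e
  snd_eq : ∀ x, (Φ.symm x).2 = inner ℝ e x
  norm_eq : ∀ z : ℂ, ‖Φ (z, 0)‖ = ‖z‖

lemma exists_frame (h3 : Module.finrank ℝ E = 3) {u e : E} (he : ‖e‖ = 1) (hu : ‖u‖ = 1)
    (h1 : inner ℝ e u = 0) : ∃ Φ : M ≃L[ℝ] E, Frame Φ u e := by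
  obtain ⟨u', hu', h2, h4⟩ := exists_u' h3 u e
  have hdim : Module.finrank ℝ M = Module.finrank ℝ E := by
    rw [h3]; simp [M]
  set L := LinearMap.linearEquivOfInjective (frL u u' e)
    (frL_inj he hu hu' h1 h2 h4) hdim with hL
  have hLa : ∀ x, L x = frL u u' e x := fun x => by
    rw [hL]; rfl
  refine ⟨L.toContinuousLinearEquiv, ⟨?_, ?_, ?_, ?_⟩⟩
  · show L (1, 0) = u
    rw [hLa, frL_apply]; simp
  · show L (0, 1) = e
    rw [hLa, frL_apply]; simp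
  · intro x
    have : x = L (L.symm x) := (L.apply_symm_apply x).symm
    conv_rhs => rw [this, hLa, inner_frL_e he h1 h2]
    rfl
  · intro z
    show ‖L (z, 0)‖ = ‖z‖
    rw [hLa, frL_apply]
    have h5 : ‖z.re • u + z.im • u' + (0:ℝ) • e‖ ^ 2 = ‖z‖ ^ 2 := by
      rw [zero_smul, add_zero, ← real_inner_self_eq_norm_sq, inner_add_left, inner_add_right,
        inner_add_right, inner_smul_left, inner_smul_left, inner_smul_right, inner_smul_right,
        inner_smul_left, inner_smul_left, inner_smul_right, inner_smul_right, h4,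
        real_inner_comm u u', h4, real_inner_self_eq_norm_sq, real_inner_self_eq_norm_sq, hu, hu',
        ← Complex.normSq_eq_norm_sq, Complex.normSq_apply]
      simp
    exact (pow_left_inj₀ (norm_nonneg _) (norm_nonneg _) two_ne_zero).mp h5

end Crest.Agent.R096.Ed_276
end

-- ▼ part R096/Ed13_276

open Set Metric Filter Topology MeasureTheory
open scoped ComplexConjugate NNReal

namespace Crest.Agent.R096.Ed_276

variable {E : Type*} [NormedAddCommGroup E] [InnerProductSpace ℝ E] [FiniteDimensional ℝ E]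
  [MeasureSpace E] [BorelSpace E] [(volume : Measure E).IsAddHaarMeasure]

/-- the linear map corrected along the edge. -/
noncomputable def shp (A : E →L[ℝ] E) (e w : E) : E →L[ℝ] E :=
  A.comp (ContinuousLinearMap.id ℝ E - (innerSL ℝ e).smulRight e) + (innerSL ℝ e).smulRight w

omit [FiniteDimensional ℝ E] [MeasureSpace E] [BorelSpace E]
  [(volume : Measure E).IsAddHaarMeasure] in
lemma shp_apply (A : E →L[ℝ] E) (e w x : E) :
    shp A e w x = A (x - (inner ℝ e x : ℝ) • e) + (inner ℝ e x : ℝ) • w := by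
  simp [shp]

section

variable {H : E → E} {e : E} (g : P5Spec_205.EdgeGerm H e)
include g

omit [FiniteDimensional ℝ E] [BorelSpace E] [(volume : Measure E).IsAddHaarMeasure] in
lemma H_split (x : E) : H x = H (x - (inner ℝ e x : ℝ) • e) + (inner ℝ e x : ℝ) • H e := by
  rw [← g.inv, sub_add_cancel]

omit [FiniteDimensional ℝ E] [BorelSpace E] [(volume : Measure E).IsAddHaarMeasure] in
lemma shp_e (A : E →L[ℝ] E) : shp A e (H e) e = H e := by
  rw [shp_apply, real_inner_self_eq_norm_sq, g.unit]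
  simp

omit [FiniteDimensional ℝ E] [BorelSpace E] [(volume : Measure E).IsAddHaarMeasure] in
lemma shp_shift (A : E →L[ℝ] E) (x : E) (s : ℝ) :
    shp A e (H e) (x + s • e) = shp A e (H e) x + s • H e := by
  rw [map_add, map_smul, shp_e g]

/-- a point near which `H` is `shp A`, orthogonal to `e` and of norm one. -/
lemma exists_good (S : Finset (E →L[ℝ] E)) (hS : ∀ x, ∃ A ∈ S, H x = A x) (h3 : 2 ≤ Module.finrank ℝ E) :
    ∃ A ∈ S, ∃ u : E, ‖u‖ = 1 ∧ inner ℝ e u = 0 ∧ ∀ᶠ x in 𝓝 u, H x = shp A e (H e) x := by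
  have hc : Continuous H := g.homeo.continuous
  have hsel : ∀ x, ∃ i : S, H x = shp i.1 e (H e) x := by
    intro x
    obtain ⟨A, hA, h1⟩ := hS (x - (inner ℝ e x : ℝ) • e)
    exact ⟨⟨A, hA⟩, by rw [H_split g x, h1, shp_apply]⟩
  have h1 := ae_sel (volume : Measure E) (fun i : S => shp i.1 e (H e))
  have h2 := ae_sel (volume : Measure E) (fun b : Bool => bif b then
    (ContinuousLinearMap.id ℝ E - (innerSL ℝ e).smulRight e) else 0)
  have hne : ((ContinuousLinearMap.id ℝ E - (innerSL ℝ e).smulRight e : E →L[ℝ] E)) ≠ 0 := by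
    intro h0
    have h4 : ∀ x : E, x = (inner ℝ e x : ℝ) • e := by
      intro x
      have := congrArg (fun L : E →L[ℝ] E => L x) h0
      simp only [sub_apply, ContinuousLinearMap.id_apply, ContinuousLinearMap.smulRight_apply,
        innerSL_apply_apply, zero_apply] at this
      exact sub_eq_zero.mp this
    have h5 : Module.finrank ℝ E ≤ 1 := by
      refine finrank_le_one e fun x => ⟨inner ℝ e x, (h4 x).symm⟩
    omega
  obtain ⟨x, hx1, hx2⟩ := (h1.and h2).exists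
  obtain ⟨i, hi⟩ := sel_local hc hsel hx1
  set y : E := x - (inner ℝ e x : ℝ) • e with hy
  have hy0 : y ≠ 0 := by
    intro h0
    have := hx2 true false (by simpa [hy] using h0)
    exact hne (by simpa using this)
  have hyn : 0 < ‖y‖ := norm_pos_iff.mpr hy0
  have hye : inner ℝ e y = 0 := by
    rw [hy, inner_sub_right, inner_smul_right, real_inner_self_eq_norm_sq, g.unit]; ring
  refine ⟨i.1, i.2, ‖y‖⁻¹ • y, ?_, ?_, ?_⟩
  · rw [norm_smul, norm_inv, norm_norm, inv_mul_cancel₀ hyn.ne']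
  · rw [inner_smul_right, hye, mul_zero]
  · -- transport: `z ↦ ‖y‖ z + s e` maps `u` to `x`
    set s := (inner ℝ e x : ℝ) with hs
    have ht : Tendsto (fun z : E => ‖y‖ • z + s • e) (𝓝 (‖y‖⁻¹ • y)) (𝓝 x) := by
      have h6 : x = ‖y‖ • (‖y‖⁻¹ • y) + s • e := by
        rw [smul_smul, mul_inv_cancel₀ hyn.ne', one_smul, hy, sub_add_cancel]
      conv_rhs => rw [h6]
      exact Continuous.tendsto (by fun_prop) _
    filter_upwards [ht.eventually hi] with z hz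
    rw [g.inv, shp_shift g, add_left_inj, g.conic _ hyn.le, map_smul] at hz
    exact smul_right_injective E hyn.ne' hz

omit [FiniteDimensional ℝ E] [BorelSpace E] in
/-- active maps have positive determinant. -/
lemma det_pos_of_active (A : E →L[ℝ] E) {u : E} (hu : ∀ s : ℝ, u ≠ s • e)
    (hA : ∀ᶠ x in 𝓝 u, H x = A x) : 0 < A.det := by
  obtain ⟨r, hr, K, -, -, hK, -, hae⟩ := g.moll u hu
  obtain ⟨r', hr', hb⟩ := Metric.eventually_nhds_iff_ball.mp hA
  have hpos : (volume : Measure E) (ball u (min r r')) ≠ 0 :=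
    (isOpen_ball.measure_pos _ (nonempty_ball.mpr (lt_min hr hr'))).ne'
  -- there is a good point in the ball
  obtain ⟨y, hy, hyb⟩ : ∃ y, (y ∈ ball u r → fderiv ℝ H y ∈ K) ∧ y ∈ ball u (min r r') := by
    by_contra hcon
    push Not at hcon
    apply hpos
    refine measure_mono_null (fun y hy => ?_) (ae_iff.mp hae)
    intro h
    exact hcon y h hy
  have hyr : y ∈ ball u r := ball_subset_ball (min_le_left _ _) hyb
  have hyr' : y ∈ ball u r' := ball_subset_ball (min_le_right _ _) hyb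
  have h1 : fderiv ℝ H y = A := by
    have h2 : H =ᶠ[𝓝 y] A := by
      filter_upwards [isOpen_ball.mem_nhds hyr'] with z hz
      exact hb z hz
    rw [h2.fderiv_eq, ContinuousLinearMap.fderiv]
  rw [← h1]
  exact hK _ (hy hyr)

/-- **EDGE-B for one germ.** -/
theorem edge_germ (h3 : Module.finrank ℝ E = 3) : ∃ ε₀ > 0, ∃ C : ℝ≥0, ∃ Q : E → E,
    (∀ y, inner ℝ e y = 0 → 1 ≤ ‖y‖ → Q y = H y) ∧
    ∀ R : ℝ → ℝ, (∀ s, 0 ≤ R s) → (∀ s t, |R s - R t| ≤ ε₀ * |s - t|) →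
      IsHomeomorph (P5Spec_205.tubeMap H Q e R) ∧ LipschitzWith C (P5Spec_205.tubeMap H Q e R) ∧
      ∀ x, 0 < R (inner ℝ e x) → P5Spec_205.MollAt (P5Spec_205.tubeMap H Q e R) x := by
  obtain ⟨S, hS⟩ := g.pl
  have hc : Continuous H := g.homeo.continuous
  obtain ⟨A0', hA0S, u, hu, hue, hnear⟩ := exists_good g S hS (by omega)
  have hu_off : ∀ s : ℝ, u ≠ s • e := by
    intro s h0
    have h1 : s = 0 := by
      have := hue
      rw [h0, inner_smul_right, real_inner_self_eq_norm_sq, g.unit] at this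
      simpa using this
    rw [h0, h1, zero_smul, norm_zero] at hu
    exact zero_ne_one hu
  set A0 := shp A0' e (H e) with hA0
  have hdet0 : 0 < A0.det := det_pos_of_active g A0 hu_off hnear
  obtain ⟨Φ, hΦ⟩ := exists_frame h3 g.unit hu hue
  set A0e : E ≃L[ℝ] E := A0.toContinuousLinearEquivOfDetNeZero hdet0.ne' with hA0e
  have hA0ea : ∀ x, A0e x = A0 x := fun x => by rw [hA0e]; rfl
  set 𝒜 : M ≃L[ℝ] E := Φ.trans A0e with h𝒜
  have h𝒜a : ∀ x, 𝒜 x = A0 (Φ x) := fun x => by rw [h𝒜]; exact hA0ea _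
  have h𝒜e : 𝒜 (0, 1) = H e := by rw [h𝒜a, hΦ.e_eq, hA0, shp_e g]
  -- active index type
  let ι := {i : S // (interior {x | H x = shp i.1 e (H e) x}).Nonempty}
  have hfin : Finite ι := inferInstance
  let AA : ι → E →L[ℝ] E := fun i => shp i.1.1 e (H e)
  have hsel0 : ∀ x, ∃ i : S, H x = shp i.1 e (H e) x := by
    intro x
    obtain ⟨A, hA, h1⟩ := hS (x - (inner ℝ e x : ℝ) • e)
    exact ⟨⟨A, hA⟩, by rw [H_split g x, h1, shp_apply]⟩
  have hselA : ∀ x, ∃ i : ι, H x = AA i x := by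
    -- closed set containing a dense set
    have hcl : IsClosed (⋃ i : ι, {x | H x = AA i x}) :=
      isClosed_iUnion_of_finite fun i => isClosed_eq hc (AA i).continuous
    have hd : Dense {x : E | ∀ i j : S, shp i.1 e (H e) x = shp j.1 e (H e) x →
        shp i.1 e (H e) = shp j.1 e (H e)} :=
      Measure.dense_of_ae (ae_sel (volume : Measure E) (fun i : S => shp i.1 e (H e)))
    have hsub : {x : E | ∀ i j : S, shp i.1 e (H e) x = shp j.1 e (H e) x →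
        shp i.1 e (H e) = shp j.1 e (H e)} ⊆ ⋃ i : ι, {x | H x = AA i x} := by
      intro x hx
      obtain ⟨i, hi⟩ := sel_local hc hsel0 hx
      have h4 : x ∈ interior {x | H x = shp i.1 e (H e) x} := mem_interior_iff_mem_nhds.mpr hi
      exact mem_iUnion.mpr ⟨⟨i, ⟨x, h4⟩⟩, hi.self_of_nhds⟩
    have huniv : (⋃ i : ι, {x | H x = AA i x}) = univ := by
      rw [← hcl.closure_eq]
      exact (hd.mono hsub).closure_eq
    intro x
    have : x ∈ ⋃ i : ι, {x | H x = AA i x} := by rw [huniv]; trivial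
    exact mem_iUnion.mp this
  have hdetA : ∀ i : ι, 0 < (AA i).det := by
    rintro ⟨i, hi⟩
    -- a point of the interior off the line
    have hopen : IsOpen (interior {x | H x = shp i.1 e (H e) x}) := isOpen_interior
    have hne : ∃ x ∈ interior {x | H x = shp i.1 e (H e) x}, ∀ s : ℝ, x ≠ s • e := by
      obtain ⟨x, hx⟩ := hi
      by_cases h5 : ∀ s : ℝ, x ≠ s • e
      · exact ⟨x, hx, h5⟩
      · push Not at h5
        obtain ⟨s, hs⟩ := h5
        -- move in direction u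
        have ht : Tendsto (fun t : ℝ => x + t • u) (𝓝[>] 0) (𝓝 x) := by
          have h6 : Tendsto (fun t : ℝ => x + t • u) (𝓝 0) (𝓝 (x + (0:ℝ) • u)) :=
            Continuous.tendsto (by fun_prop) _
          rw [zero_smul, add_zero] at h6
          exact h6.mono_left nhdsWithin_le_nhds
        obtain ⟨t, ht1, ht2⟩ := ((ht.eventually (hopen.mem_nhds hx)).and
          (self_mem_nhdsWithin : Ioi (0:ℝ) ∈ 𝓝[>] 0)).exists
        refine ⟨_, ht1, fun s' h7 => ?_⟩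
        have ht0 : (0:ℝ) < t := ht2
        apply hu_off (t⁻¹ * (s' - s))
        have h8 : t • u = (s' - s) • e := by
          rw [sub_smul, ← h7, hs]; abel
        rw [mul_smul, ← h8, smul_smul, inv_mul_cancel₀ ht0.ne', one_smul]
    obtain ⟨x, hx, hxl⟩ := hne
    exact det_pos_of_active g _ hxl (mem_interior_iff_mem_nhds.mp hx)
  -- planar data
  set gg : ℂ → M := fun z => 𝒜.symm (H (Φ (z, 0))) with hgg
  let N : ι → M →L[ℝ] M := fun i =>
    (𝒜.symm : E →L[ℝ] M).comp ((AA i).comp (Φ : M →L[ℝ] E))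
  let B : ι → ℂ →L[ℝ] ℂ := fun i => (ContinuousLinearMap.fst ℝ ℂ ℝ).comp
    ((N i).comp (ContinuousLinearMap.inl ℝ ℂ ℝ))
  let l : ι → ℂ →L[ℝ] ℝ := fun i => (ContinuousLinearMap.snd ℝ ℂ ℝ).comp
    ((N i).comp (ContinuousLinearMap.inl ℝ ℂ ℝ))
  have hNe : ∀ i, N i (0, 1) = (0, 1) := by
    intro i
    show 𝒜.symm (AA i (Φ (0, 1))) = (0, 1)
    rw [hΦ.e_eq]
    show 𝒜.symm (shp i.1.1 e (H e) e) = (0, 1)
    rw [shp_e g, ← h𝒜e, 𝒜.symm_apply_apply]
  have hggc : Continuous gg := by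
    have : Continuous fun z : ℂ => ((z, 0) : M) := by fun_prop
    exact 𝒜.symm.continuous.comp (hc.comp (Φ.continuous.comp this))
  have hgsmul : ∀ (t : ℝ) (z : ℂ), ((((t : ℂ) * z, 0) : M)) = t • ((z, 0) : M) := by
    intro t z
    apply Prod.ext
    · simp
    · simp
  have hgghom : ∀ t : ℝ, 0 ≤ t → ∀ z : ℂ, gg (t * z) = t • gg z := by
    intro t ht z
    show 𝒜.symm (H (Φ ((t : ℂ) * z, 0))) = t • 𝒜.symm (H (Φ (z, 0)))
    rw [hgsmul, map_smul, g.conic t ht, map_smul]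
  have hP : Pl2 B l (fun z => (gg z).1) (fun z => (gg z).2) := by
    refine { cont := continuous_fst.comp hggc, inj := ?_, hom := ?_, sel := ?_, det := ?_,
             idn := ?_, contl := continuous_snd.comp hggc, homl := ?_, sel2 := ?_ }
    · intro z w hzw
      have h1 : gg z = gg w + ((gg z).2 - (gg w).2) • ((0, 1) : M) := by
        apply Prod.ext
        · have : (gg z).1 = (gg w).1 := hzw
          simp [this]
        · simp
      have h2 := congrArg 𝒜 h1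
      rw [map_add, map_smul, h𝒜e] at h2
      have h3' : ∀ z, 𝒜 (gg z) = H (Φ (z, 0)) := fun z => 𝒜.apply_symm_apply _
      rw [h3', h3', ← g.inv] at h2
      have h4 := g.homeo.injective h2
      rw [← hΦ.e_eq, ← map_smul, ← map_add] at h4
      have h5 := Φ.injective h4
      have h6 := congrArg Prod.fst h5
      simpa using h6
    · intro t ht z
      have := congrArg Prod.fst (hgghom t ht z)
      simpa using this
    · intro z
      obtain ⟨i, hi⟩ := hselA (Φ (z, 0))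
      refine ⟨i, ?_⟩
      show (𝒜.symm (H (Φ (z, 0)))).1 = (𝒜.symm (AA i (Φ (z, 0)))).1
      rw [hi]
    · intro i
      have h1 : (B i).det = (N i).det := by
        rw [det_M (N i) (hNe i), det_eq]
        rfl
      have h2 : (N i).det = ((A0e.symm : E →L[ℝ] E).comp (AA i)).det := by
        have e1 : N i = (Φ.symm : E →L[ℝ] M).comp
            (((A0e.symm : E →L[ℝ] E).comp (AA i)).comp (Φ : M →L[ℝ] E)) := by
          ext x <;> rfl
        rw [e1]
        have := LinearMap.det_conj (((A0e.symm : E →L[ℝ] E).comp (AA i) : E →L[ℝ] E) :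
          E →ₗ[ℝ] E) Φ.symm.toLinearEquiv
        exact this
      have h3' : A0.det * ((A0e.symm : E →L[ℝ] E).comp (AA i)).det = (AA i).det := by
        rw [← clm_det_comp]
        congr 1
        ext x
        show A0 (A0e.symm (AA i x)) = AA i x
        rw [← hA0ea, A0e.apply_symm_apply]
      rw [h1, h2]
      have h4 := hdetA i
      rw [← h3'] at h4
      exact (mul_pos_iff_of_pos_left hdet0).mp h4
    · have ht : Tendsto (fun z : ℂ => Φ (z, 0)) (𝓝 1) (𝓝 u) := by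
        rw [← hΦ.u_eq]
        exact Continuous.tendsto (Φ.continuous.comp (by fun_prop)) _
      filter_upwards [ht.eventually hnear] with z hz
      show (𝒜.symm (H (Φ (z, 0)))).1 = z
      rw [hz, ← h𝒜a, 𝒜.symm_apply_apply]
    · intro t ht z
      have := congrArg Prod.snd (hgghom t ht z)
      simpa using this
    · intro z
      obtain ⟨i, hi⟩ := hselA (Φ (z, 0))
      refine ⟨i, ?_, ?_⟩
      · show (𝒜.symm (H (Φ (z, 0)))).1 = (𝒜.symm (AA i (Φ (z, 0)))).1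
        rw [hi]
      · show (𝒜.symm (H (Φ (z, 0)))).2 = (𝒜.symm (AA i (Φ (z, 0)))).2
        rw [hi]
  have hdetA𝒜 : 0 < ((𝒜 : M →L[ℝ] E).comp (Φ.symm : E →L[ℝ] M)).det := by
    have : (𝒜 : M →L[ℝ] E).comp (Φ.symm : E →L[ℝ] M) = A0 := by
      ext x
      show 𝒜 (Φ.symm x) = A0 x
      rw [h𝒜a, Φ.apply_symm_apply]
    rw [this]; exact hdet0
  obtain ⟨ε₀, hε₀, C, Q, hQ1, hQ2⟩ := edge_model hP Φ 𝒜 hdetA𝒜
  have hg2 : ∀ z, g2 (fun z => (gg z).1) (fun z => (gg z).2) z = gg z := fun z => rfl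
  refine ⟨ε₀, hε₀, C, fun y => 𝒜 (Q (Φ.symm y).1), ?_, fun R hR hRL => ?_⟩
  · intro y hy hy1
    have h1 : y = Φ ((Φ.symm y).1, 0) := by
      have h2 : ((Φ.symm y).1, (0:ℝ)) = Φ.symm y := by
        apply Prod.ext
        · rfl
        · show (0:ℝ) = (Φ.symm y).2
          rw [hΦ.snd_eq, hy]
      rw [h2, Φ.apply_symm_apply]
    have h2 : 1 ≤ ‖(Φ.symm y).1‖ := by
      rw [← hΦ.norm_eq, ← h1]; exact hy1
    show 𝒜 (Q (Φ.symm y).1) = H y
    rw [hQ1 _ h2, hg2]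
    show 𝒜 (𝒜.symm (H (Φ ((Φ.symm y).1, 0)))) = H y
    rw [𝒜.apply_symm_apply, ← h1]
  · have heq : P5Spec_205.tubeMap H (fun y => 𝒜 (Q (Φ.symm y).1)) e R =
        fun x => 𝒜 (TM Q (g2 (fun z => (gg z).1) (fun z => (gg z).2)) R (Φ.symm x)) := by
      funext x
      set m := Φ.symm x with hm
      have hx : x = Φ m := by rw [hm, Φ.apply_symm_apply]
      have hs : (inner ℝ e x : ℝ) = m.2 := (hΦ.snd_eq x).symm
      have hxe : x - (inner ℝ e x : ℝ) • e = Φ (m.1, 0) := by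
        rw [hs, ← hΦ.e_eq, ← map_smul, hx, ← map_sub]
        congr 1
        apply Prod.ext
        · simp
        · simp
      rw [TM, map_add]
      have h01 : ((0 : ℂ), m.2) = m.2 • ((0, 1) : M) := by simp
      rw [P5Spec_205.tubeMap, hxe, hs]
      by_cases h0 : R m.2 = 0
      · rw [if_pos h0, h0, sc_zero, hg2, h01, map_smul, h𝒜e]
        show H x = 𝒜 (𝒜.symm (H (Φ (m.1, 0)))) + m.2 • H e
        rw [𝒜.apply_symm_apply, ← hxe, ← hs]
        exact H_split g x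
      · rw [if_neg h0, sc_pos h0, h01, map_smul 𝒜 (R m.2), map_smul 𝒜 m.2, h𝒜e, add_comm,
          map_smul Φ.symm, Φ.symm_apply_apply]
        rfl
    rw [heq]
    obtain ⟨h1, h2, h4⟩ := hQ2 R hR hRL
    refine ⟨h1, h2, fun x hx => h4 x ?_⟩
    rw [hΦ.snd_eq]; exact hx

end

/-- **EDGE-B**, literal form of `P5Spec_205`. -/
theorem edgeB : P5Spec_205.EdgeB (EuclideanSpace ℝ (Fin 3)) := by
  intro H e g
  exact edge_germ g (by simp)

end Crest.Agent.R096.Ed_276
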