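import Mathlib

-- ▼ part R096/Ed1_276
section

open Set Metric Filter Topology
open scoped ComplexConjugate

namespace Crest.Agent.R096.Ed_276

/-- propagation along an interval. -/
lemma real_prop {F : Type*} [NormedAddCommGroup F] {g : ℝ → F} {a b C : ℝ} (hab : a ≤ b)
    (hg : ContinuousOn g (Icc a b))
    (h : ∀ t ∈ Ico a b, ∀ y > t, ∃ t' ∈ Ioc t y, t' ≤ b → ‖g t' - g t‖ ≤ C * (t' - t)) :
    ‖g b - g a‖ ≤ C * (b - a) := by
  set s : Set ℝ := {t | ‖g t - g a‖ ≤ C * (t - a)} with hs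
  have hcl : IsClosed (s ∩ Icc a b) := by
    have : s ∩ Icc a b = {t ∈ Icc a b | ‖g t - g a‖ ≤ C * (t - a)} := by
      ext t; simp [hs, and_comm]
    rw [this]
    exact isClosed_Icc.isClosed_le ((hg.sub continuousOn_const).norm) (by fun_prop)
  have hsub : Icc a b ⊆ s := by
    refine hcl.Icc_subset_of_forall_exists_gt (by simp [hs]) ?_
    rintro x ⟨hx, hxI⟩ y hy
    have hxb : x < min y b := lt_min hy hxI.2
    obtain ⟨t', ht', h'⟩ := h x hxI (min y b) hxb
    refine ⟨t', ?_, ht'.1, ht'.2.trans (min_le_left _ _)⟩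
    have h1 := h' (ht'.2.trans (min_le_right _ _))
    have h2 : ‖g x - g a‖ ≤ C * (x - a) := hx
    show ‖g t' - g a‖ ≤ C * (t' - a)
    calc ‖g t' - g a‖ = ‖(g t' - g x) + (g x - g a)‖ := by congr 1; abel
      _ ≤ ‖g t' - g x‖ + ‖g x - g a‖ := norm_add_le _ _
      _ ≤ C * (t' - x) + C * (x - a) := add_le_add h1 h2
      _ = C * (t' - a) := by ring
  exact hsub ⟨hab, le_rfl⟩

/-- A continuous map which is locally `M`-Lipschitz on each member of a finite closed cover is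
`M`-Lipschitz (no convexity of the pieces). -/
lemma lip_cover {E F ι : Type*} [NormedAddCommGroup E] [NormedSpace ℝ E] [NormedAddCommGroup F]
    [Finite ι] {C : ι → Set E} (hcl : ∀ i, IsClosed (C i))
    (hcov : ∀ x, ∃ i, x ∈ C i) {f : E → F} {M : ℝ}
    (hf : ∀ i, ∀ x ∈ C i, ∀ᶠ y in 𝓝 x, y ∈ C i → ‖f y - f x‖ ≤ M * ‖y - x‖) (hc : Continuous f)
    (x y : E) : ‖f x - f y‖ ≤ M * ‖x - y‖ := by
  set p : ℝ → E := fun t => y + t • (x - y) with hp
  have hpc : Continuous p := by fun_prop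
  have key : ‖(f ∘ p) 1 - (f ∘ p) 0‖ ≤ (M * ‖x - y‖) * (1 - 0) := by
    refine real_prop (g := f ∘ p) zero_le_one (hc.comp hpc).continuousOn ?_
    intro t _ht u hu
    -- some `i` contains `p t'` for `t'` arbitrarily close to `t` from the right
    have hfr2 : ∃ i, ∃ᶠ t' in 𝓝[>] t, p t' ∈ C i := by
      by_contra hcon
      have : ∀ᶠ t' in 𝓝[>] t, ∀ i, p t' ∉ C i := by
        rw [eventually_all]
        intro i
        exact not_frequently.mp (fun h => hcon ⟨i, h⟩)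
      obtain ⟨t', ht'⟩ := this.exists
      obtain ⟨i, hi⟩ := hcov (p t')
      exact ht' i hi
    obtain ⟨i, hi⟩ := hfr2
    have hti : p t ∈ C i := by
      have h1 : ∃ᶠ t' in 𝓝 t, p t' ∈ C i := hi.filter_mono nhdsWithin_le_nhds
      have h2 : t ∈ closure (p ⁻¹' (C i)) := mem_closure_iff_frequently.mpr h1
      rw [((hcl i).preimage hpc).closure_eq] at h2
      exact h2
    have h5 : ∀ᶠ t' in 𝓝[>] t, p t' ∈ C i → ‖f (p t') - f (p t)‖ ≤ M * ‖p t' - p t‖ :=
      (hpc.continuousAt.mono_left nhdsWithin_le_nhds).eventually (hf i (p t) hti)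
    have h7 : ∀ᶠ t' in 𝓝[>] t, t' ∈ Ioc t u := Ioc_mem_nhdsGT hu
    obtain ⟨t', ht', hit', h6⟩ := (hi.and_eventually (h7.and h5)).exists
    refine ⟨t', hit', fun _ => ?_⟩
    have h3 := h6 ht'
    have h4 : p t' - p t = (t' - t) • (x - y) := by simp only [hp]; module
    rw [h4, norm_smul, Real.norm_eq_abs, abs_of_pos (sub_pos.mpr hit'.1)] at h3
    calc ‖(f ∘ p) t' - (f ∘ p) t‖ ≤ M * ((t' - t) * ‖x - y‖) := h3
      _ = M * ‖x - y‖ * (t' - t) := by ring
  simpa [hp] using key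

/-- cross product on `ℂ`. -/
def cr (u v : ℂ) : ℝ := u.re * v.im - u.im * v.re

lemma cr_mul (g u v : ℂ) : cr (g * u) (g * v) = ‖g‖ ^ 2 * cr u v := by
  simp only [cr, Complex.mul_re, Complex.mul_im, ← Complex.normSq_eq_norm_sq, Complex.normSq_apply]
  ring

lemma cr_add_right (u v w : ℂ) : cr u (v + w) = cr u v + cr u w := by
  simp only [cr, Complex.add_re, Complex.add_im]; ring

lemma cr_add_left (u v w : ℂ) : cr (u + v) w = cr u w + cr v w := by
  simp only [cr, Complex.add_re, Complex.add_im]; ring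

lemma cr_sub_left (u v w : ℂ) : cr (u - v) w = cr u w - cr v w := by
  simp only [cr, Complex.sub_re, Complex.sub_im]; ring

lemma cr_smul_right (r : ℝ) (u v : ℂ) : cr u (r • v) = r * cr u v := by
  simp only [cr, Complex.real_smul, Complex.mul_re, Complex.mul_im, Complex.ofReal_re,
    Complex.ofReal_im]; ring

lemma abs_cr_le (u v : ℂ) : |cr u v| ≤ ‖u‖ * ‖v‖ := by
  have h : cr u v = (conj u * v).im := by
    simp only [cr, Complex.mul_im, Complex.conj_re, Complex.conj_im]; ring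
  rw [h]
  calc |(conj u * v).im| ≤ ‖conj u * v‖ := Complex.abs_im_le_norm _
    _ = ‖u‖ * ‖v‖ := by rw [norm_mul, Complex.norm_conj]

/-- determinant of a real linear map of `ℂ`. -/
lemma det_eq (B : ℂ →L[ℝ] ℂ) : B.det = cr (B 1) (B Complex.I) := by
  rw [ContinuousLinearMap.det, ← LinearMap.det_toMatrix Complex.basisOneI, Matrix.det_fin_two]
  simp only [LinearMap.toMatrix_apply, Complex.coe_basisOneI_repr, Complex.coe_basisOneI,
    Matrix.cons_val_zero, Matrix.cons_val_one, cr]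
  simp
  ring

lemma lin_eq (B : ℂ →L[ℝ] ℂ) (z : ℂ) : B z = z.re • B 1 + z.im • B Complex.I := by
  have : z = z.re • (1:ℂ) + z.im • Complex.I := by
    apply Complex.ext <;> simp
  conv_lhs => rw [this]
  rw [map_add, map_smul, map_smul]

/-- `det B |z|^2 = cr (B z) (B (i z))`. -/
lemma cr_apply (B : ℂ →L[ℝ] ℂ) (z : ℂ) :
    cr (B z) (B (Complex.I * z)) = B.det * ‖z‖ ^ 2 := by
  rw [det_eq, lin_eq B z, lin_eq B (Complex.I * z), ← Complex.normSq_eq_norm_sq,
    Complex.normSq_apply]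
  simp only [cr, Complex.add_re, Complex.add_im, Complex.real_smul, Complex.mul_re, Complex.mul_im,
    Complex.ofReal_re, Complex.ofReal_im, Complex.I_re, Complex.I_im]
  ring

lemma det_mul_norm_le (B : ℂ →L[ℝ] ℂ) (z : ℂ) : B.det * ‖z‖ ≤ ‖B‖ * ‖B z‖ := by
  rcases eq_or_ne z 0 with rfl | hz
  · simp
  have hz' : 0 < ‖z‖ := norm_pos_iff.mpr hz
  have h1 := cr_apply B z
  have h2 : cr (B z) (B (Complex.I * z)) ≤ ‖B z‖ * ‖B (Complex.I * z)‖ :=
    (le_abs_self _).trans (abs_cr_le _ _)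
  have h3 : ‖B (Complex.I * z)‖ ≤ ‖B‖ * ‖z‖ := by
    refine (B.le_opNorm _).trans ?_
    simp
  have h4 : B.det * ‖z‖ ^ 2 ≤ ‖B z‖ * (‖B‖ * ‖z‖) := by
    rw [← h1]; exact h2.trans (mul_le_mul_of_nonneg_left h3 (norm_nonneg _))
  have h5 : (B.det * ‖z‖) * ‖z‖ ≤ (‖B‖ * ‖B z‖) * ‖z‖ := by nlinarith
  exact le_of_mul_le_mul_right h5 hz'

/-- `B (i z)/ B z` has imaginary part `det B |z|^2 / |B z|^2`. -/
lemma im_div (B : ℂ →L[ℝ] ℂ) (z : ℂ) :
    (B (Complex.I * z) / B z).im = B.det * ‖z‖ ^ 2 / ‖B z‖ ^ 2 := by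
  rw [← cr_apply, Complex.div_im, ← Complex.normSq_eq_norm_sq, cr]
  ring

abbrev M := ℂ × ℝ

/-- block triangular map `(v, r) ↦ (D v, r + l v)`. -/
noncomputable def tri (D : ℂ →L[ℝ] ℂ) (l : ℂ →L[ℝ] ℝ) : M →L[ℝ] M :=
  (D.comp (ContinuousLinearMap.fst ℝ ℂ ℝ)).prod
    (ContinuousLinearMap.snd ℝ ℂ ℝ + l.comp (ContinuousLinearMap.fst ℝ ℂ ℝ))

@[simp] lemma tri_apply (D : ℂ →L[ℝ] ℂ) (l : ℂ →L[ℝ] ℝ) (x : M) :
    tri D l x = (D x.1, x.2 + l x.1) := rfl

/-- determinant of an endomorphism of `ℂ × ℝ` fixing the last basis vector. -/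
lemma det_M (N : M →L[ℝ] M) (hN : N (0, 1) = (0, 1)) :
    N.det = cr (N (1, 0)).1 (N (Complex.I, 0)).1 := by
  set b := Complex.basisOneI.prod (Module.Basis.singleton Unit ℝ) with hb
  rw [ContinuousLinearMap.det, ← LinearMap.det_toMatrix b]
  have h : LinearMap.toMatrix b b (N : M →ₗ[ℝ] M) =
      Matrix.fromBlocks
        (Matrix.of fun i j => (![(N (![(1:ℂ), Complex.I] j, 0)).1.re,
          (N (![(1:ℂ), Complex.I] j, 0)).1.im] : Fin 2 → ℝ) i)
        0 (Matrix.of fun _ j => (N (![(1:ℂ), Complex.I] j, 0)).2) 1 := by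
    ext i j
    rcases i with i | i <;> rcases j with j | j
    · simp [LinearMap.toMatrix_apply, hb, Module.Basis.prod_apply]
    · simp [LinearMap.toMatrix_apply, hb, Module.Basis.prod_apply, hN]
    · simp [LinearMap.toMatrix_apply, hb, Module.Basis.prod_apply]
    · simp [LinearMap.toMatrix_apply, hb, Module.Basis.prod_apply, hN]
  rw [h, Matrix.det_fromBlocks_zero₁₂, Matrix.det_one, mul_one, Matrix.det_fin_two]
  simp only [cr, Matrix.of_apply, Matrix.cons_val_zero, Matrix.cons_val_one]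
  ring

end Crest.Agent.R096.Ed_276
end

-- ▼ part R096/Ed2_276

open Set Metric Filter Topology
open scoped ComplexConjugate

namespace Crest.Agent.R096.Ed_276

/-- conic continuous injective selection of finitely many real linear maps with positive
determinant of the plane, `= id` near `1`. -/
structure Pl {ι : Type*} (B : ι → ℂ →L[ℝ] ℂ) (G : ℂ → ℂ) : Prop where
  cont : Continuous G
  inj : Function.Injective G
  hom : ∀ t : ℝ, 0 ≤ t → ∀ z, G (t * z) = t * G z
  sel : ∀ z, ∃ i, G z = B i z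
  det : ∀ i, 0 < (B i).det
  idn : ∀ᶠ z in 𝓝 (1:ℂ), G z = z

variable {ι : Type*} {B : ι → ℂ →L[ℝ] ℂ} {G : ℂ → ℂ}

namespace Pl

lemma zero (h : Pl B G) : G 0 = 0 := by
  have := h.hom 0 le_rfl 0
  simpa using this

lemma ray (h : Pl B G) {r : ℝ} (hr : 0 ≤ r) : G r = r := by
  have h1 : G 1 = 1 := h.idn.self_of_nhds
  have := h.hom r hr 1
  simpa [h1] using this

lemma ne (h : Pl B G) {z : ℂ} (hz : z ≠ 0) : G z ≠ 0 := fun h0 =>
  hz (h.inj (h0.trans h.zero.symm))

lemma not_slit {z : ℂ} (hz : -z ∉ Complex.slitPlane) : z = (z.re : ℂ) ∧ 0 ≤ z.re := by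
  rw [Complex.mem_slitPlane_iff] at hz
  push Not at hz
  obtain ⟨h1, h2⟩ := hz
  simp only [Complex.neg_re, Complex.neg_im, neg_eq_zero] at h1 h2
  exact ⟨Complex.ext (by simp) (by simp [h2]), by linarith⟩

lemma slit (h : Pl B G) {z : ℂ} (hz : -z ∈ Complex.slitPlane) : -G z ∈ Complex.slitPlane := by
  by_contra hcon
  obtain ⟨h1, h2⟩ := not_slit hcon
  have h3 : G z = G ((G z).re : ℂ) := by rw [h.ray h2]; exact h1
  have h4 := h.inj h3
  rw [h4, Complex.mem_slitPlane_iff] at hz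
  simp only [Complex.neg_re, Complex.ofReal_re, Complex.neg_im, Complex.ofReal_im, neg_zero,
    ne_eq, not_true_eq_false, or_false] at hz
  linarith

lemma near_slit (h : Pl B G) {z : ℂ} (hz0 : z ≠ 0) (hz : -z ∉ Complex.slitPlane) :
    ∀ᶠ w in 𝓝 z, G w = w := by
  obtain ⟨h1, h2⟩ := not_slit hz
  have hr : 0 < z.re := lt_of_le_of_ne h2 (fun h0 => hz0 (by rw [h1, ← h0]; simp))
  have ht : Tendsto (fun w : ℂ => w / (z.re : ℂ)) (𝓝 z) (𝓝 1) := by
    have : (1:ℂ) = z / (z.re : ℂ) := by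
      rw [← h1, div_self hz0]
    rw [this]
    exact (continuous_id.div_const _).tendsto _
  filter_upwards [ht.eventually h.idn] with w hw
  have hr' : (z.re : ℂ) ≠ 0 := by exact_mod_cast hr.ne'
  have h3 : w = (z.re : ℂ) * (w / (z.re : ℂ)) := by
    rw [mul_div_cancel₀ _ hr']
  rw [h3, h.hom _ hr.le, hw]

end Pl

/-- logarithm of `G z / z`. -/
noncomputable def Lg (G : ℂ → ℂ) (z : ℂ) : ℂ :=
  open Classical in
  if -z ∈ Complex.slitPlane then Complex.log (-G z) - Complex.log (-z) else 0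

lemma Lg_of_slit {z : ℂ} (hz : -z ∈ Complex.slitPlane) :
    Lg G z = Complex.log (-G z) - Complex.log (-z) := by
  simp [Lg, hz]

lemma Lg_of_not {z : ℂ} (hz : -z ∉ Complex.slitPlane) : Lg G z = 0 := by
  simp [Lg, hz]

lemma Lg_of_eq {z : ℂ} (hz : G z = z) : Lg G z = 0 := by
  by_cases h : -z ∈ Complex.slitPlane
  · rw [Lg_of_slit h, hz, sub_self]
  · exact Lg_of_not h

lemma eventually_slit {z : ℂ} (hz : -z ∈ Complex.slitPlane) :
    ∀ᶠ w in 𝓝 z, -w ∈ Complex.slitPlane :=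
  (continuous_neg.tendsto z).eventually (Complex.isOpen_slitPlane.mem_nhds hz)

namespace Pl

lemma near_slit_Lg (h : Pl B G) {z : ℂ} (hz0 : z ≠ 0) (hz : -z ∉ Complex.slitPlane) :
    ∀ᶠ w in 𝓝 z, Lg G w = 0 := by
  filter_upwards [h.near_slit hz0 hz] with w hw
  exact Lg_of_eq hw

lemma continuousAt_Lg (h : Pl B G) {z : ℂ} (hz0 : z ≠ 0) : ContinuousAt (Lg G) z := by
  by_cases hz : -z ∈ Complex.slitPlane
  · have h1 : ContinuousAt (fun w => Complex.log (-G w) - Complex.log (-w)) z := by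
      refine ContinuousAt.sub ?_ ?_
      · exact ContinuousAt.clog (h.cont.neg.continuousAt) (h.slit hz)
      · exact ContinuousAt.clog (continuous_neg.continuousAt) hz
    refine h1.congr ?_
    filter_upwards [eventually_slit hz] with w hw
    exact (Lg_of_slit hw).symm
  · refine (continuousAt_const (y := (0:ℂ))).congr ?_
    filter_upwards [h.near_slit_Lg hz0 hz] with w hw
    exact hw.symm

lemma exp_Lg (h : Pl B G) {z : ℂ} (hz0 : z ≠ 0) : z * Complex.exp (Lg G z) = G z := by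
  by_cases hz : -z ∈ Complex.slitPlane
  · rw [Lg_of_slit hz, Complex.exp_sub, Complex.exp_log (neg_ne_zero.mpr (h.ne hz0)),
      Complex.exp_log (neg_ne_zero.mpr hz0)]
    field_simp
  · have := (h.near_slit hz0 hz).self_of_nhds
    rw [Lg_of_not hz, this]; simp

/-- real part of the logarithm. -/
lemma re_Lg (h : Pl B G) {z : ℂ} (hz0 : z ≠ 0) : (Lg G z).re = Real.log (‖G z‖ / ‖z‖) := by
  have h1 := h.exp_Lg hz0
  have h2 : ‖z‖ * Real.exp (Lg G z).re = ‖G z‖ := by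
    rw [← h1, norm_mul, Complex.norm_exp]
  have hz : ‖z‖ ≠ 0 := norm_ne_zero_iff.mpr hz0
  rw [← h2, mul_div_cancel_left₀ _ hz, Real.log_exp]

lemma abs_im_Lg (z : ℂ) : |(Lg G z).im| ≤ 2 * Real.pi := by
  by_cases hz : -z ∈ Complex.slitPlane
  · rw [Lg_of_slit hz, Complex.sub_im, Complex.log_im, Complex.log_im]
    have h1 := Complex.abs_arg_le_pi (-G z)
    have h2 := Complex.abs_arg_le_pi (-z)
    calc |Complex.arg (-G z) - Complex.arg (-z)| ≤ |Complex.arg (-G z)| + |Complex.arg (-z)| :=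
          abs_sub _ _
      _ ≤ 2 * Real.pi := by linarith
  · rw [Lg_of_not hz]; simp [Real.pi_nonneg]

end Pl

/-- homogeneity of the logarithm. -/
lemma Pl.Lg_hom (h : Pl B G) {t : ℝ} (ht : 0 < t) (z : ℂ) : Lg G (t * z) = Lg G z := by
  have ht' : (t : ℂ) ≠ 0 := by exact_mod_cast ht.ne'
  by_cases hz : -z ∈ Complex.slitPlane
  · have hz2 : -(t * z) ∈ Complex.slitPlane := by
      rw [Complex.mem_slitPlane_iff] at hz ⊢
      rcases hz with hz | hz
      · left; simp at hz ⊢; nlinarith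
      · right; simp at hz ⊢; exact ⟨ht.ne', hz⟩
    have hne : -z ≠ 0 := Complex.slitPlane_ne_zero hz
    have hne2 : -G z ≠ 0 := Complex.slitPlane_ne_zero (h.slit hz)
    rw [Lg_of_slit hz, Lg_of_slit hz2, h.hom t ht.le, ← mul_neg, ← mul_neg,
      Complex.log_ofReal_mul ht hne, Complex.log_ofReal_mul ht hne2]
    ring
  · have hz2 : -(t * z) ∉ Complex.slitPlane := by
      intro hcon
      apply hz
      rw [Complex.mem_slitPlane_iff] at hcon ⊢
      rcases hcon with hcon | hcon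
      · left; simp at hcon ⊢
        nlinarith
      · right; simp at hcon ⊢; exact hcon.2
    rw [Lg_of_not hz, Lg_of_not hz2]

/-- derivative of the logarithm where `G` is linear. -/
noncomputable def dL (B : ℂ →L[ℝ] ℂ) (z : ℂ) : ℂ →L[ℝ] ℂ :=
  (B z)⁻¹ • B - z⁻¹ • ContinuousLinearMap.id ℝ ℂ

lemma dL_apply (B : ℂ →L[ℝ] ℂ) (z v : ℂ) : dL B z v = B v / B z - v / z := by
  simp only [dL, sub_apply, smul_apply, smul_eq_mul,
    ContinuousLinearMap.id_apply]
  ring

lemma hasFDerivAt_log_lin (B : ℂ →L[ℝ] ℂ) {z : ℂ} (hz : -z ∈ Complex.slitPlane)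
    (hB : -(B z) ∈ Complex.slitPlane) :
    HasFDerivAt (fun w => Complex.log (-(B w)) - Complex.log (-w)) (dL B z) z := by
  have h1 : HasFDerivAt (fun w => -(B w)) (-B) z := B.hasFDerivAt.neg
  have h2 : HasFDerivAt (fun w : ℂ => -w) (-ContinuousLinearMap.id ℝ ℂ) z :=
    (hasFDerivAt_id z).neg
  have h3 : HasFDerivAt Complex.log
      ((ContinuousLinearMap.toSpanSingleton ℂ ((-(B z))⁻¹)).restrictScalars ℝ) (-(B z)) :=
    (Complex.hasDerivAt_log hB).hasFDerivAt.restrictScalars ℝ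
  have h4 : HasFDerivAt Complex.log
      ((ContinuousLinearMap.toSpanSingleton ℂ ((-z)⁻¹)).restrictScalars ℝ) (-z) :=
    (Complex.hasDerivAt_log hz).hasFDerivAt.restrictScalars ℝ
  have h5 := (h3.comp z h1).sub (h4.comp z h2)
  refine h5.congr_fderiv ?_
  ext v
  simp only [dL_apply, sub_apply, ContinuousLinearMap.comp_apply,
    neg_apply, ContinuousLinearMap.coe_restrictScalars',
    ContinuousLinearMap.toSpanSingleton_apply, ContinuousLinearMap.id_apply, smul_eq_mul, inv_neg]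
  ring

end Crest.Agent.R096.Ed_276
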