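import Crest.Agent.R096.Rmt1_816
import Crest.Agent.R096.Ca8_855
import Crest.Agent.R096.Fsl7_793
import Crest.Agent.R096.Fsl8_793
import Crest.Agent.R096.Ca15_855

-- ▼ part R096/Rmt2_816
section

/-!
Row 96 (S0127), helper816.  Leaf `rm_tiles` (855 #10785 (4)).  Part 2: the edges of a class of fat
tiles of a rigid family of tilings are a random measure; the constant depends on the shape of the
tiles of the class only.
-/

set_option autoImplicit false
set_option linter.unusedSectionVars false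
set_option linter.style.longLine false

open MeasureTheory Set Filter Metric
open scoped ENNReal NNReal Topology

namespace Crest.Agent.R096.Rmt_816

open Crest.AnalysisR.VecCalc3
open Crest.Agent.R96.Coarse_538
open Crest.Agent.R96.Intr_538
open Crest.Agent.R096.Msh_715 (Tiling P I)
open Crest.Agent.R096.Mf_113 (Rig CK)
open Crest.Agent.R096.Ca_855

noncomputable section

/-! ### volumes of neighbourhoods of cubes -/

theorem cthick_box {A : Set R3} {R : ℝ} (hR : 0 ≤ R) {l u : Fin 3 → ℝ}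
    (hA : ∀ x ∈ A, ∀ i, l i ≤ x i ∧ x i ≤ u i) {x : R3} (hx : x ∈ cthickening R A) (i : Fin 3) :
    l i - R ≤ x i ∧ x i ≤ u i + R := by
  have key : ∀ ε > 0, l i - R ≤ x i + ε ∧ x i ≤ u i + R + ε := by
    intro ε hε
    have h1 : x ∈ thickening (R + ε) A :=
      cthickening_subset_thickening' (by positivity) (by linarith) A hx
    obtain ⟨y, hy, hxy⟩ := mem_thickening_iff.1 h1
    have h2 : |x i - y i| ≤ dist x y := by
      rw [dist_eq_norm]
      have h3 := PiLp.norm_apply_le (x - y) i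
      simpa using h3
    have h4 := abs_le.1 (h2.trans hxy.le)
    have h5 := hA y hy i
    constructor <;> linarith [h4.1, h4.2, h5.1, h5.2]
  constructor
  · exact le_of_forall_pos_le_add fun ε hε => (key ε hε).1
  · exact le_of_forall_pos_le_add fun ε hε => (key ε hε).2

theorem volume_cthick_box {A : Set R3} {R : ℝ} (hR : 0 ≤ R) {l u : Fin 3 → ℝ}
    (hA : ∀ x ∈ A, ∀ i, l i ≤ x i ∧ x i ≤ u i) :
    volume (cthickening R A) ≤ ∏ i, ENNReal.ofReal (u i - l i + 2 * R) := by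
  have h1 : cthickening R A ⊆ {x : R3 | ∀ i, x i ∈ (fun i => Icc (l i - R) (u i + R)) i} :=
    fun x hx i => cthick_box hR hA hx i
  refine (measure_mono h1).trans ?_
  rw [vol_box fun _ => measurableSet_Icc]
  refine (Finset.prod_congr rfl fun i _ => ?_).le
  rw [Real.volume_Icc]
  congr 1
  ring


/-- the neighbourhood of a cube -/
theorem thick_cel {z : R3} {s R : ℝ} (hs : 0 < s) (hR : 0 ≤ R) :
    volume (cthickening R (cel Cb z s)) ≤ ENNReal.ofReal ((2 * (s + R)) ^ 3) := by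
  have h1 := volume_cthick_box (A := cel Cb z s) hR (l := fun i => z i - s) (u := fun i => z i + s)
    (fun x hx i => by
      have h2 := (mem_cel hs).1 hx i
      rw [abs_le] at h2
      constructor <;> linarith [h2.1, h2.2])
  refine h1.trans ?_
  have h3 : ∀ i : Fin 3, z i + s - (z i - s) + 2 * R = 2 * (s + R) := fun i => by ring
  simp only [h3, Finset.prod_const, Finset.card_univ, Fintype.card_fin]
  rw [ENNReal.ofReal_pow (by positivity)]

theorem ofReal_cube_le_ball {c : R3} {ρ : ℝ} (hρ : 0 ≤ ρ) :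
    ENNReal.ofReal (ρ ^ 3) ≤ volume (ball c ρ) := by
  rw [EuclideanSpace.volume_ball_fin_three, ← ENNReal.ofReal_pow hρ,
    ← ENNReal.ofReal_mul (by positivity)]
  refine ENNReal.ofReal_le_ofReal ?_
  have h1 := Real.pi_gt_three
  have h2 : 0 ≤ ρ ^ 3 := by positivity
  nlinarith

/-! ### fat tiles -/

/-- **a fat tile**: a ball of a radius comparable with the diameter, diameter at most `t`, at most
`nc` neighbours -/
structure FatT {E : Type*} [NormedAddCommGroup E] [NormedSpace ℝ E] {Om : Set E} {ι : Type*}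
    (T : Tiling Om ι) (i : ι) (Λ t : ℝ) (nc : ℕ) : Prop where
  ball : ∃ c ρ, 0 < ρ ∧ closedBall c ρ ⊆ P (T.H i) ∧
    ∀ y ∈ P (T.H i), ∀ y' ∈ P (T.H i), ‖y - y'‖ ≤ Λ * ρ
  diam : ∀ y ∈ P (T.H i), ∀ y' ∈ P (T.H i), ‖y - y'‖ ≤ t
  card : {j | (P (T.H j) ∩ P (T.H i)).Nonempty}.encard ≤ nc

/-- 855's tiles are fat -/
theorem FatT.ofG {Om : Set R3} {ι : Type*} {T : Tiling Om ι} {i : ι} {hne : (T.H i).Nonempty}
    {c : R3} {β ρ t Λ : ℝ} {nc : ℕ} (h : TileG T i hne c β ρ t nc) (hρ : 0 < ρ)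
    (hfin : {j | (P (T.H j) ∩ P (T.H i)).Nonempty}.Finite) (hΛ : t ≤ Λ * ρ) :
    FatT T i Λ t nc where
  ball := ⟨c, ρ, hρ, h.ball, fun y hy y' hy' => (h.diam y hy y' hy').trans hΛ⟩
  diam := h.diam
  card := by
    rw [← hfin.cast_ncard_eq]
    exact_mod_cast h.cardN

section rig

variable {Om Om0 W Tr : Set R3} {ι0 : Type} {ι : R3 → Type} {T0 : Tiling Om0 ι0}
  {T : ∀ a, Tiling Om (ι a)}

theorem P_inj' {i j : ι0} (h : P (T0.H i) = P (T0.H j)) : i = j := by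
  obtain ⟨z, hz⟩ := T0.ne i
  have h1 : T0.at_ z = {i} := T0.at_eq_singleton hz
  have h2 : j ∈ T0.at_ z := by
    show z ∈ P (T0.H j)
    rw [← h]
    exact Msh_715.I_sub_P _ hz
  rw [h1] at h2
  exact h2.symm

/-- a tile of the family inside `W` is the translate of a tile of the model -/
theorem Rig.tile_eq (h : Rig T0 T Tr W) {a : R3} (ha : a ∈ Tr) {j : ι a}
    (hj : P ((T a).H j) ⊆ W) : ∃ i, (a + ·) '' P (T0.H i) = P ((T a).H j) := by
  obtain ⟨p, hp⟩ := (T a).ne j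
  have hp' : p ∈ P ((T a).H j) := Msh_715.I_sub_P _ hp
  obtain ⟨h1, h2, h3⟩ := h a ha p (hj hp')
  have h4 : P ((T a).H j) ∈ (fun j => P ((T a).H j)) '' (T a).at_ p := ⟨j, hp', rfl⟩
  rw [h3] at h4
  obtain ⟨i, -, e⟩ := h4
  exact ⟨i, e⟩

/-- fatness of the tiles of the model -/
theorem Rig.fat0 (h : Rig T0 T Tr W) {a : R3} (ha : a ∈ Tr) {j : ι a}
    (hj : P ((T a).H j) ⊆ W) {Λ t : ℝ} {nc : ℕ} (hf : FatT (T a) j Λ t nc) {i : ι0}
    (hi : (a + ·) '' P (T0.H i) = P ((T a).H j)) : FatT T0 i Λ t nc := by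
  have hd : ∀ y ∈ P (T0.H i), a + y ∈ P ((T a).H j) := fun y hy => by
    rw [← hi]; exact ⟨y, hy, rfl⟩
  refine ⟨?_, ?_, ?_⟩
  · obtain ⟨c, ρ, hρ, hc, hΛ⟩ := hf.ball
    refine ⟨c - a, ρ, hρ, fun z hz => ?_, fun y hy y' hy' => ?_⟩
    · have h4 : a + z ∈ closedBall c ρ := by
        rw [mem_closedBall, dist_eq_norm] at hz ⊢
        rwa [show a + z - c = z - (c - a) by abel]
      have h5 := hc h4
      rw [← hi] at h5
      obtain ⟨w, hw, e1⟩ := h5
      rwa [← add_left_cancel e1]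
    · have h4 := hΛ _ (hd y hy) _ (hd y' hy')
      rwa [add_sub_add_left_eq_sub] at h4
  · intro y hy y' hy'
    have h4 := hf.diam _ (hd y hy) _ (hd y' hy')
    rwa [add_sub_add_left_eq_sub] at h4
  · refine le_trans ?_ hf.card
    have key : ∀ k : ι0, ∃ k' : ι a, (P (T0.H k) ∩ P (T0.H i)).Nonempty →
        (a + ·) '' P (T0.H k) = P ((T a).H k') ∧ (P ((T a).H k') ∩ P ((T a).H j)).Nonempty := by
      intro k
      by_cases hk : (P (T0.H k) ∩ P (T0.H i)).Nonempty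
      · obtain ⟨p, hp1, hp2⟩ := hk
        have hpW : a + p ∈ W := hj (hd p hp2)
        obtain ⟨h1, h2, h3⟩ := h a ha _ hpW
        have h4 : (a + ·) '' P (T0.H k) ∈ (fun i => (a + ·) '' P (T0.H i)) '' T0.at_ (a + p - a) := by
          refine ⟨k, ?_, rfl⟩
          show a + p - a ∈ P (T0.H k)
          rwa [add_sub_cancel_left]
        rw [← h3] at h4
        obtain ⟨k', hk', e⟩ := h4
        exact ⟨k', fun _ => ⟨e.symm, a + p, hk', hd p hp2⟩⟩
      · exact ⟨j, fun h => absurd h hk⟩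
    choose F hF using key
    refine encard_le_encard_of_injOn (f := F) (fun k hk => (hF k hk).2) ?_
    intro k hk k' hk' e
    have h1 := (hF k hk).1
    have h2 := (hF k' hk').1
    rw [← e, ← h1] at h2
    have h3 : P (T0.H k') = P (T0.H k) :=
      (image_injective.2 (add_right_injective a)) h2
    exact (P_inj' h3).symm

/-- the edges of the tiles of a class -/
def ES (T0 : Tiling Om0 ι0) (Tr W : Set R3) (T : ∀ a, Tiling Om (ι a)) (Cl : ∀ a, ι a → Prop) :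
    Set (KE T0 Tr W) :=
  {e | ∃ a ∈ Tr, ∃ j, Cl a j ∧ (a + ·) '' e.1.1.set ⊆ P ((T a).H j)}

/-- the edges of a class cut to a set -/
def cutS {κi : Type*} (S : Set κi) (E : Set R3) (e : κi) : Set R3 := {y | y ∈ E ∧ e ∈ S}

theorem meas_cutS {κi : Type*} (S : Set κi) {E : Set R3} (hE : MeasurableSet E) (e : κi) :
    MeasurableSet (cutS S E e) := by
  by_cases he : e ∈ S
  · have : cutS S E e = E := by ext y; simp [cutS, he]
    rwa [this]
  · have : cutS S E e = ∅ := by ext y; simp [cutS, he]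
    rw [this]; exact MeasurableSet.empty

theorem mem_of_cutS {κi : Type*} {S : Set κi} {E : Set R3} {e : κi} (h : (cutS S E e).Nonempty) :
    e ∈ S := h.some_mem.2

/-- every 1-cell of a tile of the class is one of the edges -/
theorem exists_edge (h : Rig T0 T Tr W) {Cl : ∀ a, ι a → Prop} {a : R3} (ha : a ∈ Tr) {j : ι a}
    (hj : Cl a j) (hjW : P ((T a).H j) ⊆ W) {y : R3} (hy : y ∈ Om) (hd : (T a).dim y = 1)
    (hyj : (T a).cc y ⊆ P ((T a).H j)) :
    ∃ e ∈ ES T0 Tr W T Cl, (T a).cc y = segment ℝ (a + kx h e.1) (a + kx h e.1 + kv h e.1) := by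
  obtain ⟨e, he⟩ := k_cell h ha hy hd ⟨y, (T a).self_mem_cc y, hjW (hyj ((T a).self_mem_cc y))⟩
  have h1 : (a + ·) '' e.1.set = (T a).cc y := by rw [he, k_image h a e]
  refine ⟨⟨e, a, ha, y, ?_, hjW (hyj ((T a).self_mem_cc y))⟩, ⟨a, ha, j, hj, ?_⟩, he⟩
  · rw [h1]; exact (T a).self_mem_cc y
  · show (a + ·) '' e.1.set ⊆ _
    rw [h1]; exact hyj

/-- **the edges of a class of fat tiles belong to disjoint balls** -/
theorem tileW_rig (h : Rig T0 T Tr W) {Cl : ∀ a, ι a → Prop} {Λ t : ℝ} {nc : ℕ}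
    (hW : ∀ a ∈ Tr, ∀ j, Cl a j → P ((T a).H j) ⊆ W)
    (hf : ∀ a ∈ Tr, ∀ j, Cl a j → FatT (T a) j Λ t nc) :
    ∃ (B : ι0 → Set R3) (q : KE T0 Tr W → ι0), TileW (fun e : KE T0 Tr W => kx h e.1)
      (fun e => kv h e.1) (fun e => ENNReal.ofReal (‖kv h e.1‖ ^ 3)) B q (ES T0 Tr W T Cl)
      (ENNReal.ofReal (Λ ^ 3)) ((2 ^ nc : ℕ) : ℝ≥0∞) t := by
  classical
  -- the balls
  have hball : ∀ i : ι0, ∃ (c : R3) (ρ : ℝ), (FatT T0 i Λ t nc → 0 < ρ ∧
      closedBall c ρ ⊆ P (T0.H i) ∧ ∀ y ∈ P (T0.H i), ∀ y' ∈ P (T0.H i), ‖y - y'‖ ≤ Λ * ρ) ∧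
      (¬ FatT T0 i Λ t nc → ρ = 0) := by
    intro i
    by_cases hi : FatT T0 i Λ t nc
    · obtain ⟨c, ρ, h1⟩ := hi.ball
      exact ⟨c, ρ, fun _ => h1, fun h2 => absurd hi h2⟩
    · exact ⟨0, 0, fun h1 => absurd h1 hi, fun _ => rfl⟩
  choose c ρ hb hb0 using hball
  -- the tiles of the edges
  have hq : ∀ e : KE T0 Tr W, ∃ i : ι0, e ∈ ES T0 Tr W T Cl →
      FatT T0 i Λ t nc ∧ e.1.1.set ⊆ P (T0.H i) := by
    intro e
    by_cases he : e ∈ ES T0 Tr W T Cl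
    · obtain ⟨a, ha, j, hj, hsub⟩ := he
      obtain ⟨i, hi⟩ := Rig.tile_eq h ha (hW a ha j hj)
      refine ⟨i, fun _ => ⟨Rig.fat0 h ha (hW a ha j hj) (hf a ha j hj) hi, ?_⟩⟩
      rw [← hi] at hsub
      exact (image_subset_image_iff (add_right_injective a)).1 hsub
    · exact ⟨(T0.at_nonempty e.1.1.pt_mem).some, fun h1 => absurd h1 he⟩
  choose q hq using hq
  refine ⟨fun i => ball (c i) (ρ i), q, ⟨?_, ?_, ?_, ?_, ?_⟩⟩
  · exact fun i => measurableSet_ball.nullMeasurableSet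
  · intro i j hij
    refine Disjoint.aedisjoint ?_
    by_cases hi : FatT T0 i Λ t nc
    · by_cases hj : FatT T0 j Λ t nc
      · exact Fsl_793.ball_disj hij (hb i hi).2.1 (hb j hj).2.1
      · rw [hb0 j hj, ball_zero]; exact disjoint_bot_right
    · rw [hb0 i hi, ball_zero]; exact disjoint_bot_left
  · intro e he
    obtain ⟨h1, h2⟩ := hq e he
    obtain ⟨h3, h4, h5⟩ := hb _ h1
    have h6 : ‖kv h e.1‖ ≤ Λ * ρ (q e) := by
      have h7 : kx h e.1 ∈ P (T0.H (q e)) := by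
        apply h2; rw [k_set h e.1]; exact left_mem_segment ℝ _ _
      have h8 : kx h e.1 + kv h e.1 ∈ P (T0.H (q e)) := by
        apply h2; rw [k_set h e.1]; exact right_mem_segment ℝ _ _
      have h9 := h5 _ h8 _ h7
      rwa [add_sub_cancel_left] at h9
    have hΛρ : 0 ≤ Λ * ρ (q e) := (norm_nonneg _).trans h6
    have hΛ0 : 0 ≤ Λ := nonneg_of_mul_nonneg_left hΛρ h3
    calc ENNReal.ofReal (‖kv h e.1‖ ^ 3) ≤ ENNReal.ofReal ((Λ * ρ (q e)) ^ 3) :=
          ENNReal.ofReal_le_ofReal (pow_le_pow_left₀ (norm_nonneg _) h6 3)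
      _ = ENNReal.ofReal (Λ ^ 3) * ENNReal.ofReal (ρ (q e) ^ 3) := by
          rw [mul_pow, ENNReal.ofReal_mul (by positivity)]
      _ ≤ ENNReal.ofReal (Λ ^ 3) * volume (ball (c (q e)) (ρ (q e))) := by
          gcongr
          exact ofReal_cube_le_ball h3.le
  · intro i
    by_cases hi : ∃ e ∈ ES T0 Tr W T Cl, q e = i
    · obtain ⟨e0, he0, rfl⟩ := hi
      have hcard := (hq e0 he0).1.card
      set N := {j | (P (T0.H j) ∩ P (T0.H (q e0))).Nonempty} with hN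
      have hfin : N.Finite := finite_of_encard_le_coe hcard
      have hn : N.ncard ≤ nc := by
        rw [← hfin.cast_ncard_eq] at hcard
        exact_mod_cast hcard
      have hpow : (𝒫 N).encard ≤ ((2 ^ nc : ℕ) : ℕ∞) := by
        have h1 : (𝒫 N).Finite := hfin.finite_subsets
        rw [← h1.cast_ncard_eq, Set.ncard_powerset N hfin]
        exact_mod_cast Nat.pow_le_pow_right (by norm_num) hn
      have h2 : {e | e ∈ ES T0 Tr W T Cl ∧ q e = q e0}.encard ≤ ((2 ^ nc : ℕ) : ℕ∞) := by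
        refine le_trans ?_ hpow
        refine encard_le_encard_of_injOn (f := fun e : KE T0 Tr W => T0.at_ e.1.1.pt) ?_ ?_
        · rintro e ⟨he, hee⟩ j hj
          have h3 := (hq e he).2
          rw [hee] at h3
          have h4 : e.1.1.set ⊆ P (T0.H j) := by
            rw [e.1.1.set_eq]; exact T0.cc_sub_tile hj
          have h5 : e.1.1.pt ∈ e.1.1.set := by
            rw [e.1.1.set_eq]; exact T0.self_mem_cc _
          exact ⟨_, h4 h5, h3 h5⟩
        · intro e _ e' _ hee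
          exact Subtype.ext (Subtype.ext (cell_inj hee))
      exact_mod_cast h2
    · have h1 : {e | e ∈ ES T0 Tr W T Cl ∧ q e = i} = ∅ := by
        ext e
        simp only [mem_ofPred_eq, mem_empty_iff_false, iff_false]
        rintro ⟨h2, h3⟩
        exact hi ⟨e, h2, h3⟩
      rw [h1]
      simp
  · intro e he σ hσ z hz
    obtain ⟨h1, h2⟩ := hq e he
    obtain ⟨h3, h4, h5⟩ := hb _ h1
    have h6 : kx h e.1 + σ • kv h e.1 ∈ P (T0.H (q e)) := by
      apply h2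
      rw [k_set h e.1, segment_eq_image']
      exact ⟨σ, hσ, by simp⟩
    rw [dist_eq_norm]
    exact h1.diam _ (h4 (ball_subset_closedBall hz)) _ h6

/-- **`rm_tiles` for a rigid family**: the edges of a class of fat tiles, weights `length³`, cut to
measurable sets -/
theorem rm_rig (h : Rig T0 T Tr W) {Cl : ∀ a, ι a → Prop} {Λ t : ℝ} {nc : ℕ}
    (hW : ∀ a ∈ Tr, ∀ j, Cl a j → P ((T a).H j) ⊆ W)
    (hf : ∀ a ∈ Tr, ∀ j, Cl a j → FatT (T a) j Λ t nc) {A : KE T0 Tr W → Set R3}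
    (hA : ∀ e, MeasurableSet (A e)) (hAS : ∀ e, (A e).Nonempty → e ∈ ES T0 Tr W T Cl)
    (hTr : MeasurableSet Tr) {K : ℝ≥0∞} (hK : volume (cthickening t Tr) ≤ K * volume Tr) :
    RM Tr (ENNReal.ofReal (Λ ^ 3) * ((2 ^ nc : ℕ) : ℝ≥0∞) * K)
      (segM (fun e : KE T0 Tr W => kx h e.1) (fun e => kv h e.1)
        (fun e => ENNReal.ofReal (‖kv h e.1‖ ^ 3)) A) := by
  obtain ⟨B, q, hB⟩ := tileW_rig h hW hf
  have : Countable (KE T0 Tr W) := inferInstance
  refine rm_tiles (P := B) (q := q) ⟨hB.meas, hB.disj, fun e he => hB.wt e (hAS e he),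
    fun i => le_trans ?_ (hB.mult i), fun e he => hB.near e (hAS e he)⟩ hA hTr hK
  norm_cast
  exact encard_le_encard fun e he => ⟨hAS e he.1, he.2⟩

/-- the mass of a set -/
theorem segM_rig_le (h : Rig T0 T Tr W) {Cl : ∀ a, ι a → Prop} {Λ t : ℝ} {nc : ℕ}
    (hW : ∀ a ∈ Tr, ∀ j, Cl a j → P ((T a).H j) ⊆ W)
    (hf : ∀ a ∈ Tr, ∀ j, Cl a j → FatT (T a) j Λ t nc) {A : KE T0 Tr W → Set R3}
    (hA : ∀ e, MeasurableSet (A e)) (hAS : ∀ e, (A e).Nonempty → e ∈ ES T0 Tr W T Cl)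
    {Y : Set R3} (hY : MeasurableSet Y) (a : R3) :
    segM (fun e : KE T0 Tr W => kx h e.1) (fun e => kv h e.1)
        (fun e => ENNReal.ofReal (‖kv h e.1‖ ^ 3)) A a Y ≤
      ENNReal.ofReal (Λ ^ 3) * ((2 ^ nc : ℕ) : ℝ≥0∞) * volume (cthickening t Y) := by
  obtain ⟨B, q, hB⟩ := tileW_rig h hW hf
  refine segM_le_tiles (P := B) (q := q) ⟨hB.meas, hB.disj, fun e he => hB.wt e (hAS e he),
    fun i => le_trans ?_ (hB.mult i), fun e he => hB.near e (hAS e he)⟩ hA hY a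
  norm_cast
  exact encard_le_encard fun e he => ⟨hAS e he.1, he.2⟩



end rig

end

end Crest.Agent.R096.Rmt_816
end

-- ▼ part R096/Rmt3_816
section

/-!
Row 96 (S0127), helper816.  Leaf `rm_tiles` / [ELIST], part 3: measures (faces, strips of faces) of a
class of fat tiles of a rigid family are a random measure; the constant depends on the shape of the
tiles of the class only.
-/

set_option autoImplicit false
set_option linter.unusedSectionVars false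
set_option linter.style.longLine false

open MeasureTheory Set Filter Metric
open scoped ENNReal NNReal Topology

namespace Crest.Agent.R096.Rmt_816

open Crest.AnalysisR.VecCalc3
open Crest.Agent.R96.Coarse_538
open Crest.Agent.R96.Intr_538
open Crest.Agent.R096.Msh_715 (Tiling P I)
open Crest.Agent.R096.Mf_113 (Rig CK)
open Crest.Agent.R096.Ca_855
open Crest.Agent.R096.Rmg_793 (trM lint_trM rm_tr)
open Crest.Agent.R096.Fsl_793 (fcM RF)
open Crest.Agent.R096.Fce_793 (pt)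
open Crest.Agent.R096.Sk2_855 (sk1)

noncomputable section

/-- measures which belong to disjoint tiles: `q e` the tile of the measure `e` -/
structure TileM {κi ι' : Type*} (ν : κi → Measure R3) (w : κi → ℝ≥0∞) (P : ι' → Set R3)
    (q : κi → ι') (S : Set κi) (C m : ℝ≥0∞) (R : ℝ) : Prop where
  meas : ∀ i, NullMeasurableSet (P i)
  disj : Pairwise (fun i j => AEDisjoint volume (P i) (P j))
  mass : ∀ e ∈ S, ν e univ ≤ w e
  wt : ∀ e ∈ S, w e ≤ C * volume (P (q e))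
  mult : ∀ i, (({e | e ∈ S ∧ q e = i}.encard : ℕ∞) : ℝ≥0∞) ≤ m
  near : ∀ e ∈ S, ∀ᵐ x ∂ν e, ∀ z ∈ P (q e), dist z x ≤ R

/-- the sum over a subfamily -/
theorem TileM.sum_le {κi ι' : Type*} {ν : κi → Measure R3} {w : κi → ℝ≥0∞}
    {P : ι' → Set R3} {q : κi → ι'} {S : Set κi} {C m : ℝ≥0∞} {R : ℝ}
    (h : TileM ν w P q S C m R) (S' : Set κi) (hS : S' ⊆ S) {Z : Set R3}
    (hZ : ∀ e ∈ S', P (q e) ⊆ Z) : ∑' e, S'.indicator w e ≤ C * m * volume Z := by
  refine tsum_le_tiles (μ := volume) (w := w) (q := q) (C := C) (m := m) h.meas h.disj S'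
    (fun e he => h.wt e (hS he)) (fun i => ?_) hZ
  refine le_trans ?_ (h.mult i)
  norm_cast
  exact encard_le_encard fun e he => ⟨hS he.1, he.2⟩

/-- **criterion for measures** -/
theorem rm_tilesM {κi ι' : Type*} [Countable κi] {ν : κi → Measure R3} [∀ e, SFinite (ν e)]
    {w : κi → ℝ≥0∞} {P : ι' → Set R3} {q : κi → ι'} {A : κi → Set R3} {C m K : ℝ≥0∞} {R : ℝ}
    (h : TileM ν w P q {e | (A e).Nonempty} C m R) (hA : ∀ e, MeasurableSet (A e))
    {D : Set R3} (hD : MeasurableSet D) (hK : volume (cthickening R D) ≤ K * volume D) :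
    RM D (C * m * K) (trM ν A) := by
  refine rm_tr hD hA fun y => ?_
  have h1 : ∀ e, (A e).indicator 1 y * ν e {x | y - x ∈ D} ≤
      {e | (A e).Nonempty ∧ ν e {x | y - x ∈ D} ≠ 0}.indicator w e := by
    intro e
    by_cases hyA : y ∈ A e
    · by_cases hs : ν e {x | y - x ∈ D} = 0
      · rw [hs, mul_zero]; exact bot_le
      · have he : e ∈ {e | (A e).Nonempty ∧ ν e {x | y - x ∈ D} ≠ 0} := ⟨⟨y, hyA⟩, hs⟩
        rw [indicator_of_mem he, indicator_of_mem hyA, Pi.one_apply, one_mul]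
        exact (measure_mono (subset_univ _)).trans (h.mass e ⟨y, hyA⟩)
    · rw [indicator_of_notMem hyA, zero_mul]
      exact bot_le
  refine (ENNReal.tsum_le_tsum h1).trans ?_
  have h2 : ∑' e, {e | (A e).Nonempty ∧ ν e {x | y - x ∈ D} ≠ 0}.indicator w e ≤
      C * m * volume ((fun z : R3 => y - z) ⁻¹' cthickening R D) := by
    refine h.sum_le _ (fun e he => he.1) ?_
    intro e he z hz
    obtain ⟨heA, hν⟩ := he
    obtain ⟨x, hx1, hx2⟩ := ((frequently_ae_mem_iff.2 hν).and_eventually (h.near e heA)).exists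
    have h3 := hx2 z hz
    have h4 : dist (y - z) (y - x) = dist z x := by
      rw [dist_sub_left]
    rw [mem_preimage]
    have h5 : dist (y - z) (y - x) ≤ R := by rw [h4]; exact h3
    exact mem_cthickening_of_dist_le (y - z) (y - x) R D hx1 h5
  refine h2.trans ?_
  rw [volume_sub_preimage]
  calc C * m * volume (cthickening R D) ≤ C * m * (K * volume D) := by gcongr
    _ = C * m * K * volume D := by ring

/-- the measure of a set -/
theorem trM_le_tiles {κi ι' : Type*} {ν : κi → Measure R3}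
    {w : κi → ℝ≥0∞} {P : ι' → Set R3} {q : κi → ι'} {A : κi → Set R3} {C m : ℝ≥0∞} {R : ℝ}
    (h : TileM ν w P q {e | (A e).Nonempty} C m R) (hA : ∀ e, MeasurableSet (A e))
    {Y : Set R3} (hY : MeasurableSet Y) (a : R3) :
    trM ν A a Y ≤ C * m * volume (cthickening R Y) := by
  rw [← lintegral_indicator_one hY, lint_trM hA (measurable_one.indicator hY)]
  have h0 : ∀ e, ∫⁻ x, (A e).indicator (Y.indicator 1) (a + x) ∂ν e =
      ν e {x | a + x ∈ A e ∩ Y} := by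
    intro e
    have h3 : MeasurableSet {x : R3 | a + x ∈ A e ∩ Y} :=
      ((hA e).inter hY).preimage (by fun_prop)
    rw [← lintegral_indicator_one h3]
    refine lintegral_congr fun x => ?_
    rw [indicator_indicator]
    rfl
  simp only [h0]
  have h1 : ∀ e, ν e {x | a + x ∈ A e ∩ Y} ≤
      {e | (A e).Nonempty ∧ ν e {x | a + x ∈ Y} ≠ 0}.indicator w e := by
    intro e
    by_cases he : e ∈ {e | (A e).Nonempty ∧ ν e {x | a + x ∈ Y} ≠ 0}
    · rw [indicator_of_mem he]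
      exact (measure_mono (subset_univ _)).trans (h.mass e he.1)
    · rw [indicator_of_notMem he]
      by_cases hA' : (A e).Nonempty
      · have h3 : ν e {x | a + x ∈ Y} = 0 := by
          by_contra h4
          exact he ⟨hA', h4⟩
        rw [← h3]
        exact measure_mono fun x hx => hx.2
      · rw [not_nonempty_iff_eq_empty] at hA'
        have h3 : {x : R3 | a + x ∈ A e ∩ Y} = ∅ := by
          rw [hA']; ext x; simp
        rw [h3, measure_empty]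
  refine (ENNReal.tsum_le_tsum h1).trans ?_
  have h2 : ∑' e, {e | (A e).Nonempty ∧ ν e {x | a + x ∈ Y} ≠ 0}.indicator w e ≤
      C * m * volume ((fun z : R3 => a + z) ⁻¹' cthickening R Y) := by
    refine h.sum_le _ (fun e he => he.1) ?_
    intro e he z hz
    obtain ⟨heA, hν⟩ := he
    obtain ⟨x, hx1, hx2⟩ := ((frequently_ae_mem_iff.2 hν).and_eventually (h.near e heA)).exists
    have h3 := hx2 z hz
    have h4 : dist (a + z) (a + x) = dist z x := by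
      rw [dist_add_left]
    rw [mem_preimage]
    have h5 : dist (a + z) (a + x) ≤ R := by rw [h4]; exact h3
    exact mem_cthickening_of_dist_le (a + z) (a + x) R Y hx1 h5
  refine h2.trans ?_
  rw [measure_preimage_add]

section rig

variable {Om Om0 W Tr : Set R3} {ι0 : Type} {ι : R3 → Type} {T0 : Tiling Om0 ι0}
  {T : ∀ a, Tiling Om (ι a)}

/-- the frame of a face of the model -/
def fe (h : Rig T0 T Tr W) (φ : CK T0 2) : Fin 2 → R3 := (Mf_113.Rig.faces h).choose φ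

/-- the base point of a face of the model -/
def fx (h : Rig T0 T Tr W) (φ : CK T0 2) : R3 := (Mf_113.Rig.faces h).choose_spec.choose φ

/-- the face in its frame -/
def fQ (h : Rig T0 T Tr W) (φ : CK T0 2) : Set (ℝ × ℝ) :=
  (Mf_113.Rig.faces h).choose_spec.choose_spec.choose φ

theorem fspec (h : Rig T0 T Tr W) : (∀ φ, LinearIndependent ℝ (fe h φ)) ∧
      (∀ φ i, ‖fe h φ i‖ = 2 * diam φ.1.set) ∧ (∀ φ, inner ℝ (fe h φ 0) (fe h φ 1) = 0) ∧
      (∀ φ, IsCompact (fQ h φ)) ∧ (∀ φ, Convex ℝ (fQ h φ)) ∧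
      (∀ φ, fQ h φ ⊆ Icc (0 : ℝ) 1 ×ˢ Icc (0 : ℝ) 1) ∧
      (∀ φ, φ.1.set = pt (fe h φ) (fx h φ) '' fQ h φ) ∧
      ∀ a ∈ Tr, ∀ y ∈ Om, (T a).dim y = 2 → ((T a).cc y ∩ W).Nonempty →
        ∃ φ, (T a).cc y = pt (fe h φ) (a + fx h φ) '' fQ h φ ∧
          ∀ w ∈ fQ h φ, w ∉ interior (fQ h φ) → pt (fe h φ) (a + fx h φ) w ∈ sk1 (T a) :=
  (Mf_113.Rig.faces h).choose_spec.choose_spec.choose_spec

theorem f_image (h : Rig T0 T Tr W) (a : R3) (φ : CK T0 2) :
    (a + ·) '' φ.1.set = pt (fe h φ) (a + fx h φ) '' fQ h φ := by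
  rw [(fspec h).2.2.2.2.2.2.1 φ, Mf_113.pt_translate]

/-- the faces of the tiles of a class -/
def FS (T0 : Tiling Om0 ι0) (Tr W : Set R3) (T : ∀ a, Tiling Om (ι a)) (Cl : ∀ a, ι a → Prop) :
    Set (RF T0 Tr W) :=
  {φ | ∃ a ∈ Tr, ∃ j, Cl a j ∧ (a + ·) '' φ.1.1.set ⊆ P ((T a).H j)}

/-- every 2-cell of a tile of the class is one of the faces -/
theorem exists_face (h : Rig T0 T Tr W) {Cl : ∀ a, ι a → Prop} {a : R3} (ha : a ∈ Tr) {j : ι a}
    (hj : Cl a j) (hjW : P ((T a).H j) ⊆ W) {y : R3} (hy : y ∈ Om) (hd : (T a).dim y = 2)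
    (hyj : (T a).cc y ⊆ P ((T a).H j)) :
    ∃ φ ∈ FS T0 Tr W T Cl, (T a).cc y = pt (fe h φ.1) (a + fx h φ.1) '' fQ h φ.1 := by
  obtain ⟨φ, hφ, -⟩ := (fspec h).2.2.2.2.2.2.2 a ha y hy hd
    ⟨y, (T a).self_mem_cc y, hjW (hyj ((T a).self_mem_cc y))⟩
  have h1 : (a + ·) '' φ.1.set = (T a).cc y := by rw [hφ, f_image h a φ]
  refine ⟨⟨φ, a, ha, y, ?_, hjW (hyj ((T a).self_mem_cc y))⟩, ⟨a, ha, j, hj, ?_⟩, hφ⟩
  · show y ∈ (a + ·) '' φ.1.set
    rw [h1]; exact (T a).self_mem_cc y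
  · show (a + ·) '' φ.1.set ⊆ _
    rw [h1]; exact hyj

/-- **the faces of a class of fat tiles belong to disjoint balls** -/
theorem tileM_rig (h : Rig T0 T Tr W) {Cl : ∀ a, ι a → Prop} {Λ t : ℝ} {nc : ℕ}
    (hW : ∀ a ∈ Tr, ∀ j, Cl a j → P ((T a).H j) ⊆ W)
    (hf : ∀ a ∈ Tr, ∀ j, Cl a j → FatT (T a) j Λ t nc) {S : RF T0 Tr W → Set (ℝ × ℝ)}
    (hS : ∀ φ, S φ ⊆ fQ h φ.1) (hSm : ∀ φ, MeasurableSet (S φ)) {w : RF T0 Tr W → ℝ≥0∞}
    (hw : ∀ φ, w φ * volume (S φ) ≤ ENNReal.ofReal (‖fe h φ.1 0‖ ^ 3)) :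
    ∃ (B : ι0 → Set R3) (q : RF T0 Tr W → ι0),
      TileM (fcM (fun φ : RF T0 Tr W => fx h φ.1) (fun φ => fe h φ.1) S w)
      (fun φ => ENNReal.ofReal (‖fe h φ.1 0‖ ^ 3)) B q (FS T0 Tr W T Cl)
      (ENNReal.ofReal ((2 * Λ) ^ 3)) ((2 ^ nc : ℕ) : ℝ≥0∞) t := by
  classical
  obtain ⟨f1, f2, f3, f4, f5, f6, f7, f8⟩ := fspec h
  -- the balls
  have hball : ∀ i : ι0, ∃ (c : R3) (ρ : ℝ), (FatT T0 i Λ t nc → 0 < ρ ∧
      closedBall c ρ ⊆ P (T0.H i) ∧ ∀ y ∈ P (T0.H i), ∀ y' ∈ P (T0.H i), ‖y - y'‖ ≤ Λ * ρ) ∧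
      (¬ FatT T0 i Λ t nc → ρ = 0) := by
    intro i
    by_cases hi : FatT T0 i Λ t nc
    · obtain ⟨c, ρ, h1⟩ := hi.ball
      exact ⟨c, ρ, fun _ => h1, fun h2 => absurd hi h2⟩
    · exact ⟨0, 0, fun h1 => absurd h1 hi, fun _ => rfl⟩
  choose c ρ hb hb0 using hball
  -- the tiles of the faces
  have hq : ∀ e : RF T0 Tr W, ∃ i : ι0, e ∈ FS T0 Tr W T Cl →
      FatT T0 i Λ t nc ∧ e.1.1.set ⊆ P (T0.H i) := by
    intro e
    by_cases he : e ∈ FS T0 Tr W T Cl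
    · obtain ⟨a, ha, j, hj, hsub⟩ := he
      obtain ⟨i, hi⟩ := Rig.tile_eq h ha (hW a ha j hj)
      refine ⟨i, fun _ => ⟨Rig.fat0 h ha (hW a ha j hj) (hf a ha j hj) hi, ?_⟩⟩
      rw [← hi] at hsub
      exact (image_subset_image_iff (add_right_injective a)).1 hsub
    · exact ⟨(T0.at_nonempty e.1.1.pt_mem).some, fun h1 => absurd h1 he⟩
  choose q hq using hq
  refine ⟨fun i => ball (c i) (ρ i), q, ⟨?_, ?_, ?_, ?_, ?_, ?_⟩⟩
  · exact fun i => measurableSet_ball.nullMeasurableSet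
  · intro i j hij
    refine Disjoint.aedisjoint ?_
    by_cases hi : FatT T0 i Λ t nc
    · by_cases hj : FatT T0 j Λ t nc
      · exact Fsl_793.ball_disj hij (hb i hi).2.1 (hb j hj).2.1
      · rw [hb0 j hj, ball_zero]; exact disjoint_bot_right
    · rw [hb0 i hi, ball_zero]; exact disjoint_bot_left
  · intro e he
    refine le_trans ?_ (hw e)
    rw [fcM, Measure.smul_apply, smul_eq_mul,
      Measure.map_apply (Fsl_793.measurable_pt _ _) MeasurableSet.univ, preimage_univ,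
      Measure.restrict_apply_univ]
  · intro e he
    obtain ⟨h1, h2⟩ := hq e he
    obtain ⟨h3, h4, h5⟩ := hb _ h1
    have hpt : e.1.1.pt ∈ P (T0.H (q e)) := h2 (by rw [e.1.1.set_eq]; exact T0.self_mem_cc _)
    have hΛρ : 0 ≤ Λ * ρ (q e) := (norm_nonneg _).trans (h5 _ hpt _ hpt)
    have hΛ0 : 0 ≤ Λ := nonneg_of_mul_nonneg_left hΛρ h3
    have h6 : ‖fe h e.1 0‖ ≤ 2 * Λ * ρ (q e) := by
      rw [f2]
      have h7 : diam e.1.1.set ≤ Λ * ρ (q e) :=
        diam_le_of_forall_dist_le hΛρ fun y hy y' hy' => by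
          rw [dist_eq_norm]; exact h5 y (h2 hy) y' (h2 hy')
      linarith
    calc ENNReal.ofReal (‖fe h e.1 0‖ ^ 3) ≤ ENNReal.ofReal ((2 * Λ * ρ (q e)) ^ 3) :=
          ENNReal.ofReal_le_ofReal (pow_le_pow_left₀ (norm_nonneg _) h6 3)
      _ = ENNReal.ofReal ((2 * Λ) ^ 3) * ENNReal.ofReal (ρ (q e) ^ 3) := by
          rw [mul_pow, ENNReal.ofReal_mul (by positivity)]
      _ ≤ ENNReal.ofReal ((2 * Λ) ^ 3) * volume (ball (c (q e)) (ρ (q e))) := by
          gcongr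
          exact ofReal_cube_le_ball h3.le
  · intro i
    by_cases hi : ∃ e ∈ FS T0 Tr W T Cl, q e = i
    · obtain ⟨e0, he0, rfl⟩ := hi
      have hcard := (hq e0 he0).1.card
      set N := {j | (P (T0.H j) ∩ P (T0.H (q e0))).Nonempty} with hN
      have hfin : N.Finite := finite_of_encard_le_coe hcard
      have hn : N.ncard ≤ nc := by
        rw [← hfin.cast_ncard_eq] at hcard
        exact_mod_cast hcard
      have hpow : (𝒫 N).encard ≤ ((2 ^ nc : ℕ) : ℕ∞) := by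
        have h1 : (𝒫 N).Finite := hfin.finite_subsets
        rw [← h1.cast_ncard_eq, Set.ncard_powerset N hfin]
        exact_mod_cast Nat.pow_le_pow_right (by norm_num) hn
      have h2 : {e | e ∈ FS T0 Tr W T Cl ∧ q e = q e0}.encard ≤ ((2 ^ nc : ℕ) : ℕ∞) := by
        refine le_trans ?_ hpow
        refine encard_le_encard_of_injOn (f := fun e : RF T0 Tr W => T0.at_ e.1.1.pt) ?_ ?_
        · rintro e ⟨he, hee⟩ j hj
          have h3 := (hq e he).2
          rw [hee] at h3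
          have h4 : e.1.1.set ⊆ P (T0.H j) := by
            rw [e.1.1.set_eq]; exact T0.cc_sub_tile hj
          have h5 : e.1.1.pt ∈ e.1.1.set := by
            rw [e.1.1.set_eq]; exact T0.self_mem_cc _
          exact ⟨_, h4 h5, h3 h5⟩
        · intro e _ e' _ hee
          exact Subtype.ext (Subtype.ext (cell_inj hee))
      exact_mod_cast h2
    · have h1 : {e | e ∈ FS T0 Tr W T Cl ∧ q e = i} = ∅ := by
        ext e
        simp only [mem_ofPred_eq, mem_empty_iff_false, iff_false]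
        rintro ⟨h2, h3⟩
        exact hi ⟨e, h2, h3⟩
      rw [h1]
      simp
  · intro e he
    obtain ⟨h1, h2⟩ := hq e he
    obtain ⟨h3, h4, h5⟩ := hb _ h1
    rw [fcM]
    refine Measure.ae_smul_measure ?_ _
    have hms : MeasurableSet {x : R3 | ∀ z ∈ ball (c (q e)) (ρ (q e)), dist z x ≤ t} := by
      have : {x : R3 | ∀ z ∈ ball (c (q e)) (ρ (q e)), dist z x ≤ t} =
          ⋂ z ∈ ball (c (q e)) (ρ (q e)), {x | dist z x ≤ t} := by
        ext x; simp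
      rw [this]
      refine (isClosed_biInter fun z _ => ?_).measurableSet
      exact isClosed_le (by fun_prop) continuous_const
    refine (ae_map_iff (Fsl_793.measurable_pt _ _).aemeasurable hms).2 ?_
    refine (ae_restrict_iff' (hSm e)).2 (Eventually.of_forall fun u hu z hz => ?_)
    have h6 : pt (fe h e.1) (fx h e.1) u ∈ P (T0.H (q e)) := by
      apply h2
      rw [f7]
      exact ⟨u, hS e hu, rfl⟩
    rw [dist_eq_norm]
    exact h1.diam _ (h4 (ball_subset_closedBall hz)) _ h6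

/-- **`rm_tiles` for the faces of a rigid family** (parts `S φ` of the faces, weights `w φ` with
`w φ |S φ| ≤ size³`) -/
theorem rmF_rig (h : Rig T0 T Tr W) {Cl : ∀ a, ι a → Prop} {Λ t : ℝ} {nc : ℕ}
    (hW : ∀ a ∈ Tr, ∀ j, Cl a j → P ((T a).H j) ⊆ W)
    (hf : ∀ a ∈ Tr, ∀ j, Cl a j → FatT (T a) j Λ t nc) {S : RF T0 Tr W → Set (ℝ × ℝ)}
    (hS : ∀ φ, S φ ⊆ fQ h φ.1) (hSm : ∀ φ, MeasurableSet (S φ)) {w : RF T0 Tr W → ℝ≥0∞}
    (hw : ∀ φ, w φ * volume (S φ) ≤ ENNReal.ofReal (‖fe h φ.1 0‖ ^ 3)) {A : RF T0 Tr W → Set R3}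
    (hA : ∀ e, MeasurableSet (A e)) (hAS : ∀ e, (A e).Nonempty → e ∈ FS T0 Tr W T Cl)
    (hTr : MeasurableSet Tr) {K : ℝ≥0∞} (hK : volume (cthickening t Tr) ≤ K * volume Tr) :
    RM Tr (ENNReal.ofReal ((2 * Λ) ^ 3) * ((2 ^ nc : ℕ) : ℝ≥0∞) * K)
      (trM (fcM (fun φ : RF T0 Tr W => fx h φ.1) (fun φ => fe h φ.1) S w) A) := by
  obtain ⟨B, q, hB⟩ := tileM_rig h hW hf hS hSm hw
  refine rm_tilesM (P := B) (q := q) ⟨hB.meas, hB.disj, fun e he => hB.mass e (hAS e he),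
    fun e he => hB.wt e (hAS e he), fun i => le_trans ?_ (hB.mult i),
    fun e he => hB.near e (hAS e he)⟩ hA hTr hK
  norm_cast
  exact encard_le_encard fun e he => ⟨hAS e he.1, he.2⟩

/-- the mass of a set -/
theorem trF_rig_le (h : Rig T0 T Tr W) {Cl : ∀ a, ι a → Prop} {Λ t : ℝ} {nc : ℕ}
    (hW : ∀ a ∈ Tr, ∀ j, Cl a j → P ((T a).H j) ⊆ W)
    (hf : ∀ a ∈ Tr, ∀ j, Cl a j → FatT (T a) j Λ t nc) {S : RF T0 Tr W → Set (ℝ × ℝ)}
    (hS : ∀ φ, S φ ⊆ fQ h φ.1) (hSm : ∀ φ, MeasurableSet (S φ)) {w : RF T0 Tr W → ℝ≥0∞}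
    (hw : ∀ φ, w φ * volume (S φ) ≤ ENNReal.ofReal (‖fe h φ.1 0‖ ^ 3)) {A : RF T0 Tr W → Set R3}
    (hA : ∀ e, MeasurableSet (A e)) (hAS : ∀ e, (A e).Nonempty → e ∈ FS T0 Tr W T Cl)
    {Y : Set R3} (hY : MeasurableSet Y) (a : R3) :
    trM (fcM (fun φ : RF T0 Tr W => fx h φ.1) (fun φ => fe h φ.1) S w) A a Y ≤
      ENNReal.ofReal ((2 * Λ) ^ 3) * ((2 ^ nc : ℕ) : ℝ≥0∞) * volume (cthickening t Y) := by
  obtain ⟨B, q, hB⟩ := tileM_rig h hW hf hS hSm hw
  refine trM_le_tiles (P := B) (q := q) ⟨hB.meas, hB.disj, fun e he => hB.mass e (hAS e he),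
    fun e he => hB.wt e (hAS e he), fun i => le_trans ?_ (hB.mult i),
    fun e he => hB.near e (hAS e he)⟩ hA hY a
  norm_cast
  exact encard_le_encard fun e he => ⟨hAS e he.1, he.2⟩

/-- the whole faces with the weight `size³` -/
theorem hw_whole (h : Rig T0 T Tr W) (φ : RF T0 Tr W) :
    ENNReal.ofReal (‖fe h φ.1 0‖ ^ 3) * volume (fQ h φ.1) ≤
      ENNReal.ofReal (‖fe h φ.1 0‖ ^ 3) := by
  have h1 : volume (fQ h φ.1) ≤ 1 := by
    calc volume (fQ h φ.1) ≤ volume (Icc (0:ℝ) 1 ×ˢ Icc (0:ℝ) 1) :=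
          measure_mono ((fspec h).2.2.2.2.2.1 φ.1)
      _ = 1 := by
          rw [Measure.volume_eq_prod, Measure.prod_prod]
          simp
  exact mul_le_of_le_one_right' h1



end rig

end

end Crest.Agent.R096.Rmt_816
end

-- ▼ part R096/Rmt4_816

/-!
Row 96 (S0127), helper816.  [ELIST], classes (2) near the walls and (3) blocks of 855's mesh
`MIn.T a`, part 1: rigidity in a neighbourhood of the bulk, fatness, diameters.
-/

set_option autoImplicit false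
set_option linter.unusedSectionVars false
set_option linter.style.longLine false

open MeasureTheory Set Filter Metric
open scoped ENNReal NNReal Topology

namespace Crest.Agent.R096.Rmt_816

open Crest.AnalysisR.VecCalc3
open Crest.Agent.R96.Coarse_538
open Crest.Agent.R96.Intr_538
open Crest.Agent.R096.Msh_715 (Tiling P I)
open Crest.Agent.R096.Msh_810 (Dat K Cu Top)
open Crest.Agent.R096.Mal_874 (MD CB RD RP reOm Rt Cn outD Rg tile_k_eq dist_cube AD)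
open Crest.Agent.R096.Msb_432 (meshS rigidS_const Scl CIx)
open Crest.Agent.R096.Mf_113 (Rig CK)
open Crest.Agent.R096.Ca_855
open Crest.Agent.R096.Gsm_432 (TG)
open Crest.Agent.R96.En10_199 (P3)

noncomputable section

/-- **the size function at the points of a cube of the mesh** -/
theorem adm_tile {n : ℕ} {D : Dat n} {τ : Top D} {y : Fin n → ℝ}
    (hy : y ∈ Cu D.a τ.1.1.k τ.1.1.z) : D.C ≤ 2 ^ τ.1.1.k * D.ρ y := by
  rw [← Top.c_eq] at hy
  exact τ.1.2.lower hy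

variable {Om W : Set R3} {ρ₀ : R3 → ℝ} {J : Type} {Qb : J → CB R3 3} {k0 : ℕ} {σ : ℝ}
  [Finite J]

/-- the neighbourhood of the bulk in which the family is rigid -/
def Wp (W : Set R3) (σ : ℝ) : Set R3 := {p | ∃ x ∈ W, dist x p < σ / 8}

theorem rgP (h : MIn Om W ρ₀ Qb k0 σ) {p : R3} (hp : p ∈ Wp W σ) (a : R3) :
    Rg h.T0 (h.Ts a) (h.cl a) (p - h.cl a) := by
  obtain ⟨x, hx, hxp⟩ := hp
  have hσ := h.σ0
  have hd : dist x (p - h.cl a) < σ / 4 := by
    have h1 := dist_triangle x p (p - h.cl a)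
    have h2 : dist p (p - h.cl a) ≤ σ / 8 := by
      rw [dist_eq_norm, sub_sub_cancel]
      exact h.norm_cl a
    linarith
  have hd0 : dist x p < σ / 4 := by linarith
  have hD : ∀ x, x ∈ Om → h.M.φ x ∈ h.M.D0.Om := by
    intro x hx
    have : x ∈ h.M.φ ⁻¹' h.M.D0.Om := by rw [h.dom]; exact hx
    exact this
  refine rigidS_const h.M h.sc 0 h.adm0 (h.adm a) (κ := k0) (fun j => by rw [zero_add]) ?_ ?_ ?_ ?_
  · exact hD _ (h.mem_Om_of hx hd)
  · rw [sub_add_cancel]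
    exact hD _ (h.mem_Om_of hx hd0)
  · exact h.K_ev hx hd 0
  · rw [sub_add_cancel]
    exact h.K_ev hx hd0 _

/-- **the family is rigid in the neighbourhood `Wp` of the bulk** -/
theorem rigP (h : MIn Om W ρ₀ Qb k0 σ) {Tr : Set R3} (hTr : ∀ a ∈ Tr, ‖a‖ ≤ σ / 8) :
    Rig h.T0 h.T Tr (Wp W σ) := by
  intro a ha p hp
  have hσ := h.σ0
  have e := h.cl_eq (hTr a ha)
  have key : ∀ b, h.cl a = b → p ∈ Om ∧ p - b ∈ Om ∧
      (fun j => P ((h.T a).H j)) '' (h.T a).at_ p =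
        (fun i => (b + ·) '' P (h.T0.H i)) '' h.T0.at_ (p - b) := by
    rintro b rfl
    have hp' := hp
    obtain ⟨x, hx, hxp⟩ := hp'
    refine ⟨h.mem_Om_of hx (by linarith), h.mem_Om_of hx ?_, ?_⟩
    · have h1 := dist_triangle x p (p - h.cl a)
      have h2 : dist p (p - h.cl a) ≤ σ / 8 := by
        rw [dist_eq_norm, sub_sub_cancel]
        exact h.norm_cl a
      linarith
    · have h1 := (rgP h hp a).sets
      rw [sub_add_cancel] at h1
      exact h1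
  have h2 := key a e
  refine ⟨h2.1, ?_, h2.2.2⟩
  have : p - a ∈ h.M.φ ⁻¹' h.M.D0.Om := by rw [h.dom]; exact h2.2.1
  exact this

/-- positions in a small cube -/
theorem norm_Dt {s : ℝ} (hs : 0 ≤ s) {a : R3} (ha : a ∈ Dt s) : ‖a‖ ≤ 2 * s :=
  norm_le_of_coord hs fun i => abs_le.2 ⟨by linarith [(ha i).1], (ha i).2.le⟩

theorem norm_D0 (h : MIn Om W ρ₀ Qb k0 σ) : ∀ a ∈ Dt (1 / 2 ^ k0), ‖a‖ < σ / 8 := by
  intro a ha
  have h1 := norm_Dt (by positivity) ha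
  have h2 := h.h48'
  have h3 : (0:ℝ) < 1 / 2 ^ k0 := by positivity
  linarith

/-- **fatness from 432's `TG`** -/
theorem fat_of (h : MIn Om W ρ₀ Qb k0 σ) {a : R3} {i : h.ιT a} {β ρ D : ℝ} {nc κ' : ℕ}
    (hTG : TG (h.Ts a) i β ρ D nc κ') (hρ : 0 < ρ) {t : ℝ}
    (hd : ∀ y ∈ P ((h.T a).H i), ∀ y' ∈ P ((h.T a).H i), ‖y - y'‖ ≤ t) :
    FatT (h.T a) i (D / ρ) t nc := by
  obtain ⟨h1, c, h2⟩ := hTG
  have h3 := TileG.re h.dom (T := h.Ts a)
    (h2 (Gsm_432.H_ne (h.T a) i) κ' (D / 2 ^ κ') le_rfl le_rfl) (hne' := Gsm_432.H_ne (h.T a) i)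
  have hp : (0:ℝ) < 2 ^ κ' := by positivity
  have h4 : FatT (h.T a) i (D / ρ) (D / 2 ^ κ') nc := FatT.ofG h3 (by positivity)
    ((h.T a).finite_tiles ((h.T a).cpt i) ((h.T a).sub i)) (le_of_eq (by field_simp))
  exact ⟨h4.ball, hd, h4.card⟩

/-- the block at the position `a` -/
abbrev Bj (h : MIn Om W ρ₀ Qb k0 σ) (a : R3) (j : J) : CB R3 3 := h.M.Bk (fun _ => h.cl a) j

/-- **class (3)**: the tiles inside the blocks -/
def Cl3 (h : MIn Om W ρ₀ Qb k0 σ) (a : R3) (i : h.ιT a) : Prop :=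
  ∃ j, P ((h.T a).H i) ⊆ (Bj h a j).N

/-- **class (2)**: the tiles near the walls (radius `r` in the unit `2 ^ (-k0)`, in the frame) -/
def Cl2 (h : MIn Om W ρ₀ Qb k0 σ) (r : ℝ) (a : R3) (i : h.ιT a) : Prop :=
  ∃ j, ∃ y ∈ P ((h.T a).H i), infDist ((Qb j).ψ y) (Bj h a j).W ≤ r / 2 ^ k0

theorem N_shift (h : MIn Om W ρ₀ Qb k0 σ) {a : R3} (j : J) {y : R3} (hy : y ∈ (Bj h a j).N) :
    y - h.cl a ∈ (Qb j).N :=
  (CB.mem_N_tr (Qb j) (h.cl a) y).1 hy

theorem cl3_sub (h : MIn Om W ρ₀ Qb k0 σ) {a : R3} (ha : ‖a‖ < σ / 8) {i : h.ιT a}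
    (hi : Cl3 h a i) : P ((h.T a).H i) ⊆ Wp W σ := by
  obtain ⟨j, hj⟩ := hi
  intro y hy
  refine ⟨y - h.cl a, h.hN j (N_shift h j (hj hy)), ?_⟩
  rw [dist_comm, dist_eq_norm, sub_sub_cancel, h.cl_eq ha.le]
  exact ha

/-- a point near the wall of the block at the position `a` is near a point of the bulk -/
theorem wall_pt (h : MIn Om W ρ₀ Qb k0 σ) {κ : ℝ} (hκ : 0 < κ) {Bs Nn : ℕ}
    (hb : ∀ j, MIn.BQ κ Bs Nn (Qb j) k0) {r : ℝ} {a : R3} {j : J} {y : R3}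
    (hy : infDist ((Qb j).ψ y) (Bj h a j).W ≤ r / 2 ^ k0) :
    ∃ z ∈ (Bj h a j).N, ‖y - z‖ ≤ 4 * κ⁻¹ * (r / 2 ^ k0) := by
  have hWc : IsCompact (Bj h a j).W := by
    have h1 := (Bj h a j).frontier_N
    have h2 : IsCompact (frontier (Bj h a j).N) :=
      (Bj h a j).isCompact_N.of_isClosed_subset isClosed_frontier (Bj h a j).frontier_sub
    have h3 : (Bj h a j).W = (Bj h a j).ψ '' frontier (Bj h a j).N := by
      rw [h1, image_preimage_eq _ (Bj h a j).ψ.surjective]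
    rw [h3]
    exact h2.image (Bj h a j).ψ.continuous
  obtain ⟨w, hw, e⟩ := hWc.exists_infDist_eq_dist (Bj h a j).W_ne ((Qb j).ψ y)
  refine ⟨(Qb j).ψ.symm w, (Bj h a j).frontier_sub ?_, ?_⟩
  · rw [(Bj h a j).frontier_N, mem_preimage]
    show (Qb j).ψ ((Qb j).ψ.symm w) ∈ _
    rw [ContinuousLinearEquiv.apply_symm_apply]
    exact hw
  · have h1 := (hb j).ψ2 hκ (y - (Qb j).ψ.symm w)
    rw [map_sub, ContinuousLinearEquiv.apply_symm_apply, ← dist_eq_norm, ← dist_eq_norm, ← e] at h1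
    rw [← dist_eq_norm]
    exact h1.trans (mul_le_mul_of_nonneg_left hy (by positivity))

set_option maxHeartbeats 1600000 in
/-- **the tiles near the walls are small** -/
theorem diam2 (h : MIn Om W ρ₀ Qb k0 σ) {κ : ℝ} (hκ : 0 < κ) (hκ1 : κ ≤ 1) {Bs Nn : ℕ}
    (hb : ∀ j, MIn.BQ κ Bs Nn (Qb j) k0) {r : ℝ} (hr : 7 ≤ r)
    (hsm : 4 * κ⁻¹ * (r / 2 ^ k0) < σ / 8) {a : R3} {i : h.ιT a} (hi : Cl2 h r a i) :
    ∀ y ∈ P ((h.T a).H i), ∀ y' ∈ P ((h.T a).H i),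
      ‖y - y'‖ ≤ 4 * κ⁻¹ * max 1 (Bs:ℝ) * (r / 2 ^ k0) := by
  have hκ' : 1 ≤ κ⁻¹ := (one_le_inv₀ hκ).2 hκ1
  have hσ := h.σ0
  have hm1 : (1:ℝ) ≤ max 1 (Bs:ℝ) := le_max_left _ _
  have hp0 : (0:ℝ) < 2 ^ k0 := by positivity
  have hr0 : 0 ≤ r / 2 ^ k0 := by positivity
  have hF := h.fb hκ hκ1 hb
  have hK0 : (0:ℝ) ≤ 4 * κ⁻¹ := by positivity
  -- from a number in the frame
  have key : ∀ {v : R3} {c : ℝ}, c ≤ max 1 (Bs:ℝ) * (r / 2 ^ k0) → ‖v‖ ≤ 4 * κ⁻¹ * c →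
      ‖v‖ ≤ 4 * κ⁻¹ * max 1 (Bs:ℝ) * (r / 2 ^ k0) := by
    intro v c hc hv
    rw [mul_assoc]
    exact hv.trans (mul_le_mul_of_nonneg_left hc hK0)
  have hone : ∀ {c : ℝ}, c ≤ r / 2 ^ k0 → c ≤ max 1 (Bs:ℝ) * (r / 2 ^ k0) := fun hc =>
    hc.trans (le_mul_of_one_le_left hr0 hm1)
  -- the tiles at the shell
  have shell : ∀ (i : h.ιT a) {l : J} {y x x' : R3},
      y ∈ (Bj h a l).S.bp (Bj h a l).ψ (Bj h a l).a' (Bj h a l).kc → y ∈ P ((h.T a).H i) →
      infDist ((Qb l).ψ y) (Bj h a l).W ≤ r / 2 ^ k0 → x ∈ P ((h.T a).H i) →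
      x' ∈ P ((h.T a).H i) → ‖x - x'‖ ≤ 4 * κ⁻¹ * max 1 (Bs:ℝ) * (r / 2 ^ k0) := by
    intro i l y x x' hbp hy hyW hx hx'
    have h1 : 7 / 2 ^ (Qb l).kc ≤ r / 2 ^ k0 :=
      (Crest.Agent.R096.Msb_432.bp_dist _ hbp).trans hyW
    have h2 := Crest.Agent.R096.Nbr_896.diam_block h.M h.sc (0 + h.M.φ (h.cl a)) (h.adm a)
      (h.X hκ hκ1 hb) (K := 4 * κ⁻¹) (R0 := max 1 (Bs:ℝ)) hK0 hF (fun _ => le_rfl) (j := l)
      i ⟨y, hy, (Bj h a l).bp_sub_N hbp⟩ x hx x' hx'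
    rw [max_eq_right hm1] at h2
    have hpk : (0:ℝ) < 2 ^ (Qb l).kc := by positivity
    have h3 : 1 / 2 ^ (Qb l).kc ≤ r / 2 ^ k0 := by
      refine le_trans ?_ h1
      rw [div_le_div_iff_of_pos_right hpk]
      norm_num
    calc ‖x - x'‖ ≤ 4 * κ⁻¹ * max 1 (Bs:ℝ) / 2 ^ (Qb l).kc := h2
      _ = 4 * κ⁻¹ * max 1 (Bs:ℝ) * (1 / 2 ^ (Qb l).kc) := by ring
      _ ≤ 4 * κ⁻¹ * max 1 (Bs:ℝ) * (r / 2 ^ k0) :=
        mul_le_mul_of_nonneg_left h3 (by positivity)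
  intro x hx x' hx'
  obtain ⟨j, y, hy, hyW⟩ := hi
  obtain ⟨z, hz, hyz⟩ := wall_pt h hκ hb hyW
  have hzW : z - h.cl a ∈ W := h.hN j (N_shift h j hz)
  rcases i with ⟨p | ⟨l, i⟩, hc⟩ | ⟨l, z'⟩
  · -- outer pieces
    have hsub : P ((h.M.mesh h.sc (0 + h.M.φ (h.cl a)) (h.adm a)).H (Sum.inl p)) ⊆
        P ((h.M.ad h.sc (0 + h.M.φ (h.cl a)) (h.adm a)).T0.H p.1.par) :=
      Crest.Agent.R096.Cut_874.cut_tile_sub (hA := Crest.Agent.R096.Mal_874.AF_ne) p.1
    have hk : p.1.par.1.1.k = k0 := by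
      refine tile_k_eq (φ := h.M.φ) (x := y) (hsub hy) ?_
      refine h.K_ev hzW ?_ _
      have h1 : dist (z - h.cl a) y ≤ dist (z - h.cl a) z + dist z y := dist_triangle _ _ _
      have h2 : dist (z - h.cl a) z ≤ σ / 8 := by
        rw [dist_comm, dist_eq_norm, sub_sub_cancel]
        exact h.norm_cl a
      have h3 : dist z y ≤ 4 * κ⁻¹ * (r / 2 ^ k0) := by
        rw [dist_comm, dist_eq_norm]; exact hyz
      linarith
    have h1 := dist_cube ((AD.tile_T0 (M := h.M.ad h.sc (0 + h.M.φ (h.cl a)) (h.adm a)) _).1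
      (hsub hx)) ((AD.tile_T0 (M := h.M.ad h.sc (0 + h.M.φ (h.cl a)) (h.adm a)) _).1 (hsub hx'))
    rw [hk] at h1
    refine key (c := 1 / 2 ^ k0) (hone ?_) ?_
    · rw [div_le_div_iff_of_pos_right hp0]; linarith
    · have h2 := hF.φ2 (x - x')
      refine h2.trans (mul_le_mul_of_nonneg_left ?_ hK0)
      rw [map_sub, ← dist_eq_norm]
      exact h1
  · -- inner tiles
    have hlj : l = j := by
      by_contra hne
      have hyN : y ∈ (Bj h a l).N := i.2 hy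
      have h1 := h.sep l j hne _ (N_shift h l hyN) _ (N_shift h j hz)
      rw [dist_sub_right, dist_eq_norm] at h1
      linarith
    subst hlj
    rcases hi1 : i.1 with τ | s
    · have e1 : ∀ w ∈ P ((h.T a).H (Sum.inl ⟨Sum.inr ⟨l, i⟩, hc⟩)),
          (Qb l).ψ w ∈ Cu (Bj h a l).a' τ.1.1.1.k τ.1.1.1.z := by
        intro w hw
        have hw' : w ∈ P (((Bj h a l).T k0 (h.sc.kc l)).H i.1) := hw
        rw [hi1] at hw'
        exact ((Bj h a l).tile_T0 k0 (h.sc.kc l)).1 hw'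
      have h2 := adm_tile (D := (Bj h a l).D k0 (h.sc.kc l)) (τ := τ.1) (e1 y hy)
      have h3 : ((Bj h a l).D k0 (h.sc.kc l)).ρ ((Qb l).ψ y) ≤ r / 2 ^ k0 := by
        show max (6 / 2 ^ k0) (min (6 / 2 ^ (Bj h a l).kc) (infDist ((Qb l).ψ y) (Bj h a l).W)) ≤ _
        refine max_le ?_ ((min_le_right _ _).trans hyW)
        rw [div_le_div_iff_of_pos_right hp0]; linarith
      have h4 : (6:ℝ) ≤ 2 ^ τ.1.1.1.k * (r / 2 ^ k0) :=
        (show (6:ℝ) ≤ _ from h2).trans (mul_le_mul_of_nonneg_left h3 (by positivity))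
      have hpk : (0:ℝ) < 2 ^ τ.1.1.1.k := by positivity
      have h5 : 1 / 2 ^ τ.1.1.1.k ≤ r / 2 ^ k0 := by
        rw [div_le_iff₀ hpk]
        linarith
      have h6 := dist_cube (e1 x hx) (e1 x' hx')
      refine key (c := 1 / 2 ^ τ.1.1.1.k) (hone h5) ?_
      have h7 := hF.ψ2 l (x - x')
      refine h7.trans (mul_le_mul_of_nonneg_left ?_ hK0)
      rw [map_sub, ← dist_eq_norm]
      exact h6
    · have hbp : y ∈ (Bj h a l).S.bp (Bj h a l).ψ (Bj h a l).a' (Bj h a l).kc := by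
        have hw' : y ∈ P (((Bj h a l).T k0 (h.sc.kc l)).H i.1) := hy
        rw [hi1] at hw'
        exact (Bj h a l).P_inr_sub k0 (h.sc.kc l) s hw'
      exact shell (Sum.inl ⟨Sum.inr ⟨l, i⟩, hc⟩) hbp hy hyW hx hx'
  · have hlj : l = j := by
      by_contra hne
      have hyN : y ∈ (Bj h a l).N :=
        Crest.Agent.R096.Msb_432.Kc_sub_N _ (Crest.Agent.R096.Msb_432.cubH_sub _ hy)
      have h1 := h.sep l j hne _ (N_shift h l hyN) _ (N_shift h j hz)
      rw [dist_sub_right, dist_eq_norm] at h1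
      linarith
    subst hlj
    have hbp : y ∈ (Bj h a l).S.bp (Bj h a l).ψ (Bj h a l).a' (Bj h a l).kc := by
      have h1 : y ∈ (Bj h a l).Kc := Crest.Agent.R096.Msb_432.cubH_sub _ hy
      rw [← (Bj h a l).P_core k0 (h.sc.kc l)] at h1
      exact (Bj h a l).P_inr_sub k0 (h.sc.kc l) _ h1
    exact shell (Sum.inr ⟨l, z'⟩) hbp hy hyW hx hx'

/-- the tiles near the walls lie in the rigid region -/
theorem cl2_sub (h : MIn Om W ρ₀ Qb k0 σ) {κ : ℝ} (hκ : 0 < κ) (hκ1 : κ ≤ 1) {Bs Nn : ℕ}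
    (hb : ∀ j, MIn.BQ κ Bs Nn (Qb j) k0) {r : ℝ} (hr : 7 ≤ r)
    (hsm : 8 * κ⁻¹ * max 1 (Bs:ℝ) * (r / 2 ^ k0) < σ / 16) {a : R3} (ha : ‖a‖ ≤ σ / 16)
    {i : h.ιT a} (hi : Cl2 h r a i) : P ((h.T a).H i) ⊆ Wp W σ := by
  have hκ' : 1 ≤ κ⁻¹ := (one_le_inv₀ hκ).2 hκ1
  have hσ := h.σ0
  have hm1 : (1:ℝ) ≤ max 1 (Bs:ℝ) := le_max_left _ _
  have hr0 : 0 ≤ r / 2 ^ k0 := by positivity
  have h0 : 4 * κ⁻¹ * (r / 2 ^ k0) ≤ 4 * κ⁻¹ * max 1 (Bs:ℝ) * (r / 2 ^ k0) := by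
    refine mul_le_mul_of_nonneg_right ?_ hr0
    exact le_mul_of_one_le_right (by positivity) hm1
  have hd := diam2 h hκ hκ1 hb hr (by nlinarith) hi
  obtain ⟨j, y, hy, hyW⟩ := hi
  obtain ⟨z, hz, hyz⟩ := wall_pt h hκ hb hyW
  intro x hx
  refine ⟨z - h.cl a, h.hN j (N_shift h j hz), ?_⟩
  have e : h.cl a = a := h.cl_eq (by linarith)
  have h1 := hd y hy x hx
  have h2 : dist (z - h.cl a) x ≤ dist (z - h.cl a) z + (dist z y + dist y x) :=
    (dist_triangle _ z _).trans (add_le_add le_rfl (dist_triangle _ _ _))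
  have h3 : dist (z - h.cl a) z ≤ σ / 16 := by
    rw [dist_comm, dist_eq_norm, sub_sub_cancel, e]
    exact ha
  rw [dist_comm z y, dist_eq_norm y z, dist_eq_norm y x] at h2
  have e8 : 8 * κ⁻¹ * max 1 (Bs:ℝ) * (r / 2 ^ k0) = 2 * (4 * κ⁻¹ * max 1 (Bs:ℝ) * (r / 2 ^ k0)) := by
    ring
  rw [e8] at hsm
  linarith

end

end Crest.Agent.R096.Rmt_816
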