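import Crest.Agent.R96.Intr27_538
import Crest.Agent.R096.Naf1_372
import Crest.Agent.R096.Vly1_186
import Crest.Agent.R096.Pe1_622
import Crest.Agent.R096.Mal14_874
import Crest.Agent.R096.Pas4_753
import Crest.Agent.R096.Rmt4_816
import Crest.Agent.R096.Gsc3_476
import Crest.Agent.R096.Cob11_622
import Crest.Agent.R96.Eld1_538

-- ▼ part R096/End1_812
section

/-!
# Row 96 (helper812), p ≤ 2: [EN-D0] of 753: the energy half of `coarse_E` alone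

`energies`: finitely many weighted energies, one bad set of translates of relative size `θ` in any set
`D` of translates; constants `nE l * ((m + 1) / θ)`.
-/

set_option autoImplicit false
set_option linter.unusedSectionVars false

open MeasureTheory Set Filter Metric Module
open scoped ENNReal NNReal Topology

namespace Crest.Agent.R096.End_812

open Crest.AnalysisR.VecCalc3 Crest.AnalysisR.Sobolev
open Crest.Agent.R96.Acl_392 Crest.Agent.R96.Lu_538 Crest.Agent.R96.Intr_538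
open Crest.Agent.R96.Poi_392 Crest.Agent.R96.Coarse_538

/-- **finitely many weighted energies**, bad set of relative size `θ` -/
theorem energies {m : ℕ} {g : Fin m → R3 → ℝ≥0∞} (hg : ∀ l, AEMeasurable (g l) volume)
    (hgi : ∀ l, ∫⁻ y, g l y ≠ ∞) {nE ncE : Fin m → ℝ} {εE θ : ℝ} (hnE : ∀ l, 0 < nE l)
    (hncE : ∀ l, 0 < ncE l) (hθ : 0 < θ) (hεE : 0 < εE) :
    ∃ δE : ℝ, 0 < δE ∧ ∀ s : ℝ, 0 < s → ∀ a₀ : R3, ∀ (μ : Fin m → R3 → Measure R3) (D : Set R3),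
      MeasurableSet D → volume D ≠ 0 → volume D ≠ ∞ →
      (∀ l, RM D (ENNReal.ofReal (nE l)) (μ l)) →
      (∀ l, ∀ a ∈ D, ∀ k : Fin 3 → ℤ, μ l a (cel Cb (vt (2 * s) a₀ k) s) ≤
        ENNReal.ofReal (ncE l * (2 * s) ^ 3)) →
      ∀ E : Fin m → Set R3, (∀ l, MeasurableSet (E l)) →
      ∃ B : Set R3, volume B ≤ ENNReal.ofReal θ * volume D ∧ ∀ a ∈ D, a ∉ B → ∀ l,
        ∀ Z : Finset (Fin 3 → ℤ), (Z.card : ℝ) * (2 * s) ^ 3 ≤ δE →
          ∫⁻ y in E l ∪ ⋃ k ∈ Z, cel Cb (vt (2 * s) a₀ k) s, g l y ∂μ l a ≤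
            ENNReal.ofReal (nE l * ((m + 1) / θ)) * (∫⁻ y in E l, g l y) +
              ENNReal.ofReal εE := by
  classical
  have hm : (0:ℝ) < (m:ℝ) + 1 := by positivity
  have hθ' : 0 < θ / ((m:ℝ) + 1) := by positivity
  have hen := fun l => energy_M (hg l) (hgi l) (hnE l) (hncE l) hθ' hεE
  choose δE hδE HE using hen
  obtain ⟨δ', hδ', hδ'E⟩ : ∃ δ' : ℝ, 0 < δ' ∧ ∀ l, δ' ≤ δE l := by
    rcases isEmpty_or_nonempty (Fin m) with h0 | h0
    · exact ⟨1, one_pos, fun l => (h0.false l).elim⟩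
    · refine ⟨Finset.univ.inf' Finset.univ_nonempty δE, ?_,
        fun l => Finset.inf'_le _ (Finset.mem_univ l)⟩
      rw [Finset.lt_inf'_iff]
      exact fun l _ => hδE l
  refine ⟨δ', hδ', fun s hs a₀ μ D hD hV0 hVDt hμ hcount E hE => ?_⟩
  have hEl := fun l => HE l s hs a₀ (μ l) D hD hV0 hVDt (hμ l) (hcount l) (E l) (hE l)
  choose B₂ hB₂ HB₂ using hEl
  refine ⟨⋃ l, B₂ l, ?_, fun a ha haB l Z hZ => ?_⟩
  · refine (measure_iUnion_fintype_le _ _).trans ?_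
    refine (Finset.sum_le_sum fun l _ => hB₂ l).trans ?_
    rw [Finset.sum_const, Finset.card_univ, Fintype.card_fin, nsmul_eq_mul, ← mul_assoc,
      ← ENNReal.ofReal_natCast, ← ENNReal.ofReal_mul (Nat.cast_nonneg _)]
    gcongr
    rw [mul_div_assoc', div_le_iff₀ hm]
    nlinarith
  · have h1 := HB₂ l a ha (fun h => haB (mem_iUnion.2 ⟨l, h⟩)) Z (hZ.trans (hδ'E l))
    rw [div_div_eq_mul_div, mul_div_assoc] at h1
    exact h1

/-- **[EN-D0]**: the bad set has at most half of the volume, constants `2 (m + 1) nE l` -/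
theorem energies_half {m : ℕ} {g : Fin m → R3 → ℝ≥0∞} (hg : ∀ l, AEMeasurable (g l) volume)
    (hgi : ∀ l, ∫⁻ y, g l y ≠ ∞) {nE ncE : Fin m → ℝ} {εE : ℝ} (hnE : ∀ l, 0 < nE l)
    (hncE : ∀ l, 0 < ncE l) (hεE : 0 < εE) :
    ∃ δE : ℝ, 0 < δE ∧ ∀ s : ℝ, 0 < s → ∀ a₀ : R3, ∀ (μ : Fin m → R3 → Measure R3) (D : Set R3),
      MeasurableSet D → volume D ≠ 0 → volume D ≠ ∞ →
      (∀ l, RM D (ENNReal.ofReal (nE l)) (μ l)) →
      (∀ l, ∀ a ∈ D, ∀ k : Fin 3 → ℤ, μ l a (cel Cb (vt (2 * s) a₀ k) s) ≤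
        ENNReal.ofReal (ncE l * (2 * s) ^ 3)) →
      ∀ E : Fin m → Set R3, (∀ l, MeasurableSet (E l)) →
      ∃ B : Set R3, volume B ≤ ENNReal.ofReal (1 / 2) * volume D ∧ ∀ a ∈ D, a ∉ B → ∀ l,
        ∀ Z : Finset (Fin 3 → ℤ), (Z.card : ℝ) * (2 * s) ^ 3 ≤ δE →
          ∫⁻ y in E l ∪ ⋃ k ∈ Z, cel Cb (vt (2 * s) a₀ k) s, g l y ∂μ l a ≤
            ENNReal.ofReal (2 * (m + 1) * nE l) * (∫⁻ y in E l, g l y) +
              ENNReal.ofReal εE := by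
  obtain ⟨δE, hδE, H⟩ := energies hg hgi hnE hncE (θ := 1 / 2) (by norm_num) hεE
  refine ⟨δE, hδE, fun s hs a₀ μ D hD hV0 hVDt hμ hcount E hE => ?_⟩
  obtain ⟨B, hB, HB⟩ := H s hs a₀ μ D hD hV0 hVDt hμ hcount E hE
  refine ⟨B, hB, fun a ha haB l Z hZ => ?_⟩
  have h1 := HB a ha haB l Z hZ
  rwa [show nE l * (((m:ℝ) + 1) / (1 / 2)) = 2 * (m + 1) * nE l by ring] at h1


end Crest.Agent.R096.End_812
end

-- ▼ part R096/Eln1_812
section

/-!
# Row 96 (helper812), p ≤ 2: (EL) of 753 #11736, numeric half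

Three classes of tiles (1 = outer, universal constants; 2 = near the walls; 3 = blocks), each with a
random measure for the edges (`μ`) and one for the faces (`μ'`).  One bad set, order of the constants
`θ0`; `C3 n3` and the counts; `e1`, `δE`.
-/

set_option autoImplicit false
set_option linter.unusedSectionVars false
set_option linter.style.longLine false

open MeasureTheory Set Filter Metric Module
open scoped ENNReal NNReal Topology

namespace Crest.Agent.R096.Eln_812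

open Crest.AnalysisR.VecCalc3 Crest.AnalysisR.Sobolev
open Crest.Agent.R096.Mal_874 (CB)
open Crest.Agent.R096.Sk_962 (SH)
open Crest.Agent.R096.Br_695 (En)
open Crest.Agent.R96.Acl_392 Crest.Agent.R96.Lu_538 Crest.Agent.R96.Intr_538
open Crest.Agent.R96.Poi_392 Crest.Agent.R96.Coarse_538

/-- the layer of width `r / 2 ^ k0` at all the walls -/
def WL {J : Type*} (Qb : J → CB R3 3) (k0 : ℕ) (r : ℝ) : Set R3 :=
  ⋃ j, {y | ∃ z ∈ frontier (Qb j).N, ‖(Qb j).ψ y - (Qb j).ψ z‖ ≤ r / 2 ^ k0}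

theorem isClosed_WL {J : Type*} [Finite J] (Qb : J → CB R3 3) (k0 : ℕ) (r : ℝ) :
    IsClosed (WL Qb k0 r) := isClosed_iUnion_of_finite fun j => Vly_186.isClosed_ly (Qb j) _

/-- the layers are inside the good cubes -/
theorem WL_sub {J : Type*} {Qb : J → CB R3 3} {k0 : ℕ} {r κ θ0 τ s : ℝ} (hκ : 0 < κ) (hs : 0 < s)
    (hτ1 : τ < 1) (hr : 0 ≤ r) {Q₀ : Finset (Fin 3 → ℤ)} {z : (Fin 3 → ℤ) → R3} {kk : J → Fin 3 → ℤ}
    (hkk : ∀ j, kk j ∈ Q₀) (hψ : ∀ j v, κ / 4 * ‖v‖ ≤ ‖(Qb j).ψ v‖)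
    (hk0 : 1 / 2 ^ k0 ≤ θ0 * s) (hθ : r * θ0 ≤ κ / 4 * τ)
    (hN : ∀ j, (Qb j).N ⊆ cel Cb (z (kk j)) ((1 - τ) * s)) :
    WL Qb k0 r ⊆ ⋃ k ∈ Q₀, cel Cb (z k) s := by
  intro y hy
  obtain ⟨j, w, hw, hyw⟩ := mem_iUnion.1 hy
  refine mem_iUnion₂.2 ⟨kk j, hkk j, ?_⟩
  have h1 := hN j ((Qb j).frontier_sub hw)
  have h2 : 0 < (1 - τ) * s := mul_pos (sub_pos.2 hτ1) hs
  rw [mem_cel hs]
  intro i
  have h3 := (mem_cel h2).1 h1 i
  have h4 := hψ j (y - w)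
  rw [map_sub] at h4
  have h5 : r / 2 ^ k0 ≤ κ / 4 * (τ * s) := by
    calc r / 2 ^ k0 = r * (1 / 2 ^ k0) := by ring
      _ ≤ r * (θ0 * s) := by gcongr
      _ = r * θ0 * s := by ring
      _ ≤ κ / 4 * τ * s := by gcongr
      _ = _ := by ring
  have h6 : ‖y - w‖ ≤ τ * s := le_of_mul_le_mul_left ((h4.trans hyw).trans h5) (by positivity)
  have h7 := PiLp.norm_apply_le (y - w) i
  rw [PiLp.sub_apply, Real.norm_eq_abs] at h7
  have h8 := abs_add_le (y i - w i) (w i - z (kk j) i)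
  rw [show y i - w i + (w i - z (kk j) i) = y i - z (kk j) i by ring] at h8
  linarith

/-- the integrals over subsets of `Om` -/
theorem int_ind {Om S : Set R3} (hOm : IsOpen Om) (hS : S ⊆ Om) (g : R3 → ℝ≥0∞) (μ : Measure R3) :
    ∫⁻ y in S, Om.indicator g y ∂μ = ∫⁻ y in S, g y ∂μ := by
  rw [setLIntegral_indicator hOm.measurableSet, inter_eq_right.2 hS]

theorem aem_ind {p : ℝ} {Om La : Set R3} {f : R3 → R3} {G : Fin 3 → R3 → R3} (hOm : IsOpen Om)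
    (H : SH p Om La f G) : AEMeasurable (Om.indicator (En p G)) volume := by
  rw [aemeasurable_indicator_iff hOm.measurableSet]
  have h : ∀ j : Fin 3, AEMeasurable (fun x => ‖G j x‖ₑ ^ p) (volume.restrict Om) := fun j =>
    (H.memG j).1.enorm.pow_const p
  exact Finset.aemeasurable_fun_sum _ fun j _ => h j


set_option maxHeartbeats 1000000 in
/-- **(EL), numeric half** -/
theorem el_num {p : ℝ} (hp : 1 ≤ p) (hp2 : p ≤ 2) {Om La : Set R3} {f : R3 → R3}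
    {G : Fin 3 → R3 → R3} (hOm : IsOpen Om) (hvol : volume Om ≠ ∞) (H : SH p Om La f G)
    {κ τ c1 r C1 n1 C2 n2 e₀ : ℝ} (hκ : 0 < κ) (hτ : 0 < τ) (hτ1 : τ < 1) (hc1 : 0 < c1)
    (hr : 0 ≤ r) (hC1 : 0 < C1) (hn1 : 0 < n1) (hC2 : 0 < C2) (hn2 : 0 < n2) (he₀ : 0 < e₀) :
    ∃ θ0 : ℝ, 0 < θ0 ∧ ∀ C3 n3 nc1 nc2 nc3 : ℝ, 0 < C3 → 0 < n3 → 0 < nc1 → 0 < nc2 → 0 < nc3 →
    ∃ e1 : ℝ, 0 < e1 ∧ ∃ δE : ℝ, 0 < δE ∧ ∀ s : ℝ, 0 < s → ∀ (a₀ : R3) (Q₀ : Finset (Fin 3 → ℤ))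
      (L : (Fin 3 → ℤ) → R3 →L[ℝ] R3), (∀ k ∈ Q₀, ‖L k‖ ≤ κ⁻¹) →
      (∀ k ∈ Q₀, cel Cb (vt (2 * s) a₀ k) s ⊆ Om) →
      (∑ k ∈ Q₀, ∫⁻ x in cel Cb (vt (2 * s) a₀ k) s, ‖Gmat G x - L k‖ₑ ^ p) ≤
        ENNReal.ofReal e1 →
      ∀ (J : Type) [Finite J] (kk : J → Fin 3 → ℤ) (Qb : J → CB R3 3) (k0 : ℕ),
      (∀ j, kk j ∈ Q₀) → (∀ j v, κ / 4 * ‖v‖ ≤ ‖(Qb j).ψ v‖) →
      (∀ j, c1 * s ≤ 1 / 2 ^ (Qb j).kc) → 1 / 2 ^ k0 ≤ θ0 * s →
      (∀ j, (Qb j).N ⊆ cel Cb (vt (2 * s) a₀ (kk j)) ((1 - τ) * s)) →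
      (Pairwise fun i j => Disjoint (Qb i).N (Qb j).N) →
      ∀ D : Set R3, MeasurableSet D → volume D ≠ 0 → volume D ≠ ∞ →
      ∀ μ1 μ1' μ2 μ2' μ3 μ3' : R3 → Measure R3,
      RM D (ENNReal.ofReal n1) μ1 → RM D (ENNReal.ofReal n1) μ1' →
      RM D (ENNReal.ofReal n2) μ2 → RM D (ENNReal.ofReal n2) μ2' →
      RM D (ENNReal.ofReal n3) μ3 → RM D (ENNReal.ofReal n3) μ3' →
      (∀ a ∈ D, ∀ k : Fin 3 → ℤ,
        μ1 a (cel Cb (vt (2 * s) a₀ k) s) ≤ ENNReal.ofReal (nc1 * (2 * s) ^ 3) ∧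
        μ1' a (cel Cb (vt (2 * s) a₀ k) s) ≤ ENNReal.ofReal (nc1 * (2 * s) ^ 3) ∧
        μ2 a (cel Cb (vt (2 * s) a₀ k) s) ≤ ENNReal.ofReal (nc2 * (2 * s) ^ 3) ∧
        μ2' a (cel Cb (vt (2 * s) a₀ k) s) ≤ ENNReal.ofReal (nc2 * (2 * s) ^ 3) ∧
        μ3 a (cel Cb (vt (2 * s) a₀ k) s) ≤ ENNReal.ofReal (nc3 * (2 * s) ^ 3) ∧
        μ3' a (cel Cb (vt (2 * s) a₀ k) s) ≤ ENNReal.ofReal (nc3 * (2 * s) ^ 3)) →
      ∀ E1 : Set R3, MeasurableSet E1 → E1 ⊆ Om →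
      ∃ B2 : Set R3, volume B2 ≤ ENNReal.ofReal (1 / 2) * volume D ∧ ∀ a ∈ D, a ∉ B2 →
        (∀ S : Set R3, S ⊆ E1 →
          ENNReal.ofReal C1 * (∫⁻ y in S, En p G y ∂μ1 a) ≤
            ENNReal.ofReal (14 * n1 * C1) * (∫⁻ y in E1, En p G y) + ENNReal.ofReal e₀ ∧
          ENNReal.ofReal C1 * (∫⁻ y in S, En p G y ∂μ1' a) ≤
            ENNReal.ofReal (14 * n1 * C1) * (∫⁻ y in E1, En p G y) + ENNReal.ofReal e₀) ∧
        (∀ S : Set R3, S ⊆ WL Qb k0 r →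
          ENNReal.ofReal C2 * (∫⁻ y in S, En p G y ∂μ2 a) ≤ ENNReal.ofReal e₀ ∧
          ENNReal.ofReal C2 * (∫⁻ y in S, En p G y ∂μ2' a) ≤ ENNReal.ofReal e₀) ∧
        (∀ Z : Finset (Fin 3 → ℤ), Z ⊆ Q₀ → (Z.card : ℝ) * (2 * s) ^ 3 ≤ δE →
          ∀ S : Set R3, S ⊆ ⋃ k ∈ Z, cel Cb (vt (2 * s) a₀ k) s →
          ENNReal.ofReal C3 * (∫⁻ y in S, En p G y ∂μ3 a) ≤ ENNReal.ofReal e₀ ∧
          ENNReal.ofReal C3 * (∫⁻ y in S, En p G y ∂μ3' a) ≤ ENNReal.ofReal e₀) := by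
  classical
  have hp0 : 0 < p := by linarith
  have hκi : 0 < κ⁻¹ := inv_pos.2 hκ
  set V : ℝ := (volume Om).toReal with hV
  have hVO : volume Om = ENNReal.ofReal V := (ENNReal.ofReal_toReal hvol).symm
  have hV0 : 0 ≤ V := ENNReal.toReal_nonneg
  set A0 : ℝ := 6 * (1 + κ⁻¹ ^ p) with hA0
  have hA00 : 0 < A0 := by positivity
  set K0 : ℝ := A0 * (192 * (r / c1)) with hK0
  have hK00 : 0 ≤ K0 := by positivity
  set A : ℝ := C2 * (14 * n2) * (K0 * V) with hA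
  have hA' : 0 ≤ A := by positivity
  obtain ⟨θ0, hθ0, hθ1, hθ2, hθ3⟩ : ∃ θ0 : ℝ, 0 < θ0 ∧ r * θ0 ≤ κ / 4 * τ ∧ r * θ0 / c1 ≤ 1 ∧
      A * θ0 ≤ e₀ / 3 := by
    refine ⟨min (κ / 4 * τ / (r + 1)) (min (c1 / (r + 1)) (e₀ / 3 / (A + 1))), by positivity,
      ?_, ?_, ?_⟩
    · calc r * _ ≤ r * (κ / 4 * τ / (r + 1)) := by gcongr; exact min_le_left _ _
        _ = κ / 4 * τ * (r / (r + 1)) := by ring
        _ ≤ κ / 4 * τ * 1 := by
          gcongr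
          rw [div_le_one (by positivity)]
          linarith
        _ = _ := mul_one _
    · rw [div_le_one hc1]
      calc r * _ ≤ r * (c1 / (r + 1)) := by
            gcongr; exact (min_le_right _ _).trans (min_le_left _ _)
        _ = c1 * (r / (r + 1)) := by ring
        _ ≤ c1 * 1 := by
          gcongr
          rw [div_le_one (by positivity)]
          linarith
        _ = _ := mul_one _
    · calc A * _ ≤ A * (e₀ / 3 / (A + 1)) := by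
            gcongr; exact (min_le_right _ _).trans (min_le_right _ _)
        _ = e₀ / 3 * (A / (A + 1)) := by ring
        _ ≤ e₀ / 3 * 1 := by
          gcongr
          rw [div_le_one (by positivity)]
          linarith
        _ = _ := mul_one _
  refine ⟨θ0, hθ0, fun C3 n3 nc1 nc2 nc3 hC3 hn3 hnc1 hnc2 hnc3 => ?_⟩
  set εE : ℝ := e₀ / 3 / (C1 + C2 + C3) with hεE
  have hεE0 : 0 < εE := by positivity
  have hε1 : C1 * εE ≤ e₀ / 3 := by
    rw [hεE, mul_div_assoc', div_le_iff₀ (by positivity)]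
    nlinarith
  have hε2 : C2 * εE ≤ e₀ / 3 := by
    rw [hεE, mul_div_assoc', div_le_iff₀ (by positivity)]
    nlinarith
  have hε3 : C3 * εE ≤ e₀ / 3 := by
    rw [hεE, mul_div_assoc', div_le_iff₀ (by positivity)]
    nlinarith
  set e1 : ℝ := e₀ / 3 / (C2 * (14 * n2) * 6) with he1
  have he10 : 0 < e1 := by positivity
  have he1' : C2 * (14 * n2) * 6 * e1 = e₀ / 3 := by
    rw [he1]; field_simp
  have hg := aem_ind hOm H
  have hgi : ∫⁻ y, Om.indicator (En p G) y ≠ ∞ := by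
    rw [lintegral_indicator hOm.measurableSet]
    exact Pe_622.en_finite hp0 H
  obtain ⟨δE, hδE, HE⟩ := End_812.energies_half (m := 6) (g := fun _ => Om.indicator (En p G))
    (fun _ => hg) (fun _ => hgi) (nE := ![n1, n1, n2, n2, n3, n3])
    (ncE := ![nc1, nc1, nc2, nc2, nc3, nc3]) (εE := εE)
    (by intro l; fin_cases l <;> simpa) (by intro l; fin_cases l <;> simpa) hεE0
  refine ⟨e1, he10, δE, hδE, ?_⟩
  intro s hs a₀ Q₀ L hL hcO hdev J _ kk Qb k0 hkk hψ hkc hk0 hN hdis D hD hD0 hDt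
    μ1 μ1' μ2 μ2' μ3 μ3' r1 r1' r2 r2' r3 r3' hcnt E1 hE1 hE1O
  have hWm := (isClosed_WL Qb k0 r).measurableSet
  have hWs := WL_sub (z := vt (2 * s) a₀) hκ hs hτ1 hr hkk hψ hk0 hθ1 hN
  have hWO : WL Qb k0 r ⊆ Om := hWs.trans (iUnion₂_subset hcO)
  obtain ⟨B2, hB2, HB⟩ := HE s hs a₀ ![μ1, μ1', μ2, μ2', μ3, μ3'] D hD hD0 hDt
    (by intro l; fin_cases l <;> simpa)
    (by
      intro l a ha k
      obtain ⟨q1, q2, q3, q4, q5, q6⟩ := hcnt a ha k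
      fin_cases l <;> simpa)
    ![E1, E1, WL Qb k0 r, WL Qb k0 r, ∅, ∅]
    (by intro l; fin_cases l <;> simp [hE1, hWm])
  -- the energy of the layer
  have hwall : ENNReal.ofReal (14 * n2) * (∫⁻ y in WL Qb k0 r, Om.indicator (En p G) y) ≤
      ENNReal.ofReal ((14 * n2) * (K0 * θ0 * V + 6 * e1)) := by
    rw [int_ind hOm hWO, ENNReal.ofReal_mul (p := 14 * n2) (q := K0 * θ0 * V + 6 * e1)
      (by positivity)]
    refine mul_le_mul' le_rfl ?_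
    calc ∫⁻ y in WL Qb k0 r, En p G y ≤ ∫⁻ y in WL Qb k0 r, (1 + En p G y) :=
          lintegral_mono fun y => le_add_self
      _ ≤ ENNReal.ofReal A0 * volume (WL Qb k0 r) + ENNReal.ofReal (6 * e1) :=
          Naf_372.near_aff hp hp2 hκ hL hdev hWm hWs
      _ ≤ ENNReal.ofReal A0 * (ENNReal.ofReal (192 * (r / c1) * θ0) * volume Om) +
          ENNReal.ofReal (6 * e1) := by
          gcongr
          have hNO : ∀ j, (Qb j).N ⊆ Om := fun j => (hN j).trans (Subset.trans (by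
            intro y hy
            rw [mem_cel hs]
            have h2 : 0 < (1 - τ) * s := mul_pos (sub_pos.2 hτ1) hs
            intro i
            have := (mem_cel h2).1 hy i
            nlinarith) (hcO _ (hkk j)))
          refine (Vly_186.vol_iUnion_ly Qb hr hc1 hs hkc hk0 hdis hNO).trans
            (mul_le_mul' (ENNReal.ofReal_le_ofReal ?_) le_rfl)
          have hx0 : 0 ≤ r * θ0 / c1 := by positivity
          have hx2 : (1 + r * θ0 / c1) ^ 2 ≤ 4 := by nlinarith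
          calc 48 * (r * θ0 / c1) * (1 + r * θ0 / c1) ^ 2 ≤ 48 * (r * θ0 / c1) * 4 := by gcongr
            _ = _ := by ring
      _ = ENNReal.ofReal (K0 * θ0 * V + 6 * e1) := by
          rw [hVO, ← ENNReal.ofReal_mul (by positivity), ← ENNReal.ofReal_mul (by positivity),
            ← ENNReal.ofReal_add (by positivity) (by positivity)]
          congr 1
          rw [hK0]
          ring
  refine ⟨B2, hB2, fun a ha haB => ⟨fun S hS => ?_, fun S hS => ?_, fun Z hZ hZc S hS => ?_⟩⟩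
  · have hSO : S ⊆ Om := hS.trans hE1O
    have key : ∀ μ : Measure R3, ∫⁻ y in E1, Om.indicator (En p G) y ∂μ ≤
        ENNReal.ofReal (2 * ((6:ℕ) + 1) * n1) * (∫⁻ y in E1, Om.indicator (En p G) y) +
          ENNReal.ofReal εE →
        ENNReal.ofReal C1 * (∫⁻ y in S, En p G y ∂μ) ≤
          ENNReal.ofReal (14 * n1 * C1) * (∫⁻ y in E1, En p G y) + ENNReal.ofReal e₀ := by
      intro μ hμ
      rw [int_ind hOm hE1O, int_ind hOm hE1O] at hμ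
      calc ENNReal.ofReal C1 * (∫⁻ y in S, En p G y ∂μ)
          ≤ ENNReal.ofReal C1 * (∫⁻ y in E1, En p G y ∂μ) := by
            gcongr
        _ ≤ ENNReal.ofReal C1 * (ENNReal.ofReal (2 * ((6:ℕ) + 1) * n1) * (∫⁻ y in E1, En p G y) +
              ENNReal.ofReal εE) := by gcongr
        _ = ENNReal.ofReal (14 * n1 * C1) * (∫⁻ y in E1, En p G y) +
              ENNReal.ofReal (C1 * εE) := by
            rw [mul_add, ← mul_assoc, ← ENNReal.ofReal_mul hC1.le, ← ENNReal.ofReal_mul hC1.le]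
            congr 3
            push_cast
            ring
        _ ≤ _ := by
            gcongr
            linarith
    have hl0 := HB a ha haB 0 ∅ (by simp [hδE.le])
    have hl1 := HB a ha haB 1 ∅ (by simp [hδE.le])
    simp only [Finset.notMem_empty, iUnion_of_empty, iUnion_empty, union_empty] at hl0 hl1
    exact ⟨key _ hl0, key _ hl1⟩
  · have key : ∀ μ : Measure R3, ∫⁻ y in WL Qb k0 r, Om.indicator (En p G) y ∂μ ≤
        ENNReal.ofReal (2 * ((6:ℕ) + 1) * n2) * (∫⁻ y in WL Qb k0 r, Om.indicator (En p G) y) +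
          ENNReal.ofReal εE →
        ENNReal.ofReal C2 * (∫⁻ y in S, En p G y ∂μ) ≤ ENNReal.ofReal e₀ := by
      intro μ hμ
      rw [int_ind hOm hWO (En p G) μ] at hμ
      calc ENNReal.ofReal C2 * (∫⁻ y in S, En p G y ∂μ)
          ≤ ENNReal.ofReal C2 * (∫⁻ y in WL Qb k0 r, En p G y ∂μ) := by
            gcongr
        _ ≤ ENNReal.ofReal C2 * (ENNReal.ofReal (2 * ((6:ℕ) + 1) * n2) *
              (∫⁻ y in WL Qb k0 r, Om.indicator (En p G) y) + ENNReal.ofReal εE) := by gcongr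
        _ ≤ ENNReal.ofReal C2 * (ENNReal.ofReal ((14 * n2) * (K0 * θ0 * V + 6 * e1)) +
              ENNReal.ofReal εE) := by
            gcongr
            have e : (2 * (((6:ℕ) : ℝ) + 1) * n2) = 14 * n2 := by push_cast; ring
            rw [e]
            exact hwall
        _ = ENNReal.ofReal (C2 * ((14 * n2) * (K0 * θ0 * V + 6 * e1) + εE)) := by
            rw [← ENNReal.ofReal_add (by positivity) hεE0.le, ← ENNReal.ofReal_mul hC2.le]
        _ ≤ _ := by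
            apply ENNReal.ofReal_le_ofReal
            have e : C2 * ((14 * n2) * (K0 * θ0 * V + 6 * e1) + εE) =
              A * θ0 + C2 * (14 * n2) * 6 * e1 + C2 * εE := by rw [hA]; ring
            rw [e]
            linarith
    have hl0 := HB a ha haB 2 ∅ (by simp [hδE.le])
    have hl1 := HB a ha haB 3 ∅ (by simp [hδE.le])
    simp only [Finset.notMem_empty, iUnion_of_empty, iUnion_empty, union_empty] at hl0 hl1
    exact ⟨key _ hl0, key _ hl1⟩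
  · have hZO : (⋃ k ∈ Z, cel Cb (vt (2 * s) a₀ k) s) ⊆ Om :=
      iUnion₂_subset fun k hk => hcO k (hZ hk)
    have key : ∀ μ : Measure R3, ∫⁻ y in ⋃ k ∈ Z, cel Cb (vt (2 * s) a₀ k) s,
          Om.indicator (En p G) y ∂μ ≤ ENNReal.ofReal εE →
        ENNReal.ofReal C3 * (∫⁻ y in S, En p G y ∂μ) ≤ ENNReal.ofReal e₀ := by
      intro μ hμ
      rw [int_ind hOm hZO (En p G) μ] at hμ
      calc ENNReal.ofReal C3 * (∫⁻ y in S, En p G y ∂μ)
          ≤ ENNReal.ofReal C3 * (∫⁻ y in ⋃ k ∈ Z, cel Cb (vt (2 * s) a₀ k) s, En p G y ∂μ) := by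
            gcongr
        _ ≤ ENNReal.ofReal C3 * ENNReal.ofReal εE := by gcongr
        _ = ENNReal.ofReal (C3 * εE) := (ENNReal.ofReal_mul hC3.le).symm
        _ ≤ _ := by
            apply ENNReal.ofReal_le_ofReal
            linarith
    have hl0 := HB a ha haB 4 Z hZc
    have hl1 := HB a ha haB 5 Z hZc
    have e0 : (![E1, E1, WL Qb k0 r, WL Qb k0 r, ∅, ∅] : Fin 6 → Set R3) 4 = ∅ := rfl
    have e1 : (![E1, E1, WL Qb k0 r, WL Qb k0 r, ∅, ∅] : Fin 6 → Set R3) 5 = ∅ := rfl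
    simp only [e0, e1, empty_union, Measure.restrict_empty, lintegral_zero_measure, mul_zero,
      zero_add] at hl0 hl1
    exact ⟨key _ hl0, key _ hl1⟩

end Crest.Agent.R096.Eln_812
end

-- ▼ part R096/Ksh1_372
section

/-!
Row 96 (S0127), helper372.  Leaf (5) of 695 #11580: `Kc_diff` ([KSH], the core of a shifted block),
`N_diff` ([NLY], the block minus the shifted block lies in the layer at the wall), `exists_rat`
(rational positions are dense), for `CB E n`.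
-/

set_option autoImplicit false

open MeasureTheory Set Filter Topology Metric
open scoped ENNReal NNReal

namespace Crest.Agent.R096.Ksh_372

open Crest.Agent.R096.Msh_715 Crest.Agent.R096.Mal_874 Crest.Agent.R096.Msh_810

/-! ### shifted coordinate boxes -/

section box

variable {n : ℕ}



end box

/-! ### cores -/

section core

variable {n : ℕ} {E : Type*} [NormedAddCommGroup E] [NormedSpace ℝ E]

/-- the core is a coordinate box -/
theorem Kc_eq (Q : CB E n) : Q.Kc = Q.ψ ⁻¹' Icc (fun l => Q.a' l + Q.S.lo l / 2 ^ Q.kc)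
    (fun l => Q.a' l + Q.S.hi l / 2 ^ Q.kc) := by
  have hp : (0 : ℝ) < 2 ^ Q.kc := by positivity
  ext y
  rw [mem_preimage, Set.mem_Icc, Pi.le_def, Pi.le_def, ← forall_and]
  show (∀ l, (Q.S.lo l : ℝ) ≤ ps Q.a' Q.kc (Q.ψ y) l ∧ ps Q.a' Q.kc (Q.ψ y) l ≤ Q.S.hi l) ↔ _
  refine forall_congr' fun l => ?_
  unfold ps
  refine and_congr ?_ ?_
  · rw [← le_sub_iff_add_le', div_le_iff₀' hp]
  · rw [← sub_le_iff_le_add', le_div_iff₀' hp]

variable [MeasurableSpace E] [BorelSpace E] (μ : Measure E) [μ.IsAddHaarMeasure]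


end core

/-! ### the block minus the shifted block -/

section wall

variable {n : ℕ} {E : Type*} [NormedAddCommGroup E] [NormedSpace ℝ E]



end wall

/-! ### [KSH] in dimension 3 -/

section three

variable {E : Type*} [NormedAddCommGroup E] [NormedSpace ℝ E] [MeasureSpace E] [BorelSpace E]
  [(volume : Measure E).IsAddHaarMeasure]


end three



/-! ### rational positions -/

section rat

variable {n : ℕ}




end rat

end Crest.Agent.R096.Ksh_372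
end

-- ▼ part R096/Eln2_812
section

/-!
# Row 96 (helper812), p ≤ 2: (EL), numeric half in the letters of `Pas_753.ElP`, and the geometry of the
sets of the three classes

* `el_num3` : one random measure per class on `Dt (1 / 2 ^ k0)`, hypotheses of `ElP` verbatim;
* `Kc_tr_sub`, `not_mem_N_of_far`, `layer_tr`, `N_tr_sub_cel`, `E1` : the deterministic sets.
-/

set_option autoImplicit false
set_option linter.unusedSectionVars false
set_option linter.style.longLine false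

open MeasureTheory Set Filter Metric Module
open scoped ENNReal NNReal Topology

namespace Crest.Agent.R096.Eln_812

open Crest.AnalysisR.VecCalc3 Crest.AnalysisR.Sobolev
open Crest.Agent.R096.Mal_874 (CB)
open Crest.Agent.R096.Sk_962 (SH)
open Crest.Agent.R096.Br_695 (En)
open Crest.Agent.R096.Pin_753 (BlkP)
open Crest.Agent.R96.Acl_392 Crest.Agent.R96.Lu_538 Crest.Agent.R96.Intr_538
open Crest.Agent.R96.Poi_392 Crest.Agent.R96.Coarse_538

theorem RM_zero (D : Set R3) (n : ℝ≥0∞) : RM D n fun _ => (0 : Measure R3) := by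
  constructor
  · intro F hF
    simp
  · intro F hF
    simp

section geo

variable {Q : CB R3 3} {κ a : ℝ} {v : R3}

/-- `‖ψ v‖ ≤ 4 κ⁻¹ ‖v‖ ≤ 8 κ⁻¹ / 2 ^ k0` -/
theorem psi_le {κ : ℝ} (hκ : 0 < κ) (h : ∀ v, ‖Q.ψ v‖ ≤ 4 * κ⁻¹ * ‖v‖) {k0 : ℕ} {v : R3}
    (hv : ‖v‖ ≤ 2 / 2 ^ k0) : ‖Q.ψ v‖ ≤ 8 * κ⁻¹ / 2 ^ k0 := by
  have hi : 0 < κ⁻¹ := inv_pos.2 hκ
  refine (h v).trans ((mul_le_mul_of_nonneg_left hv (by positivity)).trans (le_of_eq ?_))
  ring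

/-- the shifted core is inside the block -/
theorem Kc_tr_sub {v : R3} (hv : ‖Q.ψ v‖ ≤ Q.w / 2 ^ Q.kc) : (Q.tr v).Kc ⊆ Q.N := by
  intro y hy
  rw [CB.mem_Kc_tr, Ksh_372.Kc_eq] at hy
  rw [Vly_186.N_eq]
  have hp : (0 : ℝ) < 2 ^ Q.kc := by positivity
  have h1 : Q.ψ (y - v) = Q.ψ y - Q.ψ v := map_sub _ _ _
  rw [mem_preimage, h1] at hy
  have h2 : ∀ l, |Q.ψ v l| ≤ Q.w / 2 ^ Q.kc := fun l =>
    ((Real.norm_eq_abs _).symm.le.trans (norm_le_pi_norm _ l)).trans hv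
  constructor
  · intro l
    have h3 := hy.1 l
    have h4 := abs_le.1 (h2 l)
    have e : (Q.al l : ℝ) = Q.S.lo l - Q.w := by simp [CB.al]
    simp only [Pi.sub_apply] at h3
    simp only [e, sub_div]
    linarith [h4.1]
  · intro l
    have h3 := hy.2 l
    have h4 := abs_le.1 (h2 l)
    have e : (Q.be l : ℝ) = Q.S.hi l + Q.w := by simp [CB.be]
    simp only [Pi.sub_apply] at h3
    simp only [e, add_div]
    linarith [h4.2]



/-- the layers at the shifted wall are in the layers at the wall -/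
theorem layer_tr {v : R3} {r r' : ℝ} (hv : ‖Q.ψ v‖ ≤ r') :
    {y | ∃ z ∈ frontier (Q.tr v).N, ‖Q.ψ y - Q.ψ z‖ ≤ r} ⊆
      {y | ∃ z ∈ frontier Q.N, ‖Q.ψ y - Q.ψ z‖ ≤ r + r'} := by
  rintro y ⟨z, hz, hyz⟩
  rw [CB.frontier_N_tr] at hz
  refine ⟨z - v, hz, ?_⟩
  have e : Q.ψ y - Q.ψ (z - v) = (Q.ψ y - Q.ψ z) + Q.ψ v := by rw [map_sub]; abel
  rw [e]
  exact (norm_add_le _ _).trans (add_le_add hyz hv)

/-- the shifted block is inside the cell -/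
theorem N_tr_sub_cel {v z0 : R3} {s τ : ℝ} (hs : 0 < s) (hτ1 : τ < 1) (hv : ‖v‖ ≤ τ * s)
    (hN : Q.N ⊆ cel Cb z0 ((1 - τ) * s)) : (Q.tr v).N ⊆ cel Cb z0 s := by
  intro y hy
  rw [CB.mem_N_tr] at hy
  have h2 : 0 < (1 - τ) * s := mul_pos (sub_pos.2 hτ1) hs
  have h3 := (mem_cel h2).1 (hN hy)
  rw [mem_cel hs]
  intro i
  have h4 := h3 i
  have h5 := PiLp.norm_apply_le v i
  rw [Real.norm_eq_abs] at h5
  rw [PiLp.sub_apply] at h4
  have h6 := abs_add_le (y i - v i - z0 i) (v i)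
  rw [show y i - v i - z0 i + v i = y i - z0 i by ring] at h6
  linarith

end geo

/-- the deterministic set of class (1): `Om` off the blocks -/
def E1 {J : Type*} (Om : Set R3) (Qb : J → CB R3 3) : Set R3 := Om \ ⋃ j, (Qb j).N

theorem meas_E1 {J : Type*} [Finite J] {Om : Set R3} (hOm : IsOpen Om) (Qb : J → CB R3 3) :
    MeasurableSet (E1 Om Qb) :=
  hOm.measurableSet.diff
    (isClosed_iUnion_of_finite fun j => (Qb j).isCompact_N.isClosed).measurableSet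

theorem E1_sub_Kc {J : Type*} {Om : Set R3} {Qb : J → CB R3 3} {a : R3}
    (h : ∀ j, ‖(Qb j).ψ a‖ ≤ (Qb j).w / 2 ^ (Qb j).kc) :
    E1 Om Qb ⊆ Om \ ⋃ j, ((Qb j).tr a).Kc := by
  rintro y ⟨hy, hy'⟩
  refine ⟨hy, fun hc => hy' ?_⟩
  obtain ⟨j, hj⟩ := mem_iUnion.1 hc
  exact mem_iUnion.2 ⟨j, Kc_tr_sub (h j) hj⟩

theorem pw_disj {J : Type*} {Qb : J → CB R3 3} {c2 s : ℝ} (hc2 : 0 < c2) (hs : 0 < s)
    (h : ∀ i j, i ≠ j → ∀ x ∈ (Qb i).N, ∀ y ∈ (Qb j).N, c2 * s ≤ dist x y) :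
    Pairwise fun i j => Disjoint (Qb i).N (Qb j).N := by
  intro i j hij
  rw [Set.disjoint_left]
  intro x hx hx'
  have := h i j hij x hx x hx'
  rw [dist_self] at this
  have := mul_pos hc2 hs
  linarith


end Crest.Agent.R096.Eln_812
end

-- ▼ part R096/Elc1_812

/-!
# Row 96 (helper812), p ≤ 2: (EL), composition, part 1: the geometry of the three classes with neighbours

`K1` = outer tiles far from the walls, `K2` = `Cl2 h r`, `K3` = tiles of the blocks not in `K2`.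
-/

set_option autoImplicit false
set_option linter.unusedSectionVars false
set_option linter.style.longLine false

open MeasureTheory Set Filter Metric Module
open scoped ENNReal NNReal Topology

namespace Crest.Agent.R096.Elc_812

open Crest.AnalysisR.VecCalc3
open Crest.Agent.R096.Msh_715 (Tiling P I)
open Crest.Agent.R096.Mal_874 (CB)
open Crest.Agent.R096.Ca_855
open Crest.Agent.R096.Rmt_816 (Bj Cl2 Cl3 diam2 norm_D0)
open Crest.Agent.R096.Gsc_476 (Bk_eq near_wall_outT outer_orT same_blockT)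
open Crest.Agent.R096.Eln_812 (WL layer_tr)
open Crest.Agent.R96.Eld_538 (Cl1)
open Crest.Agent.R96.Coarse_538 (Dt)
open Crest.Agent.R96.En10_199 (P3)

variable {Om W : Set R3} {ρ₀ : R3 → ℝ} {J : Type} {Qb : J → CB R3 3} {k0 : ℕ} {σ : ℝ}
  [Finite J] {κ : ℝ} {Bs Nn : ℕ}

/-- two tiles touch -/
def Tch (h : MIn Om W ρ₀ Qb k0 σ) (a : R3) (k i : h.ιT a) : Prop :=
  (P ((h.T a).H k) ∩ P ((h.T a).H i)).Nonempty

section

variable (h : MIn Om W ρ₀ Qb k0 σ) {a : R3}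

include h in
theorem frontier_psi (ha : ‖a‖ ≤ σ / 8) {j : J} {z : R3} (hz : z ∈ frontier ((Qb j).tr a).N) :
    (Qb j).ψ z ∈ (Bj h a j).W := by
  rw [← Bk_eq h ha j, (h.M.Bk (fun _ => h.cl a) j).frontier_N] at hz
  exact hz

/-- near a point of the wall -/
theorem cl2_of_wall (ha : ‖a‖ ≤ σ / 8) {r : ℝ} {j : J} {i : h.ιT a} {y z : R3}
    (hy : y ∈ P ((h.T a).H i)) (hz : z ∈ frontier ((Qb j).tr a).N)
    (hyz : ‖(Qb j).ψ y - (Qb j).ψ z‖ ≤ r / 2 ^ k0) : Cl2 h r a i := by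
  refine ⟨j, y, hy, (infDist_le_dist_of_mem (frontier_psi h ha hz)).trans ?_⟩
  rw [dist_eq_norm]
  exact hyz

include h in
/-- the distance to the wall is attained -/
theorem wall_of_infDist (ha : ‖a‖ ≤ σ / 8) {d : ℝ} {j : J} {y : R3}
    (hy : infDist ((Qb j).ψ y) (Bj h a j).W ≤ d) :
    ∃ z ∈ frontier ((Qb j).tr a).N, ‖(Qb j).ψ y - (Qb j).ψ z‖ ≤ d := by
  have hWc : IsCompact (Bj h a j).W := by
    have h1 := (Bj h a j).frontier_N
    have h2 : IsCompact (frontier (Bj h a j).N) :=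
      (Bj h a j).isCompact_N.of_isClosed_subset isClosed_frontier (Bj h a j).frontier_sub
    have h3 : (Bj h a j).W = (Bj h a j).ψ '' frontier (Bj h a j).N := by
      rw [h1, image_preimage_eq _ (Bj h a j).ψ.surjective]
    rw [h3]
    exact h2.image (Bj h a j).ψ.continuous
  obtain ⟨w, hw, e⟩ := hWc.exists_infDist_eq_dist (Bj h a j).W_ne ((Qb j).ψ y)
  have h5 : (Qb j).ψ.symm w ∈ frontier (Bj h a j).N := by
    rw [(Bj h a j).frontier_N, mem_preimage]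
    show (Qb j).ψ ((Qb j).ψ.symm w) ∈ _
    rw [ContinuousLinearEquiv.apply_symm_apply]
    exact hw
  refine ⟨(Qb j).ψ.symm w, ?_, ?_⟩
  · rw [← Bk_eq h ha j]
    exact h5
  · rw [ContinuousLinearEquiv.apply_symm_apply, ← dist_eq_norm, ← e]
    exact hy

/-- **every tile is in one of the classes** -/
theorem tri (hκ : 0 < κ) (hb : ∀ j, MIn.BQ κ Bs Nn (Qb j) k0) (ha : ‖a‖ ≤ σ / 8) {r : ℝ}
    (hr : 32 * κ⁻¹ ≤ r) (i : h.ιT a) (h2 : ¬ Cl2 h r a i) (h3 : ¬ Cl3 h a i) : Cl1 h 4 a i := by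
  refine ⟨fun j hj => h3 ⟨j, hj⟩, fun j x hx z hz => ?_⟩
  by_contra hcon
  push Not at hcon
  have hz' : z ∈ frontier ((Qb j).tr a).N := by rw [← Bk_eq h ha j]; exact hz
  have hi : 0 < κ⁻¹ := inv_pos.2 hκ
  have hp : (0:ℝ) < 2 ^ k0 := by positivity
  refine h2 (cl2_of_wall h ha hx hz' ?_)
  have h4 := dist_le_P3s x z
  have h5 := ((hb j).cnd (x - z)).2
  rw [map_sub, ← dist_eq_norm x z] at h5
  calc ‖(Qb j).ψ x - (Qb j).ψ z‖ ≤ 4 * κ⁻¹ * dist x z := h5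
    _ ≤ 4 * κ⁻¹ * (2 * (4 / 2 ^ k0)) := by
        gcongr
        exact h4.trans (mul_le_mul_of_nonneg_left hcon (by norm_num))
    _ = 32 * κ⁻¹ / 2 ^ k0 := by ring
    _ ≤ r / 2 ^ k0 := by gcongr

/-- a far outer tile does not meet the blocks -/
theorem far_off (ha : ‖a‖ ≤ σ / 8) {k : h.ιT a} (hk : Cl1 h 4 a k) (j : J) :
    Disjoint (P ((h.T a).H k)) ((Qb j).tr a).N := by
  rw [Set.disjoint_left]
  intro y hy hyN
  have hN : ¬ P ((h.T a).H k) ⊆ ((Qb j).tr a).N := by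
    rw [← Bk_eq h ha j]
    exact hk.1 j
  obtain ⟨-, z, hz, hzP, -, -⟩ := near_wall_outT h ha hN ⟨y, hy, hyN⟩ hy
  have hz' : z ∈ frontier (Bj h a j).N := by
    show z ∈ frontier (h.M.Bk (fun _ => h.cl a) j).N
    rw [Bk_eq h ha j]
    exact hz
  have h1 := hk.2 j z hzP z hz'
  rw [dist_self] at h1
  have : (0:ℝ) < 4 / 2 ^ k0 := by positivity
  linarith

/-- **neighbours of class (1) are outer tiles** -/
theorem nb1 (ha : ‖a‖ ≤ σ / 8) {k i : h.ιT a} (hk : Cl1 h 4 a k) (hki : Tch h a k i) (j : J) :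
    ¬ P ((h.T a).H i) ⊆ (Bj h a j).N := by
  obtain ⟨y, hy, hy'⟩ := hki
  intro hc
  refine Set.disjoint_left.1 (far_off h ha hk j) hy ?_
  rw [← Bk_eq h ha j]
  exact hc hy'

/-- **neighbours of class (2)** -/
theorem nb2 (hκ : 0 < κ) (hκ1 : κ ≤ 1) (hb : ∀ j, MIn.BQ κ Bs Nn (Qb j) k0) {r : ℝ} (hr : 7 ≤ r)
    (hsm : 4 * κ⁻¹ * (r / 2 ^ k0) < σ / 8) {k i : h.ιT a} (hk : Cl2 h r a k)
    (hki : Tch h a k i) : Cl2 h (r * (1 + 16 * κ⁻¹ ^ 2 * max 1 (Bs:ℝ))) a i := by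
  have hd := diam2 h hκ hκ1 hb hr hsm hk
  obtain ⟨j, y, hy, hyW⟩ := hk
  obtain ⟨y0, h0, h0'⟩ := hki
  have hi : 0 < κ⁻¹ := inv_pos.2 hκ
  refine ⟨j, y0, h0', ?_⟩
  have h1 : infDist ((Qb j).ψ y0) (Bj h a j).W ≤
      infDist ((Qb j).ψ y) (Bj h a j).W + dist ((Qb j).ψ y0) ((Qb j).ψ y) :=
    infDist_le_infDist_add_dist
  have h2 := ((hb j).cnd (y0 - y)).2
  rw [map_sub] at h2
  have h3 := hd y0 h0 y hy
  have h4 : ‖(Qb j).ψ y0 - (Qb j).ψ y‖ ≤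
      4 * κ⁻¹ * (4 * κ⁻¹ * max 1 (Bs:ℝ) * (r / 2 ^ k0)) :=
    h2.trans (mul_le_mul_of_nonneg_left h3 (by positivity))
  rw [dist_eq_norm] at h1
  have e : r * (1 + 16 * κ⁻¹ ^ 2 * max 1 (Bs:ℝ)) / 2 ^ k0 =
      r / 2 ^ k0 + 4 * κ⁻¹ * (4 * κ⁻¹ * max 1 (Bs:ℝ) * (r / 2 ^ k0)) := by ring
  rw [e]
  linarith

/-- **the tiles of class (2) are in the layer** -/
theorem cl2_WL (hκ : 0 < κ) (hκ1 : κ ≤ 1) (hb : ∀ j, MIn.BQ κ Bs Nn (Qb j) k0) {r : ℝ} (hr : 7 ≤ r)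
    (hsm : 4 * κ⁻¹ * (r / 2 ^ k0) < σ / 8) (ha : a ∈ Dt (1 / 2 ^ k0)) {i : h.ιT a}
    (hi : Cl2 h r a i) :
    P ((h.T a).H i) ⊆ WL Qb k0 (r * (1 + 16 * κ⁻¹ ^ 2 * max 1 (Bs:ℝ)) + 8 * κ⁻¹) := by
  have ha' := (norm_D0 h a ha).le
  have hd := diam2 h hκ hκ1 hb hr hsm hi
  obtain ⟨j, y, hy, hyW⟩ := hi
  obtain ⟨z, hz, hyz⟩ := wall_of_infDist h ha' hyW
  have hii : 0 < κ⁻¹ := inv_pos.2 hκ
  intro x hx
  have h2 := ((hb j).cnd (x - y)).2
  rw [map_sub] at h2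
  have h3 := hd x hx y hy
  have h4 : ‖(Qb j).ψ x - (Qb j).ψ y‖ ≤
      4 * κ⁻¹ * (4 * κ⁻¹ * max 1 (Bs:ℝ) * (r / 2 ^ k0)) :=
    h2.trans (mul_le_mul_of_nonneg_left h3 (by positivity))
  have h5 : ‖(Qb j).ψ x - (Qb j).ψ z‖ ≤ r * (1 + 16 * κ⁻¹ ^ 2 * max 1 (Bs:ℝ)) / 2 ^ k0 := by
    have h6 := norm_sub_le_norm_sub_add_norm_sub ((Qb j).ψ x) ((Qb j).ψ y) ((Qb j).ψ z)
    have e : r * (1 + 16 * κ⁻¹ ^ 2 * max 1 (Bs:ℝ)) / 2 ^ k0 =
      r / 2 ^ k0 + 4 * κ⁻¹ * (4 * κ⁻¹ * max 1 (Bs:ℝ) * (r / 2 ^ k0)) := by ring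
    rw [e]
    linarith
  have hna : ‖a‖ ≤ 2 / 2 ^ k0 := by
    have := Rmt_816.norm_Dt (s := 1 / 2 ^ k0) (by positivity) ha
    calc ‖a‖ ≤ 2 * (1 / 2 ^ k0) := this
      _ = _ := by ring
  have h7 := Eln_812.psi_le (Q := Qb j) hκ (fun v => ((hb j).cnd v).2) hna
  have h8 := layer_tr (Q := Qb j) h7 (r := r * (1 + 16 * κ⁻¹ ^ 2 * max 1 (Bs:ℝ)) / 2 ^ k0)
    ⟨z, hz, h5⟩
  refine mem_iUnion.2 ⟨j, ?_⟩
  rwa [← add_div] at h8

/-- **neighbours of the tiles of a block which are not near the wall** -/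
theorem nb3 (hκ : 0 < κ) (hb : ∀ j, MIn.BQ κ Bs Nn (Qb j) k0) (ha : ‖a‖ ≤ σ / 8) {r : ℝ}
    (hr : 32 * κ⁻¹ ≤ r) {k i : h.ιT a} (h2 : ¬ Cl2 h r a k) {j : J}
    (hk : P ((h.T a).H k) ⊆ ((Qb j).tr a).N) (hki : Tch h a k i) :
    P ((h.T a).H i) ⊆ ((Qb j).tr a).N := by
  by_contra hc
  obtain ⟨y, hy, hy'⟩ := hki
  obtain ⟨-, z, hz, -, -, hyz⟩ := near_wall_outT h ha hc ⟨y, hy', hk hy⟩ hy'
  have hi : 0 < κ⁻¹ := inv_pos.2 hκ
  refine h2 (cl2_of_wall h ha hy hz ?_)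
  have h5 := ((hb j).cnd (y - z)).2
  rw [map_sub] at h5
  calc ‖(Qb j).ψ y - (Qb j).ψ z‖ ≤ 4 * κ⁻¹ * ‖y - z‖ := h5
    _ ≤ 4 * κ⁻¹ * (2 / 2 ^ k0) := by gcongr
    _ = 8 * κ⁻¹ / 2 ^ k0 := by ring
    _ ≤ r / 2 ^ k0 := by
        gcongr
        linarith

/-- **neighbours of class (1) do not meet the blocks** -/
theorem nb1_off (ha : ‖a‖ ≤ σ / 8) {k i : h.ιT a} (hk : Cl1 h 4 a k) (hki : Tch h a k i) (j : J) :
    Disjoint (P ((h.T a).H i)) ((Qb j).tr a).N := by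
  rw [Set.disjoint_left]
  intro y hy hyN
  have hN : ¬ P ((h.T a).H i) ⊆ ((Qb j).tr a).N := by
    rw [← Bk_eq h ha j]
    exact nb1 h ha hk hki j
  obtain ⟨y0, h0, h0'⟩ := hki
  obtain ⟨-, z, hz, -, h1, -⟩ := near_wall_outT h ha hN ⟨y, hy, hyN⟩ h0'
  have hz' : z ∈ frontier (Bj h a j).N := by
    show z ∈ frontier (h.M.Bk (fun _ => h.cl a) j).N
    rw [Bk_eq h ha j]
    exact hz
  have h2 := hk.2 j y0 h0 z hz'
  rw [← dist_eq_norm] at h1
  have h3 : (1:ℝ) / 2 ^ k0 ≤ 4 / 2 ^ k0 := by gcongr; norm_num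
  linarith

end

/-- the core with one more layer -/
def Zc (Q : CB R3 3) : Set R3 :=
  Q.ψ ⁻¹' Icc (fun l => Q.a' l + (Q.S.lo l - 1) / 2 ^ Q.kc) (fun l => Q.a' l + (Q.S.hi l + 1) / 2 ^ Q.kc)

theorem isClosed_Zc (Q : CB R3 3) : IsClosed (Zc Q) := isClosed_Icc.preimage Q.ψ.continuous

theorem coord_le {Q : CB R3 3} {v : R3} (hv : ‖Q.ψ v‖ ≤ 1 / 2 ^ Q.kc) (l : Fin 3) :
    |Q.ψ v l| ≤ 1 / 2 ^ Q.kc :=
  ((Real.norm_eq_abs _).symm.le.trans (norm_le_pi_norm _ l)).trans hv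

theorem Kc_sub_Zc {Q : CB R3 3} {v : R3} (hv : ‖Q.ψ v‖ ≤ 1 / 2 ^ Q.kc) : (Q.tr v).Kc ⊆ Zc Q := by
  intro y hy
  rw [CB.mem_Kc_tr, Ksh_372.Kc_eq, mem_preimage, map_sub] at hy
  rw [Zc, mem_preimage]
  constructor
  · intro l
    have h3 := hy.1 l
    have h4 := abs_le.1 (coord_le hv l)
    simp only [Pi.sub_apply] at h3
    simp only [sub_div]
    linarith [h4.1]
  · intro l
    have h3 := hy.2 l
    have h4 := abs_le.1 (coord_le hv l)
    simp only [Pi.sub_apply] at h3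
    simp only [add_div]
    linarith [h4.2]

theorem Zc_sub_N {Q : CB R3 3} {v : R3} (hv : ‖Q.ψ v‖ ≤ 1 / 2 ^ Q.kc) : Zc Q ⊆ (Q.tr v).N := by
  intro y hy
  have hp : (0:ℝ) < 2 ^ Q.kc := by positivity
  have hw : (10:ℝ) ≤ Q.w := by
    have h1 := Q.hw
    have h2 := Q.S.t0
    have : (10 : ℤ) ≤ Q.w := by omega
    exact_mod_cast this
  have hw' : 2 / 2 ^ Q.kc ≤ (Q.w:ℝ) / 2 ^ Q.kc := by gcongr; linarith
  have e2 : (2:ℝ) / 2 ^ Q.kc = 1 / 2 ^ Q.kc + 1 / 2 ^ Q.kc := by ring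
  rw [CB.mem_N_tr, Vly_186.N_eq, mem_preimage, map_sub]
  rw [Zc, mem_preimage] at hy
  constructor
  · intro l
    have h3 := hy.1 l
    have h4 := abs_le.1 (coord_le hv l)
    have e : (Q.al l : ℝ) = Q.S.lo l - Q.w := by simp [CB.al]
    simp only [Pi.sub_apply]
    simp only [e, sub_div] at h3 ⊢
    linarith [h4.2]
  · intro l
    have h3 := hy.2 l
    have h4 := abs_le.1 (coord_le hv l)
    have e : (Q.be l : ℝ) = Q.S.hi l + Q.w := by simp [CB.be]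
    simp only [Pi.sub_apply]
    simp only [e, add_div] at h3 ⊢
    linarith [h4.1]

/-- the deterministic set of class (1) -/
def E1 (Om : Set R3) (Qb : J → CB R3 3) : Set R3 := Om \ ⋃ j, Zc (Qb j)

theorem meas_E1 (hOm : IsOpen Om) : MeasurableSet (E1 Om Qb) :=
  hOm.measurableSet.diff (isClosed_iUnion_of_finite fun j => isClosed_Zc (Qb j)).measurableSet

theorem E1_sub_Kc {a : R3} (hv : ∀ j, ‖(Qb j).ψ a‖ ≤ 1 / 2 ^ (Qb j).kc) (JQ : Set J) :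
    E1 Om Qb ⊆ Om \ ⋃ j ∈ JQ, ((Qb j).tr a).Kc := by
  rintro y ⟨hy, hy'⟩
  refine ⟨hy, fun hc => hy' ?_⟩
  obtain ⟨j, -, hj⟩ := mem_iUnion₂.1 hc
  exact mem_iUnion.2 ⟨j, Kc_sub_Zc (hv j) hj⟩

theorem nb1_E1 (h : MIn Om W ρ₀ Qb k0 σ) {a : R3} (ha : ‖a‖ ≤ σ / 8)
    (hv : ∀ j, ‖(Qb j).ψ a‖ ≤ 1 / 2 ^ (Qb j).kc) {k i : h.ιT a} (hk : Cl1 h 4 a k)
    (hki : Tch h a k i) : P ((h.T a).H i) ⊆ E1 Om Qb := by
  intro y hy
  refine ⟨(h.T a).sub i hy, fun hc => ?_⟩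
  obtain ⟨j, hj⟩ := mem_iUnion.1 hc
  exact Set.disjoint_left.1 (nb1_off h ha hk hki j) hy (Zc_sub_N (hv j) hj)

end Crest.Agent.R096.Elc_812
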