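import Mathlib
import Crest.Agent.R096.Eog1_922
import Crest.Agent.R096.Mal5_874
import Crest.Agent.R096.Ls4_222
import Crest.Agent.R096.Mal15_874

-- ▼ part R096/Eog2_922

set_option autoImplicit false
set_option linter.unusedSectionVars false

open Set

namespace Crest.Agent.R096.Eog_922

open Crest.Agent.R096.Msh_715 Crest.Agent.R096.Msh_810
open Crest.Agent.R096.Mal_874 (cfg shpT simL shpT_finite)
open Crest.Agent.R096.Ls_222 (Edg ea ev eIn mem_eIn sgm_edg)
open Crest.Agent.R96.Sg1_199 (sgm)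

noncomputable section

variable {E : Type*} [NormedAddCommGroup E] [NormedSpace ℝ E] {n : ℕ}
  {Om Om' : Set E} {ι ι' : Type*}

/-! ### the directions of a cell are determined by the closed cell -/

theorem V_eq_span (T : Tiling Om ι) {x : E} (hx : x ∈ Om) :
    T.V x = Submodule.span ℝ {v : E | ∃ y ∈ T.cc x, ∃ z ∈ T.cc x, v = y - z} := by
  apply le_antisymm
  · intro v hv
    obtain ⟨r, hr, hb⟩ := T.exists_ball_oc hx
    have hv0 := norm_nonneg v
    set s : ℝ := r / (2 * (‖v‖ + 1)) with hs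
    have hs0 : 0 < s := by positivity
    have hsm : ‖s • v‖ < r := by
      rw [norm_smul, Real.norm_eq_abs, abs_of_pos hs0, hs, div_mul_eq_mul_div,
        div_lt_iff₀ (by positivity)]
      nlinarith
    have h1 := T.oc_sub_cc x (hb (s • v) ((T.V x).smul_mem s hv) hsm)
    have h2 : s • v ∈ Submodule.span ℝ {v : E | ∃ y ∈ T.cc x, ∃ z ∈ T.cc x, v = y - z} :=
      Submodule.subset_span ⟨x + s • v, h1, x, T.self_mem_cc x, by rw [add_sub_cancel_left]⟩
    have h3 := Submodule.smul_mem _ s⁻¹ h2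
    rwa [inv_smul_smul₀ hs0.ne'] at h3
  · rw [Submodule.span_le]
    rintro _ ⟨y, hy, z, hz, rfl⟩
    exact T.sub_mem_V' hy hz

theorem dim_eq_of_cc_eq (T : Tiling Om ι) (T' : Tiling Om' ι') {x y : E} (hx : x ∈ Om)
    (hy : y ∈ Om') (h : T.cc x = T'.cc y) : T.dim x = T'.dim y := by
  unfold Tiling.dim
  rw [V_eq_span T hx, V_eq_span T' hy, h]

/-! ### the half grid -/




variable {φ : E ≃L[ℝ] (Fin n → ℝ)}





variable {D : Dat n}




/-! ### [NC] number and diameter of the cells of a tile -/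





end

end Crest.Agent.R096.Eog_922
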