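import Crest.Agent.R096.Br12_695
import Crest.Agent.R096.Enx1_766
import Crest.Agent.R096.Np2_962
import Crest.Agent.R096.Mdd13_360
import Crest.Agent.R096.Exg1_766
import Crest.Agent.R096.Fnn2_635
import Crest.Agent.R096.Mdd8_360
import Crest.Agent.R096.Wd19_120
import Crest.Agent.R096.Bmd5_798
import Crest.Agent.R096.Pgb1_120
import Crest.Agent.R096.Wd20_120
import Crest.Agent.R096.Mdd9_360
import Crest.Agent.R096.Mon1_664
import Crest.Agent.R096.Pgn6_112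
import Crest.Agent.R096.Eau5_365
import Crest.Agent.R096.Pmc6_112
import Crest.Agent.R096.Bxc2_635
import Crest.Agent.R096.Pmc4_112
import Crest.Agent.R096.Eau2_365

-- ▼ part R096/Br13_695
section

/-!
Row 96 (S0127), helper695.  **`BFk p` for `p ≤ 2`**: `PreIN` + `EA0` at fixed constants.
-/

set_option autoImplicit false
set_option linter.unusedSectionVars false
set_option linter.unusedVariables false
set_option linter.style.longLine false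

open MeasureTheory Set Filter Metric Module
open scoped ENNReal NNReal Topology

namespace Crest.Agent.R096.Br_695

open Crest.AnalysisR.VecCalc3 Crest.AnalysisR.Sobolev
open Crest.Agent.R96.Lu_538 Crest.Agent.R96.Intr_538
open Crest.Agent.R96.Coarse_538 hiding E3
open Crest.Agent.R096.Sk_962 (SH Gr)
open Crest.Agent.R096.Sk4_663 (Zd BFs lintegral_of_memLp)
open Crest.Agent.R096.Bsp_628
open Crest.Agent.R096.Bxs_627 hiding E3
open Crest.Agent.R96.En10_199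
open Crest.Agent.R096.SkC1_961 (E3 Hom3)
open Crest.Agent.R096.Er_594
open Crest.Agent.R096.EaX_766 (cbx lin Kor)
open Crest.Agent.R096.Brk5_582 (Cmp)
open Crest.Agent.R096.Msh_715 Crest.Agent.R096.Mal_874
open Crest.Agent.R096.Pin_753 (Bk InP BlkP PreIN)
open Crest.Agent.R096.Ea0_961 (InS Blk EA0)
open Crest.Agent.R096.Tmap_212 (mp)
open Crest.Agent.R096.Fns_360 (trA trA_apply trA_linear trA_sub)
open Crest.Agent.R096.Ins_685 (L3 L3_apply lin_close lin_trA norm_lin_le low_lin)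
open Crest.Agent.R096.Fil_313 (cel_preimage aff3 aff3_image)
open Crest.Agent.R096.ThC6_766 (Scale)
open Crest.Agent.R096.Str_696 (LocPL)

noncomputable section

section

variable {La : Set R3} {F : Set (Bx (Fin 3))} {κ κ' κt s t τ hh c1 θ θ1 ka lam B : ℝ}
    {Bs M Nn k0 : ℕ} {a₀ : R3} {Q₀ : Finset (Fin 3 → ℤ)} {b : (Fin 3 → ℤ) → R3}
    {L : (Fin 3 → ℤ) → R3 →L[ℝ] R3} {X₀ : Set F} {kk : F → Fin 3 → ℤ} {Q : F → CB E3 3}
    {A : F → E3 ≃ᵃ[ℝ] E3} {hk : ∀ c, (Q c).kc ≤ k0}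
    (H : Fam La F κ κ' κt s t τ hh c1 θ θ1 ka lam B Bs M Nn k0 a₀ Q₀ b L X₀ kk Q A hk)

include H

/-- the positions after `PreIN` -/
theorem Fam.exists_v (a3 : E3) :
    ∃ v : F → E3, ∀ c ∈ X₀, ‖(Q c).ψ (v c)‖ ≤ 1 / (20 * 2 ^ k0) ∧
      Blk F lam B (1 / 4) κt Bs M Nn c (trA (A c) (a3 + v c)) lam ((Q c).tr (a3 + v c)) k0
        (hk c) := by
  classical
  have h : ∀ c : F, ∃ v : E3, c ∈ X₀ → ‖(Q c).ψ v‖ ≤ 1 / (20 * 2 ^ k0) ∧
      Blk F lam B (1 / 4) κt Bs M Nn c (trA (A c) (a3 + v)) lam ((Q c).tr (a3 + v)) k0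
        (hk c) := by
    intro c
    by_cases hc : c ∈ X₀
    · obtain ⟨v, hv⟩ := H.blk c hc a3
      exact ⟨v, fun _ => hv⟩
    · exact ⟨0, fun h => absurd h hc⟩
  choose v hv using h
  exact ⟨v, hv⟩

set_option maxHeartbeats 1000000 in
/-- **the end**: `EA0` for the output of `PreIN` -/
theorem Fam.finish {p : ℝ} (hp1 : 1 ≤ p) (hp2 : p ≤ 3) {Om : Set R3} {f f₂ : R3 → R3}
    {G G₂ : Fin 3 → R3 → R3} (hO : IsOpen Om) (hOb : Bornology.IsBounded Om)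
    (hOc : IsConnected Om) (hL : IsOpen La) (hLbd : Bornology.IsBounded La) (hLc : IsConnected La)
    (hS : SH p Om La f G) (hS₂ : SH p Om La f₂ G₂) (BF : BoxFoam (P3 ⁻¹' La) F δf 3)
    (hcmp : Cmp F 6) {w : E3 → ℝ} (hw : Scale (P3 ⁻¹' La) w)
    (hsz : ∀ C ∈ F, ∀ x ∈ C.set, C.sz ≤ w x) (hszt : ∀ C ∈ F, C.sz ≤ t) {η : R3 → ℝ} {C Cp CA : ℝ≥0}
    (hwη : ∀ x ∈ Om, 4 * (C * w (P3.symm (f x))) ≤ η x / 2)
    (hd : ∀ x ∈ Om, ‖f₂ x - f x‖ ≤ min (η x / 4) (w (P3.symm (f x))))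
    {q κ1 κwE : ℝ} (hq0 : 0 < q)
    (HE : EA0t p δf 3 6 (1 / 4) (1 / 4) B Bs C q lam κ1 M κwE Nn CA κt)
    -- PreIN
    {Qs : Finset (Fin 3 → ℤ)} (hQs : Qs ⊆ Q₀) {δP : ℝ}
    (hcard : ((Q₀ \ Qs).card : ℝ) * (2 * s) ^ 3 ≤ δP) {C1 κw : ℝ} {a : R3} (ha : ‖a‖ ≤ κw * s)
    (hcl : ∀ k ∈ Qs, ∀ x ∈ cel Cb (vt (2 * s) a₀ k) ((1 - τ) * s),
      ‖f₂ x - Bk (b k) (L k) (vt (2 * s) a₀ k) x‖ ≤ C1 * hh * s)
    {er : X₀ → ℝ≥0∞} (hIn : ∀ j : X₀, kk j.1 ∈ Qs → InP p f₂ (Gmat G₂) C1 κw s (b (kk j.1))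
      (L (kk j.1)) (vt (2 * s) a₀ (kk j.1)) (er j) ((mp P3 (Q j.1)).tr a) k0 (hk j.1)) {eP : ℝ}
    (her : (∑' j : {j : X₀ // kk j.1 ∈ Qs}, er j) ≤ ENNReal.ofReal eP)
    (hLy : (∑' j : {j : X₀ // kk j.1 ∈ Qs}, ∫⁻ x in Pin_753.Ly ((mp P3 (Q j.1.1)).tr a) k0,
      (1 + En p G₂ x)) ≤ ENNReal.ofReal eP)
    (hout : (∫⁻ x in Om \ ⋃ j ∈ {j : X₀ | kk j.1 ∈ Qs}, ((mp P3 (Q j.1)).tr a).N,
        (1 + En p G₂ x)) ≤
      Cp * (∫⁻ x in Om \ ⋃ j ∈ {j : X₀ | kk j.1 ∈ Qs}, ((mp P3 (Q j.1)).tr a).Kc,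
        (1 + En p G x)) + ENNReal.ofReal eP)
    -- the good cubes
    (hLb : ∀ k ∈ Q₀, (∀ v, κ * ‖v‖ ≤ ‖L k v‖) ∧ ‖L k‖ ≤ κ⁻¹)
    (hcel : ∀ k ∈ Q₀, cel Cb (vt (2 * s) a₀ k) s ⊆ Om) (hpar : ∀ k ∈ Q₀, par Cb (L k) (b k) s ⊆ La)
    {ε1 e1P : ℝ} (hε1 : 0 ≤ ε1) (he1P : 0 ≤ e1P)
    (hen : (∑ k ∈ Q₀, ∫⁻ x in cel Cb (vt (2 * s) a₀ k) s, ‖Gmat G x - L k‖ₑ ^ p) ≤
      ENNReal.ofReal e1P)
    (hvol : volume ((Om ∩ {x | (Gmat G x).det ≠ 0}) \ ⋃ k ∈ Q₀, cel Cb (vt (2 * s) a₀ k) s) ≤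
      ENNReal.ofReal ε1)
    -- blocks
    {c2 : ℝ} (hdist : ∀ c ∈ X₀, ∀ c' ∈ X₀, c ≠ c' → ∀ x ∈ (mp P3 (Q c)).N,
      ∀ y ∈ (mp P3 (Q c')).N, c2 * s ≤ dist x y)
    -- numbers
    (hκ : 0 < κ) (hκ1 : κ ≤ 1) (hs : 0 < s) (hτ : 0 < τ) (hτ8 : τ ≤ 1 / 8) (ht0 : 0 < t)
    (hlam : 1 / 2 ≤ lam) (hlam1 : lam < 1) (hM : 0 < M) (hB : 0 ≤ B) (hκw : 0 ≤ κw)
    (hC1 : 0 ≤ C1) (hc1 : 0 < c1) (hθ0 : 0 ≤ θ)
    (hhh : C1 * hh ≤ κ * τ) (hroom : κw + θ / κ ≤ τ / 2) (hka0 : 0 ≤ ka)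
    {kb : ℝ} (hkb : ka + 3 * κ⁻¹ * (κw + θ / (5 * κ)) ≤ kb) (hkb1 : kb ≤ κ * τ / 16)
    (hκwE : 0 ≤ κwE) (hκ10 : 0 ≤ κ1) {tb : ℝ} (ht : t = tb * s)
    (m1 : (κw + kb) * M ≤ κwE * (tb / 12)) (m2 : 2 * κw + 2 * kb ≤ κ / 4 * κwE)
    (m3 : C1 * hh + kb ≤ κ1 * (tb / 12)) (hθ : 4 * θ / (5 * κ) < c2)
    (hkb2 : 2 * (kb * s) ≤ (1 - lam) * (t / 18))
    {V r eac e : ℝ} (hV0 : 0 ≤ V) (hV : volume Om ≤ ENNReal.ofReal V) (hr : θ * V ≤ c1 * r)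
    (hac : ∀ T ⊆ Om, volume T ≤ ENNReal.ofReal r →
      ∫⁻ x in T, (1 + En p G x) ≤ ENNReal.ofReal eac)
    (hac0 : 0 ≤ eac) (hace : eac ≤ e) (heP : 0 ≤ eP)
    (n1 : 100 * (1 - lam) ≤ q) (n2 : (lam⁻¹ - 1) ^ p ≤ q)
    (n3 : 1000 * (C1 * κ⁻¹ ^ p * (100 * (1 - lam)) * V + eP) ≤ q)
    (n4 : CA * (2 ^ p * eP) ≤ q) (n5 : 2 ^ (p - 1) * (2 ^ p * e1P + (2 * ka) ^ p * V) ≤ q)
    (n6 : ε1 + δP + (12 * τ + 6 * κ⁻¹ * t / s + 6 * (1 - lam)) * V ≤ r)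
    (n7 : 3 * (2 ^ (p - 1) * (2 ^ (p - 1) * ((q * ((3 * κ⁻¹) ^ p * V) +
      C * ((1 + (3 * κ⁻¹) ^ p) * (q * V)) + C * q + q) + q * (3 * κ⁻¹) ^ p * V) + q)) ≤ e)
    (n8 : 3 * (C * (2 ^ p * (Cp * eac + 2 * eP)) + C * ((1 + (3 * κ⁻¹) ^ p) * (q * V)) + q +
      C * q + q * ((1 + (3 * κ⁻¹) ^ p) * V) + q) ≤ e) :
    ∃ (K : Set R3) (g : R3 → R3), IsHomeomorphOn g Om La ∧ LocPL g Om ∧
      (∀ x ∈ Om, ‖g x - f x‖ ≤ η x) ∧
      (∫⁻ x in K, ∑ j : Fin 3, ‖Gr g j x - G j x‖ₑ ^ p) ≤ ENNReal.ofReal e ∧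
      (∫⁻ x in Om \ K, En p (Gr g) x) ≤
        ((3 * C * 2 ^ p * Cp : ℝ≥0) : ℝ≥0∞) * (∫⁻ x in Om \ K, (1 + En p G x)) +
          ENNReal.ofReal e ∧
      (∫⁻ x in (Om \ Zd G) \ K, (1 + En p G x)) ≤ ENNReal.ofReal e := by
  classical
  have hp0 : 0 ≤ p := by linarith
  have hp0' : 0 < p := by linarith
  have hτ4 : τ ≤ 1 / 4 := by linarith
  have hlam0 : 0 < lam := by linarith
  have hFc : Countable F := BF.countable.to_subtype
  set a3 : E3 := P3.symm a with ha3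
  obtain ⟨v, hvB⟩ := H.exists_v a3
  have hv : ∀ c ∈ X₀, ‖(Q c).ψ (v c)‖ ≤ 1 / (20 * 2 ^ k0) := fun c hc => (hvB c hc).1
  have hpk : (0:ℝ) < 2 ^ k0 := by positivity
  have hroom' : κw + θ / (5 * κ) ≤ τ / 2 := by
    have h1 : θ / (5 * κ) ≤ θ / κ := by
      rw [div_le_div_iff₀ (by positivity) hκ]
      nlinarith [mul_nonneg hθ0 hκ.le]
    linarith
  have hκi : 0 < κ⁻¹ := inv_pos.2 hκ
  have hkaκ : ka ≤ κ / 16 := by
    have h1 : 0 ≤ 3 * κ⁻¹ * (κw + θ / (5 * κ)) := by positivity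
    have h2 : κ * τ ≤ κ * 1 := mul_le_mul_of_nonneg_left (by linarith) hκ.le
    linarith
  set X : Set F := Xs X₀ kk Qs with hX
  have hXs : X ⊆ X₀ := fun c hc => hc.1
  set A' : F → E3 ≃ᵃ[ℝ] E3 := fun c => trA (A c) (a3 + v c) with hA'
  set Q' : F → CB E3 3 := fun c => (Q c).tr (a3 + v c) with hQ'
  set er' : F → ℝ≥0∞ := fun c => if h : c ∈ X₀ then
    1000 * (ENNReal.ofReal (C1 * ‖L (kk c)‖ ^ p) * volume ((Q c).N \ (Q c).Kc) + er ⟨c, h⟩)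
    else 0 with her'
  set lamf : F → ℝ := fun _ => lam with hlamf
  have hKor : ∀ c ∈ X₀, Kor F A' lamf c = (Q' c).Kc := fun c hc => ((hvB c hc).2.core).symm
  have hS3 := sh3_of hp1 hO hS₂
  obtain ⟨g, g1, g2, g3, g4, g5⟩ := HE (P3 ⁻¹' Om) (P3 ⁻¹' La) (e3 f₂) (D3 G₂) (isOpen_pre hO)
    (isBounded_pre hOb) (isConnected_pre hOc) (isOpen_pre hL) (isBounded_pre hLbd)
    (isConnected_pre hLc) hS3 lam hlam0 F BF hcmp
    (fun c hc => by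
      obtain ⟨S, h1, h2, h3, h4⟩ := star_of_scale hw BF hcmp hsz ⟨c, hc⟩
      exact ⟨S, h1, h2, h3, fun c' hc' h => h4 ⟨c', hc'⟩ h⟩)
    X A' lamf Q' (fun _ => k0) hk er' (fun c _ => ⟨by simp only [hlamf]; linarith, le_rfl⟩)
    (fun c hc => (hvB c hc.1).2)
    (fun c hc => by
      have h1 := H.insS hp0 hp2 hL (G₂ := G₂) hS₂.homeo BF.pos hκ hκ1 hs hτ hτ4 hLb hcel ha hc.1
        (hcl _ hc.2) (hIn ⟨c, hc.1⟩ hc.2) hlam0.le hlam1.le hM hB hκw hhh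
        (by linarith) hka0 hkb hkb1 hκwE hκ10 ht hlam m1 m2 m3 (hv c hc.1)
      have h2 : er' c = 1000 * (ENNReal.ofReal (C1 * ‖L (kk c)‖ ^ p) *
          volume ((Q c).N \ (Q c).Kc) + er ⟨c, hc.1⟩) := by
        simp only [her']
        rw [dif_pos hc.1]
      rw [h2]
      exact h1)
    (ENNReal.ofReal q) (ENNReal.ofReal_pos.2 hq0)
  -- the cores
  have hposv : ∀ c ∈ X₀, ‖a3 + v c‖ ≤ τ / 2 * s := fun c hc =>
    H.pos_le hκ ha hs hroom' hc (hv c hc)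
  have hNsub : ∀ c ∈ X₀, (Q' c).N ⊆ P3 ⁻¹' Om := fun c hc =>
    (H.N_Om hκ hs hτ hτ4 hcel hc (hposv c hc)).trans (preimage_mono (hcel _ (H.kkQ c hc)))
  have hKN : ∀ c, (Q' c).Kc ⊆ (Q' c).N := fun c => Msb_432.Kc_sub_N _
  have hKO : ∀ c ∈ X, Kor F A' lamf c ⊆ P3 ⁻¹' Om := fun c hc => by
    rw [hKor c hc.1]; exact (hKN c).trans (hNsub c hc.1)
  have hdisj : ∀ c ∈ X, ∀ c' ∈ X, c ≠ c' → Disjoint (Kor F A' lamf c) (Kor F A' lamf c') := by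
    intro c hc c' hc' hne
    rw [hKor c hc.1, hKor c' hc'.1]
    exact (H.disjN hκ hdist hs hθ (a3 := a3) hv hc.1 hc'.1 hne).mono (hKN c) (hKN c')
  have hsumK : ∑' c : X, volume (Q' c).Kc ≤ ENNReal.ofReal V :=
    (H.sum_vol hFc hκ hs hτ hτ4 hcel hdist hθ ha hroom' hv hXs).trans hV
  have hlin : ∀ c, lin (A' c) = lin (A c) := fun c => lin_trA _ _
  have hnrm : ∀ c ∈ X, ‖lin (A' c)‖ ≤ 3 * κ⁻¹ := fun c hc => by
    rw [hlin]; exact H.nrm hκ hs (by linarith) hLb hc.1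
  have hshell : ∀ c ∈ X₀, volume ((Q' c).N \ (Q' c).Kc) ≤
      ENNReal.ofReal (100 * (1 - lam)) * volume (Q' c).Kc := fun c hc =>
    Ers_685.shell_le (BF.pos _ c.2) (by linarith) hlam1.le (hvB c hc).2.core
      (fun x hx => ((hvB c hc).2.sub x hx).2)
  have hvolN : ∀ c ∈ X, volume ((Q' c).N \ Kor F A' lamf c) ≤
      ENNReal.ofReal q * volume (Kor F A' lamf c) := by
    intro c hc
    rw [hKor c hc.1]
    exact (hshell c hc.1).trans (mul_le_mul' (ENNReal.ofReal_le_ofReal n1) le_rfl)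
  -- layers
  have hLy' : (∑' c : X, ∫⁻ x in Pin_753.Ly ((mp P3 (Q c)).tr a) k0, (1 + En p G₂ x)) ≤
      ENNReal.ofReal eP := by
    rw [← (exs X₀ kk Qs).tsum_eq] at hLy
    exact hLy
  have her2 : (∑' c : X, er ⟨c.1, c.2.1⟩) ≤ ENNReal.ofReal eP := by
    rw [← (exs X₀ kk Qs).tsum_eq] at her
    exact her
  have hlay := Ers_685.layers_le hp0' (G := G₂) (fun c : X => Q c) (fun _ => k0) a
    (fun c : X => v c) (fun c => by
      refine (hv _ c.2.1).trans ?_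
      rw [div_le_div_iff₀ (by positivity) hpk]
      nlinarith)
  have h2pr : (2:ℝ≥0∞) ^ p = ENNReal.ofReal (2 ^ p) := by
    rw [← ENNReal.ofReal_rpow_of_pos (by norm_num)]; norm_num
  have hs2 : CA * (∑' c : X, ∫⁻ x in Ea0_961.Ly (Q' c) k0, (1 + ‖D3 G₂ x‖ₑ ^ p)) ≤
      ENNReal.ofReal q := by
    calc _ ≤ CA * (2 ^ p * ENNReal.ofReal eP) := by
          gcongr
          exact hlay.trans (mul_le_mul' le_rfl hLy')
      _ = ENNReal.ofReal (CA * (2 ^ p * eP)) := by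
          rw [h2pr, ← ENNReal.ofReal_mul (by positivity), ENNReal.ofReal_mul (NNReal.coe_nonneg CA),
            ENNReal.ofReal_coe_nnreal]
      _ ≤ _ := ENNReal.ofReal_le_ofReal n4
  -- errors
  have hs3 : ∑' c : X, er' c ≤ ENNReal.ofReal q := by
    have h1 : ∀ c : X, er' c = 1000 * (ENNReal.ofReal (C1 * ‖L (kk c)‖ ^ p) *
        volume ((Q c).N \ (Q c).Kc) + er ⟨c.1, c.2.1⟩) := by
      intro c
      simp only [her']
      rw [dif_pos c.2.1]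
    have hvtr : ∀ c, volume ((Q' c).N \ (Q' c).Kc) = volume ((Q c).N \ (Q c).Kc) := by
      intro c
      have e : (Q' c).N \ (Q' c).Kc = (fun y => y + (-(a3 + v c))) ⁻¹' ((Q c).N \ (Q c).Kc) := by
        ext y
        rw [Set.mem_sdiff, mem_preimage, Set.mem_sdiff, hQ', CB.mem_N_tr, CB.mem_Kc_tr,
          sub_eq_add_neg]
      rw [e, measure_preimage_add_right]
    calc ∑' c : X, er' c = ∑' c : X, 1000 * (ENNReal.ofReal (C1 * ‖L (kk c)‖ ^ p) *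
          volume ((Q c).N \ (Q c).Kc) + er ⟨c.1, c.2.1⟩) := tsum_congr h1
      _ ≤ ENNReal.ofReal (1000 * (C1 * κ⁻¹ ^ p * (100 * (1 - lam)) * V + eP)) :=
          Ers_685.er_sum hp0 (nL := fun c : X => ‖L (kk c)‖) hκ hC1 (fun _ => norm_nonneg _)
            (fun c => (hLb _ (H.kkQ _ c.2.1)).2) (S := fun c : X => (Q c).N \ (Q c).Kc)
            (K := fun c : X => (Q' c).Kc) (by linarith) hV0 heP
            (fun c => by rw [← hvtr]; exact hshell _ c.2.1) hsumK her2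
      _ ≤ _ := ENNReal.ofReal_le_ofReal n3
  -- outside
  have hUN : ⋃ c ∈ X, (Q' c).N = ⋃ c : X, (Q' c).N := biUnion_eq_iUnion _ _
  have hUK : ⋃ c ∈ X, Kor F A' lamf c = ⋃ c : X, (Q' c).Kc := by
    rw [biUnion_eq_iUnion]
    exact iUnion_congr fun c => hKor _ c.2.1
  have hout2 := Ers_685.outside_le hp0' (Om := Om) (G := G₂) (fun c : X => Q c) (fun _ => k0) a
    (fun c : X => v c) (fun c => by
      refine (hv _ c.2.1).trans ?_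
      rw [div_le_div_iff₀ (by positivity) hpk]
      nlinarith)
  have hswap := H.swap (G := G) hFc hκ hs hτ hc1 hτ4 hcel hdist hθ ha hroom' hv hXs hV0 hV hr hac
  rw [iUnion_xs X₀ kk Qs (fun c => ((mp P3 (Q c)).tr a).N),
    iUnion_xs X₀ kk Qs (fun c => ((mp P3 (Q c)).tr a).Kc)] at hout
  have hKR : ⋃ c : X, P3.symm ⁻¹' (Q' c).Kc = P3.symm ⁻¹' ⋃ c ∈ X, Kor F A' lamf c := by
    rw [hUK, preimage_iUnion]
  have houtF : (∫⁻ x in P3 ⁻¹' Om \ ⋃ c ∈ X, (Q' c).N, (1 + ‖D3 G₂ x‖ₑ ^ p)) ≤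
      2 ^ p * (Cp * ∫⁻ x in Om \ P3.symm ⁻¹' ⋃ c ∈ X, Kor F A' lamf c, (1 + En p G x)) +
        ENNReal.ofReal (2 ^ p * (Cp * eac + 2 * eP)) := by
    rw [hUN, ← hKR]
    have hCpr : (Cp : ℝ≥0∞) = ENNReal.ofReal (Cp : ℝ) := by rw [ENNReal.ofReal_coe_nnreal]
    calc _ ≤ 2 ^ p * (∫⁻ x in Om \ ⋃ c : X, ((mp P3 (Q c)).tr a).N, (1 + En p G₂ x)) +
          2 ^ p * ∑' c : X, ∫⁻ x in Pin_753.Ly ((mp P3 (Q c)).tr a) k0, (1 + En p G₂ x) := hout2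
      _ ≤ 2 ^ p * (Cp * ((∫⁻ x in Om \ ⋃ c : X, P3.symm ⁻¹' (Q' c).Kc, (1 + En p G x)) +
            ENNReal.ofReal eac) + ENNReal.ofReal eP) + 2 ^ p * ENNReal.ofReal eP := by
          gcongr
          exact hout.trans (add_le_add (mul_le_mul' le_rfl hswap) le_rfl)
      _ = 2 ^ p * (Cp * ∫⁻ x in Om \ ⋃ c : X, P3.symm ⁻¹' (Q' c).Kc, (1 + En p G x)) +
            2 ^ p * (Cp * ENNReal.ofReal eac + 2 * ENNReal.ofReal eP) := by ring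
      _ = _ := by
          congr 1
          rw [h2pr, hCpr, ← ENNReal.ofReal_mul (by positivity),
            show (2:ℝ≥0∞) = ENNReal.ofReal 2 by norm_num, ← ENNReal.ofReal_mul (by norm_num),
            ← ENNReal.ofReal_add (by positivity) (by positivity),
            ← ENNReal.ofReal_mul (by positivity)]
  -- near
  have hnear : ∑' c : X, ∫⁻ x in Kor F A' lamf c, ‖D3 G x - lin (A' c)‖ₑ ^ p ≤
      ENNReal.ofReal q := by
    have h1 := H.near (G := G) hp1 hFc hκ hs hτ hτ4 hLb hcel hdist hθ ha hroom' hv hXs he1P hV0 hV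
      hka0 hen
    refine le_trans (le_of_eq (tsum_congr fun c => ?_)) (h1.trans (ENNReal.ofReal_le_ofReal n5))
    rw [hKor _ c.2.1]
  have hN0 : 0 ≤ 3 * κ⁻¹ := by positivity
  have hln : 0 ≤ (lam⁻¹ - 1) := by
    have := (one_le_inv₀ hlam0).2 hlam1.le
    linarith
  have hfin := fin_bfk hp1 hO hS hFc (A := A') hlam0 hlam1.le hN0 hnrm hKO hdisj
    (NQ := fun c => (Q' c).N) (Ly := fun c => Ea0_961.Ly (Q' c) k0) (er := er') (C := C) (Cp := Cp)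
    (CA := CA) (e1 := q) (e := e) (m := q) (V := V) (s2 := q) (s3 := q) (h := q)
    (e2 := 2 ^ p * (Cp * eac + 2 * eP)) (e3 := q) (G₂ := G₂) hV0 hV hq0.le hq0.le hq0.le hq0.le
    hq0.le (by positivity) hq0.le g2 g4 g5 hvolN hs2 hs3 houtF hnear (by
      refine le_trans ?_ n7
      gcongr) n8
  refine ⟨P3.symm ⁻¹' ⋃ c ∈ X, Kor F A' lamf c, r3 g, homeo_of g1, locPL_r3 g2,
    Dsp_685.disp hw BF hsz hwη hS₂.homeo hd g3, hfin.1, hfin.2, ?_⟩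
  have hsub : (Om \ Zd G) \ P3.symm ⁻¹' (⋃ c ∈ X, Kor F A' lamf c) ⊆
      (Om ∩ {x | (Gmat G x).det ≠ 0}) \ P3.symm ⁻¹' (⋃ c ∈ X, Kor F A' lamf c) := by
    rintro x ⟨⟨h1, h2⟩, h3⟩
    exact ⟨⟨h1, h2⟩, h3⟩
  have hvv := H.vol hO BF hκ hκ1 hs hτ hτ8 ht0 hLb hcel hpar hszt hQs ha hv hkaκ hkb hlam0 hlam1
    hkb2 hlam hcard hε1 hvol hV0 hV
  refine (hac _ (fun x hx => hx.1.1) ((measure_mono hsub).trans (hvv.trans ?_))).trans
    (ENNReal.ofReal_le_ofReal hace)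
  exact ENNReal.ofReal_le_ofReal n6

end

end

end Crest.Agent.R096.Br_695
end

-- ▼ part R096/Br14_695
section

/-!
Row 96 (S0127), helper695.  **`r12`**: `EA0 p → PreIN p → BFk p`, `1 ≤ p < 3`.
-/

set_option autoImplicit false
set_option linter.unusedSectionVars false
set_option linter.unusedVariables false
set_option linter.style.longLine false

open MeasureTheory Set Filter Metric Module
open scoped ENNReal NNReal Topology

namespace Crest.Agent.R096.Br_695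

open Crest.AnalysisR.VecCalc3 Crest.AnalysisR.Sobolev
open Crest.Agent.R96.Lu_538 Crest.Agent.R96.Intr_538
open Crest.Agent.R96.Coarse_538 hiding E3
open Crest.Agent.R096.Sk_962 (SH Gr)
open Crest.Agent.R096.Sk4_663 (Zd BFs lintegral_of_memLp)
open Crest.Agent.R096.Bsp_628
open Crest.Agent.R096.Bxs_627 hiding E3
open Crest.Agent.R96.En10_199
open Crest.Agent.R096.SkC1_961 (E3 Hom3)
open Crest.Agent.R096.Er_594
open Crest.Agent.R096.EaX_766 (cbx lin Kor)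
open Crest.Agent.R096.Brk5_582 (Cmp)
open Crest.Agent.R096.Msh_715 Crest.Agent.R096.Mal_874
open Crest.Agent.R096.Pin_753 (Bk InP BlkP PreIN)
open Crest.Agent.R096.Ea0_961 (InS Blk EA0)
open Crest.Agent.R096.Tmap_212 (mp)
open Crest.Agent.R096.Fns_360 (trA trA_apply trA_linear trA_sub)
open Crest.Agent.R096.ThC6_766 (Scale)
open Crest.Agent.R096.Str_696 (LocPL)

noncomputable section

/-- numbers after `M` (`tb = κ τ / 2`) -/
theorem numW {p κ κ1 κwE τ q V M lam : ℝ} (hp : 1 ≤ p) (hκ : 0 < κ) (hκ1 : κ ≤ 1) (hκ10 : 0 < κ1)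
    (hκw : 0 < κwE) (hτ : 0 < τ) (hτ8 : τ ≤ 1 / 8) (hq : 0 < q) (hV : 0 ≤ V) (hM : 1 ≤ M)
    (hlam : 1 / 2 ≤ lam) (hlam1 : lam < 1) :
    ∃ kb κw kl e1P : ℝ, 0 < kb ∧ 0 < κw ∧ 0 < kl ∧ 0 < e1P ∧ kl < κ / 2 ∧
      kb ≤ κ * τ / 16 ∧ κw ≤ κ * kb / 12 ∧ kl ≤ kb / 4 ∧
      (κw + kb) * M ≤ κwE * (κ * τ / 2 / 12) ∧ 2 * κw + 2 * kb ≤ κ / 4 * κwE ∧
      kb ≤ κ1 * (κ * τ / 2 / 12) / 2 ∧ kb ≤ (1 - lam) * (κ * τ / 2) / 144 ∧
      2 * kb ≤ (1 - lam) * (κ * τ / 2 / 18) ∧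
      2 ^ (p - 1) * (2 ^ p * e1P + kb ^ p * V) ≤ q := by
  have hl : 0 < 1 - lam := by linarith
  set tb : ℝ := κ * τ / 2 with htb
  have htb0 : 0 < tb := by positivity
  set x1 : ℝ := κ * τ / 16 with hx1
  set x2 : ℝ := κwE * (tb / 24) / M with hx2
  set x3 : ℝ := κ * κwE / 16 with hx3
  set x4 : ℝ := κ1 * (tb / 12) / 2 with hx4
  set x5 : ℝ := (1 - lam) * tb / 144 with hx5
  set x6 : ℝ := q / (2 ^ p * (V + 1)) with hx6
  have h2p : 0 < (2:ℝ) ^ p := by positivity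
  set kb : ℝ := min x1 (min x2 (min x3 (min x4 (min x5 x6)))) with hkb
  have hkb0 : 0 < kb := by positivity
  have k1 : kb ≤ x1 := min_le_left _ _
  have k2 : kb ≤ x2 := (min_le_right _ _).trans (min_le_left _ _)
  have k3 : kb ≤ x3 := (min_le_right _ _).trans ((min_le_right _ _).trans (min_le_left _ _))
  have k4 : kb ≤ x4 := (min_le_right _ _).trans ((min_le_right _ _).trans
    ((min_le_right _ _).trans (min_le_left _ _)))
  have k5 : kb ≤ x5 := (min_le_right _ _).trans ((min_le_right _ _).trans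
    ((min_le_right _ _).trans ((min_le_right _ _).trans (min_le_left _ _))))
  have k6 : kb ≤ x6 := (min_le_right _ _).trans ((min_le_right _ _).trans
    ((min_le_right _ _).trans ((min_le_right _ _).trans (min_le_right _ _))))
  have hκτ : κ * τ ≤ κ * (1 / 8) := mul_le_mul_of_nonneg_left hτ8 hκ.le
  have hkb1 : kb ≤ 1 / 128 := by
    have : κ * (1 / 8) ≤ 1 / 8 := by linarith
    linarith
  have hkw : κ * kb / 12 ≤ kb := by nlinarith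
  have hkbκ : kb ≤ κ / 128 := by linarith
  refine ⟨kb, κ * kb / 12, kb / 4, q / (4 ^ p), hkb0, by positivity, by positivity, by positivity,
    by linarith, k1, le_rfl, le_rfl, ?_, ?_, ?_, k5, ?_, ?_⟩
  · rw [hx2, le_div_iff₀ (by linarith)] at k2
    have : κ * kb / 12 + kb ≤ 2 * kb := by linarith
    calc (κ * kb / 12 + kb) * M ≤ 2 * kb * M := mul_le_mul_of_nonneg_right this (by linarith)
      _ = 2 * (kb * M) := by ring
      _ ≤ 2 * (κwE * (tb / 24)) := by linarith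
      _ = κwE * (tb / 12) := by ring
  · have : κ / 4 * κwE = 4 * x3 := by rw [hx3]; ring
    rw [this]; linarith
  · exact k4
  · have e1 : (1 - lam) * (tb / 18) = 8 * x5 := by rw [hx5]; ring
    rw [e1]; linarith
  · have h4p : (4:ℝ) ^ p = 2 ^ p * 2 ^ p := by
      rw [← Real.mul_rpow (by norm_num) (by norm_num)]; norm_num
    have h2p1 : (2:ℝ) ^ (p - 1) * 2 = 2 ^ p := by
      rw [Real.rpow_sub_one (by norm_num)]; ring
    have h1 : kb ^ p ≤ kb := by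
      calc kb ^ p ≤ kb ^ (1:ℝ) :=
            Real.rpow_le_rpow_of_exponent_ge hkb0 (by linarith) hp
        _ = kb := Real.rpow_one _
    rw [hx6, le_div_iff₀ (by positivity)] at k6
    have h3 : kb ^ p * V ≤ kb * (V + 1) := by
      have := mul_le_mul_of_nonneg_right h1 hV
      nlinarith
    have h5 : 2 ^ p * (q / 4 ^ p) = q / 2 ^ p := by rw [h4p]; field_simp
    have h6 : 2 ^ p * (kb * (V + 1)) ≤ q := by linarith
    have h7 : (2:ℝ) ^ (p - 1) = 2 ^ p / 2 := by linarith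
    rw [h5, h7]
    have h8 : 2 ^ p / 2 * (q / 2 ^ p + kb ^ p * V) ≤ 2 ^ p / 2 * (q / 2 ^ p + kb * (V + 1)) := by
      gcongr
    have h9 : 2 ^ p / 2 * (q / 2 ^ p + kb * (V + 1)) = q / 2 + 2 ^ p * (kb * (V + 1)) / 2 := by
      field_simp
    linarith

/-- numbers after `CA`, `κt`, `θ0`: the wall scale -/
theorem numT {κ c1 c2 κt B kb τ θ0 r V : ℝ} (hκ : 0 < κ) (hc1 : 0 < c1) (hc2 : 0 < c2)
    (hκt : 0 < κt) (hB : 0 < B) (hkb : 0 < kb) (hτ : 0 < τ) (hθ0 : 0 < θ0) (hr : 0 < r)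
    (hV : 0 ≤ V) :
    ∃ θ : ℝ, 0 < θ ∧ θ ≤ θ0 ∧ θ ≤ c1 ∧ θ ≤ κt * c1 * B ∧ θ ≤ kb / 4 ∧
      3 * κ⁻¹ * (θ / (5 * κ)) ≤ kb / 4 ∧ θ / κ ≤ τ / 4 ∧ 4 * θ / (5 * κ) < c2 ∧ θ * V ≤ c1 * r := by
  set x : ℝ := min θ0 (min c1 (min (κt * c1 * B) (min (kb / 4) (min (5 * κ ^ 2 * kb / 12)
    (min (κ * τ / 4) (min (κ * c2) (c1 * r / (V + 1)))))))) with hx
  have hx0 : 0 < x := by positivity
  have k1 : x ≤ θ0 := min_le_left _ _
  have k2 : x ≤ c1 := (min_le_right _ _).trans (min_le_left _ _)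
  have k3 : x ≤ κt * c1 * B := (min_le_right _ _).trans ((min_le_right _ _).trans (min_le_left _ _))
  have k4 : x ≤ kb / 4 := (min_le_right _ _).trans ((min_le_right _ _).trans
    ((min_le_right _ _).trans (min_le_left _ _)))
  have k5 : x ≤ 5 * κ ^ 2 * kb / 12 := (min_le_right _ _).trans ((min_le_right _ _).trans
    ((min_le_right _ _).trans ((min_le_right _ _).trans (min_le_left _ _))))
  have k6 : x ≤ κ * τ / 4 := (min_le_right _ _).trans ((min_le_right _ _).trans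
    ((min_le_right _ _).trans ((min_le_right _ _).trans ((min_le_right _ _).trans
      (min_le_left _ _)))))
  have k7 : x ≤ κ * c2 := (min_le_right _ _).trans ((min_le_right _ _).trans
    ((min_le_right _ _).trans ((min_le_right _ _).trans ((min_le_right _ _).trans
      ((min_le_right _ _).trans (min_le_left _ _))))))
  have k8 : x ≤ c1 * r / (V + 1) := (min_le_right _ _).trans ((min_le_right _ _).trans
    ((min_le_right _ _).trans ((min_le_right _ _).trans ((min_le_right _ _).trans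
      ((min_le_right _ _).trans (min_le_right _ _))))))
  refine ⟨x, hx0, k1, k2, k3, k4, ?_, ?_, ?_, ?_⟩
  · have e1 : 3 * κ⁻¹ * (x / (5 * κ)) = 3 * x / (5 * κ ^ 2) := by field_simp
    rw [e1, div_le_iff₀ (by positivity)]
    nlinarith
  · rw [div_le_iff₀ hκ]
    linarith
  · rw [div_lt_iff₀ (by positivity)]
    nlinarith [mul_pos hκ hc2]
  · rw [le_div_iff₀ (by positivity)] at k8
    nlinarith

end

end Crest.Agent.R096.Br_695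
end

-- ▼ part R096/Br15_695
section

/-!
Row 96 (S0127), helper695.  **`r12`**, step at fixed constants and fixed scale `s`.
-/

set_option autoImplicit false
set_option linter.unusedSectionVars false
set_option linter.unusedVariables false
set_option linter.style.longLine false

open MeasureTheory Set Filter Metric Module
open scoped ENNReal NNReal Topology

namespace Crest.Agent.R096.Br_695

open Crest.AnalysisR.VecCalc3 Crest.AnalysisR.Sobolev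
open Crest.Agent.R96.Lu_538 Crest.Agent.R96.Intr_538
open Crest.Agent.R96.Coarse_538 hiding E3
open Crest.Agent.R096.Sk_962 (SH Gr)
open Crest.Agent.R096.Sk4_663 (Zd BFs lintegral_of_memLp)
open Crest.Agent.R096.Bsp_628
open Crest.Agent.R096.Bxs_627 hiding E3
open Crest.Agent.R96.En10_199
open Crest.Agent.R096.SkC1_961 (E3 Hom3)
open Crest.Agent.R096.Er_594
open Crest.Agent.R096.EaX_766 (cbx lin Kor)
open Crest.Agent.R096.Brk5_582 (Cmp)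
open Crest.Agent.R096.Msh_715 Crest.Agent.R096.Mal_874
open Crest.Agent.R096.Pin_753 (Bk InP BlkP PreIN)
open Crest.Agent.R096.Ea0_961 (InS Blk EA0)
open Crest.Agent.R096.Tmap_212 (mp)
open Crest.Agent.R096.Fns_360 (trA trA_apply trA_linear trA_sub)
open Crest.Agent.R096.ThC6_766 (Scale)
open Crest.Agent.R096.Str_696 (LocPL)

noncomputable section

/-- the tail of `PreIN p`, at the scale `s` -/
def PIt (p : ℝ) (Bs : ℕ) (C : ℝ≥0) (Om La : Set R3) (f : R3 → R3) (G : Fin 3 → R3 → R3)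
    (ε κ : ℝ) (K K' : Set R3) (C1 τ hh c1 c2 κw e : ℝ) (Nn : ℕ) (θ0 θ1 : ℝ) (η : R3 → ℝ)
    (e1 δ s : ℝ) (a₀ : R3) : Prop :=
  ∃ (Q₀ : Finset (Fin 3 → ℤ)) (b : (Fin 3 → ℤ) → R3) (L : (Fin 3 → ℤ) → R3 →L[ℝ] R3),
    (∀ k ∈ Q₀, (∀ v, κ * ‖v‖ ≤ ‖L k v‖) ∧ ‖L k‖ ≤ κ⁻¹) ∧
    (∀ k ∈ Q₀, cel Cb (vt (2 * s) a₀ k) s ⊆ K) ∧ (∀ k ∈ Q₀, par Cb (L k) (b k) s ⊆ K') ∧
    (∀ k ∈ Q₀, ∀ l ∈ Q₀, k ≠ l →
      Disjoint (par Cb (L k) (b k) ((1 - τ) * s)) (par Cb (L l) (b l) s)) ∧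
    (∑ k ∈ Q₀, ∫⁻ x in cel Cb (vt (2 * s) a₀ k) s, ‖Gmat G x - L k‖ₑ ^ p) ≤ ENNReal.ofReal e1 ∧
    volume ((Om ∩ {x | (Gmat G x).det ≠ 0}) \ ⋃ k ∈ Q₀, cel Cb (vt (2 * s) a₀ k) s) ≤
      ENNReal.ofReal ε ∧
  ∀ (J : Type) [Finite J] (kk : J → Fin 3 → ℤ) (Qb : J → CB R3 3) (k0 : ℕ)
    (hk : ∀ j, (Qb j).kc ≤ k0), (∀ j, kk j ∈ Q₀) →
    (∀ j, BlkP κ s τ hh c1 θ0 θ1 Bs Nn (vt (2 * s) a₀ (kk j)) (Qb j) k0) →
    (∀ i j, i ≠ j → ∀ x ∈ (Qb i).N, ∀ y ∈ (Qb j).N, c2 * s ≤ dist x y) →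
  ∃ a : R3, ‖a‖ ≤ κw * s ∧ ∃ Q ⊆ Q₀, ((Q₀ \ Q).card : ℝ) * (2 * s) ^ 3 ≤ δ ∧
  ∃ (f₂ : R3 → R3) (G₂ : Fin 3 → R3 → R3) (er : J → ℝ≥0∞), SH p Om La f₂ G₂ ∧
    (∀ x ∈ Om, ‖f₂ x - f x‖ ≤ η x) ∧
    (∀ k ∈ Q, ∀ x ∈ cel Cb (vt (2 * s) a₀ k) ((1 - τ) * s),
      ‖f₂ x - Bk (b k) (L k) (vt (2 * s) a₀ k) x‖ ≤ C1 * hh * s) ∧
    (∀ j, kk j ∈ Q → InP p f₂ (Gmat G₂) C1 κw s (b (kk j)) (L (kk j))
      (vt (2 * s) a₀ (kk j)) (er j) ((Qb j).tr a) k0 (hk j)) ∧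
    (∑' j : {j // kk j ∈ Q}, er j) ≤ ENNReal.ofReal e ∧
    (∑' j : {j // kk j ∈ Q}, ∫⁻ x in Pin_753.Ly ((Qb j).tr a) k0, (1 + En p G₂ x)) ≤
      ENNReal.ofReal e ∧
    (∫⁻ x in Om \ ⋃ j ∈ {j | kk j ∈ Q}, ((Qb j).tr a).N, (1 + En p G₂ x)) ≤
      C * (∫⁻ x in Om \ ⋃ j ∈ {j | kk j ∈ Q}, ((Qb j).tr a).Kc, (1 + En p G x)) + ENNReal.ofReal e

set_option maxHeartbeats 1000000 in
/-- **one scale** -/
theorem r3_step {p : ℝ} (hp1 : 1 ≤ p) (hp3 : p ≤ 3) {Om La : Set R3} {f : R3 → R3}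
    {G : Fin 3 → R3 → R3} (hO : IsOpen Om) (hOb : Bornology.IsBounded Om) (hOc : IsConnected Om)
    (hL : IsOpen La) (hLbd : Bornology.IsBounded La) (hLc : IsConnected La)
    (hS : SH p Om La f G) {w : E3 → ℝ} (hw : Scale (P3 ⁻¹' La) w) {η : R3 → ℝ} {C Cp CA : ℝ≥0}
    (hwη : ∀ x ∈ Om, 4 * (C * w (P3.symm (f x))) ≤ η x / 2)
    {Bs μ Nn : ℕ} (hBs1 : 1 ≤ Bs) (hBs2 : 4 * (12 * Mf) ^ 2 ≤ Bs) (hBs3 : 8 * (12 * Mf) ≤ Bs)
    {B q lam κ1 κwE κt : ℝ} (hq0 : 0 < q) (hB : B = 12 * Mf)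
    (HE : EA0t p δf 3 6 (1 / 4) (1 / 4) B Bs C q lam κ1 (2 ^ μ) κwE Nn CA κt)
    {ε1 κ : ℝ} {K K' : Set R3} (hK : K ⊆ Om) (hK' : K' ⊆ La) {C1 τ hh c1 c2 κw eP θ0 θ θ1 e1P δP s : ℝ}
    (HP : PIt p Bs Cp Om La f G ε1 κ K K' C1 τ hh c1 c2 κw eP Nn θ0 θ1
      (fun x => min (η x / 4) (w (P3.symm (f x)))) e1P δP s 0)
    {ρ0 : ℝ} (hρ : ∀ y ∈ P3 ⁻¹' K', ρ0 ≤ w y) {kl : ℝ}
    (hnet : ∀ L : R3 →L[ℝ] R3, (∀ v, κ * ‖v‖ ≤ ‖L v‖) → ‖L‖ ≤ κ⁻¹ →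
      ∀ u : ℝ, 1 / 2 ≤ u → u ≤ 1 →
      ∃ (ψ : E3 ≃L[ℝ] (Fin 3 → ℝ)), (∃ (d : ℕ) (Bm : Fin 3 → Fin 3 → ℤ), 0 < d ∧ d ≤ Nn ∧
        (∀ i j, |Bm i j| ≤ Nn) ∧ Rt (ContinuousLinearEquiv.refl ℝ E3) ψ Bm d) ∧
        ∀ v, ‖u • ψ v - Ins_685.L3 L v‖ ≤ kl * ‖v‖)
    {tb t κ' kb V r eac e : ℝ} (ht : t = tb * s) (htb0 : 0 < tb) (hst1 : t ≤ 1 / 4)
    (hst2 : t ≤ ρ0)
    {k0 : ℕ} (hk3 : 3 ≤ k0) (hk1 : θ1 * s ≤ 1 / 2 ^ k0) (hk2 : 1 / 2 ^ k0 ≤ θ * s)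
    (hκ : 0 < κ) (hκ1 : κ ≤ 1) (hs : 0 < s) (hτ : 0 < τ) (hτ8 : τ ≤ 1 / 8)
    (hlam : 1 / 2 ≤ lam) (hlam1 : lam < 1)
    (b1 : 2 * κ⁻¹ * t ≤ τ * s) (b2 : 11 ≤ 2 * κ' * 2 ^ μ) (b3 : 0 ≤ κ') (b4 : 2 * κ' ≤ 1 / 4)
    (b5 : (1 + 2 * κ') * lam ≤ (1 + lam) / 2) (b6 : 0 < kl)
    (b7 : kl + θ ≤ κ * τ / 16) (b8 : c1 * s * (12 * Mf * 2 ^ μ) ≤ t / 6)
    (b9 : t ≤ hh * s * (2 * 2 ^ μ)) (b10 : θ ≤ c1) (b11 : θ ≤ κt * c1 * (12 * Mf))
    (b12 : (kl + θ) * s ≤ (1 - lam) * t / 144) (b13 : c2 ≤ 2 * τ)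
    (b14 : c2 * s ≤ (1 - lam) * κ * t / 216) (b15 : θ ≤ θ0)
    (hκw : 0 ≤ κw) (hC1 : 0 ≤ C1) (hc1 : 0 < c1) (hθ0 : 0 < θ)
    (hhh : C1 * hh ≤ κ * τ) (hroom : κw + θ / κ ≤ τ / 2)
    (hkb : kl + θ + 3 * κ⁻¹ * (κw + θ / (5 * κ)) ≤ kb) (hkb1 : kb ≤ κ * τ / 16)
    (hκwE : 0 ≤ κwE) (hκ10 : 0 ≤ κ1)
    (m1 : (κw + kb) * ((2 ^ μ : ℕ) : ℝ) ≤ κwE * (tb / 12)) (m2 : 2 * κw + 2 * kb ≤ κ / 4 * κwE)
    (m3 : C1 * hh + kb ≤ κ1 * (tb / 12)) (hθ : 4 * θ / (5 * κ) < c2)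
    (hkb2 : 2 * (kb * s) ≤ (1 - lam) * (t / 18))
    (hV0 : 0 ≤ V) (hV : volume Om ≤ ENNReal.ofReal V) (hr : θ * V ≤ c1 * r)
    (hac : ∀ T ⊆ Om, volume T ≤ ENNReal.ofReal r →
      ∫⁻ x in T, (1 + En p G x) ≤ ENNReal.ofReal eac)
    (hac0 : 0 ≤ eac) (hace : eac ≤ e) (heP : 0 ≤ eP) (hε1 : 0 ≤ ε1) (he1P : 0 ≤ e1P)
    (n1 : 100 * (1 - lam) ≤ q) (n2 : (lam⁻¹ - 1) ^ p ≤ q)
    (n3 : 1000 * (C1 * κ⁻¹ ^ p * (100 * (1 - lam)) * V + eP) ≤ q)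
    (n4 : CA * (2 ^ p * eP) ≤ q) (n5 : 2 ^ (p - 1) * (2 ^ p * e1P + (2 * (kl + θ)) ^ p * V) ≤ q)
    (n6 : ε1 + δP + (12 * τ + 6 * κ⁻¹ * t / s + 6 * (1 - lam)) * V ≤ r)
    (n7 : 3 * (2 ^ (p - 1) * (2 ^ (p - 1) * ((q * ((3 * κ⁻¹) ^ p * V) +
      C * ((1 + (3 * κ⁻¹) ^ p) * (q * V)) + C * q + q) + q * (3 * κ⁻¹) ^ p * V) + q)) ≤ e)
    (n8 : 3 * (C * (2 ^ p * (Cp * eac + 2 * eP)) + C * ((1 + (3 * κ⁻¹) ^ p) * (q * V)) + q +
      C * q + q * ((1 + (3 * κ⁻¹) ^ p) * V) + q) ≤ e) :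
    ∃ (K : Set R3) (g : R3 → R3), IsHomeomorphOn g Om La ∧ LocPL g Om ∧
      (∀ x ∈ Om, ‖g x - f x‖ ≤ η x) ∧
      (∫⁻ x in K, ∑ j : Fin 3, ‖Gr g j x - G j x‖ₑ ^ p) ≤ ENNReal.ofReal e ∧
      (∫⁻ x in Om \ K, En p (Gr g) x) ≤
        ((3 * C * 2 ^ p * Cp : ℝ≥0) : ℝ≥0∞) * (∫⁻ x in Om \ K, (1 + En p G x)) +
          ENNReal.ofReal e ∧
      (∫⁻ x in (Om \ Zd G) \ K, (1 + En p G x)) ≤ ENNReal.ofReal e := by
  have hMf : 4 / dl (Fin 3) 3 ≤ Mf := le_max_left _ _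
  have hM2 : 2 ≤ Mf := le_max_right _ _
  have hMf0 : 0 < Mf := by linarith
  have ht0 : 0 < t := by rw [ht]; positivity
  have hB0 : 0 < B := by rw [hB]; positivity
  obtain ⟨F, BF, hcmp, hdy, hszF, hszF'⟩ := exists_foam_t
    (Crest.Agent.R096.Er_594.isBounded_pre hLbd) hw ht0 (by linarith) hMf hM2
  obtain ⟨Q₀, b, L, hLk, hQK, hQK', hpar, hen, hvol, HP4⟩ := HP
  have hsz : ∀ C ∈ F, ∀ x ∈ C.set, C.sz ≤ w x := fun C hC x hx =>
    (hszF C hC x hx).trans (min_le_right _ _)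
  have hszt : ∀ C ∈ F, C.sz ≤ t := fun C hC =>
    (hszF C hC _ (ctr_mem (BF.pos _ hC))).trans (min_le_left _ _)
  have hszb : ∀ k ∈ Q₀, ∀ C ∈ F, ∀ x ∈ C.set, x ∈ P3 ⁻¹' par Cb (L k) (b k) s →
      t ≤ 6 * C.sz := by
    intro k hk C hC x hx hxp
    have h1 := hszF' C hC x hx
    have h2 : x ∈ P3 ⁻¹' K' := hQK' k hk hxp
    have h3 := hρ x h2
    rwa [min_eq_left (hst2.trans h3)] at h1
  obtain ⟨X₀, kk, Q, A, hk, hfin, hX1, hX2, hX3, hX4, hX5⟩ :=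
    Blk_212.exists_fam (Md := Mf) (t := t) (hh := hh) (c1 := c1) (c2 := c2)
    (θ := θ) (θ1 := θ1) (kl := kl) (lam := lam) (κ' := κ') (κ2 := 1 / 4) (κt := κt) (Cc := B)
    (a₀ := (0:R3)) BF hL hcmp hMf0 hdy hBs1 hBs2 hBs3 μ hκ hκ1 hLk
    (fun k hk => (hQK' k hk).trans hK') hpar hs hτ hτ8 hszt hszb hst1 b1 hlam hlam1 b2 b3 b4 b5
    (by rw [hB]; linarith) hB.ge b6.le b7 hnet b8 b9 hk3 hk1 hk2 b10 b11 b12 b13 b14
  have H : Fam La F κ κ' κt s t τ hh c1 θ θ1 (kl + θ) lam B Bs (2 ^ μ) Nn k0 0 Q₀ b L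
      X₀ kk Q A hk :=
    { fin := hfin
      kkQ := fun c hc => (hX1 c hc).1
      ins := fun c hc => (hX1 c hc).2.1
      two := fun c hc => (hX1 c hc).2.2
      all := hX2
      szl := fun c hc => (hX3 c hc).1
      szu := fun c hc => (hX3 c hc).2
      N_sub := fun c hc => (hX4 c hc).sub
      core := fun c hc => (hX4 c hc).core
      lin_eq := fun c hc => (hX4 c hc).lin_eq
      close := fun c hc => (hX4 c hc).near
      blkP := fun c hc => (hX4 c hc).blkP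
      blk := fun c hc => (hX4 c hc).tr }
  have hfin' : Finite X₀ := hfin.to_subtype
  obtain ⟨a, ha, Qs, hQs, hcard, f₂, G₂, er, hS₂, hη₂, hcl, hIn, her, hLy, hout⟩ :=
    HP4 X₀ (fun j => kk j.1) (fun j => mp P3 (Q j.1)) k0 (fun j => hk j.1)
      (fun j => H.kkQ _ j.2) (fun j => Blk_212.BlkP.mono_θ hs (H.blkP _ j.2) b15)
      (fun i j hij => hX5 _ i.2 _ j.2 (fun h => hij (Subtype.ext h)))
  exact H.finish hp1 hp3 hO hOb hOc hL hLbd hLc hS hS₂ BF hcmp hw hsz hszt hwη hη₂ hq0 HE hQs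
    hcard ha hcl hIn her hLy hout hLk (fun k hk => (hQK k hk).trans hK)
    (fun k hk => (hQK' k hk).trans hK') hε1 he1P hen hvol hX5 hκ hκ1
    hs hτ hτ8 ht0 hlam hlam1 (by positivity) hB0.le hκw hC1 hc1 hθ0.le hhh hroom (by linarith) hkb hkb1
    hκwE hκ10 ht m1 m2 m3 hθ hkb2 hV0 hV hr hac hac0 hace heP n1 n2 n3 n4 n5 n6 n7 n8

end

end Crest.Agent.R096.Br_695
end

-- ▼ part R096/Br16_695
section

/-!
Row 96 (S0127), helper695.  **`r12`**: `EA0 p → PreIN p → BFk p`, `1 ≤ p ≤ 3`.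
-/

set_option autoImplicit false
set_option linter.unusedSectionVars false
set_option linter.unusedVariables false
set_option linter.style.longLine false

open MeasureTheory Set Filter Metric Module
open scoped ENNReal NNReal Topology

namespace Crest.Agent.R096.Br_695

open Crest.AnalysisR.VecCalc3 Crest.AnalysisR.Sobolev
open Crest.Agent.R96.Lu_538 Crest.Agent.R96.Intr_538
open Crest.Agent.R96.Coarse_538 hiding E3
open Crest.Agent.R096.Sk_962 (SH Gr)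
open Crest.Agent.R096.Sk4_663 (Zd BFs)
open Crest.Agent.R096.Bsp_628
open Crest.Agent.R096.Bxs_627 hiding E3
open Crest.Agent.R96.En10_199
open Crest.Agent.R096.SkC1_961 (E3 Hom3)
open Crest.Agent.R096.Er_594
open Crest.Agent.R096.Pin_753 (PreIN)
open Crest.Agent.R096.Ea0_961 (EA0)

noncomputable section

/-- numbers before `M` -/
theorem numP {r V : ℝ} (hr : 0 < r) (hV : 0 ≤ V) :
    ∃ τ : ℝ, 0 < τ ∧ τ ≤ 1 / 8 ∧ 15 * τ * V ≤ r / 8 := by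
  refine ⟨min (1 / 8) (r / (120 * (V + 1))), by positivity, min_le_left _ _, ?_⟩
  have h1 := min_le_right (1 / 8 : ℝ) (r / (120 * (V + 1)))
  have h2 : 0 < min (1 / 8 : ℝ) (r / (120 * (V + 1))) := by positivity
  rw [le_div_iff₀ (by positivity)] at h1
  nlinarith

/-- the number `M = 2 ^ μ` and the cells -/
theorem numQ {κ κ1 τ lam C1 B : ℝ} (hκ : 0 < κ) (hκ1 : κ ≤ 1) (hκ10 : 0 < κ1) (hτ : 0 < τ)
    (hlam1 : lam < 1) (hlam : 1 / 2 ≤ lam) (hC1 : 0 ≤ C1) (hB : 0 < B) (M0 : ℕ) :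
    ∃ (tb κ' hh c1 c2 : ℝ) (μ : ℕ), tb = κ * τ / 2 ∧ 0 < tb ∧ 0 ≤ κ' ∧ 2 * κ' ≤ 1 / 4 ∧
      (1 + 2 * κ') * lam ≤ (1 + lam) / 2 ∧ 11 ≤ 2 * κ' * 2 ^ μ ∧ 0 < hh ∧ 0 < c1 ∧ 0 < c2 ∧
      M0 ≤ 2 ^ μ ∧ C1 * hh ≤ min τ c2 ∧ C1 * hh ≤ κ * τ ∧
      C1 * hh ≤ κ1 * (κ * τ / 2 / 12) / 2 ∧ c1 * (B * 2 ^ μ) = tb / 6 ∧
      tb = hh * (2 * 2 ^ μ) ∧ c2 = (1 - lam) * κ * tb / 216 ∧ c2 ≤ 2 * τ := by
  have hlam0 : 0 < 1 - lam := by linarith
  obtain ⟨tb, htb⟩ : ∃ tb, tb = κ * τ / 2 := ⟨_, rfl⟩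
  have htb0 : 0 < tb := by rw [htb]; positivity
  have htbτ : tb ≤ τ := by
    have : κ * τ ≤ 1 * τ := mul_le_mul_of_nonneg_right hκ1 hτ.le
    linarith
  obtain ⟨κ', hκ'⟩ : ∃ κ', κ' = (1 - lam) / 8 := ⟨_, rfl⟩
  have hκ'0 : 0 < κ' := by rw [hκ']; positivity
  obtain ⟨c2, hc2⟩ : ∃ c2, c2 = (1 - lam) * κ * tb / 216 := ⟨_, rfl⟩
  have hc20 : 0 < c2 := by rw [hc2]; positivity
  obtain ⟨mm, hmm⟩ : ∃ mm, mm = min τ (min c2 (min (κ * τ) (κ1 * (tb / 12) / 2))) := ⟨_, rfl⟩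
  have hmm0 : 0 < mm := by rw [hmm]; positivity
  have mm1 : mm ≤ τ := by rw [hmm]; exact min_le_left _ _
  have mm2 : mm ≤ c2 := by rw [hmm]; exact (min_le_right _ _).trans (min_le_left _ _)
  have mm3 : mm ≤ κ * τ := by
    rw [hmm]; exact (min_le_right _ _).trans ((min_le_right _ _).trans (min_le_left _ _))
  have mm4 : mm ≤ κ1 * (tb / 12) / 2 := by
    rw [hmm]; exact (min_le_right _ _).trans ((min_le_right _ _).trans (min_le_right _ _))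
  obtain ⟨μ, hμ0, hμ⟩ := numM M0 (max (11 / (2 * κ')) (C1 * tb / (2 * mm)))
  have hμ1 : 11 / (2 * κ') ≤ ((2 ^ μ : ℕ) : ℝ) := (le_max_left _ _).trans hμ
  have hμ2 : C1 * tb / (2 * mm) ≤ ((2 ^ μ : ℕ) : ℝ) := (le_max_right _ _).trans hμ
  have hMc : ((2 ^ μ : ℕ) : ℝ) = 2 ^ μ := by push_cast; rfl
  rw [hMc] at hμ1 hμ2
  have h2μ : (0:ℝ) < 2 ^ μ := by positivity
  have hC1hh : C1 * (tb / (2 * 2 ^ μ)) ≤ mm := by
    rw [div_le_iff₀ (by positivity)] at hμ2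
    have e1 : C1 * (tb / (2 * 2 ^ μ)) = C1 * tb / (2 * 2 ^ μ) := by ring
    rw [e1, div_le_iff₀ (by positivity)]
    linarith
  refine ⟨tb, κ', tb / (2 * 2 ^ μ), tb / (6 * (B * 2 ^ μ)), c2, μ, htb, htb0, hκ'0.le, ?_, ?_, ?_,
    by positivity, by positivity, hc20, hμ0, hC1hh.trans (le_min mm1 mm2), hC1hh.trans mm3,
    hC1hh.trans (by rw [← htb]; exact mm4), ?_, ?_, hc2, ?_⟩
  · rw [hκ']; linarith
  · rw [hκ']; nlinarith
  · rw [div_le_iff₀ (by positivity)] at hμ1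
    linarith
  · field_simp
  · field_simp
  · have h1 : (1 - lam) * κ * tb ≤ 1 * 1 * tb := by
      have : (1 - lam) * κ ≤ 1 * 1 := mul_le_mul (by linarith) hκ1 hκ.le zero_le_one
      exact mul_le_mul_of_nonneg_right this htb0.le
    rw [hc2]; linarith

/-- `e` for `PreIN` -/
theorem numE {q CA p : ℝ} (hq : 0 < q) (hCA : 0 ≤ CA) :
    ∃ eP : ℝ, 0 < eP ∧ 1000 * eP ≤ q / 2 ∧ CA * (2 ^ p * eP) ≤ q ∧ eP ≤ q := by
  have h2p : (0:ℝ) < 2 ^ p := by positivity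
  refine ⟨min (q / 2000) (q / (CA * 2 ^ p + 1)), by positivity, ?_, ?_, ?_⟩
  · have := min_le_left (q / 2000) (q / (CA * 2 ^ p + 1)); linarith
  · have h1 := min_le_right (q / 2000) (q / (CA * 2 ^ p + 1))
    have h2 : 0 < min (q / 2000) (q / (CA * 2 ^ p + 1)) := by positivity
    rw [le_div_iff₀ (by positivity)] at h1
    nlinarith
  · have := min_le_left (q / 2000) (q / (CA * 2 ^ p + 1)); linarith

/-- the scale `s` -/
theorem numS {s₀ tb ρ0 θ : ℝ} (hs : 0 < s₀) (htb : 0 < tb) (hρ : 0 < ρ0) (hθ : 0 < θ) :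
    ∃ s : ℝ, 0 < s ∧ s < s₀ ∧ tb * s ≤ 1 / 4 ∧ tb * s ≤ ρ0 ∧ θ * s ≤ 1 / 8 := by
  refine ⟨min (s₀ / 2) (min (1 / 4 / tb) (min (ρ0 / tb) (1 / 8 / θ))), by positivity, ?_, ?_, ?_, ?_⟩
  · exact (min_le_left _ _).trans_lt (by linarith)
  · have h1 : min (s₀ / 2) (min (1 / 4 / tb) (min (ρ0 / tb) (1 / 8 / θ))) ≤ 1 / 4 / tb :=
      (min_le_right _ _).trans (min_le_left _ _)
    rw [le_div_iff₀ htb] at h1
    linarith
  · have h1 : min (s₀ / 2) (min (1 / 4 / tb) (min (ρ0 / tb) (1 / 8 / θ))) ≤ ρ0 / tb :=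
      (min_le_right _ _).trans ((min_le_right _ _).trans (min_le_left _ _))
    rw [le_div_iff₀ htb] at h1
    linarith
  · have h1 : min (s₀ / 2) (min (1 / 4 / tb) (min (ρ0 / tb) (1 / 8 / θ))) ≤ 1 / 8 / θ :=
      (min_le_right _ _).trans ((min_le_right _ _).trans (min_le_right _ _))
    rw [le_div_iff₀ hθ] at h1
    linarith

set_option maxHeartbeats 2000000 in
/-- **RANGE `1 ≤ p ≤ 2`** (R3) -/
theorem bfk_of_ea0 {p : ℝ} (hp1 : 1 ≤ p) (hp3 : p ≤ 3) (hEA : EA0 p) (hPI : PreIN p) :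
    BFk p := by
  classical
  have hp0 : 0 ≤ p := by linarith
  have hM2 : 2 ≤ Mf := le_max_right _ _
  obtain ⟨Bs, hBs⟩ := exists_nat_ge (max 1 (max (4 * (12 * Mf) ^ 2) (8 * (12 * Mf))))
  have hBs1 : (1:ℝ) ≤ Bs := (le_max_left _ _).trans hBs
  have hBs1' : 1 ≤ Bs := by exact_mod_cast hBs1
  have hBs2 : 4 * (12 * Mf) ^ 2 ≤ Bs := ((le_max_left _ _).trans (le_max_right _ _)).trans hBs
  have hBs3 : 8 * (12 * Mf) ≤ Bs := ((le_max_right _ _).trans (le_max_right _ _)).trans hBs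
  obtain ⟨B, hB⟩ : ∃ B, B = 12 * Mf := ⟨_, rfl⟩
  have hB24 : 24 ≤ B := by rw [hB]; linarith
  have hB0 : 0 < B := by linarith
  obtain ⟨C, hC0, hC⟩ := hEA δf 3 6 (1 / 4) (1 / 4) B Bs δf_pos (by norm_num) (by norm_num)
    (by norm_num) (by norm_num) (by norm_num) le_rfl (by linarith) hBs1'
  obtain ⟨Cp, hCp⟩ := hPI Bs
  refine ⟨3 * C * 2 ^ p * Cp, ?_⟩
  intro Om La f G hO hOb hOc hL hLb hLc hS η hη hη0 e he
  obtain ⟨V, hV⟩ : ∃ V, V = (volume Om).toReal := ⟨_, rfl⟩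
  have hV0 : 0 ≤ V := by rw [hV]; exact ENNReal.toReal_nonneg
  have hVt : volume Om ≠ ∞ := hOb.measure_lt_top.ne
  have hVe : volume Om ≤ ENNReal.ofReal V := by rw [hV]; exact (ENNReal.ofReal_toReal hVt).ge
  obtain ⟨w, hw, hwη⟩ := exists_w hL hS.homeo (η := fun x => η x / 2) (hη.div_const 2)
    (fun x hx => by have := hη0 x hx; positivity) (C := C) C.2
  obtain ⟨hη2c, hη20⟩ := Dsp_685.exists_eta2 hL hS.homeo hw hη hη0
  have hCr : 0 ≤ (C : ℝ) := C.2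
  have hCpr : 0 ≤ (Cp : ℝ) := Cp.2
  have h2p : (0:ℝ) < 2 ^ p := by positivity
  obtain ⟨W, hW⟩ : ∃ W, W = (C : ℝ) * 2 ^ p * Cp := ⟨_, rfl⟩
  have hW0 : 0 ≤ W := by rw [hW]; positivity
  obtain ⟨eac, heac⟩ : ∃ eac, eac = e / (1 + 12 * W) := ⟨_, rfl⟩
  have heac0 : 0 < eac := by rw [heac]; positivity
  have heacW : eac * (1 + 12 * W) = e := by rw [heac]; field_simp
  have heac1 : eac ≤ e := by nlinarith
  have heac2 : 3 * (C * (2 ^ p * (Cp * eac))) ≤ e / 4 := by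
    have e1 : 3 * (C * (2 ^ p * (Cp * eac))) = 3 * (W * eac) := by rw [hW]; ring
    rw [e1]; nlinarith
  obtain ⟨r, hr, hac⟩ := exists_ac hp1 hOb hS heac0
  obtain ⟨κ, hκ, hκ1, K, hK, hKc, K', hK', hK'c, C1, hC1, HP⟩ :=
    hCp Om La f G hO hOb hOc hL hLb hLc hS (r / 4) (by positivity)
  have hκi : 0 < κ⁻¹ := inv_pos.2 hκ
  obtain ⟨q, hq0, hq1, hqn, hqo⟩ := numA (p := p) (V := V) (N := 3 * κ⁻¹) (C := C)
    (C2 := 2 ^ p * 2) he hV0 (by positivity) hCr (by positivity)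
  obtain ⟨lam, hl1, hl2, hl3, hl4, hl5, hl6⟩ := numB (p := p) (q := q) (r := r)
    (T := 100000 * (C1 * κ⁻¹ ^ p * V)) (R := 48 * V) hp1 hq0 hr (by positivity) (by positivity)
  obtain ⟨κ1, hκ10, M0, HC⟩ := hC q hq0 lam hl2
  obtain ⟨τ, hτ, hτ8, hτV⟩ := numP hr hV0
  obtain ⟨tb, κ', hh, c1, c2, μ, htb, htb0, hκ'0, k1, k2, k3, hh0, hc10, hc20, hμ0, k4, k5, k6, k7,
    k8, k9, k10⟩ := numQ (κ1 := κ1) (C1 := C1) (B := B) hκ hκ1 hκ10 hτ hl2 hl1 (by linarith) hB0 M0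
  obtain ⟨κwE, hκwE, HC2⟩ := HC (2 ^ μ) hμ0
  have hM1 : (1:ℝ) ≤ ((2 ^ μ : ℕ) : ℝ) := by exact_mod_cast Nat.one_le_two_pow
  obtain ⟨kb, κw, kl, e1P, hkb0, hκw0, hkl0, he1P, hklκ, w1, w2, w3, w4, w5, w6, w7, w8, w9⟩ :=
    numW (p := p) (κ := κ) (κ1 := κ1) (κwE := κwE) (τ := τ) (q := q) (V := V)
      (M := ((2 ^ μ : ℕ) : ℝ)) (lam := lam) hp1 hκ hκ1 hκ10 hκwE hτ hτ8 hq0 hV0 hM1 hl1 hl2
  obtain ⟨Nn, hnet⟩ := Blk_212.exists_net hκ hkl0 hklκ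
  obtain ⟨CA, κt, hκt, HC3⟩ := HC2 Nn
  have HE : EA0t p δf 3 6 (1 / 4) (1 / 4) B Bs C q lam κ1 (2 ^ μ) κwE Nn CA κt := HC3
  clear HC3 HC2 HC hC hEA
  obtain ⟨eP, heP, heP1, heP2, heP3⟩ := numE (q := q) (CA := CA) (p := p) hq0 CA.2
  obtain ⟨θ0, hθ0, HP2⟩ := HP τ hh c1 c2 κw eP Nn hτ (by linarith) hh0 hc10 hc20 hκw0 heP k4
  obtain ⟨θ, hθ, t1, t2, t3, t4, t5, t6, t7, t8⟩ := numT (κ := κ) (c1 := c1) (c2 := c2) (κt := κt)
    (B := B) (kb := kb) (τ := τ) (θ0 := θ0) (r := r) (V := V) hκ hc10 hc20 hκt hB0 hkb0 hτ hθ0 hr hV0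
  obtain ⟨s₀, hs₀, HP3⟩ := HP2 (θ / 2) (by positivity) _ hη2c hη20 e1P (r / 8) he1P (by positivity)
  have hK'3 : IsCompact (P3 ⁻¹' K') := isCompact_pre hK'c
  obtain ⟨ρ0, hρ0, hρ⟩ : ∃ ρ0 : ℝ, 0 < ρ0 ∧ ∀ y ∈ P3 ⁻¹' K', ρ0 ≤ w y := by
    rcases (P3 ⁻¹' K').eq_empty_or_nonempty with h0 | h0
    · exact ⟨1, one_pos, fun x hx => absurd hx (by rw [h0]; exact notMem_empty x)⟩
    · obtain ⟨x0, hx0, hmin⟩ := hK'3.exists_isMinOn h0 (scale_cont hw).continuousOn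
      exact ⟨w x0, hw.pos x0 (hK' hx0), fun x hx => hmin hx⟩
  obtain ⟨s, hs, hss, hst1, hst2, hst3⟩ := numS hs₀ htb0 hρ0 hθ
  obtain ⟨k0, hk3, hk1, hk2⟩ := numk (x := θ * s) (by positivity) hst3
  have HPt : PIt p Bs Cp Om La f G (r / 4) κ K K' C1 τ hh c1 c2 κw eP Nn θ0 (θ / 2)
      (fun x => min (η x / 4) (w (P3.symm (f x)))) e1P (r / 8) s 0 := HP3 s hs hss 0
  clear HP3 HP2 HP hCp hPI
  obtain ⟨t, ht⟩ : ∃ t, t = tb * s := ⟨_, rfl⟩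
  have hka : kl + θ ≤ kb / 2 := by linarith
  have hκkb : κ * kb ≤ 1 * kb := mul_le_mul_of_nonneg_right hκ1 hkb0.le
  have hκτ1 : κ * τ ≤ 1 * τ := mul_le_mul_of_nonneg_right hκ1 hτ.le
  refine r3_step hp1 hp3 hO hOb hOc hL hLb hLc hS hw hwη hBs1' hBs2 hBs3 hq0 hB HE hK hK' HPt hρ hnet
    (tb := tb) (t := t) (κ' := κ') (kb := kb) (V := V) (r := r) (eac := eac) (e := e)
    ht htb0 (by rw [ht]; exact hst1) (by rw [ht]; exact hst2) hk3 (by linarith) hk2 hκ hκ1 hs hτ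
    hτ8 hl1 hl2 ?_ k3 hκ'0 k1 k2 hkl0 (by linarith) ?_ ?_ t2 (by rw [← hB]; exact t3) ?_ k10 ?_ t1
    hκw0.le (by linarith) hc10 hθ k5 ?_ ?_ w1 hκwE.le hκ10.le ?_ w5 ?_ t7 ?_ hV0 hVe t8 hac
    heac0.le heac1 heP.le (by positivity) he1P.le hl3 hl6 ?_ heP2 ?_ ?_ hqn ?_
  · have e1 : 2 * κ⁻¹ * t = τ * s := by rw [ht, htb]; field_simp
    exact e1.le
  · have e1 : c1 * s * (12 * Mf * 2 ^ μ) = (c1 * (B * 2 ^ μ)) * s := by rw [hB]; ring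
    rw [e1, k7, ht]
    apply le_of_eq; ring
  · have e1 : hh * s * (2 * 2 ^ μ) = (hh * (2 * 2 ^ μ)) * s := by ring
    rw [e1, ← k8, ht]
  · have h1 : kl + θ ≤ (1 - lam) * tb / 144 := by
      rw [htb]; linarith
    calc (kl + θ) * s ≤ (1 - lam) * tb / 144 * s := mul_le_mul_of_nonneg_right h1 hs.le
      _ = _ := by rw [ht]; ring
  · rw [k9, ht]
    apply le_of_eq; ring
  · linarith
  · have h1 : 3 * κ⁻¹ * (κw + θ / (5 * κ)) = 3 * κ⁻¹ * κw + 3 * κ⁻¹ * (θ / (5 * κ)) := by ring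
    have h2 : 3 * κ⁻¹ * κw ≤ kb / 4 := by
      calc 3 * κ⁻¹ * κw ≤ 3 * κ⁻¹ * (κ * kb / 12) := mul_le_mul_of_nonneg_left w2 (by positivity)
        _ = kb / 4 := by field_simp; norm_num
    rw [h1]; linarith
  · rw [htb]; exact w4
  · rw [htb]; linarith
  · calc 2 * (kb * s) = 2 * kb * s := by ring
      _ ≤ (1 - lam) * (κ * τ / 2 / 18) * s := mul_le_mul_of_nonneg_right w8 hs.le
      _ = (1 - lam) * (t / 18) := by rw [ht, htb]; ring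
  · have h1 : 1000 * (C1 * κ⁻¹ ^ p * (100 * (1 - lam)) * V + eP) =
        100000 * (C1 * κ⁻¹ ^ p * V) * (1 - lam) + 1000 * eP := by ring
    rw [h1]; linarith
  · refine le_trans ?_ w9
    have h1 : (2 * (kl + θ)) ^ p ≤ kb ^ p :=
      Real.rpow_le_rpow (by positivity) (by linarith) hp0
    gcongr
  · have h1 : 6 * κ⁻¹ * t / s = 3 * τ := by rw [ht, htb]; field_simp; norm_num
    rw [h1]
    have h2 : (12 * τ + 3 * τ + 6 * (1 - lam)) * V = 15 * τ * V + 48 * V * (1 - lam) / 8 := by ring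
    rw [h2]; linarith
  · have h1 : C * (2 ^ p * (Cp * eac + 2 * eP)) ≤
        C * (2 ^ p * (Cp * eac)) + C * (2 ^ p * 2 * q) := by
      have : (C : ℝ) * (2 ^ p * (Cp * eac + 2 * eP)) =
          C * (2 ^ p * (Cp * eac)) + C * (2 ^ p * 2 * eP) := by ring
      rw [this]
      gcongr
    linarith

end

end Crest.Agent.R096.Br_695
end

-- ▼ part R096/Enn1_766
section

/-!
Row 96 (S0127), helper766.  **ENERGY OF THE BLOCKS, NO0, `p ≥ 3`** (`Bmd_798.ExBlkN`): the block energies of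
`Eau_365.block_en0` are at most a constant times the terms of `Np_962.Front3.cs`.
-/

set_option autoImplicit false
set_option linter.style.longLine false
set_option linter.unusedSectionVars false
set_option linter.unusedVariables false

open MeasureTheory Set Filter Topology Metric
open scoped ENNReal NNReal

namespace Crest.Agent.R096.Enn_766

open Crest.Agent.R096.SkC1_961 (E3 Hom3 FoamD)
open Crest.Agent.R096.Er_594 (SH3)
open Crest.Agent.R096.Bsp_628 Crest.Agent.R096.Brk5_582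
open Crest.Agent.R096.Bxs_627 (ctr CoriE)
open Crest.Agent.R096.EaX_766 (lin cbx ExIn Kor RatA)
open Crest.Agent.R096.Acc_365 (K1 K2 exin_mass inner_one gd_lp volume_K2_grow volume_K2 two_rpow)
open Crest.Agent.R096.Exa_365
open Crest.Agent.R096.Enx_766

noncomputable section

variable {p : ℝ} {Om La : Set E3} {f : E3 → E3} {D D' : E3 → E3 →L[ℝ] E3} {o : E3} {u : ℝ}
  {A : E3 ≃ᵃ[ℝ] E3} {Q : Bx (Fin 3)} {lam κ0 κ1 κ2 : ℝ}

/-- volume of the enlarged box -/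
theorem vol_box_le (hQ : Q.Pos) (hl : 0 ≤ lam) (hκ2 : 0 ≤ κ2) (hκ2' : κ2 ≤ 1 / 4) {S : Set E3}
    (hS : S ⊆ A ⁻¹' cbx Q ((1 + 2 * κ2) * lam)) : volume S ≤ 4 * volume (A ⁻¹' cbx Q lam) := by
  have h1 := volume_K2_grow (A := A) hQ hl (θ := 2 * κ2) (by positivity) 0
  rw [volume_K2] at h1
  calc volume S ≤ volume (K1 A Q ((1 + 2 * κ2) * lam)) := measure_mono hS
    _ = ENNReal.ofReal ((1 + 2 * κ2) ^ 3) * volume (K1 A Q lam) := h1
    _ ≤ 4 * volume (K1 A Q lam) := by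
        gcongr
        have h4 : (4 : ℝ≥0∞) = ENNReal.ofReal 4 := by norm_num
        rw [h4]
        apply ENNReal.ofReal_le_ofReal
        have h5 : 1 + 2 * κ2 ≤ 3 / 2 := by linarith
        calc (1 + 2 * κ2) ^ 3 ≤ (3 / 2) ^ 3 := by gcongr
          _ ≤ 4 := by norm_num

/-- the energy of `D ∘ (lin A)⁻¹` on a part of the collar -/
theorem comp_energy_le (hp : 1 ≤ p) (hκ1 : 0 ≤ κ1) (hκ10 : κ1 * κ0 ^ 3 ≤ 1) (hQ : Q.Pos)
    (hl : 0 ≤ lam) (hκ : ∀ k, Q.sz ≤ κ0 * Q.side k) (hκ2 : 0 ≤ κ2) (hκ2' : κ2 ≤ 1 / 4)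
    (hE : ExIn p Om f D o u κ1 κ2 Q A lam) {S : Set E3}
    (hSV : S ⊆ A ⁻¹' cbx Q ((1 + 2 * κ2) * lam)) :
    ∫⁻ x in S, ‖(D x).comp (lin A.symm)‖ₑ ^ p ≤
      (2:ℝ≥0∞) ^ (p - 1) * (5 * volume (A ⁻¹' cbx Q lam)) := by
  have hp0 : 0 ≤ p := zero_le_one.trans hp
  have h2p : (2:ℝ≥0∞) ^ (p - 1) ≠ ∞ := ENNReal.rpow_ne_top_of_nonneg (by linarith) (by norm_num)
  have hg := gd_lp (p := p) (Om := Om) (f := f) (D := D) hκ1 hQ hl hκ hE hSV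
  calc ∫⁻ x in S, ‖(D x).comp (lin A.symm)‖ₑ ^ p
      ≤ ∫⁻ x in S, (2:ℝ≥0∞) ^ (p - 1) * (1 + Gd A D x ^ p) := by
        refine lintegral_mono fun x => ?_
        have h3 : ‖(D x).comp (lin A.symm)‖ₑ ≤ 1 + Gd A D x := by
          have h5 := enorm_add_le (ContinuousLinearMap.id ℝ E3)
            ((D x).comp (lin A.symm) - ContinuousLinearMap.id ℝ E3)
          have h6 : ContinuousLinearMap.id ℝ E3 +
              ((D x).comp (lin A.symm) - ContinuousLinearMap.id ℝ E3) =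
              (D x).comp (lin A.symm) := by abel
          rw [h6] at h5
          refine h5.trans (add_le_add ?_ le_rfl)
          rw [← ofReal_norm, ← ENNReal.ofReal_one]
          exact ENNReal.ofReal_le_ofReal ContinuousLinearMap.norm_id_le
        calc ‖(D x).comp (lin A.symm)‖ₑ ^ p ≤ (1 + Gd A D x) ^ p := ENNReal.rpow_le_rpow h3 hp0
          _ ≤ 2 ^ (p - 1) * ((1:ℝ≥0∞) ^ p + Gd A D x ^ p) :=
            ENNReal.rpow_add_le_mul_rpow_add_rpow _ _ hp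
          _ = _ := by rw [ENNReal.one_rpow]
    _ = 2 ^ (p - 1) * (volume S + ∫⁻ x in S, Gd A D x ^ p) := by
        rw [lintegral_const_mul' _ _ h2p, lintegral_add_left measurable_const, setLIntegral_const,
          one_mul]
    _ ≤ 2 ^ (p - 1) * (4 * volume (A ⁻¹' cbx Q lam) + 1 * volume (A ⁻¹' cbx Q lam)) := by
        gcongr
        · exact vol_box_le hQ hl hκ2 hκ2' hSV
        · refine hg.trans ?_
          gcongr
          · rw [← ENNReal.ofReal_one]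
            exact ENNReal.ofReal_le_ofReal hκ10
          · exact le_rfl
    _ = _ := by ring

/-- the constant of the block energies -/
def KBN (p : ℝ) (C4 K3 : ℝ≥0∞) (Kq : ℝ) : ℝ≥0∞ :=
  C4 * (ENNReal.ofReal Kq * 2) ^ p * 4 + 8 * (K3 * (ENNReal.ofReal Kq ^ p * (2 ^ (p - 1) * 5)))

theorem KBN_ne_top (hp : 1 ≤ p) {C4 K3 : ℝ≥0∞} (h4 : C4 ≠ ∞) (h3 : K3 ≠ ∞) (Kq : ℝ) :
    KBN p C4 K3 Kq ≠ ∞ := by
  have hp0 : 0 ≤ p := zero_le_one.trans hp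
  unfold KBN
  refine ENNReal.add_ne_top.2 ⟨?_, ?_⟩
  · exact ENNReal.mul_ne_top (ENNReal.mul_ne_top h4 (ENNReal.rpow_ne_top_of_nonneg hp0
      (ENNReal.mul_ne_top ENNReal.ofReal_ne_top (by norm_num)))) (by norm_num)
  · exact ENNReal.mul_ne_top (by norm_num) (ENNReal.mul_ne_top h3 (ENNReal.mul_ne_top
      (ENNReal.rpow_ne_top_of_nonneg hp0 ENNReal.ofReal_ne_top)
      (ENNReal.mul_ne_top (ENNReal.rpow_ne_top_of_nonneg (by linarith) (by norm_num))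
        (by norm_num))))

/-- **one block**: the right-hand side of `Eau_365.block_en0` (`η ≤ 1`, `Kq / lam` for the push) is at
most `KBN` times the term of `Front3.cs` -/
theorem block_le (hp : 1 ≤ p) (hκ1 : 0 ≤ κ1) (hκ10 : κ1 * κ0 ^ 3 ≤ 1) (hQ : Q.Pos)
    (hl : 0 < lam) (hκ : ∀ k, Q.sz ≤ κ0 * Q.side k) (hκ2 : 0 ≤ κ2) (hκ2' : κ2 ≤ 1 / 4)
    (hE : ExIn p Om f D o u κ1 κ2 Q A lam) {S N' : Set E3} (hS : MeasurableSet S)
    (hSV : S ⊆ A ⁻¹' cbx Q ((1 + 2 * κ2) * lam)) (hN : N' ⊆ A ⁻¹' cbx Q ((1 + 2 * κ2) * lam))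
    {Kq η : ℝ} (hKq : 0 ≤ Kq) (hη : η ≤ 1) (hD' : ∀ᵐ x, x ∈ S → ∀ v, ‖D' x v‖ ≤ Kq / lam * ‖D x v‖)
    (C4 K3 : ℝ≥0∞) :
    C4 * (ENNReal.ofReal (Kq / lam) * (1 + ENNReal.ofReal η ^ (1 / p))) ^ p * ‖lin A‖ₑ ^ p *
        volume N' +
      8 * (K3 * (‖lin A‖ₑ ^ p * ∫⁻ z in S, ‖(D' z).comp (lin A.symm)‖ₑ ^ p)) ≤
      KBN p C4 K3 Kq * (ENNReal.ofReal ((1 / lam * ‖lin A‖) ^ p) * volume (A ⁻¹' cbx Q lam)) := by
  have hp0 : 0 ≤ p := zero_le_one.trans hp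
  set V := volume (A ⁻¹' cbx Q lam) with hV
  have h1 : ENNReal.ofReal (Kq / lam) = ENNReal.ofReal (1 / lam) * ENNReal.ofReal Kq := by
    rw [← ENNReal.ofReal_mul (by positivity)]
    congr 1
    ring
  have h2 : (1:ℝ≥0∞) + ENNReal.ofReal η ^ (1 / p) ≤ 2 := by
    have h3 : ENNReal.ofReal η ^ (1 / p) ≤ 1 := by
      refine (ENNReal.rpow_le_rpow (ENNReal.ofReal_le_ofReal hη) (by positivity)).trans ?_
      rw [ENNReal.ofReal_one, ENNReal.one_rpow]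
    calc (1:ℝ≥0∞) + ENNReal.ofReal η ^ (1 / p) ≤ 1 + 1 := by gcongr
      _ = 2 := by norm_num
  have h4 : ENNReal.ofReal ((1 / lam * ‖lin A‖) ^ p) =
      ENNReal.ofReal (1 / lam) ^ p * ‖lin A‖ₑ ^ p := by
    rw [← ENNReal.ofReal_rpow_of_nonneg (by positivity) hp0, ENNReal.ofReal_mul (by positivity),
      ENNReal.mul_rpow_of_nonneg _ _ hp0, ofReal_norm]
  have h5 : (∫⁻ z in S, ‖(D' z).comp (lin A.symm)‖ₑ ^ p) ≤
      (ENNReal.ofReal (1 / lam) * ENNReal.ofReal Kq) ^ p * (2 ^ (p - 1) * (5 * V)) := by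
    refine (dcomp_le hS (by positivity) hp0 hD' _).trans ?_
    rw [h1]
    gcongr
    exact comp_energy_le hp hκ1 hκ10 hQ hl.le hκ hκ2 hκ2' hE hSV
  have h6 : volume N' ≤ 4 * V := vol_box_le hQ hl.le hκ2 hκ2' hN
  calc _ ≤ C4 * (ENNReal.ofReal (1 / lam) * ENNReal.ofReal Kq * 2) ^ p * ‖lin A‖ₑ ^ p * (4 * V) +
      8 * (K3 * (‖lin A‖ₑ ^ p *
        ((ENNReal.ofReal (1 / lam) * ENNReal.ofReal Kq) ^ p * (2 ^ (p - 1) * (5 * V))))) := by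
        rw [h1]
        gcongr
    _ = _ := by
        rw [h4, mul_assoc (ENNReal.ofReal (1 / lam)) (ENNReal.ofReal Kq) 2,
          ENNReal.mul_rpow_of_nonneg (ENNReal.ofReal (1 / lam)) (ENNReal.ofReal Kq * 2) hp0,
          ENNReal.mul_rpow_of_nonneg (ENNReal.ofReal (1 / lam)) (ENNReal.ofReal Kq) hp0]
        unfold KBN
        ring

/-- **the sum over all bricks** (blocks indexed by the subtype `univ`) -/
theorem sum_blocks {F : Type} {B : ↥(Set.univ : Set F) → ℝ≥0∞} {t : F → ℝ≥0∞} {KB e : ℝ≥0∞}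
    (hB : ∀ j : ↥(Set.univ : Set F), B j ≤ KB * t j.1) (hs : ∑' c : F, t c ≤ e) :
    ∑' j, B j ≤ KB * e := by
  calc ∑' j, B j ≤ ∑' j : ↥(Set.univ : Set F), KB * t j.1 := ENNReal.tsum_le_tsum hB
    _ = KB * ∑' j : ↥(Set.univ : Set F), t j.1 := ENNReal.tsum_mul_left
    _ = KB * ∑' c : F, t c := by rw [tsum_univ t]
    _ ≤ KB * e := by gcongr

/-- **`Σ B ≤ KB εf' vol Om`** of `Bmd_798.ExBlkN`, from `Front3` -/
theorem sum_front3 {q : ℕ} {s : Fin 3 → ℝ} {ε ε' : ℝ≥0∞} {Om La : Set E3} {f : E3 → E3}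
    {M ρ0 h : ℝ} {a : Fin 3 → ℝ} {κ1 κ2 lam0 : ℝ}
    {Φ : FoamD (Dic6_582.dF q) (Dic6_582.kF q) 6 (Npr_582.cN q) La}
    {lam : Φ.F → ℝ} {A : Φ.F → E3 ≃ᵃ[ℝ] E3} {f1 : E3 → E3} {D1 : E3 → E3 →L[ℝ] E3} {X HH : Set E3}
    {g : Φ.F → Fin 3 → E3 → ℝ}
    (H : Np_962.Front3 p q s ε ε' Om La f M ρ0 h a κ1 κ2 lam0 Φ lam A f1 D1 X HH g)
    {B : ↥(Set.univ : Set Φ.F) → ℝ≥0∞} {KB : ℝ≥0∞}
    (hB : ∀ j : ↥(Set.univ : Set Φ.F), B j ≤ KB * (ENNReal.ofReal ((1 / lam j.1 * ‖lin (A j.1)‖) ^ p) *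
      volume (A j.1 ⁻¹' cbx j.1.1 (lam j.1)))) : ∑' j, B j ≤ KB * ε' * volume Om := by
  rw [mul_assoc]
  exact sum_blocks (t := fun c : Φ.F => ENNReal.ofReal ((1 / lam c * ‖lin (A c)‖) ^ p) *
    volume (A c ⁻¹' cbx c.1 (lam c))) hB H.cs

end

end Crest.Agent.R096.Enn_766
end

-- ▼ part R096/Mdd14_360
section

/-!
Row 96 (S0127), helper360.  **MD + RD + (B1) OF EaX**, one theorem: the mesh data of the pre-translated
blocks, rooms before the pre-translation.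
-/

set_option autoImplicit false
set_option linter.style.longLine false
set_option linter.unusedSectionVars false

open MeasureTheory Set Filter Topology Metric

namespace Crest.Agent.R096.Mdd_360

open Crest.Agent.R096.Bsp_628 Crest.Agent.R096.Brk5_582 Crest.Agent.R096.Brk1_582
open Crest.Agent.R096.Brk2_582 Crest.Agent.R096.Brk3_582
open Crest.Agent.R096.SkC1_961 (E3 FoamD Hom3)
open Crest.Agent.R096.EaX_766 (cbx RatA lin)
open Crest.Agent.R096.Bxs_627 (ctr CoriE fD zz)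
open Crest.Agent.R096.Mal_874 Crest.Agent.R096.Msh_810 Crest.Agent.R096.Msh_715
open Crest.Agent.R096.Fns_360
open Crest.Agent.R96.EaP_899 (fX XD cm)
open Crest.Agent.R96.Eam_466 (OX FineX)
open Crest.Agent.R096.Eau_365 (BkX)
open Crest.Agent.R96.Gj_872 (Dy)

noncomputable section

variable {La Om : Set E3} {f : E3 → E3} {F : Set (Bx (Fin 3))} {δ κ0 R c0 : ℝ} {X : Set F}

/-- the numbers of `mdX` -/
structure NumX (δ κ0 R c0 κ1 κ2 κ3 κ4 τ1 τ κe κ2' η εf : ℝ) (m : ℕ) (R0 : ℝ) : Prop where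
  k1 : 0 ≤ κ1
  t1 : 0 ≤ τ1
  t : 0 < τ
  k43 : κ4 + τ1 < κ3
  ke : κ1 + τ1 + τ ≤ κe
  k8 : κe * κ0 ≤ 1 / 8
  k2a : κ2' + τ + τ1 ≤ κ2
  k2b : κ2' + τ ≤ 1 / 4
  k2c : 0 ≤ κ2'
  m0 : 0 < m
  eta : R0 / (2 * m) ≤ η
  eps : KI δ κ0 R (cm κ0 c0) * (η + 2 * κe) ≤ εf


end

end Crest.Agent.R096.Mdd_360
end

-- ▼ part R096/Mdd15_360
section

/-!
Row 96 (S0127), helper360.  RESCALED BLOCKS (798 #11791): the same block with `kc = 3 + i` and the frame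
`2⁻ⁱ ψ`, so that `‖ψ x‖ ≤ ‖x‖`.

* `blkDi` (`i = 0`: `blkD`), `blkDi_Kc, _ps, _N, _rt, _bnd, _size, _H`, `grid_blkDi`;
* `BlkXi` : the data of one block, `exists_blkXi` : for every `i : F → ℕ`;
* **`exists_blkXn`** : with `‖ψ x‖ ≤ ‖x‖`.
-/

set_option autoImplicit false
set_option linter.style.longLine false
set_option linter.unusedSectionVars false

open MeasureTheory Set Filter Topology Metric

namespace Crest.Agent.R096.Mdd_360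

open Crest.Agent.R096.Bsp_628 Crest.Agent.R096.Brk5_582 Crest.Agent.R096.Brk1_582
open Crest.Agent.R096.Brk2_582 Crest.Agent.R096.Brk3_582 Crest.Agent.R096.Grd_714
open Crest.Agent.R096.SkC1_961 (E3 FoamD Hom3 th)
open Crest.Agent.R096.EaX_766 (cbx RatA)
open Crest.Agent.R096.Bxs_627 (ctr zz)
open Crest.Agent.R096.Mal_874 Crest.Agent.R096.Msh_810 Crest.Agent.R096.Msh_715
open Crest.Agent.R096.Mfi_290
open Crest.Agent.R096.Wd_120 (GridS CoreAt coreAt_T gridS_shell uc)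

noncomputable section

section shell

variable {La : Set E3} {F : Set (Bx (Fin 3))} {δ κ0 : ℝ} {N : ℕ} {FF : Foam La (Pc F) (bc (F := F)) N}
  {h3 : Module.finrank ℝ (Fin 3 → ℝ) = 3} {c : F} {o : E3} {B : ℝ} (D : Fbr_628.BD FF h3 c o B)
  (hN : N ≤ 4) (BF : BoxFoam La F δ κ0) (hLa : IsOpen La) (hQ : Quads (Pc F) (bc (F := F)))
  {m : ℕ} (hm : 0 < m) {t : ℤ} (ht : 0 < t) (A : E3 ≃ᵃ[ℝ] E3) {lam : ℝ} (hl : 0 < lam) (i : ℕ)

/-- the unit of the rescaled block -/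
def uDi (m i : ℕ) : ℝ := 2 ^ (3 + i) * (D.w / m)

theorem uDi_eq (m i : ℕ) : uDi D m i = 2 ^ i * uD D m := by
  unfold uDi uD
  rw [pow_add]
  ring

theorem uDi_pos (hm : 0 < m) : 0 < uDi D m i := by
  rw [uDi_eq]
  exact mul_pos (by positivity) (uD_pos D hm)

/-- **the rescaled block of a brick** -/
def blkDi : CB E3 3 :=
  mkCB c.1 A hl (uDi_pos D i hm) (3 + i) (by omega) (D.shell hN BF hLa hQ hm t ht) (t + 10)
    (le_refl (t + 10))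

theorem blkDi_hS (l : Fin 3) : uDi D m i * (((D.shell hN BF hLa hQ hm t ht).hi l : ℝ) -
    (D.shell hN BF hLa hQ hm t ht).lo l) = 2 ^ (3 + i) * c.1.side l := by
  have h1 := blkD_hS D hN BF hLa hQ hm ht l
  rw [uDi_eq, pow_add, mul_assoc, h1]
  ring

theorem blkDi_Kc : (blkDi D hN BF hLa hQ hm ht A hl i).Kc = A ⁻¹' cbx c.1 lam :=
  mkCB_Kc _ _ _ _ _ _ _ _ _ (blkDi_hS D hN BF hLa hQ hm ht i)

theorem blkDi_ps (y : E3) (l : Fin 3) :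
    D.w / m * ps (blkDi D hN BF hLa hQ hm ht A hl i).a' (blkDi D hN BF hLa hQ hm ht A hl i).kc
      ((blkDi D hN BF hLa hQ hm ht A hl i).ψ y) l + o l =
    (A y l - (1 - lam) * ctr c.1 l) / lam := by
  have hm' : (0 : ℝ) < m := by exact_mod_cast hm
  have hw := D.w0
  unfold blkDi
  rw [mkCB_ps]
  have h1 := D.lo_eq hm l
  have e0 : ((D.shell hN BF hLa hQ hm t ht).lo l : ℝ) = D.lo m l := rfl
  rw [e0]
  have e1 : D.w / m * (D.lo m l : ℝ) = c.1.lo l - o l := by linarith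
  have e2 : ctr c.1 l - lam * c.1.side l / 2 = (1 - lam) * ctr c.1 l + lam * c.1.lo l := by
    change (c.1.lo l + c.1.hi l) / 2 - lam * (c.1.hi l - c.1.lo l) / 2 =
      (1 - lam) * ((c.1.lo l + c.1.hi l) / 2) + lam * c.1.lo l
    ring
  rw [mul_add, e1, e2]
  unfold uDi
  field_simp
  ring

theorem blkDi_N {κ : ℝ} (hκ : (t : ℝ) + 10 ≤ 2 * κ * m) :
    (blkDi D hN BF hLa hQ hm ht A hl i).N ⊆ A ⁻¹' cbx c.1 ((1 + 2 * κ) * lam) := by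
  refine mkCB_N _ _ _ _ _ _ _ _ _ (blkDi_hS D hN BF hLa hQ hm ht i) fun l => ?_
  have hm' : (0 : ℝ) < m := by exact_mod_cast hm
  have hw := D.w0
  have h1 := two_w_le D l
  have ht' : (0 : ℝ) < t := by exact_mod_cast ht
  have hκ0 : 0 < κ := by
    by_contra hcon
    push Not at hcon
    have : 2 * κ * m ≤ 0 := by nlinarith
    linarith
  unfold uDi
  push_cast
  have h2 : ((t : ℝ) + 10) * (D.w / m) ≤ κ * c.1.side l := by
    rw [mul_div_assoc', div_le_iff₀ hm']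
    calc ((t : ℝ) + 10) * D.w ≤ 2 * κ * m * D.w := mul_le_mul_of_nonneg_right hκ hw.le
      _ = κ * m * (2 * D.w) := by ring
      _ ≤ κ * m * c.1.side l := by gcongr
      _ = κ * c.1.side l * m := by ring
  have hp : (0 : ℝ) < 2 ^ (3 + i) := by positivity
  calc ((t : ℝ) + 10) * (2 ^ (3 + i) * (D.w / m)) = 2 ^ (3 + i) * (((t : ℝ) + 10) * (D.w / m)) := by ring
    _ ≤ 2 ^ (3 + i) * (κ * c.1.side l) := mul_le_mul_of_nonneg_left h2 hp.le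
    _ = κ * (2 ^ (3 + i) * c.1.side l) := by ring

theorem blkDi_rt {uE Md : ℝ} (huE : 0 < uE) (hA : RatA o uE A) (hdy : Dy o uE Md c.1)
    (hlq : ∃ q : ℚ, lam = q) :
    ∃ (Bm : Fin 3 → Fin 3 → ℤ) (d : ℕ), 0 < d ∧
      Rt (ContinuousLinearEquiv.refl ℝ E3) (blkDi D hN BF hLa hQ hm ht A hl i).ψ Bm d ∧
      ∀ l, ∃ z : ℤ, (d : ℝ) * (blkDi D hN BF hLa hQ hm ht A hl i).a' l = z := by
  refine mkCB_rt _ _ _ _ _ _ _ _ _ huE hA hdy hlq ?_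
  obtain ⟨q, -, hq⟩ := bd_w_rat D huE hdy
  refine ⟨2 ^ (3 + i) * q / m, ?_⟩
  unfold uDi
  rw [hq]
  push_cast
  ring

theorem blkDi_bnd {Bn : ℕ} (h1 : 1 ≤ Bn) (hB : 4 * B ^ 2 ≤ Bn) :
    ∀ j, ∀ p ∈ (blkDi D hN BF hLa hQ hm ht A hl i).S.GG j, ∀ l, |p.1 l| ≤ (Bn : ℤ) :=
  Fbr_628.BD.shell_bnd D hN BF hLa hQ h1 hB

theorem blkDi_size {R0 : ℝ} (hR : 8 * B ≤ R0) (htR : (t : ℝ) ≤ R0) :
    ∀ j, j ≠ (blkDi D hN BF hLa hQ hm ht A hl i).S.core →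
      ∀ u ∈ ZP ((blkDi D hN BF hLa hQ hm ht A hl i).S.GG j),
      ∀ v ∈ ZP ((blkDi D hN BF hLa hQ hm ht A hl i).S.GG j), ∀ l, |v l - u l| ≤ R0 :=
  Fbr_628.BD.shell_size D hN BF hLa hQ hR htR

theorem blkDi_H {Bc : ℕ} (hB : B ≤ Bc) {t0 : ℕ} (ht0 : t = t0) (l : Fin 3) :
    (blkDi D hN BF hLa hQ hm ht A hl i).S.hi l - (blkDi D hN BF hLa hQ hm ht A hl i).S.lo l +
      2 * (blkDi D hN BF hLa hQ hm ht A hl i).w ≤ HD m Bc t0 :=
  blkD_H D hN BF hLa hQ hm ht A hl hB ht0 l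

/-- the exact map in the coordinates of the block -/
theorem th_blkDi (y : E3) : th A lam (zz c.1 lam) y =
    D.pt m (uc (blkDi D hN BF hLa hQ hm ht A hl i) y) := by
  funext l
  have h1 := blkDi_ps D hN BF hLa hQ hm ht A hl i y l
  show (A y l - zz c.1 lam l) / lam = o l + D.w / m * _
  rw [add_comm (o l), h1]
  rfl

/-- **the clause `grid` for the tiling of the rescaled block** -/
theorem grid_blkDi (k : ℕ) (hk : (blkDi D hN BF hLa hQ hm ht A hl i).kc ≤ k) :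
    ∀ x ∈ (blkDi D hN BF hLa hQ hm ht A hl i).Kc,
      x ∉ I (((blkDi D hN BF hLa hQ hm ht A hl i).T k hk).H
        ((blkDi D hN BF hLa hQ hm ht A hl i).cix k hk)) →
      ((blkDi D hN BF hLa hQ hm ht A hl i).T k hk).cc x =
        {y | y ∈ (blkDi D hN BF hLa hQ hm ht A hl i).Kc ∧ ∀ a : F,
          (⌊m * sc (Pc F) (bc (F := F)) (th A lam (zz c.1 lam) x) a⌋₊ : ℝ) ≤
            m * sc (Pc F) (bc (F := F)) (th A lam (zz c.1 lam) y) a ∧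
          m * sc (Pc F) (bc (F := F)) (th A lam (zz c.1 lam) y) a ≤
            ⌈m * sc (Pc F) (bc (F := F)) (th A lam (zz c.1 lam) x) a⌉₊} ∧
      ((blkDi D hN BF hLa hQ hm ht A hl i).T k hk).dim x =
        {a : F | ⌊m * sc (Pc F) (bc (F := F)) (th A lam (zz c.1 lam) x) a⌋₊ <
          ⌈m * sc (Pc F) (bc (F := F)) (th A lam (zz c.1 lam) x) a⌉₊}.ncard := by
  intro x hx hn
  have hc := coreAt_T (blkDi D hN BF hLa hQ hm ht A hl i) k hk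
  have h := hc.grid (gridS_shell D hN BF hLa hQ hm ht) (th_blkDi D hN BF hLa hQ hm ht A hl i) x
    (by rw [hc.tile]; exact hx) hn
  rw [hc.tile] at h
  exact h

end shell

/-! ### the data of one block -/

/-- **rescaled block data of a brick** -/
structure BlkXi (F : Set (Bx (Fin 3))) (Bn : ℕ) (R0 : ℝ) (m H : ℕ) (κ : ℝ) (i : ℕ) (c : F)
    (A : E3 ≃ᵃ[ℝ] E3) (lam : ℝ) (Q : CB E3 3) : Prop where
  kc : Q.kc = 3 + i
  Kc : Q.Kc = A ⁻¹' cbx c.1 lam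
  N : Q.N ⊆ A ⁻¹' cbx c.1 ((1 + 2 * κ) * lam)
  bnd : ∀ j, ∀ p ∈ Q.S.GG j, ∀ l, |p.1 l| ≤ (Bn : ℤ)
  size : ∀ j, j ≠ Q.S.core → ∀ v ∈ ZP (Q.S.GG j), ∀ w ∈ ZP (Q.S.GG j), ∀ l, |w l - v l| ≤ R0
  H : ∀ l, Q.be l - Q.al l ≤ H
  psi : ∃ s : ℝ, 0 < s ∧ m * s ≤ 4 * (lam * c.1.sz) ∧ ∀ y, Q.ψ y = (2 ^ i * s)⁻¹ • A.linear y
  rt : ∃ (Bm : Fin 3 → Fin 3 → ℤ) (d : ℕ), 0 < d ∧
      Rt (ContinuousLinearEquiv.refl ℝ E3) Q.ψ Bm d ∧ ∀ l, ∃ z : ℤ, (d : ℝ) * Q.a' l = z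
  grid : ∀ (k : ℕ) (hk : Q.kc ≤ k), ∀ x ∈ Q.Kc, x ∉ I ((Q.T k hk).H (Q.cix k hk)) →
      (Q.T k hk).cc x =
        {y | y ∈ Q.Kc ∧ ∀ a : F,
          (⌊m * sc (Pc F) (bc (F := F)) (th A lam (zz c.1 lam) x) a⌋₊ : ℝ) ≤
            m * sc (Pc F) (bc (F := F)) (th A lam (zz c.1 lam) y) a ∧
          m * sc (Pc F) (bc (F := F)) (th A lam (zz c.1 lam) y) a ≤
            ⌈m * sc (Pc F) (bc (F := F)) (th A lam (zz c.1 lam) x) a⌉₊} ∧
      (Q.T k hk).dim x =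
        {a : F | ⌊m * sc (Pc F) (bc (F := F)) (th A lam (zz c.1 lam) x) a⌋₊ <
          ⌈m * sc (Pc F) (bc (F := F)) (th A lam (zz c.1 lam) x) a⌉₊}.ncard


/-- the coordinates of the block against the map -/
theorem BlkXi.exists_uA {F : Set (Bx (Fin 3))} {Bn : ℕ} {R0 : ℝ} {m H : ℕ} {κ : ℝ} {i : ℕ} {c : F}
    {A : E3 ≃ᵃ[ℝ] E3} {lam : ℝ} {Q : CB E3 3} (h : BlkXi F Bn R0 m H κ i c A lam Q) (hm : 0 < m) :
    ∃ uA : ℝ, 0 ≤ uA ∧ uA ≤ 2 ^ i * (4 / m * (lam * c.1.sz)) ∧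
      ∀ x y, ‖A y - A x‖ ≤ uA * dist (Q.ψ x) (Q.ψ y) := by
  obtain ⟨s, hs, hs1, hs2⟩ := h.psi
  have hm' : (0:ℝ) < m := by exact_mod_cast hm
  have hp : (0:ℝ) < 2 ^ i * s := by positivity
  refine ⟨2 ^ i * s, hp.le, ?_, fun x y => ?_⟩
  · refine mul_le_mul_of_nonneg_left ?_ (by positivity)
    rw [div_mul_eq_mul_div, le_div_iff₀ hm']
    linarith
  · rw [dist_eq_norm, ← map_sub Q.ψ, hs2, norm_smul, Real.norm_of_nonneg (inv_nonneg.2 hp.le),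
      ← mul_assoc, mul_inv_cancel₀ hp.ne', one_mul, lin_dif, norm_sub_rev]

/-- **the rescaled blocks of the bricks of a dyadic box foam** -/
theorem exists_blkXi {δ κ0 R M : ℝ} (hR : 1 ≤ R) (hM : 0 < M) {m : ℕ} (hm : 0 < m) {κ : ℝ}
    (hκ : 11 ≤ 2 * κ * m) {La : Set E3} (hLa : IsOpen La) {F : Set (Bx (Fin 3))}
    (bf : BoxFoam La F δ κ0) (cmp : Cmp F R) {o : E3} {u : ℝ} (hu : 0 < u)
    (hdy : ∀ C ∈ F, Dy o u M C) (X : Set F) (A : F → E3 ≃ᵃ[ℝ] E3) (lam : F → ℝ)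
    (hX : ∀ c ∈ X, 0 < lam c ∧ (∃ q : ℚ, lam c = q) ∧ RatA o u (A c)) :
    ∃ s : F → ℝ, (∀ c, 0 < s c) ∧ ∀ i : F → ℕ, ∃ Q : F → CB E3 3,
      (∀ c ∈ X, BlkXi F (BnX R M) (R0X R M) m (HX R M m) κ (i c) c (A c) (lam c) (Q c)) ∧
      ∀ c ∈ X, ∀ y, (Q c).ψ y = (2 ^ i c * s c)⁻¹ • (A c).linear y := by
  classical
  have h3 : Module.finrank ℝ (Fin 3 → ℝ) = 3 := by simp
  have hN : Fintype.card (Fin 3) + 1 ≤ 4 := by simp
  have hQ : Quads (Pc F) (bc (F := F)) := quads_box bf (by simp)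
  have hB0 : 0 < BRM R M := by unfold BRM; positivity
  have hBn : 4 * BRM R M ^ 2 ≤ (BnX R M : ℝ) := by
    unfold BnX
    push_cast
    have := Nat.le_ceil (4 * BRM R M ^ 2)
    linarith
  have hBn1 : 1 ≤ BnX R M := by unfold BnX; omega
  have hm' : (0 : ℝ) < m := by exact_mod_cast hm
  let D : ∀ c : F, Fbr_628.BD (foam bf hLa) h3 c o (BRM R M) := fun c =>
    (Fbr_628.exists_BD bf hLa hR cmp hu hM hdy (foam bf hLa) hN h3 c).some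
  let ll : F → ℝ := fun c => if 0 < lam c then lam c else 1
  have hll : ∀ c, 0 < ll c := fun c => by
    by_cases h : 0 < lam c
    · simp only [ll, if_pos h]; exact h
    · simp only [ll, if_neg h]; exact one_pos
  refine ⟨fun c => ll c * uD (D c) m, fun c => mul_pos (hll c) (uD_pos (D c) hm), fun i => ?_⟩
  refine ⟨fun c => blkDi (D c) hN bf hLa hQ hm one_pos (A c) (hll c) (i c), ?_, ?_⟩
  swap
  · intro c hc y
    have e : 2 ^ i c * (ll c * uD (D c) m) = ll c * uDi (D c) m (i c) := by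
      rw [uDi_eq]; ring
    rw [e]
    rfl
  intro c hc
  obtain ⟨hl, hlq, hrat⟩ := hX c hc
  have hle : ll c = lam c := by simp only [ll, if_pos hl]
  have key : ∀ (x : ℝ) (hx : 0 < x), x = lam c → BlkXi F (BnX R M) (R0X R M) m (HX R M m) κ (i c) c
      (A c) (lam c) (blkDi (D c) hN bf hLa hQ hm one_pos (A c) hx (i c)) := by
    rintro x hx rfl
    refine
      { kc := rfl
        Kc := blkDi_Kc (D c) hN bf hLa hQ hm one_pos (A c) hx (i c)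
        N := blkDi_N (D c) hN bf hLa hQ hm one_pos (A c) hx (i c) (by push_cast; linarith)
        bnd := blkDi_bnd (D c) hN bf hLa hQ hm one_pos (A c) hx (i c) hBn1 hBn
        size := blkDi_size (D c) hN bf hLa hQ hm one_pos (A c) hx (i c) (by unfold R0X; linarith)
          (by unfold R0X; push_cast; linarith)
        H := fun l => ?_
        psi := ⟨lam c * uD (D c) m, mul_pos hx (uD_pos (D c) hm), ?_, fun y => ?_⟩
        rt := blkDi_rt (D c) hN bf hLa hQ hm one_pos (A c) hx (i c) hu hrat (hdy _ c.2) hlq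
        grid := fun k hk => grid_blkDi (D c) hN bf hLa hQ hm one_pos (A c) hx (i c) k hk }
    · have h1 := blkDi_H (D c) hN bf hLa hQ hm one_pos (A c) hx (i c) (Nat.le_ceil _)
        (t0 := 1) (by norm_num) l
      have h2 : HX R M m = HD m ⌈BRM R M⌉₊ 1 := rfl
      rw [h2]
      unfold CB.be CB.al
      linarith
    · have h1 := two_w_le (D c) 0
      have h2 := Bx.side_le_sz c.1 0
      have e : m * (lam c * uD (D c) m) = 8 * (lam c * (D c).w) := by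
        unfold uD
        field_simp
        ring
      rw [e]
      have h4 : lam c * (D c).w ≤ lam c * (c.1.sz / 2) :=
        mul_le_mul_of_nonneg_left (by linarith) hl.le
      linarith
    · have e : 2 ^ i c * (lam c * uD (D c) m) = lam c * uDi (D c) m (i c) := by
        rw [uDi_eq]; ring
      rw [e]
      rfl
  exact key (ll c) (hll c) hle

/-- **blocks with `‖ψ x‖ ≤ ‖x‖`** (`BkX`-form constants: `Bn, R0` before `κ4`, `m0`, `Nb`) -/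
theorem exists_blkXn {R Md : ℝ} (hR : 1 ≤ R) (hM : 0 < Md) :
    ∃ (Bn : ℕ) (R0 : ℝ), 1 ≤ Bn ∧ 1 ≤ R0 ∧ ∀ κ4 : ℝ, 0 < κ4 → ∃ m0 : ℕ, 0 < m0 ∧ ∀ m : ℕ, m0 ≤ m →
      ∃ Nb : ℕ, ∀ {δ κ0 : ℝ} {La : Set E3}, IsOpen La → ∀ {F : Set (Bx (Fin 3))},
        BoxFoam La F δ κ0 → Cmp F R → ∀ {o : E3} {u : ℝ}, 0 < u → (∀ C ∈ F, Dy o u Md C) →
        ∀ (X : Set F) (A : F → E3 ≃ᵃ[ℝ] E3) (lam : F → ℝ),
          (∀ c ∈ X, 0 < lam c ∧ (∃ q : ℚ, lam c = q) ∧ RatA o u (A c)) →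
          ∃ (i : F → ℕ) (Q : F → CB E3 3), ∀ c ∈ X,
            BlkXi F Bn R0 m Nb κ4 (i c) c (A c) (lam c) (Q c) ∧ ∀ y, ‖(Q c).ψ y‖ ≤ ‖y‖ := by
  have hB0 : 0 < BRM R Md := by unfold BRM; positivity
  refine ⟨BnX R Md, R0X R Md, by unfold BnX; omega, by unfold R0X; linarith, fun κ4 hκ4 => ?_⟩
  refine ⟨⌈11 / (2 * κ4)⌉₊ + 1, by omega, fun m hm => ⟨HX R Md m, ?_⟩⟩
  intro δ κ0 La hLa F bf cmp o u hu hdy X A lam hX
  have hm0 : 0 < m := by omega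
  have hκ : 11 ≤ 2 * κ4 * m := by
    have h1 : 11 / (2 * κ4) ≤ m := by
      refine (Nat.le_ceil _).trans ?_
      exact_mod_cast (by omega : ⌈11 / (2 * κ4)⌉₊ ≤ m)
    rw [div_le_iff₀ (by positivity)] at h1
    linarith
  obtain ⟨s, hs, hi⟩ := exists_blkXi hR hM hm0 hκ hLa bf cmp hu hdy X A lam hX
  choose L hL hLA using fun c => lin_le (A c)
  have hex : ∀ c : F, ∃ i : ℕ, L c / s c ≤ 2 ^ i := fun c => by
    obtain ⟨i, hi⟩ := pow_unbounded_of_one_lt (L c / s c) (one_lt_two : (1:ℝ) < 2)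
    exact ⟨i, hi.le⟩
  choose i hi' using hex
  obtain ⟨Q, hQ1, hQ2⟩ := hi i
  refine ⟨i, Q, fun c hc => ⟨hQ1 c hc, fun y => ?_⟩⟩
  have h0 := hs c
  have hp : (0:ℝ) < 2 ^ i c * s c := by positivity
  rw [hQ2 c hc, norm_smul, Real.norm_of_nonneg (inv_nonneg.2 hp.le), inv_mul_le_iff₀ hp]
  refine (hLA c y).trans (mul_le_mul_of_nonneg_right ?_ (norm_nonneg _))
  have h1 := hi' c
  rw [div_le_iff₀ h0] at h1
  exact h1

end

end Crest.Agent.R096.Mdd_360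
end

-- ▼ part R096/Mdn1_360
section

/-!
Row 96 (S0127), helper360.  **MD + RD + (B1) OF `ExBlkN`** (798 #11856, 764): the mesh data of the
pre-translated rescaled blocks for the foam `ΦN`, rooms before the pre-translation, `Cores` and `Fine`
for every cap.
-/

set_option autoImplicit false
set_option linter.style.longLine false
set_option linter.unusedSectionVars false

open MeasureTheory Set Filter Topology Metric

namespace Crest.Agent.R096.Mdd_360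

open Crest.Agent.R096.Bsp_628 Crest.Agent.R096.Brk5_582 Crest.Agent.R096.Brk1_582
open Crest.Agent.R096.Brk2_582 Crest.Agent.R096.Brk3_582
open Crest.Agent.R096.SkC1_961 (E3 FoamD Hom3)
open Crest.Agent.R096.EaX_766 (cbx RatA lin)
open Crest.Agent.R096.Bxs_627 (ctr CoriE zz)
open Crest.Agent.R096.Mal_874 Crest.Agent.R096.Msh_810
open Crest.Agent.R096.Fns_360
open Crest.Agent.R096.Bxc1_635 Crest.Agent.R096.Fnn_635
open Crest.Agent.R096.Dic6_582 (dF kF dF_pos)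
open Crest.Agent.R096.Np_962 (ΦN Md cN_pos cN_le kF_one)
open Crest.Agent.R096.Npr_582 (cN)
open Crest.Agent.R096.Gno_324 (cap capD capD_Om)
open Crest.Agent.R096.Bmd_798 (UX ctu Av)
open Crest.Agent.R096.Mbf_337 (Cores Fine)
open Crest.Agent.R96.Gj_872 (Dy)

noncomputable section

/-- a set over the brick, for the translated map -/
theorem sub_trA {A : E3 ≃ᵃ[ℝ] E3} {c : Bx (Fin 3)} {lam κ τ1 : ℝ} {S : Set E3}
    (hS : S ⊆ A ⁻¹' cbx c ((1 + 2 * κ) * lam)) {w : E3}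
    (hw : ∀ k, |A.linear w k| ≤ τ1 * (lam * c.side k)) :
    S ⊆ trA A w ⁻¹' cbx c ((1 + 2 * (κ + τ1)) * lam) := by
  intro x hx k
  have h2 : |A x k - ctr c k| ≤ (1 + 2 * κ) * lam * c.side k / 2 := hS hx k
  show |trA A w x k - ctr c k| ≤ (1 + 2 * (κ + τ1)) * lam * c.side k / 2
  have h3 : trA A w x k = A x k - A.linear w k := by
    have h4 := congrFun (trA_sub A w x) k
    simp only [Pi.sub_apply] at h4
    linarith
  rw [h3]
  have h5 : A x k - A.linear w k - ctr c k = (A x k - ctr c k) - A.linear w k := by ring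
  rw [h5]
  refine (abs_sub _ _).trans ?_
  have := hw k
  linarith

section cf

variable {La Om : Set E3} {f : E3 → E3} {F : Set (Bx (Fin 3))} {δ κ0 R c0 : ℝ}

/-- **(B1) for every cap**, foam `fN` -/
theorem cf_capN (hLa : IsOpen La) (hδ : 0 < δ) (hR : 0 < R) (bf : BoxFoam La F δ κ0)
    (cmp : Cmp F R) (hκ0 : 1 ≤ κ0) (hc : 0 < c0) (hc2 : c0 * (8 * κ0) ≤ 1) (lam : F → ℝ)
    (hl : ∀ c, 0 < lam c) (hl4 : ∀ c, lam c ≤ 1 / 4) {lam0 : ℝ} (h00 : 0 < lam0)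
    (hl0 : ∀ c, lam0 ≤ lam c) {κ1 κ2 τ η ε κm : ℝ} (hκ1 : 0 ≤ κ1) (hτ : 0 < τ) (hτ2 : τ ≤ κ2)
    (h2 : κ2 ≤ 1 / 4) (hκ8 : (κ1 + τ) * κ0 ≤ 1 / 8) (hκ12 : (κ1 + τ) * κ0 ≤ κ2 - τ)
    (hκm : κ1 + τ ≤ κm)
    {A : F → E3 ≃ᵃ[ℝ] E3} (hcor : ∀ c, CoriE Om f (A c) c.1 (lam c) κ1 κ2)
    {M : MD E3 3 (UX F)} (hφ : M.φ = ContinuousLinearEquiv.refl ℝ E3) (hOmM : M.φ ⁻¹' M.D0.Om = Om)
    (hK : ∀ j : UX F, (M.Q j).Kc = A j.1 ⁻¹' cbx j.1.1 (lam j.1))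
    (hroom : ∀ j : UX F, cthickening (M.r j) (M.Q j).N ⊆
      A j.1 ⁻¹' cbx j.1.1 ((1 + 2 * κ2) * lam j.1))
    (hsm : ∀ (j : UX F) (v : E3), ‖v‖ ≤ M.r j → ‖(A j.1).linear v‖ ≤ τ * (lam j.1 * j.1.1.sz) ∧
        ∀ k, |(A j.1).linear v k| ≤ τ * (lam j.1 * j.1.1.side k)) (X : RD M)
    {uA : UX F → ℝ} (huA0 : ∀ j, 0 ≤ uA j)
    (huA : ∀ j : UX F, ∀ x y, ‖A j.1 y - A j.1 x‖ ≤ uA j * dist ((M.Q j).ψ x) ((M.Q j).ψ y))
    (hη : ∀ j : UX F, uA j * (X.R j / 2 ^ (M.Q j).kc) ≤ η * j.1.1.sz)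
    (hε : KIT δ κ0 R c0 lam0 * (η + 2 * (κ1 + τ)) ≤ ε)
    (hF : ∀ x ∈ Om, FineS (fN bf cmp hκ0 hc hc2 lam hl hl4) f ε
      (closedBall x (M.D0.ρ x) ∩ (Om ∩ offO f (O34 lam))))
    (c : ℝ) (hc' : 0 < c) (k : UX F → ℕ) (hk : (cap M c hc').Sc k) (a : Fin 3 → ℝ)
    (v : UX F → E3) (hv : (cap M c hc').Adm v) :
    Cores (fN bf cmp hκ0 hc hc2 lam hl hl4) ((cap M c hc').mesh hk a hv) f κm (κ2 - τ) univ
      (fun b => {ctu (cap M c hc') hk a hv b}) (fun b => {ctu (cap M c hc') hk a hv b})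
      (fun b => {ctu (cap M c hc') hk a hv b}) (ctu (cap M c hc') hk a hv) (Av A v) lam
      (fun c => zz c.1 (lam c)) (fun _ x => x) (fun _ _ => 0) ∧
    Fine (fN bf cmp hκ0 hc hc2 lam hl hl4) ((cap M c hc').mesh hk a hv) f ε
      (fun b => {ctu (cap M c hc') hk a hv b}) := by
  have h := cf_B (Equiv.Set.univ F) (cap M c hc') hk a hv hLa hδ hR bf cmp hκ0 hc hc2 lam hl hl4 h00
    hl0 (f := f) (Om := Om) hκ1 hτ hτ2 h2 hκ8 hκ12 hcor hφ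
    ((Pgb_120.cap_Om hc').trans hOmM) hK hroom hsm
    (Pgb_120.capX X c hc') huA0 huA hη hε (fun x hx => (hF x hx).mono (by
      refine inter_subset_inter_left _ (closedBall_subset_closedBall ?_)
      exact min_le_left _ _))
  refine ⟨?_, h.2⟩
  exact Pmc_112.cores_mono hκm h.1

end cf

theorem Md_pos {q : ℕ} (hq : 1 ≤ q) : 0 < Md q := by
  have : (1 : ℝ) ≤ q := by exact_mod_cast hq
  unfold Md
  exact lt_max_of_lt_right (by linarith)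

/-- **MD + RD + (B1) of `ExBlkN`.**  Constants: `Bn R0` after `q`; `m` (subdivisions), `Nb` (size), `κs`
(smallness of the closeness `κ1f`, of the pre-translations `τ1` and of the room `τ`) after `lam0, κ1`. -/
theorem mdN {q : ℕ} (hq : 1 ≤ q) : ∃ (Bn : ℕ) (R0 : ℝ), 1 ≤ Bn ∧ 1 ≤ R0 ∧
    ∀ lam0 κ1 : ℝ, 0 < lam0 → 0 < κ1 → κ1 * kF q ≤ 1 / 32 →
    ∃ (m Nb : ℕ) (κs : ℝ), 0 < m ∧ 0 < κs ∧ κs ≤ 1 / 256 ∧ κs ≤ κ1 ∧
    ∀ κ1f τ1 τ : ℝ, 0 ≤ κ1f → κ1f ≤ κs → 0 ≤ τ1 → τ1 ≤ κs → 0 < τ → τ ≤ κs →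
    ∀ (Om La : Set E3) (f1 : E3 → E3), IsOpen Om → IsOpen La → Hom3 f1 Om La →
    ∀ (h : ℝ) (al : Fin 3 → ℝ) (F : Set (Bx (Fin 3))) (bf : BoxFoam La F (dF q) (kF q))
      (cmp : Cmp F 6) (lam : F → ℝ) (hl : ∀ c, 0 < lam c) (hl4 : ∀ c, lam c ≤ 1 / 4)
      (A : F → E3 ≃ᵃ[ℝ] E3), 0 < h → (∀ Q ∈ F, Bsp_628.Dy al h (Md q) Q) →
      (∀ c, lam0 ≤ lam c ∧ ∃ r : ℚ, lam c = r) → (∀ c, RatA al h (A c)) →
      (∀ c, CoriE Om f1 (A c) c.1 (lam c) κ1f (1 / 8)) →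
    ∀ D0 : Dat 3, 6 ≤ D0.C → D0.Om = Om →
      (∀ u ∈ Om, FineS (ΦN bf cmp lam hl hl4) f1 κ1
        (closedBall u (D0.ρ u) ∩ (Om ∩ offO f1 (O34 lam)))) →
    ∃ (i : F → ℕ) (Q0 : F → CB E3 3),
      (∀ c, BlkXi F Bn R0 m Nb (1 / 64) (i c) c (A c) (lam c) (Q0 c)) ∧
      (∀ c y, ‖(Q0 c).ψ y‖ ≤ ‖y‖) ∧
      ∃ r : UX F → ℝ, (∀ j, 0 < r j) ∧
        (∀ (j : UX F) (v : E3), ‖v‖ ≤ r j → ‖(A j.1).linear v‖ ≤ τ * (lam j.1 * j.1.1.sz) ∧
          ∀ k, |(A j.1).linear v k| ≤ τ * (lam j.1 * j.1.1.side k)) ∧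
        ∀ w0 : F → E3, (∀ c : F, ‖(A c).linear (w0 c)‖ ≤ τ1 * (lam c * c.1.sz) ∧
            ∀ k, |(A c).linear (w0 c) k| ≤ τ1 * (lam c * c.1.side k)) →
          ∀ κw : F → ℕ, (∀ c, w0 c ∈ Dy (ContinuousLinearEquiv.refl ℝ E3) (κw c)) →
          ∃ (M : MD E3 3 (UX F)) (Y : RD M), M.φ = ContinuousLinearEquiv.refl ℝ E3 ∧ M.D0 = D0 ∧
            (M.Q = fun j => (Q0 j.1).tr (w0 j.1)) ∧ M.r = r ∧ M.φ ⁻¹' M.D0.Om = Om ∧
            (Y.B = fun _ => Bn) ∧ (Y.R = fun _ => R0) ∧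
            (∀ j l, ∃ z : ℤ, 2 ^ κw j.1 * (Y.d j : ℝ) * (M.Q j).a' l = z) ∧
            (∀ j x, ‖(M.Q j).ψ x‖ ≤ ‖x‖) ∧
            (∀ j, (M.Q j).N ⊆ A j.1 ⁻¹' cbx j.1.1 ((1 + 2 * (1 / 8)) * lam j.1)) ∧
            ∀ (c : ℝ) (hc : 0 < c) (k : UX F → ℕ) (hk : (cap M c hc).Sc k) (a : Fin 3 → ℝ)
              (v : UX F → E3) (hv : (cap M c hc).Adm v),
              Cores (ΦN bf cmp lam hl hl4) ((cap M c hc).mesh hk a hv) f1 κ1 (1 / 16) univ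
                (fun b => {ctu (cap M c hc) hk a hv b}) (fun b => {ctu (cap M c hc) hk a hv b})
                (fun b => {ctu (cap M c hc) hk a hv b}) (ctu (cap M c hc) hk a hv)
                (Av (fun c => trA (A c) (w0 c)) v) lam
                (fun c => zz c.1 (lam c)) (fun _ x => x) (fun _ _ => 0) ∧
              Fine (ΦN bf cmp lam hl hl4) ((cap M c hc).mesh hk a hv) f1 κ1
                (fun b => {ctu (cap M c hc) hk a hv b}) := by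
  obtain ⟨Bn, R0, hBn, hR0, H⟩ := exists_blkXn (R := 6) (Md := Md q) (by norm_num) (Md_pos hq)
  refine ⟨Bn, R0, hBn, hR0, fun lam0 κ1 hlam0 hκ1 hκ1F => ?_⟩
  obtain ⟨m0, hm0, H⟩ := H (1 / 64) (by norm_num)
  set K : ℝ := |KIT (dF q) (kF q) 6 (cN q) lam0| + 1 with hK
  have hK1 : 1 ≤ K := by
    have := abs_nonneg (KIT (dF q) (kF q) 6 (cN q) lam0)
    linarith
  have hK0 : 0 < K := by linarith
  set η : ℝ := κ1 / (4 * K) with hη
  have hη0 : 0 < η := by positivity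
  set κe : ℝ := κ1 / (8 * K) with hκe
  have hκe0 : 0 < κe := by positivity
  have hκeK : κe ≤ κ1 := by
    rw [hκe, div_le_iff₀ (by positivity)]
    nlinarith
  obtain ⟨m1, hm1⟩ := exists_nat_gt (R0 / (2 * η))
  set m : ℕ := max m0 m1 with hm
  have hmm0 : m0 ≤ m := le_max_left _ _
  have hmm1 : (m1 : ℝ) ≤ m := by exact_mod_cast le_max_right m0 m1
  have hmp : 0 < m := hm0.trans_le hmm0
  have hmp' : (0 : ℝ) < m := by exact_mod_cast hmp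
  have hmη : R0 / (2 * m) ≤ η := by
    have h1 : R0 / (2 * η) ≤ m := hm1.le.trans hmm1
    rw [div_le_iff₀ (by positivity)] at h1 ⊢
    linarith
  obtain ⟨Nb, H⟩ := H m hmm0
  set κs : ℝ := min (κe / 3) (1 / 256) with hκs
  have hκs0 : 0 < κs := lt_min (by positivity) (by norm_num)
  have hκse : κs ≤ κe / 3 := min_le_left _ _
  have hκs2 : κs ≤ 1 / 256 := min_le_right _ _
  refine ⟨m, Nb, κs, hmp, hκs0, hκs2, hκse.trans (by linarith), ?_⟩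
  intro κ1f τ1 τ hκf0 hκf hτ10 hτ1 hτ0 hτ Om La f1 hOm hLa hf h al F bf cmp lam hl hl4 A hh hdy
    hlam hrat hcor D0 hC hD hF
  have hκ0 : 1 ≤ kF q := kF_one q
  obtain ⟨i, Q0, hQ⟩ := H hLa bf cmp hh hdy univ A lam fun c _ => ⟨hl c, (hlam c).2, hrat c⟩
  have hQ1 : ∀ c, BlkXi F Bn R0 m Nb (1 / 64) (i c) c (A c) (lam c) (Q0 c) := fun c =>
    (hQ c (mem_univ c)).1
  have hQ2 : ∀ c y, ‖(Q0 c).ψ y‖ ≤ ‖y‖ := fun c => (hQ c (mem_univ c)).2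
  refine ⟨i, Q0, hQ1, hQ2, ?_⟩
  have hsum : κ1f + τ1 + τ ≤ κe := by linarith
  have hgap : ∀ j : UX F, (1 / 2 + 1 / 32) * lam j.1 + κ1f * kF q * lam j.1 < 1 / 2 := by
    intro j
    have h1 := hl j.1
    have h2 := hl4 j.1
    have h3 : κ1f * kF q ≤ 1 / 32 := by
      refine le_trans (mul_le_mul_of_nonneg_right ?_ (by linarith)) hκ1F
      linarith
    nlinarith
  have hcor3 : ∀ j : UX F, CoriE Om f1 (A j.1) j.1.1 (lam j.1) κ1f (1 / 32) := fun j =>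
    Exg_766.cori_mono (hcor j.1) (bf.pos _ j.1.2) (hl j.1).le le_rfl (by norm_num)
  obtain ⟨r, hr0, -, hr2, -, hr⟩ := md_genU hOm hf bf (J := UX F) (b := fun j => j.1)
    Subtype.val_injective (A := fun j => A j.1) (lam := fun j => lam j.1) (fun j => hl j.1)
    (κ1 := κ1f) (κ2 := 1 / 32) (κ3 := 1 / 64 + τ1) (τ := τ) (by linarith) hκf0 hτ0 hgap hcor3 hD hC
    (η := fun _ => 1) (fun _ => one_pos)
  refine ⟨r, hr0, hr2, fun w0 hw0 κw hκw => ?_⟩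
  obtain ⟨M, h1, h2, h3, h4, h5, h6⟩ := hr (fun j : UX F => (Q0 j.1).tr (w0 j.1)) fun j =>
    n_tr_cbx (hQ1 j.1).N fun k => ((hw0 j.1).2 k).trans (le_of_eq (by ring))
  -- rational data
  choose Bm d hd hrt ha using fun j : UX F => (hQ1 j.1).rt
  choose cc hcc hcn using fun j : UX F => exists_cn (ContinuousLinearEquiv.refl ℝ E3) (Q0 j.1).ψ
  obtain ⟨Y, -, -, -, hYB, hYR, hYc⟩ := exists_RD_tr M (Q0 := fun j : UX F => Q0 j.1)
    (w0 := fun j => w0 j.1) h3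
    (κ0 := fun _ => 0) (κ := fun j => κw j.1) (fun _ => Nat.zero_le _) hd (by rw [h1]; exact hrt)
    (fun j l => by
      obtain ⟨z, hz⟩ := ha j l
      exact ⟨z, by rw [pow_zero, one_mul]; exact hz⟩)
    (fun j l => by rw [h1]; exact hκw j.1 l) (fun _ => Bn) (fun _ => hBn)
    (fun j i p hp l => (hQ1 j.1).bnd i p hp l) (fun _ => R0) (fun _ => hR0)
    (fun j i hi u hu v hv l => (hQ1 j.1).size i hi u hu v hv l) (c := cc) hcc
    (by rw [h1]; exact hcn)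
  refine ⟨M, Y, h1, h2, h3, h4, h5, hYB, hYR, hYc, ?_, ?_, ?_⟩
  · intro j x
    rw [h3]
    exact hQ2 j.1 x
  · intro j
    rw [h3]
    refine (n_tr_cbx (κ3 := 1 / 64 + τ1) (hQ1 j.1).N fun k => ((hw0 j.1).2 k).trans
      (le_of_eq (by ring))).trans ?_
    refine preimage_mono (cbx_mono (bf.pos _ j.1.2) ?_)
    have := hl j.1
    nlinarith
  · intro c hc k hk a v hv
    choose uA huA0 huA1 huA using fun j : UX F => (hQ1 j.1).exists_uA hmp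
    have hcf := cf_capN (Om := Om) (f := f1) (κ1 := κ1f + τ1) (κ2 := 1 / 16 + τ) (τ := τ) (η := η)
      (ε := κ1) (κm := κ1) hLa (dF_pos hq) (by norm_num : (0:ℝ) < 6) bf cmp (kF_one q) (cN_pos q)
      (cN_le q) lam hl hl4 hlam0 (fun c => (hlam c).1) (by linarith) hτ0 (by linarith)
      (by linarith)
      (by
        have h7 : (κ1f + τ1 + τ) * kF q ≤ κ1 * kF q :=
          mul_le_mul_of_nonneg_right (by linarith) (by linarith)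
        linarith)
      (by
        have h7 : (κ1f + τ1 + τ) * kF q ≤ κ1 * kF q :=
          mul_le_mul_of_nonneg_right (by linarith) (by linarith)
        linarith)
      (by linarith)
      (A := fun c => trA (A c) (w0 c))
      (fun c => by
        refine cor_tr' (hcor c) ((hw0 c).1.trans (le_of_eq (by ring))) fun k =>
          ((hw0 c).2 k).trans ?_
        have h7 := hl c
        have h8 := Bx.side_pos (bf.pos _ c.2) k
        exact mul_le_mul_of_nonneg_right (by linarith) (by positivity))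
      h1 h5
      (fun j => by
        rw [h3]
        exact kc_tr (hQ1 j.1).Kc (w0 j.1))
      (fun j => by
        refine (sub_trA (h6 j) (hw0 j.1).2).trans ?_
        refine preimage_mono (cbx_mono (bf.pos _ j.1.2) ?_)
        have := hl j.1
        nlinarith)
      (fun j v hv => by
        simp only [trA_linear]
        rw [h4] at hv
        exact hr2 j v hv)
      Y (uA := uA) huA0
      (fun j x y => by
        rw [h3]
        exact uA_tr (huA j) (w0 j.1) x y)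
      (fun j => by
        rw [hYR, h3]
        have e : ((Q0 j.1).tr (w0 j.1)).kc = 3 + i j.1 := (hQ1 j.1).kc
        rw [e]
        have h7 := huA1 j
        have h8 := Bx.sz_pos (bf.pos _ j.1.2)
        have h9 : lam j.1 ≤ 1 := (hl4 j.1).trans (by norm_num)
        have h10 := hl j.1
        have h11 : 4 / m * (lam j.1 * j.1.1.sz) ≤ 4 / m * j.1.1.sz := by
          have : lam j.1 * j.1.1.sz ≤ j.1.1.sz := by nlinarith
          exact mul_le_mul_of_nonneg_left this (by positivity)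
        have hp : (0:ℝ) < 2 ^ i j.1 := by positivity
        calc uA j * (R0 / 2 ^ (3 + i j.1))
            ≤ (2 ^ i j.1 * (4 / m * j.1.1.sz)) * (R0 / 2 ^ (3 + i j.1)) := by
              have : uA j ≤ 2 ^ i j.1 * (4 / m * j.1.1.sz) :=
                h7.trans (mul_le_mul_of_nonneg_left h11 hp.le)
              gcongr
          _ = R0 / (2 * m) * j.1.1.sz := by
              rw [pow_add]
              field_simp
              ring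
          _ ≤ η * j.1.1.sz := mul_le_mul_of_nonneg_right hmη h8.le)
      (by
        have h7 : KIT (dF q) (kF q) 6 (cN q) lam0 ≤ K := by
          have := le_abs_self (KIT (dF q) (kF q) 6 (cN q) lam0)
          linarith
        have h8 : 0 ≤ η + 2 * (κ1f + τ1 + τ) := by linarith
        calc KIT (dF q) (kF q) 6 (cN q) lam0 * (η + 2 * (κ1f + τ1 + τ))
            ≤ K * (η + 2 * (κ1f + τ1 + τ)) := mul_le_mul_of_nonneg_right h7 h8
          _ ≤ K * (η + 2 * κe) := by gcongr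
          _ = κ1 / 2 := by rw [hη, hκe]; field_simp; ring
          _ ≤ κ1 := by linarith)
      (by rw [h2]; exact hF) c hc k hk a v hv
    have e16 : (1 / 16 + τ - τ : ℝ) = 1 / 16 := by ring
    rw [e16] at hcf
    exact hcf

end

end Crest.Agent.R096.Mdd_360
end

-- ▼ part R096/Bpn2_635
section

/-!
Row 96 (S0127), NO0 for `p ≥ 3` (helper635): **(B2) of the foam `fN`, C-form** (120's `b2_goodC`: `Cores` at any
`κ1`, closeness `κw` on the boundary of the core tiles only): `b2_anyC` for ANY foam whose push is radial off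
the `3/4` cores, `b2_NC` for `fN`.
-/

set_option autoImplicit false
set_option linter.unusedSectionVars false
set_option linter.style.longLine false
set_option linter.unusedVariables false

open Set Filter Topology Metric MeasureTheory
open scoped ENNReal

namespace Crest.Agent.R096.Bpn_635

open Crest.Agent.R096.Bsp_628 Crest.Agent.R096.Brk1_582
open Crest.Agent.R096.Bxs_627 (zz ctr cb CoriE)
open Crest.Agent.R096.Brk3_582 Crest.Agent.R096.Brk5_582 Crest.Agent.R096.Core_124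
open Crest.Agent.R096.Msh_715 Crest.Agent.R096.Ls_222 Crest.Agent.R96.Sg1_199
open Crest.Agent.R096.SkC1_961 (E3 FoamD Hom3 th)
open Crest.Agent.R096.Mbf_337 (sb Cores Exact Words)
open Crest.Agent.R096.EaX_766 (lin cbx)
open Crest.Agent.R096.Exa_365 (GoodW)
open Crest.Agent.R096.Mal_874 Crest.Agent.R096.Msh_810
open Crest.Agent.R96.Acl_392 (ACLat)
open Crest.Agent.R96.Pm_199 (Dec)
open Crest.Agent.R096.Fns_360 Crest.Agent.R096.Mdd_360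
open Crest.Agent.R096.Ea0_961 (cb0)
open Crest.Agent.R096.Wd_120 (mu rp CoreAt words_blk_goodC words_mok)
open Crest.Agent.R096.Bxc1_635 Crest.Agent.R096.Fnn_635
open Crest.Agent.R96.Eam_466 (FineX FineT)

noncomputable section

/-- **(B2), `GoodW` form, ANY FOAM** whose push is radial off the `3/4` cores (120's `b2_good`;
`Q` = the ORIGINAL blocks, `w` = the total translation) -/
theorem b2_anyC {δ κ0 R : ℝ} (hδ : 0 < δ) (hκ : 1 ≤ κ0) (hR : 1 ≤ R) {κp lam0 lam1 : ℝ}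
    (hκp : 0 < κp) (hl0 : 0 < lam0) (hl1 : lam1 < 1) (Mx : ℕ) :
    ∃ κw : ℝ, 0 < κw ∧ ∀ (La Om : Set E3), IsOpen La → ∀ (c0 : ℝ) (Φ : FoamD δ κ0 R c0 La)
      (X : Set Φ.F) (lam : Φ.F → ℝ),
      (∀ c ∈ X, ∀ y ∈ Pc Φ.F c, 3 / 4 * lam c ≤ mu c.1 y → Φ.pu c y = rp c.1 y) →
      ∀ (f : E3 → E3) (p : ℝ), 1 ≤ p → ContinuousOn f Om →
      ∀ (D : E3 → E3 →L[ℝ] E3) (κ1 κ2 μ : ℝ), 0 ≤ κ2 → 0 < μ →
      ∀ (Q : X → CB E3 3) (k0 : X → ℕ) (hk : ∀ c, (Q c).kc ≤ k0 c) (A0 : X → E3 ≃ᵃ[ℝ] E3)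
      (w : X → E3) (Mc : X → ℕ) (η : ℝ≥0∞),
      (∀ c ∈ X, lam0 ≤ lam c ∧ lam c ≤ lam1) → (∀ c, Mc c ≤ Mx) →
      (∀ c : X, 0 < Mc c ∧ ∀ x ∈ (Q c).Kc,
        x ∉ I (((Q c).T (k0 c) (hk c)).H ((Q c).cix (k0 c) (hk c))) →
        ((Q c).T (k0 c) (hk c)).cc x = {y | y ∈ (Q c).Kc ∧ ∀ a : Φ.F,
          (⌊Mc c * sc (Pc Φ.F) (bc (F := Φ.F)) (th (A0 c) (lam c) (zz c.1.1 (lam c)) x) a⌋₊ : ℝ) ≤
            Mc c * sc (Pc Φ.F) (bc (F := Φ.F)) (th (A0 c) (lam c) (zz c.1.1 (lam c)) y) a ∧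
          Mc c * sc (Pc Φ.F) (bc (F := Φ.F)) (th (A0 c) (lam c) (zz c.1.1 (lam c)) y) a ≤
            ⌈Mc c * sc (Pc Φ.F) (bc (F := Φ.F)) (th (A0 c) (lam c) (zz c.1.1 (lam c)) x) a⌉₊} ∧
        ((Q c).T (k0 c) (hk c)).dim x = {a : Φ.F |
          ⌊Mc c * sc (Pc Φ.F) (bc (F := Φ.F)) (th (A0 c) (lam c) (zz c.1.1 (lam c)) x) a⌋₊ <
          ⌈Mc c * sc (Pc Φ.F) (bc (F := Φ.F)) (th (A0 c) (lam c) (zz c.1.1 (lam c)) x) a⌉₊}.ncard) →
      η ≠ ∞ → (η ^ (1 / p)).toReal ≤ κw →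
      (∀ c : X, GoodW p Om f D (A0 c)
        (fun e : {e // e ∈ eIn ((Q c).T (k0 c) (hk c)) ((Q c).cix (k0 c) (hk c))} => ea e.1)
        (fun e => ev e.1) η (w c)) →
      ∀ D0 : Dec Om Φ.F, Cores Φ D0.T f κ1 κ2 X D0.J0 D0.J D0.V D0.ct D0.A D0.lam D0.z
        D0.θ D0.φ →
      (∀ c : X, D0.lam c = lam c ∧ D0.z c = zz c.1.1 (lam c) ∧ D0.A c = trA (A0 c) (w c) ∧
        D0.M c = Mc c ∧ CoreAt D0.T (D0.ct c) ((Q c).tr (w c))) →
      (∀ c : X, ∀ x ∈ P (D0.T.H (D0.ct c)), x ∉ interior (P (D0.T.H (D0.ct c))) →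
        ‖f x - D0.A c x‖ ≤ κw * (lam c * c.1.1.sz)) →
      ∃ Bad : Φ.F → Set ℝ, (∀ c, MeasurableSet (Bad c)) ∧
        (∀ c, volume (Bad c ∩ Icc 0 1) ≤ ENNReal.ofReal (κp / 32)) ∧
        ∀ L : Φ.F → Finset ℝ, (∀ c, ∀ t ∈ L c, μ ≤ t ∧ t ≤ 1 - μ) →
          (∀ c, ∀ t ∈ L c, t ∉ Bad c) →
            Words Φ D0.T f X D0.ct D0.A D0.lam D0.z D0.M L := by
  classical
  obtain ⟨κw, hκw, HH⟩ := words_blk_goodC hδ hκ hR (κb := κp / 32) (by positivity) hl0 hl1 Mx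
  refine ⟨κw, hκw, ?_⟩
  intro La Om hLa c0 Φ X lam hpush f p hp hf D κ1 κ2 μ hκ2 hμ Q k0 hk A0 w Mc η hlam hM
    hgrid hη hηw hgood D0 hC hD hclo
  let Q' : Φ.F → CB E3 3 := fun c => if h : c ∈ X then Q ⟨c, h⟩ else cb0
  let k0' : Φ.F → ℕ := fun c => if h : c ∈ X then k0 ⟨c, h⟩ else cb0.kc
  let A' : Φ.F → E3 ≃ᵃ[ℝ] E3 := fun c => if h : c ∈ X then A0 ⟨c, h⟩ else AffineEquiv.refl ℝ E3
  let w' : Φ.F → E3 := fun c => if h : c ∈ X then w ⟨c, h⟩ else 0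
  have eQ : ∀ c (h : c ∈ X), Q' c = Q ⟨c, h⟩ := fun c h => dif_pos h
  have ek : ∀ c (h : c ∈ X), k0' c = k0 ⟨c, h⟩ := fun c h => dif_pos h
  have eA : ∀ c (h : c ∈ X), A' c = A0 ⟨c, h⟩ := fun c h => dif_pos h
  have ew : ∀ c (h : c ∈ X), w' c = w ⟨c, h⟩ := fun c h => dif_pos h
  have hk' : ∀ c, (Q' c).kc ≤ k0' c := by
    intro c
    by_cases h : c ∈ X
    · rw [eQ c h, ek c h]; exact hk _
    · show (if h : c ∈ X then Q ⟨c, h⟩ else cb0).kc ≤ (if h : c ∈ X then k0 ⟨c, h⟩ else cb0.kc)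
      rw [dif_neg h, dif_neg h]
  refine words_mok (Φ := Φ) hμ ?_
  refine HH La Om hLa _ Φ D0.ι D0.T f p hp hf D κ1 κ2 hκ2 X D0.ct
    D0.A D0.lam D0.z D0.M Q' k0' hk' A' w' η hC.exact_ ?_ ?_ ?_ ?_ ?_ ?_ ?_ ?_ hη hηw ?_
  · intro c hc x hx hx'
    have h1 := hclo ⟨c, hc⟩ x hx hx'
    rw [(hD ⟨c, hc⟩).1]
    exact h1
  · intro c hc
    have h1 := hD ⟨c, hc⟩
    rw [h1.2.1, h1.1]
  · intro c hc
    rw [eQ c hc, ew c hc]
    exact (hD ⟨c, hc⟩).2.2.2.2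
  · intro c hc y
    rw [eA c hc, ew c hc, (hD ⟨c, hc⟩).2.2.1, trA_apply]
  · intro c hc
    obtain ⟨h1, h2, h3, h4, h5⟩ := hD ⟨c, hc⟩
    have h6 := hgrid ⟨c, hc⟩
    have e1 : D0.M c = Mc ⟨c, hc⟩ := h4
    have e2 : D0.z c = zz c.1 (lam c) := h2
    have e3 : D0.lam c = lam c := h1
    have key : ∀ (Qa : CB E3 3) (ka : ℕ) (ha : Qa.kc ≤ ka) (Aa : E3 ≃ᵃ[ℝ] E3), Qa = Q ⟨c, hc⟩ →
        ka = k0 ⟨c, hc⟩ → Aa = A0 ⟨c, hc⟩ →
        0 < Mc ⟨c, hc⟩ ∧ ∀ x ∈ Qa.Kc, x ∉ I ((Qa.T ka ha).H (Qa.cix ka ha)) →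
        (Qa.T ka ha).cc x = {y | y ∈ Qa.Kc ∧ ∀ a : Φ.F,
          (⌊Mc ⟨c, hc⟩ * sc (Pc Φ.F) (bc (F := Φ.F)) (th Aa (lam c) (zz c.1 (lam c)) x) a⌋₊ : ℝ) ≤
            Mc ⟨c, hc⟩ * sc (Pc Φ.F) (bc (F := Φ.F)) (th Aa (lam c) (zz c.1 (lam c)) y) a ∧
          Mc ⟨c, hc⟩ * sc (Pc Φ.F) (bc (F := Φ.F)) (th Aa (lam c) (zz c.1 (lam c)) y) a ≤
            ⌈Mc ⟨c, hc⟩ * sc (Pc Φ.F) (bc (F := Φ.F)) (th Aa (lam c) (zz c.1 (lam c)) x) a⌉₊} ∧
        (Qa.T ka ha).dim x = {a : Φ.F |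
          ⌊Mc ⟨c, hc⟩ * sc (Pc Φ.F) (bc (F := Φ.F)) (th Aa (lam c) (zz c.1 (lam c)) x) a⌋₊ <
          ⌈Mc ⟨c, hc⟩ * sc (Pc Φ.F) (bc (F := Φ.F)) (th Aa (lam c) (zz c.1 (lam c)) x) a⌉₊}.ncard := by
      rintro Qa ka ha Aa rfl rfl rfl
      exact h6
    rw [e1, e2, e3]
    exact key (Q' c) (k0' c) (hk' c) (A' c) (eQ c hc) (ek c hc) (eA c hc)
  · intro c hc
    rw [(hD ⟨c, hc⟩).2.2.2.1]; exact hM _
  · intro c hc
    rw [(hD ⟨c, hc⟩).1]; exact hlam c hc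
  · intro c hc
    have e3 : D0.lam c = lam c := (hD ⟨c, hc⟩).1
    rw [e3]
    exact hpush c hc
  · intro c hc
    have key : ∀ (Qa : CB E3 3) (ka : ℕ) (ha : Qa.kc ≤ ka) (Aa : E3 ≃ᵃ[ℝ] E3) (wa : E3),
        Qa = Q ⟨c, hc⟩ → ka = k0 ⟨c, hc⟩ → Aa = A0 ⟨c, hc⟩ → wa = w ⟨c, hc⟩ →
        GoodW p Om f D Aa (fun e : {e // e ∈ eIn (Qa.T ka ha) (Qa.cix ka ha)} => ea e.1)
          (fun e => ev e.1) η wa := by
      rintro Qa ka ha Aa wa rfl rfl rfl rfl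
      exact hgood ⟨c, hc⟩
    exact key (Q' c) (k0' c) (hk' c) (A' c) (w' c) (eQ c hc) (ek c hc) (eA c hc) (ew c hc)

/-- **(B2) for `fN`** (all bricks exact or any `X`), `lam1 = 1 / 4` -/
theorem b2_NC {δ κ0 R : ℝ} (hδ : 0 < δ) (hκ : 1 ≤ κ0) (hR : 1 ≤ R) {κp lam0 : ℝ}
    (hκp : 0 < κp) (hl0 : 0 < lam0) (Mx : ℕ) :
    ∃ κw : ℝ, 0 < κw ∧ ∀ (La Om : Set E3), IsOpen La → ∀ (F : Set (Bx (Fin 3)))
      (bf : BoxFoam La F δ κ0) (cmp : Cmp F R) (c0 : ℝ) (hc : 0 < c0) (hc2 : c0 * (8 * κ0) ≤ 1)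
      (lam : F → ℝ) (hl : ∀ c, 0 < lam c) (hl4 : ∀ c, lam c ≤ 1 / 4), (∀ c, lam0 ≤ lam c) →
      ∀ (X : Set F) (f : E3 → E3) (p : ℝ), 1 ≤ p → ContinuousOn f Om →
      ∀ (D : E3 → E3 →L[ℝ] E3) (κ1 κ2 μ : ℝ), 0 ≤ κ2 → 0 < μ →
      ∀ (Q : X → CB E3 3) (k0 : X → ℕ) (hk : ∀ c, (Q c).kc ≤ k0 c) (A0 : X → E3 ≃ᵃ[ℝ] E3)
      (w : X → E3) (Mc : X → ℕ) (η : ℝ≥0∞), (∀ c, Mc c ≤ Mx) →
      (∀ c : X, 0 < Mc c ∧ ∀ x ∈ (Q c).Kc,
        x ∉ I (((Q c).T (k0 c) (hk c)).H ((Q c).cix (k0 c) (hk c))) →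
        ((Q c).T (k0 c) (hk c)).cc x = {y | y ∈ (Q c).Kc ∧ ∀ a : F,
          (⌊Mc c * sc (Pc F) (bc (F := F)) (th (A0 c) (lam c) (zz c.1.1 (lam c)) x) a⌋₊ : ℝ) ≤
            Mc c * sc (Pc F) (bc (F := F)) (th (A0 c) (lam c) (zz c.1.1 (lam c)) y) a ∧
          Mc c * sc (Pc F) (bc (F := F)) (th (A0 c) (lam c) (zz c.1.1 (lam c)) y) a ≤
            ⌈Mc c * sc (Pc F) (bc (F := F)) (th (A0 c) (lam c) (zz c.1.1 (lam c)) x) a⌉₊} ∧
        ((Q c).T (k0 c) (hk c)).dim x = {a : F |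
          ⌊Mc c * sc (Pc F) (bc (F := F)) (th (A0 c) (lam c) (zz c.1.1 (lam c)) x) a⌋₊ <
          ⌈Mc c * sc (Pc F) (bc (F := F)) (th (A0 c) (lam c) (zz c.1.1 (lam c)) x) a⌉₊}.ncard) →
      η ≠ ∞ → (η ^ (1 / p)).toReal ≤ κw →
      (∀ c : X, GoodW p Om f D (A0 c)
        (fun e : {e // e ∈ eIn ((Q c).T (k0 c) (hk c)) ((Q c).cix (k0 c) (hk c))} => ea e.1)
        (fun e => ev e.1) η (w c)) →
      ∀ D0 : Dec Om F, Cores (fN bf cmp hκ hc hc2 lam hl hl4) D0.T f κ1 κ2 X D0.J0 D0.J D0.V D0.ct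
        D0.A D0.lam D0.z D0.θ D0.φ →
      (∀ c : X, D0.lam c = lam c ∧ D0.z c = zz c.1.1 (lam c) ∧ D0.A c = trA (A0 c) (w c) ∧
        D0.M c = Mc c ∧ CoreAt D0.T (D0.ct c) ((Q c).tr (w c))) →
      (∀ c : X, ∀ x ∈ P (D0.T.H (D0.ct c)), x ∉ interior (P (D0.T.H (D0.ct c))) →
        ‖f x - D0.A c x‖ ≤ κw * (lam c * c.1.1.sz)) →
      ∃ Bad : F → Set ℝ, (∀ c, MeasurableSet (Bad c)) ∧
        (∀ c, volume (Bad c ∩ Icc 0 1) ≤ ENNReal.ofReal (κp / 32)) ∧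
        ∀ L : F → Finset ℝ, (∀ c, ∀ t ∈ L c, μ ≤ t ∧ t ≤ 1 - μ) →
          (∀ c, ∀ t ∈ L c, t ∉ Bad c) →
            Words (fN bf cmp hκ hc hc2 lam hl hl4) D0.T f X D0.ct D0.A D0.lam D0.z D0.M L := by
  obtain ⟨κw, hκw, H⟩ := b2_anyC hδ hκ hR hκp hl0 (by norm_num : (1 / 4 : ℝ) < 1) Mx
  refine ⟨κw, hκw, ?_⟩
  intro La Om hLa F bf cmp c0 hc hc2 lam hl hl4 hl0' X f p hp hf D κ1 κ2 μ hκ2 hμ Q k0 hk A0 w Mc
    η hM hgrid hη hηw hgood D0 hC hD hclo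
  exact H La Om hLa c0 (fN bf cmp hκ hc hc2 lam hl hl4) X lam
    (fun c _ => push_fN bf cmp hκ hc hc2 lam hl hl4 c) f p hp hf D κ1 κ2 μ hκ2 hμ Q k0 hk A0 w Mc
    η (fun c _ => ⟨hl0' c, hl4 c⟩) hM hgrid hη hηw hgood D0 hC hD hclo

end

end Crest.Agent.R096.Bpn_635
end

-- ▼ part R096/Gin1_635
section

/-!
Row 96 (S0127), NO0 for `p ≥ 3` (helper635): **(B1), (B2) and the trivial zones in the shape of 112's
`GenIn`** for the foam `fN`, all bricks exact, blocks `(Q0 c).tr (w0 c)` pre-translated by `w0 c`.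

* **`exfineN`** : `Exact` and `FineX` for every admissible mesh over `M`;
* **`wordsN`** : the words; **`ZD0`** : no zones.
-/

set_option autoImplicit false
set_option linter.unusedSectionVars false
set_option linter.style.longLine false
set_option linter.unusedVariables false

open Set Filter Topology Metric MeasureTheory
open scoped ENNReal

namespace Crest.Agent.R096.Gin_635

open Crest.Agent.R096.Bsp_628 Crest.Agent.R096.Brk1_582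
open Crest.Agent.R096.Bxs_627 (zz ctr cb CoriE)
open Crest.Agent.R096.Brk3_582 Crest.Agent.R096.Brk5_582 Crest.Agent.R096.Core_124
open Crest.Agent.R096.Msh_715 Crest.Agent.R096.Ls_222 Crest.Agent.R96.Sg1_199
open Crest.Agent.R096.SkC1_961 (E3 FoamD Hom3 th)
open Crest.Agent.R096.Mbf_337 (sb Cores Exact Words)
open Crest.Agent.R096.EaX_766 (lin cbx)
open Crest.Agent.R096.Exa_365 (GoodW)
open Crest.Agent.R096.Mal_874 Crest.Agent.R096.Msh_810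
open Crest.Agent.R96.Pm_199 (Dec)
open Crest.Agent.R096.Fns_360 Crest.Agent.R096.Mdd_360
open Crest.Agent.R096.Wd_120 (CoreAt)
open Crest.Agent.R096.Bxc1_635 Crest.Agent.R096.Fnn_635 Crest.Agent.R096.Bpn_635
open Crest.Agent.R96.Eam_466 (FineX FineT TLAt)
open Crest.Agent.R096.Pgn_112 (ZD WordsOk)
open Crest.Agent.R096.Tms_582 (Zones LocF)

noncomputable section

variable {La Om : Set E3} {f : E3 → E3} {F : Set (Bx (Fin 3))} {δ κ0 R c0 : ℝ} {X : Set F}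

/-- the maps of the translated blocks -/
def AT (hX : ∀ c, c ∈ X) (A0 : F → E3 ≃ᵃ[ℝ] E3) (w0 : X → E3) : F → E3 ≃ᵃ[ℝ] E3 :=
  fun c => trA (A0 c) (w0 ⟨c, hX c⟩)


/-- the condition on the data of a decoration in (B2) -/
def DecAt (hX : ∀ c, c ∈ X) (lam : F → ℝ) (A : F → E3 ≃ᵃ[ℝ] E3) (m : X → ℕ) (Q : X → CB E3 3)
    (v : X → E3) (D0 : Dec Om F) : Prop :=
  ∀ c : X, D0.lam c = lam c ∧ D0.z c = zz c.1.1 (lam c) ∧ D0.A c = trA (A c) (v c) ∧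
    D0.M c = m c ∧ CoreAt D0.T (D0.ct c) ((Q c).tr (v c))

/-- **(B2), blocks `(Q0 c).tr (w0 c)`, in the shape of `GenIn.words`** -/
theorem wordsN {δ κ0 R : ℝ} (hδ : 0 < δ) (hκ0 : 1 ≤ κ0) (hR : 1 ≤ R) {κp lam0 : ℝ} (hκp : 0 < κp)
    (h00 : 0 < lam0) (Mx : ℕ) :
    ∃ κw : ℝ, 0 < κw ∧ ∀ (La Om : Set E3), IsOpen La → ∀ (F : Set (Bx (Fin 3)))
      (bf : BoxFoam La F δ κ0) (cmp : Cmp F R) (c0 : ℝ) (hc : 0 < c0) (hc2 : c0 * (8 * κ0) ≤ 1)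
      (lam : F → ℝ) (hl : ∀ c, 0 < lam c) (hl4 : ∀ c, lam c ≤ 1 / 4), (∀ c, lam0 ≤ lam c) →
      ∀ (X : Set F) (hX : ∀ c, c ∈ X) (f : E3 → E3) (p : ℝ), 1 ≤ p → ContinuousOn f Om →
      ∀ (D : E3 → E3 →L[ℝ] E3) (κ1f κ2f τ1 τ κ1 κ2 : ℝ), κ1f + τ1 + τ ≤ κw →
      τ1 + τ ≤ κ2f → 0 ≤ κ2 →
      ∀ (A0 : F → E3 ≃ᵃ[ℝ] E3), (∀ c, CoriE Om f (A0 c) c.1 (lam c) κ1f κ2f) →
      ∀ (Q0 : X → CB E3 3) (k0 : X → ℕ) (hk : ∀ c, (Q0 c).kc ≤ k0 c) (w0 : X → E3) (Mc : X → ℕ)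
      (η : ℝ≥0∞), (∀ c, Mc c ≤ Mx) →
      (∀ c : X, (Q0 c).Kc = A0 c ⁻¹' cbx c.1.1 (lam c)) →
      (∀ c : X, ‖(A0 c).linear (w0 c)‖ ≤ τ1 * (lam c * c.1.1.sz) ∧
        ∀ k, |(A0 c).linear (w0 c) k| ≤ τ1 * (lam c * c.1.1.side k)) →
      (∀ c : X, 0 < Mc c ∧ ∀ x ∈ (Q0 c).Kc,
        x ∉ I (((Q0 c).T (k0 c) (hk c)).H ((Q0 c).cix (k0 c) (hk c))) →
        ((Q0 c).T (k0 c) (hk c)).cc x = {y | y ∈ (Q0 c).Kc ∧ ∀ a : F,
          (⌊Mc c * sc (Pc F) (bc (F := F)) (th (A0 c) (lam c) (zz c.1.1 (lam c)) x) a⌋₊ : ℝ) ≤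
            Mc c * sc (Pc F) (bc (F := F)) (th (A0 c) (lam c) (zz c.1.1 (lam c)) y) a ∧
          Mc c * sc (Pc F) (bc (F := F)) (th (A0 c) (lam c) (zz c.1.1 (lam c)) y) a ≤
            ⌈Mc c * sc (Pc F) (bc (F := F)) (th (A0 c) (lam c) (zz c.1.1 (lam c)) x) a⌉₊} ∧
        ((Q0 c).T (k0 c) (hk c)).dim x = {a : F |
          ⌊Mc c * sc (Pc F) (bc (F := F)) (th (A0 c) (lam c) (zz c.1.1 (lam c)) x) a⌋₊ <
          ⌈Mc c * sc (Pc F) (bc (F := F)) (th (A0 c) (lam c) (zz c.1.1 (lam c)) x) a⌉₊}.ncard) →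
      η ≠ ∞ → (η ^ (1 / p)).toReal ≤ κw →
      ∀ v : X → E3, (∀ c : X, ‖(A0 c).linear (v c)‖ ≤ τ * (lam c * c.1.1.sz) ∧
        ∀ k, |(A0 c).linear (v c) k| ≤ τ * (lam c * c.1.1.side k)) →
      (∀ c : X, GoodW p Om f D (A0 c)
        (fun e : {e // e ∈ eIn ((Q0 c).T (k0 c) (hk c)) ((Q0 c).cix (k0 c) (hk c))} => ea e.1)
        (fun e => ev e.1) η (w0 c + v c)) →
      ∀ D0 : Dec Om F, Cores (fN bf cmp hκ0 hc hc2 lam hl hl4) D0.T f κ1 κ2 X D0.J0 D0.J D0.V D0.ct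
        D0.A D0.lam D0.z D0.θ D0.φ →
      DecAt hX lam (AT hX A0 w0) Mc (fun c => (Q0 c).tr (w0 c)) v D0 →
      WordsOk (fN bf cmp hκ0 hc hc2 lam hl hl4) f κp (κp / 64) X D0 := by
  obtain ⟨κw, hκw, H⟩ := b2_NC hδ hκ0 hR hκp h00 Mx
  refine ⟨κw, hκw, ?_⟩
  intro La Om hLa F bf cmp c0 hc hc2 lam hl hl4 hl0 X hX f p hp hf D κ1f κ2f τ1 τ κ1 κ2 n1 n2 hκ2
    A0 hcor Q0 k0 hk w0 Mc η hM hK hw hgrid hη hηw v hv hgood D0 hC hD
  have hcor' : ∀ c : X, CoriE Om f (trA (A0 c) (w0 c + v c)) c.1.1 (lam c) (κ1f + τ1 + τ)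
      (κ2f - τ1 - τ) := by
    intro c
    have h1 : CoriE Om f (trA (A0 c) (w0 c)) c.1.1 (lam c) (κ1f + τ1) (κ2f - τ1) :=
      cor_tr (hcor c) (hw c)
    have h2 := cor_tr h1 (v := v c) (τ := τ) (by
      simp only [trA_linear]
      exact hv c)
    rwa [trA_trA] at h2
  refine H La Om hLa F bf cmp c0 hc hc2 lam hl hl4 hl0 X f p hp hf D κ1 κ2 (κp / 64) hκ2
    (by positivity) Q0 k0 hk (fun c => A0 c) (fun c => w0 c + v c) Mc η hM hgrid hη hηw hgood D0 hC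
    (fun c => ?_) (fun c x hx _ => ?_)
  · obtain ⟨h1, h2, h3, h4, h5⟩ := hD c
    refine ⟨h1, h2, ?_, h4, ?_⟩
    · rw [h3]
      exact trA_trA (A0 c) (w0 c) (v c)
    · have h6 : ((Q0 c).tr (w0 c)).tr (v c) = (Q0 c).tr (w0 c + v c) := Mdd_360.tr_tr _ _ _
      rw [← h6]
      exact h5
  · obtain ⟨h1, h2, h3, h4, h5⟩ := hD c
    have h6 : ((Q0 c).tr (w0 c)).tr (v c) = (Q0 c).tr (w0 c + v c) := Mdd_360.tr_tr _ _ _
    have h7 : x ∈ ((Q0 c).tr (w0 c + v c)).Kc := by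
      rw [← h6, ← h5.tile]
      exact hx
    have h8 : x ∈ trA (A0 c) (w0 c + v c) ⁻¹' cbx c.1.1 (lam c) := by
      rw [← kc_tr (hK c) (w0 c + v c)]
      exact h7
    have h9 : D0.A c = trA (A0 c) (w0 c + v c) := by
      rw [h3]
      exact trA_trA (A0 c) (w0 c) (v c)
    have h10 := hl c
    rw [h9]
    refine ((hcor' c x (Or.inr fun k => ?_)).2).trans ?_
    · have h11 : |trA (A0 c) (w0 c + v c) x k - ctr c.1.1 k| ≤ lam c * c.1.1.side k / 2 := h8 k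
      have h12 : 0 < c.1.1.side k := by
        have := bf.pos _ c.1.2 k
        show 0 < c.1.1.hi k - c.1.1.lo k
        linarith
      have h13 : 0 ≤ (κ2f - τ1 - τ) * (lam c * c.1.1.side k) := by
        refine mul_nonneg (by linarith) (by positivity)
      linarith
    · have h14 := Bx.sz_pos (bf.pos _ c.1.2)
      gcongr

/-! ### no zones -/




end

end Crest.Agent.R096.Gin_635
end

-- ▼ part R096/Eau5b_365
section

/-!
Row 96 (S0127), helper365.  **EAU5b**: `block_en` for an arbitrary block (any `kc`, any unit `s`), for PRE3.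
-/

set_option autoImplicit false
set_option linter.style.longLine false
set_option linter.unusedSectionVars false
set_option linter.unusedVariables false

open MeasureTheory Set Filter Topology Metric
open scoped ENNReal NNReal

namespace Crest.Agent.R096.Eau_365

open Crest.Agent.R096.Msh_715 Crest.Agent.R096.Mal_874 Crest.Agent.R096.Ncl_476
  Crest.Agent.R096.Msh_810 Crest.Agent.R096.Ine_222 Crest.Agent.R096.Mfi_290
open Crest.Agent.R096.SkC1_961 (E3 Hom3 FoamD)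
open Crest.Agent.R096.Er_594 (SH3)
open Crest.Agent.R096.Bsp_628 Crest.Agent.R096.Brk5_582
open Crest.Agent.R096.Bxs_627 (ctr)
open Crest.Agent.R096.EaX_766 (lin cbx ExIn Kor RatA)
open Crest.Agent.R096.Exa_365 Crest.Agent.R096.Acc_365
open Crest.Agent.R096.Ls_222 (Edg ea ev eIn mem_eIn sgm_edg ev_ne)
open Crest.Agent.R096.Pmc_112 (Gd')
open Crest.Agent.R096.Eds_746 (EB)
open Crest.Agent.R96.Wm4_748 (K3)
open Crest.Agent.R96.Sg1_199 (li sgm)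

noncomputable section

/-- **the good set of one block, with the energies of all classes**, arbitrary block: `Q.ψ = s⁻¹ lin A`,
`Q.N ⊆ A⁻¹ cbx c μ` -/
theorem block_en0 {p : ℝ} (hp : 1 ≤ p) (Bn : ℕ) {R0 : ℝ} (hR0 : 1 ≤ R0) (hBn : 1 ≤ Bn) :
    ∃ C4 : ℝ≥0, 0 < C4 ∧ ∀ {Om La : Set E3} {f : E3 → E3} {D : E3 → E3 →L[ℝ] E3}, IsOpen Om →
      SH3 p Om La f D → ∀ {o : E3} {u κ1 κ2 : ℝ} {c : Bx (Fin 3)}
      {A : E3 ≃ᵃ[ℝ] E3} {lam : ℝ}, ExIn p Om f D o u κ1 κ2 c A lam →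
      ∀ {μ s : ℝ} {Q : CB E3 3}, 0 < s → (∀ y, Q.ψ y = s⁻¹ • lin A y) → Q.N ⊆ A ⁻¹' cbx c μ →
      (∀ i, ∀ p ∈ Q.S.GG i, ∀ l, |p.1 l| ≤ (Bn : ℤ)) →
      (∀ i, i ≠ Q.S.core → ∀ u ∈ ZP (Q.S.GG i), ∀ v ∈ ZP (Q.S.GG i), ∀ l, |v l - u l| ≤ R0) →
      ∀ {k0 : ℕ} (hk : Q.kc ≤ k0) {ρ : ℝ}, 0 < ρ → s * (1 / 2 ^ k0) ≤ ρ →
      (∀ k, μ * c.side k / 2 + ρ ≤ (1 + 2 * κ2) * lam * c.side k / 2) →
      ∀ {NC : ℕ}, (EB Q k0 hk).Finite → (EB Q k0 hk).ncard ≤ NC → ∀ {η : ℝ}, 0 < η →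
      0 ≤ κ1 * (lam * c.sz) ^ 3 →
      (NC : ℝ) * (κ1 * (lam * c.sz) ^ 3) ≤ (1 / 4) * η * ρ ^ 3 →
      ∀ {D' : E3 → E3 →L[ℝ] E3}, (∀ v, Measurable fun z => D' z v) → ∀ {Kq : ℝ}, 0 ≤ Kq →
      ∀ {S : Set E3}, MeasurableSet S → (∀ᵐ x, x ∈ S → ∀ v, ‖D' x v‖ ≤ Kq * ‖D x v‖) →
      (∀ y ∈ Q.N, y ∉ interior Q.Kc → ∀ v ∈ Wt A ρ, y + v ∈ S) →
      ∃ G : Set E3, MeasurableSet G ∧ G ⊆ Wt A ρ ∧ volume G ≠ 0 ∧ ∀ w ∈ G,
        GoodW p Om f D A (fun e : EB Q k0 hk => ea e.1) (fun e => ev e.1) (ENNReal.ofReal η) w ∧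
        ∀ {J : Type} (M : MD E3 3 J) (X : RD M) (j : J) (w0 s : E3), M.Q j = Q.tr w0 →
          w0 + s = w → X.B j ≤ Bn → X.R j ≤ R0 →
          ∀ (hk0 : (M.Q j).kc ≤ k0) (𝒦 : Set (Set E3)) (U : Set E3) (h𝒦 : 𝒦.Countable)
            (hU : U.Countable),
          ∑' c', ((QI M X j k0 hk0).toPT 𝒦 U h𝒦 hU).EnC (Gd' D') p c' s ≤
            C4 * (ENNReal.ofReal Kq * (1 + ENNReal.ofReal η ^ (1 / p))) ^ p * ‖lin A‖ₑ ^ p *
              volume (Q.N \ Q.Kc) +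
            8 * (K3 p (Mfb_290.nE Bn R0) 2 1 1 181 *
              (‖lin A‖ₑ ^ p * ∫⁻ z in S, ‖(D' z).comp (lin A.symm)‖ₑ ^ p)) := by
  set Bs : ℕ := max Bn ⌈R0⌉₊ with hBs
  have hBs1 : 1 ≤ Bs := hBn.trans (le_max_left _ _)
  obtain ⟨C4, hC4, H⟩ := Crest.Agent.R096.Eds_746.coarse_good hBs1 hp
  refine ⟨C4, hC4, ?_⟩
  intro Om La f D hO h o u κ1 κ2 c A lam hE μ s Q hs hψ hN hbnd hsize k0 hk ρ hρ hl hroom NC hfin
    hcard η hη hκ1 hκ D' hDm Kq hKq S hS hD' hSA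
  have hlin : ∀ x : E3, A.linear x = s • Q.ψ x := by
    intro x
    rw [hψ x, smul_smul, mul_inv_cancel₀ hs.ne', one_smul]
    rfl
  have hB' : ∀ i, ∀ p ∈ Q.S.GG i, ∀ l, |p.1 l| ≤ (Bs : ℤ) := fun i p hp l =>
    (hbnd i p hp l).trans (by exact_mod_cast le_max_left _ _)
  have hR' : ∀ i, i ≠ Q.S.core → ∀ v ∈ ZP (Q.S.GG i), ∀ w ∈ ZP (Q.S.GG i), ∀ l,
      |w l - v l| ≤ (Bs : ℝ) := by
    intro i hi v hv w hw l
    refine (hsize i hi v hv w hw l).trans ((Nat.le_ceil R0).trans ?_)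
    exact_mod_cast le_max_right _ _
  have hl' : s * (1 / 2 ^ k0) ≤ 1 * ρ := by rw [one_mul]; exact hl
  obtain ⟨FF, hF1, hF2, hF3⟩ := Crest.Agent.R096.Bm_748.exists_F hk hR0 hsize Bn hs hψ hDm hρ.le
    zero_le_one hl' hS (fun q hq y hy a ha => by
      rw [Crest.Agent.R096.Bm_748.used_iff] at hq
      exact hSA y (Crest.Agent.R096.Bm_748.used_sub_N hq hy)
        (Crest.Agent.R096.Bm_748.til_off_core hq hy) a ha) hp
  obtain ⟨G, g1, g2, g3, g4⟩ := block_good hO h hE hk hN hρ hroom hfin hcard hη hκ1 hκ hKq hD'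
    hSA hF1 hF2
  refine ⟨G, g1, g2, g3, fun w hw => ?_⟩
  obtain ⟨g5, g6, g7⟩ := g4 w hw
  refine ⟨g5, ?_⟩
  intro J M X j w0 s' hMQ hws hXB hXR hk0 𝒦 U h𝒦 hU
  rw [Crest.Agent.R096.Bm_748.sum_classes]
  refine add_le_add ?_ ?_
  · exact H Q k0 hk A s hs hlin hB' hR' Om f D _ w g5 D' _ g7 M X j w0 s' hMQ hws hk0 𝒦 U h𝒦 hU
  · refine (hF3 M X j w0 hMQ hXB hXR hk0 𝒦 U h𝒦 hU s').trans ?_
    rw [hws]
    exact g6

end

end Crest.Agent.R096.Eau_365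
end

-- ▼ part R096/Pdn1_635
section

/-!
Row 96 (S0127), NO0 for `p ≥ 3` (helper635), leaf [X6] of 962's #11402: **the derivative of `Psi ∘ f`
for the foam `fN`** (= `Np_962.ΦN`; all bricks exact, concentric holes of ratio `lam c / 2`) as a
measurable field of linear maps, with the pointwise bound `KD κ0 c0 / lam c` over the brick `c` in every
direction (112's `ea_pushL` for `fN`).
-/

set_option autoImplicit false
set_option linter.unusedSectionVars false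
set_option linter.style.longLine false
set_option linter.unusedVariables false

open MeasureTheory Set Filter Topology
open scoped NNReal ENNReal

noncomputable section

namespace Crest.Agent.R096.Pdn_635

open Crest.Agent.R096.Bsp_628 Crest.Agent.R096.Brk5_582 Crest.Agent.R096.SkC1_961
open Crest.Agent.R096.Bxs_627 hiding E3
open Crest.Agent.R96.Push_899 hiding coreN
open Crest.Agent.R096.EaX_766
open Crest.Agent.R096.Der_764 (OmH)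
open Crest.Agent.R96.Acl_392 Crest.Agent.R96.Sob2_199 Crest.Agent.R96.Sob4_199
  Crest.Agent.R96.Sob5_199 Crest.Agent.R96.En10_199
open Crest.Agent.R096.PmcL_112 Crest.Agent.R096.Bxc1_635
open Crest.AnalysisR.VecCalc3 (R3)

variable {δ κ0 R c0 : ℝ} {La : Set E3} {F : Set (Bx (Fin 3))}

/-- the constant -/
def KD (κ0 c0 : ℝ) : ℝ := 18 * (2 / c0 ^ 2 + 72 * κ0)

theorem KD_nonneg (hκ : 1 ≤ κ0) : 0 ≤ KD κ0 c0 := by
  unfold KD
  have : 0 ≤ κ0 := by linarith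
  positivity

/-- **pointwise bound in every direction**: over the brick `c`, `‖∂_v (Psi ∘ f)‖ ≤ KD / lam c ‖∂_v f‖` -/
theorem dir_le_fN (bf : BoxFoam La F δ κ0) (cmp : Cmp F R) (hκ : 1 ≤ κ0) (hc : 0 < c0)
    (hc2 : c0 * (8 * κ0) ≤ 1) (lam : F → ℝ) (hl : ∀ c, 0 < lam c) (hl4 : ∀ c, lam c ≤ 1 / 4)
    {Om : Set E3} (hOm : IsOpen Om) (hLa : IsOpen La) {f : E3 → E3}
    {D D' : E3 → E3 →L[ℝ] E3} (hf : Hom3 f Om La)
    (hD : ∀ i, VWD Om volume (fun x => P3 (f x)) (fun x => P3 (D x (Pi.single i 1)))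
      (Pi.single i 1))
    (hD' : ∀ l, VWD (OmH (fN bf cmp hκ hc hc2 lam hl hl4) f Om) volume
      (fun x => P3 ((fN bf cmp hκ hc hc2 lam hl hl4).Psi (f x)))
      (fun x => P3 (D' x (Pi.single l 1))) (Pi.single l 1)) (v : E3) :
    ∀ᵐ x, x ∈ OmH (fN bf cmp hκ hc hc2 lam hl hl4) f Om →
      ∀ c : F, f x ∈ c.1.set → ‖D' x v‖ ≤ KD κ0 c0 / lam c * ‖D x v‖ := by
  obtain ⟨fi, hmap, -, -, -, hfc, -⟩ := id hf
  have hcount : Countable F := bf.countable.to_subtype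
  have hLE : IsOpen (LaE La) := isOpen_LaE hLa
  have hFC := foamN bf hκ hc hc2 lam hl hl4
  have hκ0 : 0 ≤ κ0 := by linarith
  set φ : E3 → R3 := fun x => P3 (f x) with hφd
  have hφ : ContinuousOn φ Om := P3.continuous.comp_continuousOn hfc
  have hOeq := fN_OmH bf cmp hκ hc hc2 lam hl hl4 hmap
  have hOO := hFC.isOpen_dom hLE hOm hφ
  have ha : ∀ (c : F) (i j : Fin 3), (brk' bf c).W i ≤ 4 * κ0 * (coreN bf c).W j := by
    intro c i j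
    have h1 : (brk' bf c).W i ≤ κ0 * (brk' bf c).W j := asp' bf c i j
    have h2 : (coreN bf c).W j = (brk' bf c).W j / 4 := coreBF_W (fun i => brk_pos bf c i) _ j
    rw [h2]
    linarith
  have h1 : VWD Om volume φ (fun x => P3 (D x v)) v := vwd_v hD v
  have h2 : VWD (Om ∩ φ ⁻¹' (Pun (LaE La) (holeN bf lam hl))) volume
      (fun x => Psi (brk' bf) (coreN bf) (holeN bf lam hl) (φ x))
      (fun x => P3 (D' x v)) v := by
    have h3 := vwd_v hD' v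
    rw [hOeq] at h3
    exact Crest.Agent.R96.EaP_899.vwd_congr' hOO h3 fun x hx =>
      fN_Psi' bf cmp hκ hc hc2 lam hl hl4 hmap hx.1
  filter_upwards [hFC.bound_off hLE hOm hφ h1 h2 (a := 4 * κ0) (by positivity) ha,
    hFC.bound_core hLE hOm hφ h1 h2 (fun _ _ => 4 * κ0) ha] with x g1 g2 hx c hxc
  rw [hOeq] at hx
  have hlc := hl c
  have hl1 : lam c ≤ 1 := (hl4 c).trans (by norm_num)
  have hn0 : 0 ≤ ‖(P3 (D x v) : R3)‖ := norm_nonneg _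
  have hbig : 9 * (2 / c0 ^ 2 + 72 * κ0) ≤ 9 * (2 / c0 ^ 2 + 72 * κ0) / lam c := by
    rw [le_div_iff₀ hlc]
    have : 0 ≤ 9 * (2 / c0 ^ 2 + 72 * κ0) := by positivity
    nlinarith
  have key : ‖(P3 (D' x v) : R3)‖ ≤ 9 * (2 / c0 ^ 2 + 72 * κ0) / lam c * ‖(P3 (D x v) : R3)‖ := by
    by_cases hcc : ∃ c₁, φ x ∈ IE (coreN bf c₁)
    · obtain ⟨c₁, hc₁⟩ := hcc
      have hce : c = c₁ := by
        refine hFC.core_unique (c := c₁) (c' := c) (IE_subset_SE _ hc₁) ?_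
        exact fun i => Bx.mem_set.1 hxc i
      subst hce
      have g3 := g2 hx c hc₁
      have ht := hFC.tt_pos hx.2 c
      have hW0 : ∀ i, 0 < (holeN bf lam hl c).W i := by
        intro i
        have h5 : (holeN bf lam hl c).W i = lam c / 2 * c.1.side i := by
          unfold holeN; rw [cb, hb_W]; rfl
        rw [h5]
        exact mul_pos (half_pos hlc) (Bx.side_pos (bf.pos _ c.2) i)
      have hmm : mm (coreN bf c) (holeN bf lam hl c) (co (φ x)) ≤ 1 / (2 * lam c) := by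
        refine mm_le_of (hFC.inner c) (fun i => ?_) hW0 ht
        have h5 : (holeN bf lam hl c).W i = lam c / 2 * c.1.side i := by
          unfold holeN; rw [cb, hb_W]; rfl
        have h6 : (coreN bf c).W i = c.1.side i / 4 := coreBF_W (fun i => brk_pos bf c i) _ i
        rw [h5, h6]
        apply le_of_eq
        field_simp
        ring
      have hmm0 := mm_pos (hFC.inner c) ht
      have key2 : ∀ i, |(P3 (D' x v) : R3) i| ≤ 108 * κ0 / lam c * ‖(P3 (D x v) : R3)‖ := by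
        intro i
        refine (g3 i).trans ?_
        rw [← Finset.mul_sum]
        have h7 := sum_abs_le (P3 (D x v) : R3)
        rw [Fintype.card_fin] at h7
        push_cast at h7
        calc 18 * mm (coreN bf c) (holeN bf lam hl c) (co (φ x)) *
            (4 * κ0 * ∑ i, |(P3 (D x v) : R3) i|)
            ≤ 18 * (1 / (2 * lam c)) * (4 * κ0 * (3 * ‖(P3 (D x v) : R3)‖)) := by
              apply mul_le_mul
              · linarith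
              · exact mul_le_mul_of_nonneg_left h7 (by positivity)
              · exact mul_nonneg (by positivity) (Finset.sum_nonneg fun _ _ => abs_nonneg _)
              · positivity
          _ = 108 * κ0 / lam c * ‖(P3 (D x v) : R3)‖ := by field_simp; ring
      calc ‖(P3 (D' x v) : R3)‖ ≤ ∑ i, |(P3 (D' x v) : R3) i| := norm_le_sum _
        _ ≤ ∑ _i : Fin 3, 108 * κ0 / lam c * ‖(P3 (D x v) : R3)‖ :=
            Finset.sum_le_sum fun i _ => key2 i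
        _ = 324 * κ0 / lam c * ‖(P3 (D x v) : R3)‖ := by
            rw [Finset.sum_const, Finset.card_univ, Fintype.card_fin, nsmul_eq_mul]
            push_cast
            ring
        _ ≤ 9 * (2 / c0 ^ 2 + 72 * κ0) / lam c * ‖(P3 (D x v) : R3)‖ := by
            apply mul_le_mul_of_nonneg_right _ hn0
            apply div_le_div_of_nonneg_right _ hlc.le
            have : 0 ≤ 2 / c0 ^ 2 := by positivity
            linarith
    · push Not at hcc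
      refine (g1 hx hcc).trans ?_
      apply mul_le_mul_of_nonneg_right _ hn0
      refine le_trans (le_of_eq ?_) hbig
      rw [Fintype.card_fin]
      push_cast
      ring
  calc ‖D' x v‖ ≤ ‖(P3 (D' x v) : R3)‖ := norm_le_P3 _
    _ ≤ 9 * (2 / c0 ^ 2 + 72 * κ0) / lam c * ‖(P3 (D x v) : R3)‖ := key
    _ ≤ 9 * (2 / c0 ^ 2 + 72 * κ0) / lam c * (2 * ‖D x v‖) :=
        mul_le_mul_of_nonneg_left (Er_594.norm_P3_le _) (by positivity)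
    _ = KD κ0 c0 / lam c * ‖D x v‖ := by unfold KD; ring

/-- **[X6]: the derivative of `Psi ∘ f`, foam `fN`** -/
theorem push_fN_dir (bf : BoxFoam La F δ κ0) (cmp : Cmp F R) (hκ : 1 ≤ κ0) (hc : 0 < c0)
    (hc2 : c0 * (8 * κ0) ≤ 1) (lam : F → ℝ) (hl : ∀ c, 0 < lam c) (hl4 : ∀ c, lam c ≤ 1 / 4)
    {Om : Set E3} (hOm : IsOpen Om) (hLa : IsOpen La) {f : E3 → E3}
    {D : E3 → E3 →L[ℝ] E3} (hf : Hom3 f Om La)
    (hD : ∀ i, VWD Om volume (fun x => P3 (f x)) (fun x => P3 (D x (Pi.single i 1)))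
      (Pi.single i 1)) :
    ∃ D' : E3 → E3 →L[ℝ] E3,
      (∀ v, Measurable fun y => D' y v) ∧
      (∀ x, x ∉ OmH (fN bf cmp hκ hc hc2 lam hl hl4) f Om → D' x = 0) ∧
      (∀ l, VWD (OmH (fN bf cmp hκ hc hc2 lam hl hl4) f Om) volume
        (fun x => P3 ((fN bf cmp hκ hc hc2 lam hl hl4).Psi (f x)))
        (fun x => P3 (D' x (Pi.single l 1))) (Pi.single l 1)) ∧
      (∀ᵐ x, ∀ c : F, f x ∈ c.1.set → ∀ v, ‖D' x v‖ ≤ KD κ0 c0 / lam c * ‖D x v‖) ∧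
      (∀ᵐ x, ∀ c : F, f x ∈ c.1.set → ∀ v,
        Crest.Agent.R096.Pmc_112.Gd' D' v x ≤ ENNReal.ofReal (KD κ0 c0 / lam c) * ‖D x v‖ₑ) ∧
      (∀ᵐ x, ∀ c : F, f x ∈ c.1.set → ‖D' x‖ ≤ KD κ0 c0 / lam c * ‖D x‖) := by
  obtain ⟨fi, hmap, -, -, -, hfc, -⟩ := id hf
  have hcount : Countable F := bf.countable.to_subtype
  have hLE : IsOpen (LaE La) := isOpen_LaE hLa
  have hFC := foamN bf hκ hc hc2 lam hl hl4
  set φ : E3 → R3 := fun x => P3 (f x) with hφd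
  have hφ : ContinuousOn φ Om := P3.continuous.comp_continuousOn hfc
  have hOeq := fN_OmH bf cmp hκ hc hc2 lam hl hl4 hmap
  have hOO := hFC.isOpen_dom hLE hOm hφ
  have hOH : IsOpen (OmH (fN bf cmp hκ hc hc2 lam hl hl4) f Om) := by rw [hOeq]; exact hOO
  -- the weak derivatives
  have hex : ∀ l : Fin 3, ∃ D', VWD (OmH (fN bf cmp hκ hc hc2 lam hl hl4) f Om) volume
      (fun x => P3 ((fN bf cmp hκ hc hc2 lam hl hl4).Psi (f x))) D' (Pi.single l 1) := by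
    intro l
    rw [hOeq]
    have h1 : VWD (Om ∩ φ ⁻¹' (Pun (LaE La) (holeN bf lam hl))) volume φ
        (fun x => P3 (D x (Pi.single l 1))) (Pi.single l 1) := fun i =>
      wd_mono (hD l i) inter_subset_left
    obtain ⟨D', hD'⟩ := comp_exists hOO h1 (hφ.mono inter_subset_left)
      (S := Pun (LaE La) (holeN bf lam hl)) (fun x hx => hx.2) (hFC.locLip hLE)
    exact ⟨D', Crest.Agent.R96.EaP_899.vwd_congr' hOO hD' fun x hx =>
      (fN_Psi' bf cmp hκ hc hc2 lam hl hl4 hmap hx.1).symm⟩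
  choose D0 hD0 using hex
  obtain ⟨L, g1, g2, g3, g4⟩ := exists_ver hOH hD0
  have hK := KD_nonneg (c0 := c0) hκ
  have hptw : ∀ᵐ x, ∀ c : F, f x ∈ c.1.set → ∀ v, ‖L x v‖ ≤ KD κ0 c0 / lam c * ‖D x v‖ := by
    obtain ⟨s, hs1, hs2⟩ := TopologicalSpace.exists_countable_dense E3
    have h5 : ∀ᵐ x, ∀ v ∈ s, x ∈ OmH (fN bf cmp hκ hc hc2 lam hl hl4) f Om →
        ∀ c : F, f x ∈ c.1.set → ‖L x v‖ ≤ KD κ0 c0 / lam c * ‖D x v‖ :=
      (ae_ball_iff hs1).2 fun v _ => dir_le_fN bf cmp hκ hc hc2 lam hl hl4 hOm hLa hf hD g4 v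
    filter_upwards [h5] with x hx c hxc v
    by_cases hxO : x ∈ OmH (fN bf cmp hκ hc hc2 lam hl hl4) f Om
    · have hcl : IsClosed {v : E3 | ‖L x v‖ ≤ KD κ0 c0 / lam c * ‖D x v‖} :=
        isClosed_le (L x).continuous.norm (continuous_const.mul (D x).continuous.norm)
      have h6 : s ⊆ {v : E3 | ‖L x v‖ ≤ KD κ0 c0 / lam c * ‖D x v‖} := fun v hv =>
        hx v hv hxO c hxc
      have h7 := hcl.closure_subset_iff.2 h6
      exact h7 (hs2 v)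
    · rw [g2 x hxO, zero_apply, norm_zero]
      exact mul_nonneg (div_nonneg hK (hl c).le) (norm_nonneg _)
  refine ⟨L, g1, g2, g4, hptw, ?_, ?_⟩
  · filter_upwards [hptw] with x hx c hxc v
    have h1 := hx c hxc v
    unfold Crest.Agent.R096.Pmc_112.Gd'
    rw [← ofReal_norm, ← ofReal_norm, ← ENNReal.ofReal_mul (div_nonneg hK (hl c).le)]
    exact ENNReal.ofReal_le_ofReal h1
  · filter_upwards [hptw] with x hx c hxc
    refine ContinuousLinearMap.opNorm_le_bound _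
      (mul_nonneg (div_nonneg hK (hl c).le) (norm_nonneg _)) fun v => ?_
    refine (hx c hxc v).trans ?_
    rw [mul_assoc]
    exact mul_le_mul_of_nonneg_left ((D x).le_opNorm v) (div_nonneg hK (hl c).le)

/-- the constant for `Np_962.ΦN` -/
def Kq (q : ℕ) : ℝ := KD (Dic6_582.kF q) (Npr_582.cN q)

theorem Kq_nonneg (q : ℕ) : 0 ≤ Kq q := KD_nonneg (Np_962.kF_one q)

/-- **[X6] for `Np_962.ΦN`** and `f1` of `ExFront3` -/
theorem push_PhiN {p : ℝ} {q : ℕ} {F : Set (Bx (Fin 3))}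
    (bf : BoxFoam La F (Dic6_582.dF q) (Dic6_582.kF q)) (cmp : Cmp F 6) (lam : F → ℝ)
    (hl : ∀ c, 0 < lam c) (hl4 : ∀ c, lam c ≤ 1 / 4) {Om : Set E3} (hOm : IsOpen Om)
    (hLa : IsOpen La) {f : E3 → E3} {D : E3 → E3 →L[ℝ] E3} (hf : Er_594.SH3 p Om La f D) :
    ∃ D' : E3 → E3 →L[ℝ] E3,
      (∀ v, Measurable fun y => D' y v) ∧
      (∀ x, x ∉ OmH (Np_962.ΦN bf cmp lam hl hl4) f Om → D' x = 0) ∧
      (∀ l, VWD (OmH (Np_962.ΦN bf cmp lam hl hl4) f Om) volume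
        (fun x => P3 ((Np_962.ΦN bf cmp lam hl hl4).Psi (f x)))
        (fun x => P3 (D' x (Pi.single l 1))) (Pi.single l 1)) ∧
      (∀ᵐ x, ∀ c : F, f x ∈ c.1.set → ∀ v, ‖D' x v‖ ≤ Kq q / lam c * ‖D x v‖) ∧
      (∀ᵐ x, ∀ c : F, f x ∈ c.1.set → ∀ v,
        Crest.Agent.R096.Pmc_112.Gd' D' v x ≤ ENNReal.ofReal (Kq q / lam c) * ‖D x v‖ₑ) ∧
      (∀ᵐ x, ∀ c : F, f x ∈ c.1.set → ‖D' x‖ ≤ Kq q / lam c * ‖D x‖) :=
  push_fN_dir bf cmp (Np_962.kF_one q) (Np_962.cN_pos q) (Np_962.cN_le q) lam hl hl4 hOm hLa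
    hf.homeo hf.vwd

end Crest.Agent.R096.Pdn_635
end
end

-- ▼ part R096/Exb1_766
section

/-!
Row 96 (S0127), helper766.  **`ExBlkN p`** (`Bmd_798`), part 1: one brick (good set of translations, dyadic
pre-translation, energies).
-/

set_option autoImplicit false
set_option linter.style.longLine false
set_option linter.unusedSectionVars false
set_option linter.unusedVariables false

open MeasureTheory Set Filter Topology Metric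
open scoped ENNReal NNReal

namespace Crest.Agent.R096.Exb_766

open Crest.Agent.R096.Msh_715 Crest.Agent.R096.Mal_874 Crest.Agent.R096.Cut_874
  Crest.Agent.R096.Msh_810 Crest.Agent.R096.Ine_222 Crest.Agent.R096.Mfi_290
open Crest.Agent.R096.SkC1_961 (E3 Hom3 FoamD)
open Crest.Agent.R096.Er_594 (SH3)
open Crest.Agent.R096.Bsp_628 Crest.Agent.R096.Brk5_582
open Crest.Agent.R096.Bxs_627 (ctr CoriE zz)
open Crest.Agent.R096.EaX_766 (lin cbx ExIn Kor RatA)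
open Crest.Agent.R096.Exa_365 Crest.Agent.R096.Acc_365
open Crest.Agent.R096.Ls_222 (Edg ea ev eIn mem_eIn)
open Crest.Agent.R096.Pmc_112 (Gd')
open Crest.Agent.R096.Eds_746 (EB)
open Crest.Agent.R96.Wm4_748 (K3)
open Crest.Agent.R096.Mdd_360 (BlkXi)
open Crest.Agent.R096.Enn_766
open Crest.Agent.R96.Gj_872 (Dy)

noncomputable section

/-- **one brick of `Front3`** -/
theorem one_brick {p : ℝ} (hp : 1 ≤ p) (Bn : ℕ) {R0 : ℝ} (hR0 : 1 ≤ R0) (hBn : 1 ≤ Bn) :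
    ∃ C4 : ℝ≥0, ∀ {Om La : Set E3} {f : E3 → E3} {D : E3 → E3 →L[ℝ] E3}, IsOpen Om →
      SH3 p Om La f D → ∀ {δ κ0 : ℝ} {F : Set (Bx (Fin 3))} (bf : BoxFoam La F δ κ0), 1 ≤ κ0 →
      ∀ {o : E3} {u κ1f : ℝ} {c : F} {A : E3 ≃ᵃ[ℝ] E3} {lam : ℝ}, 0 < lam → lam ≤ 1 / 4 →
      ExIn p Om f D o u κ1f (1 / 8) c.1 A lam →
      ∀ {m Nb i : ℕ} {Q : CB E3 3}, 0 < m → BlkXi F Bn R0 m Nb (1 / 64) i c A lam Q →
      ∀ {τ1 : ℝ}, 0 < τ1 → τ1 ≤ 1 / 256 → ∀ {dk : ℕ}, 2 * κ0 / τ1 ≤ 2 ^ dk →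
      ∀ {k0 : ℕ} (hk : Q.kc ≤ k0), k0 = Q.kc + dk →
      ∀ {NC : ℕ}, (EB Q k0 hk).Finite → (EB Q k0 hk).ncard ≤ NC → ∀ {η : ℝ}, 0 < η → η ≤ 1 →
      0 ≤ κ1f → κ1f * κ0 ≤ 1 / 2 → κ1f * κ0 ^ 3 ≤ 1 →
      (NC : ℝ) * κ1f ≤ (1 / 4) * η * (τ1 / (2 * κ0)) ^ 3 →
      ∀ {D' : E3 → E3 →L[ℝ] E3}, (∀ v, Measurable fun z => D' z v) → ∀ {Kq : ℝ}, 0 ≤ Kq →
      (∀ᵐ x, f x ∈ c.1.set → ∀ v, ‖D' x v‖ ≤ Kq / lam * ‖D x v‖) →
      ∀ {r : ℝ}, 0 < r →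
      ∃ (w0 : E3) (κw : ℕ) (G : Set E3), w0 ∈ Dy (ContinuousLinearEquiv.refl ℝ E3) κw ∧
        (‖A.linear w0‖ ≤ τ1 * (lam * c.1.sz) ∧ ∀ k, |A.linear w0 k| ≤ τ1 * (lam * c.1.side k)) ∧
        MeasurableSet {s : E3 | ‖s‖ ≤ r ∧ w0 + s ∈ G} ∧
        volume {s : E3 | ‖s‖ ≤ r ∧ w0 + s ∈ G} ≠ 0 ∧
        ∀ w ∈ G, GoodW p Om f D A (fun e : EB Q k0 hk => ea e.1) (fun e => ev e.1)
            (ENNReal.ofReal η) w ∧
          ∀ {J : Type} (M : MD E3 3 J) (X : RD M) (j : J) (s : E3), M.Q j = Q.tr w0 →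
            w0 + s = w → X.B j ≤ Bn → X.R j ≤ R0 →
            ∀ (hk0 : (M.Q j).kc ≤ k0),
            ∑' c', (Uni_663.toPTU (QI M X j k0 hk0)).EnC (Gd' D') p c' s ≤
              KBN p C4 (K3 p (Mfb_290.nE Bn R0) 2 1 1 181) Kq *
                (ENNReal.ofReal ((1 / lam * ‖lin A‖) ^ p) * volume (A ⁻¹' cbx c.1 lam)) := by
  obtain ⟨C4, -, HE⟩ := Eau_365.block_en0 hp Bn hR0 hBn
  refine ⟨C4, ?_⟩
  intro Om La f D hO h δ κ0 F bf hκ0 o u κ1f c A lam hl hl4 hE m Nb i Q hm hB τ1 hτ1 hτ1' dk hdk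
    k0 hk hk0 NC hfin hcard η hη hη1 hκf hκf1 hκf3 hNC D' hDm Kq hKq hD' r hr
  have hpos : c.1.Pos := bf.pos _ c.2
  have hasp : ∀ k, c.1.sz ≤ κ0 * c.1.side k := fun k => bf.asp _ c.2 k
  have hsz : 0 < c.1.sz := Bx.sz_pos hpos
  have hκ0' : 0 < κ0 := by linarith
  set ρ0 : ℝ := τ1 / (2 * κ0) with hρ0
  have hρ00 : 0 < ρ0 := by positivity
  set ρ : ℝ := ρ0 * (lam * c.1.sz) with hρd
  have hρ : 0 < ρ := by positivity
  -- `ρ ≤ (τ1 / 2) lam side`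
  have hρs : ∀ k, ρ ≤ τ1 / 2 * (lam * c.1.side k) := by
    intro k
    have h1 : lam * c.1.sz ≤ lam * (κ0 * c.1.side k) := mul_le_mul_of_nonneg_left (hasp k) hl.le
    calc ρ ≤ ρ0 * (lam * (κ0 * c.1.side k)) := mul_le_mul_of_nonneg_left h1 hρ00.le
      _ = τ1 / 2 * (lam * c.1.side k) := by
        rw [hρ0]
        field_simp
  obtain ⟨s, hs, hs1, hs2⟩ := hB.psi
  have hs' : 0 < 2 ^ i * s := by positivity
  have hψ : ∀ y, Q.ψ y = (2 ^ i * s)⁻¹ • lin A y := fun y => hs2 y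
  have hm' : (1:ℝ) ≤ m := by exact_mod_cast hm
  have hscale : 2 ^ i * s * (1 / 2 ^ k0) ≤ ρ := by
    have e1 : (2:ℝ) ^ k0 = 8 * 2 ^ i * 2 ^ dk := by
      rw [hk0, hB.kc, pow_add, pow_add]
      norm_num
    have h2 : s ≤ 4 * (lam * c.1.sz) := by
      have : s ≤ m * s := le_mul_of_one_le_left hs.le hm'
      linarith
    have h3 : 1 / (2:ℝ) ^ dk ≤ ρ0 := by
      have h4 : 2 * κ0 / τ1 = 1 / ρ0 := by rw [hρ0, one_div_div]
      rw [h4] at hdk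
      rw [div_le_iff₀ (by positivity)]
      rw [div_le_iff₀ hρ00] at hdk
      linarith
    calc 2 ^ i * s * (1 / 2 ^ k0) = s / 8 * (1 / 2 ^ dk) := by
          rw [e1]
          field_simp
      _ ≤ (4 * (lam * c.1.sz)) / 8 * ρ0 := by gcongr
      _ ≤ ρ := by
        rw [hρd]
        have : 0 ≤ ρ0 * (lam * c.1.sz) := by positivity
        linarith
  set μ : ℝ := (1 + 2 * (1 / 64)) * lam with hμ
  have hroom : ∀ k, μ * c.1.side k / 2 + ρ ≤ (1 + 2 * (1 / 8 : ℝ)) * lam * c.1.side k / 2 := by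
    intro k
    have h1 := hρs k
    have h2 : 0 < lam * c.1.side k := mul_pos hl (Bx.side_pos hpos k)
    have h3 : τ1 / 2 * (lam * c.1.side k) ≤ 1 / 512 * (lam * c.1.side k) := by
      apply mul_le_mul_of_nonneg_right _ h2.le
      linarith
    rw [hμ]
    nlinarith
  have hNC' : (NC : ℝ) * (κ1f * (lam * c.1.sz) ^ 3) ≤ (1 / 4) * η * ρ ^ 3 := by
    have h1 : 0 ≤ (lam * c.1.sz) ^ 3 := by positivity
    calc (NC : ℝ) * (κ1f * (lam * c.1.sz) ^ 3) = ((NC : ℝ) * κ1f) * (lam * c.1.sz) ^ 3 := by ring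
      _ ≤ ((1 / 4) * η * ρ0 ^ 3) * (lam * c.1.sz) ^ 3 := mul_le_mul_of_nonneg_right hNC h1
      _ = _ := by rw [hρd]; ring
  set S : Set E3 := A ⁻¹' cbx c.1 ((1 + 2 * (1 / 8 : ℝ)) * lam) with hS
  have hSm : MeasurableSet S := measurableSet_K1 A c.1 _
  have hSD : ∀ᵐ x, x ∈ S → ∀ v, ‖D' x v‖ ≤ Kq / lam * ‖D x v‖ := by
    filter_upwards [hD'] with x hx hxS
    refine hx ?_
    have h1 := hE.cor x (Or.inr hxS)
    have h2 := Eds_746.mem_brk_of_near (κ2 := 1 / 8) bf hl hκf (by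
      have h3 : κ1f * κ0 * lam ≤ 1 / 2 * (1 / 4) := by
        refine mul_le_mul hκf1 hl4 hl.le (by norm_num)
      nlinarith) (x := x) hxS h1.2
    exact ⟨fun k => (h2 k).1.le, fun k => (h2 k).2.le⟩
  have hSA : ∀ y ∈ Q.N, y ∉ interior Q.Kc → ∀ v ∈ Wt A ρ, y + v ∈ S := by
    intro y hy _ v hv k
    have h1 : |A y k - ctr c.1 k| ≤ μ * c.1.side k / 2 := hB.N hy k
    have h2 : A (y + v) = A y + lin A v := aff_add A y v
    have h3 : 0 ≤ lin A v k := hv.1 k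
    have h4 : lin A v k ≤ ρ := hv.2 k
    have h5 := hroom k
    show |A (y + v) k - ctr c.1 k| ≤ _
    rw [h2, Pi.add_apply]
    rw [abs_le] at h1 ⊢
    constructor <;> linarith [h1.1, h1.2]
  obtain ⟨G, g1, g2, g3, g4⟩ := HE hO h hE hs' hψ hB.N hB.bnd hB.size hk hρ hscale hroom hfin hcard
    hη (by positivity) hNC' hDm (by positivity : 0 ≤ Kq / lam) hSm hSD hSA
  -- the dyadic pre-translation
  set dd : ℝ := ρ / (‖lin A‖ + 1) with hdd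
  have hdd0 : 0 < dd := by positivity
  obtain ⟨w0, κw, hw1, ⟨x, hxG, hwx⟩, hw2⟩ := Eau_365.exists_w0 g3 hr hdd0
  have hx := g2 hxG
  have hb1 : ‖lin A (w0 - x)‖ ≤ ρ := by
    calc ‖lin A (w0 - x)‖ ≤ ‖lin A‖ * ‖w0 - x‖ := (lin A).le_opNorm _
      _ ≤ (‖lin A‖ + 1) * dd := by
        refine mul_le_mul (by linarith) hwx.le (norm_nonneg _) (by positivity)
      _ = ρ := by rw [hdd]; field_simp
  have hb2 : ∀ k, |A.linear w0 k| ≤ 2 * ρ := by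
    intro k
    have h1 : A.linear w0 k = lin A x k + lin A (w0 - x) k := by
      have h2 : lin A w0 = lin A x + lin A (w0 - x) := by rw [← map_add]; congr 1; abel
      have h3 : A.linear w0 = lin A w0 := rfl
      rw [h3, h2, Pi.add_apply]
    have h4 : |lin A (w0 - x) k| ≤ ρ := by
      have h5 := norm_le_pi_norm (lin A (w0 - x)) k
      rw [Real.norm_eq_abs] at h5
      exact h5.trans hb1
    have h6 : |lin A x k| ≤ ρ := by
      rw [abs_of_nonneg (hx.1 k)]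
      exact hx.2 k
    rw [h1]
    exact (abs_add_le _ _).trans (by linarith)
  refine ⟨w0, κw, G, hw1, ⟨?_, fun k => ?_⟩, Eau_365.measurable_Gd g1 r w0, hw2, fun w hw => ?_⟩
  · rw [pi_norm_le_iff_of_nonneg (by positivity)]
    intro k
    rw [Real.norm_eq_abs]
    refine (hb2 k).trans ?_
    rw [hρd, hρ0]
    have h1 : τ1 / (2 * κ0) ≤ τ1 / 2 := by
      apply div_le_div_of_nonneg_left hτ1.le (by norm_num)
      linarith
    have h2 : 0 ≤ lam * c.1.sz := by positivity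
    nlinarith [mul_le_mul_of_nonneg_right h1 h2]
  · refine (hb2 k).trans ?_
    have := hρs k
    linarith
  · obtain ⟨g5, g6⟩ := g4 w hw
    refine ⟨g5, ?_⟩
    intro J M X j s' hMQ hws hXB hXR hk0'
    refine (g6 M X j w0 s' hMQ hws hXB hXR hk0' _ _ _ _).trans ?_
    refine block_le hp hκf hκf3 hpos hl hasp (by norm_num) (by norm_num) hE hSm (le_refl _) ?_ hKq
      hη1 hSD C4 (K3 p (Mfb_290.nE Bn R0) 2 1 1 181)
    intro y hy k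
    have h1 : |A y k - ctr c.1 k| ≤ μ * c.1.side k / 2 := hB.N hy.1 k
    refine h1.trans ?_
    have := hroom k
    linarith

end

end Crest.Agent.R096.Exb_766
end

-- ▼ part R096/Exb2_766

/-!
Row 96 (S0127), helper766.  **`ExBlkN p`** (`Bmd_798`), part 2: the composition.
-/

set_option autoImplicit false
set_option linter.style.longLine false
set_option linter.unusedSectionVars false
set_option linter.unusedVariables false

open MeasureTheory Set Filter Topology Metric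
open scoped ENNReal NNReal

namespace Crest.Agent.R096.Exb_766

open Crest.Agent.R096.Msh_715 Crest.Agent.R096.Mal_874 Crest.Agent.R096.Cut_874
  Crest.Agent.R096.Msh_810 Crest.Agent.R096.Ine_222 Crest.Agent.R096.Mfi_290
open Crest.Agent.R096.SkC1_961 (E3 Hom3 FoamD)
open Crest.Agent.R096.Er_594 (SH3)
open Crest.Agent.R096.Bsp_628 Crest.Agent.R096.Brk5_582
open Crest.Agent.R096.Bxs_627 (ctr CoriE zz)
open Crest.Agent.R096.EaX_766 (lin cbx ExIn Kor RatA)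
open Crest.Agent.R096.Exa_365 Crest.Agent.R096.Acc_365
open Crest.Agent.R096.Ls_222 (Edg ea ev eIn mem_eIn)
open Crest.Agent.R096.Pmc_112 (Gd')
open Crest.Agent.R096.Eds_746 (EB)
open Crest.Agent.R96.Wm4_748 (K3)
open Crest.Agent.R096.Mdd_360 (BlkXi mdN)
open Crest.Agent.R096.Enn_766
open Crest.Agent.R96.Gj_872 (Dy)
open Crest.Agent.R096.Dic6_582 (dF kF)
open Crest.Agent.R096.Np_962 (Md ΦN Front3 kF_one cN_pos cN_le)
open Crest.Agent.R096.Npr_582 (cN)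
open Crest.Agent.R096.Bmd_798
open Crest.Agent.R096.Fns_360 (trA FineS offO O34)
open Crest.Agent.R096.Gin_635

noncomputable section

/-- choice of the numbers after `κs`, `κw` -/
theorem exists_nums {κs κw κ0 : ℝ} (hκs : 0 < κs) (hκw : 0 < κw) (hκ0 : 1 ≤ κ0) {p : ℝ}
    (hp : 1 ≤ p) :
    ∃ τ1 η : ℝ, 0 < τ1 ∧ τ1 ≤ κs ∧ τ1 ≤ κw / 4 ∧ 0 < η ∧ η ≤ 1 ∧
      ((ENNReal.ofReal η) ^ (1 / p)).toReal ≤ κw ∧ ∃ dk : ℕ, 2 * κ0 / τ1 ≤ 2 ^ dk ∧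
      ∀ NC : ℕ, ∃ κ1f : ℝ, 0 < κ1f ∧ κ1f ≤ κs ∧ κ1f ≤ κw / 4 ∧ κ1f * κ0 ≤ 1 / 2 ∧
        κ1f * κ0 ^ 3 ≤ 1 ∧ (NC : ℝ) * κ1f ≤ (1 / 4) * η * (τ1 / (2 * κ0)) ^ 3 := by
  have hp0 : 0 < p := by linarith
  have hκ00 : 0 < κ0 := by linarith
  set τ1 : ℝ := min κs (κw / 4) with hτ1
  have hτ10 : 0 < τ1 := lt_min hκs (by positivity)
  set η : ℝ := min 1 (κw ^ p) with hη
  have hη0 : 0 < η := lt_min one_pos (by positivity)
  refine ⟨τ1, η, hτ10, min_le_left _ _, min_le_right _ _, hη0, min_le_left _ _, ?_, ?_⟩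
  · rw [ENNReal.ofReal_rpow_of_nonneg hη0.le (by positivity), ENNReal.toReal_ofReal (by positivity)]
    calc η ^ (1 / p) ≤ (κw ^ p) ^ (1 / p) :=
          Real.rpow_le_rpow hη0.le (min_le_right _ _) (by positivity)
      _ = κw := by rw [← Real.rpow_mul hκw.le, mul_one_div_cancel hp0.ne', Real.rpow_one]
  · obtain ⟨dk, hdk⟩ := pow_unbounded_of_one_lt (2 * κ0 / τ1) (by norm_num : (1:ℝ) < 2)
    refine ⟨dk, hdk.le, fun NC => ?_⟩
    set b : ℝ := (1 / 4) * η * (τ1 / (2 * κ0)) ^ 3 with hb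
    have hb0 : 0 < b := by positivity
    refine ⟨min (min κs (κw / 4)) (min (1 / (2 * κ0 ^ 3)) (b / (NC + 1))),
      lt_min (lt_min hκs (by positivity)) (lt_min (by positivity) (by positivity)),
      (min_le_left _ _).trans (min_le_left _ _), (min_le_left _ _).trans (min_le_right _ _),
      ?_, ?_, ?_⟩
    · have h1 : min (min κs (κw / 4)) (min (1 / (2 * κ0 ^ 3)) (b / (NC + 1))) ≤ 1 / (2 * κ0 ^ 3) :=
        (min_le_right _ _).trans (min_le_left _ _)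
      calc _ ≤ 1 / (2 * κ0 ^ 3) * κ0 := mul_le_mul_of_nonneg_right h1 hκ00.le
        _ = 1 / 2 * (1 / κ0 ^ 2) := by field_simp
        _ ≤ 1 / 2 * 1 := by
          have : 1 ≤ κ0 ^ 2 := one_le_pow₀ hκ0
          have h3 : 1 / κ0 ^ 2 ≤ 1 := by rw [div_le_one (by positivity)]; exact this
          linarith
        _ = 1 / 2 := by ring
    · have h1 : min (min κs (κw / 4)) (min (1 / (2 * κ0 ^ 3)) (b / (NC + 1))) ≤ 1 / (2 * κ0 ^ 3) :=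
        (min_le_right _ _).trans (min_le_left _ _)
      calc _ ≤ 1 / (2 * κ0 ^ 3) * κ0 ^ 3 := mul_le_mul_of_nonneg_right h1 (by positivity)
        _ = 1 / 2 := by field_simp
        _ ≤ 1 := by norm_num
    · have h1 : min (min κs (κw / 4)) (min (1 / (2 * κ0 ^ 3)) (b / (NC + 1))) ≤ b / (NC + 1) :=
        (min_le_right _ _).trans (min_le_right _ _)
      calc (NC : ℝ) * _ ≤ (NC : ℝ) * (b / (NC + 1)) := by gcongr
        _ ≤ b := by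
          rw [mul_div_assoc', div_le_iff₀ (by positivity)]
          nlinarith

/-- **`ExBlkN p`** (798's literal Prop (M4)) -/
theorem exBlkN {p : ℝ} (hp : 1 ≤ p) : ExBlkN p := by
  classical
  intro q hq
  have hκ0 : 1 ≤ kF q := kF_one q
  obtain ⟨Bn, R0, hBn, hR0, HM⟩ := mdN hq
  obtain ⟨C4, HB⟩ := one_brick hp Bn hR0 hBn
  set K3' : ℝ≥0∞ := K3 p (Mfb_290.nE Bn R0) 2 1 1 181 with hK3'
  have hK3 : K3' ≠ ∞ := Crest.Agent.R96.Wm4_748.K3_ne_top (by linarith) (by norm_num)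
  set KB : ℝ≥0∞ := KBN p C4 K3' (Pdn_635.Kq q) with hKB
  refine ⟨Bn, R0, KB, KBN_ne_top hp ENNReal.coe_ne_top hK3 _, ?_⟩
  intro κp hκp hκp1 lam0 hlam0 κ1 hκ1 hκ1F
  obtain ⟨m, Nb, κs, hm, hκs, hκs256, hκs1, HM⟩ := HM lam0 κ1 hlam0 hκ1 hκ1F
  obtain ⟨κw, hκw, HW⟩ := wordsN (Dic6_582.dF_pos hq) hκ0 (by norm_num : (1:ℝ) ≤ 6) hκp hlam0 m
  obtain ⟨τ1, η, hτ1, hτs, hτw, hη, hη1, hηw, dk, hdk, HC⟩ := exists_nums hκs hκw hκ0 hp
  set Bs : ℕ := max Bn ⌈R0⌉₊ with hBs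
  have hBs1 : 1 ≤ Bs := hBn.trans (le_max_left _ _)
  obtain ⟨NC, hNC⟩ := Eds_746.card_EB hBs1 (Nb : ℝ) (by positivity) dk
  obtain ⟨κ1f, hκf, hκfs, hκfw, hκf1, hκf3, hκfN⟩ := HC NC
  refine ⟨κ1f, hκf, hκf1, ?_⟩
  intro s εf εf' Om La f hOm hOb hLa hLb Mf ρ0 h al F bf cmp lam hl hl4 A f1 D1 X HH g H D0 hC hD hF
  obtain ⟨fi, -, -, -, -, hfc, -⟩ := id H.c.homeo
  have hcor : ∀ c, CoriE Om f1 (A c) c.1 (lam c) κ1f (1 / 8) := fun c =>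
    Exg_766.cori_of_exIn (H.ex c)
  obtain ⟨i, Q0, hQ0, hψ, r, hr0, hrs, HMM⟩ := HM κ1f τ1 τ1 hκf.le hκfs hτ1.le hτs hτ1 hτs Om La f1
    hOm hLa H.c.homeo h al F bf cmp lam hl hl4 A H.c.h0 H.dy H.rat (fun c => (H.ex c).rat) hcor D0
    hC.ge hD (fun u hu => (hF u hu).2)
  obtain ⟨D', hD'1, -, hD'2, hD'3, -, -⟩ := Pdn_635.push_PhiN bf cmp lam hl hl4 hOm hLa H.sh
  -- the numbers of edges
  have hEB : ∀ c : F, ∀ hk : (Q0 c).kc ≤ (Q0 c).kc + dk,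
      (EB (Q0 c) ((Q0 c).kc + dk) hk).Finite ∧ (EB (Q0 c) ((Q0 c).kc + dk) hk).ncard ≤ NC := by
    intro c hk
    refine hNC (Q0 c) _ hk le_rfl (fun i' p' hp' l => ?_) (fun i' hi' v hv w hw l => ?_) (fun l => ?_)
    · refine ((hQ0 c).bnd i' p' hp' l).trans ?_
      exact_mod_cast le_max_left _ _
    · refine ((hQ0 c).size i' hi' v hv w hw l).trans ((Nat.le_ceil R0).trans ?_)
      exact_mod_cast le_max_right _ _
    · exact_mod_cast (hQ0 c).H l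
  -- one brick
  have hbr : ∀ c : F, ∃ (w0 : E3) (κr : ℕ) (G : Set E3),
      w0 ∈ Dy (ContinuousLinearEquiv.refl ℝ E3) κr ∧
      (‖(A c).linear w0‖ ≤ τ1 * (lam c * c.1.sz) ∧
        ∀ k, |(A c).linear w0 k| ≤ τ1 * (lam c * c.1.side k)) ∧
      MeasurableSet {s : E3 | ‖s‖ ≤ r ⟨c, mem_univ c⟩ ∧ w0 + s ∈ G} ∧
      volume {s : E3 | ‖s‖ ≤ r ⟨c, mem_univ c⟩ ∧ w0 + s ∈ G} ≠ 0 ∧
      ∀ w ∈ G, GoodW p Om f1 D1 (A c)
          (fun e : EB (Q0 c) ((Q0 c).kc + dk) (Nat.le_add_right _ _) => ea e.1) (fun e => ev e.1)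
          (ENNReal.ofReal η) w ∧
        ∀ {J : Type} (M : MD E3 3 J) (X : RD M) (j : J) (s : E3), M.Q j = (Q0 c).tr w0 →
          w0 + s = w → X.B j ≤ Bn → X.R j ≤ R0 →
          ∀ (hk0 : (M.Q j).kc ≤ (Q0 c).kc + dk),
          ∑' c', (Uni_663.toPTU (QI M X j ((Q0 c).kc + dk) hk0)).EnC (Gd' D') p c' s ≤
            KB * (ENNReal.ofReal ((1 / lam c * ‖lin (A c)‖) ^ p) *
              volume (A c ⁻¹' cbx c.1 (lam c))) := by
    intro c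
    exact HB hOm H.sh bf hκ0 (hl c) (hl4 c) (H.ex c) hm (hQ0 c) hτ1 (hτs.trans hκs256) hdk
      (Nat.le_add_right _ _) rfl (hEB c _).1 (hEB c _).2 hη hη1 hκf.le hκf1 hκf3 hκfN hD'1
      (Pdn_635.Kq_nonneg q) (by
        filter_upwards [hD'3] with x hx hxc
        exact hx c hxc) (hr0 _)
  choose w0 κr G hw0 hw1 hGm hG0 hG using hbr
  obtain ⟨M, Y, hφ, hMD, hMQ, hMr, hMO, hYB, hYR, hlev, hMψ, hMN, hcf⟩ := HMM w0 hw1 κr hw0
  have hk0 : ∀ j : UX F, (M.Q j).kc ≤ (Q0 j.1).kc + dk := by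
    intro j
    rw [hMQ]
    exact Nat.le_add_right _ _
  refine ⟨D', w0, fun _ => m, M, Y, fun j => (Q0 j.1).kc + dk, hk0, fun j => κr j.1,
    fun j => {s : E3 | ‖s‖ ≤ r j ∧ w0 j.1 + s ∈ G j.1},
    fun j => KB * (ENNReal.ofReal ((1 / lam j.1 * ‖lin (A j.1)‖) ^ p) *
      volume (A j.1 ⁻¹' cbx j.1.1 (lam j.1))), hD'1, hD'2, hMD, hMN, ?_, ?_⟩
  · exact
      { φ := hφ
        hOm := hMO
        ψ1 := hMψ
        bB := fun j => by rw [hYB]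
        bR := fun j => by rw [hYR]
        h0 := hlev
        Gds := by
          intro j s' hs'
          show ‖M.φ s'‖ ≤ M.r j
          rw [hφ, hMr]
          exact hs'.1
        Gdm := fun j => hGm j.1
        Gd0 := fun j => hG0 j.1
        cf := fun c hc k hk a v hv _ => hcf c hc k hk a v hv
        words := by
          intro v hv Om' hOm' D00 hC0 hD00
          subst hOm'
          refine HW La _ hLa F bf cmp (cN q) (cN_pos q) (cN_le q) lam hl hl4 (fun c => (H.rat c).1)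
            univ (fun c => mem_univ c) f1 p hp hfc D1 κ1f (1 / 8) τ1 τ1 κ1 (1 / 16)
            (by linarith) (by linarith) (by norm_num) A hcor (fun c => Q0 c.1)
            (fun c => (Q0 c.1).kc + dk) (fun c => Nat.le_add_right _ _) (fun c => w0 c.1)
            (fun _ => m) (ENNReal.ofReal η) (fun c => le_rfl) (fun c => (hQ0 c.1).Kc)
            (fun c => hw1 c.1) (fun c => ⟨hm, (hQ0 c.1).grid _ _⟩) ENNReal.ofReal_ne_top hηw v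
            (fun c => hrs c (v c) (hv c).1) (fun c => ?_) D00 hC0 (fun c => ?_)
          · exact Eds_746.goodW_comp (hG c.1 _ (hv c).2).1
              (fun e : {e // e ∈ eIn ((Q0 c.1).T ((Q0 c.1).kc + dk) (Nat.le_add_right _ _))
                  ((Q0 c.1).cix ((Q0 c.1).kc + dk) (Nat.le_add_right _ _))} =>
                (⟨e.1, Eds_746.core_sub_EB _ _ _ e.2⟩ :
                EB (Q0 c.1) ((Q0 c.1).kc + dk) (Nat.le_add_right _ _)))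
          · have h1 := hD00 c
            rw [hMQ] at h1
            exact h1
        en := by
          intro j s' hs'
          have h1 := (hG j.1 _ hs'.2).2 M Y j s' (by rw [hMQ]) rfl (by rw [hYB]) (by rw [hYR])
            (hk0 j)
          exact h1 }
  · exact sum_front3 H fun j => le_rfl

end

end Crest.Agent.R096.Exb_766
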