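import Crest.Agent.R096.Gsm5_432
import Crest.Agent.R096.Gsm6_432
import Crest.Agent.R096.Gau3_812_Mg

/-!
# Row 96, GAPSIM (helper432), part 7: `TileG` (helper855) for every tile of the aligned mesh (helper874)
-/

set_option autoImplicit false
set_option linter.unusedSectionVars false

open Set Metric Topology Filter

namespace Crest.Agent.R096.Gsm_432

open Crest.Agent.R096.Msh_715 Crest.Agent.R096.Mal_874 Crest.Agent.R096.Cut_874
open Crest.Agent.R096.Msh_810 Crest.Agent.R096.Sk2_855 Crest.Agent.R096.Sk3_812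
open Crest.Agent.R096.Ca_855 (TileG)

universe w

section tile

variable {F : Type*} [NormedAddCommGroup F] [NormedSpace ℝ F] [FiniteDimensional ℝ F]
variable {E : Type} [NormedAddCommGroup E] [NormedSpace ℝ E] [FiniteDimensional ℝ E]
variable {Om : Set E} {ι : Type*} {T : Tiling Om ι} {i : ι} {B : E ≃ᵃ[ℝ] F} {c : E}
  {β ρ D : ℝ} {nc : ℕ}

theorem aff_sub (B : E ≃ᵃ[ℝ] F) (x y : E) : B x - B y = B.linear (x - y) := by
  have h := B.toAffineMap.linearMap_vsub x y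
  simp only [AffineEquiv.coe_toAffineMap, vsub_eq_sub, AffineEquiv.linear_toAffineMap,
    LinearEquiv.coe_coe] at h
  exact h.symm

/-- **the gap in absolute units** -/
theorem GapT.tileG (h : GapT T i B c β ρ D nc) (hβ : 0 ≤ β) (hne : (T.H i).Nonempty) {L r t : ℝ}
    (hL0 : 0 ≤ L) (hL : ∀ v, ‖B.linear v‖ ≤ L * ‖v‖) (hr : L * r ≤ ρ)
    (hd : ∀ y ∈ P (T.H i), ∀ y' ∈ P (T.H i), ‖y - y'‖ ≤ t) : TileG T i hne c β r t nc where
  cI := h.mem
  ball := by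
    intro y hy
    have h1 : B y ∈ closedBall (B c) ρ := by
      rw [mem_closedBall, dist_eq_norm, aff_sub]
      rw [mem_closedBall, dist_eq_norm] at hy
      exact (hL _).trans ((mul_le_mul_of_nonneg_left hy hL0).trans hr)
    exact (B.injective.mem_set_image).1 (h.ball h1)
  gap := fun y hy h1 h2 => (h.gap1_ug hβ hne (AffineEquiv.refl ℝ E) hy h1
    (fun hc => h2 (crs_iff.2 hc))).le
  star := fun y hy => by
    obtain ⟨m, hm, hy'⟩ := mem_iUnion₂.1 (interior_subset (h.sub_ug hβ hne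
      (AffineEquiv.refl ℝ E) (x := y) hy))
    exact ⟨m, hm, hy'⟩
  cardK := by
    refine le_trans ?_ h.edges
    exact Nat.card_le_card_of_injective toG (fun a b hab => Subtype.ext
      (congrArg (fun k : Tgr_335.KT T i => k.1) hab))
  cardN := h.nbr
  diam := hd

theorem GapT.diam (h : GapT T i B c β ρ D nc) {L : ℝ} (hL0 : 0 ≤ L)
    (hL : ∀ v, ‖v‖ ≤ L * ‖B.linear v‖) : ∀ y ∈ P (T.H i), ∀ y' ∈ P (T.H i),
      ‖y - y'‖ ≤ L * (2 * D) := by
  intro y hy y' hy'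
  have h1 := h.bdd (mem_image_of_mem _ hy)
  have h2 := h.bdd (mem_image_of_mem _ hy')
  rw [mem_closedBall] at h1 h2
  have h3 : dist (B y) (B y') ≤ 2 * D := by
    have := dist_triangle_right (B y) (B y') (B c)
    linarith
  rw [dist_eq_norm, aff_sub] at h3
  exact (hL _).trans (mul_le_mul_of_nonneg_left h3 hL0)


end tile

/-! ### the shape of a tile at a scale -/

variable {n : ℕ} {E : Type} [NormedAddCommGroup E] [NormedSpace ℝ E] [FiniteDimensional ℝ E]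

/-- the tile `i` has the shape constants `β ρ D nc` at the scale `2 ^ (-κ)` -/
def TG {Om : Set E} {ι : Type*} (T : Tiling Om ι) (i : ι) (β ρ D : ℝ) (nc κ : ℕ) : Prop :=
  (∀ y ∈ P (T.H i), ∀ y' ∈ P (T.H i), ‖y - y'‖ ≤ D / 2 ^ κ) ∧
  ∃ c, ∀ (hne : (T.H i).Nonempty) (K : ℕ) (t : ℝ), κ ≤ K → D / 2 ^ κ ≤ t →
    TileG T i hne c β (ρ / 2 ^ K) t nc

theorem chi_linear (φ : E ≃L[ℝ] (Fin n → ℝ)) (a : Fin n → ℝ) (k : ℕ) (v : E) :
    ‖(chi φ a k).linear v‖ = 2 ^ k * ‖φ v‖ := by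
  have h1 := aff_sub (chi φ a k) v 0
  rw [sub_zero] at h1
  have h2 : chi φ a k v - chi φ a k 0 = (2 : ℝ) ^ k • φ v := by
    funext m
    rw [Pi.sub_apply, chi_apply, chi_apply, map_zero, Pi.smul_apply, smul_eq_mul, Pi.zero_apply]
    ring
  rw [← h1, h2, norm_smul, Real.norm_of_nonneg (by positivity)]

theorem TG.of {Om : Set E} {ι : Type*} {T : Tiling Om ι} {i : ι} {φ : E ≃L[ℝ] (Fin n → ℝ)}
    {a : Fin n → ℝ} {κ : ℕ} {c : E} {β ρ D : ℝ} {nc : ℕ}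
    (h : GapT T i (chi φ a κ) c β ρ D nc) (hβ : 0 ≤ β) (hρ : 0 < ρ) {L1 L2 : ℝ} (hL1 : 0 < L1)
    (hL2 : 0 ≤ L2) (h1 : ∀ v, ‖φ v‖ ≤ L1 * ‖v‖) (h2 : ∀ v, ‖v‖ ≤ L2 * ‖φ v‖) :
    TG T i β (ρ / L1) (L2 * (2 * D)) nc κ := by
  have hp : (0 : ℝ) < 2 ^ κ := by positivity
  have hd : ∀ y ∈ P (T.H i), ∀ y' ∈ P (T.H i), ‖y - y'‖ ≤ L2 * (2 * D) / 2 ^ κ := by
    intro y hy y' hy'
    have h3 := h.diam (L := L2 / 2 ^ κ) (by positivity) (fun v => ?_) y hy y' hy'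
    · rwa [div_mul_eq_mul_div] at h3
    · rw [chi_linear, div_mul_eq_mul_div, mul_left_comm, mul_div_assoc, mul_comm,
        div_mul_cancel₀ _ hp.ne']
      exact h2 v
  refine ⟨hd, c, fun hne K t hK ht => ?_⟩
  have hpK : (0 : ℝ) < 2 ^ K := by positivity
  have hle : (2 : ℝ) ^ κ ≤ 2 ^ K := pow_le_pow_right₀ (by norm_num) hK
  refine h.tileG hβ hne (L := 2 ^ κ * L1) (by positivity) (fun v => ?_) ?_
    (fun y hy y' hy' => (hd y hy y' hy').trans ht)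
  · rw [chi_linear, mul_assoc]
    exact mul_le_mul_of_nonneg_left (h1 v) hp.le
  · have e : (2 : ℝ) ^ κ * L1 * (ρ / L1 / 2 ^ K) = ρ * (2 ^ κ / 2 ^ K) := by
      field_simp
    rw [e]
    have h3 : (2 : ℝ) ^ κ / 2 ^ K ≤ 1 := (div_le_one hpK).2 hle
    nlinarith

/-- the norm of a rational frame -/
theorem norm_rat {φ ψ : E ≃L[ℝ] (Fin n → ℝ)} {A : Fin n → Fin n → ℤ} {d : ℕ} (hd : 0 < d)
    (hA : Rt φ ψ A d) (v : E) : ‖ψ v‖ ≤ (∑ m, ∑ l, |(A m l : ℝ)|) * ‖φ v‖ := by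
  have hd' : (1 : ℝ) ≤ d := by exact_mod_cast hd
  have h0 : 0 ≤ (∑ m, ∑ l, |(A m l : ℝ)|) * ‖φ v‖ := by positivity
  rw [pi_norm_le_iff_of_nonneg h0]
  intro m
  have h1 := hA v m
  have h2 : |(d : ℝ) * ψ v m| ≤ (∑ l, |(A m l : ℝ)|) * ‖φ v‖ := by
    rw [h1, Finset.sum_mul]
    refine (Finset.abs_sum_le_sum_abs _ _).trans (Finset.sum_le_sum fun l _ => ?_)
    rw [abs_mul]
    have := norm_le_pi_norm (φ v) l
    rw [Real.norm_eq_abs] at this
    exact mul_le_mul_of_nonneg_left this (abs_nonneg _)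
  rw [abs_mul, abs_of_nonneg (by linarith)] at h2
  have h3 : ∑ l, |(A m l : ℝ)| ≤ ∑ m, ∑ l, |(A m l : ℝ)| :=
    Finset.single_le_sum (f := fun m => ∑ l, |(A m l : ℝ)|)
      (fun m _ => Finset.sum_nonneg fun l _ => abs_nonneg _) (Finset.mem_univ m)
  have h4 := mul_le_mul_of_nonneg_right h3 (norm_nonneg (φ v))
  have h5 := abs_nonneg (ψ v m)
  rw [Real.norm_eq_abs]
  nlinarith


end Crest.Agent.R096.Gsm_432
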