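import Crest.Agent.R096.Pin1_753
import Crest.Agent.R096.Sk2a_855
import Crest.Agent.R096.SkC1_961
import Crest.Agent.R096.Br6_695
import Crest.Agent.R096.Ea0_961
import Crest.Agent.R096.Pas4_753
import Crest.Agent.R096.Pe1_622
import Crest.Agent.R96.Intr11_538
import Crest.Agent.R096.Pas3_753
import Crest.Agent.R096.Cp9_465
import Crest.Agent.R096.Fsl8_793
import Crest.Agent.R096.Pas2_753
import Crest.Agent.R096.Ca16_855
import Crest.Agent.R096.Ca15_855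
import Crest.Agent.R096.Eog3_922
import Crest.Agent.R096.Msb3_432
import Crest.Agent.R96.Gdt4_538

-- ▼ part R096/Pje_518
section

/-!
Row 96 (S0127), helper518.  `PreIN p` from the same statement with the condition
`θ1 * s ≤ 1 / 2 ^ k0 ≤ θ0 * s` as a separate hypothesis (matters only for `J = ∅`), and `θ1 ≤ θ0 / 2`.
-/

set_option autoImplicit false
set_option linter.style.longLine false
set_option linter.unusedSectionVars false

open MeasureTheory Set Filter Topology Metric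
open scoped ENNReal NNReal

namespace Crest.Agent.R096.Pje_518

open Crest.AnalysisR.VecCalc3 Crest.AnalysisR.Sobolev
open Crest.Agent.R096.Msh_715 Crest.Agent.R096.Mal_874
open Crest.Agent.R096.Sk_962 (SH)
open Crest.Agent.R096.Br_695 (En)
open Crest.Agent.R96.Lu_538 (Gmat)
open Crest.Agent.R96.Intr_538 (cel par)
open Crest.Agent.R96.Coarse_538 (vt Cb)
open Crest.Agent.R96.En10_199 (P3)
open Crest.Agent.R096.Pin_753

noncomputable section

/-- `PreIN p` with `θ1 ≤ θ0 / 2` and `θ1 * s ≤ 1 / 2 ^ k0 ≤ θ0 * s` as separate hypotheses. -/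
def PreINs (p : ℝ) : Prop :=
  ∀ Bs : ℕ, ∃ C : ℝ≥0, ∀ (Om La : Set R3) (f : R3 → R3) (G : Fin 3 → R3 → R3),
    IsOpen Om → Bornology.IsBounded Om → IsConnected Om →
    IsOpen La → Bornology.IsBounded La → IsConnected La → SH p Om La f G →
  ∀ ε : ℝ, 0 < ε →
  ∃ κ : ℝ, 0 < κ ∧ κ ≤ 1 ∧ ∃ K ⊆ Om, IsCompact K ∧ ∃ K' ⊆ La, IsCompact K' ∧ ∃ C1 : ℝ, 1 ≤ C1 ∧
  ∀ (τ hh c1 c2 κw e : ℝ) (Nn : ℕ), 0 < τ → τ ≤ 1 / 4 → 0 < hh → 0 < c1 → 0 < c2 → 0 < κw → 0 < e →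
    C1 * hh ≤ min τ c2 →
  ∃ θ0 : ℝ, 0 < θ0 ∧ ∀ θ1 : ℝ, 0 < θ1 → θ1 ≤ θ0 / 2 →
  ∀ η : R3 → ℝ, ContinuousOn η Om → (∀ x ∈ Om, 0 < η x) → ∀ e1 δ : ℝ, 0 < e1 → 0 < δ →
  ∃ s₀ : ℝ, 0 < s₀ ∧ ∀ s : ℝ, 0 < s → s < s₀ → ∀ a₀ : R3,
  ∃ (Q₀ : Finset (Fin 3 → ℤ)) (b : (Fin 3 → ℤ) → R3) (L : (Fin 3 → ℤ) → R3 →L[ℝ] R3),
    (∀ k ∈ Q₀, (∀ v, κ * ‖v‖ ≤ ‖L k v‖) ∧ ‖L k‖ ≤ κ⁻¹) ∧
    (∀ k ∈ Q₀, cel Cb (vt (2 * s) a₀ k) s ⊆ K) ∧ (∀ k ∈ Q₀, par Cb (L k) (b k) s ⊆ K') ∧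
    (∀ k ∈ Q₀, ∀ l ∈ Q₀, k ≠ l →
      Disjoint (par Cb (L k) (b k) ((1 - τ) * s)) (par Cb (L l) (b l) s)) ∧
    (∑ k ∈ Q₀, ∫⁻ x in cel Cb (vt (2 * s) a₀ k) s, ‖Gmat G x - L k‖ₑ ^ p) ≤ ENNReal.ofReal e1 ∧
    volume ((Om ∩ {x | (Gmat G x).det ≠ 0}) \ ⋃ k ∈ Q₀, cel Cb (vt (2 * s) a₀ k) s) ≤
      ENNReal.ofReal ε ∧
  ∀ (J : Type) [Finite J] (kk : J → Fin 3 → ℤ) (Qb : J → CB R3 3) (k0 : ℕ)
    (hk : ∀ j, (Qb j).kc ≤ k0), θ1 * s ≤ 1 / 2 ^ k0 → 1 / 2 ^ k0 ≤ θ0 * s → (∀ j, kk j ∈ Q₀) →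
    (∀ j, BlkP κ s τ hh c1 θ0 θ1 Bs Nn (vt (2 * s) a₀ (kk j)) (Qb j) k0) →
    (∀ i j, i ≠ j → ∀ x ∈ (Qb i).N, ∀ y ∈ (Qb j).N, c2 * s ≤ dist x y) →
  ∃ a : R3, ‖a‖ ≤ κw * s ∧ ∃ Q ⊆ Q₀, ((Q₀ \ Q).card : ℝ) * (2 * s) ^ 3 ≤ δ ∧
  ∃ (f₂ : R3 → R3) (G₂ : Fin 3 → R3 → R3) (er : J → ℝ≥0∞), SH p Om La f₂ G₂ ∧
    (∀ x ∈ Om, ‖f₂ x - f x‖ ≤ η x) ∧
    (∀ k ∈ Q, ∀ x ∈ cel Cb (vt (2 * s) a₀ k) ((1 - τ) * s),
      ‖f₂ x - Bk (b k) (L k) (vt (2 * s) a₀ k) x‖ ≤ C1 * hh * s) ∧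
    (∀ j, kk j ∈ Q → InP p f₂ (Gmat G₂) C1 κw s (b (kk j)) (L (kk j))
      (vt (2 * s) a₀ (kk j)) (er j) ((Qb j).tr a) k0 (hk j)) ∧
    (∑' j : {j // kk j ∈ Q}, er j) ≤ ENNReal.ofReal e ∧
    (∑' j : {j // kk j ∈ Q}, ∫⁻ x in Ly ((Qb j).tr a) k0, (1 + En p G₂ x)) ≤ ENNReal.ofReal e ∧
    (∫⁻ x in Om \ ⋃ j ∈ {j | kk j ∈ Q}, ((Qb j).tr a).N, (1 + En p G₂ x)) ≤
      C * (∫⁻ x in Om \ ⋃ j ∈ {j | kk j ∈ Q}, ((Qb j).tr a).Kc, (1 + En p G x)) + ENNReal.ofReal e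

theorem BlkP.mono_lo {κ s τ hh c1 θ0 θ1 θ1' : ℝ} {Bs Nn : ℕ} {z0 : R3} {Q : CB R3 3} {k0 : ℕ}
    (hs : 0 ≤ s) (h : θ1' ≤ θ1) (H : BlkP κ s τ hh c1 θ0 θ1 Bs Nn z0 Q k0) :
    BlkP κ s τ hh c1 θ0 θ1' Bs Nn z0 Q k0 where
  cnd := H.cnd
  net := H.net
  hB := H.hB
  hR := H.hR
  cellL := H.cellL
  cellU := H.cellU
  lo := (mul_le_mul_of_nonneg_right h hs).trans H.lo
  hi := H.hi
  sub := H.sub

/-- a dyadic scale between `t / 2` and `t` -/
theorem exists_scale {t : ℝ} (ht : 0 < t) (ht1 : t ≤ 1) : ∃ k : ℕ, t / 2 ≤ 1 / 2 ^ k ∧ (1:ℝ) / 2 ^ k ≤ t := by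
  obtain ⟨n, h1, h2⟩ := exists_nat_pow_near (x := t⁻¹) (y := 2) (one_le_inv_iff₀.2 ⟨ht, ht1⟩) one_lt_two
  have hp : (0:ℝ) < 2 ^ n := by positivity
  have hp1 : (0:ℝ) < 2 ^ (n + 1) := by positivity
  refine ⟨n + 1, ?_, ?_⟩
  · rw [div_le_div_iff₀ (by norm_num) hp1, pow_succ]
    have : 2 ^ n * t ≤ 1 := by
      have := mul_le_mul_of_nonneg_right h1 ht.le
      rwa [inv_mul_cancel₀ ht.ne'] at this
    nlinarith
  · rw [div_le_iff₀ hp1]
    have := mul_le_mul_of_nonneg_right h2.le ht.le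
    rw [inv_mul_cancel₀ ht.ne'] at this
    linarith

/-- **the reduction** -/
theorem preIN_of_scaled {p : ℝ} (H : PreINs p) : PreIN p := by
  intro Bs
  obtain ⟨C, H⟩ := H Bs
  refine ⟨C, fun Om La f G h1 h2 h3 h4 h5 h6 h7 ε hε => ?_⟩
  obtain ⟨κ, hκ, hκ1, K, hK, hKc, K', hK', hKc', C1, hC1, H⟩ := H Om La f G h1 h2 h3 h4 h5 h6 h7 ε hε
  refine ⟨κ, hκ, hκ1, K, hK, hKc, K', hK', hKc', C1, hC1, ?_⟩
  intro τ hh c1 c2 κw e Nn g1 g2 g3 g4 g5 g6 g7 g8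
  obtain ⟨θ0, hθ0, H⟩ := H τ hh c1 c2 κw e Nn g1 g2 g3 g4 g5 g6 g7 g8
  refine ⟨θ0, hθ0, fun θ1 hθ1 η hη hη0 e1 δ he1 hδ => ?_⟩
  obtain ⟨s₀, hs₀, H⟩ := H (min θ1 (θ0 / 2)) (lt_min hθ1 (by positivity)) (min_le_right _ _) η hη hη0
    e1 δ he1 hδ
  refine ⟨min s₀ (1 / θ0), lt_min hs₀ (by positivity), fun s hs hss a₀ => ?_⟩
  obtain ⟨Q₀, b, L, q1, q2, q3, q4, q5, q6, H⟩ := H s hs (hss.trans_le (min_le_left _ _)) a₀
  refine ⟨Q₀, b, L, q1, q2, q3, q4, q5, q6, ?_⟩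
  intro J _ kk Qb k0 hk hkk hB hsep
  rcases isEmpty_or_nonempty J with hJ | ⟨⟨j₀⟩⟩
  · have ht : θ0 * s ≤ 1 := by
      have := (hss.trans_le (min_le_right _ _)).le
      rw [le_div_iff₀ hθ0] at this
      linarith
    obtain ⟨k, k1, k2⟩ := exists_scale (t := θ0 * s) (by positivity) ht
    have k1' : min θ1 (θ0 / 2) * s ≤ 1 / 2 ^ k := by
      refine (mul_le_mul_of_nonneg_right (min_le_right _ _) hs.le).trans ?_
      linarith
    obtain ⟨a, ha, Q, hQ, r1, f₂, G₂, er, r2, r3, r4, r5, r6, r7, r8⟩ :=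
      H J kk Qb k (fun j => hJ.elim j) k1' k2 hkk (fun j => hJ.elim j) hsep
    refine ⟨a, ha, Q, hQ, r1, f₂, G₂, er, r2, r3, r4, fun j => hJ.elim j, r6, ?_, r8⟩
    have : IsEmpty {j // kk j ∈ Q} := ⟨fun j => hJ.elim j.1⟩
    rw [tsum_empty]
    exact bot_le
  · refine H J kk Qb k0 hk ((mul_le_mul_of_nonneg_right (min_le_left _ _) hs.le).trans (hB j₀).lo)
      (hB j₀).hi hkk (fun j => BlkP.mono_lo hs.le (min_le_left _ _) (hB j)) hsep

end

end Crest.Agent.R096.Pje_518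
end

-- ▼ part R096/LpInv1_816
section

/-!
# The inverse of a locally PL homeomorphism is locally PL (helper816, row 96)
-/

set_option autoImplicit false

open Set Filter Topology Metric

namespace Crest.Agent.R096.LpInv_816

open Ce_537

variable {E F : Type*} [NormedAddCommGroup E] [NormedSpace ℝ E] [NormedAddCommGroup F]
  [NormedSpace ℝ F]

/-- a continuous selection of finitely many affine maps agrees with one of them on a nonempty
open set -/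
theorem exists_open_eq {f : E → F} [DecidableEq (E →ᵃ[ℝ] F)]
    (hcont : ∀ a : E →ᵃ[ℝ] F, Continuous a) (S : Finset (E →ᵃ[ℝ] F)) :
    ∀ V : Set E, IsOpen V → V.Nonempty → ContinuousOn f V → (∀ z ∈ V, ∃ a ∈ S, f z = a z) →
      ∃ a ∈ S, ∃ W : Set E, IsOpen W ∧ W.Nonempty ∧ W ⊆ V ∧ ∀ z ∈ W, f z = a z := by
  induction S using Finset.induction_on with
  | empty =>
    intro V _ hne _ h
    obtain ⟨z, hz⟩ := hne
    obtain ⟨a, ha, -⟩ := h z hz
    simp at ha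
  | insert a S _ ih =>
    intro V hV hne hf h
    let V' : Set E := V ∩ (fun z => f z - a z) ⁻¹' {0}ᶜ
    have hV' : IsOpen V' :=
      (hf.sub (hcont a).continuousOn).isOpen_inter_preimage hV isOpen_compl_singleton
    rcases V'.eq_empty_or_nonempty with h0 | h0
    · refine ⟨a, Finset.mem_insert_self _ _, V, hV, hne, Subset.rfl, fun z hz => ?_⟩
      by_contra hn
      have : z ∈ V' := ⟨hz, fun h1 => hn (sub_eq_zero.1 h1)⟩
      rw [h0] at this; exact this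
    · obtain ⟨b, hb, W, h1, h2, h3, h4⟩ := ih V' hV' h0 (hf.mono inter_subset_left) (by
        rintro z ⟨hz, hz'⟩
        obtain ⟨b, hb, e⟩ := h z hz
        rcases Finset.mem_insert.1 hb with rfl | hb
        · exact absurd (sub_eq_zero.2 e) hz'
        · exact ⟨b, hb, e⟩)
      exact ⟨b, Finset.mem_insert_of_mem hb, W, h1, h2, h3.trans inter_subset_left, h4⟩

/-- where a continuous injective map is a selection of finitely many affine maps, it is a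
selection of the injective ones -/
theorem exists_injective [FiniteDimensional ℝ E] {f : E → F} {S : Finset (E →ᵃ[ℝ] F)} {U : Set E}
    (hU : IsOpen U) (hf : ContinuousOn f U) (hi : InjOn f U)
    (h : ∀ z ∈ U, ∃ a ∈ S, f z = a z) {z : E} (hz : z ∈ U) :
    ∃ a ∈ S, Function.Injective a ∧ f z = a z := by
  classical
  have hcont : ∀ a : E →ᵃ[ℝ] F, Continuous a := fun a => a.continuous_of_finiteDimensional
  by_contra hn
  push Not at hn
  let S1 := S.filter fun a : E →ᵃ[ℝ] F => Function.Injective (a : E → F)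
  let S2 := S.filter fun a : E →ᵃ[ℝ] F => ¬ Function.Injective (a : E → F)
  let V : Set E := U ∩ ⋂ a ∈ S1, (U ∩ (fun z => f z - a z) ⁻¹' {0}ᶜ)
  have hV : IsOpen V := hU.inter (isOpen_biInter_finset fun a _ =>
    (hf.sub (hcont a).continuousOn).isOpen_inter_preimage hU isOpen_compl_singleton)
  have hVz : z ∈ V := by
    refine ⟨hz, mem_iInter₂.2 fun a ha => ⟨hz, fun h1 => ?_⟩⟩
    have ha' := Finset.mem_filter.1 ha
    exact hn a ha'.1 ha'.2 (sub_eq_zero.1 h1)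
  obtain ⟨a, ha, W, hW, ⟨w, hw⟩, hWV, hWa⟩ := exists_open_eq hcont S2 V hV ⟨z, hVz⟩
    (hf.mono inter_subset_left) (by
      rintro w ⟨hw, hw'⟩
      obtain ⟨a, ha, e⟩ := h w hw
      refine ⟨a, Finset.mem_filter.2 ⟨ha, fun hinj => ?_⟩, e⟩
      have := mem_iInter₂.1 hw' a (Finset.mem_filter.2 ⟨ha, hinj⟩)
      exact this.2 (sub_eq_zero.2 e))
  have hna := (Finset.mem_filter.1 ha).2
  rw [← AffineMap.linear_injective_iff] at hna
  obtain ⟨v, hv0, hv⟩ : ∃ v, a.linear v = 0 ∧ v ≠ 0 := by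
    by_contra hc
    push Not at hc
    exact hna ((injective_iff_map_eq_zero _).2 fun v hv => hc v hv)
  have hl : Tendsto (fun s : ℝ => w + s • v) (𝓝[>] 0) (𝓝 w) := by
    have hc : Continuous fun s : ℝ => w + s • v := by fun_prop
    have h3 := hc.tendsto 0
    rw [zero_smul, add_zero] at h3
    exact h3.mono_left nhdsWithin_le_nhds
  obtain ⟨s, hs, hs0⟩ := ((hl.eventually (hW.mem_nhds hw)).and self_mem_nhdsWithin).exists
  have hs0 : 0 < s := hs0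
  have e1 : f (w + s • v) = f w := by
    rw [hWa _ hs, hWa _ hw]
    have : a (w + s • v) = a w + a.linear (s • v) := by
      rw [add_comm w, ← vadd_eq_add, a.map_vadd, vadd_eq_add, add_comm]
    rw [this, map_smul, hv0, smul_zero, add_zero]
  have e2 := hi (hWV hs).1 (hWV hw).1 e1
  have : s • v = 0 := by simpa using e2
  rcases smul_eq_zero.1 this with h1 | h1
  · exact hs0.ne' h1
  · exact hv h1

/-- an injective affine map has an affine left inverse -/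
theorem exists_leftInv (a : E →ᵃ[ℝ] F) (ha : Function.Injective a) :
    ∃ b : F →ᵃ[ℝ] E, ∀ z, b (a z) = z := by
  have h1 : Function.Injective a.linear := (AffineMap.linear_injective_iff a).2 ha
  obtain ⟨r, hr⟩ := LinearMap.exists_leftInverse_of_injective a.linear
    (LinearMap.ker_eq_bot.2 h1)
  refine ⟨r.toAffineMap - AffineMap.const ℝ _ (r (a 0)), fun z => ?_⟩
  show r (a z) - r (a 0) = z
  have h2 : a z = a.linear z + a 0 := by
    have := a.map_vadd 0 z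
    simpa using this
  rw [h2, map_add, add_sub_cancel_right]
  have := congrArg (fun g : E →ₗ[ℝ] E => g z) hr
  exact this

/-- **the inverse of a locally PL homeomorphism between open sets is locally PL** -/
theorem locPL_inv [FiniteDimensional ℝ E] {Om : Set E} {La : Set F} (hOm : IsOpen Om)
    (hLa : IsOpen La) {f : E → F} {g : F → E} (hf : LocPL f Om) (hg : ContinuousOn g La)
    (mg : MapsTo g La Om) (hgf : ∀ x ∈ Om, g (f x) = x) (hfg : ∀ y ∈ La, f (g y) = y) :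
    LocPL g La := by
  classical
  intro y hy
  obtain ⟨r, hr, hc, S, hS⟩ := hf (g y) (mg hy)
  obtain ⟨r1, hr1, hb⟩ := Metric.isOpen_iff.1 hOm (g y) (mg hy)
  let ρ := min r r1
  have hρ : 0 < ρ := lt_min hr hr1
  have hsub : ball (g y) ρ ⊆ ball (g y) r := ball_subset_ball (min_le_left _ _)
  have hsub1 : ball (g y) ρ ⊆ Om := (ball_subset_ball (min_le_right _ _)).trans hb
  have hga : ContinuousAt g y := hg.continuousAt (hLa.mem_nhds hy)
  have h1 : ∀ᶠ w in 𝓝 y, w ∈ La ∧ g w ∈ ball (g y) ρ := by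
    have h2 : ∀ᶠ w in 𝓝 y, w ∈ La := hLa.mem_nhds hy
    exact h2.and (hga (ball_mem_nhds _ hρ))
  obtain ⟨r', hr', hball⟩ := Metric.eventually_nhds_iff_ball.1 h1
  have hinj : InjOn f (ball (g y) ρ) := fun a ha b hb' hab => by
    rw [← hgf a (hsub1 ha), ← hgf b (hsub1 hb'), hab]
  have key := fun z (hz : z ∈ ball (g y) ρ) =>
    exists_injective (S := S) isOpen_ball (hc.mono hsub) hinj (fun z hz => hS z (hsub hz)) hz
  have hex : ∀ a : E →ᵃ[ℝ] F, ∃ b : F →ᵃ[ℝ] E, Function.Injective a → ∀ z, b (a z) = z := by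
    intro a
    by_cases ha : Function.Injective a
    · obtain ⟨b, hb'⟩ := exists_leftInv a ha
      exact ⟨b, fun _ => hb'⟩
    · exact ⟨AffineMap.const ℝ _ 0, fun h => absurd h ha⟩
  choose inv hinv using hex
  refine ⟨r', hr', hg.mono fun w hw => (hball w hw).1, S.image inv, fun w hw => ?_⟩
  obtain ⟨hwL, hwg⟩ := hball w hw
  obtain ⟨a, ha, hai, e⟩ := key (g w) hwg
  refine ⟨inv a, Finset.mem_image_of_mem _ ha, ?_⟩
  rw [hfg w hwL] at e
  have e2 := hinv a hai (g w)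
  rw [← e] at e2
  exact e2.symm


theorem locPL_iff {h : E → F} {Om : Set E} : Str_696.LocPL h Om ↔ LocPL h Om := by
  constructor
  · intro hf x hx
    obtain ⟨r, hr, S, h1, h2⟩ := hf x hx
    exact ⟨r, hr, h1, S, h2⟩
  · intro hf x hx
    obtain ⟨r, hr, h1, S, h2⟩ := hf x hx
    exact ⟨r, hr, S, h1, h2⟩

/-- **from the output of the machine to the PL homeomorphism of 2SK** -/
theorem HP_of_hom3 {Om La : Set SkC1_961.E3} (hOm : IsOpen Om) (hLa : IsOpen La)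
    {g : SkC1_961.E3 → SkC1_961.E3} (h : SkC1_961.Hom3 g Om La) (hg : Str_696.LocPL g Om) :
    ∃ gi : SkC1_961.E3 → SkC1_961.E3, Sk2_855.HP Om La g gi := by
  obtain ⟨gi, mf, mg, h1, h2, h3, h4⟩ := h
  refine ⟨gi, mf, mg, h1, h2, locPL_iff.1 hg, locPL_inv hOm hLa (locPL_iff.1 hg) h4 mg h1 h2⟩


end Crest.Agent.R096.LpInv_816
end

-- ▼ part R096/Hap1_812
section

/-!
# Row 96 (helper812): `happ` from `EA0 p`

The hypothesis `happ` (`C⁰`-approximation by locally PL homeomorphisms onto the same target) of all the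
2SK theorems, from `EA0 p` with no exact core (`X = ∅`) on a foam of small bricks.
-/

set_option autoImplicit false
set_option linter.unusedSectionVars false
set_option linter.style.longLine false

open MeasureTheory Set Filter Metric Module
open scoped ENNReal NNReal Topology

namespace Crest.Agent.R096.Hap_812

open Crest.AnalysisR.VecCalc3 Crest.AnalysisR.Sobolev
open Crest.Agent.R096.Sk_962 (SH)
open Crest.Agent.R096.Bsp_628
open Crest.Agent.R96.En10_199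
open Crest.Agent.R096.SkC1_961 (E3 Hom3)
open Crest.Agent.R096.Er_594
open Crest.Agent.R096.ThC6_766 (Scale exists_scale)
open Crest.Agent.R096.Brk5_582 (Cmp)
open Crest.Agent.R096.Ea0_961 (EA0 cb0)
open Crest.Agent.R096.Br_695 (δf δf_pos exists_foam_t star_of_scale Mf)
open Crest.Agent.R096.Sk2_855 (HP)

/-- a scale below a positive function of the source point -/
theorem exists_w3 {Om La : Set E3} (hL : IsOpen La) {f : E3 → E3} (hf : Hom3 f Om La)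
    {η : E3 → ℝ} (hη : ContinuousOn η Om) (hη0 : ∀ x ∈ Om, 0 < η x) {C : ℝ} (hC : 0 ≤ C) :
    ∃ w : E3 → ℝ, Scale La w ∧ ∀ x ∈ Om, C * w (f x) ≤ η x := by
  obtain ⟨w, hw, hwη⟩ := Br_695.exists_w (Om := P3.symm ⁻¹' Om) (La := P3.symm ⁻¹' La)
    (hL.preimage P3.symm.continuous) (homeo_of' hf) (η := fun y => η (P3.symm y))
    (hη.comp P3.symm.continuous.continuousOn fun x hx => hx) (fun x hx => hη0 _ hx) hC
  rw [symm_pre] at hw
  refine ⟨w, hw, fun x hx => ?_⟩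
  have h1 : P3 x ∈ P3.symm ⁻¹' Om := by
    change P3.symm (P3 x) ∈ Om
    rwa [P3.symm_apply_apply]
  have h2 := hwη _ h1
  rw [r3_P3, P3.symm_apply_apply, P3.symm_apply_apply] at h2
  have h3 := mul_nonneg hC (hw.nonneg (f x))
  linarith

/-- **`happ` from `EA0 p`**, with a variable tolerance -/
theorem happ_of_ea0' {p : ℝ} (hE : EA0 p) {Om La : Set E3} {f : E3 → E3} {D : E3 → E3 →L[ℝ] E3}
    (hO : IsOpen Om) (hOb : Bornology.IsBounded Om) (hOc : IsConnected Om) (hL : IsOpen La)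
    (hLb : Bornology.IsBounded La) (hLc : IsConnected La) (hS : SH3 p Om La f D) {η : E3 → ℝ}
    (hη : ContinuousOn η Om) (hη0 : ∀ x ∈ Om, 0 < η x) :
    ∃ h hi : E3 → E3, HP Om La h hi ∧ ∀ x ∈ Om, ‖h x - f x‖ ≤ η x := by
  have hM : 4 / dl (Fin 3) 3 ≤ Mf := le_max_left _ _
  have hM2 : 2 ≤ Mf := le_max_right _ _
  obtain ⟨C, hC0, hC⟩ := hE δf 3 6 (1 / 4) (1 / 4) 1 1 δf_pos (by norm_num) (by norm_num)
    (by norm_num) (by norm_num) (by norm_num) le_rfl le_rfl le_rfl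
  obtain ⟨κ1, hκ1, M0, hM0⟩ := hC 1 one_pos 0 (by norm_num)
  obtain ⟨κw, hκw, h1⟩ := hM0 M0 le_rfl
  obtain ⟨CA, κt, hκt, h2⟩ := h1 0
  obtain ⟨w, hw, hwη⟩ := exists_w3 hL hS.homeo hη hη0 (C := C) C.2
  obtain ⟨F, BF, hcmp, hdy, hsz, hsz'⟩ := exists_foam_t hLb hw one_pos le_rfl hM hM2
  have hsz1 : ∀ c ∈ F, ∀ x ∈ c.set, c.sz ≤ w x := fun c hc x hx =>
    (hsz c hc x hx).trans (min_le_right _ _)
  have hst := star_of_scale hw BF hcmp hsz1
  obtain ⟨g, g1, g2, g3, g4, g5⟩ := h2 Om La f D hO hOb hOc hL hLb hLc hS 1 one_pos F BF hcmp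
    (fun c hc => by
      obtain ⟨S, s1, s2, s3, s4⟩ := hst ⟨c, hc⟩
      exact ⟨S, s1, s2, s3, fun c' hc' h => s4 ⟨c', hc'⟩ h⟩)
    ∅ (fun _ => AffineEquiv.refl ℝ E3) (fun _ => 1 / 2) (fun _ => cb0) (fun _ => 3)
    (fun _ => le_rfl) (fun _ => 0) (fun c hc => absurd hc (notMem_empty c))
    (fun c hc => absurd hc (notMem_empty c)) (fun c hc => absurd hc (notMem_empty c)) 1 one_pos
  obtain ⟨gi, hg⟩ := LpInv_816.HP_of_hom3 hO hL g1 g2
  refine ⟨g, gi, hg, fun x hx => ?_⟩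
  obtain ⟨fi, f1, f2, f3, f4, f5, f6⟩ := hS.homeo
  obtain ⟨c, hc, hxc⟩ := BF.cov _ (f1 hx)
  have h3 := g3 x hx ⟨c, hc⟩ hxc
  have h4 := hsz1 c hc _ hxc
  have h5 := hwη x hx
  have h6 : (C : ℝ) * c.sz ≤ C * w (f x) := mul_le_mul_of_nonneg_left h4 C.2
  exact h3.trans (h6.trans h5)


/-- **`happ` on `R3`**, with a variable tolerance -/
theorem happ_r3' {p : ℝ} (hp : 1 ≤ p) (hE : EA0 p) {Om La : Set R3} {f : R3 → R3}
    {G : Fin 3 → R3 → R3} (hO : IsOpen Om) (hOb : Bornology.IsBounded Om) (hOc : IsConnected Om)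
    (hL : IsOpen La) (hLb : Bornology.IsBounded La) (hLc : IsConnected La) (hS : SH p Om La f G)
    {η : R3 → ℝ} (hη : ContinuousOn η Om) (hη0 : ∀ x ∈ Om, 0 < η x) :
    ∃ h hi : R3 → R3, HP Om La h hi ∧ ∀ x ∈ Om, ‖h x - f x‖ ≤ η x := by
  have hc : ContinuousOn (fun x => η (P3 x) / 2) (P3 ⁻¹' Om) :=
    (hη.comp P3.continuous.continuousOn fun x hx => hx).div_const _
  obtain ⟨g, gi, hg, hgf⟩ := happ_of_ea0' hE (isOpen_pre hO) (isBounded_pre hOb)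
    (isConnected_pre hOc) (isOpen_pre hL) (isBounded_pre hLb) (isConnected_pre hLc)
    (sh3_of hp hO hS) (η := fun x => η (P3 x) / 2) hc (fun x hx => by
      have := hη0 _ hx
      positivity)
  refine ⟨r3 g, r3 gi, ⟨?_, ?_, ?_, ?_, ?_, ?_⟩, ?_⟩
  · intro y hy
    have h1 : P3.symm y ∈ P3 ⁻¹' Om := by
      change P3 (P3.symm y) ∈ Om
      rwa [P3.apply_symm_apply]
    exact hg.mt h1
  · intro y hy
    have h1 : P3.symm y ∈ P3 ⁻¹' La := by
      change P3 (P3.symm y) ∈ La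
      rwa [P3.apply_symm_apply]
    exact hg.mti h1
  · intro y hy
    have h1 : P3.symm y ∈ P3 ⁻¹' Om := by
      change P3 (P3.symm y) ∈ Om
      rwa [P3.apply_symm_apply]
    change P3 (gi (P3.symm (P3 (g (P3.symm y))))) = y
    rw [P3.symm_apply_apply, hg.li _ h1, P3.apply_symm_apply]
  · intro y hy
    have h1 : P3.symm y ∈ P3 ⁻¹' La := by
      change P3 (P3.symm y) ∈ La
      rwa [P3.apply_symm_apply]
    change P3 (g (P3.symm (P3 (gi (P3.symm y))))) = y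
    rw [P3.symm_apply_apply, hg.ri _ h1, P3.apply_symm_apply]
  · exact LpInv_816.locPL_iff.1 (locPL_r3 (LpInv_816.locPL_iff.2 hg.pl))
  · exact LpInv_816.locPL_iff.1 (locPL_r3 (LpInv_816.locPL_iff.2 hg.pli))
  · intro y hy
    have h1 : P3.symm y ∈ P3 ⁻¹' Om := by
      change P3 (P3.symm y) ∈ Om
      rwa [P3.apply_symm_apply]
    have h2 := hgf _ h1
    rw [P3.apply_symm_apply] at h2
    have h3 := norm_r3_sub_le g f y
    linarith



/-- **fine `happ` (753 (G1)), `R3`** -/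
theorem happ_fine_r3 {p : ℝ} (hp : 1 ≤ p) (hE : EA0 p) {Om La : Set R3} {f : R3 → R3}
    {G : Fin 3 → R3 → R3} (hO : IsOpen Om) (hOb : Bornology.IsBounded Om) (hOc : IsConnected Om)
    (hL : IsOpen La) (hLb : Bornology.IsBounded La) (hLc : IsConnected La)
    (hS : SH p Om La f G) :
    ∀ ζ : R3 → ℝ, ContinuousOn ζ La → (∀ y ∈ La, 0 < ζ y) →
      ∃ h hi : R3 → R3, HP Om La h hi ∧ ∀ x ∈ Om, ‖h x - f x‖ ≤ ζ (f x) := by
  intro ζ hζ hζ0
  obtain ⟨fi, f1, f2, f3, f4, f5, f6⟩ := hS.homeo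
  exact happ_r3' hp hE hO hOb hOc hL hLb hLc hS (η := fun x => ζ (f x)) (hζ.comp f5 f1)
    fun x hx => hζ0 _ (f1 hx)

end Crest.Agent.R096.Hap_812
end

-- ▼ part R096/Pas5_753
section

/-!
Row 96 (S0127), helper753.  Assembly of `PreIN p`, part 5: **the outer frame**: `PreIN p` from the
selection (`SelP`), the families of cells (`AllC`), the energy list (`ElP`) and the one-position theorem
(`OneP`); order of the constants.
-/

set_option autoImplicit false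
set_option linter.style.longLine false
set_option linter.unusedSectionVars false

open MeasureTheory Set Filter Topology Metric
open scoped ENNReal NNReal

namespace Crest.Agent.R096.Pas_753

open Crest.AnalysisR.VecCalc3 Crest.AnalysisR.Sobolev
open Crest.Agent.R096.Msh_715 (Tiling P I)
open Crest.Agent.R096.Mal_874 (CB)
open Crest.Agent.R096.Sk_962 (SH)
open Crest.Agent.R096.Br_695 (En)
open Crest.Agent.R096.Fce_793 (pt cc)
open Crest.Agent.R096.Ca_855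
open Crest.Agent.R096.Gz_812 (HFine)
open Crest.Agent.R096.Eta_812 (EtaOK exists_eta_osc)
open Crest.Agent.R096.Efi_296 (GoodA ae_goodA)
open Crest.Agent.R096.Ea0_961 (EA0)
open Crest.Agent.R096.Pje_518
open Crest.Agent.R096.Pin_753
open Crest.Agent.R96.Lu_538
open Crest.Agent.R96.Intr_538
open Crest.Agent.R96.Coarse_538
open Crest.Agent.R96.Acl_392

noncomputable section

theorem aem_gF {p : ℝ} {Om La : Set R3} {f : R3 → R3} {G : Fin 3 → R3 → R3}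
    (H : SH p Om La f G) (L : (Fin 3 → ℤ) → R3 →L[ℝ] R3) (i : Option (Fin 3 → ℤ)) :
    AEMeasurable (gF p G L i) (volume.restrict Om) := by
  cases i with
  | none =>
    show AEMeasurable (fun x => ∑ j : Fin 3, ‖G j x‖ₑ ^ p) (volume.restrict Om)
    exact Finset.aemeasurable_fun_sum _ fun j _ =>
      (H.memG j).aestronglyMeasurable.enorm.pow_const p
  | some k =>
    exact (((memLp_Gmat H.memG).aestronglyMeasurable).sub
      aestronglyMeasurable_const).enorm.pow_const p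

theorem int_gF {p : ℝ} (hp : 1 ≤ p) {Om La : Set R3} (hOmf : volume Om ≠ ∞) {f : R3 → R3}
    {G : Fin 3 → R3 → R3}
    (H : SH p Om La f G) (L : (Fin 3 → ℤ) → R3 →L[ℝ] R3) (i : Option (Fin 3 → ℤ)) :
    ∫⁻ y in Om, gF p G L i y ≠ ∞ := by
  have hp0 : 0 < p := by linarith
  cases i with
  | none => exact Pe_622.en_finite hp0 H
  | some k =>
    have : IsFiniteMeasure (volume.restrict Om) := ⟨by
      rw [Measure.restrict_apply_univ]; exact hOmf.lt_top⟩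
    have h1 : MemLp (fun x => Gmat G x - L k) (ENNReal.ofReal p) (volume.restrict Om) :=
      (memLp_Gmat H.memG).sub (memLp_const _)
    have h2 := h1.eLpNorm_lt_top
    have hp1 : ENNReal.ofReal p ≠ 0 := by
      rw [Ne, ENNReal.ofReal_eq_zero]
      exact not_le.2 hp0
    have h3 := lintegral_rpow_enorm_lt_top_of_eLpNorm_lt_top hp1 ENNReal.ofReal_ne_top h2
    rw [ENNReal.toReal_ofReal hp0.le] at h3
    exact h3.ne

theorem BlkP.mono_hi {κ s τ hh c1 θ0 θ0' θ1 : ℝ} {Bs Nn : ℕ} {z0 : R3} {Q : CB R3 3} {k0 : ℕ}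
    (hs : 0 ≤ s) (h : θ0 ≤ θ0') (H : BlkP κ s τ hh c1 θ0 θ1 Bs Nn z0 Q k0) :
    BlkP κ s τ hh c1 θ0' θ1 Bs Nn z0 Q k0 where
  cnd := H.cnd
  net := H.net
  hB := H.hB
  hR := H.hR
  cellL := H.cellL
  cellU := H.cellU
  lo := H.lo
  hi := H.hi.trans (mul_le_mul_of_nonneg_right h hs)
  sub := H.sub

/-- **the outer frame** -/
theorem preIN_frame {p : ℝ} (hp : 1 ≤ p) (hE : EA0 p) (Els : ElsT)
    (hsel : ∀ (Om La : Set R3) (f : R3 → R3) (G : Fin 3 → R3 → R3), IsOpen Om →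
      Bornology.IsBounded Om → IsOpen La → volume La ≠ ∞ → SH p Om La f G → HFine Om La f →
      ∀ ε : ℝ, 0 < ε → ∀ Bs : ℕ, SelP p Om La f G ε Bs)
    (hAC : ∀ {Om W : Set R3} {ρ₀ : R3 → ℝ} {J : Type} {Qb : J → CB R3 3} {k0 : ℕ} {σ : ℝ}
      [Finite J] (h : MIn Om W ρ₀ Qb k0 σ), ∃ (κe κf : Type) (x v : κe → R3) (e : κf → Fin 2 → R3)
      (xx : κf → R3) (Qf : κf → Set (ℝ × ℝ)), AllC h x v e xx Qf)
    (hEL : ElP p Els) (hO : OneP p Els) : PreIN p := by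
  refine preIN_of_scaled fun Bs => ?_
  obtain ⟨mU, hO⟩ := hO
  obtain ⟨Cu, hEL⟩ := hEL mU
  obtain ⟨C, hO⟩ := hO Cu Bs
  refine ⟨C, fun Om La f G hOm hOmb hOmc hLa hLab hLac H ε hε => ?_⟩
  have hOmf : volume Om ≠ ∞ := hOmb.measure_lt_top.ne
  have hLaf : volume La ≠ ∞ := hLab.measure_lt_top.ne
  have happ : HFine Om La f := Hap_812.happ_fine_r3 hp hE hOm hOmb hOmc hLa hLab hLac H
  obtain ⟨κ, hκ, hκ1, K, hK, hKc, K', hK', hK'c, W, hW, hWc, hKW, hfW, D, hD, nc, hTC, hsel⟩ :=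
    hsel Om La f G hOm hOmb hLa hLaf H happ ε hε Bs
  obtain ⟨C1, hC1, hDC1, hO⟩ := hO Om La f G hOm hOmb hOmc hLa hLab hLac H κ D nc hκ hκ1 hD hTC
  refine ⟨κ, hκ, hκ1, K, hK, hKc, K', hK', hK'c, C1, hC1, ?_⟩
  intro τ hh c1 c2 κw e Nn hτ hτ4 hhh hc1 hc2 hκw he hC1h
  obtain ⟨Rl, e₀, mN, hRl, he₀, θO, hθO, hO⟩ := hO τ hh c1 c2 κw e Nn hτ hτ4 hhh hc1 hc2 hκw he hC1h
  obtain ⟨θE, hθE, hEL⟩ := hEL Om La f G hOm hOmb H κ τ c1 c2 hh Rl e₀ mN Bs Nn hκ hκ1 hτ hτ4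
    hc1 hc2 hhh hRl he₀
  obtain ⟨θ0, hθ0, h0O, h0E, h0c, h0h, h0w⟩ : ∃ θ0 : ℝ, 0 < θ0 ∧ θ0 ≤ θO ∧ θ0 ≤ θE ∧ 48 * θ0 < c2 ∧
      θ0 ≤ hh ∧ 2 * θ0 ≤ κw := by
    refine ⟨min (min θO θE) (min (c2 / 96) (min hh (κw / 2))), by positivity, ?_, ?_, ?_, ?_, ?_⟩
    · exact (min_le_left _ _).trans (min_le_left _ _)
    · exact (min_le_left _ _).trans (min_le_right _ _)
    · have : min (min θO θE) (min (c2 / 96) (min hh (κw / 2))) ≤ c2 / 96 :=
        (min_le_right _ _).trans (min_le_left _ _)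
      linarith
    · exact (min_le_right _ _).trans ((min_le_right _ _).trans (min_le_left _ _))
    · have : min (min θO θE) (min (c2 / 96) (min hh (κw / 2))) ≤ κw / 2 :=
        (min_le_right _ _).trans ((min_le_right _ _).trans (min_le_right _ _))
      linarith
  refine ⟨θ0, hθ0, fun θ1 hθ1 hθ10 η hη hη0 e1 δ he1 hδ => ?_⟩
  obtain ⟨σ', η₁, hσ', hη₁, hσ'r, hO⟩ := hO θ1 hθ1
  obtain ⟨w, d0, ρ₀, hd0, hw0, hwl, ρl, ρn, ρ1, ρp, -, -, ρosc, ρmin, hEta⟩ :=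
    exists_eta_osc hOm hLa H.homeo hη hη0 hK'c hK' hWc hW
  obtain ⟨e1O, δO, sO, he1O, hδO, hsO, hO⟩ := hO W K' hW hWc hK'c hK' hfW η w ρ₀ d0 hη hη0 hd0 hw0
    hwl hEta ρl ρn ρ1 ρp ρmin ρosc
  obtain ⟨e1E, δE, sE, he1E, hδE, hsE, hEL⟩ := hEL θ1 hθ1 W ρ₀ hW hWc ρl ρn ρ1 ρp ρmin
  have hDh : 24 * D * hh ≤ τ := by
    have h1 : C1 * hh ≤ τ := hC1h.trans (min_le_left _ _)
    nlinarith
  have hDh2 : 8 * D * hh ≤ c2 := by
    have h1 : C1 * hh ≤ c2 := hC1h.trans (min_le_right _ _)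
    nlinarith [mul_pos (by linarith : 0 < D) hhh]
  obtain ⟨sS, hsS, hsel⟩ := hsel τ hh c1 c2 θ0 θ1 σ' η₁ Nn hτ hτ4 hhh hc1 hc2 hθ0 hθ1 hσ' hη₁ hDh
    hDh2 h0c h0h hσ'r ρ₀ ρl ρn ρ1 ρp ρmin (min e1 (min e1O e1E)) (min δ (min δO δE))
    (lt_min he1 (lt_min he1O he1E)) (lt_min hδ (lt_min hδO hδE))
  refine ⟨min sS (min sO sE), lt_min hsS (lt_min hsO hsE), fun s hs hss a₀ => ?_⟩
  have hssS : s < sS := hss.trans_le (min_le_left _ _)
  have hssO : s < sO := hss.trans_le ((min_le_right _ _).trans (min_le_left _ _))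
  have hssE : s < sE := hss.trans_le ((min_le_right _ _).trans (min_le_right _ _))
  obtain ⟨Q₀, b, L, q1, q2, q3, q4, q5, q6, hsel⟩ := hsel s hs hssS a₀
  have hm1 : min e1 (min e1O e1E) ≤ e1 := min_le_left _ _
  have hm2 : min e1 (min e1O e1E) ≤ e1O := (min_le_right _ _).trans (min_le_left _ _)
  have hm3 : min e1 (min e1O e1E) ≤ e1E := (min_le_right _ _).trans (min_le_right _ _)
  refine ⟨Q₀, b, L, q1, q2, q3, q4, q5.trans (ENNReal.ofReal_le_ofReal hm1), q6, ?_⟩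
  intro J _ kk Qb k0 hk hlo hhi hkk hB hsep
  obtain ⟨h, κi, cκi, x, v, κf, cκf, xf, ef, Pf, hsel⟩ := hsel J kk Qb k0 hk hkk hB hsep hlo hhi
  obtain ⟨κe', κf', x', v', e', xx', Qf', hA⟩ := hAC h
  obtain ⟨B2, hB2, hEL⟩ := hEL s hs hssE a₀ Q₀ L q1 (fun k hk => (q2 k hk).trans hKW)
    (q5.trans (ENNReal.ofReal_le_ofReal hm3)) J kk Qb k0 hkk (fun j => BlkP.mono_hi hs.le h0E (hB j))
    hsep hlo (hhi.trans (mul_le_mul_of_nonneg_right h0E hs.le)) h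
  -- almost every position is good
  have := hA.ce
  have := hA.cf
  have hgood := ae_goodA hA.v0 hA.c0 xx' (x := x') hOm.measurableSet (fun i => aem_gF H L i)
    (fun i => int_gF hp hOmf H L i)
  have hB2' : volume (B2 ∪ {a | ¬ ∀ i, GoodA Om (gF p G L i) x' v' e' xx' a}) ≤
      ENNReal.ofReal (1 / 2) * volume (Dt (1 / 2 ^ k0)) := by
    refine (measure_union_le _ _).trans ?_
    rw [ae_iff.1 hgood, add_zero]
    exact hB2
  obtain ⟨a, haD, haB, han, Q, hQ, hcard, hPos⟩ := hsel _ hB2'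
  have haB2 : a ∉ B2 := fun h' => haB (Or.inl h')
  have haG : ∀ i, GoodA Om (gF p G L i) x' v' e' xx' a := by
    by_contra hcon
    exact haB (Or.inr hcon)
  have hc1' : ((Q₀ \ Q).card : ℝ) * (2 * s) ^ 3 ≤ δ := hcard.trans (min_le_left _ _)
  have hc2' : ((Q₀ \ Q).card : ℝ) * (2 * s) ^ 3 ≤ δO :=
    hcard.trans ((min_le_right _ _).trans (min_le_left _ _))
  have hc3' : ((Q₀ \ Q).card : ℝ) * (2 * s) ^ 3 ≤ δE :=
    hcard.trans ((min_le_right _ _).trans (min_le_right _ _))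
  have hels := hEL a haD haB2 Q hQ hc3'
  refine ⟨a, ?_, Q, hQ, hc1', ?_⟩
  · have e2 : (2:ℝ) / 2 ^ k0 = 2 * (1 / 2 ^ k0) := by ring
    rw [e2] at han
    have : 2 * (1 / 2 ^ k0) ≤ 2 * (θ0 * s) := by linarith
    have h5 : 2 * θ0 * s ≤ κw * s := mul_le_mul_of_nonneg_right h0w hs.le
    linarith
  · exact hO s hs hssO a₀ Q₀ b L q1 (fun k hk => (q2 k hk).trans hKW) q3 q4
      (q5.trans (ENNReal.ofReal_le_ofReal hm2)) J kk Qb k0 hk hkk
      (fun j => BlkP.mono_hi hs.le h0O (hB j)) hsep hlo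
      (hhi.trans (mul_le_mul_of_nonneg_right h0O hs.le)) h x v xf ef Pf x' v' e' xx' Qf' hA a haD han
      haG Q hQ hc2' hPos hels

end

end Crest.Agent.R096.Pas_753
end

-- ▼ part R096/Pas6_753
section

/-!
Row 96 (S0127), helper753.  Assembly of `PreIN p`, part 6: `AllC` from families with linearly independent
frames (Gram-Schmidt).
-/

set_option autoImplicit false
set_option linter.style.longLine false
set_option linter.unusedSectionVars false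

open MeasureTheory Set Filter Topology Metric
open scoped ENNReal NNReal

namespace Crest.Agent.R096.Pas_753

open Crest.AnalysisR.VecCalc3 Crest.AnalysisR.Sobolev
open Crest.Agent.R096.Mal_874 (CB)
open Crest.Agent.R096.Fce_793 (pt cc)
open Crest.Agent.R096.Ca_855
open Crest.Agent.R96.Coarse_538 (seg)

noncomputable section

theorem norm_unit {v : R3} (h : v ≠ 0) : ‖(‖v‖⁻¹ • v : R3)‖ = 1 := by
  rw [norm_smul, norm_inv, norm_norm]
  exact inv_mul_cancel₀ (norm_ne_zero_iff.2 h)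

/-- Gram-Schmidt for the frame of a face: the same plane pieces with an orthonormal frame -/
theorem exists_gs (e : Fin 2 → R3) (he : LinearIndependent ℝ e) :
    ∃ (e' : Fin 2 → R3) (A : ℝ × ℝ → ℝ × ℝ), Continuous A ∧
      (‖e' 0‖ = 1 ∧ ‖e' 1‖ = 1 ∧ inner ℝ (e' 0) (e' 1) = 0) ∧
      ∀ x w, pt e x w = pt e' x (A w) := by
  have h0 : e 0 ≠ 0 := he.ne_zero 0
  set u : R3 := ‖e 0‖⁻¹ • e 0 with hu
  have hun : ‖u‖ = 1 := norm_unit h0
  set r : R3 := e 1 - inner ℝ u (e 1) • u with hr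
  have hr0 : r ≠ 0 := by
    intro h
    rw [hr, sub_eq_zero, hu, smul_smul] at h
    have h1 := (LinearIndependent.pair_iff.1 (show LinearIndependent ℝ ![e 0, e 1] by
      have : ![e 0, e 1] = e := by
        funext i
        fin_cases i <;> rfl
      rw [this]
      exact he)) (inner ℝ (‖e 0‖⁻¹ • e 0) (e 1) * ‖e 0‖⁻¹) (-1) (by rw [← h]; simp)
    exact absurd h1.2 (by norm_num)
  have hur : inner ℝ u r = 0 := by
    rw [hr, inner_sub_right, inner_smul_right, real_inner_self_eq_norm_sq, hun]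
    ring
  refine ⟨![u, ‖r‖⁻¹ • r], fun w => (w.1 * ‖e 0‖ + w.2 * inner ℝ u (e 1), w.2 * ‖r‖),
    by fun_prop, ⟨hun, norm_unit hr0, ?_⟩, fun x w => ?_⟩
  · show inner ℝ u (‖r‖⁻¹ • r) = 0
    rw [inner_smul_right, hur, mul_zero]
  · show x + (w.1 • e 0 + w.2 • e 1) = x + ((w.1 * ‖e 0‖ + w.2 * inner ℝ u (e 1)) • u +
      (w.2 * ‖r‖) • (‖r‖⁻¹ • r))
    have e1 : ‖e 0‖ • u = e 0 := by
      rw [hu, smul_smul, mul_inv_cancel₀ (norm_ne_zero_iff.2 h0), one_smul]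
    have e2 : (w.2 * ‖r‖) • (‖r‖⁻¹ • r) = w.2 • r := by
      rw [smul_smul, mul_assoc, mul_inv_cancel₀ (norm_ne_zero_iff.2 hr0), mul_one]
    rw [e2, add_smul, mul_smul, e1, hr, smul_sub, mul_smul]
    abel

/-- **`AllC` from families with linearly independent frames** -/
theorem allC_of_li {Om W : Set R3} {ρ₀ : R3 → ℝ} {J : Type} {Qb : J → CB R3 3} {k0 : ℕ} {σ : ℝ}
    [Finite J] (h : MIn Om W ρ₀ Qb k0 σ) {κe κf : Type} [Countable κe] [Countable κf]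
    {x v : κe → R3} {e : κf → Fin 2 → R3} {xx : κf → R3} {Qf : κf → Set (ℝ × ℝ)}
    (v0 : ∀ i, v i ≠ 0) (li : ∀ φ, LinearIndependent ℝ (e φ)) (cpt : ∀ φ, IsCompact (Qf φ))
    (edge : ∀ a, ‖a‖ ≤ σ / 8 → ∀ y ∈ Om, (h.T a).dim y = 1 → ∃ i, (h.T a).cc y = seg x v a i)
    (face : ∀ a, ‖a‖ ≤ σ / 8 → ∀ y ∈ Om, (h.T a).dim y = 2 →
      ∃ φ, (h.T a).cc y = pt (e φ) (a + xx φ) '' Qf φ) :
    ∃ (e' : κf → Fin 2 → R3) (Qf' : κf → Set (ℝ × ℝ)), AllC h x v e' xx Qf' := by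
  choose e' A hA he' hpt using fun φ => exists_gs (e φ) (li φ)
  refine ⟨e', fun φ => A φ '' Qf φ, inferInstance, inferInstance, v0, fun φ => ?_, he',
    fun φ => (cpt φ).image (hA φ), edge, fun a ha y hy hd => ?_⟩
  · show 0 < ‖e' φ 0‖ + ‖e' φ 1‖
    rw [(he' φ).1, (he' φ).2.1]
    norm_num
  · obtain ⟨φ, h1⟩ := face a ha y hy hd
    refine ⟨φ, h1.trans ?_⟩
    rw [image_image]
    exact image_congr fun w _ => hpt φ _ w

end

end Crest.Agent.R096.Pas_753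
end

-- ▼ part R096/Cnt5_580
section

/-!
# Row 96 (helper580), p ≤ 2: [COUNT] of 753 #11357: choice of one common translate

* `exists_pick` : `D ⊆ T`, `volume B1 ≤ θ * volume T`, `θ * volume T ≤ (1/8) volume D`,
  `volume B2 ≤ (1/2) volume D` ⟹ some `a ∈ D` avoids `B1` and `B2`;
* `norm_Dt` : `‖a‖ ≤ 2 t` on `Dt t`;
* `pick_Dt` : the two together for `D = Dt (1 / 2^k0)`;
* `theta_ok` : `volume T ≤ (C t)^3`, `θ1 s ≤ 1 / 2^k0`, `t = s / N` ⟹ `θ = (θ1 N / C)^3 / 8` has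
  `θ * volume T ≤ (1/8) volume (Dt (1 / 2^k0))`.
-/

set_option autoImplicit false

open MeasureTheory Set Filter Metric
open scoped ENNReal NNReal Topology

namespace Crest.Agent.R096.Cnt5_580

open Crest.Agent.R96.Coarse_538

/-- two small bad sets do not cover `D` (no measurability of the bad sets) -/
theorem exists_pick {α : Type*} [MeasurableSpace α] {μ : Measure α} {D T B1 B2 : Set α} {θ : ℝ}
    (h0 : μ D ≠ 0) (hfin : μ D ≠ ∞)
    (h1 : μ B1 ≤ ENNReal.ofReal θ * μ T) (h2 : ENNReal.ofReal θ * μ T ≤ ENNReal.ofReal (1 / 8) * μ D)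
    (h3 : μ B2 ≤ ENNReal.ofReal (1 / 2) * μ D) : ∃ a ∈ D, a ∉ B1 ∧ a ∉ B2 := by
  by_contra hcon
  push Not at hcon
  have hsub : D ⊆ B1 ∪ B2 := fun a ha => by
    by_cases hb : a ∈ B1
    · exact Or.inl hb
    · exact Or.inr (hcon a ha hb)
  have h4 : μ D ≤ ENNReal.ofReal (5 / 8) * μ D := by
    calc μ D ≤ μ (B1 ∪ B2) := measure_mono hsub
      _ ≤ μ B1 + μ B2 := measure_union_le _ _
      _ ≤ ENNReal.ofReal (1 / 8) * μ D + ENNReal.ofReal (1 / 2) * μ D :=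
        add_le_add (h1.trans h2) h3
      _ = ENNReal.ofReal (5 / 8) * μ D := by
        rw [← add_mul, ← ENNReal.ofReal_add (by norm_num) (by norm_num)]
        norm_num
  have h5 : (μ D).toReal ≤ (5 / 8) * (μ D).toReal := by
    have := ENNReal.toReal_mono (ENNReal.mul_ne_top ENNReal.ofReal_ne_top hfin) h4
    rwa [ENNReal.toReal_mul, ENNReal.toReal_ofReal (by norm_num)] at this
  have h6 : 0 < (μ D).toReal := ENNReal.toReal_pos h0 hfin
  linarith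

/-- points of the fundamental cube are short -/
theorem norm_Dt {t : ℝ} {a : E3} (ha : a ∈ Dt t) : ‖a‖ ≤ 2 * t := by
  have h0 := ha 0
  have ht : 0 ≤ t := h0.1.trans h0.2.le
  have h1 : ‖a‖ ^ 2 ≤ (2 * t) ^ 2 := by
    rw [EuclideanSpace.norm_sq_eq, Fin.sum_univ_three]
    have hb : ∀ i : Fin 3, ‖a i‖ ^ 2 ≤ t ^ 2 := fun i => by
      rw [Real.norm_eq_abs, sq_abs]
      exact pow_le_pow_left₀ (ha i).1 (ha i).2.le 2
    nlinarith [hb 0, hb 1, hb 2, sq_nonneg t]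
  exact le_of_sq_le_sq h1 (by positivity)



/-- **[COUNT] (a)**: the choice of the common translate in `Dt t` -/
theorem pick_Dt' {t θ : ℝ} (ht : 0 < t) {T B1 B2 : Set E3}
    (h1 : volume B1 ≤ ENNReal.ofReal θ * volume T)
    (h2 : ENNReal.ofReal θ * volume T ≤ ENNReal.ofReal (1 / 8) * volume (Dt t))
    (h3 : volume B2 ≤ ENNReal.ofReal (1 / 2) * volume (Dt t)) :
    ∃ a ∈ Dt t, a ∉ B1 ∧ a ∉ B2 ∧ ‖a‖ ≤ 2 * t := by
  have hv := vol_Dt ht
  obtain ⟨a, ha, hb1, hb2⟩ := exists_pick (μ := (volume : Measure E3)) (D := Dt t)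
    (by rw [hv]; exact (ENNReal.ofReal_pos.2 (by positivity)).ne')
    (by rw [hv]; exact ENNReal.ofReal_ne_top) h1 h2 h3
  exact ⟨a, ha, hb1, hb2, norm_Dt ha⟩

/-- **[COUNT] (a)**, literal form of 753 -/
theorem pick_Dt {k0 : ℕ} {θ : ℝ} {T B1 B2 : Set E3}
    (h1 : volume B1 ≤ ENNReal.ofReal θ * volume T)
    (h2 : ENNReal.ofReal θ * volume T ≤ ENNReal.ofReal (1 / 8) * volume (Dt (1 / 2 ^ k0)))
    (h3 : volume B2 ≤ ENNReal.ofReal (1 / 2) * volume (Dt (1 / 2 ^ k0))) :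
    ∃ a ∈ Dt (1 / 2 ^ k0), a ∉ B1 ∧ a ∉ B2 ∧ ‖a‖ ≤ 2 / 2 ^ k0 := by
  obtain ⟨a, ha, hb1, hb2, hn⟩ := pick_Dt' (t := 1 / 2 ^ k0) (by positivity) h1 h2 h3
  exact ⟨a, ha, hb1, hb2, by rwa [mul_one_div] at hn⟩


/-- **[COUNT] (b)**: the explicit number `θ = (θ1 N / C)^3 / 8` -/
theorem theta_ok {k0 : ℕ} {C θ1 N s t : ℝ} {T : Set E3} (hC : 0 < C) (hθ1 : 0 < θ1) (hN : 0 < N)
    (hs : 0 < s) (ht : t = s / N) (hT : volume T ≤ ENNReal.ofReal ((C * t) ^ 3))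
    (hk : θ1 * s ≤ 1 / 2 ^ k0) :
    0 < (θ1 * N / C) ^ 3 / 8 ∧
      ENNReal.ofReal ((θ1 * N / C) ^ 3 / 8) * volume T ≤
        ENNReal.ofReal (1 / 8) * volume (Dt (1 / 2 ^ k0)) := by
  refine ⟨by positivity, ?_⟩
  rw [vol_Dt (t := 1 / 2 ^ k0) (by positivity)]
  refine (mul_le_mul_right hT _).trans ?_
  rw [← ENNReal.ofReal_mul (by positivity), ← ENNReal.ofReal_mul (by norm_num)]
  refine ENNReal.ofReal_le_ofReal ?_
  have h1 : (θ1 * N / C) ^ 3 / 8 * (C * t) ^ 3 = 1 / 8 * (θ1 * s) ^ 3 := by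
    rw [ht]
    field_simp
  rw [h1]
  have h2 : (θ1 * s) ^ 3 ≤ (1 / 2 ^ k0) ^ 3 := pow_le_pow_left₀ (by positivity) hk 3
  linarith


/-- a set of diameter `≤ C t` (in the ball of radius `r`) has volume `≤ (2 r)^3` in the sup norm sense -/
theorem vol_le_of_box {r : ℝ} (hr : 0 ≤ r) {T : Set E3} {c : E3} (hT : ∀ a ∈ T, ∀ i, |a i - c i| ≤ r) :
    volume T ≤ ENNReal.ofReal ((2 * r) ^ 3) := by
  have h1 : T ⊆ {x : E3 | ∀ i, x i ∈ (fun i : Fin 3 => Icc (c i - r) (c i + r)) i} := fun a ha i => by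
    have := abs_le.1 (hT a ha i)
    exact ⟨by linarith [this.1], by linarith [this.2]⟩
  refine (measure_mono h1).trans ?_
  rw [vol_box fun _ => measurableSet_Icc]
  simp only [Real.volume_Icc, Fin.prod_univ_three]
  rw [← ENNReal.ofReal_mul (by linarith), ← ENNReal.ofReal_mul (by nlinarith)]
  refine ENNReal.ofReal_le_ofReal (le_of_eq ?_)
  ring

end Crest.Agent.R096.Cnt5_580
end

-- ▼ part R096/Ca19_855
section

/-!
# Row 96 (S0127), p ≤ 2: assembly of `PreIN p` (helper855): the selection `sel : SelP ..`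
-/

set_option autoImplicit false
set_option linter.style.longLine false
set_option linter.unusedSectionVars false

open MeasureTheory Set Filter Topology Metric
open scoped ENNReal NNReal

namespace Crest.Agent.R096.Ca_855

open Crest.AnalysisR.VecCalc3 Crest.AnalysisR.Sobolev
open Crest.Agent.R096.Msh_715 (Tiling P I)
open Crest.Agent.R096.Mal_874 (CB)
open Crest.Agent.R096.Sk_962 (SH)
open Crest.Agent.R096.Br_695 (En)
open Crest.Agent.R096.Sk2_855 (Mv sk1)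
open Crest.Agent.R096.Fce_793 (pt isClosedEmbedding_pt)
open Crest.Agent.R096.Fsl_793
open Crest.Agent.R096.Rmg_793
open Crest.Agent.R096.Cp9_465
open Crest.Agent.R096.Gz_812 (HFine)
open Crest.Agent.R096.Pin_753
open Crest.Agent.R096.Pas_753
open Crest.Agent.R96.Lu_538
open Crest.Agent.R96.Intr_538
open Crest.Agent.R96.Coarse_538
open Crest.Agent.R96.Acl_392
open Crest.Agent.R96.Gdt_538 (MeshG)
open Crest.Agent.R096.Cnt5_580 (pick_Dt theta_ok)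

/-- one face of the face measure, for every function -/
theorem lint_face_le {κf : Type} {x : κf → R3} {e : κf → Fin 2 → R3} {Pf : κf → Set (ℝ × ℝ)}
    {c : ℝ≥0∞} (hli : ∀ φ, LinearIndependent ℝ (e φ)) (F : R3 → ℝ≥0∞) (a : R3) (φ : κf) :
    c * ∫⁻ u in Pf φ, F (pt (e φ) (a + x φ) u) ≤
      ∫⁻ y, F y ∂trM (fcM x e Pf (fun _ => c)) (fun _ => univ) a := by
  rw [trM, lintegral_sum_measure]
  refine le_trans (le_of_eq ?_) (ENNReal.le_tsum φ)
  rw [Measure.restrict_univ]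
  have h1 : (fun x : R3 => a + x) = ⇑(MeasurableEquiv.addLeft a) := rfl
  rw [h1, MeasurableEmbedding.lintegral_map (MeasurableEquiv.addLeft a).measurableEmbedding, fcM,
    lintegral_smul_measure, MeasurableEmbedding.lintegral_map
      (isClosedEmbedding_pt (hli φ) (x φ)).measurableEmbedding, smul_eq_mul]
  congr 1
  refine lintegral_congr fun u => ?_
  congr 1
  show pt (e φ) (a + x φ) u = a + pt (e φ) (x φ) u
  simp only [pt]
  abel

/-- the compact zone -/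
theorem exists_zone {Om La K K' : Set R3} {f : R3 → R3} (hf : IsHomeomorphOn f Om La)
    (hK : K ⊆ Om) (hKc : IsCompact K) (hK' : K' ⊆ La) (hK'c : IsCompact K') :
    ∃ W ⊆ Om, IsCompact W ∧ K ⊆ W ∧ ∀ y ∈ Om, f y ∈ K' → y ∈ W := by
  obtain ⟨fi, h1, h2, h3, h4, h5, h6⟩ := hf
  refine ⟨K ∪ fi '' K', union_subset hK ?_, hKc.union (hK'c.image_of_continuousOn (h6.mono hK')),
    subset_union_left, fun y hy hfy => Or.inr ⟨f y, hfy, h3 y hy⟩⟩
  rintro _ ⟨y, hy, rfl⟩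
  exact h2 (hK' hy)

theorem num1 {θ0 c2 s x : ℝ} (h : x ≤ θ0 * s) (n3 : 48 * θ0 < c2) (hs : 0 < s) :
    48 * x < c2 * s := by nlinarith

theorem num2 {D hh c2 s : ℝ} (n2 : 8 * D * hh ≤ c2) (hs : 0 < s) :
    D * hh * s ≤ c2 * s / 8 := by nlinarith

theorem num3 {D hh θ0 s x : ℝ} (hD : 2 ≤ D) (hh0 : 0 < hh) (h : x ≤ θ0 * s) (n4 : θ0 ≤ hh)
    (hs : 0 < s) : 2 * x ≤ D * hh * s := by
  have h1 : θ0 * s ≤ hh * s := mul_le_mul_of_nonneg_right n4 hs.le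
  have h2 : 2 * (hh * s) ≤ D * (hh * s) := mul_le_mul_of_nonneg_right hD (by positivity)
  have h3 : D * (hh * s) = D * hh * s := by ring
  linarith

theorem num4 {a b D₁ D x y : ℝ} (hDD : D₁ ≤ D) (hD : 0 ≤ D) (hx : x ≤ y) (hx0 : 0 ≤ x)
    (hab : D * y ≤ b) (ha : a = D₁ * x) : a ≤ b := by
  rw [ha]
  exact (mul_le_mul hDD hx hx0 hD).trans hab

theorem num5 {ρ θ1 hh s x : ℝ} (hρ : 0 < ρ) (hθ1 : 0 < θ1) (hh0 : 0 < hh) (hx : x ≤ hh * s) :
    ρ * θ1 / (16 * hh) * x ≤ ρ * θ1 * s / 2 / 8 := by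
  calc ρ * θ1 / (16 * hh) * x ≤ ρ * θ1 / (16 * hh) * (hh * s) :=
        mul_le_mul_of_nonneg_left hx (by positivity)
    _ = ρ * θ1 * s / 2 / 8 := by field_simp; ring

theorem num6 {ρ θ1 s : ℝ} {k0 : ℕ} (hρ : 0 < ρ) (hlo : θ1 * s ≤ 1 / 2 ^ k0) :
    ρ * θ1 * s / 2 ≤ ρ / 2 ^ (k0 + 1) := by
  have h1 : ρ / 2 ^ (k0 + 1) = ρ * (1 / 2 ^ k0) / 2 := by
    rw [pow_succ]; field_simp
  rw [h1]
  have h2 := mul_le_mul_of_nonneg_left hlo hρ.le
  linarith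

theorem num7 {D hh ρ θ1 s : ℝ} (hD : 0 < D) (hh0 : 0 < hh) :
    ρ * θ1 / (2 * (D * hh)) * (D * hh * s) = ρ * θ1 * s / 2 := by
  field_simp

theorem num8 {D hh s n : ℝ} {m : ℕ} (hm : 0 < m) :
    (m ^ 2 : ℕ) * (n * (D * hh) ^ 3 / (m ^ 2 : ℕ) * s ^ 3) = n * (D * hh * s) ^ 3 := by
  have : ((m ^ 2 : ℕ) : ℝ) ≠ 0 := by positivity
  field_simp

theorem faceD_of {p η₁ w s : ℝ} (hs : 0 < s) (hw : 0 < w) {A : ℝ≥0∞} {η' : ℝ}
    (hη' : η' ≤ η₁ ^ p * w) (h : ENNReal.ofReal (w * s ^ 3) * A ≤ ENNReal.ofReal (η' * s ^ 3)) :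
    A ≤ ENNReal.ofReal (η₁ ^ p) := by
  have hws : 0 < w * s ^ 3 := by positivity
  have h1 : ENNReal.ofReal (η' * s ^ 3) ≤ ENNReal.ofReal (w * s ^ 3) * ENNReal.ofReal (η₁ ^ p) := by
    rw [← ENNReal.ofReal_mul hws.le]
    refine ENNReal.ofReal_le_ofReal ?_
    have : 0 < s ^ 3 := by positivity
    nlinarith
  exact (ENNReal.mul_le_mul_iff_right (ENNReal.ofReal_pos.2 hws).ne' ENNReal.ofReal_ne_top).1
    (h.trans h1)

theorem pos_cast {p : ℝ} {Om La W : Set R3} {f : R3 → R3} {G : Fin 3 → R3 → R3} {ι ι' : Type}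
    {T : Tiling Om ι} {T' : Tiling Om ι'} {κi : Type} {x v : κi → R3} {κf : Type} {xf : κf → R3}
    {ef : κf → Fin 2 → R3} {Pf : κf → Set (ℝ × ℝ)} {κ τ σ₀ η₁ t s d σr : ℝ}
    {z b : (Fin 3 → ℤ) → R3} {L : (Fin 3 → ℤ) → R3 →L[ℝ] R3} {Q : Finset (Fin 3 → ℤ)} {a : R3}
    (hι : ι = ι') (hT : HEq T T')
    (H : Pos p Om La W f G T x v xf ef Pf κ τ σ₀ η₁ t s d σr z b L Q a) :
    Pos p Om La W f G T' x v xf ef Pf κ τ σ₀ η₁ t s d σr z b L Q a := by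
  subst hι
  cases hT
  exact H

theorem tileC_mono {κ : ℝ} {Bs : ℕ} {D D' : ℝ} {nc : ℕ} (hD : D ≤ D') (H : TileC κ Bs D nc) :
    TileC κ Bs D' nc := by
  intro Om W ρ₀ J _ Qb k0 Nn σ h hb a
  obtain ⟨h1, h2⟩ := H h hb a
  refine ⟨h1, fun j t ht x hx y hy => (h2 j t ht x hx y hy).trans ?_⟩
  gcongr

/-- the family of `h` -/
theorem fam_T {Om W : Set R3} {t n β r : ℝ} {nc mf : ℕ} {M : MFam2 Om W t n β r nc mf}
    {X : MFam Om W t n β r nc} (h : M.toMFam = X) (a : R3) :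
    M.Tr = X.Tr ∧ M.ι a = X.ι a ∧ HEq (M.T a) (X.T a) := by
  subst h
  exact ⟨rfl, rfl, HEq.rfl⟩

/-- **the selection** -/
theorem sel {p : ℝ} (hp : 1 ≤ p) (hp2 : p ≤ 2) {Om La : Set R3} (hOm : IsOpen Om)
    (hOmb : Bornology.IsBounded Om) (hLa : IsOpen La) (hLaf : volume La ≠ ∞) {f : R3 → R3}
    {G : Fin 3 → R3 → R3} (H : SH p Om La f G) (happ : HFine Om La f) {ε : ℝ} (hε : 0 < ε)
    (Bs : ℕ) : SelP p Om La f G ε Bs := by
  obtain ⟨κ, hκ, hκ1, K, hK, hKc, K', hK', hK'c, H0⟩ := comp_U hp hp2 hOm hOmb hLa hLaf H happ hε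
  obtain ⟨W, hW, hWc, hKW, hK'W⟩ := exists_zone H.homeo hK hKc hK' hK'c
  obtain ⟨D₁, hD₁, nc, hTC, Ht⟩ := exists_tile2 hκ hκ1 Bs
  obtain ⟨D, hD2, hDD⟩ : ∃ D : ℝ, 2 ≤ D ∧ D₁ ≤ D := ⟨max 2 D₁, le_max_left _ _, le_max_right _ _⟩
  have hD0 : 0 < D := by linarith
  refine ⟨κ, hκ, hκ1, K, hK, hKc, K', hK', hK'c, W, hW, hWc, hKW, hK'W, D, by linarith, nc,
    tileC_mono hDD hTC, ?_⟩
  intro τ hh c1 c2 θ0 θ1 σ' η₁ Nn hτ hτ4 hhh hc1 hc2 hθ0 hθ1 hσ' hη₁ n1 n2 n3 n4 n5 ρ₀ lip nn le1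
    pos hmin e1 δ he1 hδ
  obtain ⟨ρm, hρm, hρm2⟩ := hmin
  obtain ⟨ρ, hρ, H1⟩ := Ht Nn
  obtain ⟨β, hβ, H2⟩ := H1 (ρ * θ1 / (16 * hh)) (by positivity)
  obtain ⟨r, hr⟩ : ∃ r : ℝ, r = ρ * θ1 / (2 * (D * hh)) := ⟨_, rfl⟩
  have hr0 : 0 < r := by rw [hr]; positivity
  obtain ⟨m, hm0, hm1⟩ : ∃ m : ℕ, 0 < m ∧ ((1 + 2) / r) ^ 3 ≤ (m : ℝ) :=
    ⟨⌈((1 + 2) / r) ^ 3⌉₊, Nat.ceil_pos.2 (by positivity), Nat.le_ceil _⟩
  have hn0 : (0:ℝ) < 2 ^ ⌊((1 + 1) / r) ^ 3⌋₊ := by positivity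
  have hDh : 0 < D * hh := by positivity
  have hN : (0:ℝ) < 1 / (D * hh) := by positivity
  -- the tolerance of the faces
  obtain ⟨w, hw⟩ : ∃ w : ℝ, w = 2 ^ ⌊((1 + 1) / r) ^ 3⌋₊ * (D * hh) ^ 3 / (m ^ 2 : ℕ) := ⟨_, rfl⟩
  have hw0 : 0 < w := by rw [hw]; positivity
  have hηp : 0 < η₁ ^ p := Real.rpow_pos_of_pos hη₁ _
  obtain ⟨η', hη'0, hη'1, hη'2⟩ : ∃ η' : ℝ, 0 < η' ∧ η' ≤ η₁ ∧ η' ≤ η₁ ^ p * w :=
    ⟨min η₁ (η₁ ^ p * w), lt_min hη₁ (by positivity), min_le_left _ _, min_le_right _ _⟩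
  obtain ⟨s₁, hs₁, Hs⟩ := H0 nc (m ^ 2) (1 / (D * hh)) (2 ^ ⌊((1 + 1) / r) ^ 3⌋₊) (τ / 12) (τ / 24)
    β r σ' η' ((θ1 * (1 / (D * hh)) / 2) ^ 3 / 8) δ e1 hN hn0 (by positivity)
    (by linarith) (by linarith)
    (by
      rw [div_mul_div_comm, le_div_iff₀ (by positivity)]
      linarith)
    (by
      rw [div_mul_div_comm, le_div_iff₀ (by positivity)]
      linarith)
    hβ hr0 hσ' (by
      rw [mul_one_div, le_div_iff₀ hDh]
      linarith) hη'0 (by positivity) hδ he1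
  refine ⟨min s₁ (ρm / c2), lt_min hs₁ (by positivity), fun s hs hss a₀ => ?_⟩
  have hs1 : s < s₁ := hss.trans_le (min_le_left _ _)
  have hs2 : c2 * s ≤ ρm := by
    have := hss.le.trans (min_le_right _ _)
    rwa [le_div_iff₀ hc2, mul_comm] at this
  obtain ⟨Q₀, b, L, S, q1, q2, q3, q4, q5, q6, q7⟩ := Hs s hs hs1 a₀
  clear Hs H0
  have hinj : ∀ k ∈ Q₀, Function.Injective (L k) := fun k hk =>
    Crest.Agent.R096.Ca_855.inj_of_low hκ (q1 k hk).low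
  have hτ1 : (0:ℝ) ≤ 1 - τ := by linarith
  refine ⟨Q₀, b, L, fun k hk => ⟨(q1 k hk).low, (q1 k hk).up⟩, q2, q3, ?_, q5, q6, ?_⟩
  · intro k hk l hl hkl
    refine (q4 k hk l hl hkl).mono_left ?_
    exact par_mono (hinj k hk) (mul_nonneg hτ1 hs.le)
      (mul_le_mul_of_nonneg_right (by linarith) hs.le)
  intro J _ kk Qb k0 hk0 hkk hb hsep hlo hhi
  have e0 : s / (1 / (D * hh)) = D * hh * s := by
    rw [div_div_eq_mul_div, div_one, mul_comm]
  have ht0 : 0 < s / (1 / (D * hh)) := by positivity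
  have h2k : (0:ℝ) ≤ 1 / 2 ^ k0 := by positivity
  have hhs : 1 / 2 ^ k0 ≤ hh * s := hhi.trans (mul_le_mul_of_nonneg_right n4 hs.le)
  -- the mesh
  have hNW : ∀ j, (Qb j).N ⊆ W := fun j => (hb j).sub.trans
    (((cel_mono ref_Cb _ (mul_nonneg hτ1 hs.le)
      (mul_le_of_le_one_left hs.le (by linarith))).trans (q2 _ (hkk j))).trans hKW)
  have h : MIn Om W ρ₀ Qb k0 (c2 * s) := by
    refine ⟨lip, nn, le1, pos, fun x hx => hs2.trans (hρm2 x hx), hNW, ?_, hk0, hsep⟩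
    rw [show (48:ℝ) / 2 ^ k0 = 48 * (1 / 2 ^ k0) by ring]
    exact num1 hhi n3 hs
  refine ⟨h, ?_⟩
  have hbq : ∀ j, MIn.BQ κ Bs Nn (Qb j) k0 := fun j => MIn.bq_of_blkP (hb j)
  have htσ : s / (1 / (D * hh)) ≤ c2 * s / 8 := by
    rw [e0]
    exact num2 n2 hs
  have hrt : r * (s / (1 / (D * hh))) = ρ * θ1 * s / 2 := by
    rw [e0, hr]
    exact num7 hD0 hhh
  have hDhs : D * (hh * s) ≤ s / (1 / (D * hh)) := by
    rw [e0]
    exact le_of_eq (by ring)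
  obtain ⟨c, htile, M, hM⟩ := h.exists_mfam2 (D := D₁) (β := β) (ρ := ρ)
    (t := s / (1 / (D * hh))) (r := r) (ε := ρ * θ1 / (16 * hh)) (nc := nc) hD₁.le (by positivity)
    (H2 h hbq)
    (fun j => num4 hDD hD0.le (hb j).cellU (by positivity) hDhs (div_eq_mul_one_div _ _))
    (num4 hDD hD0.le hhs h2k hDhs (div_eq_mul_one_div _ _))
    (fun j => by
      rw [hrt, div_eq_mul_one_div _ ((2:ℝ) ^ (Qb j).kc)]
      exact num5 hρ hθ1 hhh (hb j).cellU)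
    (by
      rw [hrt, div_eq_mul_one_div _ ((2:ℝ) ^ k0)]
      exact num5 hρ hθ1 hhh hhs)
    (by
      rw [hrt]
      exact num6 hρ hlo)
    ht0 htσ hr0 hm1
  have hTr : M.Tr = closedBall 0 (s / (1 / (D * hh))) := (fam_T hM 0).1
  have := M.cnt
  have := M.cntf
  refine ⟨M.κi, M.cnt, M.x, M.v, M.κf, M.cntf, M.xf, M.ef, M.Pf, fun B2 hB2 => ?_⟩
  -- the face measure
  have hmc : ((m ^ 2 : ℕ) : ℝ≥0∞) * ENNReal.ofReal (w * s ^ 3) ≤
      ENNReal.ofReal (2 ^ ⌊((1 + 1) / r) ^ 3⌋₊) * volume M.Tr := by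
    have h1 : ENNReal.ofReal ((s / (1 / (D * hh))) ^ 3) ≤ volume M.Tr := M.vol
    refine le_trans (le_of_eq ?_) (mul_le_mul_right h1 _)
    rw [← ENNReal.ofReal_mul hn0.le, ← ENNReal.ofReal_natCast,
      ← ENNReal.ofReal_mul (Nat.cast_nonneg _), e0, hw, num8 hm0]
  have hν : RM M.Tr (ENNReal.ofReal (2 ^ ⌊((1 + 1) / r) ^ 3⌋₊))
      (trM (fcM M.xf M.ef M.Pf (fun _ => ENNReal.ofReal (w * s ^ 3))) (fun _ => univ)) :=
    Faces.rm M.meas M.fcs (fun _ => Subset.rfl) (fun _ => le_rfl) hmc fun _ => MeasurableSet.univ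
  obtain ⟨B1, hB1, HB⟩ := q7 W hKW hK'W M _ hν Empty (fun j => j.elim) (fun j => j.elim)
    (fun j => j.elim)
  have hT : volume M.Tr ≤ ENNReal.ofReal ((2 * (s / (1 / (D * hh)))) ^ 3) := by
    refine Crest.Agent.R096.Cnt5_580.vol_le_of_box ht0.le (c := 0) fun a ha i => ?_
    rw [hTr, mem_closedBall_zero_iff] at ha
    have h1 : ‖a i‖ ≤ ‖a‖ := PiLp.norm_apply_le a i
    rw [Real.norm_eq_abs] at h1
    simpa using h1.trans ha
  obtain ⟨a, ha, ha1, ha2, ha3⟩ := pick_Dt hB1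
    (theta_ok (C := 2) two_pos hθ1 hN hs rfl hT hlo).2 hB2
  have haTr : a ∈ M.Tr := by
    rw [hTr, mem_closedBall_zero_iff, e0]
    refine ha3.trans ?_
    rw [show (2:ℝ) / 2 ^ k0 = 2 * (1 / 2 ^ k0) by ring]
    exact num3 hD2 hhh hhi n4 hs
  obtain ⟨a1, -, Q, hQ, a3, a4, a5, a6⟩ := HB a haTr ha1
  refine ⟨a, ha, ha2, ha3, Q, hQ, a3, ?_⟩
  refine pos_cast (fam_T hM a).2.1 (fam_T hM a).2.2 ?_
  have hle : (s / (1 / (D * hh))) = D * hh * s := e0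
  constructor
  · exact M.vne
  · intro e
    rw [← e0]
    exact M.vle e
  · exact M.mesh a haTr
  · intro i hi y hy y' hy'
    rw [← e0]
    exact (M.tile a haTr i hi).diam y hy y' hy'
  · exact M.fcs.li
  · exact M.fcs.cpt
  · exact M.fcs.sub
  · intro y hy hd hyW
    obtain ⟨φ, h1, -⟩ := M.face a haTr y hy hd hyW
    exact ⟨φ, h1⟩
  · exact a1
  · intro k hk
    rw [← e0]
    exact (a4 k hk).mono (by linarith) ht0.le hη'0.le hη'1
  · intro hpe k hk φ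
    have h1 := a5 hpe k hk
    rw [hpe]
    have h2 := lint_face_le (x := M.xf) (e := M.ef) (Pf := M.Pf) (c := ENNReal.ofReal (w * s ^ 3)) M.fcs.li
      ((cel Cb (vt (2 * s) a₀ k) s).indicator (fun x => ‖Gmat G x - L k‖ₑ ^ (2:ℝ))) a φ
    rw [lintegral_indicator (isClosed_cel _ _).measurableSet] at h2
    rw [hpe] at hη'2
    exact faceD_of hs hw0 hη'2 (h2.trans h1)
  · rw [← e0]
    exact a6

end Crest.Agent.R096.Ca_855
end

-- ▼ part R096/Acl1_922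
section

set_option autoImplicit false
set_option linter.unusedSectionVars false

open Set Metric Filter
open scoped Topology

namespace Crest.Agent.R096.Acl_922

open Crest.AnalysisR.VecCalc3 Crest.AnalysisR.Sobolev
open Crest.Agent.R096.Msh_715
open Crest.Agent.R096.Mal_874 (MD CB RD RP reOm Rt Cn outD Rg cfg patch_off)
open Crest.Agent.R096.Msh_810
open Crest.Agent.R096.Msb_432 (meshS rigidS_const cores outer_off)
open Crest.Agent.R96.En10_199 (P3)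
open Crest.Agent.R096.Mf_113 (Rig cell_of_rigid)
open Crest.Agent.R096.Ca_855 Crest.Agent.R096.Ca_855.MIn
open Crest.Agent.R096.Eog_922
open Crest.Agent.R096.Cut_874 Crest.Agent.R096.Mal_874.AD

noncomputable section

variable {Om W : Set R3} {ρ₀ : R3 → ℝ} {J : Type} {Qb : J → CB R3 3} {k0 : ℕ} {σ : ℝ}
  [Finite J]

/-- rigidity near `W` (855's `MIn.rg` with the two distances) -/
theorem rg' (h : MIn Om W ρ₀ Qb k0 σ) {p x : R3} (hx : x ∈ W) (a : R3) (h1 : dist x p < σ / 4)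
    (h2 : dist x (p - h.cl a) < σ / 4) : Rg h.T0 (h.Ts a) (h.cl a) (p - h.cl a) := by
  have hD : ∀ x, x ∈ Om → h.M.φ x ∈ h.M.D0.Om := by
    intro x hx
    have : x ∈ h.M.φ ⁻¹' h.M.D0.Om := by rw [h.dom]; exact hx
    exact this
  refine rigidS_const h.M h.sc 0 h.adm0 (h.adm a) (κ := k0) (fun j => by rw [zero_add]) ?_ ?_ ?_ ?_
  · exact hD _ (h.mem_Om_of hx h2)
  · rw [sub_add_cancel]
    exact hD _ (h.mem_Om_of hx h1)
  · exact h.K_ev hx h2 0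
  · rw [sub_add_cancel]
    exact h.K_ev hx h1 _

/-- the cells near `W` are translates of cells of the model -/
theorem cell_near (h : MIn Om W ρ₀ Qb k0 σ) {a : R3} (ha : ‖a‖ ≤ σ / 8) {p x : R3} (hx : x ∈ W)
    (h1 : dist x p < σ / 4) (h2 : dist x (p - a) < σ / 4) :
    ∃ c : h.T0.Cell, (h.T a).cc p = (a + ·) '' c.set := by
  have e := h.cl_eq ha
  have hp : p ∈ Om := h.mem_Om_of hx h1
  have key : ∀ b, h.cl a = b → dist x (p - b) < σ / 4 →
      p - b ∈ h.M.φ ⁻¹' h.M.D0.Om ∧ (fun j => P ((h.T a).H j)) '' (h.T a).at_ p =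
        (fun i => (b + ·) '' P (h.T0.H i)) '' h.T0.at_ (p - b) := by
    rintro b rfl hb
    refine ⟨by rw [h.dom]; exact h.mem_Om_of hx hb, ?_⟩
    have h1 := (rg' h hx a h1 hb).sets
    rw [sub_add_cancel] at h1
    exact h1
  obtain ⟨hp', h4⟩ := key a e h2
  obtain ⟨y0, hy0, h5, -, -⟩ := cell_of_rigid (T := h.T0) (T' := h.T a) hp hp' h4 hp
    ((h.T a).self_mem_cc p)
  exact ⟨h.T0.cl hy0, h5⟩

/-- a closed dyadic cell moves with the shift -/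
theorem Dc_shift (φ : R3 ≃L[ℝ] (Fin 3 → ℝ)) (a : R3) (s : Idx 3) :
    φ ⁻¹' (Dc (φ a) s) = (a + ·) '' (φ ⁻¹' (Dc 0 s)) := by
  have e : ∀ y : R3, ∀ i, ps (φ a) s.k (φ (a + y)) i = ps 0 s.k (φ y) i := by
    intro y i
    unfold ps
    rw [map_add, Pi.add_apply, Pi.zero_apply]
    ring
  have e' : ∀ y : R3, φ (a + y) ∈ Dc (φ a) s ↔ φ y ∈ Dc 0 s := by
    intro y
    constructor
    · intro hy i
      have := hy i
      rwa [e] at this
    · intro hy i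
      have := hy i
      rwa [← e] at this
  ext y
  constructor
  · intro hy
    refine ⟨y - a, ?_, by simp⟩
    rw [mem_preimage, ← e']
    rw [add_sub_cancel]
    exact hy
  · rintro ⟨z, hz, rfl⟩
    exact (e' z).2 hz

/-- **the cells far away are dyadic** -/
theorem cell_outer (h : MIn Om W ρ₀ Qb k0 σ) {a : R3} (ha : ‖a‖ ≤ σ / 8) {y : R3} (hy : y ∈ Om) :
    (∃ s : Idx 3, (h.T a).cc y = (a + ·) '' (P3.symm ⁻¹' (Dc 0 s))) ∨
      ∃ c : h.T0.Cell, (h.T a).cc y = (a + ·) '' c.set := by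
  have e := h.cl_eq ha
  have hσ := h.σ0
  have h48 := h.h48'
  have hyO : y ∈ h.M.φ ⁻¹' h.M.D0.Om := by rw [h.dom]; exact hy
  -- near a block
  have near : ∀ j, ∀ z ∈ (h.M.Bk (fun _ => h.cl a) j).N, dist z y ≤ 4 * (1 / 2 ^ k0) →
      ∃ c : h.T0.Cell, (h.T a).cc y = (a + ·) '' c.set := by
    intro j z hz hzy
    have hz' : z - a ∈ (Qb j).N := by
      have h1 : z ∈ ((Qb j).tr (h.cl a)).N := hz
      rw [CB.mem_N_tr, e] at h1
      exact h1
    have h0 : (0:ℝ) < 1 / 2 ^ k0 := by positivity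
    refine cell_near h ha (h.hN j hz') ?_ ?_
    · have h1 := dist_triangle (z - a) z y
      have h2 : dist (z - a) z = ‖a‖ := by rw [dist_eq_norm, sub_sub_cancel_left, norm_neg]
      linarith
    · rw [dist_sub_right]
      linarith
  obtain ⟨t, ht⟩ := (h.M.mesh h.sc (0 + h.M.φ (h.cl a)) (h.adm a)).cov y hyO
  rcases t with p | ⟨j, i⟩
  · rcases Crest.Agent.R096.Mal_874.AD.outer_dich' (h.M.inn h.sc (0 + h.M.φ (h.cl a)) (h.adm a)) p with
      ⟨-, h2, -⟩ | ⟨j, -, -, z, h3, h4⟩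
    · left
      have h5 : (h.M.mesh h.sc (0 + h.M.φ (h.cl a)) (h.adm a)).cc y ∈
          cfg (h.M.mesh h.sc (0 + h.M.φ (h.cl a)) (h.adm a)) (Sum.inl p) := ⟨y, ht, rfl⟩
      rw [show cfg (h.M.mesh h.sc (0 + h.M.φ (h.cl a)) (h.adm a)) (Sum.inl p) =
        cfg (h.M.ad h.sc (0 + h.M.φ (h.cl a)) (h.adm a)).T0 p.1.par from h2] at h5
      obtain ⟨y', hy', h6⟩ := h5
      have hyD : h.M.φ y' ∈ (h.M.ad h.sc (0 + h.M.φ (h.cl a)) (h.adm a)).D.Om :=
        (h.M.ad h.sc (0 + h.M.φ (h.cl a)) (h.adm a)).T0.sub p.1.par hy'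
      -- the subdivided tiling agrees with the mesh at `y`
      have h7 : (h.T a).cc y = (h.M.mesh h.sc (0 + h.M.φ (h.cl a)) (h.adm a)).cc y := by
        rw [h.T_cc a y]
        have h9 : ∀ i ∈ (h.M.mesh h.sc (0 + h.M.φ (h.cl a)) (h.adm a)).at_ y,
            i ∉ cores h.M h.sc (0 + h.M.φ (h.cl a)) (h.adm a) := by
          rintro i hi ⟨j, rfl⟩
          have h8 : y ∈ (h.M.Bk (fun _ => h.cl a) j).Kc := by
            rw [← h.M.P_core h.sc (0 + h.M.φ (h.cl a)) (h.adm a) j]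
            exact hi
          exact Crest.Agent.R096.Msb_432.bp_wall _ (Crest.Agent.R096.Msb_432.Kc_sub_bp _ h8)
            (h.M.outer_touch h.sc (0 + h.M.φ (h.cl a)) (h.adm a) p ht
              (Crest.Agent.R096.Msb_432.Kc_sub_N _ h8))
        exact (patch_off (R := Crest.Agent.R096.Msb_432.cubH_repl h.sc (0 + h.M.φ (h.cl a))
          (h.adm a)) h9).1
      refine ⟨(Cel.of (h.M.φ y') hyD).1, ?_⟩
      rw [h7, h6, ← Dc_shift]
      rw [show (h.M.ad h.sc (0 + h.M.φ (h.cl a)) (h.adm a)).T0.cc y' =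
        h.M.φ ⁻¹' (Cel.of (h.M.φ y') hyD).c from cc_eq hyD]
      have hs : ∀ s : Idx 3, P3.symm ⁻¹' (Dc (0 + P3.symm (h.cl a)) s) =
          P3.symm ⁻¹' (Dc (P3.symm a) s) := by
        intro s
        rw [e, zero_add]
      exact hs _
    · right
      refine near j z ?_ ?_
      · exact (h.M.Bk (fun _ => h.cl a) j).isCompact_N.isClosed.frontier_subset h3
      · have h5 := h4 y (cut_tile_sub (hA := Crest.Agent.R096.Mal_874.AF_ne) p.1 ht)
        have h6 := dist_le_P3s y z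
        have h7 : dist (P3.symm y) (P3.symm z) ≤ 2 / 2 ^ k0 := h5
        have e2 : (2:ℝ) / 2 ^ k0 = 2 * (1 / 2 ^ k0) := by ring
        rw [e2] at h7
        rw [dist_comm]
        linarith
  · right
    refine near j y (i.2 ht) ?_
    rw [dist_self]
    positivity

instance : Countable (Idx 3) := by
  have h : Function.Injective (fun s : Idx 3 => (s.k, s.z, s.J)) := by
    rintro ⟨k, z, J⟩ ⟨k', z', J'⟩ h
    simp only [Prod.mk.injEq] at h
    obtain ⟨rfl, rfl, rfl⟩ := h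
    rfl
  exact h.countable

/-- the index type of the model cells -/
abbrev IxA (h : MIn Om W ρ₀ Qb k0 σ) : Type := Idx 3 ⊕ h.T0.Cell

instance (h : MIn Om W ρ₀ Qb k0 σ) : Countable (IxA h) := by
  have := Crest.Agent.R096.Mf_113.countable_cells h.T0
  infer_instance

/-- the model cells -/
def SA (h : MIn Om W ρ₀ Qb k0 σ) : IxA h → Set R3 :=
  Sum.elim (fun s => P3.symm ⁻¹' (Dc 0 s)) (fun c => c.set)

/-- **every cell of every mesh is the translate of a model cell** -/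
theorem cell_all (h : MIn Om W ρ₀ Qb k0 σ) {a : R3} (ha : ‖a‖ ≤ σ / 8) {y : R3} (hy : y ∈ Om) :
    ∃ i, (h.T a).cc y = (a + ·) '' SA h i := by
  rcases cell_outer h ha hy with ⟨s, hs⟩ | ⟨c, hc⟩
  · exact ⟨Sum.inl s, hs⟩
  · exact ⟨Sum.inr c, hc⟩

/-- **(AC) of 753 #11736**, with all properties of the flat pieces -/
theorem allcells' (h : MIn Om W ρ₀ Qb k0 σ) :
    ∃ (κe κf : Type) (_ : Countable κe) (_ : Countable κf) (x v : κe → R3) (e : κf → Fin 2 → R3)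
      (xx : κf → R3) (Qf : κf → Set (ℝ × ℝ)), (∀ i, v i ≠ 0) ∧
      (∀ φ, LinearIndependent ℝ (e φ)) ∧ (∀ φ, inner ℝ (e φ 0) (e φ 1) = 0) ∧
      (∀ φ, IsCompact (Qf φ)) ∧ (∀ φ, Convex ℝ (Qf φ)) ∧
      (∀ φ, Qf φ ⊆ Icc (0 : ℝ) 1 ×ˢ Icc (0 : ℝ) 1) ∧
      ∀ a, ‖a‖ ≤ σ / 8 →
        (∀ y ∈ Om, (h.T a).dim y = 1 → ∃ i, (h.T a).cc y = Crest.Agent.R96.Coarse_538.seg x v a i) ∧
        ∀ y ∈ Om, (h.T a).dim y = 2 → ∃ φ, (h.T a).cc y =
          Crest.Agent.R096.Fce_793.pt (e φ) (a + xx φ) '' Qf φ := by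
  classical
  let κe : Type := {i : IxA h // ∃ p : R3 × R3, p.2 ≠ 0 ∧ SA h i = segment ℝ p.1 (p.1 + p.2)}
  let κf : Type := {i : IxA h // ∃ q : (Fin 2 → R3) × R3 × Set (ℝ × ℝ),
    LinearIndependent ℝ q.1 ∧ inner ℝ (q.1 0) (q.1 1) = 0 ∧ IsCompact q.2.2 ∧ Convex ℝ q.2.2 ∧
      q.2.2 ⊆ Icc (0 : ℝ) 1 ×ˢ Icc (0 : ℝ) 1 ∧
      SA h i = Crest.Agent.R096.Fce_793.pt q.1 q.2.1 '' q.2.2}
  have hce : Countable κe := inferInstance
  have hcf : Countable κf := inferInstance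
  have hback : ∀ (a : R3) (S T : Set R3), T = (a + ·) '' S → S = (-a + ·) '' T := by
    rintro a S _ rfl
    rw [image_image]
    simp
  refine ⟨κe, κf, hce, hcf, fun i => i.2.choose.1, fun i => i.2.choose.2, fun φ => φ.2.choose.1,
    fun φ => φ.2.choose.2.1, fun φ => φ.2.choose.2.2, fun i => i.2.choose_spec.1,
    fun φ => φ.2.choose_spec.1, fun φ => φ.2.choose_spec.2.1, fun φ => φ.2.choose_spec.2.2.1,
    fun φ => φ.2.choose_spec.2.2.2.1, fun φ => φ.2.choose_spec.2.2.2.2.1, ?_⟩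
  intro a ha
  constructor
  · intro y hy hd
    obtain ⟨i, hi⟩ := cell_all h ha hy
    obtain ⟨p, q, hpq, e1, -⟩ := (h.T a).edge_eq hy hd
    have hS : SA h i = segment ℝ (-a + p) (-a + p + (q - p)) := by
      rw [hback a _ _ hi, e1, segment_translate_image]
      congr 1
      abel
    let j : κe := ⟨i, (-a + p, q - p), sub_ne_zero.2 hpq.symm, hS⟩
    refine ⟨j, ?_⟩
    rw [hi, Crest.Agent.R96.Gdt_538.seg_eq_segment]
    have h2 := j.2.choose_spec.2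
    refine (congrArg (fun S => (a + ·) '' S) h2).trans ?_
    show (a + ·) '' (segment ℝ _ _) = _
    rw [segment_translate_image, add_assoc]
  · intro y hy hd
    obtain ⟨i, hi⟩ := cell_all h ha hy
    obtain ⟨e, x, Q, h1, -, h3, -, h4, h5, h6, h7⟩ := Mf2a_931.cc_form (h.T a) hy hd
    have hpt : ∀ (b : R3) (e : Fin 2 → R3) (x : R3) (Q : Set (ℝ × ℝ)),
        (b + ·) '' (Crest.Agent.R096.Fce_793.pt e x '' Q) =
          Crest.Agent.R096.Fce_793.pt e (b + x) '' Q := by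
      intro b e x Q
      rw [image_image]
      refine image_congr fun w _ => ?_
      simp only [Crest.Agent.R096.Fce_793.pt]
      abel
    have hS : SA h i = Crest.Agent.R096.Fce_793.pt e (-a + x) '' Q := by
      rw [hback a _ _ hi, h7]
      exact hpt _ _ _ _
    let j : κf := ⟨i, (e, -a + x, Q), h1, h3, h4, h5, h6, hS⟩
    refine ⟨j, ?_⟩
    rw [hi]
    have h2 := j.2.choose_spec.2.2.2.2.2
    refine (congrArg (fun S => (a + ·) '' S) h2).trans ?_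
    exact hpt _ _ _ _


end

end Crest.Agent.R096.Acl_922
end

-- ▼ part R096/Pas7_753

/-!
Row 96 (S0127), helper753.  Assembly of `PreIN p`, part 7: `PreIN p` from the energy list and the
one-position theorem (selection: 855; cells: 922).
-/

set_option autoImplicit false
set_option linter.style.longLine false
set_option linter.unusedSectionVars false

open MeasureTheory Set Filter Topology Metric
open scoped ENNReal NNReal

namespace Crest.Agent.R096.Pas_753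

open Crest.Agent.R096.Mal_874 (CB)
open Crest.Agent.R096.Ea0_961 (EA0)
open Crest.Agent.R096.Ca_855
open Crest.Agent.R096.Pin_753

noncomputable section

theorem exists_allC {Om W : Set Crest.AnalysisR.VecCalc3.R3}
    {ρ₀ : Crest.AnalysisR.VecCalc3.R3 → ℝ} {J : Type}
    {Qb : J → CB Crest.AnalysisR.VecCalc3.R3 3} {k0 : ℕ} {σ : ℝ} [Finite J]
    (h : MIn Om W ρ₀ Qb k0 σ) :
    ∃ (κe κf : Type) (x v : κe → Crest.AnalysisR.VecCalc3.R3)
      (e : κf → Fin 2 → Crest.AnalysisR.VecCalc3.R3)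
      (xx : κf → Crest.AnalysisR.VecCalc3.R3) (Qf : κf → Set (ℝ × ℝ)), AllC h x v e xx Qf := by
  obtain ⟨κe, κf, h1, h2, x, v, e, xx, Qf, h3, h4, -, h5, -, -, h6⟩ := Acl_922.allcells' h
  obtain ⟨e', Qf', h7⟩ := allC_of_li h (x := x) (v := v) (e := e) (xx := xx) (Qf := Qf) h3 h4 h5
    (fun a ha => (h6 a ha).1) (fun a ha => (h6 a ha).2)
  exact ⟨κe, κf, x, v, e', xx, Qf', h7⟩

/-- **`PreIN p` from the energy list and the one-position theorem** -/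
theorem preIN_of {p : ℝ} (hp : 1 ≤ p) (hp2 : p ≤ 2) (hE : EA0 p) (Els : ElsT)
    (hEL : ElP p Els) (hO : OneP p Els) : PreIN p :=
  preIN_frame hp hE Els
    (fun _ _ _ _ h1 h2 h3 h4 H happ _ hε Bs => sel hp hp2 h1 h2 h3 h4 H happ hε Bs)
    (fun h => exists_allC h) hEL hO

end

end Crest.Agent.R096.Pas_753
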