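import Crest.Agent.R096.Eaz3_663_Mg
import Crest.Agent.R096.Frs3_662
import Crest.Agent.R096.Pas7_753
import Crest.Agent.R096.Eax5_481
import Crest.Agent.R096.Exb2_766_Mg
import Crest.Agent.R096.Elc1_812
import Crest.Agent.R096.Rmt4_816
import Crest.Agent.R096.Cbs3_296
import Crest.Agent.R96.Els2_538
import Crest.Agent.R096.Gsc3_476
import Crest.Agent.R096.Ca16_855
import Crest.Agent.R96.Eld1_538
import Mathlib
import Crest.Agent.R096.Eog1_922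
import Crest.Agent.R096.Fce1_793
import Crest.Agent.R96.Rmo1_538
import Crest.Agent.R096.Msb3_432
import Crest.Agent.R096.Eog3_922
import Crest.Agent.R096.Rmt1_816
import Crest.Agent.R096.Fsl8_793
import Crest.Agent.R096.Nbr1_896
import Crest.Agent.R096.Cbs4_296

-- ▼ part R096/Asq1_895
section

/-!
# Row 96, S0127: the top over the OPEN leaves (helper895, assembly)

`DOORS` (662's `DoorsPb b` for some `b > 0`), `PREX` (365), `R3` (695), `ELONE` (538 / 622: one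
predicate `Els` for `1 ≤ p ≤ 2`), `EXBLK` (764).  `pre0` (663), `noPre_lt` (552), `PreGenN` (120),
`sel`, `allC` (855, 922) are plugged in.
-/

set_option autoImplicit false
set_option linter.style.longLine false

namespace Crest.Agent.R096.Asq_895

open MeasureTheory Metric Set Filter Topology
open scoped ENNReal Gradient NNReal
open Crest.AnalysisR.VecCalc3 Crest.AnalysisR.Sobolev

/-- DOORS: the machine -/
def DOORS : Prop := ∃ b : ℝ, 0 < b ∧ Frs_662.DoorsPb b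

/-- `PreX p` for `p > 2` -/
def PREX : Prop := ∀ p : ℝ, 2 < p → Eau_365.PreX p

/-- (EL) + (O) of 753's frame, `1 ≤ p ≤ 2` -/
def ELONE : Prop := ∀ p : ℝ, 1 ≤ p → p ≤ 2 → ∃ Els : Pas_753.ElsT, Pas_753.ElP p Els ∧ Pas_753.OneP p Els

/-- R3: the consumer of `PreIN`, `1 ≤ p ≤ 2` -/
def R3P : Prop := ∀ p : ℝ, 1 ≤ p → p ≤ 2 → Ea0_961.EA0 p → Pin_753.PreIN p → Br_695.BFk p

/-- `ExBlkN p`, `p ≥ 3` -/
def EXBLK : Prop := ∀ p : ℝ, 3 ≤ p → Bmd_798.ExBlkN p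

/-- DOORS from 662's second form -/
theorem doors_of_Q {b : ℝ} (hb : 0 < b) (h : Frs_662.DoorsQb b) : DOORS :=
  ⟨b, hb, Frs_662.doorsPb_of h⟩

theorem preIN_of (h : ELONE) {p : ℝ} (hp : 1 ≤ p) (h2 : p ≤ 2) (hE : Ea0_961.EA0 p) :
    Pin_753.PreIN p := by
  obtain ⟨Els, h3, h4⟩ := h p hp h2
  exact Pas_753.preIN_of hp h2 hE Els h3 h4

/-- **S0127 from the five open leaves** -/
theorem s0127_leaves (hD : DOORS) (hX : PREX) (h3 : R3P) (hI : ELONE) (hB : EXBLK)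
    (Ω Λ : Set R3) (hΩo : IsOpen Ω) (hΩb : Bornology.IsBounded Ω) (hΩc : IsConnected Ω)
    (hΛo : IsOpen Λ) (hΛb : Bornology.IsBounded Λ) (hΛc : IsConnected Λ)
    (p : ℝ) (hp : 1 ≤ p) (f : R3 → R3) (hf : IsHomeomorphOn f Ω Λ)
    (hfp : MemLp f (ENNReal.ofReal p) (volume.restrict Ω))
    (G : Fin 3 → R3 → R3) (hG : ∀ j : Fin 3, HasWeakGradOn Ω (fun x => f x j) (G j))
    (hGp : ∀ j : Fin 3, MemLp (G j) (ENNReal.ofReal p) (volume.restrict Ω))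
    (ε : ℝ≥0∞) (hε : 0 < ε) :
    ∃ g : R3 → R3, IsSmoothDiffeoOn g Ω Λ ∧ MemLp g (ENNReal.ofReal p) (volume.restrict Ω) ∧
      (∀ j : Fin 3, MemLp (fun x => ∇ (fun y => g y j) x) (ENNReal.ofReal p) (volume.restrict Ω)) ∧
      ∫⁻ x in Ω, (‖g x - f x‖ₑ ^ p + ∑ j : Fin 3, ‖∇ (fun y => g y j) x - G j x‖ₑ ^ p) < ε := by
  obtain ⟨b, hb, hD⟩ := hD
  exact Top_961.s0127_final5 hb hD hX (fun p hp h2 => Eaz_663.pre0 hp (by linarith))
    (fun p hp h2 hE => h3 p hp h2 hE (preIN_of hI hp h2 hE))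
    (fun p hp => Np_962.noPre_of_blkN hp (hB p hp))
    Ω Λ hΩo hΩb hΩc hΛo hΛb hΛc p hp f hf hfp G hG hGp ε hε

end Crest.Agent.R096.Asq_895
end

-- ▼ part R096/Asq2_895
section

/-!
# Row 96, S0127: two open leaves, `DOORS` and `ELONE` (helper895, assembly)
-/

set_option autoImplicit false
set_option linter.style.longLine false

namespace Crest.Agent.R096.Asq_895

open MeasureTheory Metric Set Filter Topology
open scoped ENNReal Gradient NNReal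
open Crest.AnalysisR.VecCalc3 Crest.AnalysisR.Sobolev

theorem prex : PREX := fun _ hp => Eax_481.preX hp

theorem r3p : R3P := fun _ hp h2 hE hI => Br_695.bfk_of_ea0 hp (by linarith) hE hI

theorem exblk : EXBLK := fun _ hp => Exb_766.exBlkN (by linarith)

/-- **S0127 from `DOORS` and `ELONE`** -/
theorem s0127_two (hD : DOORS) (hI : ELONE)
    (Ω Λ : Set R3) (hΩo : IsOpen Ω) (hΩb : Bornology.IsBounded Ω) (hΩc : IsConnected Ω)
    (hΛo : IsOpen Λ) (hΛb : Bornology.IsBounded Λ) (hΛc : IsConnected Λ)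
    (p : ℝ) (hp : 1 ≤ p) (f : R3 → R3) (hf : IsHomeomorphOn f Ω Λ)
    (hfp : MemLp f (ENNReal.ofReal p) (volume.restrict Ω))
    (G : Fin 3 → R3 → R3) (hG : ∀ j : Fin 3, HasWeakGradOn Ω (fun x => f x j) (G j))
    (hGp : ∀ j : Fin 3, MemLp (G j) (ENNReal.ofReal p) (volume.restrict Ω))
    (ε : ℝ≥0∞) (hε : 0 < ε) :
    ∃ g : R3 → R3, IsSmoothDiffeoOn g Ω Λ ∧ MemLp g (ENNReal.ofReal p) (volume.restrict Ω) ∧
      (∀ j : Fin 3, MemLp (fun x => ∇ (fun y => g y j) x) (ENNReal.ofReal p) (volume.restrict Ω)) ∧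
      ∫⁻ x in Ω, (‖g x - f x‖ₑ ^ p + ∑ j : Fin 3, ‖∇ (fun y => g y j) x - G j x‖ₑ ^ p) < ε :=
  s0127_leaves hD prex r3p hI exblk Ω Λ hΩo hΩb hΩc hΛo hΛb hΛc p hp f hf hfp G hG hGp ε hε

end Crest.Agent.R096.Asq_895
end

-- ▼ part R096/Elc2_812
section

/-!
# Row 96 (helper812), p ≤ 2: **(EL), composition**: `elP_of : Cls1 → Cls2 → Cls3 → Pas_753.ElP p Els`
-/

set_option autoImplicit false
set_option linter.unusedSectionVars false
set_option linter.style.longLine false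

open MeasureTheory Set Filter Metric Module
open scoped ENNReal NNReal Topology

namespace Crest.Agent.R096.Elc_812

open Crest.AnalysisR.VecCalc3 Crest.AnalysisR.Sobolev
open Crest.Agent.R096.Mal_874 (CB)
open Crest.Agent.R096.Sk_962 (SH)
open Crest.Agent.R096.Br_695 (En)
open Crest.Agent.R096.Pin_753 (BlkP)
open Crest.Agent.R096.Msh_715 (Tiling P I)
open Crest.Agent.R096.Ca_855
open Crest.Agent.R096.Rmt_816 (Bj Cl2 Cl3 diam2 norm_D0)
open Crest.Agent.R096.Gsc_476 (Bk_eq)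
open Crest.Agent.R096.Eln_812 (WL el_num RM_zero pw_disj isClosed_WL psi_le N_tr_sub_cel)
open Crest.Agent.R96.Acl_392 Crest.Agent.R96.Lu_538 Crest.Agent.R96.Intr_538
open Crest.Agent.R96.Poi_392 Crest.Agent.R96.Coarse_538
open Crest.Agent.R96.Eld_538 (Cl1 Cls1 Cls2 Cls3 Els AdE)

/-- **numeric half**, any measurable set of class (1) -/
theorem el_num4 {p : ℝ} (hp : 1 ≤ p) (hp2 : p ≤ 2) {Om La : Set R3} {f : R3 → R3}
    {G : Fin 3 → R3 → R3} (hOm : IsOpen Om) (hOmb : Bornology.IsBounded Om) (H : SH p Om La f G)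
    {κ τ c1 r C1 n1 C2 n2 e₀ : ℝ} (hκ : 0 < κ) (hτ : 0 < τ) (hτ1 : τ ≤ 1 / 4)
    (hc1 : 0 < c1) (hr : 0 ≤ r) (hC1 : 0 < C1) (hn1 : 0 < n1) (hC2 : 0 < C2)
    (hn2 : 0 < n2) (he₀ : 0 < e₀) :
    ∃ θ0 : ℝ, 0 < θ0 ∧ 2 * θ0 ≤ τ ∧ 8 * κ⁻¹ * θ0 ≤ c1 ∧
    ∀ (C3 n3 nc1 nc2 nc3 : ℝ), 0 < C3 → 0 < n3 → 0 < nc1 → 0 < nc2 → 0 < nc3 →
    ∃ e1 : ℝ, 0 < e1 ∧ ∃ δE : ℝ, 0 < δE ∧ ∀ s : ℝ, 0 < s → ∀ (a₀ : R3) (Q₀ : Finset (Fin 3 → ℤ))
      (L : (Fin 3 → ℤ) → R3 →L[ℝ] R3), (∀ k ∈ Q₀, ‖L k‖ ≤ κ⁻¹) →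
      (∀ k ∈ Q₀, cel Cb (vt (2 * s) a₀ k) s ⊆ Om) →
      (∑ k ∈ Q₀, ∫⁻ x in cel Cb (vt (2 * s) a₀ k) s, ‖Gmat G x - L k‖ₑ ^ p) ≤
        ENNReal.ofReal e1 →
      ∀ (J : Type) [Finite J] (kk : J → Fin 3 → ℤ) (Qb : J → CB R3 3) (k0 : ℕ),
      (∀ j, kk j ∈ Q₀) → (∀ j v, κ / 4 * ‖v‖ ≤ ‖(Qb j).ψ v‖) →
      (∀ j, c1 * s ≤ 1 / 2 ^ (Qb j).kc) → 1 / 2 ^ k0 ≤ θ0 * s →
      (∀ j, (Qb j).N ⊆ cel Cb (vt (2 * s) a₀ (kk j)) ((1 - τ) * s)) →
      (Pairwise fun i j => Disjoint (Qb i).N (Qb j).N) →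
      ∀ μ1 μ2 μ3 : R3 → Measure R3, RM (Dt (1 / 2 ^ k0)) (ENNReal.ofReal n1) μ1 →
      RM (Dt (1 / 2 ^ k0)) (ENNReal.ofReal n2) μ2 → RM (Dt (1 / 2 ^ k0)) (ENNReal.ofReal n3) μ3 →
      (∀ a ∈ Dt (1 / 2 ^ k0), ∀ k : Fin 3 → ℤ,
        μ1 a (cel Cb (vt (2 * s) a₀ k) s) ≤ ENNReal.ofReal (nc1 * (2 * s) ^ 3) ∧
        μ2 a (cel Cb (vt (2 * s) a₀ k) s) ≤ ENNReal.ofReal (nc2 * (2 * s) ^ 3) ∧
        μ3 a (cel Cb (vt (2 * s) a₀ k) s) ≤ ENNReal.ofReal (nc3 * (2 * s) ^ 3)) →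
      ∀ E1 : Set R3, MeasurableSet E1 → E1 ⊆ Om →
      ∃ B2 : Set R3, volume B2 ≤ ENNReal.ofReal (1 / 2) * volume (Dt (1 / 2 ^ k0)) ∧
      ∀ a ∈ Dt (1 / 2 ^ k0), a ∉ B2 →
        (∀ S : Set R3, S ⊆ E1 →
          ENNReal.ofReal C1 * (∫⁻ y in S, En p G y ∂μ1 a) ≤
            ENNReal.ofReal (14 * n1 * C1) * (∫⁻ y in E1, En p G y) + ENNReal.ofReal e₀) ∧
        (∀ S : Set R3, S ⊆ WL Qb k0 r →
          ENNReal.ofReal C2 * (∫⁻ y in S, En p G y ∂μ2 a) ≤ ENNReal.ofReal e₀) ∧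
        (∀ Q ⊆ Q₀, ((Q₀ \ Q).card : ℝ) * (2 * s) ^ 3 ≤ δE →
          ∀ S : Set R3, S ⊆ ⋃ k ∈ Q₀ \ Q, cel Cb (vt (2 * s) a₀ k) s →
          ENNReal.ofReal C3 * (∫⁻ y in S, En p G y ∂μ3 a) ≤ ENNReal.ofReal e₀) := by
  classical
  have hvol : volume Om ≠ ∞ := hOmb.measure_lt_top.ne
  obtain ⟨θ', hθ', H0⟩ := el_num hp hp2 hOm hvol H hκ hτ (by linarith : τ < 1) hc1 hr hC1 hn1 hC2
    hn2 he₀
  have hκi : 0 < κ⁻¹ := inv_pos.2 hκ
  refine ⟨min θ' (min (τ / 2) (c1 / (8 * κ⁻¹))), by positivity, ?_, ?_, ?_⟩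
  · have := (min_le_right θ' (min (τ / 2) (c1 / (8 * κ⁻¹)))).trans (min_le_left _ _)
    linarith
  · have := (min_le_right θ' (min (τ / 2) (c1 / (8 * κ⁻¹)))).trans (min_le_right _ _)
    rwa [le_div_iff₀' (by positivity)] at this
  intro C3 n3 nc1 nc2 nc3 hC3 hn3 hnc1 hnc2 hnc3
  obtain ⟨e1, he1, δE, hδE, H1⟩ := H0 C3 n3 nc1 nc2 nc3 hC3 hn3 hnc1 hnc2 hnc3
  refine ⟨e1, he1, δE, hδE, fun s hs a₀ Q₀ L hL hcO hdev J _ kk Qb k0 hkk hψ hkc hk0 hN hdis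
    μ1 μ2 μ3 r1 r2 r3 hcnt E1 hE1 hE1O => ?_⟩
  have hp0 : (0 : ℝ) < 1 / 2 ^ k0 := by positivity
  obtain ⟨B2, hB2, HB⟩ := H1 s hs a₀ Q₀ L hL hcO hdev J kk Qb k0 hkk hψ hkc
    (hk0.trans (mul_le_mul_of_nonneg_right (min_le_left _ _) hs.le)) hN hdis
    (Dt (1 / 2 ^ k0)) (meas_Dt _)
    (by
      rw [vol_Dt hp0]
      exact (ENNReal.ofReal_pos.2 (by positivity)).ne')
    (by rw [vol_Dt hp0]; exact ENNReal.ofReal_ne_top)
    μ1 (fun _ => 0) μ2 (fun _ => 0) μ3 (fun _ => 0) r1 (RM_zero _ _) r2 (RM_zero _ _) r3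
    (RM_zero _ _)
    (fun a ha k => by
      obtain ⟨q1, q2, q3⟩ := hcnt a ha k
      exact ⟨q1, by simp, q2, by simp, q3, by simp⟩)
    E1 hE1 hE1O
  refine ⟨B2, hB2, fun a ha haB => ?_⟩
  obtain ⟨q1, q2, q3⟩ := HB a ha haB
  exact ⟨fun S hS => (q1 S hS).1, fun S hS => (q2 S hS).1,
    fun Q _ hc S hS => (q3 (Q₀ \ Q) Finset.sdiff_subset hc S hS).1⟩

/-- weights of a class -/
theorem cls_sum {ι : Type*} (K : Finset ι) {cf : ι → ℝ} {Jf : ι → ℝ≥0∞} {β C C0 : ℝ} {I0 : ℝ≥0∞}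
    (hβ : ∀ k ∈ K, cf k ≤ β) (hβ0 : 0 ≤ β) (hC0 : β * C ≤ C0)
    (hsum : ∑ k ∈ K, Jf k ≤ ENNReal.ofReal C * I0) :
    ∑ k ∈ K, ENNReal.ofReal (cf k) * Jf k ≤ ENNReal.ofReal C0 * I0 := by
  calc ∑ k ∈ K, ENNReal.ofReal (cf k) * Jf k ≤ ∑ k ∈ K, ENNReal.ofReal β * Jf k :=
        Finset.sum_le_sum fun k hk => mul_le_mul' (ENNReal.ofReal_le_ofReal (hβ k hk)) le_rfl
    _ = ENNReal.ofReal β * ∑ k ∈ K, Jf k := (Finset.mul_sum _ _ _).symm
    _ ≤ ENNReal.ofReal β * (ENNReal.ofReal C * I0) := mul_le_mul' le_rfl hsum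
    _ = ENNReal.ofReal (β * C) * I0 := by
        rw [← mul_assoc, ← ENNReal.ofReal_mul hβ0]
    _ ≤ _ := mul_le_mul' (ENNReal.ofReal_le_ofReal hC0) le_rfl

theorem CB_le {p : ℝ} (hp : 0 ≤ p) {K K' m m' : ℝ≥0} (hK : K ≤ K') (h : m ≤ m') :
    Cob_622.CB p K m ≤ Cob_622.CB p K' m' := by
  refine (Cob_622.CB_mono hp h).trans ?_
  have h4 := Sq_55.T2_nonneg p m'
  have h5 := Sq_55.T3_nonneg p m'
  have h6 : 0 ≤ 1 + Sq_55.T2 p m' := by linarith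
  have hK' : (K:ℝ) ≤ K' := by exact_mod_cast hK
  unfold Cob_622.CB
  gcongr

theorem CB_nn {p : ℝ} {K m : ℝ≥0} : 0 ≤ Cob_622.CB p K m := by
  have h4 := Sq_55.T2_nonneg p m
  have h5 := Sq_55.T3_nonneg p m
  have h6 : 0 ≤ 1 + Sq_55.T2 p m := by linarith
  unfold Cob_622.CB
  positivity


set_option maxHeartbeats 1600000 in
/-- **(EL) FROM THE THREE CLASS STATEMENTS** -/
theorem elP_of {p : ℝ} (hp : 1 ≤ p) (hp2 : p ≤ 2) (h1 : Cls1) (h2 : Cls2) (h3 : Cls3) :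
    Pas_753.ElP p Els := by
  classical
  intro mU
  obtain ⟨C1', n1, nc1, hC1', hn1, hnc1, H1⟩ := h1 mU
  have hp0 : 0 ≤ p := by linarith
  obtain ⟨C1, hC1, hC1e⟩ : ∃ C1 : ℝ, 0 < C1 ∧ Cob_622.CB p 2 mU * C1' ≤ C1 := by
    have := mul_nonneg (CB_nn (p := p) (K := 2) (m := mU)) hC1'.le
    exact ⟨Cob_622.CB p 2 mU * C1' + 1, by linarith, by linarith⟩
  refine ⟨Real.toNNReal (14 * n1 * C1), ?_⟩
  intro Om La f G hOm hOmb H κ τ c1 c2 hh Rl e₀ mN Bs Nn hκ hκ1 hτ hτ1 hc1 hc2 hhh hRl he₀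
  have hκi : 0 < κ⁻¹ := inv_pos.2 hκ
  obtain ⟨r, hr7, hrR, hrκ⟩ : ∃ r : ℝ, 7 ≤ r ∧ Rl ≤ r ∧ 32 * κ⁻¹ ≤ r :=
    ⟨max 7 (max Rl (32 * κ⁻¹)), le_max_left _ _, (le_max_left _ _).trans (le_max_right _ _),
      (le_max_right _ _).trans (le_max_right _ _)⟩
  obtain ⟨C2', n2, nc2, θ, hC2', hn2, hnc2, hθ, H2⟩ := h2 κ r mN Bs Nn hκ hκ1 hr7
  have hβ2 : 0 ≤ Cob_622.CB p 2 mN := CB_nn
  obtain ⟨C2, hC2, hC2e⟩ : ∃ C2 : ℝ, 0 < C2 ∧ Cob_622.CB p 2 mN * C2' ≤ C2 := by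
    have := mul_nonneg hβ2 hC2'.le
    exact ⟨Cob_622.CB p 2 mN * C2' + 1, by linarith, by linarith⟩
  obtain ⟨A, hA⟩ : ∃ A : ℝ, A = 1 + 16 * κ⁻¹ ^ 2 * max 1 (Bs:ℝ) := ⟨_, rfl⟩
  have hA1 : 1 ≤ A := by
    have : 0 ≤ 16 * κ⁻¹ ^ 2 * max 1 (Bs:ℝ) := by positivity
    linarith
  have hr0 : 0 < r := by linarith
  obtain ⟨r1, hr1⟩ : ∃ r1 : ℝ, r1 = r * A := ⟨_, rfl⟩
  have hrr1 : r ≤ r1 := by rw [hr1]; exact le_mul_of_one_le_right hr0.le hA1
  have hr10 : 0 < r1 := hr0.trans_le hrr1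
  obtain ⟨r2, hr2⟩ : ∃ r2 : ℝ, r2 = r1 * A + 8 * κ⁻¹ := ⟨_, rfl⟩
  have hr20 : 0 ≤ r2 := by rw [hr2]; positivity
  have he3 : 0 < e₀ / 3 := by positivity
  obtain ⟨θ', hθ', hθ'τ, hθ'c, HN⟩ := el_num4 hp hp2 hOm hOmb H hκ hτ hτ1 hc1 hr20 hC1 hn1 hC2 hn2
    he3
  obtain ⟨θ0, hθ0, t1, t2, t3⟩ : ∃ θ0 : ℝ, 0 < θ0 ∧ θ0 ≤ θ' ∧ θ0 ≤ θ * c2 ∧
      θ0 ≤ c2 / (64 * κ⁻¹ * r1) :=
    ⟨min θ' (min (θ * c2) (c2 / (64 * κ⁻¹ * r1))), by positivity, min_le_left _ _,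
      (min_le_right _ _).trans (min_le_left _ _), (min_le_right _ _).trans (min_le_right _ _)⟩
  refine ⟨θ0, hθ0, ?_⟩
  intro θ1 hθ1 W ρ₀ hWO hWc hρ1 hρ2 hρ3 hρ4 hρ5
  obtain ⟨C3', n3, nc3, hC3', hn3, hnc3, H3⟩ := h3 κ (hh / θ1) hh mN Bs Nn hκ hκ1
    (by positivity) hhh
  obtain ⟨C3, hC3, hC3e⟩ : ∃ C3 : ℝ, 0 < C3 ∧ Cob_622.CB p 2 mN * C3' ≤ C3 := by
    have := mul_nonneg hβ2 hC3'.le
    exact ⟨Cob_622.CB p 2 mN * C3' + 1, by linarith, by linarith⟩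
  obtain ⟨e1, he1, δE, hδE, HN1⟩ := HN C3 n3 nc1 nc2 nc3 hC3 hn3 hnc1 hnc2 hnc3
  refine ⟨e1, δE, 1, he1, hδE, one_pos, ?_⟩
  intro s hs _ a₀ Q₀ L hL hcW hdev J _ kk Qb k0 hkk hB hsep hlo hk0 h
  have hbq : ∀ j, MIn.BQ κ Bs Nn (Qb j) k0 := fun j => MIn.bq_of_blkP (hB j)
  have hpk : (0:ℝ) < 1 / 2 ^ k0 := by positivity
  have hk0θ : 1 / 2 ^ k0 ≤ θ * (c2 * s) := by
    refine hk0.trans ?_
    rw [← mul_assoc]
    gcongr
  have hk0' : 1 / 2 ^ k0 ≤ θ' * s := hk0.trans (by gcongr)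
  have hks : 1 / 2 ^ k0 ≤ s := by
    refine hk0'.trans ?_
    have : θ' ≤ 1 := by linarith
    calc θ' * s ≤ 1 * s := by gcongr
      _ = s := one_mul s
  have hsm1 : 4 * κ⁻¹ * (r1 / 2 ^ k0) < c2 * s / 8 := by
    rw [le_div_iff₀ (by positivity)] at t3
    calc 4 * κ⁻¹ * (r1 / 2 ^ k0) = 4 * κ⁻¹ * r1 * (1 / 2 ^ k0) := by ring
      _ ≤ 4 * κ⁻¹ * r1 * (θ0 * s) := by gcongr
      _ = θ0 * (64 * κ⁻¹ * r1) * s / 16 := by ring
      _ ≤ c2 * s / 16 := by gcongr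
      _ < c2 * s / 8 := by
        have := mul_pos hc2 hs
        linarith
  have hsm : 4 * κ⁻¹ * (r / 2 ^ k0) < c2 * s / 8 := by
    refine lt_of_le_of_lt ?_ hsm1
    gcongr
  obtain ⟨μ1, rm1, cnt1, K1H⟩ := H1 h
  obtain ⟨μ2, rm2, cnt2, K2H⟩ := H2 h hbq hk0θ
  obtain ⟨μ3, rm3, cnt3, K3H⟩ := H3 h hbq (fun j => by
    refine (hB j).cellU.trans ?_
    calc hh * s = hh / θ1 * (θ1 * s) := by field_simp
      _ ≤ _ := by gcongr)
  obtain ⟨B2, hB2, HB⟩ := HN1 s hs a₀ Q₀ L (fun k hk => (hL k hk).2)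
    (fun k hk => (hcW k hk).trans hWO) hdev J kk Qb k0 hkk (fun j v => ((hB j).cnd v).1)
    (fun j => (hB j).cellL) hk0' (fun j => (hB j).sub) (pw_disj hc2 hs hsep) μ1 μ2 μ3 rm1 rm2 rm3
    (fun a ha k => ⟨cnt1 a ha _ s hks, cnt2 a ha _ s hks,
      cnt3 a ha _ s hs hks fun j => (hB j).cellU⟩)
    (E1 Om Qb) (meas_E1 hOm) sdiff_subset
  refine ⟨B2, hB2, fun a ha haB Q hQ hQc => ?_⟩
  obtain ⟨q1, q2, q3⟩ := HB a ha haB
  have ha' : ‖a‖ ≤ c2 * s / 8 := (norm_D0 h a ha).le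
  have hna : ‖a‖ ≤ 2 / 2 ^ k0 := by
    have := Rmt_816.norm_Dt (s := 1 / 2 ^ k0) (by positivity) ha
    calc ‖a‖ ≤ 2 * (1 / 2 ^ k0) := this
      _ = _ := by ring
  have hnaτ : ‖a‖ ≤ τ * s := by
    calc ‖a‖ ≤ 2 * (1 / 2 ^ k0) := hna.trans (le_of_eq (by ring))
      _ ≤ 2 * (θ' * s) := by gcongr
      _ = 2 * θ' * s := by ring
      _ ≤ τ * s := by gcongr
  have hψa : ∀ j, ‖(Qb j).ψ a‖ ≤ 1 / 2 ^ (Qb j).kc := fun j => by
    refine (psi_le (Q := Qb j) hκ (fun v => ((hbq j).cnd v).2) hna).trans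
      (le_trans ?_ (hB j).cellL)
    calc 8 * κ⁻¹ / 2 ^ k0 = 8 * κ⁻¹ * (1 / 2 ^ k0) := by ring
      _ ≤ 8 * κ⁻¹ * (θ' * s) := by gcongr
      _ = 8 * κ⁻¹ * θ' * s := by ring
      _ ≤ c1 * s := by gcongr
  intro s' pr c R ρ m X D hA' K hK
  -- the coefficients
  have cf2 : ∀ k : s', Cob_622.CB p K (X.m k) ≤ Cob_622.CB p 2 mN := fun k =>
    CB_le hp0 hK (by rw [hA'.sys.em]; exact hA'.mle k k.2)
  have cf1 : ∀ k : s', Cl1 h 4 a k → Cob_622.CB p K (X.m k) ≤ Cob_622.CB p 2 mU := fun k hk =>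
    CB_le hp0 hK (by rw [hA'.sys.em]; exact hA'.mleU k k.2 hk)
  have hW2 := (isClosed_WL Qb k0 r2).measurableSet
  -- the class near the walls
  have c2s : ∀ K2 : Finset s', (∀ k ∈ K2, Cl2 h r a k) →
      ∑ k ∈ K2, ENNReal.ofReal (Cob_622.CB p K (X.m k)) * D.J k ≤ ENNReal.ofReal (e₀ / 3) := by
    intro K2 hK2
    refine (cls_sum K2 (fun k _ => cf2 k) hβ2 hC2e
      (K2H p G mU a ha s' pr c R ρ m X D hA' K2 hK2 (WL Qb k0 r2) hW2 ?_)).trans (q2 _ le_rfl)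
    intro k hk i hki
    have e1 := nb2 h hκ hκ1 hbq hr7 hsm (hK2 k hk) hki
    rw [← hA, ← hr1] at e1
    have e2 := cl2_WL h hκ hκ1 hbq (hr7.trans hrr1) hsm1 ha e1
    rwa [← hA, ← hr2] at e2
  refine ⟨fun s₁ hs₁ => ?_, fun s₂ hs₂ => ?_⟩
  · have c1s : ∀ K1 : Finset s', (∀ k ∈ K1, Cl1 h 4 a k) →
        ∑ k ∈ K1, ENNReal.ofReal (Cob_622.CB p K (X.m k)) * D.J k ≤
          ENNReal.ofReal (14 * n1 * C1) * (∫⁻ y in E1 Om Qb, En p G y) +
            ENNReal.ofReal (e₀ / 3) := by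
      intro K1 hK1
      exact (cls_sum K1 (fun k hk => cf1 k (hK1 k hk)) CB_nn hC1e
        (K1H p G mN a ha s' pr c R ρ m X D hA' K1 hK1 (E1 Om Qb) (meas_E1 hOm)
          (fun k hk i hki => nb1_E1 h ha' hψa (hK1 k hk) hki))).trans (q1 _ le_rfl)
    have c3s : ∀ K3 : Finset s', K3 ⊆ s₁ → (∀ k ∈ K3, ¬ Cl2 h r a k ∧ Cl3 h a k) →
        ∑ k ∈ K3, ENNReal.ofReal (Cob_622.CB p K (X.m k)) * D.J k ≤ ENNReal.ofReal (e₀ / 3) := by
      intro K3 hK3 hK3'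
      have key : ∀ k ∈ K3, ∃ j, kk j ∈ Q₀ \ Q ∧
          ∀ i : h.ιT a, (P ((h.T a).H k) ∩ P ((h.T a).H i)).Nonempty →
            P ((h.T a).H i) ⊆ ((Qb j).tr a).N := by
        intro k hk
        obtain ⟨n2', j, hj⟩ := hK3' k hk
        have hj' : P ((h.T a).H k) ⊆ ((Qb j).tr a).N := by
          rw [← Bk_eq h ha' j]
          exact hj
        refine ⟨j, Finset.mem_sdiff.2 ⟨hkk j, fun hc => hs₁ k (hK3 hk) j hc hj'⟩, fun i hki => ?_⟩
        exact nb3 h hκ hbq ha' hrκ n2' hj' hki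
      refine (cls_sum K3 (fun k _ => cf2 k) hβ2 hC3e
        (K3H p G mU a ha s' pr c R ρ m X D hA' K3 ?_
          (⋃ k ∈ Q₀ \ Q, cel Cb (vt (2 * s) a₀ k) s) ?_ ?_)).trans (q3 Q hQ hQc _ le_rfl)
      · intro k hk
        obtain ⟨j, -, hj⟩ := key k hk
        refine ⟨(hK3' k hk).2, fun i hki => ⟨j, ?_⟩⟩
        have := hj i hki
        rw [← Bk_eq h ha' j] at this
        exact this
      · exact Finset.measurableSet_biUnion _ fun k _ => (isClosed_cel _ _).measurableSet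
      · intro k hk i hki
        obtain ⟨j, hjQ, hj⟩ := key k hk
        exact ((hj i hki).trans
          (N_tr_sub_cel hs (by linarith) hnaτ (hB j).sub)).trans
            (subset_iUnion₂_of_subset (kk j) hjQ le_rfl)
    have hsum : ∑ k ∈ s₁, ENNReal.ofReal (Cob_622.CB p K (X.m k)) * D.J k =
        ∑ k ∈ s₁.filter (fun k : s' => Cl2 h r a k.1),
            ENNReal.ofReal (Cob_622.CB p K (X.m k)) * D.J k +
          (∑ k ∈ (s₁.filter fun k : s' => ¬ Cl2 h r a k.1).filter (fun k : s' => Cl3 h a k.1),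
            ENNReal.ofReal (Cob_622.CB p K (X.m k)) * D.J k +
          ∑ k ∈ (s₁.filter fun k : s' => ¬ Cl2 h r a k.1).filter (fun k : s' => ¬ Cl3 h a k.1),
            ENNReal.ofReal (Cob_622.CB p K (X.m k)) * D.J k) := by
      rw [Finset.sum_filter_add_sum_filter_not, Finset.sum_filter_add_sum_filter_not]
    rw [hsum]
    have b2 := c2s (s₁.filter (fun k : s' => Cl2 h r a k.1)) (fun k hk => (Finset.mem_filter.1 hk).2)
    have b3 := c3s ((s₁.filter fun k : s' => ¬ Cl2 h r a k.1).filter (fun k : s' => Cl3 h a k.1))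
      ((Finset.filter_subset _ _).trans (Finset.filter_subset _ _)) (fun k hk =>
        ⟨(Finset.mem_filter.1 (Finset.mem_filter.1 hk).1).2, (Finset.mem_filter.1 hk).2⟩)
    have b1 := c1s ((s₁.filter fun k : s' => ¬ Cl2 h r a k.1).filter (fun k : s' => ¬ Cl3 h a k.1))
      (fun k hk => tri h hκ hbq ha' hrκ k
        (Finset.mem_filter.1 (Finset.mem_filter.1 hk).1).2 (Finset.mem_filter.1 hk).2)
    have hE : ∫⁻ y in E1 Om Qb, En p G y ≤
        ∫⁻ y in Om \ ⋃ j ∈ {j | kk j ∈ Q}, ((Qb j).tr a).Kc, En p G y :=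
      lintegral_mono_set (E1_sub_Kc hψa _)
    have e3 : ENNReal.ofReal e₀ =
        ENNReal.ofReal (e₀ / 3) + ENNReal.ofReal (e₀ / 3) + ENNReal.ofReal (e₀ / 3) := by
      rw [← ENNReal.ofReal_add he3.le he3.le, ← ENNReal.ofReal_add (by positivity) he3.le]
      congr 1
      ring
    rw [e3]
    calc _ ≤ ENNReal.ofReal (e₀ / 3) + (ENNReal.ofReal (e₀ / 3) +
          (ENNReal.ofReal (14 * n1 * C1) * (∫⁻ y in E1 Om Qb, En p G y) +
            ENNReal.ofReal (e₀ / 3))) := add_le_add b2 (add_le_add b3 b1)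
      _ ≤ ENNReal.ofReal (e₀ / 3) + (ENNReal.ofReal (e₀ / 3) +
          (ENNReal.ofReal (14 * n1 * C1) *
            (∫⁻ y in Om \ ⋃ j ∈ {j | kk j ∈ Q}, ((Qb j).tr a).Kc, En p G y) +
            ENNReal.ofReal (e₀ / 3))) := by gcongr
      _ = ENNReal.ofReal (14 * n1 * C1) *
            (∫⁻ y in Om \ ⋃ j ∈ {j | kk j ∈ Q}, ((Qb j).tr a).Kc, En p G y) +
          (ENNReal.ofReal (e₀ / 3) + ENNReal.ofReal (e₀ / 3) + ENNReal.ofReal (e₀ / 3)) := by ring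
  · refine (c2s s₂ fun k hk => ?_).trans (ENNReal.ofReal_le_ofReal (by linarith))
    obtain ⟨j, -, x, hx, z, hz, hxz⟩ := hs₂ k hk
    exact cl2_of_wall h ha' hx hz (hxz.trans (by gcongr))

end Crest.Agent.R096.Elc_812
end

-- ▼ part R096/Rmt5_816
section

/-!
Row 96 (S0127), helper816.  [ELIST], part 5: the sum of the functional `J` over the tiles of a class
of a rigid family against the random measure of the class (edges and faces).
-/

set_option autoImplicit false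
set_option linter.unusedSectionVars false
set_option linter.style.longLine false

open MeasureTheory Set Filter Metric
open scoped ENNReal NNReal Topology

namespace Crest.Agent.R096.Rmt_816

open Crest.AnalysisR.VecCalc3
open Crest.Agent.R96.Coarse_538
open Crest.Agent.R96.Intr_538
open Crest.Agent.R096.Msh_715 (Tiling P I)
open Crest.Agent.R096.Mf_113 (Rig CK)
open Crest.Agent.R096.Ca_855
open Crest.Agent.R096.Rmg_793 (trM)
open Crest.Agent.R096.Fsl_793 (fcM RF)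
open Crest.Agent.R096.Fce_793 (pt)
open Crest.Agent.R96.En10_199 (P3)
open Crest.Agent.R096.Efi_296
open Crest.Agent.R096.Cbs_296
open Crest.Agent.R096.Cob_622 (EF)
open Crest.Agent.R96.Els_538 (EdT FcT sum_J_cls seg_int seg_eq_segment)
open Crest.Agent.R096.Sq_55 (Sys w2)

noncomputable section

section rig

variable {Om Om0 W Tr : Set R3} {ι0 : Type} {ι : R3 → Type} {T0 : Tiling Om0 ι0}
  {T : ∀ a, Tiling Om (ι a)}

/-- the edges of a class with the weights `length³` -/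
def muE (h : Rig T0 T Tr W) (Cl : ∀ a, ι a → Prop) : R3 → Measure R3 :=
  segM (fun e : KE T0 Tr W => kx h e.1) (fun e => kv h e.1)
    (fun e => ENNReal.ofReal (‖kv h e.1‖ ^ 3)) (cutS (ES T0 Tr W T Cl) univ)

/-- the faces of a class with the weights `size³` -/
def muF (h : Rig T0 T Tr W) (Cl : ∀ a, ι a → Prop) : R3 → Measure R3 :=
  trM (fcM (fun φ : RF T0 Tr W => fx h φ.1) (fun φ => fe h φ.1) (fun φ => fQ h φ.1)
    (fun φ => ENNReal.ofReal (‖fe h φ.1 0‖ ^ 3))) (cutS (FS T0 Tr W T Cl) univ)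

/-- **the random measure of a class** -/
def muC (h : Rig T0 T Tr W) (Cl : ∀ a, ι a → Prop) (a : R3) : Measure R3 :=
  muE h Cl a + muF h Cl a

/-- **the random measure of a class of fat tiles** -/
theorem rmC (h : Rig T0 T Tr W) {Cl : ∀ a, ι a → Prop} {Λ t : ℝ} {nc : ℕ} (hΛ : 0 ≤ Λ)
    (hW : ∀ a ∈ Tr, ∀ j, Cl a j → P ((T a).H j) ⊆ W)
    (hf : ∀ a ∈ Tr, ∀ j, Cl a j → FatT (T a) j Λ t nc)
    (hTr : MeasurableSet Tr) {K : ℝ} (hK0 : 0 ≤ K)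
    (hK : volume (cthickening t Tr) ≤ ENNReal.ofReal K * volume Tr) :
    RM Tr (ENNReal.ofReal (9 * Λ ^ 3 * 2 ^ nc * K)) (muC h Cl) := by
  have h1 := rm_rig h hW hf (A := cutS (ES T0 Tr W T Cl) univ)
    (fun e => meas_cutS _ MeasurableSet.univ e) (fun e he => mem_of_cutS he) hTr hK
  have h2 := rmF_rig h hW hf (S := fun φ => fQ h φ.1) (fun φ => subset_rfl)
    (fun φ => ((fspec h).2.2.2.1 φ.1).isClosed.measurableSet)
    (w := fun φ => ENNReal.ofReal (‖fe h φ.1 0‖ ^ 3)) (fun φ => hw_whole h φ)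
    (A := cutS (FS T0 Tr W T Cl) univ)
    (fun e => meas_cutS _ MeasurableSet.univ e) (fun e he => mem_of_cutS he) hTr hK
  have h3 := h1.add h2
  have e1 : ENNReal.ofReal (Λ ^ 3) * ((2 ^ nc : ℕ) : ℝ≥0∞) * ENNReal.ofReal K +
      ENNReal.ofReal ((2 * Λ) ^ 3) * ((2 ^ nc : ℕ) : ℝ≥0∞) * ENNReal.ofReal K =
      ENNReal.ofReal (9 * Λ ^ 3 * 2 ^ nc * K) := by
    rw [show ((2 ^ nc : ℕ) : ℝ≥0∞) = ENNReal.ofReal (2 ^ nc) by
        rw [← ENNReal.ofReal_natCast]; push_cast; rfl,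
      ← ENNReal.ofReal_mul (by positivity), ← ENNReal.ofReal_mul (by positivity),
      ← ENNReal.ofReal_mul (by positivity), ← ENNReal.ofReal_mul (by positivity),
      ← ENNReal.ofReal_add (by positivity) (by positivity)]
    congr 1
    ring
  rw [e1] at h3
  exact h3


/-- **the count**, any size of the tiles -/
theorem celC' (h : Rig T0 T Tr W) {Cl : ∀ a, ι a → Prop} {Λ t : ℝ} {nc : ℕ} (hΛ : 0 ≤ Λ)
    (hW : ∀ a ∈ Tr, ∀ j, Cl a j → P ((T a).H j) ⊆ W)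
    (hf : ∀ a ∈ Tr, ∀ j, Cl a j → FatT (T a) j Λ t nc)
    {s : ℝ} (hs : 0 < s) (ht : 0 ≤ t) {c : ℝ} (_hc : 0 ≤ c) (hts : t ≤ c * s) (a z : R3) :
    muC h Cl a (cel Cb z s) ≤ ENNReal.ofReal (9 * Λ ^ 3 * 2 ^ nc * (1 + c) ^ 3 * (2 * s) ^ 3) := by
  have h1 := segM_rig_le h hW hf (A := cutS (ES T0 Tr W T Cl) univ)
    (fun e => meas_cutS _ MeasurableSet.univ e)
    (fun e he => mem_of_cutS he) (isClosed_cel z s).measurableSet a
  have h2 := trF_rig_le h hW hf (S := fun φ => fQ h φ.1) (fun φ => subset_rfl)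
    (fun φ => ((fspec h).2.2.2.1 φ.1).isClosed.measurableSet)
    (w := fun φ => ENNReal.ofReal (‖fe h φ.1 0‖ ^ 3)) (fun φ => hw_whole h φ)
    (A := cutS (FS T0 Tr W T Cl) univ) (fun e => meas_cutS _ MeasurableSet.univ e)
    (fun e he => mem_of_cutS he) (isClosed_cel z s).measurableSet a
  unfold muC
  rw [Measure.add_apply]
  refine (add_le_add h1 h2).trans ?_
  have h3 : volume (cthickening t (cel Cb z s)) ≤ ENNReal.ofReal ((1 + c) ^ 3 * (2 * s) ^ 3) := by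
    refine (thick_cel hs ht).trans (ENNReal.ofReal_le_ofReal ?_)
    rw [← mul_pow]
    exact pow_le_pow_left₀ (by positivity) (by nlinarith) 3
  have e1 : ((2 ^ nc : ℕ) : ℝ≥0∞) = ENNReal.ofReal (2 ^ nc) := by
    rw [← ENNReal.ofReal_natCast]; push_cast; rfl
  rw [← add_mul, ← add_mul, e1]
  refine (mul_le_mul' le_rfl h3).trans (le_of_eq ?_)
  rw [← ENNReal.ofReal_add (by positivity) (by positivity), ← ENNReal.ofReal_mul (by positivity),
    ← ENNReal.ofReal_mul (by positivity)]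
  congr 1
  ring

/-- the neighbourhood of the cube of positions, any radius -/
theorem thick_Dt' {s c : ℝ} (hs : 0 < s) (hc : 0 ≤ c) :
    volume (cthickening (c * s) (Dt s)) ≤ ENNReal.ofReal ((1 + 2 * c) ^ 3) * volume (Dt s) := by
  have h1 := volume_cthick_box (A := Dt s) (R := c * s) (by positivity) (l := fun _ => 0)
    (u := fun _ => s) (fun x hx i => ⟨(hx i).1, (hx i).2.le⟩)
  refine h1.trans ?_
  rw [vol_Dt hs]
  simp only [Finset.prod_const, Finset.card_univ, Fintype.card_fin]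
  rw [← ENNReal.ofReal_pow (by nlinarith), ← ENNReal.ofReal_mul (by positivity)]
  refine ENNReal.ofReal_le_ofReal (le_of_eq ?_)
  ring

/-- a closed 2-cell contains a closed 1-cell -/
theorem exists_one {Om : Set R3} {ι : Type*} {T : Tiling Om ι} {y : R3} (hy : y ∈ Om)
    (hd : 1 ≤ T.dim y) : ∃ e ∈ T.cc y, T.dim e = 1 ∧ T.cc e ⊆ T.cc y := by
  obtain ⟨v, hv, hv0⟩ := T.exists_vertex hy
  obtain ⟨e, he, he1, -⟩ := Mf_113.exists_edge_of_vertex hv0 hy hv hd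
  exact ⟨e, he, he1, T.cc_sub_of_mem he⟩

/-- a closed 1-cell is a segment -/
theorem cell_seg (h : Rig T0 T Tr W) {a : R3} (ha : a ∈ Tr) {j : ι a}
    (hjW : P ((T a).H j) ⊆ W) {y : R3} (hy : y ∈ Om) (hd : (T a).dim y = 1)
    (hyj : (T a).cc y ⊆ P ((T a).H j)) : ∃ e1 e2, (T a).cc y = segment ℝ e1 e2 ∧ e1 ≠ e2 := by
  obtain ⟨e, he⟩ := k_cell h ha hy hd ⟨y, (T a).self_mem_cc y, hjW (hyj ((T a).self_mem_cc y))⟩
  refine ⟨_, _, he, fun h1 => kv_ne h e ?_⟩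
  exact add_eq_left.1 h1.symm

set_option maxHeartbeats 1600000 in
/-- **THE SUM OF `J` OVER THE TILES `K` AGAINST THE RANDOM MEASURE OF A CLASS** which contains the
tiles of `K` and all tiles which meet them -/
theorem sum_cls (h : Rig T0 T Tr W) {a : R3} (ha : a ∈ Tr) {Cl : ∀ a, ι a → Prop}
    {s : Finset (ι a)} {pr : (Te (T a)).Cell → Prop} {X : Sys s (reps (Te (T a)) s pr)}
    {Om' : Set R3} {g : R3 → ℝ≥0∞} (D : EF X Om' g (EgS (Te (T a)) s) (FcS (Te (T a)) s pr))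
    {c : ι a → Sq_55.E3} {R : ι a → ℝ≥0} {ρ : Sq_55.E3 → ℝ≥0} {m : ι a → ℝ≥0}
    (hX : SysOf (Te (T a)) s pr c R ρ m X) (hfc : ∀ b, D.fc b = w2 '' b.1.set)
    (hrE : ∀ x, D.rimE x = rimS (Te (T a)) s (x : Sq_55.E3))
    (hEe : ∀ b : EgS (Te (T a)) s, ∀ y w : R3, w2 '' b.1.set = segment ℝ y (y + w) →
      D.Ee b ≤ ENNReal.ofReal (64 * ‖w‖) * ∫⁻ σ in Ioc (0:ℝ) 1, g (y + σ • w))
    (hEf : ∀ b : FcS (Te (T a)) s pr, ∀ (e : Fin 2 → R3) (x : R3) (Q : Set (ℝ × ℝ)),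
      LinearIndependent ℝ e → MeasurableSet Q → w2 '' b.1.set = pt e x '' Q →
      D.Ef b ≤ ENNReal.ofReal (64 * (‖e 0‖ * ‖e 1‖)) * ∫⁻ w in Q, g (pt e x w))
    {nc : ℕ} (hnc : ∀ k ∈ s, {j | (P ((T a).H j) ∩ P ((T a).H k)).Nonempty}.ncard ≤ nc)
    (K : Finset s) {S : Set R3} (hS : MeasurableSet S)
    (hK : ∀ k ∈ K, ∀ i, (P ((T a).H i) ∩ P ((T a).H (k : ι a))).Nonempty →
      Cl a i ∧ P ((T a).H i) ⊆ W ∧ P ((T a).H i) ⊆ S)
    {Λ u : ℝ≥0} (hR : ∀ k ∈ K, ∀ i, (P ((T a).H i) ∩ P ((T a).H (k : ι a))).Nonempty →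
      ∀ y ∈ P ((T a).H i), (T a).dim y = 1 → ∀ e1 e2, (T a).cc y = segment ℝ e1 e2 → e1 ≠ e2 →
        (R k : ℝ) ≤ Λ * ‖e2 - e1‖)
    (hρ : ∀ k ∈ K, ∀ x ∈ reps (Te (T a)) s pr, (k : ι a) ∈ (Te (T a)).at_ x → ρ x ≤ u * R k) :
    ∑ k ∈ K, D.J k ≤ ENNReal.ofReal (64 * 2 ^ nc * (Λ * (1 + u)) ^ 2 * nc + 32 * Λ * nc) *
      ∫⁻ y in S, g y ∂muC h Cl a := by
  classical
  have hfin : ∀ k : ι a, {j | (P ((T a).H j) ∩ P ((T a).H k)).Nonempty}.Finite := fun k =>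
    (T a).finite_tiles ((T a).cpt k) ((T a).sub k)
  -- the number of squeezed 2-cells at a tile
  have hn : ∀ k ∈ K, {x : reps (Te (T a)) s pr | (k : ι a) ∈ (Te (T a)).at_ (x : Sq_55.E3)}.ncard ≤
      2 ^ nc := by
    intro k hk
    set N := {j | (P ((T a).H j) ∩ P ((T a).H (k : ι a))).Nonempty} with hN
    have hpow : (𝒫 N).ncard ≤ 2 ^ nc := by
      rw [Set.ncard_powerset N (hfin _)]
      exact Nat.pow_le_pow_right (by norm_num) (hnc _ k.2)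
    refine le_trans (Set.ncard_le_ncard_of_injOn (f := fun x : reps (Te (T a)) s pr =>
      (Te (T a)).at_ (x : Sq_55.E3)) ?_ ?_ (hfin _).finite_subsets) hpow
    · intro x hx j hj
      have h1 : w2 (x : Sq_55.E3) ∈ P ((T a).H j) := mem_P_Te.1 hj
      have h2 : w2 (x : Sq_55.E3) ∈ P ((T a).H (k : ι a)) := mem_P_Te.1 hx
      exact ⟨_, h1, h2⟩
    · intro x _ x' _ hxx
      by_contra hne
      have h1 := reps_dim x.2
      have h2 := reps_dim x'.2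
      exact reps_ne x.2 x'.2 (fun e => hne (Subtype.ext e))
        (cc_eq_of_at_eq h1.1 h2.1 hxx)
  -- an edge of a tile next to a tile of `K`
  have key := sum_J_cls (T := Te (T a)) (r := fun k : s => u * R k) (n := 2 ^ nc) (m := nc)
    (m' := nc) D hX.c_mem hX.F hX.eP hfc hrE hEe K
    (fun k hk x hx => by rw [hX.eρ x]; exact hρ k hk x x.2 hx) hn hS (a := a)
    (x := fun e : KE T0 Tr W => kx h e.1) (v := fun e => kv h e.1)
    (A := cutS (ES T0 Tr W T Cl) univ) (Λ := Λ * (1 + u)) ?_ ?_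
    (xx := fun φ : RF T0 Tr W => fx h φ.1) (e := fun φ => fe h φ.1) (Q := fun φ => fQ h φ.1)
    (wf := fun φ => ENNReal.ofReal (‖fe h φ.1 0‖ ^ 3)) (Af := cutS (FS T0 Tr W T Cl) univ)
    (Cf := ENNReal.ofReal (32 * Λ)) ?_ ?_
  · refine key.trans ?_
    have e1 : ∫⁻ y in S, g y ∂muC h Cl a = (∫⁻ y in S, g y ∂muE h Cl a) +
        ∫⁻ y in S, g y ∂muF h Cl a := by
      unfold muC
      rw [Measure.restrict_add, lintegral_add_measure]
    rw [e1]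
    set I1 := ∫⁻ y in S, g y ∂muE h Cl a
    set I2 := ∫⁻ y in S, g y ∂muF h Cl a
    change (64 * ((2 ^ nc : ℕ) : ℝ≥0∞) * (((Λ * (1 + u) : ℝ≥0) : ℝ≥0∞)) ^ 2) * (nc * I1) +
      ENNReal.ofReal (32 * Λ) * (nc * I2) ≤ _
    have e2 : (64 * ((2 ^ nc : ℕ) : ℝ≥0∞) * (((Λ * (1 + u) : ℝ≥0) : ℝ≥0∞)) ^ 2) * nc =
        ENNReal.ofReal (64 * 2 ^ nc * (Λ * (1 + u)) ^ 2 * nc) := by
      rw [show ((2 ^ nc : ℕ) : ℝ≥0∞) = ENNReal.ofReal (2 ^ nc) by
          rw [← ENNReal.ofReal_natCast]; push_cast; rfl,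
        show (64 : ℝ≥0∞) = ENNReal.ofReal 64 by norm_num,
        show (nc : ℝ≥0∞) = ENNReal.ofReal nc by rw [ENNReal.ofReal_natCast],
        show ((Λ * (1 + u) : ℝ≥0) : ℝ≥0∞) = ENNReal.ofReal ((Λ : ℝ) * (1 + u)) by
          rw [← ENNReal.ofReal_coe_nnreal]; push_cast; rfl,
        ← ENNReal.ofReal_pow (by positivity), ← ENNReal.ofReal_mul (by positivity),
        ← ENNReal.ofReal_mul (by positivity), ← ENNReal.ofReal_mul (by positivity)]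
    have e3 : ENNReal.ofReal (32 * Λ) * (nc : ℝ≥0∞) = ENNReal.ofReal (32 * Λ * nc) := by
      rw [show (nc : ℝ≥0∞) = ENNReal.ofReal nc by rw [ENNReal.ofReal_natCast],
        ← ENNReal.ofReal_mul (by positivity)]
    rw [← mul_assoc, e2, ← mul_assoc, e3, mul_add (ENNReal.ofReal _) I1 I2]
    refine add_le_add (mul_le_mul' (ENNReal.ofReal_le_ofReal ?_) le_rfl)
      (mul_le_mul' (ENNReal.ofReal_le_ofReal ?_) le_rfl)
    · have : (0:ℝ) ≤ 32 * Λ * nc := by positivity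
      linarith
    · have : (0:ℝ) ≤ 64 * 2 ^ nc * (Λ * (1 + u)) ^ 2 * nc := by positivity
      linarith
  · -- edges
    rintro b ⟨k, hk, hkb⟩
    obtain ⟨h1, h2, h3⟩ := image_set (T a) b.1
    have h4 : (T a).cc (P3 b.1.pt) ⊆ P ((T a).H (k : ι a)) := Efi_296.image_sub (T a) hkb
    obtain ⟨q1, q2, q3⟩ := hK k hk k ⟨_, h4 ((T a).self_mem_cc _), h4 ((T a).self_mem_cc _)⟩
    obtain ⟨e, he, hseg⟩ := exists_edge h ha q1 q2 h2 (by rw [h3]; exact b.2.1) h4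
    refine ⟨e, kv_ne h e.1, by rw [h1, hseg, seg_eq_segment], ?_, ?_⟩
    · rw [h1]
      exact fun y hy => ⟨⟨mem_univ _, he⟩, q3 (h4 hy)⟩
    · intro k' hk' hkb'
      have h5 : (T a).cc (P3 b.1.pt) ⊆ P ((T a).H (k' : ι a)) := Efi_296.image_sub (T a) hkb'
      have h6 := hR k' hk' k' ⟨_, h5 ((T a).self_mem_cc _), h5 ((T a).self_mem_cc _)⟩
        (P3 b.1.pt) (h5 ((T a).self_mem_cc _)) (by rw [h3]; exact b.2.1) _ _ hseg
        (fun h8 => kv_ne h e.1 (add_eq_left.1 h8.symm))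
      rw [add_sub_cancel_left] at h6
      have hu : (0:ℝ) ≤ u := u.coe_nonneg
      have hΛ : (0:ℝ) ≤ Λ := Λ.coe_nonneg
      have hv := norm_nonneg (kv h e.1)
      rw [hX.eR]
      push_cast
      have h7 : (0:ℝ) ≤ Λ * ‖kv h e.1‖ * u := by positivity
      constructor
      · nlinarith
      · nlinarith [mul_le_mul_of_nonneg_left h6 hu, mul_nonneg hΛ hv]
  · -- tiles at an edge
    intro b K' hK' hb
    rcases K'.eq_empty_or_nonempty with rfl | ⟨k1, hk1⟩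
    · simp
    have hpt : ∀ k ∈ K', P3 b.1.pt ∈ P ((T a).H (k : ι a)) := fun k hk =>
      Efi_296.image_sub (T a) (hb k hk) ((T a).self_mem_cc _)
    refine le_trans ?_ (hnc k1 k1.2)
    rw [← Set.ncard_coe_finset, ← Set.ncard_image_of_injective _ Subtype.val_injective]
    refine Set.ncard_le_ncard ?_ (hfin _)
    rintro _ ⟨k, hk, rfl⟩
    exact ⟨_, hpt k hk, hpt k1 hk1⟩
  · -- faces
    rintro b ⟨k, hk, hkb⟩
    obtain ⟨h1, h2, h3⟩ := image_set (T a) b.1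
    obtain ⟨⟨hd2, k2, hk2, hsub⟩, -⟩ := b.2
    have h4 : (T a).cc (P3 b.1.pt) ⊆ P ((T a).H k2) := Efi_296.image_sub (T a) hsub
    have hd : (T a).dim (P3 b.1.pt) = 2 := by rw [h3]; exact hd2
    have touch : ∀ k' : s, FcT (Te (T a)) s pr k' b →
        (P ((T a).H k2) ∩ P ((T a).H (k' : ι a))).Nonempty := by
      rintro k' ⟨z, hz1, hz2⟩
      refine ⟨w2 z, h4 ?_, mem_P_Te.1 hz2⟩
      rw [← h1]
      exact mem_image_of_mem _ hz1
    obtain ⟨q1, q2, q3⟩ := hK k hk k2 (touch k hkb)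
    obtain ⟨φ, hφ, hface⟩ := exists_face h ha q1 q2 h2 hd h4
    have hmq : MeasurableSet (fQ h φ.1) := ((fspec h).2.2.2.1 φ.1).isClosed.measurableSet
    refine ⟨φ, (fspec h).1 φ.1, hmq, h1.trans hface, ?_, ?_⟩
    · rw [h1]
      exact fun y hy => ⟨⟨mem_univ _, hφ⟩, q3 (h4 hy)⟩
    · intro k' hk' hkb'
      -- the size of the face
      obtain ⟨e, he, he1, hes⟩ := exists_one h2 (by rw [hd]; norm_num)
      have heO : e ∈ Om := (T a).cc_sub_Om h2 he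
      obtain ⟨e1, e2, hseg, hne⟩ := cell_seg h ha q2 heO he1 (hes.trans h4)
      have h6 := hR k' hk' k2 (touch k' hkb') e (h4 (hes ((T a).self_mem_cc e))) he1 _ _ hseg hne
      have h7 : diam φ.1.1.set = diam ((T a).cc (P3 b.1.pt)) := by
        rw [hface, ← f_image h a φ.1]
        exact ((isometry_add_left a).diam_image _).symm
      have h8 : ‖e2 - e1‖ ≤ diam φ.1.1.set := by
        rw [h7, ← dist_eq_norm, dist_comm]
        refine dist_le_diam_of_mem ?_ (hes ?_) (hes ?_)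
        · rw [hface]
          exact (((fspec h).2.2.2.1 φ.1).image (Fce_793.continuous_pt _ _)).isBounded
        · rw [hseg]; exact left_mem_segment ℝ _ _
        · rw [hseg]; exact right_mem_segment ℝ _ _
      have h9 : ∀ i, ‖fe h φ.1 i‖ = 2 * diam φ.1.1.set := (fspec h).2.1 φ.1
      have hΛ : (0:ℝ) ≤ Λ := Λ.coe_nonneg
      have hRk : (R k' : ℝ) ≤ Λ / 2 * ‖fe h φ.1 0‖ := by
        rw [h9 0]
        calc (R k' : ℝ) ≤ Λ * ‖e2 - e1‖ := h6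
          _ ≤ Λ * diam φ.1.1.set := by gcongr
          _ = Λ / 2 * (2 * diam φ.1.1.set) := by ring
      rw [hX.eR]
      refine (mul_le_mul' le_rfl (hEf b _ _ _ ((fspec h).1 φ.1) hmq (h1.trans hface))).trans ?_
      set I2 := ∫⁻ w in fQ h φ.1, g (pt (fe h φ.1) (a + fx h φ.1) w)
      rw [← mul_assoc (ENNReal.ofReal (R k')), ← mul_assoc (ENNReal.ofReal (32 * Λ)),
        ← ENNReal.ofReal_mul (NNReal.coe_nonneg _), ← ENNReal.ofReal_mul (by positivity)]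
      refine mul_le_mul' (ENNReal.ofReal_le_ofReal ?_) le_rfl
      have h10 : ‖fe h φ.1 1‖ = ‖fe h φ.1 0‖ := by rw [h9, h9]
      rw [h10]
      set l := ‖fe h φ.1 0‖ with hl
      have hl0 : 0 ≤ l := norm_nonneg _
      calc (R k' : ℝ) * (64 * (l * l)) ≤ (Λ / 2 * l) * (64 * (l * l)) := by gcongr
        _ = 32 * Λ * l ^ 3 := by ring
  · -- tiles at a face
    intro b K' hK' hb
    obtain ⟨⟨hd2, k2, hk2, hsub⟩, -⟩ := b.2
    have h4 : (T a).cc (P3 b.1.pt) ⊆ P ((T a).H k2) := Efi_296.image_sub (T a) hsub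
    refine le_trans ?_ (hnc k2 hk2)
    rw [← Set.ncard_coe_finset, ← Set.ncard_image_of_injective _ Subtype.val_injective]
    refine Set.ncard_le_ncard ?_ (hfin _)
    rintro _ ⟨k, hk, rfl⟩
    obtain ⟨z, hz1, hz2⟩ := hb k hk
    refine ⟨w2 z, mem_P_Te.1 hz2, h4 ?_⟩
    rw [← (image_set (T a) b.1).1]
    exact mem_image_of_mem _ hz1

end rig

end

end Crest.Agent.R096.Rmt_816
end

-- ▼ part R096/Rmt6_816
section

/-!
Row 96 (S0127), helper816.  (EL), part 6: the class statements `Cls2` (tiles near the walls) and `Cls3`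
(tiles inside the blocks) of 538's Eld1.
-/

set_option autoImplicit false
set_option linter.unusedSectionVars false
set_option linter.style.longLine false

open MeasureTheory Set Filter Metric
open scoped ENNReal NNReal Topology

namespace Crest.Agent.R096.Rmt_816

open Crest.AnalysisR.VecCalc3
open Crest.Agent.R96.Coarse_538
open Crest.Agent.R96.Intr_538
open Crest.Agent.R096.Msh_715 (Tiling P I)
open Crest.Agent.R096.Mal_874 (MD CB RD RP reOm)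
open Crest.Agent.R096.Mf_113 (Rig CK)
open Crest.Agent.R096.Ca_855
open Crest.Agent.R096.Br_695 (En)
open Crest.Agent.R096.Efi_296
open Crest.Agent.R096.Cbs_296
open Crest.Agent.R096.Cob_622 (EF)
open Crest.Agent.R096.Sq_55 (Sys w2)
open Crest.Agent.R096.Gsc_476 (sclT sclT_nbr diam_inT diam_outT shp_scl Bk_eq)
open Crest.Agent.R96.Eld_538 (AdE Cls2 Cls3)

noncomputable section

/-! ### sizes -/

/-- **the lengths of the edges of the tiles** -/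
theorem len_T {κ : ℝ} (hκ : 0 < κ) (hκ1 : κ ≤ 1) (Bs Nn : ℕ) : ∃ μ : ℝ, 0 < μ ∧
    ∀ {Om W : Set R3} {ρ₀ : R3 → ℝ} {J : Type} [Finite J] {Qb : J → CB R3 3} {k0 : ℕ} {σ : ℝ}
      (h : MIn Om W ρ₀ Qb k0 σ), (∀ j, MIn.BQ κ Bs Nn (Qb j) k0) → ∀ (a : R3) (t : h.ιT a),
      ∀ x ∈ P ((h.T a).H t), ∀ e1 e2, (h.T a).cc x = segment ℝ e1 e2 → e1 ≠ e2 →
        μ / 2 ^ sclT h a t ≤ ‖e2 - e1‖ := by
  obtain ⟨𝓕, μ, L1, L2, -, hμ, hL1, hL2, H⟩ := shp_scl.{0} (n := 3) R3 (MIn.Ps_finite Nn)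
    (4 * κ⁻¹) (max 1 (Bs:ℝ)) (4 * κ⁻¹) (B0 := max 1 Bs)
  refine ⟨μ / L1 / 2, by positivity, ?_⟩
  intro Om W ρ₀ J _ Qb k0 σ h hb a t x hx e1 e2 he hne
  have hF := h.fb hκ hκ1 hb
  obtain ⟨κ', ψ, a', z, -, ⟨hk1, hk2⟩, -, h3, -, -⟩ := H h.M h.sc (0 + h.M.φ (h.cl a)) (h.adm a)
    (h.X hκ hκ1 hb) (h.rp hκ hκ1 hb a) (h.X_Ps hκ hκ1 hb) (fun _ => le_rfl) (fun _ => le_rfl)
    (fun _ => le_rfl) hF.φ1 hF.φ2 t
  have h4 := (h3 x hx e1 e2 ((h.T_cc a x).symm.trans he) hne).2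
  refine le_trans ?_ h4
  have hp : (0:ℝ) < 2 ^ κ' := by positivity
  have h5 : (2:ℝ) ^ κ' ≤ 2 * 2 ^ sclT h a t := by
    rw [mul_comm, ← pow_succ]
    exact pow_le_pow_right₀ (by norm_num) hk2
  calc μ / L1 / 2 / 2 ^ sclT h a t = μ / L1 / (2 * 2 ^ sclT h a t) := by rw [div_div]
    _ ≤ μ / L1 / 2 ^ κ' := div_le_div_of_nonneg_left (by positivity) hp h5

/-- **the diameters of the tiles** -/
theorem diam_T {Om W : Set R3} {ρ₀ : R3 → ℝ} {J : Type} [Finite J] {Qb : J → CB R3 3} {k0 : ℕ}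
    {σ : ℝ} (h : MIn Om W ρ₀ Qb k0 σ) {κ : ℝ} (hκ : 0 < κ) (hκ1 : κ ≤ 1) {Bs Nn : ℕ}
    (hb : ∀ j, MIn.BQ κ Bs Nn (Qb j) k0) {a : R3} (ha : ‖a‖ ≤ σ / 8) {t : h.ιT a} {x y : R3}
    (hx : x ∈ P ((h.T a).H t)) (hy : y ∈ P ((h.T a).H t)) :
    ‖x - y‖ ≤ 4 * κ⁻¹ * max 1 (Bs:ℝ) / 2 ^ sclT h a t := by
  have hκ' : 1 ≤ κ⁻¹ := (one_le_inv₀ hκ).2 hκ1
  have hm : (1:ℝ) ≤ max 1 (Bs:ℝ) := le_max_left _ _
  have hp : (0:ℝ) < 2 ^ sclT h a t := by positivity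
  by_cases hN : ∃ j, P ((h.T a).H t) ⊆ ((Qb j).tr a).N
  · obtain ⟨j, hj⟩ := hN
    have h1 := diam_inT h ha (hb j) hj hx hy
    have h2 := (hb j).ψ2 hκ (x - y)
    rw [map_sub] at h2
    calc ‖x - y‖ ≤ 4 * κ⁻¹ * ‖(Qb j).ψ x - (Qb j).ψ y‖ := h2
      _ ≤ 4 * κ⁻¹ * (max 1 (Bs:ℝ) / 2 ^ sclT h a t) := by gcongr
      _ = 4 * κ⁻¹ * max 1 (Bs:ℝ) / 2 ^ sclT h a t := by ring
  · push Not at hN
    refine (diam_outT h ha hN hx hy).trans ?_
    rw [div_le_div_iff_of_pos_right hp]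
    nlinarith

/-- **the diameter of a tile against the edges of its neighbours** -/
theorem size_T {κ : ℝ} (hκ : 0 < κ) (hκ1 : κ ≤ 1) (Bs Nn : ℕ) : ∃ CL : ℝ, 0 < CL ∧
    ∀ {Om W : Set R3} {ρ₀ : R3 → ℝ} {J : Type} [Finite J] {Qb : J → CB R3 3} {k0 : ℕ} {σ : ℝ}
      (h : MIn Om W ρ₀ Qb k0 σ), (∀ j, MIn.BQ κ Bs Nn (Qb j) k0) → ∀ {a : R3}, ‖a‖ ≤ σ / 8 →
      ∀ (k i : h.ιT a), (P ((h.T a).H i) ∩ P ((h.T a).H k)).Nonempty →
      ∀ y ∈ P ((h.T a).H k), ∀ y' ∈ P ((h.T a).H k), ∀ x ∈ P ((h.T a).H i), ∀ e1 e2,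
        (h.T a).cc x = segment ℝ e1 e2 → e1 ≠ e2 → ‖y - y'‖ ≤ CL * ‖e2 - e1‖ := by
  obtain ⟨μ, hμ, H⟩ := len_T hκ hκ1 Bs Nn
  have hκ' : 1 ≤ κ⁻¹ := (one_le_inv₀ hκ).2 hκ1
  have hm : (1:ℝ) ≤ max 1 (Bs:ℝ) := le_max_left _ _
  refine ⟨4 * κ⁻¹ * max 1 (Bs:ℝ) * (2 / μ), by positivity, ?_⟩
  intro Om W ρ₀ J _ Qb k0 σ h hb a ha k i hki y hy y' hy' x hx e1 e2 he hne
  have h1 := diam_T h hκ hκ1 hb ha hy hy'
  have h2 := H h hb a i x hx e1 e2 he hne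
  have h3 : sclT h a i ≤ sclT h a k + 1 := sclT_nbr h (by rwa [inter_comm])
  have hpk : (0:ℝ) < 2 ^ sclT h a k := by positivity
  have hpi : (0:ℝ) < 2 ^ sclT h a i := by positivity
  have h5 : (2:ℝ) ^ sclT h a i ≤ 2 * 2 ^ sclT h a k := by
    rw [mul_comm, ← pow_succ]
    exact pow_le_pow_right₀ (by norm_num) h3
  have h6 : 1 / 2 ^ sclT h a k ≤ 2 / μ * ‖e2 - e1‖ := by
    have h7 : μ ≤ ‖e2 - e1‖ * 2 ^ sclT h a i := (div_le_iff₀ hpi).1 h2
    have h8 : μ ≤ ‖e2 - e1‖ * (2 * 2 ^ sclT h a k) :=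
      h7.trans (mul_le_mul_of_nonneg_left h5 (norm_nonneg _))
    rw [div_le_iff₀ hpk, div_mul_eq_mul_div, div_mul_eq_mul_div, le_div_iff₀ hμ]
    linarith
  calc ‖y - y'‖ ≤ 4 * κ⁻¹ * max 1 (Bs:ℝ) / 2 ^ sclT h a k := h1
    _ = 4 * κ⁻¹ * max 1 (Bs:ℝ) * (1 / 2 ^ sclT h a k) := by ring
    _ ≤ 4 * κ⁻¹ * max 1 (Bs:ℝ) * (2 / μ * ‖e2 - e1‖) := by gcongr
    _ = 4 * κ⁻¹ * max 1 (Bs:ℝ) * (2 / μ) * ‖e2 - e1‖ := by ring

/-! ### the sum over a class -/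

variable {Om W : Set R3} {ρ₀ : R3 → ℝ} {J : Type} [Finite J] {Qb : J → CB R3 3} {k0 : ℕ} {σ : ℝ}

/-- the rigid family on the small cube of positions -/
theorem hr (h : MIn Om W ρ₀ Qb k0 σ) : Rig h.T0 h.T (Dt (1 / 2 ^ k0)) (Wp W σ) :=
  rigP h fun a ha => (norm_D0 h a ha).le

/-- **the sum of `J` over a set of tiles whose neighbours are in the class** -/
theorem cls_sum (h : MIn Om W ρ₀ Qb k0 σ) {nc : ℕ} {CL : ℝ} (hCL : 0 < CL) {a : R3}
    (ha : a ∈ Dt (1 / 2 ^ k0))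
    (hnc : ∀ t, {j | (P ((h.T a).H j) ∩ P ((h.T a).H t)).Nonempty}.ncard ≤ nc)
    (hsize : ∀ (k i : h.ιT a), (P ((h.T a).H i) ∩ P ((h.T a).H k)).Nonempty →
      ∀ y ∈ P ((h.T a).H k), ∀ y' ∈ P ((h.T a).H k), ∀ x ∈ P ((h.T a).H i), ∀ e1 e2,
        (h.T a).cc x = segment ℝ e1 e2 → e1 ≠ e2 → ‖y - y'‖ ≤ CL * ‖e2 - e1‖)
    {Cl : ∀ a, h.ιT a → Prop} {p : ℝ} {G : Fin 3 → R3 → R3} {mU mN : ℝ≥0}
    {s : Finset (h.ιT a)} {pr : (Te (h.T a)).Cell → Prop} {c : h.ιT a → Sq_55.E3}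
    {R : h.ιT a → ℝ≥0} {ρ : Sq_55.E3 → ℝ≥0} {m : h.ιT a → ℝ≥0}
    {X : Sys s (reps (Te (h.T a)) s pr)}
    {D : EF X Om (En p G) (EgS (Te (h.T a)) s) (FcS (Te (h.T a)) s pr)}
    (H : AdE p h G mU mN a s pr c R ρ m X D) (K : Finset s) {S : Set R3} (hS : MeasurableSet S)
    (hK : ∀ k ∈ K, ∀ i, (P ((h.T a).H (k : h.ιT a)) ∩ P ((h.T a).H i)).Nonempty →
      Cl a i ∧ P ((h.T a).H i) ⊆ Wp W σ ∧ P ((h.T a).H i) ⊆ S) :
    ∑ k ∈ K, D.J k ≤ ENNReal.ofReal (64 * 2 ^ nc * (mN * CL * (1 + mN)) ^ 2 * nc +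
      32 * (mN * CL) * nc) * ∫⁻ y in S, En p G y ∂muC (hr h) Cl a := by
  have key := sum_cls (hr h) ha (Cl := Cl) D H.sys H.fc H.rim H.Ee
    (fun b e x Q he hQ hb => H.Ef_li b he x hQ hb) (nc := nc) (fun k _ => hnc k) K hS
    (fun k hk i hi => hK k hk i (by rwa [inter_comm])) (Λ := mN * CL.toNNReal) (u := mN) ?_ ?_
  · rw [NNReal.coe_mul, Real.coe_toNNReal _ hCL.le] at key
    exact key
  · intro k hk i hi y hy _ e1 e2 he hne
    obtain ⟨z, hz, z', hz', h1⟩ := H.Rd k k.2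
    have h2 := hsize k i hi z hz z' hz' y hy e1 e2 he hne
    calc (R k : ℝ) ≤ mN * ‖z - z'‖ := h1
      _ ≤ mN * (CL * ‖e2 - e1‖) := by gcongr
      _ = ((mN * CL.toNNReal : ℝ≥0) : ℝ) * ‖e2 - e1‖ := by
          rw [NNReal.coe_mul, Real.coe_toNNReal _ hCL.le]; ring
  · intro k hk x hx hkx
    exact (H.ρle x hx k k.2 hkx).trans (mul_le_mul_left (H.mle k k.2) _)

/-- the neighbours of a tile near the walls are near the walls -/
theorem nb2 (h : MIn Om W ρ₀ Qb k0 σ) {κ : ℝ} (hκ : 0 < κ) (hκ1 : κ ≤ 1) {Bs Nn : ℕ}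
    (hb : ∀ j, MIn.BQ κ Bs Nn (Qb j) k0) {r : ℝ} (hr : 7 ≤ r)
    (hsm : 4 * κ⁻¹ * (r / 2 ^ k0) < σ / 8) {a : R3} {k i : h.ιT a} (hk : Cl2 h r a k)
    (hki : (P ((h.T a).H k) ∩ P ((h.T a).H i)).Nonempty) :
    Cl2 h (r + 16 * κ⁻¹ ^ 2 * max 1 (Bs:ℝ) * r) a i := by
  have hd := diam2 h hκ hκ1 hb hr hsm hk
  obtain ⟨j, y, hy, hyW⟩ := hk
  obtain ⟨x, hxk, hxi⟩ := hki
  refine ⟨j, x, hxi, ?_⟩
  have hκ' : 0 < κ⁻¹ := inv_pos.2 hκ
  have h1 := infDist_le_infDist_add_dist (s := (Bj h a j).W) (x := (Qb j).ψ x) (y := (Qb j).ψ y)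
  have h2 : dist ((Qb j).ψ x) ((Qb j).ψ y) ≤
      4 * κ⁻¹ * (4 * κ⁻¹ * max 1 (Bs:ℝ) * (r / 2 ^ k0)) := by
    rw [dist_eq_norm, ← map_sub]
    exact (((hb j).cnd _).2).trans (mul_le_mul_of_nonneg_left (hd x hxk y hy) (by positivity))
  calc infDist ((Qb j).ψ x) (Bj h a j).W
      ≤ r / 2 ^ k0 + 4 * κ⁻¹ * (4 * κ⁻¹ * max 1 (Bs:ℝ) * (r / 2 ^ k0)) := by linarith
    _ = (r + 16 * κ⁻¹ ^ 2 * max 1 (Bs:ℝ) * r) / 2 ^ k0 := by ring

set_option maxHeartbeats 1600000 in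
/-- **CLASS STATEMENT (2)** -/
theorem cls2 : Cls2 := by
  intro κ r mN Bs Nn hκ hκ1 hr7
  obtain ⟨D, hD, nc, h1, h2⟩ := exists_tile hκ hκ1 Bs
  obtain ⟨β, hβ, ρ, hρ, h2⟩ := h2 Nn
  obtain ⟨CL, hCL, hsize⟩ := size_T hκ hκ1 Bs Nn
  have hκ' : 1 ≤ κ⁻¹ := (one_le_inv₀ hκ).2 hκ1
  have hm1 : (1:ℝ) ≤ max 1 (Bs:ℝ) := le_max_left _ _
  set r' : ℝ := r + 16 * κ⁻¹ ^ 2 * max 1 (Bs:ℝ) * r with hr'
  have hrr : r ≤ r' := le_add_of_nonneg_right (by positivity)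
  have hr7' : 7 ≤ r' := hr7.trans hrr
  set cc : ℝ := 4 * κ⁻¹ * max 1 (Bs:ℝ) * r' with hcc
  have hcc0 : 0 < cc := by positivity
  have hmN : (0:ℝ) ≤ mN := mN.coe_nonneg
  refine ⟨64 * 2 ^ nc * (mN * CL * (1 + mN)) ^ 2 * nc + 32 * (mN * CL) * nc + 1,
    9 * (D / ρ) ^ 3 * 2 ^ nc * (1 + 2 * cc) ^ 3, 9 * (D / ρ) ^ 3 * 2 ^ nc * (1 + cc) ^ 3,
    1 / (64 * cc), by positivity, by positivity, by positivity, by positivity, ?_⟩
  intro Om W ρ₀ J _ Qb k0 σ h hb hθ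
  have hσ := h.σ0
  have h48 := h.h48'
  have hp0 : (0:ℝ) < 1 / 2 ^ k0 := by positivity
  have hcs : cc * (1 / 2 ^ k0) ≤ σ / 64 := by
    calc cc * (1 / 2 ^ k0) ≤ cc * (1 / (64 * cc) * σ) := by gcongr
      _ = σ / 64 := by field_simp
  have hsm' : 8 * κ⁻¹ * max 1 (Bs:ℝ) * (r' / 2 ^ k0) < σ / 16 := by
    have e : 8 * κ⁻¹ * max 1 (Bs:ℝ) * (r' / 2 ^ k0) = 2 * (cc * (1 / 2 ^ k0)) := by
      rw [hcc]; ring
    rw [e]
    linarith
  have hsm4 : ∀ {q : ℝ}, 0 ≤ q → q ≤ r' → 4 * κ⁻¹ * (q / 2 ^ k0) < σ / 8 := by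
    intro q hq0 hq
    have e : 4 * κ⁻¹ * (q / 2 ^ k0) ≤ cc * (1 / 2 ^ k0) := by
      rw [hcc]
      calc 4 * κ⁻¹ * (q / 2 ^ k0) = 4 * κ⁻¹ * 1 * q * (1 / 2 ^ k0) := by ring
        _ ≤ 4 * κ⁻¹ * max 1 (Bs:ℝ) * r' * (1 / 2 ^ k0) := by gcongr
    linarith
  have hna : ∀ a ∈ Dt (1 / 2 ^ k0), ‖a‖ ≤ σ / 16 := by
    intro a ha
    have := norm_Dt hp0.le ha
    linarith
  have hW : ∀ a ∈ Dt (1 / 2 ^ k0), ∀ i, Cl2 h r' a i → P ((h.T a).H i) ⊆ Wp W σ :=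
    fun a ha i hi => cl2_sub h hκ hκ1 hb hr7' hsm' (hna a ha) hi
  have hf : ∀ a ∈ Dt (1 / 2 ^ k0), ∀ i, Cl2 h r' a i →
      FatT (h.T a) i (D / ρ) (cc * (1 / 2 ^ k0)) nc := by
    intro a ha i hi
    obtain ⟨κ', -, hTG⟩ := h2 h hb a i
    refine fat_of h hTG hρ fun y hy y' hy' => ?_
    refine (diam2 h hκ hκ1 hb hr7' (hsm4 (by linarith) le_rfl) hi y hy y' hy').trans
      (le_of_eq ?_)
    rw [hcc]; ring
  refine ⟨muC (hr h) (Cl2 h r'), ?_, ?_, ?_⟩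
  · exact rmC (hr h) (by positivity) hW hf (meas_Dt _) (by positivity)
      (thick_Dt' hp0 hcc0.le)
  · intro a ha z s' hs'
    exact celC' (hr h) (by positivity) hW hf (hp0.trans_le hs') (by positivity) hcc0.le
      (by gcongr) a z
  · intro p G mU a ha s pr c R ρ1 m X D1 H K hK S hS hKS
    have hsize' := fun k i => hsize h hb (norm_D0 h a ha).le k i
    refine (cls_sum h hCL ha (fun t => ((h1 h hb a).1 t).1) hsize' (Cl := Cl2 h r') H K hS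
      fun k hk i hi => ?_).trans (mul_le_mul' (ENNReal.ofReal_le_ofReal (by linarith)) le_rfl)
    have h3 : Cl2 h r' a i := nb2 h hκ hκ1 hb hr7 (hsm4 (by linarith) hrr) (hK k hk) hi
    exact ⟨h3, hW a ha i h3, hKS k hk i hi⟩

set_option maxHeartbeats 1600000 in
/-- **CLASS STATEMENT (3)** -/
theorem cls3 : Cls3 := by
  intro κ Mr hh mN Bs Nn hκ hκ1 hMr hhh
  obtain ⟨D, hD, nc, h1, h2⟩ := exists_tile hκ hκ1 Bs
  obtain ⟨β, hβ, ρ, hρ, h2⟩ := h2 Nn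
  obtain ⟨CL, hCL, hsize⟩ := size_T hκ hκ1 Bs Nn
  have hmN : (0:ℝ) ≤ mN := mN.coe_nonneg
  refine ⟨64 * 2 ^ nc * (mN * CL * (1 + mN)) ^ 2 * nc + 32 * (mN * CL) * nc + 1,
    9 * (D / ρ) ^ 3 * 2 ^ nc * (1 + 2 * (D * Mr)) ^ 3, 9 * (D / ρ) ^ 3 * 2 ^ nc * (1 + D * hh) ^ 3,
    by positivity, by positivity, by positivity, ?_⟩
  intro Om W ρ₀ J _ Qb k0 σ h hb hMk
  have hp0 : (0:ℝ) < 1 / 2 ^ k0 := by positivity
  have hW : ∀ a ∈ Dt (1 / 2 ^ k0), ∀ i, Cl3 h a i → P ((h.T a).H i) ⊆ Wp W σ :=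
    fun a ha i hi => cl3_sub h (norm_D0 h a ha) hi
  have hf : ∀ {t : ℝ}, (∀ j, D * (1 / 2 ^ (Qb j).kc) ≤ t) → ∀ a ∈ Dt (1 / 2 ^ k0),
      ∀ i, Cl3 h a i → FatT (h.T a) i (D / ρ) t nc := by
    intro t ht a ha i hi
    obtain ⟨κ', -, hTG⟩ := h2 h hb a i
    refine fat_of h hTG hρ fun y hy y' hy' => ?_
    obtain ⟨j, hj⟩ := hi
    refine ((h1 h hb a).2 j i ⟨y, hy, hj hy⟩ y hy y' hy').trans ?_
    refine le_trans (le_of_eq ?_) (ht j)
    ring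
  refine ⟨muC (hr h) (Cl3 h), ?_, ?_, ?_⟩
  · refine rmC (hr h) (by positivity) hW (hf (t := D * Mr * (1 / 2 ^ k0)) fun j => ?_)
      (meas_Dt _) (by positivity) (thick_Dt' hp0 (by positivity))
    rw [mul_assoc]
    exact mul_le_mul_of_nonneg_left (hMk j) hD.le
  · intro a ha z s' hs0 hs' hk
    refine celC' (hr h) (by positivity) hW (hf (t := D * hh * s') fun j => ?_) hs0 (by positivity)
      (by positivity) le_rfl a z
    rw [mul_assoc]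
    exact mul_le_mul_of_nonneg_left (hk j) hD.le
  · intro p G mU a ha s pr c R ρ1 m X D1 H K hK S hS hKS
    have hsize' := fun k i => hsize h hb (norm_D0 h a ha).le k i
    refine (cls_sum h hCL ha (fun t => ((h1 h hb a).1 t).1) hsize' (Cl := Cl3 h) H K hS
      fun k hk i hi => ?_).trans (mul_le_mul' (ENNReal.ofReal_le_ofReal (by linarith)) le_rfl)
    have h3 : Cl3 h a i := (hK k hk).2 i hi
    exact ⟨h3, hW a ha i h3, hKS k hk i hi⟩

end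

end Crest.Agent.R096.Rmt_816
end

-- ▼ part R096/Elf1_565
section

set_option autoImplicit false
set_option linter.unusedSectionVars false

open Set

namespace Crest.Agent.R096.Elf_565

open Crest.Agent.R096.Msh_715 Crest.Agent.R096.Msh_810
open Crest.Agent.R096.Eog_922 (mem_V_tiling)

noncomputable section

variable {E : Type*} [NormedAddCommGroup E] [NormedSpace ℝ E] {n : ℕ}
  {φ : E ≃L[ℝ] (Fin n → ℝ)} {D : Dat n}

/-- the dimension of the cell at `x` is the number of the free coordinates -/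
theorem dim_eq_card [FiniteDimensional ℝ E] {x : E} (hx : φ x ∈ D.Om) :
    (tiling φ D).dim x = (Cel.of (φ x) hx).1.J.card := by
  classical
  set T := tiling φ D with hT
  set J := (Cel.of (φ x) hx).1.J with hJ
  set W : Submodule ℝ (Fin n → ℝ) :=
    ⨅ i ∈ ((↑J : Set (Fin n))ᶜ), LinearMap.ker (LinearMap.proj i : (Fin n → ℝ) →ₗ[ℝ] ℝ) with hW
  have h1 : T.V x = W.comap (φ : E →L[ℝ] (Fin n → ℝ)).toLinearMap := by
    ext v
    rw [hT, mem_V_tiling hx, Submodule.mem_comap, hW]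
    simp only [Submodule.mem_iInf, LinearMap.mem_ker, LinearMap.proj_apply, mem_compl_iff,
      Finset.mem_coe]
    rfl
  have e1 : W ≃ₗ[ℝ] ((↑J : Set (Fin n)) → ℝ) :=
    LinearMap.iInfKerProjEquiv ℝ (fun _ : Fin n => ℝ) (I := (↑J : Set (Fin n)))
      (J := ((↑J : Set (Fin n))ᶜ)) disjoint_compl_right (by rw [union_compl_self])
  have h2 : Module.finrank ℝ W = J.card := by
    rw [e1.finrank_eq, Module.finrank_fintype_fun_eq_card]
    simp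
  unfold Tiling.dim
  rw [h1, ← h2]
  have e2 : (W.comap (φ : E →L[ℝ] (Fin n → ℝ)).toLinearMap) ≃ₗ[ℝ] W :=
    (φ.toLinearEquiv.submoduleMap _).trans (LinearEquiv.ofEq _ _ (by
      ext y
      constructor
      · rintro ⟨z, hz, rfl⟩
        exact hz
      · intro hy
        exact ⟨φ.symm y, by simpa using hy, φ.apply_symm_apply y⟩))
  exact e2.finrank_eq

/-- **the 2-cells of the graded cubes inside a tile** (`n = 3`): the position is `σ`, with free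
coordinates `{l}ᶜ`, scale `k` or `k + 1` -/
theorem face_tiling [FiniteDimensional ℝ E] {φ : E ≃L[ℝ] (Fin 3 → ℝ)} {D : Dat 3} (τ : Top D) {x : E}
    (hx : x ∈ P ((tiling φ D).H τ)) (hd : (tiling φ D).dim x = 2) :
    ∃ (κ : ℕ) (z : Fin 3 → ℤ) (l : Fin 3), (κ = τ.1.1.k ∨ κ = τ.1.1.k + 1) ∧
      (tiling φ D).cc x = φ ⁻¹' (Dc D.a ⟨κ, z, {l}ᶜ⟩) ∧
      (tiling φ D).cc x ⊆ P ((tiling φ D).H τ) := by
  classical
  set T := tiling φ D with hT
  have hxO : φ x ∈ D.Om := T.sub τ hx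
  set σ := (Cel.of (φ x) hxO).1 with hσ
  have hcard : σ.J.card = 2 := by rw [← hd]; exact (dim_eq_card hxO).symm
  have hc1 : (σ.J)ᶜ.card = 1 := by
    rw [Finset.card_compl, hcard, Fintype.card_fin]
  obtain ⟨l, hl⟩ := Finset.card_eq_one.1 hc1
  have hJ : σ.J = {l}ᶜ := by rw [← hl, compl_compl]
  have hxτ : φ x ∈ τ.1.c := mem_at.1 hx
  have hk1 : τ.1.1.k ≤ σ.k := τ.1.2.le_K hxτ
  have hk2 : σ.k ≤ τ.1.1.k + 1 := τ.1.2.K_le hxτ
  refine ⟨σ.k, σ.z, l, by omega, ?_, fun y hy => T.at_sub_of_mem_cc hy hx⟩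
  rw [hT, cc_eq hxO]
  show φ ⁻¹' (Dc D.a σ) = _
  congr 2
  ext1
  · rfl
  · rfl
  · exact hJ

open Crest.AnalysisR.VecCalc3 (R3)
open Crest.Agent.R096.Fce_793 (pt)
open Crest.Agent.R96.Coarse_538 (ed ihom)

/-- the frame of the face with normal direction `l` -/
def fr (l : Fin 3) : Fin 2 → R3 := ![ed (l + 1), ed (l + 2)]

theorem ed_apply (i j : Fin 3) : (ed i : R3) j = if j = i then 1 else 0 := by
  unfold ed
  rw [PiLp.single_apply]

theorem third (l j : Fin 3) (h : j ≠ l) : j = l + 1 ∨ j = l + 2 := by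
  revert l j; decide

theorem ne1 (l : Fin 3) : l ≠ l + 1 := by revert l; decide
theorem ne2 (l : Fin 3) : l ≠ l + 2 := by revert l; decide
theorem ne12 (l : Fin 3) : l + 1 ≠ l + 2 := by revert l; decide

/-- the coordinates of the points of the square -/
theorem pt_apply (l : Fin 3) (c : R3) (u : ℝ × ℝ) (j : Fin 3) :
    pt (fr l) c u j = c j + (if j = l + 1 then u.1 else 0) + (if j = l + 2 then u.2 else 0) := by
  unfold pt fr
  simp only [Matrix.cons_val_zero, Matrix.cons_val_one, PiLp.add_apply, PiLp.smul_apply, smul_eq_mul,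
    ed_apply, mul_ite, mul_one, mul_zero]
  ring

/-- **a closed dyadic cell with free coordinates `{l}ᶜ` is a square** -/
theorem Dc_face {φ : R3 ≃L[ℝ] (Fin 3 → ℝ)} (hφ : ∀ x l, φ x l = x l) (a : R3) (k : ℕ)
    (z : Fin 3 → ℤ) (l : Fin 3) :
    φ ⁻¹' (Dc (φ a) ⟨k, z, {l}ᶜ⟩) =
      pt (fr l) (a + ihom (1 / 2 ^ k) z) '' (Icc 0 (1 / 2 ^ k) ×ˢ Icc 0 (1 / 2 ^ k)) := by
  have hp : (0 : ℝ) < 2 ^ k := by positivity
  set h : ℝ := 1 / 2 ^ k with hh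
  have hh0 : 0 < h := by positivity
  have hhp : h * 2 ^ k = 1 := by rw [hh]; field_simp
  have hih : ∀ j, (ihom h z : R3) j = h * z j := fun j => Crest.Agent.R96.Coarse_538.ihom_apply _ _ _
  ext y
  rw [mem_preimage]
  have hps : ∀ j, ps (φ a) k (φ y) j = 2 ^ k * (y j - a j) := by
    intro j; unfold ps; rw [hφ, hφ]
  constructor
  · intro hy
    have h1 : ∀ j, j ≠ l → (z j : ℝ) ≤ 2 ^ k * (y j - a j) ∧ 2 ^ k * (y j - a j) ≤ z j + 1 := by
      intro j hj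
      have := (hy j).1 (by simpa using hj)
      rwa [hps] at this
    have h2 : 2 ^ k * (y l - a l) = z l := by
      have := (hy l).2 (by simp)
      rwa [hps] at this
    have h3 : ∀ j, j ≠ l → y j - a j - h * z j ∈ Icc 0 h := by
      intro j hj
      obtain ⟨h4, h5⟩ := h1 j hj
      have e : y j - a j = h * (2 ^ k * (y j - a j)) := by
        rw [← mul_assoc, hhp, one_mul]
      constructor
      · rw [e]; nlinarith
      · rw [e]; nlinarith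
    refine ⟨(y (l + 1) - a (l + 1) - h * z (l + 1), y (l + 2) - a (l + 2) - h * z (l + 2)),
      ⟨h3 _ (ne1 l).symm, h3 _ (ne2 l).symm⟩, ?_⟩
    ext j
    rw [pt_apply, PiLp.add_apply, hih]
    by_cases hj : j = l
    · subst hj
      rw [if_neg (ne1 j), if_neg (ne2 j)]
      have e : y j - a j = h * (2 ^ k * (y j - a j)) := by
        rw [← mul_assoc, hhp, one_mul]
      rw [h2] at e
      linarith
    · rcases third l j hj with rfl | rfl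
      · rw [if_pos rfl, if_neg (ne12 l)]; ring
      · rw [if_neg (ne12 l).symm, if_pos rfl]; ring
  · rintro ⟨u, ⟨hu1, hu2⟩, rfl⟩ j
    rw [hps, pt_apply, PiLp.add_apply, hih]
    simp only
    have hz : ∀ t : ℝ, 2 ^ k * (a j + h * z j + t - a j) = z j + 2 ^ k * t := by
      intro t
      have : (2:ℝ) ^ k * (h * z j) = z j := by rw [← mul_assoc, mul_comm _ h, hhp, one_mul]
      linear_combination this
    have hb : ∀ t ∈ Icc (0:ℝ) h, 0 ≤ 2 ^ k * t ∧ 2 ^ k * t ≤ 1 := by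
      intro t ht
      exact ⟨mul_nonneg hp.le ht.1, by
        calc 2 ^ k * t ≤ 2 ^ k * h := by gcongr; exact ht.2
          _ = 1 := by rw [mul_comm, hhp]⟩
    refine ⟨fun hj => ?_, fun hj => ?_⟩
    · have hj' : j ≠ l := by simpa using hj
      rcases third l j hj' with rfl | rfl
      · rw [if_pos rfl, if_neg (ne12 l), add_zero, hz]
        have := hb u.1 hu1
        constructor <;> linarith
      · rw [if_neg (ne12 l).symm, if_pos rfl, add_zero, hz]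
        have := hb u.2 hu2
        constructor <;> linarith
    · have hj' : j = l := by simpa using hj
      subst hj'
      rw [if_neg (ne1 j), if_neg (ne2 j), add_zero, hz 0]
      ring

end

end Crest.Agent.R096.Elf_565
end

-- ▼ part R96/Els3_538
section

set_option autoImplicit false
set_option linter.unusedSectionVars false
set_option maxHeartbeats 400000

open Set Metric

namespace Crest.Agent.R96.Els_538

open Crest.Agent.R096.Msh_715 Crest.Agent.R096.Msh_715.Tiling Crest.Agent.R096.Mal_874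
open Crest.Agent.R096.Msb_432 Crest.Agent.R096.Msh_810 Crest.Agent.R096.Cut_874
open Crest.Agent.R096.Eog_922 (gx gv edF edge_tiling dim_eq_of_cc_eq)
open Crest.Agent.R96.Sg1_199 (sgm)

noncomputable section

variable {n : ℕ} {E : Type*} [NormedAddCommGroup E] [NormedSpace ℝ E]
variable [NeZero n] {J : Type*} (M : MD E n J) {k : J → ℕ} (hk : M.Sc k) (a : Fin n → ℝ)
  {v : J → E} (hv : M.Adm v)

/-- names of the tiles of `meshS` -/
abbrev SIx : Type _ := {t // t ∉ cores M hk a hv} ⊕ CIx M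

/-- the outer piece `p` as a tile of `meshS` -/
def oS (p : M.OIx hk a hv) : SIx M hk a hv := Sum.inl ⟨Sum.inl p, inl_not_core M hk a hv p⟩

/-- the outer tiles with distance more than `2 / 2^k j` from all walls -/
def Far (t : SIx M hk a hv) : Prop :=
  (∃ p, t = oS M hk a hv p) ∧ ∀ j, ∀ x ∈ P ((meshS M hk a hv).H t),
    ∀ y ∈ frontier (M.Bk v j).N, 2 / 2 ^ k j < dist (M.φ x) (M.φ y)

/-- the piece is a whole regular cube, with the configuration of the graded cubes -/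
structure Rgo (p : M.OIx hk a hv) : Prop where
  hP : P ((M.mesh hk a hv).H (Sum.inl p)) = P ((M.ad hk a hv).T0.H p.1.par)
  hcfg : cfg (M.mesh hk a hv) (Sum.inl p) = cfg (M.ad hk a hv).T0 p.1.par
  dis : ∀ j, Disjoint (P ((M.ad hk a hv).T0.H p.1.par)) (frontier (M.Bk v j).N)

variable {M hk a hv}

theorem P_oS (p : M.OIx hk a hv) :
    P ((meshS M hk a hv).H (oS M hk a hv p)) = P ((M.mesh hk a hv).H (Sum.inl p)) := rfl

/-- every tile which meets a far tile is a regular outer cube -/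
theorem touch_far {t t' : SIx M hk a hv} (ht : Far M hk a hv t) {x : E}
    (hx : x ∈ P ((meshS M hk a hv).H t)) (hx' : x ∈ P ((meshS M hk a hv).H t')) :
    ∃ q, t' = oS M hk a hv q ∧ Rgo M hk a hv q := by
  obtain ⟨⟨p, rfl⟩, hd⟩ := ht
  rcases t' with ⟨t', ht'⟩ | c
  · rcases t' with q | ⟨j, i⟩
    · refine ⟨q, rfl, ?_⟩
      rcases AD.outer_dich' (M.inn hk a hv) q with ⟨h1, h2, h3⟩ | ⟨j, -, -, y, hy, hy2⟩
      · exact ⟨h1, h2, h3⟩
      · exfalso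
        have h1 : x ∈ P ((M.ad hk a hv).T0.H q.1.par) := cut_tile_sub (hA := AF_ne) q.1 hx'
        exact absurd (hy2 x h1) (not_le.2 (hd j x hx y hy))
    · exfalso
      have h1 : x ∈ (M.Bk v j).N := i.2 hx'
      have h2 := M.outer_touch hk a hv p hx h1
      have h3 := hd j x hx x h2
      rw [dist_self] at h3
      have h4 : (0:ℝ) < 2 / 2 ^ k j := by positivity
      linarith
  · exact absurd ⟨x, hx', hx⟩ (outer_off M hk a hv p c)

/-- the closed cells at the points of outer pieces are those of the mesh -/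
theorem cc_outer {p : M.OIx hk a hv} {x : E} (hx : x ∈ P ((M.mesh hk a hv).H (Sum.inl p))) :
    (meshS M hk a hv).cc x = (M.mesh hk a hv).cc x := by
  refine (meshS_off M hk a hv fun j hj => ?_).1
  have h1 : x ∈ (M.Bk v j).N := Kc_sub_N _ hj
  exact bp_wall (M.Bk v j) (Kc_sub_bp _ hj) (M.outer_touch hk a hv p hx h1)

theorem Rgo.cc {p : M.OIx hk a hv} (hp : Rgo M hk a hv p) {x : E}
    (hx : x ∈ P ((meshS M hk a hv).H (oS M hk a hv p))) :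
    ∃ y ∈ P ((M.ad hk a hv).T0.H p.1.par),
      (meshS M hk a hv).cc x = (M.ad hk a hv).T0.cc y := by
  have h1 : (M.mesh hk a hv).cc x ∈ cfg (M.mesh hk a hv) (Sum.inl p) := ⟨x, hx, rfl⟩
  rw [hp.hcfg] at h1
  obtain ⟨y, hy, hxy⟩ := h1
  exact ⟨y, hy, (cc_outer hx).trans hxy⟩

/-- **the 1-cells at the points of a regular outer cube** -/
theorem Rgo.edge [FiniteDimensional ℝ E] {p : M.OIx hk a hv} (hp : Rgo M hk a hv p) {x : E}
    (hx : x ∈ P ((meshS M hk a hv).H (oS M hk a hv p))) (hd : (meshS M hk a hv).dim x = 1) :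
    ∃ j ∈ edF p.1.par.1.1.k p.1.par.1.1.z,
      (meshS M hk a hv).cc x = sgm (gx M.φ j + M.φ.symm a) (gv M.φ j) ∧
      sgm (gx M.φ j + M.φ.symm a) (gv M.φ j) ⊆ P ((meshS M hk a hv).H (oS M hk a hv p)) := by
  obtain ⟨y, hy, hxy⟩ := hp.cc hx
  have hxO : x ∈ M.φ ⁻¹' M.D0.Om := (meshS M hk a hv).sub _ hx
  have hyO : y ∈ M.φ ⁻¹' (M.ad hk a hv).D.Om := (M.ad hk a hv).T0.sub _ hy
  have h2 : (M.ad hk a hv).T0.dim y = 1 := by
    rw [← hd]
    exact (dim_eq_of_cc_eq (meshS M hk a hv) (M.ad hk a hv).T0 hxO hyO hxy).symm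
  obtain ⟨j, hj, h3, h4⟩ := edge_tiling (φ := M.φ) (D := (M.ad hk a hv).D) p.1.par hy h2
  refine ⟨j, hj, hxy.trans h3, ?_⟩
  rw [P_oS, hp.hP]
  exact h4

/-- the cube of a regular outer tile -/
theorem Rgo.P_eq {p : M.OIx hk a hv} (hp : Rgo M hk a hv p) :
    P ((meshS M hk a hv).H (oS M hk a hv p)) =
      M.φ ⁻¹' Cu a p.1.par.1.1.k p.1.par.1.1.z := by
  rw [P_oS, hp.hP]
  exact P_Hc _ _ _ _

/-- two regular outer tiles with the same cube coincide -/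
theorem Rgo.inj {p q : M.OIx hk a hv} (hp : Rgo M hk a hv p) (hq : Rgo M hk a hv q)
    (h1 : p.1.par.1.1.k = q.1.par.1.1.k) (h2 : p.1.par.1.1.z = q.1.par.1.1.z) :
    oS M hk a hv p = oS M hk a hv q := by
  refine P_inj (T := meshS M hk a hv) ?_
  rw [hp.P_eq, hq.P_eq, h1, h2]

end

end Crest.Agent.R96.Els_538
end

-- ▼ part R96/Els4_538
section

set_option autoImplicit false
set_option linter.unusedSectionVars false
set_option maxHeartbeats 400000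

open MeasureTheory Set Metric
open scoped ENNReal NNReal

namespace Crest.Agent.R96.Els_538

open Crest.AnalysisR.VecCalc3 (R3)
open Crest.Agent.R096.Msh_715 Crest.Agent.R096.Msh_715.Tiling Crest.Agent.R096.Mal_874
open Crest.Agent.R096.Msb_432 Crest.Agent.R096.Msh_810 Crest.Agent.R096.Cut_874
open Crest.Agent.R96.Coarse_538 (seg segM)
open Crest.Agent.R96.Wm_72 (Zr IsM_sub_Zr encard_Zr)
open Crest.Agent.R96.Rmo_538 (Zg meas_Zg mem_Zg hs hs_pos muO rm_outer card_cubes card_cubes_le)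
open Crest.Agent.R96.Sg1_199 (sgm sgm_eq_segment)
open Crest.Agent.R096.Sq_55 (E3 w2)
open Crest.Agent.R096.Efi_296

noncomputable section

variable {J : Type*} {M : MD R3 3 J} {k : J → ℕ} {hk : M.Sc k} {a : R3} {v : J → R3}
  {hv : M.Adm v}

theorem pt_mem_set {E : Type*} [NormedAddCommGroup E] [NormedSpace ℝ E] {Om : Set E} {ι : Type*}
    {T : Tiling Om ι} (c : T.Cell) : c.pt ∈ c.set := by
  rw [c.set_eq]; exact T.self_mem_cc _

/-- the outer coordinates are the standard ones -/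
def Std (M : MD R3 3 J) : Prop := ∀ x l, M.φ x l = x l

theorem Std.symm (hS : Std M) (y : Fin 3 → ℝ) (l : Fin 3) : M.φ.symm y l = y l := by
  rw [← hS, M.φ.apply_symm_apply]

theorem Std.symm_φ (hS : Std M) (b : R3) : M.φ.symm (M.φ b) = b := M.φ.symm_apply_apply b

theorem hs_eq {K0 κ : ℕ} (h : K0 ≤ κ) : hs K0 (κ - K0) = 1 / 2 ^ κ := by
  unfold hs
  push_cast
  obtain ⟨d, rfl⟩ := Nat.exists_eq_add_of_le h
  rw [Nat.add_sub_cancel_left, pow_add]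
  field_simp

theorem gx_std (hS : Std M) {K0 : ℕ} {j : ℕ × (Fin 3 → ℤ) × Fin 3} (h : K0 ≤ j.1) :
    Crest.Agent.R096.Eog_922.gx M.φ j =
      Crest.Agent.R96.Coarse_538.gx (hs K0 (j.1 - K0)) j.2 := by
  ext l
  unfold Crest.Agent.R096.Eog_922.gx Crest.Agent.R96.Coarse_538.gx
  rw [hS.symm, Crest.Agent.R96.Coarse_538.ihom_apply, hs_eq h]
  simp only [vx, Pi.zero_apply, zero_add]
  ring

theorem gv_std (hS : Std M) {K0 : ℕ} {j : ℕ × (Fin 3 → ℤ) × Fin 3} (h : K0 ≤ j.1) :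
    Crest.Agent.R096.Eog_922.gv M.φ j =
      Crest.Agent.R96.Coarse_538.gv (hs K0 (j.1 - K0)) j.2 := by
  ext l
  unfold Crest.Agent.R096.Eog_922.gv Crest.Agent.R96.Coarse_538.gv
  rw [hS.symm, hs_eq h]
  unfold Crest.Agent.R96.Coarse_538.ed
  rw [PiLp.smul_apply, EuclideanSpace.single_apply, smul_eq_mul, Pi.single_apply]
  split_ifs <;> simp

theorem norm_gv (t : ℝ) (ht : 0 < t) (q : (Fin 3 → ℤ) × Fin 3) :
    ‖Crest.Agent.R96.Coarse_538.gv t q‖ = t := by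
  unfold Crest.Agent.R96.Coarse_538.gv Crest.Agent.R96.Coarse_538.ed
  rw [norm_smul, EuclideanSpace.norm_single, norm_one, mul_one, Real.norm_of_nonneg ht.le]

theorem muO_eq (φ : R3 ≃L[ℝ] (Fin 3 → ℝ)) (D : Dat 3) (K0 : ℕ) (b : R3) :
    segM (fun q : ℕ × (Fin 3 → ℤ) × Fin 3 => Crest.Agent.R96.Coarse_538.gx (hs K0 q.1) q.2)
      (fun q => Crest.Agent.R96.Coarse_538.gv (hs K0 q.1) q.2)
      (fun q => ENNReal.ofReal (‖Crest.Agent.R96.Coarse_538.gv (hs K0 q.1) q.2‖ ^ 3))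
      (fun q => Zg φ D (K0 + q.1)) b = muO φ D K0 b := by
  unfold muO
  congr 1
  funext q
  rw [norm_gv _ (hs_pos K0 q.1)]

/-- the size function of the outer mesh -/
def Dw (M : MD R3 3 J) (k : J → ℕ) : Dat 3 := outD M.D0 k M.W 0


theorem top_Zr (τ : Top (M.ad hk (M.φ a) hv).D) :
    Cu (M.φ a) τ.1.1.k τ.1.1.z ⊆ Zr (Dw M k) τ.1.1.k := by
  obtain ⟨⟨⟨κ, z, I⟩, hτ⟩, hJ⟩ := τ
  simp only at hJ
  subst hJ
  exact IsM_sub_Zr (D := (M.ad hk (M.φ a) hv).D) hτ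

/-- lower bound of the scales -/
theorem scale_ge {K0 : ℕ} (hK0 : ∀ y, M.D0.ρ y ≤ M.D0.C / 2 ^ K0) {s : ℕ} {y : Fin 3 → ℝ}
    (hy : y ∈ Zr (Dw M k) s) : K0 ≤ s := by
  have h1 : M.D0.C ≤ 2 ^ s * (Dw M k).ρ y := hy.1
  have h2 : (Dw M k).ρ y ≤ M.D0.ρ y := outD_le_ρ0 (a := (0 : Fin 3 → ℝ)) (k := k) (W := M.W) y
  have h3 := hK0 y
  have hC := M.D0.C_pos
  by_contra hcon
  push Not at hcon
  have h4 : (2:ℝ) ^ (s + 1) ≤ 2 ^ K0 := pow_le_pow_right₀ (by norm_num) hcon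
  have h5 : (2:ℝ) ^ s * (Dw M k).ρ y ≤ 2 ^ s * (M.D0.C / 2 ^ K0) := by
    gcongr
    exact h2.trans h3
  have h6 : (2:ℝ) ^ s * (M.D0.C / 2 ^ K0) < M.D0.C := by
    rw [mul_div_assoc', div_lt_iff₀ (by positivity)]
    rw [pow_succ] at h4
    have : (0:ℝ) < 2 ^ s := by positivity
    nlinarith
  linarith

/-- the cube of a regular outer tile lies in the region of its scale -/
theorem Rgo.sub_Zr {p : M.OIx hk (M.φ a) hv} (hp : Rgo M hk (M.φ a) hv p) {y : R3}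
    (hy : y ∈ P ((meshS M hk (M.φ a) hv).H (oS M hk (M.φ a) hv p))) :
    M.φ y ∈ Zr (Dw M k) p.1.par.1.1.k := by
  rw [hp.P_eq] at hy
  exact top_Zr p.1.par hy

/-- **the edges of a regular outer tile** are edges of the graded grids -/
theorem Rgo.edge_muO (hS : Std M) {K0 : ℕ} (hK0 : ∀ y, M.D0.ρ y ≤ M.D0.C / 2 ^ K0)
    {p : M.OIx hk (M.φ a) hv} (hp : Rgo M hk (M.φ a) hv p) {x : R3}
    (hx : x ∈ P ((meshS M hk (M.φ a) hv).H (oS M hk (M.φ a) hv p)))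
    (hd : (meshS M hk (M.φ a) hv).dim x = 1) :
    ∃ q : ℕ × (Fin 3 → ℤ) × Fin 3, (K0 + q.1 = p.1.par.1.1.k ∨ K0 + q.1 = p.1.par.1.1.k + 1) ∧
      (meshS M hk (M.φ a) hv).cc x =
        seg (fun q : ℕ × (Fin 3 → ℤ) × Fin 3 => Crest.Agent.R96.Coarse_538.gx (hs K0 q.1) q.2)
          (fun q => Crest.Agent.R96.Coarse_538.gv (hs K0 q.1) q.2) a q ∧
      (meshS M hk (M.φ a) hv).cc x ⊆ Zg M.φ (Dw M k) (K0 + q.1) ∧
      (meshS M hk (M.φ a) hv).cc x ⊆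
        P ((meshS M hk (M.φ a) hv).H (oS M hk (M.φ a) hv p)) := by
  have hkk : K0 ≤ p.1.par.1.1.k := scale_ge hK0 (hp.sub_Zr hx)
  obtain ⟨j, hj, h1, h2⟩ := hp.edge hx hd
  have hj1 : j.1 = p.1.par.1.1.k ∨ j.1 = p.1.par.1.1.k + 1 := by
    unfold Crest.Agent.R096.Eog_922.edF at hj
    rcases Finset.mem_union.1 hj with h | h
    · left
      exact Finset.mem_singleton.1 (Finset.mem_product.1 h).1
    · right
      exact Finset.mem_singleton.1 (Finset.mem_product.1 h).1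
  have hjK : K0 ≤ j.1 := by omega
  have e1 : K0 + (j.1 - K0) = j.1 := by omega
  refine ⟨(j.1 - K0, j.2), by simp only; omega, ?_, ?_, ?_⟩
  · rw [h1, sgm_eq_segment, seg_eq_segment, gx_std hS hjK, gv_std hS hjK, hS.symm_φ]
    simp only
    rw [add_comm a]
  · rw [h1]
    intro y hy
    simp only [e1]
    exact mem_Zg.2 ⟨p.1.par.1.1.k, hj1, hp.sub_Zr (h2 hy)⟩
  · rw [h1]; exact h2

/-- the number of regular outer tiles at a point -/
theorem card_at_le {K' : Finset (SIx M hk (M.φ a) hv)} {y : R3}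
    (h : ∀ t ∈ K', y ∈ P ((meshS M hk (M.φ a) hv).H t) ∧
      ∃ p, t = oS M hk (M.φ a) hv p ∧ Rgo M hk (M.φ a) hv p) : K'.card ≤ 24 := by
  classical
  rcases K'.eq_empty_or_nonempty with h0 | ⟨t0, ht0⟩
  · rw [h0]; simp
  haveI : Nonempty (M.OIx hk (M.φ a) hv) := ⟨(h t0 ht0).2.choose⟩
  choose! pp hpp using fun t ht => (h t ht).2
  have hfin : {s | M.φ y ∈ Zr (Dw M k) s}.Finite :=
    Set.finite_of_encard_le_coe (k := 3) (encard_Zr _ _)
  have hcard : hfin.toFinset.card ≤ 3 := by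
    have h1 := encard_Zr (Dw M k) (M.φ y)
    rw [← Set.Finite.coe_toFinset hfin, Set.encard_coe_eq_coe_finsetCard] at h1
    exact_mod_cast h1
  set F : ℕ → Finset (Fin 3 → ℤ) := fun s =>
    Fintype.piFinset fun i => Finset.Icc (⌈ps (M.φ a) s (M.φ y) i⌉ - 1)
      ⌊ps (M.φ a) s (M.φ y) i⌋ with hF
  have h1 : K'.card ≤ (hfin.toFinset.sigma F).card := by
    refine Finset.card_le_card_of_injOn
      (fun t => ⟨(pp t).1.par.1.1.k, (pp t).1.par.1.1.z⟩) ?_ ?_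
    · intro t ht
      have ht := Finset.mem_coe.1 ht
      obtain ⟨h2, h3⟩ := hpp t ht
      have h4 := (h t ht).1
      rw [h2] at h4
      rw [Finset.mem_coe, Finset.mem_sigma]
      refine ⟨hfin.mem_toFinset.2 (h3.sub_Zr h4), ?_⟩
      rw [h3.P_eq] at h4
      exact card_cubes (M.φ a) _ (M.φ y) h4
    · intro t ht t' ht' htt
      have ht := Finset.mem_coe.1 ht
      have ht' := Finset.mem_coe.1 ht'
      simp only [Sigma.mk.injEq] at htt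
      obtain ⟨h2, h3⟩ := hpp t ht
      obtain ⟨h2', h3'⟩ := hpp t' ht'
      rw [h2, h2']
      exact h3.inj h3' htt.1 (eq_of_heq htt.2)
  refine h1.trans ?_
  rw [Finset.card_sigma]
  calc ∑ s ∈ hfin.toFinset, (F s).card ≤ ∑ _s ∈ hfin.toFinset, 8 :=
        Finset.sum_le_sum fun s _ => card_cubes_le _ s _
    _ = hfin.toFinset.card * 8 := by rw [Finset.sum_const, smul_eq_mul]
    _ ≤ 3 * 8 := by gcongr
    _ = 24 := by norm_num

section cls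

variable {s : Finset (SIx M hk (M.φ a) hv)}

/-- the tiles as subsets of `R3` and of `E3` -/
theorem EdT_iff {t : SIx M hk (M.φ a) hv} {b : EgS (Te (meshS M hk (M.φ a) hv)) s} :
    EdT (Te (meshS M hk (M.φ a) hv)) s t b ↔
      w2 '' b.1.set ⊆ P ((meshS M hk (M.φ a) hv).H t) := by
  unfold EdT
  constructor
  · rintro h _ ⟨y, hy, rfl⟩
    exact (Crest.Agent.R096.Ttr_622.mem_P_tr _ _).1 (h hy)
  · intro h y hy
    exact (Crest.Agent.R096.Ttr_622.mem_P_tr _ _).2 (h (mem_image_of_mem _ hy))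

/-- **hypothesis `hE` of `sum_J_cls` for class (1)** -/
theorem outer_hE (hS : Std M) {K0 : ℕ} (hK0 : ∀ y, M.D0.ρ y ≤ M.D0.C / 2 ^ K0)
    {K : Finset s} (hK : ∀ t ∈ K, Far M hk (M.φ a) hv t) {S : Set R3}
    (hKS : ∀ t ∈ K, P ((meshS M hk (M.φ a) hv).H t) ⊆ S) {Rr rr : s → ℝ≥0} {Λ : ℝ≥0}
    (hR : ∀ t ∈ K, ∀ p, (t : SIx M hk (M.φ a) hv) = oS M hk (M.φ a) hv p →
      (Rr t : ℝ) ≤ Λ * (1 / 2 ^ (p.1.par.1.1.k + 1)) ∧
      (rr t : ℝ) ≤ Λ * (1 / 2 ^ (p.1.par.1.1.k + 1)))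
    (b : EgS (Te (meshS M hk (M.φ a) hv)) s)
    (hb : ∃ t ∈ K, EdT (Te (meshS M hk (M.φ a) hv)) s t b) :
    ∃ q : ℕ × (Fin 3 → ℤ) × Fin 3, Crest.Agent.R96.Coarse_538.gv (hs K0 q.1) q.2 ≠ 0 ∧
      w2 '' b.1.set =
        seg (fun q : ℕ × (Fin 3 → ℤ) × Fin 3 => Crest.Agent.R96.Coarse_538.gx (hs K0 q.1) q.2)
          (fun q => Crest.Agent.R96.Coarse_538.gv (hs K0 q.1) q.2) a q ∧
      w2 '' b.1.set ⊆ Zg M.φ (Dw M k) (K0 + q.1) ∩ S ∧
      ∀ t ∈ K, EdT (Te (meshS M hk (M.φ a) hv)) s t b →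
        (Rr t : ℝ) ≤ Λ * ‖Crest.Agent.R96.Coarse_538.gv (hs K0 q.1) q.2‖ ∧
        (rr t : ℝ) ≤ Λ * ‖Crest.Agent.R96.Coarse_538.gv (hs K0 q.1) q.2‖ := by
  -- the data of one tile
  have one : ∀ t ∈ K, EdT (Te (meshS M hk (M.φ a) hv)) s t b →
      ∃ p, (t : SIx M hk (M.φ a) hv) = oS M hk (M.φ a) hv p ∧ ∃ q : ℕ × (Fin 3 → ℤ) × Fin 3,
        (K0 + q.1 = p.1.par.1.1.k ∨ K0 + q.1 = p.1.par.1.1.k + 1) ∧
        w2 '' b.1.set =
          seg (fun q : ℕ × (Fin 3 → ℤ) × Fin 3 => Crest.Agent.R96.Coarse_538.gx (hs K0 q.1) q.2)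
            (fun q => Crest.Agent.R96.Coarse_538.gv (hs K0 q.1) q.2) a q ∧
        w2 '' b.1.set ⊆ Zg M.φ (Dw M k) (K0 + q.1) := by
    intro t ht htb
    have h0 := EdT_iff.1 htb
    obtain ⟨h1, h2, h3⟩ := image_set (meshS M hk (M.φ a) hv) b.1
    have hdim : (meshS M hk (M.φ a) hv).dim
        (Crest.Agent.R96.En10_199.P3 b.1.pt) = 1 := by
      rw [h3]; exact b.2.1
    have hxT : Crest.Agent.R96.En10_199.P3 b.1.pt ∈ P ((meshS M hk (M.φ a) hv).H t) :=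
      h0 (mem_image_of_mem _ (pt_mem_set b.1))
    obtain ⟨p, hp, hpR⟩ := touch_far (hK t ht) hxT hxT
    rw [hp] at hxT
    obtain ⟨q, hq1, hq2, hq3, -⟩ := hpR.edge_muO hS hK0 hxT hdim
    exact ⟨p, hp, q, hq1, h1.trans hq2, h1 ▸ hq3⟩
  obtain ⟨t, ht, htb⟩ := hb
  obtain ⟨p, hp, q, hq1, hq2, hq3⟩ := one t ht htb
  have hpos := hs_pos K0 q.1
  have hnv := norm_gv _ hpos q.2
  refine ⟨q, fun h => ?_, hq2, fun y hy => ⟨hq3 hy, hKS t ht (EdT_iff.1 htb hy)⟩, ?_⟩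
  · rw [h, norm_zero] at hnv
    linarith
  · intro t' ht' htb'
    obtain ⟨p', hp', q', hq1', hq2', -⟩ := one t' ht' htb'
    -- the same length
    have hlen : ‖Crest.Agent.R96.Coarse_538.gv (hs K0 q.1) q.2‖ =
        ‖Crest.Agent.R96.Coarse_538.gv (hs K0 q'.1) q'.2‖ := by
      have h5 := hq2.symm.trans hq2'
      rw [seg_eq_segment, seg_eq_segment] at h5
      exact (seg_int h5 (fun _ => 0)).1
    rw [hlen, norm_gv _ (hs_pos K0 q'.1)]
    obtain ⟨h6, h7⟩ := hR t' ht' p' hp'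
    have h8 : (1:ℝ) / 2 ^ (p'.1.par.1.1.k + 1) ≤ hs K0 q'.1 := by
      have h9 : hs K0 q'.1 = 1 / 2 ^ (K0 + q'.1) := by
        have := hs_eq (K0 := K0) (κ := K0 + q'.1) (by omega)
        rwa [Nat.add_sub_cancel_left] at this
      rw [h9]
      refine one_div_le_one_div_of_le (by positivity) ?_
      exact pow_le_pow_right₀ (by norm_num) (by omega)
    exact ⟨h6.trans (by gcongr), h7.trans (by gcongr)⟩

/-- **hypothesis `hm` of `sum_J_cls` for class (1)** -/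
theorem outer_hm {K : Finset s} (hK : ∀ t ∈ K, Far M hk (M.φ a) hv t)
    (b : EgS (Te (meshS M hk (M.φ a) hv)) s) (K' : Finset s) (hK' : K' ⊆ K)
    (hb : ∀ t ∈ K', EdT (Te (meshS M hk (M.φ a) hv)) s t b) : K'.card ≤ 24 := by
  classical
  rw [← Finset.card_image_of_injective K' Subtype.val_injective]
  refine card_at_le (y := Crest.Agent.R96.En10_199.P3 b.1.pt) fun t ht => ?_
  obtain ⟨t0, ht0, rfl⟩ := Finset.mem_image.1 ht
  have h0 := EdT_iff.1 (hb t0 ht0)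
  have h1 : Crest.Agent.R96.En10_199.P3 b.1.pt ∈
      P ((meshS M hk (M.φ a) hv).H (t0 : SIx M hk (M.φ a) hv)) :=
    h0 (mem_image_of_mem _ (pt_mem_set b.1))
  exact ⟨h1, touch_far (hK t0 (hK' ht0)) h1 h1⟩

end cls

end

end Crest.Agent.R96.Els_538
end

-- ▼ part R096/Elf2_565
section

set_option autoImplicit false
set_option linter.unusedSectionVars false
set_option maxHeartbeats 400000

open MeasureTheory Set Metric
open scoped ENNReal NNReal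

namespace Crest.Agent.R096.Elf_565

open Crest.AnalysisR.VecCalc3 (R3)
open Crest.Agent.R096.Msh_715 Crest.Agent.R096.Msh_715.Tiling Crest.Agent.R096.Mal_874
open Crest.Agent.R096.Msb_432 Crest.Agent.R096.Msh_810 Crest.Agent.R096.Cut_874
open Crest.Agent.R096.Fce_793 (pt)
open Crest.Agent.R096.Eog_922 (dim_eq_of_cc_eq)
open Crest.Agent.R96.Coarse_538 (ed ihom)
open Crest.Agent.R96.Wm_72 (Zr)
open Crest.Agent.R96.Rmo_538 (Zg mem_Zg hs hs_pos)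
open Crest.Agent.R096.Sq_55 (E3 w2)
open Crest.Agent.R096.Efi_296
open Crest.Agent.R96.Els_538

noncomputable section

variable {J : Type*} {M : MD R3 3 J} {k : J → ℕ} {hk : M.Sc k} {a : R3} {v : J → R3}
  {hv : M.Adm v}

/-- the scales of two tiles with a common point -/
theorem scale_near {D : Dat 3} (hC : 2 ≤ D.C) {y : Fin 3 → ℝ} {s s' : ℕ} (h : y ∈ Zr D s)
    (h' : y ∈ Zr D s') : s' ≤ s + 1 := by
  by_contra hcon
  push Not at hcon
  have h1 : (2 : ℝ) ^ (s + 2) ≤ 2 ^ s' := pow_le_pow_right₀ one_le_two (by omega)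
  have h2 : (2 : ℝ) ^ (s + 2) * D.ρ y ≤ 2 ^ s' * D.ρ y :=
    mul_le_mul_of_nonneg_right h1 (D.nonneg y)
  have h3 : (2 : ℝ) ^ (s + 2) * D.ρ y = 4 * (2 ^ s * D.ρ y) := by rw [pow_add]; ring
  have h4 := h.1
  have h5 := h'.2
  linarith

/-- **the 2-cells at the points of a regular outer cube** -/
theorem Rgo_face {p : M.OIx hk (M.φ a) hv} (hp : Rgo M hk (M.φ a) hv p) {x : R3}
    (hx : x ∈ P ((meshS M hk (M.φ a) hv).H (oS M hk (M.φ a) hv p)))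
    (hd : (meshS M hk (M.φ a) hv).dim x = 2) :
    ∃ (κ : ℕ) (z : Fin 3 → ℤ) (l : Fin 3), (κ = p.1.par.1.1.k ∨ κ = p.1.par.1.1.k + 1) ∧
      (meshS M hk (M.φ a) hv).cc x = M.φ ⁻¹' (Dc (M.φ a) ⟨κ, z, {l}ᶜ⟩) ∧
      (meshS M hk (M.φ a) hv).cc x ⊆ P ((meshS M hk (M.φ a) hv).H (oS M hk (M.φ a) hv p)) := by
  obtain ⟨y, hy, hxy⟩ := hp.cc hx
  have hxO : x ∈ M.φ ⁻¹' M.D0.Om := (meshS M hk (M.φ a) hv).sub _ hx
  have hyO : y ∈ M.φ ⁻¹' (M.ad hk (M.φ a) hv).D.Om := (M.ad hk (M.φ a) hv).T0.sub _ hy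
  have h2 : (M.ad hk (M.φ a) hv).T0.dim y = 2 :=
    (dim_eq_of_cc_eq (meshS M hk (M.φ a) hv) (M.ad hk (M.φ a) hv).T0 hxO hyO hxy).symm.trans hd
  obtain ⟨κ, z, l, hκ, h3, h4⟩ := face_tiling (φ := M.φ) (D := (M.ad hk (M.φ a) hv).D) p.1.par hy h2
  refine ⟨κ, z, l, hκ, hxy.trans h3, ?_⟩
  rw [P_oS, hp.hP, hxy]
  exact h4

theorem Rgo_face_pt (hS : Std M) {K0 : ℕ} (hK0 : ∀ y, M.D0.ρ y ≤ M.D0.C / 2 ^ K0)
    {p : M.OIx hk (M.φ a) hv} (hp : Rgo M hk (M.φ a) hv p) {x : R3}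
    (hx : x ∈ P ((meshS M hk (M.φ a) hv).H (oS M hk (M.φ a) hv p)))
    (hd : (meshS M hk (M.φ a) hv).dim x = 2) :
    ∃ q : ℕ × (Fin 3 → ℤ) × Fin 3, (K0 + q.1 = p.1.par.1.1.k ∨ K0 + q.1 = p.1.par.1.1.k + 1) ∧
      (meshS M hk (M.φ a) hv).cc x = pt (fr q.2.2) (a + ihom (hs K0 q.1) q.2.1) ''
        (Icc 0 (hs K0 q.1) ×ˢ Icc 0 (hs K0 q.1)) ∧
      (meshS M hk (M.φ a) hv).cc x ⊆ P ((meshS M hk (M.φ a) hv).H (oS M hk (M.φ a) hv p)) := by
  have hkk : K0 ≤ p.1.par.1.1.k := scale_ge hK0 (hp.sub_Zr hx)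
  obtain ⟨κ, z, l, hκ, h3, h4⟩ := Rgo_face hp hx hd
  have hκK : K0 ≤ κ := by omega
  have e1 : K0 + (κ - K0) = κ := by omega
  refine ⟨(κ - K0, z, l), by simp only; omega, ?_, h4⟩
  simp only
  rw [h3, hs_eq hκK, Dc_face hS]

theorem hs_eq' (K0 j : ℕ) : hs K0 j = 1 / 2 ^ (K0 + j) := by
  have := hs_eq (K0 := K0) (κ := K0 + j) (by omega)
  rwa [Nat.add_sub_cancel_left] at this

theorem fr_norm (l : Fin 3) (i : Fin 2) : ‖fr l i‖ = 1 := by
  unfold fr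
  fin_cases i <;> simp [ed]

theorem fr_inner (l : Fin 3) : inner ℝ (fr l 0) (fr l 1) = 0 := by
  unfold fr
  simp only [Matrix.cons_val_zero, Matrix.cons_val_one, PiLp.inner_apply, Fin.sum_univ_three,
    ed_apply]
  revert l
  intro l
  fin_cases l <;> simp

theorem fr_li (l : Fin 3) : LinearIndependent ℝ (fr l) := by
  have h : Orthonormal ℝ (fr l) := by
    refine ⟨fr_norm l, fun i j hij => ?_⟩
    fin_cases i <;> fin_cases j
    · exact absurd rfl hij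
    · exact fr_inner l
    · rw [real_inner_comm]; exact fr_inner l
    · exact absurd rfl hij
  exact h.linearIndependent

section cls

variable {s : Finset (SIx M hk (M.φ a) hv)} {pr : (Te (meshS M hk (M.φ a) hv)).Cell → Prop}

/-- a face which touches a tile, in `R3` -/
theorem FcT_pt {t : SIx M hk (M.φ a) hv} {b : FcS (Te (meshS M hk (M.φ a) hv)) s pr}
    (h : FcT (Te (meshS M hk (M.φ a) hv)) s pr t b) :
    ∃ y ∈ w2 '' b.1.set, y ∈ P ((meshS M hk (M.φ a) hv).H t) := by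
  obtain ⟨y, hy, hyt⟩ := h
  exact ⟨w2 y, mem_image_of_mem _ hy, (Crest.Agent.R096.Ttr_622.mem_P_tr _ _).1 hyt⟩

/-- **the data of a face which touches a far tile** -/
theorem face_data (hS : Std M) {K0 : ℕ} (hK0 : ∀ y, M.D0.ρ y ≤ M.D0.C / 2 ^ K0)
    {t : SIx M hk (M.φ a) hv} (ht : Far M hk (M.φ a) hv t)
    {b : FcS (Te (meshS M hk (M.φ a) hv)) s pr}
    (h : FcT (Te (meshS M hk (M.φ a) hv)) s pr t b) :
    ∃ (p : M.OIx hk (M.φ a) hv) (q : ℕ × (Fin 3 → ℤ) × Fin 3),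
      Rgo M hk (M.φ a) hv p ∧ (K0 + q.1 = p.1.par.1.1.k ∨ K0 + q.1 = p.1.par.1.1.k + 1) ∧
      w2 '' b.1.set = pt (fr q.2.2) (a + ihom (hs K0 q.1) q.2.1) ''
        (Icc 0 (hs K0 q.1) ×ˢ Icc 0 (hs K0 q.1)) ∧
      w2 '' b.1.set ⊆ P ((meshS M hk (M.φ a) hv).H (oS M hk (M.φ a) hv p)) ∧
      (P ((meshS M hk (M.φ a) hv).H t) ∩
        P ((meshS M hk (M.φ a) hv).H (oS M hk (M.φ a) hv p))).Nonempty := by
  obtain ⟨⟨hb2, k1, hk1, hbk⟩, -⟩ := b.2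
  obtain ⟨h1, h2, h3⟩ := image_set (meshS M hk (M.φ a) hv) b.1
  obtain ⟨y, hy, hyt⟩ := FcT_pt h
  have hsub : w2 '' b.1.set ⊆ P ((meshS M hk (M.φ a) hv).H k1) := by
    rw [h1]; exact image_sub (meshS M hk (M.φ a) hv) hbk
  obtain ⟨p, hp, hpR⟩ := touch_far ht hyt (hsub hy)
  have hxT : Crest.Agent.R96.En10_199.P3 b.1.pt ∈ P ((meshS M hk (M.φ a) hv).H k1) :=
    hsub (mem_image_of_mem _ (Crest.Agent.R96.Els_538.pt_mem_set b.1))
  rw [hp] at hxT hsub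
  obtain ⟨q, hq1, hq2, hq3⟩ := Rgo_face_pt hS hK0 hpR hxT (by rw [h3]; exact hb2)
  exact ⟨p, q, hpR, hq1, h1.trans hq2, hsub, y, hyt, hsub hy⟩

/-- **hypothesis `hF` of `sum_J_cls` for class (1)** -/
theorem outer_hF (hS : Std M) {K0 : ℕ} (hK0 : ∀ y, M.D0.ρ y ≤ M.D0.C / 2 ^ K0) (hC : 2 ≤ M.D0.C)
    {K : Finset s} (hK : ∀ t ∈ K, Far M hk (M.φ a) hv t) {S : Set R3}
    (hKS : ∀ t ∈ K, ∀ t' : SIx M hk (M.φ a) hv, (P ((meshS M hk (M.φ a) hv).H t) ∩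
      P ((meshS M hk (M.φ a) hv).H t')).Nonempty → P ((meshS M hk (M.φ a) hv).H t') ⊆ S)
    {Rr : s → ℝ≥0} {Λ : ℝ≥0}
    (hR : ∀ t ∈ K, ∀ p, (t : SIx M hk (M.φ a) hv) = oS M hk (M.φ a) hv p →
      (Rr t : ℝ) ≤ Λ * (1 / 2 ^ (p.1.par.1.1.k + 1)))
    {g : R3 → ℝ≥0∞} {Ef : FcS (Te (meshS M hk (M.φ a) hv)) s pr → ℝ≥0∞} {CE : ℝ≥0∞}
    (hEf : ∀ (b : FcS (Te (meshS M hk (M.φ a) hv)) s pr) (e' : Fin 2 → R3) (x' : R3)
      (Q' : Set (ℝ × ℝ)), (∀ i, ‖e' i‖ = 1) → inner ℝ (e' 0) (e' 1) = 0 → MeasurableSet Q' →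
      w2 '' b.1.set = pt e' x' '' Q' → Ef b ≤ CE * ∫⁻ w in Q', g (pt e' x' w))
    (b : FcS (Te (meshS M hk (M.φ a) hv)) s pr)
    (hb : ∃ t ∈ K, FcT (Te (meshS M hk (M.φ a) hv)) s pr t b) :
    ∃ q : ℕ × (Fin 3 → ℤ) × Fin 3,
      LinearIndependent ℝ (![ed (q.2.2 + 1), ed (q.2.2 + 2)] : Fin 2 → R3) ∧
      MeasurableSet (Icc (0:ℝ) (hs K0 q.1) ×ˢ Icc (0:ℝ) (hs K0 q.1)) ∧
      w2 '' b.1.set = pt ![ed (q.2.2 + 1), ed (q.2.2 + 2)]
          (a + Crest.Agent.R96.Coarse_538.gx (hs K0 q.1) q.2) ''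
        (Icc (0:ℝ) (hs K0 q.1) ×ˢ Icc (0:ℝ) (hs K0 q.1)) ∧
      w2 '' b.1.set ⊆ Zg M.φ (Dw M k) (K0 + q.1) ∩ S ∧
      ∀ t ∈ K, FcT (Te (meshS M hk (M.φ a) hv)) s pr t b →
        ENNReal.ofReal (Rr t) * Ef b ≤ (2 * Λ * CE) * (ENNReal.ofReal (hs K0 q.1) *
          ∫⁻ w in Icc (0:ℝ) (hs K0 q.1) ×ˢ Icc (0:ℝ) (hs K0 q.1),
            g (pt ![ed (q.2.2 + 1), ed (q.2.2 + 2)]
              (a + Crest.Agent.R96.Coarse_538.gx (hs K0 q.1) q.2) w)) := by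
  obtain ⟨t, ht, htb⟩ := hb
  obtain ⟨p, q, hp, hq, h1, h2, h3⟩ := face_data hS hK0 (hK t ht) htb
  have hmQ : MeasurableSet (Icc (0:ℝ) (hs K0 q.1) ×ˢ Icc (0:ℝ) (hs K0 q.1)) :=
    measurableSet_Icc.prod measurableSet_Icc
  refine ⟨q, fr_li q.2.2, hmQ, h1, fun y hy => ⟨mem_Zg.2 ⟨p.1.par.1.1.k, hq, hp.sub_Zr (h2 hy)⟩,
    hKS t ht _ h3 (h2 hy)⟩, fun t' ht' htb' => ?_⟩
  obtain ⟨y, hy, hyt'⟩ := FcT_pt htb'
  obtain ⟨p', hp', hpR'⟩ := touch_far (hK t' ht') hyt' hyt'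
  have h4 : M.φ y ∈ Zr (Dw M k) p.1.par.1.1.k := hp.sub_Zr (h2 hy)
  have h5 : M.φ y ∈ Zr (Dw M k) p'.1.par.1.1.k := hpR'.sub_Zr (hp' ▸ hyt')
  have h6 : p.1.par.1.1.k ≤ p'.1.par.1.1.k + 1 := scale_near (D := Dw M k) hC h5 h4
  have h7 := hR t' ht' p' hp'
  have h8 : (1:ℝ) / 2 ^ (p'.1.par.1.1.k + 1) ≤ 2 * hs K0 q.1 := by
    rw [hs_eq']
    have e : (2:ℝ) * (1 / 2 ^ (K0 + q.1)) = 4 / 2 ^ (K0 + q.1 + 1) := by
      rw [pow_succ]; field_simp; norm_num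
    have e2 : (1:ℝ) / 2 ^ (p'.1.par.1.1.k + 1) = 4 / 2 ^ (p'.1.par.1.1.k + 3) := by
      rw [pow_add _ _ 3, pow_succ]; field_simp; norm_num
    rw [e, e2]
    refine div_le_div_of_nonneg_left (by norm_num) (by positivity) ?_
    exact pow_le_pow_right₀ (by norm_num) (by omega)
  have h9 : ENNReal.ofReal (Rr t' : ℝ) ≤ 2 * Λ * ENNReal.ofReal (hs K0 q.1) := by
    have e2 : (Λ : ℝ≥0∞) = ENNReal.ofReal (Λ : ℝ) := by rw [ENNReal.ofReal_coe_nnreal]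
    have e4 : (2 : ℝ≥0∞) = ENNReal.ofReal (2:ℝ) := by norm_num
    rw [e2, e4, ← ENNReal.ofReal_mul (by norm_num), ← ENNReal.ofReal_mul (by positivity)]
    refine ENNReal.ofReal_le_ofReal (h7.trans ?_)
    calc (Λ:ℝ) * (1 / 2 ^ (p'.1.par.1.1.k + 1)) ≤ Λ * (2 * hs K0 q.1) := by gcongr
      _ = 2 * Λ * hs K0 q.1 := by ring
  have h10 := hEf b (fr q.2.2) (a + ihom (hs K0 q.1) q.2.1) _ (fr_norm _) (fr_inner _) hmQ h1
  calc ENNReal.ofReal (Rr t') * Ef b ≤ (2 * Λ * ENNReal.ofReal (hs K0 q.1)) *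
        (CE * ∫⁻ w in Icc (0:ℝ) (hs K0 q.1) ×ˢ Icc (0:ℝ) (hs K0 q.1),
          g (pt (fr q.2.2) (a + ihom (hs K0 q.1) q.2.1) w)) := mul_le_mul' h9 h10
    _ = (2 * Λ * CE) * (ENNReal.ofReal (hs K0 q.1) *
          ∫⁻ w in Icc (0:ℝ) (hs K0 q.1) ×ˢ Icc (0:ℝ) (hs K0 q.1),
            g (pt (fr q.2.2) (a + ihom (hs K0 q.1) q.2.1) w)) := by ring

/-- **hypothesis `hm'` of `sum_J_cls` for class (1)** -/
theorem outer_hm' (hS : Std M) {K0 : ℕ} (hK0 : ∀ y, M.D0.ρ y ≤ M.D0.C / 2 ^ K0) (hC : 2 ≤ M.D0.C)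
    {K : Finset s} (hK : ∀ t ∈ K, Far M hk (M.φ a) hv t)
    (b : FcS (Te (meshS M hk (M.φ a) hv)) s pr) (K' : Finset s) (hK' : K' ⊆ K)
    (hb : ∀ t ∈ K', FcT (Te (meshS M hk (M.φ a) hv)) s pr t b) : K'.card ≤ 192 := by
  classical
  rcases K'.eq_empty_or_nonempty with h0 | ⟨t0, ht0⟩
  · rw [h0]; simp
  obtain ⟨p, q, hp, hq, h1, h2, -⟩ := face_data hS hK0 (hK t0 (hK' ht0)) (hb t0 ht0)
  have : Nonempty (M.OIx hk (M.φ a) hv) := ⟨p⟩
  have one : ∀ t : s, ∃ (pp : M.OIx hk (M.φ a) hv) (y : R3), t ∈ K' →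
      (t : SIx M hk (M.φ a) hv) = oS M hk (M.φ a) hv pp ∧ Rgo M hk (M.φ a) hv pp ∧
      y ∈ w2 '' b.1.set ∧ y ∈ P ((meshS M hk (M.φ a) hv).H t) := by
    intro t
    by_cases ht : t ∈ K'
    · obtain ⟨y, hy, hyt⟩ := FcT_pt (hb t ht)
      obtain ⟨pp, hpp, hppR⟩ := touch_far (hK t (hK' ht)) hyt hyt
      exact ⟨pp, y, fun _ => ⟨hpp, hppR, hy, hyt⟩⟩
    · exact ⟨p, 0, fun h => absurd h ht⟩
  choose pp yy hpy using one
  set h : ℝ := hs K0 q.1 with hh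
  have hhp : 0 < h := hs_pos _ _
  set c : R3 := a + ihom h q.2.1 with hc
  set A : ℕ → Fin 3 → ℝ := fun s i => 2 ^ s * (c i - a i) with hA
  set F : ℕ → Finset (Fin 3 → ℤ) := fun s =>
    Fintype.piFinset fun i => Finset.Icc (⌈A s i⌉ - 1) (⌊A s i⌋ + 2) with hF
  have hcardF : ∀ s, (F s).card ≤ 64 := by
    intro s
    rw [hF]
    simp only
    rw [Fintype.card_piFinset]
    calc ∏ i : Fin 3, (Finset.Icc (⌈A s i⌉ - 1) (⌊A s i⌋ + 2)).card ≤ ∏ _i : Fin 3, 4 := by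
          refine Finset.prod_le_prod' fun i _ => ?_
          rw [Int.card_Icc]
          have h := Int.floor_le_ceil (A s i)
          omega
      _ = 64 := by simp
  have hmem : ∀ t ∈ K', (pp t).1.par.1.1.k ∈ Finset.Icc (p.1.par.1.1.k - 1) (p.1.par.1.1.k + 1) ∧
      (pp t).1.par.1.1.z ∈ F (pp t).1.par.1.1.k := by
    intro t ht
    obtain ⟨e1, e2, e3, e4⟩ := hpy t ht
    have f1 : M.φ (yy t) ∈ Zr (Dw M k) p.1.par.1.1.k := hp.sub_Zr (h2 e3)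
    have f2 : M.φ (yy t) ∈ Zr (Dw M k) (pp t).1.par.1.1.k := e2.sub_Zr (e1 ▸ e4)
    have f3 : p.1.par.1.1.k ≤ (pp t).1.par.1.1.k + 1 := scale_near (D := Dw M k) hC f2 f1
    have f4 : (pp t).1.par.1.1.k ≤ p.1.par.1.1.k + 1 := scale_near (D := Dw M k) hC f1 f2
    refine ⟨Finset.mem_Icc.2 ⟨by omega, f4⟩, ?_⟩
    rw [hF]
    simp only
    rw [Fintype.mem_piFinset]
    intro i
    have f5 : yy t ∈ M.φ ⁻¹' Cu (M.φ a) (pp t).1.par.1.1.k (pp t).1.par.1.1.z := by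
      rw [← e2.P_eq, ← e1]; exact e4
    have f6 := mem_Cu.1 f5 i
    unfold ps at f6
    rw [hS, hS] at f6
    -- the point is near the base point of the square
    have f7 : 0 ≤ yy t i - c i ∧ yy t i - c i ≤ h := by
      rw [h1] at e3
      obtain ⟨u, ⟨hu1, hu2⟩, hu⟩ := e3
      have f8 : yy t i = c i + (if i = q.2.2 + 1 then u.1 else 0) +
          (if i = q.2.2 + 2 then u.2 else 0) := by rw [← hu, pt_apply]
      have g1 : 0 ≤ u.1 ∧ u.1 ≤ h := hu1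
      have g2 : 0 ≤ u.2 ∧ u.2 ≤ h := hu2
      rw [f8]
      by_cases hi1 : i = q.2.2 + 1
      · have hi2 : i ≠ q.2.2 + 2 := fun hi2 => ne12 q.2.2 (hi1.symm.trans hi2)
        rw [if_pos hi1, if_neg hi2]
        constructor <;> linarith
      · rw [if_neg hi1]
        split_ifs
        · constructor <;> linarith
        · constructor <;> linarith
    have f9 : (2:ℝ) ^ (pp t).1.par.1.1.k * h ≤ 2 := by
      rw [hh, hs_eq']
      rw [mul_one_div, div_le_iff₀ (by positivity)]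
      calc (2:ℝ) ^ (pp t).1.par.1.1.k ≤ 2 ^ (K0 + q.1 + 1) :=
            pow_le_pow_right₀ (by norm_num) (by omega)
        _ = 2 * 2 ^ (K0 + q.1) := by rw [pow_succ]; ring
    have hP2 : (0:ℝ) < 2 ^ (pp t).1.par.1.1.k := by positivity
    have f10 : A (pp t).1.par.1.1.k i ≤ 2 ^ (pp t).1.par.1.1.k * (yy t i - a i) := by
      rw [hA]
      simp only
      have : c i - a i ≤ yy t i - a i := by linarith [f7.1]
      gcongr
    have f11 : 2 ^ (pp t).1.par.1.1.k * (yy t i - a i) ≤ A (pp t).1.par.1.1.k i + 2 := by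
      rw [hA]
      simp only
      have e : (2:ℝ) ^ (pp t).1.par.1.1.k * (yy t i - a i) =
          2 ^ (pp t).1.par.1.1.k * (c i - a i) + 2 ^ (pp t).1.par.1.1.k * (yy t i - c i) := by ring
      rw [e]
      have : (2:ℝ) ^ (pp t).1.par.1.1.k * (yy t i - c i) ≤ 2 ^ (pp t).1.par.1.1.k * h := by
        gcongr
        exact f7.2
      linarith
    rw [Finset.mem_Icc]
    constructor
    · rw [sub_le_iff_le_add, Int.ceil_le]
      push_cast
      linarith [f6.2]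
    · have g3 : (((pp t).1.par.1.1.z i - 2 : ℤ) : ℝ) ≤ A (pp t).1.par.1.1.k i := by
        push_cast
        linarith [f6.1]
      have g4 := Int.le_floor.2 g3
      omega
  have hcard : K'.card ≤
      ((Finset.Icc (p.1.par.1.1.k - 1) (p.1.par.1.1.k + 1)).sigma F).card := by
    refine Finset.card_le_card_of_injOn
      (fun t => ⟨(pp t).1.par.1.1.k, (pp t).1.par.1.1.z⟩) ?_ ?_
    · intro t ht
      rw [Finset.mem_coe, Finset.mem_sigma]
      exact hmem t (Finset.mem_coe.1 ht)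
    · intro t ht t' ht' htt
      simp only [Sigma.mk.injEq] at htt
      obtain ⟨e1, e2, -, -⟩ := hpy t (Finset.mem_coe.1 ht)
      obtain ⟨e1', e2', -, -⟩ := hpy t' (Finset.mem_coe.1 ht')
      refine Subtype.ext ?_
      rw [e1, e1']
      exact e2.inj e2' htt.1 (eq_of_heq htt.2)
  refine hcard.trans ?_
  rw [Finset.card_sigma]
  calc ∑ s ∈ Finset.Icc (p.1.par.1.1.k - 1) (p.1.par.1.1.k + 1), (F s).card
      ≤ ∑ _s ∈ Finset.Icc (p.1.par.1.1.k - 1) (p.1.par.1.1.k + 1), 64 :=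
        Finset.sum_le_sum fun s _ => hcardF s
    _ = (Finset.Icc (p.1.par.1.1.k - 1) (p.1.par.1.1.k + 1)).card * 64 := by
        rw [Finset.sum_const, smul_eq_mul]
    _ ≤ 3 * 64 := by
        gcongr
        rw [Nat.card_Icc]
        omega
    _ = 192 := by norm_num

end cls

end

end Crest.Agent.R096.Elf_565
end

-- ▼ part R96/Els5_538
section

set_option autoImplicit false
set_option linter.unusedSectionVars false
set_option maxHeartbeats 400000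

open MeasureTheory Set Filter Metric Module
open scoped ENNReal NNReal Topology

namespace Crest.Agent.R96.Els_538

open Crest.AnalysisR.VecCalc3 (R3)
open Crest.Agent.R96.Intr_538 Crest.Agent.R96.Coarse_538
open Crest.Agent.R096.Msh_810 (Dat)
open Crest.Agent.R96.Wm_72 (Zr)
open Crest.Agent.R96.Rmo_538 (Zg meas_Zg mem_Zg hs hs_pos hs_mul muO)

noncomputable section

/-! ### the enlarged regions -/

/-- the enlarged region of the scale `κ` -/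
def Zb (D : Dat 3) (κ : ℕ) : Set (Fin 3 → ℝ) :=
  {x | D.C - 1 ≤ 2 ^ κ * D.ρ x ∧ 2 ^ κ * D.ρ x < 4 * D.C + 7}

theorem meas_Zb (D : Dat 3) (s : ℕ) : MeasurableSet (Zb D s) := by
  have hc : Measurable fun x => (2 : ℝ) ^ s * D.ρ x := D.continuous_ρ.measurable.const_mul _
  exact (measurableSet_le measurable_const hc).inter (measurableSet_lt hc measurable_const)

theorem encard_Zb (D : Dat 3) (hC : 6 ≤ D.C) (x : Fin 3 → ℝ) : {s | x ∈ Zb D s}.encard ≤ 3 := by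
  by_cases hne : {s | x ∈ Zb D s}.Nonempty
  · set m := sInf {s | x ∈ Zb D s} with hm
    have hmm : x ∈ Zb D m := Nat.sInf_mem hne
    have hsub : {s | x ∈ Zb D s} ⊆ (Finset.Icc m (m + 2) : Finset ℕ) := by
      intro s hs
      have h1 : m ≤ s := Nat.sInf_le hs
      rw [Finset.coe_Icc]
      refine ⟨h1, ?_⟩
      by_contra h2
      push Not at h2
      have h3 : (2 : ℝ) ^ (m + 3) ≤ 2 ^ s := pow_le_pow_right₀ one_le_two (by omega)
      have h4 : (2 : ℝ) ^ (m + 3) * D.ρ x ≤ 2 ^ s * D.ρ x :=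
        mul_le_mul_of_nonneg_right h3 (D.nonneg x)
      have h5 : (2 : ℝ) ^ (m + 3) * D.ρ x = 8 * (2 ^ m * D.ρ x) := by rw [pow_add]; ring
      have h6 := hmm.1
      have h7 := hs.2
      linarith
    refine (encard_le_encard hsub).trans ?_
    rw [encard_coe_eq_coe_finsetCard, Nat.card_Icc, show m + 2 + 1 - m = 3 by omega]
    rfl
  · rw [not_nonempty_iff_eq_empty.1 hne]; simp

/-- points near a region lie in the enlarged region -/
theorem Zb_of_near {φ : R3 ≃L[ℝ] (Fin 3 → ℝ)} (hφ : ∀ x l, φ x l = x l) {D : Dat 3} {κ : ℕ}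
    {y0 y : R3} (h0 : y0 ∈ Zg φ D κ) (h : ∀ i, 2 ^ κ * |y i - y0 i| ≤ 1) : φ y ∈ Zb D κ := by
  obtain ⟨s, hs, h1, h2⟩ := mem_Zg.1 h0
  have hp : (0:ℝ) < 2 ^ κ := by positivity
  have hC := D.C_pos
  have hd : 2 ^ κ * dist (φ y) (φ y0) ≤ 1 := by
    rw [← le_div_iff₀' hp, dist_pi_le_iff (by positivity)]
    intro i
    rw [Real.dist_eq, hφ, hφ, le_div_iff₀' hp]
    exact h i
  have h3 := D.lip (φ y) (φ y0)
  have h4 := D.lip (φ y0) (φ y)
  rw [dist_comm (φ y0)] at h4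
  have h5 : 2 ^ κ * D.ρ (φ y) ≤ 2 ^ κ * D.ρ (φ y0) + 1 := by nlinarith
  have h6 : 2 ^ κ * D.ρ (φ y0) ≤ 2 ^ κ * D.ρ (φ y) + 1 := by nlinarith
  have h7 : D.C ≤ 2 ^ κ * D.ρ (φ y0) ∧ 2 ^ κ * D.ρ (φ y0) < 4 * D.C + 6 := by
    rcases hs with rfl | rfl
    · exact ⟨h1, by linarith⟩
    · rw [pow_succ]
      constructor <;> nlinarith
  exact ⟨by linarith [h7.1], by linarith [h7.2]⟩

/-- overlap of measurable sets -/
theorem sum_overlap_le {Z : ℕ → Set R3} (hZ : ∀ j, MeasurableSet (Z j)) {K : ℕ}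
    (hK : ∀ y, {j | y ∈ Z j}.encard ≤ K) (T : Set R3) :
    ∑' j, volume (Z j ∩ T) ≤ K * volume T := by
  have h1 : ∀ j, volume (Z j ∩ T) = ∫⁻ y, (Z j).indicator 1 y ∂(volume.restrict T) := by
    intro j
    rw [lintegral_indicator_one (hZ j), Measure.restrict_apply (hZ j)]
  calc ∑' j, volume (Z j ∩ T) = ∑' j, ∫⁻ y, (Z j).indicator 1 y ∂(volume.restrict T) :=
        tsum_congr h1
    _ = ∫⁻ y, ∑' j, (Z j).indicator 1 y ∂(volume.restrict T) :=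
        (lintegral_tsum fun j => (measurable_one.indicator (hZ j)).aemeasurable).symm
    _ ≤ ∫⁻ _, (K : ℝ≥0∞) ∂(volume.restrict T) := by
        refine lintegral_mono fun y => ?_
        have h8 : ∀ j, (Z j).indicator (1 : R3 → ℝ≥0∞) y =
            {j | y ∈ Z j}.indicator (1 : ℕ → ℝ≥0∞) j := by
          intro j
          by_cases hj : y ∈ Z j
          · rw [indicator_of_mem hj, indicator_of_mem (show j ∈ {j | y ∈ Z j} from hj)]
            rfl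
          · rw [indicator_of_notMem hj, indicator_of_notMem (show j ∉ {j | y ∈ Z j} from hj)]
        rw [tsum_congr h8, ← tsum_subtype, Pi.one_def, ENNReal.tsum_set_one]
        calc ({j | y ∈ Z j}.encard : ℝ≥0∞) ≤ ((K : ℕ∞) : ℝ≥0∞) := by
              gcongr
              exact hK y
          _ = K := by simp
    _ = K * volume T := by rw [lintegral_const, Measure.restrict_apply_univ]

/-- the half open cube of the grid -/
def Cq (a : R3) (h : ℝ) (z : Fin 3 → ℤ) : Set R3 :=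
  {y | ∀ i, a i + h * z i ≤ y i ∧ y i < a i + h * (z i + 1)}

theorem meas_Cq (a : R3) (h : ℝ) (z : Fin 3 → ℤ) : MeasurableSet (Cq a h z) := by
  have : Cq a h z = ⋂ i : Fin 3, {y : R3 | a i + h * z i ≤ y i ∧ y i < a i + h * (z i + 1)} := by
    ext y; simp [Cq]
  rw [this]
  refine MeasurableSet.iInter fun i => ?_
  have hm : Measurable fun y : R3 => y i := by fun_prop
  exact (measurableSet_le measurable_const hm).inter (measurableSet_lt hm measurable_const)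

theorem vol_Cq (a : R3) {h : ℝ} (hh : 0 < h) (z : Fin 3 → ℤ) :
    volume (Cq a h z) = ENNReal.ofReal (h ^ 3) := by
  have h1 : Cq a h z =
      {x : R3 | ∀ i, x i ∈ (fun i : Fin 3 => Ico (a i + h * z i) (a i + h * (z i + 1))) i} := by
    ext y; simp [Cq]
  rw [h1, vol_box fun _ => measurableSet_Ico]
  have h2 : ∀ i : Fin 3, a i + h * (z i + 1) - (a i + h * z i) = h := fun i => by ring
  simp only [Real.volume_Ico, h2, Finset.prod_const, Finset.card_univ, Fintype.card_fin]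
  rw [ENNReal.ofReal_pow hh.le]

theorem disj_Cq (a : R3) {h : ℝ} (hh : 0 < h) :
    Pairwise (Function.onFun Disjoint (Cq a h)) := by
  intro z z' hne
  rw [Function.onFun, Set.disjoint_left]
  intro y hy hy'
  apply hne
  funext i
  obtain ⟨h1, h2⟩ := hy i
  obtain ⟨h3, h4⟩ := hy' i
  have h5 : (z i : ℝ) < z' i + 1 := by
    by_contra hcon
    push Not at hcon
    nlinarith
  have h6 : (z' i : ℝ) < z i + 1 := by
    by_contra hcon
    push Not at hcon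
    nlinarith
  have h7 : z i < z' i + 1 := by exact_mod_cast h5
  have h8 : z' i < z i + 1 := by exact_mod_cast h6
  omega

/-- the number of cubes inside a set -/
theorem sum_cubes_le (a : R3) {h : ℝ} (hh : 0 < h) {Z : Set (Fin 3 → ℤ)} {G : Set R3}
    (hZ : ∀ z ∈ Z, Cq a h z ⊆ G) :
    ∑' z, Z.indicator (fun _ => ENNReal.ofReal (h ^ 3)) z ≤ volume G := by
  calc ∑' z, Z.indicator (fun _ => ENNReal.ofReal (h ^ 3)) z
      ≤ ∑' z, (volume.restrict G) (Cq a h z) := by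
        refine ENNReal.tsum_le_tsum fun z => ?_
        by_cases hz : z ∈ Z
        · rw [indicator_of_mem hz, Measure.restrict_apply (meas_Cq a h z),
            inter_eq_self_of_subset_left (hZ z hz), vol_Cq a hh z]
        · rw [indicator_of_notMem hz]; exact zero_le
    _ = (volume.restrict G) (⋃ z, Cq a h z) :=
        (measure_iUnion (disj_Cq a hh) fun z => meas_Cq a h z).symm
    _ ≤ (volume.restrict G) univ := measure_mono (subset_univ _)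
    _ = volume G := Measure.restrict_apply_univ _

/-- the neighbourhood of a set in the sup norm -/
def Sth (S : Set R3) (r : ℝ) : Set R3 := {y | ∃ y0 ∈ S, ∀ i, |y i - y0 i| ≤ r}

/-- **THE COUNT OF THE GRADED MESH**: objects of the grid cubes of all scales (index `l : L`) which have a
point of the region of their scale in `S`, weight `h³`. -/
theorem grid_count {L : Type*} [Fintype L] {φ : R3 ≃L[ℝ] (Fin 3 → ℝ)} (hφ : ∀ x l, φ x l = x l)
    {D : Dat 3} (hC : 6 ≤ D.C) (K0 : ℕ) (a : R3) (S : Set R3)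
    (pr : ℕ → (Fin 3 → ℤ) → L → Prop)
    (hpr : ∀ j z l, pr j z l → ∃ y0 ∈ S, y0 ∈ Zg φ D (K0 + j) ∧
      ∀ i, a i + hs K0 j * z i ≤ y0 i ∧ y0 i ≤ a i + hs K0 j * (z i + 1)) :
    ∑' j, ∑' z, ∑' l, {l | pr j z l}.indicator (fun _ => ENNReal.ofReal (hs K0 j ^ 3)) l ≤
      3 * (Fintype.card L : ℝ≥0∞) * volume (Sth S ((2:ℝ) ^ K0)⁻¹) := by
  classical
  set T := Sth S ((2:ℝ) ^ K0)⁻¹ with hT
  have h1 : ∀ j, ∑' z, ∑' l, {l | pr j z l}.indicator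
      (fun _ => ENNReal.ofReal (hs K0 j ^ 3)) l ≤
      Fintype.card L * volume (φ ⁻¹' Zb D (K0 + j) ∩ T) := by
    intro j
    have hh := hs_pos K0 j
    set Z : Set (Fin 3 → ℤ) := {z | ∃ l, pr j z l} with hZ
    have h2 : ∀ z, ∑' l, {l | pr j z l}.indicator (fun _ => ENNReal.ofReal (hs K0 j ^ 3)) l ≤
        Fintype.card L * Z.indicator (fun _ => ENNReal.ofReal (hs K0 j ^ 3)) z := by
      intro z
      rw [tsum_fintype]
      by_cases hz : z ∈ Z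
      · rw [indicator_of_mem hz]
        calc ∑ l, {l | pr j z l}.indicator (fun _ => ENNReal.ofReal (hs K0 j ^ 3)) l
            ≤ ∑ _l : L, ENNReal.ofReal (hs K0 j ^ 3) :=
              Finset.sum_le_sum fun l _ => indicator_le_self _ _ _
          _ = _ := by rw [Finset.sum_const, Finset.card_univ, nsmul_eq_mul]
      · rw [indicator_of_notMem hz, mul_zero]
        refine le_of_eq (Finset.sum_eq_zero fun l _ => ?_)
        rw [indicator_of_notMem]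
        intro hl
        exact hz ⟨l, hl⟩
    calc ∑' z, ∑' l, {l | pr j z l}.indicator (fun _ => ENNReal.ofReal (hs K0 j ^ 3)) l
        ≤ ∑' z, Fintype.card L * Z.indicator (fun _ => ENNReal.ofReal (hs K0 j ^ 3)) z :=
          ENNReal.tsum_le_tsum h2
      _ = Fintype.card L * ∑' z, Z.indicator (fun _ => ENNReal.ofReal (hs K0 j ^ 3)) z :=
          ENNReal.tsum_mul_left
      _ ≤ _ := by
          refine mul_le_mul' le_rfl (sum_cubes_le a hh fun z hz y hy => ?_)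
          obtain ⟨l, hl⟩ := hz
          obtain ⟨y0, hy0, hy1, hy2⟩ := hpr j z l hl
          have h3 : ∀ i, |y i - y0 i| ≤ hs K0 j := by
            intro i
            obtain ⟨h4, h5⟩ := hy i
            obtain ⟨h6, h7⟩ := hy2 i
            rw [abs_le]
            constructor <;> nlinarith
          have h8 := hs_mul K0 j
          have h9 : hs K0 j ≤ ((2:ℝ) ^ K0)⁻¹ := by
            unfold hs
            refine div_le_self (by positivity) ?_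
            push_cast
            exact one_le_pow₀ (by norm_num)
          refine ⟨?_, y0, hy0, fun i => (h3 i).trans h9⟩
          refine Zb_of_near hφ hy1 fun i => ?_
          calc (2:ℝ) ^ (K0 + j) * |y i - y0 i| ≤ 2 ^ (K0 + j) * hs K0 j := by
                gcongr
                exact h3 i
            _ = 1 := h8
  calc _ ≤ ∑' j, (Fintype.card L : ℝ≥0∞) * volume (φ ⁻¹' Zb D (K0 + j) ∩ T) :=
        ENNReal.tsum_le_tsum h1
    _ = Fintype.card L * ∑' j, volume (φ ⁻¹' Zb D (K0 + j) ∩ T) := ENNReal.tsum_mul_left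
    _ ≤ Fintype.card L * ((3 : ℕ) * volume T) := by
        refine mul_le_mul' le_rfl (sum_overlap_le
          (fun j => (meas_Zb D _).preimage φ.continuous.measurable) (fun y => ?_) T)
        refine le_trans ?_ (encard_Zb D hC (φ y))
        refine encard_le_encard_of_injOn (f := fun j => K0 + j) (fun j hj => hj) ?_
        intro j _ j' _ h
        simp only at h
        omega
    _ = _ := by push_cast; ring

/-- the neighbourhood of a cube -/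
theorem Sth_cel {z : R3} {s r : ℝ} (hs : 0 < s) (hrs : r ≤ s) :
    volume (Sth (cel Cb z s) r) ≤ ENNReal.ofReal (8 * (2 * s) ^ 3) := by
  have h1 : Sth (cel Cb z s) r ⊆ cel Cb z (2 * s) := by
    rintro y ⟨y0, hy0, hy⟩
    rw [mem_cel (by positivity)]
    intro i
    have h2 := (mem_cel hs).1 hy0 i
    have h3 := hy i
    calc |y i - z i| ≤ |y i - y0 i| + |y0 i - z i| := abs_sub_le _ _ _
      _ ≤ 2 * s := by linarith
  refine (measure_mono h1).trans ?_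
  rw [vol_cel (by positivity)]
  refine ENNReal.ofReal_le_ofReal (le_of_eq ?_)
  ring

/-- **the mass of `muO` in a set** -/
theorem muO_le {φ : R3 ≃L[ℝ] (Fin 3 → ℝ)} (hφ : ∀ x l, φ x l = x l) {D : Dat 3} (hC : 6 ≤ D.C)
    (K0 : ℕ) (a : R3) {S : Set R3} (hS : MeasurableSet S) :
    muO φ D K0 a S ≤ 9 * volume (Sth S ((2:ℝ) ^ K0)⁻¹) := by
  classical
  rw [← lintegral_indicator_one hS, muO, lint_segM (fun q => meas_Zg φ D _)
    (measurable_one.indicator hS)]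
  set pr : ℕ → (Fin 3 → ℤ) → Fin 3 → Prop := fun j z l =>
    ∃ σ ∈ Ioc (0:ℝ) 1, a + gx (hs K0 j) (z, l) + σ • gv (hs K0 j) (z, l) ∈
      Zg φ D (K0 + j) ∩ S with hpr
  have h1 : ∀ j z l, ENNReal.ofReal (hs K0 j ^ 3) * ∫⁻ σ in Ioc (0:ℝ) 1,
      (Zg φ D (K0 + j)).indicator (S.indicator (1 : R3 → ℝ≥0∞))
        (a + gx (hs K0 j) (z, l) + σ • gv (hs K0 j) (z, l)) ≤
      {l | pr j z l}.indicator (fun _ => ENNReal.ofReal (hs K0 j ^ 3)) l := by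
    intro j z l
    have h0 : ∀ σ : ℝ, (Zg φ D (K0 + j)).indicator (S.indicator (1 : R3 → ℝ≥0∞))
        (a + gx (hs K0 j) (z, l) + σ • gv (hs K0 j) (z, l)) =
        (Zg φ D (K0 + j) ∩ S).indicator (1 : R3 → ℝ≥0∞)
          (a + gx (hs K0 j) (z, l) + σ • gv (hs K0 j) (z, l)) := by
      intro σ
      rw [indicator_indicator]
    simp only [h0]
    by_cases hl : pr j z l
    · rw [indicator_of_mem (show l ∈ {l | pr j z l} from hl)]
      exact mul_le_of_le_one_right' (Crest.Agent.R096.Rmt_816.lint_le_one _ _)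
    · rw [Crest.Agent.R096.Rmt_816.lint_zero _ _ hl, mul_zero]
      exact zero_le
  have h2 := grid_count hφ hC K0 a S pr (fun j z l h => by
    obtain ⟨σ, hσ, hy⟩ := h
    refine ⟨_, hy.2, hy.1, fun i => ?_⟩
    have hh := hs_pos K0 j
    have e1 : (a + gx (hs K0 j) (z, l) + σ • gv (hs K0 j) (z, l)) i =
        a i + hs K0 j * z i + σ * (hs K0 j * (ed l : R3) i) := by
      rw [PiLp.add_apply, PiLp.add_apply, PiLp.smul_apply, gx, gv, ihom_apply, PiLp.smul_apply]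
      rfl
    rw [e1]
    have h3 : 0 ≤ (ed l : R3) i ∧ (ed l : R3) i ≤ 1 := by
      unfold ed
      rw [PiLp.single_apply]
      split_ifs <;> norm_num
    have h4 : 0 ≤ σ * (hs K0 j * (ed l : R3) i) :=
      mul_nonneg hσ.1.le (mul_nonneg hh.le h3.1)
    have h5 : σ * (hs K0 j * (ed l : R3) i) ≤ hs K0 j := by
      calc σ * (hs K0 j * (ed l : R3) i) ≤ 1 * (hs K0 j * 1) :=
            mul_le_mul hσ.2 (mul_le_mul_of_nonneg_left h3.2 hh.le)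
              (mul_nonneg hh.le h3.1) zero_le_one
        _ = hs K0 j := by ring
    constructor <;> nlinarith)
  rw [Fintype.card_fin] at h2
  calc _ = ∑' j, ∑' z, ∑' l, ENNReal.ofReal (hs K0 j ^ 3) * ∫⁻ σ in Ioc (0:ℝ) 1,
      (Zg φ D (K0 + j)).indicator (S.indicator (1 : R3 → ℝ≥0∞))
        (a + gx (hs K0 j) (z, l) + σ • gv (hs K0 j) (z, l)) := by
        rw [ENNReal.tsum_prod' (f := fun q : ℕ × (Fin 3 → ℤ) × Fin 3 => _)]
        refine tsum_congr fun j => ?_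
        rw [ENNReal.tsum_prod' (f := fun q : (Fin 3 → ℤ) × Fin 3 => _)]
    _ ≤ ∑' j, ∑' z, ∑' l, {l | pr j z l}.indicator
          (fun _ => ENNReal.ofReal (hs K0 j ^ 3)) l :=
        ENNReal.tsum_le_tsum fun j => ENNReal.tsum_le_tsum fun z =>
          ENNReal.tsum_le_tsum fun l => h1 j z l
    _ ≤ _ := h2.trans (le_of_eq (by
        push_cast
        norm_num))

/-- **the count of `coarse_E` / `energies`** -/
theorem muO_cel {φ : R3 ≃L[ℝ] (Fin 3 → ℝ)} (hφ : ∀ x l, φ x l = x l) {D : Dat 3} (hC : 6 ≤ D.C)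
    {K0 : ℕ} (a z : R3) {s : ℝ} (hs : 0 < s) (hK0 : ((2:ℝ) ^ K0)⁻¹ ≤ s) :
    muO φ D K0 a (cel Cb z s) ≤ ENNReal.ofReal (72 * (2 * s) ^ 3) := by
  refine (muO_le hφ hC K0 a (isClosed_cel z s).measurableSet).trans ?_
  calc 9 * volume (Sth (cel Cb z s) ((2:ℝ) ^ K0)⁻¹)
      ≤ ENNReal.ofReal 9 * ENNReal.ofReal (8 * (2 * s) ^ 3) := by
        gcongr
        · norm_num
        · exact Sth_cel hs hK0
    _ = _ := by
        rw [← ENNReal.ofReal_mul (by norm_num)]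
        congr 1
        ring

end

end Crest.Agent.R96.Els_538
end

-- ▼ part R096/Muf1_812
section

/-!
# Row 96 (helper812), p ≤ 2, (EL), [1F] (i): the random measure of the FACES of the graded outer mesh

`q = (j, z, l)` : the square of side `h = 2^-(K0+j)` at the lattice point `a + h z`, normal direction `l`.
* `muOF`, `rm_outerF : RM (Dt (2^K0)⁻¹) 18 (muOF φ D K0)`;
* `muOF_le`, `muOF_cel` : the counts (same numbers as 538's `muO_le`, `muO_cel`);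
* `muE` = edges + faces, `rm_muE` (36), `muE_cel` (144).
-/

set_option autoImplicit false
set_option linter.unusedSectionVars false
set_option maxHeartbeats 400000

open MeasureTheory Set Filter Metric Module
open scoped ENNReal NNReal Topology

namespace Crest.Agent.R096.Muf_812

open Crest.AnalysisR.VecCalc3 (R3)
open Crest.Agent.R96.Intr_538 Crest.Agent.R96.Coarse_538
open Crest.Agent.R096.Msh_810 (Dat)
open Crest.Agent.R96.Rmo_538 (Zg meas_Zg mem_Zg encard_Zg hs hs_pos hs_mul muO rm_outer)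
open Crest.Agent.R096.Rmg_793 (trM lint_trM rm_tr sum_lat)
open Crest.Agent.R096.Fsl_793 (fcM lint_fcM measurable_pt)
open Crest.Agent.R096.Fce_793 (pt)
open Crest.Agent.R96.Els_538 (Sth grid_count Sth_cel muO_cel)

noncomputable section

/-- index of the squares: scale, lattice point, normal direction -/
abbrev QF : Type := ℕ × (Fin 3 → ℤ) × Fin 3

/-- corner -/
def xF (K0 : ℕ) (q : QF) : R3 := gx (hs K0 q.1) q.2

/-- orthonormal frame -/
def eF (q : QF) : Fin 2 → R3 := ![ed (q.2.2 + 1), ed (q.2.2 + 2)]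

/-- parameter square -/
def sF (K0 : ℕ) (q : QF) : Set (ℝ × ℝ) := Icc 0 (hs K0 q.1) ×ˢ Icc 0 (hs K0 q.1)

/-- weight: `h` times area -/
def wF (K0 : ℕ) (q : QF) : ℝ≥0∞ := ENNReal.ofReal (hs K0 q.1)

/-- **the random measure of the faces of the graded mesh** -/
def muOF (φ : R3 ≃L[ℝ] (Fin 3 → ℝ)) (D : Dat 3) (K0 : ℕ) (a : R3) : Measure R3 :=
  trM (fcM (xF K0) eF (sF K0) (wF K0)) (fun q => Zg φ D (K0 + q.1)) a

theorem meas_sF (K0 : ℕ) (q : QF) : MeasurableSet (sF K0 q) := measurableSet_Icc.prod measurableSet_Icc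

theorem vol_sF (K0 : ℕ) (q : QF) : volume (sF K0 q) = ENNReal.ofReal (hs K0 q.1 ^ 2) := by
  rw [sF, Measure.volume_eq_prod, Measure.prod_prod, Real.volume_Icc, sub_zero,
    ← ENNReal.ofReal_mul (hs_pos K0 q.1).le]
  congr 1
  ring




/-- the mass of one square -/
theorem mass_fcM (K0 : ℕ) (q : QF) :
    fcM (xF K0) eF (sF K0) (wF K0) q univ = ENNReal.ofReal (hs K0 q.1 ^ 3) := by
  have hh := hs_pos K0 q.1
  rw [fcM, Measure.smul_apply, smul_eq_mul, Measure.map_apply (measurable_pt _ _) MeasurableSet.univ,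
    preimage_univ, Measure.restrict_apply_univ, vol_sF, wF, ← ENNReal.ofReal_mul hh.le]
  congr 1
  ring

/-- the squares of one scale and one direction are the translates of one of them -/
theorem fcM_shift (K0 j : ℕ) (z : Fin 3 → ℤ) (l : Fin 3) :
    fcM (xF K0) eF (sF K0) (wF K0) (j, z, l) =
      (fcM (xF K0) eF (sF K0) (wF K0) (j, 0, l)).map (fun x => ihom (hs K0 j) z + x) := by
  have hm : Measurable fun x : R3 => ihom (hs K0 j) z + x := by fun_prop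
  have key : pt (eF (j, z, l)) (xF K0 (j, z, l)) =
      (fun x => ihom (hs K0 j) z + x) ∘ pt (eF (j, 0, l)) (xF K0 (j, 0, l)) := by
    funext u
    simp only [Function.comp_apply, pt, xF, gx, map_zero, zero_add]
    rfl
  rw [fcM, fcM, Measure.map_smul, Measure.map_map hm (measurable_pt _ _), key]
  rfl

/-- **density 18** -/
theorem rm_outerF (φ : R3 ≃L[ℝ] (Fin 3 → ℝ)) (D : Dat 3) (K0 : ℕ) :
    RM (Dt ((2:ℝ) ^ K0)⁻¹) 18 (muOF φ D K0) := by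
  classical
  set t : ℝ := ((2:ℝ) ^ K0)⁻¹ with ht
  have ht0 : 0 < t := by positivity
  refine rm_tr (meas_Dt t) (fun q => meas_Zg φ D _) fun y => ?_
  rw [vol_Dt ht0, ENNReal.tsum_prod' (f := fun q : ℕ × (Fin 3 → ℤ) × Fin 3 => _)]
  have h1 : ∀ j : ℕ, ∑' q : (Fin 3 → ℤ) × Fin 3, (Zg φ D (K0 + j)).indicator 1 y *
      fcM (xF K0) eF (sF K0) (wF K0) (j, q) {x | y - x ∈ Dt t} ≤
      (Zg φ D (K0 + j)).indicator 1 y * (3 * ENNReal.ofReal (t ^ 3)) := by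
    intro j
    have hh := hs_pos K0 j
    have hth : t = ((2 ^ j : ℕ) : ℝ) * hs K0 j := by
      unfold hs
      rw [← ht]
      field_simp
    rw [ENNReal.tsum_mul_left]
    gcongr
    rw [ENNReal.tsum_prod', ENNReal.tsum_comm, tsum_fintype]
    have h2 : ∀ l : Fin 3, ∑' z : Fin 3 → ℤ,
        fcM (xF K0) eF (sF K0) (wF K0) (j, z, l) {x | y - x ∈ Dt t} ≤ ENNReal.ofReal (t ^ 3) := by
      intro l
      have h3 := sum_lat hh (2 ^ j) (fcM (xF K0) eF (sF K0) (wF K0) (j, 0, l)) y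
      rw [← hth, mass_fcM] at h3
      calc ∑' z : Fin 3 → ℤ, fcM (xF K0) eF (sF K0) (wF K0) (j, z, l) {x | y - x ∈ Dt t}
          = ∑' z : Fin 3 → ℤ, ((fcM (xF K0) eF (sF K0) (wF K0) (j, 0, l)).map
              (fun x => ihom (hs K0 j) z + x)) {x | y - x ∈ Dt t} :=
            tsum_congr fun z => by rw [fcM_shift]
        _ ≤ _ := h3
        _ = ENNReal.ofReal (t ^ 3) := by
            simp only
            rw [← ENNReal.ofReal_natCast, ← ENNReal.ofReal_pow (Nat.cast_nonneg _),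
              ← ENNReal.ofReal_mul (by positivity)]
            congr 1
            rw [← mul_pow, ← hth]
    calc ∑ l : Fin 3, ∑' z : Fin 3 → ℤ,
          fcM (xF K0) eF (sF K0) (wF K0) (j, z, l) {x | y - x ∈ Dt t}
        ≤ ∑ _l : Fin 3, ENNReal.ofReal (t ^ 3) := Finset.sum_le_sum fun l _ => h2 l
      _ = 3 * ENNReal.ofReal (t ^ 3) := by
          rw [Finset.sum_const, Finset.card_univ, Fintype.card_fin, nsmul_eq_mul]
          norm_num
  calc _ ≤ ∑' j, (Zg φ D (K0 + j)).indicator 1 y * (3 * ENNReal.ofReal (t ^ 3)) :=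
        ENNReal.tsum_le_tsum h1
    _ = ({j | y ∈ Zg φ D (K0 + j)}.encard : ℝ≥0∞) * (3 * ENNReal.ofReal (t ^ 3)) := by
        rw [ENNReal.tsum_mul_right]
        congr 1
        have h8 : ∀ j, (Zg φ D (K0 + j)).indicator (1 : R3 → ℝ≥0∞) y =
            {j | y ∈ Zg φ D (K0 + j)}.indicator (1 : ℕ → ℝ≥0∞) j := by
          intro j
          by_cases hj : y ∈ Zg φ D (K0 + j)
          · rw [indicator_of_mem hj, indicator_of_mem
              (show j ∈ {j | y ∈ Zg φ D (K0 + j)} from hj)]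
            rfl
          · rw [indicator_of_notMem hj, indicator_of_notMem
              (show j ∉ {j | y ∈ Zg φ D (K0 + j)} from hj)]
        rw [tsum_congr h8, ← tsum_subtype, Pi.one_def, ENNReal.tsum_set_one]
    _ ≤ (((6 : ℕ) : ℕ∞) : ℝ≥0∞) * (3 * ENNReal.ofReal (t ^ 3)) := by
        gcongr
        exact encard_Zg φ D K0 y
    _ = 18 * ENNReal.ofReal (t ^ 3) := by
        rw [← mul_assoc]
        congr 1
        norm_num

/-- the points of a square -/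
theorem pt_bd (K0 j : ℕ) (z : Fin 3 → ℤ) (l : Fin 3) (a : R3) {u : ℝ × ℝ}
    (hu : u ∈ sF K0 (j, z, l)) (i : Fin 3) :
    a i + hs K0 j * z i ≤ pt (eF (j, z, l)) (a + xF K0 (j, z, l)) u i ∧
      pt (eF (j, z, l)) (a + xF K0 (j, z, l)) u i ≤ a i + hs K0 j * (z i + 1) := by
  have hh := hs_pos K0 j
  have h1 : 0 ≤ u.1 ∧ u.1 ≤ hs K0 j := hu.1
  have h2 : 0 ≤ u.2 ∧ u.2 ≤ hs K0 j := hu.2
  have e1 : pt (eF (j, z, l)) (a + xF K0 (j, z, l)) u i =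
      a i + hs K0 j * z i + (u.1 * (ed (l + 1) : R3) i + u.2 * (ed (l + 2) : R3) i) := by
    simp only [pt, PiLp.add_apply, PiLp.smul_apply, xF, gx, ihom_apply, smul_eq_mul]
    rfl
  have h3 : 0 ≤ u.1 * (ed (l + 1) : R3) i + u.2 * (ed (l + 2) : R3) i ∧
      u.1 * (ed (l + 1) : R3) i + u.2 * (ed (l + 2) : R3) i ≤ hs K0 j := by
    fin_cases l <;> fin_cases i <;>
      simp [ed, h1.1, h1.2, h2.1, h2.2, hh.le]
  rw [e1]
  constructor <;> nlinarith [h3.1, h3.2]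

/-- **the mass of `muOF` in a set** -/
theorem muOF_le {φ : R3 ≃L[ℝ] (Fin 3 → ℝ)} (hφ : ∀ x l, φ x l = x l) {D : Dat 3} (hC : 6 ≤ D.C)
    (K0 : ℕ) (a : R3) {S : Set R3} (hS : MeasurableSet S) :
    muOF φ D K0 a S ≤ 9 * volume (Sth S ((2:ℝ) ^ K0)⁻¹) := by
  classical
  rw [← lintegral_indicator_one hS, muOF, lint_fcM (fun q => meas_Zg φ D _)
    (measurable_one.indicator hS)]
  set pr : ℕ → (Fin 3 → ℤ) → Fin 3 → Prop := fun j z l =>
    ∃ u ∈ sF K0 (j, z, l), pt (eF (j, z, l)) (a + xF K0 (j, z, l)) u ∈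
      Zg φ D (K0 + j) ∩ S with hpr
  have h1 : ∀ j z l, wF K0 (j, z, l) * ∫⁻ u in sF K0 (j, z, l),
      (Zg φ D (K0 + j)).indicator (S.indicator (1 : R3 → ℝ≥0∞))
        (pt (eF (j, z, l)) (a + xF K0 (j, z, l)) u) ≤
      {l | pr j z l}.indicator (fun _ => ENNReal.ofReal (hs K0 j ^ 3)) l := by
    intro j z l
    have hh := hs_pos K0 j
    have h0 : ∀ u : ℝ × ℝ, (Zg φ D (K0 + j)).indicator (S.indicator (1 : R3 → ℝ≥0∞))
        (pt (eF (j, z, l)) (a + xF K0 (j, z, l)) u) =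
        (Zg φ D (K0 + j) ∩ S).indicator (1 : R3 → ℝ≥0∞)
          (pt (eF (j, z, l)) (a + xF K0 (j, z, l)) u) := by
      intro u
      rw [indicator_indicator]
    simp only [h0]
    by_cases hl : pr j z l
    · rw [indicator_of_mem (show l ∈ {l | pr j z l} from hl)]
      calc wF K0 (j, z, l) * ∫⁻ u in sF K0 (j, z, l),
            (Zg φ D (K0 + j) ∩ S).indicator (1 : R3 → ℝ≥0∞)
              (pt (eF (j, z, l)) (a + xF K0 (j, z, l)) u)
          ≤ wF K0 (j, z, l) * ∫⁻ _u in sF K0 (j, z, l), 1 := by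
            gcongr with u
            exact indicator_le_self _ _ _
        _ = ENNReal.ofReal (hs K0 j) * ENNReal.ofReal (hs K0 j ^ 2) := by
            rw [lintegral_one, Measure.restrict_apply_univ, vol_sF]
            rfl
        _ = _ := by
            rw [← ENNReal.ofReal_mul hh.le]
            congr 1
            ring
    · have h3 : ∫⁻ u in sF K0 (j, z, l), (Zg φ D (K0 + j) ∩ S).indicator (1 : R3 → ℝ≥0∞)
              (pt (eF (j, z, l)) (a + xF K0 (j, z, l)) u) = 0 := by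
        rw [setLIntegral_congr_fun (g := fun _ => 0) (meas_sF K0 _) fun u hu =>
          indicator_of_notMem (fun h4 => hl ⟨u, hu, h4⟩) _, lintegral_zero]
      rw [h3, mul_zero]
      exact zero_le
  have h2 := grid_count hφ hC K0 a S pr (fun j z l h => by
    obtain ⟨u, hu, hy⟩ := h
    exact ⟨_, hy.2, hy.1, fun i => pt_bd K0 j z l a hu i⟩)
  rw [Fintype.card_fin] at h2
  calc _ = ∑' j, ∑' z, ∑' l, wF K0 (j, z, l) * ∫⁻ u in sF K0 (j, z, l),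
      (Zg φ D (K0 + j)).indicator (S.indicator (1 : R3 → ℝ≥0∞))
        (pt (eF (j, z, l)) (a + xF K0 (j, z, l)) u) := by
        rw [ENNReal.tsum_prod' (f := fun q : ℕ × (Fin 3 → ℤ) × Fin 3 => _)]
        refine tsum_congr fun j => ?_
        rw [ENNReal.tsum_prod' (f := fun q : (Fin 3 → ℤ) × Fin 3 => _)]
    _ ≤ ∑' j, ∑' z, ∑' l, {l | pr j z l}.indicator
          (fun _ => ENNReal.ofReal (hs K0 j ^ 3)) l :=
        ENNReal.tsum_le_tsum fun j => ENNReal.tsum_le_tsum fun z =>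
          ENNReal.tsum_le_tsum fun l => h1 j z l
    _ ≤ _ := h2.trans (le_of_eq (by
        push_cast
        norm_num))

/-- **the count** -/
theorem muOF_cel {φ : R3 ≃L[ℝ] (Fin 3 → ℝ)} (hφ : ∀ x l, φ x l = x l) {D : Dat 3} (hC : 6 ≤ D.C)
    {K0 : ℕ} (a z : R3) {s : ℝ} (hs : 0 < s) (hK0 : ((2:ℝ) ^ K0)⁻¹ ≤ s) :
    muOF φ D K0 a (cel Cb z s) ≤ ENNReal.ofReal (72 * (2 * s) ^ 3) := by
  refine (muOF_le hφ hC K0 a (isCompact_cel ref_Cb.cpt z s).isClosed.measurableSet).trans ?_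
  calc 9 * volume (Sth (cel Cb z s) ((2:ℝ) ^ K0)⁻¹)
      ≤ ENNReal.ofReal 9 * ENNReal.ofReal (8 * (2 * s) ^ 3) := by
        gcongr
        · norm_num
        · exact Sth_cel hs hK0
    _ = _ := by
        rw [← ENNReal.ofReal_mul (by norm_num)]
        congr 1
        ring

/-- **edges and faces together** -/
def muE (φ : R3 ≃L[ℝ] (Fin 3 → ℝ)) (D : Dat 3) (K0 : ℕ) (a : R3) : Measure R3 :=
  muO φ D K0 a + muOF φ D K0 a

theorem rm_muE (φ : R3 ≃L[ℝ] (Fin 3 → ℝ)) (D : Dat 3) (K0 : ℕ) :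
    RM (Dt ((2:ℝ) ^ K0)⁻¹) 36 (muE φ D K0) := by
  have h := (rm_outer φ D K0).add (rm_outerF φ D K0)
  have e : (18 : ℝ≥0∞) + 18 = 36 := by norm_num
  rw [e] at h
  exact h

theorem muE_cel {φ : R3 ≃L[ℝ] (Fin 3 → ℝ)} (hφ : ∀ x l, φ x l = x l) {D : Dat 3} (hC : 6 ≤ D.C)
    {K0 : ℕ} (a z : R3) {s : ℝ} (hs : 0 < s) (hK0 : ((2:ℝ) ^ K0)⁻¹ ≤ s) :
    muE φ D K0 a (cel Cb z s) ≤ ENNReal.ofReal (144 * (2 * s) ^ 3) := by
  rw [muE, Measure.add_apply]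
  refine (add_le_add (muO_cel hφ hC a z hs hK0) (muOF_cel hφ hC a z hs hK0)).trans ?_
  rw [← ENNReal.ofReal_add (by positivity) (by positivity)]
  exact ENNReal.ofReal_le_ofReal (by linarith)


end

end Crest.Agent.R096.Muf_812
end

-- ▼ part R096/Elf3_565
section

set_option autoImplicit false
set_option linter.unusedSectionVars false
set_option maxHeartbeats 400000

open MeasureTheory Set Metric
open scoped ENNReal NNReal

namespace Crest.Agent.R096.Elf_565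

open Crest.AnalysisR.VecCalc3 (R3)
open Crest.Agent.R096.Msh_715 Crest.Agent.R096.Msh_715.Tiling Crest.Agent.R096.Mal_874
open Crest.Agent.R096.Msb_432 Crest.Agent.R096.Msh_810 Crest.Agent.R096.Cut_874
open Crest.Agent.R096.Fce_793 (pt)
open Crest.Agent.R96.Coarse_538 (ed ihom segM)
open Crest.Agent.R096.Fsl_793 (fcM)
open Crest.Agent.R096.Rmg_793 (trM)
open Crest.Agent.R96.Wm_72 (Zr)
open Crest.Agent.R96.Rmo_538 (Zg mem_Zg hs hs_pos muO)
open Crest.Agent.R096.Sq_55 (E3 w2 Sys FaceOf)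
open Crest.Agent.R096.Cob_622 (EF)
open Crest.Agent.R096.Efi_296
open Crest.Agent.R096.Cbs_296 (nbT finite_nbT ncard_faces_le)
open Crest.Agent.R096.Muf_812 (muOF muE xF eF sF wF)
open Crest.Agent.R96.Els_538

noncomputable section

variable {J : Type*} {M : MD R3 3 J} {k : J → ℕ} {hk : M.Sc k} {a : R3} {v : J → R3}
  {hv : M.Adm v}

/-- **number of the tiles which meet a far outer tile** -/
theorem far_nb (hC : 2 ≤ M.D0.C) {t : SIx M hk (M.φ a) hv} (ht : Far M hk (M.φ a) hv t) :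
    (nbT (Te (meshS M hk (M.φ a) hv)) t).ncard ≤ 1029 := by
  classical
  have key : ∀ l ∈ nbT (Te (meshS M hk (M.φ a) hv)) t, ∃ y : R3,
      y ∈ P ((meshS M hk (M.φ a) hv).H l) ∧ y ∈ P ((meshS M hk (M.φ a) hv).H t) := by
    rintro l ⟨y, h1, h2⟩
    exact ⟨w2 y, (Crest.Agent.R096.Ttr_622.mem_P_tr _ _).1 h1,
      (Crest.Agent.R096.Ttr_622.mem_P_tr _ _).1 h2⟩
  rcases (nbT (Te (meshS M hk (M.φ a) hv)) t).eq_empty_or_nonempty with h0 | ⟨l0, hl0⟩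
  · rw [h0]; simp
  obtain ⟨y0, -, hy0⟩ := key l0 hl0
  obtain ⟨p, hp, hpR⟩ := touch_far ht hy0 hy0
  have : Nonempty (M.OIx hk (M.φ a) hv) := ⟨p⟩
  have one : ∀ l : SIx M hk (M.φ a) hv, ∃ (pp : M.OIx hk (M.φ a) hv) (y : R3),
      l ∈ nbT (Te (meshS M hk (M.φ a) hv)) t → l = oS M hk (M.φ a) hv pp ∧
      Rgo M hk (M.φ a) hv pp ∧ y ∈ P ((meshS M hk (M.φ a) hv).H l) ∧
      y ∈ P ((meshS M hk (M.φ a) hv).H t) := by
    intro l
    by_cases hl : l ∈ nbT (Te (meshS M hk (M.φ a) hv)) t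
    · obtain ⟨y, hy, hyt⟩ := key l hl
      obtain ⟨pp, hpp, hppR⟩ := touch_far ht hyt hy
      exact ⟨pp, y, fun _ => ⟨hpp, hppR, hy, hyt⟩⟩
    · exact ⟨p, 0, fun h => absurd h hl⟩
  choose pp yy hpy using one
  obtain ⟨hfin, hcard⟩ := Crest.Agent.R096.Nbr_896.tile_card (M.ad hk (M.φ a) hv).D (M.φ y0)
    p.1.par.1.1.k 1
  refine (ncard_le_ncard_of_injOn (fun l => (pp l).1.par) (fun l hl => ?_) ?_ hfin).trans
    (hcard.trans (by norm_num))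
  · obtain ⟨e1, e2, e3, e4⟩ := hpy l hl
    have f1 : M.φ (yy l) ∈ Zr (Dw M k) p.1.par.1.1.k := hpR.sub_Zr (hp ▸ e4)
    have f2 : M.φ (yy l) ∈ Zr (Dw M k) (pp l).1.par.1.1.k := e2.sub_Zr (e1 ▸ e3)
    have f3 : p.1.par.1.1.k ≤ (pp l).1.par.1.1.k + 1 := scale_near (D := Dw M k) hC f2 f1
    have f4 : (pp l).1.par.1.1.k ≤ p.1.par.1.1.k + 1 := scale_near (D := Dw M k) hC f1 f2
    have f5 : yy l ∈ M.φ ⁻¹' Cu (M.φ a) (pp l).1.par.1.1.k (pp l).1.par.1.1.z := by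
      rw [← e2.P_eq, ← e1]; exact e3
    have f6 : yy l ∈ M.φ ⁻¹' Cu (M.φ a) p.1.par.1.1.k p.1.par.1.1.z := by
      rw [← hpR.P_eq, ← hp]; exact e4
    have f7 : y0 ∈ M.φ ⁻¹' Cu (M.φ a) p.1.par.1.1.k p.1.par.1.1.z := by
      rw [← hpR.P_eq, ← hp]; exact hy0
    refine ⟨f3, f4, M.φ (yy l), f5, ?_⟩
    rw [dist_pi_le_iff (by positivity)]
    intro i
    have g1 := mem_Cu.1 f6 i
    have g2 := mem_Cu.1 f7 i
    unfold ps at g1 g2
    rw [Real.dist_eq, Nat.cast_one, abs_le, le_div_iff₀ (by positivity), ← neg_div,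
      div_le_iff₀ (by positivity)]
    constructor <;> nlinarith [g1.1, g1.2, g2.1, g2.2]
  · intro l hl l' hl' hll
    obtain ⟨e1, e2, -, -⟩ := hpy l hl
    obtain ⟨e1', e2', -, -⟩ := hpy l' hl'
    simp only at hll
    rw [e1, e1']
    exact e2.inj e2' (by rw [hll]) (by rw [hll])

section cls

variable {s : Finset (SIx M hk (M.φ a) hv)} {pr : (Te (meshS M hk (M.φ a) hv)).Cell → Prop}

/-- **CLASS (1): the sum of `J` over far outer tiles against `muE`** -/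
theorem outer_J (hS : Std M) {K0 : ℕ} (hK0 : ∀ y, M.D0.ρ y ≤ M.D0.C / 2 ^ K0) (hC : 2 ≤ M.D0.C)
    {X : Sys s (reps (Te (meshS M hk (M.φ a) hv)) s pr)} {Om' : Set R3} {g : R3 → ℝ≥0∞}
    (D : EF X Om' g (EgS (Te (meshS M hk (M.φ a) hv)) s)
      (FcS (Te (meshS M hk (M.φ a) hv)) s pr)) {c : SIx M hk (M.φ a) hv → E3}
    (hc : ∀ i, c i ∈ I ((Te (meshS M hk (M.φ a) hv)).H i))
    (hXF : ∀ x : reps (Te (meshS M hk (M.φ a) hv)) s pr,
      FaceOf (Te (meshS M hk (M.φ a) hv)) c (x : E3) (X.F x))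
    (hXP : ∀ t : s, (X.C t).P = P ((Te (meshS M hk (M.φ a) hv)).H t))
    (hfc : ∀ b, D.fc b = w2 '' b.1.set)
    (hrE : ∀ x, D.rimE x = rimS (Te (meshS M hk (M.φ a) hv)) s (x : E3))
    (hEe : ∀ b : EgS (Te (meshS M hk (M.φ a) hv)) s, ∀ y w : R3,
      w2 '' b.1.set = segment ℝ y (y + w) →
      D.Ee b ≤ ENNReal.ofReal (64 * ‖w‖) * ∫⁻ σ in Ioc (0:ℝ) 1, g (y + σ • w)) {CE : ℝ≥0∞}
    (hEf : ∀ (b : FcS (Te (meshS M hk (M.φ a) hv)) s pr) (e' : Fin 2 → R3) (x' : R3)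
      (Q' : Set (ℝ × ℝ)), (∀ i, ‖e' i‖ = 1) → inner ℝ (e' 0) (e' 1) = 0 → MeasurableSet Q' →
      w2 '' b.1.set = pt e' x' '' Q' → D.Ef b ≤ CE * ∫⁻ w in Q', g (pt e' x' w))
    {K : Finset s} (hK : ∀ t ∈ K, Far M hk (M.φ a) hv t) {r : s → ℝ≥0}
    (hr : ∀ t ∈ K, ∀ x : reps (Te (meshS M hk (M.φ a) hv)) s pr,
      (t : SIx M hk (M.φ a) hv) ∈ (Te (meshS M hk (M.φ a) hv)).at_ (x : E3) → (X.F x).ρ ≤ r t)
    {S : Set R3} (hSm : MeasurableSet S)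
    (hKS : ∀ t ∈ K, ∀ t' : SIx M hk (M.φ a) hv, (P ((meshS M hk (M.φ a) hv).H t) ∩
      P ((meshS M hk (M.φ a) hv).H t')).Nonempty → P ((meshS M hk (M.φ a) hv).H t') ⊆ S)
    {Λ : ℝ≥0}
    (hR : ∀ t ∈ K, ∀ p, (t : SIx M hk (M.φ a) hv) = oS M hk (M.φ a) hv p →
      ((X.C t).R : ℝ) ≤ Λ * (1 / 2 ^ (p.1.par.1.1.k + 1)) ∧
      (r t : ℝ) ≤ Λ * (1 / 2 ^ (p.1.par.1.1.k + 1))) :
    ∑ t ∈ K, D.J t ≤ (1580544 * (Λ:ℝ≥0∞) ^ 2 + 384 * Λ * CE) *
      ∫⁻ y in S, g y ∂(muE M.φ (Dw M k) K0 a) := by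
  classical
  have hKS' : ∀ t ∈ K, P ((meshS M hk (M.φ a) hv).H t) ⊆ S := by
    intro t ht
    rcases (P ((meshS M hk (M.φ a) hv).H (t : SIx M hk (M.φ a) hv))).eq_empty_or_nonempty with
      h0 | h0
    · rw [h0]; exact empty_subset _
    · exact hKS t ht _ (by rwa [inter_self])
  have key := sum_J_cls (g := g) D hc hXF hXP hfc hrE hEe K (n := 1029) hr
    (fun t ht => (ncard_faces_le _ s pr _).trans (far_nb hC (hK t ht))) hSm (a := a)
    (fun b hb => outer_hE hS hK0 hK hKS' (Rr := fun t => (X.C t).R) (rr := r) hR b hb)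
    (fun b K' hK' hb => outer_hm hK b K' hK' hb)
    (Cf := 2 * Λ * CE) (e := eF) (xx := xF K0) (Q := sF K0) (wf := wF K0)
    (Af := fun q => Zg M.φ (Dw M k) (K0 + q.1))
    (fun b hb => outer_hF hS hK0 hC hK hKS (Rr := fun t => (X.C t).R)
      (fun t ht p h => (hR t ht p h).1) (Ef := D.Ef) hEf b hb)
    (fun b K' hK' hb => outer_hm' hS hK0 hC hK b K' hK' hb)
  rw [muO_eq] at key
  refine key.trans ?_
  have e1 : ∫⁻ y in S, g y ∂(muE M.φ (Dw M k) K0 a) =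
      ∫⁻ y in S, g y ∂(muO M.φ (Dw M k) K0 a) +
        ∫⁻ y in S, g y ∂(muOF M.φ (Dw M k) K0 a) := by
    unfold muE
    rw [Measure.restrict_add, lintegral_add_measure]
  rw [e1]
  set A := ∫⁻ y in S, g y ∂(muO M.φ (Dw M k) K0 a)
  have e2 : ∫⁻ y in S, g y ∂(trM (fcM (xF K0) eF (sF K0) (wF K0))
      (fun q => Zg M.φ (Dw M k) (K0 + q.1)) a) =
      ∫⁻ y in S, g y ∂(muOF M.φ (Dw M k) K0 a) := rfl
  rw [e2]
  set B := ∫⁻ y in S, g y ∂(muOF M.φ (Dw M k) K0 a)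
  have e3 : (64 * ((1029 : ℕ) : ℝ≥0∞) * (Λ:ℝ≥0∞) ^ 2) * (((24 : ℕ) : ℝ≥0∞) * A) =
      1580544 * (Λ:ℝ≥0∞) ^ 2 * A := by
    push_cast
    ring
  have e4 : (2 * Λ * CE) * (((192 : ℕ) : ℝ≥0∞) * B) = 384 * Λ * CE * B := by
    push_cast
    ring
  rw [e3, e4, mul_add]
  gcongr
  · exact le_self_add
  · exact le_add_self

end cls

end

end Crest.Agent.R096.Elf_565
end

-- ▼ part R96/Cl1a_538
section

set_option autoImplicit false
set_option linter.unusedSectionVars false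
set_option linter.style.longLine false
set_option maxHeartbeats 400000

open MeasureTheory Set Filter Metric Module
open scoped ENNReal NNReal Topology

namespace Crest.Agent.R96.Eld_538

open Crest.AnalysisR.VecCalc3 (R3)
open Crest.Agent.R96.Coarse_538 (Cb vt Dt RM)
open Crest.Agent.R96.Intr_538 (cel)
open Crest.Agent.R096.Fce_793 (pt)
open Crest.Agent.R096.Msh_715 (P I Tiling)
open Crest.Agent.R096.Mal_874 (CB MD reOm dist_cube AD AF_ne)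
open Crest.Agent.R096.Br_695 (En)
open Crest.Agent.R096.Sq_55 (E3 Sys FaceOf w2)
open Crest.Agent.R096.Cob_622 (EF)
open Crest.Agent.R096.Efi_296
open Crest.Agent.R096.Cbs_296 (SysOf)
open Crest.Agent.R096.Ca_855 (MIn dist_le_P3s)
open Crest.Agent.R096.Rmt_816 (Bj Cl2 Cl3 norm_D0)
open Crest.Agent.R096.Onf_802 (ON)
open Crest.Agent.R96.En10_199 (P3)
open Crest.Agent.R096.Msb_432 (meshS cubH_sub Kc_sub_N)
open Crest.Agent.R96.Els_538 (SIx oS Far Std Dw touch_far)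
open Crest.Agent.R096.Muf_812 (muE rm_muE muE_cel)
open Crest.Agent.R096.Elf_565 (outer_J)
open Crest.Agent.R096.Cut_874 (cut_tile_sub)

noncomputable section

/-- 565's `outer_J` for `reOm` of the mesh and another name of the shift -/
theorem outer_J_re {J : Type*} {M : MD R3 3 J} {k : J → ℕ} {hk : M.Sc k} {a : R3} {v : J → R3}
    {hv : M.Adm v} {a' : Fin 3 → ℝ} (ha : a' = M.φ a) {Om : Set R3}
    (e : M.φ ⁻¹' M.D0.Om = Om) (hS : Std M) {K0 : ℕ} (hK0 : ∀ y, M.D0.ρ y ≤ M.D0.C / 2 ^ K0)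
    (hC : 2 ≤ M.D0.C) {T : Tiling Om (SIx M hk a' hv)} (hT : T = reOm (meshS M hk a' hv) e)
    {s : Finset (SIx M hk a' hv)} {pr : (Te T).Cell → Prop}
    {X : Sys s (reps (Te T) s pr)} {Om' : Set R3} {g : R3 → ℝ≥0∞}
    (D : EF X Om' g (EgS (Te T) s) (FcS (Te T) s pr)) {c : SIx M hk a' hv → E3}
    (hc : ∀ i, c i ∈ I ((Te T).H i))
    (hXF : ∀ x : reps (Te T) s pr, FaceOf (Te T) c (x : E3) (X.F x))
    (hXP : ∀ t : s, (X.C t).P = P ((Te T).H t))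
    (hfc : ∀ b, D.fc b = w2 '' b.1.set)
    (hrE : ∀ x, D.rimE x = rimS (Te T) s (x : E3))
    (hEe : ∀ b : EgS (Te T) s, ∀ y w : R3, w2 '' b.1.set = segment ℝ y (y + w) →
      D.Ee b ≤ ENNReal.ofReal (64 * ‖w‖) * ∫⁻ σ in Ioc (0:ℝ) 1, g (y + σ • w)) {CE : ℝ≥0∞}
    (hEf : ∀ (b : FcS (Te T) s pr) (e' : Fin 2 → R3) (x' : R3)
      (Q' : Set (ℝ × ℝ)), (∀ i, ‖e' i‖ = 1) → inner ℝ (e' 0) (e' 1) = 0 → MeasurableSet Q' →
      w2 '' b.1.set = pt e' x' '' Q' → D.Ef b ≤ CE * ∫⁻ w in Q', g (pt e' x' w))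
    {K : Finset s} (hK : ∀ t ∈ K, Far M hk a' hv t) {r : s → ℝ≥0}
    (hr : ∀ t ∈ K, ∀ x : reps (Te T) s pr,
      (t : SIx M hk a' hv) ∈ (Te T).at_ (x : E3) → (X.F x).ρ ≤ r t)
    {S : Set R3} (hSm : MeasurableSet S)
    (hKS : ∀ t ∈ K, ∀ t' : SIx M hk a' hv, (P (T.H t) ∩ P (T.H t')).Nonempty → P (T.H t') ⊆ S)
    {Λ : ℝ≥0}
    (hR : ∀ t ∈ K, ∀ p, (t : SIx M hk a' hv) = oS M hk a' hv p →
      ((X.C t).R : ℝ) ≤ Λ * (1 / 2 ^ (p.1.par.1.1.k + 1)) ∧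
      (r t : ℝ) ≤ Λ * (1 / 2 ^ (p.1.par.1.1.k + 1))) :
    ∑ t ∈ K, D.J t ≤ (1580544 * (Λ:ℝ≥0∞) ^ 2 + 384 * Λ * CE) *
      ∫⁻ y in S, g y ∂(muE M.φ (Dw M k) K0 a) := by
  subst ha
  subst e
  have hT' : T = meshS M hk (M.φ a) hv := hT
  clear hT
  subst hT'
  exact outer_J hS hK0 hC D hc hXF hXP hfc hrE hEe hEf hK hr hSm hKS hR

variable {Om W : Set R3} {ρ₀ : R3 → ℝ} {J : Type} [Finite J] {Qb : J → CB R3 3} {k0 : ℕ} {σ : ℝ}

/-- the far tiles of class (1) -/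
theorem far_of_cl1 (h : MIn Om W ρ₀ Qb k0 σ) {a : R3} {i : h.ιT a} (hi : Cl1 h 4 a i) :
    Far h.M h.sc (0 + h.M.φ (h.cl a)) (h.adm a) i := by
  have hd : ∀ j, ∀ x ∈ P ((h.T a).H i), ∀ y ∈ frontier (Bj h a j).N,
      2 / 2 ^ k0 < dist (P3.symm x) (P3.symm y) := by
    intro j x hx y hy
    refine lt_of_le_of_lt ?_ (hi.2 j x hx y hy)
    exact div_le_div_of_nonneg_right (by norm_num) (by positivity)
  refine ⟨?_, hd⟩
  have h1 := hi.1
  rcases i with ⟨p | ⟨l, i⟩, hc⟩ | ⟨l, z'⟩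
  · exact ⟨p, rfl⟩
  · exact absurd (fun x hx => i.2 hx) (h1 l)
  · exact absurd (fun x hx => Kc_sub_N _ (cubH_sub _ hx)) (h1 l)

/-- the diameter of an outer piece -/
theorem diam_piece (h : MIn Om W ρ₀ Qb k0 σ) {a : R3} {i : h.ιT a}
    {p : h.M.OIx h.sc (0 + h.M.φ (h.cl a)) (h.adm a)}
    (hp : i = oS h.M h.sc (0 + h.M.φ (h.cl a)) (h.adm a) p) {x x' : R3}
    (hx : x ∈ P ((h.T a).H i)) (hx' : x' ∈ P ((h.T a).H i)) :
    ‖x - x'‖ ≤ 4 * (1 / 2 ^ (p.1.par.1.1.k + 1)) := by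
  subst hp
  have hsub : P ((h.M.mesh h.sc (0 + h.M.φ (h.cl a)) (h.adm a)).H (Sum.inl p)) ⊆
      P ((h.M.ad h.sc (0 + h.M.φ (h.cl a)) (h.adm a)).T0.H p.1.par) :=
    cut_tile_sub (hA := AF_ne) p.1
  have h1 := dist_cube ((AD.tile_T0 (M := h.M.ad h.sc (0 + h.M.φ (h.cl a)) (h.adm a)) _).1
    (hsub hx)) ((AD.tile_T0 (M := h.M.ad h.sc (0 + h.M.φ (h.cl a)) (h.adm a)) _).1 (hsub hx'))
  have h2 := dist_le_P3s x x'
  rw [← dist_eq_norm]
  refine h2.trans ?_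
  have e : (4:ℝ) * (1 / 2 ^ (p.1.par.1.1.k + 1)) = 2 * (1 / 2 ^ p.1.par.1.1.k) := by
    rw [pow_succ]; field_simp; norm_num
  rw [e]
  exact mul_le_mul_of_nonneg_left h1 (by norm_num)

theorem std_M (h : MIn Om W ρ₀ Qb k0 σ) : Std h.M := fun _ _ => rfl

/-- **CLASS STATEMENT (1)** -/
theorem cls1 : Cls1 := by
  intro mU
  set Λ : ℝ≥0 := 4 * mU + 4 * mU ^ 2 with hΛ
  refine ⟨1580544 * (Λ:ℝ) ^ 2 + 384 * Λ * 64 + 1, 36, 144, by positivity, by norm_num,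
    by norm_num, ?_⟩
  intro Om W ρ₀ J _ Qb k0 σ h
  have e2 : (1:ℝ) / 2 ^ k0 = ((2:ℝ) ^ k0)⁻¹ := one_div _
  refine ⟨fun a => muE h.M.φ (Dw h.M (fun _ => k0)) k0 a, ?_, ?_, ?_⟩
  · have h1 := rm_muE h.M.φ (Dw h.M (fun _ => k0)) k0
    rw [e2]
    have e : ENNReal.ofReal 36 = 36 := by norm_num
    rw [e]
    exact h1
  · intro a _ z s' hs'
    have hp : (0:ℝ) < 1 / 2 ^ k0 := by positivity
    refine muE_cel (std_M h) (le_of_eq rfl) a z (by linarith) ?_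
    rw [← e2]
    exact hs'
  · intro p G mN a ha s pr c R ρ m X D H K hK S hSm hKS
    have hcl : h.cl a = a := h.cl_eq (norm_D0 h a ha).le
    have key := outer_J_re (M := h.M) (hk := h.sc) (a := h.cl a) (v := fun _ => h.cl a)
      (hv := h.adm a) (a' := 0 + h.M.φ (h.cl a)) (zero_add _) h.dom (std_M h) (K0 := k0)
      (fun y => by
        show h.D0.ρ y ≤ 6 / 2 ^ k0
        rw [h.D0_ρ]
        exact min_le_right _ _)
      (by show (2:ℝ) ≤ 6; norm_num) (T := h.T a) rfl D H.sys.c_mem H.sys.F H.sys.eP H.fc H.rim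
      H.Ee (CE := 64) (fun b e' x' Q' h1 h2 h3 h4 => H.Ef b e' x' Q' ⟨h1 0, h1 1, h2⟩ h3 h4)
      (K := K) (fun t ht => far_of_cl1 h (hK t ht)) (r := fun t => m t.1 * R t.1)
      (fun t ht x hx => by
        rw [H.sys.eρ]
        exact H.ρle x x.2 t.1 t.2 hx) hSm hKS (Λ := Λ)
      (fun t ht p hp => by
        obtain ⟨y, hy, y', hy', h1⟩ := H.RdU t.1 t.2 (hK t ht)
        have h2 := diam_piece h hp hy hy'
        have h3 := H.mleU t.1 t.2 (hK t ht)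
        have h3' : (m t.1 : ℝ) ≤ mU := by exact_mod_cast h3
        have hmU : (0:ℝ) ≤ mU := NNReal.coe_nonneg _
        have hm0 : (0:ℝ) ≤ m t.1 := NNReal.coe_nonneg _
        set q : ℝ := 1 / 2 ^ (p.1.par.1.1.k + 1) with hq
        have hq0 : 0 ≤ q := by positivity
        have h4 : (R t.1 : ℝ) ≤ 4 * mU * q := by
          calc (R t.1 : ℝ) ≤ mU * ‖y - y'‖ := h1
            _ ≤ mU * (4 * q) := mul_le_mul_of_nonneg_left h2 hmU
            _ = _ := by ring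
        have eΛ : (Λ : ℝ) = 4 * mU + 4 * (mU:ℝ) ^ 2 := by rw [hΛ]; push_cast; ring
        rw [H.sys.eR]
        refine ⟨?_, ?_⟩
        · rw [eΛ]
          nlinarith [mul_nonneg (sq_nonneg (mU:ℝ)) hq0]
        · have h5 : ((m t.1 * R t.1 : ℝ≥0) : ℝ) = m t.1 * R t.1 := by push_cast; ring
          show ((m t.1 * R t.1 : ℝ≥0) : ℝ) ≤ _
          rw [h5, eΛ]
          have h6 : (m t.1 : ℝ) * R t.1 ≤ mU * (4 * mU * q) :=
            mul_le_mul h3' h4 (NNReal.coe_nonneg _) hmU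
          nlinarith [mul_nonneg hmU hq0])
    have hmu : muE h.M.φ (Dw h.M (fun _ => k0)) k0 (h.cl a) =
        muE h.M.φ (Dw h.M (fun _ => k0)) k0 a := by rw [hcl]
    rw [hmu] at key
    refine key.trans (mul_le_mul' ?_ le_rfl)
    have e1 : (Λ : ℝ≥0∞) = ENNReal.ofReal (Λ : ℝ) := by rw [ENNReal.ofReal_coe_nnreal]
    have hΛ0 : (0:ℝ) ≤ Λ := NNReal.coe_nonneg _
    rw [e1, show (1580544 : ℝ≥0∞) = ENNReal.ofReal 1580544 by norm_num,
      show (384 : ℝ≥0∞) = ENNReal.ofReal 384 by norm_num,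
      show (64 : ℝ≥0∞) = ENNReal.ofReal 64 by norm_num, ← ENNReal.ofReal_pow hΛ0,
      ← ENNReal.ofReal_mul (by norm_num), ← ENNReal.ofReal_mul (by norm_num),
      ← ENNReal.ofReal_mul (by positivity), ← ENNReal.ofReal_add (by positivity) (by positivity)]
    exact ENNReal.ofReal_le_ofReal (by linarith)

end

end Crest.Agent.R96.Eld_538
end

-- ▼ part R096/Elc3_812

/-!
# Row 96 (helper812), p ≤ 2: **(EL) IS CLOSED**: `elP`, from 538 / 565's `cls1`, 816's `cls2`, `cls3`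
-/

set_option autoImplicit false

namespace Crest.Agent.R096.Elc_812

/-- **(EL) of 753's `preIN_frame`** -/
theorem elP {p : ℝ} (hp : 1 ≤ p) (hp2 : p ≤ 2) : Pas_753.ElP p Crest.Agent.R96.Eld_538.Els :=
  elP_of hp hp2 Crest.Agent.R96.Eld_538.cls1 Crest.Agent.R096.Rmt_816.cls2
    Crest.Agent.R096.Rmt_816.cls3

end Crest.Agent.R096.Elc_812
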