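import Crest.Agent.R096.Main3_4
import Crest.Agent.R096.Cel3_715
import Crest.Agent.R096.Lab6_184
import Crest.Agent.R096.Mrg6_715
import Crest.Agent.R096.Door10_501
import Crest.Agent.R096.Mrg5_715
import Crest.Agent.R096.Cel1_715
import Crest.Agent.R096.Twr9_438
import Crest.Agent.R096.Sps4_333

-- ▼ part R096/Ess1_95
section

/-!
# Row 96, DOORS, (E-S) of helper501 #10111 (helper95), part 1: the cochain of one curve

`exact_inside` : a cochain which is exact on every 2-cell near a compact set `S` with trivial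
torsors has one potential on all tiles inside `S`.
`curve_eq` : the abstract equality `lbl v₀ + lbl v₁ = Ψ d + Ψ root`.
-/

set_option autoImplicit false

open Set Topology Filter Metric Module
open scoped Classical

namespace Crest.Agent.R096.Ess1_95

open Crest.Agent.R096.Msh_715 Crest.Agent.R096.Coh_184 Crest.Agent.R096.Lab_184
  Crest.Agent.R096.Main_4

variable {E : Type*} [NormedAddCommGroup E] [NormedSpace ℝ E] [FiniteDimensional ℝ E]
variable {Om : Set E} {ι : Type*} {T : Tiling Om ι}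

/-- **potentials on all tiles inside a compact set with trivial torsors** (no condition at the
frontier) -/
theorem exact_inside {A : Type*} [AddCommGroup A] (h3 : finrank ℝ E = 3) {S : Set E}
    (hS : IsCompact S) (hSO : S ⊆ Om) (ht : TrivF A S) {κ : E → E → E → A}
    (h2 : ∀ q, (P (T.H q) ∩ S).Nonempty → ∀ x ∈ P (T.H q), T.dim x = 2 →
      ∃ ψ : E → A, T.Exact κ ψ (T.cc x)) :
    ∃ ψ : E → A, ∀ q, P (T.H q) ⊆ S → T.Exact κ ψ (P (T.H q)) := by
  classical
  have hloc : ∀ q, ∃ ψ : E → A, (P (T.H q) ∩ S).Nonempty → T.Exact κ ψ (P (T.H q)) := by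
    intro q
    by_cases hq : (P (T.H q) ∩ S).Nonempty
    · obtain ⟨ψ, hψ⟩ := T.exact_tile h3 q (h2 q hq)
      exact ⟨ψ, fun _ => hψ⟩
    · exact ⟨fun _ => 0, fun h => (hq h).elim⟩
  choose ψ hψ using hloc
  have hvert : ∀ x ∈ Om, ∃ v ∈ T.cc x, T.dim v = 0 := fun x hx => T.exists_vertex hx
  choose! g hg hg0 using hvert
  have hgv : ∀ v ∈ Om, T.dim v = 0 → g v = v := by
    intro v hv hv0
    have h1 := hg v hv
    rw [T.cc_eq_singleton (T.dim_eq_zero_iff.1 hv0), mem_singleton_iff] at h1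
    exact h1
  have hfin := T.finite_tiles hS hSO
  have : Finite {q // (P (T.H q) ∩ S).Nonempty} := hfin
  have hcoc : Coc (fun q : {q // (P (T.H q) ∩ S).Nonempty} => P (T.H q.1))
      (fun i j x => ψ i.1 (g x) - ψ j.1 (g x)) S := by
    refine ⟨fun q => isClosed_P _, ?_, fun i j => ?_, fun i j k x _ _ _ _ => by abel⟩
    · intro x hx
      obtain ⟨q, hq⟩ := T.cov x (hSO hx)
      exact mem_iUnion.2 ⟨⟨q, x, hq, hx⟩, hq⟩
    · rintro x ⟨⟨hxi, hxj⟩, hxS⟩
      have hxO := T.sub i.1 hxi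
      have h1 : ∀ᶠ y in 𝓝[P (T.H i.1) ∩ P (T.H j.1) ∩ S] x, y ∈ Om ∧ x ∈ T.cc y :=
        (T.eventually_mem_cc hxO).filter_mono nhdsWithin_le_nhds
      filter_upwards [h1, self_mem_nhdsWithin] with y hy hyC
      have h2 : T.EdgeConst (fun v => ψ i.1 v - ψ j.1 v) (T.cc y) :=
        Tiling.Exact.edgeConst T ((hψ i.1 i.2).mono T (T.cc_sub_tile hyC.1.1))
          ((hψ j.1 j.2).mono T (T.cc_sub_tile hyC.1.2))
      exact T.const_cell hy.1 h2 (g y) (hg y hy.1) (g x) (T.cc_sub_of_mem hy.2 (hg x hxO))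
        (hg0 y hy.1) (hg0 x hxO)
  obtain ⟨χ, hχ, hχd⟩ := (ht.all {q // (P (T.H q) ∩ S).Nonempty}) _ _ hcoc
  let Ψ : E → A := fun v => if h : (∃ q : {q // (P (T.H q) ∩ S).Nonempty}, v ∈ P (T.H q.1)) ∧
    v ∈ S ∧ T.dim v = 0 then ψ h.1.choose.1 v - χ h.1.choose v else 0
  have hΨ : ∀ (q : {q // (P (T.H q) ∩ S).Nonempty}) (v : E), v ∈ P (T.H q.1) → v ∈ S →
      T.dim v = 0 → Ψ v = ψ q.1 v - χ q v := by
    intro q v hq hv hv0
    have h : (∃ q : {q // (P (T.H q) ∩ S).Nonempty}, v ∈ P (T.H q.1)) ∧ v ∈ S ∧ T.dim v = 0 :=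
      ⟨⟨q, hq⟩, hv, hv0⟩
    have e1 : Ψ v = ψ h.1.choose.1 v - χ h.1.choose v := dif_pos h
    have h1 : χ h.1.choose v - χ q v = ψ h.1.choose.1 (g v) - ψ q.1 (g v) :=
      hχd h.1.choose q v h.1.choose_spec hq hv
    rw [hgv v (hSO hv) hv0] at h1
    rw [e1]
    rw [sub_eq_sub_iff_add_eq_add] at h1 ⊢
    rw [add_comm (ψ q.1 v)]; exact h1.symm
  refine ⟨Ψ, fun q hqS e he he1 a b hab => ?_⟩
  have heO := T.sub q he
  obtain ⟨ha0, hb0, hae, hbe, -⟩ := T.dim_ends heO he1 hab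
  have haq := T.cc_sub_tile (i := q) he hae
  have hbq := T.cc_sub_tile (i := q) he hbe
  have hne : (P (T.H q) ∩ S).Nonempty := ⟨a, haq, hqS haq⟩
  rw [hΨ ⟨q, hne⟩ a haq (hqS haq) ha0, hΨ ⟨q, hne⟩ b hbq (hqS hbq) hb0,
    ← hψ q hne e he he1 a b hab]
  have hχab : χ ⟨q, hne⟩ a = χ ⟨q, hne⟩ b := by
    have hsub : P (T.H q) ⊆ P (T.H q) ∩ S := fun y hy => ⟨hy, hqS hy⟩
    exact ((hχ ⟨q, hne⟩).mono hsub).eq_of_preconnected (convex_P _).isPreconnected haq hbq
  rw [hχab]; abel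

/-! ### cells and a closed set whose frontier is a subcomplex -/

/-- `K` is closed and its frontier is a union of closed cells -/
structure SubK (T : Tiling Om ι) (K : Set E) : Prop where
  cl : IsClosed K
  fr : ∀ x ∈ frontier K, T.cc x ⊆ frontier K

namespace SubK

variable {K : Set E} (hK : SubK T K)
include hK

omit [FiniteDimensional ℝ E] in
/-- a closed cell which meets the interior of `K` lies in `K` (its open cell in the interior) -/
theorem sub_of_meet {x : E} (hx : x ∈ Om) (h : (T.cc x ∩ interior K).Nonempty) :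
    T.oc x ⊆ interior K ∧ T.cc x ⊆ K := by
  obtain ⟨y, hy, hyK⟩ := h
  have h1 : (T.oc x ∩ interior K).Nonempty := by
    rw [← T.closure_oc x] at hy
    obtain ⟨z, hz1, hz2⟩ := mem_closure_iff.1 hy _ isOpen_interior hyK
    exact ⟨z, hz2, hz1⟩
  have h2 : T.oc x ∩ frontier K = ∅ := by
    rw [eq_empty_iff_forall_notMem]
    rintro z ⟨hz1, hz2⟩
    have h3 := hK.fr z hz2
    rw [T.cc_eq_of_mem_oc hx hz1] at h3
    have h4 := h3 hy
    rw [hK.cl.frontier_eq] at h4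
    exact h4.2 hyK
  have h3 : T.oc x ⊆ interior K := by
    have hcov : T.oc x ⊆ interior K ∪ Kᶜ := by
      intro z hz
      by_cases hzK : z ∈ K
      · left
        by_contra hzi
        have : z ∈ T.oc x ∩ frontier K := ⟨hz, by rw [hK.cl.frontier_eq]; exact ⟨hzK, hzi⟩⟩
        rw [h2] at this; exact this
      · right; exact hzK
    exact (T.convex_oc x).isPreconnected.subset_left_of_subset_union isOpen_interior
      hK.cl.isOpen_compl (disjoint_compl_right.mono_left interior_subset) hcov h1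
  refine ⟨h3, ?_⟩
  rw [← T.closure_oc x]
  exact closure_minimal (h3.trans interior_subset) hK.cl

omit [FiniteDimensional ℝ E] in
/-- the three kinds of cells -/
theorem meet_iff {x : E} (hx : x ∈ Om) :
    (T.cc x ∩ interior K).Nonempty ↔ T.cc x ⊆ K ∧ ¬ T.cc x ⊆ frontier K := by
  constructor
  · intro h
    refine ⟨(hK.sub_of_meet hx h).2, fun h1 => ?_⟩
    obtain ⟨y, hy, hyK⟩ := h
    have h2 := h1 hy
    rw [hK.cl.frontier_eq] at h2
    exact h2.2 hyK
  · rintro ⟨h1, h2⟩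
    obtain ⟨y, hy, hyf⟩ := not_subset.1 h2
    refine ⟨y, hy, ?_⟩
    by_contra h3
    exact hyf (by rw [hK.cl.frontier_eq]; exact ⟨h1 hy, h3⟩)

end SubK

/-- an inner cell of `K` -/
def Inn (T : Tiling Om ι) (K : Set E) (x : E) : Prop := (T.cc x ∩ interior K).Nonempty

omit [FiniteDimensional ℝ E] in
theorem Inn.mono {K : Set E} {x y : E} (h : Inn T K y) (hy : y ∈ T.cc x) : Inn T K x := by
  obtain ⟨z, hz, hzK⟩ := h
  exact ⟨z, T.cc_sub_of_mem hy hz, hzK⟩

/-! ### the cochain of one curve -/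

/-- points of `Q` on the cell of `e`, weighted by `Ψ`, and on the inner cells of `K` the coboundary
of `lbl` -/
noncomputable def kapE (T : Tiling Om ι) (K : Set E) (Q : Finset E) (Ψ lbl : E → ZMod 2) :
    E → E → E → ZMod 2 :=
  fun e a b => (∑ w ∈ Q.filter (· ∈ T.cc e), Ψ w) + if Inn T K e then lbl a + lbl b else 0

omit [NormedAddCommGroup E] [NormedSpace ℝ E] [FiniteDimensional ℝ E] in
/-- a weight on the points as an even pattern -/
theorem ncard_weight {Q : Finset E} {g : E → ZMod 2} {C : Set E} :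
    ((((Q.filter (fun w => g w = 1) : Finset E) : Set E) ∩ C).ncard : ZMod 2) =
      ∑ w ∈ Q.filter (· ∈ C), g w := by
  have h1 : (((Q.filter (fun w => g w = 1) : Finset E) : Set E) ∩ C) =
      (((Q.filter (· ∈ C)).filter (fun w => g w = 1) : Finset E) : Set E) := by
    ext u
    simp only [Finset.coe_filter, Finset.mem_filter, mem_inter_iff, mem_ofPred_eq]
    tauto
  rw [h1, Set.ncard_coe_finset, Finset.card_eq_sum_ones, Nat.cast_sum, Finset.sum_filter]
  refine Finset.sum_congr rfl fun w _ => ?_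
  have : ∀ a : ZMod 2, (if a = 1 then ((1 : ℕ) : ZMod 2) else 0) = a := by decide
  exact this (g w)

/-- a weight with sum zero on a 2-cell has a potential there -/
theorem exact_weight {Q : Finset E} (hQ1 : ∀ w ∈ Q, T.dim w = 1) {g : E → ZMod 2} {x : E}
    (hx : x ∈ Om) (hd : T.dim x = 2) (h0 : ∑ w ∈ Q.filter (· ∈ T.cc x), g w = 0) :
    ∃ lam : E → ZMod 2, ∀ e ∈ T.cc x, T.dim e = 1 → ∀ a b : E, T.cc e = segment ℝ a b →
      lam a + lam b = ∑ w ∈ Q.filter (· ∈ T.cc e), g w := by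
  obtain ⟨lam, hlam⟩ := exact_cell2 (T := T) (Q := Q.filter (fun w => g w = 1))
    (fun w hw => hQ1 w (Finset.mem_filter.1 hw).1) hx hd (by
      rw [← ZMod.natCast_eq_zero_iff_even, ncard_weight]; exact h0)
  refine ⟨lam, fun e he h1 a b hab => ?_⟩
  rw [exact_kap_iff.1 hlam e he h1 a b hab, ncard_weight]

/-- **the cochain of one curve is exact on every 2-cell** -/
theorem exact_kapE {K : Set E} (hK : SubK T K) {Q : Finset E} (hQ1 : ∀ w ∈ Q, T.dim w = 1)
    {Ψ γ lbl : E → ZMod 2} (hγ : ∀ w ∈ Q, w ∉ frontier K → γ w = 0) {x : E} (hx : x ∈ Om)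
    (hd : T.dim x = 2)
    (hl : ∀ e ∈ T.cc x, T.dim e = 1 → T.cc e ⊆ frontier K → ∀ a b : E, T.cc e = segment ℝ a b →
      lbl a + lbl b = ∑ w ∈ Q.filter (· ∈ T.cc e), γ w)
    (ho : ¬ Inn T K x → ∑ w ∈ Q.filter (· ∈ T.cc x), Ψ w = 0)
    (hi : Inn T K x → ∑ w ∈ Q.filter (· ∈ T.cc x), (Ψ w + γ w) = 0) :
    ∃ ψ : E → ZMod 2, T.Exact (kapE T K Q Ψ lbl) ψ (T.cc x) := by
  by_cases hinn : Inn T K x
  · obtain ⟨lam, hlam⟩ := exact_weight hQ1 hx hd (hi hinn)
    refine ⟨fun v => lam v + lbl v, fun e he h1 a b hab => ?_⟩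
    have heO := T.cc_sub_Om hx he
    have e1 := hlam e he h1 a b hab
    rw [Finset.sum_add_distrib] at e1
    have hxK := (hK.sub_of_meet hx hinn).2
    have heK : T.cc e ⊆ K := (T.cc_sub_of_mem he).trans hxK
    rw [CharTwo.sub_eq_add]
    show lam a + lbl a + (lam b + lbl b) = _ + if Inn T K e then lbl a + lbl b else 0
    by_cases hei : Inn T K e
    · rw [if_pos hei]
      -- no point of the curve on an inner edge
      have h4 : ∑ w ∈ Q.filter (· ∈ T.cc e), γ w = 0 := by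
        refine Finset.sum_eq_zero fun w hw => ?_
        obtain ⟨hwQ, hwe⟩ := Finset.mem_filter.1 hw
        refine hγ w hwQ fun hwf => ?_
        have h5 : w ∈ T.oc e := Tiling.cl_eq_of_dim1 heO h1 hwe (hQ1 w hwQ)
        have h6 := (hK.sub_of_meet heO hei).1 h5
        rw [hK.cl.frontier_eq] at hwf
        exact hwf.2 h6
      rw [h4, add_zero] at e1
      rw [← e1]; ring
    · rw [if_neg hei, add_zero]
      have hef : T.cc e ⊆ frontier K := by
        by_contra hcon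
        exact hei ((hK.meet_iff heO).2 ⟨heK, hcon⟩)
      have e2 := hl e he h1 hef a b hab
      have e3 : ∀ p q r s t u : ZMod 2, p + q = t + u → r + s = u → p + r + (q + s) = t := by
        decide
      exact e3 _ _ _ _ _ _ e1 e2
  · obtain ⟨lam, hlam⟩ := exact_weight hQ1 hx hd (ho hinn)
    refine ⟨lam, fun e he h1 a b hab => ?_⟩
    have hei : ¬ Inn T K e := fun h => hinn (h.mono he)
    rw [CharTwo.sub_eq_add]
    show lam a + lam b = _ + if Inn T K e then lbl a + lbl b else 0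
    rw [if_neg hei, add_zero]
    exact hlam e he h1 a b hab

/-! ### paths -/

omit [FiniteDimensional ℝ E] in
theorem const_path {φ : E → ZMod 2} {W : Set ι}
    (h : ∀ i ∈ W, ∀ e ∈ P (T.H i), T.dim e = 1 → ∀ a b : E, T.cc e = segment ℝ a b → φ a = φ b)
    {v w : E} (hp : Relation.ReflTransGen (Edg T W) v w) : φ v = φ w := by
  induction hp with
  | refl => rfl
  | tail _ hs ih =>
    obtain ⟨e, _, h2, h3, i, h4, h5⟩ := hs
    exact ih.trans (h i h4 e h5 h2 _ _ h3)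

theorem const_VM {φ : E → ZMod 2} {L : Set E} (hL : IsPreconnected L) (hLO : L ⊆ Om)
    (h : ∀ i, (P (T.H i) ∩ L).Nonempty → ∀ e ∈ P (T.H i), T.dim e = 1 → ∀ a b : E,
      T.cc e = segment ℝ a b → φ a = φ b) {v w : E} (hv : v ∈ VM T L) (hw : w ∈ VM T L) :
    φ v = φ w :=
  const_path (W := {i | (P (T.H i) ∩ L).Nonempty}) (fun i hi => h i hi)
    (edg_VM hL hLO hv hw)

/-- **THE ABSTRACT EQUALITY (E-S)**.
`S` compact with trivial torsors; `K` closed, frontier a subcomplex; `Q` the points of the sheet,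
`lam` its label, `Ψ` the potential and `γ` the indicator of the curve, `lbl` the label of the curve
on the vertices of `frontier K`.
`L₀` / `L₁` : connected sets from deep inside to far outside on the low / high side, without points
of the sheet, where the label of the curve is `l₀` / `l₁`; `Dp` a connected set deep inside with
`Ψ = a`, `Fp` a connected set outside with `Ψ = b`. -/
theorem curve_eq (h3 : finrank ℝ E = 3) {S : Set E} (hS : IsCompact S) (hSO : S ⊆ Om)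
    (ht : TrivF (ZMod 2) S) {K : Set E} (hK : SubK T K) {Q : Finset E}
    (hQ1 : ∀ w ∈ Q, T.dim w = 1) {Ψ γ lbl lam : E → ZMod 2} (hlam : IsLab T Q lam)
    (hγ : ∀ w ∈ Q, w ∉ frontier K → γ w = 0) (hlbl : ∀ v, v ∉ frontier K → lbl v = 0)
    (hl : ∀ q, (P (T.H q) ∩ S).Nonempty → ∀ e ∈ P (T.H q), T.dim e = 1 → T.cc e ⊆ frontier K →
      ∀ a b : E, T.cc e = segment ℝ a b → lbl a + lbl b = ∑ w ∈ Q.filter (· ∈ T.cc e), γ w)
    (ho : ∀ q, (P (T.H q) ∩ S).Nonempty → ∀ x ∈ P (T.H q), T.dim x = 2 → ¬ Inn T K x →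
      ∑ w ∈ Q.filter (· ∈ T.cc x), Ψ w = 0)
    (hi : ∀ q, (P (T.H q) ∩ S).Nonempty → ∀ x ∈ P (T.H q), T.dim x = 2 → Inn T K x →
      ∑ w ∈ Q.filter (· ∈ T.cc x), (Ψ w + γ w) = 0)
    {L : Bool → Set E} {l : Bool → ZMod 2} (hL : ∀ c, IsPreconnected (L c)) (hLO : ∀ c, L c ⊆ Om)
    (hLS : ∀ c i, (P (T.H i) ∩ L c).Nonempty → P (T.H i) ⊆ S)
    (hLQ : ∀ c i, (P (T.H i) ∩ L c).Nonempty → ∀ u ∈ Q, u ∉ P (T.H i))
    (hLl : ∀ c, ∀ v ∈ VM T (L c), v ∈ frontier K → lbl v = l c)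
    {Dp Fp : Set E} (hD : IsPreconnected Dp) (hDO : Dp ⊆ Om)
    (hDS : ∀ i, (P (T.H i) ∩ Dp).Nonempty → P (T.H i) ⊆ S)
    (hDK : ∀ i, (P (T.H i) ∩ Dp).Nonempty → P (T.H i) ⊆ interior K)
    {a b : ZMod 2} (hDa : ∀ i, (P (T.H i) ∩ Dp).Nonempty → ∀ w ∈ Q, w ∈ P (T.H i) → Ψ w = a)
    (hF : IsPreconnected Fp) (hFO : Fp ⊆ Om)
    (hFS : ∀ i, (P (T.H i) ∩ Fp).Nonempty → P (T.H i) ⊆ S)
    (hFK : ∀ i, (P (T.H i) ∩ Fp).Nonempty → P (T.H i) ∩ K = ∅)
    (hFb : ∀ i, (P (T.H i) ∩ Fp).Nonempty → ∀ w ∈ Q, w ∈ P (T.H i) → Ψ w = b)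
    {d f : Bool → E} (hd : ∀ c, d c ∈ VM T (L c) ∧ d c ∈ VM T Dp)
    (hf : ∀ c, f c ∈ VM T (L c) ∧ f c ∈ VM T Fp) (hne : lam (d true) + lam (d false) = 1) :
    l true + l false = a + b := by
  obtain ⟨ψ, hψ⟩ := exact_inside (T := T) h3 hS hSO ht (κ := kapE T K Q Ψ lbl)
    (fun q hq x hx hd2 => exact_kapE hK hQ1 hγ (T.sub q hx) hd2
      (fun e he h1 hef a b hab => hl q hq e (T.cc_sub_tile (i := q) hx he) h1 hef a b hab)
      (ho q hq x hx hd2) (hi q hq x hx hd2))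
  have hlab : ∀ {i} {e : E}, e ∈ P (T.H i) → T.dim e = 1 → ∀ a b : E, T.cc e = segment ℝ a b →
      lam a + lam b = ((Q.filter (· ∈ T.cc e)).card : ZMod 2) := by
    intro i e he h1 a b hab
    have := hlam e (T.sub i he) h1 a b hab
    convert this
  -- along the rays
  have hray : ∀ c, ∀ v ∈ VM T (L c), ∀ w ∈ VM T (L c),
      ψ v + (if v ∈ interior K then l c else 0) = ψ w + if w ∈ interior K then l c else 0 := by
    intro c v hv w hw
    refine const_VM (φ := fun v => ψ v + if v ∈ interior K then l c else 0) (hL c) (hLO c)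
      ?_ hv hw
    intro i hi e he h1 a b hab
    have heO := T.sub i he
    obtain ⟨ha0, hb0, hae, hbe, -⟩ := T.dim_ends heO h1 hab
    have hai := T.cc_sub_tile (i := i) he hae
    have hbi := T.cc_sub_tile (i := i) he hbe
    have haV : a ∈ VM T (L c) := ⟨ha0, i, hi, hai⟩
    have hbV : b ∈ VM T (L c) := ⟨hb0, i, hi, hbi⟩
    have h4 := hψ i (hLS c i hi) e he h1 a b hab
    have h5 : Q.filter (· ∈ T.cc e) = ∅ := by
      rw [Finset.filter_eq_empty_iff]
      exact fun u hu hue => hLQ c i hi u hu (T.cc_sub_tile (i := i) he hue)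
    have h6 : kapE T K Q Ψ lbl e a b = if Inn T K e then lbl a + lbl b else 0 := by
      show (∑ w ∈ Q.filter (· ∈ T.cc e), Ψ w) + _ = _
      rw [h5, Finset.sum_empty, zero_add]
    rw [h6, CharTwo.sub_eq_add] at h4
    show ψ a + (if a ∈ interior K then l c else 0) = ψ b + if b ∈ interior K then l c else 0
    have h7 : ∀ v, v ∈ T.cc e → v ∈ VM T (L c) → Inn T K e →
        lbl v + (if v ∈ interior K then l c else 0) = l c := by
      intro v hve hvV hin
      have hvK := (hK.sub_of_meet heO hin).2 hve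
      by_cases hvi : v ∈ interior K
      · rw [if_pos hvi, hlbl v (fun h => by rw [hK.cl.frontier_eq] at h; exact h.2 hvi), zero_add]
      · rw [if_neg hvi, add_zero]
        exact hLl c v hvV (by rw [hK.cl.frontier_eq]; exact ⟨hvK, hvi⟩)
    have e3 : ∀ p q r s t u m : ZMod 2, p + q = r + s → r + t = m → s + u = m → p + t = q + u := by
      decide
    by_cases hin : Inn T K e
    · rw [if_pos hin] at h4
      exact e3 _ _ _ _ _ _ _ h4 (h7 a hae haV hin) (h7 b hbe hbV hin)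
    · rw [if_neg hin] at h4
      have ha : a ∉ interior K := fun h => hin ⟨a, hae, h⟩
      have hb : b ∉ interior K := fun h => hin ⟨b, hbe, h⟩
      rw [if_neg ha, if_neg hb, add_zero, add_zero]
      exact CharTwo.add_eq_zero.1 h4
  -- deep inside
  have hdeep : ∀ v ∈ VM T Dp, ∀ w ∈ VM T Dp, ψ v + a * lam v = ψ w + a * lam w := by
    intro v hv w hw
    refine const_VM (φ := fun v => ψ v + a * lam v) hD hDO ?_ hv hw
    intro i hi e he h1 p q hpq
    have heO := T.sub i he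
    obtain ⟨hp0, hq0, hpe, hqe, -⟩ := T.dim_ends heO h1 hpq
    have h4 := hψ i (hDS i hi) e he h1 p q hpq
    have hpi := hDK i hi (T.cc_sub_tile (i := i) he hpe)
    have hqi := hDK i hi (T.cc_sub_tile (i := i) he hqe)
    have h6 : kapE T K Q Ψ lbl e p q = a * ((Q.filter (· ∈ T.cc e)).card : ZMod 2) := by
      show (∑ w ∈ Q.filter (· ∈ T.cc e), Ψ w) + (if Inn T K e then lbl p + lbl q else 0) = _
      rw [hlbl p (fun h => by rw [hK.cl.frontier_eq] at h; exact h.2 hpi),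
        hlbl q (fun h => by rw [hK.cl.frontier_eq] at h; exact h.2 hqi), add_zero, ite_self,
        add_zero, Finset.sum_congr rfl (fun w hw => hDa i hi w (Finset.mem_filter.1 hw).1
          (T.cc_sub_tile (i := i) he (Finset.mem_filter.1 hw).2)), Finset.sum_const, nsmul_eq_mul,
        mul_comm]
    rw [h6, ← hlab he h1 p q hpq, CharTwo.sub_eq_add] at h4
    show ψ p + a * lam p = ψ q + a * lam q
    have e3 : ∀ p q r s t : ZMod 2, p + q = r * (s + t) → p + r * s = q + r * t := by decide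
    exact e3 _ _ _ _ _ h4
  -- far outside
  have hfar : ∀ v ∈ VM T Fp, ∀ w ∈ VM T Fp, ψ v + b * lam v = ψ w + b * lam w := by
    intro v hv w hw
    refine const_VM (φ := fun v => ψ v + b * lam v) hF hFO ?_ hv hw
    intro i hi e he h1 p q hpq
    have heO := T.sub i he
    have h4 := hψ i (hFS i hi) e he h1 p q hpq
    have hin : ¬ Inn T K e := by
      rintro ⟨z, hz, hzK⟩
      have : z ∈ P (T.H i) ∩ K := ⟨T.cc_sub_tile (i := i) he hz, interior_subset hzK⟩
      rw [hFK i hi] at this; exact this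
    have h6 : kapE T K Q Ψ lbl e p q = b * ((Q.filter (· ∈ T.cc e)).card : ZMod 2) := by
      show (∑ w ∈ Q.filter (· ∈ T.cc e), Ψ w) + (if Inn T K e then lbl p + lbl q else 0) = _
      rw [if_neg hin, add_zero, Finset.sum_congr rfl (fun w hw => hFb i hi w
          (Finset.mem_filter.1 hw).1 (T.cc_sub_tile (i := i) he (Finset.mem_filter.1 hw).2)),
          Finset.sum_const, nsmul_eq_mul, mul_comm]
    rw [h6, ← hlab he h1 p q hpq, CharTwo.sub_eq_add] at h4
    show ψ p + b * lam p = ψ q + b * lam q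
    have e3 : ∀ p q r s t : ZMod 2, p + q = r * (s + t) → p + r * s = q + r * t := by decide
    exact e3 _ _ _ _ _ h4
  -- the label is constant along the rays
  have hlamL : ∀ c, lam (d c) = lam (f c) := fun c =>
    hlam.const_geom (hL c) (hLO c) (hLQ c) (hd c).1 (hf c).1
  have hdi : ∀ c, d c ∈ interior K := by
    intro c
    obtain ⟨_, i, hi, hdi⟩ := (hd c).2
    exact hDK i hi hdi
  have hfi : ∀ c, f c ∉ interior K := by
    intro c hc
    obtain ⟨_, i, hi, hfi⟩ := (hf c).2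
    have : f c ∈ P (T.H i) ∩ K := ⟨hfi, interior_subset hc⟩
    rw [hFK i hi] at this; exact this
  have r1 := hray true _ (hd true).1 _ (hf true).1
  have r0 := hray false _ (hd false).1 _ (hf false).1
  rw [if_pos (hdi _), if_neg (hfi _), add_zero] at r1 r0
  have r2 := hdeep _ (hd true).2 _ (hd false).2
  have r3 := hfar _ (hf true).2 _ (hf false).2
  rw [← hlamL, ← hlamL] at r3
  have two : (2 : ZMod 2) = 0 := rfl
  linear_combination r1 + r0 + r3 - r2 + (b - a) * hne +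
    (ψ (f false) - ψ (d false) - lam (d true) * (b - a) - a) * two

end Crest.Agent.R096.Ess1_95
end

-- ▼ part R096/Ess2_95
section

/-!
# Row 96, DOORS, (E-S) (helper95), part 2: the equality for a sheet of a global state and a core

`ess_gst`   : `curve_eq` for `s : GSt (meshC T h3) fam`, a merged cell `k` of `π` and 501's `Psi`;
`ess_shell` : the same with labels on the vertices of 715's shell of a core.
-/

set_option autoImplicit false

open Set Topology Filter Metric Module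
open scoped Classical

namespace Crest.Agent.R096.Ess2_95

open Crest.Agent.R096.Msh_715 Crest.Agent.R096.Coh_184 Crest.Agent.R096.Lab_184
  Crest.Agent.R096.Main_4 Crest.Agent.R096.Ess1_95 Crest.Agent.R096.Agl5_543
  Crest.Agent.R096.Seq_213 Crest.Agent.R096.St_147 Crest.Agent.R096.Door_501

variable {E : Type} [NormedAddCommGroup E] [NormedSpace ℝ E] [FiniteDimensional ℝ E]
variable {Om : Set E} {ι : Type} {T : Tiling Om ι} {ι' J C : Type} {fam : J → C}

/-- a 2-cell is inner iff both its tiles are inside -/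
theorem inn_iff_sides (h3 : finrank ℝ E = 3) {K : Set E} (hK : Core K) (hKO : K ⊆ Om)
    (hs : ∀ x ∈ frontier K, T.cc x ⊆ frontier K) (F : C2 T) :
    Inn T K F.pt ↔ ∀ q ∈ F.side h3, P (T.H q) ⊆ K := by
  constructor
  · rintro ⟨y, hy, hyK⟩ q hq
    rw [← F.set_eq] at hy
    exact T.sub_of_mem_interior hK.closed hs (C2.sub_tile (h3 := h3) hq hy) hyK
  · intro h
    have hs' : SubK T K := ⟨hK.closed, hs⟩
    have hne : ∃ q, q ∈ F.side h3 := by
      induction F.side h3 using Sym2.ind with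
      | _ x y => exact ⟨x, Sym2.mem_mk_left _ _⟩
    obtain ⟨q, hq⟩ := hne
    rw [Inn, hs'.meet_iff F.pt_mem, ← F.set_eq]
    refine ⟨(C2.sub_tile (h3 := h3) hq).trans (h q hq), fun hf => ?_⟩
    obtain ⟨_, q', hq', hqK⟩ := (T.sub_frontier_iff h3 hK hKO hs F).1 hf
    exact hqK (h q' hq')

omit [FiniteDimensional ℝ E] in
theorem inn_congr {K : Set E} {x y : E} (h : T.cc x = T.cc y) : Inn T K x ↔ Inn T K y := by
  unfold Inn; rw [h]

section gst

variable {h3 : finrank ℝ E = 3} {s : GSt (meshC T h3) fam} {j : J}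

/-- a weight which is constant along the chords of a face has sum zero on this face -/
theorem sum_pair (hon : ∀ w ∈ s.P, s.lab w = j → T.dim w = 1) {g : E → ZMod 2} {F : C2 T}
    (hg : ∀ w, s.At F w → s.lab w = j → g (s.mu F w) = g w) :
    ∑ w ∈ (gPts s j).filter (· ∈ F.set), g w = 0 := by
  have hmem : ∀ w ∈ (gPts s j).filter (· ∈ F.set), s.At F w ∧ s.lab w = j := by
    intro w hw
    obtain ⟨h1, h2⟩ := Finset.mem_filter.1 hw
    obtain ⟨h4, h5⟩ := mem_gPts.1 h1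
    exact ⟨⟨h4, h2, hon w h4 h5⟩, h5⟩
  refine Finset.sum_involution (fun w _ => s.mu F w) (fun w hw => ?_) (fun w hw _ => ?_)
    (fun w hw => ?_) (fun w hw => ?_)
  · obtain ⟨h1, h2⟩ := hmem w hw
    rw [hg w h1 h2]; exact CharTwo.add_self_eq_zero _
  · obtain ⟨h1, h2⟩ := hmem w hw
    exact s.mu_ne h1.1 h1.2
  · obtain ⟨h1, h2⟩ := hmem w hw
    obtain ⟨h4, h5⟩ := s.mu_mem h1.1 h1.2
    exact Finset.mem_filter.2 ⟨mem_gPts.2 ⟨h4, (s.mu_lab h1.1 h1.2).trans h2⟩, h5.1⟩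
  · obtain ⟨h1, h2⟩ := hmem w hw
    exact s.mu_mu h1.1 h1.2

/-- **(E-S) for a sheet of a global state** -/
theorem ess_gst (hon : ∀ w ∈ s.P, s.lab w = j → T.dim w = 1) {K : Set E} (hK : Core K)
    (hKO : K ⊆ Om) (hs : ∀ x ∈ frontier K, T.cc x ⊆ frontier K) {π : ι → ι'} {k : ι'}
    (hπ : ∀ q, π q = k ↔ P (T.H q) ⊆ K) {γ : Set E} {Ψ : E → ZMod 2} (hΨ : Psi s π j k γ Ψ)
    (hγ : ∀ w ∈ γ, w ∈ frontier K) {lbl lam : E → ZMod 2} (hlam : IsLab T (gPts s j) lam)
    (hlbl : ∀ v, v ∉ frontier K → lbl v = 0)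
    (hl : ∀ e ∈ frontier K, T.dim e = 1 → ∀ a b : E, T.cc e = segment ℝ a b →
      lbl a + lbl b = (((gPts s j).filter (fun w => w ∈ γ ∧ w ∈ T.cc e)).card : ZMod 2))
    {S : Set E} (hS : IsCompact S) (hSO : S ⊆ Om) (ht : TrivF (ZMod 2) S)
    {L : Bool → Set E} {l : Bool → ZMod 2} (hL : ∀ c, IsPreconnected (L c)) (hLO : ∀ c, L c ⊆ Om)
    (hLS : ∀ c i, (P (T.H i) ∩ L c).Nonempty → P (T.H i) ⊆ S)
    (hLQ : ∀ c i, (P (T.H i) ∩ L c).Nonempty → ∀ u ∈ s.P, s.lab u = j → u ∉ P (T.H i))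
    (hLl : ∀ c, ∀ v ∈ VM T (L c), v ∈ frontier K → lbl v = l c)
    {Dp Fp : Set E} (hD : IsPreconnected Dp) (hDO : Dp ⊆ Om)
    (hDS : ∀ i, (P (T.H i) ∩ Dp).Nonempty → P (T.H i) ⊆ S)
    (hDK : ∀ i, (P (T.H i) ∩ Dp).Nonempty → P (T.H i) ⊆ interior K)
    {a b : ZMod 2} (hDa : ∀ i, (P (T.H i) ∩ Dp).Nonempty → ∀ w ∈ s.P, s.lab w = j →
      w ∈ P (T.H i) → Ψ w = a)
    (hF : IsPreconnected Fp) (hFO : Fp ⊆ Om)
    (hFS : ∀ i, (P (T.H i) ∩ Fp).Nonempty → P (T.H i) ⊆ S)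
    (hFK : ∀ i, (P (T.H i) ∩ Fp).Nonempty → P (T.H i) ∩ K = ∅)
    (hFb : ∀ i, (P (T.H i) ∩ Fp).Nonempty → ∀ w ∈ s.P, s.lab w = j → w ∈ P (T.H i) → Ψ w = b)
    {d f : Bool → E} (hd : ∀ c, d c ∈ VM T (L c) ∧ d c ∈ VM T Dp)
    (hf : ∀ c, f c ∈ VM T (L c) ∧ f c ∈ VM T Fp) (hne : lam (d true) + lam (d false) = 1) :
    l true + l false = a + b := by
  have hsub : SubK T K := ⟨hK.closed, hs⟩
  have hQ1 : ∀ w ∈ gPts s j, T.dim w = 1 := fun w hw =>
    hon w (mem_gPts.1 hw).1 (mem_gPts.1 hw).2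
  have hInn : ∀ x (hx : x ∈ Om) (hd2 : T.dim x = 2), Inn T K x ↔
      InF (meshC T h3) π k (mk2 T hx hd2) := by
    intro x hx hd2
    rw [inn_congr (y := (mk2 T hx hd2).pt) (by rw [← (mk2 T hx hd2).set_eq]; rfl),
      inn_iff_sides h3 hK hKO hs (mk2 T hx hd2)]
    exact forall_congr' fun q => imp_congr Iff.rfl (hπ q).symm
  refine curve_eq (T := T) h3 hS hSO ht hsub hQ1 hlam (Ψ := Ψ)
    (γ := fun w => if w ∈ γ then 1 else 0) (lbl := lbl) ?_ hlbl ?_ ?_ ?_ hL hLO hLS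
    (fun c i hi u hu => hLQ c i hi u (mem_gPts.1 hu).1 (mem_gPts.1 hu).2) hLl hD hDO hDS hDK
    (fun i hi w hw => hDa i hi w (mem_gPts.1 hw).1 (mem_gPts.1 hw).2) hF hFO hFS hFK
    (fun i hi w hw => hFb i hi w (mem_gPts.1 hw).1 (mem_gPts.1 hw).2) hd hf hne
  · intro w _ hwf
    exact if_neg fun h => hwf (hγ w h)
  · intro q _ e he h1 hef a b hab
    rw [hl e (hef (T.self_mem_cc e)) h1 a b hab, Finset.card_eq_sum_ones, Nat.cast_sum,
      ← Finset.sum_filter, Finset.filter_filter, Nat.cast_one]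
    refine Finset.sum_congr ?_ fun _ _ => rfl
    ext w
    simp only [Finset.mem_filter]
    tauto
  · intro q _ x hx hd2 hin
    have hxO := T.sub q hx
    have h1 := sum_pair (s := s) (j := j) hon (g := Ψ) (F := mk2 T hxO hd2)
      (fun w hw hlw => hΨ.out hw hlw (fun h => hin ((hInn x hxO hd2).2 h)))
    exact h1
  · intro q _ x hx hd2 hin
    have hxO := T.sub q hx
    have h1 := sum_pair (s := s) (j := j) hon (g := fun w => Ψ w + if w ∈ γ then 1 else 0)
      (F := mk2 T hxO hd2) (fun w hw hlw => by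
        have h2 := hΨ (mk2 T hxO hd2) w hw hlw
        rw [if_pos ((hInn x hxO hd2).1 hin)] at h2
        have e3 : ∀ p q r t : ZMod 2, p + q = r + t → q + t = p + r := by decide
        exact e3 _ _ _ _ h2)
    exact h1

end gst

/-! ### labels on the shell of a core -/

section shell

variable {κ : Type} {Kc : κ → Set E} {h3 : finrank ℝ E = 3} {hH : ∀ c, CoreH T (Kc c)}
  {hdis : ∀ c c', c ≠ c' → Disjoint (Kc c) (Kc c')}
variable {s : GSt (meshC T h3) fam} {j : J} {c : κ}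

/-- extension by zero of a function on the vertices of the core -/
noncomputable def ext0 (A : VxK T Kc c → ZMod 2) (v : E) : ZMod 2 :=
  if h : T.dim v = 0 ∧ v ∈ frontier (Kc c) then A ⟨v, h⟩ else 0

omit [FiniteDimensional ℝ E] in
theorem ext0_eq (A : VxK T Kc c → ZMod 2) (v : VxK T Kc c) : ext0 A v.1 = A v :=
  dif_pos v.2

/-- **(E-S) for the shell of a core** : `y` = the points of the curve, `A` = its labels -/
theorem ess_shell (hon : ∀ w ∈ s.P, s.lab w = j → T.dim w = 1) {y : Finset E} {Ψ : E → ZMod 2}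
    (hΨ : Psi s (piK T Kc) j (Sum.inr c) (y : Set E) Ψ)
    (hy : ∀ w ∈ y, w ∈ s.P ∧ s.lab w = j ∧ w ∈ frontier (Kc c))
    {A : VxK T Kc c → ZMod 2}
    (hA : ∀ e : EdK T Kc c, A ((shellH h3 hH hdis c).en e false) +
      A ((shellH h3 hH hdis c).en e true) =
        ((y.filter fun w => w ∈ (shellH h3 hH hdis c).OnE e).card : ZMod 2))
    {lam : E → ZMod 2} (hlam : IsLab T (gPts s j) lam)
    {S : Set E} (hS : IsCompact S) (hSO : S ⊆ Om) (ht : TrivF (ZMod 2) S)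
    {L : Bool → Set E} {l : Bool → ZMod 2} (hL : ∀ c, IsPreconnected (L c)) (hLO : ∀ c, L c ⊆ Om)
    (hLS : ∀ c i, (P (T.H i) ∩ L c).Nonempty → P (T.H i) ⊆ S)
    (hLQ : ∀ c i, (P (T.H i) ∩ L c).Nonempty → ∀ u ∈ s.P, s.lab u = j → u ∉ P (T.H i))
    (hLl : ∀ c', ∀ v : VxK T Kc c, v.1 ∈ VM T (L c') → A v = l c')
    {Dp Fp : Set E} (hD : IsPreconnected Dp) (hDO : Dp ⊆ Om)
    (hDS : ∀ i, (P (T.H i) ∩ Dp).Nonempty → P (T.H i) ⊆ S)
    (hDK : ∀ i, (P (T.H i) ∩ Dp).Nonempty → P (T.H i) ⊆ interior (Kc c))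
    {a b : ZMod 2} (hDa : ∀ i, (P (T.H i) ∩ Dp).Nonempty → ∀ w ∈ s.P, s.lab w = j →
      w ∈ P (T.H i) → Ψ w = a)
    (hF : IsPreconnected Fp) (hFO : Fp ⊆ Om)
    (hFS : ∀ i, (P (T.H i) ∩ Fp).Nonempty → P (T.H i) ⊆ S)
    (hFK : ∀ i, (P (T.H i) ∩ Fp).Nonempty → P (T.H i) ∩ Kc c = ∅)
    (hFb : ∀ i, (P (T.H i) ∩ Fp).Nonempty → ∀ w ∈ s.P, s.lab w = j → w ∈ P (T.H i) → Ψ w = b)
    {d f : Bool → E} (hd : ∀ c, d c ∈ VM T (L c) ∧ d c ∈ VM T Dp)
    (hf : ∀ c, f c ∈ VM T (L c) ∧ f c ∈ VM T Fp) (hne : lam (d true) + lam (d false) = 1) :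
    l true + l false = a + b := by
  obtain ⟨γ, hγ⟩ : ∃ γ : Set E, ∀ w, w ∈ γ ↔ w ∈ y := ⟨(y : Set E), fun w => Finset.mem_coe⟩
  have hγ' : (y : Set E) = γ := Set.ext fun w => Finset.mem_coe.trans (hγ w).symm
  rw [hγ'] at hΨ
  refine ess_gst (s := s) (j := j) hon (hH c).core (hH c).sub (hH c).cc (π := piK T Kc)
    (k := Sum.inr c) (fun q => piK_inr hdis) hΨ (fun w hw => (hy w ((hγ w).1 hw)).2.2)
    (lbl := ext0 A) hlam ?_ ?_ hS hSO ht hL hLO hLS hLQ ?_ hD hDO hDS hDK hDa hF hFO hFS hFK hFb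
    hd hf hne
  · intro v hv
    exact dif_neg fun h => hv h.2
  · intro e he h1 p q hpq
    have heO : e ∈ Om := (hH c).sub ((hH c).core.closed.frontier_subset he)
    set e' : EdK T Kc c := edK T Kc (fun c => (hH c).cc) heO he h1 with he'
    have hset : e'.1.set = T.cc e := rfl
    have h5 := hA e'
    have hends := T.dim_ends heO h1 hpq
    obtain ⟨hp0, hq0, hpe, hqe, -⟩ := hends
    have hpf := (hH c).cc e he hpe
    have hqf := (hH c).cc e he hqe
    have hpne : p ≠ q := (Lab_184.ends_of_segment heO h1 hpq).1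
    -- the two ends of the edge are `p` and `q`
    have hen : ∀ bb, ((shellH h3 hH hdis c).en e' bb) = endK e' bb := fun _ => rfl
    rw [hen, hen] at h5
    have m0 := (endK_iff e' (⟨p, hp0, hpf⟩ : VxK T Kc c)).2 hpe
    have m1 := (endK_iff e' (⟨q, hq0, hqf⟩ : VxK T Kc c)).2 hqe
    have e1 : ext0 A p = A ⟨p, hp0, hpf⟩ := dif_pos ⟨hp0, hpf⟩
    have e2 : ext0 A q = A ⟨q, hq0, hqf⟩ := dif_pos ⟨hq0, hqf⟩
    have hsum : ext0 A p + ext0 A q = A (endK e' false) + A (endK e' true) := by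
      obtain ⟨b0, hb0⟩ := m0
      obtain ⟨b1, hb1⟩ := m1
      rw [e1, e2, ← hb0, ← hb1]
      have hbb : b0 ≠ b1 := by
        rintro rfl
        apply hpne
        have := hb0.symm.trans hb1
        exact congrArg Subtype.val this
      cases b0 <;> cases b1
      · exact absurd rfl hbb
      · rfl
      · exact add_comm _ _
      · exact absurd rfl hbb
    rw [hsum, h5]
    show (((y.filter fun w => w ∈ (shellH h3 hH hdis c).OnE e').card : ℕ) : ZMod 2) = _
    congr 2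
    ext w
    have hOn : w ∈ (shellH h3 hH hdis c).OnE e' ↔ w ∈ T.oc e := by
      show w ∈ e'.1.opn ↔ _
      rw [show e'.1.opn = (T.cl heO).opn from rfl, T.opn_cl heO]
    constructor
    · intro hh
      obtain ⟨h6, h7⟩ := Finset.mem_filter.1 hh
      obtain ⟨g1, g2, _⟩ := hy w h6
      exact Finset.mem_filter.2 ⟨mem_gPts.2 ⟨g1, g2⟩, (hγ w).2 h6,
        T.oc_sub_cc e (hOn.1 h7)⟩
    · intro hh
      obtain ⟨h6, h7, h8⟩ := Finset.mem_filter.1 hh
      obtain ⟨g1, g2⟩ := mem_gPts.1 h6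
      exact Finset.mem_filter.2 ⟨(hγ w).1 h7,
        hOn.2 (Tiling.cl_eq_of_dim1 heO h1 h8 (hon w g1 g2))⟩
  · intro c' v hv hvf
    have h0 : T.dim v = 0 := hv.1
    have e1 : ext0 A v = A ⟨v, h0, hvf⟩ := dif_pos ⟨h0, hvf⟩
    rw [e1]
    exact hLl c' ⟨v, h0, hvf⟩ hv

end shell

end Crest.Agent.R096.Ess2_95
end

-- ▼ part R096/Sgc1_838
section

/-!
# R096 (row 96), DOORS-SIGC: paths of 1-cells on the surface of a core (helper838)

`Z` a preconnected subset of the frontier of `K`: two vertices of two 2-cells of the frontier which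
meet `Z` are joined by 1-cells of 2-cells of the frontier which meet `Z`.
-/

set_option autoImplicit false

open Set Metric Filter Topology Module
open scoped Classical

namespace Crest.Agent.R096.Sgc1_838

open Msh_715 St_147 Agl5_543 Coh_184

section Gen

variable {E : Type*} [NormedAddCommGroup E] [NormedSpace ℝ E] [FiniteDimensional ℝ E]
variable {Om : Set E} {ι : Type*} (T : Tiling Om ι)

/-- the union of the 2-cells of the frontier of `K` which meet `Z` -/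
def Cov (K Z : Set E) : Set E :=
  {x | ∃ y ∈ frontier K, T.dim y = 2 ∧ (T.cc y ∩ Z).Nonempty ∧ x ∈ T.cc y}

omit [FiniteDimensional ℝ E] in
theorem Cov_sub_Om {K Z : Set E} (hKf : frontier K ⊆ Om) : Cov T K Z ⊆ Om := by
  rintro x ⟨y, hy, -, -, hx⟩
  exact T.cc_sub_Om (hKf hy) hx

omit [FiniteDimensional ℝ E] in
theorem Cov_cc {K Z : Set E} : ∀ x ∈ Cov T K Z, T.cc x ⊆ Cov T K Z := by
  rintro x ⟨y, hy, h2, hZ, hx⟩ w hw
  exact ⟨y, hy, h2, hZ, T.cc_sub_of_mem hx hw⟩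

omit [FiniteDimensional ℝ E] in
theorem sub_Cov {K Z : Set E} (h2 : ∀ x ∈ frontier K, ∃ y ∈ frontier K, T.dim y = 2 ∧ x ∈ T.cc y)
    (hZK : Z ⊆ frontier K) : Z ⊆ Cov T K Z := by
  intro x hx
  obtain ⟨y, hy, hy2, hxy⟩ := h2 x (hZK hx)
  exact ⟨y, hy, hy2, ⟨x, hxy, hx⟩, hxy⟩

omit [FiniteDimensional ℝ E] in
theorem isPreconnected_Cov {K Z : Set E}
    (h2 : ∀ x ∈ frontier K, ∃ y ∈ frontier K, T.dim y = 2 ∧ x ∈ T.cc y)
    (hZ : IsPreconnected Z) (hZK : Z ⊆ frontier K) : IsPreconnected (Cov T K Z) := by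
  rcases Z.eq_empty_or_nonempty with rfl | ⟨z0, hz0⟩
  · have : Cov T K (∅ : Set E) = ∅ := by
      rw [Set.eq_empty_iff_forall_notMem]
      rintro x ⟨y, -, -, ⟨w, -, hw⟩, -⟩
      exact hw
    rw [this]
    exact isPreconnected_empty
  · refine isPreconnected_of_forall z0 ?_
    rintro x ⟨y, hy, hy2, ⟨w, hwy, hwZ⟩, hx⟩
    refine ⟨Z ∪ T.cc y, ?_, Or.inl hz0, Or.inr hx, ?_⟩
    · rintro a (ha | ha)
      · exact sub_Cov T h2 hZK ha
      · exact ⟨y, hy, hy2, ⟨w, hwy, hwZ⟩, ha⟩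
    · exact IsPreconnected.union w hwZ hwy hZ (T.convex_cc y).isPreconnected

/-- a 1-cell (with ends `a`, `b`) of a 2-cell of the frontier of `K` which meets `Z` -/
abbrev Stp (K Z : Set E) (a b : E) : Prop :=
  ∃ y ∈ frontier K, T.dim y = 2 ∧ (T.cc y ∩ Z).Nonempty ∧
    ∃ w ∈ T.cc y, T.dim w = 1 ∧ T.cc w = segment ℝ a b

/-- **SIG**: vertices of 2-cells of the frontier which meet the preconnected set `Z` are joined by
1-cells of such 2-cells -/
theorem sig_path {K : Set E} (hK : IsCompact K) (hKO : K ⊆ Om)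
    (hcc : ∀ x ∈ frontier K, T.cc x ⊆ frontier K)
    (h2 : ∀ x ∈ frontier K, ∃ y ∈ frontier K, T.dim y = 2 ∧ x ∈ T.cc y)
    {Z : Set E} (hZ : IsPreconnected Z) (hZK : Z ⊆ frontier K) {v v' y y' : E}
    (hy : y ∈ frontier K) (hy2 : T.dim y = 2) (hyZ : (T.cc y ∩ Z).Nonempty) (hv : v ∈ T.cc y)
    (hv0 : T.dim v = 0)
    (hy' : y' ∈ frontier K) (hy2' : T.dim y' = 2) (hyZ' : (T.cc y' ∩ Z).Nonempty)
    (hv' : v' ∈ T.cc y') (hv0' : T.dim v' = 0) :
    Relation.ReflTransGen (fun a b => ∃ y ∈ frontier K, T.dim y = 2 ∧ (T.cc y ∩ Z).Nonempty ∧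
      ∃ w ∈ T.cc y, T.dim w = 1 ∧ T.cc w = segment ℝ a b) v v' := by
  have _ := hcc
  have hKf : frontier K ⊆ Om := hK.isClosed.frontier_subset.trans hKO
  have h1 := T.const_of_preconnected (φ := fun z => Relation.ReflTransGen (Stp T K Z) v z)
    (isPreconnected_Cov T h2 hZ hZK) (Cov_sub_Om T hKf) (Cov_cc T)
    (fun e he h1 a b hab => by
      obtain ⟨u, hu, hu2, huZ, heu⟩ := he
      have hs : Stp T K Z a b := ⟨u, hu, hu2, huZ, e, heu, h1, hab⟩
      have hs' : Stp T K Z b a := ⟨u, hu, hu2, huZ, e, heu, h1, by rw [hab, segment_symm]⟩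
      exact propext ⟨fun h => h.tail hs, fun h => h.tail hs'⟩)
    v ⟨y, hy, hy2, hyZ, hv⟩ v' ⟨y', hy', hy2', hyZ', hv'⟩ hv0 hv0'
  have h3 : Relation.ReflTransGen (Stp T K Z) v v := Relation.ReflTransGen.refl
  exact (show (Relation.ReflTransGen (Stp T K Z) v v) = Relation.ReflTransGen (Stp T K Z) v v'
    from h1) ▸ h3

/-- a label which is constant along these 1-cells is constant -/
theorem sig_const {A : Type*} {K : Set E} (hK : IsCompact K) (hKO : K ⊆ Om)
    (hcc : ∀ x ∈ frontier K, T.cc x ⊆ frontier K)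
    (h2 : ∀ x ∈ frontier K, ∃ y ∈ frontier K, T.dim y = 2 ∧ x ∈ T.cc y)
    {Z : Set E} (hZ : IsPreconnected Z) (hZK : Z ⊆ frontier K) {lbl : E → A}
    (hl : ∀ y ∈ frontier K, T.dim y = 2 → (T.cc y ∩ Z).Nonempty → ∀ w ∈ T.cc y, T.dim w = 1 →
      ∀ a b : E, T.cc w = segment ℝ a b → lbl a = lbl b) {v v' y y' : E}
    (hy : y ∈ frontier K) (hy2 : T.dim y = 2) (hyZ : (T.cc y ∩ Z).Nonempty) (hv : v ∈ T.cc y)
    (hv0 : T.dim v = 0)
    (hy' : y' ∈ frontier K) (hy2' : T.dim y' = 2) (hyZ' : (T.cc y' ∩ Z).Nonempty)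
    (hv' : v' ∈ T.cc y') (hv0' : T.dim v' = 0) : lbl v = lbl v' := by
  have h := sig_path T hK hKO hcc h2 hZ hZK hy hy2 hyZ hv hv0 hy' hy2' hyZ' hv' hv0'
  clear hv' hv0'
  induction h with
  | refl => rfl
  | tail _ hs ih =>
    obtain ⟨u, hu, hu2, huZ, w, hw, hw1, hab⟩ := hs
    exact ih.trans (hl u hu hu2 huZ w hw hw1 _ _ hab)

/-- the `ZMod 2` form: `lbl a + lbl b = 0` along the 1-cells of the 2-cells which meet `Z` -/
theorem sig_lbl {K : Set E} (hK : IsCompact K) (hKO : K ⊆ Om)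
    (hcc : ∀ x ∈ frontier K, T.cc x ⊆ frontier K)
    (h2 : ∀ x ∈ frontier K, ∃ y ∈ frontier K, T.dim y = 2 ∧ x ∈ T.cc y)
    {Z : Set E} (hZ : IsPreconnected Z) (hZK : Z ⊆ frontier K) {lbl : E → ZMod 2}
    (hl : ∀ y ∈ frontier K, T.dim y = 2 → (T.cc y ∩ Z).Nonempty → ∀ w ∈ T.cc y, T.dim w = 1 →
      ∀ a b : E, T.cc w = segment ℝ a b → lbl a + lbl b = 0) {v v' y y' : E}
    (hy : y ∈ frontier K) (hy2 : T.dim y = 2) (hyZ : (T.cc y ∩ Z).Nonempty) (hv : v ∈ T.cc y)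
    (hv0 : T.dim v = 0)
    (hy' : y' ∈ frontier K) (hy2' : T.dim y' = 2) (hyZ' : (T.cc y' ∩ Z).Nonempty)
    (hv' : v' ∈ T.cc y') (hv0' : T.dim v' = 0) : lbl v = lbl v' :=
  sig_const T hK hKO hcc h2 hZ hZK (fun y hy h2 hZ w hw h1 a b hab =>
    CharTwo.add_eq_zero.1 (hl y hy h2 hZ w hw h1 a b hab)) hy hy2 hyZ hv hv0 hy' hy2' hyZ' hv' hv0'


end Gen

section Surface

variable {E : Type} [NormedAddCommGroup E] [NormedSpace ℝ E] [FiniteDimensional ℝ E]
variable {Om : Set E} {ι : Type} {T : Tiling Om ι}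

/-- **(h2) for a core**: every point of the frontier is on a 2-cell of the frontier -/
theorem coreH_face (h3 : finrank ℝ E = 3) {K : Set E} (hH : CoreH T K) :
    ∀ x ∈ frontier K, ∃ y ∈ frontier K, T.dim y = 2 ∧ x ∈ T.cc y := by
  intro x hx
  obtain ⟨F, hF, hxF⟩ := exists_face (T := T) (κ := Unit) (Kc := fun _ => K) h3 (fun _ => hH)
    (c := ()) hx
  refine ⟨F.pt, hF (F.1.opn_sub (T.self_mem_oc _)), F.dim_pt, ?_⟩
  rw [← F.set_eq]
  exact hxF


/-- `sig_lbl` for a core -/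
theorem sig_lblH (h3 : finrank ℝ E = 3) {K : Set E} (hH : CoreH T K)
    {Z : Set E} (hZ : IsPreconnected Z) (hZK : Z ⊆ frontier K) {lbl : E → ZMod 2}
    (hl : ∀ y ∈ frontier K, T.dim y = 2 → (T.cc y ∩ Z).Nonempty → ∀ w ∈ T.cc y, T.dim w = 1 →
      ∀ a b : E, T.cc w = segment ℝ a b → lbl a + lbl b = 0) {v v' y y' : E}
    (hy : y ∈ frontier K) (hy2 : T.dim y = 2) (hyZ : (T.cc y ∩ Z).Nonempty) (hv : v ∈ T.cc y)
    (hv0 : T.dim v = 0)
    (hy' : y' ∈ frontier K) (hy2' : T.dim y' = 2) (hyZ' : (T.cc y' ∩ Z).Nonempty)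
    (hv' : v' ∈ T.cc y') (hv0' : T.dim v' = 0) : lbl v = lbl v' :=
  sig_lbl T hH.cpt hH.sub hH.cc (coreH_face h3 hH) hZ hZK hl hy hy2 hyZ hv hv0
    hy' hy2' hyZ' hv' hv0'


end Surface

end Crest.Agent.R096.Sgc1_838
end

-- ▼ part R096/Ess3_95
section

/-!
# Row 96, DOORS, (E-S) (helper95), part 3: CARRY for the truthful state; the trace and its curves

* `Car s j Sj`   : points of the sheet `j` in a connected subset `G` of the level set `Sj` are joined
  by chords on faces of tiles which meet `G`;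
* `car_gmain`    : it holds for the main state of a family of regular levels with trivial torsors;
* `comp_crv`     : the components of the trace of the outer state are 501's curves `crv`.
-/

set_option autoImplicit false

open Set Topology Filter Metric Module
open scoped Classical

namespace Crest.Agent.R096.Ess3_95

open Crest.Agent.R096.Msh_715 Crest.Agent.R096.Coh_184 Crest.Agent.R096.Lab_184
  Crest.Agent.R096.Main_4 Crest.Agent.R096.Agl4_543 Crest.Agent.R096.Agl5_543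
  Crest.Agent.R096.Agl6_543 Crest.Agent.R096.Ginv_543 Crest.Agent.R096.Jn_890
  Crest.Agent.R096.Seq_213 Crest.Agent.R096.St_147 Crest.Agent.R096.Door_501
  Crest.Agent.R096.Twr_438 Crest.Agent.R096.Ess1_95

section car

variable {E : Type} [NormedAddCommGroup E] [NormedSpace ℝ E] [FiniteDimensional ℝ E]
variable {Om : Set E} {ι : Type} {T : Tiling Om ι} {J C : Type} {fam : J → C}
variable {h3 : finrank ℝ E = 3}

/-- one step along a chord of a face of a tile which meets `G` -/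
def GSt1 (s : GSt (meshC T h3) fam) (G : Set E) (a b : E) : Prop :=
  ∃ F : C2 T, (∃ q ∈ F.side h3, (P (T.H q) ∩ G).Nonempty) ∧ s.At F a ∧ b = s.mu F a

/-- chord paths of the sheet `j` along connected subsets of `Sj` -/
def Car (s : GSt (meshC T h3) fam) (j : J) (Sj : Set E) : Prop :=
  ∀ G : Set E, IsPreconnected G → G ⊆ Sj → ∀ w ∈ G, ∀ w' ∈ G, w ∈ s.P → s.lab w = j → w' ∈ s.P →
    s.lab w' = j → Relation.ReflTransGen (GSt1 s G) w w'

variable {u : J → E → ℝ} {lv : J → ℝ} {S : J → Set E} [Nonempty J]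

/-- **CARRY for the main state** -/
theorem car_gmain (h : GFam T u lv S fam) {b : J → E} (hb : ∀ j, b j ∈ S j ∧ T.dim (b j) ≤ 1)
    (j : J) (ht : TrivF (ZMod 2) (S j)) : Car (gmain (h.gst h3) b) j (S j) := by
  intro G hG hGS w hw w' hw' hwP hwl hw'P hw'l
  set P : Finset E := ((h.lev j).finite_P h3).toFinset with hPdef
  have hP : ∀ x, x ∈ P ↔ x ∈ S j ∧ T.dim x ≤ 1 := fun x => Set.Finite.mem_toFinset _
  have hbj : b j ∈ P := (hP _).2 (hb j)
  have hbb : ∀ i, b i ∈ (h.gst h3).P ∧ (h.gst h3).lab (b i) = i := fun i =>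
    ⟨⟨i, (hb i).1, (hb i).2⟩, h.lab_eq (hb i).1 (hb i).2⟩
  have hcls : ∀ x, x ∈ (gmain (h.gst h3) b).P → (gmain (h.gst h3) b).lab x = j →
      x ∈ cls T (S j) P (b j) := by
    rintro x ⟨_, i, hi⟩ hxl
    have h1 := (gcomp_lab hbb hi).2
    have h2 : (h.gst h3).lab x = j := hxl
    rw [h2] at h1
    subst h1
    exact (reflTransGen_gstep_iff h h3 hP hbj).1 hi
  have hxc := hcls w hwP hwl
  have hyc := hcls w' hw'P hw'l
  have hpath : Relation.ReflTransGen (Step (S j) (fun i => Msh_715.P (T.H i)) P) w w' := by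
    have h1 := (mem_cls.1 hxc).2
    have h2 := (mem_cls.1 hyc).2
    have hsym : ∀ x y, Relation.ReflTransGen (St T (S j) P) x y →
        Relation.ReflTransGen (St T (S j) P) y x := by
      intro x y hxy
      induction hxy with
      | refl => exact .refl
      | tail _ hs ih => exact Relation.ReflTransGen.head (Step.symm hs) ih
    exact (hsym _ _ h1).trans h2
  have hSH := (h.lev j).sheetHyp h3 hP
  have hGW : G ⊆ un (fun i => Msh_715.P (T.H i)) {i | (Msh_715.P (T.H i) ∩ G).Nonempty} ∩ S j := by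
    intro x hx
    refine ⟨?_, hGS hx⟩
    obtain ⟨i, hi⟩ := T.cov x ((h.lev j).sub (hGS hx))
    exact mem_un.2 ⟨i, ⟨x, hi, hx⟩, hi⟩
  have hin := Spp_333.carry_fin hSH (ht.all Bool) {i | (Msh_715.P (T.H i) ∩ G).Nonempty} hG hGW hw
    hw' hpath
  -- every step is a chord of the state
  have key : ∀ x, Relation.ReflTransGen (InStep (S j) (fun i => Msh_715.P (T.H i)) P
      {i | (Msh_715.P (T.H i) ∩ G).Nonempty}) w x →
      Relation.ReflTransGen (GSt1 (gmain (h.gst h3) b) G) w x ∧ x ∈ (gmain (h.gst h3) b).P ∧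
        x ∈ S j := by
    intro x hx
    induction hx with
    | refl => exact ⟨.refl, hwP, hGS hw⟩
    | @tail y z _ hs ih =>
      obtain ⟨i1, i2, i3⟩ := ih
      by_cases hyz : y = z
      · rw [← hyz]; exact ⟨i1, i2, i3⟩
      · obtain ⟨q, hq, q', hch⟩ := hs
        obtain ⟨x0, hx0, hd, hat, hcc⟩ := (h.lev j).chord_cell h3 hP (Ne.symm hyz) hch
        set F : C2 T := mk2 T hx0 hd with hFdef
        have hFset : F.set = T.cc x0 := rfl
        have ha := (hP y).1 hch.left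
        have hb' := (hP z).1 hch.right
        have haF : y ∈ F.On := by
          refine ⟨by rw [hFset, hcc]; exact hch.mem.2, ?_⟩
          have := (h.lev j).vert y ha.1
          have := ha.2
          omega
        have hbF : z ∈ F.On := by
          refine ⟨by rw [hFset, hcc]; exact hch.mem_right.2, ?_⟩
          have := (h.lev j).vert z hb'.1
          have := hb'.2
          omega
        have hlab : labf S y = j := h.lab_eq ha.1 ha.2
        have hmu : z = h.mu h3 F y := by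
          refine (h.mu_spec h3 ⟨j, ha⟩ haF).2 z (Ne.symm hyz) (by rw [hlab]; exact hb'.1) hbF ?_
          rw [hlab, hFset, hcc]
          exact hch.conn
        have hAt : (gmain (h.gst h3) b).At F y := ⟨i2, haF⟩
        have hq' : q ∈ F.side h3 := by
          have hFpt : F.pt ∈ T.oc x0 := T.pt_cl hx0
          rw [C2.mem_side, T.at_eq_of_mem_oc hx0 hFpt, hat]
          exact Or.inl rfl
        refine ⟨i1.tail ⟨F, ⟨q, hq', hq⟩, hAt, hmu⟩, ?_, hb'.1⟩
        rw [hmu]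
        exact ((gmain (h.gst h3) b).mu_mem hAt.1 hAt.2).1
  exact (key w' hin).1

end car

/-! ### the trace of the outer state -/

section tr

variable {E : Type} [NormedAddCommGroup E] [NormedSpace ℝ E] [FiniteDimensional ℝ E]
variable {Om : Set E} {ι : Type} {T : Tiling Om ι} {J C : Type} {fam : J → C}
variable {κ : Type} {Kc : κ → Set E} {h3 : finrank ℝ E = 3} (hH : ∀ c, CoreH T (Kc c))
  (hdis : ∀ c c', c ≠ c' → Disjoint (Kc c) (Kc c'))

/-- the outer state on the mesh with giant cells -/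
noncomputable abbrev outK (s : GSt (meshC T h3) fam) (r : J → E) :
    GSt (meshK T h3 Kc (fun c => (hH c).core) (fun c => (hH c).cc) hdis) fam :=
  outer s (piK T Kc) (connAt_piK h3 (fun c => (hH c).core) (fun c => (hH c).cc) hdis) r

/-- the trace of the sheets of the family `a` on the sphere of the core `c` -/
noncomputable abbrev trc (s : GSt (meshC T h3) fam) (r : J → E) (c : κ) (a : C) :
    St (shellH h3 hH hdis c).sph (fun _ : J => true) :=
  trace (shellH h3 hH hdis c) (outK hH hdis s r) a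

variable {hH hdis} {s : GSt (meshC T h3) fam} {r : J → E} {c : κ} {a : C}

theorem mem_trc {w : E} : w ∈ (trc hH hdis s r c a).P ↔ (w ∈ s.P ∧
    Relation.ReflTransGen (OStep s (piK T Kc)) (r (s.lab w)) w) ∧ fam (s.lab w) = a ∧
    ∃ e, w ∈ (shellH h3 hH hdis c).OnE e := mem_trace

theorem onE_fr {e : EdK T Kc c} {w : E} (hw : w ∈ (shellH h3 hH hdis c).OnE e) :
    w ∈ frontier (Kc c) := e.2.2 (e.1.opn_sub hw)

/-- the components of the trace are 501's curves -/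
theorem mem_comp_crv {w x : E} (hw : w ∈ (trc hH hdis s r c a).P) :
    x ∈ comp true (trc hH hdis s r c a) w ↔ x ∈ crv s (piK T Kc) (Sum.inr c) w := by
  constructor
  · intro h
    have h1 := (mem_comp.1 h).2
    clear h
    induction h1 with
    | refl => exact Relation.ReflTransGen.refl
    | @tail y z _ hs ih =>
      obtain ⟨G, _, hy, hyG, rfl⟩ := hs
      refine Relation.ReflTransGen.tail ih ⟨G.1.1, ⟨G.1.2, mem_map_iff.1 G.2⟩, ?_, hyG, rfl⟩
      exact (mem_trc.1 hy).1.1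
  · intro h
    have key : x ∈ (trc hH hdis s r c a).P ∧ Rch true (trc hH hdis s r c a) w x := by
      have h1 : Relation.ReflTransGen (FStep s (piK T Kc) (Sum.inr c)) w x := h
      clear h
      induction h1 with
      | refl => exact ⟨hw, Relation.ReflTransGen.refl⟩
      | @tail y z _ hs ih =>
        obtain ⟨i1, i2⟩ := ih
        obtain ⟨F, hF, hy, hyF, rfl⟩ := hs
        let F' : {F : C2 T // ¬ (((meshC T h3).side F).map (piK T Kc)).IsDiag} := ⟨F, hF.1⟩
        let G : (shellH h3 hH hdis c).Fk := ⟨F', mem_map_iff.2 hF.2⟩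
        have h2 := (trc hH hdis s r c a).mu_mem (F := G) i1 hyF
        exact ⟨h2.1, i2.tail ⟨G, Shell.mem_bool_side _, i1, hyF, rfl⟩⟩
    exact mem_comp.2 key

end tr

end Crest.Agent.R096.Ess3_95
end

-- ▼ part R096/Ess4_95

/-!
# Row 96, DOORS, (E-S) (helper95), part 4: **exactly one essential curve** (`conn_s`, `ex_s` of 438)

`EG s j Sj Kc c v0 v1 r` : the geometric input (sets only) for the sheet `j` and the core `c`.
`ess_unique'`, `ess_exists'` : the curves of the outer state on the sphere of the core which separate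
`v0` and `v1` are exactly one.
-/

set_option autoImplicit false

open Set Topology Filter Metric Module
open scoped Classical

namespace Crest.Agent.R096.Ess4_95

open Crest.Agent.R096.Msh_715 Crest.Agent.R096.Coh_184 Crest.Agent.R096.Lab_184
  Crest.Agent.R096.Main_4 Crest.Agent.R096.Agl5_543
  Crest.Agent.R096.Seq_213 Crest.Agent.R096.St_147 Crest.Agent.R096.Door_501
  Crest.Agent.R096.Twr_438 Crest.Agent.R096.Ess1_95 Crest.Agent.R096.Ess2_95
  Crest.Agent.R096.Ess3_95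

variable {E : Type} [NormedAddCommGroup E] [NormedSpace ℝ E] [FiniteDimensional ℝ E]
variable {Om : Set E} {ι : Type} {T : Tiling Om ι} {J C : Type} {fam : J → C}
variable {κ : Type} {Kc : κ → Set E} {h3 : finrank ℝ E = 3}

/-- **geometric input** for the sheet `j` (level set `Sj`, root `r`) and the core `c`; `v0`, `v1` =
vertices of the sphere of the core below / above the sheet. -/
structure EG (s : GSt (meshC T h3) fam) (j : J) (Sj : Set E) (Kc : κ → Set E) (c : κ)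
    (v0 v1 : VxK T Kc c) (r : E) where
  /-- label of the sheet -/
  lam : E → ZMod 2
  hlam : IsLab T (gPts s j) lam
  /-- a compact set with trivial torsors around the core -/
  S0 : Set E
  S0c : IsCompact S0
  S0O : S0 ⊆ Om
  S0t : TrivF (ZMod 2) S0
  /-- connected sets below (`false`) and above (`true`) the sheet, through the sphere of the core -/
  L : Bool → Set E
  Lc : ∀ i, IsPreconnected (L i)
  LO : ∀ i, L i ⊆ Om
  LS : ∀ i q, (P (T.H q) ∩ L i).Nonempty → P (T.H q) ⊆ S0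
  Ln : ∀ i q, (P (T.H q) ∩ L i).Nonempty → ∀ u ∈ s.P, s.lab u = j → u ∉ P (T.H q)
  Ll : ∃ v ∈ VM T (L true), ∃ v' ∈ VM T (L false), lam v + lam v' = 1
  /-- connected subsets of the sphere of the core below and above the sheet -/
  Z : Bool → Set E
  Zc : ∀ i, IsPreconnected (Z i)
  Zf : ∀ i, Z i ⊆ frontier (Kc c)
  Zn : ∀ i q, (P (T.H q) ∩ Z i).Nonempty → ∀ u ∈ s.P, s.lab u = j → u ∉ P (T.H q)
  LZ : ∀ i, ∀ v ∈ VM T (L i), v ∈ frontier (Kc c) → v ∈ Z i
  Z0 : v0.1 ∈ Z false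
  Z1 : v1.1 ∈ Z true
  /-- a connected set deep inside the core -/
  D : Set E
  Dc : IsPreconnected D
  DO : D ⊆ Om
  DS : ∀ q, (P (T.H q) ∩ D).Nonempty → P (T.H q) ⊆ S0
  DK : ∀ q, (P (T.H q) ∩ D).Nonempty → P (T.H q) ⊆ interior (Kc c)
  LD : ∀ i, (L i ∩ D).Nonempty
  /-- a connected set outside the core -/
  F : Set E
  Fc : IsPreconnected F
  FO : F ⊆ Om
  FS : ∀ q, (P (T.H q) ∩ F).Nonempty → P (T.H q) ⊆ S0
  FK : ∀ q, (P (T.H q) ∩ F).Nonempty → P (T.H q) ∩ Kc c = ∅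
  LF : ∀ i, (L i ∩ F).Nonempty
  /-- the part of the sheet deep inside the core -/
  Gd : Set E
  Gdc : IsPreconnected Gd
  GdS : Gd ⊆ Sj
  GdK : ∀ q, (P (T.H q) ∩ Gd).Nonempty → P (T.H q) ⊆ interior (Kc c)
  GdD : ∀ q, (P (T.H q) ∩ D).Nonempty → ∀ w ∈ s.P, s.lab w = j → w ∈ P (T.H q) → w ∈ Gd
  /-- the part of the sheet outside the core -/
  Go : Set E
  Goc : IsPreconnected Go
  GoS : Go ⊆ Sj
  GoK : ∀ q, (P (T.H q) ∩ Go).Nonempty → ¬ P (T.H q) ⊆ Kc c
  GoF : ∀ q, (P (T.H q) ∩ F).Nonempty → ∀ w ∈ s.P, s.lab w = j → w ∈ P (T.H q) → w ∈ Go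
  Gor : r ∈ Go
  /-- connected parts of the sheet from the root into the core, outside every other core -/
  Gx : κ → Set E
  Gxc : ∀ c', c' ≠ c → IsPreconnected (Gx c')
  GxS : ∀ c', c' ≠ c → Gx c' ⊆ Sj
  Gxr : ∀ c', c' ≠ c → r ∈ Gx c'
  Gxd : ∀ c', c' ≠ c → Gd ⊆ Gx c'
  GxK : ∀ c', c' ≠ c → ∀ q, (P (T.H q) ∩ Gx c').Nonempty → ¬ P (T.H q) ⊆ Kc c'

section

variable {hH : ∀ c, CoreH T (Kc c)} {hdis : ∀ c c', c ≠ c' → Disjoint (Kc c) (Kc c')}
variable {s : GSt (meshC T h3) fam} {j : J} {Sj : Set E} {c : κ} {v0 v1 : VxK T Kc c}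

theorem psi_ireach (hdis : ∀ c c', c ≠ c' → Disjoint (Kc c) (Kc c'))
    (hcl : IsClosed (Kc c)) (hcar : Car s j Sj)
    {Gd : Set E} (Gdc : IsPreconnected Gd) (GdS : Gd ⊆ Sj)
    (GdK : ∀ q, (P (T.H q) ∩ Gd).Nonempty → P (T.H q) ⊆ interior (Kc c)) (hO : Sj ⊆ Om)
    {w₀ : E} {Ψ : E → ZMod 2}
    (hΨ : Psi s (piK T Kc) j (Sum.inr c) (crv s (piK T Kc) (Sum.inr c) w₀) Ψ)
    (hfr : ∀ w ∈ crv s (piK T Kc) (Sum.inr c) w₀, w ∈ frontier (Kc c)) {d w : E} (hd : d ∈ Gd)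
    (hdP : d ∈ s.P) (hdl : s.lab d = j) (hw : w ∈ Gd) (hwP : w ∈ s.P) (hwl : s.lab w = j) :
    Ψ w = Ψ d := by
  have hnf : ∀ x ∈ Gd, x ∉ crv s (piK T Kc) (Sum.inr c) w₀ := by
    intro x hx hxc
    obtain ⟨q, hq⟩ := T.cov x (hO (GdS hx))
    have h1 := GdK q ⟨x, hq, hx⟩ hq
    have h2 := hfr x hxc
    rw [hcl.frontier_eq] at h2
    exact h2.2 h1
  have hpath := hcar Gd Gdc GdS d hd w hw hdP hdl hwP hwl
  have hI : Relation.ReflTransGen (IStep s (piK T Kc) (Sum.inr c)) d w := by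
    clear hwP hwl hw
    induction hpath with
    | refl => exact .refl
    | tail _ hs ih =>
      obtain ⟨F, ⟨q, hq, hqG⟩, hAt, rfl⟩ := hs
      exact ih.tail ⟨F, ⟨q, hq, (piK_inr hdis).2 ((GdK q hqG).trans interior_subset)⟩, hAt.1,
        hAt.2, rfl⟩
  have h1 := hΨ.ireach (fun _ _ hF hw hl => crv_mu hF hw.1 hw.2) hdl hI
  rw [if_neg (hnf w hw), if_neg (hnf d hd), add_zero, add_zero] at h1
  exact h1

theorem psi_nreach (hdis : ∀ c c', c ≠ c' → Disjoint (Kc c) (Kc c'))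
    (hcar : Car s j Sj) {Go : Set E} (Goc : IsPreconnected Go) (GoS : Go ⊆ Sj)
    (GoK : ∀ q, (P (T.H q) ∩ Go).Nonempty → ¬ P (T.H q) ⊆ Kc c) {d w : E} (hd : d ∈ Go)
    (hdP : d ∈ s.P) (hdl : s.lab d = j) (hw : w ∈ Go) (hwP : w ∈ s.P) (hwl : s.lab w = j) :
    Relation.ReflTransGen (NStep s (piK T Kc) (Sum.inr c)) d w := by
  have hpath := hcar Go Goc GoS d hd w hw hdP hdl hwP hwl
  clear hwP hwl hw
  induction hpath with
  | refl => exact .refl
  | tail _ hs ih =>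
    obtain ⟨F, ⟨q, hq, hqG⟩, hAt, rfl⟩ := hs
    exact ih.tail ⟨F, fun h => GoK q hqG ((piK_inr hdis).1 (h q hq)), hAt.1, hAt.2, rfl⟩

theorem trc_fr {r : J → E} {a : C} {w : E} (hw : w ∈ (trc hH hdis s r c a).P) :
    ∀ x ∈ crv s (piK T Kc) (Sum.inr c) w, x ∈ frontier (Kc c) := by
  intro x hx
  have h1 := (mem_comp.1 ((mem_comp_crv hw).2 hx)).1
  obtain ⟨e, he⟩ := (mem_trc.1 h1).2.2
  exact onE_fr he

theorem ext0_sum (A : VxK T Kc c → ZMod 2) {y : Finset E}
    (hA : ∀ e : EdK T Kc c, A ((shellH h3 hH hdis c).en e false) +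
      A ((shellH h3 hH hdis c).en e true) =
        ((y.filter fun w => w ∈ (shellH h3 hH hdis c).OnE e).card : ZMod 2)) {e : E}
    (he : e ∈ frontier (Kc c)) (h1 : T.dim e = 1) {p q : E} (hpq : T.cc e = segment ℝ p q)
    (hno : ∀ w ∈ y, w ∉ T.cc e) : ext0 A p + ext0 A q = 0 := by
  have heO : e ∈ Om := (hH c).sub ((hH c).core.closed.frontier_subset he)
  set e' : EdK T Kc c := edK T Kc (fun c => (hH c).cc) heO he h1 with he'
  have h5 := hA e'
  obtain ⟨hp0, hq0, hpe, hqe, -⟩ := T.dim_ends heO h1 hpq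
  have hpf := (hH c).cc e he hpe
  have hqf := (hH c).cc e he hqe
  have hpne : p ≠ q := (Lab_184.ends_of_segment heO h1 hpq).1
  have hen : ∀ bb, ((shellH h3 hH hdis c).en e' bb) = endK e' bb := fun _ => rfl
  rw [hen, hen] at h5
  have m0 := (endK_iff e' (⟨p, hp0, hpf⟩ : VxK T Kc c)).2 hpe
  have m1 := (endK_iff e' (⟨q, hq0, hqf⟩ : VxK T Kc c)).2 hqe
  have e1 : ext0 A p = A ⟨p, hp0, hpf⟩ := dif_pos ⟨hp0, hpf⟩
  have e2 : ext0 A q = A ⟨q, hq0, hqf⟩ := dif_pos ⟨hq0, hqf⟩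
  have hsum : ext0 A p + ext0 A q = A (endK e' false) + A (endK e' true) := by
    obtain ⟨b0, hb0⟩ := m0
    obtain ⟨b1, hb1⟩ := m1
    rw [e1, e2, ← hb0, ← hb1]
    have hbb : b0 ≠ b1 := by
      rintro rfl
      exact hpne (congrArg Subtype.val (hb0.symm.trans hb1))
    cases b0 <;> cases b1
    · exact absurd rfl hbb
    · rfl
    · exact add_comm _ _
    · exact absurd rfl hbb
  rw [hsum, h5, Finset.card_eq_zero.2, Nat.cast_zero]
  rw [Finset.filter_eq_empty_iff]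
  intro w hw hwe
  refine hno w hw ?_
  have hwe' : w ∈ e'.1.opn := hwe
  have h6 := e'.1.opn_sub hwe'
  have hset : e'.1.set = T.cc e := rfl
  rwa [hset] at h6

/-- **(E-S) for the curves of the outer state** -/
theorem lbl_psi [Fintype (EdK T Kc c)] {r : J → E} {a : C} (hcar : Car s j Sj) (hSO : Sj ⊆ Om)
    (hon : ∀ w ∈ s.P, s.lab w = j → T.dim w = 1) (g : EG s j Sj Kc c v0 v1 (r j))
    (hrP : r j ∈ s.P) (hrl : s.lab (r j) = j) {w : E} (hw : w ∈ (trc hH hdis s r c a).P)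
    (hwl : s.lab w = j) {Ψ : E → ZMod 2}
    (hΨ : Psi s (piK T Kc) j (Sum.inr c) (crv s (piK T Kc) (Sum.inr c) w) Ψ) {d : E}
    (hd : d ∈ g.Gd) (hdP : d ∈ s.P) (hdl : s.lab d = j) :
    lbl (shellH h3 hH hdis c).sphSh v0 (comp true (trc hH hdis s r c a) w) v1 = Ψ d + Ψ (r j) := by
  set y : Finset E := comp true (trc hH hdis s r c a) w with hy
  have hyc : (y : Set E) = crv s (piK T Kc) (Sum.inr c) w := by
    ext x
    rw [Finset.mem_coe]
    exact mem_comp_crv hw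
  have hsph := (shellH h3 hH hdis c).sphSh_Sph (shellH_sph (h3 := h3) (hH := hH) (hdis := hdis) c)
  have hP : ∀ x ∈ (trc hH hdis s r c a).P, ∃ e, x ∈ (shellH h3 hH hdis c).sphSh.OnE e :=
    fun x hx => (mem_trc.1 hx).2.2
  obtain ⟨hA, hA0⟩ := lbl_spec hsph (cc (shellH h3 hH hdis c).sphSh (trc hH hdis s r c a) hP w) v0
  set A := lbl (shellH h3 hH hdis c).sphSh v0
    (cc (shellH h3 hH hdis c).sphSh (trc hH hdis s r c a) hP w).C with hAdef
  have hA' : ∀ e : EdK T Kc c, A ((shellH h3 hH hdis c).en e false) +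
      A ((shellH h3 hH hdis c).en e true) =
        ((y.filter fun w => w ∈ (shellH h3 hH hdis c).OnE e).card : ZMod 2) := hA
  have hyP : ∀ x ∈ y, x ∈ s.P ∧ s.lab x = j ∧ x ∈ frontier (Kc c) := by
    intro x hx
    obtain ⟨h1, h2⟩ := mem_comp.1 hx
    refine ⟨(mem_trc.1 h1).1.1, ?_, ?_⟩
    · have h3 : s.lab x = s.lab w := h2.lab
      rw [h3, hwl]
    · obtain ⟨e, he⟩ := (mem_trc.1 h1).2.2
      exact onE_fr he
  -- the label is constant on the sets `Z`
  have hZl : ∀ i, ∀ x ∈ g.Z i, ∀ x' ∈ g.Z i, T.dim x = 0 → T.dim x' = 0 →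
      ext0 A x = ext0 A x' := by
    intro i x hx x' hx' h0 h0'
    obtain ⟨z, hz, hz2, hxz⟩ := Sgc1_838.coreH_face h3 (hH c) x (g.Zf i hx)
    obtain ⟨z', hz', hz2', hxz'⟩ := Sgc1_838.coreH_face h3 (hH c) x' (g.Zf i hx')
    refine Sgc1_838.sig_lblH h3 (hH c) (g.Zc i) (g.Zf i) (lbl := ext0 A) ?_ hz hz2 ⟨x, hxz, hx⟩ hxz
      h0 hz' hz2' ⟨x', hxz', hx'⟩ hxz' h0'
    intro t ht ht2 htZ e he he1 p q hpq
    refine ext0_sum A hA' ((hH c).cc t ht he) he1 hpq ?_
    intro u hu hue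
    obtain ⟨zz, hzz, hzzZ⟩ := htZ
    have htO : t ∈ Om := (hH c).sub ((hH c).core.closed.frontier_subset ht)
    obtain ⟨q0, hq0⟩ := T.cov t htO
    have h7 : T.cc t ⊆ P (T.H q0) := T.cc_sub_tile hq0
    exact g.Zn i q0 ⟨zz, h7 hzz, hzzZ⟩ u (hyP u hu).1 (hyP u hu).2.1
      (h7 ((T.cc_sub_of_mem he) hue))
  choose dd hdL hdD using fun i => g.LD i
  choose ff hfL hfF using fun i => g.LF i
  have hvd : ∀ i, ∃ v, v ∈ VM T (g.L i) ∧ v ∈ VM T g.D := by
    intro i
    obtain ⟨q, hq⟩ := T.cov (dd i) (g.LO i (hdL i))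
    obtain ⟨v, hv, hv0⟩ := exists_vertex_tile hq
    exact ⟨v, mem_VM hq (hdL i) hv hv0, mem_VM hq (hdD i) hv hv0⟩
  have hvf : ∀ i, ∃ v, v ∈ VM T (g.L i) ∧ v ∈ VM T g.F := by
    intro i
    obtain ⟨q, hq⟩ := T.cov (ff i) (g.LO i (hfL i))
    obtain ⟨v, hv, hv0⟩ := exists_vertex_tile hq
    exact ⟨v, mem_VM hq (hfL i) hv hv0, mem_VM hq (hfF i) hv hv0⟩
  choose vd hvd using hvd
  choose vf hvf using hvf
  have hlamc : ∀ i, ∀ v ∈ VM T (g.L i), ∀ v' ∈ VM T (g.L i), g.lam v = g.lam v' := by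
    intro i v hv v' hv'
    refine g.hlam.const_geom (g.Lc i) (g.LO i) (fun q hq u hu => ?_) hv hv'
    exact g.Ln i q hq u (mem_gPts.1 hu).1 (mem_gPts.1 hu).2
  have hne : g.lam (vd true) + g.lam (vd false) = 1 := by
    obtain ⟨v, hv, v', hv', h1⟩ := g.Ll
    rw [hlamc true _ (hvd true).1 v hv, hlamc false _ (hvd false).1 v' hv']
    exact h1
  have hrGo := g.Gor
  have key := ess_shell (s := s) (j := j) (c := c) (h3 := h3) (hH := hH) (hdis := hdis) hon
    (y := y) (Ψ := Ψ) (by rw [hyc]; exact hΨ) hyP hA' g.hlam g.S0c g.S0O g.S0t (L := g.L)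
    (l := fun i => if i then A v1 else A v0) g.Lc g.LO g.LS g.Ln (by
      intro i v hv
      have hvZ := g.LZ i v.1 hv v.2.2
      cases i
      · have h1 := hZl false v.1 hvZ v0.1 g.Z0 v.2.1 v0.2.1
        rw [ext0_eq, ext0_eq] at h1
        exact h1
      · have h1 := hZl true v.1 hvZ v1.1 g.Z1 v.2.1 v1.2.1
        rw [ext0_eq, ext0_eq] at h1
        exact h1) g.Dc g.DO g.DS g.DK (a := Ψ d) (b := Ψ (r j))
    (fun q hq x hx hxl hxq => psi_ireach hdis (hH c).core.closed hcar g.Gdc g.GdS g.GdK hSO hΨ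
      (trc_fr hw) hd hdP hdl (g.GdD q hq x hx hxl hxq) hx hxl)
    g.Fc g.FO g.FS g.FK
    (fun q hq x hx hxl hxq => hΨ.nreach hrl (psi_nreach hdis hcar g.Goc g.GoS g.GoK hrGo hrP hrl
      (g.GoF q hq x hx hxl hxq) hx hxl)) (d := vd) (f := vf) hvd hvf hne
  simp only [if_true, Bool.false_eq_true, if_false] at key
  rw [hA0, add_zero] at key
  exact key

/-- a point of the sheet deep inside the core -/
theorem exists_deep (r : E) (g : EG s j Sj Kc c v0 v1 r) :
    ∃ d ∈ g.Gd, d ∈ s.P ∧ s.lab d = j := by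
  choose dd hdL hdD using fun i => g.LD i
  have hvd : ∀ i, ∃ v, v ∈ VM T (g.L i) ∧ v ∈ VM T g.D := by
    intro i
    obtain ⟨q, hq⟩ := T.cov (dd i) (g.LO i (hdL i))
    obtain ⟨v, hv, hv0⟩ := exists_vertex_tile hq
    exact ⟨v, mem_VM hq (hdL i) hv hv0, mem_VM hq (hdD i) hv hv0⟩
  choose vd hvd using hvd
  have hlamc : ∀ i, ∀ v ∈ VM T (g.L i), ∀ v' ∈ VM T (g.L i), g.lam v = g.lam v' := by
    intro i v hv v' hv'
    refine g.hlam.const_geom (g.Lc i) (g.LO i) (fun q hq u hu => ?_) hv hv'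
    exact g.Ln i q hq u (mem_gPts.1 hu).1 (mem_gPts.1 hu).2
  have hne : g.lam (vd true) ≠ g.lam (vd false) := by
    obtain ⟨v, hv, v', hv', h1⟩ := g.Ll
    rw [hlamc true _ (hvd true).1 v hv, hlamc false _ (hvd false).1 v' hv']
    intro h
    rw [h, CharTwo.add_self_eq_zero] at h1
    exact zero_ne_one h1
  obtain ⟨q, hq, u, hu, huq⟩ := g.hlam.reach_geom g.Dc g.DO (hvd true).2 (hvd false).2 hne
  exact ⟨u, g.GdD q hq u (mem_gPts.1 hu).1 (mem_gPts.1 hu).2 huq, (mem_gPts.1 hu).1,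
    (mem_gPts.1 hu).2⟩

/-- **at most one essential curve** -/
theorem ess_unique' [Fintype (EdK T Kc c)] {r : J → E} {a : C} (hcar : Car s j Sj)
    (hSO : Sj ⊆ Om) (hon : ∀ w ∈ s.P, s.lab w = j → T.dim w = 1) (hs1 : s.H1 j) (hsc : s.Conn j)
    (g : EG s j Sj Kc c v0 v1 (r j)) (hrP : r j ∈ s.P) (hrl : s.lab (r j) = j) {w w' : E}
    (hw : w ∈ (trc hH hdis s r c a).P) (hwl : s.lab w = j) (hw' : w' ∈ (trc hH hdis s r c a).P)
    (hwl' : s.lab w' = j)
    (h1 : lbl (shellH h3 hH hdis c).sphSh v0 (comp true (trc hH hdis s r c a) w) v1 = 1)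
    (h2 : lbl (shellH h3 hH hdis c).sphSh v0 (comp true (trc hH hdis s r c a) w') v1 = 1) :
    w' ∈ comp true (trc hH hdis s r c a) w := by
  obtain ⟨d, hd, hdP, hdl⟩ := exists_deep (r j) g
  obtain ⟨Ψ, hΨ⟩ := exists_psi_crv (π := piK T Kc) hs1 (Sum.inr c) w
  obtain ⟨Ψ', hΨ'⟩ := exists_psi_crv (π := piK T Kc) hs1 (Sum.inr c) w'
  have e1 := lbl_psi hcar hSO hon g hrP hrl hw hwl hΨ hd hdP hdl
  have e2 := lbl_psi hcar hSO hon g hrP hrl hw' hwl' hΨ' hd hdP hdl
  rw [h1] at e1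
  rw [h2] at e2
  have key : ∀ x y : ZMod 2, 1 = x + y → x ≠ y := by decide
  have r1 := (mem_trc.1 hw).1.2
  have r2 := (mem_trc.1 hw').1.2
  rw [hwl] at r1
  rw [hwl'] at r2
  exact (mem_comp_crv hw).2 (ess_unique hsc hrP hrl hdP hdl r1 r2 hΨ hΨ' (key _ _ e1)
    (key _ _ e2))

/-- **at least one essential curve** -/
theorem ess_exists' [Fintype (EdK T Kc c)] {r : J → E} (hcar : Car s j Sj)
    (hSO : Sj ⊆ Om) (hon : ∀ w ∈ s.P, s.lab w = j → T.dim w = 1) (hs1 : s.H1 j) (hsc : s.Conn j)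
    (g : EG s j Sj Kc c v0 v1 (r j)) (hrP : r j ∈ s.P) (hrl : s.lab (r j) = j) :
    ∃ w ∈ (trc hH hdis s r c (fam j)).P, s.lab w = j ∧
      lbl (shellH h3 hH hdis c).sphSh v0 (comp true (trc hH hdis s r c (fam j)) w) v1 = 1 := by
  obtain ⟨d, hd, hdP, hdl⟩ := exists_deep (r j) g
  -- no tile at the root is in a core
  have hrO : r j ∈ Om := hSO (g.GoS g.Gor)
  have hroot : ∀ q, r j ∈ P (T.H q) → ∀ c', ¬ P (T.H q) ⊆ Kc c' := by
    intro q hq c' h
    by_cases hc : c' = c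
    · subst hc
      exact g.GoK q ⟨_, hq, g.Gor⟩ h
    · exact g.GxK c' hc q ⟨_, hq, g.Gxr c' hc⟩ h
  -- no face is inside a single tile
  have hinl : ∀ (F : C2 T) (q : ι), ¬ InF (meshC T h3) (piK T Kc) (Sum.inl q) F := by
    intro F q h
    obtain ⟨x, h7, h8, -⟩ := F.exists_side h3
    have e1 : x.1 ∈ (meshC T h3).side F := by
      show x.1 ∈ F.side h3
      rw [C2.mem_side, h8]; exact Or.inl rfl
    have e2 : x.2 ∈ (meshC T h3).side F := by
      show x.2 ∈ F.side h3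
      rw [C2.mem_side, h8]; exact Or.inr rfl
    exact h7 ((piK_inl.1 (h _ e1)).1.trans (piK_inl.1 (h _ e2)).1.symm)
  have hrF : ∃ F, ¬ (((meshC T h3).side F).map (piK T Kc)).IsDiag ∧
      r j ∈ (meshC T h3).On F := by
    obtain ⟨q, hq⟩ := T.cov (r j) hrO
    obtain ⟨x₁, hx1, x₂, hx2, hd1, hd2, hq1, hq2, hw1, hw2, hne, huniq⟩ :=
      Agl3_543.two_cells T h3 hrO (hon _ hrP hrl) (show q ∈ T.at_ (r j) from hq)
    have hOn : r j ∈ (mk2 T hx1 hd1).On := ⟨hw1, hon _ hrP hrl⟩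
    refine ⟨mk2 T hx1 hd1, ?_, hOn⟩
    rw [diag_iff]
    rintro ⟨k, hk⟩
    rcases k with q' | c'
    · exact hinl _ _ hk
    · obtain ⟨q', hq'⟩ := exists_side (meshC T h3) (mk2 T hx1 hd1)
      exact hroot q' (C2.sub_tile (h3 := h3) hq' hOn.1) c' ((piK_inr hdis).1 (hk q' hq'))
  -- the deep point has no outer chord
  have hdO : d ∈ Om := hSO (g.GdS hd)
  have hd0 : ¬ Relation.ReflTransGen (OStep s (piK T Kc)) (r j) d := by
    intro h
    rcases Relation.ReflTransGen.cases_tail h with h | ⟨z, _, h⟩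
    · obtain ⟨q, hq⟩ := T.cov d hdO
      have h1 := g.GdK q ⟨d, hq, hd⟩
      rw [h] at hq
      exact hroot q hq c (h1.trans interior_subset)
    · obtain ⟨F, hF, hz, hzF, rfl⟩ := h
      apply hF
      rw [diag_iff]
      refine ⟨Sum.inr c, fun q hq => (piK_inr hdis).2 ?_⟩
      have h1 := (s.mu_mem hz hzF).2
      exact (g.GdK q ⟨_, C2.sub_tile (h3 := h3) hq h1.1, hd⟩).trans interior_subset
  have hk : ∀ k', k' ≠ Sum.inr c →
      Relation.ReflTransGen (NStep s (piK T Kc) k') (r j) d := by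
    intro k' hk'
    rcases k' with q | c'
    · refine hsc.2 {x | Relation.ReflTransGen (NStep s (piK T Kc) (Sum.inl q)) (r j) x} ?_ (r j)
        Relation.ReflTransGen.refl hrP hrl d hdP hdl
      intro F x hx hAt _
      exact Relation.ReflTransGen.tail hx ⟨F, hinl F q, hAt.1, hAt.2, rfl⟩
    · have hne : c' ≠ c := fun h => hk' (by rw [h])
      exact psi_nreach hdis hcar (g.Gxc c' hne) (g.GxS c' hne) (g.GxK c' hne) (g.Gxr c' hne) hrP
        hrl (g.Gxd c' hne hd) hdP hdl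
  obtain ⟨w0, h1, ⟨F, hF, hwF⟩, h2⟩ := ess_exists hs1 hsc hrP hrl hrF hdP hdl hd0 (Sum.inr c) hk
  have hw0 : w0 ∈ s.P ∧ s.lab w0 = j := by
    refine ⟨?_, (oreach_lab h1).trans hrl⟩
    rcases Relation.ReflTransGen.cases_tail h1 with h | ⟨z, _, h⟩
    · rw [h]; exact hrP
    · exact h.mem.1
  have hwt : w0 ∈ (trc hH hdis s r c (fam j)).P := by
    refine mem_trc.2 ⟨⟨hw0.1, ?_⟩, by rw [hw0.2], ?_⟩
    · rw [hw0.2]; exact h1
    · let F' : {F : C2 T // ¬ (((meshC T h3).side F).map (piK T Kc)).IsDiag} := ⟨F, hF.1⟩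
      obtain ⟨e, _, _, he⟩ := ((shellH h3 hH hdis c).onE (F := F') (mem_map_iff.2 hF.2)).1
        (show w0 ∈ _ from hwF)
      exact ⟨e, he⟩
  obtain ⟨Ψ, hΨ⟩ := exists_psi_crv (π := piK T Kc) hs1 (Sum.inr c) w0
  have e1 := lbl_psi hcar hSO hon g hrP hrl hwt hw0.2 hΨ hd hdP hdl
  refine ⟨w0, hwt, hw0.2, ?_⟩
  rw [e1]
  have key : ∀ x y : ZMod 2, x ≠ y → x + y = 1 := by decide
  exact key _ _ (h2 Ψ hΨ)

/-- **`conn_s`** of 438's `Tgt` for the essential part of the trace -/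
theorem conn_s [Fintype (EdK T Kc c)] {r : J → E} {a : C} {Sf : J → Set E}
    (hcar : ∀ j, fam j = a → Car s j (Sf j))
    (hSO : ∀ j, fam j = a → Sf j ⊆ Om) (hon : ∀ w ∈ s.P, T.dim w = 1)
    (hs1 : ∀ j, fam j = a → s.H1 j) (hsc : ∀ j, fam j = a → s.Conn j)
    (hr : ∀ j, fam j = a → r j ∈ s.P ∧ s.lab (r j) = j)
    (g : ∀ j, fam j = a → EG s j (Sf j) Kc c v0 v1 (r j)) :
    ∀ w ∈ (essSt (shellH h3 hH hdis c) v0 v1 (trc hH hdis s r c a)).P,
      ∀ w' ∈ (essSt (shellH h3 hH hdis c) v0 v1 (trc hH hdis s r c a)).P,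
        (essSt (shellH h3 hH hdis c) v0 v1 (trc hH hdis s r c a)).lab w' =
          (essSt (shellH h3 hH hdis c) v0 v1 (trc hH hdis s r c a)).lab w →
        w' ∈ comp true (essSt (shellH h3 hH hdis c) v0 v1 (trc hH hdis s r c a)) w := by
  intro w hw w' hw' hl
  rw [comp_ess hw]
  obtain ⟨h1, h2⟩ := mem_ess.1 hw
  obtain ⟨h1', h2'⟩ := mem_ess.1 hw'
  have hl' : s.lab w' = s.lab w := hl
  have hf : fam (s.lab w) = a := (mem_trc.1 h1).2.1
  exact ess_unique' (hcar _ hf) (hSO _ hf) (fun x hx _ => hon x hx) (hs1 _ hf) (hsc _ hf) (g _ hf)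
    (hr _ hf).1 (hr _ hf).2 h1 rfl h1' hl' h2 h2'

/-- **`ex_s`** -/
theorem ex_s [Fintype (EdK T Kc c)] {r : J → E} {a : C} {Sf : J → Set E}
    (hcar : ∀ j, fam j = a → Car s j (Sf j))
    (hSO : ∀ j, fam j = a → Sf j ⊆ Om) (hon : ∀ w ∈ s.P, T.dim w = 1)
    (hs1 : ∀ j, fam j = a → s.H1 j) (hsc : ∀ j, fam j = a → s.Conn j)
    (hr : ∀ j, fam j = a → r j ∈ s.P ∧ s.lab (r j) = j)
    (g : ∀ j, fam j = a → EG s j (Sf j) Kc c v0 v1 (r j)) :
    ∀ j, fam j = a → ∃ w ∈ (essSt (shellH h3 hH hdis c) v0 v1 (trc hH hdis s r c a)).P,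
      (essSt (shellH h3 hH hdis c) v0 v1 (trc hH hdis s r c a)).lab w = j := by
  intro j hf
  obtain ⟨w, hw, hwl, h1⟩ := ess_exists' (hH := hH) (hdis := hdis) (hcar _ hf) (hSO _ hf)
    (fun x hx _ => hon x hx) (hs1 _ hf) (hsc _ hf) (g _ hf) (hr _ hf).1 (hr _ hf).2
  rw [hf] at hw h1
  exact ⟨w, mem_ess.2 ⟨hw, h1⟩, hwl⟩

end

end Crest.Agent.R096.Ess4_95
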