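import Crest.Agent.R096.Mbf_337
import Crest.Agent.R096.Exc1_965
import Crest.Agent.R096.Exa4_560
import Crest.Agent.R096.Exa10_560
import Crest.Agent.R096.Door9_501
import Crest.Agent.R096.SkB1d_662
import Crest.Agent.R096.Init3_543
import Crest.Agent.R096.Vb9_965
import Crest.Agent.R096.Sgd2_298

-- ▼ part R096/Exd1_333
section

/-!
# R096 (row 96), DOORS / EXA (helper333), part d1: the levels of `s_a ∘ θ` on the boundary of a tiny
core

`θ` = a PL equivalence of `S = frontier K` with the boundary of the brick `c` (clause `bij` of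
`Mbf_337.Tiny`).

* `lev_conn`   : `{x ∈ S | s_a (θ x) = t}` is connected;
* `quad_pt`    : for every quad `{a, a', c, d}` exactly one point of `S` over `P d` with the given
                 values of `s_a ∘ θ`, `s_a' ∘ θ`;
* `cross_quad` : every crossing point of two levels lies over exactly one `P d`, `{a, a', c, d}` is a
                 quad.
-/

set_option autoImplicit false
set_option linter.unusedSectionVars false

open Set Topology Filter

namespace Crest.Agent.R096.Exd_333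

open Crest.Agent.R096.Brk1_582 Crest.Agent.R096.Brk2_582 Crest.Agent.R096.Bsp_628
open Crest.Agent.R096.Brk3_582 Crest.Agent.R096.Vb_965 Crest.Agent.R096.Exc_965
open Crest.Agent.R096.SkC1_961 (E3 FoamD)
open Crest.Agent.R096.Ce_537 (PLEquiv IsBall)
open Crest.Agent.R096.Mbf_337

variable {δ κ0 R c0 : ℝ} {La : Set E3} (Φ : FoamD δ κ0 R c0 La) (hLa : IsOpen La)

include hLa in
/-- the foam of `Φ` -/
theorem foamΦ : Foam La (Pc Φ.F) (bc (F := Φ.F)) 4 := foam Φ.bf hLa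

variable {Φ} {c a a' d : Φ.F} {S : Set E3} {θ : E3 → E3} {s t : ℝ}




/-- **(E2), existence and uniqueness over one quad** -/
theorem quad_pt (hLa : IsOpen La) (e : PLEquiv S (frontier c.1.set))
    (he : ∀ x ∈ S, e.f x = θ x) (haa : a ≠ a') (hac : a ≠ c) (hac' : a' ≠ c) (hdc : d ≠ c)
    (had : a ≠ d) (had' : a' ≠ d)
    (hne : (Pc Φ.F a ∩ Pc Φ.F a' ∩ Pc Φ.F c ∩ Pc Φ.F d).Nonempty)
    (hs0 : 0 ≤ s) (hs1 : s < 1) (ht0 : 0 ≤ t) (ht1 : t < 1) :
    ∃! x, x ∈ S ∧ θ x ∈ Pc Φ.F d ∧ sb Φ (θ x) a = s ∧ sb Φ (θ x) a' = t := by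
  have F := foamΦ Φ hLa
  have hcard : (insert a (insert a' ({c, d} : Set Φ.F))).ncard = 4 := by
    rw [ncard_insert_of_notMem, ncard_insert_of_notMem, ncard_pair hdc.symm]
    · simp [hac', had']
    · simp [haa, hac, had]
  obtain ⟨y, ⟨⟨hya, hya'⟩, hyc⟩, hyd⟩ := hne
  obtain ⟨q, ⟨hq1, hq2, hq3, hq4⟩, hqu⟩ := quad_point F (a := a) (a' := a') (Z := {c, d})
    ⟨c, by simp⟩ hcard ⟨y, by
      rw [mem_fc]
      rintro x (rfl | rfl | rfl | rfl)
      · exact hya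
      · exact hya'
      · exact hyc
      · exact hyd⟩ haa (by simp [hac, had]) (by simp [hac', had']) hs0 hs1 ht0 ht1
  have hqf : q ∈ frontier c.1.set := by
    have h5 : q ∈ frontier (Pc Φ.F c) := by
      rw [frontier_cell F, Lset_zero F]
      exact ⟨hq2 c (by simp), d, hdc, hq2 d (by simp)⟩
    exact h5
  have hg := e.mg hqf
  refine ⟨e.g q, ⟨hg, ?_, ?_, ?_⟩, ?_⟩
  · rw [← he _ hg, e.ri q hqf]; exact hq2 d (by simp)
  · rw [← he _ hg, e.ri q hqf]; exact hq3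
  · rw [← he _ hg, e.ri q hqf]; exact hq4
  · rintro x ⟨h1, h2, h3, h4⟩
    have hxf : θ x ∈ frontier c.1.set := by rw [← he x h1]; exact e.mf h1
    have hxc : θ x ∈ Pc Φ.F c := (F.cpt c).isClosed.frontier_subset hxf
    have h5 := hqu (θ x) ⟨F.sub c hxc, by
      rintro z (rfl | rfl)
      · exact hxc
      · exact h2, h3, h4⟩
    rw [← h5, ← he x h1, e.li x h1]



end Crest.Agent.R096.Exd_333
end

-- ▼ part R096/Exd2_333
section

/-!
# R096 (row 96), DOORS / EXA (helper333), part d2: exactly one interlaced pair PER QUAD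

(`Exa4_560.exa_cross` asks for one crossing point on the whole sphere; two closed curves on a sphere
cross an even number of times.)

* `exa_cross_on`   : one crossing point in the set `A` of faces ⟹ exactly one interlaced pair on the
                     faces of `A`;
* `exa_cross_quad` : the instance `u = s_a ∘ θ`, `u' = s_a' ∘ θ`, `A` = the faces of the quad
                     `{a, a', c, d}`;
* `exa_cross_nc`   : no interlaced pair on a face without crossing point.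
-/

set_option autoImplicit false
set_option linter.unusedSectionVars false

open Set Metric Module
open scoped Classical

namespace Crest.Agent.R096.Exd_333

open Crest.Agent.R096.Msh_715 Crest.Agent.R096.Agl5_543 Crest.Agent.R096.St_147
  Crest.Agent.R096.Lac_441 Crest.Agent.R096.Twr_438 Crest.Agent.R096.Exa_560

variable {E : Type} [NormedAddCommGroup E] [NormedSpace ℝ E] [FiniteDimensional ℝ E]
variable {Om : Set E} {ι : Type} {T : Tiling Om ι}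
variable {κ : Type} {Kc : κ → Set E} {J : Type}
variable {h3 : finrank ℝ E = 3} {hH : ∀ c, CoreH T (Kc c)}
  {hdis : ∀ c c', c ≠ c' → Disjoint (Kc c) (Kc c')} {c : κ}

section

variable [Nonempty J] (L : Lev T (frontier (Kc c)) J) {j : J}
variable {J' : Type} [Nonempty J'] (L' : Lev T (frontier (Kc c)) J') {j' : J'}

/-- the names `j`, `j'` have an interlaced pair on the face `G` -/
def Pair (h3 : finrank ℝ E = 3) (hH : ∀ c, CoreH T (Kc c))
    (hdis : ∀ c c', c ≠ c' → Disjoint (Kc c) (Kc c')) (L : Lev T (frontier (Kc c)) J)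
    (L' : Lev T (frontier (Kc c)) J') (j : J) (j' : J') (G : (shellH h3 hH hdis c).Fk) : Prop :=
  ∃ w x, w ∈ (exa h3 hH hdis L).P ∧
      w ∈ (shellH h3 hH hdis c).sph.On G ∧ (exa h3 hH hdis L).lab w = j ∧
      x ∈ (exa h3 hH hdis L').P ∧ x ∈ (shellH h3 hH hdis c).sph.On G ∧
      (exa h3 hH hdis L').lab x = j' ∧
      (shellH h3 hH hdis c).sph.Lace G w ((exa h3 hH hdis L).mu G w) x
        ((exa h3 hH hdis L').mu G x)

/-- an interlaced pair on a face has a crossing point -/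
theorem Pair.point
    (hgen : ∀ y ∈ frontier (Kc c), T.dim y = 1 → L.u y = L.lv j → L'.u y ≠ L'.lv j')
    {G : (shellH h3 hH hdis c).Fk} (h : Pair h3 hH hdis L L' j j' G) :
    ∃ z ∈ G.1.1.set, L.u z = L.lv j ∧ L'.u z = L'.lv j' := by
  obtain ⟨w, x, hw, hwG, hwj, hx, hxG, hxj, hl⟩ := h
  exact (exa_lace L L' hw hwG hwj hx hxG hxj hgen).1 hl

/-- a crossing point in a face gives an interlaced pair -/
theorem pair_of_point (hj : j ∈ L.J0) (hj' : j' ∈ L'.J0)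
    (hgen : ∀ y ∈ frontier (Kc c), T.dim y = 1 → L.u y = L.lv j → L'.u y ≠ L'.lv j')
    {G : (shellH h3 hH hdis c).Fk} {z : E} (hz : z ∈ G.1.1.set) (h1 : L.u z = L.lv j)
    (h2 : L'.u z = L'.lv j') : Pair h3 hH hdis L L' j j' G := by
  have hF : G.1.1.set ⊆ frontier (Kc c) := fk_sub G
  obtain ⟨p, _, _, hp, _, hpj, _⟩ := L.face hF hj hz h1
  obtain ⟨q, _, _, hq, _, hqj, _⟩ := L'.face hF hj' hz h2
  have hp' : p ∈ (exa h3 hH hdis L).P := (mem_P L).2 ⟨hF hp.1, hp.2, j, hj, hpj⟩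
  have hq' : q ∈ (exa h3 hH hdis L').P := (mem_P L').2 ⟨hF hq.1, hq.2, j', hj', hqj⟩
  exact ⟨p, q, hp', hp, lab_of L hj hpj, hq', hq, lab_of L' hj' hqj,
    (exa_lace (G := G) L L' hp' hp (lab_of L hj hpj) hq' hq (lab_of L' hj' hqj) hgen).2
      ⟨z, hz, h1, h2⟩⟩

/-- **(E2) exactly one interlaced pair on the faces of `A`** -/
theorem exa_cross_on (hj : j ∈ L.J0) (hj' : j' ∈ L'.J0)
    (hgen : ∀ y ∈ frontier (Kc c), T.dim y = 1 → L.u y = L.lv j → L'.u y ≠ L'.lv j')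
    (A : Set (shellH h3 hH hdis c).Fk)
    (hz : ∃! z, (∃ G ∈ A, z ∈ G.1.1.set) ∧ L.u z = L.lv j ∧ L'.u z = L'.lv j') :
    ∃! G : (shellH h3 hH hdis c).Fk, G ∈ A ∧ Pair h3 hH hdis L L' j j' G := by
  obtain ⟨z, ⟨⟨G, hGA, hzG⟩, hz2, hz3⟩, hzu⟩ := hz
  have hzS : z ∈ frontier (Kc c) := fk_sub G hzG
  have hdz : ¬ T.dim z ≤ 1 := by
    intro h
    have h0 : T.dim z ≠ 0 := fun h0 => L.vert z hzS h0 j hj hz2
    exact hgen z hzS (by omega) hz2 hz3
  refine ⟨G, ⟨hGA, pair_of_point L L' hj hj' hgen hzG hz2 hz3⟩, ?_⟩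
  rintro G' ⟨hG'A, hG'⟩
  obtain ⟨z', hz'G, hz'1, hz'2⟩ := hG'.point L L' hgen
  have hzz : z' = z := hzu z' ⟨⟨G', hG'A, hz'G⟩, hz'1, hz'2⟩
  subst hzz
  apply Subtype.ext
  apply Subtype.ext
  by_contra hne
  exact hdz (Lev.dim_inter hne hz'G hzG)

end

/-! ### the levels of `s_a ∘ θ` -/

section quad

open Crest.Agent.R096.Brk1_582 Crest.Agent.R096.Brk2_582 Crest.Agent.R096.Bsp_628
open Crest.Agent.R096.Brk3_582
open Crest.Agent.R096.SkC1_961 (E3 FoamD)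
open Crest.Agent.R096.Ce_537 (PLEquiv IsBall)
open Crest.Agent.R096.Mbf_337

variable {δ κ0 R c0 : ℝ} {La Om' : Set E3} {Φ : FoamD δ κ0 R c0 La} {ι' : Type}
variable {T' : Tiling Om' ι'} {κ' : Type} {Kc' : κ' → Set E3} {h3' : finrank ℝ E3 = 3}
  {hH' : ∀ c, CoreH T' (Kc' c)} {hdis' : ∀ c c', c ≠ c' → Disjoint (Kc' c) (Kc' c')} {q : κ'}
variable {J1 J2 : Type} [Nonempty J1] [Nonempty J2]

/-- **(E2) for the quad `{a, a', c, d}`**: `A` = a set of faces which contains the crossing point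
over `P d` and no crossing point over another cell -/
theorem exa_cross_quad (hLa : IsOpen La) {c a a' d : Φ.F} {θ : E3 → E3}
    (e : PLEquiv (frontier (Kc' q)) (frontier c.1.set)) (he : ∀ x ∈ frontier (Kc' q), e.f x = θ x)
    (haa : a ≠ a') (hac : a ≠ c) (hac' : a' ≠ c) (hdc : d ≠ c) (had : a ≠ d) (had' : a' ≠ d)
    (hne : (Pc Φ.F a ∩ Pc Φ.F a' ∩ Pc Φ.F c ∩ Pc Φ.F d).Nonempty)
    (L : Lev T' (frontier (Kc' q)) J1) (L' : Lev T' (frontier (Kc' q)) J2)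
    (hu : ∀ x ∈ frontier (Kc' q), L.u x = sb Φ (θ x) a)
    (hu' : ∀ x ∈ frontier (Kc' q), L'.u x = sb Φ (θ x) a')
    {j : J1} {j' : J2} (hj : j ∈ L.J0) (hj' : j' ∈ L'.J0) (hs0 : 0 ≤ L.lv j) (hs1 : L.lv j < 1)
    (ht0 : 0 ≤ L'.lv j') (ht1 : L'.lv j' < 1)
    (hgen : ∀ y ∈ frontier (Kc' q), T'.dim y = 1 → L.u y = L.lv j → L'.u y ≠ L'.lv j')
    (A : Set (shellH h3' hH' hdis' q).Fk)
    (hA : ∀ x ∈ frontier (Kc' q), θ x ∈ Pc Φ.F d → L.u x = L.lv j → L'.u x = L'.lv j' →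
      ∃ G ∈ A, x ∈ G.1.1.set)
    (hA' : ∀ G ∈ A, ∀ x ∈ G.1.1.set, L.u x = L.lv j → L'.u x = L'.lv j' → θ x ∈ Pc Φ.F d) :
    ∃! G : (shellH h3' hH' hdis' q).Fk, G ∈ A ∧ Pair h3' hH' hdis' L L' j j' G := by
  refine exa_cross_on L L' hj hj' hgen A ?_
  obtain ⟨x, ⟨hx, hxd, hxa, hxa'⟩, hxu⟩ := quad_pt hLa e he haa hac hac' hdc had had' hne hs0 hs1
    ht0 ht1
  have h1 : L.u x = L.lv j := by rw [hu x hx, hxa]
  have h2 : L'.u x = L'.lv j' := by rw [hu' x hx, hxa']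
  refine ⟨x, ⟨hA x hx hxd h1 h2, h1, h2⟩, ?_⟩
  rintro y ⟨⟨G, hG, hyG⟩, hy1, hy2⟩
  have hyS : y ∈ frontier (Kc' q) := fk_sub G hyG
  exact hxu y ⟨hyS, hA' G hG y hyG hy1 hy2, by rw [← hu y hyS, hy1], by rw [← hu' y hyS, hy2]⟩

end quad

end Crest.Agent.R096.Exd_333
end

-- ▼ part R096/Exa11_560
section

/-!
# R096 (row 96), DOORS / EXA part 11 (helper560): 662's `One` and `Two` for the state with layers

* `EndsIn T d` : the towers end in the patterns `d`.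
* `one_bot`    : `One` on the faces of the shrunk core.
* `two_bot`    : `Two` on the faces of the shrunk core.
* `exa_one`, `exa_two` : the same for the exact patterns.
-/

set_option autoImplicit false
set_option linter.unusedSectionVars false
set_option linter.style.longLine false

open Set Metric Module
open scoped Classical

namespace Crest.Agent.R096.Exa_560

open Crest.Agent.R096.Msh_715 Crest.Agent.R096.St_147 Crest.Agent.R096.Seq_213
  Crest.Agent.R096.Twr_438 Crest.Agent.R096.Door_501 Crest.Agent.R096.SkB_662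

section towers

variable {ι Φ ι0 Φ0 W J C : Type} {M : MeshC ι Φ W} {M0 : MeshC ι0 Φ0 W} {κ : Type} {k0 : κ → ι0}
  {kk : κ → ι} {Vx Ed : κ → Type} {S : ∀ c, Shell M0 (k0 c) (Vx c) (Ed c)} {n : κ → ℕ}
  {fam : J → C} {s : GSt M0 fam} {Z : Cols M M0 k0 kk S n} {T : Twrs S n s}
  {d : ∀ c (_ : C), St (S c).sph (fun _ : J => true)} {l0 : W → J}

/-- the towers end in the patterns `d` (438 `exists_twrs`) -/
def EndsIn (T : Twrs S n s) (d : ∀ c (_ : C), St (S c).sph (fun _ : J => true)) : Prop :=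
  ∀ c a, ((T.tw c a).pat (n c)).P = (d c a).P ∧
    (∀ w ∈ (d c a).P, ((T.tw c a).pat (n c)).lab w = (d c a).lab w) ∧
    ∀ F, ∀ w ∈ (d c a).P, w ∈ (S c).sph.On F → ((T.tw c a).pat (n c)).mu F w = (d c a).mu F w

variable (hT : EndsIn T d)

include hT

theorem EndsIn.fam_eq {c : κ} {a : C} {u : W} (hu : u ∈ (d c a).P) : fam ((d c a).lab u) = a := by
  obtain ⟨h1, h2, _⟩ := hT c a
  rw [← h2 u hu]
  exact T.labj (by rw [h1]; exact hu)

theorem EndsIn.mem {c : κ} {a : C} {u : W} (hu : u ∈ (d c a).P) :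
    (Z.cl c).hp (n c) u ∈ ((Twrs.rel Z T).st l0).P ∧
      ((Twrs.rel Z T).st l0).lab ((Z.cl c).hp (n c) u) = (d c a).lab u := by
  obtain ⟨h1, h2, _⟩ := hT c a
  have h := Twrs.bot_P (Z := Z) (T := T) (c := c) (a := a) (u := u) (by rw [h1]; exact hu) l0
  rw [h2 u hu] at h
  exact h

theorem EndsIn.mu {c : κ} {a : C} {u : W} {G : (S c).Fk} (hu : u ∈ (d c a).P)
    (hG : u ∈ (S c).sph.On G) :
    ((Twrs.rel Z T).st l0).mu ((Z.cl c).hf G (n c)) ((Z.cl c).hp (n c) u) =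
      (Z.cl c).hp (n c) ((d c a).mu G u) := by
  obtain ⟨h1, _, h3⟩ := hT c a
  have h := Twrs.bot_mu (Z := Z) (T := T) (c := c) (a := a) (u := u) (G := G)
    (by rw [h1]; exact hu) hG l0
  rw [h3 G u hu hG] at h
  exact h

theorem EndsIn.at_ {c : κ} {a : C} {u : W} {G : (S c).Fk} (hu : u ∈ (d c a).P)
    (hG : u ∈ (S c).sph.On G) :
    ((Twrs.rel Z T).st l0).At ((Z.cl c).hf G (n c)) ((Z.cl c).hp (n c) u) :=
  ⟨(hT.mem hu).1, ((Z.cl c).on_hf le_rfl).2 ⟨u, hG, rfl⟩⟩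

/-- points on the faces of the shrunk core -/
theorem EndsIn.cases {c : κ} {w : W} {G : (S c).Fk}
    (h : ((Twrs.rel Z T).st l0).At ((Z.cl c).hf G (n c)) w) :
    ∃ u ∈ (d c (fam (((Twrs.rel Z T).st l0).lab w))).P, u ∈ (S c).sph.On G ∧
      w = (Z.cl c).hp (n c) u ∧
      (d c (fam (((Twrs.rel Z T).st l0).lab w))).lab u = ((Twrs.rel Z T).st l0).lab w := by
  obtain ⟨a, u, h1, h2, rfl⟩ := Twrs.bot_cases h.1 h.2
  obtain ⟨g1, g2, _⟩ := hT c a
  rw [g1] at h1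
  obtain ⟨_, e2⟩ := hT.mem (Z := Z) (l0 := l0) h1
  rw [e2, hT.fam_eq h1]
  exact ⟨u, h1, h2, rfl, rfl⟩

omit hT in
/-- the faces of the shrunk core -/
theorem kk_iff {c : κ} {F : Φ} : kk c ∈ M.side F ↔ ∃ G, F = (Z.cl c).hf G (n c) := by
  constructor
  · exact fun h => (Z.cl c).faces_kk h
  · rintro ⟨G, rfl⟩
    have hn := (Z.cl c).npos
    have h4 : (n c - 1) + 1 = n c := by omega
    rw [(Z.cl c).side_bot G h4]
    exact Sym2.mem_mk_right _ _

/-- **(E1) on the shrunk core** -/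
theorem one_bot {c : κ} {j : J} (hc : ∀ w ∈ (d c (fam j)).P, ∀ w' ∈ (d c (fam j)).P,
    (d c (fam j)).lab w = j → (d c (fam j)).lab w' = j → w' ∈ comp true (d c (fam j)) w) :
    One ((Twrs.rel Z T).st l0) {F | kk c ∈ M.side F} j := by
  intro X hX F w F' w' hF hF' hw hw' hl hl' hwX
  obtain ⟨G, rfl⟩ := (kk_iff (Z := Z)).1 hF
  obtain ⟨G', rfl⟩ := (kk_iff (Z := Z)).1 hF'
  obtain ⟨u, hu, huG, rfl, hul⟩ := hT.cases hw
  obtain ⟨u', hu', huG', rfl, hul'⟩ := hT.cases hw'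
  rw [hl] at hu hul
  rw [hl'] at hu' hul'
  have hcomp := (mem_comp.1 (hc u hu u' hu' hul hul')).2
  have key : ∀ v, Rch true (d c (fam j)) u v →
      v ∈ (d c (fam j)).P ∧ (d c (fam j)).lab v = j ∧ (Z.cl c).hp (n c) v ∈ X := by
    intro v hv
    induction hv with
    | refl => exact ⟨hu, hul, hwX⟩
    | tail _ hs ih =>
      obtain ⟨g1, g2, g3⟩ := ih
      obtain ⟨H, _, k2, k3, rfl⟩ := hs
      refine ⟨((d c (fam j)).mu_mem k2 k3).1, ((d c (fam j)).mu_lab k2 k3).trans g2, ?_⟩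
      have h1 := hX ((Z.cl c).hf H (n c)) _ ((kk_iff (Z := Z)).2 ⟨H, rfl⟩) g3
        (hT.at_ k2 k3) (by rw [(hT.mem g1).2]; exact g2)
      rw [hT.mu k2 k3] at h1
      exact h1
  exact (key u' hcomp).2.2

omit hT in
theorem low_exists {fam : J → C} {s : GSt M fam} {F : Φ} {w : W} (h : s.At F w) :
    ∃ x, s.At F x ∧ s.lab x = s.lab w ∧ (x = w ∨ x = s.mu F w) ∧
      M.pos F x < M.pos F (s.mu F x) ∧ ∀ y z, M.Lace F x (s.mu F x) y z ↔
        M.Lace F w (s.mu F w) y z := by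
  have hmu := s.mu_mem h.1 h.2
  have hne : M.pos F w ≠ M.pos F (s.mu F w) := fun e =>
    s.mu_ne h.1 h.2 (M.pos_inj F h.2 hmu.2 e).symm
  rcases lt_or_gt_of_ne hne with h1 | h1
  · exact ⟨w, h, rfl, Or.inl rfl, h1, fun _ _ => Iff.rfl⟩
  · refine ⟨s.mu F w, hmu, s.mu_lab h.1 h.2, Or.inr rfl, ?_, fun y z => ?_⟩
    · rw [s.mu_mu h.1 h.2]; exact h1
    · rw [s.mu_mu h.1 h.2, lace_swap_left]

omit hT in
theorem low_unique {fam : J → C} {s : GSt M fam} {F : Φ} {w x : W} (hw : s.At F w)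
    (h1 : M.pos F w < M.pos F (s.mu F w)) (h2 : M.pos F x < M.pos F (s.mu F x))
    (h : x = w ∨ x = s.mu F w) : x = w := by
  rcases h with h | h
  · exact h
  · rw [h, s.mu_mu hw.1 hw.2] at h2
    exact absurd h1 (not_lt.2 h2.le)

/-- the names `j`, `j'` have an interlaced pair on the face `G` of the sphere -/
def PairD (d : ∀ c (_ : C), St (S c).sph (fun _ : J => true)) (fam : J → C) (c : κ) (j j' : J)
    (G : (S c).Fk) : Prop :=
  ∃ w x, w ∈ (d c (fam j)).P ∧ w ∈ (S c).sph.On G ∧ (d c (fam j)).lab w = j ∧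
    x ∈ (d c (fam j')).P ∧ x ∈ (S c).sph.On G ∧ (d c (fam j')).lab x = j' ∧
    (S c).sph.Lace G w ((d c (fam j)).mu G w) x ((d c (fam j')).mu G x)

/-- different families have no common point -/
theorem EndsIn.ne {c : κ} {a b : C} (hab : a ≠ b) {u v : W} (hu : u ∈ (d c a).P)
    (hv : v ∈ (d c b).P) : u ≠ v := by
  rintro rfl
  refine hab (T.dis (c := c) (j := n c) (w := u) ?_ ?_)
  · rw [(hT c a).1]; exact hu
  · rw [(hT c b).1]; exact hv

/-- the pair on the copy of the face -/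
theorem EndsIn.lace {c : κ} {a b : C} (hab : a ≠ b) {G : (S c).Fk} {u v : W} (hu : u ∈ (d c a).P)
    (huG : u ∈ (S c).sph.On G) (hv : v ∈ (d c b).P) (hvG : v ∈ (S c).sph.On G) :
    M.Lace ((Z.cl c).hf G (n c)) ((Z.cl c).hp (n c) u)
      (((Twrs.rel Z T).st l0).mu ((Z.cl c).hf G (n c)) ((Z.cl c).hp (n c) u))
      ((Z.cl c).hp (n c) v)
      (((Twrs.rel Z T).st l0).mu ((Z.cl c).hf G (n c)) ((Z.cl c).hp (n c) v)) ↔
    (S c).sph.Lace G u ((d c a).mu G u) v ((d c b).mu G v) := by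
  rw [hT.mu hu huG, hT.mu hv hvG]
  have mu1 := (d c a).mu_mem hu huG
  have mu2 := (d c b).mu_mem hv hvG
  exact (Z.cl c).lace_hf le_rfl huG mu1.2 hvG mu2.2 ((d c a).mu_ne hu huG).symm
    ((d c b).mu_ne hv hvG).symm (hT.ne hab hu hv) (hT.ne hab hu mu2.1) (hT.ne hab mu1.1 hv)
    (hT.ne hab mu1.1 mu2.1)

/-- **(E2) on the shrunk core**: exactly one double point on the faces which touch `A` -/
theorem two_bot {c : κ} {j j' : J} (hjj : fam j ≠ fam j') {A : Set ι}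
    (hone : ∀ i, (i = j ∨ i = j') → ∀ G, ∀ u ∈ (d c (fam i)).P, ∀ v ∈ (d c (fam i)).P,
      u ∈ (S c).sph.On G → v ∈ (S c).sph.On G → (d c (fam i)).lab u = i →
      (d c (fam i)).lab v = i → v = u ∨ v = (d c (fam i)).mu G u)
    (hu : ∃! G : (S c).Fk, Tch M A ((Z.cl c).hf G (n c)) ∧ PairD d fam c j j' G) :
    Two ((Twrs.rel Z T).st l0) A {kk c} j j' := by
  obtain ⟨G, ⟨hGA, w, x, hw, hwG, hwl, hx, hxG, hxl, hL⟩, hun⟩ := hu
  have aw := hT.at_ (Z := Z) (l0 := l0) hw hwG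
  have ax := hT.at_ (Z := Z) (l0 := l0) hx hxG
  have lw := (hT.mem (Z := Z) (l0 := l0) hw).2
  have lx := (hT.mem (Z := Z) (l0 := l0) hx).2
  rw [hwl] at lw
  rw [hxl] at lx
  have hL' := (hT.lace (Z := Z) (l0 := l0) hjj hw hwG hx hxG).2 hL
  obtain ⟨w1, g1, g2, g3, g4, g5⟩ := low_exists aw
  obtain ⟨x1, k1, k2, k3, k4, k5⟩ := low_exists ax
  rw [lw] at g2
  rw [lx] at k2
  have hne1 : w1 ≠ x1 := fun h => hjj (by rw [← g2, ← k2, h])
  have hside : kk c ∈ M.side ((Z.cl c).hf G (n c)) := (kk_iff (Z := Z)).2 ⟨G, rfl⟩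
  have hL1 : M.Lace ((Z.cl c).hf G (n c)) w1
      (((Twrs.rel Z T).st l0).mu ((Z.cl c).hf G (n c)) w1) x1
      (((Twrs.rel Z T).st l0).mu ((Z.cl c).hf G (n c)) x1) := by
    rw [g5]
    rcases k3 with h | h
    · rw [h]; exact hL'
    · rw [h, ((Twrs.rel Z T).st l0).mu_mu ax.1 ax.2, lace_swap_right]; exact hL'
  refine ⟨(_, w1, x1), ⟨⟨g1, k1, g2, k2, g4, k4, hL1⟩, hGA, kk c, hside, rfl⟩, ?_⟩
  rintro ⟨F, y, z⟩ ⟨hX, hA, q, hq, hqB⟩
  simp only at hX hA hq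
  have hqB' : q = kk c := hqB
  rw [hqB'] at hq
  obtain ⟨G', rfl⟩ := (kk_iff (Z := Z)).1 hq
  have hly : ((Twrs.rel Z T).st l0).lab y = j := hX.lx
  have hlz : ((Twrs.rel Z T).st l0).lab z = j' := hX.ly
  obtain ⟨y0, m1, m2, rfl, m4⟩ := hT.cases hX.ax
  obtain ⟨z0, p1, p2, rfl, p4⟩ := hT.cases hX.ay
  rw [hly] at m1 m4
  rw [hlz] at p1 p4
  have hLy : (S c).sph.Lace G' y0 ((d c (fam j)).mu G' y0) z0 ((d c (fam j')).mu G' z0) :=
    (hT.lace (Z := Z) (l0 := l0) hjj m1 m2 p1 p2).1 hX.lace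
  have hGG : G' = G := hun G' ⟨hA, y0, z0, m1, m2, m4, p1, p2, p4, hLy⟩
  subst hGG
  have ey : (Z.cl c).hp (n c) y0 = w1 := by
    refine low_unique g1 g4 hX.px ?_
    have h1 := hone j (Or.inl rfl) G' w hw y0 m1 hwG m2 hwl m4
    have h2 : (Z.cl c).hp (n c) y0 = (Z.cl c).hp (n c) w ∨ (Z.cl c).hp (n c) y0 =
        ((Twrs.rel Z T).st l0).mu ((Z.cl c).hf G' (n c)) ((Z.cl c).hp (n c) w) := by
      rw [hT.mu hw hwG]
      rcases h1 with h | h
      · left; rw [h]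
      · right; rw [h]
    rcases g3 with h | h
    · rw [h]; exact h2
    · rw [h, ((Twrs.rel Z T).st l0).mu_mu aw.1 aw.2]; exact h2.symm
  have ez : (Z.cl c).hp (n c) z0 = x1 := by
    refine low_unique k1 k4 hX.py ?_
    have h1 := hone j' (Or.inr rfl) G' x hx z0 p1 hxG p2 hxl p4
    have h2 : (Z.cl c).hp (n c) z0 = (Z.cl c).hp (n c) x ∨ (Z.cl c).hp (n c) z0 =
        ((Twrs.rel Z T).st l0).mu ((Z.cl c).hf G' (n c)) ((Z.cl c).hp (n c) x) := by
      rw [hT.mu hx hxG]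
      rcases h1 with h | h
      · left; rw [h]
      · right; rw [h]
    rcases k3 with h | h
    · rw [h]; exact h2
    · rw [h, ((Twrs.rel Z T).st l0).mu_mu ax.1 ax.2]; exact h2.symm
  rw [ey, ez]

end towers

section exact

open Crest.Agent.R096.Agl5_543 Crest.Agent.R096.Exd_333

variable {E : Type} [NormedAddCommGroup E] [NormedSpace ℝ E] [FiniteDimensional ℝ E]
variable {Om : Set E} {ι0 : Type} {T0 : Tiling Om ι0} {κ : Type} {Kc : κ → Set E}
  {h3 : finrank ℝ E = 3} {hH : ∀ c, CoreH T0 (Kc c)}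
  {hdis : ∀ c c', c ≠ c' → Disjoint (Kc c) (Kc c')}
variable {ι Φ J C : Type} [Nonempty J] {M : MeshC ι Φ E} {kk : κ → ι} {n : κ → ℕ} {fam : J → C}
  {s : GSt (meshH h3 hH hdis) fam}
  {Z : Cols M (meshH h3 hH hdis) (fun c => Sum.inr c) kk (fun k => shellH h3 hH hdis k) n}
  {T : Twrs (fun k => shellH h3 hH hdis k) n s} {L : ∀ k, C → Lev T0 (frontier (Kc k)) J}
  {l0 : E → J}

/-- **(E1) for the exact patterns** -/
theorem exa_one (hT : EndsIn T (fun k a => exa h3 hH hdis (L k a))) {c : κ} {j : J}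
    (hc : j ∈ (L c (fam j)).J0 → IsPreconnected {x | x ∈ frontier (Kc c) ∧
      (L c (fam j)).u x = (L c (fam j)).lv j}) :
    One ((Twrs.rel Z T).st l0) {F | kk c ∈ M.side F} j := by
  refine one_bot hT ?_
  intro w hw w' hw' hl hl'
  have hj : j ∈ (L c (fam j)).J0 := by
    have := (exa_lab (L c (fam j)) hw).1
    rwa [hl] at this
  exact exa_comp (L c (fam j)) hj (hc hj) hw hl hw' hl'

/-- **(E2) for the exact patterns** -/
theorem exa_two (hT : EndsIn T (fun k a => exa h3 hH hdis (L k a))) {c : κ} {j j' : J}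
    (hjj : fam j ≠ fam j') {A : Set ι}
    (hu : ∃! G : (shellH h3 hH hdis c).Fk, G ∈ {G | Tch M A ((Z.cl c).hf G (n c))} ∧
      Pair h3 hH hdis (L c (fam j)) (L c (fam j')) j j' G) :
    Two ((Twrs.rel Z T).st l0) A {kk c} j j' := by
  refine two_bot hT hjj ?_ hu
  intro i _ G u hu v hv huG hvG hul hvl
  obtain ⟨g1, g2⟩ := exa_lab (L c (fam i)) hu
  obtain ⟨_, g4⟩ := exa_lab (L c (fam i)) hv
  rw [hul] at g1 g2
  rw [hvl] at g4
  exact ((L c (fam i)).mu_spec (fk_sub G) g1 huG g2).2.2.2.1 v (G.1.1.on_sub_bd hvG) g4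

end exact

end Crest.Agent.R096.Exa_560
end

-- ▼ part R096/Exa12_560
section

/-!
# R096 (row 96), DOORS / EXA part 12 (helper560): (E2) at the tiny cores for the real active cells

`Q : QK (Pc Φ.F)` a quad with `c ∈ Q.Z`; active tiles = tiles with a point over
`lev b ∈ [s, 1 - s]` (`b ∈ Q.B`), `lev e = 0` (`e ∈ Q.Z`) (543 `mem_act_iff`).
* `tiny_psi`  : on the tiles of `V \ J0` at the frontier the push is defined.
* `tiny_hA`   : over the double point the tile is active.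
* `tiny_hA'`  : on an active tile the frontier is mapped into `P d`.
* `tiny_two`  : 662's `Two` at the shrunk tiny core, for the state after the towers.
-/

set_option autoImplicit false
set_option linter.unusedSectionVars false
set_option linter.style.longLine false

open Set Metric Module
open scoped Classical

namespace Crest.Agent.R096.Exa_560

open Crest.Agent.R096.Msh_715 Crest.Agent.R096.Agl5_543 Crest.Agent.R096.St_147
open Crest.Agent.R096.Twr_438 Crest.Agent.R096.Door_501 Crest.Agent.R096.Seq_213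
open Crest.Agent.R096.Brk1_582 Crest.Agent.R096.Brk2_582 Crest.Agent.R096.Brk3_582
open Crest.Agent.R096.Bsp_628 Crest.Agent.R096.Init_543
open Crest.Agent.R096.Mbf_337 (sb KJ Tiny gau)
open Crest.Agent.R096.SkC1_961 (E3 FoamD)
open Crest.Agent.R096.Ce_537 (PLEquiv IsBall)
open Crest.Agent.R096.SkB_662

variable {δ κ0 R c0 : ℝ} {La Om : Set E3} {ι : Type} {Φ : FoamD δ κ0 R c0 La} {T : Tiling Om ι}
  {f : E3 → E3} {κ1 : ℝ}

section one

variable {c : Φ.F} {J0 J V : Set ι} {θ : E3 → E3} {φ : E3 → ℝ}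

theorem gau_self {c : Bx (Fin 3)} {p : E3} (hp : ∀ k, c.lo k ≤ p k ∧ p k ≤ c.hi k) :
    gau c p p = 0 := by
  have h : {r : ℝ | 0 < r ∧ ∀ k, r⁻¹ * (p k - p k) + p k ∈ Icc (c.lo k) (c.hi k)} = Ioi 0 := by
    ext r
    constructor
    · exact fun h => h.1
    · intro h
      refine ⟨h, fun k => ?_⟩
      rw [sub_self, mul_zero, zero_add]
      exact hp k
  unfold gau
  rw [h, csInf_Ioi]

/-- the push is defined on the tiles of `V \ J0` at the frontier -/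
theorem tiny_psi (hLa : IsOpen La) (H : Tiny Φ T f κ1 c J0 J V θ φ) {q : ι} {x1 x : E3}
    (hx1 : x1 ∈ frontier (KJ T J)) (hq1 : x1 ∈ P (T.H q)) (hx : x ∈ P (T.H q)) :
    Φ.Psi (f x) ∈ Pc Φ.F c ∧ ∃ e, e ≠ c ∧ Φ.Psi (f x) ∈ Pc Φ.F e := by
  obtain ⟨ρ1, ρ2, ρ3, ρ4, d, hd, hdk, h1, h12, h23, h34, h4, hray, hJ0, hfr, hV, hosc, hth⟩ :=
    H.room
  obtain ⟨g1, g2⟩ := hfr x1 hx1
  have hqV : q ∈ V := hV q ⟨x1, hq1, by linarith⟩
  have hq0 : q ∉ J0 := by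
    intro h
    have := hJ0 x1 (mem_iUnion₂.2 ⟨q, h, hq1⟩)
    linarith
  have h5 := (abs_le.1 (hosc q hqV hq0 x hx x1 hq1).1).1
  have hin := H.inside x (mem_iUnion₂.2 ⟨q, hqV, hx⟩)
  have hfx : f x ∈ Pc Φ.F c := ⟨fun k => (hin k).1.le, fun k => (hin k).2.le⟩
  refine (Vb_965.pushD Φ hLa).mem c (f x) hfx ((Vb_965.muD_pos Φ hLa hfx).2 ?_)
  intro hS
  have he : f x = (Φ.B c).lo := by
    funext k
    have h6 := hS k
    have h7 : (Φ.B c).hi k = (Φ.B c).lo k := by rw [H.pt]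
    exact le_antisymm (by rw [← h7]; exact h6.2) h6.1
  have h8 : gau c.1 (Φ.B c).lo (f x) = 0 := by
    rw [he]
    refine gau_self fun k => ?_
    rw [← he]
    exact ⟨(hin k).1.le, (hin k).2.le⟩
  rw [h8] at h5
  linarith

/-- the coordinates which are `< 1` -/
theorem lt_one_sub (hLa : IsOpen La) {Q : QK (Pc Φ.F)} {y : E3} (hy : y ∈ La)
    (hB : ∀ b ∈ Q.B, sb Φ y b < 1) (hZ : ∀ e ∈ Q.Z, sb Φ y e < 1) {e : Φ.F}
    (he : sb Φ y e < 1) : e ∈ Q.B ∪ Q.Z := by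
  have FF := foam Φ.bf hLa
  have hsub : Q.B ∪ Q.Z ⊆ {e | sb Φ y e < 1} := by
    rintro e (h | h)
    · exact hB e h
    · exact hZ e h
  have h1 : ({e | sb Φ y e < 1} : Set Φ.F).ncard ≤ 4 := by
    have := FF.sc_lt_one_ncard hy
    rw [Fintype.card_fin] at this
    exact this
  have h2 : Q.B ∪ Q.Z = {e | sb Φ y e < 1} :=
    Set.eq_of_subset_of_ncard_le hsub (by rw [Q.card_union]; exact h1) (FF.sc_lt_one_finite hy)
  rw [h2]; exact he

theorem mem_Z_iff {Q : QK (Pc Φ.F)} {c d e : Φ.F} (hc : c ∈ Q.Z) (hd : d ∈ Q.Z) (hcd : d ≠ c)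
    (he : e ∈ Q.Z) (hec : e ≠ c) : e = d := by
  have h1 : ({c, d} : Set Φ.F) = Q.Z := by
    refine Set.eq_of_subset_of_ncard_le ?_ ?_ Q.finZ
    · rintro x (rfl | rfl)
      · exact hc
      · exact hd
    · rw [Q.cZ, ncard_pair hcd.symm]
  rw [← h1] at he
  rcases he with h | h
  · exact absurd h hec
  · exact h

/-- **(hA)** over the double point the tile is active (`x` itself is the point) -/
theorem tiny_hA (hLa : IsOpen La) (hδ : 0 < δ) (hR : 0 < R) (H : Tiny Φ T f κ1 c J0 J V θ φ)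
    {Q : QK (Pc Φ.F)} {d : Φ.F} (hc : c ∈ Q.Z) (hd : d ∈ Q.Z) (hcd : d ≠ c) {s A B : ℝ}
    (hκ : Cn δ R * κ1 < 1) (hA : s + Cn δ R * κ1 ≤ A) (hA0 : Cn δ R * κ1 < A)
    (hB : B + Cn δ R * κ1 ≤ 1 - s) (hB1 : B < 1) {x : E3} (hx : x ∈ frontier (KJ T J))
    (hxd : θ x ∈ Pc Φ.F d) (hb : ∀ b ∈ Q.B, A ≤ sb Φ (θ x) b ∧ sb Φ (θ x) b ≤ B) :
    (∀ b ∈ Q.B, Φ.lev b (f x) ∈ Icc s (1 - s)) ∧ ∀ e ∈ Q.Z, Φ.lev e (f x) = 0 := by
  have FF := foam Φ.bf hLa
  have hthc := th_mem' H hx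
  have hthL : θ x ∈ La := FF.sub c hthc
  have hn := fun a => abs_le.1 (tiny_near hLa hδ hR hκ H hx a)
  refine ⟨fun b hb' => ?_, ?_⟩
  · obtain ⟨h1, h2⟩ := hb b hb'
    have h3 := hn b
    exact ⟨by linarith [h3.2], by linarith [h3.1]⟩
  · have hxK : x ∈ KJ T J := fr_sub H hx
    obtain ⟨q, hq, hxq⟩ := mem_iUnion₂.1 hxK
    obtain ⟨hpc, e', he'c, hpe'⟩ := tiny_psi hLa H hx hxq hxq
    have hZ : ∀ e ∈ Q.Z, sb Φ (θ x) e = 0 := by
      intro e he
      by_cases h : e = c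
      · rw [h]; exact tiny_c hLa H hx
      · rw [mem_Z_iff hc hd hcd he h]
        exact (FF.sc_eq_zero hthL).2 hxd
    have h0 : Φ.lev e' (f x) = 0 := (FF.sc_eq_zero (FF.sub c hpc)).2 hpe'
    have h1 : sb Φ (θ x) e' ≤ Cn δ R * κ1 := by
      have := (hn e').2
      rw [h0] at this
      linarith
    have h2 : e' ∈ Q.B ∪ Q.Z := lt_one_sub hLa hthL (fun b hb' => (hb b hb').2.trans_lt hB1)
      (fun e he => by rw [hZ e he]; exact one_pos) (h1.trans_lt hκ)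
    have h3 : e' ∈ Q.Z := by
      rcases h2 with h2 | h2
      · have := (hb e' h2).1
        linarith
      · exact h2
    have h4 : e' = d := mem_Z_iff hc hd hcd h3 he'c
    subst h4
    intro e he
    by_cases h : e = c
    · rw [h]; exact (FF.sc_eq_zero (FF.sub c hpc)).2 hpc
    · rw [mem_Z_iff hc hd hcd he h]; exact h0

/-- **(hA')** on an active tile the frontier is mapped into `P d` -/
theorem tiny_hA' (hLa : IsOpen La) (hδ : 0 < δ) (hR : 0 < R) (H : Tiny Φ T f κ1 c J0 J V θ φ)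
    {Q : QK (Pc Φ.F)} {d : Φ.F} (hc : c ∈ Q.Z) (hd : d ∈ Q.Z) (hcd : d ≠ c) {s : ℝ}
    (hκ : Cn δ R * κ1 < 1) (hs : (Cn δ R + 1) * κ1 < s) (hs1 : s ≤ 1 / 2) {q : ι} {x x0 : E3}
    (hx : x ∈ frontier (KJ T J)) (hxq : x ∈ P (T.H q)) (hx0 : x0 ∈ P (T.H q))
    (hb : ∀ b ∈ Q.B, Φ.lev b (f x0) ∈ Icc s (1 - s)) (hz : ∀ e ∈ Q.Z, Φ.lev e (f x0) = 0) :
    θ x ∈ Pc Φ.F d := by
  have FF := foam Φ.bf hLa
  have hC := Cn_nonneg hδ hR
  obtain ⟨dd, hdd, hdk, hosc⟩ := tiny_tile H hx hxq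
  have hs0 : 0 < s := by
    have h1 : 0 ≤ (Cn δ R + 1) * κ1 := mul_nonneg (by linarith) (hdd.le.trans hdk)
    linarith
  have h1 : θ x ∈ frontier c.1.set := th_mem H hx
  rw [frontier_c Φ hLa c] at h1
  obtain ⟨hthc, e, hec, hthe⟩ := h1
  have hthL : θ x ∈ La := FF.sub c hthc
  have h2 : sb Φ (θ x) e = 0 := (FF.sc_eq_zero hthL).2 hthe
  have h3 := (abs_le.1 (tiny_near hLa hδ hR hκ H hx e)).1
  have h4 := (abs_le.1 (hosc x0 hx0 x hxq e)).2
  have h5 : Φ.lev e (f x0) < s := by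
    rw [h2] at h3
    have : (Cn δ R + 1) * κ1 = Cn δ R * κ1 + κ1 := by ring
    linarith
  obtain ⟨hpc, _⟩ := tiny_psi hLa H hx hxq hx0
  have h6 : e ∈ Q.B ∪ Q.Z := by
    refine lt_one_sub hLa (y := Φ.Psi (f x0)) (FF.sub c hpc) (fun b hb' => ?_) (fun e he => ?_) ?_
    · have : Φ.lev b (f x0) ≤ 1 - s := (hb b hb').2
      exact this.trans_lt (by linarith)
    · have : Φ.lev e (f x0) = 0 := hz e he
      exact this.trans_lt one_pos
    · exact h5.trans (by linarith)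
  have h7 : e ∈ Q.Z := by
    rcases h6 with h6 | h6
    · have := (hb e h6).1
      exact absurd h5 (not_lt.2 this)
    · exact h6
  rw [← mem_Z_iff hc hd hcd h7 hec]
  exact hthe

end one

section two

open Crest.Agent.R096.Exd_333

variable {κ : Type} {cf : κ → Φ.F} {J0 J V : κ → Set ι} {θ : κ → E3 → E3} {φ : κ → E3 → ℝ}
  {h3 : finrank ℝ E3 = 3} {hH : ∀ k, CoreH T (KJ T (J k))}
  {hdis : ∀ c c', c ≠ c' → Disjoint (KJ T (J c)) (KJ T (J c'))}
  {ι' Φ' JJ C : Type} [Nonempty JJ] {M : MeshC ι' Φ' E3} {kk : κ → ι'} {n : κ → ℕ} {fam : JJ → C}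
  {s : GSt (meshH h3 hH hdis) fam}
  {Z : Cols M (meshH h3 hH hdis) (fun c => Sum.inr c) kk (fun k => shellH h3 hH hdis k) n}
  {Tw : Twrs (fun k => shellH h3 hH hdis k) n s} {L : ∀ k, C → Lev T (frontier (KJ T (J k))) JJ}
  {l0 : E3 → JJ}

/-- the face of the shell of a 2-cell of the frontier -/
theorem exists_fk {m : κ} {F : C2 T} (hF : F.set ⊆ frontier (KJ T (J m))) :
    ∃ G : (shellH h3 hH hdis m).Fk, G.1.1 = F := by
  have h := (face_iff h3 (fun c => (hH c).core) (fun c => (hH c).sub) (fun c => (hH c).cc) hdis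
    F m).1 hF
  exact ⟨⟨⟨F, h.1⟩, h.2⟩, rfl⟩

/-- the inner tile of a face of the shell -/
theorem exists_inner {m : κ} (G : (shellH h3 hH hdis m).Fk) :
    ∃ q ∈ G.1.1.side h3, P (T.H q) ⊆ KJ T (J m) :=
  ((T.sub_frontier_iff h3 (hH m).core (hH m).sub (hH m).cc G.1.1).1 (fk_sub G)).1

/-- **(E2) at the tiny core `m`** for the quad `Q` with `cf m ∈ Q.Z`; `A'` = the active cells, over
the inner tiles with a point over the quad -/
theorem tiny_two (hLa : IsOpen La) (hδ : 0 < δ) (hR : 0 < R)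
    (hT : EndsIn Tw (fun k a => exa h3 hH hdis (L k a))) {m : κ}
    (H : Tiny Φ T f κ1 (cf m) (J0 m) (J m) (V m) (θ m) (φ m)) {Q : QK (Pc Φ.F)}
    (hc : cf m ∈ Q.Z) {a a' : Φ.F} (ha : a ∈ Q.B) (ha' : a' ∈ Q.B) (haa : a ≠ a') {j j' : JJ}
    (hfam : fam j ≠ fam j') (hu : ∀ x ∈ frontier (KJ T (J m)), (L m (fam j)).u x = sb Φ (θ m x) a)
    (hu' : ∀ x ∈ frontier (KJ T (J m)), (L m (fam j')).u x = sb Φ (θ m x) a')
    (hj : j ∈ (L m (fam j)).J0) (hj' : j' ∈ (L m (fam j')).J0) {s₁ A B : ℝ}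
    (hκ : Cn δ R * κ1 < 1) (hs : (Cn δ R + 1) * κ1 < s₁) (hs1 : s₁ ≤ 1 / 2)
    (hA : s₁ + Cn δ R * κ1 ≤ A) (hA0 : Cn δ R * κ1 < A) (hB : B + Cn δ R * κ1 ≤ 1 - s₁)
    (hB1 : B < 1) (hA1 : 0 ≤ A)
    (hlv : A < (L m (fam j)).lv j ∧ (L m (fam j)).lv j < B)
    (hlv' : A < (L m (fam j')).lv j' ∧ (L m (fam j')).lv j' < B)
    (hgen : ∀ y ∈ frontier (KJ T (J m)), T.dim y = 1 → (L m (fam j)).u y = (L m (fam j)).lv j →
      (L m (fam j')).u y ≠ (L m (fam j')).lv j') {A' : Set ι'}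
    (hAct : ∀ (G : (shellH h3 hH hdis m).Fk) (q : ι), q ∈ G.1.1.side h3 →
      P (T.H q) ⊆ KJ T (J m) → (Tch M A' ((Z.cl m).hf G (n m)) ↔ ∃ x ∈ P (T.H q),
        (∀ b ∈ Q.B, Φ.lev b (f x) ∈ Icc s₁ (1 - s₁)) ∧ ∀ e ∈ Q.Z, Φ.lev e (f x) = 0)) :
    Two ((Twrs.rel Z Tw).st l0) A' {kk m} j j' := by
  refine exa_two hT hfam ?_
  -- the second cell
  obtain ⟨d, hd, hcd⟩ : ∃ d ∈ Q.Z, d ≠ cf m := by
    by_contra hcon
    push Not at hcon
    have : Q.Z ⊆ {cf m} := fun e he => hcon e he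
    have h1 := ncard_le_ncard this (by simp)
    rw [Q.cZ, ncard_singleton] at h1
    omega
  have hB2 : ∀ b ∈ Q.B, b = a ∨ b = a' := by
    intro b hb
    have h1 : ({a, a'} : Set Φ.F) = Q.B := by
      refine Set.eq_of_subset_of_ncard_le ?_ ?_ Q.finB
      · rintro x (rfl | rfl)
        · exact ha
        · exact ha'
      · rw [Q.cB, ncard_pair haa]
    rw [← h1] at hb
    exact hb
  have hdj : ∀ b ∈ Q.B, ∀ e ∈ Q.Z, b ≠ e := fun b hb e he h =>
    (Set.disjoint_left.1 Q.dis hb) (h ▸ he)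
  obtain ⟨y0, hy0⟩ := Q.ne
  have hy0' := mem_fc.1 hy0
  obtain ⟨e, he⟩ := H.bij
  have hne : (Pc Φ.F a ∩ Pc Φ.F a' ∩ Pc Φ.F (cf m) ∩ Pc Φ.F d).Nonempty :=
    ⟨y0, ⟨⟨hy0' a (Or.inl ha), hy0' a' (Or.inl ha')⟩, hy0' _ (Or.inr hc)⟩, hy0' d (Or.inr hd)⟩
  refine exa_cross_quad (T' := T) (Kc' := fun k => KJ T (J k)) (h3' := h3) (hH' := hH)
    (hdis' := hdis) (q := m) (θ := θ m) (c := cf m) (d := d) (a := a) (a' := a') hLa e he haa
    (hdj a ha _ hc) (hdj a' ha' _ hc) hcd (hdj a ha d hd) (hdj a' ha' d hd) hne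
    (L m (fam j)) (L m (fam j')) hu hu' hj hj' (hA1.trans hlv.1.le)
    (hlv.2.trans hB1) (hA1.trans hlv'.1.le) (hlv'.2.trans hB1) hgen
    {G | Tch M A' ((Z.cl m).hf G (n m))} ?_ ?_
  · intro x hx hxd h1 h2
    obtain ⟨F, hF, hxF⟩ := (sgd h3 hH m).cov x hx
    obtain ⟨G, hG⟩ := exists_fk (h3 := h3) (hH := hH) (hdis := hdis) hF
    refine ⟨G, ?_, by rw [hG]; exact hxF⟩
    obtain ⟨q, hq, hqK⟩ := exists_inner G
    have hxq : x ∈ P (T.H q) := (C2.sub_tile (h3 := h3) hq) (by rw [hG]; exact hxF)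
    refine (hAct G q hq hqK).2 ⟨x, hxq, ?_⟩
    refine tiny_hA hLa hδ hR H hc hd hcd hκ hA hA0 hB hB1 hx hxd ?_
    intro b hb
    rcases hB2 b hb with rfl | rfl
    · rw [← hu x hx, h1]; exact ⟨hlv.1.le, hlv.2.le⟩
    · rw [← hu' x hx, h2]; exact ⟨hlv'.1.le, hlv'.2.le⟩
  · intro G hG x hxG _ _
    obtain ⟨q, hq, hqK⟩ := exists_inner G
    obtain ⟨x0, hx0, h1, h2⟩ := (hAct G q hq hqK).1 hG
    exact tiny_hA' hLa hδ hR H hc hd hcd hκ hs hs1 (fk_sub G hxG)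
      ((C2.sub_tile (h3 := h3) hq) hxG) hx0 h1 h2

end two

end Crest.Agent.R096.Exa_560
end

-- ▼ part R096/Exa13_560

/-!
# R096 (row 96), DOORS / EXA part 13 (helper560): 298's `OddDoor` from 662's `Two`
-/

set_option autoImplicit false
set_option linter.unusedSectionVars false

namespace Crest.Agent.R096.Exa_560

open Crest.Agent.R096.St_147 Crest.Agent.R096.Seq_213 Crest.Agent.R096.SkB_662
  Crest.Agent.R096.Sgd_298

variable {ι Φ W J C : Type} {M : MeshC ι Φ W} {fam : J → C} {s : GSt M fam}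

/-- an interlaced pair gives the pair of the low ends -/
theorem xp_of_lace {F : Φ} {w x : W} {j j' : J} (hj : j ≠ j') (hw : s.At F w) (hwl : s.lab w = j)
    (hx : s.At F x) (hxl : s.lab x = j') (hL : M.Lace F w (s.mu F w) x (s.mu F x)) :
    ∃ w1 x1, XP s F j j' w1 x1 ∧ (w1 = w ∨ w1 = s.mu F w) ∧ (x1 = x ∨ x1 = s.mu F x) := by
  obtain ⟨w1, g1, g2, g3, g4, g5⟩ := low_exists hw
  obtain ⟨x1, k1, k2, k3, k4, k5⟩ := low_exists hx
  refine ⟨w1, x1, ⟨g1, k1, g2.trans hwl, k2.trans hxl, g4, k4, ?_⟩, g3, k3⟩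
  rw [g5]
  rcases k3 with h | h
  · rw [h]; exact hL
  · rw [h, s.mu_mu hx.1 hx.2, lace_swap_right]; exact hL

/-- **`OddDoor` from `Two`** -/
theorem oddDoor_of_two {j j' : J} (hj : j ≠ j') {g : ι} {A : Set ι} (h : Two s A {g} j j') :
    ∃ F₀ w₀ x₀, OddDoor s j j' g A F₀ w₀ x₀ := by
  obtain ⟨⟨F₀, w₀, x₀⟩, ⟨hX, hA, q, hq, hqg⟩, hu⟩ := h
  have hqg' : q = g := hqg
  rw [hqg'] at hq
  refine ⟨F₀, w₀, x₀, ⟨hq, hA, hX.ax, hX.lx, hX.ay, hX.ly, hX.lace, ?_⟩⟩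
  intro F w x hF hR hw hwl hx hxl hL
  obtain ⟨w1, x1, hX1, h1, h2⟩ := xp_of_lace hj hw hwl hx hxl hL
  have h3 := hu (F, w1, x1) ⟨hX1, hR, g, hF, rfl⟩
  simp only [Prod.mk.injEq] at h3
  obtain ⟨rfl, rfl, rfl⟩ := h3
  refine ⟨rfl, ?_, ?_⟩
  · rcases h1 with h | h
    · exact Or.inl h.symm
    · right; rw [h, s.mu_mu hw.1 hw.2]
  · rcases h2 with h | h
    · exact Or.inl h.symm
    · right; rw [h, s.mu_mu hx.1 hx.2]


end Crest.Agent.R096.Exa_560
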