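import Crest.Agent.R096.St4_147
import Crest.Agent.R096.Coh4_184
import Crest.Agent.R096.Wk6_689

-- ▼ part R096/B1_422
section

/-!
# R096 / P3D-B: `H1 s i ↔ Sep s i` for every state (helper422)

`h1_of_sep` : torsor argument; `sep_of_h1` : Fredholm alternative twice.
-/

set_option autoImplicit false

namespace Crest.Agent.R096.B_422

open Crest.Agent.R096.St_147 Crest.Agent.R096.Coh_184

variable {ι Φ W I : Type} {M : MeshC ι Φ W} {col : I → Bool}

theorem At.mu {s : St M col} {F : Φ} {w : W} (h : s.At F w) : s.At F (s.mu F w) :=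
  s.mu_mem h.1 h.2

theorem h1_of_sep (s : St M col) (i : I) (h : s.Sep i) : s.H1 i := by
  classical
  intro κ hκ
  choose ψ hψ using hκ
  have hex := h (fun F w => ss (M.side F) (fun q => ψ q w)) ?_ ?_
  · obtain ⟨c, hc1, hc2⟩ := hex
    -- independence of the cell
    have hind : ∀ w, w ∈ s.P → s.lab w = i → ∀ F, w ∈ M.On F → ∀ q ∈ M.side F, ∀ F', w ∈ M.On F' →
        ∀ q' ∈ M.side F', ψ q' w + c q' w = ψ q w + c q w := by
      intro w hw hi F hF q hq F' hF' q' hq'
      refine M.link w {p | ψ p w + c p w = ψ q w + c q w} ?_ F hF q hq rfl F' hF' q' hq'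
      intro F hF q₁ h1 q₂ h2 h3
      change ψ q₂ w + c q₂ w = ψ q w + c q w
      change ψ q₁ w + c q₁ w = ψ q w + c q w at h3
      by_cases h12 : q₁ = q₂
      · rw [← h12]; exact h3
      have hs : M.side F = s(q₁, q₂) := (Sym2.mem_and_mem_iff h12).1 ⟨h1, h2⟩
      have h4 := hc2 F w q₁ q₂ hs ⟨hw, hF⟩ hi
      simp only [hs, ss_mk] at h4
      have h5 : ψ q₁ w + c q₁ w = ψ q₂ w + c q₂ w := by
        apply eq_of_add2
        have : ψ q₁ w + c q₁ w + (ψ q₂ w + c q₂ w) = (ψ q₁ w + ψ q₂ w) + (c q₁ w + c q₂ w) := by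
          ring
        rw [this, h4, add_self2]
      rw [← h5, h3]
    refine ⟨fun w => if hh : ∃ q F, w ∈ M.On F ∧ q ∈ M.side F then
      ψ hh.choose w + c hh.choose w else 0, ?_⟩
    intro F w hAt hi
    have hq := Sym2.out_fst_mem (M.side F)
    set q := (M.side F).out.1 with hqdef
    have hval : ∀ w, s.At F w → s.lab w = i → (if hh : ∃ q F, w ∈ M.On F ∧ q ∈ M.side F then
      ψ hh.choose w + c hh.choose w else 0) = ψ q w + c q w := by
      intro w hw hi
      have hh : ∃ q F, w ∈ M.On F ∧ q ∈ M.side F := ⟨q, F, hw.2, hq⟩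
      rw [dif_pos hh]
      obtain ⟨F', h1, h2⟩ := hh.choose_spec
      exact hind w hw.1 hi F hw.2 q hq F' h1 _ h2
    have hAt' := At.mu hAt
    have hi' : s.lab (s.mu F w) = i := by rw [s.mu_lab hAt.1 hAt.2, hi]
    beta_reduce
    rw [hval w hAt hi, hval _ hAt' hi', hψ q F w hq hAt hi, hc1 q F w hq hAt hi]
    have : ψ q w + c q w + (ψ q (s.mu F w) + c q w) = ψ q w + ψ q (s.mu F w) + (c q w + c q w) := by
      ring
    rw [this, add_self2, add_zero]
  · intro F w hAt hi
    obtain ⟨a, b, hab⟩ : ∃ a b, M.side F = s(a, b) := ⟨_, _, (Quot.out_eq _).symm⟩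
    simp only [hab, ss_mk]
    have h1 := hψ a F w (hab ▸ Sym2.mem_mk_left a b) hAt hi
    have h2 := hψ b F w (hab ▸ Sym2.mem_mk_right a b) hAt hi
    apply eq_of_add2
    have : ψ a (s.mu F w) + ψ b (s.mu F w) + (ψ a w + ψ b w) =
      (ψ a w + ψ a (s.mu F w)) + (ψ b w + ψ b (s.mu F w)) := by ring
    rw [this, ← h1, ← h2, add_self2]
  · intro w hw hi
    exact sum_link M w (fun q _ => ψ q w) (fun _ _ _ _ _ _ _ => rfl)

/-! ### the converse -/

/-- chords of the sheet `i`, named by their lower end points -/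
abbrev Ch (s : St M col) (i : I) : Type :=
  {p : Φ × W // s.At p.1 p.2 ∧ s.lab p.2 = i ∧ M.pos p.1 p.2 < M.pos p.1 (s.mu p.1 p.2)}

/-- points of the sheet -/
abbrev Pt (s : St M col) (i : I) : Type := {w : W // w ∈ s.P ∧ s.lab w = i}

instance (s : St M col) (i : I) : Finite (Pt s i) :=
  (s.P.finite_toSet.subset (fun _ h => h.1) : {w : W | w ∈ s.P ∧ s.lab w = i}.Finite)

instance (s : St M col) (i : I) : Finite (Ch s i) := by
  classical
  have h : ({p : Φ × W | s.At p.1 p.2 ∧ s.lab p.2 = i ∧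
      M.pos p.1 p.2 < M.pos p.1 (s.mu p.1 p.2)}).Finite := by
    refine (Set.Finite.biUnion s.P.finite_toSet (fun w _ => ((M.fin w).image (fun F => (F, w))))).subset ?_
    rintro ⟨F, w⟩ ⟨h1, -, -⟩
    exact Set.mem_biUnion (x := w) h1.1 ⟨F, h1.2, rfl⟩
  exact h

variable {s : St M col} {i : I}

theorem pos_ne {F : Φ} {w : W} (h : s.At F w) : M.pos F w ≠ M.pos F (s.mu F w) := by
  intro he
  exact s.mu_ne h.1 h.2 (M.pos_inj F (At.mu h).2 h.2 he.symm)

open Classical in
/-- value of a function on chords at `(F, w)` -/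
noncomputable def ext (f : Ch s i → ZMod 2) (F : Φ) (w : W) : ZMod 2 :=
  if h : s.At F w ∧ s.lab w = i ∧ M.pos F w < M.pos F (s.mu F w) then f ⟨(F, w), h⟩
  else if h : s.At F (s.mu F w) ∧ s.lab (s.mu F w) = i ∧
    M.pos F (s.mu F w) < M.pos F (s.mu F (s.mu F w)) ∧ s.At F w then
      f ⟨(F, s.mu F w), h.1, h.2.1, h.2.2.1⟩ else 0

theorem ext_low (f : Ch s i → ZMod 2) {F : Φ} {w : W}
    (h : s.At F w ∧ s.lab w = i ∧ M.pos F w < M.pos F (s.mu F w)) :
    ext f F w = f ⟨(F, w), h⟩ := by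
  unfold ext
  rw [dif_pos h]

theorem ext_up (f : Ch s i → ZMod 2) {F : Φ} {w : W} (h1 : s.At F w) (hi : s.lab w = i)
    (h2 : M.pos F (s.mu F w) < M.pos F w) :
    ext f F w = f ⟨(F, s.mu F w), At.mu h1, (by rw [s.mu_lab h1.1 h1.2, hi]),
      (by rw [s.mu_mu h1.1 h1.2]; exact h2)⟩ := by
  unfold ext
  rw [dif_neg (fun h => lt_asymm h.2.2 h2), dif_pos]
  exact ⟨At.mu h1, (by rw [s.mu_lab h1.1 h1.2, hi]), (by rw [s.mu_mu h1.1 h1.2]; exact h2), h1⟩

theorem ext_mu (f : Ch s i → ZMod 2) {F : Φ} {w : W} (h1 : s.At F w) (hi : s.lab w = i) :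
    ext f F (s.mu F w) = ext f F w := by
  have hi' : s.lab (s.mu F w) = i := by rw [s.mu_lab h1.1 h1.2, hi]
  rcases lt_or_gt_of_ne (pos_ne h1) with h | h
  · rw [ext_low f ⟨h1, hi, h⟩, ext_up f (At.mu h1) hi' (by rw [s.mu_mu h1.1 h1.2]; exact h)]
    congr 1
    apply Subtype.ext
    simp only [s.mu_mu h1.1 h1.2]
  · rw [ext_up f h1 hi h, ext_low f ⟨At.mu h1, hi', by rw [s.mu_mu h1.1 h1.2]; exact h⟩]

open Classical in
/-- incidence of chords and points -/
noncomputable def inc (s : St M col) (i : I) (e : Ch s i) (v : Pt s i) : ZMod 2 :=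
  (if e.1.2 = v.1 then 1 else 0) + (if s.mu e.1.1 e.1.2 = v.1 then 1 else 0)

theorem sum_inc_pt [Fintype (Pt s i)] (e : Ch s i) (Ψ : W → ZMod 2) :
    ∑ v : Pt s i, inc s i e v * Ψ v.1 = Ψ e.1.2 + Ψ (s.mu e.1.1 e.1.2) := by
  classical
  have h1 : s.mu e.1.1 e.1.2 ∈ s.P ∧ s.lab (s.mu e.1.1 e.1.2) = i :=
    ⟨(At.mu e.2.1).1, by rw [s.mu_lab e.2.1.1 e.2.1.2]; exact e.2.2.1⟩
  simp only [inc, add_mul, Finset.sum_add_distrib]
  congr 1
  · rw [Finset.sum_eq_single (⟨e.1.2, e.2.1.1, e.2.2.1⟩ : Pt s i)]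
    · simp
    · intro v _ hv
      rw [if_neg, zero_mul]
      intro h; exact hv (Subtype.ext h.symm)
    · intro h; exact (h (Finset.mem_univ _)).elim
  · rw [Finset.sum_eq_single (⟨_, h1⟩ : Pt s i)]
    · simp
    · intro v _ hv
      rw [if_neg, zero_mul]
      intro h; exact hv (Subtype.ext h.symm)
    · intro h; exact (h (Finset.mem_univ _)).elim

theorem sum_inc_ch [Fintype (Ch s i)] (f : Ch s i → ZMod 2) (v : Pt s i) :
    ∑ e : Ch s i, f e * inc s i e v = ∑ F ∈ M.fs v.1, ext f F v.1 := by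
  classical
  simp only [inc, mul_add, Finset.sum_add_distrib, mul_ite, mul_one, mul_zero]
  rw [← Finset.sum_filter, ← Finset.sum_filter]
  rw [← Finset.sum_filter_add_sum_filter_not (M.fs v.1)
    (fun F => M.pos F v.1 < M.pos F (s.mu F v.1))]
  congr 1
  · refine Finset.sum_bij (fun e _ => e.1.1) ?_ ?_ ?_ ?_
    · intro e he
      rw [Finset.mem_filter] at he ⊢
      rw [MeshC.mem_fs, ← he.2]
      exact ⟨e.2.1.2, e.2.2.2⟩
    · intro e he e' he' h
      rw [Finset.mem_filter] at he he'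
      apply Subtype.ext
      exact Prod.ext h (he.2.trans he'.2.symm)
    · intro F hF
      rw [Finset.mem_filter, MeshC.mem_fs] at hF
      exact ⟨⟨(F, v.1), ⟨v.2.1, hF.1⟩, v.2.2, hF.2⟩, by simp, rfl⟩
    · intro e he
      rw [Finset.mem_filter] at he
      obtain ⟨⟨F, w⟩, h⟩ := e
      have hw : w = v.1 := he.2
      subst hw
      rw [ext_low f h]
  · refine Finset.sum_bij (fun e _ => e.1.1) ?_ ?_ ?_ ?_
    · intro e he
      rw [Finset.mem_filter] at he ⊢
      rw [MeshC.mem_fs, ← he.2]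
      refine ⟨(At.mu e.2.1).2, ?_⟩
      rw [s.mu_mu e.2.1.1 e.2.1.2]
      exact not_lt.2 e.2.2.2.le
    · intro e he e' he' h
      rw [Finset.mem_filter] at he he'
      apply Subtype.ext
      refine Prod.ext h ?_
      have h1 := s.mu_mu e.2.1.1 e.2.1.2
      have h2 := s.mu_mu e'.2.1.1 e'.2.1.2
      rw [he.2] at h1
      rw [he'.2] at h2
      rw [← h1, ← h2]
      change s.mu e.1.1 v.1 = s.mu e'.1.1 v.1
      rw [show e.1.1 = e'.1.1 from h]
    · intro F hF
      rw [Finset.mem_filter, MeshC.mem_fs] at hF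
      have hA : s.At F v.1 := ⟨v.2.1, hF.1⟩
      have hlt : M.pos F (s.mu F v.1) < M.pos F v.1 :=
        lt_of_le_of_ne (not_lt.1 hF.2) (pos_ne hA).symm
      refine ⟨⟨(F, s.mu F v.1), At.mu hA, by rw [s.mu_lab hA.1 hA.2]; exact v.2.2, ?_⟩, ?_, rfl⟩
      · change M.pos F (s.mu F v.1) < M.pos F (s.mu F (s.mu F v.1))
        rw [s.mu_mu hA.1 hA.2]; exact hlt
      · simp only [Finset.mem_filter, Finset.mem_univ, true_and]
        exact s.mu_mu hA.1 hA.2
    · intro e he
      rw [Finset.mem_filter] at he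
      obtain ⟨⟨F, w⟩, h⟩ := e
      have hw : s.mu F w = v.1 := he.2
      change f ⟨(F, w), h⟩ = ext f F v.1
      rw [← hw, ext_mu f h.1 h.2.1, ext_low f h]

theorem ext_zero (f : Ch s i → ZMod 2) {F : Φ} (w : W) (h : ∀ e : Ch s i, e.1.1 = F → f e = 0) :
    ext f F w = 0 := by
  unfold ext
  split_ifs with h1 h2
  · exact h _ rfl
  · exact h _ rfl
  · rfl

theorem ext_eq_of (f : Ch s i → ZMod 2) {q : ι} {w : W}
    (hq : ∀ e : Ch s i, q ∉ M.side e.1.1 → f e = 0)
    (h : ∑ F ∈ M.fs w, ext f F w = 0) {F F' : Φ} (hF : q ∈ M.side F) (hF' : q ∈ M.side F')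
    (hwF : w ∈ M.On F) (hwF' : w ∈ M.On F') : ext f F w = ext f F' w := by
  classical
  by_cases hFF : F = F'
  · rw [hFF]
  have e : {F | q ∈ M.side F ∧ w ∈ M.On F} = ↑((M.fs w).filter (fun F => q ∈ M.side F)) := by
    ext F
    simp only [Set.mem_ofPred_eq, Finset.coe_filter, MeshC.mem_fs]
    tauto
  have hd := M.deg q w
  rw [e, Set.ncard_coe_finset] at hd
  have h1 : F ∈ (M.fs w).filter (fun F => q ∈ M.side F) := by
    rw [Finset.mem_filter, MeshC.mem_fs]; exact ⟨hwF, hF⟩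
  have h2 : F' ∈ (M.fs w).filter (fun F => q ∈ M.side F) := by
    rw [Finset.mem_filter, MeshC.mem_fs]; exact ⟨hwF', hF'⟩
  have hcard : ((M.fs w).filter (fun F => q ∈ M.side F)).card = 2 := by
    rcases hd with hd | hd
    · rw [Finset.card_eq_zero.1 hd] at h1
      exact (Finset.notMem_empty _ h1).elim
    · exact hd
  have hpair : ({F, F'} : Finset Φ) = (M.fs w).filter (fun F => q ∈ M.side F) := by
    apply Finset.eq_of_subset_of_card_le
    · intro G hG
      rw [Finset.mem_insert, Finset.mem_singleton] at hG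
      rcases hG with rfl | rfl
      · exact h1
      · exact h2
    · rw [hcard, Finset.card_pair hFF]
  rw [← Finset.sum_filter_add_sum_filter_not (M.fs w) (fun F => q ∈ M.side F), ← hpair,
    Finset.sum_pair hFF, Finset.sum_eq_zero, add_zero] at h
  · exact eq_of_add2 h
  · intro G hG
    rw [Finset.mem_filter] at hG
    exact ext_zero f w (fun e he => hq e (he ▸ hG.2))

/-- a function on chords which is the boundary of a function on the tiles -/
def IsBd (f : Ch s i → ZMod 2) : Prop :=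
  ∃ c : ι → W → ZMod 2,
    (∀ q F w, q ∈ M.side F → s.At F w → s.lab w = i → c q (s.mu F w) = c q w) ∧
    ∀ e : Ch s i, f e = ss (M.side e.1.1) (fun q => c q e.1.2)

theorem isBd_of (f : Ch s i → ZMod 2) (q : ι) (hq : ∀ e : Ch s i, q ∉ M.side e.1.1 → f e = 0)
    (h : ∀ v : Pt s i, ∑ F ∈ M.fs v.1, ext f F v.1 = 0) : IsBd f := by
  classical
  let c : ι → W → ZMod 2 := fun q' w =>
    if hh : q' = q ∧ ∃ F, q ∈ M.side F ∧ s.At F w ∧ s.lab w = i then ext f hh.2.choose w else 0
  have hc : ∀ F w, q ∈ M.side F → s.At F w → s.lab w = i → c q w = ext f F w := by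
    intro F w hF hA hi
    have hh : q = q ∧ ∃ F, q ∈ M.side F ∧ s.At F w ∧ s.lab w = i := ⟨rfl, F, hF, hA, hi⟩
    have h2 := hh.2.choose_spec
    change (if hh : q = q ∧ ∃ F, q ∈ M.side F ∧ s.At F w ∧ s.lab w = i then
      ext f hh.2.choose w else 0) = _
    rw [dif_pos hh]
    exact ext_eq_of f hq (h ⟨w, hA.1, hi⟩) h2.1 hF h2.2.1.2 hA.2
  have hc0 : ∀ q' w, q' ≠ q → c q' w = 0 := by
    intro q' w hne
    exact dif_neg (fun hh => hne hh.1)
  refine ⟨c, ?_, ?_⟩
  · intro q' F w hF hA hi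
    by_cases hqq : q' = q
    · subst hqq
      rw [hc F w hF hA hi, hc F _ hF (At.mu hA) (by rw [s.mu_lab hA.1 hA.2, hi]), ext_mu f hA hi]
    · rw [hc0 _ _ hqq, hc0 _ _ hqq]
  · intro e
    by_cases hF : q ∈ M.side e.1.1
    · obtain ⟨b, hb⟩ := hF
      have hne : b ≠ q := by
        intro h
        have := M.side_nd e.1.1
        rw [hb, h] at this
        exact this rfl
      rw [hb, ss_mk, hc0 b _ hne, add_zero, hc e.1.1 e.1.2 ⟨b, hb⟩ e.2.1 e.2.2.1, ext_low f e.2]
    · rw [hq e hF]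
      have h1 : ss (M.side e.1.1) (fun q' => c q' e.1.2) = ss (M.side e.1.1) (fun _ => 0) := by
        apply ss_congr
        intro q' hq'
        exact hc0 _ _ (fun h => hF (h ▸ hq'))
      rw [h1]
      obtain ⟨a, b, hab⟩ : ∃ a b, M.side e.1.1 = s(a, b) := ⟨_, _, (Quot.out_eq _).symm⟩
      rw [hab, ss_mk, add_zero]

theorem local_pot [Fintype (Ch s i)] [Fintype (Pt s i)] (z : Ch s i → ZMod 2)
    (hz : ∀ f : Ch s i → ZMod 2, IsBd f → ∑ e, z e * f e = 0) (q : ι) :
    ∃ ψ : W → ZMod 2, ∀ F w, q ∈ M.side F → s.At F w → s.lab w = i →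
      ext z F w = ψ w + ψ (s.mu F w) := by
  classical
  obtain ⟨ψ, hψ⟩ := exact_of_kills (inc s i) (fun e => q ∈ M.side e.1.1) z (fun f h1 h2 => by
    have h3 : IsBd f := isBd_of f q h1 (fun v => by rw [← sum_inc_ch]; exact h2 v)
    rw [← hz f h3]
    exact Finset.sum_congr rfl fun e _ => mul_comm _ _)
  let Ψ : W → ZMod 2 := fun w => if h : w ∈ s.P ∧ s.lab w = i then ψ ⟨w, h⟩ else 0
  have hΨ : ∀ v : Pt s i, ψ v = Ψ v.1 := by
    intro v
    change ψ v = if h : v.1 ∈ s.P ∧ s.lab v.1 = i then ψ ⟨v.1, h⟩ else 0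
    rw [dif_pos v.2]
  have hlow : ∀ e : Ch s i, q ∈ M.side e.1.1 → z e = Ψ e.1.2 + Ψ (s.mu e.1.1 e.1.2) := by
    intro e he
    rw [hψ e he, ← sum_inc_pt]
    exact Finset.sum_congr rfl fun v _ => by rw [hΨ]
  refine ⟨Ψ, fun F w hF hA hi => ?_⟩
  rcases lt_or_gt_of_ne (pos_ne hA) with h | h
  · rw [ext_low z ⟨hA, hi, h⟩]
    exact hlow _ hF
  · rw [ext_up z hA hi h, hlow _ hF]
    change Ψ (s.mu F w) + Ψ (s.mu F (s.mu F w)) = _
    rw [s.mu_mu hA.1 hA.2, add_comm]

theorem sep_of_h1 (s : St M col) (i : I) (h : s.H1 i) : s.Sep i := by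
  classical
  intro θ hθ1 hθ2
  let _ : Fintype (Ch s i) := Fintype.ofFinite _
  let _ : Fintype (Pt s i) := Fintype.ofFinite _
  let x : Ch s i → ZMod 2 := fun e => θ e.1.1 e.1.2
  have hext : ∀ F w, s.At F w → s.lab w = i → ext x F w = θ F w := by
    intro F w hA hi
    rcases lt_or_gt_of_ne (pos_ne hA) with h | h
    · rw [ext_low x ⟨hA, hi, h⟩]
    · rw [ext_up x hA hi h]
      exact hθ1 F w hA hi
  let U : Submodule (ZMod 2) (Ch s i → ZMod 2) :=
    { carrier := {f | IsBd f}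
      zero_mem' := ⟨fun _ _ => 0, fun _ _ _ _ _ _ => rfl, fun e => by
        obtain ⟨a, b, hab⟩ : ∃ a b, M.side e.1.1 = s(a, b) := ⟨_, _, (Quot.out_eq _).symm⟩
        rw [hab, ss_mk, add_zero]; rfl⟩
      add_mem' := by
        rintro f g ⟨c, h1, h2⟩ ⟨d, h3, h4⟩
        refine ⟨fun q w => c q w + d q w, fun q F w hq hA hi => ?_, fun e => ?_⟩
        · beta_reduce
          rw [h1 q F w hq hA hi, h3 q F w hq hA hi]
        · rw [ss_add, Pi.add_apply, h2, h4]
      smul_mem' := by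
        rintro r f ⟨c, h1, h2⟩
        refine ⟨fun q w => r * c q w, fun q F w hq hA hi => ?_, fun e => ?_⟩
        · beta_reduce
          rw [h1 q F w hq hA hi]
        · rw [Pi.smul_apply, h2, smul_eq_mul]
          obtain ⟨a, b, hab⟩ : ∃ a b, M.side e.1.1 = s(a, b) := ⟨_, _, (Quot.out_eq _).symm⟩
          rw [hab, ss_mk, ss_mk, mul_add] }
  have hx : IsBd x := by
    by_contra hcon
    have hxU : x ∉ U := hcon
    obtain ⟨z, hz, hzx⟩ := exists_separating U hxU
    apply hzx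
    obtain ⟨Ψ, hΨ⟩ := h (ext z) (fun q => local_pot z (fun f hf => hz f hf) q)
    have h1 : ∀ e : Ch s i, z e * x e = x e * ∑ v : Pt s i, inc s i e v * Ψ v.1 := by
      intro e
      rw [sum_inc_pt, ← hΨ e.1.1 e.1.2 e.2.1 e.2.2.1, ext_low z e.2, mul_comm]
    rw [Finset.sum_congr rfl fun e _ => h1 e, sum_mul_cob (inc s i) x (fun v : Pt s i => Ψ v.1)]
    refine Finset.sum_eq_zero fun v _ => ?_
    rw [sum_inc_ch, Finset.sum_congr rfl (g := fun F => θ F v.1), hθ2 v.1 v.2.1 v.2.2, zero_mul]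
    intro F hF
    exact hext F v.1 ⟨v.2.1, MeshC.mem_fs.1 hF⟩ v.2.2
  obtain ⟨c, hc1, hc2⟩ := hx
  refine ⟨c, hc1, ?_⟩
  intro F w q q' hqq hA hi
  have hq : q ∈ M.side F := hqq ▸ Sym2.mem_mk_left q q'
  have hq' : q' ∈ M.side F := hqq ▸ Sym2.mem_mk_right q q'
  rcases lt_or_gt_of_ne (pos_ne hA) with h | h
  · have := hc2 ⟨(F, w), hA, hi, h⟩
    simp only [hqq, ss_mk] at this
    exact this
  · have hi' : s.lab (s.mu F w) = i := by rw [s.mu_lab hA.1 hA.2, hi]
    have := hc2 ⟨(F, s.mu F w), At.mu hA, hi', by rw [s.mu_mu hA.1 hA.2]; exact h⟩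
    simp only [hqq, ss_mk] at this
    rw [hc1 q F w hq hA hi, hc1 q' F w hq' hA hi] at this
    rw [← this]
    exact (hθ1 F w hA hi).symm



end Crest.Agent.R096.B_422
end

-- ▼ part R096/Wk7_689
section

/-!
# R096 / P3 / FACE (7): the new state `newSt`, its double points, free chords
-/

set_option autoImplicit false

namespace Crest.Agent.R096.Wk_689
open St_147 Fx_689

variable {ι Φ W I : Type} {M : MeshC ι Φ W} {col : I → Bool} {s : St M col}
variable (G : Set s.Dbl) (inn : s.Dbl → Bool → Bool)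

/-- names of the orbits after the exchange (`none` = discarded) and the kept points -/
structure Nm where
  P : Finset W
  sub : P ⊆ s.P
  lab : W → I
  nm : Orb G inn → Option I
  /-- the name of a kept end point is the name of its orbit -/
  hnm : ∀ {F : Φ} {w : W} (h : s.At F w), w ∈ P → nm (orb G inn (ed h)) = some (lab w)
  /-- partners of kept points are kept -/
  mem : ∀ {F : Φ} {w : W}, s.At F w → w ∈ P → mu' G inn F w ∈ P
  /-- an unresolved double point lies on sheets with the old names (if they are kept) -/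
  old : ∀ {z : s.Dbl}, z ∉ G → ∀ (x : Bool) (i : I), nm (lb G inn (abv z x)) = some i →
    i = s.lab (z.e x)

variable {G inn}

lemma orb_name {N : Nm G inn} {F : Φ} {w x : W} (hw : s.At F w) (hx : s.At F x) (hwP : w ∈ N.P)
    (hxP : x ∈ N.P) (h : orb G inn (ed hw) = orb G inn (ed hx)) : N.lab w = N.lab x := by
  have h1 := N.hnm hw hwP
  rw [h, N.hnm hx hxP] at h1
  exact (Option.some.inj h1).symm

/-- the unresolved double point under an interlaced pair of kept points of any names: its colours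
and names -/
lemma face_nm {N : Nm G inn} {F : Φ} {w x : W} (hw : s.At F w) (hx : s.At F x) (hwP : w ∈ N.P)
    (hxP : x ∈ N.P) (hne : orb G inn (ed hw) ≠ orb G inn (ed hx))
    (hl : M.Lace F w (mu' G inn F w) x (mu' G inn F x)) :
    ∃ z : s.Dbl, z ∉ G ∧ z.F = F ∧
      ((lb G inn (abv z false) = orb G inn (ed hw) ∧ lb G inn (abv z true) = orb G inn (ed hx) ∧
          N.lab w = s.lab (z.e false) ∧ N.lab x = s.lab (z.e true)) ∨
        (lb G inn (abv z false) = orb G inn (ed hx) ∧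
          lb G inn (abv z true) = orb G inn (ed hw) ∧
          N.lab x = s.lab (z.e false) ∧ N.lab w = s.lab (z.e true))) := by
  obtain ⟨z, hz, hF, h | h⟩ := face hw hx hne hl
  · refine ⟨z, hz, hF, Or.inl ⟨h.1, h.2, ?_, ?_⟩⟩
    · exact N.old hz false _ (by rw [h.1]; exact N.hnm hw hwP)
    · exact N.old hz true _ (by rw [h.2]; exact N.hnm hx hxP)
  · refine ⟨z, hz, hF, Or.inr ⟨h.1, h.2, ?_, ?_⟩⟩
    · exact N.old hz false _ (by rw [h.1]; exact N.hnm hx hxP)
    · exact N.old hz true _ (by rw [h.2]; exact N.hnm hw hwP)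

/-- **the new state** -/
noncomputable def newSt (N : Nm G inn) : St M col where
  P := N.P
  lab := N.lab
  mu := mu' G inn
  mu_mem {F w} h1 h2 :=
    ⟨N.mem ⟨N.sub h1, h2⟩ h1, (mu'_at G inn (F := F) (w := w) ⟨N.sub h1, h2⟩).2⟩
  mu_ne {F w} h1 h2 := mu'_ne (F := F) (w := w) ⟨N.sub h1, h2⟩
  mu_mu {F w} h1 h2 := mu'_mu' (F := F) (w := w) ⟨N.sub h1, h2⟩
  mu_lab {F w} h1 h2 := by
    have hat : s.At F w := ⟨N.sub h1, h2⟩
    exact orb_name (mu'_at G inn hat) hat (N.mem hat h1) h1 (orb_mu' hat)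
  nc {F w x} h1 h2 h3 h4 hc h5 h6 hl := by
    have hw : s.At F w := ⟨N.sub h1, h2⟩
    have hx : s.At F x := ⟨N.sub h3, h4⟩
    have hne : orb G inn (ed hw) ≠ orb G inn (ed hx) := by
      intro h
      rcases ((orb_ed_iff hw hx).1 h.symm).2 with h7 | h7
      · exact h5 h7
      · exact h6 h7
    obtain ⟨z, -, -, h | h⟩ := face_nm hw hx h1 h3 hne hl
    · rw [h.2.2.1, h.2.2.2, z.colr, z.colr] at hc
      exact absurd hc (by decide)
    · rw [h.2.2.1, h.2.2.2, z.colr, z.colr] at hc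
      exact absurd hc (by decide)

@[simp] lemma newSt_P (N : Nm G inn) : (newSt N).P = N.P := rfl
@[simp] lemma newSt_lab (N : Nm G inn) : (newSt N).lab = N.lab := rfl
@[simp] lemma newSt_mu (N : Nm G inn) : (newSt N).mu = mu' G inn := rfl

lemma newSt_at {N : Nm G inn} {F : Φ} {w : W} (h : (newSt N).At F w) : s.At F w :=
  ⟨N.sub h.1, h.2⟩

/-- **double points of the new state**: over each of them there is an unresolved old one with the
same face, the same names, on the same orbits -/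
theorem exists_old (N : Nm G inn) (z' : (newSt N).Dbl) :
    ∃ z : s.Dbl, z ∉ G ∧ z.F = z'.F ∧
      (∀ x, lb G inn (abv z x) = orb G inn (ed (newSt_at (z'.at_ x)))) ∧
      ∀ x, s.lab (z.e x) = (newSt N).lab (z'.e x) := by
  have hw := newSt_at (z'.at_ true)
  have hx := newSt_at (z'.at_ false)
  have c1 : col (N.lab (z'.e true)) = true := z'.colr true
  have c2 : col (N.lab (z'.e false)) = false := z'.colr false
  have hne : orb G inn (ed hw) ≠ orb G inn (ed hx) := by
    intro h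
    have := orb_name hw hx (z'.at_ true).1 (z'.at_ false).1 h
    rw [this, c2] at c1
    exact absurd c1 (by decide)
  obtain ⟨z, hz, hF, h | h⟩ := face_nm hw hx (z'.at_ true).1 (z'.at_ false).1 hne z'.lace
  · exfalso
    rw [h.2.2.1, z.colr] at c1
    exact absurd c1 (by decide)
  · refine ⟨z, hz, hF, ?_, ?_⟩
    · intro x
      cases x
      · exact h.1
      · exact h.2.1
    · intro x
      cases x
      · exact h.2.2.1.symm
      · exact h.2.2.2.symm

/-- a choice of the old double point -/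
noncomputable def od (N : Nm G inn) (z' : (newSt N).Dbl) : s.Dbl := (exists_old N z').choose

lemma od_not (N : Nm G inn) (z' : (newSt N).Dbl) : od N z' ∉ G :=
  (exists_old N z').choose_spec.1

lemma od_F (N : Nm G inn) (z' : (newSt N).Dbl) : (od N z').F = z'.F :=
  (exists_old N z').choose_spec.2.1

lemma od_lb (N : Nm G inn) (z' : (newSt N).Dbl) (x : Bool) :
    lb G inn (abv (od N z') x) = orb G inn (ed (newSt_at (z'.at_ x))) :=
  (exists_old N z').choose_spec.2.2.1 x

lemma od_lab (N : Nm G inn) (z' : (newSt N).Dbl) (x : Bool) :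
    s.lab ((od N z').e x) = (newSt N).lab (z'.e x) :=
  (exists_old N z').choose_spec.2.2.2 x

theorem od_inj (N : Nm G inn) : Function.Injective (od N) := by
  intro z1 z2 h
  have hF : z1.F = z2.F := by rw [← od_F N z1, h, od_F N z2]
  apply Dbl.ext' _ hF
  funext x
  have h1 := od_lb N z1 x
  have h2 := od_lb N z2 x
  rw [h, h2] at h1
  -- same orbit
  obtain ⟨-, h3⟩ := (orb_ed_iff (newSt_at (z1.at_ x)) (newSt_at (z2.at_ x))).1 h1
  rcases h3 with h3 | h3
  · exact h3.symm
  · exfalso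
    have l1 : M.pos z1.F (z1.e x) < M.pos z1.F (mu' G inn z1.F (z1.e x)) := z1.low x
    have l2 : M.pos z2.F (z2.e x) < M.pos z2.F (mu' G inn z2.F (z2.e x)) := z2.low x
    rw [h3, ← hF, mu'_mu' (newSt_at (z1.at_ x))] at l2
    exact lt_asymm l1 l2

/-- the number of double points drops -/
theorem card_lt (N : Nm G inn) (hG : G.Nonempty) :
    Nat.card (newSt N).Dbl < Nat.card s.Dbl := by
  classical
  obtain ⟨g, hg⟩ := hG
  have h1 : Nat.card (newSt N).Dbl ≤ Nat.card {z : s.Dbl // z ≠ g} := by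
    apply Nat.card_le_card_of_injective
      (fun z' : (newSt N).Dbl => (⟨od N z', fun h => od_not N z' (h ▸ hg)⟩ : {z : s.Dbl // z ≠ g}))
    intro a b h
    exact od_inj N (by simpa using h)
  have h2 : Nat.card {z : s.Dbl // z ≠ g} < Nat.card s.Dbl := by
    have := Fintype.ofFinite s.Dbl
    rw [Nat.card_eq_fintype_card, Nat.card_eq_fintype_card]
    exact Fintype.card_subtype_lt (x := g) (by simp)
  omega

/-- the orbit of a chord without points of `G` is this chord -/
lemma orb_chd {F : Φ} {w : W} (h : s.At F w)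
    (hG : ∀ z ∈ G, z.F = F → z.e (col (s.lab w)) ≠ s.lo F w) {d : Dart s}
    (hd : orb G inn d = orb G inn (ed h)) : d.x = col (s.lab w) ∧ chd d.p = (F, s.lo F w) := by
  have hstab : ∀ d : Dart s, (d.x = (ed h).x ∧ chd d.p = chd (ed h).p) →
      ((tt G inn d).x = (ed h).x ∧ chd (tt G inn d).p = chd (ed h).p) := by
    rintro d ⟨h1, h2⟩
    have h3 := chd_tt (inn := inn) (d := d) (G := G) (by
      intro z hz h4
      rw [h2, chd_ed h] at h4
      rw [h1, x_ed h] at h4
      simp only [Prod.mk.injEq] at h4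
      exact hG z hz h4.1 h4.2)
    exact ⟨h3.1.trans h1, h3.2.trans h2⟩
  have hc := orb_eq_iff.1 hd.symm
    (fun d => d.x = (ed h).x ∧ chd d.p = chd (ed h).p) (fun d hd => hd) hstab ⟨rfl, rfl⟩
  exact ⟨hc.1.trans (x_ed h), hc.2.trans (chd_ed h)⟩

/-- a free chord with kept ends is kept and stays free -/
theorem free_keep (N : Nm G inn) {F : Φ} {w : W} (h : s.At F w) (hf : s.Free F w) :
    (newSt N).mu F w = s.mu F w ∧ (newSt N).lo F w = s.lo F w ∧ (newSt N).Free F w := by
  have hG : ∀ z ∈ G, z.F = F → z.e (col (s.lab w)) ≠ s.lo F w := fun z _ hF => hf z hF _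
  have hmu : mu' G inn F w = s.mu F w := mu'_eq_mu h hG
  have hlo : (newSt N).lo F w = s.lo F w := by
    unfold St.lo
    rw [newSt_mu, hmu]
  refine ⟨hmu, hlo, ?_⟩
  intro z' hF x he
  rw [hlo] at he
  have h1 := od_lb N z' x
  have hat := newSt_at (z'.at_ x)
  have h2 : orb G inn (ed hat) = orb G inn (ed h) := by
    rw [orb_ed_iff h hat]
    refine ⟨hF, ?_⟩
    rw [hmu, he]
    unfold St.lo
    split_ifs
    · left; rfl
    · right; rfl
  have h3 : orb G inn (⟨x, abv (od N z') x, false⟩ : Dart s) = orb G inn (ed h) := h1.trans h2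
  have h4 := orb_chd h hG h3
  have h5 : ((od N z').F, (od N z').e x) = (F, s.lo F w) := h4.2
  simp only [Prod.mk.injEq] at h5
  exact hf (od N z') h5.1 x h5.2

/-- a chord without points of `G` with kept ends keeps its partner -/
theorem mu_keep (N : Nm G inn) {F : Φ} {w : W} (h : s.At F w)
    (hG : ∀ z ∈ G, z.F = F → z.e (col (s.lab w)) ≠ s.lo F w) :
    (newSt N).mu F w = s.mu F w := mu'_eq_mu h hG

end Crest.Agent.R096.Wk_689
end

-- ▼ part R096/F1_422

/-!
# R096 / P3D-F: the new state from the names of the orbits (`Nms`), the exchange step (helper422)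
-/

set_option autoImplicit false

namespace Crest.Agent.R096.F_422

open Crest.Agent.R096.St_147 Crest.Agent.R096.Wk_689

variable {ι Φ W I : Type} {M : MeshC ι Φ W} {col : I → Bool} {s : St M col}
variable {Act : Set ι} {far : I → Set W} {G : Set s.Dbl} {inn : s.Dbl → Bool → Bool}
variable {nm : Dart s → Option I}

/-- the name of an orbit -/
def nmO (N : Nms s G far inn nm) : Orb G inn → Option I :=
  Quot.lift nm (by
    rintro d d' (rfl | rfl)
    · exact (N.fl d).symm
    · exact (N.tt d).symm)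

theorem nmO_orb (N : Nms s G far inn nm) (d : Dart s) : nmO N (orb G inn d) = nm d := rfl

/-- `w` is connected with the marked points of sheet `i` by new chords -/
def Joined (s : St M col) (G : Set s.Dbl) (inn : s.Dbl → Bool → Bool) (far : I → Set W) (i : I)
    (w : W) : Prop :=
  ∀ X : Set W, far i ⊆ X → (∀ F v, v ∈ X → s.At F v → mu' G inn F v ∈ X) → w ∈ X

theorem joined_far {i : I} {w : W} (h : w ∈ far i) : Joined s G inn far i w :=
  fun _ hX _ => hX h

theorem joined_mu {i : I} {F : Φ} {w : W} (h : Joined s G inn far i w) (hA : s.At F w) :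
    Joined s G inn far i (mu' G inn F w) :=
  fun X h1 h2 => h2 F w (h X h1 h2) hA

theorem joined_nm (N : Nms s G far inn nm) {i : I} {w : W} (hJ : Joined s G inn far i w)
    {F : Φ} (h : s.At F w) : nm (ed h) = some i := by
  refine hJ {v | ∀ F (h : s.At F v), nm (ed h) = some i} ?_ ?_ F h
  · intro v hv F h
    exact N.far i F v h hv
  · intro F v hv h F' h'
    rw [N.cont F' F _ h' (mu'_at G inn h), ← nmO_orb N, orb_mu' h, nmO_orb N]
    exact hv F h

open Classical in
/-- the new name of a point -/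
noncomputable def lab' (s : St M col) (nm : Dart s → Option I) (w : W) : I :=
  if h : ∃ F, s.At F w then (nm (ed h.choose_spec)).getD (s.lab w) else s.lab w

theorem joined_lab (hg : s.Good Act far) (N : Nms s G far inn nm) {i : I} {w : W}
    (hJ : Joined s G inn far i w) : lab' s nm w = i := by
  classical
  by_cases h : ∃ F, s.At F w
  · unfold lab'
    rw [dif_pos h, joined_nm N hJ h.choose_spec]
    rfl
  · unfold lab'
    rw [dif_neg h]
    have h1 : w ∈ {v | v = w → v ∈ far i} := by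
      refine hJ {v | v = w → v ∈ far i} (fun v hv _ => hv) ?_
      intro F v _ hA he
      exact (h ⟨F, he ▸ mu'_at G inn hA⟩).elim
    exact (hg.far_mem (h1 rfl)).2

open Classical in
/-- the data for 689's `newSt` -/
noncomputable def nmd (hg : s.Good Act far) (N : Nms s G far inn nm) : Nm G inn where
  P := s.P.filter (fun w => Joined s G inn far (lab' s nm w) w)
  sub := Finset.filter_subset _ _
  lab := lab' s nm
  nm := nmO N
  hnm {F w} h hw := by
    rw [nmO_orb N]
    exact joined_nm N (Finset.mem_filter.1 hw).2 h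
  mem {F w} h hw := by
    have h1 := joined_mu (Finset.mem_filter.1 hw).2 h
    rw [Finset.mem_filter]
    refine ⟨(mu'_at G inn h).1, ?_⟩
    rw [joined_lab hg N h1]
    exact h1
  old {z} hz x i h := by
    have h1 : nm (dz z x false) = some i := h
    rw [N.out z hz] at h1
    exact (Option.some.inj h1).symm

theorem mem_nmd {hg : s.Good Act far} {N : Nms s G far inn nm} {w : W} :
    w ∈ (nmd hg N).P ↔ w ∈ s.P ∧ Joined s G inn far (lab' s nm w) w := by
  classical
  exact Finset.mem_filter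

theorem far_lab (hg : s.Good Act far) (N : Nms s G far inn nm) {i : I} {w : W} (h : w ∈ far i) :
    lab' s nm w = i := joined_lab hg N (joined_far h)

theorem far_mem' (hg : s.Good Act far) (N : Nms s G far inn nm) {i : I} {w : W} (h : w ∈ far i) :
    w ∈ (nmd hg N).P := by
  rw [mem_nmd]
  refine ⟨(hg.far_mem h).1, ?_⟩
  rw [far_lab hg N h]
  exact joined_far h

/-- the new state -/
noncomputable def nst (hg : s.Good Act far) (N : Nms s G far inn nm) : St M col :=
  newSt (nmd hg N)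

theorem nst_lab (hg : s.Good Act far) (N : Nms s G far inn nm) :
    (nst hg N).lab = lab' s nm := rfl
theorem nst_mu (hg : s.Good Act far) (N : Nms s G far inn nm) :
    (nst hg N).mu = mu' G inn := rfl
theorem nst_at {hg : s.Good Act far} {N : Nms s G far inn nm} {F : Φ} {w : W}
    (h : (nst hg N).At F w) : s.At F w := newSt_at h

/-- no point of `G` on a frozen face -/
theorem frozen_not {A : s.Arcs Act} (hG : A.Closed G) {F : Φ} (hF : St.Frozen M Act F) :
    ∀ z ∈ G, z.F = F → False := by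
  intro z hz hzF
  obtain ⟨q, hq, hqA⟩ := hF
  exact hqA (hG z hz q (hzF ▸ hq)).1

theorem mu_frozen {A : s.Arcs Act} (hG : A.Closed G) (hg : s.Good Act far)
    (N : Nms s G far inn nm) {F : Φ} {w : W} (hF : St.Frozen M Act F) (h : s.At F w) :
    (nst hg N).mu F w = s.mu F w :=
  mu_keep (nmd hg N) h (fun z hz hzF => (frozen_not hG hF z hz hzF).elim)

/-- steps between marked points -/
theorem far_sub {A : s.Arcs Act} (hG : A.Closed G) (hg : s.Good Act far)
    (N : Nms s G far inn nm) (i : I) (X : Set W)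
    (hX : ∀ F w, w ∈ X → w ∈ far i → (nst hg N).At F w → (nst hg N).mu F w ∈ far i →
      ((nst hg N).Free F w ∨ St.Frozen M Act F) → (nst hg N).mu F w ∈ X)
    (w : W) (hw : w ∈ X) (hwf : w ∈ far i) : far i ⊆ X := by
  refine hg.far_conn i X ?_ w hw hwf
  intro F w hw hwf hA hmu hfr
  have hmw : (nst hg N).mu F w = s.mu F w := by
    rcases hfr with h | h
    · exact (free_keep (nmd hg N) hA h).1
    · exact mu_frozen hG hg N h hA
  rw [← hmw] at hmu ⊢
  refine hX F w hw hwf ⟨far_mem' hg N hwf, hA.2⟩ hmu ?_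
  rcases hfr with h | h
  · exact Or.inl (free_keep (nmd hg N) hA h).2.2
  · exact Or.inr h

theorem conn' {A : s.Arcs Act} (hG : A.Closed G) (hg : s.Good Act far)
    (N : Nms s G far inn nm) (i : I) : (nst hg N).Conn i := by
  obtain ⟨w₀, hw₀⟩ := hg.far_ne i
  refine ⟨⟨w₀, far_mem' hg N hw₀, far_lab hg N hw₀⟩, ?_⟩
  intro X hX w hw hwP hwi w' hw'P hw'i
  have hwP' := (mem_nmd (hg := hg) (N := N)).1 hwP
  have hw'P' := (mem_nmd (hg := hg) (N := N)).1 hw'P
  change lab' s nm w = i at hwi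
  change lab' s nm w' = i at hw'i
  rw [hwi] at hwP'
  rw [hw'i] at hw'P'
  -- some marked point is in `X`
  have h1 : ∃ v ∈ far i, v ∈ X := by
    by_contra hcon
    have h2 : w ∈ {v | ¬ (v ∈ X ∧ v ∈ (nmd hg N).P ∧ lab' s nm v = i)} := by
      refine hwP'.2 _ ?_ ?_
      · intro v hv hv'
        exact hcon ⟨v, hv, hv'.1⟩
      · intro F v hv hA hv'
        apply hv
        have hA' := mu'_at G inn hA
        have h3 : (nst hg N).mu F (mu' G inn F v) ∈ X :=
          hX F _ hv'.1 ⟨hv'.2.1, hA'.2⟩ hv'.2.2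
        rw [nst_mu, mu'_mu' hA] at h3
        have h4 := (nmd hg N).mem hA' hv'.2.1
        rw [mu'_mu' hA] at h4
        refine ⟨h3, h4, ?_⟩
        have h5 := joined_mu (mem_nmd.1 hv'.2.1).2 hA'
        rw [mu'_mu' hA, hv'.2.2] at h5
        exact joined_lab hg N h5
    exact h2 ⟨hw, hwP, hwi⟩
  obtain ⟨v, hvf, hvX⟩ := h1
  have h2 : far i ⊆ X := far_sub hG hg N i X
    (fun F w hw hwf hA _ _ => hX F w hw hA (far_lab hg N hwf)) v hvX hvf
  have h3 : w' ∈ {v | v ∈ X ∧ v ∈ (nmd hg N).P ∧ lab' s nm v = i} := by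
    refine hw'P'.2 _ ?_ ?_
    · intro v hv
      exact ⟨h2 hv, far_mem' hg N hv, far_lab hg N hv⟩
    · intro F v hv hA
      refine ⟨hX F v hv.1 ⟨hv.2.1, hA.2⟩ hv.2.2, (nmd hg N).mem hA hv.2.1, ?_⟩
      have h5 := joined_mu (mem_nmd.1 hv.2.1).2 hA
      rw [hv.2.2] at h5
      exact joined_lab hg N h5
  exact h3.1

open Classical in
/-- transport of a function on the new chords of sheet `i` to the darts -/
noncomputable def tf (hg : s.Good Act far) (N : Nms s G far inn nm) (i : I)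
    (θ : Φ → W → ZMod 2) (d : Dart s) : ZMod 2 :=
  if h : ∃ p : Φ × W, ∃ h : s.At p.1 p.2, (p.2 ∈ (nmd hg N).P ∧ lab' s nm p.2 = i) ∧
    orb G inn d = orb G inn (ed h) then θ h.choose.1 h.choose.2 else 0

theorem sep' (hg : s.Good Act far) (N : Nms s G far inn nm) (i : I) : (nst hg N).Sep i := by
  classical
  intro θ hθ1 hθ2
  -- kept status along a chord
  have hkeep : ∀ {F : Φ} {w : W} (h : s.At F w), (w ∈ (nmd hg N).P ∧ lab' s nm w = i) →
      (mu' G inn F w ∈ (nmd hg N).P ∧ lab' s nm (mu' G inn F w) = i) := by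
    intro F w h hw
    refine ⟨(nmd hg N).mem h hw.1, ?_⟩
    have h5 := joined_mu (mem_nmd.1 hw.1).2 h
    rw [hw.2] at h5
    exact joined_lab hg N h5
  have ht : ∀ {F : Φ} {w : W} (h : s.At F w), (w ∈ (nmd hg N).P ∧ lab' s nm w = i) →
      ∀ d, orb G inn d = orb G inn (ed h) → tf hg N i θ d = θ F w := by
    intro F w h hw d hd
    have hex : ∃ p : Φ × W, ∃ h : s.At p.1 p.2, (p.2 ∈ (nmd hg N).P ∧ lab' s nm p.2 = i) ∧
      orb G inn d = orb G inn (ed h) := ⟨(F, w), h, hw, hd⟩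
    unfold tf
    rw [dif_pos hex]
    obtain ⟨h1, h2, h3⟩ := hex.choose_spec
    obtain ⟨hF, hw'⟩ := (orb_ed_iff h h1).1 (h3.symm.trans hd)
    rw [hF]
    rcases hw' with h4 | h4
    · rw [h4]
    · rw [h4]
      exact hθ1 F w ⟨hw.1, h.2⟩ hw.2
  have ht0 : ∀ d, (¬ ∃ p : Φ × W, ∃ h : s.At p.1 p.2,
      (p.2 ∈ (nmd hg N).P ∧ lab' s nm p.2 = i) ∧ orb G inn d = orb G inn (ed h)) →
      tf hg N i θ d = 0 := by
    intro d hd
    unfold tf
    rw [dif_neg hd]
  have htcongr : ∀ d d', orb G inn d = orb G inn d' → tf hg N i θ d = tf hg N i θ d' := by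
    intro d d' h
    by_cases hex : ∃ p : Φ × W, ∃ h : s.At p.1 p.2, (p.2 ∈ (nmd hg N).P ∧ lab' s nm p.2 = i) ∧
      orb G inn d = orb G inn (ed h)
    · obtain ⟨⟨F, w⟩, h1, h2, h3⟩ := hex
      rw [ht h1 h2 d h3, ht h1 h2 d' (h.symm.trans h3)]
    · rw [ht0 d hex, ht0 d' (by rw [← h]; exact hex)]
  have heven : St_147.Even (tf hg N i θ) := by
    refine ⟨fun d => htcongr _ _ (orb_flip d), ?_⟩
    intro w hw
    by_cases hk : w ∈ (nmd hg N).P ∧ lab' s nm w = i
    · rw [← hθ2 w hk.1 hk.2]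
      refine Finset.sum_congr rfl fun F hF => ?_
      have hA : s.At F w := ⟨hw, MeshC.mem_fs.1 hF⟩
      rw [edv_eq hA, ht hA hk _ rfl]
    · refine Finset.sum_eq_zero fun F hF => ?_
      have hA : s.At F w := ⟨hw, MeshC.mem_fs.1 hF⟩
      rw [edv_eq hA]
      apply ht0
      rintro ⟨⟨F', w'⟩, h1, h2, h3⟩
      obtain ⟨hF', hw'⟩ := (orb_ed_iff h1 hA).1 h3
      apply hk
      rcases hw' with h4 | h4
      · rw [h4]; exact h2
      · rw [h4]; exact hkeep h1 h2
  obtain ⟨c, c1, c2, c3, c4⟩ := N.sep (tf hg N i θ) heven (fun d => htcongr _ _ (orb_tt d)) (by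
    intro d hd
    apply ht0
    rintro ⟨⟨F, w⟩, h1, h2, h3⟩
    have h4 := congrArg (nmO N) h3
    rw [nmO_orb, nmO_orb, hd, joined_nm N (mem_nmd.1 h2.1).2 h1] at h4
    exact absurd h4 (by simp))
  refine ⟨fun q w => if hh : ∃ F, s.At F w ∧ q ∈ M.side F then c q (ed hh.choose_spec.1) else 0,
    ?_, ?_⟩
  · intro q F w hq hA hi
    have hA₀ : s.At F w := nst_at hA
    have hA' : s.At F (mu' G inn F w) := mu'_at G inn hA₀
    have h1 : ∃ F, s.At F w ∧ q ∈ M.side F := ⟨F, hA₀, hq⟩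
    have h2 : ∃ F', s.At F' (mu' G inn F w) ∧ q ∈ M.side F' := ⟨F, hA', hq⟩
    beta_reduce
    rw [nst_mu, dif_pos h1, dif_pos h2, c3 q _ F _ h1.choose_spec.1 hA₀ h1.choose_spec.2 hq,
      c3 q _ F _ h2.choose_spec.1 hA' h2.choose_spec.2 hq]
    have h3 := orb_eq_iff.1 (orb_mu' (G := G) (inn := inn) hA₀).symm
      (fun d => c q d = c q (ed hA₀) ∧ nm d ≠ none ∧ q ∈ M.side (fc d)) ?_ ?_ ?_
    · exact h3.1
    · rintro d ⟨h4, h5, h6⟩
      exact ⟨(c1 q d).trans h4, by rw [N.fl]; exact h5, h6⟩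
    · rintro d ⟨h4, h5, h6⟩
      exact ⟨(c2 q d h5 h6).trans h4, by rw [N.tt]; exact h5, by rw [fc_tt]; exact h6⟩
    · refine ⟨rfl, ?_, by rw [fc_ed]; exact hq⟩
      rw [joined_nm N ((mem_nmd (hg := hg) (N := N)).1 hA.1).2 hA₀]
      simp
  · intro F w q q' hqq hA hi
    have hA₀ : s.At F w := nst_at hA
    have hq : q ∈ M.side F := hqq ▸ Sym2.mem_mk_left q q'
    have hq' : q' ∈ M.side F := hqq ▸ Sym2.mem_mk_right q q'
    have h1 : ∃ F, s.At F w ∧ q ∈ M.side F := ⟨F, hA₀, hq⟩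
    have h2 : ∃ F, s.At F w ∧ q' ∈ M.side F := ⟨F, hA₀, hq'⟩
    beta_reduce
    rw [dif_pos h1, dif_pos h2, c3 q _ F _ h1.choose_spec.1 hA₀ h1.choose_spec.2 hq,
      c3 q' _ F _ h2.choose_spec.1 hA₀ h2.choose_spec.2 hq',
      ← c4 (ed hA₀) q q' (by rw [fc_ed]; exact hqq)]
    exact (ht hA₀ ⟨hA.1, hi⟩ _ rfl).symm

/-- **the new state is good, simpler, with fewer double points** -/
theorem new_state {A : s.Arcs Act} (hG : A.Closed G) (hne : G.Nonempty) (hg : s.Good Act far)
    (N : Nms s G far inn nm) :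
    ∃ s' : St M col, s'.Good Act far ∧ St.Le Act far s' s ∧ Nat.card s'.Dbl < Nat.card s.Dbl := by
  refine ⟨nst hg N, ?_, ?_, card_lt (nmd hg N) hne⟩
  · exact
    { h1 := fun i => B_422.h1_of_sep _ i (sep' hg N i)
      conn := conn' hG hg N
      far_mem := fun {i w} h => ⟨far_mem' hg N h, far_lab hg N h⟩
      far_ne := hg.far_ne
      far_frozen := by
        intro F w hA hF
        have h1 := hg.far_frozen (nst_at hA) hF
        rw [nst_lab, far_lab hg N h1]
        exact h1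
      far_conn := far_sub hG hg N }
  · exact
    { P_sub := (nmd hg N).sub
      frozen_P := fun F w hF hw => ⟨fun h => (nmd hg N).sub h, fun h =>
        far_mem' hg N (hg.far_frozen ⟨h, hw⟩ hF)⟩
      frozen_mu := fun F w hF hA => mu_frozen hG hg N hF hA
      free := fun F w hA _ _ hf =>
        ⟨(free_keep (nmd hg N) hA hf).1, (free_keep (nmd hg N) hA hf).2.2⟩
      dbl := fun z => ⟨od (nmd hg N) z, od_F _ z, fun x => od_lab _ z x⟩ }

end Crest.Agent.R096.F_422
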