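import Mathlib
import Crest.Agent.R096.Str1_696
import Crest.Agent.R096.FpDefs_812

-- ▼ part R096/Fan1_696
section

/-!
Row 96 (S0127), helper696.  (S3) FAN-EX, part 1: sign vectors of a finite essential family of
linear forms, the barycentric vertices `bb σ`, existence and uniqueness of the representation of a
vector as a nonnegative combination of the vertices of a chain of sign vectors.
-/

set_option autoImplicit false
set_option linter.unusedSectionVars false
set_option linter.style.longLine false

namespace Crest.Agent.R096.Fan_696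

open Set Filter Topology
open scoped Classical

variable {E : Type*} [NormedAddCommGroup E] [NormedSpace ℝ E] {ι : Type*} [Fintype ι]

/-- sign vector of `x`. -/
noncomputable def sv (l : ι → E →L[ℝ] ℝ) (x : E) : ι → SignType := fun i => SignType.sign (l i x)

/-- realised nonzero sign vectors. -/
def VV (l : ι → E →L[ℝ] ℝ) : Type _ := {σ : ι → SignType // ∃ x, x ≠ 0 ∧ sv l x = σ}

noncomputable instance (l : ι → E →L[ℝ] ℝ) : Fintype (VV l) :=
  inferInstanceAs (Fintype {σ : ι → SignType // ∃ x, x ≠ 0 ∧ sv l x = σ})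

variable {l : ι → E →L[ℝ] ℝ}

/-- a point in the relative interior of the face `σ`. -/
noncomputable def bb (σ : VV l) : E := Classical.choose σ.2

lemma bb_ne (σ : VV l) : bb σ ≠ 0 := (Classical.choose_spec σ.2).1

lemma sv_bb (σ : VV l) : sv l (bb σ) = σ.1 := (Classical.choose_spec σ.2).2

lemma sign_bb (σ : VV l) (i : ι) : SignType.sign (l i (bb σ)) = σ.1 i := congrFun (sv_bb σ) i

/-- face order. -/
def fle (τ σ : ι → SignType) : Prop := ∀ i, τ i = 0 ∨ τ i = σ i

lemma fle_refl (σ : ι → SignType) : fle σ σ := fun _ => Or.inr rfl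

lemma fle_trans {ρ τ σ : ι → SignType} (h : fle ρ τ) (h' : fle τ σ) : fle ρ σ := by
  intro i
  rcases h i with h1 | h1
  · exact Or.inl h1
  · rcases h' i with h2 | h2
    · exact Or.inl (h1.trans h2)
    · exact Or.inr (h1.trans h2)

lemma fle_antisymm {τ σ : ι → SignType} (h : fle τ σ) (h' : fle σ τ) : τ = σ := by
  funext i
  rcases h i with h1 | h1
  · rcases h' i with h2 | h2
    · rw [h1, h2]
    · exact h2.symm
  · exact h1

/-- number of nonzero signs. -/
noncomputable def nz (σ : ι → SignType) : ℕ := (Finset.univ.filter fun i => σ i ≠ 0).card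

lemma nz_lt {τ σ : ι → SignType} (h : fle τ σ) (hne : τ ≠ σ) : nz τ < nz σ := by
  apply Finset.card_lt_card
  rw [Finset.ssubset_iff_of_subset]
  · by_contra hcon
    push Not at hcon
    apply hne
    funext i
    rcases h i with h1 | h1
    · by_cases h2 : σ i = 0
      · rw [h1, h2]
      · exact absurd h1 (by simpa using hcon i (by simpa using h2))
    · exact h1
  · intro i hi
    simp only [Finset.mem_filter, Finset.mem_univ, true_and] at hi ⊢
    rcases h i with h1 | h1
    · exact absurd h1 hi
    · rwa [← h1]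

lemma nz_le {τ σ : ι → SignType} (h : fle τ σ) : nz τ ≤ nz σ := by
  by_cases hne : τ = σ
  · rw [hne]
  · exact (nz_lt h hne).le

/-- **Existence of the chain representation.** -/
lemma exists_rep (hess : ∀ x, (∀ i, l i x = 0) → x = 0) (n : ℕ) : ∀ x : E, nz (sv l x) ≤ n →
    ∃ (c : Finset (VV l)) (a : VV l → ℝ), (∀ σ ∈ c, ∀ τ ∈ c, fle σ.1 τ.1 ∨ fle τ.1 σ.1) ∧
      (∀ τ ∈ c, fle τ.1 (sv l x)) ∧ (∀ τ ∈ c, 0 < a τ) ∧ (∀ τ ∉ c, a τ = 0) ∧
      ∑ τ, a τ • bb τ = x := by
  induction n with
  | zero =>
    intro x hx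
    have h0 : x = 0 := by
      apply hess
      intro i
      have h1 : (Finset.univ.filter fun i => sv l x i ≠ 0) = ∅ := Finset.card_eq_zero.1 (by
        simpa [nz] using hx)
      by_contra hne
      have : i ∈ (Finset.univ.filter fun i => sv l x i ≠ 0) := by
        simp only [Finset.mem_filter, Finset.mem_univ, true_and, sv]
        simpa using hne
      rw [h1] at this
      simp at this
    subst h0
    exact ⟨∅, 0, by simp, by simp, by simp, by simp, by simp⟩
  | succ n ih =>
    intro x hx
    by_cases hx0 : x = 0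
    · subst hx0
      exact ⟨∅, 0, by simp, by simp, by simp, by simp, by simp⟩
    set σ₀ : VV l := ⟨sv l x, x, hx0, rfl⟩ with hσ₀
    set b := bb σ₀ with hb
    have hsb : ∀ i, SignType.sign (l i b) = SignType.sign (l i x) := fun i => sign_bb σ₀ i
    set I : Finset ι := Finset.univ.filter fun i => l i x ≠ 0 with hI
    have hIne : I.Nonempty := by
      by_contra hcon
      rw [Finset.not_nonempty_iff_eq_empty] at hcon
      apply hx0
      apply hess
      intro i
      by_contra hne
      have : i ∈ I := by simp [hI, hne]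
      rw [hcon] at this
      simp at this
    set t : ℝ := I.inf' hIne (fun i => l i x / l i b) with ht
    have hq : ∀ i, l i x ≠ 0 → 0 < l i x / l i b := by
      intro i hi
      rcases lt_or_gt_of_ne hi with h | h
      · have h1 : l i b < 0 := by
          rw [← sign_eq_neg_one_iff, hsb, sign_eq_neg_one_iff]; exact h
        exact div_pos_of_neg_of_neg h h1
      · have h1 : 0 < l i b := by
          rw [← sign_eq_one_iff, hsb, sign_eq_one_iff]; exact h
        exact div_pos h h1
    obtain ⟨i₀, hi₀, hti₀⟩ := Finset.exists_mem_eq_inf' hIne (fun i => l i x / l i b)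
    have hi₀' : l i₀ x ≠ 0 := by simpa [hI] using hi₀
    have htpos : 0 < t := by
      rw [ht, hti₀]
      exact hq i₀ hi₀'
    have hbne : ∀ i, l i x ≠ 0 → l i b ≠ 0 := by
      intro i hi hb0
      have := hq i hi
      rw [hb0, div_zero] at this
      exact lt_irrefl _ this
    set x' : E := x - t • b with hx'
    have hlx' : ∀ i, l i x' = l i x - t * l i b := by
      intro i; simp [hx']
    have hle : fle (sv l x') (sv l x) := by
      intro i
      simp only [sv]
      by_cases hi : l i x = 0
      · left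
        have h1 : l i b = 0 := by
          rw [← sign_eq_zero_iff, hsb, sign_eq_zero_iff]; exact hi
        rw [sign_eq_zero_iff, hlx', hi, h1]; ring
      · have h2 : t ≤ l i x / l i b := by
          rw [ht]
          exact Finset.inf'_le _ (by simp [hI, hi])
        have h3 : l i x' = (l i x / l i b - t) * l i b := by
          rw [hlx', sub_mul, div_mul_cancel₀ _ (hbne i hi)]
        rcases h2.eq_or_lt with h4 | h4
        · left
          rw [sign_eq_zero_iff, h3, ← h4]; ring
        · right
          rw [h3, sign_mul, sign_pos (by linarith), one_mul, hsb]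
    have hne : sv l x' ≠ sv l x := by
      intro heq
      have h1 := congrFun heq i₀
      simp only [sv] at h1
      have h2 : l i₀ x' = 0 := by
        rw [hlx', ht, hti₀]
        field_simp [hbne i₀ hi₀']
        ring
      rw [h2, sign_zero] at h1
      exact hi₀' (sign_eq_zero_iff.1 h1.symm)
    obtain ⟨c, a, hch, hcle, hpos, hoff, hsum⟩ := ih x' (by
      have := nz_lt hle hne
      omega)
    have hσc : σ₀ ∉ c := by
      intro hmem
      exact hne (fle_antisymm hle (hcle σ₀ hmem))
    refine ⟨insert σ₀ c, fun τ => a τ + if τ = σ₀ then t else 0, ?_, ?_, ?_, ?_, ?_⟩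
    · intro σ hσ τ hτ
      rw [Finset.mem_insert] at hσ hτ
      rcases hσ with rfl | hσ
      · rcases hτ with rfl | hτ
        · exact Or.inl (fle_refl _)
        · exact Or.inr (fle_trans (hcle τ hτ) hle)
      · rcases hτ with rfl | hτ
        · exact Or.inl (fle_trans (hcle σ hσ) hle)
        · exact hch σ hσ τ hτ
    · intro τ hτ
      rw [Finset.mem_insert] at hτ
      rcases hτ with rfl | hτ
      · exact fle_refl _
      · exact fle_trans (hcle τ hτ) hle
    · intro τ hτ
      rw [Finset.mem_insert] at hτ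
      rcases hτ with rfl | hτ
      · simp only [if_true]
        rw [hoff _ hσc]
        linarith
      · have : 0 < a τ := hpos τ hτ
        show 0 < a τ + if τ = σ₀ then t else 0
        split_ifs <;> linarith
    · intro τ hτ
      rw [Finset.mem_insert, not_or] at hτ
      show (a τ + if τ = σ₀ then t else 0) = 0
      rw [if_neg hτ.1, hoff τ hτ.2, add_zero]
    · simp only [add_smul, Finset.sum_add_distrib, hsum, ite_smul, zero_smul,
        Finset.sum_ite_eq', Finset.mem_univ, if_true]
      rw [hx', ← hb]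
      abel

/-- chain support. -/
def Chs (a : VV l → ℝ) : Prop :=
  ∀ σ τ : VV l, a σ ≠ 0 → a τ ≠ 0 → fle σ.1 τ.1 ∨ fle τ.1 σ.1

/-- **Top of a chain representation = sign vector of the sum.** -/
lemma exists_top {a : VV l → ℝ} (h0 : ∀ τ, 0 ≤ a τ) (hc : Chs a) (hne : a ≠ 0) :
    ∃ σ : VV l, 0 < a σ ∧ (∀ τ, a τ ≠ 0 → fle τ.1 σ.1) ∧ sv l (∑ τ, a τ • bb τ) = σ.1 := by
  set s : Finset (VV l) := Finset.univ.filter fun τ => a τ ≠ 0 with hs
  have hsne : s.Nonempty := by
    by_contra hcon
    rw [Finset.not_nonempty_iff_eq_empty] at hcon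
    apply hne
    funext τ
    by_contra h
    have : τ ∈ s := by simp only [hs, Finset.mem_filter, Finset.mem_univ, true_and]; exact h
    rw [hcon] at this
    simp at this
  obtain ⟨σ, hσ, hmax⟩ := s.exists_max_image (fun τ => nz τ.1) hsne
  have hσ0 : a σ ≠ 0 := by simpa [hs] using hσ
  have hσpos : 0 < a σ := lt_of_le_of_ne (h0 σ) (Ne.symm hσ0)
  have htop : ∀ τ, a τ ≠ 0 → fle τ.1 σ.1 := by
    intro τ hτ
    rcases hc τ σ hτ hσ0 with h | h
    · exact h
    · by_cases heq : σ.1 = τ.1
      · rw [heq]; exact fle_refl _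
      · have h1 := nz_lt h heq
        have h2 := hmax τ (by simp [hs, hτ])
        omega
  refine ⟨σ, hσpos, htop, ?_⟩
  funext i
  have hl : l i (∑ τ, a τ • bb τ) = ∑ τ, a τ * l i (bb τ) := by
    rw [map_sum]
    exact Finset.sum_congr rfl fun τ _ => by rw [map_smul, smul_eq_mul]
  have hterm : ∀ τ, a τ = 0 ∨ SignType.sign (l i (bb τ)) = 0 ∨
      SignType.sign (l i (bb τ)) = σ.1 i := by
    intro τ
    by_cases hτ : a τ = 0
    · exact Or.inl hτ
    · right
      rw [sign_bb]
      exact htop τ hτ i
  simp only [sv, hl]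
  rcases hcase : σ.1 i with _ | _ | _
  · -- zero
    have : ∑ τ, a τ * l i (bb τ) = 0 := by
      apply Finset.sum_eq_zero
      intro τ _
      rcases hterm τ with h | h | h
      · rw [h, zero_mul]
      · rw [sign_eq_zero_iff.1 h, mul_zero]
      · rw [hcase] at h
        have : l i (bb τ) = 0 := sign_eq_zero_iff.1 h
        rw [this, mul_zero]
    rw [this, sign_zero]; rfl
  · -- neg
    have hle : ∀ τ ∈ Finset.univ, a τ * l i (bb τ) ≤ 0 := by
      intro τ _
      rcases hterm τ with h | h | h
      · rw [h, zero_mul]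
      · rw [sign_eq_zero_iff.1 h, mul_zero]
      · rw [hcase] at h
        have : l i (bb τ) < 0 := sign_eq_neg_one_iff.1 h
        exact mul_nonpos_of_nonneg_of_nonpos (h0 τ) this.le
    have hlt : ∑ τ, a τ * l i (bb τ) < 0 := by
      refine Finset.sum_neg' hle ⟨σ, Finset.mem_univ _, ?_⟩
      have : l i (bb σ) < 0 := by
        rw [← sign_eq_neg_one_iff, sign_bb, hcase]; rfl
      exact mul_neg_of_pos_of_neg hσpos this
    rw [sign_neg hlt]; rfl
  · -- pos
    have hle : ∀ τ ∈ Finset.univ, 0 ≤ a τ * l i (bb τ) := by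
      intro τ _
      rcases hterm τ with h | h | h
      · rw [h, zero_mul]
      · rw [sign_eq_zero_iff.1 h, mul_zero]
      · rw [hcase] at h
        have : 0 < l i (bb τ) := sign_eq_one_iff.1 h
        exact mul_nonneg (h0 τ) this.le
    have hlt : 0 < ∑ τ, a τ * l i (bb τ) := by
      refine Finset.sum_pos' hle ⟨σ, Finset.mem_univ _, ?_⟩
      have : 0 < l i (bb σ) := by
        rw [← sign_eq_one_iff, sign_bb, hcase]; rfl
      exact mul_pos hσpos this
    rw [sign_pos hlt]; rfl

end Crest.Agent.R096.Fan_696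
end

-- ▼ part R096/Fan2_696
section

/-!
Row 96 (S0127), helper696.  (S3) FAN-EX, part 2: uniqueness of the chain representation,
linear independence of chains, density of the open cones of full chains: the complete simplicial fan.
-/

set_option autoImplicit false
set_option linter.unusedSectionVars false
set_option linter.style.longLine false

namespace Crest.Agent.R096.Fan_696

open Set Filter Topology
open scoped Classical

variable {E : Type*} [NormedAddCommGroup E] [NormedSpace ℝ E] {ι : Type*} [Fintype ι]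
variable {l : ι → E →L[ℝ] ℝ}

/-- subtract the multiple `s` of the vertex `σ`. -/
noncomputable def sb (a : VV l → ℝ) (σ : VV l) (s : ℝ) : VV l → ℝ :=
  fun τ => a τ - if τ = σ then s else 0

lemma sb_self (a : VV l → ℝ) (σ : VV l) (s : ℝ) : sb a σ s σ = a σ - s := by simp [sb]

lemma sb_ne (a : VV l → ℝ) {σ τ : VV l} (s : ℝ) (h : τ ≠ σ) : sb a σ s τ = a τ := by simp [sb, h]

lemma sum_sb (a : VV l → ℝ) (σ : VV l) (s : ℝ) :
    ∑ τ, sb a σ s τ • bb τ = ∑ τ, a τ • bb τ - s • bb σ := by
  simp only [sb, sub_smul, Finset.sum_sub_distrib, ite_smul, zero_smul, Finset.sum_ite_eq',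
    Finset.mem_univ, if_true]

/-- support. -/
noncomputable def sp (a : VV l → ℝ) : Finset (VV l) := Finset.univ.filter fun τ => a τ ≠ 0

lemma mem_sp {a : VV l → ℝ} {τ : VV l} : τ ∈ sp a ↔ a τ ≠ 0 := by simp [sp]

lemma sv_zero : sv l (0 : E) = fun _ => 0 := by
  funext i; simp [sv]

lemma sv_ne_zero (hess : ∀ x, (∀ i, l i x = 0) → x = 0) (σ : VV l) : σ.1 ≠ sv l (0 : E) := by
  intro h
  apply bb_ne σ
  apply hess
  intro i
  have h1 := sign_bb σ i
  rw [h] at h1
  simp only [sv, map_zero, sign_zero] at h1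
  exact sign_eq_zero_iff.1 h1

/-- **Uniqueness of the chain representation.** -/
lemma rep_unique (hess : ∀ x, (∀ i, l i x = 0) → x = 0) (n : ℕ) : ∀ a a' : VV l → ℝ,
    (∀ τ, 0 ≤ a τ) → (∀ τ, 0 ≤ a' τ) → Chs a → Chs a' →
    ∑ τ, a τ • bb τ = ∑ τ, a' τ • bb τ → (sp a).card + (sp a').card ≤ n → a = a' := by
  induction n with
  | zero =>
    intro a a' _ _ _ _ _ hn
    have h1 : sp a = ∅ := Finset.card_eq_zero.1 (by omega)
    have h2 : sp a' = ∅ := Finset.card_eq_zero.1 (by omega)
    funext τ
    have e1 : a τ = 0 := by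
      by_contra h
      have := mem_sp.2 h
      rw [h1] at this
      simp at this
    have e2 : a' τ = 0 := by
      by_contra h
      have := mem_sp.2 h
      rw [h2] at this
      simp at this
    rw [e1, e2]
  | succ n ih =>
    -- the main step, with `a σ ≤ a' σ`
    have key : ∀ (a a' : VV l → ℝ) (σ : VV l), (∀ τ, 0 ≤ a τ) → (∀ τ, 0 ≤ a' τ) → Chs a → Chs a' →
        ∑ τ, a τ • bb τ = ∑ τ, a' τ • bb τ → (sp a).card + (sp a').card ≤ n + 1 →
        0 < a σ → 0 < a' σ → (∀ τ, a τ ≠ 0 → fle τ.1 σ.1) → (∀ τ, a' τ ≠ 0 → fle τ.1 σ.1) →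
        a σ ≤ a' σ → a = a' := by
      intro a a' σ h0 h0' hc hc' hsum hn hσ hσ' htop htop' hle
      set s := a σ with hs
      have hr0 : ∀ τ, 0 ≤ sb a σ s τ := by
        intro τ
        by_cases h : τ = σ
        · subst h; rw [sb_self, hs]; simp
        · rw [sb_ne a s h]; exact h0 τ
      have hr0' : ∀ τ, 0 ≤ sb a' σ s τ := by
        intro τ
        by_cases h : τ = σ
        · subst h; rw [sb_self]; linarith
        · rw [sb_ne a' s h]; exact h0' τ
      have hsup : ∀ τ, sb a σ s τ ≠ 0 → a τ ≠ 0 := by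
        intro τ h
        by_cases h1 : τ = σ
        · subst h1; exact hσ.ne'
        · rwa [sb_ne a s h1] at h
      have hsup' : ∀ τ, sb a' σ s τ ≠ 0 → a' τ ≠ 0 := by
        intro τ h
        by_cases h1 : τ = σ
        · subst h1; exact hσ'.ne'
        · rwa [sb_ne a' s h1] at h
      have hrc : Chs (sb a σ s) := fun τ ρ h1 h2 => hc τ ρ (hsup τ h1) (hsup ρ h2)
      have hrc' : Chs (sb a' σ s) := fun τ ρ h1 h2 => hc' τ ρ (hsup' τ h1) (hsup' ρ h2)
      have hsum' : ∑ τ, sb a σ s τ • bb τ = ∑ τ, sb a' σ s τ • bb τ := by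
        rw [sum_sb, sum_sb, hsum]
      have hrσ : sb a σ s σ = 0 := by rw [sb_self, hs]; simp
      -- `a' σ = s`
      have hrσ' : sb a' σ s σ = 0 := by
        by_contra hne
        have hr'ne : sb a' σ s ≠ 0 := fun h => hne (by rw [h]; rfl)
        obtain ⟨σ₂, h2pos, h2top, h2sv⟩ := exists_top hr0' hrc' hr'ne
        have e1 : σ₂ = σ := by
          apply Subtype.ext
          exact fle_antisymm (htop' σ₂ (hsup' σ₂ h2pos.ne')) (h2top σ hne)
        by_cases hrz : sb a σ s = 0
        · rw [← hsum', hrz] at h2sv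
          apply sv_ne_zero hess σ₂
          rw [← h2sv]
          simp
        · obtain ⟨σ₁, h1pos, h1top, h1sv⟩ := exists_top hr0 hrc hrz
          rw [hsum', h2sv, e1] at h1sv
          have : σ₁ = σ := (Subtype.ext h1sv).symm
          rw [this, hrσ] at h1pos
          exact lt_irrefl _ h1pos
      have hsp : (sp (sb a σ s)).card < (sp a).card := by
        apply Finset.card_lt_card
        rw [Finset.ssubset_iff_of_subset]
        · exact ⟨σ, mem_sp.2 hσ.ne', fun h => mem_sp.1 h hrσ⟩
        · intro τ hτ; exact mem_sp.2 (hsup τ (mem_sp.1 hτ))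
      have hsp' : (sp (sb a' σ s)).card < (sp a').card := by
        apply Finset.card_lt_card
        rw [Finset.ssubset_iff_of_subset]
        · exact ⟨σ, mem_sp.2 hσ'.ne', fun h => mem_sp.1 h hrσ'⟩
        · intro τ hτ; exact mem_sp.2 (hsup' τ (mem_sp.1 hτ))
      have heq := ih _ _ hr0 hr0' hrc hrc' hsum' (by omega)
      funext τ
      by_cases h1 : τ = σ
      · subst h1
        rw [sb_self] at hrσ'
        linarith
      · have := congrFun heq τ
        rwa [sb_ne a s h1, sb_ne a' s h1] at this
    intro a a' h0 h0' hc hc' hsum hn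
    by_cases ha : a = 0
    · by_contra hne
      have ha' : a' ≠ 0 := fun h => hne (by rw [ha, h])
      obtain ⟨σ, -, -, hσ⟩ := exists_top h0' hc' ha'
      rw [← hsum, ha] at hσ
      apply sv_ne_zero hess σ
      rw [← hσ]; simp
    · by_cases ha' : a' = 0
      · exfalso
        obtain ⟨σ, -, -, hσ⟩ := exists_top h0 hc ha
        rw [hsum, ha'] at hσ
        apply sv_ne_zero hess σ
        rw [← hσ]; simp
      · obtain ⟨σ, hσ, htop, hsv⟩ := exists_top h0 hc ha
        obtain ⟨σ', hσ', htop', hsv'⟩ := exists_top h0' hc' ha'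
        have heq : σ' = σ := by
          apply Subtype.ext
          rw [← hsv', ← hsv, hsum]
        subst heq
        rcases le_total (a σ') (a' σ') with h | h
        · exact key a a' σ' h0 h0' hc hc' hsum hn hσ hσ' htop htop' h
        · exact (key a' a σ' h0' h0 hc' hc hsum.symm (by omega) hσ' hσ htop' htop h).symm

/-- chains. -/
def IsCh (c : Finset (VV l)) : Prop := ∀ σ ∈ c, ∀ τ ∈ c, fle σ.1 τ.1 ∨ fle τ.1 σ.1

lemma chs_of_isCh {c : Finset (VV l)} (hc : IsCh c) {a : VV l → ℝ} (h : ∀ τ ∉ c, a τ = 0) :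
    Chs a := by
  intro σ τ hσ hτ
  refine hc σ ?_ τ ?_
  · by_contra h1; exact hσ (h σ h1)
  · by_contra h1; exact hτ (h τ h1)

/-- linear independence of the vertices of a chain. -/
lemma chain_indep (hess : ∀ x, (∀ i, l i x = 0) → x = 0) {c : Finset (VV l)} (hc : IsCh c)
    {a : VV l → ℝ} (hoff : ∀ τ ∉ c, a τ = 0) (hsum : ∑ τ, a τ • bb τ = 0) : a = 0 := by
  have h1 : ∑ τ, (max (a τ) 0) • bb τ = ∑ τ, (max (-a τ) 0) • bb τ := by
    rw [← sub_eq_zero, ← Finset.sum_sub_distrib]
    refine Eq.trans (Finset.sum_congr rfl fun τ _ => ?_) hsum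
    rw [← sub_smul]
    congr 1
    rcases le_total (a τ) 0 with h | h
    · rw [max_eq_right h, max_eq_left (by linarith)]; ring
    · rw [max_eq_left h, max_eq_right (by linarith)]; ring
  have h2 := rep_unique hess _ (fun τ => max (a τ) 0) (fun τ => max (-a τ) 0)
    (fun τ => le_max_right _ _) (fun τ => le_max_right _ _)
    (chs_of_isCh hc fun τ hτ => by simp [hoff τ hτ])
    (chs_of_isCh hc fun τ hτ => by simp [hoff τ hτ]) h1 le_rfl
  funext τ
  have h3 := congrFun h2 τ
  rcases le_total (a τ) 0 with h | h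
  · rw [max_eq_right h, max_eq_left (by linarith)] at h3
    simp only [Pi.zero_apply]; linarith
  · rw [max_eq_left h, max_eq_right (by linarith)] at h3
    simp only [Pi.zero_apply]; linarith

lemma chain_linearIndependent (hess : ∀ x, (∀ i, l i x = 0) → x = 0) {c : Finset (VV l)}
    (hc : IsCh c) : LinearIndependent ℝ (fun τ : c => bb (τ : VV l)) := by
  rw [Fintype.linearIndependent_iff]
  intro g hg τ
  set a : VV l → ℝ := fun σ => if h : σ ∈ c then g ⟨σ, h⟩ else 0 with ha
  have h0 : a = 0 := by
    apply chain_indep hess hc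
    · intro σ hσ; simp [ha, hσ]
    · rw [← hg]
      have e1 : ∑ τ, a τ • bb τ = ∑ τ ∈ c, a τ • bb τ := by
        symm
        apply Finset.sum_subset (Finset.subset_univ _)
        intro σ _ hσ
        simp [ha, hσ]
      rw [e1, ← Finset.sum_coe_sort c]
      refine Finset.sum_congr rfl fun σ _ => ?_
      simp [ha]
  have h1 := congrFun h0 τ.1
  simpa [ha] using h1

end Crest.Agent.R096.Fan_696
end

-- ▼ part R096/Fan3_696
section

/-!
Row 96 (S0127), helper696.  (S3) FAN-EX, part 3: the complete simplicial fan (full chains),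
`exists_fan`: refines any finite set of linear forms.
-/

set_option autoImplicit false
set_option linter.unusedSectionVars false
set_option linter.style.longLine false

namespace Crest.Agent.R096.Fan_696

open Set Filter Topology Module
open scoped Classical

variable {E : Type*} [NormedAddCommGroup E] [NormedSpace ℝ E]

/-- a finite union of proper subspaces has empty interior. -/
lemma interior_biUnion_proper [FiniteDimensional ℝ E] {α : Type*} (C : Finset α)
    (W : α → Submodule ℝ E) (hs : ∀ c ∈ C, W c ≠ ⊤) :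
    interior (⋃ c ∈ C, (W c : Set E)) = ∅ := by
  induction C using Finset.induction_on with
  | empty => simp
  | insert c C _ ih =>
    rw [Finset.set_biUnion_insert]
    rw [interior_union_isClosed_of_interior_empty (Submodule.closed_of_finiteDimensional (W c))
      (ih fun c' hc' => hs c' (Finset.mem_insert_of_mem hc'))]
    by_contra hne
    exact hs c (Finset.mem_insert_self _ _)
      (Submodule.eq_top_of_nonempty_interior' (W c) (nonempty_iff_ne_empty.2 hne))

/-- nonnegative combination of the vectors of `c`. -/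
structure Rp {V : Type*} [Fintype V] (v : V → E) (c : Finset V) (a : V → ℝ) (x : E) : Prop where
  nonneg : ∀ i, 0 ≤ a i
  off : ∀ i ∉ c, a i = 0
  sum : ∑ i, a i • v i = x

/-- a basis cone is closed. -/
lemma isClosed_cone [FiniteDimensional ℝ E] {V : Type*} [Fintype V] {v : V → E} {c : Finset V}
    (hc : LinearIndependent ℝ (fun i : c => v i)) (hcard : c.card = finrank ℝ E) :
    IsClosed {x : E | ∃ a, Rp v c a x} := by
  by_cases hne : Nonempty c
  · have hcard' : Fintype.card c = finrank ℝ E := by simpa using hcard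
    let B := basisOfLinearIndependentOfCardEqFinrank hc hcard'
    have hB : ∀ i : c, B i = v i := fun i => by
      simp [B]
    have : {x : E | ∃ a, Rp v c a x} = ⋂ i : c, {x | 0 ≤ B.repr x i} := by
      ext x
      simp only [mem_ofPred_eq, mem_iInter]
      constructor
      · rintro ⟨a, ha⟩ i
        have hx : x = ∑ j : c, a j • B j := by
          rw [← ha.sum]
          have e1 : ∑ j, a j • v j = ∑ j ∈ c, a j • v j := by
            symm
            apply Finset.sum_subset (Finset.subset_univ _)
            intro j _ hj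
            rw [ha.off j hj, zero_smul]
          rw [e1, ← Finset.sum_coe_sort c]
          exact Finset.sum_congr rfl fun j _ => by rw [hB]
        have h2 : B.repr x i = a i := by
          rw [hx, B.repr_sum_self]
        rw [h2]; exact ha.nonneg _
      · intro h
        refine ⟨fun j => if hj : j ∈ c then B.repr x ⟨j, hj⟩ else 0, ?_, ?_, ?_⟩
        · intro j
          by_cases hj : j ∈ c
          · simp only [hj, dif_pos]; exact h _
          · simp [hj]
        · intro j hj; simp [hj]
        · have e1 : ∑ j, (if hj : j ∈ c then B.repr x ⟨j, hj⟩ else 0) • v j =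
              ∑ j ∈ c, (if hj : j ∈ c then B.repr x ⟨j, hj⟩ else 0) • v j := by
            symm
            apply Finset.sum_subset (Finset.subset_univ _)
            intro j _ hj
            simp [hj]
          rw [e1, ← Finset.sum_coe_sort c]
          conv_rhs => rw [← B.sum_repr x]
          refine Finset.sum_congr rfl fun j _ => ?_
          rw [hB]
          simp
    rw [this]
    refine isClosed_iInter fun i => ?_
    have hcont : Continuous fun x => B.repr x i := by
      have : (fun x => B.repr x i) = fun x => B.coord i x := by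
        funext x; simp [Basis.coord_apply]
      rw [this]
      exact (B.coord i).continuous_of_finiteDimensional
    exact isClosed_le continuous_const hcont
  · have hc0 : c = ∅ := by
      rw [Finset.eq_empty_iff_forall_notMem]
      intro i hi; exact hne ⟨⟨i, hi⟩⟩
    have h0 : finrank ℝ E = 0 := by rw [← hcard, hc0]; rfl
    have hsub : Subsingleton E := finrank_zero_iff.1 h0
    exact (Set.subsingleton_of_subsingleton).isClosed

variable {ι : Type*} [Fintype ι] {l : ι → E →L[ℝ] ℝ}

/-- full chains. -/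
noncomputable def TT (l : ι → E →L[ℝ] ℝ) : Finset (Finset (VV l)) :=
  Finset.univ.filter fun c => IsCh c ∧ c.card = finrank ℝ E

lemma mem_TT {c : Finset (VV l)} : c ∈ TT l ↔ IsCh c ∧ c.card = finrank ℝ E := by
  simp [TT]

/-- **Covering.** -/
theorem cover [FiniteDimensional ℝ E] (hess : ∀ x, (∀ i, l i x = 0) → x = 0) (x : E) :
    ∃ c ∈ TT l, ∃ a, Rp (bb (l := l)) c a x := by
  set U : Set E := ⋃ c ∈ TT l, {x : E | ∃ a, Rp (bb (l := l)) c a x} with hU
  have hUc : IsClosed U := by
    apply Set.Finite.isClosed_biUnion (Finset.finite_toSet _)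
    intro c hc
    have hc' := mem_TT.1 hc
    exact isClosed_cone (chain_linearIndependent hess hc'.1) hc'.2
  obtain ⟨C, hC⟩ : ∃ C : Finset (Finset (VV l)), ∀ c, c ∈ C ↔ (IsCh c ∧ c.card < finrank ℝ E) :=
    ⟨Finset.univ.filter fun c : Finset (VV l) => IsCh c ∧ c.card < finrank ℝ E, fun c => by simp⟩
  have hsub : Uᶜ ⊆ ⋃ c ∈ C, ((Submodule.span ℝ (bb (l := l) '' c) : Submodule ℝ E) : Set E) := by
    intro y hy
    obtain ⟨c, a, hch, -, hpos, hoff, hsum⟩ := exists_rep hess _ y le_rfl
    have hch' : IsCh c := hch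
    have hli := chain_linearIndependent hess hch'
    have hcard : c.card ≤ finrank ℝ E := by
      simpa using hli.fintype_card_le_finrank
    have hlt : c.card < finrank ℝ E := by
      refine lt_of_le_of_ne hcard fun heq => hy ?_
      simp only [hU, mem_iUnion]
      refine ⟨c, mem_TT.2 ⟨hch', heq⟩, a, ?_, hoff, hsum⟩
      intro i
      by_cases hi : i ∈ c
      · exact (hpos i hi).le
      · rw [hoff i hi]
    simp only [mem_iUnion]
    refine ⟨c, (hC c).2 ⟨hch', hlt⟩, ?_⟩
    · rw [SetLike.mem_coe, ← hsum]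
      refine Submodule.sum_mem _ fun τ _ => ?_
      by_cases hτ : τ ∈ c
      · exact Submodule.smul_mem _ _ (Submodule.subset_span ⟨τ, hτ, rfl⟩)
      · rw [hoff τ hτ, zero_smul]; exact Submodule.zero_mem _
  have hint : interior (⋃ c ∈ C, ((Submodule.span ℝ (bb (l := l) '' c) : Submodule ℝ E) : Set E)) =
      ∅ := by
    apply interior_biUnion_proper
    intro c hc htop
    have hc2 := (hC c).1 hc
    have h1 : finrank ℝ (Submodule.span ℝ (bb (l := l) '' c)) ≤ c.card := by
      have := finrank_span_finset_le_card (R := ℝ) (c.image (bb (l := l)))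
      rw [Finset.coe_image] at this
      exact this.trans Finset.card_image_le
    rw [htop, finrank_top] at h1
    omega
  have hempty : Uᶜ = ∅ := by
    have : Uᶜ ⊆ interior (⋃ c ∈ C,
        ((Submodule.span ℝ (bb (l := l) '' c) : Submodule ℝ E) : Set E)) :=
      interior_maximal hsub hUc.isOpen_compl
    rw [hint] at this
    exact subset_empty_iff.1 this
  have hx : x ∈ U := by
    by_contra h
    have : x ∈ Uᶜ := h
    rw [hempty] at this
    exact this
  simp only [hU, mem_iUnion] at hx
  obtain ⟨c, hc, hx⟩ := hx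
  exact ⟨c, hc, hx⟩

/-- **FAN-EX.**  For every finite set `L` of linear forms there is a complete simplicial fan on
whose cones every form of `L` has constant sign. -/
theorem exists_fan [FiniteDimensional ℝ E] (L : Finset (E →L[ℝ] ℝ)) :
    ∃ (V : Type) (_ : Fintype V) (v : V → E) (T : Finset (Finset V)),
      (∀ c ∈ T, c.card = finrank ℝ E) ∧ (∀ x, ∃ c ∈ T, ∃ a, Rp v c a x) ∧
      (∀ c ∈ T, ∀ c' ∈ T, ∀ a a' x, Rp v c a x → Rp v c' a' x → a = a') ∧
      (∀ c ∈ T, LinearIndependent ℝ (fun i : c => v i)) ∧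
      (∀ i, v i ≠ 0) ∧
      (∀ c ∈ T, ∀ f ∈ L, (∀ i ∈ c, 0 ≤ f (v i)) ∨ (∀ i ∈ c, f (v i) ≤ 0)) := by
  set n := finrank ℝ E with hn
  let B : Basis (Fin n) ℝ E := finBasis ℝ E
  let e := L.equivFin
  let l : (Fin n ⊕ Fin L.card) → E →L[ℝ] ℝ := Sum.elim
    (fun j => LinearMap.toContinuousLinearMap (B.coord j)) (fun j => (e.symm j).1)
  have hess : ∀ x, (∀ i, l i x = 0) → x = 0 := by
    intro x hx
    apply B.ext_elem_iff.2
    intro j
    have := hx (Sum.inl j)
    simp only [l, Sum.elim_inl, LinearMap.coe_toContinuousLinearMap', Basis.coord_apply] at this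
    rw [this]; simp
  refine ⟨VV l, inferInstance, bb, TT l, fun c hc => (mem_TT.1 hc).2, cover hess, ?_,
    fun c hc => chain_linearIndependent hess (mem_TT.1 hc).1, bb_ne, ?_⟩
  · intro c hc c' hc' a a' x h h'
    exact rep_unique hess _ a a' h.nonneg h'.nonneg (chs_of_isCh (mem_TT.1 hc).1 h.off)
      (chs_of_isCh (mem_TT.1 hc').1 h'.off) (h.sum.trans h'.sum.symm) le_rfl
  · intro c hc f hf
    have hch := (mem_TT.1 hc).1
    set i : Fin n ⊕ Fin L.card := Sum.inr (e ⟨f, hf⟩) with hi
    have hli : l i = f := by simp [l, hi]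
    by_cases hex : ∃ σ ∈ c, 0 < f (bb σ)
    · left
      obtain ⟨σ, hσ, hpos⟩ := hex
      intro τ hτ
      have h1 : σ.1 i = 1 := by
        rw [← sign_bb, hli]; exact sign_pos hpos
      by_contra hneg
      push Not at hneg
      have h2 : τ.1 i = -1 := by
        rw [← sign_bb, hli]; exact sign_neg hneg
      rcases hch σ hσ τ hτ with h | h
      · rcases h i with h3 | h3
        · rw [h1] at h3; exact absurd h3 (by decide)
        · rw [h1, h2] at h3; exact absurd h3 (by decide)
      · rcases h i with h3 | h3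
        · rw [h2] at h3; exact absurd h3 (by decide)
        · rw [h1, h2] at h3; exact absurd h3 (by decide)
    · right
      push Not at hex
      exact hex

end Crest.Agent.R096.Fan_696
end

-- ▼ part R096/Fan4_696

/-!
Row 96 (S0127), helper696.  (S2)+(S3): a conic selection of finitely many linear maps is linear on
every cone of a complete simplicial fan (812's `Fan`), which in addition refines any given finite
set of linear forms.
-/

set_option autoImplicit false
set_option linter.unusedSectionVars false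
set_option linter.style.longLine false

namespace Crest.Agent.R096.Fan_696

open Set Filter Topology Module
open scoped Classical
open Crest.Agent.R096

variable {E F : Type*} [NormedAddCommGroup E] [NormedSpace ℝ E]
  [NormedAddCommGroup F] [NormedSpace ℝ F]

/-- on a preconnected set on which different maps of `S` differ everywhere, a continuous selection
of `S` is one map of `S`. -/
lemma sel_const {X Y : Type*} [TopologicalSpace X] [TopologicalSpace Y] [T2Space Y]
    {C : Set X} (hC : IsPreconnected C) {S : Finset (X → Y)} (hS : ∀ A ∈ S, Continuous A)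
    {H : X → Y} (hH : ContinuousOn H C) (hsel : ∀ x ∈ C, ∃ A ∈ S, H x = A x)
    {A : X → Y} (hA : A ∈ S) (hne : ∀ B ∈ S, (∃ x ∈ C, B x ≠ A x) → ∀ x ∈ C, B x ≠ A x)
    {x₀ : X} (hx₀ : x₀ ∈ C) (h₀ : H x₀ = A x₀) : ∀ x ∈ C, H x = A x := by
  have hpc : PreconnectedSpace C := isPreconnected_iff_preconnectedSpace.1 hC
  have hHc : Continuous (fun x : C => H x) := continuousOn_iff_continuous_domRestrict.1 hH
  -- the coincidence set is clopen in `C`
  have h1 : IsClosed {x : C | H x = A x} :=
    isClosed_eq hHc ((hS A hA).comp continuous_subtype_val)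
  set S' : Finset (X → Y) := S.filter fun B => ∃ x ∈ C, B x ≠ A x with hS'
  have h2 : {x : C | H x = A x}ᶜ = ⋃ B ∈ S', {x : C | H x = B x} := by
    ext x
    simp only [mem_compl_iff, mem_ofPred_eq, mem_iUnion]
    constructor
    · intro hx
      obtain ⟨B, hB, hHB⟩ := hsel x x.2
      refine ⟨B, ?_, hHB⟩
      rw [hS', Finset.mem_filter]
      exact ⟨hB, x, x.2, fun h => hx (hHB.trans h)⟩
    · rintro ⟨B, hB, hHB⟩ hx
      rw [hS', Finset.mem_filter] at hB
      exact hne B hB.1 hB.2 x x.2 (hHB.symm.trans hx)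
  have h3 : IsClosed ({x : C | H x = A x}ᶜ) := by
    rw [h2]
    refine Set.Finite.isClosed_biUnion (Finset.finite_toSet _) fun B hB => ?_
    have hB' : B ∈ S := (Finset.mem_filter.1 (hS' ▸ (Finset.mem_coe.1 hB))).1
    exact isClosed_eq hHc ((hS B hB').comp continuous_subtype_val)
  have h4 : IsClopen {x : C | H x = A x} := ⟨h1, isClosed_compl_iff.1 h3⟩
  have h5 := h4.eq_univ ⟨⟨x₀, hx₀⟩, h₀⟩
  intro x hx
  have : (⟨x, hx⟩ : C) ∈ {x : C | H x = A x} := by rw [h5]; trivial
  exact this

/-- finitely many linear forms which separate the maps of `S`. -/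
lemma exists_forms [FiniteDimensional ℝ F] (S : Finset (E →L[ℝ] F)) :
    ∃ L : Finset (E →L[ℝ] ℝ), ∀ A ∈ S, ∀ B ∈ S, A ≠ B →
      ∃ f ∈ L, f ≠ 0 ∧ ∀ x, A x = B x → f x = 0 := by
  let b := finBasis ℝ F
  let co : Fin (finrank ℝ F) → F →L[ℝ] ℝ := fun j => LinearMap.toContinuousLinearMap (b.coord j)
  refine ⟨(S ×ˢ S ×ˢ (Finset.univ : Finset (Fin (finrank ℝ F)))).image
    fun q => (co q.2.2).comp (q.1 - q.2.1), ?_⟩
  intro A hA B hB hAB
  have : ∃ j, (co j).comp (A - B) ≠ 0 := by
    by_contra hcon
    push Not at hcon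
    apply hAB
    ext x
    apply b.ext_elem
    intro j
    have := congrArg (fun g : E →L[ℝ] ℝ => g x) (hcon j)
    simp only [ContinuousLinearMap.comp_apply, sub_apply, map_sub, zero_apply] at this
    have h2 : b.coord j (A x) = b.coord j (B x) := sub_eq_zero.1 this
    simpa [Basis.coord_apply] using h2
  obtain ⟨j, hj⟩ := this
  refine ⟨(co j).comp (A - B), ?_, hj, ?_⟩
  · rw [Finset.mem_image]
    exact ⟨(A, B, j), by simp [hA, hB], rfl⟩
  · intro x hx
    simp [hx]

/-- **A conic selection is linear on every basis cone on which the separating forms have constant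
sign.** -/
lemma conic_linear_on_cone [FiniteDimensional ℝ E] {H : E → F} {S : Finset (E →L[ℝ] F)}
    (hH : Str_696.Conic H S) {L : Finset (E →L[ℝ] ℝ)}
    (hL : ∀ A ∈ S, ∀ B ∈ S, A ≠ B → ∃ f ∈ L, f ≠ 0 ∧ ∀ x, A x = B x → f x = 0)
    {V : Type*} [Fintype V] {v : V → E} {c : Finset V} (hcard : c.card = finrank ℝ E)
    (hli : LinearIndependent ℝ (fun i : c => v i))
    (hsign : ∀ f ∈ L, (∀ i ∈ c, 0 ≤ f (v i)) ∨ (∀ i ∈ c, f (v i) ≤ 0)) :
    ∃ A ∈ S, ∀ a x, Rp v c a x → H x = A x := by
  have hspan : Submodule.span ℝ (range fun i : c => v i) = ⊤ := by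
    by_cases hne : Nonempty c
    · have hcard' : Fintype.card c = finrank ℝ E := by simpa using hcard
      exact hli.span_eq_top_of_card_eq_finrank hcard'
    · have hc0 : c = ∅ := by
        rw [Finset.eq_empty_iff_forall_notMem]
        intro i hi; exact hne ⟨⟨i, hi⟩⟩
      have h0 : finrank ℝ E = 0 := by rw [← hcard, hc0]; rfl
      have hsub : Subsingleton E := finrank_zero_iff.1 h0
      exact Subsingleton.elim _ _
  -- a nonzero form has a nonzero value on a generator
  have hgen : ∀ f : E →L[ℝ] ℝ, f ≠ 0 → ∃ i ∈ c, f (v i) ≠ 0 := by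
    intro f hf
    by_contra hcon
    push Not at hcon
    apply hf
    have : (f : E →ₗ[ℝ] ℝ) = 0 := by
      apply LinearMap.ext_on_range hspan
      intro i
      simpa using hcon i i.2
    ext x
    exact congrArg (fun g : E →ₗ[ℝ] ℝ => g x) this
  -- open cone
  set C : Set E := {x | ∃ a, Rp v c a x ∧ ∀ i ∈ c, 0 < a i} with hC
  have hconv : Convex ℝ C := by
    rintro x ⟨a, ha, hpos⟩ y ⟨b, hb, hpos'⟩ s t hs ht hst
    refine ⟨fun i => s * a i + t * b i, ⟨?_, ?_, ?_⟩, ?_⟩
    · intro i; have := ha.nonneg i; have := hb.nonneg i; positivity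
    · intro i hi; simp [ha.off i hi, hb.off i hi]
    · simp only [add_smul, mul_smul, Finset.sum_add_distrib, ← Finset.smul_sum, ha.sum, hb.sum]
    · intro i hi
      have h1 := hpos i hi
      have h2 := hpos' i hi
      rcases hs.eq_or_lt with h | h
      · have : t = 1 := by linarith
        rw [← h, this]; simpa using h2
      · have : 0 < s * a i := mul_pos h h1
        have : 0 ≤ t * b i := mul_nonneg ht h2.le
        linarith
  -- the forms do not vanish on `C`
  have hval : ∀ f : E →L[ℝ] ℝ, ∀ a x, Rp v c a x → f x = ∑ i ∈ c, a i * f (v i) := by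
    intro f a x h
    have e1 : ∑ i ∈ c, a i * f (v i) = ∑ i, a i * f (v i) := by
      apply Finset.sum_subset (Finset.subset_univ _)
      intro i _ hi
      rw [h.off i hi, zero_mul]
    rw [e1, ← h.sum, map_sum]
    exact Finset.sum_congr rfl fun i _ => by rw [map_smul, smul_eq_mul]
  have hne : ∀ f ∈ L, f ≠ 0 → ∀ x ∈ C, f x ≠ 0 := by
    rintro f hf hf0 x ⟨a, ha, hpos⟩
    obtain ⟨i, hi, hi0⟩ := hgen f hf0
    rw [hval f a x ha]
    rcases hsign f hf with h | h
    · have : 0 < ∑ i ∈ c, a i * f (v i) := by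
        refine Finset.sum_pos' (fun j hj => mul_nonneg (hpos j hj).le (h j hj)) ⟨i, hi, ?_⟩
        exact mul_pos (hpos i hi) (lt_of_le_of_ne (h i hi) (Ne.symm hi0))
      exact this.ne'
    · have : ∑ i ∈ c, a i * f (v i) < 0 := by
        refine Finset.sum_neg' (fun j hj => mul_nonpos_of_nonneg_of_nonpos (hpos j hj).le (h j hj))
          ⟨i, hi, ?_⟩
        exact mul_neg_of_pos_of_neg (hpos i hi) (lt_of_le_of_ne (h i hi) hi0)
      exact this.ne
  -- the center
  set z : E := ∑ i ∈ c, v i with hz
  have hzC : z ∈ C := by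
    refine ⟨fun i => if i ∈ c then 1 else 0, ⟨?_, ?_, ?_⟩, ?_⟩
    · intro i; split_ifs <;> norm_num
    · intro i hi; simp [hi]
    · simp only [ite_smul, one_smul, zero_smul, Finset.sum_ite_mem, Finset.univ_inter]; rfl
    · intro i hi; simp [hi]
  obtain ⟨A, hA, hHA⟩ := hH.sel z
  refine ⟨A, hA, ?_⟩
  have hCA : ∀ x ∈ C, H x = A x := by
    have := sel_const (C := C) hconv.isPreconnected
      (S := S.image fun B : E →L[ℝ] F => (B : E → F)) (H := H) (A := A) ?_ hH.cont.continuousOn ?_
      (Finset.mem_image_of_mem _ hA) ?_ hzC hHA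
    · exact this
    · intro B hB
      obtain ⟨B', -, rfl⟩ := Finset.mem_image.1 hB
      exact B'.continuous
    · intro x _
      obtain ⟨B, hB, hHB⟩ := hH.sel x
      exact ⟨B, Finset.mem_image_of_mem _ hB, hHB⟩
    · intro B hB hex x hx heq
      obtain ⟨B', hB', rfl⟩ := Finset.mem_image.1 hB
      have hne' : B' ≠ A := by
        rintro rfl
        obtain ⟨y, -, hy⟩ := hex
        exact hy rfl
      obtain ⟨f, hf, hf0, hfz⟩ := hL B' hB' A hA hne'
      exact hne f hf hf0 x hx (hfz x heq)
  intro a x hx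
  -- limit from the open cone
  have hmem : ∀ ε : ℝ, 0 < ε → x + ε • z ∈ C := by
    intro ε hε
    refine ⟨fun i => a i + if i ∈ c then ε else 0, ⟨?_, ?_, ?_⟩, ?_⟩
    · intro i
      have := hx.nonneg i
      split_ifs <;> linarith
    · intro i hi; simp [hi, hx.off i hi]
    · simp only [add_smul, Finset.sum_add_distrib, hx.sum, ite_smul, zero_smul,
        Finset.sum_ite_mem, Finset.univ_inter, hz, Finset.smul_sum]
    · intro i hi
      have := hx.nonneg i
      simp only [hi, if_true]
      linarith
  have hlim1 : Tendsto (fun ε : ℝ => H (x + ε • z)) (𝓝[>] 0) (𝓝 (H x)) := by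
    have : Continuous fun ε : ℝ => H (x + ε • z) :=
      hH.cont.comp (continuous_const.add (continuous_id.smul continuous_const))
    have h2 := this.tendsto 0
    simp only [zero_smul, add_zero] at h2
    exact h2.mono_left nhdsWithin_le_nhds
  have hlim2 : Tendsto (fun ε : ℝ => A (x + ε • z)) (𝓝[>] 0) (𝓝 (A x)) := by
    have : Continuous fun ε : ℝ => A (x + ε • z) :=
      A.continuous.comp (continuous_const.add (continuous_id.smul continuous_const))
    have h2 := this.tendsto 0
    simp only [zero_smul, add_zero] at h2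
    exact h2.mono_left nhdsWithin_le_nhds
  refine tendsto_nhds_unique hlim1 (hlim2.congr' ?_)
  filter_upwards [self_mem_nhdsWithin] with ε hε
  exact (hCA _ (hmem ε hε)).symm

lemma rep_iff {V : Type*} [Fintype V] {v : V → E} {c : Finset V} {a : V → ℝ} {x : E} :
    Fp_812.Rep v c a x ↔ Rp v c a x :=
  ⟨fun h => ⟨h.nonneg, h.off, h.sum⟩, fun h => ⟨h.nonneg, h.off, h.sum⟩⟩

/-- **(S3) in 812's format.**  Every conic selection of finitely many linear maps is linear on the
cones of a complete simplicial fan which refines a given finite set of linear forms. -/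
theorem exists_Fan [FiniteDimensional ℝ E] [FiniteDimensional ℝ F] {H : E → F}
    {S : Finset (E →L[ℝ] F)} (hH : Str_696.Conic H S) (L : Finset (E →L[ℝ] ℝ)) :
    ∃ (V : Type) (_ : Fintype V) (Φ : Fp_812.Fan V E),
      (∀ c ∈ Φ.T, ∃ A ∈ S, ∀ a x, Fp_812.Rep Φ.v c a x → H x = A x) ∧
      (∀ c ∈ Φ.T, LinearIndependent ℝ (fun i : c => Φ.v i)) ∧
      (∀ i, Φ.v i ≠ 0) ∧
      (∀ c ∈ Φ.T, ∀ f ∈ L, (∀ i ∈ c, 0 ≤ f (Φ.v i)) ∨ (∀ i ∈ c, f (Φ.v i) ≤ 0)) := by
  obtain ⟨L', hL'⟩ := exists_forms S
  obtain ⟨V, hV, v, T, hcard, hcov, huniq, hli, hne, hsign⟩ := exists_fan (E := E) (L ∪ L')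
  refine ⟨V, hV, ⟨v, T, hcard, ?_, ?_⟩, ?_, hli, hne, ?_⟩
  · intro x
    obtain ⟨c, hc, a, ha⟩ := hcov x
    exact ⟨c, hc, a, rep_iff.2 ha⟩
  · intro c hc c' hc' a a' x h h'
    exact huniq c hc c' hc' a a' x (rep_iff.1 h) (rep_iff.1 h')
  · intro c hc
    obtain ⟨A, hA, hHA⟩ := conic_linear_on_cone hH hL' (hcard c hc) (hli c hc)
      (fun f hf => hsign c hc f (Finset.mem_union_right _ hf))
    exact ⟨A, hA, fun a x h => hHA a x (rep_iff.1 h)⟩
  · intro c hc f hf
    exact hsign c hc f (Finset.mem_union_left _ hf)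

end Crest.Agent.R096.Fan_696
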